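import Mathlib

/-!
# Adapted hyperbolic bases ("Bruhat decomposition" for an orthogonal space)

A weighted hyperbolic basis and an isotropic flag have a common adapted hyperbolic basis.
-/

namespace Crest.Agent.R172.Adapt

open Module

variable {K : Type*} [Field K] {V : Type*} [AddCommGroup V] [Module K V]
variable {ι : Type*} [Fintype ι] [DecidableEq ι]

/-- The Gram matrix of the family `b` for `B` is the permutation matrix of `inv`. -/
def Hyp (B : LinearMap.BilinForm K V) (inv : ι → ι) (b : ι → V) : Prop :=
  ∀ i j, B (b i) (b j) = if j = inv i then 1 else 0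

/-- `V_{≥ u}`. -/
def Vge (K : Type*) [Field K] {V : Type*} [AddCommGroup V] [Module K V] {ι : Type*}
    (b : ι → V) (lam : ι → ℝ) (u : ℝ) : Submodule K V :=
  Submodule.span K (b '' {i | u ≤ lam i})

theorem Hyp.linearIndependent {B : LinearMap.BilinForm K V} {inv : ι → ι} {b : ι → V}
    (hb : Hyp B inv b) (hinv : Function.Involutive inv) : LinearIndependent K b := by
  rw [Fintype.linearIndependent_iff]
  intro g hg i
  have h := congrArg (fun x => B x (b (inv i))) hg
  simp only [map_sum, map_smul, LinearMap.sum_apply, LinearMap.smul_apply, map_zero,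
    LinearMap.zero_apply, hb _ _, smul_eq_mul] at h
  rw [Finset.sum_eq_single i] at h
  · simpa using h
  · intro j _ hj
    rw [if_neg, mul_zero]
    intro h'
    exact hj (hinv.injective h').symm
  · intro h'
    exact absurd (Finset.mem_univ i) h'

/-- coefficient of a vector in a hyperbolic basis. -/
theorem Hyp.repr_eq {B : LinearMap.BilinForm K V} {inv : ι → ι} {b : Basis ι K V}
    (hb : Hyp B inv b) (hinv : Function.Involutive inv) (v : V) (i : ι) :
    b.repr v i = B v (b (inv i)) := by
  conv_rhs => rw [← b.sum_repr v]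
  simp only [map_sum, map_smul, LinearMap.sum_apply, LinearMap.smul_apply, hb _ _, smul_eq_mul]
  rw [Finset.sum_eq_single i]
  · simp
  · intro j _ hj
    rw [if_neg, mul_zero]
    intro h'
    exact hj (hinv.injective h').symm
  · intro h'
    exact absurd (Finset.mem_univ i) h'

/-- A hyperbolic family of the right size is a basis. -/
noncomputable def Hyp.toBasis {B : LinearMap.BilinForm K V} {inv : ι → ι} (b₀ : Basis ι K V)
    {b : ι → V} (hb : Hyp B inv b) (hinv : Function.Involutive inv) : Basis ι K V :=
  haveI : FiniteDimensional K V := Module.Finite.of_basis b₀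
  have hc : Fintype.card ι = finrank K V := (Module.finrank_eq_card_basis b₀).symm
  basisOfLinearIndependentOfCardEqFinrank' b (hb.linearIndependent hinv) hc

theorem Hyp.coe_toBasis {B : LinearMap.BilinForm K V} {inv : ι → ι} (b₀ : Basis ι K V)
    {b : ι → V} (hb : Hyp B inv b) (hinv : Function.Involutive inv) :
    ⇑(hb.toBasis b₀ hinv) = b := by
  simp [Hyp.toBasis]

theorem Hyp.repr_eq' {B : LinearMap.BilinForm K V} (hB : B.IsSymm) {inv : ι → ι} {b : Basis ι K V}
    (hb : Hyp B inv b) (hinv : Function.Involutive inv) (v : V) (i : ι) :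
    B (b i) v = b.repr v (inv i) := by
  rw [hb.repr_eq hinv, hinv i]
  exact (hB.eq _ _).symm ▸ rfl

theorem Hyp.norm_eq {B : LinearMap.BilinForm K V} (hB : B.IsSymm) {inv : ι → ι} {b : Basis ι K V}
    (hb : Hyp B inv b) (hinv : Function.Involutive inv) (v : V) :
    B v v = ∑ i, b.repr v i * b.repr v (inv i) := by
  conv_lhs => rw [← b.sum_repr v]
  simp only [map_sum, map_smul, LinearMap.sum_apply, LinearMap.smul_apply, smul_eq_mul]
  have h : ∀ i, B (b i) v = b.repr v (inv i) := fun i => hb.repr_eq' hB hinv v i
  have h2 : ∀ i, B (b i) (∑ j, b.repr v j • b j) = b.repr v (inv i) := by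
    intro i
    rw [b.sum_repr]; exact h i
  simp only [map_sum, map_smul, smul_eq_mul] at h2
  simp only [← h2, Finset.mul_sum]
  rw [Finset.sum_comm]
  refine Finset.sum_congr rfl fun i _ => Finset.sum_congr rfl fun j _ => ?_
  ring

/-- The lowest-weight coefficient of an isotropic vector can be taken at a non-fixed index. -/
theorem exists_low {B : LinearMap.BilinForm K V} (hB : B.IsSymm) {inv : ι → ι}
    (hinv : Function.Involutive inv) (b : Basis ι K V) (hb : Hyp B inv b) (lam : ι → ℝ)
    (hlam : ∀ i, lam (inv i) = - lam i) (hfix : ∀ i j, inv i = i → inv j = j → i = j)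
    (v : V) (hv : v ≠ 0) (hvv : B v v = 0) :
    ∃ i₀, b.repr v i₀ ≠ 0 ∧ inv i₀ ≠ i₀ ∧ ∀ i, b.repr v i ≠ 0 → lam i₀ ≤ lam i := by
  classical
  have hne : (Finset.univ.filter fun i => b.repr v i ≠ 0).Nonempty := by
    by_contra h
    rw [Finset.not_nonempty_iff_eq_empty] at h
    apply hv
    rw [← b.sum_repr v]
    refine Finset.sum_eq_zero fun i _ => ?_
    by_cases hi : b.repr v i = 0
    · rw [hi, zero_smul]
    · have : i ∈ (Finset.univ.filter fun i => b.repr v i ≠ 0) := by simp [hi]
      rw [h] at this; simp at this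
  obtain ⟨i₁, hi₁, hmin⟩ := Finset.exists_min_image _ lam hne
  simp only [Finset.mem_filter, Finset.mem_univ, true_and] at hi₁ hmin
  by_contra hcon
  push Not at hcon
  have hall : ∀ i, b.repr v i ≠ 0 → lam i = lam i₁ → inv i = i := by
    intro i hi hl
    by_contra hne'
    obtain ⟨k, hk, hk'⟩ := hcon i hi hne'
    have := hmin k hk
    linarith
  have hfi₁ : inv i₁ = i₁ := hall i₁ hi₁ rfl
  have hl0 : lam i₁ = 0 := by
    have := hlam i₁
    rw [hfi₁] at this; linarith
  rw [hb.norm_eq hB hinv, Finset.sum_eq_single i₁] at hvv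
  · rw [hfi₁] at hvv
    exact hi₁ (mul_self_eq_zero.mp hvv)
  · intro i _ hi
    by_contra hprod
    have h1 : b.repr v i ≠ 0 := left_ne_zero_of_mul hprod
    have h2 : b.repr v (inv i) ≠ 0 := right_ne_zero_of_mul hprod
    have h3 := hmin _ h1
    have h4 := hmin _ h2
    rw [hlam, hl0] at h4
    rw [hl0] at h3
    have h5 : lam i = lam i₁ := by rw [hl0]; linarith
    exact hi (hfix i i₁ (hall i h1 h5) hfi₁)
  · intro h; exact absurd (Finset.mem_univ _) h

omit [DecidableEq ι] in
theorem mem_Vge_of_repr (b : Basis ι K V) (lam : ι → ℝ) (u : ℝ) {v : V}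
    (h : ∀ i, b.repr v i ≠ 0 → u ≤ lam i) : v ∈ Vge K b lam u := by
  rw [← b.sum_repr v]
  refine Submodule.sum_mem _ fun i _ => ?_
  by_cases hi : b.repr v i = 0
  · rw [hi, zero_smul]; exact Submodule.zero_mem _
  · exact Submodule.smul_mem _ _ (Submodule.subset_span ⟨i, h i hi, rfl⟩)

theorem mem_Vge_iff (b : Basis ι K V) (lam : ι → ℝ) (u : ℝ) {v : V} :
    v ∈ Vge K b lam u ↔ ∀ i, b.repr v i ≠ 0 → u ≤ lam i := by
  refine ⟨fun hv => ?_, mem_Vge_of_repr b lam u⟩
  refine Submodule.span_induction (p := fun v _ => ∀ i, b.repr v i ≠ 0 → u ≤ lam i)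
    ?_ ?_ ?_ ?_ hv
  · rintro _ ⟨j, hj, rfl⟩ i hi
    rw [Basis.repr_self, Finsupp.single_apply] at hi
    split_ifs at hi with h
    · exact h ▸ hj
    · exact absurd rfl hi
  · intro i hi; simp at hi
  · intro x y _ _ hx hy i hi
    rw [map_add, Finsupp.add_apply] at hi
    by_cases h : b.repr x i = 0
    · rw [h, zero_add] at hi; exact hy i hi
    · exact hx i h
  · intro c x _ hx i hi
    rw [map_smul, Finsupp.smul_apply, smul_eq_mul] at hi
    exact hx i (right_ne_zero_of_mul hi)

/-- One step of the construction: an isotropic vector becomes a basis vector. -/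
theorem step {B : LinearMap.BilinForm K V} (hB : B.IsSymm) {inv : ι → ι}
    (hinv : Function.Involutive inv) (b : Basis ι K V) (hb : Hyp B inv b) (lam : ι → ℝ)
    (hlam : ∀ i, lam (inv i) = - lam i) (hfix : ∀ i j, inv i = i → inv j = j → i = j)
    (S : Set ι) (hS : ∀ i ∈ S, inv i ∈ S) (v : V) (hv : v ≠ 0) (hvv : B v v = 0)
    (hsupp : ∀ i, i ∉ S → b.repr v i = 0) :
    ∃ b' : Basis ι K V, Hyp B inv b' ∧ (∀ i, i ∉ S → b' i = b i) ∧
      (∀ i, b' i ∈ Vge K b lam (lam i)) ∧ ∃ i₀ ∈ S, inv i₀ ≠ i₀ ∧ b' i₀ = v := by
  classical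
  obtain ⟨i₀, hc, hne, hmin⟩ := exists_low hB hinv b hb lam hlam hfix v hv hvv
  have hi₀S : i₀ ∈ S := by
    by_contra h; exact hc (hsupp i₀ h)
  set c := b.repr v with hcdef
  let f : ι → V := fun i => if i = i₀ then v else if i = inv i₀ then (c i₀)⁻¹ • b (inv i₀)
    else b i - (c (inv i) * (c i₀)⁻¹) • b (inv i₀)
  have hf0 : f i₀ = v := by simp [f]
  have hf1 : f (inv i₀) = (c i₀)⁻¹ • b (inv i₀) := by simp [f, hne]
  have hf2 : ∀ i, i ≠ i₀ → i ≠ inv i₀ → f i = b i - (c (inv i) * (c i₀)⁻¹) • b (inv i₀) := by
    intro i h1 h2; simp [f, h1, h2]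
  have hbv : ∀ i, B (b i) v = c (inv i) := fun i => hb.repr_eq' hB hinv v i
  have hvb : ∀ i, B v (b i) = c (inv i) := fun i => by rw [← hbv]; exact hB.eq _ _ |>.symm ▸ rfl
  have hbb0 : ∀ i, B (b i) (b (inv i₀)) = if i = i₀ then 1 else 0 := by
    intro i
    rw [hb i]
    by_cases h : i = i₀
    · simp [h]
    · rw [if_neg h, if_neg]
      intro h'; exact h (hinv.injective h').symm
  have hb0b : ∀ i, B (b (inv i₀)) (b i) = if i = i₀ then 1 else 0 := by
    intro i
    rw [hb]
    simp [hinv i₀]
  have hHyp : Hyp B inv f := by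
    intro i j
    by_cases hi : i = i₀
    · subst hi
      by_cases hj : j = i
      · subst hj
        rw [hf0, hvv, if_neg]
        exact fun h => hne h.symm
      · by_cases hj2 : j = inv i
        · subst hj2
          rw [hf0, hf1, map_smul, hvb, hinv i, smul_eq_mul, inv_mul_cancel₀ hc]; simp
        · rw [hf0, hf2 j hj hj2, map_sub, map_smul, hvb, hvb, hinv i, if_neg hj2, smul_eq_mul,
            mul_assoc, inv_mul_cancel₀ hc]; ring
    · by_cases hi2 : i = inv i₀
      · subst hi2
        rw [hinv i₀]
        by_cases hj : j = i₀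
        · subst hj
          rw [hf0, hf1, map_smul, LinearMap.smul_apply, hbv, hinv, smul_eq_mul,
            inv_mul_cancel₀ hc]; simp
        · by_cases hj2 : j = inv i₀
          · subst hj2
            rw [hf1, map_smul, map_smul, LinearMap.smul_apply, hb0b, if_neg hne]; simp
          · rw [hf1, hf2 j hj hj2, map_smul, LinearMap.smul_apply, map_sub, map_smul, hb0b, hb0b,
              if_neg hj, if_neg hne]; simp
      · have hinvi : inv i ≠ i₀ := fun h => hi2 (by rw [← h, hinv i])
        have hinvi2 : inv i ≠ inv i₀ := fun h => hi (hinv.injective h)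
        by_cases hj : j = i₀
        · subst hj
          rw [hf0, hf2 i hi hi2, map_sub, map_smul, LinearMap.sub_apply, LinearMap.smul_apply,
            hbv, hbv, hinv, if_neg (fun h => hinvi h.symm), smul_eq_mul, mul_assoc,
            inv_mul_cancel₀ hc]; ring
        · by_cases hj2 : j = inv i₀
          · subst hj2
            rw [hf1, hf2 i hi hi2, map_smul, map_sub, map_smul, LinearMap.sub_apply,
              LinearMap.smul_apply, hbb0, hbb0, if_neg hi, if_neg hne,
              if_neg (fun h => hinvi2 h.symm)]; simp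
          · rw [hf2 i hi hi2, hf2 j hj hj2]
            simp only [map_sub, map_smul, LinearMap.sub_apply, LinearMap.smul_apply, hbb0, hb0b,
              if_neg hi, if_neg hj, if_neg hne, smul_eq_mul, mul_zero, sub_zero]
            exact hb i j
  refine ⟨hHyp.toBasis b hinv, ?_, ?_, ?_, i₀, hi₀S, hne, ?_⟩
  · rw [Hyp.coe_toBasis]; exact hHyp
  · intro i hi
    rw [Hyp.coe_toBasis]
    have h1 : i ≠ i₀ := fun h => hi (h ▸ hi₀S)
    have h2 : i ≠ inv i₀ := fun h => hi (h ▸ hS _ hi₀S)
    rw [hf2 i h1 h2, hsupp (inv i), zero_mul, zero_smul, sub_zero]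
    intro h; exact hi (by simpa [hinv i] using hS _ h)
  · intro i
    rw [Hyp.coe_toBasis]
    have hself : ∀ i, b i ∈ Vge K b lam (lam i) := fun i =>
      Submodule.subset_span ⟨i, le_refl (lam i), rfl⟩
    by_cases h1 : i = i₀
    · subst h1
      rw [hf0]
      exact mem_Vge_of_repr b lam _ hmin
    · by_cases h2 : i = inv i₀
      · subst h2
        rw [hf1]
        exact Submodule.smul_mem _ _ (hself _)
      · rw [hf2 i h1 h2]
        refine Submodule.sub_mem _ (hself i) ?_
        by_cases h3 : c (inv i) = 0
        · rw [h3, zero_mul, zero_smul]; exact Submodule.zero_mem _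
        · refine Submodule.smul_mem _ _ (Submodule.subset_span ⟨inv i₀, ?_, rfl⟩)
          have := hmin _ h3
          rw [hlam] at this
          show lam i ≤ lam (inv i₀)
          rw [hlam]; linarith
  · rw [Hyp.coe_toBasis, hf0]

omit [Fintype ι] [DecidableEq ι] in
theorem Vge_anti (b : ι → V) (lam : ι → ℝ) {u u' : ℝ} (h : u ≤ u') :
    Vge K b lam u' ≤ Vge K b lam u :=
  Submodule.span_mono (Set.image_mono fun _ hi => le_trans h hi)

omit [Fintype ι] [DecidableEq ι] in
theorem Vge_le_of_mem {b e : ι → V} (lam : ι → ℝ) (h : ∀ i, b i ∈ Vge K e lam (lam i)) (u : ℝ) :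
    Vge K b lam u ≤ Vge K e lam u := by
  refine Submodule.span_le.mpr ?_
  rintro _ ⟨i, hi, rfl⟩
  exact Vge_anti e lam hi (h i)

/-- **Adapted basis** ("Bruhat decomposition"): an isotropic flag `span (v 0 .. v (a-1))`, `a ≤ r`,
and the filtration of a weighted hyperbolic basis `e` have a common adapted hyperbolic basis. -/
theorem exists_adapted [Nonempty ι] {B : LinearMap.BilinForm K V} (hB : B.IsSymm) {inv : ι → ι}
    (hinv : Function.Involutive inv) (e : Basis ι K V) (he : Hyp B inv e) (lam : ι → ℝ)
    (hlam : ∀ i, lam (inv i) = - lam i) (hfix : ∀ i j, inv i = i → inv j = j → i = j)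
    (v : ℕ → V) (r : ℕ) (hli : ∀ a < r, v a ∉ Submodule.span K (v '' Set.Iio a))
    (hiso : ∀ a < r, ∀ c < r, B (v a) (v c) = 0) :
    ∃ b : Basis ι K V, Hyp B inv b ∧ (∀ i, b i ∈ Vge K e lam (lam i)) ∧
      ∃ j : ℕ → ι, (∀ a < r, ∀ c < r, j a ≠ inv (j c)) ∧ (∀ a < r, ∀ c < r, j a = j c → a = c) ∧
        ∀ a ≤ r, Submodule.span K (v '' Set.Iio a)
          = Submodule.span K ((fun x => b (j x)) '' Set.Iio a) := by
  classical
  induction r with
  | zero =>
    have hne : (∀ i, e i ∈ Vge K e lam (lam i)) := fun i =>
      Submodule.subset_span ⟨i, le_refl (lam i), rfl⟩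
    refine ⟨e, he, hne, fun _ => Classical.arbitrary ι, fun a ha => absurd ha (by omega),
        fun a ha => absurd ha (by omega), ?_⟩
    intro a ha
    have : a = 0 := by omega
    subst this
    simp
  | succ r ih =>
    obtain ⟨b, hb, hbe, j, hj1, hj2, hspan⟩ := ih (fun a ha => hli a (by omega))
      (fun a ha c hc => hiso a (by omega) c (by omega))
    set S : Set ι := {i | ∀ a < r, i ≠ j a ∧ i ≠ inv (j a)} with hS
    set c := b.repr (v r) with hcdef
    set s : V := ∑ a ∈ Finset.range r, c (j a) • b (j a) with hs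
    have hsmem : s ∈ Submodule.span K ((fun x => b (j x)) '' Set.Iio r) :=
      Submodule.sum_mem _ fun a ha => Submodule.smul_mem _ _
        (Submodule.subset_span ⟨a, by simpa using ha, rfl⟩)
    have hperp : ∀ x ∈ Submodule.span K (v '' Set.Iio r), B x (v r) = 0 := by
      intro x hx
      refine Submodule.span_induction (p := fun x _ => B x (v r) = 0) ?_ ?_ ?_ ?_ hx
      · rintro _ ⟨a, ha, rfl⟩
        exact hiso a (by have : a < r := ha; omega) r (by omega)
      · simp
      · intro x y _ _ hx hy; rw [map_add, LinearMap.add_apply, hx, hy, add_zero]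
      · intro t x _ hx; rw [map_smul, LinearMap.smul_apply, hx, smul_zero]
    have hss : B s (v r) = 0 := hperp s (by rw [hspan r le_rfl]; exact hsmem)
    have hbj : ∀ a < r, b (j a) ∈ Submodule.span K (v '' Set.Iio r) := by
      intro a ha
      rw [hspan r le_rfl]
      exact Submodule.subset_span ⟨a, ha, rfl⟩
    have hbjs : ∀ x ∈ Submodule.span K (v '' Set.Iio r), ∀ y ∈ Submodule.span K (v '' Set.Iio r),
        B x y = 0 := by
      intro x hx y hy
      refine Submodule.span_induction (p := fun x _ => B x y = 0) ?_ ?_ ?_ ?_ hx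
      · rintro _ ⟨a, ha, rfl⟩
        refine Submodule.span_induction (p := fun y _ => B (v a) y = 0) ?_ ?_ ?_ ?_ hy
        · rintro _ ⟨a', ha', rfl⟩
          exact hiso a (by have : a < r := ha; omega) a' (by have : a' < r := ha'; omega)
        · simp
        · intro x y _ _ hx hy; rw [map_add, hx, hy, add_zero]
        · intro t x _ hx; rw [map_smul, hx, smul_zero]
      · simp
      · intro x y _ _ hx hy; rw [map_add, LinearMap.add_apply, hx, hy, add_zero]
      · intro t x _ hx; rw [map_smul, LinearMap.smul_apply, hx, smul_zero]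
    set v' : V := v r - s with hv'
    have hv'0 : v' ≠ 0 := by
      intro h
      apply hli r (by omega)
      rw [sub_eq_zero] at h
      rw [h, hspan r le_rfl]; exact hsmem
    have hv'v' : B v' v' = 0 := by
      have h1 : B (v r) (v r) = 0 := hiso r (by omega) r (by omega)
      have h2 : B (v r) s = 0 := by rw [← hss]; exact hB.eq _ _
      have h3 : B s s = 0 := hbjs s (by rw [hspan r le_rfl]; exact hsmem) s
        (by rw [hspan r le_rfl]; exact hsmem)
      rw [hv']
      simp only [map_sub, LinearMap.sub_apply, h1, h2, h3, hss]; ring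
    have hrs : ∀ i, b.repr s i = ∑ a ∈ Finset.range r, c (j a) * (if j a = i then 1 else 0) := by
      intro i
      simp only [hs, map_sum, map_smul, Basis.repr_self, Finsupp.coe_finsetSum, Finset.sum_apply,
        Finsupp.smul_apply, smul_eq_mul, Finsupp.single_apply]
    have hsupp : ∀ i, i ∉ S → b.repr v' i = 0 := by
      intro i hi
      have : ∃ a < r, i = j a ∨ i = inv (j a) := by
        by_contra hcon
        push Not at hcon
        exact hi fun a ha => hcon a ha
      obtain ⟨a, ha, h | h⟩ := this
      · subst h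
        rw [hv', map_sub, Finsupp.sub_apply, hrs, Finset.sum_eq_single a]
        · simp [c]
        · intro a' ha' hne
          rw [if_neg, mul_zero]
          intro h; exact hne (hj2 a' (by simpa using ha') a ha h)
        · intro h; exact absurd (Finset.mem_range.mpr ha) h
      · subst h
        rw [hv', map_sub, Finsupp.sub_apply, hrs, Finset.sum_eq_zero, sub_zero]
        · rw [← hb.repr_eq' hB hinv]
          exact hperp _ (hbj a ha)
        · intro a' ha'
          rw [if_neg, mul_zero]
          exact hj1 a' (by simpa using ha') a ha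
    obtain ⟨b', hb', hbS, hb'ge, i₀, hi₀S, hi₀ne, hb'i₀⟩ := step hB hinv b hb lam hlam hfix S
      (by
        intro i hi a ha
        refine ⟨fun h => (hi a ha).2 ?_, fun h => (hi a ha).1 (hinv.injective h)⟩
        rw [← h, hinv i]) v' hv'0 hv'v' hsupp
    have hjS : ∀ a < r, j a ∉ S := fun a ha h => (h a ha).1 rfl
    have hb'j : ∀ a < r, b' (j a) = b (j a) := fun a ha => hbS _ (hjS a ha)
    refine ⟨b', hb', fun i => Vge_le_of_mem lam hbe _ (hb'ge i), fun a => if a = r then i₀ else j a,
      ?_, ?_, ?_⟩
    · intro a ha a' ha'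
      by_cases h : a = r <;> by_cases h' : a' = r
      · simp only [h, h', if_true]; exact fun h => hi₀ne h.symm
      · simp only [h, if_true, if_neg h']
        exact (hi₀S a' (by omega)).2
      · simp only [h', if_true, if_neg h]
        intro h2
        apply (hi₀S a (by omega)).2
        rw [h2, hinv]
      · simp only [if_neg h, if_neg h']
        exact hj1 a (by omega) a' (by omega)
    · intro a ha a' ha'
      by_cases h : a = r <;> by_cases h' : a' = r
      · intro _; rw [h, h']
      · simp only [h, if_true, if_neg h']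
        intro h2; exact absurd h2 (hi₀S a' (by omega)).1
      · simp only [h', if_true, if_neg h]
        intro h2; exact absurd h2.symm (hi₀S a (by omega)).1
      · simp only [if_neg h, if_neg h']
        exact hj2 a (by omega) a' (by omega)
    · have hcase : ∀ a ≤ r, Submodule.span K (v '' Set.Iio a)
          = Submodule.span K ((fun x => b' (if x = r then i₀ else j x)) '' Set.Iio a) := by
        intro a ha
        rw [hspan a ha]
        congr 1
        refine Set.image_congr fun x hx => ?_
        have hx' : x < r := lt_of_lt_of_le hx ha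
        show b (j x) = b' (if x = r then i₀ else j x)
        rw [if_neg (by omega), hb'j x hx']
      intro a ha
      rcases Nat.lt_or_ge r a with h | h
      · have : a = r + 1 := by omega
        subst this
        have hIio : Set.Iio (r + 1) = insert r (Set.Iio r) := by
          ext x; simp only [Set.mem_Iio, Set.mem_insert_iff]; omega
        rw [hIio, Set.image_insert_eq, Set.image_insert_eq, Submodule.span_insert,
          Submodule.span_insert, hcase r le_rfl]
        simp only [if_true, hb'i₀]
        have hsm : s ∈ Submodule.span K ((fun x => b' (if x = r then i₀ else j x)) '' Set.Iio r) := by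
          rw [← hcase r le_rfl, hspan r le_rfl]; exact hsmem
        apply le_antisymm
        · refine sup_le ?_ le_sup_right
          rw [Submodule.span_singleton_le_iff_mem]
          have : v r = v' + s := by rw [hv']; abel
          rw [this]
          exact Submodule.add_mem _ (Submodule.mem_sup_left (Submodule.mem_span_singleton_self _))
            (Submodule.mem_sup_right hsm)
        · refine sup_le ?_ le_sup_right
          rw [Submodule.span_singleton_le_iff_mem]
          rw [hv']
          exact Submodule.sub_mem _ (Submodule.mem_sup_left (Submodule.mem_span_singleton_self _))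
            (Submodule.mem_sup_right hsm)
      · exact hcase a h

end Crest.Agent.R172.Adapt
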