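import Crest.Agent.R172.TameCount1

/-!
Row 172 (S0260), TAME: skew operators which anticommute with all `Φ_s`, types `(2,4,4)`, `(2,3,6)`
(notes 15119 (A), 15520 (2)).
-/

set_option autoImplicit false
set_option linter.unusedSectionVars false

namespace Crest.Agent.R172.Anti

open Module LinearMap
open Crest.Agent.R172.Core (NS)
open Crest.Agent.R172.TC (exists_adapted card_lt_pairs)

variable {K : Type*} [Field K] {V : Type*} [AddCommGroup V] [Module K V]

section square

/-- the square trick -/
theorem square {S : Type*} [AddCommGroup S] [Module K S] [FiniteDimensional K S]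
    (T : LinearMap.BilinForm K S) (hT : T.Nondegenerate) (a : Fin 3 → End K S)
    (hself : ∀ s x y, T (a s x) y = T x (a s y)) (hsum : ∀ x, ∑ s, a s x = 0) :
    2 * finrank K S ≤ ∑ s, finrank K (range (a s)) + 2 * finrank K (⨅ s, ker (a s) : Submodule K S) := by
  classical
  let L : S →ₗ[K] (∀ s, range (a s)) := LinearMap.pi fun s => (a s).rangeRestrict
  let P : (∀ s, range (a s)) →ₗ[K] S := ∑ s, (range (a s)).subtype ∘ₗ LinearMap.proj s
  have hP : ∀ y, P y = ∑ s, (y s : S) := by
    intro y
    simp only [P, LinearMap.sum_apply, LinearMap.comp_apply, LinearMap.proj_apply,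
      Submodule.subtype_apply]
  have hPL : ∀ x, P (L x) = 0 := by
    intro x
    rw [hP]
    exact hsum x
  have hkL : ker L = ⨅ s, ker (a s) := by
    ext x
    simp only [Submodule.mem_iInf, LinearMap.mem_ker]
    constructor
    · intro h s
      have := congrFun h s
      exact congrArg Subtype.val this
    · intro h
      funext s
      exact Subtype.ext (h s)
  have h1 : finrank K (range L) ≤ finrank K (ker P) := by
    apply Submodule.finrank_mono
    rintro _ ⟨x, rfl⟩
    exact hPL x
  have h2 := LinearMap.finrank_range_add_finrank_ker L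
  have h3 := LinearMap.finrank_range_add_finrank_ker P
  have h4 : finrank K (∀ s, range (a s)) = ∑ s, finrank K (range (a s)) :=
    Module.finrank_pi_fintype K
  have h5 : T.orthogonal (range P) ≤ ⨅ s, ker (a s) := by
    intro y hy
    rw [Submodule.mem_iInf]
    intro s
    rw [LinearMap.mem_ker]
    apply (show ∀ v, (∀ w, T w v = 0) → v = 0 from hT.2)
    intro x
    rw [← hself]
    apply hy
    refine ⟨Pi.single s ⟨a s x, x, rfl⟩, ?_⟩
    rw [hP, Finset.sum_eq_single s]
    · rw [Pi.single_eq_same]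
    · intro t _ ht
      rw [Pi.single_eq_of_ne ht]
      rfl
    · intro h
      exact absurd (Finset.mem_univ s) h
  have h6 := Submodule.finrank_mono (R := K) h5
  have h7 := LinearMap.BilinForm.finrank_orthogonal hT (range P)
  have h8 := Submodule.finrank_le (range P)
  rw [hkL] at h2
  omega

end square

section ops

/-- skew operators -/
def Sk (B : LinearMap.BilinForm K V) : Submodule K (End K V) where
  carrier := {X | ∀ v w, B (X v) w = - B v (X w)}
  add_mem' := by
    intro a b ha hb v w
    rw [LinearMap.add_apply, LinearMap.add_apply, map_add, map_add, LinearMap.add_apply, ha, hb]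
    ring
  zero_mem' := by intro v w; simp
  smul_mem' := by
    intro c a ha v w
    rw [LinearMap.smul_apply, LinearMap.smul_apply, map_smul, map_smul, LinearMap.smul_apply, ha]
    simp

variable [FiniteDimensional K V] {B : LinearMap.BilinForm K V}

/-- the trace form on skew operators -/
noncomputable def TF (B : LinearMap.BilinForm K V) : LinearMap.BilinForm K (Sk B) :=
  LinearMap.mk₂ K (fun X Y => LinearMap.trace K V (X.1 * Y.1))
    (by intro a b c; simp [add_mul]) (by intro a b c; simp)
    (by intro a b c; simp [mul_add]) (by intro a b c; simp)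

theorem TF_apply (X Y : Sk B) : TF B X Y = LinearMap.trace K V (X.1 * Y.1) := rfl

theorem TF_symm (X Y : Sk B) : TF B X Y = TF B Y X := by
  rw [TF_apply, TF_apply]
  exact LinearMap.trace_mul_comm K _ _

/-- wedge -/
noncomputable def wd (B : LinearMap.BilinForm K V) (v w : V) : End K V :=
  LinearMap.smulRight (B w) v - LinearMap.smulRight (B v) w

theorem wd_mem (hB : NS B) (v w : V) : wd B v w ∈ Sk B := by
  intro x y
  simp only [wd, LinearMap.sub_apply, LinearMap.smulRight_apply, map_sub, map_smul,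
    LinearMap.smul_apply, smul_eq_mul]
  rw [hB.symm x v, hB.symm x w]
  ring

theorem TF_wd (hB : NS B) (X : Sk B) (v w : V) :
    TF B X ⟨wd B v w, wd_mem hB v w⟩ = 2 * B w (X.1 v) := by
  rw [TF_apply]
  have e1 : X.1 * wd B v w = LinearMap.smulRight (B w) (X.1 v) - LinearMap.smulRight (B v) (X.1 w) := by
    ext x
    simp [wd, Module.End.mul_apply]
  rw [e1, map_sub, LinearMap.trace_smulRight, LinearMap.trace_smulRight]
  have h1 := X.2 v w
  rw [hB.symm] at h1
  rw [h1]
  have h2 : B v (X.1 w) = - B w (X.1 v) := by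
    rw [h1, neg_neg]
  rw [h2]
  ring

theorem TF_nondeg [CharZero K] (hB : NS B) : (TF B).Nondegenerate := by
  have key : ∀ X : Sk B, (∀ Y, TF B X Y = 0) → X = 0 := by
    intro X hX
    apply Subtype.ext
    ext v
    change X.1 v = 0
    apply hB.nd
    intro w
    have h1 := hX ⟨wd B v w, wd_mem hB v w⟩
    rw [TF_wd hB] at h1
    rw [hB.symm]
    simpa using h1
  refine ⟨key, fun Y hY => key Y fun X => ?_⟩
  rw [TF_symm]
  exact hY X

/-- `X ↦ X Φ + Φ X` on skew operators, `Φ` selfadjoint -/
noncomputable def ac (B : LinearMap.BilinForm K V) {Φ : End K V}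
    (hΦ : ∀ v w, B (Φ v) w = B v (Φ w)) : End K (Sk B) where
  toFun X := ⟨X.1 * Φ + Φ * X.1, by
    intro v w
    simp only [LinearMap.add_apply, Module.End.mul_apply, map_add]
    have h1 := X.2 (Φ v) w
    have h2 := hΦ (X.1 v) w
    have h3 := X.2 v (Φ w)
    have h4 := hΦ v (X.1 w)
    rw [h1, h2, h3, h4]
    ring⟩
  map_add' X Y := by
    apply Subtype.ext
    simp only [Submodule.coe_add, add_mul, mul_add]
    abel
  map_smul' c X := by
    apply Subtype.ext
    simp [smul_add]

theorem ac_self {Φ : End K V} (hΦ : ∀ v w, B (Φ v) w = B v (Φ w)) (X Y : Sk B) :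
    TF B (ac B hΦ X) Y = TF B X (ac B hΦ Y) := by
  rw [TF_apply, TF_apply]
  change LinearMap.trace K V ((X.1 * Φ + Φ * X.1) * Y.1) =
    LinearMap.trace K V (X.1 * (Y.1 * Φ + Φ * Y.1))
  rw [add_mul, mul_add, map_add, map_add, add_comm]
  congr 1
  rw [mul_assoc, LinearMap.trace_mul_comm, mul_assoc]

end ops

section params

/-- parameters of skew operators anticommuting with a free nilpotent operator -/
abbrev PP (l m : ℕ) : Type :=
  {p : Fin l × (Fin m × Fin m) // ((p.1 : ℕ) % 2 = 0 ∧ p.2.1 < p.2.2) ∨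
    ((p.1 : ℕ) % 2 = 1 ∧ p.2.1 ≤ p.2.2)}

theorem sum_parity (A A' l : ℕ) :
    ∑ n ∈ Finset.range l, (if n % 2 = 0 then A else A') = ((l + 1) / 2) * A + (l / 2) * A' := by
  induction l with
  | zero => simp
  | succ l ih =>
    rw [Finset.sum_range_succ, ih]
    rcases Nat.even_or_odd' l with ⟨k, rfl | rfl⟩
    · have e1 : (2 * k) % 2 = 0 := by omega
      have e2 : (2 * k + 1) / 2 = k := by omega
      have e3 : (2 * k) / 2 = k := by omega
      have e4 : (2 * k + 1 + 1) / 2 = k + 1 := by omega
      rw [if_pos e1, e2, e3, e4]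
      ring
    · have e1 : ¬ (2 * k + 1) % 2 = 0 := by omega
      have e2 : (2 * k + 1) / 2 = k := by omega
      have e4 : (2 * k + 1 + 1) / 2 = k + 1 := by omega
      have e5 : (2 * k + 1 + 1 + 1) / 2 = k + 1 := by omega
      rw [if_neg e1, e2, e4, e5]
      ring

theorem card_le_pairs (m : ℕ) :
    2 * (Finset.univ.filter fun p : Fin m × Fin m => p.1 ≤ p.2).card = m * m + m := by
  classical
  have h1 := card_lt_pairs m
  rw [Fintype.card_subtype] at h1
  have h2 : (Finset.univ.filter fun p : Fin m × Fin m => p.1 ≤ p.2) =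
      (Finset.univ.filter fun p : Fin m × Fin m => p.1 < p.2) ∪
        (Finset.univ.image fun a : Fin m => (a, a)) := by
    ext p
    simp only [Finset.mem_filter, Finset.mem_univ, true_and, Finset.mem_union, Finset.mem_image]
    constructor
    · intro h
      rcases lt_or_eq_of_le h with h | h
      · exact Or.inl h
      · exact Or.inr ⟨p.1, Prod.ext rfl h⟩
    · rintro (h | ⟨a, rfl⟩)
      · exact h.le
      · exact le_rfl
  have h3 : Disjoint (Finset.univ.filter fun p : Fin m × Fin m => p.1 < p.2)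
      (Finset.univ.image fun a : Fin m => (a, a)) := by
    rw [Finset.disjoint_left]
    intro p hp hq
    simp only [Finset.mem_filter, Finset.mem_univ, true_and, Finset.mem_image] at hp hq
    obtain ⟨a, rfl⟩ := hq
    exact lt_irrefl _ hp
  rw [h2, Finset.card_union_of_disjoint h3, Finset.card_image_of_injective _
    (fun x y h => (Prod.ext_iff.1 h).1), Finset.card_univ, Fintype.card_fin, mul_add, h1]
  rcases m with _ | m
  · simp
  · simp only [Nat.add_sub_cancel]
    ring

theorem card_PP (l m : ℕ) :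
    2 * Fintype.card (PP l m) + ((l + 1) / 2) * m = (l / 2) * m + l * (m * m) := by
  classical
  set A := (Finset.univ.filter fun p : Fin m × Fin m => p.1 < p.2).card with hA
  set A' := (Finset.univ.filter fun p : Fin m × Fin m => p.1 ≤ p.2).card with hA'
  have h1 : Fintype.card (PP l m) = ((l + 1) / 2) * A + (l / 2) * A' := by
    rw [← sum_parity, ← Fin.sum_univ_eq_sum_range (fun n => if n % 2 = 0 then A else A') l,
      Fintype.card_subtype, Finset.card_filter, Fintype.sum_prod_type]
    refine Finset.sum_congr rfl fun n _ => ?_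
    by_cases hn : (n : ℕ) % 2 = 0
    · rw [if_pos hn, hA, Finset.card_filter]
      refine Finset.sum_congr rfl fun p _ => ?_
      have : ¬ (n : ℕ) % 2 = 1 := by omega
      simp [hn]
    · rw [if_neg hn, hA', Finset.card_filter]
      refine Finset.sum_congr rfl fun p _ => ?_
      have h1 : (n : ℕ) % 2 = 1 := by omega
      simp [h1]
  have h2 : 2 * A' = m * m + m := card_le_pairs m
  have h3 : 2 * A = m * (m - 1) := by
    have := card_lt_pairs m
    rwa [Fintype.card_subtype] at this
  have h4 : 2 * A + m = m * m := by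
    rw [h3]
    rcases m with _ | m
    · simp
    · simp only [Nat.add_sub_cancel]
      ring
  have h5 : (l + 1) / 2 + l / 2 = l := by omega
  rw [h1]
  calc 2 * (((l + 1) / 2) * A + (l / 2) * A') + ((l + 1) / 2) * m
      = ((l + 1) / 2) * (2 * A + m) + (l / 2) * (2 * A') := by ring
    _ = ((l + 1) / 2) * (m * m) + (l / 2) * (m * m + m) := by rw [h4, h2]
    _ = (l / 2) * m + ((l + 1) / 2 + l / 2) * (m * m) := by ring
    _ = (l / 2) * m + l * (m * m) := by rw [h5]

/-- the coefficients `g_n(a,b)` -/
noncomputable def GG {l m : ℕ} (c : PP l m → K) (n : Fin l) (a b : Fin m) : K := by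
  classical
  exact
  if h : ((n : ℕ) % 2 = 0 ∧ a < b) ∨ ((n : ℕ) % 2 = 1 ∧ a ≤ b) then c ⟨(n, (a, b)), h⟩ else
  if h : ((n : ℕ) % 2 = 0 ∧ b < a) ∨ ((n : ℕ) % 2 = 1 ∧ b ≤ a) then
    - (-1) ^ (n : ℕ) * c ⟨(n, (b, a)), h⟩ else 0

theorem GG_symm {l m : ℕ} (c : PP l m → K) (n : Fin l) (a b : Fin m) :
    GG c n b a = - (-1) ^ (n : ℕ) * GG c n a b := by
  classical
  rcases Nat.mod_two_eq_zero_or_one (n : ℕ) with hn | hn
  · have e1 : (-1 : K) ^ (n : ℕ) = 1 := Even.neg_one_pow (Nat.even_iff.2 hn)
    rcases lt_trichotomy a b with h | h | h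
    · have h' := not_lt_of_gt h
      simp [GG, hn, h, h']
    · subst h
      simp [GG, hn]
    · have h' := not_lt_of_gt h
      simp [GG, hn, h, h', e1]
  · have e1 : (-1 : K) ^ (n : ℕ) = -1 := Odd.neg_one_pow (Nat.odd_iff.2 hn)
    rcases lt_trichotomy a b with h | h | h
    · have h' := not_le_of_gt h
      simp [GG, hn, h.le, h', e1]
    · subst h
      simp [GG, hn, e1]
    · have h' := not_le_of_gt h
      simp [GG, hn, h.le, h', e1]

theorem GG_add {l m : ℕ} (c c' : PP l m → K) (n : Fin l) (a b : Fin m) :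
    GG (c + c') n a b = GG c n a b + GG c' n a b := by
  classical
  simp only [GG]
  split_ifs
  · rfl
  · simp only [Pi.add_apply]; ring
  · ring

theorem GG_smul {l m : ℕ} (x : K) (c : PP l m → K) (n : Fin l) (a b : Fin m) :
    GG (x • c) n a b = x * GG c n a b := by
  classical
  simp only [GG]
  split_ifs
  · rfl
  · simp only [Pi.smul_apply, smul_eq_mul]; ring
  · ring

/-- the Gram matrix -/
noncomputable def MM {l m : ℕ} (c : PP l m → K) : Matrix (Fin l × Fin m) (Fin l × Fin m) K :=
  Matrix.of fun p q => if h : (p.1 : ℕ) + q.1 < l then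
    (-1) ^ (q.1 : ℕ) * GG c ⟨p.1 + q.1, h⟩ p.2 q.2 else 0

theorem MM_apply {l m : ℕ} (c : PP l m → K) (p q : Fin l × Fin m) :
    MM c p q = if h : (p.1 : ℕ) + q.1 < l then
    (-1) ^ (q.1 : ℕ) * GG c ⟨p.1 + q.1, h⟩ p.2 q.2 else 0 := rfl

theorem MM_skew {l m : ℕ} (c : PP l m → K) (p q : Fin l × Fin m) : MM c q p = - MM c p q := by
  rw [MM_apply, MM_apply]
  by_cases h : (p.1 : ℕ) + q.1 < l
  · have h' : (q.1 : ℕ) + p.1 < l := by omega
    rw [dif_pos h, dif_pos h']
    have e1 : (⟨(q.1 : ℕ) + p.1, h'⟩ : Fin l) = ⟨p.1 + q.1, h⟩ := Fin.ext (Nat.add_comm _ _)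
    rw [e1, GG_symm]
    have e2 : (-1 : K) ^ (p.1 : ℕ) * (-1) ^ ((p.1 : ℕ) + q.1) = (-1) ^ (q.1 : ℕ) := by
      rw [← pow_add, show (p.1 : ℕ) + (p.1 + q.1) = 2 * p.1 + q.1 by ring, pow_add, pow_mul]
      simp
    change (-1 : K) ^ (p.1 : ℕ) * (- (-1) ^ ((p.1 : ℕ) + q.1) * _) = _
    rw [← e2]
    ring
  · have h' : ¬ (q.1 : ℕ) + p.1 < l := by omega
    rw [dif_neg h, dif_neg h', neg_zero]

theorem MM_inj {l m : ℕ} {c : PP l m → K} (h : ∀ p q, MM c p q = 0) : c = 0 := by
  classical
  funext p
  obtain ⟨⟨n, a, b⟩, hp⟩ := p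
  have hl : 0 < l := lt_of_le_of_lt (Nat.zero_le _) n.2
  have h1 := h (n, a) (⟨0, hl⟩, b)
  rw [MM_apply, dif_pos (by simp)] at h1
  simp only [pow_zero, one_mul, add_zero, Fin.eta] at h1
  rw [GG, dif_pos hp] at h1
  exact h1

end params

section lower

variable [FiniteDimensional K V] {B : LinearMap.BilinForm K V}

/-- the operator of a form -/
noncomputable def op (hB : NS B) (ω : V →ₗ[K] V →ₗ[K] K) : End K V :=
  (B.toDual hB.nondeg).symm.toLinearMap ∘ₗ ω

theorem op_apply (hB : NS B) (ω : V →ₗ[K] V →ₗ[K] K) (v w : V) : B (op hB ω v) w = ω v w := by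
  rw [op, LinearMap.comp_apply]
  exact LinearMap.BilinForm.apply_toDual_symm_apply _ _

/-- lower bound for the space of skew operators anticommuting with a free nilpotent operator -/
theorem le_finrank_ac (hB : NS B) {Φ : End K V} (hΦ : ∀ v w, B (Φ v) w = B v (Φ w)) {l : ℕ}
    (hl : Φ ^ l = 0) (hfree : l * finrank K (ker Φ) = finrank K V) :
    Fintype.card (PP l (finrank K (ker Φ))) ≤ finrank K (ker (ac B hΦ)) := by
  classical
  obtain ⟨e, b, hb⟩ := exists_adapted hl hfree
  let om : (PP l (finrank K (ker Φ)) → K) → (V →ₗ[K] V →ₗ[K] K) := fun c => Matrix.toLinearMap₂ b b (MM c)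
  have hom : ∀ c p q, om c (b p) (b q) = MM c p q := fun c p q =>
    Matrix.toLinearMap₂_apply_basis b b (MM c) p q
  have hadd : ∀ c c', om (c + c') = om c + om c' := by
    intro c c'
    refine LinearMap.ext_basis b b fun p q => ?_
    rw [LinearMap.add_apply, LinearMap.add_apply, hom, hom, hom, MM_apply, MM_apply, MM_apply]
    split_ifs
    · rw [GG_add]; ring
    · ring
  have hsmul : ∀ (x : K) c, om (x • c) = x • om c := by
    intro x c
    refine LinearMap.ext_basis b b fun p q => ?_
    rw [LinearMap.smul_apply, LinearMap.smul_apply, hom, hom, MM_apply, MM_apply]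
    split_ifs
    · rw [GG_smul, smul_eq_mul]; ring
    · simp
  have hskew : ∀ c v w, om c v w = - om c w v := by
    intro c v w
    have h : om c = - (om c).flip := by
      refine LinearMap.ext_basis b b fun p q => ?_
      rw [LinearMap.neg_apply, LinearMap.neg_apply, LinearMap.flip_apply, hom, hom]
      exact MM_skew c q p
    have h2 := LinearMap.congr_fun (LinearMap.congr_fun h v) w
    rw [h2]
    rfl
  have hΦb : ∀ p : Fin l × Fin (finrank K (ker Φ)), Φ (b p) = if h : (p.1 : ℕ) + 1 < l then b (⟨p.1 + 1, h⟩, p.2) else 0 := by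
    intro p
    rw [hb, ← Module.End.mul_apply, ← pow_succ']
    split_ifs with h
    · rw [hb]
    · have : (p.1 : ℕ) + 1 = l := by have := p.1.2; omega
      rw [this, hl]
      rfl
  have hanti : ∀ c v w, om c (Φ v) w + om c v (Φ w) = 0 := by
    intro c v w
    have h : (om c).compl₁₂ Φ LinearMap.id + (om c).compl₁₂ LinearMap.id Φ = 0 := by
      refine LinearMap.ext_basis b b fun p q => ?_
      rw [LinearMap.add_apply, LinearMap.add_apply, LinearMap.compl₁₂_apply,
        LinearMap.compl₁₂_apply, LinearMap.id_apply, LinearMap.id_apply, hΦb, hΦb]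
      simp only [LinearMap.zero_apply]
      split_ifs with h1 h2 h2
      · rw [hom, hom, MM_apply, MM_apply]
        simp only
        by_cases h : (p.1 : ℕ) + 1 + q.1 < l
        · have h' : (p.1 : ℕ) + (q.1 + 1) < l := by omega
          rw [dif_pos h, dif_pos h']
          have e1 : (⟨(p.1 : ℕ) + 1 + q.1, h⟩ : Fin l) = ⟨p.1 + (q.1 + 1), h'⟩ :=
            Fin.ext (by simp only; omega)
          rw [e1, pow_succ]
          ring
        · have h' : ¬ (p.1 : ℕ) + (q.1 + 1) < l := by omega
          rw [dif_neg h, dif_neg h', add_zero]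
      · rw [hom, MM_apply, dif_neg (by simp only; omega)]
        simp
      · rw [hom, MM_apply, dif_neg (by simp only; omega)]
        simp
      · simp
    have h2 := LinearMap.congr_fun (LinearMap.congr_fun h v) w
    simpa using h2
  have hmem : ∀ c, op hB (om c) ∈ Sk B := by
    intro c v w
    rw [op_apply, hB.symm, op_apply, hskew]
  have hker : ∀ c, (⟨op hB (om c), hmem c⟩ : Sk B) ∈ ker (ac B hΦ) := by
    intro c
    rw [LinearMap.mem_ker]
    apply Subtype.ext
    change op hB (om c) * Φ + Φ * op hB (om c) = 0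
    ext v
    rw [LinearMap.zero_apply]
    apply hB.nd
    intro w
    rw [LinearMap.add_apply, Module.End.mul_apply, Module.End.mul_apply, map_add,
      LinearMap.add_apply, op_apply, hΦ, op_apply, hanti]
  let F : (PP l (finrank K (ker Φ)) → K) →ₗ[K] ker (ac B hΦ) :=
    { toFun := fun c => ⟨⟨op hB (om c), hmem c⟩, hker c⟩
      map_add' := by
        intro c c'
        apply Subtype.ext
        apply Subtype.ext
        change op hB (om (c + c')) = op hB (om c) + op hB (om c')
        rw [hadd, op, op, op, LinearMap.comp_add]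
      map_smul' := by
        intro x c
        apply Subtype.ext
        apply Subtype.ext
        change op hB (om (x • c)) = x • op hB (om c)
        rw [hsmul, op, op, LinearMap.comp_smul] }
  have hF : Function.Injective F := by
    rw [injective_iff_map_eq_zero]
    intro c hc
    have h1 : op hB (om c) = 0 := congrArg (fun x => x.1.1) hc
    apply MM_inj
    intro p q
    rw [← hom, ← op_apply hB, h1]
    simp
  have h1 := LinearMap.finrank_le_finrank_of_injective hF
  rwa [Module.finrank_fintype_fun_eq_card] at h1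

/-- upper bound for `dim so(V)` -/
theorem finrank_Sk_le [CharZero K] (hB : NS B) :
    2 * finrank K (Sk B) ≤ finrank K V * (finrank K V - 1) := by
  classical
  set N := finrank K V with hN
  let e := Module.finBasis K V
  rw [← card_lt_pairs N]
  let F : Sk B →ₗ[K] ({p : Fin N × Fin N // p.1 < p.2} → K) :=
    { toFun := fun X p => B (X.1 (e p.1.1)) (e p.1.2)
      map_add' := by intro X Y; funext p; simp
      map_smul' := by intro c X; funext p; simp }
  have hF : Function.Injective F := by
    rw [injective_iff_map_eq_zero]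
    intro X hX
    apply Subtype.ext
    have hsk : ∀ v w, B (X.1 v) w = - B (X.1 w) v := by
      intro v w
      rw [X.2 v w, hB.symm v]
    have key : ∀ i j, B (X.1 (e i)) (e j) = 0 := by
      intro i j
      rcases lt_trichotomy i j with h | h | h
      · exact congrFun hX ⟨(i, j), h⟩
      · subst h
        have h1 := hsk (e i) (e i)
        have h2 : (2 : K) * B (X.1 (e i)) (e i) = 0 := by linear_combination h1
        simpa using h2
      · rw [hsk]
        have := congrFun hX ⟨(j, i), h⟩
        have h3 : B (X.1 (e j)) (e i) = 0 := this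
        rw [h3, neg_zero]
    refine e.ext fun i => ?_
    change X.1 (e i) = 0
    apply hB.nd
    intro w
    rw [← e.sum_repr w, map_sum]
    refine Finset.sum_eq_zero fun j _ => ?_
    rw [map_smul, key, smul_zero]
  have h1 := LinearMap.finrank_le_finrank_of_injective hF
  rw [Module.finrank_fintype_fun_eq_card] at h1
  omega

/-- **(A1)** types `(2,4,4)`, `(2,3,6)`: a nonzero skew operator anticommuting with all `Φ_s`. -/
theorem exists_anticomm [CharZero K] (hB : NS B) (Φ : Fin 3 → End K V)
    (hΦ : ∀ s v w, B (Φ s v) w = B v (Φ s w)) (hsum : ∀ v, ∑ s, Φ s v = 0) (l : Fin 3 → ℕ)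
    (hl : ∀ s, Φ s ^ l s = 0) (hfree : ∀ s, l s * finrank K (ker (Φ s)) = finrank K V)
    (hker : ∑ s, finrank K (ker (Φ s)) = finrank K V) (hpos : 0 < finrank K V)
    (heven : ∃ s, Even (l s)) :
    ∃ X : End K V, X ≠ 0 ∧ (∀ v w, B (X v) w = - B v (X w)) ∧
      ∀ s v, X (Φ s v) = - Φ s (X v) := by
  classical
  have hsq := square (TF B) (TF_nondeg hB) (fun s => ac B (hΦ s)) (fun s x y => ac_self (hΦ s) x y)
    (by
      intro X
      apply Subtype.ext
      ext v
      have e1 : ((∑ s, ac B (hΦ s) X : Sk B) : End K V) = ∑ s, (X.1 * Φ s + Φ s * X.1) := by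
        rw [AddSubmonoidClass.coe_finsetSum]
        rfl
      rw [e1]
      change (∑ s, (X.1 * Φ s + Φ s * X.1)) v = 0
      rw [LinearMap.sum_apply]
      simp only [LinearMap.add_apply, Module.End.mul_apply]
      rw [Finset.sum_add_distrib, ← map_sum, hsum, hsum, map_zero, add_zero])
  set h := finrank K (⨅ s, ker (ac B (hΦ s)) : Submodule K (Sk B)) with hh
  have hpos' : 0 < h := by
    have hd := finrank_Sk_le hB
    have hrk := fun s => LinearMap.finrank_range_add_finrank_ker (ac B (hΦ s))
    have hlow := fun s => le_finrank_ac hB (hΦ s) (hl s) (hfree s)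
    have hcard := fun s => card_PP (l s) (finrank K (ker (Φ s)))
    have hA : ∀ s, finrank K V * finrank K (ker (Φ s)) ≤
        2 * finrank K (ker (ac B (hΦ s))) + finrank K (ker (Φ s)) := by
      intro s
      have h1 := hlow s
      have h2 := hcard s
      have h3 : l s * (finrank K (ker (Φ s)) * finrank K (ker (Φ s))) =
          finrank K V * finrank K (ker (Φ s)) := by rw [← mul_assoc, hfree]
      have h4 : ((l s + 1) / 2) * finrank K (ker (Φ s)) ≤
          (l s / 2) * finrank K (ker (Φ s)) + finrank K (ker (Φ s)) := by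
        have : (l s + 1) / 2 ≤ l s / 2 + 1 := by omega
        calc ((l s + 1) / 2) * finrank K (ker (Φ s)) ≤ (l s / 2 + 1) * finrank K (ker (Φ s)) :=
              Nat.mul_le_mul_right _ this
          _ = _ := by ring
      rw [h3] at h2
      omega
    obtain ⟨s0, hs0⟩ := heven
    have hE : finrank K V * finrank K (ker (Φ s0)) ≤ 2 * finrank K (ker (ac B (hΦ s0))) := by
      have h1 := hlow s0
      have h2 := hcard s0
      have h3 : l s0 * (finrank K (ker (Φ s0)) * finrank K (ker (Φ s0))) =
          finrank K V * finrank K (ker (Φ s0)) := by rw [← mul_assoc, hfree]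
      have h4 : (l s0 + 1) / 2 = l s0 / 2 := by
        obtain ⟨k, hk⟩ := hs0
        omega
      rw [h3, h4] at h2
      omega
    have hm0 : 0 < finrank K (ker (Φ s0)) := by
      rw [Nat.pos_iff_ne_zero]
      intro h0
      have := hfree s0
      rw [h0, mul_zero] at this
      omega
    have hNN : finrank K V * (finrank K V - 1) + finrank K V = finrank K V * finrank K V := by
      obtain ⟨N, hN⟩ : ∃ N, finrank K V = N + 1 := ⟨finrank K V - 1, by omega⟩
      rw [hN, Nat.add_sub_cancel]
      ring
    have hN2 : finrank K V * finrank K (ker (Φ 0)) + finrank K V * finrank K (ker (Φ 1)) +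
        finrank K V * finrank K (ker (Φ 2)) = finrank K V * finrank K V := by
      rw [← mul_add, ← mul_add, ← Fin.sum_univ_three (fun s => finrank K (ker (Φ s))), hker]
    rw [Fin.sum_univ_three] at hsq hker
    have r0 := hrk 0
    have r1 := hrk 1
    have r2 := hrk 2
    have a0 := hA 0
    have a1 := hA 1
    have a2 := hA 2
    fin_cases s0
    all_goals
      simp only [Fin.zero_eta, Fin.mk_one, Fin.reduceFinMk, Fin.isValue] at hE hm0
      omega
  have hne : (⨅ s, ker (ac B (hΦ s)) : Submodule K (Sk B)) ≠ ⊥ := by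
    intro h0
    rw [hh, h0, finrank_bot] at hpos'
    exact lt_irrefl _ hpos'
  obtain ⟨X, hXm, hX⟩ := Submodule.exists_mem_ne_zero_of_ne_bot hne
  refine ⟨X.1, fun h0 => hX (Subtype.ext h0), X.2, ?_⟩
  intro s v
  have h1 := (Submodule.mem_iInf _).1 hXm s
  rw [LinearMap.mem_ker] at h1
  have h2 : X.1 * Φ s + Φ s * X.1 = 0 := congrArg Subtype.val h1
  have h3 := LinearMap.congr_fun h2 v
  rw [LinearMap.add_apply, Module.End.mul_apply, Module.End.mul_apply,
    LinearMap.zero_apply] at h3
  exact eq_neg_of_add_eq_zero_left h3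

end lower

section sigma

/-- the chain spaces of `σ - 1`, `Φ_s z = σ(z) Φ_s` -/
def SS (Φ : Fin 3 → End K V) : ℕ → Submodule K (End K V)
  | 0 => ⊥
  | n + 1 =>
    { carrier := {z | ∃ z' ∈ SS Φ n, ∀ s, z' * Φ s = Φ s * z - z * Φ s}
      add_mem' := by
        rintro a b ⟨a', ha, ha'⟩ ⟨b', hb, hb'⟩
        refine ⟨a' + b', Submodule.add_mem _ ha hb, fun s => ?_⟩
        rw [add_mul, ha', hb', mul_add, add_mul]
        abel
      zero_mem' := ⟨0, Submodule.zero_mem _, fun s => by simp⟩
      smul_mem' := by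
        rintro c a ⟨a', ha, ha'⟩
        refine ⟨c • a', Submodule.smul_mem _ _ ha, fun s => ?_⟩
        rw [smul_mul_assoc, ha', mul_smul_comm, smul_mul_assoc, smul_sub] }

variable {Φ : Fin 3 → End K V}

theorem mem_SS_zero {z : End K V} : z ∈ SS Φ 0 ↔ z = 0 := Submodule.mem_bot K

theorem mem_SS_succ {n : ℕ} {z : End K V} :
    z ∈ SS Φ (n + 1) ↔ ∃ z' ∈ SS Φ n, ∀ s, z' * Φ s = Φ s * z - z * Φ s := Iff.rfl

theorem SS_le_succ (n : ℕ) : SS Φ n ≤ SS Φ (n + 1) := by
  induction n with
  | zero =>
    intro z hz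
    rw [mem_SS_zero] at hz
    rw [hz]
    exact Submodule.zero_mem _
  | succ n ih =>
    rintro z ⟨z', hz', h⟩
    exact ⟨z', ih hz', h⟩

theorem SS_mono {m n : ℕ} (h : m ≤ n) : SS Φ m ≤ SS Φ n :=
  monotone_nat_of_le_succ SS_le_succ h

theorem SS_mul : ∀ (k m n : ℕ), m + n ≤ k → ∀ z w : End K V, z ∈ SS Φ m → w ∈ SS Φ n →
    z * w ∈ SS Φ k := by
  intro k
  induction k with
  | zero =>
    intro m n hmn z w hz hw
    have : m = 0 := by omega
    subst this
    rw [mem_SS_zero] at hz
    rw [hz, zero_mul]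
    exact Submodule.zero_mem _
  | succ k ih =>
    intro m n hmn z w hz hw
    rcases m with _ | m
    · rw [mem_SS_zero] at hz
      rw [hz, zero_mul]
      exact Submodule.zero_mem _
    rcases n with _ | n
    · rw [mem_SS_zero] at hw
      rw [hw, mul_zero]
      exact Submodule.zero_mem _
    obtain ⟨z', hz', h1⟩ := hz
    obtain ⟨w', hw', h2⟩ := hw
    have hz : z ∈ SS Φ (m + 1) := ⟨z', hz', h1⟩
    have hw : w ∈ SS Φ (n + 1) := ⟨w', hw', h2⟩
    refine ⟨z * w' + z' * w + z' * w', ?_, fun s => ?_⟩
    · refine Submodule.add_mem _ (Submodule.add_mem _ ?_ ?_) ?_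
      · exact ih (m + 1) n (by omega) _ _ hz hw'
      · exact ih m (n + 1) (by omega) _ _ hz' hw
      · exact ih m n (by omega) _ _ hz' hw'
    · -- `Φ z = (z + z') Φ`, `Φ w = (w + w') Φ`
      have e1 : Φ s * z = (z + z') * Φ s := by rw [add_mul, h1]; abel
      have e2 : Φ s * w = (w + w') * Φ s := by rw [add_mul, h2]; abel
      have e3 : Φ s * (z * w) = (z + z') * ((w + w') * Φ s) := by
        rw [← mul_assoc, e1, mul_assoc, e2]
      rw [e3]
      noncomm_ring

/-- **the generalised `1`-eigenspace of `σ`, a subalgebra** -/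
def SA (Φ : Fin 3 → End K V) : Subalgebra K (End K V) where
  carrier := {z | ∃ n, z ∈ SS Φ n}
  mul_mem' := by
    rintro a b ⟨m, hm⟩ ⟨n, hn⟩
    exact ⟨m + n, SS_mul _ _ _ le_rfl _ _ hm hn⟩
  add_mem' := by
    rintro a b ⟨m, hm⟩ ⟨n, hn⟩
    exact ⟨m + n, Submodule.add_mem _ (SS_mono (Nat.le_add_right _ _) hm)
      (SS_mono (Nat.le_add_left _ _) hn)⟩
  algebraMap_mem' := by
    intro r
    refine ⟨1, ⟨0, Submodule.zero_mem _, fun s => ?_⟩⟩
    rw [zero_mul, Algebra.commutes r (Φ s), sub_self]

theorem mem_SA {z : End K V} : z ∈ SA Φ ↔ ∃ n, z ∈ SS Φ n := Iff.rfl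

/-- the commutant -/
theorem mem_SA_of_commute {z : End K V} (h : ∀ s, z * Φ s = Φ s * z) : z ∈ SA Φ :=
  ⟨1, ⟨0, Submodule.zero_mem _, fun s => by rw [zero_mul, h, sub_self]⟩⟩

/-- `z` commuting with `u Φ_s` for all `s`, `u` invertible, commuting with `Φ_s`, and
`ad u` nilpotent on `z` -/
theorem mem_SA_of_tw {u ui : End K V} (hu : ui * u = 1) (hu' : u * ui = 1) (hc : ∀ s, u * Φ s = Φ s * u)
    (n : ℕ) : ∀ z : End K V, (∀ s, z * (u * Φ s) = u * Φ s * z) →
    ((LinearMap.mulRight K u - LinearMap.mulLeft K u : End K (End K V)) ^ n) z = 0 →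
    z ∈ SS Φ n := by
  have hui : ∀ s, ui * Φ s = Φ s * ui := by
    intro s
    calc ui * Φ s = ui * (Φ s * u) * ui := by rw [mul_assoc, mul_assoc, hu', mul_one]
      _ = ui * (u * Φ s) * ui := by rw [hc]
      _ = Φ s * ui := by rw [← mul_assoc, hu, one_mul]
  induction n with
  | zero =>
    intro z _ h
    rw [pow_zero, Module.End.one_apply] at h
    rw [mem_SS_zero]
    exact h
  | succ n ih =>
    intro z hz h
    -- `z' = ui (z u - u z)`
    have hzz : ∀ s, (z * u - u * z) * (u * Φ s) = u * Φ s * (z * u - u * z) := by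
      intro s
      have e1 : z * u * (u * Φ s) = z * (u * Φ s) * u := by
        rw [hc s]
        simp only [mul_assoc]
        rw [← mul_assoc (Φ s) u u, ← hc s, mul_assoc, hc s]
      rw [sub_mul, e1, hz, mul_assoc u z, hz, mul_sub]
      congr 1
      · simp only [mul_assoc]
        rw [← mul_assoc (Φ s) u z, ← hc s, mul_assoc]
    refine ⟨ui * (z * u - u * z), ?_, fun s => ?_⟩
    · -- `ui` commutes with `u`, `Φ`: membership of `z u - u z`, times `ui`
      have h1 : z * u - u * z ∈ SS Φ n := by
        apply ih _ hzz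
        rw [pow_succ, Module.End.mul_apply] at h
        simpa using h
      have h2 : ui ∈ SS Φ 1 := ⟨0, Submodule.zero_mem _, fun s => by rw [zero_mul, hui, sub_self]⟩
      -- sharp product with the commutant
      have key : ∀ (k : ℕ) (w : End K V), w ∈ SS Φ k → ui * w ∈ SS Φ k := by
        intro k
        induction k with
        | zero =>
          intro w hw
          rw [mem_SS_zero] at hw
          rw [hw, mul_zero]
          exact Submodule.zero_mem _
        | succ k ihk =>
          rintro w ⟨w', hw', hw⟩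
          refine ⟨ui * w', ihk _ hw', fun s => ?_⟩
          rw [mul_assoc, hw, mul_sub, ← mul_assoc, ← mul_assoc, hui, mul_assoc, mul_assoc]
      exact key n _ h1
    · have e2 : ui * (u * z) * Φ s = z * Φ s := by rw [← mul_assoc, hu, one_mul]
      rw [mul_sub, sub_mul, e2]
      congr 1
      rw [mul_assoc, mul_assoc, hz, ← mul_assoc, ← mul_assoc, hu, one_mul]

/-- **(A3)** -/
theorem eq_zero_of_anti [CharZero K] (htop : ⨆ s, range (Φ s) = ⊤) {X : End K V}
    (hX : ∀ s, X * Φ s = - (Φ s * X)) (hmem : X ∈ SA Φ) : X = 0 := by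
  obtain ⟨n, hn⟩ := hmem
  have hext : ∀ z w : End K V, (∀ s, z * Φ s = w * Φ s) → z = w := by
    intro z w h
    have h1 : ⨆ s, range (Φ s) ≤ ker (z - w) := by
      refine iSup_le fun s => ?_
      rintro _ ⟨v, rfl⟩
      rw [LinearMap.mem_ker]
      have h2 := LinearMap.congr_fun (h s) v
      rw [Module.End.mul_apply, Module.End.mul_apply] at h2
      rw [LinearMap.sub_apply, h2, sub_self]
    rw [htop, top_le_iff] at h1
    rw [← sub_eq_zero]
    exact LinearMap.ker_eq_top.1 h1
  have key : ∀ (n : ℕ) (c : K), c ≠ 0 → c • X ∈ SS Φ n → X = 0 := by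
    intro n
    induction n with
    | zero =>
      intro c hc h
      rw [mem_SS_zero] at h
      exact (smul_eq_zero.1 h).resolve_left hc
    | succ n ih =>
      rintro c hc ⟨z', hz', h⟩
      have h1 : z' = (-2 * c) • X := by
        apply hext
        intro s
        rw [h, mul_smul_comm, smul_mul_assoc, smul_mul_assoc, hX, smul_neg, smul_neg, mul_smul,
          neg_smul, neg_neg, two_smul, sub_neg_eq_add]
      rw [h1] at hz'
      exact ih _ (mul_ne_zero (by norm_num) hc) hz'
  exact key n 1 one_ne_zero (by rwa [one_smul])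

/-- **(o2)-END, types `(2,4,4)`, `(2,3,6)`**: `X - z` commutes with `Φ`, `z` in the algebra. -/
theorem false_of_anti [CharZero K] (htop : ⨆ s, range (Φ s) = ⊤) {X z : End K V} (hX0 : X ≠ 0)
    (hX : ∀ s v, X (Φ s v) = - Φ s (X v)) (hz : z ∈ SA Φ)
    (hXz : ∀ s v, (X - z) (Φ s v) = Φ s ((X - z) v)) : False := by
  apply hX0
  apply eq_zero_of_anti htop (fun s => by ext v; exact hX s v)
  have h1 : X - z ∈ SA Φ := mem_SA_of_commute fun s => by ext v; exact hXz s v
  have h2 := (SA Φ).add_mem h1 hz
  rwa [sub_add_cancel] at h2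

end sigma

end Crest.Agent.R172.Anti
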