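import Crest.Agent.R172.Anti1

/-!
Row 172 (S0260), TAME: the space of skew operators which anticommute with all `Φ_s`: dimension,
traces on the powers `range (Φ_s ^ a)`.
-/

set_option autoImplicit false
set_option linter.unusedSectionVars false

namespace Crest.Agent.R172.Anti

open Module LinearMap
open Crest.Agent.R172.Core (NS)
open Crest.Agent.R172.TC (exists_adapted card_lt_pairs)

variable {K : Type*} [Field K] {V : Type*} [AddCommGroup V] [Module K V]

section exact

/-- additivity of the trace -/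
theorem trace_exact {U' U W : Type*} [AddCommGroup U'] [Module K U'] [FiniteDimensional K U']
    [AddCommGroup U] [Module K U] [FiniteDimensional K U] [AddCommGroup W] [Module K W]
    [FiniteDimensional K W] (i : U' →ₗ[K] U) (P : U →ₗ[K] W) (hi : ker i = ⊥) (hP : range P = ⊤)
    (hex : range i = ker P) (f' : End K U') (f : End K U) (g : End K W)
    (h1 : ∀ x, f (i x) = i (f' x)) (h2 : ∀ x, P (f x) = g (P x)) :
    trace K U f = trace K U' f' + trace K W g := by
  classical
  obtain ⟨σ, hσ⟩ := P.exists_rightInverse_of_surjective hP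
  have hσ' : ∀ w, P (σ w) = w := fun w => LinearMap.congr_fun hσ w
  obtain ⟨π, hπ⟩ := i.exists_leftInverse_of_injective hi
  have hπ' : ∀ w, π (i w) = w := fun w => LinearMap.congr_fun hπ w
  -- `π₁ = π (1 - σ P)`
  have hid : ∀ u, i (π (u - σ (P u))) + σ (P u) = u := by
    intro u
    have h3 : u - σ (P u) ∈ range i := by
      rw [hex, LinearMap.mem_ker, map_sub, hσ', sub_self]
    obtain ⟨x, hx⟩ := h3
    rw [← hx, hπ', hx]
    abel
  have hPi : ∀ x, P (i x) = 0 := by
    intro x
    have : i x ∈ ker P := hex ▸ LinearMap.mem_range_self i x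
    exact this
  let π₁ : U →ₗ[K] U' := π ∘ₗ (LinearMap.id - σ ∘ₗ P)
  have e1 : f = (f ∘ₗ i) ∘ₗ π₁ + (f ∘ₗ σ) ∘ₗ P := by
    ext u
    simp only [LinearMap.add_apply, LinearMap.comp_apply, π₁, LinearMap.sub_apply,
      LinearMap.id_apply]
    rw [← map_add, hid]
  have e2 : π₁ ∘ₗ (f ∘ₗ i) = f' := by
    ext x
    simp only [LinearMap.comp_apply, π₁, LinearMap.sub_apply, LinearMap.id_apply]
    rw [h1, hPi, map_zero, sub_zero, hπ']
  have e3 : P ∘ₗ (f ∘ₗ σ) = g := by
    ext x
    simp only [LinearMap.comp_apply]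
    rw [h2, hσ']
  calc trace K U f = trace K U ((f ∘ₗ i) ∘ₗ π₁ + (f ∘ₗ σ) ∘ₗ P) := by rw [← e1]
    _ = trace K U ((f ∘ₗ i) ∘ₗ π₁) + trace K U ((f ∘ₗ σ) ∘ₗ P) := map_add _ _ _
    _ = trace K U' (π₁ ∘ₗ (f ∘ₗ i)) + trace K W (P ∘ₗ (f ∘ₗ σ)) := by
      rw [LinearMap.trace_comp_comm' (f ∘ₗ i) π₁, LinearMap.trace_comp_comm' (f ∘ₗ σ) P]
    _ = _ := by rw [e2, e3]

end exact

section pow

variable {Φ X : End K V}

theorem anti_pow (hX : ∀ v, X (Φ v) = - Φ (X v)) (a : ℕ) (v : V) :
    X ((Φ ^ a) v) = (-1 : K) ^ a • (Φ ^ a) (X v) := by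
  induction a with
  | zero => simp
  | succ n ih =>
    rw [pow_succ', Module.End.mul_apply, hX, ih, map_smul, Module.End.mul_apply, pow_succ']
    simp

theorem anti_mem (hX : ∀ v, X (Φ v) = - Φ (X v)) (a : ℕ) : ∀ v ∈ range (Φ ^ a), X v ∈ range (Φ ^ a) := by
  rintro _ ⟨v, rfl⟩
  rw [anti_pow hX, ← map_smul]
  exact ⟨_, rfl⟩

/-- the restriction to `range (Φ ^ a)` -/
noncomputable def rs (hX : ∀ v, X (Φ v) = - Φ (X v)) (a : ℕ) : End K (range (Φ ^ a)) :=
  X.restrict (anti_mem hX a)

/-- its trace -/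
noncomputable def TT (hX : ∀ v, X (Φ v) = - Φ (X v)) (a : ℕ) : K :=
  trace K (range (Φ ^ a)) (rs hX a)

variable [FiniteDimensional K V]

theorem TT_eq {a b : ℕ} (hX : ∀ v, X (Φ v) = - Φ (X v)) (h : range (Φ ^ a) = range (Φ ^ b)) :
    TT hX a = TT hX b := by
  let i : range (Φ ^ a) →ₗ[K] range (Φ ^ b) := Submodule.inclusion h.le
  have h1 := trace_exact (K := K) (U' := range (Φ ^ a)) (U := range (Φ ^ b)) (W := PUnit) i 0
    (Submodule.ker_inclusion _ _ _) (by
      rw [eq_top_iff]
      intro x _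
      exact ⟨0, Subsingleton.elim _ _⟩) (by
      rw [LinearMap.ker_zero, eq_top_iff]
      intro x _
      exact ⟨⟨x.1, h.ge x.2⟩, rfl⟩) (rs hX a) (rs hX b) 0 (by
      intro x
      apply Subtype.ext
      rfl) (by intro x; rfl)
  rw [map_zero, add_zero] at h1
  exact h1.symm

theorem TT_zero (hX : ∀ v, X (Φ v) = - Φ (X v)) : TT hX 0 = trace K V X := by
  have h1 := trace_exact (K := K) (U' := range (Φ ^ 0)) (U := V) (W := PUnit)
    (Submodule.subtype _) 0 (Submodule.ker_subtype _) (by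
      rw [eq_top_iff]
      intro x _
      exact ⟨0, Subsingleton.elim _ _⟩) (by
      rw [LinearMap.ker_zero, eq_top_iff]
      intro x _
      exact ⟨⟨x, by rw [pow_zero]; exact ⟨x, rfl⟩⟩, rfl⟩) (rs hX 0) X 0 (by
      intro x
      rfl) (by intro x; rfl)
  rw [map_zero, add_zero] at h1
  exact h1.symm

theorem TT_of_pow_eq_zero (hX : ∀ v, X (Φ v) = - Φ (X v)) {a : ℕ} (h : Φ ^ a = 0) :
    TT hX a = 0 := by
  have h1 : rs hX a = 0 := by
    ext x
    have h2 : range (Φ ^ a) = ⊥ := by rw [h, LinearMap.range_zero]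
    have h3 : ((rs hX a x : range (Φ ^ a)) : V) ∈ (⊥ : Submodule K V) := h2.le (rs hX a x).2
    exact (Submodule.mem_bot K).1 h3
  rw [TT, h1, map_zero]

theorem TT_step (hX : ∀ v, X (Φ v) = - Φ (X v)) {l : ℕ} (hl : Φ ^ l = 0)
    (hfree : l * finrank K (ker Φ) = finrank K V) {a : ℕ} (ha : a + 1 ≤ l) :
    TT hX a + TT hX (a + 1) = TT hX (l - 1) := by
  have hk : ker (Φ ^ 1) = range (Φ ^ (l - 1)) := TC.ker_eq_range hl hfree (v := 1) (by omega)
  rw [pow_one] at hk
  have hle : range (Φ ^ (l - 1)) ≤ range (Φ ^ a) := by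
    have : l - 1 = a + (l - 1 - a) := by omega
    rw [this, pow_add]
    exact LinearMap.range_comp_le_range _ _
  have hm : ∀ v ∈ range (Φ ^ a), Φ v ∈ range (Φ ^ (a + 1)) := by
    rintro _ ⟨v, rfl⟩
    rw [← Module.End.mul_apply, ← pow_succ']
    exact ⟨v, rfl⟩
  have h1 := trace_exact (K := K) (U' := range (Φ ^ (l - 1))) (U := range (Φ ^ a))
    (W := range (Φ ^ (a + 1))) (Submodule.inclusion hle) (Φ.restrict hm)
    (Submodule.ker_inclusion _ _ _) (by
      rw [eq_top_iff]
      rintro ⟨_, v, rfl⟩ _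
      refine ⟨⟨(Φ ^ a) v, v, rfl⟩, ?_⟩
      apply Subtype.ext
      change Φ ((Φ ^ a) v) = (Φ ^ (a + 1)) v
      rw [pow_succ', Module.End.mul_apply]) (by
      ext x
      rw [LinearMap.mem_ker]
      constructor
      · rintro ⟨y, rfl⟩
        apply Subtype.ext
        have : y.1 ∈ ker Φ := hk.ge y.2
        exact this
      · intro h
        have h2 : Φ x.1 = 0 := congrArg Subtype.val h
        have h3 : x.1 ∈ range (Φ ^ (l - 1)) := hk.le h2
        exact ⟨⟨x.1, h3⟩, rfl⟩) (rs hX (l - 1)) (rs hX a) (- rs hX (a + 1)) (by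
      intro x
      apply Subtype.ext
      rfl) (by
      intro x
      apply Subtype.ext
      change Φ (X x.1) = - X (Φ x.1)
      rw [hX, neg_neg])
  rw [map_neg] at h1
  change TT hX a = TT hX (l - 1) + - TT hX (a + 1) at h1
  rw [h1]
  ring

theorem TT_one (hX : ∀ v, X (Φ v) = - Φ (X v)) {l : ℕ} (hl : Φ ^ l = 0)
    (hfree : l * finrank K (ker Φ) = finrank K V) (htr : trace K V X = 0) (hl1 : 1 ≤ l) :
    TT hX 1 = TT hX (l - 1) := by
  have h1 := TT_step hX hl hfree (a := 0) hl1
  rwa [TT_zero, htr, zero_add, zero_add] at h1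

theorem TT_key (hX : ∀ v, X (Φ v) = - Φ (X v)) {l : ℕ} (hl : Φ ^ l = 0)
    (hfree : l * finrank K (ker Φ) = finrank K V) (htr : trace K V X = 0) (hl1 : 1 ≤ l) (n : ℕ) :
    (2 * n ≤ l → TT hX (2 * n) = 0) ∧ (2 * n + 1 ≤ l → TT hX (2 * n + 1) = TT hX 1) := by
  have h0 : TT hX 0 = 0 := by rw [TT_zero, htr]
  have h1 := TT_one hX hl hfree htr hl1
  induction n with
  | zero => exact ⟨fun _ => h0, fun _ => rfl⟩
  | succ n ih =>
    have h2 : 2 * (n + 1) ≤ l → TT hX (2 * (n + 1)) = 0 := by
      intro h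
      have h3 := TT_step hX hl hfree (a := 2 * n + 1) (by omega)
      rw [ih.2 (by omega), ← h1] at h3
      have : 2 * (n + 1) = 2 * n + 1 + 1 := by ring
      rw [this]
      exact add_eq_left.1 h3
    refine ⟨h2, fun h => ?_⟩
    have h3 := TT_step hX hl hfree (a := 2 * (n + 1)) (by omega)
    rw [h2 (by omega), zero_add, ← h1] at h3
    exact h3

/-- all traces are `0` or the first one -/
theorem TT_all (hX : ∀ v, X (Φ v) = - Φ (X v)) {l : ℕ} (hl : Φ ^ l = 0)
    (hfree : l * finrank K (ker Φ) = finrank K V) (htr : trace K V X = 0) (hl1 : 1 ≤ l) :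
    ∀ a, TT hX a = 0 ∨ TT hX a = TT hX 1 := by
  have key := TT_key hX hl hfree htr hl1
  intro a
  by_cases ha : l ≤ a
  · left
    refine TT_of_pow_eq_zero hX ?_
    have : a = l + (a - l) := by omega
    rw [this, pow_add, hl, zero_mul]
  · rcases Nat.even_or_odd' a with ⟨n, hn | hn⟩
    · left
      rw [hn]
      exact (key n).1 (by omega)
    · right
      rw [hn]
      exact (key n).2 (by omega)

/-- `l` odd: all traces vanish -/
theorem TT_odd (hX : ∀ v, X (Φ v) = - Φ (X v)) {l : ℕ} (hl : Φ ^ l = 0)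
    (hfree : l * finrank K (ker Φ) = finrank K V) (htr : trace K V X = 0) (hodd : ¬ Even l) (a : ℕ) :
    TT hX a = 0 := by
  obtain ⟨n, hn⟩ := Nat.not_even_iff_odd.1 hodd
  have h1 := TT_one hX hl hfree htr (by omega)
  have h2 := (TT_key hX hl hfree htr (by omega) n).1 (by omega)
  have h3 : l - 1 = 2 * n := by omega
  rw [h3, h2] at h1
  rcases TT_all hX hl hfree htr (by omega) a with h | h
  · exact h
  · rw [h, h1]

end pow

section basis

variable {Φ X : End K V} [FiniteDimensional K V]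

/-- the trace on `range Φ` in an adapted basis -/
theorem TT_one_basis (hX : ∀ v, X (Φ v) = - Φ (X v)) {l m : ℕ} (hl : Φ ^ l = 0) (hl1 : 0 < l)
    (e : Fin m → V) (b : Basis (Fin l × Fin m) K V) (hb : ∀ p, b p = (Φ ^ (p.1 : ℕ)) (e p.2)) :
    trace K V X = TT hX 1 + ∑ p, b.repr (X (e p)) (⟨0, hl1⟩, p) := by
  classical
  let P : V →ₗ[K] (Fin m → K) := LinearMap.pi fun p => b.coord (⟨0, hl1⟩, p)
  have hPa : ∀ v p, P v p = b.repr v (⟨0, hl1⟩, p) := fun v p => rfl
  have hb0 : ∀ p, b (⟨0, hl1⟩, p) = e p := by intro p; rw [hb]; rfl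
  let σ : (Fin m → K) →ₗ[K] V := (Pi.basisFun K (Fin m)).constr K e
  have hσ : ∀ p, σ (Pi.single p 1) = e p := by
    intro p
    have := (Pi.basisFun K (Fin m)).constr_basis K e p
    rwa [Pi.basisFun_apply] at this
  have hPσ : ∀ w, P (σ w) = w := by
    intro w
    have h : P ∘ₗ σ = LinearMap.id := by
      refine (Pi.basisFun K (Fin m)).ext fun p => ?_
      rw [Pi.basisFun_apply, LinearMap.comp_apply, hσ, ← hb0]
      funext q
      rw [hPa, b.repr_self, LinearMap.id_apply, Finsupp.single_apply, Pi.single_apply]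
      by_cases h : p = q
      · rw [if_pos (by rw [h]), if_pos h.symm]
      · rw [if_neg (fun h' => h (Prod.ext_iff.1 h').2), if_neg (fun h' => h h'.symm)]
    exact LinearMap.congr_fun h w
  have hPΦ : ∀ v, P (Φ v) = 0 := by
    intro v
    have h : P ∘ₗ Φ = 0 := by
      refine b.ext fun q => ?_
      rw [LinearMap.comp_apply, LinearMap.zero_apply, hb, ← Module.End.mul_apply, ← pow_succ']
      by_cases hq : (q.1 : ℕ) + 1 < l
      · have h1 : (Φ ^ ((q.1 : ℕ) + 1)) (e q.2) = b (⟨q.1 + 1, hq⟩, q.2) := by rw [hb]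
        rw [h1]
        funext p
        rw [hPa, b.repr_self, Finsupp.single_apply, if_neg]
        · rfl
        · intro h'
          have := congrArg (fun x => (x.1 : ℕ)) h'
          simp at this
      · have h1 : (q.1 : ℕ) + 1 = l := by have := q.1.2; omega
        rw [h1, hl, LinearMap.zero_apply, map_zero]
    exact LinearMap.congr_fun h v
  have hker : ∀ v, P v = 0 → v ∈ range Φ := by
    intro v hv
    rw [← b.sum_repr v]
    refine Submodule.sum_mem _ fun q _ => ?_
    by_cases hq : (q.1 : ℕ) = 0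
    · have h1 : b.repr v q = 0 := by
        have h2 := congrFun hv q.2
        rw [hPa] at h2
        have h3 : q = (⟨0, hl1⟩, q.2) := Prod.ext (Fin.ext hq) rfl
        rw [h3]
        exact h2
      rw [h1, zero_smul]
      exact Submodule.zero_mem _
    · refine Submodule.smul_mem _ _ ?_
      rw [hb]
      obtain ⟨n, hn⟩ := Nat.exists_eq_succ_of_ne_zero hq
      rw [hn, Nat.succ_eq_add_one, pow_succ', Module.End.mul_apply]
      exact ⟨_, rfl⟩
  have h1 := trace_exact (K := K) (U' := range (Φ ^ 1)) (U := V) (W := Fin m → K)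
    (Submodule.subtype _) P (Submodule.ker_subtype _) (by
      rw [eq_top_iff]
      intro w _
      exact ⟨σ w, hPσ w⟩) (by
      rw [Submodule.range_subtype, pow_one]
      ext v
      constructor
      · rintro ⟨w, rfl⟩
        exact hPΦ w
      · intro h
        exact hker v h) (rs hX 1) X (P ∘ₗ X ∘ₗ σ) (by intro x; rfl) (by
      intro v
      rw [LinearMap.comp_apply, LinearMap.comp_apply]
      have h2 : σ (P v) - v ∈ range Φ := hker _ (by rw [map_sub, hPσ, sub_self])
      obtain ⟨w, hw⟩ := h2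
      have h3 : σ (P v) = v + Φ w := by rw [hw]; abel
      rw [h3, map_add, hX, map_add, map_neg, hPΦ, neg_zero, add_zero])
  rw [h1]
  congr 1
  rw [LinearMap.trace_eq_matrix_trace K (Pi.basisFun K (Fin m)), Matrix.trace]
  refine Finset.sum_congr rfl fun p _ => ?_
  rw [Matrix.diag_apply, LinearMap.toMatrix_apply, Pi.basisFun_apply, LinearMap.comp_apply,
    LinearMap.comp_apply, hσ, Pi.basisFun_repr, hPa]

end basis

section sum

variable [FiniteDimensional K V] {Φ : Fin 3 → End K V} {X : End K V}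

/-- the relation between the three traces -/
theorem sum_TT (hX : ∀ s v, X (Φ s v) = - Φ s (X v)) (hsum : ∀ v, ∑ s, Φ s v = 0)
    (hker : ∑ s, finrank K (ker (Φ s)) = finrank K V) (htop : ⨆ s, range (Φ s) = ⊤)
    (hbot : ⨅ s, ker (Φ s) = ⊥) (htr : trace K V X = 0) :
    ∑ s, TT (hX s) 1 = 0 := by
  classical
  have hm : ∀ s v, v ∈ range (Φ s ^ 1) ↔ v ∈ range (Φ s) := by intro s v; rw [pow_one]
  let i : V →ₗ[K] range (Φ 0 ^ 1) × range (Φ 1 ^ 1) × range (Φ 2 ^ 1) :=
    ((Φ 0 ^ 1).rangeRestrict).prod (((Φ 1 ^ 1).rangeRestrict).prod ((Φ 2 ^ 1).rangeRestrict))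
  let P : range (Φ 0 ^ 1) × range (Φ 1 ^ 1) × range (Φ 2 ^ 1) →ₗ[K] V :=
    LinearMap.coprod (Submodule.subtype _) (LinearMap.coprod (Submodule.subtype _) (Submodule.subtype _))
  have hPa : ∀ y, P y = y.1.1 + (y.2.1.1 + y.2.2.1) := fun y => rfl
  have hi : ker i = ⊥ := by
    rw [eq_bot_iff, ← hbot]
    intro v hv
    have h1 : i v = 0 := hv
    rw [Submodule.mem_iInf]
    intro s
    rw [LinearMap.mem_ker, ← pow_one (Φ s)]
    fin_cases s
    · exact congrArg (fun y => y.1.1) h1
    · exact congrArg (fun y => y.2.1.1) h1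
    · exact congrArg (fun y => y.2.2.1) h1
  have hP : range P = ⊤ := by
    rw [eq_top_iff, ← htop]
    refine iSup_le fun s => ?_
    rintro _ ⟨v, rfl⟩
    have h1 : Φ s v ∈ range (Φ s ^ 1) := by rw [pow_one]; exact ⟨v, rfl⟩
    fin_cases s
    · exact ⟨(⟨_, h1⟩, 0, 0), by rw [hPa]; simp⟩
    · exact ⟨(0, ⟨_, h1⟩, 0), by rw [hPa]; simp⟩
    · exact ⟨(0, 0, ⟨_, h1⟩), by rw [hPa]; simp⟩
  have hle : range i ≤ ker P := by
    rintro _ ⟨v, rfl⟩
    rw [LinearMap.mem_ker, hPa]
    change (Φ 0 ^ 1) v + ((Φ 1 ^ 1) v + (Φ 2 ^ 1) v) = 0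
    have h1 := hsum v
    rw [Fin.sum_univ_three] at h1
    rw [pow_one, pow_one, pow_one, ← add_assoc]
    exact h1
  have hex : range i = ker P := by
    apply Submodule.eq_of_le_of_finrank_eq hle
    have h1 := LinearMap.finrank_range_add_finrank_ker i
    have h2 := LinearMap.finrank_range_add_finrank_ker P
    rw [hi, finrank_bot] at h1
    rw [hP, finrank_top, Module.finrank_prod, Module.finrank_prod] at h2
    have h3 := fun s => LinearMap.finrank_range_add_finrank_ker (Φ s)
    rw [Fin.sum_univ_three] at hker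
    have a0 := h3 0
    have a1 := h3 1
    have a2 := h3 2
    have b0 : finrank K (range (Φ 0 ^ 1)) = finrank K (range (Φ 0)) := by rw [pow_one]
    have b1 : finrank K (range (Φ 1 ^ 1)) = finrank K (range (Φ 1)) := by rw [pow_one]
    have b2 : finrank K (range (Φ 2 ^ 1)) = finrank K (range (Φ 2)) := by rw [pow_one]
    omega
  have h1 := trace_exact (K := K) i P hi hP hex (-X)
    (LinearMap.prodMap (rs (hX 0) 1) (LinearMap.prodMap (rs (hX 1) 1) (rs (hX 2) 1))) X (by
      intro v
      have h2 : ∀ s, X ((Φ s ^ 1) v) = (Φ s ^ 1) ((-X) v) := by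
        intro s
        rw [pow_one, hX, LinearMap.neg_apply, map_neg]
      refine Prod.ext (Subtype.ext (h2 0)) (Prod.ext (Subtype.ext (h2 1)) (Subtype.ext (h2 2)))) (by
      intro y
      rw [hPa, hPa, map_add, map_add]
      rfl)
  rw [map_neg, htr, neg_zero, zero_add, LinearMap.trace_prodMap', LinearMap.trace_prodMap'] at h1
  rw [Fin.sum_univ_three]
  change TT (hX 0) 1 + (TT (hX 1) 1 + TT (hX 2) 1) = 0 at h1
  rw [add_assoc]
  exact h1

end sum

section dim

/-- skew operators which anticommute with all `Φ_s` -/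
def Xm (B : LinearMap.BilinForm K V) (Φ : Fin 3 → End K V) : Submodule K (End K V) where
  carrier := {X | (∀ v w, B (X v) w = - B v (X w)) ∧ ∀ s v, X (Φ s v) = - Φ s (X v)}
  add_mem' := by
    rintro a b ⟨ha, ha'⟩ ⟨hb, hb'⟩
    constructor
    · intro v w
      rw [LinearMap.add_apply, LinearMap.add_apply, map_add, map_add, LinearMap.add_apply, ha, hb]
      ring
    · intro s v
      rw [LinearMap.add_apply, LinearMap.add_apply, map_add, ha', hb']
      abel
  zero_mem' := ⟨by intro v w; simp, by intro s v; simp⟩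
  smul_mem' := by
    rintro c a ⟨ha, ha'⟩
    constructor
    · intro v w
      rw [LinearMap.smul_apply, LinearMap.smul_apply, map_smul, map_smul, LinearMap.smul_apply, ha]
      simp
    · intro s v
      rw [LinearMap.smul_apply, LinearMap.smul_apply, map_smul, ha', smul_neg]

theorem mem_Xm {B : LinearMap.BilinForm K V} {Φ : Fin 3 → End K V} {X : End K V} :
    X ∈ Xm B Φ ↔ (∀ v w, B (X v) w = - B v (X w)) ∧ ∀ s v, X (Φ s v) = - Φ s (X v) := Iff.rfl

variable [FiniteDimensional K V] {B : LinearMap.BilinForm K V}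

theorem finrank_iInf_le (Φ : Fin 3 → End K V) (hΦ : ∀ s v w, B (Φ s v) w = B v (Φ s w)) :
    finrank K (⨅ s, ker (ac B (hΦ s)) : Submodule K (Sk B)) ≤ finrank K (Xm B Φ) := by
  have hm : ∀ X : (⨅ s, ker (ac B (hΦ s)) : Submodule K (Sk B)), X.1.1 ∈ Xm B Φ := by
    intro X
    refine ⟨X.1.2, ?_⟩
    intro s v
    have h1 := (Submodule.mem_iInf _).1 X.2 s
    rw [LinearMap.mem_ker] at h1
    have h2 : X.1.1 * Φ s + Φ s * X.1.1 = 0 := congrArg Subtype.val h1
    have h3 := LinearMap.congr_fun h2 v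
    rw [LinearMap.add_apply, Module.End.mul_apply, Module.End.mul_apply,
      LinearMap.zero_apply] at h3
    exact eq_neg_of_add_eq_zero_left h3
  let F : (⨅ s, ker (ac B (hΦ s)) : Submodule K (Sk B)) →ₗ[K] Xm B Φ :=
    { toFun := fun X => ⟨X.1.1, hm X⟩
      map_add' := by intro X Y; rfl
      map_smul' := by intro c X; rfl }
  refine LinearMap.finrank_le_finrank_of_injective (f := F) ?_
  intro X Y h
  apply Subtype.ext
  apply Subtype.ext
  exact congrArg (fun y : Xm B Φ => (y : End K V)) h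

/-- the dimension of the space of skew operators which anticommute with all `Φ_s` -/
theorem le_finrank_Xm [CharZero K] (hB : NS B) (Φ : Fin 3 → End K V)
    (hΦ : ∀ s v w, B (Φ s v) w = B v (Φ s w)) (hsum : ∀ v, ∑ s, Φ s v = 0) (l : Fin 3 → ℕ)
    (hl : ∀ s, Φ s ^ l s = 0) (hfree : ∀ s, l s * finrank K (ker (Φ s)) = finrank K V)
    (hker : ∑ s, finrank K (ker (Φ s)) = finrank K V) :
    finrank K V ≤ 4 * finrank K (Xm B Φ) +
      ∑ s, (if Even (l s) then 0 else finrank K (ker (Φ s))) := by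
  classical
  have hsq := square (TF B) (TF_nondeg hB) (fun s => ac B (hΦ s)) (fun s x y => ac_self (hΦ s) x y)
    (by
      intro X
      apply Subtype.ext
      ext v
      have e1 : ((∑ s, ac B (hΦ s) X : Sk B) : End K V) = ∑ s, (X.1 * Φ s + Φ s * X.1) := by
        rw [AddSubmonoidClass.coe_finsetSum]
        rfl
      rw [e1]
      change (∑ s, (X.1 * Φ s + Φ s * X.1)) v = 0
      rw [LinearMap.sum_apply]
      simp only [LinearMap.add_apply, Module.End.mul_apply]
      rw [Finset.sum_add_distrib, ← map_sum, hsum, hsum, map_zero, add_zero])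
  have hh := finrank_iInf_le Φ hΦ
  have hd := finrank_Sk_le hB
  have hA : ∀ s, finrank K V * finrank K (ker (Φ s)) ≤
      2 * finrank K (ker (ac B (hΦ s))) + (if Even (l s) then 0 else finrank K (ker (Φ s))) := by
    intro s
    have h1 := le_finrank_ac hB (hΦ s) (hl s) (hfree s)
    have h2 := card_PP (l s) (finrank K (ker (Φ s)))
    have h3 : l s * (finrank K (ker (Φ s)) * finrank K (ker (Φ s))) =
        finrank K V * finrank K (ker (Φ s)) := by rw [← mul_assoc, hfree]
    rw [h3] at h2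
    split_ifs with he
    · have h4 : (l s + 1) / 2 = l s / 2 := by
        obtain ⟨k, hk⟩ := he
        omega
      rw [h4] at h2
      omega
    · have h4 : ((l s + 1) / 2) * finrank K (ker (Φ s)) ≤
          (l s / 2) * finrank K (ker (Φ s)) + finrank K (ker (Φ s)) := by
        have : (l s + 1) / 2 ≤ l s / 2 + 1 := by omega
        calc ((l s + 1) / 2) * finrank K (ker (Φ s)) ≤ (l s / 2 + 1) * finrank K (ker (Φ s)) :=
              Nat.mul_le_mul_right _ this
          _ = _ := by ring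
      omega
  have hNN : finrank K V * finrank K V ≤ finrank K V * (finrank K V - 1) + finrank K V := by
    rcases Nat.eq_zero_or_pos (finrank K V) with h0 | h0
    · rw [h0]
    · obtain ⟨N, hN⟩ : ∃ N, finrank K V = N + 1 := ⟨finrank K V - 1, by omega⟩
      rw [hN, Nat.add_sub_cancel]
      exact le_of_eq (by ring)
  have hNN' : finrank K V * (finrank K V - 1) + finrank K V ≤ finrank K V * finrank K V := by
    rcases Nat.eq_zero_or_pos (finrank K V) with h0 | h0
    · rw [h0]
    · obtain ⟨N, hN⟩ : ∃ N, finrank K V = N + 1 := ⟨finrank K V - 1, by omega⟩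
      rw [hN, Nat.add_sub_cancel]
      exact le_of_eq (by ring)
  have hN2 : finrank K V * finrank K (ker (Φ 0)) + finrank K V * finrank K (ker (Φ 1)) +
      finrank K V * finrank K (ker (Φ 2)) = finrank K V * finrank K V := by
    rw [← mul_add, ← mul_add, ← Fin.sum_univ_three (fun s => finrank K (ker (Φ s))), hker]
  have r0 := LinearMap.finrank_range_add_finrank_ker (ac B (hΦ 0))
  have r1 := LinearMap.finrank_range_add_finrank_ker (ac B (hΦ 1))
  have r2 := LinearMap.finrank_range_add_finrank_ker (ac B (hΦ 2))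
  have a0 := hA 0
  have a1 := hA 1
  have a2 := hA 2
  rw [Fin.sum_univ_three] at hsq hker ⊢
  omega

/-- a nonzero skew operator which anticommutes with all `Φ_s` and is killed by `r` functionals -/
theorem exists_anticomm_of [CharZero K] (hB : NS B) (Φ : Fin 3 → End K V)
    (hΦ : ∀ s v w, B (Φ s v) w = B v (Φ s w)) (hsum : ∀ v, ∑ s, Φ s v = 0) (l : Fin 3 → ℕ)
    (hl : ∀ s, Φ s ^ l s = 0) (hfree : ∀ s, l s * finrank K (ker (Φ s)) = finrank K V)
    (hker : ∑ s, finrank K (ker (Φ s)) = finrank K V) {ι : Type*} [Fintype ι]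
    (f : ι → (Xm B Φ →ₗ[K] K))
    (hr : 4 * Fintype.card ι + ∑ s, (if Even (l s) then 0 else finrank K (ker (Φ s))) <
      finrank K V) :
    ∃ X : Xm B Φ, X ≠ 0 ∧ ∀ j, f j X = 0 := by
  have h1 := le_finrank_Xm hB Φ hΦ hsum l hl hfree hker
  have h2 : finrank K (ι → K) < finrank K (Xm B Φ) := by
    rw [Module.finrank_fintype_fun_eq_card]
    omega
  have h3 := LinearMap.ker_ne_bot_of_finrank_lt (f := LinearMap.pi f) h2
  obtain ⟨X, hX, hX0⟩ := Submodule.exists_mem_ne_zero_of_ne_bot h3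
  exact ⟨X, hX0, fun j => congrFun hX j⟩

/-- the trace on `range Φ_s` as a linear functional -/
noncomputable def TL (B : LinearMap.BilinForm K V) (Φ : Fin 3 → End K V) (s : Fin 3) :
    Xm B Φ →ₗ[K] K where
  toFun X := TT (X.2.2 s) 1
  map_add' X Y := by
    have h : rs ((X + Y).2.2 s) 1 = rs (X.2.2 s) 1 + rs (Y.2.2 s) 1 := by ext x; rfl
    rw [TT, h, map_add]
    rfl
  map_smul' c X := by
    have h : rs ((c • X).2.2 s) 1 = c • rs (X.2.2 s) 1 := by ext x; rfl
    rw [TT, h, map_smul]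
    rfl

theorem trace_skew [CharZero K] (hB : NS B) {X : End K V} (hX : ∀ v w, B (X v) w = - B v (X w)) :
    trace K V X = 0 := by
  have h1 := trace_exact (K := K) (U' := V) (U := Module.Dual K V) (W := PUnit)
    (B.toDual hB.nondeg).toLinearMap 0 (LinearEquiv.ker _) (by
      rw [eq_top_iff]
      intro x _
      exact ⟨0, Subsingleton.elim _ _⟩) (by
      rw [LinearMap.ker_zero]
      exact LinearEquiv.range _) (-X) (Module.Dual.transpose (R := K) X) 0 (by
      intro x
      ext w
      change B x (X w) = B ((-X) x) w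
      rw [LinearMap.neg_apply, map_neg, LinearMap.neg_apply, hX, neg_neg]) (by intro x; rfl)
  rw [LinearMap.trace_transpose', map_zero, add_zero, map_neg] at h1
  have h2 : (2 : K) * trace K V X = 0 := by linear_combination h1
  simpa using h2

/-- **(A1+)** a nonzero skew operator `X` which anticommutes with all `Φ_s`, with all traces on
`range (Φ_s ^ a)` equal to `0` -/
theorem exists_anticomm_traceless [CharZero K] (hB : NS B) (Φ : Fin 3 → End K V)
    (hΦ : ∀ s v w, B (Φ s v) w = B v (Φ s w)) (hsum : ∀ v, ∑ s, Φ s v = 0) (l : Fin 3 → ℕ)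
    (hl : ∀ s, Φ s ^ l s = 0) (hfree : ∀ s, l s * finrank K (ker (Φ s)) = finrank K V)
    (hker : ∑ s, finrank K (ker (Φ s)) = finrank K V) (htop : ⨆ s, range (Φ s) = ⊤)
    (heven : ∃ s, Even (l s))
    (hr : 4 * (Finset.univ.filter fun s => Even (l s)).card +
      ∑ s, (if Even (l s) then 0 else finrank K (ker (Φ s))) < finrank K V + 4) :
    ∃ (X : End K V) (hX : ∀ s v, X (Φ s v) = - Φ s (X v)), X ≠ 0 ∧
      (∀ v w, B (X v) w = - B v (X w)) ∧ ∀ s a, TT (hX s) a = 0 := by
  classical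
  obtain ⟨s0, hs0⟩ := heven
  have hbot : ⨅ s, ker (Φ s) = ⊥ := by
    rw [eq_bot_iff]
    intro v hv
    rw [Submodule.mem_bot]
    apply hB.nd
    intro w
    have hw : w ∈ ⨆ s, range (Φ s) := htop ▸ Submodule.mem_top
    induction hw using Submodule.iSup_induction' with
    | mem s x hx =>
      obtain ⟨y, rfl⟩ := hx
      rw [← hΦ]
      have : Φ s v = 0 := (Submodule.mem_iInf _).1 hv s
      rw [this, map_zero, LinearMap.zero_apply]
    | zero => exact map_zero _
    | add x y _ _ hx hy => rw [map_add, hx, hy, add_zero]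
  have hc : Fintype.card {s : Fin 3 // Even (l s) ∧ s ≠ s0} + 1 =
      (Finset.univ.filter fun s => Even (l s)).card := by
    have h1 : (Finset.univ.filter fun s => Even (l s)) =
        insert s0 (Finset.univ.filter fun s => Even (l s) ∧ s ≠ s0) := by
      ext s
      simp only [Finset.mem_filter, Finset.mem_univ, true_and, Finset.mem_insert]
      constructor
      · intro h
        by_cases hs : s = s0
        · exact Or.inl hs
        · exact Or.inr ⟨h, hs⟩
      · rintro (rfl | h)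
        · exact hs0
        · exact h.1
    rw [h1, Finset.card_insert_of_notMem (by simp), Fintype.card_subtype]
  obtain ⟨X, hX0, hX⟩ := exists_anticomm_of hB Φ hΦ hsum l hl hfree hker
    (fun s : {s : Fin 3 // Even (l s) ∧ s ≠ s0} => TL B Φ s.1) (by omega)
  have htr := trace_skew hB X.2.1
  have hl1 : ∀ s, finrank K V ≠ 0 → 1 ≤ l s := by
    intro s h
    by_contra h1
    apply h
    rw [← hfree s, show l s = 0 by omega, zero_mul]
  have hV : finrank K V ≠ 0 := by
    intro h
    have hsub : Subsingleton V := Module.finrank_zero_iff.1 h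
    apply hX0
    apply Subtype.ext
    ext v
    exact Subsingleton.elim _ _
  have h1 : ∀ s, s ≠ s0 → TT (X.2.2 s) 1 = 0 := by
    intro s hs
    by_cases he : Even (l s)
    · exact hX ⟨s, he, hs⟩
    · exact TT_odd (X.2.2 s) (hl s) (hfree s) htr he 1
  have h2 := sum_TT X.2.2 hsum hker htop hbot htr
  rw [Finset.sum_eq_single s0 (fun s _ hs => h1 s hs) (fun h => absurd (Finset.mem_univ s0) h)] at h2
  refine ⟨X.1, X.2.2, fun h => hX0 (Subtype.ext h), X.2.1, ?_⟩
  intro s a
  have h3 : TT (X.2.2 s) 1 = 0 := by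
    by_cases hs : s = s0
    · rw [hs]; exact h2
    · exact h1 s hs
  rcases TT_all (X.2.2 s) (hl s) (hfree s) htr (hl1 s hV) a with h | h
  · exact h
  · rw [h, h3]

end dim

end Crest.Agent.R172.Anti
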