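import Crest.Agent.R172.Anti1

/-!
Row 172 (S0260), TAME, `D` not semisimple, `t = 0` version (notes 16058, 16076, 16084):
a skew operator `X ≠ 0` which anticommutes with all `Φ_s` and whose traces on all the
`range (Φ s)` vanish (helper945).
-/

set_option autoImplicit false
set_option linter.unusedSectionVars false

namespace Crest.Agent.R172.Anti2

open Module LinearMap
open Crest.Agent.R172.Core (NS)
open Crest.Agent.R172.Anti

variable {K : Type*} [Field K] {V : Type*} [AddCommGroup V] [Module K V] [FiniteDimensional K V]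

/-- trace relation on the exact sequence `0 → V → ⊕ Φ_s V → V → 0` -/
theorem sum_trace_range (Φ : Fin 3 → End K V) (X : End K V) (hsum : ∀ v, ∑ s, Φ s v = 0)
    (hX : ∀ s v, X (Φ s v) = - Φ s (X v)) (hker : (⨅ s, ker (Φ s)) = (⊥ : Submodule K V))
    (hran : (⨆ s, range (Φ s)) = (⊤ : Submodule K V))
    (hrk : ∑ s, finrank K (range (Φ s)) = 2 * finrank K V)
    (π : Fin 3 → End K V) (hπ : ∀ s v, v ∈ range (Φ s) → π s v = v)
    (hπ' : ∀ s v, π s v ∈ range (Φ s)) :
    ∑ s, LinearMap.trace K V (X * π s) = 0 := by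
  classical
  -- the middle term
  let N := ∀ s, range (Φ s)
  let a : V →ₗ[K] N := LinearMap.pi fun s => (Φ s).rangeRestrict
  let b : N →ₗ[K] V := ∑ s, (range (Φ s)).subtype ∘ₗ LinearMap.proj s
  have ha : ∀ v s, ((a v) s : V) = Φ s v := fun v s => rfl
  have hb : ∀ y : N, b y = ∑ s, (y s : V) := by
    intro y
    simp only [b, LinearMap.sum_apply, LinearMap.comp_apply, Submodule.subtype_apply]
    rfl
  have hba : ∀ v, b (a v) = 0 := by
    intro v
    rw [hb]
    exact hsum v
  have hainj : ker a = ⊥ := by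
    rw [eq_bot_iff, ← hker]
    intro v hv
    rw [LinearMap.mem_ker] at hv
    simp only [Submodule.mem_iInf, LinearMap.mem_ker]
    intro s
    have := congrArg (fun y : N => ((y s : range (Φ s)) : V)) hv
    exact this
  have hbsurj : range b = ⊤ := by
    rw [eq_top_iff, ← hran]
    refine iSup_le fun s => ?_
    rintro _ ⟨v, rfl⟩
    refine ⟨Pi.single s ⟨Φ s v, ⟨v, rfl⟩⟩, ?_⟩
    rw [hb, Finset.sum_eq_single s]
    · simp
    · intro t _ hts
      rw [Pi.single_eq_of_ne hts]
      rfl
    · simp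
  have hdimN : finrank K N = 2 * finrank K V := by
    rw [Module.finrank_pi_fintype]
    exact hrk
  have hex : ker b = range a := by
    symm
    apply Submodule.eq_of_le_of_finrank_eq
    · rintro _ ⟨v, rfl⟩
      exact hba v
    · have h1 := LinearMap.finrank_range_add_finrank_ker a
      have h2 := LinearMap.finrank_range_add_finrank_ker b
      rw [hainj, finrank_bot] at h1
      rw [hbsurj, finrank_top] at h2
      omega
  obtain ⟨r, hr⟩ := LinearMap.exists_leftInverse_of_injective a hainj
  obtain ⟨s', hs'⟩ := LinearMap.exists_rightInverse_of_surjective b hbsurj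
  have hr' : ∀ v, r (a v) = v := fun v => LinearMap.congr_fun hr v
  have hs1 : ∀ v, b (s' v) = v := fun v => LinearMap.congr_fun hs' v
  let σ : V →ₗ[K] N := s' - a ∘ₗ r ∘ₗ s'
  have hσ : ∀ v, σ v = s' v - a (r (s' v)) := fun v => rfl
  have hbσ : ∀ v, b (σ v) = v := by
    intro v
    rw [hσ, map_sub, hba, sub_zero, hs1]
  have hrσ : ∀ v, r (σ v) = 0 := by
    intro v
    rw [hσ, map_sub, hr', sub_self]
  have hid : ∀ n : N, n = a (r n) + σ (b n) := by
    intro n
    have h1 : n - σ (b n) ∈ ker b := by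
      rw [LinearMap.mem_ker, map_sub, hbσ, sub_self]
    rw [hex] at h1
    obtain ⟨v, hv⟩ := h1
    have h2 : r n = v := by
      have := congrArg r hv
      rw [hr', map_sub, hrσ, sub_zero] at this
      exact this.symm
    rw [h2, hv, sub_add_cancel]
  -- the operator on the middle term
  have hXmem : ∀ s, ∀ v ∈ range (Φ s), X v ∈ range (Φ s) := by
    rintro s _ ⟨v, rfl⟩
    rw [hX]
    exact (range (Φ s)).neg_mem ⟨X v, rfl⟩
  let T : N →ₗ[K] N := LinearMap.pi fun s => (X.restrict (hXmem s)) ∘ₗ LinearMap.proj s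
  have hT : ∀ n s, ((T n) s : V) = X (n s) := fun n s => rfl
  have hTa : ∀ v, T (a v) = - a (X v) := by
    intro v
    funext s
    apply Subtype.ext
    rw [hT, ha, hX]
    rfl
  have hbT : ∀ n, b (T n) = X (b n) := by
    intro n
    rw [hb, hb, map_sum]
    rfl
  have htr1 : LinearMap.trace K N T = 0 := by
    have e1 : T = (T ∘ₗ a) ∘ₗ r + (T ∘ₗ σ) ∘ₗ b := by
      refine LinearMap.ext fun n => ?_
      conv_lhs => rw [hid n]
      rw [map_add]
      rfl
    rw [e1, map_add, LinearMap.trace_comp_comm' r (T ∘ₗ a), LinearMap.trace_comp_comm' b (T ∘ₗ σ)]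
    have e2 : r ∘ₗ T ∘ₗ a = - X := by
      refine LinearMap.ext fun v => ?_
      change r (T (a v)) = - X v
      rw [hTa, map_neg, hr']
    have e3 : b ∘ₗ T ∘ₗ σ = X := by
      refine LinearMap.ext fun v => ?_
      change b (T (σ v)) = X v
      rw [hbT, hbσ]
    rw [e2, e3, map_neg, neg_add_cancel]
  have htr2 : LinearMap.trace K N T = ∑ s, LinearMap.trace K V (X * π s) := by
    have e1 : T = ∑ s, (T ∘ₗ LinearMap.single K (fun s => range (Φ s)) s) ∘ₗ LinearMap.proj s := by
      refine LinearMap.ext fun n => ?_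
      rw [LinearMap.sum_apply]
      conv_lhs => rw [← LinearMap.sum_single_apply (fun s => range (Φ s)) n]
      rw [map_sum]
      rfl
    rw [e1, map_sum]
    refine Finset.sum_congr rfl fun s _ => ?_
    rw [LinearMap.trace_comp_comm' (LinearMap.proj s) (T ∘ₗ LinearMap.single K (fun s => range (Φ s)) s)]
    have e2 : (LinearMap.proj s : N →ₗ[K] range (Φ s)) ∘ₗ T ∘ₗ
        LinearMap.single K (fun s => range (Φ s)) s = X.restrict (hXmem s) := by
      ext v
      change X ((Pi.single s v : N) s) = X v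
      rw [Pi.single_eq_same]
    rw [e2]
    let pr : V →ₗ[K] range (Φ s) := (π s).codRestrict _ (hπ' s)
    have e3 : X.restrict (hXmem s) = pr ∘ₗ (X ∘ₗ (range (Φ s)).subtype) := by
      ext v
      change X v = π s (X v)
      rw [hπ s _ (hXmem s v v.2)]
    rw [e3, LinearMap.trace_comp_comm' (X ∘ₗ (range (Φ s)).subtype) pr]
    congr 1
  rw [← htr2, htr1]

/-- the trace of `X * π` does not depend on the projection `π` onto a stable subspace -/
theorem trace_proj_eq {W : Submodule K V} {X π π' : End K V} (hXW : ∀ v ∈ W, X v ∈ W)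
    (h1 : ∀ v ∈ W, π v = v) (h2 : ∀ v, π v ∈ W) (h1' : ∀ v ∈ W, π' v = v) (h2' : ∀ v, π' v ∈ W) :
    LinearMap.trace K V (X * π) = LinearMap.trace K V (X * π') := by
  have e1 : X * π = π' * (X * π) := by
    refine LinearMap.ext fun v => ?_
    change X (π v) = π' (X (π v))
    rw [h1' _ (hXW _ (h2 v))]
  have e2 : X * π' = (X * π) * π' := by
    refine LinearMap.ext fun v => ?_
    change X (π' v) = X (π (π' v))
    rw [h1 _ (h2' v)]
  rw [e1, LinearMap.trace_mul_comm, ← e2]

/-- there is a projection onto every subspace -/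
theorem exists_proj (W : Submodule K V) :
    ∃ π : End K V, (∀ v ∈ W, π v = v) ∧ ∀ v, π v ∈ W := by
  obtain ⟨p, hp⟩ := LinearMap.exists_leftInverse_of_injective W.subtype W.ker_subtype
  refine ⟨W.subtype ∘ₗ p, ?_, ?_⟩
  · intro v hv
    have := LinearMap.congr_fun hp ⟨v, hv⟩
    change p v = ⟨v, hv⟩ at this
    change ((p v : W) : V) = v
    rw [this]
  · intro v
    exact (p v).2

variable {B : LinearMap.BilinForm K V}

/-- the common anticommutant is at least a quarter of the even part (70's square count) -/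
theorem le_finrank_anti [CharZero K] (hB : NS B) (Φ : Fin 3 → End K V)
    (hΦ : ∀ s v w, B (Φ s v) w = B v (Φ s w)) (hsum : ∀ v, ∑ s, Φ s v = 0) (l : Fin 3 → ℕ)
    (hl : ∀ s, Φ s ^ l s = 0) (hfree : ∀ s, l s * finrank K (ker (Φ s)) = finrank K V)
    (hker : ∑ s, finrank K (ker (Φ s)) = finrank K V) :
    (∑ s, if Even (l s) then finrank K (ker (Φ s)) else 0) ≤
      4 * finrank K (⨅ s, ker (ac B (hΦ s)) : Submodule K (Sk B)) := by
  classical
  have hsq := square (TF B) (TF_nondeg hB) (fun s => ac B (hΦ s)) (fun s x y => ac_self (hΦ s) x y)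
    (by
      intro X
      apply Subtype.ext
      ext v
      have e1 : ((∑ s, ac B (hΦ s) X : Sk B) : End K V) = ∑ s, (X.1 * Φ s + Φ s * X.1) := by
        rw [AddSubmonoidClass.coe_finsetSum]
        rfl
      rw [e1]
      change (∑ s, (X.1 * Φ s + Φ s * X.1)) v = 0
      rw [LinearMap.sum_apply]
      simp only [LinearMap.add_apply, Module.End.mul_apply]
      rw [Finset.sum_add_distrib, ← map_sum, hsum, hsum, map_zero, add_zero])
  set h := finrank K (⨅ s, ker (ac B (hΦ s)) : Submodule K (Sk B)) with hh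
  have hd := finrank_Sk_le hB
  have hrk := fun s => LinearMap.finrank_range_add_finrank_ker (ac B (hΦ s))
  have hlow := fun s => le_finrank_ac hB (hΦ s) (hl s) (hfree s)
  have hcard := fun s => card_PP (l s) (finrank K (ker (Φ s)))
  have hA : ∀ s, finrank K V * finrank K (ker (Φ s)) +
      (if Even (l s) then finrank K (ker (Φ s)) else 0) ≤
      2 * finrank K (ker (ac B (hΦ s))) + finrank K (ker (Φ s)) := by
    intro s
    have h1 := hlow s
    have h2 := hcard s
    have h3 : l s * (finrank K (ker (Φ s)) * finrank K (ker (Φ s))) =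
        finrank K V * finrank K (ker (Φ s)) := by rw [← mul_assoc, hfree]
    rw [h3] at h2
    by_cases he : Even (l s)
    · have h4 : (l s + 1) / 2 = l s / 2 := by
        obtain ⟨k, hk⟩ := he
        omega
      rw [h4] at h2
      rw [if_pos he]
      omega
    · have h4 : ((l s + 1) / 2) * finrank K (ker (Φ s)) ≤
          (l s / 2) * finrank K (ker (Φ s)) + finrank K (ker (Φ s)) := by
        have : (l s + 1) / 2 ≤ l s / 2 + 1 := by omega
        calc ((l s + 1) / 2) * finrank K (ker (Φ s)) ≤ (l s / 2 + 1) * finrank K (ker (Φ s)) :=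
              Nat.mul_le_mul_right _ this
          _ = _ := by ring
      rw [if_neg he]
      omega
  have hNN : finrank K V * (finrank K V - 1) + finrank K V = finrank K V * finrank K V := by
    rcases Nat.eq_zero_or_pos (finrank K V) with h0 | h0
    · rw [h0]
    · obtain ⟨N, hN⟩ : ∃ N, finrank K V = N + 1 := ⟨finrank K V - 1, by omega⟩
      rw [hN, Nat.add_sub_cancel]
      ring
  have hN2 : finrank K V * finrank K (ker (Φ 0)) + finrank K V * finrank K (ker (Φ 1)) +
      finrank K V * finrank K (ker (Φ 2)) = finrank K V * finrank K V := by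
    rw [← mul_add, ← mul_add, ← Fin.sum_univ_three (fun s => finrank K (ker (Φ s))), hker]
  rw [Fin.sum_univ_three] at hsq hker
  rw [Fin.sum_univ_three]
  have r0 := hrk 0
  have r1 := hrk 1
  have r2 := hrk 2
  have a0 := hA 0
  have a1 := hA 1
  have a2 := hA 2
  omega

/-- no common kernel: the ranges span (`B` nondegenerate, `Φ` self-adjoint) -/
theorem iSup_range_eq_top (hB : NS B) (Φ : Fin 3 → End K V)
    (hΦ : ∀ s v w, B (Φ s v) w = B v (Φ s w)) (hker : (⨅ s, ker (Φ s)) = (⊥ : Submodule K V)) :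
    (⨆ s, range (Φ s)) = (⊤ : Submodule K V) := by
  have h1 : B.orthogonal (⨆ s, range (Φ s)) = ⊥ := by
    rw [eq_bot_iff, ← hker]
    intro v hv
    rw [LinearMap.BilinForm.mem_orthogonal_iff] at hv
    simp only [Submodule.mem_iInf, LinearMap.mem_ker]
    intro s
    apply hB.nd
    intro w
    rw [hΦ, hB.symm]
    exact hv _ (Submodule.mem_iSup_of_mem s ⟨w, rfl⟩)
  have h2 := hB.oo (⨆ s, range (Φ s))
  rw [h1] at h2
  rw [← h2, eq_top_iff]
  intro v _
  rw [LinearMap.BilinForm.mem_orthogonal_iff]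
  intro w hw
  rw [(Submodule.mem_bot K).1 hw]
  change B 0 v = 0
  rw [map_zero]
  rfl

/-- **the operator of the `t = 0` version**: skew, anticommuting with all `Φ_s`, all traces on the
ranges vanish.  `hbig`: `(2,4,4)`: the sum is `finrank V`; `(2,3,6)`: it is `2/3 finrank V`. -/
theorem exists_anticomm_tr [CharZero K] (hB : NS B) (Φ : Fin 3 → End K V)
    (hΦ : ∀ s v w, B (Φ s v) w = B v (Φ s w)) (hsum : ∀ v, ∑ s, Φ s v = 0) (l : Fin 3 → ℕ)
    (hl : ∀ s, Φ s ^ l s = 0) (hfree : ∀ s, l s * finrank K (ker (Φ s)) = finrank K V)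
    (hker : ∑ s, finrank K (ker (Φ s)) = finrank K V)
    (hinf : (⨅ s, ker (Φ s)) = (⊥ : Submodule K V))
    (hbig : 8 < ∑ s, if Even (l s) then finrank K (ker (Φ s)) else 0) :
    ∃ X : End K V, X ≠ 0 ∧ (∀ v w, B (X v) w = - B v (X w)) ∧
      (∀ s v, X (Φ s v) = - Φ s (X v)) ∧
      ∀ s, ∀ π : End K V, (∀ v ∈ range (Φ s), π v = v) → (∀ v, π v ∈ range (Φ s)) →
        LinearMap.trace K V (X * π) = 0 := by
  classical
  have hcount := le_finrank_anti hB Φ hΦ hsum l hl hfree hker
  have hran := iSup_range_eq_top hB Φ hΦ hinf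
  set U : Submodule K (Sk B) := ⨅ s, ker (ac B (hΦ s)) with hU
  have hUanti : ∀ X ∈ U, ∀ s v, X.1 (Φ s v) = - Φ s (X.1 v) := by
    intro X hX s v
    have h1 := (Submodule.mem_iInf _).1 hX s
    rw [LinearMap.mem_ker] at h1
    have h2 : X.1 * Φ s + Φ s * X.1 = 0 := congrArg Subtype.val h1
    have h3 := LinearMap.congr_fun h2 v
    rw [LinearMap.add_apply, Module.End.mul_apply, Module.End.mul_apply,
      LinearMap.zero_apply] at h3
    exact eq_neg_of_add_eq_zero_left h3
  choose p hp1 hp2 using fun s : Fin 3 => exists_proj (range (Φ s))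
  -- the two trace conditions
  let g : Fin 3 → (End K V →ₗ[K] K) := fun s =>
    LinearMap.trace K V ∘ₗ LinearMap.mulRight K (p s)
  have hg : ∀ s X, g s X = LinearMap.trace K V (X * p s) := fun s X => rfl
  let F : U →ₗ[K] (Fin 2 → K) := LinearMap.pi fun i =>
    (g (Fin.castSucc i)) ∘ₗ (Sk B).subtype ∘ₗ U.subtype
  have hF : ∀ (X : U) i, F X i = LinearMap.trace K V (X.1.1 * p (Fin.castSucc i)) := fun X i => rfl
  have hdim : 0 < finrank K (ker F) := by
    have h1 := LinearMap.finrank_range_add_finrank_ker (V := ↥U) (V₂ := Fin 2 → K) F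
    have h2 := Submodule.finrank_le (range F)
    rw [Module.finrank_fin_fun] at h2
    omega
  have hne : ker F ≠ ⊥ := by
    intro h0
    rw [h0, finrank_bot] at hdim
    exact lt_irrefl _ hdim
  obtain ⟨X, hXm, hX⟩ := Submodule.exists_mem_ne_zero_of_ne_bot hne
  have hanti := hUanti X.1 X.2
  have h0 : LinearMap.trace K V (X.1.1 * p 0) = 0 := by
    have := congrFun (LinearMap.mem_ker.1 hXm) 0
    rw [hF] at this
    exact this
  have h1 : LinearMap.trace K V (X.1.1 * p 1) = 0 := by
    have := congrFun (LinearMap.mem_ker.1 hXm) 1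
    rw [hF] at this
    exact this
  have hrk : ∑ s, finrank K (range (Φ s)) = 2 * finrank K V := by
    have hr := fun s => LinearMap.finrank_range_add_finrank_ker (Φ s)
    rw [Fin.sum_univ_three] at hker ⊢
    have r0 := hr 0
    have r1 := hr 1
    have r2 := hr 2
    omega
  have hrel := sum_trace_range Φ X.1.1 hsum hanti hinf hran hrk p (fun s v hv => hp1 s v hv)
    (fun s v => hp2 s v)
  rw [Fin.sum_univ_three, h0, h1, zero_add, zero_add] at hrel
  refine ⟨X.1.1, fun h => hX (Subtype.ext (Subtype.ext h)), X.1.2, hanti, ?_⟩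
  intro s π hπ1 hπ2
  have hst : ∀ v ∈ range (Φ s), X.1.1 v ∈ range (Φ s) := by
    rintro _ ⟨v, rfl⟩
    rw [hanti]
    exact (range (Φ s)).neg_mem ⟨X.1.1 v, rfl⟩
  rw [trace_proj_eq hst hπ1 hπ2 (hp1 s) (hp2 s)]
  fin_cases s
  · exact h0
  · exact h1
  · exact hrel

end Crest.Agent.R172.Anti2
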