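import Crest.Agent.R172.TL2

/-!
Row 172 (S0260), TAME, node (o2) (notes 15722, 15764): the linear algebra of the ANTISYMMETRIZED
second derivative for a derivation `D` that is not semisimple.

* `vand`: Vandermonde with two commuting operators `L`, `R` with one eigenvalue each.
* `odd_mem`: `ι₀ (w c₁²) + ι₁ (c₂ w c₁) + ι₂ (c₂² w) ∈ S` for infinitely many `t` and all
  intertwiners `w` gives `ι₁ y ∈ S` for every filtered `y`.
* `comm_mem`: `f ([Ξ, Ξ'] - [X, X']) ∈ S` for all `t, t'` gives `f ([Y, Y']) ∈ S` for all skew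
  off-diagonal filtered `Y, Y'`.
* `skew_mem`: then `f (X₁, 0) ∈ S` for every skew `X₁` commuting with `φ₁`.
-/

set_option autoImplicit false

namespace Crest.Agent.R172.AV

open Module LinearMap
open Crest.Agent.R172.Core (NS)
open Crest.Agent.R172.TL (lA lB lA_apply lB_apply lAB lA_nil lB_nil Filt)

variable {K : Type*} [Field K]

section vand

variable {V : Type*} [AddCommGroup V] [Module K V]

/-- the relation -/
def Rel (T : Set K) (n : ℕ) (L R : End K V) (G : ℕ → V) : Prop :=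
  ∀ t ∈ T, ∑ m ∈ Finset.range (n + 1), ((1 + t • L) ^ m * (1 + t • R) ^ (n - m)) (G m) = 0

theorem Rel.map {T : Set K} {n : ℕ} {L R : End K V} {G : ℕ → V} (h : Rel T n L R G)
    {A : End K V} (hL : Commute A L) (hR : Commute A R) : Rel T n L R (fun m => A (G m)) := by
  intro t ht
  have hc : ∀ m, Commute A ((1 + t • L) ^ m * (1 + t • R) ^ (n - m)) := fun m =>
    (((Commute.one_right A).add_right (hL.smul_right t)).pow_right m).mul_right
      (((Commute.one_right A).add_right (hR.smul_right t)).pow_right (n - m))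
  have h1 := congrArg A (h t ht)
  rw [map_sum, map_zero] at h1
  rw [← h1]
  refine Finset.sum_congr rfl fun m _ => ?_
  exact (LinearMap.congr_fun (hc m).eq (G m)).symm

theorem nil_ind {T : Set K} {n : ℕ} {L R : End K V} {A : End K V} (hL : Commute A L)
    (hR : Commute A R) (hA : IsNilpotent A) (C : (ℕ → V) → Prop)
    (hC : ∀ G, C G → C (fun m => A (G m)))
    (h0 : ∀ G, C G → Rel T n L R G → (∀ m ≤ n, A (G m) = 0) → ∀ m ≤ n, G m = 0) :
    ∀ G, C G → Rel T n L R G → ∀ m ≤ n, G m = 0 := by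
  obtain ⟨k, hk⟩ := hA
  have key : ∀ k : ℕ, ∀ G, C G → Rel T n L R G → (∀ m ≤ n, (A ^ k) (G m) = 0) →
      ∀ m ≤ n, G m = 0 := by
    intro k
    induction k with
    | zero => intro G _ _ h m hm; exact h m hm
    | succ k ih =>
      intro G hG hr h
      refine h0 G hG hr (ih (fun m => A (G m)) (hC G hG) (hr.map hL hR) fun m hm => ?_)
      have := h m hm
      rw [pow_succ, Module.End.mul_apply] at this
      exact this
  intro G hG hr
  exact key k G hG hr fun m _ => by rw [hk]; rfl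

theorem pow_scalar {A : End K V} {c : K} {v : V} (h : A v = c • v) (k : ℕ) :
    (A ^ k) v = c ^ k • v := by
  induction k with
  | zero => simp
  | succ k ih => rw [pow_succ, Module.End.mul_apply, h, map_smul, ih, smul_smul, pow_succ']

/-- **Vandermonde with two commuting operators** -/
theorem vand {T : Set K} (hT : T.Infinite) {n : ℕ} {L R : End K V} (hLR : Commute L R) {a b : K}
    (hab : a ≠ b) (hL : IsNilpotent (L - b • (1 : End K V)))
    (hR : IsNilpotent (R - a • (1 : End K V))) {G : ℕ → V} (h : Rel T n L R G) :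
    ∀ m ≤ n, G m = 0 := by
  have c1 : Commute (R - a • (1 : End K V)) L :=
    (hLR.symm).sub_left ((Commute.one_left L).smul_left a)
  have c2 : Commute (R - a • (1 : End K V)) R :=
    (Commute.refl R).sub_left ((Commute.one_left R).smul_left a)
  have c3 : Commute (L - b • (1 : End K V)) L :=
    (Commute.refl L).sub_left ((Commute.one_left L).smul_left b)
  have c4 : Commute (L - b • (1 : End K V)) R :=
    hLR.sub_left ((Commute.one_left R).smul_left b)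
  refine nil_ind c1 c2 hR (fun _ => True) (fun _ _ => trivial) ?_ G trivial h
  intro G _ hG hGR
  refine nil_ind c3 c4 hL (fun G => ∀ m ≤ n, (R - a • (1 : End K V)) (G m) = 0) ?_ ?_ G hGR hG
  · intro G' hG' m hm
    have e : Commute (R - a • (1 : End K V)) (L - b • (1 : End K V)) :=
      c1.sub_right ((Commute.one_right _).smul_right b)
    have := LinearMap.congr_fun e.eq (G' m)
    rw [Module.End.mul_apply, Module.End.mul_apply, hG' m hm, map_zero] at this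
    exact this
  · intro G' hG' hr hGL
    have hLs : ∀ m ≤ n, L (G' m) = b • G' m := by
      intro m hm
      have := hGL m hm
      rw [LinearMap.sub_apply, LinearMap.smul_apply, Module.End.one_apply, sub_eq_zero] at this
      exact this
    have hRs : ∀ m ≤ n, R (G' m) = a • G' m := by
      intro m hm
      have := hG' m hm
      rw [LinearMap.sub_apply, LinearMap.smul_apply, Module.End.one_apply, sub_eq_zero] at this
      exact this
    have hval : ∀ t : K, ∀ m ≤ n, ((1 + t • L) ^ m * (1 + t • R) ^ (n - m)) (G' m) =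
        ((1 + t * b) ^ m * (1 + t * a) ^ (n - m)) • G' m := by
      intro t m hm
      have e1 : (1 + t • R) (G' m) = (1 + t * a) • G' m := by
        rw [LinearMap.add_apply, Module.End.one_apply, LinearMap.smul_apply, hRs m hm, smul_smul,
          add_smul, one_smul]
      have e2 : (1 + t • L) (G' m) = (1 + t * b) • G' m := by
        rw [LinearMap.add_apply, Module.End.one_apply, LinearMap.smul_apply, hLs m hm, smul_smul,
          add_smul, one_smul]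
      rw [Module.End.mul_apply, pow_scalar e1, map_smul, pow_scalar e2, smul_smul, mul_comm]
    let T' : Set K := {t | t ∈ T ∧ 1 + t * a ≠ 0}
    have hT' : T'.Infinite := by
      have hfin : ({t : K | 1 + t * a = 0} : Set K).Finite := by
        refine Set.Subsingleton.finite ?_
        intro s hs t ht
        have hs : 1 + s * a = 0 := hs
        have ht : 1 + t * a = 0 := ht
        have ha0 : a ≠ 0 := by
          rintro rfl
          rw [mul_zero, add_zero] at hs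
          exact one_ne_zero hs
        exact mul_right_cancel₀ ha0 (add_left_cancel (hs.trans ht.symm))
      refine (hT.sdiff hfin).mono ?_
      rintro t ⟨ht, ht'⟩
      exact ⟨ht, ht'⟩
    let Λ : Set K := (fun t => (1 + t * b) / (1 + t * a)) '' T'
    have hΛ : Λ.Infinite := by
      refine hT'.image ?_
      rintro s ⟨_, hs1⟩ t ⟨_, ht1⟩ hst
      simp only at hst
      rw [div_eq_div_iff hs1 ht1] at hst
      have h3 : (s - t) * (b - a) = 0 := by linear_combination hst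
      rcases mul_eq_zero.1 h3 with h4 | h4
      · exact sub_eq_zero.1 h4
      · exact absurd (sub_eq_zero.1 h4).symm hab
    have := TL.poly_mem (⊥ : Submodule K V) hΛ (Finset.range (n + 1)) (fun m => m)
      (fun i _ j _ hij => hij) G' (by
        rintro _ ⟨t, ⟨htT, ht⟩, rfl⟩
        rw [Submodule.mem_bot]
        have h1 := hr t htT
        have h2 : ∑ m ∈ Finset.range (n + 1),
            ((1 + t * b) ^ m * (1 + t * a) ^ (n - m)) • G' m = 0 := by
          rw [← h1]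
          exact Finset.sum_congr rfl fun m hm =>
            (hval t m (Nat.lt_succ_iff.1 (Finset.mem_range.1 hm))).symm
        have h3 : ((1 + t * a) ^ n)⁻¹ • ∑ m ∈ Finset.range (n + 1),
            ((1 + t * b) ^ m * (1 + t * a) ^ (n - m)) • G' m = 0 := by rw [h2, smul_zero]
        rw [Finset.smul_sum] at h3
        rw [← h3]
        refine Finset.sum_congr rfl fun m hm => ?_
        have hm' : m ≤ n := Nat.lt_succ_iff.1 (Finset.mem_range.1 hm)
        rw [smul_smul]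
        congr 1
        rw [div_pow, ← Nat.sub_add_cancel hm', pow_add, Nat.add_sub_cancel]
        have h5 : (1 + t * a) ^ m ≠ 0 := pow_ne_zero _ ht
        have h6 : (1 + t * a) ^ (n - m) ≠ 0 := pow_ne_zero _ ht
        field_simp)
    intro m hm
    have h7 := this m (Finset.mem_range.2 (Nat.lt_succ_iff.2 hm))
    rwa [Submodule.mem_bot] at h7

end vand

section pre

variable {H E : Type*} [AddCommGroup H] [Module K H] [AddCommGroup E] [Module K E]

/-- precomposition -/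
def pre (A : End K H) : End K (H →ₗ[K] E) where
  toFun := fun F => F ∘ₗ A
  map_add' := fun x y => LinearMap.add_comp _ _ _
  map_smul' := fun c x => by rw [LinearMap.smul_comp]; rfl

theorem pre_apply (A : End K H) (F : H →ₗ[K] E) : pre A F = F ∘ₗ A := rfl

theorem pre_pow (A : End K H) (n : ℕ) : (pre A : End K (H →ₗ[K] E)) ^ n = pre (A ^ n) := by
  induction n with
  | zero =>
    refine LinearMap.ext fun F => ?_
    rw [pow_zero, pow_zero, pre_apply]
    rfl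
  | succ n ih =>
    rw [pow_succ', ih]
    refine LinearMap.ext fun F => ?_
    rw [Module.End.mul_apply, pre_apply, pre_apply, pre_apply, pow_succ, LinearMap.comp_assoc]
    rfl

theorem pre_add (A : End K H) (t : K) :
    (1 + t • pre A : End K (H →ₗ[K] E)) = pre (1 + t • A) := by
  refine LinearMap.ext fun F => LinearMap.ext fun x => ?_
  simp only [LinearMap.add_apply, LinearMap.smul_apply, Module.End.one_apply, pre_apply,
    LinearMap.comp_apply, map_add, map_smul]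

theorem pre_nil {A : End K H} (c : K) (h : IsNilpotent (A - c • (1 : End K H))) :
    IsNilpotent ((pre A : End K (H →ₗ[K] E)) - c • (1 : End K (H →ₗ[K] E))) := by
  obtain ⟨n, hn⟩ := h
  refine ⟨n, ?_⟩
  have e : ((pre A : End K (H →ₗ[K] E)) - c • (1 : End K (H →ₗ[K] E))) =
      pre (A - c • (1 : End K H)) := by
    refine LinearMap.ext fun F => LinearMap.ext fun x => ?_
    simp only [LinearMap.sub_apply, LinearMap.smul_apply, Module.End.one_apply, pre_apply,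
      LinearMap.comp_apply, map_sub, map_smul]
  rw [e, pre_pow, hn]
  refine LinearMap.ext fun F => LinearMap.ext fun x => ?_
  rw [pre_apply, LinearMap.comp_apply, LinearMap.zero_apply, map_zero]
  rfl

theorem pre_comm {A A' : End K H} (h : Commute A A') :
    Commute (pre A : End K (H →ₗ[K] E)) (pre A') := by
  refine LinearMap.ext fun F => LinearMap.ext fun x => ?_
  rw [Module.End.mul_apply, Module.End.mul_apply, pre_apply, pre_apply, pre_apply, pre_apply,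
    LinearMap.comp_apply, LinearMap.comp_apply, LinearMap.comp_apply, LinearMap.comp_apply]
  congr 1
  exact (LinearMap.congr_fun h.eq x).symm

end pre

section odd

variable {C₁ C₂ : Type*} [AddCommGroup C₁] [Module K C₁] [AddCommGroup C₂] [Module K C₂]
variable {E : Type*} [AddCommGroup E] [Module K E]

theorem lA_pow (a : End K C₂) (n : ℕ) (g : C₁ →ₗ[K] C₂) :
    ((lA a : End K (C₁ →ₗ[K] C₂)) ^ n) g = (a ^ n) ∘ₗ g := by
  induction n generalizing g with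
  | zero => rfl
  | succ n ih =>
    rw [pow_succ, Module.End.mul_apply, lA_apply, ih, pow_succ, Module.End.mul_eq_comp,
      LinearMap.comp_assoc]

theorem lB_pow (a : End K C₁) (n : ℕ) (g : C₁ →ₗ[K] C₂) :
    ((lB a : End K (C₁ →ₗ[K] C₂)) ^ n) g = g ∘ₗ (a ^ n) := by
  induction n generalizing g with
  | zero => rfl
  | succ n ih =>
    rw [pow_succ, Module.End.mul_apply, lB_apply, ih, pow_succ', Module.End.mul_eq_comp,
      LinearMap.comp_assoc]

theorem lA_add (a : End K C₂) (t : K) :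
    (1 + t • lA a : End K (C₁ →ₗ[K] C₂)) = lA (1 + t • a) := by
  refine LinearMap.ext fun F => LinearMap.ext fun x => ?_
  simp only [LinearMap.add_apply, LinearMap.smul_apply, Module.End.one_apply, lA_apply,
    LinearMap.comp_apply]

theorem lB_add (a : End K C₁) (t : K) :
    (1 + t • lB a : End K (C₁ →ₗ[K] C₂)) = lB (1 + t • a) := by
  refine LinearMap.ext fun F => LinearMap.ext fun x => ?_
  simp only [LinearMap.add_apply, LinearMap.smul_apply, Module.End.one_apply, lB_apply,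
    LinearMap.comp_apply, map_add, map_smul]

theorem op_apply (D₁ : End K C₁) (D₂ : End K C₂) (t : K) (m k : ℕ)
    (F : (C₁ →ₗ[K] C₂) →ₗ[K] E) (g : C₁ →ₗ[K] C₂) :
    (((1 + t • (pre (lA D₂) : End K ((C₁ →ₗ[K] C₂) →ₗ[K] E))) ^ m *
      (1 + t • (pre (lB D₁) : End K ((C₁ →ₗ[K] C₂) →ₗ[K] E))) ^ k) F) g =
      F ((((1 + t • D₂) ^ m) ∘ₗ g) ∘ₗ ((1 + t • D₁) ^ k)) := by
  rw [pre_add, pre_add, pre_pow, pre_pow, Module.End.mul_apply, pre_apply, pre_apply,
    LinearMap.comp_apply, LinearMap.comp_apply, lA_add, lB_add, lA_pow, lB_pow]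

theorem exists_tw {ψ₁ : End K C₁} {ψ₂ : End K C₂} {l : ℕ} (h₁ : ψ₁ ^ l = 0) (h₂ : ψ₂ ^ l = 0)
    (g : C₁ →ₗ[K] C₂) :
    (∑ j ∈ Finset.range l, ((ψ₂ ^ j) ∘ₗ g) ∘ₗ (ψ₁ ^ (l - 1 - j))) ∘ₗ ψ₁ =
      ψ₂ ∘ₗ (∑ j ∈ Finset.range l, ((ψ₂ ^ j) ∘ₗ g) ∘ₗ (ψ₁ ^ (l - 1 - j))) := by
  have h := (lAB (C₁ := C₁) (C₂ := C₂) ψ₂ ψ₁).mul_geom_sum₂ l
  have e := LinearMap.congr_fun h g
  have e0 : (∑ i ∈ Finset.range l, (lA ψ₂ : End K (C₁ →ₗ[K] C₂)) ^ i *
      (lB ψ₁ : End K (C₁ →ₗ[K] C₂)) ^ (l - 1 - i) : End K (C₁ →ₗ[K] C₂)) g =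
      ∑ j ∈ Finset.range l, ((ψ₂ ^ j) ∘ₗ g) ∘ₗ (ψ₁ ^ (l - 1 - j)) := by
    rw [LinearMap.sum_apply]
    refine Finset.sum_congr rfl fun j _ => ?_
    rw [Module.End.mul_apply, lA_pow, lB_pow, LinearMap.comp_assoc]
  rw [Module.End.mul_apply, e0, LinearMap.sub_apply, LinearMap.sub_apply, lA_apply, lB_apply,
    lA_pow, lB_pow, h₁, h₂, LinearMap.zero_comp, LinearMap.comp_zero, sub_zero, sub_eq_zero] at e
  exact e.symm

/-- `g ↦ φ₂ ^ j g φ₁ ^ (l - 1 - j)` -/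
def gm (φ₁ : End K C₁) (φ₂ : End K C₂) (l j : ℕ) : End K (C₁ →ₗ[K] C₂) :=
  lB (φ₁ ^ (l - 1 - j)) * lA (φ₂ ^ j)

theorem gm_apply (φ₁ : End K C₁) (φ₂ : End K C₂) (l j : ℕ) (g : C₁ →ₗ[K] C₂) :
    gm φ₁ φ₂ l j g = ((φ₂ ^ j) ∘ₗ g) ∘ₗ (φ₁ ^ (l - 1 - j)) := rfl

theorem odd_aux {φ₁ c₁ : End K C₁} {φ₂ c₂ : End K C₂} (hc₁ : Commute c₁ φ₁) (hc₂ : Commute c₂ φ₂)
    {l j : ℕ} (hj : j < l) (g : C₁ →ₗ[K] C₂) (x : C₁) :
    (gm φ₁ φ₂ l j (((c₂ ^ (2 * j)) ∘ₗ g) ∘ₗ (c₁ ^ (2 * l - 2 * j))) x =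
      ((((c₂ * c₂ * φ₂) ^ j) ∘ₗ g) ∘ₗ ((c₁ * c₁ * φ₁) ^ (l - 1 - j))) ((c₁ * c₁) x)) ∧
    (gm φ₁ φ₂ l j (((c₂ ^ (2 * j + 1)) ∘ₗ g) ∘ₗ (c₁ ^ (2 * l - (2 * j + 1)))) x =
      c₂ (((((c₂ * c₂ * φ₂) ^ j) ∘ₗ g) ∘ₗ ((c₁ * c₁ * φ₁) ^ (l - 1 - j))) (c₁ x))) ∧
    (gm φ₁ φ₂ l j (((c₂ ^ (2 * j + 2)) ∘ₗ g) ∘ₗ (c₁ ^ (2 * l - (2 * j + 2)))) x =
      (c₂ * c₂) (((((c₂ * c₂ * φ₂) ^ j) ∘ₗ g) ∘ₗ ((c₁ * c₁ * φ₁) ^ (l - 1 - j))) x)) := by
  have e2 : (c₂ * c₂ * φ₂) ^ j = c₂ ^ (2 * j) * φ₂ ^ j := by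
    rw [(hc₂.mul_left hc₂).mul_pow, ← pow_two, ← pow_mul]
  have e1 : (c₁ * c₁ * φ₁) ^ (l - 1 - j) = c₁ ^ (2 * (l - 1 - j)) * φ₁ ^ (l - 1 - j) := by
    rw [(hc₁.mul_left hc₁).mul_pow, ← pow_two, ← pow_mul]
  have k2 : ∀ n : ℕ, φ₂ ^ j * c₂ ^ n = c₂ ^ n * φ₂ ^ j := fun n => (hc₂.symm.pow_pow j n).eq
  have k1 : ∀ n : ℕ, φ₁ ^ (l - 1 - j) * c₁ ^ n = c₁ ^ n * φ₁ ^ (l - 1 - j) := fun n =>
    (hc₁.pow_pow n _).eq.symm
  have q0 : c₁ ^ (2 * (l - 1 - j)) * φ₁ ^ (l - 1 - j) * (c₁ * c₁) =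
      c₁ ^ (2 * l - 2 * j) * φ₁ ^ (l - 1 - j) := by
    rw [mul_assoc, ← pow_two c₁, k1, ← mul_assoc, ← pow_add]
    congr 2
    omega
  have q1 : c₁ ^ (2 * (l - 1 - j)) * φ₁ ^ (l - 1 - j) * c₁ =
      c₁ ^ (2 * l - (2 * j + 1)) * φ₁ ^ (l - 1 - j) := by
    have := k1 1
    rw [pow_one] at this
    rw [mul_assoc, this, ← mul_assoc, ← pow_succ]
    congr 2
    omega
  have q2 : 2 * l - (2 * j + 2) = 2 * (l - 1 - j) := by omega
  refine ⟨?_, ?_, ?_⟩
  · rw [gm_apply, e1, e2]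
    simp only [LinearMap.comp_apply]
    rw [← Module.End.mul_apply (φ₂ ^ j), k2, ← Module.End.mul_apply (c₁ ^ (2 * l - 2 * j)),
      ← Module.End.mul_apply _ (c₁ * c₁), q0]
  · rw [gm_apply, e1, e2]
    simp only [LinearMap.comp_apply]
    rw [← Module.End.mul_apply (φ₂ ^ j), k2, ← Module.End.mul_apply (c₁ ^ (2 * l - (2 * j + 1))),
      ← Module.End.mul_apply _ c₁, q1, ← Module.End.mul_apply c₂, ← mul_assoc, ← pow_succ' c₂]
  · rw [gm_apply, e1, e2, q2]
    simp only [LinearMap.comp_apply]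
    rw [← Module.End.mul_apply (φ₂ ^ j), k2, ← Module.End.mul_apply (c₁ ^ (2 * (l - 1 - j))),
      ← Module.End.mul_apply (c₂ * c₂), ← mul_assoc, ← pow_two c₂, ← pow_add, add_comm 2 (2 * j)]

theorem odd_gm {φ₁ : End K C₁} {φ₂ : End K C₂} {l : ℕ} (h₁ : φ₁ ^ l = 0) (h₂ : φ₂ ^ l = 0)
    {D₁ : End K C₁} {D₂ : End K C₂} {la₁ la₂ : K} (hla : la₁ ≠ la₂)
    (hn₁ : IsNilpotent (D₁ - la₁ • (1 : End K C₁))) (hn₂ : IsNilpotent (D₂ - la₂ • (1 : End K C₂)))
    (hc₁ : Commute D₁ φ₁) (hc₂ : Commute D₂ φ₂)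
    (S : Submodule K E) (ι₀ ι₁ ι₂ : (C₁ →ₗ[K] C₂) →ₗ[K] E) {T : Set K} (hT : T.Infinite)
    (h : ∀ t ∈ T, ∀ w : C₁ →ₗ[K] C₂,
      w ∘ₗ ((1 + t • D₁) * (1 + t • D₁) * φ₁) = ((1 + t • D₂) * (1 + t • D₂) * φ₂) ∘ₗ w →
      ι₀ (w ∘ₗ ((1 + t • D₁) * (1 + t • D₁))) + ι₁ ((1 + t • D₂) ∘ₗ w ∘ₗ (1 + t • D₁)) +
        ι₂ (((1 + t • D₂) * (1 + t • D₂)) ∘ₗ w) ∈ S)
    {j : ℕ} (hj : j < l) (g : C₁ →ₗ[K] C₂) : ι₁ (gm φ₁ φ₂ l j g) ∈ S := by
  classical
  let A : Fin 3 → ℕ → ((C₁ →ₗ[K] C₂) →ₗ[K] (E ⧸ S)) := fun k j =>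
    (S.mkQ ∘ₗ (![ι₀, ι₁, ι₂] k)) ∘ₗ gm φ₁ φ₂ l j
  let G : ℕ → ((C₁ →ₗ[K] C₂) →ₗ[K] (E ⧸ S)) := fun m => ∑ j ∈ Finset.range l,
    ((if m = 2 * j then A 0 j else 0) + (if m = 2 * j + 1 then A 1 j else 0) +
      (if m = 2 * j + 2 then A 2 j else 0))
  have hrel : Rel T (2 * l) (pre (lA D₂)) (pre (lB D₁)) G := by
    intro t ht
    obtain ⟨c₁, hc₁d⟩ : ∃ c : End K C₁, c = 1 + t • D₁ := ⟨_, rfl⟩
    obtain ⟨c₂, hc₂d⟩ : ∃ c : End K C₂, c = 1 + t • D₂ := ⟨_, rfl⟩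
    have k₁ : Commute c₁ φ₁ := by
      rw [hc₁d]; exact (Commute.one_left φ₁).add_left (hc₁.smul_left t)
    have k₂ : Commute c₂ φ₂ := by
      rw [hc₂d]; exact (Commute.one_left φ₂).add_left (hc₂.smul_left t)
    have hψ₁ : (c₁ * c₁ * φ₁) ^ l = 0 := by rw [(k₁.mul_left k₁).mul_pow, h₁, mul_zero]
    have hψ₂ : (c₂ * c₂ * φ₂) ^ l = 0 := by rw [(k₂.mul_left k₂).mul_pow, h₂, mul_zero]
    refine LinearMap.ext fun g => ?_
    rw [LinearMap.sum_apply, LinearMap.zero_apply]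
    simp only [op_apply]
    rw [← hc₁d, ← hc₂d]
    let X : ℕ → (C₁ →ₗ[K] C₂) := fun m => ((c₂ ^ m) ∘ₗ g) ∘ₗ (c₁ ^ (2 * l - m))
    change ∑ m ∈ Finset.range (2 * l + 1), G m (X m) = 0
    have hG : ∀ m, G m (X m) = ∑ j ∈ Finset.range l,
        ((if m = 2 * j then A 0 j (X m) else 0) + (if m = 2 * j + 1 then A 1 j (X m) else 0) +
          (if m = 2 * j + 2 then A 2 j (X m) else 0)) := by
      intro m
      simp only [G]
      rw [LinearMap.sum_apply]
      refine Finset.sum_congr rfl fun j _ => ?_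
      rw [LinearMap.add_apply, LinearMap.add_apply]
      congr 1
      · congr 1
        · split_ifs <;> rfl
        · split_ifs <;> rfl
      · split_ifs <;> rfl
    simp only [hG]
    rw [Finset.sum_comm]
    have hsum : ∀ j ∈ Finset.range l, ∑ m ∈ Finset.range (2 * l + 1),
        ((if m = 2 * j then A 0 j (X m) else 0) + (if m = 2 * j + 1 then A 1 j (X m) else 0) +
          (if m = 2 * j + 2 then A 2 j (X m) else 0)) =
        A 0 j (X (2 * j)) + A 1 j (X (2 * j + 1)) + A 2 j (X (2 * j + 2)) := by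
      intro j hj
      have hj' := Finset.mem_range.1 hj
      rw [Finset.sum_add_distrib, Finset.sum_add_distrib, Finset.sum_ite_eq', Finset.sum_ite_eq',
        Finset.sum_ite_eq', if_pos (Finset.mem_range.2 (by omega)),
        if_pos (Finset.mem_range.2 (by omega)), if_pos (Finset.mem_range.2 (by omega))]
    rw [Finset.sum_congr rfl hsum]
    let w : C₁ →ₗ[K] C₂ := ∑ j ∈ Finset.range l,
      (((c₂ * c₂ * φ₂) ^ j) ∘ₗ g) ∘ₗ ((c₁ * c₁ * φ₁) ^ (l - 1 - j))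
    have hw := exists_tw hψ₁ hψ₂ g
    have h3 := h t ht w (by rw [← hc₁d, ← hc₂d]; exact hw)
    rw [← hc₁d, ← hc₂d] at h3
    have hwa : ∀ x, w x = ∑ j ∈ Finset.range l,
      ((((c₂ * c₂ * φ₂) ^ j) ∘ₗ g) ∘ₗ ((c₁ * c₁ * φ₁) ^ (l - 1 - j))) x := by
      intro x
      simp only [w, LinearMap.sum_apply]
    have f0 : w ∘ₗ (c₁ * c₁) = ∑ j ∈ Finset.range l, gm φ₁ φ₂ l j (X (2 * j)) := by
      refine LinearMap.ext fun x => ?_
      rw [LinearMap.comp_apply, hwa, LinearMap.sum_apply]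
      exact Finset.sum_congr rfl fun j hj => (odd_aux k₁ k₂ (Finset.mem_range.1 hj) g x).1.symm
    have f1 : c₂ ∘ₗ w ∘ₗ c₁ = ∑ j ∈ Finset.range l, gm φ₁ φ₂ l j (X (2 * j + 1)) := by
      refine LinearMap.ext fun x => ?_
      rw [LinearMap.comp_apply, LinearMap.comp_apply, hwa, LinearMap.sum_apply, map_sum]
      exact Finset.sum_congr rfl fun j hj => (odd_aux k₁ k₂ (Finset.mem_range.1 hj) g x).2.1.symm
    have f2 : (c₂ * c₂) ∘ₗ w = ∑ j ∈ Finset.range l, gm φ₁ φ₂ l j (X (2 * j + 2)) := by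
      refine LinearMap.ext fun x => ?_
      rw [LinearMap.comp_apply, hwa, LinearMap.sum_apply, map_sum]
      exact Finset.sum_congr rfl fun j hj => (odd_aux k₁ k₂ (Finset.mem_range.1 hj) g x).2.2.symm
    rw [f0, f1, f2, map_sum, map_sum, map_sum, ← Finset.sum_add_distrib,
      ← Finset.sum_add_distrib] at h3
    have h4 : S.mkQ (∑ j ∈ Finset.range l, (ι₀ (gm φ₁ φ₂ l j (X (2 * j))) +
        ι₁ (gm φ₁ φ₂ l j (X (2 * j + 1))) + ι₂ (gm φ₁ φ₂ l j (X (2 * j + 2))))) = 0 := by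
      rw [Submodule.mkQ_apply, Submodule.Quotient.mk_eq_zero]
      exact h3
    rw [map_sum] at h4
    rw [← h4]
    refine Finset.sum_congr rfl fun j _ => ?_
    rw [map_add, map_add]
    rfl
  have hLR : Commute (pre (lA D₂) : End K ((C₁ →ₗ[K] C₂) →ₗ[K] (E ⧸ S))) (pre (lB D₁)) :=
    pre_comm (lAB D₂ D₁)
  have hLn : IsNilpotent ((pre (lA D₂) : End K ((C₁ →ₗ[K] C₂) →ₗ[K] (E ⧸ S))) - la₂ • 1) := by
    refine pre_nil la₂ ?_
    have : (lA D₂ : End K (C₁ →ₗ[K] C₂)) - la₂ • 1 = lA (D₂ - la₂ • (1 : End K C₂)) := by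
      refine LinearMap.ext fun F => LinearMap.ext fun x => ?_
      simp only [LinearMap.sub_apply, LinearMap.smul_apply, Module.End.one_apply, lA_apply,
        LinearMap.comp_apply]
    rw [this]
    exact lA_nil hn₂
  have hRn : IsNilpotent ((pre (lB D₁) : End K ((C₁ →ₗ[K] C₂) →ₗ[K] (E ⧸ S))) - la₁ • 1) := by
    refine pre_nil la₁ ?_
    have : (lB D₁ : End K (C₁ →ₗ[K] C₂)) - la₁ • 1 = lB (D₁ - la₁ • (1 : End K C₁)) := by
      refine LinearMap.ext fun F => LinearMap.ext fun x => ?_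
      simp only [LinearMap.sub_apply, LinearMap.smul_apply, Module.End.one_apply, lB_apply,
        LinearMap.comp_apply, map_sub, map_smul]
    rw [this]
    exact lB_nil hn₁
  have hz := vand hT hLR hla hLn hRn hrel (2 * j + 1) (by omega)
  have hA : G (2 * j + 1) = A 1 j := by
    simp only [G]
    rw [Finset.sum_eq_single j]
    · rw [if_neg (by omega), if_pos rfl, if_neg (by omega), zero_add, add_zero]
    · intro i _ hij
      rw [if_neg (by omega), if_neg (by omega), if_neg (by omega), add_zero, add_zero]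
    · intro hh
      exact absurd (Finset.mem_range.2 hj) hh
  rw [hA] at hz
  have h5 := LinearMap.congr_fun hz g
  rw [LinearMap.zero_apply] at h5
  rw [← Submodule.Quotient.mk_eq_zero]
  exact h5

theorem coord_shift {φ₁ : End K C₁} {l m : ℕ} (h₁ : φ₁ ^ l = 0) {e : Fin m → C₁}
    (b : Basis (Fin l × Fin m) K C₁) (hb : ∀ p, b p = (φ₁ ^ (p.1 : ℕ)) (e p.2))
    (o : Fin l) (ho : (o : ℕ) = l - 1) (i : Fin l) (a : Fin m) (v : C₁) :
    b.coord (i, a) v = b.coord (o, a) ((φ₁ ^ (l - 1 - i)) v) := by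
  classical
  have : b.coord (i, a) = (b.coord (o, a)) ∘ₗ (φ₁ ^ (l - 1 - (i : ℕ))) := by
    refine b.ext fun q => ?_
    rw [LinearMap.comp_apply, Basis.coord_apply, Basis.coord_apply, Basis.repr_self]
    have hi := i.2
    have h5 : (φ₁ ^ (l - 1 - (i : ℕ))) (b q) = (φ₁ ^ (l - 1 - (i : ℕ) + q.1)) (e q.2) := by
      rw [hb, ← Module.End.mul_apply, ← pow_add]
    by_cases hq : l - 1 - (i : ℕ) + q.1 < l
    · have h6 : (φ₁ ^ (l - 1 - (i : ℕ))) (b q) = b (⟨l - 1 - (i : ℕ) + q.1, hq⟩, q.2) := by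
        rw [h5, hb]
      rw [h6, Basis.repr_self]
      by_cases hqi : q = (i, a)
      · subst hqi
        have : ((⟨l - 1 - (i : ℕ) + i, hq⟩, a) : Fin l × Fin m) = (o, a) := by
          rw [Prod.mk.injEq]
          exact ⟨Fin.ext (by simp only; omega), rfl⟩
        simp only at this ⊢
        rw [this, Finsupp.single_eq_same, Finsupp.single_eq_same]
      · rw [Finsupp.single_eq_of_ne (fun h => hqi h.symm), Finsupp.single_eq_of_ne]
        intro h
        apply hqi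
        rw [Prod.mk.injEq] at h
        obtain ⟨h7, h8⟩ := h
        have h9 : (o : ℕ) = l - 1 - (i : ℕ) + q.1 := congrArg Fin.val h7
        refine Prod.ext (Fin.ext ?_) h8.symm
        show (q.1 : ℕ) = i
        omega
    · have h6 : (φ₁ ^ (l - 1 - (i : ℕ))) (b q) = 0 := by
        rw [h5]
        obtain ⟨r, hr⟩ := Nat.exists_eq_add_of_le (Nat.not_lt.1 hq)
        rw [hr, pow_add, h₁, zero_mul]
        rfl
      rw [h6, map_zero]
      have hqi : q ≠ (i, a) := by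
        rintro rfl
        simp only at hq
        omega
      rw [Finsupp.single_eq_of_ne (fun h => hqi h.symm)]
      rfl
  exact LinearMap.congr_fun this v

/-- filtered maps are sums of `φ₂ ^ j g φ₁ ^ (l - 1 - j)` -/
theorem filt_span [FiniteDimensional K C₁] {φ₁ : End K C₁} {φ₂ : End K C₂} {l : ℕ}
    (h₁ : φ₁ ^ l = 0) (hf₁ : l * finrank K (ker φ₁) = finrank K C₁) (hl : 0 < l)
    (U : Submodule K (C₁ →ₗ[K] C₂)) (hU : ∀ j < l, ∀ g, gm φ₁ φ₂ l j g ∈ U)
    {y : C₁ →ₗ[K] C₂} (hy : Filt φ₁ φ₂ y) : y ∈ U := by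
  classical
  obtain ⟨e, b, hb⟩ := TC.exists_adapted h₁ hf₁
  obtain ⟨w, hw⟩ := TL.filt_sum b hb hy
  rw [hw]
  refine U.sum_mem fun p _ => ?_
  have : (b.coord p).smulRight ((φ₂ ^ (p.1 : ℕ)) (w p)) =
      gm φ₁ φ₂ l p.1 ((b.coord (⟨l - 1, by omega⟩, p.2)).smulRight (w p)) := by
    refine LinearMap.ext fun v => ?_
    rw [gm_apply, LinearMap.comp_apply, LinearMap.comp_apply, LinearMap.smulRight_apply,
      LinearMap.smulRight_apply, map_smul,
      ← coord_shift h₁ b hb ⟨l - 1, by omega⟩ rfl p.1 p.2 v]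
  rw [this]
  exact hU p.1 p.1.2 _

/-- **the odd part** -/
theorem odd_mem [FiniteDimensional K C₁] {φ₁ : End K C₁} {φ₂ : End K C₂} {l : ℕ}
    (h₁ : φ₁ ^ l = 0) (hf₁ : l * finrank K (ker φ₁) = finrank K C₁) (hl : 0 < l)
    (h₂ : φ₂ ^ l = 0)
    {D₁ : End K C₁} {D₂ : End K C₂} {la₁ la₂ : K} (hla : la₁ ≠ la₂)
    (hn₁ : IsNilpotent (D₁ - la₁ • (1 : End K C₁))) (hn₂ : IsNilpotent (D₂ - la₂ • (1 : End K C₂)))
    (hc₁ : Commute D₁ φ₁) (hc₂ : Commute D₂ φ₂)
    (S : Submodule K E) (ι₀ ι₁ ι₂ : (C₁ →ₗ[K] C₂) →ₗ[K] E) {T : Set K} (hT : T.Infinite)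
    (h : ∀ t ∈ T, ∀ w : C₁ →ₗ[K] C₂,
      w ∘ₗ ((1 + t • D₁) * (1 + t • D₁) * φ₁) = ((1 + t • D₂) * (1 + t • D₂) * φ₂) ∘ₗ w →
      ι₀ (w ∘ₗ ((1 + t • D₁) * (1 + t • D₁))) + ι₁ ((1 + t • D₂) ∘ₗ w ∘ₗ (1 + t • D₁)) +
        ι₂ (((1 + t • D₂) * (1 + t • D₂)) ∘ₗ w) ∈ S)
    {y : C₁ →ₗ[K] C₂} (hy : Filt φ₁ φ₂ y) : ι₁ y ∈ S := by
  have := filt_span h₁ hf₁ hl (S.comap ι₁) (φ₂ := φ₂) (fun j hj g =>
    odd_gm h₁ h₂ hla hn₁ hn₂ hc₁ hc₂ S ι₀ ι₁ ι₂ hT h hj g) hy
  exact this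

end odd

end Crest.Agent.R172.AV
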