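import Crest.Agent.R172.AntiV

/-!
Row 172 (S0260), TAME, node (o2): second part of `AntiV`.

* `comm_mem`: `f ([Ξ, Ξ'] - [X, X']) ∈ S` for all `t, t'` gives `f ([Y, Y']) ∈ S` for all skew
  off-diagonal filtered `Y, Y'`.
* `skew_mem`: then `f (X₁, 0) ∈ S` for every skew `X₁` commuting with `φ₁`.
-/

set_option autoImplicit false

namespace Crest.Agent.R172.AV

open Module LinearMap
open Crest.Agent.R172.Core (NS)
open Crest.Agent.R172.TL (lA lB lA_apply lB_apply lAB lA_nil lB_nil Filt)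

variable {K : Type*} [Field K]
variable {C₁ C₂ : Type*} [AddCommGroup C₁] [Module K C₁] [AddCommGroup C₂] [Module K C₂]
variable {E : Type*} [AddCommGroup E] [Module K E]

/-- `ya` is the adjoint of `y` -/
def IsAdj (B₁ : LinearMap.BilinForm K C₁) (B₂ : LinearMap.BilinForm K C₂)
    (y : C₁ →ₗ[K] C₂) (ya : C₂ →ₗ[K] C₁) : Prop := ∀ u v, B₂ (y u) v = B₁ u (ya v)

section adj

variable [FiniteDimensional K C₁] {B₁ : LinearMap.BilinForm K C₁} {B₂ : LinearMap.BilinForm K C₂}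

/-- the adjoint, as a linear map -/
noncomputable def adj (hB₁ : NS B₁) (B₂ : LinearMap.BilinForm K C₂) :
    (C₁ →ₗ[K] C₂) →ₗ[K] (C₂ →ₗ[K] C₁) where
  toFun := fun y => (B₁.toDual hB₁.nondeg).symm.toLinearMap ∘ₗ
    (LinearMap.lcomp K K y) ∘ₗ B₂
  map_add' := fun y z => by
    refine LinearMap.ext fun v => ?_
    simp only [LinearMap.comp_apply, LinearMap.add_apply, ← map_add]
    congr 1
    refine LinearMap.ext fun u => ?_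
    simp only [LinearMap.lcomp_apply, LinearMap.add_apply, map_add]
  map_smul' := fun c y => by
    refine LinearMap.ext fun v => ?_
    simp only [LinearMap.comp_apply, LinearMap.smul_apply, RingHom.id_apply, ← map_smul]
    congr 1
    refine LinearMap.ext fun u => ?_
    simp only [LinearMap.lcomp_apply, LinearMap.smul_apply, map_smul]

theorem isAdj_adj (hB₁ : NS B₁) (hB₂ : NS B₂) (y : C₁ →ₗ[K] C₂) :
    IsAdj B₁ B₂ y (adj hB₁ B₂ y) := by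
  intro u v
  rw [hB₁.symm]
  have h1 : ∀ (f : Module.Dual K C₁) (u : C₁), B₁ ((B₁.toDual hB₁.nondeg).symm f) u = f u :=
    fun f u => LinearMap.BilinForm.apply_toDual_symm_apply _ _
  have h2 : B₁ (adj hB₁ B₂ y v) u = (LinearMap.lcomp K K y) (B₂ v) u := h1 _ u
  rw [h2, LinearMap.lcomp_apply, hB₂.symm]

theorem IsAdj.eq (hB₁ : NS B₁) {y : C₁ →ₗ[K] C₂} {ya yb : C₂ →ₗ[K] C₁}
    (ha : IsAdj B₁ B₂ y ya) (hb : IsAdj B₁ B₂ y yb) : ya = yb := by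
  refine LinearMap.ext fun v => ?_
  rw [← sub_eq_zero]
  apply hB₁.nd
  intro u
  rw [hB₁.symm, map_sub, ← ha, ← hb, sub_self]

theorem adj_eq (hB₁ : NS B₁) (hB₂ : NS B₂) {y : C₁ →ₗ[K] C₂} {ya : C₂ →ₗ[K] C₁}
    (ha : IsAdj B₁ B₂ y ya) : adj hB₁ B₂ y = ya := (isAdj_adj hB₁ hB₂ y).eq hB₁ ha

theorem IsAdj.comp {y : C₁ →ₗ[K] C₂} {ya : C₂ →ₗ[K] C₁} (h : IsAdj B₁ B₂ y ya)
    {a : End K C₁} (ha : ∀ u v, B₁ (a u) v = B₁ u (a v))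
    {c : End K C₂} (hc : ∀ u v, B₂ (c u) v = B₂ u (c v)) :
    IsAdj B₁ B₂ (c ∘ₗ y ∘ₗ a) (a ∘ₗ ya ∘ₗ c) := by
  intro u v
  rw [LinearMap.comp_apply, LinearMap.comp_apply, LinearMap.comp_apply, LinearMap.comp_apply, hc,
    h, ha]

end adj

/-- the pair of diagonal blocks of the commutator `[y - y*, z - z*]` -/
def cm (y z : C₁ →ₗ[K] C₂) (ya za : C₂ →ₗ[K] C₁) : End K C₁ × End K C₂ :=
  (za ∘ₗ y - ya ∘ₗ z, z ∘ₗ ya - y ∘ₗ za)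

variable [FiniteDimensional K C₁]

/-- from the two parameter family to all commutators -/
theorem comm_mem {B₁ : LinearMap.BilinForm K C₁} {B₂ : LinearMap.BilinForm K C₂}
    (hB₁ : NS B₁) (hB₂ : NS B₂) {φ₁ : End K C₁} {φ₂ : End K C₂} {l : ℕ}
    (h₁ : φ₁ ^ l = 0) (hf₁ : l * finrank K (ker φ₁) = finrank K C₁) (hl : 0 < l)
    (h₂ : φ₂ ^ l = 0)
    {D₁ : End K C₁} {D₂ : End K C₂} {la₁ la₂ : K} (hla : la₁ ≠ la₂)
    (hn₁ : IsNilpotent (D₁ - la₁ • (1 : End K C₁))) (hn₂ : IsNilpotent (D₂ - la₂ • (1 : End K C₂)))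
    (hc₁ : Commute D₁ φ₁) (hc₂ : Commute D₂ φ₂)
    (hs₁ : ∀ u v, B₁ (D₁ u) v = B₁ u (D₁ v)) (hs₂ : ∀ u v, B₂ (D₂ u) v = B₂ u (D₂ v))
    (S : Submodule K E) (f : (End K C₁ × End K C₂) →ₗ[K] E) {T : Set K} (hT : T.Infinite)
    (h : ∀ t ∈ T, ∀ t' ∈ T, ∀ (w w' : C₁ →ₗ[K] C₂) (wa wa' : C₂ →ₗ[K] C₁),
      IsAdj B₁ B₂ w wa → IsAdj B₁ B₂ w' wa' →
      w ∘ₗ ((1 + t • D₁) * (1 + t • D₁) * φ₁) = ((1 + t • D₂) * (1 + t • D₂) * φ₂) ∘ₗ w →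
      w' ∘ₗ ((1 + t' • D₁) * (1 + t' • D₁) * φ₁) =
        ((1 + t' • D₂) * (1 + t' • D₂) * φ₂) ∘ₗ w' →
      f ((wa' ∘ₗ ((1 + t' • D₂) * (1 + t' • D₂))) ∘ₗ (w ∘ₗ ((1 + t • D₁) * (1 + t • D₁))) -
            (wa ∘ₗ ((1 + t • D₂) * (1 + t • D₂))) ∘ₗ (w' ∘ₗ ((1 + t' • D₁) * (1 + t' • D₁))),
          (w' ∘ₗ ((1 + t' • D₁) * (1 + t' • D₁))) ∘ₗ (wa ∘ₗ ((1 + t • D₂) * (1 + t • D₂))) -
            (w ∘ₗ ((1 + t • D₁) * (1 + t • D₁))) ∘ₗ (wa' ∘ₗ ((1 + t' • D₂) * (1 + t' • D₂)))) -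
        f (cm ((1 + t • D₂) ∘ₗ w ∘ₗ (1 + t • D₁)) ((1 + t' • D₂) ∘ₗ w' ∘ₗ (1 + t' • D₁))
          ((1 + t • D₁) ∘ₗ wa ∘ₗ (1 + t • D₂)) ((1 + t' • D₁) ∘ₗ wa' ∘ₗ (1 + t' • D₂))) ∈ S)
    {y z : C₁ →ₗ[K] C₂} {ya za : C₂ →ₗ[K] C₁} (hy : Filt φ₁ φ₂ y) (hz : Filt φ₁ φ₂ z)
    (hya : IsAdj B₁ B₂ y ya) (hza : IsAdj B₁ B₂ z za) : f (cm y z ya za) ∈ S := by
  classical
  obtain rfl : adj hB₁ B₂ y = ya := adj_eq hB₁ hB₂ hya
  obtain rfl : adj hB₁ B₂ z = za := adj_eq hB₁ hB₂ hza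
  have hsc₁ : ∀ t : K, ∀ u v, B₁ ((1 + t • D₁) u) v = B₁ u ((1 + t • D₁) v) := by
    intro t u v
    simp only [LinearMap.add_apply, LinearMap.smul_apply, Module.End.one_apply, map_add, map_smul,
      LinearMap.add_apply, LinearMap.smul_apply, hs₁]
  have hsc₂ : ∀ t : K, ∀ u v, B₂ ((1 + t • D₂) u) v = B₂ u ((1 + t • D₂) v) := by
    intro t u v
    simp only [LinearMap.add_apply, LinearMap.smul_apply, Module.End.one_apply, map_add, map_smul,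
      LinearMap.add_apply, LinearMap.smul_apply, hs₂]
  -- the linear maps
  let J₁ : ∀ (z : C₁ →ₗ[K] C₂) (za : C₂ →ₗ[K] C₁), (C₁ →ₗ[K] C₂) →ₗ[K] (End K C₁ × End K C₂) :=
    fun z za =>
    { toFun := fun y => (za ∘ₗ y, -(y ∘ₗ za))
      map_add' := fun x y => by
        rw [LinearMap.comp_add, LinearMap.add_comp, neg_add]
        rfl
      map_smul' := fun c x => by
        rw [LinearMap.comp_smul, LinearMap.smul_comp, ← smul_neg]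
        rfl }
  let J₂ : ∀ (z : C₁ →ₗ[K] C₂) (za : C₂ →ₗ[K] C₁), (C₁ →ₗ[K] C₂) →ₗ[K] (End K C₁ × End K C₂) :=
    fun z za =>
    { toFun := fun y => (-(adj hB₁ B₂ y ∘ₗ z), z ∘ₗ adj hB₁ B₂ y)
      map_add' := fun x y => by
        rw [map_add, LinearMap.add_comp, LinearMap.comp_add, neg_add]
        rfl
      map_smul' := fun c x => by
        rw [map_smul, LinearMap.smul_comp, LinearMap.comp_smul, ← smul_neg]
        rfl }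
  have hJ : ∀ (z : C₁ →ₗ[K] C₂) (za : C₂ →ₗ[K] C₁) (y : C₁ →ₗ[K] C₂),
      J₁ z za y + J₂ z za y = cm y z (adj hB₁ B₂ y) za := by
    intro z za y
    refine Prod.ext ?_ ?_
    · change za ∘ₗ y + -(adj hB₁ B₂ y ∘ₗ z) = za ∘ₗ y - adj hB₁ B₂ y ∘ₗ z
      rw [← sub_eq_add_neg]
    · change -(y ∘ₗ za) + z ∘ₗ adj hB₁ B₂ y = z ∘ₗ adj hB₁ B₂ y - y ∘ₗ za
      rw [neg_add_eq_sub]
  -- first variable
  have step1 : ∀ t' ∈ T, ∀ w' : C₁ →ₗ[K] C₂,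
      w' ∘ₗ ((1 + t' • D₁) * (1 + t' • D₁) * φ₁) =
        ((1 + t' • D₂) * (1 + t' • D₂) * φ₂) ∘ₗ w' → ∀ y, Filt φ₁ φ₂ y →
      f (cm y ((1 + t' • D₂) ∘ₗ w' ∘ₗ (1 + t' • D₁)) (adj hB₁ B₂ y)
        (adj hB₁ B₂ ((1 + t' • D₂) ∘ₗ w' ∘ₗ (1 + t' • D₁)))) ∈ S := by
    intro t' ht' w' hw' y hy
    obtain ⟨V', hV'⟩ : ∃ V : C₁ →ₗ[K] C₂, V = (1 + t' • D₂) ∘ₗ w' ∘ₗ (1 + t' • D₁) := ⟨_, rfl⟩
    rw [← hV']
    have hwa' := isAdj_adj hB₁ hB₂ w'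
    have hVa' : adj hB₁ B₂ V' = (1 + t' • D₁) ∘ₗ adj hB₁ B₂ w' ∘ₗ (1 + t' • D₂) := by
      rw [hV']
      exact adj_eq hB₁ hB₂ (hwa'.comp (hsc₁ t') (hsc₂ t'))
    have := odd_mem (ι₀ := f ∘ₗ J₁ (w' ∘ₗ ((1 + t' • D₁) * (1 + t' • D₁)))
        (adj hB₁ B₂ w' ∘ₗ ((1 + t' • D₂) * (1 + t' • D₂))))
      (ι₁ := -(f ∘ₗ (J₁ V' (adj hB₁ B₂ V') + J₂ V' (adj hB₁ B₂ V'))))
      (ι₂ := f ∘ₗ J₂ (w' ∘ₗ ((1 + t' • D₁) * (1 + t' • D₁)))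
        (adj hB₁ B₂ w' ∘ₗ ((1 + t' • D₂) * (1 + t' • D₂))))
      h₁ hf₁ hl h₂ hla hn₁ hn₂ hc₁ hc₂ S hT (by
        intro t ht w hw
        have hwa := isAdj_adj hB₁ hB₂ w
        have h3 := h t ht t' ht' w w' _ _ hwa hwa' hw hw'
        have a1 : adj hB₁ B₂ (((1 + t • D₂) * (1 + t • D₂)) ∘ₗ w) =
            adj hB₁ B₂ w ∘ₗ ((1 + t • D₂) * (1 + t • D₂)) := by
          refine adj_eq hB₁ hB₂ ?_
          intro u v
          rw [LinearMap.comp_apply, LinearMap.comp_apply, Module.End.mul_apply,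
            Module.End.mul_apply, hsc₂, hsc₂, hwa]
        have a2 : adj hB₁ B₂ ((1 + t • D₂) ∘ₗ w ∘ₗ (1 + t • D₁)) =
            (1 + t • D₁) ∘ₗ adj hB₁ B₂ w ∘ₗ (1 + t • D₂) :=
          adj_eq hB₁ hB₂ (hwa.comp (hsc₁ t) (hsc₂ t))
        rw [LinearMap.comp_apply, LinearMap.neg_apply, LinearMap.comp_apply, LinearMap.comp_apply,
          LinearMap.add_apply, hJ, a2, hVa', hV']
        convert h3 using 1
        rw [sub_eq_add_neg, add_right_comm, ← map_add]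
        congr 2
        change _ + (-(adj hB₁ B₂ (((1 + t • D₂) * (1 + t • D₂)) ∘ₗ w) ∘ₗ _), _ ∘ₗ
          adj hB₁ B₂ (((1 + t • D₂) * (1 + t • D₂)) ∘ₗ w)) = _
        rw [a1]
        refine Prod.ext ?_ ?_
        · exact (sub_eq_add_neg _ _).symm
        · exact neg_add_eq_sub _ _) hy
    rw [LinearMap.neg_apply, Submodule.neg_mem_iff, LinearMap.comp_apply, LinearMap.add_apply,
      hJ] at this
    exact this
  -- second variable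
  have := odd_mem (ι₀ := (0 : (C₁ →ₗ[K] C₂) →ₗ[K] E))
      (ι₁ := -(f ∘ₗ (J₁ y (adj hB₁ B₂ y) + J₂ y (adj hB₁ B₂ y)))) (ι₂ := 0)
      h₁ hf₁ hl h₂ hla hn₁ hn₂ hc₁ hc₂ S hT (by
        intro t' ht' w' hw'
        have h3 := step1 t' ht' w' hw' y hy
        rw [LinearMap.zero_apply, LinearMap.zero_apply, zero_add, add_zero, LinearMap.neg_apply,
          LinearMap.comp_apply, LinearMap.add_apply, hJ, ← map_neg]
        have e : -cm ((1 + t' • D₂) ∘ₗ w' ∘ₗ (1 + t' • D₁)) y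
            (adj hB₁ B₂ ((1 + t' • D₂) ∘ₗ w' ∘ₗ (1 + t' • D₁))) (adj hB₁ B₂ y) =
            cm y ((1 + t' • D₂) ∘ₗ w' ∘ₗ (1 + t' • D₁)) (adj hB₁ B₂ y)
              (adj hB₁ B₂ ((1 + t' • D₂) ∘ₗ w' ∘ₗ (1 + t' • D₁))) := by
          refine Prod.ext ?_ ?_
          · exact neg_sub _ _
          · exact neg_sub _ _
        rw [e]
        exact h3) hz
  rw [LinearMap.neg_apply, LinearMap.comp_apply, LinearMap.add_apply, hJ, ← map_neg] at this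
  have e : -cm z y (adj hB₁ B₂ z) (adj hB₁ B₂ y) = cm y z (adj hB₁ B₂ y) (adj hB₁ B₂ z) := by
    refine Prod.ext ?_ ?_
    · exact neg_sub _ _
    · exact neg_sub _ _
  rw [e] at this
  exact this

end Crest.Agent.R172.AV
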