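import Crest.Agent.R172.AntiV2

/-!
Row 172 (S0260), TAME, node (o2): third part of `AntiV`: **`skew_mem`**.
-/

set_option autoImplicit false

namespace Crest.Agent.R172.AV

open Module LinearMap
open Crest.Agent.R172.Core (NS)
open Crest.Agent.R172.TL (Filt)

variable {K : Type*} [Field K]
variable {C₁ C₂ : Type*} [AddCommGroup C₁] [Module K C₁] [AddCommGroup C₂] [Module K C₂]
variable {E : Type*} [AddCommGroup E] [Module K E]

section wd

variable {V : Type*} [AddCommGroup V] [Module K V]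

/-- rank two skew operator -/
def wd (B : LinearMap.BilinForm K V) (a a' : V) : End K V :=
  (B a').smulRight a - (B a).smulRight a'

theorem wd_apply (B : LinearMap.BilinForm K V) (a a' u : V) :
    wd B a a' u = B a' u • a - B a u • a' := rfl

theorem trace_wd [FiniteDimensional K V] {B : LinearMap.BilinForm K V} (hB : NS B) (a a' : V) :
    LinearMap.trace K V (wd B a a') = 0 := by
  rw [wd, map_sub, LinearMap.trace_smulRight, LinearMap.trace_smulRight, hB.symm, sub_self]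

theorem pow_sa {B : LinearMap.BilinForm K V} {φ : End K V}
    (hφ : ∀ u v, B (φ u) v = B u (φ v)) (j : ℕ) (a b : V) :
    B ((φ ^ j) a) b = B a ((φ ^ j) b) := by
  induction j generalizing a with
  | zero => rfl
  | succ j ih =>
    rw [pow_succ, Module.End.mul_apply, ih, hφ, ← Module.End.mul_apply, ← pow_succ', pow_succ]

theorem range_pow_le (φ : End K V) {i j : ℕ} (h : i ≤ j) : range (φ ^ j) ≤ range (φ ^ i) := by
  rintro _ ⟨x, rfl⟩
  obtain ⟨r, rfl⟩ := Nat.exists_eq_add_of_le h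
  exact ⟨(φ ^ r) x, by rw [pow_add, Module.End.mul_apply]⟩

end wd

section rank

variable {B₁ : LinearMap.BilinForm K C₁} {B₂ : LinearMap.BilinForm K C₂}
  {φ₁ : End K C₁} {φ₂ : End K C₂} {l : ℕ}

theorem filt_rank (h₁ : φ₁ ^ l = 0) (hφ₁ : ∀ u v, B₁ (φ₁ u) v = B₁ u (φ₁ v)) {j : ℕ} (hj : j < l)
    {b : C₂} (hb : b ∈ range (φ₂ ^ j)) {a : C₁} (ha : a ∈ range (φ₁ ^ (l - 1 - j))) :
    Filt φ₁ φ₂ ((B₁ a).smulRight b) := by
  intro k v hv
  rw [LinearMap.smulRight_apply]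
  by_cases hk : k ≤ j
  · exact Submodule.smul_mem _ _ (range_pow_le φ₂ hk hb)
  · have h0 : B₁ a v = 0 := by
      obtain ⟨a0, rfl⟩ := ha
      obtain ⟨v0, rfl⟩ := hv
      rw [← pow_sa hφ₁ k, ← Module.End.mul_apply, ← pow_add]
      obtain ⟨r, hr⟩ := Nat.exists_eq_add_of_le (show l ≤ k + (l - 1 - j) by omega)
      rw [hr, pow_add, h₁, zero_mul, LinearMap.zero_apply, map_zero, LinearMap.zero_apply]
    rw [h0, zero_smul]
    exact Submodule.zero_mem _

theorem isAdj_rank (hB₁ : NS B₁) (a : C₁) (b : C₂) :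
    IsAdj B₁ B₂ ((B₁ a).smulRight b) ((B₂ b).smulRight a) := by
  intro u v
  rw [LinearMap.smulRight_apply, LinearMap.smulRight_apply, map_smul, map_smul,
    LinearMap.smul_apply, smul_eq_mul, smul_eq_mul, hB₁.symm u a, mul_comm]

theorem cm_rank (hB₁ : NS B₁) (hB₂ : NS B₂) (a a' : C₁) (b b' : C₂) :
    cm ((B₁ a).smulRight b) ((B₁ a').smulRight b') ((B₂ b).smulRight a) ((B₂ b').smulRight a') =
      -(B₂ b b' • wd B₁ a a', B₁ a a' • wd B₂ b b') := by
  refine Prod.ext ?_ ?_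
  · refine LinearMap.ext fun u => ?_
    change (B₂ b' (B₁ a u • b)) • a' - (B₂ b (B₁ a' u • b')) • a =
      -(B₂ b b' • (B₁ a' u • a - B₁ a u • a'))
    rw [map_smul, map_smul, hB₂.symm b' b, smul_eq_mul, smul_eq_mul]
    module
  · refine LinearMap.ext fun v => ?_
    change (B₁ a' (B₂ b v • a)) • b' - (B₁ a (B₂ b' v • a')) • b =
      -(B₁ a a' • (B₂ b' v • b - B₂ b v • b'))
    rw [map_smul, map_smul, hB₁.symm a' a, smul_eq_mul, smul_eq_mul]
    module

end rank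

variable [FiniteDimensional K C₁]

/-- a linear map killing (mod `S`) all commutators of skew off-diagonal filtered maps kills every
skew `X₁` commuting with `φ₁` -/
theorem skew_of_comm [CharZero K] [Nontrivial C₂] {B₁ : LinearMap.BilinForm K C₁}
    {B₂ : LinearMap.BilinForm K C₂}
    (hB₁ : NS B₁) (hB₂ : NS B₂) {φ₁ : End K C₁} {φ₂ : End K C₂} {l : ℕ}
    (h₁ : φ₁ ^ l = 0) (hf₁ : l * finrank K (ker φ₁) = finrank K C₁)
    (h₂ : φ₂ ^ l = 0) (hne : φ₂ ^ (l - 1) ≠ 0)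
    (hφ₁ : ∀ u v, B₁ (φ₁ u) v = B₁ u (φ₁ v)) (hφ₂ : ∀ u v, B₂ (φ₂ u) v = B₂ u (φ₂ v))
    (S : Submodule K E) (f : (End K C₁ × End K C₂) →ₗ[K] E)
    (h : ∀ (y z : C₁ →ₗ[K] C₂) (ya za : C₂ →ₗ[K] C₁), Filt φ₁ φ₂ y → Filt φ₁ φ₂ z →
      IsAdj B₁ B₂ y ya → IsAdj B₁ B₂ z za → f (cm y z ya za) ∈ S)
    {X : End K C₁} (hX : ∀ u v, B₁ (X u) v = -B₁ u (X v)) (hXφ : Commute X φ₁) :
    f (X, 0) ∈ S := by
  classical
  have hl : 0 < l := by
    rcases Nat.eq_zero_or_pos l with h0 | h0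
    · exfalso
      rw [h0, pow_zero] at h₂
      obtain ⟨x, hx⟩ := exists_ne (0 : C₂)
      apply hx
      have := LinearMap.congr_fun h₂ x
      exact this
    · exact h0
  -- the vectors of `C₂`
  obtain ⟨e0, he0⟩ : ∃ e0 : C₂, (φ₂ ^ (l - 1)) e0 ≠ 0 := by
    by_contra hcon
    push Not at hcon
    exact hne (LinearMap.ext fun x => hcon x)
  obtain ⟨z0, hz0⟩ : ∃ z0 : C₂, B₂ ((φ₂ ^ (l - 1)) e0) z0 = 1 := by
    by_contra hcon
    apply he0
    apply hB₂.nd
    intro w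
    by_contra hw
    apply hcon
    refine ⟨(B₂ ((φ₂ ^ (l - 1)) e0) w)⁻¹ • w, ?_⟩
    rw [map_smul, smul_eq_mul, inv_mul_cancel₀ hw]
  have hb : ∀ i < l, B₂ ((φ₂ ^ i) e0) ((φ₂ ^ (l - 1 - i)) z0) = 1 := by
    intro i hi
    rw [← pow_sa hφ₂, ← Module.End.mul_apply, ← pow_add, Nat.sub_add_cancel (by omega), hz0]
  -- the basic relation
  have hF : ∀ i < l, ∀ a ∈ range (φ₁ ^ (l - 1 - i)), ∀ a' ∈ range (φ₁ ^ i),
      f (wd B₁ a a', B₁ a a' • wd B₂ ((φ₂ ^ i) e0) ((φ₂ ^ (l - 1 - i)) z0)) ∈ S := by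
    intro i hi a ha a' ha'
    have h3 := h _ _ _ _ (filt_rank (B₁ := B₁) h₁ hφ₁ hi (φ₂ := φ₂) ⟨e0, rfl⟩ ha)
      (filt_rank (B₁ := B₁) (j := l - 1 - i) h₁ hφ₁ (by omega) (φ₂ := φ₂) ⟨z0, rfl⟩
        (by rw [show l - 1 - (l - 1 - i) = i by omega]; exact ha'))
      (isAdj_rank (B₂ := B₂) hB₁ a _) (isAdj_rank (B₂ := B₂) hB₁ a' _)
    rw [cm_rank hB₁ hB₂, hb i hi, one_smul, map_neg, Submodule.neg_mem_iff] at h3
    exact h3
  -- adapted basis and dual basis
  obtain ⟨e, b, hbb⟩ := TC.exists_adapted h₁ hf₁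
  have hd : ∀ p, ∃ s : C₁, ∀ u, B₁ s u = b.coord p u := fun p =>
    ⟨(B₁.toDual hB₁.nondeg).symm (b.coord p),
      fun u => LinearMap.BilinForm.apply_toDual_symm_apply _ _⟩
  choose bs hbs using hd
  have hsum1 : ∀ w : C₁, ∑ p, B₁ (b p) w • bs p = w := by
    intro w
    rw [← sub_eq_zero]
    apply hB₁.nd
    intro u
    rw [map_sub, LinearMap.sub_apply, sub_eq_zero, map_sum, LinearMap.sum_apply]
    conv_rhs => rw [hB₁.symm, ← b.sum_repr u, map_sum, LinearMap.sum_apply]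
    refine Finset.sum_congr rfl fun p _ => ?_
    rw [map_smul, map_smul, LinearMap.smul_apply, LinearMap.smul_apply, hbs, smul_eq_mul,
      smul_eq_mul, mul_comm, Basis.coord_apply]
  have hX2 : ∑ p, wd B₁ (bs p) (X (b p)) = -((2 : K) • X) := by
    refine LinearMap.ext fun u => ?_
    rw [LinearMap.sum_apply, LinearMap.neg_apply, LinearMap.smul_apply]
    have e1 : ∑ p, B₁ (X (b p)) u • bs p = -X u := by
      have := hsum1 (-X u)
      rw [← this]
      refine Finset.sum_congr rfl fun p _ => ?_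
      rw [hX, map_neg]
    have e2 : ∑ p, B₁ (bs p) u • X (b p) = X u := by
      have := b.sum_repr u
      conv_rhs => rw [← this, map_sum]
      refine Finset.sum_congr rfl fun p _ => ?_
      rw [map_smul, hbs, Basis.coord_apply]
    simp only [wd_apply]
    rw [Finset.sum_sub_distrib, e1, e2, two_smul]
    abel
  have hbsr : ∀ p : Fin l × Fin (finrank K (ker φ₁)),
      bs p ∈ range (φ₁ ^ (l - 1 - (p.1 : ℕ))) := by
    intro p
    refine TC.range_eq_orth hB₁ hφ₁ _ fun z hz => ?_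
    rw [hB₁.symm, hbs]
    have := coord_shift h₁ b hbb ⟨l - 1, by omega⟩ rfl p.1 p.2 z
    rw [LinearMap.mem_ker] at hz
    rw [hz, map_zero] at this
    exact this
  have hXr : ∀ p : Fin l × Fin (finrank K (ker φ₁)), X (b p) = (φ₁ ^ (p.1 : ℕ)) (X (e p.2)) := by
    intro p
    rw [hbb, ← Module.End.mul_apply, (hXφ.pow_right _).eq, Module.End.mul_apply]
  -- the diagonal coefficients
  have hT : ∀ p : Fin l × Fin (finrank K (ker φ₁)), B₁ (bs p) (X (b p)) =
      b.coord (⟨l - 1, by omega⟩, p.2) ((φ₁ ^ (l - 1)) (X (e p.2))) := by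
    intro p
    rw [hbs]
    have := coord_shift h₁ b hbb ⟨l - 1, by omega⟩ rfl p.1 p.2 (X (b p))
    rw [show b.coord p = b.coord (p.1, p.2) from rfl, this, hXr, ← Module.End.mul_apply, ← pow_add,
      Nat.sub_add_cancel (by have := p.1.2; omega)]
  have hT0 : ∑ a, b.coord (⟨l - 1, by omega⟩, a) ((φ₁ ^ (l - 1)) (X (e a))) = 0 := by
    have htr : ∑ p, B₁ (bs p) (X (b p)) = 0 := by
      have h5 : LinearMap.trace K C₁ ((2 : K) • X) = 0 := by
        have := congrArg (LinearMap.trace K C₁) hX2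
        rw [map_sum, map_neg] at this
        rw [← neg_eq_zero, ← this]
        exact Finset.sum_eq_zero fun p _ => trace_wd hB₁ _ _
      rw [map_smul, smul_eq_mul] at h5
      have h6 : LinearMap.trace K C₁ X = 0 := by simpa using h5
      rw [LinearMap.trace_eq_matrix_trace K b, Matrix.trace] at h6
      rw [← h6]
      refine Finset.sum_congr rfl fun p _ => ?_
      rw [Matrix.diag_apply, LinearMap.toMatrix_apply, hbs, Basis.coord_apply]
    rw [Fintype.sum_prod_type] at htr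
    simp only [hT] at htr
    rw [Finset.sum_const, Finset.card_univ, Fintype.card_fin, nsmul_eq_mul] at htr
    have hlK : (l : K) ≠ 0 := Nat.cast_ne_zero.2 (by omega)
    exact (mul_eq_zero.1 htr).resolve_left hlK
  -- conclusion
  have hs := S.sum_mem (t := (Finset.univ : Finset (Fin l × Fin (finrank K (ker φ₁)))))
    fun p _ => hF p.1 p.1.2 (bs p) (hbsr p) (X (b p)) (by rw [hXr]; exact ⟨_, rfl⟩)
  rw [← map_sum] at hs
  have hpair : ∑ p : Fin l × Fin (finrank K (ker φ₁)), ((wd B₁ (bs p) (X (b p)),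
      B₁ (bs p) (X (b p)) • wd B₂ ((φ₂ ^ (p.1 : ℕ)) e0) ((φ₂ ^ (l - 1 - (p.1 : ℕ))) z0)) :
        End K C₁ × End K C₂) = (-(2 : K)) • (X, 0) := by
    refine Prod.ext ?_ ?_
    · rw [Prod.fst_sum, Prod.smul_fst]
      change ∑ p, wd B₁ (bs p) (X (b p)) = (-(2 : K)) • X
      rw [hX2, neg_smul]
    · rw [Prod.snd_sum, Prod.smul_snd, smul_zero]
      change ∑ p : Fin l × Fin (finrank K (ker φ₁)),
        B₁ (bs p) (X (b p)) • wd B₂ ((φ₂ ^ (p.1 : ℕ)) e0) ((φ₂ ^ (l - 1 - (p.1 : ℕ))) z0) = 0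
      rw [Fintype.sum_prod_type]
      refine Finset.sum_eq_zero fun i _ => ?_
      simp only
      rw [← Finset.sum_smul]
      have : ∑ a, B₁ (bs (i, a)) (X (b (i, a))) = 0 := by
        rw [← hT0]
        exact Finset.sum_congr rfl fun a _ => hT (i, a)
      rw [this, zero_smul]
  rw [hpair, map_smul] at hs
  exact (Submodule.smul_mem_iff _ (neg_ne_zero.2 two_ne_zero)).1 hs

end Crest.Agent.R172.AV
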