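import Crest.Agent.R172.TG1

/-!
Row 172, TAME (T0), node N4 of MASTER v3: the END in the quotient-space form (notes 15122, 15129).

* `QQ J N W F e`: `Y` with `Y - z F - h ∈ N`, `z` self-adjoint, `h ∈ W`, `e h = 0`.
* `glueQQ`: `X` skew, `X = e X e`, `X F E_s ∈ QQ` for all arms `s` implies `X = 0`.
* `tame_falseR`: arbitrary radical: every `A` filtered at all arms has a lift `A'` (`e A' e = A`) with
  `A' F ∈ QQ`: then `(M, Φ, D)` is not tame.
* `tame_falseQQ`: the form for `R = 0`, arm by arm.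
-/

set_option autoImplicit false
set_option linter.unusedSectionVars false

namespace Crest.Agent.R172.TG

open Matrix Module Crest.Agent.R172.FO Crest.Agent.R172.Core

variable {ι : Type*} [Fintype ι] [DecidableEq ι] {δ : Type*} [Fintype δ] [DecidableEq δ]
variable {k K : Type*} [Field k] [Field K] [Algebra k K]
variable {arm : δ → Fin 3} {J : Matrix ι ι K} {B : Matrix δ δ K}
  {N W : Submodule K (Matrix ι δ K)} {F : Matrix ι δ K} {e : Matrix ι ι K}

/-- the space `QQ` -/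
def QQ (J : Matrix ι ι K) (N W : Submodule K (Matrix ι δ K)) (F : Matrix ι δ K)
    (e : Matrix ι ι K) : Submodule K (Matrix ι δ K) where
  carrier := {Y | ∃ (z : Matrix ι ι K) (h : Matrix ι δ K), zᵀ * J = J * z ∧ h ∈ W ∧ e * h = 0 ∧
    Y - z * F - h ∈ N}
  add_mem' := by
    rintro Y Y' ⟨z, h, h1, h2, h3, h4⟩ ⟨z', h', h1', h2', h3', h4'⟩
    refine ⟨z + z', h + h', ?_, W.add_mem h2 h2', ?_, ?_⟩
    · rw [transpose_add, Matrix.add_mul, Matrix.mul_add, h1, h1']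
    · rw [Matrix.mul_add, h3, h3', add_zero]
    · have : Y + Y' - (z + z') * F - (h + h') = (Y - z * F - h) + (Y' - z' * F - h') := by
        rw [Matrix.add_mul]; abel
      rw [this]
      exact N.add_mem h4 h4'
  zero_mem' := ⟨0, 0, by simp, W.zero_mem, by simp, by simp⟩
  smul_mem' := by
    rintro c Y ⟨z, h, h1, h2, h3, h4⟩
    refine ⟨c • z, c • h, ?_, W.smul_mem c h2, ?_, ?_⟩
    · rw [transpose_smul, Matrix.smul_mul, h1, Matrix.mul_smul]
    · rw [Matrix.mul_smul, h3, smul_zero]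
    · have : c • Y - (c • z) * F - c • h = c • (Y - z * F - h) := by
        rw [Matrix.smul_mul, smul_sub, smul_sub]
      rw [this]
      exact N.smul_mem c h4

theorem mem_QQ {Y : Matrix ι δ K} : Y ∈ QQ J N W F e ↔
    ∃ (z : Matrix ι ι K) (h : Matrix ι δ K), zᵀ * J = J * z ∧ h ∈ W ∧ e * h = 0 ∧
      Y - z * F - h ∈ N := Iff.rfl

/-- if `A F ∈ QQ` then `A` is self-adjoint on the range of `e` -/
theorem symm_of_QQ (hD : Data k arm J B N W) (hF : F ∈ N ⊓ W) {R : Matrix δ ι K}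
    (hR : F * R = e) (heJ : eᵀ * J = J * e) {A : Matrix ι ι K} (hA : A * F ∈ QQ J N W F e) :
    (e * A * e)ᵀ * J = J * (e * A * e) := by
  obtain ⟨z, h, h1, h2, h3, h4⟩ := hA
  have h5 := glueQ hD hF hR (A := A - z) h2 (by rw [Matrix.sub_mul]; exact h4)
    (by rw [heJ, Matrix.mul_assoc, h3, Matrix.mul_zero])
  have h6 : eᵀ * J * (A - z) * e = J * (e * A * e) - J * (e * z * e) := by
    rw [heJ, ← Matrix.mul_sub, ← Matrix.sub_mul, ← Matrix.mul_sub]
    simp only [Matrix.mul_assoc]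
  have h7 : (J * (e * z * e))ᵀ = J * (e * z * e) := by
    rw [transpose_mul, transpose_mul, transpose_mul, hD.J_symm]
    calc eᵀ * (zᵀ * eᵀ) * J = eᵀ * (zᵀ * (eᵀ * J)) := by simp only [Matrix.mul_assoc]
      _ = eᵀ * (zᵀ * J * e) := by rw [heJ, Matrix.mul_assoc]
      _ = eᵀ * J * (z * e) := by rw [h1]; simp only [Matrix.mul_assoc]
      _ = _ := by rw [heJ]; simp only [Matrix.mul_assoc]
  rw [h6, transpose_sub, h7, sub_left_inj, transpose_mul, hD.J_symm] at h5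
  exact h5

/-- a skew matrix on the range of `e` with `X F ∈ QQ` vanishes -/
theorem skew_zero (hD : Data k arm J B N W) (h2 : (2 : K) ≠ 0) (hF : F ∈ N ⊓ W)
    {R : Matrix δ ι K} (hR : F * R = e) (heJ : eᵀ * J = J * e) {X A : Matrix ι ι K}
    (hX : Xᵀ * J + J * X = 0) (hXA : e * A * e = X) (hA : A * F ∈ QQ J N W F e) : X = 0 := by
  have h3 := symm_of_QQ hD hF hR heJ hA
  rw [hXA] at h3
  rw [h3, ← two_smul K] at hX
  have h6 : J * X = 0 := (smul_eq_zero.1 hX).resolve_left h2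
  obtain ⟨Ji, hJi, hJi', _⟩ := symm_inv hD.J_symm hD.J_unit
  calc X = Ji * (J * X) := by rw [← Matrix.mul_assoc, hJi', Matrix.one_mul]
    _ = 0 := by rw [h6, Matrix.mul_zero]

theorem sum_arm {S : Submodule K (Matrix ι δ K)} {Y : Matrix ι δ K}
    (h : ∀ s, Y * E K arm s ∈ S) : Y ∈ S := by
  have e1 : Y = ∑ s, Y * E K arm s := by rw [← Matrix.mul_sum, sum_E, Matrix.mul_one]
  rw [e1]
  exact S.sum_mem fun s _ => h s

/-- **node N4, algebraic part**: `X F E_s ∈ QQ` for all arms and `X` skew on `e` imply `X = 0`. -/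
theorem glueQQ (hD : Data k arm J B N W) (h2 : (2 : K) ≠ 0) (hF : F ∈ N ⊓ W)
    {R : Matrix δ ι K} (hR : F * R = e) (heJ : eᵀ * J = J * e) {X : Matrix ι ι K}
    (hX : Xᵀ * J + J * X = 0) (heX : e * X = X) (hXe : X * e = X)
    (hS : ∀ s, X * F * E K arm s ∈ QQ J N W F e) : X = 0 :=
  skew_zero hD h2 hF hR heJ hX (by rw [heX, hXe]) (sum_arm hS)

section tame

variable {M : Submodule K (ι → K)}

theorem fix_of_mem (he : e * e = e) (hM : ∀ v, v ∈ M ↔ ∃ w, v = e *ᵥ w) (v : M) :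
    e *ᵥ (v : ι → K) = v := by
  obtain ⟨u, hu⟩ := (hM _).1 v.2
  rw [hu, mulVec_mulVec, he]

theorem hat_skew (he : e * e = e) (heJ : eᵀ * J = J * e)
    (hM : ∀ v, v ∈ M ↔ ∃ w, v = e *ᵥ w) {X : Module.End K M}
    (hXs : ∀ v w, frm J M (X v) w = - frm J M v (X w)) :
    (hat e hM X)ᵀ * J + J * hat e hM X = 0 := by
  have h1 : ∀ v w : ι → K, v ⬝ᵥ (((hat e hM X)ᵀ * J + J * hat e hM X) *ᵥ w) = 0 := by
    intro v w
    have e1 : v ⬝ᵥ (((hat e hM X)ᵀ * J) *ᵥ w) = (hat e hM X *ᵥ v) ⬝ᵥ (J *ᵥ w) := by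
      rw [← mulVec_mulVec, dotProduct_mulVec, vecMul_transpose]
    have hPv : ∀ v w : ι → K, (e *ᵥ v) ⬝ᵥ (J *ᵥ w) = v ⬝ᵥ (J *ᵥ (e *ᵥ w)) := adj heJ
    have e2 : (hat e hM X *ᵥ v) ⬝ᵥ (J *ᵥ w)
        = frm J M (X (prM e hM v)) (prM e hM w) := by
      rw [frm_apply, prM_coe, ← hat_mulVec, ← hPv, mulVec_mulVec, P_mul_hat he]
    have e3 : v ⬝ᵥ ((J * hat e hM X) *ᵥ w)
        = frm J M (prM e hM v) (X (prM e hM w)) := by
      rw [frm_apply, prM_coe, ← hat_mulVec, hPv, mulVec_mulVec w e, P_mul_hat he,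
        mulVec_mulVec]
    rw [add_mulVec, dotProduct_add, e1, e2, e3, hXs, neg_add_cancel]
  ext i j
  have h3 := h1 (Pi.single i 1) (Pi.single j 1)
  rw [mulVec_single_one, single_one_dotProduct] at h3
  exact h3

theorem hat_eq_zero (he : e * e = e) (hM : ∀ v, v ∈ M ↔ ∃ w, v = e *ᵥ w) {X : Module.End K M}
    (h : hat e hM X = 0) : X = 0 := by
  apply LinearMap.ext
  intro v
  apply Subtype.ext
  have h4 := hat_mulVec hM X (v : ι → K)
  rw [h, zero_mulVec, prM_fix he] at h4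
  rw [← h4]
  rfl

theorem core_sa (hD : Data k arm J B N W) (he : e * e = e) (heJ : eᵀ * J = J * e)
    (hM : ∀ v, v ∈ M ↔ ∃ w, v = e *ᵥ w) {ΦM : Fin 3 → Module.End K M}
    (hΦM : ∀ s v, ((ΦM s v : M) : ι → K) = e *ᵥ (Phi arm J B F s *ᵥ (v : ι → K)))
    (s : Fin 3) (v w : M) : frm J M (ΦM s v) w = frm J M v (ΦM s w) := by
  have hΦ : (Phi arm J B F s)ᵀ * J = J * Phi arm J B F s := by
    unfold Phi
    rw [transpose_mul, hD.J_symm, Slack.M_transpose hD, ← Matrix.mul_assoc]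
  have hw := fix_of_mem he hM w
  have hv := fix_of_mem he hM v
  rw [frm_apply, frm_apply, hΦM, hΦM, adj heJ, hw, adj hΦ]
  conv_lhs => rw [← hv]
  rw [adj heJ]

/-- **END of (T0), arbitrary radical.** `e` = matrix of the projection `C.π` on the core `M`,
`ΦM s = cp C Φ_s` the core operators. -/
theorem tame_falseR [CharZero K] (hD : Data k arm J B N W) (hF : F ∈ N ⊓ W)
    {R : Matrix δ ι K} (hR : F * R = e) (he : e * e = e) (heJ : eᵀ * J = J * e)
    (hM : ∀ v, v ∈ M ↔ ∃ w, v = e *ᵥ w) (ΦM : Fin 3 → Module.End K M)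
    (hΦM : ∀ s v, ((ΦM s v : M) : ι → K) = e *ᵥ (Phi arm J B F s *ᵥ (v : ι → K)))
    {D : Module.End K M} (hDΦ : ∀ s v, D (ΦM s v) = ΦM s (D v))
    (hDs : ⨆ ν, D.maxGenEigenspace ν = ⊤) (hT : Tame ΦM D)
    (hext : ∀ A : Module.End K M,
      (∀ (s : Fin 3) (j : ℕ), ∀ x ∈ LinearMap.range (ΦM s ^ j), A x ∈ LinearMap.range (ΦM s ^ j)) →
      (∀ v w, frm J M (A v) w = - frm J M v (A w)) →
      ∃ A' : Matrix ι ι K, e * A' * e = hat e hM A ∧ A' * F ∈ QQ J N W F e) : False := by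
  have hNS := frm_NS hD.J_symm hD.J_unit he heJ hM
  obtain ⟨X, hX0, hXs, hXr⟩ :=
    TC.exists_skew_of_tame' hNS ΦM (core_sa hD he heJ hM hΦM) hDΦ hDs hT
  obtain ⟨A', h1, h2⟩ := hext X hXr hXs
  exact hX0 (hat_eq_zero he hM
    (skew_zero hD two_ne_zero hF hR heJ (hat_skew he heJ hM hXs) h1 h2))

/-- **END of (T0), `R = 0`, arm by arm.** -/
theorem tame_falseQQ [CharZero K] (hD : Data k arm J B N W) (hF : F ∈ N ⊓ W)
    {R : Matrix δ ι K} (hR : F * R = e) (he : e * e = e) (heJ : eᵀ * J = J * e)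
    (hM : ∀ v, v ∈ M ↔ ∃ w, v = e *ᵥ w) (ΦM : Fin 3 → Module.End K M)
    (hΦM : ∀ s v, ((ΦM s v : M) : ι → K) = e *ᵥ (Phi arm J B F s *ᵥ (v : ι → K)))
    {D : Module.End K M} (hDΦ : ∀ s v, D (ΦM s v) = ΦM s (D v))
    (hDs : ⨆ ν, D.maxGenEigenspace ν = ⊤) (hT : Tame ΦM D)
    (hext : ∀ (s : Fin 3) (A : Module.End K M),
      (∀ j : ℕ, ∀ x ∈ LinearMap.range (ΦM s ^ j), A x ∈ LinearMap.range (ΦM s ^ j)) →
      hat e hM A * F * E K arm s ∈ QQ J N W F e) : False :=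
  tame_falseR hD hF hR he heJ hM ΦM hΦM hDΦ hDs hT fun A hA _ =>
    ⟨hat e hM A, by rw [P_mul_hat he, hat_mul_P he], sum_arm fun s => hext s A (hA s)⟩

end tame

end Crest.Agent.R172.TG
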