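import Crest.Agent.R172.Fin3
import Crest.Agent.R172.N5a

/-!
Row 172 (S0260), node R-AsmIn: `InT00` from the abstract tame theorem.

`AsmIn.inT00_of`: it is enough to prove `False` from `FO.Data` (over `c.arm, Jm n K, c.B K`), nilpotency
of all `Ph H s`, `H ∈ 𝒦`, `FO.GenOver F G`, `𝒦iso = 0`, a core `C` of `Ph F` and `TameAt F G C τ`.
-/

set_option autoImplicit false
set_option linter.unusedSectionVars false

namespace Crest.Agent.R172.AsmIn

open Module Matrix Crest.AlgebraR.SpinSaturation Crest.Agent.R172.SoGrade Crest.Agent.R172.CF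
open Crest.Agent.R172.Gen (Jm Ix emb Ent ent)
open Crest.Agent.R172.ThX Crest.Agent.R172.CSys
open Crest.Agent.R172.Ind

/-- **(T00)** from the abstract form. -/
theorem inT00_of
    (h : ∀ (n : ℕ) (a : Fin 3 → Fin n → ℤ) (c : Cfg n a) (K : Type) [Field K] [Algebra ℂ K]
      [IsAlgClosed K] [CharZero K] (N W : Submodule K (Matrix (Ix n) c.δ K)),
      FO.Data ℂ c.arm (Jm n K) (c.B K) N W →
      (∀ H ∈ N ⊓ W, ∃ k, ∀ s, MM (pU c K) (adjU c K) (Matrix.toLin' H) (Matrix.toLin' H) s ^ k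
        = 0) →
      (∀ H ∈ N ⊓ W, ∀ v, ∑ s, MM (pU c K) (adjU c K) (Matrix.toLin' H) (Matrix.toLin' H) s v = 0) →
      Om.Kiso (Jm n K) N W = ⊥ →
      ∀ F G : Matrix (Ix n) c.δ K, FO.GenOver ℂ c.arm N W F G →
      ∀ (C : St.Core (BV n K) (MM (pU c K) (adjU c K) (Matrix.toLin' F) (Matrix.toLin' F)))
        (τ : Module.End K C.M), TameAt F G C τ → False) : InT00 := by
  refine InT00.of_forall ?_
  intro n a c q R K _ _ _ g H hI h0 F G hF C τ hτ
  have hcz : CharZero K := charZero_of_injective_algebraMap (algebraMap ℂ K).injective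
  exact h n a c K (c.N g) (VL (q.toPol.LH H)) hI.data
    (fun H' hH' => MM_nil R hI.gi.orth hH'.1) (fun H' hH' => MM_sum hI.data hH'.2) h0 F G hF C τ
    hτ

end Crest.Agent.R172.AsmIn
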