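import Crest.Agent.R172.FO2

/-!
Row 172 (S0260), T0, arbitrary radical and arbitrary `D`: the connection on the cover may be taken
to be block diagonal + `b` (`b` = the exact off-diagonal corrections), notes of helper719 (21:03),
helper619 (21:01).
-/

set_option autoImplicit false
set_option linter.unusedSectionVars false

namespace Crest.Agent.R172.BConn

open Matrix Crest.Agent.R172.FO

variable {ι : Type*} [Fintype ι] [DecidableEq ι]
variable {n : Type*} [Fintype n] [DecidableEq n]
variable {β : Type*} [Fintype β] [DecidableEq β]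
variable {k K : Type*} [Field k] [Field K] [Algebra k K]
variable {Φ : Fin 3 → Matrix ι ι K} {p : Matrix ι n K} {α : Fin 3 → Matrix n n K}

theorem word_mul (hp : ∀ r, Φ r * p = p * α r) (w : List (Fin 3)) :
    (w.map Φ).prod * p = p * (w.map α).prod := by
  induction w with
  | nil => simp
  | cons s w ih =>
    rw [List.map_cons, List.prod_cons, List.map_cons, List.prod_cons, Matrix.mul_assoc, ih,
      ← Matrix.mul_assoc, hp, Matrix.mul_assoc]

theorem word_com {e : Matrix n n K} (he : ∀ r, e * α r = α r * e) (w : List (Fin 3)) :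
    e * (w.map α).prod = (w.map α).prod * e := by
  induction w with
  | nil => simp
  | cons s w ih =>
    rw [List.map_cons, List.prod_cons, ← Matrix.mul_assoc, he, Matrix.mul_assoc, ih,
      Matrix.mul_assoc]

/-- a map intertwining `α` and `Φ` modulo `im (p e)` with values killed by long words modulo
`im (p e)` has values in `im (p e)` -/
theorem exists_fac (hp : ∀ r, Φ r * p = p * α r)
    {e : Matrix n n K} (he : ∀ r, e * α r = α r * e) {γ : Fin 3 → Matrix n n K}
    {ρ : Fin 3 → Matrix n n K} (hρ : ∑ r, γ r * ρ r = 1)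
    {u : Matrix ι n K} (hu : ∀ r, ∃ ν : Matrix n n K, u * γ r = Φ r * u + p * e * ν) {m : ℕ}
    (hm : ∀ w : List (Fin 3), w.length = m → ∃ ν : Matrix n n K, (w.map Φ).prod * u = p * e * ν) :
    ∃ ν : Matrix n n K, u = p * e * ν := by
  choose ν0 hν0 using hu
  -- after `j` steps
  have key : ∀ j : ℕ, j ≤ m → ∀ w : List (Fin 3), w.length = m - j →
      ∃ ν : Matrix n n K, (w.map Φ).prod * u = p * e * ν := by
    intro j
    induction j with
    | zero => intro _ w hw; exact hm w (by simpa using hw)
    | succ j ih =>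
      intro hj w hw
      have h1 : ∀ r, ∃ ν : Matrix n n K, ((w ++ [r]).map Φ).prod * u = p * e * ν := by
        intro r
        refine ih (by omega) (w ++ [r]) ?_
        rw [List.length_append, hw, List.length_singleton]
        omega
      choose ν1 hν1 using h1
      refine ⟨∑ r, (ν1 r + (w.map α).prod * ν0 r) * ρ r, ?_⟩
      have e1 : u = ∑ r, (Φ r * u + p * e * ν0 r) * ρ r := by
        calc u = u * ∑ r, γ r * ρ r := by rw [hρ, Matrix.mul_one]
          _ = ∑ r, (u * γ r) * ρ r := by
              rw [Matrix.mul_sum]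
              exact Finset.sum_congr rfl fun r _ => (Matrix.mul_assoc _ _ _).symm
          _ = _ := Finset.sum_congr rfl fun r _ => by rw [hν0]
      calc (w.map Φ).prod * u = (w.map Φ).prod * ∑ r, (Φ r * u + p * e * ν0 r) * ρ r := by
            conv_lhs => rw [e1]
        _ = ∑ r, (w.map Φ).prod * ((Φ r * u + p * e * ν0 r) * ρ r) := Matrix.mul_sum _ _ _
        _ = ∑ r, p * e * ((ν1 r + (w.map α).prod * ν0 r) * ρ r) := by
            refine Finset.sum_congr rfl fun r _ => ?_
            have h2 : (w.map Φ).prod * (Φ r * u) = p * e * ν1 r := by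
              rw [← hν1 r, List.map_append, List.prod_append]
              simp [Matrix.mul_assoc]
            have h3 : (w.map Φ).prod * (p * e * ν0 r) = p * e * ((w.map α).prod * ν0 r) := by
              rw [Matrix.mul_assoc p e, ← Matrix.mul_assoc, word_mul hp, Matrix.mul_assoc p,
                ← Matrix.mul_assoc _ e, ← word_com he]
              simp only [Matrix.mul_assoc]
            rw [← Matrix.mul_assoc ((w.map Φ).prod), Matrix.mul_add, h2, h3, ← Matrix.mul_add,
              Matrix.mul_assoc]
        _ = _ := by rw [Matrix.mul_sum]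
  obtain ⟨ν, hν⟩ := key m le_rfl [] (by simp)
  exact ⟨ν, by simpa using hν⟩

theorem map_sum' {d : Derivation k K K} {a b : Type*} (S : Finset β) (A : β → Matrix a b K) :
    (∑ i ∈ S, A i).map d = ∑ i ∈ S, (A i).map d := by
  ext i j
  simp [Matrix.sum_apply, map_sum]

/-- **the connection may be taken block diagonal + `b`.** -/
theorem exists_conn {d : Derivation k K K} (hp : ∀ r, Φ r * p = p * α r)
    {ρ : Fin 3 → Matrix n n K} (hρ : ∑ r, α r * ρ r = 1)
    {e : β → Matrix n n K} (he : ∀ i r, e i * α r = α r * e i) (idem : ∀ i, e i * e i = e i)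
    (orth : ∀ i j, i ≠ j → e i * e j = 0) (hsum : ∑ i, e i = 1) (hde : ∀ i, (e i).map d = 0)
    {g : Matrix n n K} (hge : ∀ i, g * e i = (e i)ᵀ * g) {θ : Matrix n n K}
    (hθ : p.map d = p * θ) {c : Fin 3 → Matrix n n K} (hc : ∀ r, (Φ r).map d * p = p * c r)
    {b : Matrix n n K} (hbR : g * b = 0)
    (hbe : ∀ i j, i ≠ j → ∀ r, e i * (b * α r - α r * b) * e j = e i * c r * e j)
    (hθR : ∀ i j, i ≠ j → g * (e i * θ * e j) = 0) {m : ℕ}
    (hkill : ∀ w : List (Fin 3), w.length = m → ∀ y : Matrix n n K, g * y = 0 →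
      p * ((w.map α).prod * y) = 0) :
    ∃ D : Matrix n n K, (∀ i, e i * D = D * e i) ∧ p.map d = p * (D + b) := by
  -- the derivative of `Φ_r p = p α_r`
  have hder : ∀ r, p * θ * α r = p * (c r + α r * θ - (α r).map d) := by
    intro r
    have h1 := congrArg (fun A : Matrix ι n K => A.map d) (hp r)
    simp only [map_mul_der] at h1
    rw [hc, hθ, ← Matrix.mul_assoc, hp, Matrix.mul_assoc] at h1
    rw [Matrix.mul_sub, Matrix.mul_add, h1]
    abel
  have hα : ∀ i j, i ≠ j → ∀ r, e i * (α r).map d * e j = 0 := by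
    intro i j hij r
    have h1 : e i * α r * e j = 0 := by
      rw [he, Matrix.mul_assoc, orth i j hij, Matrix.mul_zero]
    have h2 := congrArg (fun A : Matrix n n K => A.map d) h1
    simp only [map_mul_der, hde, Matrix.mul_zero, Matrix.zero_mul, add_zero, zero_add] at h2
    rw [h2]
    ext i j; simp
  have hv : ∀ j, ∃ ν : Matrix n n K, p * (θ - b) * e j = p * e j * ν := by
    intro j
    refine exists_fac (Φ := Φ) (α := α) (γ := α) (m := m) hp (he j) hρ (fun r => ?_) fun w hw => ?_
    · set x : Matrix n n K := c r - (α r).map d - (b * α r - α r * b) with hx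
      have hxe : x * e j = e j * (x * e j) := by
        have h1 : x * e j = ∑ i, e i * (x * e j) := by
          rw [← Matrix.sum_mul, hsum, Matrix.one_mul]
        rw [h1, Matrix.mul_sum, Finset.sum_eq_single j]
        · rw [Finset.sum_eq_single j]
          · rw [← Matrix.mul_assoc (e j) (e j), idem]
          · intro i _ hij
            rw [← Matrix.mul_assoc (e j), orth j i (Ne.symm hij), Matrix.zero_mul]
          · intro h; exact absurd (Finset.mem_univ j) h
        · intro i _ hij
          rw [hx, ← Matrix.mul_assoc, Matrix.mul_sub, Matrix.mul_sub, Matrix.sub_mul,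
            Matrix.sub_mul, hα i j hij, hbe i j hij, sub_zero, sub_self]
        · intro h; exact absurd (Finset.mem_univ j) h
      refine ⟨x * e j, ?_⟩
      have e1 : p * (θ - b) * e j * α r = p * (c r + α r * θ - (α r).map d - b * α r) * e j := by
        have h1 := hder r
        calc p * (θ - b) * e j * α r = (p * θ * α r - p * (b * α r)) * e j := by
              rw [Matrix.mul_assoc _ (e j), he, ← Matrix.mul_assoc, Matrix.mul_sub,
                Matrix.sub_mul, Matrix.mul_assoc p b]
          _ = _ := by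
              rw [h1, ← Matrix.mul_sub]
      have e2 : Φ r * (p * (θ - b) * e j) = p * (α r * (θ - b)) * e j := by
        rw [← Matrix.mul_assoc, ← Matrix.mul_assoc, hp]
        simp only [Matrix.mul_assoc]
      rw [e1, e2, Matrix.mul_assoc p (e j), ← hxe, ← Matrix.mul_assoc p x, ← Matrix.add_mul,
        ← Matrix.mul_add]
      congr 2
      rw [hx, Matrix.mul_sub]
      abel
    · refine ⟨(w.map α).prod * ((θ - b) * e j), ?_⟩
      have e1 : (w.map Φ).prod * (p * (θ - b) * e j) =
          p * ((w.map α).prod * ((θ - b) * e j)) := by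
        rw [← Matrix.mul_assoc, ← Matrix.mul_assoc, word_mul hp]
        simp only [Matrix.mul_assoc]
      have e2 : ∀ X : Matrix n n K, X = e j * X + (1 - e j) * X := by
        intro X
        rw [Matrix.sub_mul, Matrix.one_mul]
        abel
      have e3 : g * ((1 - e j) * ((θ - b) * e j)) = 0 := by
        have h1 : (1 - e j) * ((θ - b) * e j) =
            ∑ i ∈ Finset.univ.erase j, (e i * θ * e j - e i * b * e j) := by
          have h2 : (1 : Matrix n n K) - e j = ∑ i ∈ Finset.univ.erase j, e i := by
            rw [← hsum, ← Finset.add_sum_erase _ _ (Finset.mem_univ j)]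
            abel
          rw [h2, Matrix.sum_mul]
          refine Finset.sum_congr rfl fun i _ => ?_
          rw [Matrix.sub_mul, Matrix.mul_sub, Matrix.mul_assoc, Matrix.mul_assoc]
        rw [h1, Matrix.mul_sum]
        refine Finset.sum_eq_zero fun i hi => ?_
        have hij : i ≠ j := Finset.ne_of_mem_erase hi
        rw [Matrix.mul_sub, hθR i j hij, Matrix.mul_assoc (e i) b, ← Matrix.mul_assoc g, hge,
          Matrix.mul_assoc (e i)ᵀ, ← Matrix.mul_assoc g b, hbR, Matrix.zero_mul, Matrix.mul_zero,
          sub_zero]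
      rw [e1]
      conv_lhs => rw [e2 ((θ - b) * e j)]
      rw [Matrix.mul_add, Matrix.mul_add, hkill w hw _ e3, add_zero,
        ← Matrix.mul_assoc _ (e j), ← word_com (he j), Matrix.mul_assoc (e j),
        ← Matrix.mul_assoc p]
  choose ν hν using hv
  refine ⟨∑ j, e j * ν j * e j, fun i => ?_, ?_⟩
  · rw [Matrix.mul_sum, Matrix.sum_mul, Finset.sum_eq_single i, Finset.sum_eq_single i]
    · rw [Matrix.mul_assoc (e i * ν i), idem, ← Matrix.mul_assoc, ← Matrix.mul_assoc, idem]
    · intro j _ hj
      rw [Matrix.mul_assoc, orth j i hj, Matrix.mul_zero]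
    · intro h; exact absurd (Finset.mem_univ i) h
    · intro j _ hj
      rw [← Matrix.mul_assoc, ← Matrix.mul_assoc, orth i j (Ne.symm hj), Matrix.zero_mul,
        Matrix.zero_mul]
    · intro h; exact absurd (Finset.mem_univ i) h
  · have h1 : p * ∑ j, e j * ν j * e j = p * (θ - b) := by
      rw [Matrix.mul_sum]
      calc ∑ j, p * (e j * ν j * e j) = ∑ j, p * (θ - b) * e j := by
            refine Finset.sum_congr rfl fun j _ => ?_
            rw [← Matrix.mul_assoc, ← Matrix.mul_assoc, ← hν, Matrix.mul_assoc, idem]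
        _ = _ := by rw [← Matrix.mul_sum, hsum, Matrix.mul_one]
    rw [hθ, Matrix.mul_add, h1, Matrix.mul_sub]
    abel

/-- the off-diagonal blocks of the connection vanish on the core (`hom`: no homomorphisms between
the blocks of the core) -/
theorem offdiag_zero {J : Matrix ι ι K} {d : Derivation k K K} (hJ : J.map d = 0)
    (hp : ∀ r, Φ r * p = p * α r)
    {e : β → Matrix n n K} (he : ∀ i r, e i * α r = α r * e i) (idem : ∀ i, e i * e i = e i)
    (orth : ∀ i j, i ≠ j → e i * e j = 0) (hde : ∀ i, (e i).map d = 0)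
    (hge : ∀ i, (pᵀ * J * p) * e i = (e i)ᵀ * (pᵀ * J * p)) {θ : Matrix n n K}
    (hθ : p.map d = p * θ) {c : Fin 3 → Matrix n n K} (hc : ∀ r, (Φ r).map d * p = p * c r)
    (hcR : ∀ i j, i ≠ j → ∀ r, (pᵀ * J * p) * (e i * c r * e j) = 0)
    (hom : ∀ i j, i ≠ j → ∀ z : Matrix n n K, e i * z * e j = z →
      (∀ y : n → K, (pᵀ * J * p) *ᵥ y = 0 → (pᵀ * J * p) *ᵥ (z *ᵥ y) = 0) →
      (∀ r, (pᵀ * J * p) * (z * α r - α r * z) = 0) → (pᵀ * J * p) * z = 0) :
    ∀ i j, i ≠ j → (pᵀ * J * p) * (e i * θ * e j) = 0 := by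
  intro i j hij
  have hα : ∀ i j, i ≠ j → ∀ r, e i * (α r).map d * e j = 0 := by
    intro i j hij r
    have h1 : e i * α r * e j = 0 := by
      rw [he, Matrix.mul_assoc, orth i j hij, Matrix.mul_zero]
    have h2 := congrArg (fun A : Matrix n n K => A.map d) h1
    simp only [map_mul_der, hde, Matrix.mul_zero, Matrix.zero_mul, add_zero, zero_add] at h2
    rw [h2]
    ext i j; simp
  refine hom i j hij _ ?_ ?_ ?_
  · calc e i * (e i * θ * e j) * e j = (e i * e i) * θ * (e j * e j) := by
          simp only [Matrix.mul_assoc]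
      _ = _ := by rw [idem, idem]
  · -- `g' = θᵀ g + g θ`
    intro y hy
    have hg' : (pᵀ * J * p).map d = θᵀ * (pᵀ * J * p) + (pᵀ * J * p) * θ := by
      rw [map_mul_der, map_mul_der, map_transpose_der, hJ, hθ, transpose_mul, Matrix.mul_zero,
        add_zero]
      simp only [Matrix.mul_assoc]
    have hy2 : (pᵀ * J * p) *ᵥ (e j *ᵥ y) = 0 := by
      rw [mulVec_mulVec, hge, ← mulVec_mulVec, hy, mulVec_zero]
    -- as a one-column matrix
    set Y : Matrix n Unit K := Matrix.of fun a _ => (e j *ᵥ y) a with hY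
    have hgY : (pᵀ * J * p) * Y = 0 := by
      ext a u
      have := congrFun hy2 a
      simpa [Matrix.mul_apply, Matrix.mulVec, dotProduct, hY] using this
    have heY : e i * Y = 0 := by
      ext a u
      have h3 : e i *ᵥ (e j *ᵥ y) = 0 := by
        rw [mulVec_mulVec, orth i j hij, zero_mulVec]
      have := congrFun h3 a
      simpa [Matrix.mul_apply, Matrix.mulVec, dotProduct, hY] using this
    have h4 := congrArg (fun A : Matrix n Unit K => A.map d) hgY
    have h5 := congrArg (fun A : Matrix n Unit K => A.map d) heY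
    simp only [map_mul_der, hg', hde, Matrix.zero_mul, zero_add] at h4 h5
    have h0 : (0 : Matrix n Unit K).map d = 0 := by ext a b; simp
    rw [h0] at h4 h5
    have h6 : (pᵀ * J * p) * (e i * (θ * Y)) = 0 := by
      have h7 := congrArg (fun A => (e i)ᵀ * A) h4
      simp only [Matrix.mul_zero, Matrix.mul_add, Matrix.add_mul] at h7
      rw [Matrix.mul_assoc θᵀ, hgY, Matrix.mul_zero, Matrix.mul_zero, zero_add,
        ← Matrix.mul_assoc (e i)ᵀ _ (Y.map d), ← hge, Matrix.mul_assoc _ (e i), h5,
        Matrix.mul_zero, add_zero] at h7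
      rw [← Matrix.mul_assoc, hge, Matrix.mul_assoc, ← Matrix.mul_assoc _ θ Y]
      exact h7
    have h8 : ∀ a, ((pᵀ * J * p) * (e i * (θ * Y))) a () = 0 := fun a => by rw [h6]; rfl
    funext a
    have h9 := h8 a
    have h10 : (pᵀ * J * p) *ᵥ ((e i * θ * e j) *ᵥ y) =
        (pᵀ * J * p) *ᵥ (e i *ᵥ (θ *ᵥ (e j *ᵥ y))) := by
      simp only [mulVec_mulVec, Matrix.mul_assoc]
    rw [h10]
    simpa [Matrix.mul_apply, Matrix.mulVec, dotProduct, hY] using h9
  · intro r
    have hder : (pᵀ * J * p) * θ * α r = (pᵀ * J * p) * (c r + α r * θ - (α r).map d) := by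
      have h1 := congrArg (fun A : Matrix ι n K => A.map d) (hp r)
      simp only [map_mul_der] at h1
      rw [hc, hθ, ← Matrix.mul_assoc, hp, Matrix.mul_assoc] at h1
      have h2 : p * (θ * α r) = p * (c r + α r * θ - (α r).map d) := by
        rw [Matrix.mul_sub, Matrix.mul_add, h1, ← Matrix.mul_assoc p θ]
        abel
      have h3 := congrArg (fun A => pᵀ * J * A) h2
      simpa only [Matrix.mul_assoc] using h3
    have h1 : (pᵀ * J * p) * (e i * θ * e j * α r - α r * (e i * θ * e j)) =
        (e i)ᵀ * ((pᵀ * J * p) * θ * α r - (pᵀ * J * p) * (α r * θ)) * e j := by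
      rw [Matrix.mul_sub, Matrix.mul_sub, Matrix.sub_mul]
      congr 1
      · rw [Matrix.mul_assoc (e i * θ), he, ← Matrix.mul_assoc, ← Matrix.mul_assoc,
          ← Matrix.mul_assoc, ← Matrix.mul_assoc, hge]
        simp only [Matrix.mul_assoc]
      · rw [← Matrix.mul_assoc (α r), ← Matrix.mul_assoc (α r), ← he, ← Matrix.mul_assoc,
          ← Matrix.mul_assoc, ← Matrix.mul_assoc, hge]
        simp only [Matrix.mul_assoc]
    rw [h1, hder]
    have h2 : (pᵀ * J * p) * (c r + α r * θ - (α r).map d) - (pᵀ * J * p) * (α r * θ) =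
        (pᵀ * J * p) * (c r - (α r).map d) := by
      rw [← Matrix.mul_sub]
      congr 1
      abel
    rw [h2, ← Matrix.mul_assoc, ← hge, Matrix.mul_assoc, Matrix.mul_assoc, Matrix.sub_mul,
      Matrix.mul_sub, ← Matrix.mul_assoc (e i), ← Matrix.mul_assoc (e i), hα i j hij, sub_zero,
      hcR i j hij]

end Crest.Agent.R172.BConn
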