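import Mathlib

/-!
Row 172 (S0260), node RD-BCov: the correction `b : P2 → P1` of an exact family exists in the sequence
cover.

`exists_b`: from the value-level corrections `β n : P2 → V'` of all the families `(1 ⊗ τ^n) x` one gets
the correction with values in the sequence cover (perfect part included), for which the relation holds
exactly.
`uniq`: it is unique (perfect → nilpotent).
`lift_defect`: for `P2` perfect and `Z` nilpotent, `∑ (1 ⊗ A_t - B_t ⊗ 1)` is onto `P2 ⊗ Z`.
-/

set_option autoImplicit false

namespace Crest.Agent.R172.BCov

open Module TensorProduct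

variable {K : Type*} [Field K]
variable {P2 : Type*} [AddCommGroup P2] [Module K P2]
variable {V' : Type*} [AddCommGroup V'] [Module K V'] {L' : Type*} [AddCommGroup L'] [Module K L']
variable {τ : Type*}

/-- a submodule containing all values of the words of length `m` is everything -/
theorem words_top {B : τ → End K P2} (hB : ⨆ r, LinearMap.range (B r) = ⊤) (m : ℕ)
    (S : Submodule K P2) (hS : ∀ w : List τ, w.length = m → ∀ y, (w.map B).prod y ∈ S) : S = ⊤ := by
  induction m generalizing S with
  | zero =>
    rw [eq_top_iff]
    intro y _
    simpa using hS [] rfl y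
  | succ m ih =>
    apply ih
    intro w hw y
    have hy : y ∈ ⨆ r, LinearMap.range (B r) := by rw [hB]; trivial
    have h1 : (⨆ r, LinearMap.range (B r)) ≤ S.comap (w.map B).prod := by
      apply iSup_le
      rintro r _ ⟨v, rfl⟩
      have h2 := hS (w ++ [r]) (by simp [hw]) v
      simpa [List.map_append, List.prod_append] using h2
    exact h1 hy

/-- perfect → nilpotent: intertwiners vanish -/
theorem inter_zero {B : τ → End K P2} (hB : ⨆ r, LinearMap.range (B r) = ⊤) {Th : τ → End K L'}
    (f : P2 →ₗ[K] L') (hf : ∀ r y, f (B r y) = Th r (f y)) {m : ℕ}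
    (hm : ∀ w : List τ, w.length = m → ∀ y, (w.map Th).prod (f y) = 0) : f = 0 := by
  have h1 : ∀ (w : List τ) (y : P2), f ((w.map B).prod y) = (w.map Th).prod (f y) := by
    intro w
    induction w with
    | nil => intro y; simp
    | cons r w ih =>
      intro y
      simp only [List.map_cons, List.prod_cons, Module.End.mul_apply]
      rw [hf, ih]
  have h2 : LinearMap.ker f = ⊤ := by
    apply words_top hB m
    intro w hw y
    rw [LinearMap.mem_ker, h1, hm w hw]
  exact LinearMap.ker_eq_top.1 h2

/-- **the correction in the sequence cover** -/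
theorem exists_b {B : τ → End K P2} (hB : ⨆ r, LinearMap.range (B r) = ⊤)
    {Psi : τ → End K V'} {Th : τ → End K L'} {Fs Gs : V' →ₗ[K] L'}
    (hG : ∀ r v, Gs (Psi r v) = Th r (Gs v)) (hF : ∀ r v, Fs (Psi r v) = Th r (Fs v))
    {C : τ → P2 →ₗ[K] (ℕ → V')} (hC : ∀ r y n, Gs (C r y n) = Fs (C r y (n + 1)))
    {U' : Submodule K (ℕ → V')} (hU : ∀ r, ∀ z ∈ U', (fun n => Psi r (z n)) ∈ U')
    (hCU : ∀ r y, C r y ∈ U')
    {β : ℕ → P2 →ₗ[K] V'} (hβ : ∀ n r y, β n (B r y) = Psi r (β n y) + C r y n) {m : ℕ}
    (hm : ∀ w : List τ, w.length = m → ∀ n y, (w.map Psi).prod (β n y) = 0) :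
    ∃ b : P2 →ₗ[K] (ℕ → V'), (∀ y n, b y n = β n y) ∧ (∀ y, b y ∈ U') ∧
      (∀ y n, Gs (b y n) = Fs (b y (n + 1))) ∧
      ∀ r y, b (B r y) = (fun n => Psi r (b y n)) + C r y := by
  refine ⟨LinearMap.pi β, fun y n => rfl, ?_, ?_, ?_⟩
  · -- values in the perfect part
    have hrel : ∀ r y, LinearMap.pi β (B r y) = (fun n => Psi r (LinearMap.pi β y n)) + C r y := by
      intro r y
      funext n
      simp only [LinearMap.pi_apply, Pi.add_apply, hβ]
    have key : ∀ (w : List τ) (y : P2),
        (LinearMap.pi β ((w.map B).prod y) - fun n => (w.map Psi).prod (β n y)) ∈ U' := by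
      intro w
      induction w with
      | nil =>
        intro y
        have e : (LinearMap.pi β (((([] : List τ).map B).prod) y) - fun n =>
            (([] : List τ).map Psi).prod (β n y)) = 0 := by
          funext n; simp
        rw [e]; exact U'.zero_mem
      | cons r w ih =>
        intro y
        have h1 := hU r _ (ih y)
        have h2 := U'.add_mem h1 (hCU r ((w.map B).prod y))
        convert h2 using 1
        funext n
        simp only [List.map_cons, List.prod_cons, Module.End.mul_apply, hrel, Pi.add_apply,
          Pi.sub_apply, map_sub, LinearMap.pi_apply]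
        abel
    have h3 : U'.comap (LinearMap.pi β) = ⊤ := by
      apply words_top hB m
      intro w hw y
      have h4 := key w y
      have e : (fun n => (w.map Psi).prod (β n y)) = 0 := by
        funext n; exact hm w hw n y
      rw [e, sub_zero] at h4
      exact h4
    intro y
    have : y ∈ U'.comap (LinearMap.pi β) := by rw [h3]; trivial
    exact this
  · -- values in the sequence relation
    intro y n
    have h0 : (Gs ∘ₗ β n - Fs ∘ₗ β (n + 1)) = 0 := by
      apply inter_zero (Th := Th) hB (m := m)
      · intro r y
        simp only [LinearMap.sub_apply, LinearMap.comp_apply, hβ, map_add, hG, hF, hC, map_sub]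
        abel
      · intro w hw y
        have hGw : ∀ (w : List τ) (v : V'), (w.map Th).prod (Gs v) = Gs ((w.map Psi).prod v) := by
          intro w
          induction w with
          | nil => intro v; simp
          | cons r w ih =>
            intro v
            simp only [List.map_cons, List.prod_cons, Module.End.mul_apply]
            rw [ih, hG]
        have hFw : ∀ (w : List τ) (v : V'), (w.map Th).prod (Fs v) = Fs ((w.map Psi).prod v) := by
          intro w
          induction w with
          | nil => intro v; simp
          | cons r w ih =>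
            intro v
            simp only [List.map_cons, List.prod_cons, Module.End.mul_apply]
            rw [ih, hF]
        simp only [LinearMap.sub_apply, LinearMap.comp_apply, map_sub, hGw, hFw, hm w hw, map_zero,
          sub_zero]
    have h1 := LinearMap.congr_fun h0 y
    simp only [LinearMap.sub_apply, LinearMap.comp_apply, LinearMap.zero_apply] at h1
    exact sub_eq_zero.1 h1
  · intro r y
    funext n
    simp only [LinearMap.pi_apply, Pi.add_apply, hβ]

end Crest.Agent.R172.BCov
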