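import Mathlib

/-!
Row 172 (S0260), S-side (t2): the finite bad set. If the second module is perfect, then the set of
scalars `s` such that there is a nonzero bilinear form `b` with `b (A r u) q = s * b u (C r q)` for
all `r` is finite.
-/

set_option autoImplicit false

namespace Crest.Agent.R172.BadSet

open Module

theorem abs {K X Y : Type*} [Field K] [AddCommGroup X] [Module K X] [AddCommGroup Y] [Module K Y]
    [FiniteDimensional K X] (L R : X →ₗ[K] Y) (hR : LinearMap.ker R = ⊥) :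
    {s : K | ∃ b : X, b ≠ 0 ∧ L b = s • R b}.Finite := by
  obtain ⟨R', hR'⟩ := LinearMap.exists_leftInverse_of_injective R hR
  refine (Module.End.finite_hasEigenvalue (f := R' ∘ₗ L)).subset ?_
  rintro s ⟨b, hb0, hb⟩
  have h2 : (R' ∘ₗ L) b = s • b := by
    rw [LinearMap.comp_apply, hb, map_smul]
    congr 1
    exact LinearMap.congr_fun hR' b
  exact Module.End.hasEigenvalue_of_hasEigenvector (x := b)
    ⟨Module.End.mem_eigenspace_iff.2 h2, hb0⟩

section v514

variable {K : Type*} [Field K] {V1 V2 : Type*} [AddCommGroup V1] [Module K V1]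
  [AddCommGroup V2] [Module K V2] [FiniteDimensional K V1] [FiniteDimensional K V2]
  {τ : Type*} [Fintype τ]

theorem finite {A : τ → End K V1} {C : τ → End K V2}
    (perf : ∀ q, ∃ f : τ → V2, q = ∑ r, C r (f r)) :
    {s : K | ∃ b : V1 →ₗ[K] V2 →ₗ[K] K, b ≠ 0 ∧
      ∀ r u q, b (A r u) q = s * b u (C r q)}.Finite := by
  classical
  let L : (V1 →ₗ[K] V2 →ₗ[K] K) →ₗ[K] (τ → (V1 →ₗ[K] V2 →ₗ[K] K)) :=
    LinearMap.pi fun r =>
      { toFun := fun b => b ∘ₗ A r
        map_add' := fun b b' => by ext u q; rfl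
        map_smul' := fun c b => by ext u q; rfl }
  let R : (V1 →ₗ[K] V2 →ₗ[K] K) →ₗ[K] (τ → (V1 →ₗ[K] V2 →ₗ[K] K)) :=
    LinearMap.pi fun r =>
      { toFun := fun b => b.compl₂ (C r)
        map_add' := fun b b' => by ext u q; rfl
        map_smul' := fun c b => by ext u q; rfl }
  have hL : ∀ b r u q, L b r u q = b (A r u) q := fun b r u q => rfl
  have hR : ∀ b r u q, R b r u q = b u (C r q) := fun b r u q => rfl
  have hinj : LinearMap.ker R = ⊥ := by
    rw [eq_bot_iff]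
    intro b hb
    rw [LinearMap.mem_ker] at hb
    rw [Submodule.mem_bot]
    ext u q
    obtain ⟨f, hf⟩ := perf q
    rw [hf, map_sum]
    refine Finset.sum_eq_zero fun r _ => ?_
    rw [← hR, hb]
    rfl
  refine (abs (K := K) (X := V1 →ₗ[K] V2 →ₗ[K] K) (Y := τ → V1 →ₗ[K] V2 →ₗ[K] K)
    L R hinj).subset ?_
  rintro s ⟨b, hb0, hb⟩
  refine ⟨b, hb0, ?_⟩
  funext r
  ext u q
  rw [hL, hb]
  rfl

end v514

section v99

open LinearMap

variable {K : Type*} [Field K]

/-- a pencil `L b = s R b` with `R` injective has finitely many eigenvalues -/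
theorem pencil_finite {X Y : Type*} [AddCommGroup X] [Module K X] [AddCommGroup Y] [Module K Y]
    [FiniteDimensional K X] (L R : X →ₗ[K] Y) (hR : ∀ b, R b = 0 → b = 0) :
    {s : K | ∃ b : X, b ≠ 0 ∧ L b = s • R b}.Finite := by
  obtain ⟨R', hR'⟩ := LinearMap.exists_leftInverse_of_injective R
    (LinearMap.ker_eq_bot'.2 hR)
  refine (Module.End.finite_hasEigenvalue (R' ∘ₗ L)).subset ?_
  rintro s ⟨b, hb0, hb⟩
  refine Module.End.hasEigenvalue_of_hasEigenvector (x := b) ⟨?_, hb0⟩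
  rw [Module.End.mem_eigenspace_iff, LinearMap.comp_apply, hb, map_smul]
  have h2 := LinearMap.congr_fun hR' b
  rw [LinearMap.comp_apply, LinearMap.id_apply] at h2
  rw [h2]

variable {V1 V2 τ : Type*} [AddCommGroup V1] [Module K V1] [AddCommGroup V2] [Module K V2]

/-- **the bad set is finite** -/
theorem finite_bad [FiniteDimensional K V1] [FiniteDimensional K V2] (A : τ → End K V1)
    (C : τ → End K V2) (hC : ⨆ r, range (C r) = ⊤) :
    {s : K | ∃ b : V1 →ₗ[K] V2 →ₗ[K] K, b ≠ 0 ∧ ∀ r u q, b (A r u) q = s * b u (C r q)}.Finite := by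
  let L : (V1 →ₗ[K] V2 →ₗ[K] K) →ₗ[K] ((r : τ) → (V1 →ₗ[K] V2 →ₗ[K] K)) :=
    { toFun := fun b r => b ∘ₗ A r
      map_add' := fun _ _ => rfl
      map_smul' := fun _ _ => rfl }
  let R : (V1 →ₗ[K] V2 →ₗ[K] K) →ₗ[K] ((r : τ) → (V1 →ₗ[K] V2 →ₗ[K] K)) :=
    { toFun := fun b r => b.compl₂ (C r)
      map_add' := fun _ _ => rfl
      map_smul' := fun _ _ => rfl }
  have hR : ∀ b, R b = 0 → b = 0 := by
    intro b hb
    apply LinearMap.ext
    intro u
    rw [LinearMap.zero_apply, ← LinearMap.ker_eq_top, eq_top_iff, ← hC]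
    refine iSup_le fun r => ?_
    rintro _ ⟨q, rfl⟩
    have h1 : b.compl₂ (C r) = 0 := congrFun hb r
    exact LinearMap.congr_fun (LinearMap.congr_fun h1 u) q
  refine (pencil_finite (X := V1 →ₗ[K] V2 →ₗ[K] K) (Y := (r : τ) → (V1 →ₗ[K] V2 →ₗ[K] K)) L R hR).subset ?_
  rintro s ⟨b, hb0, hb⟩
  refine ⟨b, hb0, ?_⟩
  funext r
  apply LinearMap.ext
  intro u
  apply LinearMap.ext
  intro q
  exact hb r u q

/-- outside a finite set every such pairing vanishes -/
theorem exists_bad [FiniteDimensional K V1] [FiniteDimensional K V2] (A : τ → End K V1)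
    (C : τ → End K V2) (hC : ⨆ r, range (C r) = ⊤) :
    ∃ S : Set K, S.Finite ∧ ∀ s ∉ S, ∀ b : V1 →ₗ[K] V2 →ₗ[K] K,
      (∀ r u q, b (A r u) q = s * b u (C r q)) → b = 0 :=
  ⟨_, finite_bad A C hC, fun s hs b hb => by
    by_contra h
    exact hs ⟨b, h, hb⟩⟩

end v99

end Crest.Agent.R172.BadSet
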