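import Mathlib

/-!
Row 172 (S0260), S-side: the finite bad set (helper213's plan for Lev1).  If `V2` is perfect for `C`,
only finitely many `s` admit a nonzero bilinear `b` with `b (A r u) q = s * b u (C r q)`.
-/

set_option autoImplicit false

namespace Crest.Agent.R172.BadSet265

open Module

variable {K : Type*} [Field K] {V1 V2 τ : Type*} [AddCommGroup V1] [Module K V1]
  [AddCommGroup V2] [Module K V2]

/-- a pencil `L0 b = s • L1 b` with `L1` injective has finitely many `s` -/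
theorem pencil_finite {V W : Type*} [AddCommGroup V] [Module K V] [AddCommGroup W] [Module K W]
    [FiniteDimensional K V] (L0 L1 : V →ₗ[K] W) (hinj : LinearMap.ker L1 = ⊥) :
    {s : K | ∃ b : V, b ≠ 0 ∧ L0 b = s • L1 b}.Finite := by
  obtain ⟨Li, hLi⟩ := LinearMap.exists_leftInverse_of_injective L1 hinj
  refine (Module.End.finite_hasEigenvalue (Li ∘ₗ L0)).subset ?_
  rintro s ⟨b, hb, hs⟩
  refine Module.End.hasEigenvalue_of_hasEigenvector (x := b) ⟨?_, hb⟩
  rw [Module.End.mem_eigenspace_iff, LinearMap.comp_apply, hs, map_smul, ← LinearMap.comp_apply,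
    hLi, LinearMap.id_apply]

/-- **finite bad set** -/
theorem bad_finite [Finite τ] [FiniteDimensional K V1] [FiniteDimensional K V2]
    (A : τ → End K V1) (C : τ → End K V2) (hC : ⨆ r, LinearMap.range (C r) = ⊤) :
    {s : K | ∃ b : V1 →ₗ[K] V2 →ₗ[K] K, b ≠ 0 ∧ ∀ r u q, b (A r u) q = s * b u (C r q)}.Finite := by
  classical
  let L0 : (V1 →ₗ[K] V2 →ₗ[K] K) →ₗ[K] (τ → (V1 →ₗ[K] V2 →ₗ[K] K)) :=
    { toFun := fun b r => b ∘ₗ A r
      map_add' := fun b c => by
        funext r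
        exact LinearMap.add_comp _ _ _
      map_smul' := fun t b => by
        funext r
        exact LinearMap.smul_comp _ _ _ }
  let L1 : (V1 →ₗ[K] V2 →ₗ[K] K) →ₗ[K] (τ → (V1 →ₗ[K] V2 →ₗ[K] K)) :=
    { toFun := fun b r => b.compl₂ (C r)
      map_add' := fun b c => by
        funext r
        ext u q
        rfl
      map_smul' := fun t b => by
        funext r
        ext u q
        rfl }
  have hinj : LinearMap.ker L1 = ⊥ := by
    rw [LinearMap.ker_eq_bot']
    intro b hb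
    ext u q
    have hq : q ∈ ⨆ r, LinearMap.range (C r) := by rw [hC]; trivial
    refine Submodule.iSup_induction (p := fun r => LinearMap.range (C r))
      (motive := fun q => b u q = (0 : V1 →ₗ[K] V2 →ₗ[K] K) u q) hq ?_ ?_ ?_
    · rintro r _ ⟨y, rfl⟩
      have h1 := congrFun hb r
      have h2 := LinearMap.congr_fun (LinearMap.congr_fun h1 u) y
      exact h2
    · rw [map_zero, map_zero]
    · intro x y hx hy
      rw [map_add, hx, hy, map_add]
  refine (pencil_finite (V := V1 →ₗ[K] V2 →ₗ[K] K) (W := τ → (V1 →ₗ[K] V2 →ₗ[K] K)) L0 L1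
    hinj).subset ?_
  rintro s ⟨b, hb, hs⟩
  refine ⟨b, hb, ?_⟩
  funext r
  ext u q
  exact hs r u q

/-- bad set for `x² • b (A r u) q = -(y² • b u (C r q))`: for all but finitely many ratios `ρ`,
`c1 ^ 2 * b (A r u) q = -(c2 ^ 2 * b u (C r q))` with `c1 * ρ = c2`, `c1 ≠ 0` forces `b = 0`. -/
theorem zero_of_ratio [Finite τ] [FiniteDimensional K V1] [FiniteDimensional K V2]
    (A : τ → End K V1) (C : τ → End K V2) (hC : ⨆ r, LinearMap.range (C r) = ⊤) :
    ∃ S : Set K, S.Finite ∧ ∀ ρ ∉ S, ∀ c1 c2 : K, c1 ≠ 0 → c1 * ρ = c2 →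
      ∀ b : V1 →ₗ[K] V2 →ₗ[K] K,
        (∀ r u q, c1 ^ 2 * b (A r u) q = -(c2 ^ 2 * b u (C r q))) → b = 0 := by
  have hfin := bad_finite A C hC
  refine ⟨{ρ : K | -(ρ ^ 2) ∈ {s : K | ∃ b : V1 →ₗ[K] V2 →ₗ[K] K, b ≠ 0 ∧
    ∀ r u q, b (A r u) q = s * b u (C r q)}}, ?_, ?_⟩
  · have h1 : ∀ s : K, {ρ : K | -(ρ ^ 2) = s}.Finite := by
      intro s
      have h2 : (Polynomial.X ^ 2 + Polynomial.C s : Polynomial K) ≠ 0 :=
        (Polynomial.monic_X_pow_add_C s two_ne_zero).ne_zero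
      refine (Polynomial.finite_setOfPred_isRoot h2).subset ?_
      intro ρ hρ
      change Polynomial.IsRoot _ ρ
      have h3 : -(ρ ^ 2) = s := hρ
      rw [Polynomial.IsRoot, Polynomial.eval_add, Polynomial.eval_pow, Polynomial.eval_X,
        Polynomial.eval_C, ← h3]
      ring
    have h4 := hfin.biUnion (t := fun s => {ρ : K | -(ρ ^ 2) = s}) fun s _ => h1 s
    refine h4.subset ?_
    intro ρ hρ
    exact Set.mem_iUnion₂.2 ⟨_, hρ, rfl⟩
  · intro ρ hρ c1 c2 hc1 hc b hb
    by_contra hne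
    refine hρ ⟨b, hne, fun r u q => ?_⟩
    have h1 := hb r u q
    rw [← hc] at h1
    have h2 : c1 ^ 2 ≠ 0 := pow_ne_zero 2 hc1
    have h3 : c1 ^ 2 * (b (A r u) q - -(ρ ^ 2) * b u (C r q)) = 0 := by
      linear_combination h1
    rcases mul_eq_zero.1 h3 with h | h
    · exact absurd h h2
    · exact sub_eq_zero.1 h

end Crest.Agent.R172.BadSet265
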