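import Mathlib

/-!
Row 172 (S0260): the finite bad set of ratios.  If `C` is perfect (`∑ C_r` onto), the set of `s` for
which there is a nonzero bilinear `b : V1 × V2 → K` with `b (A_r u) q = s * b u (C_r q)` for all `r`
is finite.
-/

set_option autoImplicit false

namespace Crest.Agent.R172.BadSet555

open Module

variable {K : Type*} [Field K] {V1 V2 : Type*} [AddCommGroup V1] [Module K V1]
  [AddCommGroup V2] [Module K V2] {τ : Type*} [Fintype τ]

/-- pencil: `R` injective, then `{s | ∃ b ≠ 0, L b = s R b}` is finite -/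
theorem finite_pencil {E G : Type*} [AddCommGroup E] [Module K E] [FiniteDimensional K E]
    [AddCommGroup G] [Module K G] (L R : E →ₗ[K] G) (hR : Function.Injective R) :
    {s : K | ∃ b : E, b ≠ 0 ∧ L b = s • R b}.Finite := by
  obtain ⟨Ri, hRi⟩ := R.exists_leftInverse_of_injective (LinearMap.ker_eq_bot.2 hR)
  refine (Module.End.finite_spectrum (Ri ∘ₗ L : End K E)).subset ?_
  rintro s ⟨b, hb, hs⟩
  apply Module.End.HasEigenvalue.mem_spectrum
  refine Module.End.hasEigenvalue_of_hasEigenvector (x := b) ⟨?_, hb⟩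
  rw [Module.End.mem_eigenspace_iff, LinearMap.comp_apply, hs, map_smul]
  congr 1
  exact LinearMap.congr_fun hRi b

/-- **the finite bad set** -/
theorem finite_bad [FiniteDimensional K V1] [FiniteDimensional K V2] (A : τ → End K V1)
    (C : τ → End K V2) (hC : ∀ q : V2, ∃ f : τ → V2, q = ∑ r, C r (f r)) :
    {s : K | ∃ b : V1 →ₗ[K] V2 →ₗ[K] K, b ≠ 0 ∧
      ∀ r u q, b (A r u) q = s * b u (C r q)}.Finite := by
  let L : (V1 →ₗ[K] V2 →ₗ[K] K) →ₗ[K] (τ → V1 →ₗ[K] V2 →ₗ[K] K) :=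
    LinearMap.pi fun r => LinearMap.lcomp K (V2 →ₗ[K] K) (A r)
  let R : (V1 →ₗ[K] V2 →ₗ[K] K) →ₗ[K] (τ → V1 →ₗ[K] V2 →ₗ[K] K) :=
    { toFun := fun b r => b.compl₂ (C r)
      map_add' := fun b b' => by ext; simp
      map_smul' := fun c b => by ext; simp }
  have hR : Function.Injective R := by
    rw [injective_iff_map_eq_zero]
    intro b hb
    ext u q
    obtain ⟨f, rfl⟩ := hC q
    rw [map_sum]
    refine Finset.sum_eq_zero fun r _ => ?_
    have := LinearMap.congr_fun₂ (congrFun hb r) u (f r)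
    simpa [R] using this
  refine (finite_pencil (K := K) (E := V1 →ₗ[K] V2 →ₗ[K] K)
    (G := τ → V1 →ₗ[K] V2 →ₗ[K] K) L R hR).subset ?_
  rintro s ⟨b, hb, h⟩
  refine ⟨b, hb, ?_⟩
  funext r
  ext u q
  simpa [L, R] using h r u q

/-- the parameters: a nonconstant ratio takes a bad value only finitely often -/
theorem finite_param {S : Set K} (hS : S.Finite) (h2 : (2 : K) ≠ 0) {l1 l2 : K} (hl : l1 ≠ l2) :
    {t : K | 1 + t * l1 ≠ 0 ∧ (1 + t * l2) ^ 2 / (1 + t * l1) ^ 2 ∈ S}.Finite := by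
  classical
  have h1 : {t : K | 1 + t * l1 ≠ 0 ∧ (1 + t * l2) ^ 2 / (1 + t * l1) ^ 2 ∈ S} ⊆
      ⋃ s ∈ S, {t : K | 1 + t * l1 ≠ 0 ∧ (1 + t * l2) ^ 2 = s * (1 + t * l1) ^ 2} := by
    rintro t ⟨ht, hs⟩
    refine Set.mem_biUnion hs ⟨ht, ?_⟩
    rw [div_mul_cancel₀ _ (pow_ne_zero 2 ht)]
  refine (hS.biUnion fun s _ => ?_).subset h1
  obtain ⟨P, hPd⟩ : ∃ P : Polynomial K, P = Polynomial.C (1 - s) +
      Polynomial.C (2 * (l2 - s * l1)) * Polynomial.X +
      Polynomial.C (l2 ^ 2 - s * l1 ^ 2) * Polynomial.X ^ 2 := ⟨_, rfl⟩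
  have hP : P ≠ 0 := by
    intro h0
    rw [h0] at hPd
    have d0 := congrArg (fun p => Polynomial.coeff p 0) hPd
    have d1 := congrArg (fun p => Polynomial.coeff p 1) hPd
    simp only [Polynomial.coeff_zero, Polynomial.coeff_add, Polynomial.coeff_C_mul,
      Polynomial.coeff_C, Polynomial.coeff_X, Polynomial.coeff_X_pow] at d0 d1
    norm_num at d0 d1
    have hs1 : s = 1 := (sub_eq_zero.1 d0.symm).symm
    rw [hs1, one_mul] at d1
    rcases d1 with d1 | d1
    · exact h2 d1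
    · exact hl (sub_eq_zero.1 d1).symm
  refine (Multiset.finite_toSet P.roots).subset ?_
  rintro t ⟨-, ht⟩
  change t ∈ P.roots
  rw [Polynomial.mem_roots hP, Polynomial.IsRoot.def, hPd]
  simp only [Polynomial.eval_add, Polynomial.eval_mul, Polynomial.eval_C, Polynomial.eval_X,
    Polynomial.eval_pow]
  linear_combination ht

end Crest.Agent.R172.BadSet555
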