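import Crest.Agent.R172.QBlk

/-!
Row 172 (S0260): twisted bilinear forms: `b (A_s u) q = c b(u, C_s q)` has only the solution `0` for
all but finitely many `c`, if one factor is perfect.
-/

set_option autoImplicit false
set_option linter.unusedSectionVars false

namespace Crest.Agent.R172.BilFin

open Module LinearMap Matrix

variable {K : Type*} [Field K] {M Q : Type*} [AddCommGroup M] [Module K M]
  [AddCommGroup Q] [Module K Q] [FiniteDimensional K M] [FiniteDimensional K Q] {τ : Type*}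
  [Finite τ]

/-- first factor perfect -/
theorem bil_finite {A : τ → End K M} {C : τ → End K Q} (hA : ⨆ s, range (A s) = ⊤) :
    {c : K | ∃ b : M →ₗ[K] Q →ₗ[K] K, b ≠ 0 ∧ ∀ s u q, b (A s u) q = c * b u (C s q)}.Finite := by
  refine (QBlk.twist_finite (Q := Dual K Q) (fun s => (C s).dualMap) hA).subset ?_
  rintro c ⟨b, hb, h⟩
  refine ⟨b, hb, fun s => ?_⟩
  apply LinearMap.ext
  intro u
  apply LinearMap.ext
  intro q
  exact h s u q

/-- second factor perfect -/
theorem bil_finite' {A : τ → End K M} {C : τ → End K Q} (hC : ⨆ s, range (C s) = ⊤) :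
    {c : K | c ≠ 0 ∧ ∃ b : M →ₗ[K] Q →ₗ[K] K, b ≠ 0 ∧
      ∀ s u q, b (A s u) q = c * b u (C s q)}.Finite := by
  refine ((bil_finite (A := C) (C := A) hC).image fun c => c⁻¹).subset ?_
  rintro c ⟨hc, b, hb, h⟩
  refine ⟨c⁻¹, ⟨b.flip, ?_, fun s q u => ?_⟩, inv_inv c⟩
  · intro h0
    apply hb
    apply LinearMap.ext
    intro u
    apply LinearMap.ext
    intro q
    exact LinearMap.congr_fun (LinearMap.congr_fun h0 q) u
  · rw [LinearMap.flip_apply, LinearMap.flip_apply, h s u q, ← mul_assoc, inv_mul_cancel₀ hc,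
      one_mul]

/-- matrices -/
theorem mat_finite {n n' : Type*} [Fintype n] [DecidableEq n] [Fintype n'] [DecidableEq n']
    {A : τ → Matrix n n K} {C : τ → Matrix n' n' K} (hA : ⨆ s, range (A s).mulVecLin = ⊤) :
    {c : K | ∃ b : Matrix n n' K, b ≠ 0 ∧ ∀ s, (A s)ᵀ * b = c • (b * C s)}.Finite := by
  refine (bil_finite (A := fun s => (A s).mulVecLin) (C := fun s => (C s).mulVecLin)
    hA).subset ?_
  rintro c ⟨b, hb, h⟩
  refine ⟨Matrix.toLinearMap₂' K b, ?_, fun s u q => ?_⟩
  · intro h0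
    apply hb
    ext i j
    have h1 := LinearMap.congr_fun (LinearMap.congr_fun h0 (Pi.single i 1)) (Pi.single j 1)
    rw [Matrix.toLinearMap₂'_apply'] at h1
    simpa using h1
  · rw [Matrix.toLinearMap₂'_apply', Matrix.toLinearMap₂'_apply', mulVecLin_apply, mulVecLin_apply,
      mulVec_mulVec]
    have h1 : A s *ᵥ u = u ᵥ* (A s)ᵀ := by rw [vecMul_transpose]
    rw [h1, ← dotProduct_mulVec, mulVec_mulVec, h s, smul_mulVec, dotProduct_smul, smul_eq_mul]

/-- the relation forces `b = 0` outside the bad set -/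
theorem eq_zero_of_notMem {n n' : Type*} [Fintype n] [DecidableEq n] [Fintype n'] [DecidableEq n']
    {A : τ → Matrix n n K} {C : τ → Matrix n' n' K} {c : K}
    (hc : c ∉ {c : K | ∃ b : Matrix n n' K, b ≠ 0 ∧ ∀ s, (A s)ᵀ * b = c • (b * C s)})
    {b : Matrix n n' K} (h : ∀ s, (A s)ᵀ * b = c • (b * C s)) : b = 0 := by
  by_contra hb
  exact hc ⟨b, hb, h⟩

end Crest.Agent.R172.BilFin
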