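import Crest.Agent.R172.ZP1

/-!
Row 172, T0, node (o2), `L`-fixed second derivative: the space `ZZ` of twisted-self-adjoint
corrections (644, note 15796) is stable under `z ↦ ∂z + z v` for `v ∈ ZZ` and a derivation `∂`
with `∂Φ_r = v Φ_r + Φ_r vᵀ` (619, note 16232 (C)).
-/

set_option autoImplicit false

namespace Crest.Agent.R172.ZPL

open Finset Crest.Agent.R172.ZP

section Ring

variable {E : Type*} [Ring E]

/-- products of polynomial sequences are polynomial -/
theorem nil_DD_mul {x y : ℕ → E} (hx : NilAt DD x) (hy : NilAt DD y) :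
    NilAt (DD : AddMonoid.End (ℕ → E)) (fun k => x k * y k) := by
  obtain ⟨m, hm⟩ := hx
  obtain ⟨n, hn⟩ := hy
  suffices H : ∀ (N m n : ℕ) (x y : ℕ → E), m + n ≤ N →
      ((DD : AddMonoid.End (ℕ → E)) ^ m) x = 0 → ((DD : AddMonoid.End (ℕ → E)) ^ n) y = 0 →
      NilAt (DD : AddMonoid.End (ℕ → E)) (fun k => x k * y k) from H (m + n) m n x y le_rfl hm hn
  intro N
  induction N with
  | zero =>
    intro m n x y hmn hx hy
    have hm0 : m = 0 := by omega
    subst hm0
    have : x = 0 := by simpa using hx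
    subst this
    have h0 : (fun k => (0 : ℕ → E) k * y k) = 0 := by funext k; simp
    rw [h0]
    exact NilAt.zero _
  | succ N ih =>
    intro m n x y hmn hx hy
    rcases m with _ | m
    · have : x = 0 := by simpa using hx
      subst this
      have h0 : (fun k => (0 : ℕ → E) k * y k) = 0 := by funext k; simp
      rw [h0]
      exact NilAt.zero _
    rcases n with _ | n
    · have : y = 0 := by simpa using hy
      subst this
      have h0 : (fun k => x k * (0 : ℕ → E) k) = 0 := by funext k; simp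
      rw [h0]
      exact NilAt.zero _
    apply NilAt.of_apply
    have e1 : DD (fun k => x k * y k)
        = (fun k => (DD x) k * y k) + ((fun k => (DD x) k * (DD y) k)
          + (fun k => x k * (DD y) k)) := by
      funext k
      simp only [DD_apply, Pi.add_apply]
      noncomm_ring
    have hx' : ((DD : AddMonoid.End (ℕ → E)) ^ m) (DD x) = 0 := by
      rw [pow_succ, AddMonoid.End.coe_mul, Function.comp_apply] at hx
      exact hx
    have hy' : ((DD : AddMonoid.End (ℕ → E)) ^ n) (DD y) = 0 := by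
      rw [pow_succ, AddMonoid.End.coe_mul, Function.comp_apply] at hy
      exact hy
    rw [e1]
    refine NilAt.add (ih m (n + 1) _ _ (by omega) hx' hy) (NilAt.add
      (ih m n _ _ (by omega) hx' hy') (ih (m + 1) n _ _ (by omega) hx hy'))

/-- products of sequences which are nilpotent under `[D, ·]` -/
theorem nil_ad_mul {D : E} {x y : ℕ → E} (hx : NilAt (pw (adE D)) x)
    (hy : NilAt (pw (adE D)) y) : NilAt (pw (adE D)) (fun k => x k * y k) := by
  obtain ⟨m, hm⟩ := hx
  obtain ⟨n, hn⟩ := hy
  suffices H : ∀ (N m n : ℕ) (x y : ℕ → E), m + n ≤ N →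
      ((pw (adE D)) ^ m) x = 0 → ((pw (adE D)) ^ n) y = 0 →
      NilAt (pw (adE D)) (fun k => x k * y k) from H (m + n) m n x y le_rfl hm hn
  intro N
  induction N with
  | zero =>
    intro m n x y hmn hx hy
    have hm0 : m = 0 := by omega
    subst hm0
    have : x = 0 := by simpa using hx
    subst this
    have h0 : (fun k => (0 : ℕ → E) k * y k) = 0 := by funext k; simp
    rw [h0]
    exact NilAt.zero _
  | succ N ih =>
    intro m n x y hmn hx hy
    rcases m with _ | m
    · have : x = 0 := by simpa using hx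
      subst this
      have h0 : (fun k => (0 : ℕ → E) k * y k) = 0 := by funext k; simp
      rw [h0]
      exact NilAt.zero _
    rcases n with _ | n
    · have : y = 0 := by simpa using hy
      subst this
      have h0 : (fun k => x k * (0 : ℕ → E) k) = 0 := by funext k; simp
      rw [h0]
      exact NilAt.zero _
    apply NilAt.of_apply
    have e1 : pw (adE D) (fun k => x k * y k)
        = (fun k => (pw (adE D) x) k * y k) + (fun k => x k * (pw (adE D) y) k) := by
      funext k
      simp only [pw_apply, adE_apply, Pi.add_apply]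
      noncomm_ring
    have hx' : ((pw (adE D)) ^ m) (pw (adE D) x) = 0 := by
      rw [pow_succ, AddMonoid.End.coe_mul, Function.comp_apply] at hx
      exact hx
    have hy' : ((pw (adE D)) ^ n) (pw (adE D) y) = 0 := by
      rw [pow_succ, AddMonoid.End.coe_mul, Function.comp_apply] at hy
      exact hy
    rw [e1]
    exact NilAt.add (ih m (n + 1) _ _ (by omega) hx' hy) (ih (m + 1) n _ _ (by omega) hx hy')

/-- the discrete antiderivative `A k = ∑_{j<k} u j - u 0` (so `A 1 = 0`, `A 0 = - u 0`) -/
def AA (u : ℕ → E) (k : ℕ) : E := (∑ j ∈ range k, u j) - u 0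

theorem AA_zero (u : ℕ → E) : AA u 0 = - u 0 := by simp [AA]

theorem AA_one (u : ℕ → E) : AA u 1 = 0 := by simp [AA]

theorem AA_succ (u : ℕ → E) (k : ℕ) : AA u (k + 1) = AA u k + u k := by
  simp only [AA, sum_range_succ]
  abel

theorem DD_AA (u : ℕ → E) : DD (AA u) = u := by
  funext k
  rw [DD_apply, AA_succ]
  abel

theorem nil_AA {u : ℕ → E} (hu : NilAt DD u) : NilAt (DD : AddMonoid.End (ℕ → E)) (AA u) := by
  apply NilAt.of_apply
  rw [DD_AA]
  exact hu

theorem nil_ad_AA {D : E} {u : ℕ → E} (hu : NilAt (pw (adE D)) u) :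
    NilAt (pw (adE D)) (AA u) := by
  obtain ⟨m, hm⟩ := hu
  refine ⟨m, ?_⟩
  funext k
  have h : ∀ j, ((adE D) ^ m) (u j) = 0 := by
    intro j
    rw [← pw_pow, hm]
    rfl
  rw [pw_pow]
  simp only [AA, map_sub, map_sum, h, Finset.sum_const_zero, sub_zero, Pi.zero_apply]

theorem AA_rel {κ : Type*} {Φ : κ → E} {u : ℕ → E} (h : ∀ k r, u (k + 2) * Φ r = Φ r * u k)
    (k : ℕ) (r : κ) : AA u (k + 2) * Φ r = (u 1 + u 2) * Φ r + Φ r * AA u k := by
  induction k with
  | zero =>
    rw [AA_succ, AA_succ, AA_zero, add_mul, add_mul, add_mul, mul_neg, ← h 0 r]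
    noncomm_ring
  | succ k ih =>
    have e : k + 1 + 2 = (k + 2) + 1 := by ring
    rw [e, AA_succ u (k + 2), AA_succ u k, add_mul, ih, h, mul_add]
    abel

end Ring

section Main

variable {K E κ : Type*} [Field K] [Ring E] [Algebra K E]
variable {T : E →ₗ[K] E} {e D : E} {Φ : κ → E}

/-- **(Z2')**: the second correction along a derivation which fixes `L`. -/
theorem fixed_mem (Tmul : ∀ x y, T (x * y) = T y * T x) (d : E → E)
    (hadd : ∀ x y, d (x + y) = d x + d y) (hmul : ∀ x y, d (x * y) = d x * y + x * d y)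
    (hT : ∀ x, d (T x) = T (d x)) (hde : d e = 0) (hD : NilAt (adE D) (d D)) {z v : E}
    (hz : z ∈ ZZ T e D Φ) (hv : v ∈ ZZ T e D Φ)
    (hdΦ : ∀ r, d (Φ r) = v * Φ r + Φ r * T v) : d z + z * v ∈ ZZ T e D Φ := by
  obtain ⟨h, h1, h2, h3, h4, h5, h6, h7⟩ := hz
  obtain ⟨u, u1, u2, u3, u4, u5, u6, u7⟩ := hv
  have hd0 : d 0 = 0 := by
    have := hadd 0 0
    simpa using this
  have hneg : ∀ x, d (-x) = - d x := by
    intro x
    have := hadd x (-x)
    rw [add_neg_cancel, hd0] at this
    exact (neg_eq_of_add_eq_zero_right this.symm).symm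
  have dh1 : NilAt DD (fun k => d (h k)) := by
    refine h1.map (fun (x : ℕ → E) k => d (x k)) (by funext k; simpa using hd0) ?_
    intro x; funext k
    simp only [DD_apply]
    rw [sub_eq_add_neg, hadd, hneg, ← sub_eq_add_neg]
  have dh2 : NilAt (pw (adE D)) (fun k => d (h k)) := nil_der d hadd hmul hD h2
  have a1 := nil_AA u1
  have a2 := nil_ad_AA u2
  have Ae : ∀ k, AA u k * e = AA u k := by
    intro k
    simp only [AA, sub_mul, Finset.sum_mul, u3]
  have eA : ∀ k, e * AA u k = AA u k := by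
    intro k
    simp only [AA, mul_sub, Finset.mul_sum, u4]
  have dhe : ∀ k, d (h k) * e = d (h k) := by
    intro k
    have := hmul (h k) e
    rw [h3, hde, mul_zero, add_zero] at this
    exact this.symm
  have edh : ∀ k, e * d (h k) = d (h k) := by
    intro k
    have := hmul e (h k)
    rw [h4, hde, zero_mul, zero_add] at this
    exact this.symm
  have hS : ∀ r, d (Φ r) = (u 1 + u 2) * Φ r := by
    intro r
    rw [hdΦ, ← u5, ← u6, ← u7 0 r, add_mul]
  have eq : (fun k => d (h k) + h k * AA u k - AA u k * h k + h k * u k)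
      = (fun k => d (h k)) + ((fun k => h k * AA u k) - (fun k => AA u k * h k)
        + (fun k => h k * u k)) := by
    funext k
    simp only [Pi.add_apply, Pi.sub_apply]
    abel
  refine ⟨fun k => d (h k) + h k * AA u k - AA u k * h k + h k * u k, ?_, ?_, ?_, ?_, ?_, ?_, ?_⟩
  · rw [eq]
    exact dh1.add (((nil_DD_mul h1 a1).sub (nil_DD_mul a1 h1)).add (nil_DD_mul h1 u1))
  · rw [eq]
    exact dh2.add (((nil_ad_mul h2 a2).sub (nil_ad_mul a2 h2)).add (nil_ad_mul h2 u2))
  · intro k
    change (d (h k) + h k * AA u k - AA u k * h k + h k * u k) * e = _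
    rw [add_mul, sub_mul, add_mul, dhe, mul_assoc (h k), Ae, mul_assoc (AA u k), h3,
      mul_assoc (h k), u3]
  · intro k
    change e * (d (h k) + h k * AA u k - AA u k * h k + h k * u k) = _
    rw [mul_add, mul_sub, mul_add, edh, ← mul_assoc e (h k), h4, ← mul_assoc e (AA u k), eA,
      ← mul_assoc e (h k), h4]
  · change d (h 0) + h 0 * AA u 0 - AA u 0 * h 0 + h 0 * u 0 = _
    rw [AA_zero, map_add, Tmul, h5, u5, hT]
    noncomm_ring
  · change d (h 1) + h 1 * AA u 1 - AA u 1 * h 1 + h 1 * u 1 = _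
    rw [AA_one, h6, u6]
    noncomm_ring
  · intro k r
    change (d (h (k + 2)) + h (k + 2) * AA u (k + 2) - AA u (k + 2) * h (k + 2)
      + h (k + 2) * u (k + 2)) * Φ r = Φ r * (d (h k) + h k * AA u k - AA u k * h k + h k * u k)
    have k1 := congrArg d (h7 k r)
    rw [hmul (h (k + 2)) (Φ r), hmul (Φ r) (h k), hS] at k1
    have k1' : d (h (k + 2)) * Φ r = (u 1 + u 2) * (Φ r * h k) + Φ r * d (h k)
        - h (k + 2) * ((u 1 + u 2) * Φ r) := by
      rw [eq_sub_iff_add_eq, k1]
      noncomm_ring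
    have k2 : h (k + 2) * AA u (k + 2) * Φ r = h (k + 2) * ((u 1 + u 2) * Φ r)
        + Φ r * (h k * AA u k) := by
      rw [mul_assoc, AA_rel u7, mul_add, ← mul_assoc (h (k + 2)) (Φ r), h7]
      noncomm_ring
    have k3 : AA u (k + 2) * h (k + 2) * Φ r = (u 1 + u 2) * (Φ r * h k)
        + Φ r * (AA u k * h k) := by
      rw [mul_assoc, h7, ← mul_assoc, AA_rel u7]
      noncomm_ring
    have k4 : h (k + 2) * u (k + 2) * Φ r = Φ r * (h k * u k) := by
      rw [mul_assoc, u7, ← mul_assoc, h7]
      noncomm_ring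
    rw [add_mul, sub_mul, add_mul, k1', k2, k3, k4, mul_add, mul_sub, mul_add]
    abel

end Main

end Crest.Agent.R172.ZPL
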