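import Crest.Agent.R172.ZP2
import Crest.Agent.R172.ZPL

/-!
Row 172 (S0260), T0, arbitrary radical, arbitrary `D`: THE CORE BRIDGE, part 1 (pure linear algebra).

A symmetric matrix `gam` (`= pᵀ J p`) factors through its quotient by the radical:
`gam = sᵀ g s`, `s i = 1`, `g` invertible (`Fac`). `bar X = s X i`. A connection `d + π` with
`gam.map d = πᵀ gam + gam π` induces the additive derivation `db` of the ring of core matrices.
-/

set_option autoImplicit false
set_option linter.unusedSectionVars false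

namespace Crest.Agent.R172.CBr

open Matrix Crest.Agent.R172.ZP Crest.Agent.R172.ZPM

variable {n : Type*} [Fintype n] [DecidableEq n] {c : Type*} [Fintype c] [DecidableEq c]
variable {k K : Type*} [Field k] [Field K] [Algebra k K]

/-- `gam = sᵀ g s`: the core of a symmetric matrix -/
structure Fac (gam : Matrix n n K) (s : Matrix c n K) (i : Matrix n c K) (g : Matrix c c K) :
    Prop where
  si : s * i = 1
  fac : gam = sᵀ * g * s
  gs : gᵀ = g
  gu : IsUnit g

theorem exists_fac {gam : Matrix n n K} (hs : gamᵀ = gam) :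
    ∃ (m : ℕ) (s : Matrix (Fin m) n K) (i : Matrix n (Fin m) K) (g : Matrix (Fin m) (Fin m) K),
      Fac gam s i g := by
  classical
  set R : Submodule K (n → K) := LinearMap.ker (Matrix.toLin' gam) with hR
  set b := Module.finBasis K ((n → K) ⧸ R) with hb
  set sl : (n → K) →ₗ[K] (Fin (Module.finrank K ((n → K) ⧸ R)) → K) :=
    b.equivFun.toLinearMap ∘ₗ R.mkQ with hsl
  have hsurj : Function.Surjective sl := by
    rw [hsl, LinearMap.coe_comp]
    exact b.equivFun.surjective.comp (Submodule.mkQ_surjective _)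
  obtain ⟨il, hil⟩ := LinearMap.exists_rightInverse_of_surjective sl
    (LinearMap.range_eq_top.2 hsurj)
  set s := LinearMap.toMatrix' sl with hsd
  set i := LinearMap.toMatrix' il with hid
  have hsi : s * i = 1 := by
    rw [hsd, hid, ← LinearMap.toMatrix'_comp, hil, LinearMap.toMatrix'_id]
  have hker : ∀ v : n → K, s *ᵥ v = 0 → gam *ᵥ v = 0 := by
    intro v hv
    rw [hsd, LinearMap.toMatrix'_mulVec, hsl, LinearMap.comp_apply] at hv
    have h1 : R.mkQ v = 0 := by
      apply b.equivFun.injective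
      rw [map_zero]; exact hv
    rw [Submodule.mkQ_apply, Submodule.Quotient.mk_eq_zero, hR, LinearMap.mem_ker,
      Matrix.toLin'_apply] at h1
    exact h1
  have hker' : ∀ v : n → K, gam *ᵥ v = 0 → s *ᵥ v = 0 := by
    intro v hv
    rw [hsd, LinearMap.toMatrix'_mulVec, hsl, LinearMap.comp_apply]
    have h1 : R.mkQ v = 0 := by
      rw [Submodule.mkQ_apply, Submodule.Quotient.mk_eq_zero, hR, LinearMap.mem_ker,
        Matrix.toLin'_apply]
      exact hv
    rw [h1, map_zero]
  have h0 : gam * (1 - i * s) = 0 := by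
    apply Matrix.ext_of_mulVec_single
    intro j
    rw [← mulVec_mulVec, Matrix.zero_mulVec]
    apply hker
    rw [mulVec_mulVec, Matrix.mul_sub, Matrix.mul_one, ← Matrix.mul_assoc, hsi, Matrix.one_mul,
      sub_self, Matrix.zero_mulVec]
  have h1 : gam = gam * (i * s) := by
    rw [Matrix.mul_sub, Matrix.mul_one, sub_eq_zero] at h0
    exact h0
  have h2 : gam = (i * s)ᵀ * gam := by
    have := congrArg transpose h1
    rw [transpose_mul, hs] at this
    exact this
  refine ⟨_, s, i, iᵀ * gam * i, hsi, ?_, ?_, ?_⟩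
  · calc gam = (i * s)ᵀ * (gam * (i * s)) := by rw [← h1, ← h2]
      _ = sᵀ * (iᵀ * gam * i) * s := by
        rw [transpose_mul]; simp only [Matrix.mul_assoc]
  · rw [transpose_mul, transpose_mul, transpose_transpose, hs, Matrix.mul_assoc]
  · rw [Matrix.isUnit_iff_isUnit_det, isUnit_iff_ne_zero]
    intro hdet
    obtain ⟨v, hv0, hv⟩ := Matrix.exists_mulVec_eq_zero_iff.2 hdet
    apply hv0
    have h3 : gam *ᵥ (i *ᵥ v) = 0 := by
      have h4 : gam * i = sᵀ * (iᵀ * gam * i) := by
        calc gam * i = (i * s)ᵀ * gam * i := by rw [← h2]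
          _ = _ := by rw [transpose_mul]; simp only [Matrix.mul_assoc]
      rw [mulVec_mulVec, h4, ← mulVec_mulVec, hv, Matrix.mulVec_zero]
    have h5 := hker' _ h3
    rw [mulVec_mulVec, hsi, Matrix.one_mulVec] at h5
    exact h5

/-- the core matrix of `X` -/
def bar (s : Matrix c n K) (i : Matrix n c K) (X : Matrix n n K) : Matrix c c K := s * X * i

/-- `X` preserves the radical -/
def Pres (s : Matrix c n K) (i : Matrix n c K) (X : Matrix n n K) : Prop :=
  s * X = bar s i X * s

theorem bar_add (s : Matrix c n K) (i : Matrix n c K) (X Y : Matrix n n K) :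
    bar s i (X + Y) = bar s i X + bar s i Y := by
  unfold bar; rw [Matrix.mul_add, Matrix.add_mul]

theorem bar_sub (s : Matrix c n K) (i : Matrix n c K) (X Y : Matrix n n K) :
    bar s i (X - Y) = bar s i X - bar s i Y := by
  unfold bar; rw [Matrix.mul_sub, Matrix.sub_mul]

theorem bar_smul (s : Matrix c n K) (i : Matrix n c K) (a : K) (X : Matrix n n K) :
    bar s i (a • X) = a • bar s i X := by
  unfold bar; rw [Matrix.mul_smul, Matrix.smul_mul]

theorem bar_neg (s : Matrix c n K) (i : Matrix n c K) (X : Matrix n n K) :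
    bar s i (-X) = -bar s i X := by
  unfold bar; rw [Matrix.mul_neg, Matrix.neg_mul]

theorem bar_sum {α : Type*} (S : Finset α) (s : Matrix c n K) (i : Matrix n c K)
    (X : α → Matrix n n K) : bar s i (∑ a ∈ S, X a) = ∑ a ∈ S, bar s i (X a) := by
  unfold bar; rw [Matrix.mul_sum, Matrix.sum_mul]

theorem bar_mul {s : Matrix c n K} {i : Matrix n c K} {X : Matrix n n K} (hX : Pres s i X)
    (Y : Matrix n n K) : bar s i (X * Y) = bar s i X * bar s i Y := by
  have h1 := congrArg (fun A : Matrix c n K => A * Y * i) (show s * X = s * X * i * s from hX)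
  unfold bar
  simp only [Matrix.mul_assoc] at h1 ⊢
  exact h1

namespace Pres

variable {s : Matrix c n K} {i : Matrix n c K} {X Y : Matrix n n K}

theorem add (hX : Pres s i X) (hY : Pres s i Y) : Pres s i (X + Y) := by
  unfold Pres at *
  rw [bar_add, Matrix.mul_add, Matrix.add_mul, hX, hY]

theorem sub (hX : Pres s i X) (hY : Pres s i Y) : Pres s i (X - Y) := by
  unfold Pres at *
  rw [bar_sub, Matrix.mul_sub, Matrix.sub_mul, hX, hY]

theorem smul (a : K) (hX : Pres s i X) : Pres s i (a • X) := by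
  unfold Pres at *
  rw [bar_smul, Matrix.mul_smul, Matrix.smul_mul, hX]

theorem mul (hX : Pres s i X) (hY : Pres s i Y) : Pres s i (X * Y) := by
  have h := bar_mul hX Y
  unfold Pres at *
  rw [h, ← Matrix.mul_assoc, hX, Matrix.mul_assoc, hY, Matrix.mul_assoc]

theorem of_eq {X' : Matrix c c K} (hsi : s * i = 1) (h : s * X = X' * s) :
    bar s i X = X' ∧ Pres s i X := by
  have h1 : bar s i X = X' := by
    unfold bar
    rw [h, Matrix.mul_assoc, hsi, Matrix.mul_one]
  exact ⟨h1, by unfold Pres; rw [h1]; exact h⟩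

theorem one (hsi : s * i = 1) : bar s i (1 : Matrix n n K) = 1 ∧ Pres s i (1 : Matrix n n K) :=
  of_eq hsi (by rw [Matrix.mul_one, Matrix.one_mul])

end Pres

namespace Fac

variable {gam : Matrix n n K} {s : Matrix c n K} {i : Matrix n c K} {g : Matrix c c K}

theorem gdet (h : Fac gam s i g) : IsUnit g.det := (Matrix.isUnit_iff_isUnit_det g).1 h.gu

theorem giigam (h : Fac gam s i g) : g⁻¹ * iᵀ * gam = s := by
  have h1 : iᵀ * sᵀ = 1 := by rw [← transpose_mul, h.si, transpose_one]
  rw [h.fac]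
  calc g⁻¹ * iᵀ * (sᵀ * g * s) = g⁻¹ * (iᵀ * sᵀ) * g * s := by simp only [Matrix.mul_assoc]
    _ = s := by rw [h1, Matrix.mul_one, Matrix.nonsing_inv_mul _ h.gdet, Matrix.one_mul]

theorem gami (h : Fac gam s i g) : gam * i = sᵀ * g := by
  rw [h.fac, Matrix.mul_assoc, h.si, Matrix.mul_one]

/-- `gam X = 0` iff `s X = 0` -/
theorem gam_mul_eq_zero_iff {α : Type*} (h : Fac gam s i g) {X : Matrix n α K} :
    gam * X = 0 ↔ s * X = 0 := by
  constructor
  · intro h1
    rw [← h.giigam, Matrix.mul_assoc, h1, Matrix.mul_zero]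
  · intro h1
    rw [h.fac, Matrix.mul_assoc, h1, Matrix.mul_zero]

/-- the adjoint of `X` -/
theorem adj (h : Fac gam s i g) {X Y : Matrix n n K} (hXY : gam * X = Yᵀ * gam) :
    bar s i X = TJ g (bar s i Y) ∧ Pres s i X := by
  refine Pres.of_eq h.si ?_
  have h1 : g⁻¹ * iᵀ * (gam * X) = g⁻¹ * iᵀ * (Yᵀ * gam) := by rw [hXY]
  have h2 : g⁻¹ * iᵀ * (gam * X) = s * X := by rw [← Matrix.mul_assoc, h.giigam]
  have h3 : g⁻¹ * iᵀ * (Yᵀ * gam) = TJ g (bar s i Y) * s := by
    rw [TJ_apply, h.fac]
    unfold bar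
    rw [transpose_mul, transpose_mul]
    simp only [Matrix.mul_assoc]
  rw [← h2, h1, h3]

theorem adj' (h : Fac gam s i g) {X Y : Matrix n n K} (hgs : gamᵀ = gam)
    (hXY : gam * X = Yᵀ * gam) : bar s i Y = TJ g (bar s i X) ∧ Pres s i Y := by
  refine h.adj ?_
  have := congrArg transpose hXY
  rw [transpose_mul, transpose_mul, transpose_transpose, hgs] at this
  exact this.symm

theorem gam_symm (h : Fac gam s i g) : gamᵀ = gam := by
  rw [h.fac, transpose_mul, transpose_mul, transpose_transpose, h.gs, Matrix.mul_assoc]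

/-- `gam X = gam Y` iff the core parts agree -/
theorem s_eq {α : Type*} (h : Fac gam s i g) {X Y : Matrix n α K} (hXY : gam * X = gam * Y) :
    s * X = s * Y := by
  rw [← h.giigam, Matrix.mul_assoc, hXY, ← Matrix.mul_assoc]

end Fac

/-- the induced derivation on core matrices -/
def db (d : Derivation k K K) (σ : Matrix c c K) (z : Matrix c c K) : Matrix c c K :=
  z.map d + σ * z - z * σ

variable {gam : Matrix n n K} {s : Matrix c n K} {i : Matrix n c K} {g : Matrix c c K}

theorem mapd_T {α β : Type*} (d : Derivation k K K) (A : Matrix α β K) :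
    Aᵀ.map d = (A.map d)ᵀ := by
  ext; simp

theorem mapd_sub (d : Derivation k K K) {α β : Type*} (A C : Matrix α β K) :
    (A - C).map d = A.map d - C.map d := by
  ext i j; simp

theorem exists_conn (h : Fac gam s i g) (d : Derivation k K K) {π : Matrix n n K}
    (hg : gam.map d = πᵀ * gam + gam * π) :
    ∃ σ : Matrix c c K, s.map d = s * π - σ * s ∧ g.map d = σᵀ * g + g * σ := by
  have h1 : iᵀ * sᵀ = 1 := by rw [← transpose_mul, h.si, transpose_one]
  set u := s.map d - s * π with hu
  have e1 : uᵀ * g * s + sᵀ * g.map d * s + sᵀ * g * u = 0 := by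
    have h2 : gam.map d = (s.map d)ᵀ * g * s + sᵀ * g.map d * s + sᵀ * g * s.map d := by
      rw [h.fac, mapd_mul, mapd_mul, mapd_T, Matrix.add_mul]
    rw [hg] at h2
    have h3 : πᵀ * gam + gam * π = (s * π)ᵀ * g * s + sᵀ * g * (s * π) := by
      rw [h.fac, transpose_mul]; simp only [Matrix.mul_assoc]
    rw [h3] at h2
    rw [hu, transpose_sub, Matrix.sub_mul, Matrix.sub_mul, Matrix.mul_sub]
    have h4 : (s.map d)ᵀ * g * s - (s * π)ᵀ * g * s + sᵀ * g.map d * s +
        (sᵀ * g * s.map d - sᵀ * g * (s * π)) =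
        ((s.map d)ᵀ * g * s + sᵀ * g.map d * s + sᵀ * g * s.map d) -
          ((s * π)ᵀ * g * s + sᵀ * g * (s * π)) := by abel
    rw [h4, ← h2, sub_self]
  have e2 : iᵀ * uᵀ * g * s + g.map d * s + g * u = 0 := by
    have := congrArg (fun A => iᵀ * A) e1
    simp only [Matrix.mul_add, Matrix.mul_zero] at this
    have a1 : iᵀ * (sᵀ * g.map d * s) = g.map d * s := by
      rw [← Matrix.mul_assoc, ← Matrix.mul_assoc, h1, Matrix.one_mul]
    have a2 : iᵀ * (sᵀ * g * u) = g * u := by
      rw [← Matrix.mul_assoc, ← Matrix.mul_assoc, h1, Matrix.one_mul]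
    rw [a1, a2] at this
    simpa only [Matrix.mul_assoc] using this
  set σ := g⁻¹ * (iᵀ * uᵀ * g + g.map d) with hσ
  have e3 : u = -(σ * s) := by
    have : g⁻¹ * (iᵀ * uᵀ * g * s + g.map d * s + g * u) = 0 := by rw [e2, Matrix.mul_zero]
    rw [Matrix.mul_add, ← Matrix.mul_assoc g⁻¹ g u, Matrix.nonsing_inv_mul _ h.gdet,
      Matrix.one_mul, ← Matrix.add_mul, ← Matrix.mul_assoc g⁻¹] at this
    rw [hσ]
    exact (neg_eq_of_add_eq_zero_right this).symm
  have e4 : u * i = -σ := by
    rw [e3, Matrix.neg_mul, Matrix.mul_assoc, h.si, Matrix.mul_one]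
  refine ⟨σ, ?_, ?_⟩
  · have : s.map d = s * π + u := by rw [hu]; abel
    rw [this, e3]; abel
  · have e5 := congrArg (fun A => A * i) e2
    simp only [Matrix.add_mul, Matrix.zero_mul] at e5
    have b1 : iᵀ * uᵀ * g * s * i = -σᵀ * g := by
      rw [← transpose_mul, e4, Matrix.mul_assoc, h.si, Matrix.mul_one, transpose_neg]
    have b2 : g.map d * s * i = g.map d := by rw [Matrix.mul_assoc, h.si, Matrix.mul_one]
    have b3 : g * u * i = -(g * σ) := by rw [Matrix.mul_assoc, e4, Matrix.mul_neg]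
    rw [b1, b2, b3, Matrix.neg_mul] at e5
    have : g.map d = (-(σᵀ * g) + g.map d + -(g * σ)) + (σᵀ * g + g * σ) := by abel
    rw [this, e5, zero_add]

theorem db_add (d : Derivation k K K) (σ x y : Matrix c c K) :
    db d σ (x + y) = db d σ x + db d σ y := by
  unfold db
  rw [mapd_add, Matrix.mul_add, Matrix.add_mul]; abel

theorem db_mul (d : Derivation k K K) (σ x y : Matrix c c K) :
    db d σ (x * y) = db d σ x * y + x * db d σ y := by
  unfold db
  rw [mapd_mul]
  simp only [Matrix.mul_add, Matrix.add_mul, Matrix.mul_sub, Matrix.sub_mul, Matrix.mul_assoc]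
  abel

theorem db_one (d : Derivation k K K) (σ : Matrix c c K) : db d σ 1 = 0 := by
  unfold db
  have h2 : (1 : Matrix c c K).map d = 0 := by
    ext i j
    rw [Matrix.map_apply, Matrix.zero_apply, Matrix.one_apply]
    split_ifs
    · exact d.map_one_eq_zero
    · exact map_zero d
  rw [h2, Matrix.mul_one, Matrix.one_mul, zero_add, sub_self]

theorem db_T (h : Fac gam s i g) {d : Derivation k K K} {σ : Matrix c c K}
    (hg : g.map d = σᵀ * g + g * σ) (z : Matrix c c K) :
    db d σ (TJ g z) = TJ g (db d σ z) := by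
  symm
  rw [TJ_eq_iff h.gu]
  have h0 : zᵀ * g = g * TJ g z := (TJ_eq_iff h.gu).1 rfl
  have h1 := congrArg (fun A : Matrix c c K => A.map d) h0
  simp only [mapd_mul, mapd_T] at h1
  rw [hg] at h1
  unfold db
  rw [transpose_sub, transpose_add, transpose_mul, transpose_mul]
  have h2 : (z.map d)ᵀ * g = (σᵀ * g + g * σ) * TJ g z + g * (TJ g z).map d -
      zᵀ * (σᵀ * g + g * σ) := by
    rw [← h1]; abel
  rw [Matrix.sub_mul, Matrix.add_mul, h2]
  have h3 : σᵀ * zᵀ * g = σᵀ * g * TJ g z := by rw [Matrix.mul_assoc, h0, Matrix.mul_assoc]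
  have h4 : zᵀ * (g * σ) = g * TJ g z * σ := by rw [← Matrix.mul_assoc, h0]
  rw [h3, Matrix.mul_add zᵀ, h4]
  simp only [Matrix.mul_add, Matrix.add_mul, Matrix.mul_sub, Matrix.mul_assoc]
  abel

/-- `bar` of the covariant derivative -/
theorem bar_nabla (h : Fac gam s i g) {d : Derivation k K K} {π : Matrix n n K}
    {σ : Matrix c c K} (hs : s.map d = s * π - σ * s) {X : Matrix n n K} (hX : Pres s i X) :
    bar s i (X.map d + π * X - X * π) = db d σ (bar s i X) ∧
      Pres s i (X.map d + π * X - X * π) := by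
  refine Pres.of_eq h.si ?_
  have h1 := congrArg (fun A : Matrix c n K => A.map d) (show s * X = bar s i X * s from hX)
  simp only [mapd_mul] at h1
  rw [hs] at h1
  unfold db
  have h2 : s * X.map d = (bar s i X).map d * s + bar s i X * (s * π - σ * s) -
      (s * π - σ * s) * X := by rw [← h1]; abel
  rw [Matrix.mul_sub, Matrix.mul_add, h2]
  have h3 : s * (X * π) = bar s i X * (s * π) := by
    rw [← Matrix.mul_assoc, show s * X = bar s i X * s from hX, Matrix.mul_assoc]
  have h4 : σ * s * X = σ * bar s i X * s := by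
    rw [Matrix.mul_assoc, show s * X = bar s i X * s from hX, Matrix.mul_assoc]
  rw [h3, Matrix.sub_mul (s * π), h4]
  simp only [Matrix.add_mul, Matrix.mul_sub, Matrix.sub_mul, Matrix.mul_assoc]
  abel

end Crest.Agent.R172.CBr
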