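import Crest.Agent.R172.FO2

/-!
Row 172 (S0260), node o2-RD: the FIRST derivative in a frame `p : Matrix ι n K` (not necessarily
injective) on which `D` is an honest matrix. Any radical, any `D`.

Note 16086 of helper455: `Fᵀ J p D = Gᵀ J p`, `M_r(F,F) J p = p φ_r`, `D φ_r = φ_r D`,
`∑ φ_r a_r = 1`, `H = F + t G`, `c = 1 + t D`.
-/

set_option linter.unusedSectionVars false

namespace Crest.Agent.R172.Frm

open Matrix FO

variable {ι : Type*} [Fintype ι] [DecidableEq ι] {δ : Type*} [Fintype δ] [DecidableEq δ]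
variable {n : Type*} [Fintype n] [DecidableEq n]
variable {k K : Type*} [Field k] [Field K] [Algebra k K]
variable {arm : δ → Fin 3} {J : Matrix ι ι K} {B : Matrix δ δ K}
  {N W : Submodule K (Matrix ι δ K)} {F G : Matrix ι δ K} {p : Matrix ι n K}
  {φ : Fin 3 → Matrix n n K} {D : Matrix n n K}

variable (k) in
/-- a frame `p` with an honest matrix `D` -/
structure Frame (arm : δ → Fin 3) (J : Matrix ι ι K) (B : Matrix δ δ K)
    (N W : Submodule K (Matrix ι δ K)) (F G : Matrix ι δ K) (p : Matrix ι n K)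
    (φ : Fin 3 → Matrix n n K) (D : Matrix n n K) : Prop where
  data : Data k arm J B N W
  memF : F ∈ N ⊓ W
  memG : G ∈ N ⊓ W
  phi : ∀ r, M arm B r F F * J * p = p * φ r
  dg : Gᵀ * J * p = Fᵀ * J * p * D
  comm : ∀ r, D * φ r = φ r * D
  perf : ∃ a : Fin 3 → Matrix n n K, ∑ r, φ r * a r = 1

/-- `io y = act(p y pᵀ J) F` -/
def io (arm : δ → Fin 3) (J : Matrix ι ι K) (p : Matrix ι n K) (y : Fin 3 → Matrix n n K)
    (F : Matrix ι δ K) : Matrix ι δ K :=
  act arm (fun r => p * y r * pᵀ * J) F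

lemma act_sub_left (arm : δ → Fin 3) (X Y : Fin 3 → Matrix ι ι K) (F : Matrix ι δ K) :
    act arm (fun r => X r - Y r) F = act arm X F - act arm Y F := by
  unfold act
  rw [← Finset.sum_sub_distrib]
  exact Finset.sum_congr rfl fun s _ => by rw [Matrix.sub_mul, Matrix.sub_mul]

lemma io_sub (arm : δ → Fin 3) (J : Matrix ι ι K) (p : Matrix ι n K)
    (x y : Fin 3 → Matrix n n K) (F : Matrix ι δ K) :
    io arm J p (fun r => x r - y r) F = io arm J p x F - io arm J p y F := by
  unfold io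
  rw [← act_sub_left]
  congr 1
  funext r
  rw [Matrix.mul_sub, Matrix.sub_mul, Matrix.sub_mul]

/-- general form of the stacked `exists_xi` : two matrices -/
theorem exists_xi2 (hBs : Bᵀ = B) (hBu : IsUnit B) (F G : Matrix ι δ K) (v : Matrix δ n K)
    (m : Matrix n δ K) (S : Matrix n n K) (hS : S + Sᵀ = 0)
    (hF : m * B * Fᵀ = S * (F * v)ᵀ) (hG : m * B * Gᵀ = S * (G * v)ᵀ) :
    ∃ ξ : Matrix δ δ K, ξᵀ * B + B * ξ = 0 ∧ F * ξᵀ = F * v * m ∧ G * ξᵀ = G * v * m := by
  obtain ⟨A, hAF, hAG⟩ : ∃ A : Matrix (ι ⊕ ι) δ K,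
      (∀ i d, A (Sum.inl i) d = F i d) ∧ (∀ i d, A (Sum.inr i) d = G i d) :=
    ⟨fun i d => Sum.elim (fun i => F i d) (fun i => G i d) i, fun _ _ => rfl, fun _ _ => rfl⟩
  have hl : ∀ {β : Type _} (X : Matrix δ β K) (i : ι) (j : β),
      (A * X) (Sum.inl i) j = (F * X) i j := by
    intro β X i j
    simp only [Matrix.mul_apply, hAF]
  have hr : ∀ {β : Type _} (X : Matrix δ β K) (i : ι) (j : β),
      (A * X) (Sum.inr i) j = (G * X) i j := by
    intro β X i j
    simp only [Matrix.mul_apply, hAG]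
  obtain ⟨R, hR⟩ := exists_gen_inv (K := K) A
  have hmA : m * B * Aᵀ = S * (A * v)ᵀ := by
    ext i j
    rcases j with j | j
    · have := congrFun (congrFun hF i) j
      simp only [Matrix.mul_apply, Matrix.transpose_apply] at this ⊢
      simpa only [hAF] using this
    · have := congrFun (congrFun hG i) j
      simp only [Matrix.mul_apply, Matrix.transpose_apply] at this ⊢
      simpa only [hAG] using this
  have h1 : (A * v * m) * B * Aᵀ = (A * v) * S * (A * v)ᵀ := by
    calc (A * v * m) * B * Aᵀ = (A * v) * (m * B * Aᵀ) := by simp only [Matrix.mul_assoc]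
      _ = _ := by rw [hmA]; simp only [Matrix.mul_assoc]
  have h2 : A * B * (A * v * m)ᵀ = (A * v) * Sᵀ * (A * v)ᵀ := by
    have : A * B * (A * v * m)ᵀ = ((A * v * m) * B * Aᵀ)ᵀ := by
      rw [transpose_mul (A * v * m * B), transpose_mul (A * v * m) B, transpose_transpose, hBs]
      simp only [Matrix.mul_assoc]
    rw [this, h1]
    simp only [transpose_mul, transpose_transpose, Matrix.mul_assoc]
  obtain ⟨ξ, hξ, hξA⟩ := exists_xi hBs hBu A (A * v * m) R
    (by
      calc A * R * (A * v * m) = (A * R * A) * (v * m) := by simp only [Matrix.mul_assoc]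
        _ = _ := by rw [hR]; simp only [Matrix.mul_assoc]) hR (by
      rw [h1, h2, ← Matrix.add_mul, ← Matrix.mul_add, hS, Matrix.mul_zero, Matrix.zero_mul])
  refine ⟨ξ, hξ, ?_, ?_⟩
  · ext i j
    have := congrFun (congrFun hξA (Sum.inl i)) j
    rwa [Matrix.mul_assoc, hl, hl, ← Matrix.mul_assoc] at this
  · ext i j
    have := congrFun (congrFun hξA (Sum.inr i)) j
    rwa [Matrix.mul_assoc, hr, hr, ← Matrix.mul_assoc] at this

/-- correction by a vertical derivation -/
theorem exists_move (hD : Data k arm J B N W) {H : Matrix ι δ K} (hH : Generic k arm N W H)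
    (X : Fin 3 → Matrix ι ι K) (hX : ∀ s, (X s)ᵀ * J + J * X s = 0) (ξ : Matrix δ δ K)
    (hξ : ξᵀ * B + B * ξ = 0) (hξH : H * ξᵀ = act arm X H) :
    ∃ d : Derivation k K K, Realises arm N W X ξ d ∧ H.map d = act arm X H := by
  obtain ⟨d0, hd0⟩ := hD.dir X ξ hX hξ
  have h1 : H.map d0 - act arm X H ∈ N ⊓ W := by
    refine ⟨hd0.onN H hH.mem.1, ?_⟩
    have := hd0.onW H hH.mem.2
    rwa [hξH] at this
  obtain ⟨d1, hd1, hr⟩ := hH.vert _ h1
  have hsub : ∀ G : Matrix ι δ K, G.map (d0 - d1) = G.map d0 - G.map d1 := by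
    intro G; ext i j; simp
  refine ⟨d0 - d1, ⟨?_, ?_⟩, ?_⟩
  · intro G hG
    have h2 := hd0.onN G hG
    have h3 := hr.onN G hG
    rw [act_zero, sub_zero] at h3
    rw [hsub]
    have : G.map d0 - G.map d1 - act arm X G = (G.map d0 - act arm X G) - G.map d1 := by abel
    rw [this]
    exact N.sub_mem h2 h3
  · intro G hG
    have h2 := hd0.onW G hG
    have h3 := hr.onW G hG
    rw [transpose_zero, Matrix.mul_zero, sub_zero] at h3
    rw [hsub]
    have : G.map d0 - G.map d1 - G * ξᵀ = (G.map d0 - G * ξᵀ) - G.map d1 := by abel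
    rw [this]
    exact W.sub_mem h2 h3
  · rw [hsub, hd1]
    abel

/-- **PERSISTENCE of the span of `p`** (perfect + all long words have range in the span). -/
theorem exists_pi {Φ : Fin 3 → Matrix ι ι K} {ψ a : Fin 3 → Matrix n n K}
    (hΦp : ∀ r, Φ r * p = p * ψ r) (ha : ∑ r, ψ r * a r = 1) {d : Derivation k K K}
    (hd : ∀ r, ∃ κ : Matrix n n K, (Φ r).map d * p = p * κ) {m : ℕ}
    (hw : ∀ l : List (Fin 3), l.length = m → ∃ Q : Matrix n ι K, (l.map Φ).prod = p * Q) :
    ∃ π : Matrix n n K, p.map d = p * π := by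
  -- the submodule of the multiples of `p`
  let R : Submodule K (Matrix ι n K) :=
    { carrier := {A | ∃ π : Matrix n n K, A = p * π}
      add_mem' := by
        rintro _ _ ⟨x, rfl⟩ ⟨y, rfl⟩
        exact ⟨x + y, (Matrix.mul_add _ _ _).symm⟩
      zero_mem' := ⟨0, (Matrix.mul_zero _).symm⟩
      smul_mem' := by
        rintro t _ ⟨x, rfl⟩
        exact ⟨t • x, (Matrix.mul_smul _ _ _).symm⟩ }
  let T : ℕ → Submodule K (Matrix ι n K) := fun j => Submodule.span K
    {A | ∃ l : List (Fin 3), l.length = j ∧ ∃ c : Matrix n n K,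
      A = (l.map Φ).prod * (p.map d * c)}
  have hp : p = ∑ r, Φ r * p * a r := by
    calc p = p * ∑ r, ψ r * a r := by rw [ha, Matrix.mul_one]
      _ = _ := by
        rw [Matrix.mul_sum]
        exact Finset.sum_congr rfl fun r _ => by rw [hΦp, Matrix.mul_assoc]
  have hsum : ∀ f : Fin 3 → Matrix ι n K, (∑ r, f r).map d = ∑ r, (f r).map d := by
    intro f
    ext i j
    simp [Matrix.sum_apply, Matrix.map_apply]
  have h0 : p.map d - ∑ r, Φ r * p.map d * a r ∈ R := by
    have e1 : p.map d = ∑ r, (Φ r * p * a r).map d := by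
      rw [← hsum, ← hp]
    have e2 : p.map d - ∑ r, Φ r * p.map d * a r
        = ∑ r, ((Φ r * p * a r).map d - Φ r * p.map d * a r) := by
      rw [Finset.sum_sub_distrib, ← e1]
    rw [e2]
    refine R.sum_mem fun r _ => ?_
    obtain ⟨κ, hκ⟩ := hd r
    refine ⟨κ * a r + ψ r * (a r).map d, ?_⟩
    rw [map_mul_der, map_mul_der, hκ, hΦp, Matrix.mul_add, Matrix.add_mul]
    simp only [Matrix.mul_assoc]
    abel
  have hstep : ∀ j, p.map d ∈ R ⊔ T j := by
    intro j
    induction j with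
    | zero =>
      refine Submodule.mem_sup_right (Submodule.subset_span ⟨[], rfl, 1, ?_⟩)
      simp
    | succ j ih =>
      have e1 : p.map d = (p.map d - ∑ r, Φ r * p.map d * a r)
          + ∑ r, Φ r * p.map d * a r := by abel
      rw [e1]
      refine Submodule.add_mem _ (Submodule.mem_sup_left h0) (Submodule.sum_mem _ fun r _ => ?_)
      obtain ⟨x, ⟨π, rfl⟩, y, hy, hxy⟩ := Submodule.mem_sup.1 ih
      rw [← hxy, Matrix.mul_add, Matrix.add_mul]
      refine Submodule.add_mem _ (Submodule.mem_sup_left ⟨ψ r * π * a r, ?_⟩)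
        (Submodule.mem_sup_right ?_)
      · rw [← Matrix.mul_assoc (Φ r), hΦp]
        simp only [Matrix.mul_assoc]
      · refine Submodule.span_induction (p := fun y _ => Φ r * y * a r ∈ T (j + 1)) ?_ ?_ ?_ ?_ hy
        · rintro _ ⟨l, hl, c, rfl⟩
          refine Submodule.subset_span ⟨r :: l, by simp [hl], c * a r, ?_⟩
          simp only [List.map_cons, List.prod_cons, Matrix.mul_assoc]
        · simp
        · intro u v _ _ hu hv
          rw [Matrix.mul_add, Matrix.add_mul]
          exact Submodule.add_mem _ hu hv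
        · intro t u _ hu
          rw [Matrix.mul_smul, Matrix.smul_mul]
          exact Submodule.smul_mem _ _ hu
  have hT : T m ≤ R := by
    refine Submodule.span_le.2 ?_
    rintro _ ⟨l, hl, c, rfl⟩
    obtain ⟨Q, hQ⟩ := hw l hl
    exact ⟨Q * (p.map d * c), by rw [hQ, Matrix.mul_assoc]⟩
  have := hstep m
  rw [sup_eq_left.2 hT] at this
  exact this

namespace Frame

variable (h : Frame k arm J B N W F G p φ D)
include h

lemma M_transpose (F' G' : Matrix ι δ K) (r : Fin 3) :
    (M arm B r F' G')ᵀ = M arm B r G' F' := by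
  unfold M
  rw [transpose_mul, transpose_mul, transpose_mul, transpose_transpose, E_transpose,
    h.data.B_symm]
  simp only [Matrix.mul_assoc]
  rw [← Matrix.mul_assoc B, ← h.data.B_arm, Matrix.mul_assoc]

lemma MFG (r : Fin 3) : M arm B r F G * J * p = p * φ r * D := by
  have : M arm B r F G * J * p = M arm B r F F * J * p * D := by
    unfold M
    calc F * E K arm r * B * Gᵀ * J * p = F * E K arm r * B * (Gᵀ * J * p) := by
          simp only [Matrix.mul_assoc]
      _ = _ := by rw [h.dg]; simp only [Matrix.mul_assoc]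
  rw [this, h.phi]

lemma MGF (r : Fin 3) : M arm B r G F * J * p = p * φ r * D := by
  rw [h.data.symm_arm h.memG h.memF, h.MFG]

/-- `g = pᵀ J p` and `φ` -/
lemma g_phi (r : Fin 3) : pᵀ * J * p * φ r = (φ r)ᵀ * (pᵀ * J * p) := by
  have h1 : pᵀ * J * p * φ r = pᵀ * J * (M arm B r F F * J * p) := by
    rw [h.phi]; simp only [Matrix.mul_assoc]
  have h2 : (φ r)ᵀ * (pᵀ * J * p) = (p * φ r)ᵀ * J * p := by
    rw [transpose_mul]; simp only [Matrix.mul_assoc]
  rw [h1, h2, ← h.phi, transpose_mul, transpose_mul, h.M_transpose, h.data.J_symm]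
  simp only [Matrix.mul_assoc]

lemma g_symm : (pᵀ * J * p)ᵀ = pᵀ * J * p := by
  rw [transpose_mul, transpose_mul, transpose_transpose, h.data.J_symm]
  simp only [Matrix.mul_assoc]

lemma pJG : pᵀ * J * G = Dᵀ * (pᵀ * J * F) := by
  have h1 := congrArg transpose h.dg
  simp only [transpose_mul, transpose_transpose, h.data.J_symm] at h1
  rw [Matrix.mul_assoc, h1]
  simp only [Matrix.mul_assoc]

/-- the vectors with `F v = p`, `G v = p D` -/
lemma exists_v : ∃ v : Matrix δ n K, F * v = p ∧ G * v = p * D := by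
  obtain ⟨a, ha⟩ := h.perf
  refine ⟨∑ r, E K arm r * B * Fᵀ * J * p * a r, ?_, ?_⟩
  · rw [Matrix.mul_sum]
    calc ∑ r, F * (E K arm r * B * Fᵀ * J * p * a r) = ∑ r, p * (φ r * a r) := by
          refine Finset.sum_congr rfl fun r _ => ?_
          rw [← Matrix.mul_assoc p, ← h.phi]
          unfold M
          simp only [Matrix.mul_assoc]
      _ = p := by rw [← Matrix.mul_sum, ha, Matrix.mul_one]
  · rw [Matrix.mul_sum]
    calc ∑ r, G * (E K arm r * B * Fᵀ * J * p * a r) = ∑ r, p * D * (φ r * a r) := by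
          refine Finset.sum_congr rfl fun r _ => ?_
          have : p * D * (φ r * a r) = p * φ r * D * a r := by
            calc p * D * (φ r * a r) = p * (D * φ r) * a r := by simp only [Matrix.mul_assoc]
              _ = _ := by rw [h.comm]; simp only [Matrix.mul_assoc]
          rw [this, ← h.MGF]
          unfold M
          simp only [Matrix.mul_assoc]
      _ = p * D := by rw [← Matrix.mul_sum, ha, Matrix.mul_one]

lemma g_D : pᵀ * J * p * D = Dᵀ * (pᵀ * J * p) := by
  obtain ⟨v, hv, hGv⟩ := h.exists_v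
  have h1 : pᵀ * J * p * D = vᵀ * (Fᵀ * J * p * D) := by
    calc pᵀ * J * p * D = (F * v)ᵀ * J * p * D := by rw [hv]
      _ = _ := by rw [transpose_mul]; simp only [Matrix.mul_assoc]
  rw [h1, ← h.dg]
  calc vᵀ * (Gᵀ * J * p) = (G * v)ᵀ * J * p := by
        rw [transpose_mul]; simp only [Matrix.mul_assoc]
    _ = _ := by rw [hGv, transpose_mul]; simp only [Matrix.mul_assoc]


lemma pJM_FF (r : Fin 3) : pᵀ * J * M arm B r F F = (φ r)ᵀ * pᵀ := by
  have h1 := congrArg transpose (h.phi r)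
  rw [transpose_mul, transpose_mul, transpose_mul, h.M_transpose, h.data.J_symm] at h1
  rw [← h1]
  simp only [Matrix.mul_assoc]

lemma pJM_FG (r : Fin 3) : pᵀ * J * M arm B r F G = (φ r)ᵀ * (p * D)ᵀ := by
  have h1 := congrArg transpose (h.MGF r)
  rw [transpose_mul, transpose_mul, h.M_transpose, h.data.J_symm] at h1
  have h2 : pᵀ * J * M arm B r F G = pᵀ * (J * M arm B r F G) := Matrix.mul_assoc _ _ _
  rw [h2, h1, Matrix.mul_assoc p, ← h.comm, ← transpose_mul]
  simp only [Matrix.mul_assoc]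

/-- **FIRST DERIVATIVE in a frame.** -/
theorem first {t : K} {c ci : Matrix n n K} (hc : c = 1 + t • D) (hci : c * ci = 1)
    (hH : Generic k arm N W (F + t • G)) (Y : Fin 3 → Matrix n n K)
    (hY : ∀ r, (Y r)ᵀ = -(Y r))
    (hex : ∑ r, (Y r * (cᵀ * cᵀ * (φ r)ᵀ) - φ r * c * c * Y r) = 0) :
    ∃ (ξ : Matrix δ δ K) (d : Derivation k K K), ξᵀ * B + B * ξ = 0 ∧
      Realises arm N W (fun r => p * Y r * pᵀ * J) ξ d ∧
      (F + t • G).map d = io arm J p Y (F + t • G) ∧
      F * ξᵀ = io arm J p (fun r => ci * Y r * cᵀ) F ∧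
      F.map d - io arm J p (fun r => ci * Y r * cᵀ) F ∈ W ∧
      F.map d - io arm J p Y F ∈ N := by
  have hci' : ci * c = 1 := by rw [mul_eq_one_comm] at hci; exact hci
  have hcφ : ∀ r, c * φ r = φ r * c := by
    intro r
    rw [hc, Matrix.add_mul, Matrix.mul_add, Matrix.one_mul, Matrix.mul_one, Matrix.smul_mul,
      Matrix.mul_smul, h.comm]
  have hciφ : ∀ r, ci * φ r = φ r * ci := by
    intro r
    calc ci * φ r = ci * φ r * (c * ci) := by rw [hci, Matrix.mul_one]
      _ = ci * (φ r * c) * ci := by simp only [Matrix.mul_assoc]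
      _ = ci * (c * φ r) * ci := by rw [hcφ]
      _ = (ci * c) * φ r * ci := by simp only [Matrix.mul_assoc]
      _ = φ r * ci := by rw [hci', Matrix.one_mul]
  have hT : ∀ r, cᵀ * (φ r)ᵀ * ciᵀ = (φ r)ᵀ := by
    intro r
    rw [← transpose_mul, ← transpose_mul, ← Matrix.mul_assoc, hciφ, Matrix.mul_assoc, hci',
      Matrix.mul_one]
  obtain ⟨v, hv, hGv⟩ := h.exists_v
  obtain ⟨m, hm⟩ : ∃ m : Matrix n δ K,
      m = ∑ r, ci * Y r * cᵀ * pᵀ * J * F * E K arm r := ⟨_, rfl⟩
  obtain ⟨S, hS⟩ : ∃ S : Matrix n n K, S = ∑ r, ci * Y r * cᵀ * (φ r)ᵀ := ⟨_, rfl⟩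
  have hFio : p * m = io arm J p (fun r => ci * Y r * cᵀ) F := by
    unfold io act
    rw [hm, Matrix.mul_sum]
    exact Finset.sum_congr rfl fun r _ => by simp only [Matrix.mul_assoc]
  have hmF : m * B * Fᵀ = S * pᵀ := by
    rw [hm, hS, Matrix.sum_mul, Matrix.sum_mul, Matrix.sum_mul]
    refine Finset.sum_congr rfl fun r _ => ?_
    have h1 := h.pJM_FF r
    unfold M at h1
    calc ci * Y r * cᵀ * pᵀ * J * F * E K arm r * B * Fᵀ
        = ci * Y r * cᵀ * (pᵀ * J * (F * E K arm r * B * Fᵀ)) := by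
          simp only [Matrix.mul_assoc]
      _ = _ := by rw [h1]; simp only [Matrix.mul_assoc]
  have hmG : m * B * Gᵀ = S * (p * D)ᵀ := by
    rw [hm, hS, Matrix.sum_mul, Matrix.sum_mul, Matrix.sum_mul]
    refine Finset.sum_congr rfl fun r _ => ?_
    have h1 := h.pJM_FG r
    unfold M at h1
    calc ci * Y r * cᵀ * pᵀ * J * F * E K arm r * B * Gᵀ
        = ci * Y r * cᵀ * (pᵀ * J * (F * E K arm r * B * Gᵀ)) := by
          simp only [Matrix.mul_assoc]
      _ = _ := by rw [h1]; simp only [Matrix.mul_assoc]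
  have hSS : S + Sᵀ = 0 := by
    have e1 : Sᵀ = ∑ r, (φ r * c * (Y r)ᵀ * ciᵀ) := by
      rw [hS, transpose_sum]
      refine Finset.sum_congr rfl fun r _ => ?_
      simp only [transpose_mul, transpose_transpose, Matrix.mul_assoc]
    have e2 : S + Sᵀ = ci * (∑ r, (Y r * (cᵀ * cᵀ * (φ r)ᵀ) - φ r * c * c * Y r)) * ciᵀ := by
      rw [e1, hS, ← Finset.sum_add_distrib, Matrix.mul_sum, Matrix.sum_mul]
      refine Finset.sum_congr rfl fun r _ => ?_
      rw [hY, Matrix.mul_sub, Matrix.sub_mul]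
      have e3 : ci * (Y r * (cᵀ * cᵀ * (φ r)ᵀ)) * ciᵀ = ci * Y r * cᵀ * (φ r)ᵀ := by
        calc ci * (Y r * (cᵀ * cᵀ * (φ r)ᵀ)) * ciᵀ
            = ci * Y r * cᵀ * (cᵀ * (φ r)ᵀ * ciᵀ) := by simp only [Matrix.mul_assoc]
          _ = _ := by rw [hT]
      have e4 : ci * (φ r * c * c * Y r) * ciᵀ = φ r * c * Y r * ciᵀ := by
        calc ci * (φ r * c * c * Y r) * ciᵀ = (ci * φ r) * c * c * Y r * ciᵀ := by
              simp only [Matrix.mul_assoc]
          _ = φ r * (ci * c) * c * Y r * ciᵀ := by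
              rw [hciφ]; simp only [Matrix.mul_assoc]
          _ = _ := by rw [hci', Matrix.mul_one]
      rw [e3, e4, Matrix.mul_neg, Matrix.neg_mul, sub_eq_add_neg]
    rw [e2, hex, Matrix.mul_zero, Matrix.zero_mul]
  obtain ⟨ξ, hξ, hξF, hξG⟩ := exists_xi2 h.data.B_symm h.data.B_unit F G v m S hSS
    (by rw [hv]; exact hmF) (by rw [hGv]; exact hmG)
  rw [hv] at hξF
  rw [hGv] at hξG
  have hpJH : pᵀ * J * (F + t • G) = cᵀ * (pᵀ * J * F) := by
    rw [Matrix.mul_add, Matrix.mul_smul, h.pJG, hc, transpose_add, transpose_one,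
      transpose_smul, Matrix.add_mul, Matrix.one_mul, Matrix.smul_mul]
  have hHξ : (F + t • G) * ξᵀ = act arm (fun r => p * Y r * pᵀ * J) (F + t • G) := by
    have e1 : (F + t • G) * ξᵀ = p * c * m := by
      rw [Matrix.add_mul, Matrix.smul_mul, hξF, hξG, hc, Matrix.mul_add, Matrix.add_mul,
        Matrix.mul_one, Matrix.mul_smul, Matrix.smul_mul]
    rw [e1, hm, Matrix.mul_sum]
    unfold act
    refine Finset.sum_congr rfl fun r _ => ?_
    calc p * c * (ci * Y r * cᵀ * pᵀ * J * F * E K arm r)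
        = p * (c * ci) * Y r * (cᵀ * (pᵀ * J * F)) * E K arm r := by
          simp only [Matrix.mul_assoc]
      _ = _ := by rw [hci, Matrix.mul_one, ← hpJH]; simp only [Matrix.mul_assoc]
  have hX : ∀ s, ((fun r => p * Y r * pᵀ * J) s)ᵀ * J + J * (fun r => p * Y r * pᵀ * J) s = 0 := by
    intro s
    simp only [transpose_mul, transpose_transpose, h.data.J_symm, hY, Matrix.mul_assoc,
      Matrix.neg_mul, Matrix.mul_neg, neg_add_cancel]
  obtain ⟨d, hd, hdH⟩ := exists_move h.data hH _ hX ξ hξ hHξ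
  refine ⟨ξ, d, hξ, hd, hdH, ?_, ?_, ?_⟩
  · rw [hξF, hFio]
  · have := hd.onW F h.memF.2
    rwa [hξF, hFio] at this
  · exact hd.onN F h.memF.1

lemma pJH {t : K} {c : Matrix n n K} (hc : c = 1 + t • D) :
    pᵀ * J * (F + t • G) = cᵀ * (pᵀ * J * F) := by
  rw [Matrix.mul_add, Matrix.mul_smul, h.pJG, hc, transpose_add, transpose_one,
    transpose_smul, Matrix.add_mul, Matrix.one_mul, Matrix.smul_mul]

lemma HJp {t : K} {c : Matrix n n K} (hc : c = 1 + t • D) :
    (F + t • G)ᵀ * J * p = Fᵀ * J * p * c := by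
  rw [transpose_add, transpose_smul, Matrix.add_mul, Matrix.add_mul, Matrix.smul_mul,
    Matrix.smul_mul, h.dg, hc, Matrix.mul_add, Matrix.mul_one, Matrix.mul_smul]

lemma exists_m {t : K} {c ci : Matrix n n K} (hc : c = 1 + t • D) (hci : c * ci = 1)
    (Y : Fin 3 → Matrix n n K) : ∃ m : Matrix n δ K,
      m = ∑ r, ci * Y r * cᵀ * pᵀ * J * F * E K arm r ∧
      io arm J p (fun r => ci * Y r * cᵀ) F = p * m ∧
      io arm J p Y (F + t • G) = p * c * m := by
  refine ⟨_, rfl, ?_, ?_⟩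
  · unfold io act
    rw [Matrix.mul_sum]
    exact Finset.sum_congr rfl fun r _ => by simp only [Matrix.mul_assoc]
  · rw [Matrix.mul_sum]
    unfold io act
    refine Finset.sum_congr rfl fun r _ => ?_
    calc p * Y r * pᵀ * J * (F + t • G) * E K arm r
        = p * Y r * (pᵀ * J * (F + t • G)) * E K arm r := by simp only [Matrix.mul_assoc]
      _ = p * (c * ci) * Y r * (cᵀ * (pᵀ * J * F)) * E K arm r := by
          rw [hci, Matrix.mul_one, h.pJH hc]
      _ = _ := by simp only [Matrix.mul_assoc]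

lemma g_c {t : K} {c : Matrix n n K} (hc : c = 1 + t • D) :
    pᵀ * J * p * c = cᵀ * (pᵀ * J * p) := by
  rw [hc, Matrix.mul_add, Matrix.mul_one, Matrix.mul_smul, h.g_D, transpose_add,
    transpose_one, transpose_smul, Matrix.add_mul, Matrix.one_mul, Matrix.smul_mul]

/-- the radial part: `w = F' - F ξᵀ` -/
theorem first_z {t : K} {c ci : Matrix n n K} (hc : c = 1 + t • D)
    (hci : c * ci = 1) (Y : Fin 3 → Matrix n n K) {d : Derivation k K K}
    (hdH : (F + t • G).map d = io arm J p Y (F + t • G))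
    {π : Matrix n n K} (hπ : p.map d = p * π) :
    (F.map d - io arm J p (fun r => ci * Y r * cᵀ) F)ᵀ * J * p
      = Fᵀ * J * p * ((c * π - π * c - c.map d) * ci) := by
  obtain ⟨m, _, hm1, hm2⟩ := h.exists_m hc hci Y
  have h1 : ((F + t • G)ᵀ * J * p).map d = (Fᵀ * J * p * c).map d := by rw [h.HJp hc]
  rw [map_mul_der, map_mul_der, map_mul_der, map_mul_der, map_mul_der, h.data.J_const,
    map_transpose_der, map_transpose_der, hdH, hπ, hm2] at h1
  rw [hm1]
  simp only [Matrix.mul_zero, add_zero] at h1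
  have h2 : (p * c * m)ᵀ * J * p = (p * m)ᵀ * J * p * c := by
    calc (p * c * m)ᵀ * J * p = mᵀ * (cᵀ * (pᵀ * J * p)) := by
          simp only [transpose_mul, Matrix.mul_assoc]
      _ = mᵀ * (pᵀ * J * p * c) := by rw [h.g_c hc]
      _ = _ := by simp only [transpose_mul, Matrix.mul_assoc]
  rw [h2, ← Matrix.mul_assoc ((F + t • G)ᵀ * J) p π, h.HJp hc] at h1
  have h3 : (F.map d - p * m)ᵀ * J * p * c = Fᵀ * J * p * (c * π - π * c - c.map d) := by
    rw [transpose_sub, Matrix.sub_mul, Matrix.sub_mul, Matrix.sub_mul, Matrix.mul_sub,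
      Matrix.mul_sub]
    have h4 : ((F.map d)ᵀ * J * p + Fᵀ * J * (p * π)) * c
        = (F.map d)ᵀ * J * p * c + Fᵀ * J * p * (π * c) := by
      rw [Matrix.add_mul]; simp only [Matrix.mul_assoc]
    rw [h4] at h1
    have h5 : Fᵀ * J * p * c * π = Fᵀ * J * p * (c * π) := Matrix.mul_assoc _ _ _
    rw [h5] at h1
    have h6 : (F.map d)ᵀ * J * p * c = (p * m)ᵀ * J * p * c + Fᵀ * J * p * (c * π)
        - Fᵀ * J * p * c.map d - Fᵀ * J * p * (π * c) := by
      rw [h1]; abel
    rw [h6]; abel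
  calc (F.map d - p * m)ᵀ * J * p = (F.map d - p * m)ᵀ * J * p * (c * ci) := by
        rw [hci, Matrix.mul_one]
    _ = (F.map d - p * m)ᵀ * J * p * c * ci := by simp only [Matrix.mul_assoc]
    _ = _ := by rw [h3]; simp only [Matrix.mul_assoc]

/-- the arm part: `w E_r B Fᵀ J p = p ζ_r`. -/
theorem first_zeta {t : K} {c ci : Matrix n n K} (hc : c = 1 + t • D)
    (hci : c * ci = 1) (Y : Fin 3 → Matrix n n K) (hY : ∀ r, (Y r)ᵀ = -(Y r))
    {d : Derivation k K K}
    (hdH : (F + t • G).map d = io arm J p Y (F + t • G))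
    {π : Matrix n n K} (hπ : p.map d = p * π) (r : Fin 3) :
    (F.map d - io arm J p (fun r => ci * Y r * cᵀ) F) * E K arm r * B * Fᵀ * J * p
      = p * ((c * (ci * Y r * cᵀ * (φ r)ᵀ * (pᵀ * J * p))
          - ci * Y r * cᵀ * (φ r)ᵀ * (pᵀ * J * p) * c
          + φ r * c * Y r * ciᵀ * (pᵀ * J * p) * c
          - c * (φ r * c * Y r * ciᵀ * (pᵀ * J * p))
          + φ r * c * ((c * π - π * c - c.map d) * ci)) * ci) := by
  have hz := h.first_z hc hci Y hdH hπ
  obtain ⟨m, hm, hm1, hm2⟩ := h.exists_m hc hci Y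
  rw [hm1] at hz ⊢
  obtain ⟨w, hw⟩ : ∃ w : Matrix ι δ K, w = F.map d - p * m := ⟨_, rfl⟩
  obtain ⟨z, hzz⟩ : ∃ z : Matrix n n K, z = (c * π - π * c - c.map d) * ci := ⟨_, rfl⟩
  rw [← hw, ← hzz] at hz ⊢
  have hci' : ci * c = 1 := by rw [mul_eq_one_comm] at hci; exact hci
  have hzc : z * c = c * π - π * c - c.map d := by
    rw [hzz, Matrix.mul_assoc, hci', Matrix.mul_one]
  have hF' : F.map d = p * m + w := by rw [hw]; abel
  -- the vectors
  obtain ⟨g, hg⟩ : ∃ g : Matrix n n K, g = pᵀ * J * p := ⟨_, rfl⟩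
  rw [← hg]
  have hmF : ∀ G' : Matrix ι δ K, m * E K arm r * B * G'ᵀ
      = ci * Y r * cᵀ * (pᵀ * J * M arm B r F G') := by
    intro G'
    have e1 : m * E K arm r = ci * Y r * cᵀ * pᵀ * J * F * E K arm r := by
      rw [hm, Matrix.sum_mul, Finset.sum_eq_single r]
      · rw [Matrix.mul_assoc _ (E K arm r) (E K arm r), E_mul_self]
      · intro s _ hs
        rw [Matrix.mul_assoc _ (E K arm s) (E K arm r), E_mul_ne arm hs, Matrix.mul_zero]
      · intro h'
        exact absurd (Finset.mem_univ r) h'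
    rw [e1]
    unfold M
    simp only [Matrix.mul_assoc]
  have hmFF : m * E K arm r * B * Fᵀ = ci * Y r * cᵀ * (φ r)ᵀ * pᵀ := by
    rw [hmF, h.pJM_FF]; simp only [Matrix.mul_assoc]
  have hmFG : m * E K arm r * B * Gᵀ = ci * Y r * cᵀ * (φ r)ᵀ * (p * D)ᵀ := by
    rw [hmF, h.pJM_FG]; simp only [Matrix.mul_assoc]
  have htr : ∀ G' : Matrix ι δ K, G' * E K arm r * B * mᵀ = (m * E K arm r * B * G'ᵀ)ᵀ := by
    intro G'
    simp only [transpose_mul, transpose_transpose, E_transpose, h.data.B_symm,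
      Matrix.mul_assoc]
    rw [← Matrix.mul_assoc B (E K arm r), ← h.data.B_arm, Matrix.mul_assoc]
  have hFm : F * E K arm r * B * mᵀ = - (p * (φ r * c * Y r * ciᵀ)) := by
    rw [htr, hmFF]
    simp only [transpose_mul, transpose_transpose, hY, Matrix.mul_assoc, Matrix.mul_neg,
      Matrix.neg_mul]
  have hGm : G * E K arm r * B * mᵀ = - (p * D * (φ r * c * Y r * ciᵀ)) := by
    rw [htr, hmFG]
    simp only [transpose_mul, transpose_transpose, hY, Matrix.mul_assoc, Matrix.mul_neg,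
      Matrix.neg_mul]
  have hpc : ∀ Z : Matrix n n K, p * c * Z = p * Z + t • (p * D * Z) := by
    intro Z
    rw [hc, Matrix.mul_add, Matrix.add_mul, Matrix.mul_one, Matrix.mul_smul, Matrix.smul_mul]
  have hHm : (F + t • G) * E K arm r * B * mᵀ = - (p * c * (φ r * c * Y r * ciᵀ)) := by
    rw [Matrix.add_mul, Matrix.add_mul, Matrix.add_mul, hFm, Matrix.smul_mul, Matrix.smul_mul,
      Matrix.smul_mul, hGm, hpc, smul_neg, neg_add]
  have hFF : F * E K arm r * B * Fᵀ * J * p = p * φ r := h.phi r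
  have hGF : G * E K arm r * B * Fᵀ * J * p = p * φ r * D := h.MGF r
  have hHF : (F + t • G) * E K arm r * B * Fᵀ * J * p = p * φ r * c := by
    rw [Matrix.add_mul, Matrix.add_mul, Matrix.add_mul, Matrix.add_mul, Matrix.add_mul, hFF,
      Matrix.smul_mul, Matrix.smul_mul, Matrix.smul_mul, Matrix.smul_mul, Matrix.smul_mul,
      hGF, hc, Matrix.mul_add, Matrix.mul_one, Matrix.mul_smul]
  -- equation A
  have hA : (F * E K arm r * B * Fᵀ * J * p).map d = (p * φ r).map d := by rw [hFF]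
  have hB : ((F + t • G) * E K arm r * B * Fᵀ * J * p).map d = (p * φ r * c).map d := by
    rw [hHF]
  simp only [map_mul_der, h.data.J_const, h.data.B_const, E_map_der, map_transpose_der, hπ,
    hdH, hm2, Matrix.mul_zero, add_zero] at hA hB
  have hFT : (F.map d)ᵀ * J * p = mᵀ * g + Fᵀ * J * p * z := by
    rw [hF', transpose_add, Matrix.add_mul, Matrix.add_mul, hz, transpose_mul, hg]
    simp only [Matrix.mul_assoc]
  have hA' : p * (m * E K arm r * B * Fᵀ * J * p) + w * E K arm r * B * Fᵀ * J * p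
      + (F * E K arm r * B * mᵀ * g + p * φ r * z + p * φ r * π)
      = p * π * φ r + p * (φ r).map d := by
    rw [← hA, ← hFF]
    have e1 : F * E K arm r * B * (F.map d)ᵀ * J * p
        = F * E K arm r * B * ((F.map d)ᵀ * J * p) := by simp only [Matrix.mul_assoc]
    rw [Matrix.add_mul, Matrix.add_mul, e1, hFT, hF']
    simp only [Matrix.mul_add, Matrix.add_mul, Matrix.mul_assoc]
    abel
  have hB' : p * c * (m * E K arm r * B * Fᵀ * J * p)
      + ((F + t • G) * E K arm r * B * mᵀ * g + p * φ r * c * z + p * φ r * c * π)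
      = (p * π * φ r + p * (φ r).map d) * c + p * φ r * c.map d := by
    rw [← hB, ← hHF]
    generalize F + t • G = H'
    have e1 : H' * E K arm r * B * (F.map d)ᵀ * J * p
        = H' * E K arm r * B * ((F.map d)ᵀ * J * p) := by
      simp only [Matrix.mul_assoc]
    rw [Matrix.add_mul, Matrix.add_mul, e1, hFT]
    simp only [Matrix.mul_add, Matrix.mul_assoc]
    abel
  obtain ⟨mq, hmq⟩ : ∃ mq : Matrix n n K, mq = ci * Y r * cᵀ * (φ r)ᵀ * g := ⟨_, rfl⟩
  obtain ⟨Z, hZ⟩ : ∃ Z : Matrix n n K, Z = φ r * c * Y r * ciᵀ * g := ⟨_, rfl⟩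
  have hmQ : m * E K arm r * B * Fᵀ * J * p = mq := by
    rw [hmFF, hmq, hg]; simp only [Matrix.mul_assoc]
  have hFZ : F * E K arm r * B * mᵀ * g = -(p * Z) := by
    rw [hFm, hZ, Matrix.neg_mul]; simp only [Matrix.mul_assoc]
  have hHZ : (F + t • G) * E K arm r * B * mᵀ * g = -(p * c * Z) := by
    rw [hHm, hZ, Matrix.neg_mul]; simp only [Matrix.mul_assoc]
  rw [hmQ, hFZ] at hA'
  rw [hmQ, hHZ] at hB'
  rw [← hmq, ← hZ]
  have hwc : w * E K arm r * B * Fᵀ * J * p * c
      = p * (c * mq - mq * c + Z * c - c * Z + φ r * c * z) := by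
    have e1 : w * E K arm r * B * Fᵀ * J * p * c
        = (p * π * φ r + p * (φ r).map d) * c - p * (mq * c) + p * (Z * c)
          - p * (φ r * (z * c)) - p * (φ r * (π * c)) := by
      rw [← hA']
      simp only [Matrix.add_mul, Matrix.neg_mul, Matrix.mul_assoc]
      abel
    have e2 : (p * π * φ r + p * (φ r).map d) * c
        = p * (c * mq) - p * (c * Z) + p * (φ r * (c * z)) + p * (φ r * (c * π))
          - p * (φ r * c.map d) := by
      have := hB'
      have e3 : (p * π * φ r + p * (φ r).map d) * c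
          = p * c * mq + (-(p * c * Z) + p * φ r * c * z + p * φ r * c * π)
            - p * φ r * c.map d := by rw [this]; abel
      rw [e3]
      simp only [Matrix.mul_assoc]
      abel
    rw [e1, e2, hzc]
    simp only [Matrix.mul_add, Matrix.mul_sub, Matrix.mul_assoc]
    abel
  calc w * E K arm r * B * Fᵀ * J * p = w * E K arm r * B * Fᵀ * J * p * (c * ci) := by
        rw [hci, Matrix.mul_one]
    _ = w * E K arm r * B * Fᵀ * J * p * c * ci := by rw [Matrix.mul_assoc _ c ci]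
    _ = _ := by rw [hwc, Matrix.mul_assoc]

/-- `Φ_r(H) p = p φ_r c²` -/
lemma phiH {t : K} {c : Matrix n n K} (hc : c = 1 + t • D) (r : Fin 3) :
    Phi arm J B (F + t • G) r * p = p * (φ r * (c * c)) := by
  have e1 : Phi arm J B (F + t • G) r * p
      = (F + t • G) * E K arm r * B * ((F + t • G)ᵀ * J * p) := by
    unfold Phi M
    simp only [Matrix.mul_assoc]
  have hHF : (F + t • G) * E K arm r * B * (Fᵀ * J * p) = p * φ r * c := by
    have hFF : F * E K arm r * B * (Fᵀ * J * p) = p * φ r := by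
      rw [← h.phi r]; unfold M; simp only [Matrix.mul_assoc]
    have hGF : G * E K arm r * B * (Fᵀ * J * p) = p * φ r * D := by
      rw [← h.MGF r]; unfold M; simp only [Matrix.mul_assoc]
    rw [Matrix.add_mul, Matrix.add_mul, Matrix.add_mul, hFF, Matrix.smul_mul, Matrix.smul_mul,
      Matrix.smul_mul, hGF, hc, Matrix.mul_add, Matrix.mul_one, Matrix.mul_smul]
  rw [e1, h.HJp hc, ← Matrix.mul_assoc, hHF]
  simp only [Matrix.mul_assoc]

/-- persistence of the span of `p` for the derivation of `first` -/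
theorem first_pi {t : K} {c ci : Matrix n n K} (hc : c = 1 + t • D) (hci : c * ci = 1)
    (Y : Fin 3 → Matrix n n K) (hY : ∀ r, (Y r)ᵀ = -(Y r)) {d : Derivation k K K}
    (hdH : (F + t • G).map d = io arm J p Y (F + t • G)) {m : ℕ}
    (hw : ∀ l : List (Fin 3), l.length = m →
      ∃ Q : Matrix n ι K, (l.map (Phi arm J B (F + t • G))).prod = p * Q) :
    ∃ π : Matrix n n K, p.map d = p * π := by
  obtain ⟨a, ha⟩ := h.perf
  have hci' : ci * c = 1 := by rw [mul_eq_one_comm] at hci; exact hci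
  have hX : ∀ s, ((fun r => p * Y r * pᵀ * J) s)ᵀ * J + J * (fun r => p * Y r * pᵀ * J) s = 0 := by
    intro s
    simp only [transpose_mul, transpose_transpose, h.data.J_symm, hY, Matrix.mul_assoc,
      Matrix.neg_mul, Matrix.mul_neg, neg_add_cancel]
  refine exists_pi (a := fun r => ci * ci * a r) (h.phiH hc) ?_ (fun r => ?_) hw
  · rw [← ha]
    refine Finset.sum_congr rfl fun r _ => ?_
    calc φ r * (c * c) * (ci * ci * a r) = φ r * (c * (c * ci) * ci) * a r := by
          simp only [Matrix.mul_assoc]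
      _ = φ r * a r := by rw [hci, Matrix.mul_one, hci, Matrix.mul_one]
  · rw [h.data.map_Phi _ _ hX d hdH r]
    refine ⟨Y r * pᵀ * J * (Phi arm J B (F + t • G) r * p)
      - φ r * (c * c) * (Y r * pᵀ * J * p), ?_⟩
    have e1 : Phi arm J B (F + t • G) r * (p * Y r * pᵀ * J) * p
        = (Phi arm J B (F + t • G) r * p) * (Y r * pᵀ * J * p) := by
      simp only [Matrix.mul_assoc]
    rw [Matrix.sub_mul, Matrix.mul_sub, e1, h.phiH hc]
    have e2 : p * Y r * pᵀ * J * Phi arm J B (F + t • G) r * p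
        = p * (Y r * pᵀ * J * (Phi arm J B (F + t • G) r * p)) := by
      simp only [Matrix.mul_assoc]
    rw [e2, h.phiH hc]
    simp only [Matrix.mul_assoc]

end Frame

end Crest.Agent.R172.Frm
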