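import Crest.Agent.R172.Core1

/-!
Row 172, structure lemma (S) of note 12992, part 2: `H^1 = 0` from the derivation hypothesis,
and the alternative for a core.
-/

namespace Crest.Agent.R172.Core

open Module LinearMap

variable {K : Type*} [Field K] {V : Type*} [AddCommGroup V] [Module K V]

/-- `B` is symmetric and nondegenerate (elementary form). -/
structure NS (B : LinearMap.BilinForm K V) : Prop where
  symm : ∀ v w, B v w = B w v
  nd : ∀ v, (∀ w, B v w = 0) → v = 0

theorem NS.nondeg {B : LinearMap.BilinForm K V} (h : NS B) : B.Nondegenerate := by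
  refine ⟨fun v hv => h.nd v hv, fun v hv => h.nd v (fun w => ?_)⟩
  rw [h.symm]; exact hv w

theorem NS.isSymm {B : LinearMap.BilinForm K V} (h : NS B) : B.IsSymm :=
  ⟨fun v w => h.symm v w⟩

theorem NS.isRefl {B : LinearMap.BilinForm K V} (h : NS B) : B.IsRefl :=
  fun v w hvw => by rw [h.symm]; exact hvw

theorem NS.oo [FiniteDimensional K V] {B : LinearMap.BilinForm K V} (h : NS B)
    (W : Submodule K V) : B.orthogonal (B.orthogonal W) = W :=
  LinearMap.BilinForm.orthogonal_orthogonal h.nondeg h.isRefl W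

/-- The derivation hypothesis (0) of note 12992, coordinate free. -/
def Der {ι : Type*} [Fintype ι] (B : LinearMap.BilinForm K V) (Φ : ι → Module.End K V) : Prop :=
  ∀ X : ι → Module.End K V, (∀ s v w, B (X s v) w = - B v (X s w)) →
    ∑ s, (X s * Φ s - Φ s * X s) = 0 →
    ∃ (d : Derivation ℤ K K) (δ : V →+ V), (∀ (c : K) v, δ (c • v) = d c • v + c • δ v) ∧
      (∀ v w, B (δ v) w + B v (δ w) = d (B v w)) ∧
      ∀ s v, δ (Φ s v) - Φ s (δ v) = X s (Φ s v) - Φ s (X s v)

section H1

variable {ι : Type*} [Fintype ι] [FiniteDimensional K V]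

/-- Step (3) of note 12992: `H^1 = 0` for a pair of blocks `P, Q`. -/
theorem H1_of_Der {B : LinearMap.BilinForm K V} (hB : NS B) {Φ : ι → Module.End K V}
    (hΦ : ∀ s v w, B (Φ s v) w = B v (Φ s w)) (hDer : Der B Φ)
    {D : Module.End K V} (hDΦ : ∀ s v, D (Φ s v) = Φ s (D v))
    {P P' Q Q' : Submodule K V} (hP : IsCompl P P') (hQ : IsCompl Q Q')
    (hPQ : ∀ v ∈ P, ∀ w ∈ Q, B v w = 0)
    (hΦP : ∀ s, ∀ v ∈ P, Φ s v ∈ P) (hΦP' : ∀ s, ∀ v ∈ P', Φ s v ∈ P')
    (hΦQ : ∀ s, ∀ v ∈ Q, Φ s v ∈ Q) (hΦQ' : ∀ s, ∀ v ∈ Q', Φ s v ∈ Q')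
    (hDP : ∀ v ∈ P, D v ∈ P) (hDQ : ∀ v ∈ Q, D v ∈ Q)
    (hτ : ∀ x : P →ₗ[K] Q, x ∘ₗ D.restrict hDP = D.restrict hDQ ∘ₗ x → x = 0)
    (x : ι → (P →ₗ[K] Q))
    (hx : ∑ s, (x s ∘ₗ (Φ s).restrict (hΦP s) - (Φ s).restrict (hΦQ s) ∘ₗ x s) = 0) :
    ∃ y : P →ₗ[K] Q, ∀ s, x s - y ∈
      Inter ((Φ s).restrict (hΦP s)) ((Φ s).restrict (hΦQ s)) := by
  classical
  set πP := P.projectionOnto P' hP with hπP
  set πQ := Q.projectionOnto Q' hQ with hπQ
  have hπPΦ : ∀ s v, πP (Φ s v) = (Φ s).restrict (hΦP s) (πP v) := by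
    intro s v
    have hv : v ∈ P ⊔ P' := by rw [hP.sup_eq_top]; trivial
    obtain ⟨a, ha, b, hb, rfl⟩ := Submodule.mem_sup.1 hv
    rw [map_add, map_add, map_add,
      Submodule.projectionOnto_apply_of_mem_left hP ha,
      Submodule.projectionOnto_apply_of_mem_left hP (hΦP s a ha),
      (Submodule.projectionOnto_apply_eq_zero_iff hP).2 hb,
      (Submodule.projectionOnto_apply_eq_zero_iff hP).2 (hΦP' s b hb), add_zero, add_zero]
    rfl
  have hπQΦ : ∀ s v, πQ (Φ s v) = (Φ s).restrict (hΦQ s) (πQ v) := by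
    intro s v
    have hv : v ∈ Q ⊔ Q' := by rw [hQ.sup_eq_top]; trivial
    obtain ⟨a, ha, b, hb, rfl⟩ := Submodule.mem_sup.1 hv
    rw [map_add, map_add, map_add,
      Submodule.projectionOnto_apply_of_mem_left hQ ha,
      Submodule.projectionOnto_apply_of_mem_left hQ (hΦQ s a ha),
      (Submodule.projectionOnto_apply_eq_zero_iff hQ).2 hb,
      (Submodule.projectionOnto_apply_eq_zero_iff hQ).2 (hΦQ' s b hb), add_zero, add_zero]
    rfl
  -- the operators `X_s`
  set X : ι → Module.End K V := fun s => Q.subtype ∘ₗ x s ∘ₗ πP with hX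
  have hXa : ∀ s v, X s v = ((x s (πP v) : Q) : V) := fun s v => rfl
  set Xt : ι → Module.End K V := fun s => B.leftAdjointOfNondegenerate hB.nondeg (X s) with hXt
  have hadj : ∀ s v w, B (Xt s v) w = B v (X s w) := fun s v w =>
    LinearMap.BilinForm.isAdjointPairLeftAdjointOfNondegenerate B hB.nondeg (X s) v w
  have hXtP : ∀ s, ∀ v ∈ P, Xt s v = 0 := by
    intro s v hv
    apply hB.nd
    intro w
    rw [hadj, hXa]
    exact hPQ v hv _ (x s (πP w)).2
  have hXsum : ∀ v, ∑ s, (X s (Φ s v) - Φ s (X s v)) = 0 := by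
    intro v
    have h := LinearMap.congr_fun hx (πP v)
    rw [LinearMap.sum_apply] at h
    have h' := congrArg (Q.subtype) h
    rw [map_sum, LinearMap.zero_apply, map_zero] at h'
    rw [← h']
    refine Finset.sum_congr rfl (fun s _ => ?_)
    rw [hXa, hXa, hπPΦ]
    rfl
  set ξ : ι → Module.End K V := fun s => X s - Xt s with hξ
  have hξa : ∀ s v, ξ s v = X s v - Xt s v := fun s v => rfl
  have hskew : ∀ s v w, B (ξ s v) w = - B v (ξ s w) := by
    intro s v w
    rw [hξa, hξa, map_sub, LinearMap.sub_apply, map_sub, hadj, hB.symm v (Xt s w), hadj,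
      hB.symm w (X s v)]
    ring
  have hsum : ∑ s, (ξ s * Φ s - Φ s * ξ s) = 0 := by
    ext v
    rw [LinearMap.sum_apply]
    change ∑ s, (ξ s (Φ s v) - Φ s (ξ s v)) = 0
    apply hB.nd
    intro w
    have h1 : ∀ s, B (ξ s (Φ s v) - Φ s (ξ s v)) w =
        B (X s (Φ s v) - Φ s (X s v)) w + B v (X s (Φ s w) - Φ s (X s w)) := by
      intro s
      have e1 : B (Xt s (Φ s v)) w = B v (Φ s (X s w)) := by rw [hadj, hΦ]
      have e2 : B (Φ s (Xt s v)) w = B v (X s (Φ s w)) := by rw [hΦ, hadj]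
      have e3 : B (ξ s (Φ s v)) w = B (X s (Φ s v)) w - B v (Φ s (X s w)) := by
        rw [hξa, map_sub, LinearMap.sub_apply, e1]
      have e4 : B (Φ s (ξ s v)) w = B (Φ s (X s v)) w - B v (X s (Φ s w)) := by
        rw [hξa, map_sub, map_sub, LinearMap.sub_apply, e2]
      rw [map_sub, LinearMap.sub_apply, e3, e4, map_sub, LinearMap.sub_apply, map_sub]
      ring
    rw [map_sum, LinearMap.sum_apply, Finset.sum_congr rfl (fun s _ => h1 s),
      Finset.sum_add_distrib, ← LinearMap.sum_apply, ← map_sum, hXsum v, ← map_sum, hXsum w]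
    simp
  obtain ⟨d, δ, hδs, -, hδΦ⟩ := hDer ξ hskew hsum
  -- the block component of `[δ, D]`
  let z : P →ₗ[K] Q :=
    { toFun := fun v => πQ (δ (D v) - D (δ v))
      map_add' := by
        intro v w
        rw [← map_add]
        congr 1
        simp only [Submodule.coe_add, map_add]
        abel
      map_smul' := by
        intro c v
        rw [RingHom.id_apply, ← map_smul]
        congr 1
        simp only [Submodule.coe_smul, map_smul, hδs, map_add, smul_sub]
        abel }
  have hza : ∀ v : P, z v = πQ (δ (D v) - D (δ v)) := fun v => rfl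
  let τ : (P →ₗ[K] Q) →ₗ[K] (P →ₗ[K] Q) :=
    { toFun := fun x => D.restrict hDQ ∘ₗ x - x ∘ₗ D.restrict hDP
      map_add' := by
        intro x y
        rw [LinearMap.comp_add, LinearMap.add_comp]; abel
      map_smul' := by
        intro c x
        rw [LinearMap.comp_smul, LinearMap.smul_comp, RingHom.id_apply, smul_sub] }
  have hτa : ∀ x, τ x = D.restrict hDQ ∘ₗ x - x ∘ₗ D.restrict hDP := fun x => rfl
  have hτinj : Function.Injective τ := by
    rw [injective_iff_map_eq_zero]
    intro x hx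
    exact hτ x (sub_eq_zero.1 hx).symm
  obtain ⟨y, hy⟩ := LinearMap.injective_iff_surjective.1 hτinj (-z)
  refine ⟨y, fun s => ?_⟩
  set u : P →ₗ[K] Q := x s - y with hu
  -- `τ u` is an intertwiner
  have hτu : ∀ v : P, τ u ((Φ s).restrict (hΦP s) v) = (Φ s).restrict (hΦQ s) (τ u v) := by
    have hW : ∀ v : P, τ u v = πQ (δ (D v) - D (δ v) + (D (ξ s v) - ξ s (D v))) := by
      intro v
      have h1 : τ u v = z v + (D.restrict hDQ (x s v) - x s (D.restrict hDP v)) := by
        rw [hu, map_sub, hy, sub_neg_eq_add, hτa, add_comm]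
        rfl
      have hξP : ∀ w : P, ξ s (w : V) = ((x s w : Q) : V) := by
        intro w
        rw [hξa, hXtP s w w.2, sub_zero, hXa, Submodule.projectionOnto_apply_left hP w]
      have h2 : D (ξ s (v : V)) = ((D.restrict hDQ (x s v) : Q) : V) := by
        rw [hξP v]; rfl
      have h3 : ξ s (D (v : V)) = ((x s (D.restrict hDP v) : Q) : V) := hξP (D.restrict hDP v)
      rw [h1, hza, map_add]
      congr 1
      rw [h2, h3, ← Submodule.coe_sub]
      exact (Submodule.projectionOnto_apply_left hQ _).symm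
    have hcomm : ∀ v : V, δ (D (Φ s v)) - D (δ (Φ s v)) + (D (ξ s (Φ s v)) - ξ s (D (Φ s v))) =
        Φ s (δ (D v) - D (δ v) + (D (ξ s v) - ξ s (D v))) := by
      intro v
      have e1 : δ (Φ s (D v)) = Φ s (δ (D v)) + ξ s (Φ s (D v)) - Φ s (ξ s (D v)) := by
        have := hδΦ s (D v)
        rw [sub_eq_iff_eq_add] at this
        rw [this]; abel
      have e2 : δ (Φ s v) = Φ s (δ v) + ξ s (Φ s v) - Φ s (ξ s v) := by
        have := hδΦ s v
        rw [sub_eq_iff_eq_add] at this
        rw [this]; abel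
      rw [hDΦ s v, e1, e2]
      simp only [map_add, map_sub, hDΦ]
      abel
    intro v
    rw [hW, hW]
    have h4 : (((Φ s).restrict (hΦP s) v : P) : V) = Φ s (v : V) := rfl
    rw [h4, hcomm, hπQΦ]
  -- hence `u` is an intertwiner
  have hc : u ∘ₗ (Φ s).restrict (hΦP s) - (Φ s).restrict (hΦQ s) ∘ₗ u = 0 := by
    apply hτinj
    rw [map_zero]
    apply LinearMap.ext
    intro v
    apply Subtype.ext
    have h5 : D ((u ((Φ s).restrict (hΦP s) v) : Q) : V) -
        ((u (D.restrict hDP ((Φ s).restrict (hΦP s) v)) : Q) : V) =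
        Φ s (D ((u v : Q) : V) - ((u (D.restrict hDP v) : Q) : V)) :=
      congrArg Subtype.val (hτu v)
    have hPD : D.restrict hDP ((Φ s).restrict (hΦP s) v) =
        (Φ s).restrict (hΦP s) (D.restrict hDP v) := Subtype.ext (hDΦ s v)
    rw [hPD, map_sub, ← hDΦ] at h5
    change D ((u ((Φ s).restrict (hΦP s) v) : Q) - Φ s (u v : Q) : V) -
      (((u ((Φ s).restrict (hΦP s) (D.restrict hDP v)) : Q) : V) -
        Φ s (u (D.restrict hDP v) : Q)) = 0
    rw [map_sub, ← sub_eq_zero.2 h5]
    abel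
  rw [mem_Inter]
  intro v
  have := LinearMap.congr_fun hc v
  exact sub_eq_zero.1 this

end H1

section Num

variable {P Q : Type*} [AddCommGroup P] [Module K P] [FiniteDimensional K P]
    [AddCommGroup Q] [Module K Q] [FiniteDimensional K Q]

theorem rk_antitone (α : Module.End K P) : Antitone (rk α) :=
  antitone_nat_of_succ_le (rk_succ_le α)

theorem rk_eq_zero_iff (α : Module.End K P) (j : ℕ) : rk α j = 0 ↔ α ^ j = 0 := by
  unfold rk
  rw [Submodule.finrank_eq_zero, LinearMap.range_eq_bot]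

/-- Auxiliary: all `nn α i` are equal below the index of `β`. -/
theorem nn_const {α : Module.End K P} {β : Module.End K Q}
    (h1 : ∀ j, rk β (j + 1) ≠ 0 → nn α j = nn α (j + 1)) (j : ℕ) (hj : β ^ j ≠ 0) :
    nn α j = nn α 0 := by
  induction j with
  | zero => rfl
  | succ j ih =>
    have hj' : β ^ j ≠ 0 := by
      intro h
      apply hj
      rw [pow_succ, h, zero_mul]
    rw [← h1 j (fun h => hj ((rk_eq_zero_iff β (j + 1)).1 h)), ih hj']

theorem nn_zero_pos {α : Module.End K P} {k : ℕ} (hα : α ^ k = 0) (hP : 0 < finrank K P) :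
    0 < nn α 0 := by
  rw [nn_zero]
  have : LinearMap.ker α ≠ ⊥ := by
    intro h
    have hinj : Function.Injective α := LinearMap.ker_eq_bot.1 h
    have hinj' : Function.Injective (α ^ k) := by
      rw [Module.End.coe_pow]
      exact hinj.iterate k
    rw [hα] at hinj'
    have : Nontrivial P := Module.nontrivial_of_finrank_pos hP
    obtain ⟨v, hv⟩ := exists_ne (0 : P)
    exact hv (hinj' (by simp))
  have h2 : 0 < finrank K (LinearMap.ker α) := by
    rw [Nat.pos_iff_ne_zero]
    intro h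
    exact this (Submodule.finrank_eq_zero.1 h)
  exact_mod_cast h2

theorem pow_eq_zero_of_pair {α : Module.End K P} {β : Module.End K Q} {k : ℕ}
    (hα : α ^ k = 0) (hP : 0 < finrank K P)
    (h1 : ∀ j, rk β (j + 1) ≠ 0 → nn α j = nn α (j + 1)) (j : ℕ) (hj : α ^ j = 0) :
    β ^ j = 0 := by
  by_contra hcon
  have h2 := nn_const h1 j hcon
  have h3 := nn_zero_pos hα hP
  have h4 : rk α j = 0 := (rk_eq_zero_iff α j).2 hj
  have h5 : nn α j ≤ 0 := by
    unfold nn
    rw [h4]
    have : (0 : ℤ) ≤ rk α (j + 1) := by positivity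
    push_cast
    linarith
  linarith

theorem free_aux {α : Module.End K P} (l : ℕ) (hl : ∀ j < l, nn α j = nn α 0) (j : ℕ)
    (hj : j ≤ l) : (rk α j : ℤ) = finrank K P - j * nn α 0 := by
  induction j with
  | zero => simp [rk_zero]
  | succ j ih =>
    have h1 := hl j (by omega)
    have h2 := ih (by omega)
    unfold nn at h1 h2 ⊢
    push_cast
    linarith

/-- Two blocks related by the pair lemma in both directions: same index, both free. -/
theorem free_of_pair {α : Module.End K P} {β : Module.End K Q} {k : ℕ}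
    (hα : α ^ k = 0) (hβ : β ^ k = 0) (hP : 0 < finrank K P) (hQ : 0 < finrank K Q)
    (h1 : ∀ j, rk β (j + 1) ≠ 0 → nn α j = nn α (j + 1))
    (h2 : ∀ j, rk α (j + 1) ≠ 0 → nn β j = nn β (j + 1)) :
    ∃ l, 1 ≤ l ∧ (∀ j, α ^ j = 0 ↔ l ≤ j) ∧ (∀ j, β ^ j = 0 ↔ l ≤ j) ∧
      l * finrank K (LinearMap.ker α) = finrank K P ∧
      l * finrank K (LinearMap.ker β) = finrank K Q := by
  classical
  have hex : ∃ j, α ^ j = 0 := ⟨k, hα⟩
  refine ⟨Nat.find hex, ?_, ?_, ?_, ?_, ?_⟩
  · rw [Nat.one_le_iff_ne_zero]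
    intro h
    have h0 : α ^ 0 = 0 := by
      have := Nat.find_spec hex
      rwa [h] at this
    have : Nontrivial P := Module.nontrivial_of_finrank_pos hP
    obtain ⟨v, hv⟩ := exists_ne (0 : P)
    apply hv
    have := LinearMap.congr_fun h0 v
    simpa using this
  · intro j
    constructor
    · intro h; exact Nat.find_min' hex h
    · intro h
      obtain ⟨m, rfl⟩ := Nat.exists_eq_add_of_le h
      rw [pow_add, Nat.find_spec hex, zero_mul]
  · intro j
    constructor
    · intro h
      exact Nat.find_min' hex (pow_eq_zero_of_pair hβ hQ h2 j h)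
    · intro h
      obtain ⟨m, rfl⟩ := Nat.exists_eq_add_of_le h
      rw [pow_add, pow_eq_zero_of_pair hα hP h1 _ (Nat.find_spec hex), zero_mul]
  · have h3 : ∀ j < Nat.find hex, nn α j = nn α 0 := by
      intro j hj
      apply nn_const h1 j
      intro h
      have := pow_eq_zero_of_pair hβ hQ h2 j h
      exact absurd (Nat.find_min' hex this) (by omega)
    have h4 := free_aux (Nat.find hex) h3 (Nat.find hex) le_rfl
    rw [(rk_eq_zero_iff α _).2 (Nat.find_spec hex), nn_zero] at h4
    have h5 : ((Nat.find hex * finrank K (LinearMap.ker α) : ℕ) : ℤ) = finrank K P := by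
      push_cast at h4 ⊢
      linarith
    exact_mod_cast h5
  · have h3 : ∀ j < Nat.find hex, nn β j = nn β 0 := by
      intro j hj
      apply nn_const h2 j
      intro h
      exact absurd (Nat.find_min' hex h) (by omega)
    have h4 := free_aux (Nat.find hex) h3 (Nat.find hex) le_rfl
    rw [(rk_eq_zero_iff β _).2 (pow_eq_zero_of_pair hα hP h1 _ (Nat.find_spec hex)), nn_zero] at h4
    have h5 : ((Nat.find hex * finrank K (LinearMap.ker β) : ℕ) : ℤ) = finrank K Q := by
      push_cast at h4 ⊢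
      linarith
    exact_mod_cast h5

end Num

section Core

variable {ι : Type*} [Fintype ι] [FiniteDimensional K V]

omit [Fintype ι] in
theorem iSup_range_eq_top {B : LinearMap.BilinForm K V} (hB : NS B) {Φ : ι → Module.End K V}
    (hΦ : ∀ s v w, B (Φ s v) w = B v (Φ s w)) (hker : ∀ v, (∀ s, Φ s v = 0) → v = 0) :
    ⨆ s, LinearMap.range (Φ s) = ⊤ := by
  have h1 : B.orthogonal (⨆ s, LinearMap.range (Φ s)) = ⊥ := by
    rw [eq_bot_iff]
    intro v hv
    rw [Submodule.mem_bot]
    apply hker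
    intro s
    apply hB.nd
    intro w
    rw [hΦ, hB.symm]
    exact hv _ (Submodule.mem_iSup_of_mem s ⟨w, rfl⟩)
  rw [← hB.oo (⨆ s, LinearMap.range (Φ s)), h1, LinearMap.BilinForm.orthogonal_bot]

/-- For a stable direct summand of a core, `∑ rk ≥ 2 dim`. -/
theorem two_le_sum_rk {Φ : ι → Module.End K V}
    (hsum : ∀ v, ∑ s, Φ s v = 0) (hker : ∀ v, (∀ s, Φ s v = 0) → v = 0)
    (htop : ⨆ s, LinearMap.range (Φ s) = ⊤)
    {P P' : Submodule K V} (hP : IsCompl P P')
    (hΦP : ∀ s, ∀ v ∈ P, Φ s v ∈ P) (hΦP' : ∀ s, ∀ v ∈ P', Φ s v ∈ P') :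
    2 * (finrank K P : ℤ) ≤ ∑ s, (rk ((Φ s).restrict (hΦP s)) 1 : ℤ) := by
  classical
  set α : ι → Module.End K P := fun s => (Φ s).restrict (hΦP s) with hα
  let a : P →ₗ[K] (∀ s, LinearMap.range (α s)) := LinearMap.pi (fun s => (α s).rangeRestrict)
  let b : (∀ s, LinearMap.range (α s)) →ₗ[K] P :=
    ∑ s, (LinearMap.range (α s)).subtype ∘ₗ LinearMap.proj s
  have ha : Function.Injective a := by
    rw [injective_iff_map_eq_zero]
    intro v hv
    apply Subtype.ext
    apply hker
    intro s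
    have h := congrFun hv s
    have h' := congrArg (fun z : LinearMap.range (α s) => ((z : P) : V)) h
    exact h'
  have hba : ∀ v, b (a v) = 0 := by
    intro v
    apply Subtype.ext
    have h1 : b (a v) = ∑ s, α s v := by
      change (∑ s, (LinearMap.range (α s)).subtype ∘ₗ LinearMap.proj s) (a v) = _
      rw [LinearMap.sum_apply]
      rfl
    rw [h1, Submodule.coe_sum]
    exact hsum v
  have hb : Function.Surjective b := by
    intro v
    have hv : (v : V) ∈ ⨆ s, LinearMap.range (Φ s) := by rw [htop]; trivial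
    obtain ⟨f, hf⟩ := (Submodule.mem_iSup_finset_iff_exists_sum (s := Finset.univ)
      (fun s => LinearMap.range (Φ s)) (v : V)).1 (by simpa using hv)
    have hu : ∀ s, ∃ u, Φ s u = (f s : V) := fun s => (f s).2
    choose u hu using hu
    refine ⟨fun s => ⟨α s (P.projectionOnto P' hP (u s)), ⟨_, rfl⟩⟩, ?_⟩
    have hπ : ∀ s w, P.projectionOnto P' hP (Φ s w) = α s (P.projectionOnto P' hP w) := by
      intro s w
      have hw : w ∈ P ⊔ P' := by rw [hP.sup_eq_top]; trivial
      obtain ⟨x, hx, y, hy, rfl⟩ := Submodule.mem_sup.1 hw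
      rw [map_add, map_add, map_add,
        Submodule.projectionOnto_apply_of_mem_left hP hx,
        Submodule.projectionOnto_apply_of_mem_left hP (hΦP s x hx),
        (Submodule.projectionOnto_apply_eq_zero_iff hP).2 hy,
        (Submodule.projectionOnto_apply_eq_zero_iff hP).2 (hΦP' s y hy), add_zero, add_zero]
      rfl
    have h1 : b (fun s => ⟨α s (P.projectionOnto P' hP (u s)), ⟨_, rfl⟩⟩) =
        ∑ s, α s (P.projectionOnto P' hP (u s)) := by
      change (∑ s, (LinearMap.range (α s)).subtype ∘ₗ LinearMap.proj s) _ = _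
      rw [LinearMap.sum_apply]
      rfl
    rw [h1]
    have h2 : ∑ s, α s (P.projectionOnto P' hP (u s)) =
        P.projectionOnto P' hP (∑ s, Φ s (u s)) := by
      rw [map_sum]
      exact Finset.sum_congr rfl (fun s _ => (hπ s (u s)).symm)
    rw [h2]
    have h3 : ∑ s, Φ s (u s) = (v : V) := by
      rw [← hf]
      exact Finset.sum_congr rfl (fun s _ => hu s)
    rw [h3]
    exact Submodule.projectionOnto_apply_left hP v
  have h1 := LinearMap.finrank_range_add_finrank_ker b
  have h2 : LinearMap.range a ≤ LinearMap.ker b := by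
    rintro _ ⟨v, rfl⟩
    exact LinearMap.mem_ker.2 (hba v)
  have h3 : finrank K P = finrank K (LinearMap.range a) :=
    (LinearMap.finrank_range_of_inj ha).symm
  have h4 := Submodule.finrank_mono h2
  have h5 : finrank K (LinearMap.range b) = finrank K P := by
    rw [LinearMap.range_eq_top.2 hb, finrank_top]
  have h6 : finrank K (∀ s, LinearMap.range (α s)) = ∑ s, rk (α s) 1 := by
    rw [Module.finrank_pi_fintype]
    refine Finset.sum_congr rfl (fun s _ => ?_)
    unfold rk
    rw [pow_one]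
  have h7 : 2 * finrank K P ≤ ∑ s, rk (α s) 1 := by omega
  exact_mod_cast h7

end Core

end Crest.Agent.R172.Core
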