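import Crest.Agent.R172.St1
import Crest.Agent.R172.Core2

/-!
Row 172, gap G1 (isotropic elements), the module part common to all versions (helper644 14005 STEP 1
'LIFTING', helper161 13989 (B4), helper178 13968 (1), helper934 13937 (E)(1)).
File 1: the infinite image `Ainf`, and the lifting of cocycles from the cores of two different modules.
-/

set_option autoImplicit false

namespace Crest.Agent.R172.PL

open Module Crest.Agent.R172.St

variable {K : Type*} [Field K] {X Z : Type*} [AddCommGroup X] [Module K X] [AddCommGroup Z]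
  [Module K Z] {ι : Type*}

/-- `W_k = A^k X`, the span of the images of all words of length `k`. -/
def Wk (Φ : ι → End K X) : ℕ → Submodule K X
  | 0 => ⊤
  | k + 1 => ⨆ s, (Wk Φ k).map (Φ s)

/-- the infinite image `A^∞ X`. -/
def Ainf (Φ : ι → End K X) : Submodule K X := ⨅ k, Wk Φ k

theorem Wk_succ_mem {Φ : ι → End K X} {k : ℕ} {v : X} (hv : v ∈ Wk Φ k) (s : ι) :
    Φ s v ∈ Wk Φ (k + 1) :=
  Submodule.mem_iSup_of_mem s ⟨v, hv, rfl⟩

theorem Wk_succ_le (Φ : ι → End K X) (k : ℕ) : Wk Φ (k + 1) ≤ Wk Φ k := by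
  induction k with
  | zero => exact le_top
  | succ k ih =>
    refine iSup_le fun s => ?_
    rintro _ ⟨v, hv, rfl⟩
    exact Wk_succ_mem (ih hv) s

theorem Wk_anti (Φ : ι → End K X) : Antitone (Wk Φ) := antitone_nat_of_succ_le (Wk_succ_le Φ)

theorem Ainf_le_Wk (Φ : ι → End K X) (k : ℕ) : Ainf Φ ≤ Wk Φ k := iInf_le (Wk Φ) k

theorem Ainf_eq_Wk [FiniteDimensional K X] (Φ : ι → End K X) :
    ∃ k, Ainf Φ = Wk Φ k ∧ ∀ j, k ≤ j → Wk Φ j = Wk Φ k := by
  obtain ⟨k, hk⟩ := (monotone_stabilizes_iff_artinian (R := K) (M := X)).2 inferInstance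
    ⟨fun j => OrderDual.toDual (Wk Φ j), fun a b h => Wk_anti Φ h⟩
  have hk' : ∀ j, k ≤ j → Wk Φ j = Wk Φ k := fun j hj => (hk j hj).symm
  refine ⟨k, le_antisymm (Ainf_le_Wk Φ k) (le_iInf fun j => ?_), hk'⟩
  rcases le_total j k with h | h
  · exact Wk_anti Φ h
  · exact (hk' j h).ge

theorem Ainf_stable {Φ : ι → End K X} (s : ι) {v : X} (hv : v ∈ Ainf Φ) : Φ s v ∈ Ainf Φ := by
  refine (Submodule.mem_iInf _).2 fun k => ?_
  exact Wk_succ_le Φ k (Wk_succ_mem (Ainf_le_Wk Φ k hv) s)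

theorem Ainf_eq_iSup [FiniteDimensional K X] (Φ : ι → End K X) :
    Ainf Φ = ⨆ s, (Ainf Φ).map (Φ s) := by
  obtain ⟨k, hk, hk'⟩ := Ainf_eq_Wk Φ
  rw [hk]
  exact (hk' (k + 1) (Nat.le_succ k)).symm

/-- every vector of `Ainf` is `∑ Φ_s v_s` with `v_s ∈ Ainf`. -/
theorem Ainf_exists [FiniteDimensional K X] [Fintype ι] (Φ : ι → End K X) {v : X}
    (hv : v ∈ Ainf Φ) : ∃ f : ι → X, (∀ s, f s ∈ Ainf Φ) ∧ ∑ s, Φ s (f s) = v := by
  classical
  rw [Ainf_eq_iSup Φ] at hv
  obtain ⟨g, hg⟩ := (Submodule.mem_iSup_finset_iff_exists_sum (s := Finset.univ)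
      (fun s => (Ainf Φ).map (Φ s)) v).1 (by simpa using hv)
  have hu : ∀ s, ∃ u ∈ Ainf Φ, Φ s u = (g s : X) := fun s => (g s).2
  choose u hu1 hu2 using hu
  exact ⟨u, hu1, by rw [← hg]; exact Finset.sum_congr rfl fun s _ => hu2 s⟩

/-- factorisation through an arbitrary linear map. -/
theorem factor {Y N : Type*} [AddCommGroup Y] [Module K Y] [AddCommGroup N] [Module K N]
    (a : X →ₗ[K] Y) (x : X →ₗ[K] N) (h : LinearMap.ker a ≤ LinearMap.ker x) :
    ∃ u : Y →ₗ[K] N, u ∘ₗ a = x := by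
  obtain ⟨r, hr⟩ := ((LinearMap.ker a).liftQ a le_rfl).exists_leftInverse_of_injective
    (Submodule.ker_liftQ_eq_bot _ _ _ le_rfl)
  refine ⟨(LinearMap.ker a).liftQ x h ∘ₗ r, ?_⟩
  ext v
  have h1 : r (a v) = (LinearMap.ker a).mkQ v := by
    have := LinearMap.congr_fun hr ((LinearMap.ker a).mkQ v)
    simpa using this
  simp [h1]

variable [Fintype ι]

/-- first correction: maps into the nilpotent part of the target. -/
theorem solve_low (α : ι → End K X) (β : ι → End K Z) (S : Submodule K Z)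
    (hS : ∀ s, ∀ z ∈ S, β s z ∈ S) (k : ℕ) (x : X →ₗ[K] Z) (hx : ∀ v ∈ T α, x v = 0)
    (hx2 : ∀ v, x v ∈ S ⊓ Nk β k) :
    ∃ w : ι → (X →ₗ[K] Z), (∀ s, ∀ v ∈ T α, w s v = 0) ∧ (∀ s v, w s v ∈ S ⊓ T β) ∧
      ∀ v, ∑ s, (β s (w s v) - w s (α s v)) = x v := by
  classical
  induction k generalizing x with
  | zero =>
    refine ⟨fun _ => 0, fun _ _ _ => rfl, fun _ _ => Submodule.zero_mem _, fun v => ?_⟩
    have : x v = 0 := mem_Nk_zero.1 (hx2 v).2
    simp [this]
  | succ k ih =>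
    let a : X →ₗ[K] (ι → X ⧸ T α) := LinearMap.pi fun s => (T α).mkQ ∘ₗ α s
    let x0 : X →ₗ[K] ↥(S ⊓ Nk β (k + 1)) := x.codRestrict _ hx2
    have hker : LinearMap.ker a ≤ LinearMap.ker x0 := by
      intro v hv
      have h1 : v ∈ T α := by
        apply T_closed
        intro s
        have := congrFun (LinearMap.mem_ker.1 hv) s
        exact (Submodule.Quotient.mk_eq_zero _).1 this
      rw [LinearMap.mem_ker]
      exact Subtype.ext (hx v h1)
    obtain ⟨u, hu⟩ := factor a x0 hker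
    let w : ι → (X →ₗ[K] Z) := fun s =>
      -((S ⊓ Nk β (k + 1)).subtype ∘ₗ u ∘ₗ LinearMap.single K (fun _ => X ⧸ T α) s ∘ₗ (T α).mkQ)
    have hw1 : ∀ s, ∀ v ∈ T α, w s v = 0 := by
      intro s v hv
      have : (T α).mkQ v = 0 := (Submodule.Quotient.mk_eq_zero _).2 hv
      simp [w, this]
    have hw2 : ∀ s v, w s v ∈ S ⊓ Nk β (k + 1) := by
      intro s v
      apply Submodule.neg_mem
      exact (u _).2
    have hw3 : ∀ v, ∑ s, w s (α s v) = - x v := by
      intro v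
      have h1 : a v = ∑ s, LinearMap.single K (fun _ => X ⧸ T α) s ((T α).mkQ (α s v)) := by
        funext t
        rw [Finset.sum_apply]
        simp [a, Pi.single_apply]
      have h2 : ((u (a v) : ↥(S ⊓ Nk β (k + 1))) : Z) = x v := by
        have := LinearMap.congr_fun hu v
        exact congrArg Subtype.val this
      rw [← h2, h1, map_sum, Submodule.coe_sum, ← Finset.sum_neg_distrib]
      rfl
    let x' : X →ₗ[K] Z := -∑ s, β s ∘ₗ w s
    have hx'v : ∀ v, x' v = -∑ s, β s (w s v) := by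
      intro v; simp [x', LinearMap.sum_apply]
    obtain ⟨w', h1, h2, h3⟩ := ih x' (by
      intro v hv
      rw [hx'v]
      simp [hw1 _ v hv]) (by
      intro v
      rw [hx'v]
      apply Submodule.neg_mem
      apply Submodule.sum_mem
      intro s _
      exact ⟨hS s _ (hw2 s v).1, mem_Nk_succ.1 (hw2 s v).2 s⟩)
    refine ⟨fun s => w s + w' s, ?_, ?_, ?_⟩
    · intro s v hv
      rw [LinearMap.add_apply, hw1 s v hv, h1 s v hv, add_zero]
    · intro s v
      exact Submodule.add_mem _ ⟨(hw2 s v).1, Nk_le_T β _ (hw2 s v).2⟩ (h2 s v)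
    · intro v
      have h4 : ∑ s, (β s ((w s + w' s) v) - (w s + w' s) (α s v)) =
          ∑ s, β s (w s v) - ∑ s, w s (α s v) + ∑ s, (β s (w' s v) - w' s (α s v)) := by
        rw [← Finset.sum_sub_distrib, ← Finset.sum_add_distrib]
        refine Finset.sum_congr rfl fun s _ => ?_
        rw [LinearMap.add_apply, LinearMap.add_apply, map_add]
        abel
      rw [h4, h3, hw3, hx'v]
      abel

/-- second correction: maps which factor through the nilpotent quotient of the source. -/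
theorem solve_high (α : ι → End K X) (β : ι → End K Z) (S : Submodule K Z)
    (hS : ∀ s, ∀ z ∈ S, β s z ∈ S) (hS2 : ∀ z ∈ S, ∃ f : ι → Z, (∀ s, f s ∈ S) ∧ ∑ s, β s (f s) = z)
    (j : ℕ) (x : X →ₗ[K] Z) (hx : ∀ v ∈ Wk α j ⊔ T α, x v = 0) (hx2 : ∀ v, x v ∈ S) :
    ∃ w : ι → (X →ₗ[K] Z), (∀ s, ∀ v ∈ Ainf α ⊔ T α, w s v = 0) ∧ (∀ s v, w s v ∈ S) ∧
      ∀ v, ∑ s, (β s (w s v) - w s (α s v)) = x v := by
  classical
  induction j generalizing x with
  | zero =>
    refine ⟨fun _ => 0, fun _ _ _ => rfl, fun _ _ => Submodule.zero_mem _, fun v => ?_⟩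
    have : x v = 0 := hx v (Submodule.mem_sup_left (by simp [Wk]))
    simp [this]
  | succ j ih =>
    let b : (ι → S) →ₗ[K] S := ∑ s, (β s).restrict (hS s) ∘ₗ LinearMap.proj s
    have hb : ∀ f : ι → S, ((b f : S) : Z) = ∑ s, β s (f s : Z) := by
      intro f
      have : b f = ∑ s, (β s).restrict (hS s) (f s) := by
        change (∑ s, (β s).restrict (hS s) ∘ₗ LinearMap.proj s) f = _
        rw [LinearMap.sum_apply]
        rfl
      rw [this, Submodule.coe_sum]
      rfl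
    have hbs : LinearMap.range b = ⊤ := by
      rw [LinearMap.range_eq_top]
      intro z
      obtain ⟨f, hf1, hf2⟩ := hS2 z z.2
      exact ⟨fun s => ⟨f s, hf1 s⟩, Subtype.ext (by rw [hb]; exact hf2)⟩
    obtain ⟨σ, hσ⟩ := b.exists_rightInverse_of_surjective hbs
    let x0 : X →ₗ[K] S := x.codRestrict _ hx2
    let w : ι → (X →ₗ[K] Z) := fun s => S.subtype ∘ₗ LinearMap.proj s ∘ₗ σ ∘ₗ x0
    have hwv : ∀ s v, w s v = ((σ (x0 v) s : S) : Z) := fun s v => rfl
    have hw1 : ∀ s, ∀ v, x v = 0 → w s v = 0 := by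
      intro s v hv
      have : x0 v = 0 := Subtype.ext hv
      rw [hwv, this, map_zero]
      rfl
    have hw3 : ∀ v, ∑ s, β s (w s v) = x v := by
      intro v
      have h1 := LinearMap.congr_fun hσ (x0 v)
      have h2 := congrArg (fun z : S => (z : Z)) h1
      have h3 : ((b (σ (x0 v)) : S) : Z) = x v := h2
      rw [hb] at h3
      exact h3
    let x' : X →ₗ[K] Z := ∑ s, w s ∘ₗ α s
    have hx'v : ∀ v, x' v = ∑ s, w s (α s v) := by
      intro v; simp [x', LinearMap.sum_apply]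
    obtain ⟨w', h1, h2, h3⟩ := ih x' (by
      intro v hv
      rw [hx'v]
      apply Finset.sum_eq_zero
      intro s _
      apply hw1
      apply hx
      obtain ⟨p, hp, q, hq, rfl⟩ := Submodule.mem_sup.1 hv
      rw [map_add]
      exact Submodule.add_mem_sup (Wk_succ_mem hp s) (T_stable s hq)) (by
      intro v
      rw [hx'v]
      apply Submodule.sum_mem
      intro s _
      rw [hwv]
      exact Subtype.mem _)
    refine ⟨fun s => w s + w' s, ?_, ?_, ?_⟩
    · intro s v hv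
      rw [LinearMap.add_apply, h1 s v hv, add_zero]
      apply hw1
      apply hx
      exact sup_le_sup_right (Ainf_le_Wk α (j + 1)) (T α) hv
    · intro s v
      exact Submodule.add_mem _ (by rw [hwv]; exact Subtype.mem _) (h2 s v)
    · intro v
      have h4 : ∑ s, (β s ((w s + w' s) v) - (w s + w' s) (α s v)) =
          ∑ s, β s (w s v) - ∑ s, w s (α s v) + ∑ s, (β s (w' s v) - w' s (α s v)) := by
        rw [← Finset.sum_sub_distrib, ← Finset.sum_add_distrib]
        refine Finset.sum_congr rfl fun s _ => ?_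
        rw [LinearMap.add_apply, LinearMap.add_apply, map_add]
        abel
      rw [h4, h3, hw3, hx'v]
      abel

/-- LIFTING: a family which is a cocycle between the cores can be corrected to an exact cocycle. -/
theorem lift [FiniteDimensional K X] [FiniteDimensional K Z] (α : ι → End K X) (β : ι → End K Z)
    (ξ : ι → (X →ₗ[K] Z)) (h1 : ∀ s, ∀ v ∈ T α, ξ s v = 0) (h2 : ∀ s v, ξ s v ∈ Ainf β)
    (h3 : ∀ v ∈ Ainf α, ∑ s, (β s (ξ s v) - ξ s (α s v)) ∈ T β) :
    ∃ ξ' : ι → (X →ₗ[K] Z), (∀ s, ∀ v ∈ T α, ξ' s v = 0) ∧ (∀ s v, ξ' s v ∈ Ainf β) ∧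
      (∀ s, ∀ v ∈ Ainf α, ξ' s v - ξ s v ∈ T β) ∧
      ∀ v, ∑ s, (β s (ξ' s v) - ξ' s (α s v)) = 0 := by
  classical
  let e : X →ₗ[K] Z := ∑ s, (β s ∘ₗ ξ s - ξ s ∘ₗ α s)
  have hev : ∀ v, e v = ∑ s, (β s (ξ s v) - ξ s (α s v)) := by
    intro v; simp [e, LinearMap.sum_apply]
  have heT : ∀ v ∈ T α, e v = 0 := by
    intro v hv
    rw [hev]
    apply Finset.sum_eq_zero
    intro s _
    rw [h1 s v hv, h1 s _ (T_stable s hv), map_zero, sub_zero]
  have heS : ∀ v, e v ∈ Ainf β := by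
    intro v
    rw [hev]
    apply Submodule.sum_mem
    intro s _
    exact Submodule.sub_mem _ (Ainf_stable s (h2 s v)) (h2 s _)
  have heC : ∀ v ∈ Ainf α ⊔ T α, e v ∈ Ainf β ⊓ T β := by
    intro v hv
    refine ⟨heS v, ?_⟩
    obtain ⟨p, hp, q, hq, rfl⟩ := Submodule.mem_sup.1 hv
    rw [map_add, heT q hq, add_zero, hev]
    exact h3 p hp
  obtain ⟨e1, he1⟩ := LinearMap.exists_extend
    (((e.domRestrict (Ainf α ⊔ T α))).codRestrict (Ainf β ⊓ T β) (fun v => heC v v.2))
  have he1v : ∀ v ∈ Ainf α ⊔ T α, ((e1 v : ↥(Ainf β ⊓ T β)) : Z) = e v := by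
    intro v hv
    have := LinearMap.congr_fun he1 ⟨v, hv⟩
    exact congrArg Subtype.val this
  let e1' : X →ₗ[K] Z := (Ainf β ⊓ T β).subtype ∘ₗ e1
  have he1'v : ∀ v ∈ Ainf α ⊔ T α, e1' v = e v := he1v
  obtain ⟨k, hk⟩ := T_eq_Nk β
  obtain ⟨j, hj, -⟩ := Ainf_eq_Wk α
  obtain ⟨w, hw1, hw2, hw3⟩ := solve_low α β (Ainf β) (fun s z hz => Ainf_stable s hz) k e1' (by
    intro v hv
    rw [he1'v v (Submodule.mem_sup_right hv)]
    exact heT v hv) (by
    intro v
    rw [← hk]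
    exact (e1 v).2)
  obtain ⟨w', hw1', hw2', hw3'⟩ := solve_high α β (Ainf β) (fun s z hz => Ainf_stable s hz)
    (fun z hz => Ainf_exists β hz) j (e - e1') (by
    intro v hv
    rw [← hj] at hv
    rw [LinearMap.sub_apply, he1'v v hv, sub_self]) (by
    intro v
    exact Submodule.sub_mem _ (heS v) (e1 v).2.1)
  refine ⟨fun s => ξ s - w s - w' s, ?_, ?_, ?_, ?_⟩
  · intro s v hv
    simp only [LinearMap.sub_apply]
    rw [h1 s v hv, hw1 s v hv, hw1' s v (Submodule.mem_sup_right hv)]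
    simp
  · intro s v
    simp only [LinearMap.sub_apply]
    exact Submodule.sub_mem _ (Submodule.sub_mem _ (h2 s v) (hw2 s v).1) (hw2' s v)
  · intro s v hv
    simp only [LinearMap.sub_apply]
    rw [hw1' s v (Submodule.mem_sup_left hv)]
    have : ξ s v - w s v - 0 - ξ s v = - w s v := by abel
    rw [this]
    exact Submodule.neg_mem _ (hw2 s v).2
  · intro v
    have h4 : ∑ s, (β s ((ξ s - w s - w' s) v) - (ξ s - w s - w' s) (α s v)) =
        ∑ s, (β s (ξ s v) - ξ s (α s v)) - ∑ s, (β s (w s v) - w s (α s v)) -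
          ∑ s, (β s (w' s v) - w' s (α s v)) := by
      rw [← Finset.sum_sub_distrib, ← Finset.sum_sub_distrib]
      refine Finset.sum_congr rfl fun s _ => ?_
      simp only [LinearMap.sub_apply, map_sub]
      abel
    rw [h4, hw3, hw3', ← hev, LinearMap.sub_apply]
    abel

end Crest.Agent.R172.PL
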