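import Crest.Agent.R172.CBr1
import Crest.Agent.R172.Frm1
import Crest.Agent.R172.FrmP

/-!
Row 172 (S0260), T0, arbitrary radical, arbitrary `D`: THE CORE BRIDGE, part 2: the corrections of
the first and of the second derivative in a frame, read on the core, lie in `ZP.ZZ`.
-/

set_option autoImplicit false
set_option linter.unusedSectionVars false

namespace Crest.Agent.R172.CBr

open Matrix Crest.Agent.R172.ZP Crest.Agent.R172.ZPM Crest.Agent.R172.FO Crest.Agent.R172.FrmB

variable {ι : Type*} [Fintype ι] [DecidableEq ι] {δ : Type*} [Fintype δ] [DecidableEq δ]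
variable {n : Type*} [Fintype n] [DecidableEq n] {c : Type*} [Fintype c] [DecidableEq c]
variable {k K : Type*} [Field k] [Field K] [Algebra k K]
variable {arm : δ → Fin 3} {J : Matrix ι ι K} {B : Matrix δ δ K}
  {N W : Submodule K (Matrix ι δ K)} {F G : Matrix ι δ K} {p : Matrix ι n K}
  {φ : Fin 3 → Matrix n n K} {D : Matrix n n K}
variable {s : Matrix c n K} {i : Matrix n c K} {g : Matrix c c K}

section Basic

variable (h : Frm.Frame k arm J B N W F G p φ D)

include h

theorem gam_symm : (pᵀ * J * p)ᵀ = pᵀ * J * p := by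
  rw [transpose_mul, transpose_mul, transpose_transpose, h.data.J_symm, Matrix.mul_assoc]

theorem gam_phi (r : Fin 3) : pᵀ * J * p * φ r = (φ r)ᵀ * (pᵀ * J * p) := by
  rw [Matrix.mul_assoc (pᵀ * J) p, ← h.phi, ← Matrix.mul_assoc, ← Matrix.mul_assoc, h.pJM_FF]
  simp only [Matrix.mul_assoc]

/-- an element `κ` of `𝒦` with `κᵀ J p = Fᵀ J p x` -/
theorem kk {κ : Matrix ι δ K} (hκ : κ ∈ N ⊓ W) {x : Matrix n n K}
    (hx : κᵀ * J * p = Fᵀ * J * p * x) :
    pᵀ * J * p * x = xᵀ * (pᵀ * J * p) ∧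
      ∀ r, pᵀ * J * p * (φ r * x) = pᵀ * J * p * (x * φ r) := by
  obtain ⟨v, hv, -⟩ := h.exists_v
  have hs1 : (κᵀ * J * F)ᵀ = κᵀ * J * F := by
    rw [transpose_mul, transpose_mul, transpose_transpose, h.data.J_symm, ← Matrix.mul_assoc,
      h.data.symm_U h.memF hκ]
  have e1 : pᵀ * J * p * x = vᵀ * (κᵀ * J * F) * v := by
    calc pᵀ * J * p * x = vᵀ * (Fᵀ * J * p * x) := by
          nth_rw 1 [← hv]; rw [transpose_mul]; simp only [Matrix.mul_assoc]
      _ = vᵀ * (κᵀ * J * (F * v)) := by rw [← hx, hv]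
      _ = _ := by simp only [Matrix.mul_assoc]
  have e2 : pᵀ * J * p * x = xᵀ * (pᵀ * J * p) := by
    have h1 : (pᵀ * J * p * x)ᵀ = pᵀ * J * p * x := by
      rw [e1, transpose_mul, transpose_mul, transpose_transpose, hs1]
      simp only [Matrix.mul_assoc]
    calc pᵀ * J * p * x = (pᵀ * J * p * x)ᵀ := h1.symm
      _ = xᵀ * (pᵀ * J * p) := by rw [transpose_mul, gam_symm h]
  refine ⟨e2, fun r => ?_⟩
  have h1 := h.phi r
  have h2 := h.data.symm_arm h.memF hκ r
  unfold M at h1 h2
  have hxt := congrArg transpose hx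
  simp only [transpose_mul, transpose_transpose, h.data.J_symm] at hxt
  calc pᵀ * J * p * (φ r * x) = pᵀ * J * (p * φ r) * x := by simp only [Matrix.mul_assoc]
    _ = pᵀ * J * (F * E K arm r * B * (Fᵀ * J * p * x)) := by
        rw [← h1]; simp only [Matrix.mul_assoc]
    _ = pᵀ * J * ((F * E K arm r * B * κᵀ) * J * p) := by
        rw [← hx]; simp only [Matrix.mul_assoc]
    _ = (pᵀ * (J * κ)) * (E K arm r * (B * (Fᵀ * (J * p)))) := by
        rw [h2]; simp only [Matrix.mul_assoc]
    _ = xᵀ * (pᵀ * J * (F * E K arm r * B * Fᵀ * J * p)) := by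
        rw [hxt]; simp only [Matrix.mul_assoc]
    _ = xᵀ * (pᵀ * J * p) * φ r := by rw [h1]; simp only [Matrix.mul_assoc]
    _ = pᵀ * J * p * (x * φ r) := by rw [← e2]; simp only [Matrix.mul_assoc]

theorem gam_D : pᵀ * J * p * D = Dᵀ * (pᵀ * J * p) := (kk h h.memG h.dg).1

variable (hf : Fac (pᵀ * J * p) s i g)

include hf

theorem phi_T (r : Fin 3) : bar s i (φ r) = TJ g (bar s i (φ r)) ∧ Pres s i (φ r) :=
  hf.adj (gam_phi h r)

theorem D_T : bar s i D = TJ g (bar s i D) ∧ Pres s i D := hf.adj (gam_D h)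

theorem barDΦ (r : Fin 3) : bar s i D * bar s i (φ r) = bar s i (φ r) * bar s i D := by
  rw [← bar_mul (D_T h hf).2, h.comm, bar_mul (phi_T h hf r).2]

theorem bar_perf {x : Matrix c c K} (hx : ∀ r, x * bar s i (φ r) = 0) : x = 0 := by
  obtain ⟨a, ha⟩ := h.perf
  have h1 : ∑ r, bar s i (φ r) * bar s i (a r) = 1 := by
    rw [← (Pres.one hf.si).1, ← ha, bar_sum]
    exact Finset.sum_congr rfl fun r _ => (bar_mul (phi_T h hf r).2 _).symm
  calc x = x * ∑ r, bar s i (φ r) * bar s i (a r) := by rw [h1, Matrix.mul_one]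
    _ = 0 := by
      rw [Matrix.mul_sum]
      exact Finset.sum_eq_zero fun r _ => by rw [← Matrix.mul_assoc, hx, Matrix.zero_mul]

/-- the core part of `kk` -/
theorem kk_bar {κ : Matrix ι δ K} (hκ : κ ∈ N ⊓ W) {x : Matrix n n K}
    (hx : κᵀ * J * p = Fᵀ * J * p * x) :
    Pres s i x ∧ TJ g (bar s i x) = bar s i x ∧
      ∀ r, bar s i x * bar s i (φ r) = bar s i (φ r) * bar s i x := by
  obtain ⟨h1, h2⟩ := kk h hκ hx
  have h3 := hf.adj h1
  refine ⟨h3.2, h3.1.symm, fun r => ?_⟩
  rw [← bar_mul h3.2, ← bar_mul (phi_T h hf r).2]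
  have h4 := hf.s_eq (h2 r)
  unfold bar
  rw [h4]

end Basic

/-- the corrections on the core -/
noncomputable def ZC (g : Matrix c c K) (s : Matrix c n K) (i : Matrix n c K) (φ : Fin 3 → Matrix n n K)
    (D : Matrix n n K) : Submodule K (Matrix c c K) :=
  ZZ (TJ g) 1 (bar s i D) (fun r => bar s i (φ r))

section Q3

variable (h : Frm.Frame k arm J B N W F G p φ D) (hf : Fac (pᵀ * J * p) s i g)
variable {y : Fin 3 → Matrix n n K} {w : Matrix ι δ K} {z : Matrix n n K}

include h in
/-- a correction preserves the radical -/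
theorem Q3_pres (hf : Fac (pᵀ * J * p) s i g) (hq : Q3 arm J B N W F p y w z) : Pres s i z := by
  obtain ⟨a, ha⟩ := h.perf
  choose μ hμ using hq.img
  have hFv : F * (∑ r, E K arm r * B * (Fᵀ * J * p) * a r) = p := by
    have e : F * (∑ r, E K arm r * B * (Fᵀ * J * p) * a r) = ∑ r, p * (φ r * a r) := by
      rw [Matrix.mul_sum]
      refine Finset.sum_congr rfl fun r _ => ?_
      have h1 := h.phi r
      unfold M at h1
      rw [← Matrix.mul_assoc p, ← h1]
      simp only [Matrix.mul_assoc]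
    rw [e, ← Matrix.mul_sum, ha, Matrix.mul_one]
  have hwv : w * (∑ r, E K arm r * B * (Fᵀ * J * p) * a r) = p * ∑ r, μ r * a r := by
    rw [Matrix.mul_sum, Matrix.mul_sum]
    refine Finset.sum_congr rfl fun r _ => ?_
    rw [← Matrix.mul_assoc p, ← hμ]
    simp only [Matrix.mul_assoc]
  set v := ∑ r, E K arm r * B * (Fᵀ * J * p) * a r with hv
  have e1 : pᵀ * J * p * z = (∑ r, μ r * a r)ᵀ * (pᵀ * J * p) := by
    calc pᵀ * J * p * z = vᵀ * (Fᵀ * J * p * z) := by
          nth_rw 1 [← hFv]; rw [transpose_mul]; simp only [Matrix.mul_assoc]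
      _ = (w * v)ᵀ * J * p := by
          rw [← hq.val, transpose_mul]; simp only [Matrix.mul_assoc]
      _ = _ := by rw [hwv, transpose_mul]; simp only [Matrix.mul_assoc]
  exact (hf.adj e1).2

/-- both members of a `ZZ` pair are nilpotent for `ad D` -/
theorem ZZ_nilT {R κ : Type*} [Ring R] [Algebra K R] {T : R →ₗ[K] R} {e D' : R} {Φ : κ → R}
    {z' : R} (hz : z' ∈ ZZ T e D' Φ) : NilAt (adE D') (T z') := by
  obtain ⟨h', h1, ⟨m, hm⟩, h3, h4, h5, h6, h7⟩ := hz
  refine ⟨m, ?_⟩
  have := congrFun hm 0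
  rw [pw_pow, h5] at this
  exact this

theorem nil_mul_D {R : Type*} [Ring R] {D' x : R} (hx : NilAt (adE D') x) :
    NilAt (adE D') (x * D') := by
  refine hx.map (fun x => x * D') (zero_mul _) ?_
  intro x
  simp only [adE_apply]
  noncomm_ring

include h hf in
/-- the variation of `φ_r` on the core along the `L`-fixed derivation -/
theorem db_phi {Y : Fin 3 → Matrix n n K} {wY : Matrix ι δ K} {zY : Matrix n n K}
    (hQ : Q3 arm J B N W F p Y wY zY) {d : Derivation k K K} (hdF : F.map d = wY)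
    {π : Matrix n n K} (hp : p.map d = p * π) {σ : Matrix c c K}
    (hs : s.map d = s * π - σ * s) (r : Fin 3) :
    db d σ (bar s i (φ r)) =
      TJ g (bar s i zY) * bar s i (φ r) + bar s i (φ r) * bar s i zY := by
  obtain ⟨-, hφ⟩ := phi_T h hf r
  rw [← (bar_nabla hf hs hφ).1]
  have h1 := h.phi r
  unfold M at h1
  have e1 := congrArg (fun A : Matrix ι n K => A.map d) h1
  simp only [map_mul_der, map_transpose_der, h.data.J_const, h.data.B_const, E_map_der, hdF, hp,
    Matrix.mul_zero, add_zero] at e1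
  have e2 : wYᵀ * J * p = Fᵀ * J * p * zY := hQ.val
  have e3 : F * E K arm r * B * (wYᵀ * J * p) = p * (φ r * zY) := by
    rw [e2, ← Matrix.mul_assoc p, ← h1]; simp only [Matrix.mul_assoc]
  have e4 : F * E K arm r * B * Fᵀ * J * (p * π) = p * (φ r * π) := by
    rw [← Matrix.mul_assoc p, ← h1]; simp only [Matrix.mul_assoc]
  have e5 : p * ((φ r).map d + π * φ r - φ r * π) =
      wY * E K arm r * B * (Fᵀ * J * p) + p * (φ r * zY) := by
    have e6 : p * ((φ r).map d + π * φ r - φ r * π) =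
        (p * π * φ r + p * (φ r).map d) - p * (φ r * π) := by
      rw [Matrix.mul_sub, Matrix.mul_add, ← Matrix.mul_assoc p π]; abel
    rw [e6, ← e1, ← e4, ← e3]
    simp only [Matrix.add_mul, Matrix.mul_assoc]
    abel
  have hxt := congrArg transpose e2
  simp only [transpose_mul, transpose_transpose, h.data.J_symm] at hxt
  have e7 : pᵀ * J * p * ((φ r).map d + π * φ r - φ r * π) =
      zYᵀ * (pᵀ * J * p) * φ r + pᵀ * J * p * (φ r * zY) := by
    rw [Matrix.mul_assoc (pᵀ * J) p, e5, Matrix.mul_add]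
    have e8 : pᵀ * J * (wY * E K arm r * B * (Fᵀ * J * p)) = zYᵀ * (pᵀ * J * p) * φ r := by
      calc pᵀ * J * (wY * E K arm r * B * (Fᵀ * J * p))
          = (pᵀ * (J * wY)) * (E K arm r * (B * (Fᵀ * (J * p)))) := by
            simp only [Matrix.mul_assoc]
        _ = zYᵀ * (pᵀ * J * (F * E K arm r * B * Fᵀ * J * p)) := by
            rw [hxt]; simp only [Matrix.mul_assoc]
        _ = _ := by rw [h1]; simp only [Matrix.mul_assoc]
    rw [e8]
    simp only [Matrix.mul_assoc]
  have e9 : s * ((φ r).map d + π * φ r - φ r * π) =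
      TJ g (bar s i zY) * (s * φ r) + s * (φ r * zY) := by
    have := congrArg (fun A => g⁻¹ * iᵀ * A) e7
    simp only [Matrix.mul_add] at this
    rw [← Matrix.mul_assoc, hf.giigam] at this
    rw [this]
    congr 1
    · have e10 : iᵀ * sᵀ = 1 := by rw [← transpose_mul, hf.si, transpose_one]
      rw [TJ_apply, hf.fac]
      unfold bar
      rw [transpose_mul, transpose_mul]
      simp only [Matrix.mul_assoc]
    · rw [← Matrix.mul_assoc, hf.giigam]
  have e11 : bar s i ((φ r).map d + π * φ r - φ r * π) =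
      (TJ g (bar s i zY) * (s * φ r) + s * (φ r * zY)) * i :=
    congrArg (fun A => A * i) e9
  rw [e11, Matrix.add_mul, ← bar_mul hφ, Matrix.mul_assoc (TJ g (bar s i zY))]
  rfl

include h in
theorem gam_der {d : Derivation k K K} {π : Matrix n n K} (hp : p.map d = p * π) :
    (pᵀ * J * p).map d = πᵀ * (pᵀ * J * p) + pᵀ * J * p * π := by
  rw [map_mul_der, map_mul_der, map_transpose_der, h.data.J_const, hp, transpose_mul,
    Matrix.mul_zero, add_zero]
  simp only [Matrix.mul_assoc]

include h hf in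
/-- **(5) `db D` is nilpotent for `ad D`** along the `L`-fixed derivation, if also `Y Dᵀ` is a
first level family -/
theorem nil_dD (hom : ∀ x : Matrix c c K,
      (∀ r, x * bar s i (φ r) = bar s i (φ r) * x) → NilAt (adE (bar s i D)) x)
    {Y : Fin 3 → Matrix n n K} {wY : Matrix ι δ K} {zY : Matrix n n K}
    (hQ : Q3 arm J B N W F p Y wY zY) (hzY : TJ g (bar s i zY) ∈ ZC g s i φ D)
    {w' : Matrix ι δ K} {z' : Matrix n n K}
    (hQ' : Q3 arm J B N W F p (fun r => Y r * Dᵀ) w' z') (hz' : TJ g (bar s i z') ∈ ZC g s i φ D)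
    {d : Derivation k K K} (hd : Realises arm N W (fun r => p * Y r * pᵀ * J) 0 d)
    (hdF : F.map d = wY) {π : Matrix n n K} (hp : p.map d = p * π) {σ : Matrix c c K}
    (hs : s.map d = s * π - σ * s) :
    NilAt (adE (bar s i D)) (db d σ (bar s i D)) := by
  obtain ⟨-, hDp⟩ := D_T h hf
  have h1 := congrArg (fun A : Matrix δ n K => A.map d) h.dg
  simp only [map_mul_der, map_transpose_der, h.data.J_const, hdF, hp, Matrix.mul_zero,
    add_zero] at h1
  have hGx : (G.map d)ᵀ * J * p = Fᵀ * J * p * (zY * D + (D.map d + π * D - D * π)) := by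
    have e1 : wYᵀ * J * p = Fᵀ * J * p * zY := hQ.val
    have e2 : Gᵀ * J * (p * π) = Fᵀ * J * p * (D * π) := by
      rw [← Matrix.mul_assoc, h.dg, Matrix.mul_assoc]
    rw [e1, e2] at h1
    have e3 : (G.map d)ᵀ * J * p = (Fᵀ * J * p * zY + Fᵀ * J * (p * π)) * D +
        Fᵀ * J * p * D.map d - Fᵀ * J * p * (D * π) := by rw [← h1]; abel
    rw [e3]
    simp only [Matrix.mul_add, Matrix.add_mul, Matrix.mul_sub, Matrix.mul_assoc]
    abel
  have hκ : G.map d - w' ∈ N ⊓ W := by
    constructor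
    · have h2 := hd.onN G h.memG.1
      have e1 : act arm (fun r => p * Y r * pᵀ * J) G =
          FrmB.io arm J F p (fun r => Y r * Dᵀ) := by
        unfold FrmB.io act
        refine Finset.sum_congr rfl fun r _ => ?_
        have e2 := h.pJG
        calc p * Y r * pᵀ * J * G * E K arm r = p * Y r * (pᵀ * J * G) * E K arm r := by
              simp only [Matrix.mul_assoc]
          _ = _ := by rw [e2]; simp only [Matrix.mul_assoc]
      rw [e1] at h2
      have := N.add_mem h2 hQ'.memN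
      have e3 : G.map d - w' = (G.map d - FrmB.io arm J F p (fun r => Y r * Dᵀ)) +
          (FrmB.io arm J F p (fun r => Y r * Dᵀ) - w') := by abel
      rw [e3]; exact this
    · have h2 := hd.onW G h.memG.2
      rw [transpose_zero, Matrix.mul_zero, sub_zero] at h2
      exact W.sub_mem h2 hQ'.memW
  have hx : (G.map d - w')ᵀ * J * p =
      Fᵀ * J * p * (zY * D + (D.map d + π * D - D * π) - z') := by
    rw [transpose_sub, Matrix.sub_mul, Matrix.sub_mul, hGx, hQ'.val, ← Matrix.mul_sub]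
  obtain ⟨-, -, hc⟩ := kk_bar h hf hκ hx
  have hn := hom _ hc
  have hb : bar s i (zY * D + (D.map d + π * D - D * π) - z') =
      bar s i zY * bar s i D + db d σ (bar s i D) - bar s i z' := by
    rw [bar_sub, bar_add, bar_mul (Q3_pres h hf hQ), (bar_nabla hf hs hDp).1]
  rw [hb] at hn
  have hTT : ∀ x : Matrix c c K, TJ g (TJ g x) = x := TJ_TJ hf.gu hf.gs
  have n1 : NilAt (adE (bar s i D)) (bar s i z') := by
    have := ZZ_nilT hz'
    rwa [hTT] at this
  have n2 : NilAt (adE (bar s i D)) (bar s i zY) := by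
    have := ZZ_nilT hzY
    rwa [hTT] at this
  have n3 := nil_mul_D n2
  have e : db d σ (bar s i D) = (bar s i zY * bar s i D + db d σ (bar s i D) - bar s i z') +
      bar s i z' - bar s i zY * bar s i D := by abel
  rw [e]
  exact (hn.add n1).sub n3

include h hf in
/-- **(4) the second correction is in `ZZ`** -/
theorem second_ZC
    {Y : Fin 3 → Matrix n n K} {wY : Matrix ι δ K} {zY : Matrix n n K}
    (hQ : Q3 arm J B N W F p Y wY zY) (hzY : TJ g (bar s i zY) ∈ ZC g s i φ D)
    {d : Derivation k K K} (hdF : F.map d = wY) {π : Matrix n n K} (hp : p.map d = p * π)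
    (hnil : ∀ σ : Matrix c c K, s.map d = s * π - σ * s →
      NilAt (adE (bar s i D)) (db d σ (bar s i D)))
    {y : Fin 3 → Matrix n n K} {w : Matrix ι δ K} {z : Matrix n n K}
    (hq : Q3 arm J B N W F p y w z) (hz : TJ g (bar s i z) ∈ ZC g s i φ D) :
    TJ g (bar s i (zY * z + z.map d + π * z - z * π)) ∈ ZC g s i φ D := by
  obtain ⟨σ, hs, hg⟩ := exists_conn hf d (gam_der h hp)
  have hTT : ∀ x : Matrix c c K, TJ g (TJ g x) = x := TJ_TJ hf.gu hf.gs
  have e1 : zY * z + z.map d + π * z - z * π = zY * z + (z.map d + π * z - z * π) := by abel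
  have e2 : TJ g (bar s i (zY * z + z.map d + π * z - z * π)) =
      db d σ (TJ g (bar s i z)) + TJ g (bar s i z) * TJ g (bar s i zY) := by
    rw [e1, bar_add, bar_mul (Q3_pres h hf hQ), (bar_nabla hf hs (Q3_pres h hf hq)).1, map_add,
      TJ_mul hf.gu, db_T hf hg, add_comm]
  rw [e2]
  unfold ZC at *
  refine ZPL.fixed_mem (TJ_mul hf.gu) (db d σ) (db_add d σ) (db_mul d σ) (db_T hf hg)
    (db_one d σ) (hnil σ hs) hz hzY fun r => ?_
  rw [hTT]
  exact db_phi h hf hQ hdF hp hs r

include h hf in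
/-- **(6) END**: a global skew `X` whose relation has a correction in `ZZ` vanishes on the core -/
theorem end_zero [CharZero K] {X : Matrix n n K} (hX : Xᵀ = -X)
    (hq : Q3 arm J B N W F p (fun _ => X) w z) (hz : TJ g (bar s i z) ∈ ZC g s i φ D) :
    bar s i (X * (pᵀ * J * p)) = 0 := by
  have hio : FrmB.io arm J F p (fun _ => X) = p * X * pᵀ * J * F := by
    unfold FrmB.io act
    rw [← Matrix.mul_sum, sum_E, Matrix.mul_one]
  have hκ : p * X * pᵀ * J * F - w ∈ N ⊓ W := by
    constructor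
    · rw [← hio]; exact hq.memN
    · exact W.sub_mem (h.data.W_left F h.memF.2 _) hq.memW
  have hx : (p * X * pᵀ * J * F - w)ᵀ * J * p = Fᵀ * J * p * (-(X * (pᵀ * J * p)) - z) := by
    rw [transpose_sub, Matrix.sub_mul, Matrix.sub_mul, hq.val, Matrix.mul_sub]
    congr 1
    simp only [transpose_mul, transpose_transpose, h.data.J_symm, hX, Matrix.mul_assoc,
      Matrix.neg_mul, Matrix.mul_neg]
  obtain ⟨-, hT, hc⟩ := kk_bar h hf hκ hx
  have hTT : ∀ x : Matrix c c K, TJ g (TJ g x) = x := TJ_TJ hf.gu hf.gs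
  -- `X gam` is skew
  have hXg : pᵀ * J * p * (X * (pᵀ * J * p)) = (-(X * (pᵀ * J * p)))ᵀ * (pᵀ * J * p) := by
    rw [transpose_neg, transpose_mul, hX, gam_symm h, Matrix.mul_neg, neg_neg]
    simp only [Matrix.mul_assoc]
  have hTX : TJ g (bar s i (X * (pᵀ * J * p))) = -bar s i (X * (pᵀ * J * p)) := by
    have := (hf.adj hXg).1
    rw [bar_neg, map_neg] at this
    exact neg_eq_iff_eq_neg.1 this.symm
  have hb : bar s i (-(X * (pᵀ * J * p)) - z) =
      -bar s i (X * (pᵀ * J * p)) - bar s i z := by rw [bar_sub, bar_neg]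
  rw [hb] at hT hc
  have e1 : bar s i (X * (pᵀ * J * p)) - TJ g (bar s i z) =
      -bar s i (X * (pᵀ * J * p)) - bar s i z := by
    rw [← hT, map_sub, map_neg, hTX, neg_neg]
  let _ : Algebra ℚ K := DivisionRing.toRatAlgebra
  refine skew_eq_zero (K := K) hz hTX (Matrix.mul_one _)
    (fun x _ hx' => bar_perf h hf hx') ?_ ?_
  · rw [e1]; exact hT
  · intro r; rw [e1]; exact hc r

end Q3

end Crest.Agent.R172.CBr
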