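import Crest.Agent.R172.CBr2

/-!
Row 172 (S0260), T0, arbitrary radical, arbitrary `D`: THE CORE BRIDGE, part 3: the first
derivative in `Q3` form, with its correction in `ZZ`.
-/

set_option autoImplicit false
set_option linter.unusedSectionVars false

namespace Crest.Agent.R172.CBr

open Matrix Crest.Agent.R172.ZP Crest.Agent.R172.ZPM Crest.Agent.R172.FO Crest.Agent.R172.FrmB

variable {ι : Type*} [Fintype ι] [DecidableEq ι] {δ : Type*} [Fintype δ] [DecidableEq δ]
variable {n : Type*} [Fintype n] [DecidableEq n] {κ : Type*} [Fintype κ] [DecidableEq κ]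
variable {k K : Type*} [Field k] [Field K] [Algebra k K]
variable {arm : δ → Fin 3} {J : Matrix ι ι K} {B : Matrix δ δ K}
  {N W : Submodule K (Matrix ι δ K)} {F G : Matrix ι δ K} {p : Matrix ι n K}
  {φ : Fin 3 → Matrix n n K} {D : Matrix n n K}
variable {s : Matrix κ n K} {i : Matrix n κ K} {g : Matrix κ κ K}

theorem io_eq_io (y : Fin 3 → Matrix n n K) : FrmB.io arm J F p y = Frm.io arm J p y F := rfl

/-- **FIRST in `Q3` form**, the correction read on the core is in `ZZ` -/
theorem first_ZC (h : Frm.Frame k arm J B N W F G p φ D) (hf : Fac (pᵀ * J * p) s i g)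
    {t : K} (ht : ∀ d : Derivation k K K, d t = 0) {c ci : Matrix n n K} (hc : c = 1 + t • D)
    (hci : c * ci = 1) (hH : Generic k arm N W (F + t • G))
    (hom : ∀ x : Matrix κ κ K,
      (∀ r, x * (bar s i c * bar s i c * bar s i (φ r)) =
        (bar s i c * bar s i c * bar s i (φ r)) * x) → NilAt (adE (bar s i D)) x)
    {m : ℕ} (hw : ∀ l : List (Fin 3), l.length = m →
      ∃ Q : Matrix n ι K, (l.map (Phi arm J B (F + t • G))).prod = p * Q)
    (Y : Fin 3 → Matrix n n K) (hY : ∀ r, (Y r)ᵀ = -(Y r))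
    (hex : ∑ r, (Y r * (cᵀ * cᵀ * (φ r)ᵀ) - φ r * c * c * Y r) = 0)
    (harm : ∀ r, s * (Y r * (cᵀ * cᵀ * (φ r)ᵀ) - φ r * c * c * Y r) * sᵀ = 0) :
    ∃ (w : Matrix ι δ K) (z : Matrix n n K),
      Q3 arm J B N W F p (fun r => Y r - ci * Y r * cᵀ) w z ∧
      TJ g (bar s i z) ∈ ZC g s i φ D := by
  have hci' : ci * c = 1 := by rw [mul_eq_one_comm] at hci; exact hci
  have hcφ : ∀ r, c * φ r = φ r * c := by
    intro r
    rw [hc, Matrix.add_mul, Matrix.mul_add, Matrix.one_mul, Matrix.mul_one, Matrix.smul_mul,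
      Matrix.mul_smul, h.comm]
  obtain ⟨ξ, d, -, hd, hdH, -, hW, hN⟩ := h.first hc hci hH Y hY hex
  obtain ⟨π, hπ⟩ := h.first_pi hc hci Y hY hdH hw
  have hz := h.first_z hc hci Y hdH hπ
  have hζ := h.first_zeta hc hci Y hY hdH hπ
  obtain ⟨z, hzd⟩ : ∃ z : Matrix n n K, z = (c * π - π * c - c.map d) * ci := ⟨_, rfl⟩
  obtain ⟨w, hwd⟩ : ∃ w : Matrix ι δ K,
    w = F.map d - Frm.io arm J p (fun r => ci * Y r * cᵀ) F := ⟨_, rfl⟩
  rw [← hzd, ← hwd] at hz
  rw [← hwd] at hW
  have hQ : Q3 arm J B N W F p (fun r => Y r - ci * Y r * cᵀ) w z := by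
    refine ⟨hW, ?_, hz, fun r => ?_⟩
    · rw [io_sub, io_eq_io, io_eq_io]
      have e : Frm.io arm J p Y F - Frm.io arm J p (fun r => ci * Y r * cᵀ) F - w =
          -(F.map d - Frm.io arm J p Y F) := by rw [hwd]; abel
      rw [e]
      exact N.neg_mem hN
    · have := hζ r
      rw [← hwd] at this
      refine ⟨(c * (ci * Y r * cᵀ * (φ r)ᵀ * (pᵀ * J * p))
          - ci * Y r * cᵀ * (φ r)ᵀ * (pᵀ * J * p) * c
          + φ r * c * Y r * ciᵀ * (pᵀ * J * p) * c
          - c * (φ r * c * Y r * ciᵀ * (pᵀ * J * p))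
          + φ r * c * ((c * π - π * c - c.map d) * ci)) * ci, ?_⟩
      rw [← this]
      simp only [Matrix.mul_assoc]
  refine ⟨w, z, hQ, ?_⟩
  -- the core
  obtain ⟨σ, hs, hg⟩ := exists_conn hf d (gam_der h hπ)
  obtain ⟨hDT, hDp⟩ := D_T h hf
  have hcP : Pres s i c := by
    rw [hc]; exact (Pres.one hf.si).2.add (hDp.smul t)
  have hcb : bar s i c = 1 + t • bar s i D := by
    rw [hc, bar_add, bar_smul, (Pres.one hf.si).1]
  have hgc := h.g_c hc
  have hgci : pᵀ * J * p * ci = ciᵀ * (pᵀ * J * p) := by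
    calc pᵀ * J * p * ci = (c * ci)ᵀ * (pᵀ * J * p) * ci := by
          rw [hci, transpose_one, Matrix.one_mul]
      _ = ciᵀ * (cᵀ * (pᵀ * J * p)) * ci := by
          rw [transpose_mul]; simp only [Matrix.mul_assoc]
      _ = ciᵀ * (pᵀ * J * p) * (c * ci) := by
          rw [← hgc]; simp only [Matrix.mul_assoc]
      _ = _ := by rw [hci, Matrix.mul_one]
  obtain ⟨hciT, hciP⟩ := hf.adj hgci
  have hb1 : bar s i c * bar s i ci = 1 := by
    rw [← bar_mul hcP, hci, (Pres.one hf.si).1]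
  have hb2 : bar s i ci * bar s i c = 1 := by
    rw [← bar_mul hciP, hci', (Pres.one hf.si).1]
  have hcbφ : ∀ r, bar s i c * bar s i (φ r) = bar s i (φ r) * bar s i c := by
    intro r
    rw [← bar_mul hcP, hcφ, bar_mul (phi_T h hf r).2]
  -- `db (φ c c) = 0`
  have hX : ∀ s, ((fun r => p * Y r * pᵀ * J) s)ᵀ * J + J * (fun r => p * Y r * pᵀ * J) s = 0 := by
    intro s
    simp only [transpose_mul, transpose_transpose, h.data.J_symm, hY, Matrix.mul_assoc,
      Matrix.neg_mul, Matrix.mul_neg, neg_add_cancel]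
  have hψP : ∀ r, Pres s i (φ r * (c * c)) := fun r => (phi_T h hf r).2.mul (hcP.mul hcP)
  have hdb0 : ∀ r, db d σ (bar s i (φ r * (c * c))) = 0 := by
    intro r
    rw [← (bar_nabla hf hs (hψP r)).1]
    have e1 : p * ((φ r * (c * c)).map d + π * (φ r * (c * c)) - φ r * (c * c) * π) =
        p * (Y r * (pᵀ * J * p) * (φ r * (c * c)) - φ r * (c * c) * Y r * (pᵀ * J * p)) := by
      have h1 := congrArg (fun A : Matrix ι n K => A.map d) (h.phiH hc r)
      beta_reduce at h1
      rw [map_mul_der, map_mul_der, h.data.map_Phi _ _ hX d hdH r, hπ,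
        ← Matrix.mul_assoc _ p π, h.phiH hc] at h1
      have h2 : (p * Y r * pᵀ * J * Phi arm J B (F + t • G) r -
          Phi arm J B (F + t • G) r * (p * Y r * pᵀ * J)) * p =
          p * (Y r * (pᵀ * J * p) * (φ r * (c * c)) - φ r * (c * c) * Y r * (pᵀ * J * p)) := by
        have a1 : p * Y r * pᵀ * J * Phi arm J B (F + t • G) r * p =
            p * (Y r * (pᵀ * J * p) * (φ r * (c * c))) := by
          calc p * Y r * pᵀ * J * Phi arm J B (F + t • G) r * p
              = p * Y r * pᵀ * J * (Phi arm J B (F + t • G) r * p) := by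
                simp only [Matrix.mul_assoc]
            _ = _ := by rw [h.phiH hc]; simp only [Matrix.mul_assoc]
        have a2 : Phi arm J B (F + t • G) r * (p * Y r * pᵀ * J) * p =
            p * (φ r * (c * c) * Y r * (pᵀ * J * p)) := by
          calc Phi arm J B (F + t • G) r * (p * Y r * pᵀ * J) * p
              = (Phi arm J B (F + t • G) r * p) * (Y r * (pᵀ * J * p)) := by
                simp only [Matrix.mul_assoc]
            _ = _ := by rw [h.phiH hc]; simp only [Matrix.mul_assoc]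
        rw [Matrix.sub_mul, a1, a2, ← Matrix.mul_sub]
      rw [h2] at h1
      have h3 : p * (φ r * (c * c)).map d = p * (Y r * (pᵀ * J * p) * (φ r * (c * c)) -
          φ r * (c * c) * Y r * (pᵀ * J * p)) + p * (φ r * (c * c)) * π -
          p * π * (φ r * (c * c)) := by rw [h1]; abel
      rw [Matrix.mul_sub, Matrix.mul_add, h3]
      simp only [Matrix.mul_assoc]
      abel
    have e2 : pᵀ * J * p * ((φ r * (c * c)).map d + π * (φ r * (c * c)) - φ r * (c * c) * π)
        = 0 := by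
      rw [Matrix.mul_assoc (pᵀ * J) p, e1, ← Matrix.mul_assoc (pᵀ * J) p]
      have e3 : pᵀ * J * p * (φ r * (c * c)) = (cᵀ * cᵀ * (φ r)ᵀ) * (pᵀ * J * p) := by
        have a1 : pᵀ * J * p * (φ r * (c * c)) = (φ r)ᵀ * (cᵀ * (cᵀ * (pᵀ * J * p))) := by
          calc pᵀ * J * p * (φ r * (c * c)) = (pᵀ * J * p * φ r) * c * c := by
                simp only [Matrix.mul_assoc]
            _ = (φ r)ᵀ * (pᵀ * J * p * c) * c := by
                rw [gam_phi h]; simp only [Matrix.mul_assoc]
            _ = (φ r)ᵀ * (cᵀ * (pᵀ * J * p)) * c := by rw [hgc]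
            _ = (φ r)ᵀ * (cᵀ * (pᵀ * J * p * c)) := by simp only [Matrix.mul_assoc]
            _ = _ := by rw [hgc]
        have a2 : cᵀ * (φ r)ᵀ = (φ r)ᵀ * cᵀ := by
          rw [← transpose_mul, ← transpose_mul, hcφ]
        have a3 : cᵀ * cᵀ * (φ r)ᵀ = (φ r)ᵀ * cᵀ * cᵀ := by
          rw [Matrix.mul_assoc, a2, ← Matrix.mul_assoc, a2]
        rw [a1, a3]
        simp only [Matrix.mul_assoc]
      have e4 : Y r * (pᵀ * J * p) * (φ r * (c * c)) - φ r * (c * c) * Y r * (pᵀ * J * p) =
          (Y r * (cᵀ * cᵀ * (φ r)ᵀ) - φ r * c * c * Y r) * (pᵀ * J * p) := by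
        rw [Matrix.sub_mul, Matrix.mul_assoc (Y r), e3]
        simp only [Matrix.mul_assoc]
      rw [e4]
      have e5 := harm r
      calc pᵀ * J * p * ((Y r * (cᵀ * cᵀ * (φ r)ᵀ) - φ r * c * c * Y r) * (pᵀ * J * p))
          = sᵀ * g * (s * (Y r * (cᵀ * cᵀ * (φ r)ᵀ) - φ r * c * c * Y r) * sᵀ) * g * s := by
            rw [hf.fac]; simp only [Matrix.mul_assoc]
        _ = 0 := by rw [e5, Matrix.mul_zero, Matrix.zero_mul, Matrix.zero_mul]
    have e3 := (hf.gam_mul_eq_zero_iff).1 e2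
    unfold bar
    rw [e3, Matrix.zero_mul]
  have hψb : ∀ r, bar s i (φ r * (c * c)) = bar s i c * bar s i c * bar s i (φ r) := by
    intro r
    rw [bar_mul (phi_T h hf r).2, bar_mul hcP, ← Matrix.mul_assoc, ← hcbφ, Matrix.mul_assoc,
      ← hcbφ, ← Matrix.mul_assoc]
  have hDψ : ∀ r, bar s i D * bar s i (φ r * (c * c)) = bar s i (φ r * (c * c)) * bar s i D := by
    intro r
    have hDc : bar s i D * bar s i c = bar s i c * bar s i D := by
      rw [hcb, Matrix.mul_add, Matrix.add_mul, Matrix.mul_one, Matrix.one_mul, Matrix.mul_smul,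
        Matrix.smul_mul]
    rw [hψb]
    calc bar s i D * (bar s i c * bar s i c * bar s i (φ r))
        = (bar s i D * bar s i c) * bar s i c * bar s i (φ r) := by simp only [Matrix.mul_assoc]
      _ = bar s i c * (bar s i D * bar s i c) * bar s i (φ r) := by
          nth_rw 1 [hDc]; simp only [Matrix.mul_assoc]
      _ = bar s i c * (bar s i c * bar s i D) * bar s i (φ r) := by rw [hDc]
      _ = bar s i c * bar s i c * (bar s i D * bar s i (φ r)) := by
          simp only [Matrix.mul_assoc]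
      _ = _ := by rw [barDΦ h hf]; simp only [Matrix.mul_assoc]
  obtain ⟨δ', hδ'⟩ : ∃ δ' : Matrix κ κ K, δ' = db d σ (bar s i D) := ⟨_, rfl⟩
  have hδψ : ∀ r, δ' * bar s i (φ r * (c * c)) = bar s i (φ r * (c * c)) * δ' := by
    intro r
    have h1 := congrArg (db d σ) (hDψ r)
    rw [db_mul, db_mul, hdb0, Matrix.mul_zero, Matrix.zero_mul, add_zero, zero_add,
      ← hδ'] at h1
    exact h1
  have hnil : NilAt (adE (bar s i D)) δ' := hom δ' fun r => by rw [← hψb]; exact hδψ r
  have hTδ : TJ g δ' = δ' := by rw [hδ', ← db_T hf hg, ← hDT]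
  -- `bar z`
  have hzb : bar s i z = (-(t • δ')) * bar s i ci := by
    have e1 : z = (-(c.map d + π * c - c * π)) * ci := by
      rw [hzd]; congr 1; abel
    have hn := bar_nabla hf hs hcP
    have hneg : Pres s i (-(c.map d + π * c - c * π)) := by
      have := hn.2
      unfold Pres at *
      rw [bar_neg, Matrix.mul_neg, Matrix.neg_mul, this]
    rw [e1, bar_mul hneg, bar_neg, hn.1, hcb, db_add, db_one, zero_add]
    congr 2
    rw [hδ']
    unfold db
    have e2 : (t • bar s i D).map d = t • (bar s i D).map d := by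
      ext a b
      simp [ht]
    rw [e2, Matrix.mul_smul, Matrix.smul_mul, ← smul_add, ← smul_sub]
  have hgau : Gau (bar s i D) (bar s i c) (bar s i ci) t := by
    refine ⟨hb1, hb2, fun x => ?_⟩
    rw [hcb, Matrix.add_mul, Matrix.mul_add, Matrix.one_mul, Matrix.mul_one, Matrix.smul_mul,
      Matrix.mul_smul, smul_sub]
    abel
  have hfin := first_mem (T := TJ g) (e := (1 : Matrix κ κ K)) (D := bar s i D)
    (Φ := fun r => bar s i (φ r)) (TJ_mul hf.gu) hgau hciT.symm
    (by rw [Matrix.mul_one, Matrix.one_mul]) hcbφ (δ := -(t • δ'))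
    (by rw [map_neg, map_smul, hTδ]) (Matrix.mul_one _) (Matrix.one_mul _)
    ((hnil.map (fun x => t • x) (smul_zero _) (fun x => by
      simp only [adE_apply, smul_sub, Matrix.mul_smul, Matrix.smul_mul])).neg)
    (fun r => by
      rw [Matrix.neg_mul, Matrix.mul_neg, Matrix.smul_mul, Matrix.mul_smul]
      have := hδψ r
      rw [hψb] at this
      rw [this])
  have hTz : TJ g (bar s i z) = bar s i ci * (-(t • δ')) := by
    rw [hzb, TJ_mul hf.gu, ← hciT, map_neg, map_smul, hTδ]
  rw [hTz]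
  exact hfin

end Crest.Agent.R172.CBr
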