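import Crest.Agent.R172.Gen2

/-!
Row 172, node GEN (helper896), part 3: the big cell parametrisation of three copies of `SO(2n)` and a
generic skew matrix `H`; every direction is realised by a derivation.
-/

set_option autoImplicit false

namespace Crest.Agent.R172.Gen

open MvPolynomial Matrix

/-- index type of the `2n`-dimensional space -/
abbrev Ix (n : ℕ) := Fin n ⊕ Fin n

/-- the form of type `D` -/
abbrev Jm (n : ℕ) (R : Type*) [CommRing R] : Matrix (Ix n) (Ix n) R :=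
  LieAlgebra.Orthogonal.JD (Fin n) R

section cell

variable {n : ℕ} {R : Type*} [CommRing R]

/-- lower unipotent block matrix -/
def lo (C : Matrix (Fin n) (Fin n) R) : Matrix (Ix n) (Ix n) R := fromBlocks 1 0 C 1

/-- upper unipotent block matrix -/
def up (B : Matrix (Fin n) (Fin n) R) : Matrix (Ix n) (Ix n) R := fromBlocks 1 B 0 1

/-- Levi block matrix; `A'` plays the role of the inverse of `A` -/
def mid (A A' : Matrix (Fin n) (Fin n) R) : Matrix (Ix n) (Ix n) R := fromBlocks A 0 0 A'ᵀ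

lemma lo_orth {C : Matrix (Fin n) (Fin n) R} (hC : Cᵀ = -C) :
    (lo C)ᵀ * Jm n R * lo C = Jm n R := by
  simp [lo, LieAlgebra.Orthogonal.JD, fromBlocks_transpose, fromBlocks_multiply, hC]

lemma up_orth {B : Matrix (Fin n) (Fin n) R} (hB : Bᵀ = -B) :
    (up B)ᵀ * Jm n R * up B = Jm n R := by
  simp [up, LieAlgebra.Orthogonal.JD, fromBlocks_transpose, fromBlocks_multiply, hB]

lemma mid_orth {A A' : Matrix (Fin n) (Fin n) R} (h : A' * A = 1) :
    (mid A A')ᵀ * Jm n R * mid A A' = Jm n R := by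
  simp [mid, LieAlgebra.Orthogonal.JD, fromBlocks_transpose, fromBlocks_multiply, h,
    ← transpose_mul]

lemma orth_mul {g h : Matrix (Ix n) (Ix n) R} (hg : gᵀ * Jm n R * g = Jm n R)
    (hh : hᵀ * Jm n R * h = Jm n R) : (g * h)ᵀ * Jm n R * (g * h) = Jm n R := by
  rw [transpose_mul]
  calc hᵀ * gᵀ * Jm n R * (g * h) = hᵀ * (gᵀ * Jm n R * g) * h := by
        simp only [Matrix.mul_assoc]
    _ = Jm n R := by rw [hg, hh]

lemma JJ : Jm n R * Jm n R = 1 := by
  simp [LieAlgebra.Orthogonal.JD, fromBlocks_multiply, fromBlocks_one]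

/-- left inverse of an orthogonal matrix -/
lemma orth_left_inv {g : Matrix (Ix n) (Ix n) R} (hg : gᵀ * Jm n R * g = Jm n R) :
    (Jm n R * gᵀ * Jm n R) * g = 1 := by
  calc (Jm n R * gᵀ * Jm n R) * g = Jm n R * (gᵀ * Jm n R * g) := by
        simp only [Matrix.mul_assoc]
    _ = 1 := by rw [hg, JJ]

lemma orth_right_inv {g : Matrix (Ix n) (Ix n) R} (hg : gᵀ * Jm n R * g = Jm n R) :
    g * (Jm n R * gᵀ * Jm n R) = 1 :=
  mul_eq_one_comm.1 (orth_left_inv hg)

lemma lo_neg_mul_lo (C : Matrix (Fin n) (Fin n) R) : lo (-C) * lo C = 1 := by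
  simp [lo, fromBlocks_multiply, fromBlocks_one]

lemma lo_mul_lo_neg (C : Matrix (Fin n) (Fin n) R) : lo C * lo (-C) = 1 := by
  simp [lo, fromBlocks_multiply, fromBlocks_one]

/-- Membership in the Lie algebra. -/
def IsSo (X : Matrix (Ix n) (Ix n) R) : Prop := Xᵀ * Jm n R + Jm n R * X = 0

lemma isSo_conj {X : Matrix (Ix n) (Ix n) R} (g : Matrix (Ix n) (Ix n) R) (hX : IsSo X) :
    IsSo ((Jm n R * gᵀ * Jm n R) * X * g) := by
  unfold IsSo at hX ⊢
  have hJt : (Jm n R)ᵀ = Jm n R := by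
    simp [LieAlgebra.Orthogonal.JD, fromBlocks_transpose]
  have h1 : ((Jm n R * gᵀ * Jm n R) * X * g)ᵀ = gᵀ * Xᵀ * (Jm n R * g * Jm n R) := by
    simp only [transpose_mul, transpose_transpose, hJt, Matrix.mul_assoc]
  rw [h1]
  have h2 : gᵀ * Xᵀ * (Jm n R * g * Jm n R) * Jm n R = gᵀ * (Xᵀ * Jm n R) * g := by
    calc gᵀ * Xᵀ * (Jm n R * g * Jm n R) * Jm n R
        = gᵀ * (Xᵀ * Jm n R) * g * (Jm n R * Jm n R) := by simp only [Matrix.mul_assoc]
      _ = _ := by rw [JJ, Matrix.mul_one]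
  have h3 : Jm n R * ((Jm n R * gᵀ * Jm n R) * X * g) = gᵀ * (Jm n R * X) * g := by
    calc Jm n R * ((Jm n R * gᵀ * Jm n R) * X * g)
        = (Jm n R * Jm n R) * gᵀ * (Jm n R * X) * g := by simp only [Matrix.mul_assoc]
      _ = _ := by rw [JJ, Matrix.one_mul]
  rw [h2, h3, ← Matrix.add_mul, ← Matrix.mul_add, hX]
  simp

/-- Block form of an element of the Lie algebra. -/
lemma IsSo.blocks {X : Matrix (Ix n) (Ix n) R} (hX : IsSo X) :
    X = fromBlocks X.toBlocks₁₁ X.toBlocks₁₂ X.toBlocks₂₁ (-X.toBlocks₁₁ᵀ) ∧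
      X.toBlocks₁₂ᵀ = -X.toBlocks₁₂ ∧ X.toBlocks₂₁ᵀ = -X.toBlocks₂₁ := by
  unfold IsSo at hX
  rw [← fromBlocks_toBlocks X] at hX
  simp only [LieAlgebra.Orthogonal.JD, fromBlocks_transpose, fromBlocks_multiply, Matrix.mul_zero,
    Matrix.zero_mul, Matrix.mul_one, Matrix.one_mul, zero_add, add_zero, fromBlocks_add] at hX
  rw [← fromBlocks_zero, fromBlocks_inj] at hX
  obtain ⟨h1, h2, h3, h4⟩ := hX
  refine ⟨?_, ?_, ?_⟩
  · conv_lhs => rw [← fromBlocks_toBlocks X]
    rw [fromBlocks_inj]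
    refine ⟨rfl, rfl, rfl, ?_⟩
    rw [eq_neg_iff_add_eq_zero, add_comm]; exact h2
  · rw [eq_neg_iff_add_eq_zero]; exact h4
  · rw [eq_neg_iff_add_eq_zero]; exact h1

end cell

section params

/-- Parameters: for each of three arms three `n × n` blocks (lower, Levi, upper), and one `M × M`
block. -/
abbrev Par (n : ℕ) (M : Type) : Type := (Fin 3 × Fin 3 × Fin n × Fin n) ⊕ (M × M)

variable {n : ℕ} {M : Type} {R : Type*} [CommRing R]

/-- the block number `b` of arm `s` -/
def blk (z : Par n M → R) (s b : Fin 3) : Matrix (Fin n) (Fin n) R :=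
  Matrix.of fun i j => z (Sum.inl (s, b, i, j))

/-- the generic skew matrix `H` -/
def Hz (z : Par n M → R) : Matrix M M R :=
  Matrix.of fun x y => z (Sum.inr (x, y)) - z (Sum.inr (y, x))

/-- lower skew block -/
def Cz (z : Par n M → R) (s : Fin 3) : Matrix (Fin n) (Fin n) R := blk z s 0 - (blk z s 0)ᵀ
/-- Levi block -/
def Az (z : Par n M → R) (s : Fin 3) : Matrix (Fin n) (Fin n) R := blk z s 1
/-- upper skew block -/
def Bz (z : Par n M → R) (s : Fin 3) : Matrix (Fin n) (Fin n) R := blk z s 2 - (blk z s 2)ᵀ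

lemma Cz_skew (z : Par n M → R) (s : Fin 3) : (Cz z s)ᵀ = - Cz z s := by
  simp [Cz, transpose_sub]

lemma Bz_skew (z : Par n M → R) (s : Fin 3) : (Bz z s)ᵀ = - Bz z s := by
  simp [Bz, transpose_sub]

lemma Hz_skew (z : Par n M → R) : (Hz z)ᵀ = - Hz z := by
  ext i j; simp [Hz]

lemma Hz_diag (z : Par n M → R) (x : M) : Hz z x x = 0 := by simp [Hz]

/-- product of all the determinants of the Levi blocks -/
noncomputable def dz (z : Par n M → R) : R := ∏ s, (Az z s).det

/-- the polynomial multiple `det A • g` of the group element. -/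
noncomputable def gt (g0 : Fin 3 → Matrix (Ix n) (Ix n) R) (z : Par n M → R) (s : Fin 3) :
    Matrix (Ix n) (Ix n) R :=
  g0 s * (lo (Cz z s) * fromBlocks ((Az z s).det • Az z s) 0 0 ((Az z s).adjugate)ᵀ * up (Bz z s))

end params

section field

variable {n : ℕ} {M : Type} {L : Type*} [Field L]

/-- the group element with parameters `z` (over a field) -/
noncomputable def gz (g0 : Fin 3 → Matrix (Ix n) (Ix n) L) (z : Par n M → L) (s : Fin 3) :
    Matrix (Ix n) (Ix n) L :=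
  g0 s * (lo (Cz z s) * mid (Az z s) (Az z s)⁻¹ * up (Bz z s))

lemma det_smul_gz (g0 : Fin 3 → Matrix (Ix n) (Ix n) L) (z : Par n M → L) (s : Fin 3)
    (hd : (Az z s).det ≠ 0) : (Az z s).det • gz g0 z s = gt g0 z s := by
  have h1 : (Az z s).det • mid (Az z s) (Az z s)⁻¹ =
      fromBlocks ((Az z s).det • Az z s) 0 0 ((Az z s).adjugate)ᵀ := by
    rw [mid, fromBlocks_smul, smul_zero, ← transpose_smul, Matrix.inv_def, smul_smul,
      Ring.inverse_eq_inv', mul_inv_cancel₀ hd, one_smul]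
  rw [gt, ← h1, gz]
  simp only [Matrix.mul_smul, Matrix.smul_mul]

lemma gz_orth {g0 : Fin 3 → Matrix (Ix n) (Ix n) L} (z : Par n M → L) (s : Fin 3)
    (h0 : (g0 s)ᵀ * Jm n L * g0 s = Jm n L) (hd : (Az z s).det ≠ 0) :
    (gz g0 z s)ᵀ * Jm n L * gz g0 z s = Jm n L := by
  refine orth_mul h0 (orth_mul (orth_mul (lo_orth (Cz_skew z s)) (mid_orth ?_))
    (up_orth (Bz_skew z s)))
  exact Matrix.nonsing_inv_mul _ (isUnit_iff_ne_zero.2 hd)

end field

section deriv

variable {n : ℕ} {M : Type}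

/-- entrywise derivation of a matrix, product rule (self-map version) -/
lemma dmul {k L : Type*} [Field k] [Field L] [Algebra k L] {m n p : Type*} [Fintype n]
    (D : Derivation k L L) (A : Matrix m n L) (B : Matrix n p L) :
    (A * B).map D = A.map D * B + A * B.map D := by
  ext i j
  simp only [Matrix.mul_apply, Matrix.add_apply, map_sum, Derivation.leibniz,
    Matrix.map_apply, Finset.sum_add_distrib, smul_eq_mul]
  rw [add_comm]
  congr 1
  exact Finset.sum_congr rfl fun x _ => mul_comm _ _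

lemma dinv {k L : Type*} [Field k] [Field L] [Algebra k L] {m : Type*} [Fintype m] [DecidableEq m]
    (D : Derivation k L L) (A : Matrix m m L) (hA : A.det ≠ 0) :
    (A⁻¹).map D = - (A⁻¹ * A.map D * A⁻¹) := by
  have hu : IsUnit A.det := isUnit_iff_ne_zero.2 hA
  have h1 : (A⁻¹ * A).map D = 0 := by
    rw [Matrix.nonsing_inv_mul A hu]
    ext i j
    by_cases h : i = j
    · subst h; simp
    · simp [Matrix.one_apply_ne h]
  rw [dmul] at h1
  have h2 : (A⁻¹).map D * A = - (A⁻¹ * A.map D) := by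
    rw [eq_neg_iff_add_eq_zero]; exact h1
  calc (A⁻¹).map D = (A⁻¹).map D * (A * A⁻¹) := by
        rw [Matrix.mul_nonsing_inv A hu, Matrix.mul_one]
    _ = ((A⁻¹).map D * A) * A⁻¹ := by rw [Matrix.mul_assoc]
    _ = _ := by rw [h2, Matrix.neg_mul]

/-- The directional parameters: for `Y` in the Lie algebra (conjugated), how the blocks must move. -/
lemma cell_deriv {k L : Type*} [Field k] [Field L] [Algebra k L]
    (D : Derivation k L L) (C A B : Matrix (Fin n) (Fin n) L) (hA : A.det ≠ 0)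
    (Y : Matrix (Ix n) (Ix n) L) (hY : IsSo Y)
    (hC : C.map D = Y.toBlocks₂₁) (hAD : A.map D = Y.toBlocks₁₁ * A)
    (hB : B.map D = A⁻¹ * Y.toBlocks₁₂ * (A⁻¹)ᵀ) :
    (lo C * mid A A⁻¹ * up B).map D = lo C * Y * (lo (-C)) * (lo C * mid A A⁻¹ * up B) := by
  have hu : IsUnit A.det := isUnit_iff_ne_zero.2 hA
  obtain ⟨hY1, hY2, hY3⟩ := hY.blocks
  have e1 : (lo C).map D = fromBlocks 0 0 (C.map D) 0 := by
    rw [lo, fromBlocks_map]
    congr 1 <;> ext i j <;> by_cases h : i = j <;> simp [Matrix.one_apply, h]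
  have e2 : (up B).map D = fromBlocks 0 (B.map D) 0 0 := by
    rw [up, fromBlocks_map]
    congr 1 <;> ext i j <;> by_cases h : i = j <;> simp [Matrix.one_apply, h]
  have e3 : (mid A A⁻¹).map D = fromBlocks (A.map D) 0 0 ((A⁻¹).map D)ᵀ := by
    rw [mid, fromBlocks_map]
    congr 1 <;> ext i j <;> simp
  have e4 : (A⁻¹).map D = - (A⁻¹ * Y.toBlocks₁₁) := by
    rw [dinv D A hA, hAD]
    congr 1
    rw [Matrix.mul_assoc, Matrix.mul_assoc, Matrix.mul_nonsing_inv A hu, Matrix.mul_one]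
  have hAA : A * A⁻¹ = 1 := Matrix.mul_nonsing_inv A hu
  have p1 : (fromBlocks 0 0 Y.toBlocks₂₁ 0 : Matrix (Ix n) (Ix n) L) =
      lo C * fromBlocks 0 0 Y.toBlocks₂₁ 0 := by
    simp [lo, fromBlocks_multiply]
  have p2 : mid A A⁻¹ * fromBlocks 0 (A⁻¹ * Y.toBlocks₁₂ * (A⁻¹)ᵀ) 0 0 =
      fromBlocks 0 Y.toBlocks₁₂ 0 0 * mid A A⁻¹ * up B := by
    simp only [mid, up, fromBlocks_multiply, Matrix.mul_zero, Matrix.zero_mul, Matrix.mul_one,
      Matrix.one_mul, zero_add, add_zero]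
    rw [← Matrix.mul_assoc, ← Matrix.mul_assoc, hAA, Matrix.one_mul]
  have p3 : fromBlocks (Y.toBlocks₁₁ * A) 0 0 (-(A⁻¹ * Y.toBlocks₁₁))ᵀ =
      fromBlocks Y.toBlocks₁₁ 0 0 (-Y.toBlocks₁₁ᵀ) * mid A A⁻¹ := by
    simp [mid, fromBlocks_multiply, transpose_mul]
  have p4 : (fromBlocks 0 0 Y.toBlocks₂₁ 0 + fromBlocks Y.toBlocks₁₁ 0 0 (-Y.toBlocks₁₁ᵀ) +
      fromBlocks 0 Y.toBlocks₁₂ 0 0 : Matrix (Ix n) (Ix n) L) = Y := by
    conv_rhs => rw [hY1]
    simp [fromBlocks_add]
  rw [dmul, dmul, e1, e2, e3, e4, hC, hAD, hB, p1, p3, Matrix.mul_assoc (lo C) (mid A A⁻¹), p2]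
  calc (lo C * fromBlocks 0 0 Y.toBlocks₂₁ 0 * mid A A⁻¹ +
        lo C * (fromBlocks Y.toBlocks₁₁ 0 0 (-Y.toBlocks₁₁ᵀ) * mid A A⁻¹)) * up B +
        lo C * (fromBlocks 0 Y.toBlocks₁₂ 0 0 * mid A A⁻¹ * up B)
      = lo C * (fromBlocks 0 0 Y.toBlocks₂₁ 0 + fromBlocks Y.toBlocks₁₁ 0 0 (-Y.toBlocks₁₁ᵀ) +
        fromBlocks 0 Y.toBlocks₁₂ 0 0) * (mid A A⁻¹ * up B) := by
        simp only [Matrix.mul_add, Matrix.add_mul, Matrix.mul_assoc]
    _ = lo C * Y * (mid A A⁻¹ * up B) := by rw [p4]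
    _ = lo C * Y * (lo (-C) * lo C) * (mid A A⁻¹ * up B) := by
        rw [lo_neg_mul_lo, Matrix.mul_one]
    _ = _ := by simp only [Matrix.mul_assoc]

/-- Every direction on `SO(2n)³ × Λ²` is realised by a derivation: `D g_s = X_s g_s`, `D H = G`. -/
theorem exists_direction {k K L : Type*} [Field k] [CharZero k] [Field K] [Field L] [Algebra k K]
    [Algebra K L] [Algebra k L] [IsScalarTower k K L]
    (g0 : Fin 3 → Matrix (Ix n) (Ix n) k) (h0 : ∀ s, (g0 s)ᵀ * Jm n k * g0 s = Jm n k)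
    {t : Par n M → K} (ht : AlgebraicIndependent k t)
    (hd : ∀ s, (Az t s).det ≠ 0)
    (X : Fin 3 → Matrix (Ix n) (Ix n) L) (hX : ∀ s, IsSo (X s))
    (G : Matrix M M L) (hG : Gᵀ = -G) :
    ∃ D : Derivation k L L,
      (∀ s, (emb K L (gz (fun s => emb k K (g0 s)) t s)).map D =
        X s * emb K L (gz (fun s => emb k K (g0 s)) t s)) ∧
      (emb K L (Hz t)).map D = G := by
  classical
  have : CharZero L := charZero_of_injective_algebraMap (algebraMap k L).injective
  have h2 : (2 : L) ≠ 0 := two_ne_zero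
  set tL : Par n M → L := fun i => algebraMap K L (t i) with htL
  have htL' : AlgebraicIndependent k tL :=
    ht.map' (f := IsScalarTower.toAlgHom k K L) (algebraMap K L).injective
  -- embedded objects
  have eC : ∀ s, Cz tL s = emb K L (Cz t s) := by
    intro s; ext i j; simp [Cz, blk, htL]
  have eB : ∀ s, Bz tL s = emb K L (Bz t s) := by
    intro s; ext i j; simp [Bz, blk, htL]
  have eA : ∀ s, Az tL s = emb K L (Az t s) := by
    intro s; ext i j; simp [Az, blk, htL]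
  have eH : Hz tL = emb K L (Hz t) := by
    ext i j; simp [Hz, htL]
  have hdL : ∀ s, (Az tL s).det ≠ 0 := by
    intro s
    rw [eA]
    have : (emb K L (Az t s)).det = algebraMap K L (Az t s).det := by
      rw [RingHom.map_det]; rfl
    rw [this]
    exact fun h => hd s ((algebraMap K L).injective (by rw [h, map_zero]))
  set g0L : Fin 3 → Matrix (Ix n) (Ix n) L := fun s => emb k L (g0 s) with hg0L
  have h0L : ∀ s, (g0L s)ᵀ * Jm n L * g0L s = Jm n L := by
    intro s
    have h := congrArg (fun A : Matrix (Ix n) (Ix n) k => A.map (algebraMap k L)) (h0 s)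
    simp only [Matrix.map_mul, transpose_map] at h
    have hJ : (Jm n k).map (algebraMap k L) = Jm n L := by
      simp only [LieAlgebra.Orthogonal.JD, fromBlocks_map]
      congr 1 <;> ext i j <;> by_cases h : i = j <;> simp [Matrix.one_apply, h]
    rw [hJ] at h
    exact h
  have eg : ∀ s, emb K L (gz (fun s => emb k K (g0 s)) t s) = gz g0L tL s := by
    intro s
    simp only [gz, Matrix.map_mul, hg0L]
    have e1 : (emb k K (g0 s)).map (algebraMap K L) = emb k L (g0 s) := by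
      ext i j; simp [← IsScalarTower.algebraMap_apply k K L]
    have e2 : (lo (Cz t s)).map (algebraMap K L) = lo (Cz tL s) := by
      rw [eC, lo, lo, fromBlocks_map]
      congr 1 <;> ext i j <;> by_cases h : i = j <;> simp [Matrix.one_apply, h]
    have e3 : (up (Bz t s)).map (algebraMap K L) = up (Bz tL s) := by
      rw [eB, up, up, fromBlocks_map]
      congr 1 <;> ext i j <;> by_cases h : i = j <;> simp [Matrix.one_apply, h]
    have e4 : (mid (Az t s) (Az t s)⁻¹).map (algebraMap K L) = mid (Az tL s) (Az tL s)⁻¹ := by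
      have : ((Az t s)⁻¹).map (algebraMap K L) = (Az tL s)⁻¹ := by
        rw [eA]
        symm
        apply Matrix.inv_eq_right_inv
        rw [← Matrix.map_mul, Matrix.mul_nonsing_inv _ (isUnit_iff_ne_zero.2 (hd s))]
        ext i j; by_cases h : i = j <;> simp [Matrix.one_apply, h]
      rw [mid, mid, fromBlocks_map, transpose_map, this, eA]
      congr 1 <;> ext i j <;> simp
    rw [e1, e2, e3, e4]
  -- the required movement of the blocks
  let Y : Fin 3 → Matrix (Ix n) (Ix n) L := fun s =>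
    lo (-(Cz tL s)) * ((Jm n L * (g0L s)ᵀ * Jm n L) * X s * g0L s) * lo (Cz tL s)
  have hY : ∀ s, IsSo (Y s) := by
    intro s
    have h1 := isSo_conj (g0L s) (hX s)
    have h2 := isSo_conj (lo (Cz tL s)) h1
    have h3 : Jm n L * (lo (Cz tL s))ᵀ * Jm n L = lo (-(Cz tL s)) := by
      simp [lo, LieAlgebra.Orthogonal.JD, fromBlocks_transpose, fromBlocks_multiply,
        Cz_skew tL s]
    rw [h3] at h2
    exact h2
  let v : Par n M → L := fun p => match p with
    | Sum.inl (s, b, i, j) =>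
        if b = 0 then (Y s).toBlocks₂₁ i j / 2
        else if b = 1 then ((Y s).toBlocks₁₁ * Az tL s) i j
        else ((Az tL s)⁻¹ * (Y s).toBlocks₁₂ * ((Az tL s)⁻¹)ᵀ) i j / 2
    | Sum.inr (x, y) => G x y / 2
  obtain ⟨D, -, hD⟩ := exists_derivation (k := k) htL' (0 : Derivation k k L) v
  have dC : ∀ s, (Cz tL s).map D = (Y s).toBlocks₂₁ := by
    intro s
    have hsk := (hY s).blocks.2.2
    ext i j
    have h3 : (Y s).toBlocks₂₁ j i = - (Y s).toBlocks₂₁ i j := by
      have := congrFun (congrFun hsk i) j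
      simpa using this
    simp only [Cz, blk, Matrix.map_apply, Matrix.sub_apply, Matrix.of_apply, transpose_apply,
      map_sub, hD, v, if_true]
    rw [h3]; field_simp; ring
  have dA : ∀ s, (Az tL s).map D = (Y s).toBlocks₁₁ * Az tL s := by
    intro s
    ext i j
    simp only [Az, blk, Matrix.map_apply, Matrix.of_apply, hD, v]
    rfl
  have dB : ∀ s, (Bz tL s).map D = (Az tL s)⁻¹ * (Y s).toBlocks₁₂ * ((Az tL s)⁻¹)ᵀ := by
    intro s
    have hsk := (hY s).blocks.2.1
    have hsk2 : ((Az tL s)⁻¹ * (Y s).toBlocks₁₂ * ((Az tL s)⁻¹)ᵀ)ᵀ =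
        - ((Az tL s)⁻¹ * (Y s).toBlocks₁₂ * ((Az tL s)⁻¹)ᵀ) := by
      rw [transpose_mul, transpose_mul, transpose_transpose, hsk]
      simp [Matrix.mul_assoc]
    ext i j
    have h3 : ((Az tL s)⁻¹ * (Y s).toBlocks₁₂ * ((Az tL s)⁻¹)ᵀ) j i =
        - ((Az tL s)⁻¹ * (Y s).toBlocks₁₂ * ((Az tL s)⁻¹)ᵀ) i j := by
      have := congrFun (congrFun hsk2 i) j
      simpa using this
    have e20 : (2 : Fin 3) ≠ 0 := by decide
    have e21 : (2 : Fin 3) ≠ 1 := by decide
    simp only [Bz, blk, Matrix.map_apply, Matrix.sub_apply, Matrix.of_apply, transpose_apply,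
      map_sub, hD, v, if_neg e20, if_neg e21]
    rw [h3]; field_simp; ring
  refine ⟨D, fun s => ?_, ?_⟩
  · rw [eg s]
    have hc := cell_deriv D (Cz tL s) (Az tL s) (Bz tL s) (hdL s) (Y s) (hY s) (dC s) (dA s) (dB s)
    have hg0 : (g0L s).map D = 0 := by
      ext i j; simp [hg0L]
    simp only [gz]
    rw [dmul, hg0, Matrix.zero_mul, zero_add, hc]
    have hYX : lo (Cz tL s) * Y s * lo (-(Cz tL s)) =
        (Jm n L * (g0L s)ᵀ * Jm n L) * X s * g0L s := by
      show lo (Cz tL s) * (lo (-(Cz tL s)) * ((Jm n L * (g0L s)ᵀ * Jm n L) * X s * g0L s) *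
        lo (Cz tL s)) * lo (-(Cz tL s)) = _
      calc _ = (lo (Cz tL s) * lo (-(Cz tL s))) * ((Jm n L * (g0L s)ᵀ * Jm n L) * X s * g0L s) *
            (lo (Cz tL s) * lo (-(Cz tL s))) := by simp only [Matrix.mul_assoc]
        _ = _ := by rw [lo_mul_lo_neg, Matrix.one_mul, Matrix.mul_one]
    rw [hYX]
    calc g0L s * ((Jm n L * (g0L s)ᵀ * Jm n L) * X s * g0L s *
          (lo (Cz tL s) * mid (Az tL s) (Az tL s)⁻¹ * up (Bz tL s)))
        = (g0L s * (Jm n L * (g0L s)ᵀ * Jm n L)) * (X s * (g0L s *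
          (lo (Cz tL s) * mid (Az tL s) (Az tL s)⁻¹ * up (Bz tL s)))) := by
          simp only [Matrix.mul_assoc]
      _ = _ := by rw [orth_right_inv (h0L s), Matrix.one_mul]
  · rw [← eH]
    ext x y
    have h3 : G y x = - G x y := by
      have := congrFun (congrFun hG x) y
      simpa using this
    simp only [Hz, Matrix.map_apply, Matrix.of_apply, map_sub, hD, v]
    rw [h3]; field_simp; ring

end deriv

end Crest.Agent.R172.Gen
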