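import Crest.Agent.R172.SpMod

/-!
R172, spinor translation, part 5: arms, the Lagrangian subspaces `n_a`, highest weight vectors.
-/

set_option autoImplicit false
set_option linter.unusedSectionVars false

namespace Crest.Agent.R172.Sp

open Matrix Crest.AlgebraR.SpinSaturation Crest.Agent.R172.SoGrade Crest.Agent.R172.Star
open Crest.Agent.R172.Fwd
open scoped TensorProduct ComplexConjugate

variable {n : ℕ} {D : Type}

/-- combinatorial data of a pure spinor of doubled weight `a` in `S(V ⊗ ℂ^D)`: the coordinate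
subspaces `A_i ⊆ U`. -/
structure Arm (n : ℕ) {D : Type} [Fintype D] (s : Inv D) (a : Fin n → ℤ) where
  A : Fin n → D → Prop
  [dec : ∀ i, DecidablePred (A i)]
  mono : ∀ i j, i < j → ∀ d, A j d → A i d
  perp : ∀ i j, i ≠ j → ∀ d, ¬ A j (s.σ d) → A i d
  count : ∀ i, a i = 2 * ((Finset.univ.filter (A i)).card : ℤ) - (Fintype.card D : ℤ)

attribute [instance] Arm.dec

variable [Fintype D] {s : Inv D} {a : Fin n → ℤ}

/-- `n_a = ⊕ (e_i ⊗ A_i ⊕ e_i^* ⊗ A_i^⊥)` -/
def Arm.lag (R : Arm n s a) : Submodule ℂ (Matrix (VI n) D ℂ) where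
  carrier := {F | ∀ i d, (¬ R.A i d → F (Sum.inl i) d = 0) ∧ (R.A i (s.σ d) → F (Sum.inr i) d = 0)}
  add_mem' := by
    intro F G hF hG i d
    refine ⟨fun h => ?_, fun h => ?_⟩
    · rw [Matrix.add_apply, (hF i d).1 h, (hG i d).1 h, add_zero]
    · rw [Matrix.add_apply, (hF i d).2 h, (hG i d).2 h, add_zero]
  zero_mem' := fun i d => ⟨fun _ => rfl, fun _ => rfl⟩
  smul_mem' := by
    intro t F hF i d
    refine ⟨fun h => ?_, fun h => ?_⟩
    · rw [Matrix.smul_apply, (hF i d).1 h, smul_zero]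
    · rw [Matrix.smul_apply, (hF i d).2 h, smul_zero]

theorem Arm.mem_lag (R : Arm n s a) {F : Matrix (VI n) D ℂ} : F ∈ R.lag ↔
    ∀ i d, (¬ R.A i d → F (Sum.inl i) d = 0) ∧ (R.A i (s.σ d) → F (Sum.inr i) d = 0) := Iff.rfl

theorem Arm.isot (R : Arm n s a) : Isot s R.lag := by
  intro F hF G hG
  rw [bil]
  refine Finset.sum_eq_zero fun p _ => Finset.sum_eq_zero fun d _ => ?_
  rcases p with i | i
  · rw [sw_inl]
    by_cases h : R.A i d
    · rw [(hG i (s.σ d)).2 (by rw [s.inv]; exact h), mul_zero]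
    · rw [(hF i d).1 h, zero_mul]
  · rw [sw_inr]
    by_cases h : R.A i (s.σ d)
    · rw [(hF i d).2 h, zero_mul]
    · rw [(hG i (s.σ d)).1 h, mul_zero]

variable [DecidableEq D] (C : CAR (Fin n × D))

theorem Arm.kill_inl (R : Arm n s a) {φ : C.ι → ℂ} (hφ : Killed C s R.lag φ) {i : Fin n} {d : D}
    (h : R.A i d) : gam C s (Sum.inl i) d *ᵥ φ = 0 := by
  rw [← Gam_single]
  apply hφ
  intro j e
  refine ⟨fun h' => ?_, fun _ => ?_⟩
  · apply Matrix.single_apply_of_ne
    rintro ⟨h1, h2⟩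
    apply h'
    rw [← Sum.inl.inj h1, ← h2]
    exact h
  · apply Matrix.single_apply_of_ne
    rintro ⟨h1, _⟩
    cases h1

theorem Arm.kill_inr (R : Arm n s a) {φ : C.ι → ℂ} (hφ : Killed C s R.lag φ) {i : Fin n} {d : D}
    (h : ¬ R.A i (s.σ d)) : gam C s (Sum.inr i) d *ᵥ φ = 0 := by
  rw [← Gam_single]
  apply hφ
  intro j e
  refine ⟨fun _ => ?_, fun h' => ?_⟩
  · apply Matrix.single_apply_of_ne
    rintro ⟨h1, _⟩
    cases h1
  · apply Matrix.single_apply_of_ne
    rintro ⟨h1, h2⟩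
    apply h
    rw [Sum.inr.inj h1, h2]
    exact h'

theorem swap_kill (p q : VI n) (d e : D) (hne : ¬ (q = sw p ∧ e = s.σ d)) {φ : C.ι → ℂ}
    (h : gam C s p d *ᵥ φ = 0) : (gam C s p d * gam C s q e) *ᵥ φ = 0 := by
  have h1 := gam_rel C s p q d e
  rw [if_neg hne] at h1
  rw [eq_neg_of_add_eq_zero_left h1, Matrix.neg_mulVec, ← Matrix.mulVec_mulVec, h,
    Matrix.mulVec_zero, neg_zero]

theorem swap_one (p q : VI n) (d e : D) (he : q = sw p ∧ e = s.σ d) {φ : C.ι → ℂ}
    (h : gam C s p d *ᵥ φ = 0) : (gam C s p d * gam C s q e) *ᵥ φ = φ := by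
  have h1 := gam_rel C s p q d e
  rw [if_pos he] at h1
  rw [eq_sub_of_add_eq h1, Matrix.sub_mulVec, Matrix.one_mulVec, ← Matrix.mulVec_mulVec, h,
    Matrix.mulVec_zero, sub_zero]

theorem rho_mulVec (X : Matrix (VI n) (VI n) ℂ) (φ : C.ι → ℂ) :
    rho C s X *ᵥ φ = (1 / 2 : ℂ) • ∑ d, ∑ p, ∑ q,
      X q p • ((gam C s q d * gam C s (sw p) (s.σ d)) *ᵥ φ) := by
  rw [rho, Matrix.smul_mulVec]
  congr 1
  have h : ∀ {κ : Type} (S : Finset κ) (f : κ → Matrix C.ι C.ι ℂ),
      (∑ k ∈ S, f k) *ᵥ φ = ∑ k ∈ S, f k *ᵥ φ := by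
    intro κ S f
    classical
    induction S using Finset.induction_on with
    | empty => simp
    | insert a S ha ih => rw [Finset.sum_insert ha, Finset.sum_insert ha, Matrix.add_mulVec, ih]
  rw [h]
  refine Finset.sum_congr rfl fun d _ => ?_
  rw [h]
  refine Finset.sum_congr rfl fun p _ => ?_
  rw [h]
  refine Finset.sum_congr rfl fun q _ => ?_
  rw [Matrix.smul_mulVec]

theorem Arm.hw_cartan (R : Arm n s a) {φ : C.ι → ℂ} (hφ : Killed C s R.lag φ) (h : Fin n → ℂ) :
    rho C s (Matrix.fromBlocks (Matrix.diagonal h) 0 0 (-Matrix.diagonal h)) *ᵥ φ =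
      (∑ i, (a i : ℂ) / 2 * h i) • φ := by
  rw [rho_mulVec]
  set X := Matrix.fromBlocks (Matrix.diagonal h) 0 0 (-Matrix.diagonal h) with hX
  have h1 : ∀ (d : D) (p : VI n), ∑ q, X q p • ((gam C s q d * gam C s (sw p) (s.σ d)) *ᵥ φ) =
      X p p • ((gam C s p d * gam C s (sw p) (s.σ d)) *ᵥ φ) := by
    intro d p
    rw [Finset.sum_eq_single p]
    · intro q _ hq
      have : X q p = 0 := by
        rcases p with i | i <;> rcases q with j | j <;> simp [hX]
        · rw [Matrix.diagonal_apply_ne]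
          intro h'; exact hq (by rw [h'])
        · rw [Matrix.diagonal_apply_ne]
          intro h'; exact hq (by rw [h'])
      rw [this, zero_smul]
    · simp
  simp only [h1]
  have h2 : ∀ (d : D), ∑ p, X p p • ((gam C s p d * gam C s (sw p) (s.σ d)) *ᵥ φ) =
      (∑ i, (h i * (if R.A i d then 1 else 0) - h i * (if R.A i (s.σ d) then 0 else 1))) • φ := by
    intro d
    rw [Fintype.sum_sum_type, Finset.sum_sub_distrib, sub_smul, sub_eq_add_neg]
    congr 1
    · rw [Finset.sum_smul]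
      refine Finset.sum_congr rfl fun i _ => ?_
      have e : X (Sum.inl i) (Sum.inl i) = h i := by simp [hX]
      rw [e, sw_inl]
      by_cases hA : R.A i d
      · rw [if_pos hA, mul_one]
        congr 1
        have hk := R.kill_inl C hφ hA
        exact swap_one C (Sum.inl i) (Sum.inr i) d (s.σ d) ⟨rfl, rfl⟩ hk
      · rw [if_neg hA, mul_zero, zero_smul]
        have hk : gam C s (Sum.inr i) (s.σ d) *ᵥ φ = 0 :=
          R.kill_inr C hφ (by rw [s.inv]; exact hA)
        rw [← Matrix.mulVec_mulVec, hk, Matrix.mulVec_zero, smul_zero]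
    · rw [← neg_smul, ← Finset.sum_neg_distrib, Finset.sum_smul]
      refine Finset.sum_congr rfl fun i _ => ?_
      have e : X (Sum.inr i) (Sum.inr i) = - h i := by simp [hX]
      rw [e, sw_inr]
      by_cases hA : R.A i (s.σ d)
      · rw [if_pos hA, mul_zero, neg_zero, zero_smul]
        have hk := R.kill_inl C hφ hA
        rw [← Matrix.mulVec_mulVec, hk, Matrix.mulVec_zero, smul_zero]
      · rw [if_neg hA, mul_one]
        congr 1
        have hk := R.kill_inr C hφ hA
        exact swap_one C (Sum.inr i) (Sum.inl i) d (s.σ d) ⟨rfl, rfl⟩ hk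
  simp only [h2]
  rw [← Finset.sum_smul, smul_smul]
  congr 1
  rw [Finset.sum_comm, Finset.mul_sum]
  refine Finset.sum_congr rfl fun i _ => ?_
  rw [Finset.sum_sub_distrib, ← Finset.mul_sum, ← Finset.mul_sum,
    sum_σ s (fun d => (if R.A i d then (0 : ℂ) else 1))]
  have e1 : ∑ d, (if R.A i d then (1 : ℂ) else 0) = ((Finset.univ.filter (R.A i)).card : ℂ) := by
    rw [Finset.sum_boole]
  have e2 : ∑ d, (if R.A i d then (0 : ℂ) else 1) =
      (Fintype.card D : ℂ) - ((Finset.univ.filter (R.A i)).card : ℂ) := by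
    have : ∀ d, (if R.A i d then (0 : ℂ) else 1) = 1 - (if R.A i d then (1 : ℂ) else 0) := by
      intro d; split_ifs <;> simp
    simp only [this, Finset.sum_sub_distrib, e1]
    simp
  rw [e1, e2]
  have e3 : (a i : ℂ) = 2 * ((Finset.univ.filter (R.A i)).card : ℂ) - (Fintype.card D : ℂ) := by
    rw [R.count i]; push_cast; ring
  rw [e3]
  ring

theorem Arm.hw_pos (R : Arm n s a) {φ : C.ι → ℂ} (hφ : Killed C s R.lag φ)
    (X : Matrix (VI n) (VI n) ℂ) (hX : X ∈ LieAlgebra.Orthogonal.typeD (Fin n) ℂ)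
    (h1 : ∀ i j : Fin n, X (Sum.inr i) (Sum.inl j) = 0)
    (h2 : ∀ i j : Fin n, j ≤ i → X (Sum.inl i) (Sum.inl j) = 0) :
    rho C s X *ᵥ φ = 0 := by
  have hX' := mem_soD.1 hX
  rw [rho_mulVec]
  apply smul_eq_zero_of_right
  refine Finset.sum_eq_zero fun d _ => Finset.sum_eq_zero fun p _ =>
    Finset.sum_eq_zero fun q _ => ?_
  rcases p with j | j <;> rcases q with i | i
  · by_cases hij : j ≤ i
    · rw [h2 i j hij, zero_smul]
    · apply smul_eq_zero_of_right
      push Not at hij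
      rw [sw_inl]
      by_cases hA : R.A j d
      · refine swap_kill C _ _ _ _ ?_ (R.kill_inl C hφ (R.mono i j hij d hA))
        rintro ⟨h, _⟩
        rw [sw_inl] at h
        exact (ne_of_lt hij) (Sum.inr.inj h).symm
      · rw [← Matrix.mulVec_mulVec, R.kill_inr C hφ (by rw [s.inv]; exact hA), Matrix.mulVec_zero]
  · rw [h1 i j, zero_smul]
  · by_cases hij : i = j
    · have h3 : X (Sum.inl i) (Sum.inr j) = 0 := by
        have h4 := hX' (Sum.inl i) (Sum.inr i)
        rw [sw_inl, sw_inr] at h4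
        rw [← hij]
        exact self_eq_neg.1 h4
      rw [h3, zero_smul]
    · apply smul_eq_zero_of_right
      rw [sw_inr]
      by_cases hA : R.A j (s.σ d)
      · rw [← Matrix.mulVec_mulVec, R.kill_inl C hφ hA, Matrix.mulVec_zero]
      · refine swap_kill C _ _ _ _ ?_ (R.kill_inl C hφ (R.perp i j hij d hA))
        rintro ⟨h, _⟩
        cases h
  · by_cases hij : i ≤ j
    · have h3 : X (Sum.inr i) (Sum.inr j) = 0 := by
        rw [hX' (Sum.inr i) (Sum.inr j), sw_inr, sw_inr, h2 j i hij, neg_zero]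
      rw [h3, zero_smul]
    · apply smul_eq_zero_of_right
      push Not at hij
      rw [sw_inr]
      by_cases hA : R.A j (s.σ d)
      · rw [← Matrix.mulVec_mulVec, R.kill_inl C hφ hA, Matrix.mulVec_zero]
      · refine swap_kill C _ _ _ _ ?_
          (R.kill_inr C hφ (fun h => hA (R.mono j i hij _ h)))
        rintro ⟨h, _⟩
        rw [sw_inr] at h
        exact (ne_of_lt hij) (Sum.inl.inj h)

theorem Arm.hwv (R : Arm n s a) {φ : C.ι → ℂ} (h0 : φ ≠ 0) (hφ : Killed C s R.lag φ) :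
    IsHighestWeightVector n a (M := Spn C s) φ := by
  refine ⟨h0, ?_, ?_⟩
  · intro h X hX
    have := R.hw_cartan C hφ h
    rw [← hX] at this
    exact this
  · intro X h1 h2
    exact R.hw_pos C hφ X.1 X.2 h1 h2

/-- the standard index set and involution -/
def revInv (m : ℕ) : Inv (Fin m) := ⟨Fin.rev, Fin.rev_rev⟩

theorem dom_mono (hn : 2 ≤ n) {a : Fin n → ℤ} (ha : IsDominantIntegral n a) :
    ∀ i j : Fin n, i < j → a j ≤ a i := by
  obtain ⟨-, hmono, hlast⟩ := ha
  intro i j hij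
  by_cases hj : (j : ℕ) + 2 ≤ n
  · exact hmono i j hij.le hj
  · have hj1 : (j : ℕ) + 1 = n := by have := j.2; omega
    have hn2 : n - 2 < n := by omega
    have h1 := hlast ⟨n - 2, hn2⟩ j (by simp; omega) hj1
    have h2 : a ⟨n - 2, hn2⟩ ≤ a i := by
      apply hmono
      · rw [Fin.le_def]; have := Fin.lt_def.1 hij; simp; omega
      · simp; omega
    exact (le_abs_self _).trans (h1.trans h2)

theorem dom_neg (hn : 2 ≤ n) {a : Fin n → ℤ} (ha : IsDominantIntegral n a) :
    ∀ i j : Fin n, i ≠ j → -(a i) ≤ a j := by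
  have hm := dom_mono hn ha
  obtain ⟨-, hmono, hlast⟩ := ha
  have hn2 : n - 2 < n := by omega
  have hn1 : n - 1 < n := by omega
  have h1 := hlast ⟨n - 2, hn2⟩ ⟨n - 1, hn1⟩ (by simp; omega) (by simp; omega)
  have hbig : ∀ i : Fin n, (i : ℕ) + 2 ≤ n → a ⟨n - 2, hn2⟩ ≤ a i := by
    intro i hi
    apply hmono
    · rw [Fin.le_def]; simp; omega
    · simp; omega
  have habs := abs_nonneg (a ⟨n - 1, hn1⟩)
  intro i j hij
  by_cases hi : (i : ℕ) + 2 ≤ n
  · by_cases hj : (j : ℕ) + 2 ≤ n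
    · have := hbig i hi
      have := hbig j hj
      omega
    · have hj1 : j = ⟨n - 1, hn1⟩ := by
        apply Fin.ext; simp; have := j.2; omega
      have := hbig i hi
      have h3 := neg_abs_le (a ⟨n - 1, hn1⟩)
      rw [hj1]
      omega
  · have hi1 : i = ⟨n - 1, hn1⟩ := by
      apply Fin.ext; simp; have := i.2; omega
    have hj : (j : ℕ) + 2 ≤ n := by
      have h4 : (j : ℕ) ≠ n - 1 := by
        intro h
        apply hij
        rw [hi1]
        apply Fin.ext
        simp [h]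
      have := j.2
      omega
    have := hbig j hj
    have h3 := neg_le_abs (a ⟨n - 1, hn1⟩)
    rw [hi1]
    omega

/-- **Every dominant integral weight has an arm**: `D = Fin m`, `m ≥ a_i`, `m ≡ a_i mod 2`. -/
theorem exists_arm (hn : 2 ≤ n) {a : Fin n → ℤ} (ha : IsDominantIntegral n a) (m : ℕ)
    (hm : ∀ i, a i ≤ m) (hpar : ∀ i, Even ((m : ℤ) - a i)) :
    Nonempty (Arm n (revInv m) a) := by
  have hmono := dom_mono hn ha
  have hneg := dom_neg hn ha
  have hlow : ∀ i, -(m : ℤ) ≤ a i := by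
    intro i
    obtain ⟨j, hj⟩ : ∃ j : Fin n, j ≠ i := by
      have : Nontrivial (Fin n) := Fin.nontrivial_iff_two_le.2 hn
      exact exists_ne i
    have := hneg j i hj
    have := hm j
    omega
  refine ⟨{ A := fun i d => 2 * ((d : ℕ) : ℤ) < m + a i, dec := fun i d => inferInstance,
            mono := ?_, perp := ?_, count := ?_ }⟩
  · intro i j hij d h
    have := hmono i j hij
    omega
  · intro i j hij d h
    have := hneg j i hij.symm
    have h1 : (((revInv m).σ d : Fin m) : ℕ) = m - (d + 1) := Fin.val_rev d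
    have := d.2
    rw [h1] at h
    omega
  · intro i
    obtain ⟨k, hk⟩ := hpar i
    have h1 := hm i
    have h2 := hlow i
    have h3 : (Finset.univ.filter (fun d : Fin m => 2 * ((d : ℕ) : ℤ) < m + a i)).card =
        ((m + a i) / 2).toNat := by
      have h4 : ((m + a i) / 2).toNat ≤ m := by omega
      have h5 : (Finset.univ.filter (fun d : Fin m => 2 * ((d : ℕ) : ℤ) < m + a i)) =
          (Finset.univ.filter (fun d : Fin m => (d : ℕ) < ((m + a i) / 2).toNat)) := by
        apply Finset.filter_congr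
        intro d _
        omega
      rw [h5, Fin.card_filter_val_lt, min_eq_right h4]
    rw [h3, Fintype.card_fin]
    omega

end Crest.Agent.R172.Sp
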