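import Crest.Agent.R172.FO1
import Crest.Agent.R172.Gen3
import Crest.Agent.R172.SpHw

/-!
R172: the concrete data of the core: `V ⊗ U = Matrix (Fin n ⊕ Fin n) δ K`, arms, the Lagrangian
subspaces `N g = ⊕ g_s n_s` and `V ⊗ L`.
-/

set_option autoImplicit false
set_option linter.unusedSectionVars false

namespace Crest.Agent.R172.CF

open Matrix Crest.AlgebraR.SpinSaturation Crest.Agent.R172.SoGrade
open Crest.Agent.R172.Gen (Jm Ix)

/-- Three arms with doubled weights `a 0, a 1, a 2` on one index set `δ`. -/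
structure Cfg (n : ℕ) (a : Fin 3 → Fin n → ℤ) where
  δ : Type
  [ft : Fintype δ]
  [de : DecidableEq δ]
  arm : δ → Fin 3
  σ : δ → δ
  inv : ∀ d, σ (σ d) = d
  arm_σ : ∀ d, arm (σ d) = arm d
  A : Fin n → δ → Prop
  [dA : ∀ i, DecidablePred (A i)]
  mono : ∀ i j, i < j → ∀ d, A j d → A i d
  perp : ∀ i j, i ≠ j → ∀ d, ¬ A j (σ d) → A i d
  count : ∀ s i, a s i = 2 * ((Finset.univ.filter (fun d => arm d = s ∧ A i d)).card : ℤ) -
    ((Finset.univ.filter (fun d => arm d = s)).card : ℤ)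

attribute [instance] Cfg.ft Cfg.de Cfg.dA

variable {n : ℕ} {a : Fin 3 → Fin n → ℤ} (c : Cfg n a)
variable {K : Type*} [Field K]

/-- the Gram matrix of `U` -/
def Cfg.B (c : Cfg n a) (K : Type*) [Field K] : Matrix c.δ c.δ K :=
  Matrix.of fun d e => if e = c.σ d then 1 else 0

/-- the involution as a permutation -/
def Cfg.perm : c.δ ≃ c.δ := ⟨c.σ, c.σ, c.inv, c.inv⟩

/-- the standard Lagrangian subspace -/
def Cfg.nstd (K : Type*) [Field K] : Submodule K (Matrix (Ix n) c.δ K) where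
  carrier := {F | ∀ i d, (¬ c.A i d → F (Sum.inl i) d = 0) ∧ (c.A i (c.σ d) → F (Sum.inr i) d = 0)}
  add_mem' := by
    intro F G hF hG i d
    refine ⟨fun h => ?_, fun h => ?_⟩
    · rw [Matrix.add_apply, (hF i d).1 h, (hG i d).1 h, add_zero]
    · rw [Matrix.add_apply, (hF i d).2 h, (hG i d).2 h, add_zero]
  zero_mem' := fun i d => ⟨fun _ => rfl, fun _ => rfl⟩
  smul_mem' := by
    intro t F hF i d
    refine ⟨fun h => ?_, fun h => ?_⟩
    · rw [Matrix.smul_apply, (hF i d).1 h, smul_zero]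
    · rw [Matrix.smul_apply, (hF i d).2 h, smul_zero]

theorem Cfg.mem_nstd {F : Matrix (Ix n) c.δ K} : F ∈ c.nstd K ↔
    ∀ i d, (¬ c.A i d → F (Sum.inl i) d = 0) ∧ (c.A i (c.σ d) → F (Sum.inr i) d = 0) := Iff.rfl

theorem act_apply {δ : Type*} [Fintype δ] [DecidableEq δ] (arm : δ → Fin 3)
    (g : Fin 3 → Matrix (Ix n) (Ix n) K) (F : Matrix (Ix n) δ K) (p : Ix n) (d : δ) :
    FO.act arm g F p d = (g (arm d) * F) p d := by
  rw [FO.act, Matrix.sum_apply, Finset.sum_eq_single (arm d)]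
  · rw [FO.E, Matrix.mul_diagonal, if_pos rfl, mul_one]
  · intro s _ hs
    rw [FO.E, Matrix.mul_diagonal, if_neg hs.symm, mul_zero]
  · simp

/-- the action as a linear map -/
def actL {δ : Type*} [Fintype δ] [DecidableEq δ] (arm : δ → Fin 3)
    (g : Fin 3 → Matrix (Ix n) (Ix n) K) : Matrix (Ix n) δ K →ₗ[K] Matrix (Ix n) δ K where
  toFun := FO.act arm g
  map_add' F G := by
    ext p d
    rw [Matrix.add_apply, act_apply, act_apply, act_apply, Matrix.mul_add, Matrix.add_apply]
  map_smul' t F := by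
    ext p d
    rw [Matrix.smul_apply, act_apply, act_apply, Matrix.mul_smul, Matrix.smul_apply,
      RingHom.id_apply]

theorem act_act {δ : Type*} [Fintype δ] [DecidableEq δ] (arm : δ → Fin 3)
    (g h : Fin 3 → Matrix (Ix n) (Ix n) K) (F : Matrix (Ix n) δ K) :
    FO.act arm g (FO.act arm h F) = FO.act arm (fun s => g s * h s) F := by
  ext p d
  rw [act_apply, act_apply, Matrix.mul_assoc, Matrix.mul_apply, Matrix.mul_apply]
  refine Finset.sum_congr rfl fun q _ => ?_
  rw [act_apply]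

theorem act_one {δ : Type*} [Fintype δ] [DecidableEq δ] (arm : δ → Fin 3)
    {g : Fin 3 → Matrix (Ix n) (Ix n) K} (hg : ∀ s, g s = 1) (F : Matrix (Ix n) δ K) :
    FO.act arm g F = F := by
  ext p d
  rw [act_apply, hg, Matrix.one_mul]

/-- `N g = ⊕ g_s n_s` -/
def Cfg.N (g : Fin 3 → Matrix (Ix n) (Ix n) K) : Submodule K (Matrix (Ix n) c.δ K) :=
  (c.nstd K).map (actL c.arm g)

theorem Cfg.mem_N {g : Fin 3 → Matrix (Ix n) (Ix n) K} {F : Matrix (Ix n) c.δ K} :
    F ∈ c.N g ↔ ∃ G ∈ c.nstd K, FO.act c.arm g G = F := Iff.rfl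

/-- `V ⊗ L` -/
def VL {n : ℕ} {δ : Type*} (L : Submodule K (δ → K)) : Submodule K (Matrix (Ix n) δ K) where
  carrier := {F | ∀ p, (fun d => F p d) ∈ L}
  add_mem' := fun {_ _} ha hb p => L.add_mem (ha p) (hb p)
  zero_mem' := fun _ => L.zero_mem
  smul_mem' := fun t {_} ha p => L.smul_mem t (ha p)

theorem mem_VL {δ : Type*} {L : Submodule K (δ → K)} {F : Matrix (Ix n) δ K} :
    F ∈ VL L ↔ ∀ p, (fun d => F p d) ∈ L := Iff.rfl

/-- the symmetric form of `U` -/
def Cfg.ub (u v : c.δ → K) : K := ∑ d, u d * v (c.σ d)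

/-! ### Dimensions -/

/-- the opposite coordinate subspace -/
def Cfg.nopp (K : Type*) [Field K] : Submodule K (Matrix (Ix n) c.δ K) where
  carrier := {F | ∀ i d, (c.A i d → F (Sum.inl i) d = 0) ∧ (¬ c.A i (c.σ d) → F (Sum.inr i) d = 0)}
  add_mem' := by
    intro F G hF hG i d
    refine ⟨fun h => ?_, fun h => ?_⟩
    · rw [Matrix.add_apply, (hF i d).1 h, (hG i d).1 h, add_zero]
    · rw [Matrix.add_apply, (hF i d).2 h, (hG i d).2 h, add_zero]
  zero_mem' := fun i d => ⟨fun _ => rfl, fun _ => rfl⟩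
  smul_mem' := by
    intro t F hF i d
    refine ⟨fun h => ?_, fun h => ?_⟩
    · rw [Matrix.smul_apply, (hF i d).1 h, smul_zero]
    · rw [Matrix.smul_apply, (hF i d).2 h, smul_zero]

/-- the flip -/
def Cfg.flip (K : Type*) [Field K] : Matrix (Ix n) c.δ K ≃ₗ[K] Matrix (Ix n) c.δ K where
  toFun F := Matrix.of fun p d => F (sw p) (c.σ d)
  invFun F := Matrix.of fun p d => F (sw p) (c.σ d)
  map_add' F G := rfl
  map_smul' t F := rfl
  left_inv F := by ext p d; simp [c.inv]
  right_inv F := by ext p d; simp [c.inv]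

theorem Cfg.flip_nstd : (c.nstd K).map (c.flip K).toLinearMap = c.nopp K := by
  ext F
  constructor
  · rintro ⟨G, hG, rfl⟩ i d
    refine ⟨fun h => ?_, fun h => ?_⟩
    · exact (hG i (c.σ d)).2 (by rw [c.inv]; exact h)
    · exact (hG i (c.σ d)).1 h
  · intro hF
    refine ⟨(c.flip K).symm F, ?_, (c.flip K).apply_symm_apply F⟩
    intro i d
    refine ⟨fun h => ?_, fun h => ?_⟩
    · exact (hF i (c.σ d)).2 (by rw [c.inv]; exact h)
    · exact (hF i (c.σ d)).1 h

theorem Cfg.finrank_nopp : Module.finrank K (c.nopp K) = Module.finrank K (c.nstd K) := by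
  rw [← c.flip_nstd]
  exact LinearEquiv.finrank_map_eq (c.flip K) (c.nstd K)

theorem Cfg.nstd_sup_nopp : c.nstd K ⊔ c.nopp K = ⊤ := by
  rw [eq_top_iff]
  intro F _
  rw [Submodule.mem_sup]
  refine ⟨Matrix.of fun p d => (match p with
    | Sum.inl i => if c.A i d then F (Sum.inl i) d else 0
    | Sum.inr i => if c.A i (c.σ d) then 0 else F (Sum.inr i) d), ?_,
    Matrix.of fun p d => (match p with
    | Sum.inl i => if c.A i d then 0 else F (Sum.inl i) d
    | Sum.inr i => if c.A i (c.σ d) then F (Sum.inr i) d else 0), ?_, ?_⟩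
  · intro i d
    refine ⟨fun h => ?_, fun h => ?_⟩
    · simp [h]
    · simp [h]
  · intro i d
    refine ⟨fun h => ?_, fun h => ?_⟩
    · simp [h]
    · simp [h]
  · ext p d
    rcases p with i | i
    · by_cases h : c.A i d <;> simp [h]
    · by_cases h : c.A i (c.σ d) <;> simp [h]

theorem Cfg.nstd_inf_nopp : c.nstd K ⊓ c.nopp K = ⊥ := by
  rw [eq_bot_iff]
  rintro F ⟨h1, h2⟩
  rw [Submodule.mem_bot]
  ext p d
  rcases p with i | i
  · by_cases h : c.A i d
    · exact (h2 i d).1 h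
    · exact (h1 i d).1 h
  · by_cases h : c.A i (c.σ d)
    · exact (h1 i d).2 h
    · exact (h2 i d).2 h

theorem Cfg.finrank_nstd : Module.finrank K (c.nstd K) = n * Fintype.card c.δ := by
  have h1 := Submodule.finrank_sup_add_finrank_inf_eq (c.nstd K) (c.nopp K)
  rw [c.nstd_sup_nopp, c.nstd_inf_nopp, finrank_top, finrank_bot, c.finrank_nopp,
    Module.finrank_matrix, Module.finrank_self, Fintype.card_sum, Fintype.card_fin] at h1
  have h2 : (n + n) * Fintype.card c.δ = 2 * (n * Fintype.card c.δ) := by ring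
  rw [mul_one, h2] at h1
  omega

/-- the action of orthogonal matrices as a linear equivalence -/
def actE {δ : Type*} [Fintype δ] [DecidableEq δ] (arm : δ → Fin 3)
    {g : Fin 3 → Matrix (Ix n) (Ix n) K} (hg : ∀ s, (g s)ᵀ * Jm n K * g s = Jm n K) :
    Matrix (Ix n) δ K ≃ₗ[K] Matrix (Ix n) δ K :=
  { actL arm g with
    invFun := FO.act arm (fun s => Jm n K * (g s)ᵀ * Jm n K)
    left_inv := by
      intro F
      change FO.act arm _ (FO.act arm g F) = F
      rw [act_act]
      exact act_one arm (fun s => Gen.orth_left_inv (hg s)) F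
    right_inv := by
      intro F
      change FO.act arm g (FO.act arm _ F) = F
      rw [act_act]
      exact act_one arm (fun s => Gen.orth_right_inv (hg s)) F }

theorem Cfg.finrank_N {g : Fin 3 → Matrix (Ix n) (Ix n) K}
    (hg : ∀ s, (g s)ᵀ * Jm n K * g s = Jm n K) :
    Module.finrank K (c.N g) = n * Fintype.card c.δ := by
  rw [← c.finrank_nstd (K := K)]
  exact LinearEquiv.finrank_map_eq (actE c.arm hg) (c.nstd K)

theorem finrank_VL {δ : Type*} [Fintype δ] (L : Submodule K (δ → K)) :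
    Module.finrank K (VL L : Submodule K (Matrix (Ix n) δ K)) = 2 * n * Module.finrank K L := by
  let e : (VL L : Submodule K (Matrix (Ix n) δ K)) ≃ₗ[K] (Ix n → L) :=
    { toFun := fun F p => ⟨fun d => F.1 p d, F.2 p⟩
      invFun := fun f => ⟨Matrix.of fun p d => (f p).1 d, fun p => (f p).2⟩
      map_add' := fun F G => rfl
      map_smul' := fun t F => rfl
      left_inv := fun F => rfl
      right_inv := fun f => rfl }
  rw [e.finrank_eq, Module.finrank_pi_fintype, Finset.sum_const, Finset.card_univ,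
    Fintype.card_sum, Fintype.card_fin, smul_eq_mul]
  ring

/-- transversality gives a direct sum decomposition -/
theorem Cfg.sup_eq_top {g : Fin 3 → Matrix (Ix n) (Ix n) K}
    (hg : ∀ s, (g s)ᵀ * Jm n K * g s = Jm n K) {L : Submodule K (c.δ → K)}
    (hL : 2 * Module.finrank K L = Fintype.card c.δ) (h : ∀ F ∈ VL L, F ∈ c.N g → F = 0) :
    VL L ⊔ c.N g = ⊤ := by
  have h0 : VL L ⊓ c.N g = ⊥ := by
    rw [eq_bot_iff]
    rintro F ⟨h1, h2⟩
    rw [Submodule.mem_bot]
    exact h F h1 h2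
  have h1 := Submodule.finrank_sup_add_finrank_inf_eq (VL L) (c.N g)
  rw [h0, finrank_bot, c.finrank_N hg, finrank_VL] at h1
  apply Submodule.eq_top_of_finrank_eq
  rw [Module.finrank_matrix, Module.finrank_self, Fintype.card_sum, Fintype.card_fin, mul_one]
  have h2 : 2 * n * Module.finrank K L = n * Fintype.card c.δ := by
    rw [← hL]; ring
  have h3 : (n + n) * Fintype.card c.δ = n * Fintype.card c.δ + n * Fintype.card c.δ := by ring
  omega

end Crest.Agent.R172.CF
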