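import Mathlib

/-!
Row 172 (S0260), count of 804's 15600 (3): a linear map from triples of endomorphisms onto `X` which
kills the diagonal and, arm by arm, the endomorphisms preserving the flag of the arm, has
`finrank X ≤ finrank (⋂ s, filtered endomorphisms at s)`, as soon as the codimensions of the three
algebras of filtered endomorphisms sum up to at most `(dim V)²`; this is the case in the tame case
(free flags of lengths `l s`, `∑ 1 / l s = 1`).
-/

set_option autoImplicit false
set_option linter.unusedSectionVars false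
set_option maxHeartbeats 400000

namespace Crest.Agent.R172.Cnt

open Module LinearMap

variable {K : Type*} [Field K] {V : Type*} [AddCommGroup V] [Module K V]

/-- endomorphisms preserving a family of subspaces -/
def Fl {ι : Type*} (T : ι → Submodule K V) : Submodule K (End K V) where
  carrier := {A | ∀ j, (T j).map A ≤ T j}
  add_mem' := by
    intro A B hA hB j
    rintro _ ⟨v, hv, rfl⟩
    exact (T j).add_mem (hA j ⟨v, hv, rfl⟩) (hB j ⟨v, hv, rfl⟩)
  zero_mem' := by
    intro j
    rintro _ ⟨v, _, rfl⟩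
    exact (T j).zero_mem
  smul_mem' := by
    intro c A hA j
    rintro _ ⟨v, hv, rfl⟩
    exact (T j).smul_mem c (hA j ⟨v, hv, rfl⟩)

theorem mem_Fl {ι : Type*} {T : ι → Submodule K V} {A : End K V} :
    A ∈ Fl T ↔ ∀ j, ∀ v ∈ T j, A v ∈ T j :=
  ⟨fun h j v hv => h j ⟨v, hv, rfl⟩, fun h j => by rintro _ ⟨v, hv, rfl⟩; exact h j v hv⟩

variable [FiniteDimensional K V]

/-- **Codimension of the algebra of endomorphisms preserving a flag** `⊥ = T 0 ≤ T 1 ≤ … ≤ T l = ⊤`:
at most `∑ j < l, (dim T (j+1) - dim T j) * (dim V - dim T (j+1))`. -/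
theorem codim_Fl_le (T : ℕ → Submodule K V) (hT : Monotone T) (l : ℕ) (h0 : T 0 = ⊥)
    (hl : T l = ⊤) :
    finrank K V * finrank K V ≤ finrank K (Fl T) +
      ∑ j ∈ Finset.range l, (finrank K (T (j + 1)) - finrank K (T j)) *
        (finrank K V - finrank K (T (j + 1))) := by
  classical
  have hc : ∀ j, ∃ C : Submodule K V, C ≤ T (j + 1) ∧ T (j + 1) ≤ T j ⊔ C ∧
      finrank K C = finrank K (T (j + 1)) - finrank K (T j) := by
    intro j
    have hle := hT (Nat.le_succ j)
    obtain ⟨C, hC⟩ := Submodule.exists_isCompl (Submodule.comap (T (j + 1)).subtype (T j))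
    refine ⟨C.map (T (j + 1)).subtype, ?_, ?_, ?_⟩
    · rintro _ ⟨v, _, rfl⟩; exact v.2
    · intro v hv
      have h1 : (⟨v, hv⟩ : T (j + 1)) ∈ Submodule.comap (T (j + 1)).subtype (T j) ⊔ C := by
        rw [hC.sup_eq_top]; trivial
      obtain ⟨a, ha, b, hb, hab⟩ := Submodule.mem_sup.1 h1
      refine Submodule.mem_sup.2 ⟨a, ha, b, ⟨b, hb, rfl⟩, ?_⟩
      have := congrArg Subtype.val hab
      simpa using this
    · have h2 := Submodule.finrank_add_eq_of_isCompl hC
      have h3 : finrank K (Submodule.comap (T (j + 1)).subtype (T j)) = finrank K (T j) :=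
        (Submodule.comapSubtypeEquivOfLe hle).finrank_eq
      have h4 : finrank K (C.map (T (j + 1)).subtype) = finrank K C :=
        (LinearEquiv.finrank_eq (C.equivMapOfInjective _ (Submodule.injective_subtype _))).symm
      omega
  choose C hC1 hC2 hC3 using hc
  let Θ : End K V →ₗ[K] ((j : Fin l) → (C j →ₗ[K] (V ⧸ T (j + 1)))) :=
    LinearMap.pi fun j =>
      { toFun := fun A => (T (j + 1)).mkQ ∘ₗ A ∘ₗ (C j).subtype
        map_add' := fun A B => by ext v; simp
        map_smul' := fun c A => by ext v; simp }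
  have hker : LinearMap.ker Θ ≤ Fl T := by
    intro A hA
    have hA' : ∀ j : Fin l, ∀ v ∈ C j, A v ∈ T (j + 1) := by
      intro j v hv
      have h1 := congrFun (LinearMap.mem_ker.1 hA) j
      have h2 := LinearMap.congr_fun h1 ⟨v, hv⟩
      exact (Submodule.Quotient.mk_eq_zero _).1 h2
    rw [mem_Fl]
    have key : ∀ j, j ≤ l → ∀ v ∈ T j, A v ∈ T j := by
      intro j
      induction j with
      | zero => intro _ v hv; rw [h0] at hv ⊢; rw [(Submodule.mem_bot K).1 hv]; simp
      | succ j ih =>
        intro hj v hv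
        obtain ⟨a, ha, b, hb, rfl⟩ := Submodule.mem_sup.1 (hC2 j hv)
        rw [map_add]
        exact add_mem (hT (Nat.le_succ j) (ih (by omega) a ha)) (hA' ⟨j, by omega⟩ b hb)
    intro j v hv
    rcases le_total j l with h | h
    · exact key j h v hv
    · have : T j = ⊤ := top_le_iff.1 (hl ▸ hT h)
      rw [this]; trivial
  have h1 : finrank K (LinearMap.range Θ) + finrank K (LinearMap.ker Θ) =
      finrank K V * finrank K V := by
    rw [LinearMap.finrank_range_add_finrank_ker Θ]
    exact Module.finrank_linearMap K K V V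
  have h2 : finrank K (LinearMap.range Θ) ≤
      finrank K ((j : Fin l) → (C j →ₗ[K] (V ⧸ T (j + 1)))) := Submodule.finrank_le _
  have h3 : finrank K ((j : Fin l) → (C j →ₗ[K] (V ⧸ T (j + 1)))) =
      ∑ j ∈ Finset.range l, (finrank K (T (j + 1)) - finrank K (T j)) *
        (finrank K V - finrank K (T (j + 1))) := by
    rw [Module.finrank_pi_fintype, ← Fin.sum_univ_eq_sum_range (fun j =>
      (finrank K (T (j + 1)) - finrank K (T j)) * (finrank K V - finrank K (T (j + 1)))) l]
    refine Finset.sum_congr rfl fun j _ => ?_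
    rw [Module.finrank_linearMap, hC3 j]
    congr 1
    have := Submodule.finrank_quotient_add_finrank (T ((j : ℕ) + 1))
    omega
  have h4 := Submodule.finrank_mono hker
  omega

/-- **The count**, general form. -/
theorem count_gen {σ : Type*} [Fintype σ] [DecidableEq σ] {X : Type*} [AddCommGroup X] [Module K X]
    (F : σ → Submodule K (End K V)) [Nonempty σ]
    (hF : Fintype.card σ * (finrank K V * finrank K V) ≤
      (∑ s, finrank K (F s)) + finrank K V * finrank K V)
    (Ψ : (σ → End K V) →ₗ[K] X) (hsurj : Function.Surjective Ψ)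
    (h1 : ∀ s, ∀ A ∈ F s, Ψ (Pi.single s A) = 0) (h2 : ∀ A, Ψ (fun _ => A) = 0) :
    finrank K X ≤ finrank K (⨅ s, F s : Submodule K (End K V)) := by
  classical
  let D : Submodule K (σ → End K V) :=
    LinearMap.range (LinearMap.pi fun _ : σ => (LinearMap.id : End K V →ₗ[K] End K V))
  let P : Submodule K (σ → End K V) := Submodule.pi Set.univ F
  have hD : D ≤ LinearMap.ker Ψ := by
    rintro _ ⟨A, rfl⟩
    exact h2 A
  have hP : P ≤ LinearMap.ker Ψ := by
    intro x hx
    rw [LinearMap.mem_ker, ← Finset.univ_sum_single x, map_sum]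
    exact Finset.sum_eq_zero fun s _ => h1 s _ (hx s (Set.mem_univ s))
  have e1 : finrank K P = ∑ s, finrank K (F s) := by
    have e : P ≃ₗ[K] ((s : σ) → F s) :=
      { toFun := fun x s => ⟨x.1 s, x.2 s (Set.mem_univ s)⟩
        map_add' := fun x y => rfl
        map_smul' := fun c x => rfl
        invFun := fun y => ⟨fun s => (y s).1, fun s _ => (y s).2⟩
        left_inv := fun x => rfl
        right_inv := fun y => rfl }
    rw [e.finrank_eq, Module.finrank_pi_fintype]
  have hinj : Function.Injective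
      (LinearMap.pi fun _ : σ => (LinearMap.id : End K V →ₗ[K] End K V)) := by
    intro A B h
    exact congrFun h (Classical.arbitrary σ)
  have e2 : finrank K D = finrank K V * finrank K V := by
    rw [← Module.finrank_linearMap K K V V]
    exact (LinearEquiv.ofInjective _ hinj).finrank_eq.symm
  have e3 : finrank K (P ⊓ D : Submodule K (σ → End K V)) =
      finrank K (⨅ s, F s : Submodule K (End K V)) := by
    have : P ⊓ D = (⨅ s, F s : Submodule K (End K V)).map
        (LinearMap.pi fun _ : σ => (LinearMap.id : End K V →ₗ[K] End K V)) := by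
      ext x
      constructor
      · rintro ⟨hx, A, rfl⟩
        refine ⟨A, ?_, rfl⟩
        simp only [SetLike.mem_coe, Submodule.mem_iInf]
        exact fun s => hx s (Set.mem_univ s)
      · rintro ⟨A, hA, rfl⟩
        simp only [SetLike.mem_coe, Submodule.mem_iInf] at hA
        exact ⟨fun s _ => hA s, A, rfl⟩
    rw [this]
    exact (LinearEquiv.finrank_eq (Submodule.equivMapOfInjective _ hinj _)).symm
  have e4 := Submodule.finrank_sup_add_finrank_inf_eq P D
  have e5 := Submodule.finrank_mono (sup_le hP hD)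
  have e6 : finrank K (LinearMap.range Ψ) = finrank K X := by
    rw [LinearMap.range_eq_top.2 hsurj]; exact finrank_top K X
  have e7 := LinearMap.finrank_range_add_finrank_ker Ψ
  have e8 : finrank K (σ → End K V) = Fintype.card σ * (finrank K V * finrank K V) := by
    rw [Module.finrank_pi_fintype]
    simp [Module.finrank_linearMap]
  omega

/-! ### Free flags -/

theorem finrank_ker_succ (Φ : End K V) (j : ℕ) :
    finrank K (ker (Φ ^ (j + 1))) ≤ finrank K (ker (Φ ^ j)) + finrank K (ker Φ) := by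
  let g : ker (Φ ^ (j + 1)) →ₗ[K] ker Φ :=
    LinearMap.codRestrict (ker Φ) ((Φ ^ j) ∘ₗ (ker (Φ ^ (j + 1))).subtype) (by
      rintro ⟨v, hv⟩
      rw [LinearMap.mem_ker] at hv ⊢
      have : Φ ((Φ ^ j) v) = (Φ ^ (j + 1)) v := by rw [pow_succ']; rfl
      simpa [this] using hv)
  have h1 := LinearMap.finrank_range_add_finrank_ker g
  have h2 : finrank K (LinearMap.range g) ≤ finrank K (ker Φ) := Submodule.finrank_le _
  have h3 : finrank K (LinearMap.ker g) ≤ finrank K (ker (Φ ^ j)) := by
    rw [LinearEquiv.finrank_eq (Submodule.equivMapOfInjective (ker (Φ ^ (j + 1))).subtype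
      (Submodule.injective_subtype _) (LinearMap.ker g))]
    refine Submodule.finrank_mono ?_
    rintro _ ⟨v, hv, rfl⟩
    have h4 : g v = 0 := hv
    have h5 := congrArg Subtype.val h4
    exact LinearMap.mem_ker.2 h5
  omega

theorem finrank_ker_add (Φ : End K V) (j i : ℕ) :
    finrank K (ker (Φ ^ (j + i))) ≤ finrank K (ker (Φ ^ j)) + i * finrank K (ker Φ) := by
  induction i with
  | zero => simp
  | succ i ih =>
    have := finrank_ker_succ Φ (j + i)
    rw [← add_assoc]
    have e : (i + 1) * finrank K (ker Φ) = i * finrank K (ker Φ) + finrank K (ker Φ) := by ring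
    omega

variable {Φ : End K V} {l : ℕ}

theorem finrank_ker_pow (hnil : Φ ^ l = 0) (hfree : l * finrank K (ker Φ) = finrank K V)
    {j : ℕ} (hj : j ≤ l) : finrank K (ker (Φ ^ j)) = j * finrank K (ker Φ) := by
  have h1 := finrank_ker_add Φ 0 j
  have h2 := finrank_ker_add Φ j (l - j)
  have h3 : j + (l - j) = l := by omega
  have h4 : finrank K (ker (Φ ^ l)) = l * finrank K (ker Φ) := by
    rw [hnil, LinearMap.ker_zero, finrank_top, hfree]
  have h5 : finrank K (ker (Φ ^ 0)) = 0 := by
    rw [pow_zero]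
    have : ker (1 : End K V) = ⊥ := LinearMap.ker_id
    rw [this]; exact finrank_bot K V
  rw [h3] at h2
  rw [zero_add] at h1
  have h6 : l * finrank K (ker Φ) = j * finrank K (ker Φ) + (l - j) * finrank K (ker Φ) := by
    rw [← add_mul, h3]
  omega

theorem range_pow_eq (hnil : Φ ^ l = 0) (hfree : l * finrank K (ker Φ) = finrank K V)
    {j : ℕ} (hj : j ≤ l) : range (Φ ^ j) = ker (Φ ^ (l - j)) := by
  have h1 : range (Φ ^ j) ≤ ker (Φ ^ (l - j)) := by
    rintro _ ⟨v, rfl⟩
    rw [LinearMap.mem_ker, ← Module.End.mul_apply, ← pow_add, Nat.sub_add_cancel hj, hnil]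
    rfl
  refine Submodule.eq_of_le_of_finrank_eq h1 ?_
  have h2 := LinearMap.finrank_range_add_finrank_ker (Φ ^ j)
  rw [finrank_ker_pow hnil hfree hj] at h2
  rw [finrank_ker_pow hnil hfree (Nat.sub_le _ _)]
  have h6 : l * finrank K (ker Φ) = j * finrank K (ker Φ) + (l - j) * finrank K (ker Φ) := by
    rw [← add_mul]; congr 1; omega
  omega

/-- in the free case the images and the kernels of the powers define the same filtered algebra -/
theorem Fl_range_eq (hnil : Φ ^ l = 0) (hfree : l * finrank K (ker Φ) = finrank K V) :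
    Fl (fun j : ℕ => range (Φ ^ j)) = Fl (fun j : ℕ => ker (Φ ^ j)) := by
  ext A
  rw [mem_Fl, mem_Fl]
  constructor
  · intro h j v hv
    rcases le_total j l with hj | hj
    · have e : ker (Φ ^ j) = range (Φ ^ (l - j)) := by
        rw [range_pow_eq hnil hfree (Nat.sub_le _ _)]; congr 2; omega
      rw [e] at hv ⊢
      exact h _ v hv
    · have : Φ ^ j = 0 := by
        rw [← Nat.sub_add_cancel hj, pow_add, hnil, mul_zero]
      rw [this]; simp
  · intro h j v hv
    rcases le_total j l with hj | hj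
    · rw [range_pow_eq hnil hfree hj] at hv ⊢
      exact h _ v hv
    · have : Φ ^ j = 0 := by
        rw [← Nat.sub_add_cancel hj, pow_add, hnil, mul_zero]
      simp only [this] at hv ⊢
      obtain ⟨w, rfl⟩ := hv
      simp

theorem ker_pow_mono (Φ : End K V) : Monotone fun j : ℕ => ker (Φ ^ j) := by
  intro i j hij v hv
  obtain ⟨k, rfl⟩ := Nat.exists_eq_add_of_le hij
  rw [LinearMap.mem_ker] at hv ⊢
  rw [add_comm, pow_add, Module.End.mul_apply, hv, map_zero]

/-- codimension of the filtered algebra of one free flag: `2 codim ≤ N (N - m)`, `m = dim ker Φ` -/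
theorem two_codim_le (hnil : Φ ^ l = 0) (hfree : l * finrank K (ker Φ) = finrank K V) :
    2 * (finrank K V * finrank K V) ≤ 2 * finrank K (Fl (fun j : ℕ => ker (Φ ^ j))) +
      finrank K V * (finrank K V - finrank K (ker Φ)) := by
  have h1 := codim_Fl_le (fun j : ℕ => ker (Φ ^ j)) (ker_pow_mono Φ) l
    (by simp only [pow_zero]; exact LinearMap.ker_id) (by simp only [hnil, LinearMap.ker_zero])
  set m := finrank K (ker Φ) with hm
  have h2 : ∑ j ∈ Finset.range l, (finrank K (ker (Φ ^ (j + 1))) - finrank K (ker (Φ ^ j))) *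
      (finrank K V - finrank K (ker (Φ ^ (j + 1)))) =
      ∑ j ∈ Finset.range l, m * ((l - 1 - j) * m) := by
    refine Finset.sum_congr rfl fun j hj => ?_
    have hj' := Finset.mem_range.1 hj
    rw [finrank_ker_pow hnil hfree (by omega : j + 1 ≤ l), finrank_ker_pow hnil hfree hj'.le,
      ← hfree, ← hm]
    have e1 : (j + 1) * m - j * m = m := by
      rw [← Nat.sub_mul]; simp
    have e2 : l * m - (j + 1) * m = (l - 1 - j) * m := by
      rw [← Nat.sub_mul]; congr 1; omega
    rw [e1, e2]
  have h3 : 2 * ∑ j ∈ Finset.range l, m * ((l - 1 - j) * m) = finrank K V * (finrank K V - m) := by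
    rw [Finset.sum_range_reflect (fun j => m * (j * m)) l, ← hfree, ← Finset.mul_sum,
      ← Finset.sum_mul]
    have e3 := Finset.sum_range_id_mul_two l
    have e4 : l * m - m = (l - 1) * m := by rw [Nat.sub_mul, one_mul]
    rw [e4]
    calc 2 * (m * ((∑ i ∈ Finset.range l, i) * m)) = m * m * ((∑ i ∈ Finset.range l, i) * 2) := by
          ring
      _ = m * m * (l * (l - 1)) := by rw [e3]
      _ = l * m * ((l - 1) * m) := by ring
  rw [h2] at h1
  omega

/-- **The count in the tame case.** -/
theorem count (Φ : Fin 3 → End K V) (l : Fin 3 → ℕ) (hnil : ∀ s, Φ s ^ l s = 0)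
    (hfree : ∀ s, l s * finrank K (ker (Φ s)) = finrank K V)
    (hsum : ∑ s, finrank K (ker (Φ s)) = finrank K V)
    {X : Type*} [AddCommGroup X] [Module K X] (Ψ : (Fin 3 → End K V) →ₗ[K] X)
    (hsurj : Function.Surjective Ψ)
    (h1 : ∀ s, ∀ A : End K V, (∀ j : ℕ, ∀ v ∈ range (Φ s ^ j), A v ∈ range (Φ s ^ j)) →
      Ψ (Pi.single s A) = 0)
    (h2 : ∀ A, Ψ (fun _ => A) = 0) :
    finrank K X ≤ finrank K (⨅ s, Fl (fun j : ℕ => range (Φ s ^ j)) : Submodule K (End K V)) := by
  refine count_gen (fun s => Fl (fun j : ℕ => range (Φ s ^ j))) ?_ Ψ hsurj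
    (fun s A hA => h1 s A (mem_Fl.1 hA)) h2
  have h3 : ∀ s, 2 * (finrank K V * finrank K V) ≤
      2 * finrank K (Fl (fun j : ℕ => range (Φ s ^ j))) +
      finrank K V * (finrank K V - finrank K (ker (Φ s))) := fun s => by
    rw [Fl_range_eq (hnil s) (hfree s)]; exact two_codim_le (hnil s) (hfree s)
  have h4 : ∀ s, finrank K (ker (Φ s)) ≤ finrank K V := fun s => Submodule.finrank_le _
  have e0 := h3 0
  have e1 := h3 1
  have e2 := h3 2
  rw [Fin.sum_univ_three] at hsum
  rw [Fin.sum_univ_three, Fintype.card_fin]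
  have h5 : finrank K V * (finrank K V - finrank K (ker (Φ 0))) +
      finrank K V * (finrank K V - finrank K (ker (Φ 1))) +
      finrank K V * (finrank K V - finrank K (ker (Φ 2))) =
      2 * (finrank K V * finrank K V) := by
    rw [← Nat.mul_add, ← Nat.mul_add]
    have : finrank K V - finrank K (ker (Φ 0)) + (finrank K V - finrank K (ker (Φ 1))) +
        (finrank K V - finrank K (ker (Φ 2))) = 2 * finrank K V := by
      have := h4 0; have := h4 1; have := h4 2
      omega
    rw [this]; ring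
  omega

/-- version for a subspace `T` of a space `E` modulo `Q`: every `t ∈ T` is congruent mod `Q` to a
value of `Ψ`. -/
theorem count_mod (Φ : Fin 3 → End K V) (l : Fin 3 → ℕ) (hnil : ∀ s, Φ s ^ l s = 0)
    (hfree : ∀ s, l s * finrank K (ker (Φ s)) = finrank K V)
    (hsum : ∑ s, finrank K (ker (Φ s)) = finrank K V)
    {E : Type*} [AddCommGroup E] [Module K E] (Q : Submodule K E)
    (Ψ : (Fin 3 → End K V) →ₗ[K] E)
    (h1 : ∀ s, ∀ A : End K V, (∀ j : ℕ, ∀ v ∈ range (Φ s ^ j), A v ∈ range (Φ s ^ j)) →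
      Ψ (Pi.single s A) ∈ Q)
    (h2 : ∀ A, Ψ (fun _ => A) ∈ Q) {T : Submodule K E} [FiniteDimensional K T]
    (hTQ : T ⊓ Q = ⊥) (hT : ∀ t ∈ T, ∃ x, t - Ψ x ∈ Q) :
    finrank K T ≤ finrank K (⨅ s, Fl (fun j : ℕ => range (Φ s ^ j)) : Submodule K (End K V)) := by
  let Ψ' : (Fin 3 → End K V) →ₗ[K] LinearMap.range (Q.mkQ ∘ₗ Ψ) := (Q.mkQ ∘ₗ Ψ).rangeRestrict
  have h3 := count Φ l hnil hfree hsum Ψ' (LinearMap.surjective_rangeRestrict _)
    (fun s A hA => Subtype.ext ((Submodule.Quotient.mk_eq_zero _).2 (h1 s A hA)))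
    (fun A => Subtype.ext ((Submodule.Quotient.mk_eq_zero _).2 (h2 A)))
  refine le_trans ?_ h3
  have h4 : ∀ t ∈ T, Q.mkQ t ∈ LinearMap.range (Q.mkQ ∘ₗ Ψ) := by
    intro t ht
    obtain ⟨x, hx⟩ := hT t ht
    exact ⟨x, ((Submodule.Quotient.eq Q).2 hx).symm⟩
  let g : T →ₗ[K] LinearMap.range (Q.mkQ ∘ₗ Ψ) :=
    LinearMap.codRestrict _ (Q.mkQ ∘ₗ T.subtype) fun t => h4 t.1 t.2
  refine LinearMap.finrank_le_finrank_of_injective (f := g) ?_
  rw [← LinearMap.ker_eq_bot, LinearMap.ker_eq_bot']
  intro t ht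
  have h5 : Q.mkQ t.1 = 0 := congrArg Subtype.val ht
  have h6 : t.1 ∈ Q := (Submodule.Quotient.mk_eq_zero _).1 h5
  have h7 : t.1 ∈ T ⊓ Q := ⟨t.2, h6⟩
  rw [hTQ, Submodule.mem_bot] at h7
  exact Subtype.ext h7

end Crest.Agent.R172.Cnt
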