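import Crest.Agent.R172.Cov

/-!
Row 172, T0, arbitrary radical and arbitrary `D`: every cochain becomes a coboundary on the
`n`-fold step cover (`X ↦ X × X`, `A' = em ∘ pi'` of helper619).

* `Hat A0 D0 n A D pr`: `n`-fold step cover; `exists_hat`.
* `Hat.coch`: a cochain `c s : X0 → R ≤ Z` with `∑ c = 0`, words of length `n` zero on `R`:
  there is `θ : X → R` with `θ (A s x) = B s (θ x) + c s (pr x)`.
* `Hat.hex`: existence of the correction `β` of an exact family (any scalar `c`).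
-/

set_option autoImplicit false
set_option linter.unusedSectionVars false

namespace Crest.Agent.R172.Coch

open Module LinearMap Crest.Agent.R172.CovT

universe u

variable {K : Type*} [Field K]

/-- the span of the words of length `n` applied to `R` -/
def Ims {Z : Type*} [AddCommGroup Z] [Module K Z] (B : Fin 3 → End K Z) (R : Submodule K Z) :
    ℕ → Submodule K Z
  | 0 => R
  | n + 1 => ⨆ s, (Ims B R n).map (B s)

section

variable {Z : Type*} [AddCommGroup Z] [Module K Z] {B : Fin 3 → End K Z} {R : Submodule K Z}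

theorem Ims_le_Nil {m : ℕ} (hR : R ≤ Nil B m) : ∀ n, Ims B R n ≤ Nil B (m - n)
  | 0 => hR
  | n + 1 => by
    refine iSup_le fun s => ?_
    rintro _ ⟨y, hy, rfl⟩
    have := Nil_pred (Ims_le_Nil hR n hy) s
    rwa [Nat.sub_sub] at this

theorem Ims_eq_bot {n : ℕ} (hR : R ≤ Nil B n) : Ims B R n = ⊥ := by
  have h := Ims_le_Nil hR n
  rw [Nat.sub_self] at h
  exact le_bot_iff.1 h

theorem Ims_step {n : ℕ} {y : Z} (hy : y ∈ Ims B R n) (s : Fin 3) : B s y ∈ Ims B R (n + 1) :=
  Submodule.mem_iSup_of_mem s (Submodule.mem_map_of_mem hy)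

theorem Ims_le (hs : ∀ s, ∀ r ∈ R, B s r ∈ R) : ∀ n, Ims B R n ≤ R
  | 0 => le_rfl
  | n + 1 => by
    refine iSup_le fun s => ?_
    rintro _ ⟨y, hy, rfl⟩
    exact hs s _ (Ims_le hs n hy)

end

section

variable {X0 : Type*} [AddCommGroup X0] [Module K X0] {X : Type u} [AddCommGroup X] [Module K X]

/-- `n`-fold step cover -/
structure Hat (A0 : Fin 3 → End K X0) (D0 : End K X0) (n : ℕ) (A : Fin 3 → End K X) (D : End K X)
    (pr : X →ₗ[K] X0) : Prop where
  sumA : ∀ x, A 0 x + A 1 x + A 2 x = 0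
  comm : ∀ s x, D (A s x) = A s (D x)
  prA : ∀ s x, pr (A s x) = A0 s (pr x)
  prD : ∀ x, pr (D x) = D0 (pr x)
  surj : Function.Surjective pr
  perf : ∀ x, ∃ y : Fin 3 → X, x = ∑ s, A s (y s)
  nil : ∀ x, pr x = 0 → x ∈ Nil A n
  nilD : ∀ (lam : K) (m : ℕ), (D0 - lam • (1 : End K X0)) ^ m = 0 →
    (D - lam • (1 : End K X)) ^ m = 0
  pol : ∀ q : Polynomial K, Polynomial.aeval D0 q = 0 → Polynomial.aeval D q = 0
  fin : FiniteDimensional K X0 → FiniteDimensional K X

/-- cochains lift up to words of length `n` -/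
def Lf (Z : Type*) [AddCommGroup Z] [Module K Z] (n : ℕ) (A : Fin 3 → End K X)
    (pr : X →ₗ[K] X0) : Prop :=
  ∀ (B : Fin 3 → End K Z) (R : Submodule K Z) (c : Fin 3 → X0 →ₗ[K] Z),
    (∀ s, ∀ r ∈ R, B s r ∈ R) → (∀ z, B 0 z + B 1 z + B 2 z = 0) →
    (∀ x, c 0 x + c 1 x + c 2 x = 0) → (∀ s x, c s x ∈ R) →
    ∃ θ : X →ₗ[K] Z, (∀ x, θ x ∈ R) ∧ ∀ s x, θ (A s x) - B s (θ x) - c s (pr x) ∈ Ims B R n

end

section step

variable {X0 : Type*} [AddCommGroup X0] [Module K X0] {X : Type u} [AddCommGroup X] [Module K X]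
  {A0 : Fin 3 → End K X0} {D0 : End K X0} {n : ℕ} {A : Fin 3 → End K X} {D : End K X}
  {pr : X →ₗ[K] X0}

theorem Lf.step {Z : Type*} [AddCommGroup Z] [Module K Z] (h : Lf Z n A pr) :
    Lf Z (n + 1) (A' A) (pr ∘ₗ pi' A) := by
  intro B R c hs hB hc hcR
  obtain ⟨θ, hθR, hθ⟩ := h B R c hs hB hc hcR
  let θ' : X × X →ₗ[K] Z := (B 0 ∘ₗ θ + c 0 ∘ₗ pr).coprod (B 1 ∘ₗ θ + c 1 ∘ₗ pr)
  have hem : ∀ s x, θ' (CovT.em K X s x) = B s (θ x) + c s (pr x) := by
    intro s x
    have h2 : B 2 (θ x) = -(B 0 (θ x) + B 1 (θ x)) := by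
      rw [eq_neg_iff_add_eq_zero, add_comm]; exact hB (θ x)
    have h3 : c 2 (pr x) = -(c 0 (pr x) + c 1 (pr x)) := by
      rw [eq_neg_iff_add_eq_zero, add_comm]; exact hc (pr x)
    fin_cases s
    · simp [θ', CovT.em]
    · simp [θ', CovT.em]
    · change θ' (CovT.em K X 2 x) = B 2 (θ x) + c 2 (pr x)
      rw [h2, h3]
      simp [θ', CovT.em]
      abel
  refine ⟨θ', ?_, ?_⟩
  · intro z
    simp only [θ', LinearMap.coprod_apply, LinearMap.add_apply, LinearMap.comp_apply]
    exact R.add_mem (R.add_mem (hs _ _ (hθR _)) (hcR _ _))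
      (R.add_mem (hs _ _ (hθR _)) (hcR _ _))
  · intro s z
    change θ' (CovT.em K X s (pi' A z)) - B s (θ' z) - c s (pr (pi' A z)) ∈ _
    rw [hem]
    have e1 : B s (θ (pi' A z)) + c s (pr (pi' A z)) - B s (θ' z) - c s (pr (pi' A z)) =
        B s (θ (pi' A z) - θ' z) := by
      rw [map_sub]; abel
    rw [e1]
    refine Ims_step ?_ s
    have e2 : θ (pi' A z) - θ' z = (θ (A 0 z.1) - B 0 (θ z.1) - c 0 (pr z.1)) +
        (θ (A 1 z.2) - B 1 (θ z.2) - c 1 (pr z.2)) := by
      simp only [θ', pi', LinearMap.coprod_apply, LinearMap.add_apply, LinearMap.comp_apply,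
        map_add]
      abel
    rw [e2]
    exact Submodule.add_mem _ (hθ 0 _) (hθ 1 _)

theorem Lf.base {Z : Type*} [AddCommGroup Z] [Module K Z] {X : Type u} [AddCommGroup X]
    [Module K X] {A : Fin 3 → End K X} : Lf Z 0 A (LinearMap.id : X →ₗ[K] X) := by
  intro B R c hs hB hc hcR
  refine ⟨0, fun x => R.zero_mem, fun s x => ?_⟩
  simp only [LinearMap.zero_apply, map_zero, sub_zero, zero_sub, LinearMap.id_apply]
  exact R.neg_mem (hcR s x)

theorem Hat.base {X : Type u} [AddCommGroup X] [Module K X] {A : Fin 3 → End K X} {D : End K X}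
    (hA : ∀ x, A 0 x + A 1 x + A 2 x = 0) (hD : ∀ s x, D (A s x) = A s (D x))
    (hp : ∀ x, ∃ y : Fin 3 → X, x = ∑ s, A s (y s)) : Hat A D 0 A D LinearMap.id where
  sumA := hA
  comm := hD
  prA _ _ := rfl
  prD _ := rfl
  surj x := ⟨x, rfl⟩
  perf := hp
  nil x hx := mem_Nil_zero.2 hx
  nilD _ _ h := h
  pol _ h := h
  fin h := h

theorem Hat.step (h : Hat A0 D0 n A D pr) :
    Hat A0 D0 (n + 1) (A' A) (LinearMap.prodMap D D) (pr ∘ₗ pi' A) where
  sumA z := em_sum (pi' A z)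
  comm s z := by
    change (LinearMap.prodMap D D) (CovT.em K X s (pi' A z)) = CovT.em K X s (pi' A (LinearMap.prodMap D D z))
    have h1 : pi' A (LinearMap.prodMap D D z) = D (pi' A z) := by
      simp [pi', h.comm]
    rw [h1]
    fin_cases s <;> simp [CovT.em]
  prA s z := by
    change pr (pi' A (CovT.em K X s (pi' A z))) = A0 s (pr (pi' A z))
    rw [pi'_em h.sumA, h.prA]
  prD z := by
    have h1 : pi' A (LinearMap.prodMap D D z) = D (pi' A z) := by
      simp [pi', h.comm]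
    change pr (pi' A (LinearMap.prodMap D D z)) = D0 (pr (pi' A z))
    rw [h1, h.prD]
  surj x := by
    obtain ⟨x1, rfl⟩ := h.surj x
    obtain ⟨y, hy⟩ := h.perf x1
    refine ⟨(y 0 - y 2, y 1 - y 2), ?_⟩
    change pr (pi' A (y 0 - y 2, y 1 - y 2)) = _
    congr 1
    rw [hy, Fin.sum_univ_three]
    simp only [pi', LinearMap.coprod_apply, map_sub]
    have h2 : A 2 (y 2) = -(A 0 (y 2) + A 1 (y 2)) := by
      rw [eq_neg_iff_add_eq_zero, add_comm]; exact h.sumA (y 2)
    rw [h2]; abel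
  perf z := by
    have key : ∀ x : X, ∃ w : X × X, pi' A w = x := by
      intro x
      obtain ⟨y, hy⟩ := h.perf x
      refine ⟨(y 0 - y 2, y 1 - y 2), ?_⟩
      rw [hy, Fin.sum_univ_three]
      simp only [pi', LinearMap.coprod_apply, map_sub]
      have h2 : A 2 (y 2) = -(A 0 (y 2) + A 1 (y 2)) := by
        rw [eq_neg_iff_add_eq_zero, add_comm]; exact h.sumA (y 2)
      rw [h2]; abel
    obtain ⟨w0, hw0⟩ := key z.1
    obtain ⟨w1, hw1⟩ := key z.2
    refine ⟨fun s => if s = 0 then w0 else if s = 1 then w1 else 0, ?_⟩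
    rw [Fin.sum_univ_three]
    simp only [if_true, Fin.isValue, one_ne_zero, if_false]
    change z = CovT.em K X 0 (pi' A w0) + CovT.em K X 1 (pi' A w1) + _
    rw [hw0, hw1]
    have h3 : (A' A 2) (if (2 : Fin 3) = 0 then w0 else if (2 : Fin 3) = 1 then w1 else 0) = 0 := by
      rw [if_neg (by decide), if_neg (by decide), map_zero]
    rw [h3]
    simp [CovT.em]
  nil z hz := mem_Nil_A' h.sumA n z (h.nil _ hz)
  nilD lam m hm := by
    have h1 := h.nilD lam m hm
    have h2 : (LinearMap.prodMap D D - lam • (1 : End K (X × X))) =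
        LinearMap.prodMap (D - lam • (1 : End K X)) (D - lam • (1 : End K X)) := by
      ext z <;> simp
    rw [h2]
    have h3 : ∀ k, (LinearMap.prodMap (D - lam • (1 : End K X)) (D - lam • (1 : End K X)) :
        End K (X × X)) ^ k =
        LinearMap.prodMap ((D - lam • (1 : End K X)) ^ k) ((D - lam • (1 : End K X)) ^ k) := by
      intro k
      induction k with
      | zero => ext z <;> simp
      | succ k ih =>
        rw [pow_succ, ih]
        ext z <;> simp [pow_succ]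
    rw [h3, h1]
    ext z <;> simp
  pol q hq := by
    have h1 := h.pol q hq
    have h3 : ∀ q : Polynomial K, ∀ z : X × X, Polynomial.aeval (LinearMap.prodMap D D :
        End K (X × X)) q z = (Polynomial.aeval D q z.1, Polynomial.aeval D q z.2) := by
      intro q
      induction q using Polynomial.induction_on' with
      | add p q hp hq => intro z; simp [hp z, hq z]
      | monomial j a =>
        intro z
        have h4 : ∀ j : ℕ, ∀ z : X × X, ((LinearMap.prodMap D D : End K (X × X)) ^ j) z =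
            ((D ^ j) z.1, (D ^ j) z.2) := by
          intro j
          induction j with
          | zero => intro z; simp
          | succ j ih => intro z; rw [pow_succ, Module.End.mul_apply, ih]; simp [pow_succ]
        rw [Polynomial.aeval_monomial, Polynomial.aeval_monomial]
        simp only [Module.End.mul_apply, h4, Module.algebraMap_end_apply]
        rfl
    ext z <;> simp [h3, h1]
  fin h0 := by
    have := h.fin h0
    infer_instance

theorem exists_hat {X0 : Type u} [AddCommGroup X0] [Module K X0] {A0 : Fin 3 → End K X0}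
    {D0 : End K X0} (hA : ∀ x, A0 0 x + A0 1 x + A0 2 x = 0) (hD : ∀ s x, D0 (A0 s x) = A0 s (D0 x))
    (hp : ∀ x, ∃ y : Fin 3 → X0, x = ∑ s, A0 s (y s)) (Z : Type*) [AddCommGroup Z] [Module K Z]
    (n : ℕ) :
    ∃ (X : Type u) (_ : AddCommGroup X) (_ : Module K X) (A : Fin 3 → End K X) (D : End K X)
      (pr : X →ₗ[K] X0), Hat A0 D0 n A D pr ∧ Lf Z n A pr := by
  induction n with
  | zero => exact ⟨X0, _, _, A0, D0, LinearMap.id, Hat.base hA hD hp, Lf.base⟩
  | succ n ih =>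
    obtain ⟨X, i1, i2, A, D, pr, h1, h2⟩ := ih
    exact ⟨X × X, _, _, A' A, LinearMap.prodMap D D, pr ∘ₗ pi' A, h1.step, h2.step⟩

/-- **cochains are coboundaries** -/
theorem Lf.coch {Z : Type*} [AddCommGroup Z] [Module K Z] (h : Lf Z n A pr)
    {B : Fin 3 → End K Z} {R : Submodule K Z} (c : Fin 3 → X0 →ₗ[K] Z)
    (hs : ∀ s, ∀ r ∈ R, B s r ∈ R) (hB : ∀ z, B 0 z + B 1 z + B 2 z = 0)
    (hR : R ≤ Nil B n)
    (hc : ∀ x, c 0 x + c 1 x + c 2 x = 0) (hcR : ∀ s x, c s x ∈ R) :
    ∃ θ : X →ₗ[K] Z, (∀ x, θ x ∈ R) ∧ ∀ s x, θ (A s x) = B s (θ x) + c s (pr x) := by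
  obtain ⟨θ, h1, h2⟩ := h B R c hs hB hc hcR
  refine ⟨θ, h1, fun s x => ?_⟩
  have h3 := h2 s x
  rw [Ims_eq_bot hR, Submodule.mem_bot] at h3
  rw [← sub_eq_zero, ← sub_sub]
  exact h3

end step

end Crest.Agent.R172.Coch
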