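import Crest.Agent.R172.Mix2
import Crest.Agent.R172.Core2

/-!
Row 172 (S0260), node Q-ENDP, abstract part: the form on the core `Pinf a / (Pinf a ∩ T a)` of a
family `a` of self-adjoint operators with respect to a (degenerate) symmetric form whose radical is
killed by all `a s`.

* `mem_T_iff` : `v ∈ T a ↔ v ⊥ Pinf a`;
* `BC` : the form on `Cor a`, `BC_NS` : it is nondegenerate;
* `ev` : `Pinf a ⊗ Pinf a → End (Pinf a)`, `exists_lift` : every endomorphism of the core is
  induced by some `ev t`.
-/

set_option autoImplicit false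
set_option linter.unusedSectionVars false

namespace Crest.Agent.R172.QEndP

open Module TensorProduct
open Crest.Agent.R172.Mix
open Crest.Agent.R172.St (T Nk mem_T T_stable mem_Nk_succ mem_Nk_zero Nk_le_T)
open Crest.Agent.R172.Core (NS)

variable {K : Type*} [Field K] {X : Type*} [AddCommGroup X] [Module K X] {ι : Type*}

/-- the hypotheses on the form -/
structure FH (b : LinearMap.BilinForm K X) (a : ι → End K X) : Prop where
  symm : ∀ v w, b v w = b w v
  sa : ∀ s v w, b (a s v) w = b v (a s w)
  rad : ∀ v, (∀ w, b v w = 0) → ∀ s, a s v = 0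

variable {b : LinearMap.BilinForm K X} {a : ι → End K X}

theorem FH.perp_of_Nk (h : FH b a) (k : ℕ) : ∀ v ∈ Nk a k, ∀ x ∈ Rg a k, b v x = 0 := by
  induction k with
  | zero =>
    intro v hv x _
    rw [mem_Nk_zero] at hv
    rw [hv, map_zero, LinearMap.zero_apply]
  | succ k ih =>
    intro v hv x hx
    rw [mem_Nk_succ] at hv
    rw [Rg_succ] at hx
    induction hx using Submodule.iSup_induction' with
    | mem s y hy =>
      obtain ⟨z, hz, rfl⟩ := hy
      rw [← h.sa]
      exact ih _ (hv s) z hz
    | zero => rw [map_zero]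
    | add x y _ _ hx hy => rw [map_add, hx, hy, add_zero]

theorem FH.Nk_of_perp (h : FH b a) (k : ℕ) : ∀ v, (∀ x ∈ Rg a k, b v x = 0) → v ∈ Nk a (k + 1) := by
  induction k with
  | zero =>
    intro v hv
    rw [mem_Nk_succ]
    intro s
    rw [mem_Nk_zero]
    exact h.rad v (fun w => hv w trivial) s
  | succ k ih =>
    intro v hv
    rw [mem_Nk_succ]
    intro s
    refine ih _ fun y hy => ?_
    rw [h.sa]
    exact hv _ (map_mem_Rg s hy)

theorem FH.mem_T_iff [FiniteDimensional K X] (h : FH b a) {v : X} :
    v ∈ T a ↔ ∀ x ∈ Pinf a, b v x = 0 := by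
  constructor
  · intro hv x hx
    obtain ⟨k, hk⟩ := mem_T.1 hv
    exact h.perp_of_Nk k v hk x (mem_Pinf.1 hx k)
  · intro hv
    obtain ⟨k, hk⟩ := exists_Pinf_eq a
    exact Nk_le_T a (k + 1) (h.Nk_of_perp k v (by rw [hk k le_rfl]; exact hv))

/-- the form on `Pinf a` -/
def BP (b : LinearMap.BilinForm K X) (a : ι → End K X) : LinearMap.BilinForm K (Pinf a) :=
  b.restrict (Pinf a)

theorem BP_apply (v w : Pinf a) : BP b a v w = b v w := rfl

/-- the form on the core -/
def BC [FiniteDimensional K X] (h : FH b a) : LinearMap.BilinForm K (Cor a) :=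
  (TP a).liftQ
    { toFun := fun p => (TP a).liftQ (BP b a p) (by
        intro q hq
        rw [LinearMap.mem_ker, BP_apply, h.symm]
        exact h.mem_T_iff.1 hq p p.2)
      map_add' := by
        intro p p'
        ext q
        simp
      map_smul' := by
        intro c p
        ext q
        simp }
    (by
      intro p hp
      rw [LinearMap.mem_ker]
      ext q
      exact h.mem_T_iff.1 hp q q.2)

theorem BC_mk [FiniteDimensional K X] (h : FH b a) (p q : Pinf a) :
    BC h (Submodule.Quotient.mk p) (Submodule.Quotient.mk q) = b p q := rfl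

theorem BC_NS [FiniteDimensional K X] (h : FH b a) : NS (BC h) where
  symm v w := by
    induction v using Submodule.Quotient.induction_on with
    | _ p =>
      induction w using Submodule.Quotient.induction_on with
      | _ q => rw [BC_mk, BC_mk, h.symm]
  nd v hv := by
    induction v using Submodule.Quotient.induction_on with
    | _ p =>
      rw [mk_eq_zero]
      exact h.mem_T_iff.2 fun x hx => hv (Submodule.Quotient.mk ⟨x, hx⟩)

theorem BC_sa [FiniteDimensional K X] (h : FH b a) (s : ι) (v w : Cor a) :
    BC h (ac a s v) w = BC h v (ac a s w) := by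
  induction v using Submodule.Quotient.induction_on with
  | _ p =>
    induction w using Submodule.Quotient.induction_on with
    | _ q =>
      rw [ac_mk, ac_mk, BC_mk, BC_mk]
      exact h.sa s p q

/-- `ev (p ⊗ p') v = b p' v • p` -/
noncomputable def ev (b : LinearMap.BilinForm K X) (a : ι → End K X) :
    (Pinf a ⊗[K] Pinf a) →ₗ[K] End K (Pinf a) :=
  TensorProduct.lift (LinearMap.mk₂ K (fun x y => (BP b a y).smulRight x)
    (by intro x x' y; ext v; simp)
    (by intro c x y; ext v; simp [smul_smul, mul_comm])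
    (by intro x y y'; ext v; simp [add_smul])
    (by intro c x y; ext v; simp [smul_smul]))

theorem ev_tmul (x y v : Pinf a) : ev b a (x ⊗ₜ y) v = b y v • x := rfl

/-- `f : End (Pinf a)` induces `A` on the core -/
def Lifts (f : End K (Pinf a)) (A : End K (Cor a)) : Prop :=
  ∀ p : Pinf a, (Submodule.Quotient.mk (f p) : Cor a) = A (Submodule.Quotient.mk p)

theorem exists_lift [FiniteDimensional K X] (h : FH b a) (A : End K (Cor a)) :
    ∃ t : Pinf a ⊗[K] Pinf a, Lifts (ev b a t) A := by
  classical
  have hN := (BC_NS h).nondeg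
  let c := Module.finBasis K (Cor a)
  let d := (BC h).dualBasis hN c
  have hx : ∀ i, ∃ x : Pinf a, (Submodule.Quotient.mk x : Cor a) = A (c i) := fun i =>
    Submodule.Quotient.mk_surjective _ _
  have hy : ∀ i, ∃ y : Pinf a, (Submodule.Quotient.mk y : Cor a) = d i := fun i =>
    Submodule.Quotient.mk_surjective _ _
  choose x hx using hx
  choose y hy using hy
  refine ⟨∑ i, x i ⊗ₜ y i, fun p => ?_⟩
  have e1 : ∀ v : Cor a, ∀ i, BC h (d i) v = c.repr v i := by
    intro v i
    conv_lhs => rw [← c.sum_repr v]
    rw [map_sum, Finset.sum_eq_single i]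
    · rw [map_smul, LinearMap.BilinForm.apply_dualBasis_left, if_pos rfl, smul_eq_mul, mul_one]
    · intro j _ hj
      rw [map_smul, LinearMap.BilinForm.apply_dualBasis_left, if_neg hj, smul_zero]
    · intro hi; exact absurd (Finset.mem_univ i) hi
  have e2 : A (Submodule.Quotient.mk p)
      = ∑ i, BC h (d i) (Submodule.Quotient.mk p) • A (c i) := by
    conv_lhs => rw [← c.sum_repr (Submodule.Quotient.mk p)]
    rw [map_sum]
    refine Finset.sum_congr rfl fun i _ => ?_
    rw [map_smul, e1]
  rw [e2, map_sum, LinearMap.sum_apply]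
  have e3 : (Submodule.Quotient.mk (∑ i, (ev b a (x i ⊗ₜ y i)) p) : Cor a)
      = ∑ i, (Submodule.Quotient.mk ((ev b a (x i ⊗ₜ y i)) p) : Cor a) :=
    map_sum (TP a).mkQ _ _
  rw [e3]
  refine Finset.sum_congr rfl fun i _ => ?_
  rw [ev_tmul, Submodule.Quotient.mk_smul, hx, ← hy, BC_mk]

end Crest.Agent.R172.QEndP
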