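import Crest.Agent.R172.RJM

/-!
Row 172 (S0260): uniqueness of the correction `Cor` on a perfect module.
-/

set_option autoImplicit false
set_option linter.unusedSectionVars false

namespace Crest.Agent.R172.CorU

open Module TensorProduct Crest.Agent.R172

variable {K : Type*} [Field K] {P1 P2 : Type*} [AddCommGroup P1] [Module K P1]
  [AddCommGroup P2] [Module K P2]

/-- perfectness for words of length `n` -/
theorem perf_words {B : Fin 3 → End K P2} (hperf : ∀ p : P2, ∃ f : Fin 3 → P2, p = ∑ t, B t (f t))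
    (S : Submodule K P2) (n : ℕ)
    (hS : ∀ w : List (Fin 3), w.length = n → ∀ v, (w.map B).prod v ∈ S) : ∀ p, p ∈ S := by
  induction n generalizing S with
  | zero => intro p; simpa using hS [] rfl p
  | succ n ih =>
    refine ih S fun w hw v => ?_
    obtain ⟨f, hf⟩ := hperf v
    rw [hf, map_sum]
    refine Submodule.sum_mem _ fun t _ => ?_
    have h1 := hS (w ++ [t]) (by simp [hw]) (f t)
    rw [List.map_append, List.prod_append] at h1
    simpa using h1

theorem cor_unique {A : Fin 3 → End K P1} {B : Fin 3 → End K P2} {R1 : Submodule K P1}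
    {g2 : P2 →ₗ[K] P2 →ₗ[K] K} {eps c : K} (hec : eps * c ≠ 0) {x : Fin 3 → P2 ⊗[K] P1}
    {b b' : P2 →ₗ[K] P1} (hb : RJM.Cor A B R1 g2 eps c x b) (hb' : RJM.Cor A B R1 g2 eps c x b')
    (hperf : ∀ p : P2, ∃ f : Fin 3 → P2, p = ∑ t, B t (f t))
    (hst : ∀ t, ∀ r ∈ R1, A t r ∈ R1)
    (hkill : ∃ m, ∀ w : List (Fin 3), m ≤ w.length → ∀ r ∈ R1, (w.map A).prod r = 0) :
    b = b' := by
  obtain ⟨m, hm⟩ := hkill
  have hmem : ∀ v, (b - b') v ∈ R1 := fun v => by
    rw [LinearMap.sub_apply]; exact R1.sub_mem (hb.mem v) (hb'.mem v)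
  have hstep : ∀ t v, A t ((b - b') v) = (eps * c) • (b - b') (B t v) := by
    intro t v
    have h1 := hb.eq t v
    have h2 := hb'.eq t v
    rw [LinearMap.sub_apply, LinearMap.sub_apply, map_sub, smul_sub, ← sub_eq_zero]
    have h3 : A t (b v) - A t (b' v) - ((eps * c) • b (B t v) - (eps * c) • b' (B t v))
        = (A t (b v) - (eps * c) • b (B t v)) - (A t (b' v) - (eps * c) • b' (B t v)) := by abel
    rw [h3, h1, h2, sub_self]
  have hw : ∀ w : List (Fin 3), ∀ v, (w.map A).prod ((b - b') v)
      = (eps * c) ^ w.length • (b - b') ((w.map B).prod v) := by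
    intro w
    induction w with
    | nil => intro v; simp
    | cons t w ih =>
      intro v
      rw [List.map_cons, List.prod_cons, Module.End.mul_apply, ih, map_smul, hstep, smul_smul,
        List.map_cons, List.prod_cons, Module.End.mul_apply, List.length_cons, pow_succ]
  have hz : ∀ w : List (Fin 3), w.length = m → ∀ v, (w.map B).prod v ∈
      LinearMap.ker (b - b') := by
    intro w hwl v
    rw [LinearMap.mem_ker]
    have h1 := hw w v
    rw [hm w hwl.ge _ (hmem v)] at h1
    exact (smul_eq_zero.1 h1.symm).resolve_left (pow_ne_zero _ hec)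
  rw [← sub_eq_zero]
  ext p
  exact perf_words hperf (LinearMap.ker (b - b')) m hz p

end Crest.Agent.R172.CorU
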