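import Mathlib

/-!
Row 172, structure lemma (S) of note 12992 (helper579), part 1:
dimension of the space of intertwiners between two nilpotent operators, and the Euler inequality.
-/

namespace Crest.Agent.R172.Core

open Module LinearMap

variable {K : Type*} [Field K]

/-- Intertwiners `x` with `x α = β x`. -/
def Inter {P Q : Type*} [AddCommGroup P] [Module K P] [AddCommGroup Q] [Module K Q]
    (α : Module.End K P) (β : Module.End K Q) : Submodule K (P →ₗ[K] Q) where
  carrier := {x | x ∘ₗ α = β ∘ₗ x}
  add_mem' := by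
    intro x y hx hy
    change (x + y) ∘ₗ α = β ∘ₗ (x + y)
    have hx' : x ∘ₗ α = β ∘ₗ x := hx
    have hy' : y ∘ₗ α = β ∘ₗ y := hy
    rw [LinearMap.add_comp, LinearMap.comp_add, hx', hy']
  zero_mem' := by simp
  smul_mem' := by
    intro c x hx
    change (c • x) ∘ₗ α = β ∘ₗ (c • x)
    have hx' : x ∘ₗ α = β ∘ₗ x := hx
    rw [LinearMap.smul_comp, LinearMap.comp_smul, hx']

theorem mem_Inter {P Q : Type*} [AddCommGroup P] [Module K P] [AddCommGroup Q] [Module K Q]
    {α : Module.End K P} {β : Module.End K Q} {x : P →ₗ[K] Q} :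
    x ∈ Inter α β ↔ ∀ v, x (α v) = β (x v) := by
  constructor
  · intro h v
    exact LinearMap.congr_fun h v
  · intro h
    exact LinearMap.ext h

/-- rank of the `j`-th power. -/
noncomputable def rk {P : Type*} [AddCommGroup P] [Module K P] (α : Module.End K P) (j : ℕ) : ℕ :=
  finrank K (range (α ^ j))

theorem rk_zero {P : Type*} [AddCommGroup P] [Module K P] (α : Module.End K P) :
    rk α 0 = finrank K P := by
  have : range (α ^ 0) = ⊤ := by
    rw [pow_zero]
    exact LinearMap.range_id
  unfold rk
  rw [this, finrank_top]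

theorem rk_succ_le {P : Type*} [AddCommGroup P] [Module K P] [FiniteDimensional K P]
    (α : Module.End K P) (j : ℕ) : rk α (j + 1) ≤ rk α j := by
  unfold rk
  apply Submodule.finrank_mono
  rintro _ ⟨v, rfl⟩
  exact ⟨α v, by rw [pow_succ]; rfl⟩

/-- the dual partition `n_j = rk α^j - rk α^{j+1}`. -/
noncomputable def nn {P : Type*} [AddCommGroup P] [Module K P] (α : Module.End K P) (j : ℕ) : ℤ :=
  (rk α j : ℤ) - rk α (j + 1)

theorem nn_nonneg {P : Type*} [AddCommGroup P] [Module K P] [FiniteDimensional K P]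
    (α : Module.End K P) (j : ℕ) : 0 ≤ nn α j := by
  have := rk_succ_le α j
  unfold nn
  omega

/-- the restriction of `α` to its range. -/
noncomputable def resR {P : Type*} [AddCommGroup P] [Module K P] (α : Module.End K P) :
    Module.End K (range α) :=
  α.restrict (p := range α) (q := range α) (fun v _ => ⟨v, rfl⟩)

theorem resR_apply {P : Type*} [AddCommGroup P] [Module K P] (α : Module.End K P)
    (v : range α) : ((resR α v : range α) : P) = α v := rfl

theorem resR_pow_apply {P : Type*} [AddCommGroup P] [Module K P] (α : Module.End K P) (j : ℕ)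
    (v : range α) : (((resR α ^ j) v : range α) : P) = (α ^ j) v := by
  induction j generalizing v with
  | zero => rfl
  | succ j ih =>
    rw [pow_succ, pow_succ]
    change (((resR α ^ j) (resR α v) : range α) : P) = (α ^ j) (α v)
    rw [ih]
    rfl

theorem rk_resR {P : Type*} [AddCommGroup P] [Module K P]
    (α : Module.End K P) (j : ℕ) : rk (resR α) j = rk α (j + 1) := by
  unfold rk
  have h : (range (resR α ^ j)).map (range α).subtype = range (α ^ (j + 1)) := by
    apply le_antisymm
    · rintro _ ⟨_, ⟨v, rfl⟩, rfl⟩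
      obtain ⟨w, hw⟩ := v.2
      refine ⟨w, ?_⟩
      change (α ^ (j + 1)) w = (((resR α ^ j) v : range α) : P)
      rw [resR_pow_apply, ← hw, pow_succ]
      rfl
    · rintro _ ⟨w, rfl⟩
      refine ⟨(resR α ^ j) ⟨α w, ⟨w, rfl⟩⟩, ⟨_, rfl⟩, ?_⟩
      change (((resR α ^ j) ⟨α w, ⟨w, rfl⟩⟩ : range α) : P) = _
      rw [resR_pow_apply, pow_succ]
      rfl
  rw [← h]
  exact (LinearEquiv.finrank_eq
    (Submodule.equivMapOfInjective _ (Submodule.injective_subtype _) _))

theorem nn_resR {P : Type*} [AddCommGroup P] [Module K P]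
    (α : Module.End K P) (j : ℕ) : nn (resR α) j = nn α (j + 1) := by
  unfold nn
  rw [rk_resR, rk_resR]

theorem nn_zero {P : Type*} [AddCommGroup P] [Module K P] [FiniteDimensional K P]
    (α : Module.End K P) : nn α 0 = finrank K (ker α) := by
  unfold nn
  rw [rk_zero]
  unfold rk
  have := LinearMap.finrank_range_add_finrank_ker α
  rw [zero_add, pow_one]
  omega

/-- `n_{j+1} ≤ n_j`. -/
theorem nn_succ_le {P : Type*} [AddCommGroup P] [Module K P] [FiniteDimensional K P]
    (α : Module.End K P) (j : ℕ) : nn α (j + 1) ≤ nn α j := by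
  induction j generalizing P with
  | zero =>
    rw [← nn_resR, nn_zero, nn_zero]
    have : finrank K (ker (resR α)) ≤ finrank K (ker α) := by
      have hmap : (ker (resR α)).map (range α).subtype ≤ ker α := by
        rintro _ ⟨v, hv, rfl⟩
        rw [LinearMap.mem_ker]
        have : ((resR α v : range α) : P) = 0 := by
          rw [LinearMap.mem_ker.1 hv]; rfl
        rw [resR_apply] at this
        exact this
      calc finrank K (ker (resR α)) = finrank K ((ker (resR α)).map (range α).subtype) :=
            LinearEquiv.finrank_eq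
              (Submodule.equivMapOfInjective _ (Submodule.injective_subtype _) _)
        _ ≤ finrank K (ker α) := Submodule.finrank_mono hmap
    exact_mod_cast this
  | succ j ih =>
    rw [← nn_resR α (j + 1), ← nn_resR α j]
    exact ih (resR α)

/-- The dimension of the space of intertwiners is at most `∑ n_j(α) n_j(β)`. -/
theorem finrank_Inter_le {P Q : Type*} [AddCommGroup P] [Module K P] [FiniteDimensional K P]
    [AddCommGroup Q] [Module K Q] [FiniteDimensional K Q]
    (k : ℕ) (α : Module.End K P) (β : Module.End K Q) (hα : α ^ k = 0) :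
    (finrank K (Inter α β) : ℤ) ≤ ∑ j ∈ Finset.range k, nn α j * nn β j := by
  induction k generalizing P Q with
  | zero =>
    have hP : Subsingleton P := by
      constructor
      intro v w
      have h := LinearMap.congr_fun hα (v - w)
      simp at h
      exact sub_eq_zero.1 h
    have : finrank K (Inter α β) = 0 := by
      have hs : Subsingleton (P →ₗ[K] Q) := by
        constructor
        intro f g
        ext v
        rw [Subsingleton.elim v 0]; simp
      exact finrank_zero_of_subsingleton
    simp [this]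
  | succ k ih =>
    rw [Finset.sum_range_succ']
    -- restriction map
    have hres : ∀ x : Inter α β, ∀ v ∈ range α, (x : P →ₗ[K] Q) v ∈ range β := by
      rintro x _ ⟨v, rfl⟩
      rw [mem_Inter.1 x.2 v]
      exact ⟨_, rfl⟩
    let ρ : Inter α β →ₗ[K] (range α →ₗ[K] range β) :=
      { toFun := fun x => (x : P →ₗ[K] Q).restrict (hres x)
        map_add' := by
          intro x y; ext v; rfl
        map_smul' := by
          intro c x; ext v; rfl }
    have hρ : ∀ x, ρ x ∈ Inter (resR α) (resR β) := by
      intro x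
      rw [mem_Inter]
      intro v
      apply Subtype.ext
      change (x : P →ₗ[K] Q) (α v) = β ((x : P →ₗ[K] Q) v)
      exact mem_Inter.1 x.2 _
    have h1 : finrank K (range ρ) ≤ finrank K (Inter (resR α) (resR β)) := by
      apply Submodule.finrank_mono
      rintro _ ⟨x, rfl⟩
      exact hρ x
    -- the kernel
    obtain ⟨C, hC⟩ := Submodule.exists_isCompl (range α)
    have hkβ : ∀ x : ker ρ, ∀ v : P, ((x : Inter α β) : P →ₗ[K] Q) v ∈ ker β := by
      intro x v
      rw [LinearMap.mem_ker, ← mem_Inter.1 (x : Inter α β).2 v]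
      have h := LinearMap.congr_fun (LinearMap.mem_ker.1 x.2) ⟨α v, ⟨v, rfl⟩⟩
      exact congrArg Subtype.val h
    have hkα : ∀ x : ker ρ, ∀ v ∈ range α, ((x : Inter α β) : P →ₗ[K] Q) v = 0 := by
      rintro x _ ⟨v, rfl⟩
      have h := LinearMap.congr_fun (LinearMap.mem_ker.1 x.2) ⟨α v, ⟨v, rfl⟩⟩
      exact congrArg Subtype.val h
    have h2 : finrank K (ker ρ) ≤ finrank K (C →ₗ[K] ker β) := by
      let κ : ker ρ →ₗ[K] (C →ₗ[K] ker β) :=
        { toFun := fun x => ((x : Inter α β) : P →ₗ[K] Q).restrict (fun v _ => hkβ x v)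
          map_add' := by
            intro x y; ext v; rfl
          map_smul' := by
            intro c x; ext v; rfl }
      apply LinearMap.finrank_le_finrank_of_injective (f := κ)
      intro x y hxy
      apply Subtype.ext
      apply Subtype.ext
      ext v
      have hv : v ∈ range α ⊔ C := by rw [hC.sup_eq_top]; trivial
      obtain ⟨u, hu, c, hc, rfl⟩ := Submodule.mem_sup.1 hv
      rw [map_add, map_add, hkα x u hu, hkα y u hu]
      have h := LinearMap.congr_fun hxy ⟨c, hc⟩
      have h' : ((x : Inter α β) : P →ₗ[K] Q) c = ((y : Inter α β) : P →ₗ[K] Q) c :=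
        congrArg Subtype.val h
      rw [h']
    have h3 : finrank K (C →ₗ[K] ker β) =
        finrank K C * finrank K (ker β) := Module.finrank_linearMap _ _ _ _
    have h4 : finrank K C = finrank K (ker α) := by
      have e1 := Submodule.finrank_add_eq_of_isCompl hC
      have e2 := LinearMap.finrank_range_add_finrank_ker α
      omega
    have h5 := LinearMap.finrank_range_add_finrank_ker ρ
    have hk : (resR α) ^ k = 0 := by
      ext v
      obtain ⟨w, hw⟩ := v.2
      rw [resR_pow_apply, ← hw]
      have := LinearMap.congr_fun hα w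
      rw [pow_succ] at this
      exact this
    have h6 := ih (resR α) (resR β) hk
    have h7 : ∑ j ∈ Finset.range k, nn (resR α) j * nn (resR β) j =
        ∑ j ∈ Finset.range k, nn α (j + 1) * nn β (j + 1) :=
      Finset.sum_congr rfl (fun j _ => by rw [nn_resR, nn_resR])
    rw [h7] at h6
    have h8 : nn α 0 * nn β 0 = ((finrank K (ker α) * finrank K (ker β) : ℕ) : ℤ) := by
      rw [nn_zero, nn_zero]; push_cast; ring
    rw [h8]
    have h9 : finrank K (Inter α β) ≤
        finrank K (Inter (resR α) (resR β)) + finrank K (ker α) * finrank K (ker β) := by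
      rw [h3, h4] at h2
      omega
    have h10 : (finrank K (Inter α β) : ℤ) ≤
        finrank K (Inter (resR α) (resR β)) + ((finrank K (ker α) * finrank K (ker β) : ℕ) : ℤ) := by
      exact_mod_cast h9
    linarith

section Euler

variable {ι : Type*} [Fintype ι]
variable {P Q : Type*} [AddCommGroup P] [Module K P] [FiniteDimensional K P]
    [AddCommGroup Q] [Module K Q] [FiniteDimensional K Q]

/-- joint intertwiners. -/
def InterAll (α : ι → Module.End K P) (β : ι → Module.End K Q) : Submodule K (P →ₗ[K] Q) :=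
  ⨅ s, Inter (α s) (β s)

omit [Fintype ι] [FiniteDimensional K P] [FiniteDimensional K Q] in
theorem mem_InterAll {α : ι → Module.End K P} {β : ι → Module.End K Q} {x : P →ₗ[K] Q} :
    x ∈ InterAll α β ↔ ∀ s v, x (α s v) = β s (x v) := by
  simp only [InterAll, Submodule.mem_iInf, mem_Inter]

/-- Euler characteristic inequality from the vanishing of `H^1`. -/
theorem euler_le (α : ι → Module.End K P) (β : ι → Module.End K Q)
    (H1 : ∀ x : ι → (P →ₗ[K] Q), ∑ s, (x s ∘ₗ α s - β s ∘ₗ x s) = 0 →
      ∃ y : P →ₗ[K] Q, ∀ s, x s - y ∈ Inter (α s) (β s)) :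
    ((Fintype.card ι : ℤ) - 2) * finrank K P * finrank K Q + finrank K (InterAll α β) ≤
      ∑ s, (finrank K (Inter (α s) (β s)) : ℤ) := by
  let Ψ : (ι → (P →ₗ[K] Q)) →ₗ[K] (P →ₗ[K] Q) :=
    { toFun := fun x => ∑ s, (x s ∘ₗ α s - β s ∘ₗ x s)
      map_add' := by
        intro x y
        rw [← Finset.sum_add_distrib]
        refine Finset.sum_congr rfl (fun s _ => ?_)
        rw [Pi.add_apply, LinearMap.add_comp, LinearMap.comp_add]
        abel
      map_smul' := by
        intro c x
        rw [RingHom.id_apply, Finset.smul_sum]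
        refine Finset.sum_congr rfl (fun s _ => ?_)
        rw [Pi.smul_apply, LinearMap.smul_comp, LinearMap.comp_smul, smul_sub] }
  let Θ : ((P →ₗ[K] Q) × (∀ s, Inter (α s) (β s))) →ₗ[K] (ι → (P →ₗ[K] Q)) :=
    { toFun := fun z s => z.1 + (z.2 s : P →ₗ[K] Q)
      map_add' := by
        intro x y
        funext s
        simp only [Prod.fst_add, Prod.snd_add, Pi.add_apply, Submodule.coe_add]
        abel
      map_smul' := by
        intro c x
        funext s
        simp only [Prod.smul_fst, Prod.smul_snd, Pi.smul_apply, Submodule.coe_smul,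
          RingHom.id_apply, smul_add] }
  have hker : ker Ψ ≤ range Θ := by
    intro x hx
    obtain ⟨y, hy⟩ := H1 x (LinearMap.mem_ker.1 hx)
    refine ⟨(y, fun s => ⟨x s - y, hy s⟩), ?_⟩
    funext s
    change y + (x s - y) = x s
    abel
  have h1 : finrank K (ker Ψ) ≤ finrank K (range Θ) := Submodule.finrank_mono hker
  have h2 := LinearMap.finrank_range_add_finrank_ker Ψ
  have h3 := LinearMap.finrank_range_add_finrank_ker Θ
  have h4 : finrank K (range Ψ) ≤ finrank K (P →ₗ[K] Q) := Submodule.finrank_le _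
  have h5 : finrank K (ι → (P →ₗ[K] Q)) = Fintype.card ι * finrank K (P →ₗ[K] Q) := by
    rw [Module.finrank_pi_fintype]
    simp
  have h6 : finrank K ((P →ₗ[K] Q) × (∀ s, Inter (α s) (β s))) =
      finrank K (P →ₗ[K] Q) + ∑ s, finrank K (Inter (α s) (β s)) := by
    rw [Module.finrank_prod, Module.finrank_pi_fintype]
  have h7 : finrank K (P →ₗ[K] Q) = finrank K P * finrank K Q := Module.finrank_linearMap _ _ _ _
  have h8 : finrank K (InterAll α β) ≤ finrank K (ker Θ) := by
    let κ : InterAll α β →ₗ[K] ker Θ :=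
      { toFun := fun y => ⟨((y : P →ₗ[K] Q), fun s => ⟨-(y : P →ₗ[K] Q),
            neg_mem (mem_Inter.2 (fun v => mem_InterAll.1 y.2 s v))⟩), by
            rw [LinearMap.mem_ker]
            funext s
            change (y : P →ₗ[K] Q) + -(y : P →ₗ[K] Q) = 0
            abel⟩
        map_add' := by
          intro x y
          apply Subtype.ext
          refine Prod.ext rfl ?_
          funext s
          apply Subtype.ext
          change -((x : P →ₗ[K] Q) + y) = -(x : P →ₗ[K] Q) + -(y : P →ₗ[K] Q)
          abel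
        map_smul' := by
          intro c x
          apply Subtype.ext
          refine Prod.ext rfl ?_
          funext s
          apply Subtype.ext
          change -(c • (x : P →ₗ[K] Q)) = c • -(x : P →ₗ[K] Q)
          rw [smul_neg] }
    apply LinearMap.finrank_le_finrank_of_injective (f := κ)
    intro x y hxy
    apply Subtype.ext
    exact congrArg (fun z => ((z : ker Θ) : (P →ₗ[K] Q) × (∀ s, Inter (α s) (β s))).1) hxy
  have h9 : (finrank K (ker Ψ) : ℤ) ≤ finrank K (range Θ) := by exact_mod_cast h1
  have h10 : (finrank K (range Ψ) : ℤ) + finrank K (ker Ψ) =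
      Fintype.card ι * (finrank K P * finrank K Q) := by
    rw [h5, h7] at h2; exact_mod_cast h2
  have h11 : (finrank K (range Θ) : ℤ) + finrank K (ker Θ) =
      finrank K P * finrank K Q + ∑ s, (finrank K (Inter (α s) (β s)) : ℤ) := by
    rw [h6, h7] at h3; exact_mod_cast h3
  have h12 : (finrank K (range Ψ) : ℤ) ≤ finrank K P * finrank K Q := by
    rw [h7] at h4; exact_mod_cast h4
  have h13 : (finrank K (InterAll α β) : ℤ) ≤ finrank K (ker Θ) := by exact_mod_cast h8
  nlinarith

/-- Abel summation. -/
theorem abel_sum (α : Module.End K P) (β : Module.End K Q) (k : ℕ) (hβ : β ^ k = 0) :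
    ∑ j ∈ Finset.range k, nn α j * nn β j =
      nn α 0 * finrank K Q - ∑ j ∈ Finset.range k, (nn α j - nn α (j + 1)) * rk β (j + 1) := by
  have hk : ∀ k, ∑ j ∈ Finset.range k, nn α j * nn β j =
      nn α 0 * finrank K Q - ∑ j ∈ Finset.range k, (nn α j - nn α (j + 1)) * rk β (j + 1)
        - nn α k * rk β k := by
    intro k
    induction k with
    | zero => simp [rk_zero]
    | succ k ih =>
      rw [Finset.sum_range_succ, ih, Finset.sum_range_succ]
      unfold nn
      ring
  have h0 : rk β k = 0 := by
    unfold rk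
    rw [hβ, LinearMap.range_zero]
    simp
  rw [hk k, h0]
  simp

/-- The pair lemma: `H^1 = 0` and `∑ rk ≥ 2 dim P` force everything. -/
theorem pair_lemma (α : ι → Module.End K P) (β : ι → Module.End K Q)
    (k : ℕ) (hα : ∀ s, α s ^ k = 0) (hβ : ∀ s, β s ^ k = 0)
    (H1 : ∀ x : ι → (P →ₗ[K] Q), ∑ s, (x s ∘ₗ α s - β s ∘ₗ x s) = 0 →
      ∃ y : P →ₗ[K] Q, ∀ s, x s - y ∈ Inter (α s) (β s))
    (hP : 2 * (finrank K P : ℤ) ≤ ∑ s, (rk (α s) 1 : ℤ)) :
    InterAll α β = ⊥ ∧
    (0 < finrank K Q → ∑ s, (rk (α s) 1 : ℤ) = 2 * finrank K P) ∧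
    ∀ s j, rk (β s) (j + 1) ≠ 0 → nn (α s) j = nn (α s) (j + 1) := by
  have hE := euler_le α β H1
  have hU : ∀ s, (finrank K (Inter (α s) (β s)) : ℤ) ≤
      ((finrank K P : ℤ) - rk (α s) 1) * finrank K Q -
        ∑ j ∈ Finset.range k, (nn (α s) j - nn (α s) (j + 1)) * rk (β s) (j + 1) := by
    intro s
    have h1 := finrank_Inter_le k (α s) (β s) (hα s)
    rw [abel_sum (α s) (β s) k (hβ s)] at h1
    have h2 : nn (α s) 0 = (finrank K P : ℤ) - rk (α s) 1 := by
      unfold nn; rw [rk_zero]
    rw [← h2]
    exact h1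
  have hS : ∑ s, (finrank K (Inter (α s) (β s)) : ℤ) ≤
      ((Fintype.card ι : ℤ) * finrank K P - ∑ s, (rk (α s) 1 : ℤ)) * finrank K Q -
        ∑ s, ∑ j ∈ Finset.range k, (nn (α s) j - nn (α s) (j + 1)) * rk (β s) (j + 1) := by
    calc ∑ s, (finrank K (Inter (α s) (β s)) : ℤ) ≤ ∑ s, (((finrank K P : ℤ) - rk (α s) 1) *
          finrank K Q -
          ∑ j ∈ Finset.range k, (nn (α s) j - nn (α s) (j + 1)) * rk (β s) (j + 1)) :=
          Finset.sum_le_sum (fun s _ => hU s)
      _ = _ := by
          rw [Finset.sum_sub_distrib, ← Finset.sum_mul, Finset.sum_sub_distrib]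
          simp
  have hnn : ∀ s, ∀ j, 0 ≤ (nn (α s) j - nn (α s) (j + 1)) * (rk (β s) (j + 1) : ℤ) := by
    intro s j
    apply mul_nonneg
    · have := nn_succ_le (α s) j
      linarith
    · positivity
  have hNN : 0 ≤ ∑ s, ∑ j ∈ Finset.range k,
      (nn (α s) j - nn (α s) (j + 1)) * (rk (β s) (j + 1) : ℤ) :=
    Finset.sum_nonneg (fun s _ => Finset.sum_nonneg (fun j _ => hnn s j))
  have hb : 0 ≤ (finrank K Q : ℤ) := by positivity
  have hh : 0 ≤ (finrank K (InterAll α β) : ℤ) := by positivity
  have hmul : 0 ≤ (∑ s, (rk (α s) 1 : ℤ) - 2 * finrank K P) * finrank K Q :=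
    mul_nonneg (by linarith) hb
  have hkey : (finrank K (InterAll α β) : ℤ) + (∑ s, (rk (α s) 1 : ℤ) - 2 * finrank K P) *
      finrank K Q + ∑ s, ∑ j ∈ Finset.range k,
      (nn (α s) j - nn (α s) (j + 1)) * (rk (β s) (j + 1) : ℤ) ≤ 0 := by
    nlinarith [hE, hS]
  refine ⟨?_, ?_, ?_⟩
  · have : finrank K (InterAll α β) = 0 := by
      have : (finrank K (InterAll α β) : ℤ) ≤ 0 := by linarith
      omega
    exact Submodule.finrank_eq_zero.1 this
  · intro hQ
    have h1 : (∑ s, (rk (α s) 1 : ℤ) - 2 * finrank K P) * finrank K Q = 0 := by linarith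
    rcases mul_eq_zero.1 h1 with h | h
    · linarith
    · exfalso
      have : (finrank K Q : ℤ) ≠ 0 := by exact_mod_cast hQ.ne'
      exact this h
  · intro s j hj
    have h0 : ∑ s, ∑ j ∈ Finset.range k,
        (nn (α s) j - nn (α s) (j + 1)) * (rk (β s) (j + 1) : ℤ) = 0 := by linarith
    have h1 := (Finset.sum_eq_zero_iff_of_nonneg
      (fun s _ => Finset.sum_nonneg (fun j _ => hnn s j))).1 h0 s (Finset.mem_univ s)
    have hjk : j < k := by
      by_contra hcon
      push Not at hcon
      apply hj
      unfold rk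
      have : β s ^ (j + 1) = 0 := by
        obtain ⟨m, hm⟩ := Nat.exists_eq_add_of_le (hcon.trans (Nat.le_succ j))
        rw [← Nat.succ_eq_add_one, hm, pow_add, hβ s, zero_mul]
      rw [this, LinearMap.range_zero]
      simp
    have h2 := (Finset.sum_eq_zero_iff_of_nonneg (fun j _ => hnn s j)).1 h1 j
      (Finset.mem_range.2 hjk)
    rcases mul_eq_zero.1 h2 with h | h
    · linarith
    · exfalso
      exact hj (by exact_mod_cast h)

end Euler

end Crest.Agent.R172.Core
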