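import Crest.Agent.R172.Core2

/-!
Row 172, structure lemma (S) of note 12992, part 3: the alternative for a core.
-/

namespace Crest.Agent.R172.Core

open Module LinearMap

variable {K : Type*} [Field K] {V : Type*} [AddCommGroup V] [Module K V]

section Gen

theorem gen_stable {D Φ : Module.End K V} (h : ∀ v, D (Φ v) = Φ (D v)) (ν : K) :
    ∀ v ∈ D.maxGenEigenspace ν, Φ v ∈ D.maxGenEigenspace ν := by
  intro v hv
  have hc : Commute D Φ := LinearMap.ext h
  exact Module.End.mapsTo_maxGenEigenspace_of_comm hc ν hv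

/-- the complement of a generalized eigenspace. -/
noncomputable def co (D : Module.End K V) (ν : K) : Submodule K V :=
  ⨆ μ, ⨆ (_ : μ ≠ ν), D.maxGenEigenspace μ

theorem co_stable {D Φ : Module.End K V} (h : ∀ v, D (Φ v) = Φ (D v)) (ν : K) :
    ∀ v ∈ co D ν, Φ v ∈ co D ν := by
  intro v hv
  have hle : co D ν ≤ (co D ν).comap Φ := by
    refine iSup_le (fun μ => iSup_le (fun hμ => ?_))
    intro w hw
    rw [Submodule.mem_comap]
    exact Submodule.mem_iSup_of_mem μ (Submodule.mem_iSup_of_mem hμ (gen_stable h μ w hw))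
  exact hle hv

theorem gen_isCompl {D : Module.End K V} (hD : ⨆ ν, D.maxGenEigenspace ν = ⊤) (ν : K) :
    IsCompl (D.maxGenEigenspace ν) (co D ν) := by
  constructor
  · exact (Module.End.independent_maxGenEigenspace D) ν
  · rw [codisjoint_iff, ← hD]
    exact (iSup_split_single (fun μ => D.maxGenEigenspace μ) ν).symm

theorem gen_ortho {B : LinearMap.BilinForm K V} {D : Module.End K V}
    (hD : ∀ v w, B (D v) w = B v (D w)) {lam mu : K} (hne : lam ≠ mu) :
    ∀ v ∈ D.maxGenEigenspace lam, ∀ w ∈ D.maxGenEigenspace mu, B v w = 0 := by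
  have key : ∀ n k l, k + l = n → ∀ v w, ((D - algebraMap K (Module.End K V) lam) ^ k : Module.End K V) v = 0 →
      ((D - algebraMap K (Module.End K V) mu) ^ l : Module.End K V) w = 0 → B v w = 0 := by
    intro n
    induction n using Nat.strong_induction_on with
    | _ n ih =>
      intro k l hkl v w hv hw
      rcases Nat.eq_zero_or_pos k with rfl | hk
      · have : v = 0 := by simpa using hv
        rw [this]; simp
      rcases Nat.eq_zero_or_pos l with rfl | hl
      · have : w = 0 := by simpa using hw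
        rw [this]; simp
      obtain ⟨k, rfl⟩ := Nat.exists_eq_succ_of_ne_zero hk.ne'
      obtain ⟨l, rfl⟩ := Nat.exists_eq_succ_of_ne_zero hl.ne'
      have h1 := ih (k + (l + 1)) (by omega) k (l + 1) rfl ((D - algebraMap K (Module.End K V) lam) v) w
        (by rw [pow_succ] at hv; exact hv) hw
      have h2 := ih ((k + 1) + l) (by omega) (k + 1) l rfl v ((D - algebraMap K (Module.End K V) mu) w) hv
        (by rw [pow_succ] at hw; exact hw)
      have e1 : (D - algebraMap K (Module.End K V) lam) v = D v - lam • v := rfl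
      have e2 : (D - algebraMap K (Module.End K V) mu) w = D w - mu • w := rfl
      rw [e1, map_sub, LinearMap.sub_apply, hD, map_smul, LinearMap.smul_apply, smul_eq_mul] at h1
      rw [e2, map_sub, map_smul, smul_eq_mul] at h2
      have h3 : (lam - mu) * B v w = 0 := by linear_combination h2 - h1
      rcases mul_eq_zero.1 h3 with h | h
      · exact absurd (sub_eq_zero.1 h) hne
      · exact h
  intro v hv w hw
  rw [Module.End.mem_maxGenEigenspace] at hv hw
  obtain ⟨k, hk⟩ := hv
  obtain ⟨l, hl⟩ := hw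
  exact key (k + l) k l rfl v w (by rw [Algebra.algebraMap_eq_smul_one]; exact hk)
    (by rw [Algebra.algebraMap_eq_smul_one]; exact hl)

theorem gen_tau {D : Module.End K V} {lam mu : K} (hne : lam ≠ mu)
    (hDP : ∀ v ∈ D.maxGenEigenspace lam, D v ∈ D.maxGenEigenspace lam)
    (hDQ : ∀ v ∈ D.maxGenEigenspace mu, D v ∈ D.maxGenEigenspace mu)
    (x : D.maxGenEigenspace lam →ₗ[K] D.maxGenEigenspace mu)
    (hx : x ∘ₗ D.restrict hDP = D.restrict hDQ ∘ₗ x) : x = 0 := by
  apply LinearMap.ext
  intro v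
  have hpow : ∀ k, ∀ w : D.maxGenEigenspace lam,
      ((D - lam • 1) ^ k : Module.End K V) ((x w : D.maxGenEigenspace mu) : V) =
        ((x (((D.restrict hDP - lam • 1) ^ k : Module.End K _) w) :
          D.maxGenEigenspace mu) : V) := by
    intro k
    induction k with
    | zero => intro w; simp
    | succ k ih =>
      intro w
      have h1 : (D - lam • (1 : Module.End K V)) ((x w : D.maxGenEigenspace mu) : V) =
          ((x ((D.restrict hDP - lam • 1 : Module.End K _) w) : D.maxGenEigenspace mu) : V) := by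
        have h2 := congrArg Subtype.val (LinearMap.congr_fun hx w)
        change ((x (D.restrict hDP w) : D.maxGenEigenspace mu) : V) =
          D ((x w : D.maxGenEigenspace mu) : V) at h2
        change D ((x w : D.maxGenEigenspace mu) : V) - lam • ((x w : D.maxGenEigenspace mu) : V) =
          ((x (D.restrict hDP w - lam • w) : D.maxGenEigenspace mu) : V)
        rw [map_sub, map_smul, Submodule.coe_sub, Submodule.coe_smul, h2]
      rw [pow_succ, pow_succ]
      change ((D - lam • (1 : Module.End K V)) ^ k)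
        ((D - lam • (1 : Module.End K V)) ((x w : D.maxGenEigenspace mu) : V)) = _
      rw [h1, ih]
      rfl
  have hv := v.2
  rw [Module.End.mem_maxGenEigenspace] at hv
  obtain ⟨k, hk⟩ := hv
  have h3 : ((D.restrict hDP - lam • 1) ^ k : Module.End K _) v = 0 := by
    apply Subtype.ext
    have h4 : ∀ k, ∀ w : D.maxGenEigenspace lam,
        ((((D.restrict hDP - lam • 1) ^ k : Module.End K _) w : D.maxGenEigenspace lam) : V) =
          ((D - lam • 1) ^ k : Module.End K V) (w : V) := by
      intro k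
      induction k with
      | zero => intro w; rfl
      | succ k ih =>
        intro w
        rw [pow_succ, pow_succ]
        change ((((D.restrict hDP - lam • 1) ^ k : Module.End K _)
          ((D.restrict hDP - lam • 1 : Module.End K _) w) :
          D.maxGenEigenspace lam) : V) =
            ((D - lam • 1) ^ k : Module.End K V) ((D - lam • 1 : Module.End K V) (w : V))
        rw [ih]
        rfl
    rw [h4]
    exact hk
  have h5 := hpow k v
  rw [h3, map_zero] at h5
  have h7 : ((x v : D.maxGenEigenspace mu) : V) ∈ D.maxGenEigenspace lam := by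
    rw [Module.End.mem_maxGenEigenspace]
    exact ⟨k, h5⟩
  have h8 : Disjoint (D.maxGenEigenspace lam) (D.maxGenEigenspace mu) :=
    Module.End.disjoint_genEigenspace D hne _ _
  apply Subtype.ext
  exact (Submodule.disjoint_def.1 h8) _ h7 (x v).2

end Gen

section Alt

variable {ι : Type*} [Fintype ι] [FiniteDimensional K V]

/-- The tame conclusion for `(V, Φ, D)` (a core). -/
def Tame (Φ : ι → Module.End K V) (D : Module.End K V) : Prop :=
  (∃ lam mu, lam ≠ mu ∧ D.maxGenEigenspace lam ≠ ⊥ ∧ D.maxGenEigenspace mu ≠ ⊥) ∧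
  (∀ lam mu, lam ≠ mu → ∀ x : D.maxGenEigenspace lam →ₗ[K] D.maxGenEigenspace mu,
    (∀ s, ∀ v w : D.maxGenEigenspace lam, (w : V) = Φ s v → ((x w : D.maxGenEigenspace mu) : V) =
      Φ s (x v)) → x = 0) ∧
  ∃ l : ι → ℕ, (∀ s, 1 ≤ l s) ∧
    (∀ s nu, D.maxGenEigenspace nu ≠ ⊥ →
      (∀ j, (∀ v ∈ D.maxGenEigenspace nu, (Φ s ^ j) v = 0) ↔ l s ≤ j) ∧
      l s * finrank K (ker (Φ s) ⊓ D.maxGenEigenspace nu : Submodule K V) =
        finrank K (D.maxGenEigenspace nu)) ∧
    ∑ s, (1 - 1 / (l s : ℚ)) = 2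

variable {B : LinearMap.BilinForm K V} {Φ : ι → Module.End K V} {D : Module.End K V}

/-- All the information for a pair of blocks. -/
theorem pair_blocks (hB : NS B) (hΦ : ∀ s v w, B (Φ s v) w = B v (Φ s w))
    (hnil : ∃ k, ∀ s, Φ s ^ k = 0) (hsum : ∀ v, ∑ s, Φ s v = 0)
    (hker : ∀ v, (∀ s, Φ s v = 0) → v = 0) (hDer : Der B Φ)
    (hDB : ∀ v w, B (D v) w = B v (D w)) (hDΦ : ∀ s v, D (Φ s v) = Φ s (D v))
    (hD : ⨆ ν, D.maxGenEigenspace ν = ⊤) {lam mu : K} (hne : lam ≠ mu) :
    ∃ k, (∀ s, ((Φ s).restrict (gen_stable (hDΦ s) lam)) ^ k = 0) ∧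
    (∀ s, ((Φ s).restrict (gen_stable (hDΦ s) mu)) ^ k = 0) ∧
    InterAll (fun s => (Φ s).restrict (gen_stable (hDΦ s) lam))
      (fun s => (Φ s).restrict (gen_stable (hDΦ s) mu)) = ⊥ ∧
    (0 < finrank K (D.maxGenEigenspace mu) →
      ∑ s, (rk ((Φ s).restrict (gen_stable (hDΦ s) lam)) 1 : ℤ) =
        2 * finrank K (D.maxGenEigenspace lam)) ∧
    ∀ s j, rk ((Φ s).restrict (gen_stable (hDΦ s) mu)) (j + 1) ≠ 0 →
      nn ((Φ s).restrict (gen_stable (hDΦ s) lam)) j =
        nn ((Φ s).restrict (gen_stable (hDΦ s) lam)) (j + 1) := by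
  obtain ⟨k, hk⟩ := hnil
  have hpow : ∀ nu s, ((Φ s).restrict (gen_stable (hDΦ s) nu)) ^ k = 0 := by
    intro nu s
    rw [Module.End.pow_restrict k]
    ext v
    change ((Φ s ^ k) (v : V)) = 0
    rw [hk s]; rfl
  refine ⟨k, hpow lam, hpow mu, ?_⟩
  have hcomm : ∀ v, D (D v) = D (D v) := fun v => rfl
  refine pair_lemma _ _ k (hpow lam) (hpow mu) ?_ ?_
  · intro x hx
    exact H1_of_Der hB hΦ hDer hDΦ (gen_isCompl hD lam) (gen_isCompl hD mu)
      (gen_ortho hDB hne) (fun s => gen_stable (hDΦ s) lam) (fun s => co_stable (hDΦ s) lam)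
      (fun s => gen_stable (hDΦ s) mu) (fun s => co_stable (hDΦ s) mu)
      (gen_stable hcomm lam) (gen_stable hcomm mu)
      (gen_tau hne _ _) x hx
  · exact two_le_sum_rk hsum hker (iSup_range_eq_top hB hΦ hker) (gen_isCompl hD lam)
      (fun s => gen_stable (hDΦ s) lam) (fun s => co_stable (hDΦ s) lam)

/-- The alternative for a core. -/
theorem core_alt (hB : NS B) (hΦ : ∀ s v w, B (Φ s v) w = B v (Φ s w))
    (hnil : ∃ k, ∀ s, Φ s ^ k = 0) (hsum : ∀ v, ∑ s, Φ s v = 0)
    (hker : ∀ v, (∀ s, Φ s v = 0) → v = 0) (hDer : Der B Φ)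
    (hDB : ∀ v w, B (D v) w = B v (D w)) (hDΦ : ∀ s v, D (Φ s v) = Φ s (D v))
    (hD : ⨆ ν, D.maxGenEigenspace ν = ⊤) :
    (∃ lam, D.maxGenEigenspace lam = ⊤) ∨ Tame Φ D := by
  classical
  by_cases hex : ∃ lam mu, lam ≠ mu ∧ D.maxGenEigenspace lam ≠ ⊥ ∧ D.maxGenEigenspace mu ≠ ⊥
  · right
    have hpos : ∀ nu, D.maxGenEigenspace nu ≠ ⊥ → 0 < finrank K (D.maxGenEigenspace nu) := by
      intro nu h
      rw [Nat.pos_iff_ne_zero]
      intro h0
      exact h (Submodule.finrank_eq_zero.1 h0)
    -- pair facts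
    have hpair : ∀ lam mu, lam ≠ mu → D.maxGenEigenspace lam ≠ ⊥ →
        D.maxGenEigenspace mu ≠ ⊥ → ∀ s, ∃ l, 1 ≤ l ∧
          (∀ j, ((Φ s).restrict (gen_stable (hDΦ s) lam)) ^ j = 0 ↔ l ≤ j) ∧
          (∀ j, ((Φ s).restrict (gen_stable (hDΦ s) mu)) ^ j = 0 ↔ l ≤ j) ∧
          l * finrank K (ker ((Φ s).restrict (gen_stable (hDΦ s) lam))) =
            finrank K (D.maxGenEigenspace lam) ∧
          l * finrank K (ker ((Φ s).restrict (gen_stable (hDΦ s) mu))) =
            finrank K (D.maxGenEigenspace mu) := by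
      intro lam mu hne h1 h2 s
      obtain ⟨k, hk1, hk2, -, -, hn⟩ := pair_blocks hB hΦ hnil hsum hker hDer hDB hDΦ hD hne
      obtain ⟨k', hk1', hk2', -, -, hn'⟩ :=
        pair_blocks hB hΦ hnil hsum hker hDer hDB hDΦ hD hne.symm
      exact free_of_pair (hk1 s) (hk2 s) (hpos _ h1) (hpos _ h2) (hn s) (hn' s)
    obtain ⟨lam, mu, hne, hlam, hmu⟩ := hex
    have hl := hpair lam mu hne hlam hmu
    choose l hl1 hll hlm hfl hfm using hl
    have hker_eq : ∀ s nu, finrank K (ker ((Φ s).restrict (gen_stable (hDΦ s) nu))) =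
        finrank K (ker (Φ s) ⊓ D.maxGenEigenspace nu : Submodule K V) := by
      intro s nu
      have hmap : (ker ((Φ s).restrict (gen_stable (hDΦ s) nu))).map
          (D.maxGenEigenspace nu).subtype = ker (Φ s) ⊓ D.maxGenEigenspace nu := by
        ext v
        constructor
        · rintro ⟨w, hw, rfl⟩
          refine ⟨?_, w.2⟩
          have := congrArg Subtype.val (LinearMap.mem_ker.1 hw)
          exact this
        · rintro ⟨h1, h2⟩
          exact ⟨⟨v, h2⟩, Subtype.ext h1, rfl⟩
      rw [← hmap]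
      exact LinearEquiv.finrank_eq
        (Submodule.equivMapOfInjective _ (Submodule.injective_subtype _) _)
    have hpow_iff : ∀ s nu j, ((Φ s).restrict (gen_stable (hDΦ s) nu)) ^ j = 0 ↔
        ∀ v ∈ D.maxGenEigenspace nu, (Φ s ^ j) v = 0 := by
      intro s nu j
      rw [Module.End.pow_restrict j]
      constructor
      · intro h v hv
        exact congrArg Subtype.val (LinearMap.congr_fun h ⟨v, hv⟩)
      · intro h
        apply LinearMap.ext
        intro v
        exact Subtype.ext (h v v.2)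
    refine ⟨⟨lam, mu, hne, hlam, hmu⟩, ?_, l, hl1, ?_, ?_⟩
    · intro lam' mu' hne' x hx
      obtain ⟨-, -, -, hI, -, -⟩ := pair_blocks hB hΦ hnil hsum hker hDer hDB hDΦ hD hne'
      have hmem : x ∈ InterAll (fun s => (Φ s).restrict (gen_stable (hDΦ s) lam'))
          (fun s => (Φ s).restrict (gen_stable (hDΦ s) mu')) := by
        rw [mem_InterAll]
        intro s v
        exact Subtype.ext (hx s v _ rfl)
      rw [hI] at hmem
      exact (Submodule.mem_bot K).1 hmem
    · intro s nu hnu
      -- compare with `lam` or `mu`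
      have hcmp : (∀ j, ((Φ s).restrict (gen_stable (hDΦ s) nu)) ^ j = 0 ↔ l s ≤ j) ∧
          l s * finrank K (ker ((Φ s).restrict (gen_stable (hDΦ s) nu))) =
            finrank K (D.maxGenEigenspace nu) := by
        by_cases h : nu = lam
        · subst h
          exact ⟨hll s, hfl s⟩
        · obtain ⟨l', h1, h2, h3, h4, h5⟩ := hpair nu lam h hnu hlam s
          have : l' = l s := by
            apply le_antisymm
            · exact (h3 _).1 ((hll s _).2 le_rfl)
            · exact (hll s _).1 ((h3 _).2 le_rfl)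
          rw [← this]
          exact ⟨h2, h4⟩
      refine ⟨fun j => ?_, ?_⟩
      · rw [← hpow_iff, hcmp.1 j]
      · rw [← hker_eq]; exact hcmp.2
    · obtain ⟨k, -, -, -, hr, -⟩ := pair_blocks hB hΦ hnil hsum hker hDer hDB hDΦ hD hne
      have hr' := hr (hpos _ hmu)
      set a : ℕ := finrank K (D.maxGenEigenspace lam) with ha
      have hapos : (0 : ℚ) < a := by exact_mod_cast hpos _ hlam
      have hrk : ∀ s, (rk ((Φ s).restrict (gen_stable (hDΦ s) lam)) 1 : ℚ) =
          (1 - 1 / (l s : ℚ)) * a := by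
        intro s
        have h1 := LinearMap.finrank_range_add_finrank_ker
          ((Φ s).restrict (gen_stable (hDΦ s) lam))
        have h2 : rk ((Φ s).restrict (gen_stable (hDΦ s) lam)) 1 =
            finrank K (range ((Φ s).restrict (gen_stable (hDΦ s) lam))) := by
          unfold rk; rw [pow_one]
        have h3 := hfl s
        rw [h2]
        have h4 : ((finrank K (range ((Φ s).restrict (gen_stable (hDΦ s) lam))) : ℚ)) +
            finrank K (ker ((Φ s).restrict (gen_stable (hDΦ s) lam))) = a := by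
          exact_mod_cast h1
        have h5 : (l s : ℚ) * finrank K (ker ((Φ s).restrict (gen_stable (hDΦ s) lam))) = a := by
          exact_mod_cast h3
        have h6 : (l s : ℚ) ≠ 0 := by
          have := hl1 s
          positivity
        field_simp
        rw [← h5] at h4 ⊢
        linear_combination (l s : ℚ) * h4
      have hr'' : ∑ s, (rk ((Φ s).restrict (gen_stable (hDΦ s) lam)) 1 : ℚ) = 2 * a := by
        exact_mod_cast hr'
      rw [Finset.sum_congr rfl (fun s _ => hrk s), ← Finset.sum_mul] at hr''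
      exact mul_right_cancel₀ hapos.ne' hr''
  · left
    push Not at hex
    by_cases hex2 : ∃ lam, D.maxGenEigenspace lam ≠ ⊥
    · obtain ⟨lam, hlam⟩ := hex2
      refine ⟨lam, ?_⟩
      rw [← hD]
      apply le_antisymm (le_iSup (fun ν => D.maxGenEigenspace ν) lam)
      apply iSup_le
      intro nu
      by_cases h : lam = nu
      · rw [h]
      · rw [hex lam nu h hlam]; exact bot_le
    · push Not at hex2
      refine ⟨0, ?_⟩
      rw [← hD, hex2 0]
      symm
      rw [eq_bot_iff]
      apply iSup_le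
      intro nu
      rw [hex2 nu]

end Alt

end Crest.Agent.R172.Core
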