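import Crest.Agent.R172.St2

/-!
Row 172 (S0260), node (S), file 3: the lifting lemma (2) of note 12992.
-/

set_option autoImplicit false

namespace Crest.Agent.R172.St

open Module

variable {K : Type*} [Field K] {V : Type*} [AddCommGroup V] [Module K V] {ι : Type*}

/-- A self-adjoint `e` with `e T = 0`, `e Tᗮ ⊆ T` is a sum of `r ⊙ w` with `r ∈ T ∩ Tᗮ`, `w ∈ Tᗮ`. -/
theorem sym_span [FiniteDimensional K V] [CharZero K] {B : LinearMap.BilinForm K V}
    (hs : ∀ u v, B u v = B v u) (hB : B.Nondegenerate) {Φ : ι → End K V} (C : Core B Φ)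
    {e : End K V} (he : Sa B e) (heT : ∀ t ∈ T Φ, e t = 0)
    (heTp : ∀ v ∈ Tp B Φ, e v ∈ T Φ) (f : End K V →ₗ[K] K)
    (hf : ∀ r ∈ T Φ ⊓ Tp B Φ, ∀ w ∈ Tp B Φ, f (sym B r w) = 0) : f e = 0 := by
  classical
  set R : Submodule K V := T Φ ⊓ Tp B Φ with hR
  have hnd : ∀ a b : V, (∀ v, B a v = B b v) → a = b := by
    intro a b h
    have : B.toDual hB a = B.toDual hB b := by
      ext v
      rw [LinearMap.BilinForm.toDual_def, LinearMap.BilinForm.toDual_def, h]
    exact (B.toDual hB).injective this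
  have him : ∀ v, e v ∈ Tp B Φ := by
    intro v t ht
    rw [he, heT t ht, map_zero]
  have hpe : ∀ v, C.π (e (C.π v)) = 0 := by
    intro v
    exact C.killT _ (heTp _ (C.le _ (C.mem v)))
  have hππ : ∀ v, C.π (C.π v) = C.π v := fun v => C.fix _ (C.mem v)
  -- `u`
  set q : End K V := 1 - C.π with hq
  set u : End K V := (2⁻¹ : K) • (q * e * q) + e * C.π with hu
  have huR : ∀ v, u v ∈ R := by
    intro v
    have h1 : (q * e * q) v ∈ R := by
      simp only [Module.End.mul_apply, hq, LinearMap.sub_apply, Module.End.one_apply]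
      refine ⟨C.rem _ (him _), Submodule.sub_mem _ (him _) (C.le _ (C.mem _))⟩
    have h2 : (e * C.π) v ∈ R := ⟨heTp _ (C.le _ (C.mem v)), him _⟩
    rw [hu, LinearMap.add_apply, LinearMap.smul_apply]
    exact Submodule.add_mem _ (Submodule.smul_mem _ _ h1) h2
  have huT : ∀ t ∈ T Φ, u t = 0 := by
    intro t ht
    rw [hu]
    simp only [hq, LinearMap.add_apply, LinearMap.smul_apply, Module.End.mul_apply,
      LinearMap.sub_apply, Module.End.one_apply, C.killT t ht, heT t ht, map_zero, sub_zero,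
      smul_zero, add_zero]
  -- adjoint relation: `B (e x) y = B (u x) y + B x (u y)`
  have hadj : ∀ x y, B (e x) y = B (u x) y + B x (u y) := by
    intro x y
    have h1 : ∀ a b, B (C.π (e a)) b = B a (e (C.π b)) := fun a b => by rw [C.sa, he]
    have hqe : ∀ a b, B ((q * e * q) a) b = B a ((q * e * q) b) := by
      intro a b
      have hqs : ∀ a b, B (q a) b = B a (q b) := by
        intro a b
        rw [hq]
        simp only [LinearMap.sub_apply, Module.End.one_apply, map_sub, C.sa a b]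
      simp only [Module.End.mul_apply]
      rw [hqs, he, hqs]
    have hdec : e x = (q * e * q) x + e (C.π x) + C.π (e x) := by
      simp only [Module.End.mul_apply, hq, LinearMap.sub_apply, Module.End.one_apply, map_sub,
        hpe x]
      abel
    rw [hdec, map_add, map_add, LinearMap.add_apply, LinearMap.add_apply, h1, hu]
    simp only [LinearMap.add_apply, LinearMap.smul_apply, map_add, map_smul, smul_eq_mul,
      Module.End.mul_apply]
    have h3 := hqe x y
    simp only [Module.End.mul_apply] at h3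
    rw [← h3]
    have h4 : (2⁻¹ : K) * (B (q (e (q x)))) y + (2⁻¹ : K) * (B (q (e (q x)))) y
        = (B (q (e (q x)))) y := by
      rw [← add_mul]
      norm_num
    linear_combination (-1 : K) * h4
  -- basis of `R`
  let b := Module.finBasis K R
  let u' : V →ₗ[K] R := u.codRestrict R huR
  let w : Fin (finrank K R) → V := fun i => (B.toDual hB).symm ((b.coord i) ∘ₗ u')
  have hw : ∀ i v, B (w i) v = b.coord i (u' v) := by
    intro i v
    rw [LinearMap.BilinForm.apply_toDual_symm_apply]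
    rfl
  have huv : ∀ v, u v = ∑ i, B (w i) v • (b i : V) := by
    intro v
    have h1 : u v = ((u' v : R) : V) := rfl
    rw [h1]
    conv_lhs => rw [← b.sum_repr (u' v)]
    rw [Submodule.coe_sum]
    refine Finset.sum_congr rfl fun i _ => ?_
    rw [Submodule.coe_smul, hw]
    rfl
  have hwTp : ∀ i, w i ∈ Tp B Φ := by
    intro i t ht
    rw [hw]
    have : u' t = 0 := Subtype.ext (huT t ht)
    rw [this, map_zero]
  have heq : e = ∑ i, sym B (b i : V) (w i) := by
    ext x
    apply hnd
    intro y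
    rw [hadj, huv x, huv y]
    simp only [map_sum, LinearMap.sum_apply, sym_apply, map_add, map_smul, LinearMap.smul_apply,
      LinearMap.add_apply, smul_eq_mul]
    rw [← Finset.sum_add_distrib]
    refine Finset.sum_congr rfl fun i _ => ?_
    rw [hs (b i : V) x]
    ring
  rw [heq, map_sum]
  exact Finset.sum_eq_zero fun i _ => hf _ (b i).2 _ (hwTp i)

/-- solving the linear equation in the lifting lemma -/
theorem exists_solve [FiniteDimensional K V] [CharZero K] [Fintype ι] [DecidableEq ι]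
    {B : LinearMap.BilinForm K V}
    (hs : ∀ u v, B u v = B v u) (hB : B.Nondegenerate) {Φ : ι → End K V}
    (hΦ : ∀ s, Sa B (Φ s)) (C : Core B Φ)
    {e : End K V} (he : Sa B e) (heT : ∀ t ∈ T Φ, e t = 0)
    (heTp : ∀ v ∈ Tp B Φ, e v ∈ T Φ) :
    ∃ X : ι → End K V, (∀ s, X s ∈ Submodule.span K
      {Y : End K V | ∃ r ∈ T Φ ⊓ Tp B Φ, ∃ w, Y = wedge B r w}) ∧
      ∑ s, (X s * Φ s - Φ s * X s) = e := by
  classical
  set R : Submodule K V := T Φ ⊓ Tp B Φ with hR
  set 𝔛 : Submodule K (End K V) := Submodule.span K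
      {Y : End K V | ∃ r ∈ R, ∃ w, Y = wedge B r w} with h𝔛
  let Ψ : (ι → End K V) →ₗ[K] End K V :=
    ∑ s, (LinearMap.mulRight K (Φ s) - LinearMap.mulLeft K (Φ s)) ∘ₗ LinearMap.proj s
  have hΨ : ∀ X, Ψ X = ∑ s, (X s * Φ s - Φ s * X s) := by
    intro X
    simp [Ψ, LinearMap.sum_apply]
  set W : Submodule K (End K V) := (Submodule.pi Set.univ fun _ : ι => 𝔛).map Ψ with hW
  by_cases hmem : e ∈ W
  · obtain ⟨X, hX, hXe⟩ := hmem
    refine ⟨X, fun s => ?_, ?_⟩
    · exact (Submodule.mem_pi.1 hX) s (Set.mem_univ s)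
    · rw [← hΨ, hXe]
  exfalso
  obtain ⟨f, hfe, hfW⟩ := Submodule.exists_dual_map_eq_bot_of_notMem hmem inferInstance
  have hf0 : ∀ Y ∈ W, f Y = 0 := by
    intro Y hY
    have : f Y ∈ W.map f := ⟨Y, hY, rfl⟩
    rw [hfW] at this
    exact (Submodule.mem_bot K).1 this
  apply hfe
  -- the operator `S`
  let S : V →ₗ[K] V := (B.toDual hB).symm.toLinearMap ∘ₗ (LinearMap.compr₂ (symL B) f)
  have hS : ∀ a b, B (S a) b = f (sym B a b) := by
    intro a b
    show B ((B.toDual hB).symm ((LinearMap.compr₂ (symL B) f) a)) b = _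
    rw [LinearMap.BilinForm.apply_toDual_symm_apply]
    rfl
  have hnd : ∀ a b : V, (∀ v, B a v = B b v) → a = b := by
    intro a b h
    have : B.toDual hB a = B.toDual hB b := by
      ext v
      rw [LinearMap.BilinForm.toDual_def, LinearMap.BilinForm.toDual_def, h]
    exact (B.toDual hB).injective this
  have hcomm : ∀ s, ∀ r ∈ R, Φ s (S r) = S (Φ s r) := by
    intro s r hr
    apply hnd
    intro w
    rw [hΦ, hS, hS]
    have hmemW : wedge B r w * Φ s - Φ s * wedge B r w ∈ W := by
      refine ⟨Pi.single s (wedge B r w), ?_, ?_⟩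
      · rw [SetLike.mem_coe, Submodule.mem_pi]
        intro i _
        by_cases hi : i = s
        · subst hi
          rw [Pi.single_eq_same]
          exact Submodule.subset_span ⟨r, hr, w, rfl⟩
        · rw [Pi.single_eq_of_ne hi]
          exact Submodule.zero_mem _
      · rw [hΨ, Finset.sum_eq_single s]
        · rw [Pi.single_eq_same]
        · intro i _ hi
          rw [Pi.single_eq_of_ne hi]; simp
        · intro h; exact absurd (Finset.mem_univ s) h
    have h0 := hf0 _ hmemW
    rw [wedge_comm B (hΦ s), map_sub, sub_eq_zero] at h0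
    exact h0
  have hSk : ∀ k, ∀ r ∈ R, r ∈ Nk Φ k → S r ∈ Nk Φ k := by
    intro k
    induction k with
    | zero => intro r _ h; rw [mem_Nk_zero] at h ⊢; rw [h, map_zero]
    | succ k ih =>
      intro r hr h
      rw [mem_Nk_succ] at h ⊢
      intro s
      rw [hcomm s r hr]
      exact ih _ ⟨T_stable s hr.1, Tp_stable (hΦ s) (fun t ht => T_stable s ht) hr.2⟩ (h s)
  refine sym_span hs hB C he heT heTp f ?_
  intro r hr w hw
  rw [← hS]
  obtain ⟨k, hk⟩ := mem_T.1 hr.1
  rw [hs]
  exact hw _ (Nk_le_T Φ k (hSk k r hr hk))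

/-- Lifting lemma (2) of note 12992. -/
theorem lift [FiniteDimensional K V] [CharZero K] [Fintype ι]
    {B : LinearMap.BilinForm K V}
    (hs : ∀ u v, B u v = B v u) (hB : B.Nondegenerate) {Φ : ι → End K V}
    (hΦ : ∀ s, Sa B (Φ s)) (C : Core B Φ) (ξ : ι → End K V) (hξ : ∀ s, Sk B (ξ s))
    (hξM : ∀ s v, ξ s v ∈ C.M) (hξπ : ∀ s v, ξ s (C.π v) = ξ s v)
    (hsum : ∀ v ∈ C.M, ∑ s, (ξ s (C.π (Φ s v)) - C.π (Φ s (ξ s v))) = 0) :
    ∃ X : ι → End K V, (∀ s, Sk B (X s)) ∧ (∀ s, ∀ t ∈ T Φ, X s t ∈ T Φ) ∧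
      (∀ s, ∀ v ∈ Tp B Φ, C.π (X s v) = ξ s v) ∧
      ∑ s, (X s * Φ s - Φ s * X s) = 0 := by
  classical
  set e : End K V := ∑ s, (ξ s * Φ s - Φ s * ξ s) with he
  have hΦTp : ∀ s, ∀ v ∈ Tp B Φ, Φ s v ∈ Tp B Φ := fun s v hv =>
    Tp_stable (hΦ s) (fun t ht => T_stable s ht) hv
  have hξT : ∀ s, ∀ t ∈ T Φ, ξ s t = 0 := by
    intro s t ht
    rw [← hξπ, C.killT t ht, map_zero]
  have heSa : Sa B e := by
    intro u v
    rw [he]
    simp only [LinearMap.sum_apply, map_sum]
    refine Finset.sum_congr rfl fun s _ => ?_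
    simp only [LinearMap.sub_apply, Module.End.mul_apply, map_sub]
    have h1 := hξ s (Φ s u) v
    have h2 := hξ s u (Φ s v)
    rw [hΦ] at h1
    have h3 : B (Φ s (ξ s u)) v = B (ξ s u) (Φ s v) := hΦ s _ _
    rw [h3]
    linear_combination h1 - h2
  have heT : ∀ t ∈ T Φ, e t = 0 := by
    intro t ht
    rw [he, LinearMap.sum_apply]
    refine Finset.sum_eq_zero fun s _ => ?_
    rw [LinearMap.sub_apply, Module.End.mul_apply, Module.End.mul_apply, hξT s t ht,
      hξT s _ (T_stable s ht), map_zero, sub_zero]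
  have heTp : ∀ v ∈ Tp B Φ, e v ∈ T Φ := by
    intro v hv
    have hev : e v ∈ Tp B Φ := by
      rw [he, LinearMap.sum_apply]
      refine Submodule.sum_mem _ fun s _ => ?_
      rw [LinearMap.sub_apply, Module.End.mul_apply, Module.End.mul_apply]
      exact Submodule.sub_mem _ (C.le _ (hξM _ _)) (hΦTp s _ (C.le _ (hξM _ _)))
    have hpe : C.π (e v) = 0 := by
      have h0 := hsum (C.π v) (C.mem v)
      rw [← h0, he, LinearMap.sum_apply, map_sum]
      refine Finset.sum_congr rfl fun s _ => ?_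
      rw [LinearMap.sub_apply, Module.End.mul_apply, Module.End.mul_apply, map_sub,
        C.fix _ (hξM _ _), hξπ s v]
      congr 1
      rw [← hξπ s (Φ s v)]
      congr 1
      have h1 : Φ s (v - C.π v) ∈ T Φ := T_stable s (C.rem v hv)
      have h2 := C.killT _ h1
      rw [map_sub, map_sub, sub_eq_zero] at h2
      exact h2
    have := C.rem _ hev
    rwa [hpe, sub_zero] at this
  obtain ⟨X', hX', hX'e⟩ := exists_solve hs hB hΦ C (e := -e)
    (by intro u v; rw [LinearMap.neg_apply, LinearMap.neg_apply, map_neg, LinearMap.neg_apply,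
          map_neg, heSa])
    (by intro t ht; rw [LinearMap.neg_apply, heT t ht, neg_zero])
    (by intro v hv; rw [LinearMap.neg_apply]; exact Submodule.neg_mem _ (heTp v hv))
  have hX'sk : ∀ s, Sk B (X' s) := by
    intro s
    refine Submodule.span_induction (p := fun Y _ => Sk B Y) ?_ ?_ ?_ ?_ (hX' s)
    · rintro _ ⟨r, _, w, rfl⟩; exact wedge_sk B hs r w
    · intro u v; simp
    · intro a b _ _ ha hb u v
      have h1 := ha u v
      have h2 := hb u v
      simp only [LinearMap.add_apply, map_add]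
      linear_combination h1 + h2
    · intro c a _ ha u v
      have h1 := ha u v
      simp only [LinearMap.smul_apply, map_smul, smul_eq_mul]
      linear_combination c * h1
  have hX'R : ∀ s, ∀ v, (∀ r ∈ T Φ ⊓ Tp B Φ, B r v = 0) → X' s v ∈ T Φ := by
    intro s v hv
    refine Submodule.span_induction (p := fun Y _ => Y v ∈ T Φ) ?_ ?_ ?_ ?_ (hX' s)
    · rintro _ ⟨r, hr, w, rfl⟩
      rw [wedge_apply, hv r hr, zero_smul, sub_zero]
      exact Submodule.smul_mem _ _ hr.1
    · simp
    · intro a b _ _ ha hb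
      exact Submodule.add_mem _ ha hb
    · intro c a _ ha
      exact Submodule.smul_mem _ _ ha
  refine ⟨fun s => ξ s + X' s, fun s u v => ?_, fun s t ht => ?_, fun s v hv => ?_, ?_⟩
  · have h1 := hξ s u v
    have h2 := hX'sk s u v
    simp only [LinearMap.add_apply, map_add]
    linear_combination h1 + h2
  · rw [LinearMap.add_apply, hξT s t ht, zero_add]
    exact hX'R s t fun r hr => hr.2 t ht
  · rw [LinearMap.add_apply, map_add, C.fix _ (hξM s v)]
    have : X' s v ∈ T Φ := hX'R s v fun r hr => by rw [hs]; exact hv r hr.1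
    rw [C.killT _ this, add_zero]
  · have h1 : ∑ s, ((ξ s + X' s) * Φ s - Φ s * (ξ s + X' s)) = e + ∑ s, (X' s * Φ s - Φ s * X' s) := by
      rw [he, ← Finset.sum_add_distrib]
      refine Finset.sum_congr rfl fun s _ => ?_
      rw [add_mul, mul_add]
      abel
    rw [h1, hX'e, add_neg_cancel]

end Crest.Agent.R172.St
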