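import Crest.Agent.R172.Core3
import Crest.Agent.R172.St3

/-!
Row 172, structure lemma (S) of note 12992, part 4: descent of the derivation hypothesis to the
core (with the lifting lemma of `St3`, helper72) and the final theorem.
-/

set_option autoImplicit false

namespace Crest.Agent.R172.Core

open Module LinearMap St

variable {K : Type*} [Field K] {V : Type*} [AddCommGroup V] [Module K V] {ι : Type*}

/-- compression of an operator to the core -/
def cp {B : LinearMap.BilinForm K V} {Φ : ι → End K V} (C : St.Core B Φ) (f : End K V) :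
    End K C.M where
  toFun v := ⟨C.π (f v), C.mem _⟩
  map_add' v w := by
    apply Subtype.ext
    change C.π (f ((v : V) + w)) = C.π (f v) + C.π (f w)
    rw [map_add, map_add]
  map_smul' c v := by
    apply Subtype.ext
    change C.π (f (c • (v : V))) = c • C.π (f v)
    rw [map_smul, map_smul]

section

variable {B : LinearMap.BilinForm K V} {Φ : ι → End K V}

theorem cp_coe (C : St.Core B Φ) (f : End K V) (v : C.M) : ((cp C f v : C.M) : V) = C.π (f v) :=
  rfl

/-- the form of the core -/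
def BM (C : St.Core B Φ) : LinearMap.BilinForm K C.M := B.restrict C.M

theorem BM_apply (C : St.Core B Φ) (v w : C.M) : BM C v w = B v w := rfl

theorem NS_BM (hB : NS B) (C : St.Core B Φ) : NS (BM C) where
  symm v w := hB.symm _ _
  nd v hv := by
    apply Subtype.ext
    apply hB.nd
    intro w
    rw [← C.fix v v.2, C.sa]
    exact hv ⟨C.π w, C.mem w⟩

theorem cp_sa (C : St.Core B Φ) {f : End K V} (hf : Sa B f) (v w : C.M) :
    BM C (cp C f v) w = BM C v (cp C f w) := by
  rw [BM_apply, BM_apply, cp_coe, cp_coe, C.sa, C.fix w w.2, hf, ← C.sa, C.fix v v.2]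

/-- `f` preserves `T` and `Tp`. -/
structure Pres (B : LinearMap.BilinForm K V) (Φ : ι → End K V) (f : End K V) : Prop where
  T : ∀ t ∈ T Φ, f t ∈ T Φ
  Tp : ∀ t ∈ Tp B Φ, f t ∈ Tp B Φ

theorem pi_pres (C : St.Core B Φ) {f : End K V} (hf : Pres B Φ f) {v : V} (hv : v ∈ Tp B Φ) :
    C.π (f (C.π v)) = C.π (f v) := by
  have h1 : C.π (f (v - C.π v)) = 0 := C.killT _ (hf.T _ (C.rem v hv))
  rw [map_sub, map_sub, sub_eq_zero] at h1
  exact h1.symm

theorem pres_Φ (hΦ : ∀ s, Sa B (Φ s)) (s : ι) : Pres B Φ (Φ s) :=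
  ⟨fun _ ht => T_stable s ht, fun _ ht => Tp_stable (hΦ s) (fun _ ht => T_stable s ht) ht⟩

theorem pres_D {D : End K V} (hD : Sa B D) (hDΦ : ∀ s v, D (Φ s v) = Φ s (D v)) :
    Pres B Φ D :=
  ⟨fun _ ht => T_comm hDΦ ht, fun _ ht => Tp_stable hD (fun _ ht => T_comm hDΦ ht) ht⟩

theorem cp_comp (C : St.Core B Φ) {f g : End K V} (hf : Pres B Φ f) (hg : Pres B Φ g)
    (v : C.M) : cp C f (cp C g v) = cp C (f * g) v := by
  apply Subtype.ext
  rw [cp_coe, cp_coe, cp_coe, pi_pres C hf (hg.Tp _ (C.le v v.2))]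
  rfl

theorem cp_mul (C : St.Core B Φ) {f g : End K V} (hf : Pres B Φ f) (hg : Pres B Φ g) :
    cp C f * cp C g = cp C (f * g) :=
  LinearMap.ext (fun v => cp_comp C hf hg v)

theorem pres_mul {f g : End K V} (hf : Pres B Φ f) (hg : Pres B Φ g) : Pres B Φ (f * g) :=
  ⟨fun t ht => hf.T _ (hg.T t ht), fun t ht => hf.Tp _ (hg.Tp t ht)⟩

theorem pres_one : Pres B Φ (1 : End K V) := ⟨fun _ ht => ht, fun _ ht => ht⟩

theorem pres_pow {f : End K V} (hf : Pres B Φ f) (k : ℕ) : Pres B Φ (f ^ k) := by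
  induction k with
  | zero => rw [pow_zero]; exact pres_one
  | succ k ih => rw [pow_succ]; exact pres_mul ih hf

theorem cp_one (C : St.Core B Φ) : cp C (1 : End K V) = 1 := by
  apply LinearMap.ext
  intro v
  apply Subtype.ext
  rw [cp_coe]
  exact C.fix v v.2

theorem cp_pow (C : St.Core B Φ) {f : End K V} (hf : Pres B Φ f) (k : ℕ) :
    cp C f ^ k = cp C (f ^ k) := by
  induction k with
  | zero => rw [pow_zero, pow_zero, cp_one]
  | succ k ih => rw [pow_succ, pow_succ, ih, cp_mul C (pres_pow hf k) hf]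

theorem cp_sub (C : St.Core B Φ) (f g : End K V) : cp C (f - g) = cp C f - cp C g := by
  apply LinearMap.ext
  intro v
  apply Subtype.ext
  change C.π (f v - g v) = C.π (f v) - C.π (g v)
  rw [map_sub]

theorem cp_smul (C : St.Core B Φ) (c : K) (f : End K V) : cp C (c • f) = c • cp C f := by
  apply LinearMap.ext
  intro v
  apply Subtype.ext
  change C.π (c • f v) = c • C.π (f v)
  rw [map_smul]

theorem cp_ker [Finite ι] (hΦ : ∀ s, Sa B (Φ s)) (C : St.Core B Φ) (v : C.M)
    (h : ∀ s, cp C (Φ s) v = 0) : v = 0 := by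
  have h1 : (v : V) ∈ T Φ := by
    apply T_closed
    intro s
    have h2 := C.rem (Φ s v) ((pres_Φ hΦ s).Tp _ (C.le v v.2))
    have h3 : C.π (Φ s v) = 0 := by
      rw [← cp_coe, h s]; rfl
    rw [h3, sub_zero] at h2
    exact h2
  apply Subtype.ext
  have h4 := C.killT _ h1
  rw [C.fix v v.2] at h4
  exact h4

/-- Descent of the derivation hypothesis to the core. -/
theorem Der_core [FiniteDimensional K V] [CharZero K] [Fintype ι] (hB : NS B)
    (hΦ : ∀ s, Sa B (Φ s)) (hDer : Der B Φ) (C : St.Core B Φ) :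
    Der (BM C) (fun s => cp C (Φ s)) := by
  intro ξ hξ hsum
  -- extension of `ξ` to `V`
  let πM : V →ₗ[K] C.M := C.π.codRestrict C.M C.mem
  have hπM : ∀ v, ((πM v : C.M) : V) = C.π v := fun v => rfl
  have hππ : ∀ v, C.π (C.π v) = C.π v := fun v => C.fix _ (C.mem v)
  let Ξ : ι → End K V := fun s => C.M.subtype ∘ₗ ξ s ∘ₗ πM
  have hΞ : ∀ s v, Ξ s v = ((ξ s (πM v) : C.M) : V) := fun s v => rfl
  have hBM : ∀ (m : C.M) (w : V), B m w = BM C m (πM w) := by
    intro m w
    rw [BM_apply, hπM, ← C.sa, C.fix m m.2]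
  have hSk : ∀ s, Sk B (Ξ s) := by
    intro s u v
    rw [hΞ, hΞ, hBM, hB.symm u, hBM, hξ, (NS_BM hB C).symm (πM u)]
    ring
  obtain ⟨X, hXs, hXT, hXp, hX0⟩ := lift hB.symm hB.nondeg hΦ C Ξ hSk
    (fun s v => (ξ s (πM v)).2) (fun s v => by
      rw [hΞ, hΞ]
      congr 2
      exact Subtype.ext (hππ v)) (by
      intro v hv
      have h := congrArg Subtype.val (LinearMap.congr_fun hsum ⟨v, hv⟩)
      rw [LinearMap.sum_apply, Submodule.coe_sum] at h
      rw [show ((0 : Module.End K C.M) ⟨v, hv⟩ : C.M).1 = 0 from rfl] at h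
      rw [← h]
      refine Finset.sum_congr rfl (fun s _ => ?_)
      have e1 : πM v = ⟨v, hv⟩ := Subtype.ext (C.fix v hv)
      have e2 : πM (C.π (Φ s v)) = cp C (Φ s) ⟨v, hv⟩ := Subtype.ext (hππ _)
      rw [hΞ, hΞ, e1, e2]
      rfl)
  obtain ⟨d, δ, hδs, hδB, hδΦ⟩ := hDer X (fun s v w => by
    have := hXs s v w
    linear_combination this) hX0
  -- `δ` preserves `T`
  have hδN : ∀ k, ∀ v ∈ Nk Φ k, δ v ∈ T Φ := by
    intro k
    induction k with
    | zero =>
      intro v hv
      rw [mem_Nk_zero] at hv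
      rw [hv, map_zero]
      exact Submodule.zero_mem _
    | succ k ih =>
      intro v hv
      have hvT : v ∈ T Φ := Nk_le_T Φ _ hv
      apply T_closed
      intro s
      have h1 := ih _ (mem_Nk_succ.1 hv s)
      have h2 := hδΦ s v
      have h3 : Φ s (δ v) = δ (Φ s v) - (X s (Φ s v) - Φ s (X s v)) := by
        rw [← h2]; abel
      rw [h3]
      exact Submodule.sub_mem _ h1 (Submodule.sub_mem _ (hXT s _ (T_stable s hvT))
        (T_stable s (hXT s _ hvT)))
  have hδT : ∀ v ∈ T Φ, δ v ∈ T Φ := by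
    intro v hv
    obtain ⟨k, hk⟩ := mem_T.1 hv
    exact hδN k v hk
  have hδp : ∀ v ∈ Tp B Φ, δ v ∈ Tp B Φ := by
    intro v hv t ht
    have h := hδB v t
    rw [hv t ht, hv _ (hδT t ht), map_zero, add_zero] at h
    exact h
  have hπδ : ∀ v ∈ Tp B Φ, C.π (δ (C.π v)) = C.π (δ v) := by
    intro v hv
    have h1 : C.π (δ (v - C.π v)) = 0 := C.killT _ (hδT _ (C.rem v hv))
    rw [map_sub, map_sub, sub_eq_zero] at h1
    exact h1.symm
  let δM : C.M →+ C.M :=
    { toFun := fun v => ⟨C.π (δ v), C.mem _⟩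
      map_zero' := by
        apply Subtype.ext
        change C.π (δ (0 : V)) = 0
        rw [map_zero, map_zero]
      map_add' := by
        intro v w
        apply Subtype.ext
        change C.π (δ ((v : V) + w)) = C.π (δ v) + C.π (δ w)
        rw [map_add, map_add] }
  have hδM : ∀ v : C.M, ((δM v : C.M) : V) = C.π (δ v) := fun v => rfl
  refine ⟨d, δM, ?_, ?_, ?_⟩
  · intro c v
    apply Subtype.ext
    rw [Submodule.coe_add, Submodule.coe_smul, Submodule.coe_smul, hδM, hδM, Submodule.coe_smul,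
      hδs, map_add, map_smul, map_smul, C.fix v v.2]
  · intro v w
    rw [BM_apply, BM_apply, BM_apply, hδM, hδM, C.sa, C.fix w w.2, ← C.sa, C.fix v v.2, hδB]
  · intro s v
    apply Subtype.ext
    have hv := C.le v v.2
    have hΦv : Φ s v ∈ Tp B Φ := (pres_Φ hΦ s).Tp _ hv
    have hXv : X s v ∈ Tp B Φ := Tp_stable_sk (hXs s) (hXT s) hv
    rw [Submodule.coe_sub, Submodule.coe_sub, hδM, cp_coe, cp_coe, cp_coe, hδM, hπδ _ hΦv,
      pi_pres C (pres_Φ hΦ s) (hδp _ hv), ← map_sub, hδΦ, map_sub, hXp s _ hΦv, hΞ]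
    have e1 : πM (Φ s v) = cp C (Φ s) v := Subtype.ext rfl
    rw [e1]
    congr 1
    rw [← pi_pres C (pres_Φ hΦ s) hXv, hXp s _ hv, hΞ]
    have e2 : πM (v : V) = v := Subtype.ext (C.fix v v.2)
    rw [e2]

/-- word in the `Φ_s` -/
def wd (Φ : ι → End K V) (l : List ι) : End K V := (l.map Φ).prod

theorem mem_Nk_iff {k : ℕ} {v : V} : v ∈ Nk Φ k ↔ ∀ l : List ι, l.length = k → wd Φ l v = 0 := by
  induction k generalizing v with
  | zero =>
    rw [mem_Nk_zero]
    constructor
    · intro h l hl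
      rw [List.length_eq_zero_iff] at hl
      subst hl
      simpa [wd] using h
    · intro h
      simpa [wd] using h [] rfl
  | succ k ih =>
    rw [mem_Nk_succ]
    constructor
    · intro h l hl
      rcases List.eq_nil_or_concat l with rfl | ⟨l', s, rfl⟩
      · simp at hl
      · have h1 := ih.1 (h s) l' (by simpa using hl)
        simp only [wd, List.map_append, List.map_cons, List.map_nil, List.prod_append,
          List.prod_cons, List.prod_nil, mul_one, List.concat_eq_append] at h1 ⊢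
        exact h1
    · intro h s
      rw [ih]
      intro l hl
      have h1 := h (l ++ [s]) (by simp [hl])
      simp only [wd, List.map_append, List.map_cons, List.map_nil, List.prod_append,
        List.prod_cons, List.prod_nil, mul_one] at h1 ⊢
      exact h1

theorem wd_adj (hΦ : ∀ s, Sa B (Φ s)) (l : List ι) (u v : V) :
    B (wd Φ l u) v = B u (wd Φ l.reverse v) := by
  induction l generalizing u v with
  | nil => simp [wd]
  | cons s l ih =>
    have h1 : wd Φ (s :: l) u = Φ s (wd Φ l u) := by simp [wd]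
    have h2 : wd Φ (s :: l).reverse v = wd Φ l.reverse (Φ s v) := by simp [wd]
    rw [h1, h2, hΦ, ih]

theorem wd_comm {E : End K V} (hE : ∀ s v, E (Φ s v) = Φ s (E v)) (l : List ι) (v : V) :
    wd Φ l (E v) = E (wd Φ l v) := by
  induction l generalizing v with
  | nil => simp [wd]
  | cons s l ih =>
    have h1 : ∀ u, wd Φ (s :: l) u = Φ s (wd Φ l u) := by intro u; simp [wd]
    rw [h1, h1, ih, hE]

theorem wd_append (l l' : List ι) (v : V) : wd Φ (l ++ l') v = wd Φ l (wd Φ l' v) := by
  simp [wd]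

/-- **The structure lemma (S) of note 12992.** -/
theorem structure_lemma [FiniteDimensional K V] [IsAlgClosed K] [CharZero K] [Fintype ι]
    (hB : NS B) (hΦ : ∀ s, Sa B (Φ s)) (hnil : ∃ k, ∀ s, Φ s ^ k = 0)
    (hsum : ∀ v, ∑ s, Φ s v = 0) (hDer : Der B Φ)
    {D : End K V} (hDB : Sa B D) (hDΦ : ∀ s v, D (Φ s v) = Φ s (D v)) (C : St.Core B Φ) :
    (∃ (lam : K) (m : ℕ), ∀ l : List ι, m ≤ l.length → ∀ v, wd Φ l (((D - lam • 1) ^ m : End K V) v) = 0) ∨
      Tame (fun s => cp C (Φ s)) (cp C D) := by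
  have hpD := pres_D hDB hDΦ
  have halt := core_alt (B := BM C) (Φ := fun s => cp C (Φ s)) (D := cp C D) (NS_BM hB C)
    (fun s v w => cp_sa C (hΦ s) v w)
    (by
      obtain ⟨k, hk⟩ := hnil
      refine ⟨k, fun s => ?_⟩
      rw [cp_pow C (pres_Φ hΦ s), hk s]
      apply LinearMap.ext
      intro v
      apply Subtype.ext
      change C.π ((0 : End K V) v) = 0
      rw [LinearMap.zero_apply, map_zero])
    (by
      intro v
      apply Subtype.ext
      rw [Submodule.coe_sum]
      change ∑ s, C.π (Φ s v) = 0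
      rw [← map_sum, hsum, map_zero])
    (fun v h => cp_ker hΦ C v h) (Der_core hB hΦ hDer C)
    (fun v w => cp_sa C hDB v w)
    (by
      intro s v
      rw [cp_comp C hpD (pres_Φ hΦ s), cp_comp C (pres_Φ hΦ s) hpD]
      congr 1
      exact congrArg _ (LinearMap.ext (hDΦ s)))
    (Module.End.iSup_maxGenEigenspace_eq_top _)
  rcases halt with ⟨lam, hlam⟩ | h
  · left
    -- `(D - lam)^n` kills the core
    set n : ℕ := finrank K C.M with hn
    have h1 : ∀ v : C.M, ((cp C D - lam • 1) ^ n : End K C.M) v = 0 := by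
      intro v
      have hv : v ∈ (cp C D).maxGenEigenspace lam := by rw [hlam]; trivial
      rw [Module.End.maxGenEigenspace_eq_genEigenspace_finrank,
        Module.End.mem_genEigenspace_nat] at hv
      exact hv
    have hpL : Pres B Φ (D - lam • 1) :=
      ⟨fun t ht => Submodule.sub_mem _ (hpD.T t ht) (Submodule.smul_mem _ _ ht),
        fun t ht => Submodule.sub_mem _ (hpD.Tp t ht) (Submodule.smul_mem _ _ ht)⟩
    have h2 : cp C D - lam • 1 = cp C (D - lam • 1) := by
      rw [cp_sub, cp_smul, cp_one]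
    rw [h2, cp_pow C hpL] at h1
    set E : End K V := (D - lam • 1) ^ n with hE
    have hpE : Pres B Φ E := pres_pow hpL n
    have hLΦ : ∀ s v, (D - lam • 1 : End K V) (Φ s v) = Φ s ((D - lam • 1 : End K V) v) := by
      intro s v
      change D (Φ s v) - lam • (Φ s v) = Φ s (D v - lam • v)
      rw [map_sub, map_smul, hDΦ]
    have hpowΦ : ∀ k, ∀ s v, ((D - lam • 1) ^ k : End K V) (Φ s v) =
        Φ s (((D - lam • 1) ^ k : End K V) v) := by
      intro k
      induction k with
      | zero => intro s v; rfl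
      | succ k ih =>
        intro s v
        rw [pow_succ]
        change ((D - lam • 1) ^ k : End K V) ((D - lam • 1 : End K V) (Φ s v)) =
          Φ s (((D - lam • 1) ^ k : End K V) ((D - lam • 1 : End K V) v))
        rw [hLΦ, ih]
    have hETp : ∀ v ∈ Tp B Φ, E v ∈ T Φ := by
      intro v hv
      have h3 := C.rem _ (hpE.Tp v hv)
      have h4 : C.π (E v) = 0 := by
        rw [← pi_pres C hpE hv]
        have := congrArg Subtype.val (h1 ⟨C.π v, C.mem v⟩)
        exact this
      rwa [h4, sub_zero] at h3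
    obtain ⟨N, hN⟩ := T_eq_Nk Φ
    refine ⟨lam, N + N + n, ?_⟩
    intro l hl v
    -- `(D-lam)^(N+N+n) v = E u`
    obtain ⟨u, hu⟩ : ∃ u, (((D - lam • 1) ^ (N + N + n) : End K V) v) = E u := by
      refine ⟨((D - lam • 1) ^ (N + N) : End K V) v, ?_⟩
      rw [add_comm (N + N) n, pow_add]
      rfl
    rw [hu]
    have hl2 : l = l.take (l.length - (N + N)) ++ l.drop (l.length - (N + N)) :=
      (List.take_append_drop _ _).symm
    rw [hl2, wd_append]
    set l' := l.drop (l.length - (N + N)) with hl'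
    have hlen : l'.length = N + N := by
      rw [hl', List.length_drop]; omega
    have hz : wd Φ l' (E u) = 0 := by
      have hl3 : l' = l'.take N ++ l'.drop N := (List.take_append_drop _ _).symm
      rw [hl3, wd_append, wd_comm (hpowΦ n)]
      have hlen2 : (l'.drop N).length = N := by rw [List.length_drop]; omega
      have hlen3 : (l'.take N).length = N := by rw [List.length_take]; omega
      have h5 : wd Φ (l'.drop N) u ∈ Tp B Φ := by
        intro t ht
        rw [wd_adj hΦ]
        rw [hN, mem_Nk_iff] at ht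
        rw [ht _ (by rw [List.length_reverse]; exact hlen2), map_zero]
      have h6 := hETp _ h5
      rw [hN, mem_Nk_iff] at h6
      exact h6 _ hlen3
    rw [hz, map_zero]
  · exact Or.inr h

end

end Crest.Agent.R172.Core
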