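import Crest.Agent.R172.Core4

/-!
Row 172, structure lemma (S), part 5: the version with a restricted class of deformations
(`X_s` skew with image in `T^⊥`), as needed for the non-spanning case (note 13222, helper274;
note 13349, helper531).
-/

set_option autoImplicit false

namespace Crest.Agent.R172.Core

open Module LinearMap St

variable {K : Type*} [Field K] {V : Type*} [AddCommGroup V] [Module K V] {ι : Type*}

section

variable {B : LinearMap.BilinForm K V} {Φ : ι → End K V}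

/-- The derivation hypothesis for skew `X_s` with image in `T^⊥ = Tp B Φ` only. -/
def DerR [Fintype ι] (B : LinearMap.BilinForm K V) (Φ : ι → Module.End K V) : Prop :=
  ∀ X : ι → Module.End K V, (∀ s v w, B (X s v) w = - B v (X s w)) →
    (∀ s v, X s v ∈ Tp B Φ) →
    ∑ s, (X s * Φ s - Φ s * X s) = 0 →
    ∃ (d : Derivation ℤ K K) (δ : V →+ V), (∀ (c : K) v, δ (c • v) = d c • v + c • δ v) ∧
      (∀ v w, B (δ v) w + B v (δ w) = d (B v w)) ∧
      ∀ s v, δ (Φ s v) - Φ s (δ v) = X s (Φ s v) - Φ s (X s v)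

theorem Der.toDerR [Fintype ι] (h : Der B Φ) : DerR B Φ := fun X h1 _ h3 => h X h1 h3

theorem Tp_eq_orth (hB : NS B) : Tp B Φ = B.orthogonal (T Φ) := by
  ext v
  rw [LinearMap.BilinForm.mem_orthogonal_iff]
  constructor
  · intro h t ht
    have := h t ht
    rw [hB.symm] at this
    exact this
  · intro h t ht
    rw [hB.symm]
    exact h t ht

/-- `A T^⊥ = T^⊥`. -/
theorem Tp_le_iSup [FiniteDimensional K V] [Finite ι] (hB : NS B) (hΦ : ∀ s, Sa B (Φ s)) :
    Tp B Φ ≤ ⨆ s, (Tp B Φ).map (Φ s) := by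
  have h1 : B.orthogonal (⨆ s, (Tp B Φ).map (Φ s)) ≤ T Φ := by
    intro v hv
    apply T_closed
    intro s
    rw [← hB.oo (T Φ), ← Tp_eq_orth hB]
    intro w hw
    have h2 := hv _ (Submodule.mem_iSup_of_mem s ⟨w, hw, rfl⟩)
    have h3 : B (Φ s w) v = 0 := h2
    rw [hΦ] at h3
    exact h3
  have h4 := LinearMap.BilinForm.orthogonal_le (B := B) h1
  rw [hB.oo, ← Tp_eq_orth hB] at h4
  exact h4

/-- solving the linear equation in the lifting lemma, with corrections in `R ∧ T^⊥`. -/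
theorem exists_solve' [FiniteDimensional K V] [CharZero K] [Fintype ι]
    (hB : NS B) (hΦ : ∀ s, Sa B (Φ s)) (C : St.Core B Φ)
    {e : End K V} (he : Sa B e) (heT : ∀ t ∈ T Φ, e t = 0)
    (heTp : ∀ v ∈ Tp B Φ, e v ∈ T Φ) :
    ∃ X : ι → End K V, (∀ s, X s ∈ Submodule.span K
      {Y : End K V | ∃ r ∈ T Φ ⊓ Tp B Φ, ∃ w ∈ Tp B Φ, Y = wedge B r w}) ∧
      ∑ s, (X s * Φ s - Φ s * X s) = e := by
  classical
  set R : Submodule K V := T Φ ⊓ Tp B Φ with hR
  set 𝔛 : Submodule K (End K V) := Submodule.span K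
      {Y : End K V | ∃ r ∈ R, ∃ w ∈ Tp B Φ, Y = wedge B r w} with h𝔛
  let Ψ : (ι → End K V) →ₗ[K] End K V :=
    ∑ s, (LinearMap.mulRight K (Φ s) - LinearMap.mulLeft K (Φ s)) ∘ₗ LinearMap.proj s
  have hΨ : ∀ X, Ψ X = ∑ s, (X s * Φ s - Φ s * X s) := by
    intro X
    simp [Ψ, LinearMap.sum_apply]
  set W : Submodule K (End K V) := (Submodule.pi Set.univ fun _ : ι => 𝔛).map Ψ with hW
  by_cases hmem : e ∈ W
  · obtain ⟨X, hX, hXe⟩ := hmem
    refine ⟨X, fun s => ?_, ?_⟩
    · exact (Submodule.mem_pi.1 hX) s (Set.mem_univ s)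
    · rw [← hΨ, hXe]
  exfalso
  obtain ⟨f, hfe, hfW⟩ := Submodule.exists_dual_map_eq_bot_of_notMem hmem inferInstance
  have hf0 : ∀ Y ∈ W, f Y = 0 := by
    intro Y hY
    have : f Y ∈ W.map f := ⟨Y, hY, rfl⟩
    rw [hfW] at this
    exact (Submodule.mem_bot K).1 this
  apply hfe
  have hΦTp : ∀ s, ∀ v ∈ Tp B Φ, Φ s v ∈ Tp B Φ := fun s v hv =>
    Tp_stable (hΦ s) (fun t ht => T_stable s ht) hv
  have hcomm : ∀ s, ∀ r ∈ R, ∀ w ∈ Tp B Φ, f (sym B r (Φ s w)) = f (sym B (Φ s r) w) := by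
    intro s r hr w hw
    have hmemW : wedge B r w * Φ s - Φ s * wedge B r w ∈ W := by
      refine ⟨Pi.single s (wedge B r w), ?_, ?_⟩
      · rw [SetLike.mem_coe, Submodule.mem_pi]
        intro i _
        by_cases hi : i = s
        · subst hi
          rw [Pi.single_eq_same]
          exact Submodule.subset_span ⟨r, hr, w, hw, rfl⟩
        · rw [Pi.single_eq_of_ne hi]
          exact Submodule.zero_mem _
      · rw [hΨ, Finset.sum_eq_single s]
        · rw [Pi.single_eq_same]
        · intro i _ hi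
          rw [Pi.single_eq_of_ne hi]; simp
        · intro h; exact absurd (Finset.mem_univ s) h
    have h0 := hf0 _ hmemW
    rw [wedge_comm B (hΦ s), map_sub, sub_eq_zero] at h0
    exact h0
  have hz : ∀ k, ∀ r ∈ R, r ∈ Nk Φ k → ∀ w ∈ Tp B Φ, f (sym B r w) = 0 := by
    intro k
    induction k with
    | zero =>
      intro r _ h w _
      rw [mem_Nk_zero] at h
      subst h
      have h1 : sym B (0 : V) w = 0 := by
        rw [← symL_apply, map_zero, LinearMap.zero_apply]
      rw [h1, map_zero]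
    | succ k ih =>
      intro r hr h w hw
      rw [mem_Nk_succ] at h
      have hle : (⨆ s, (Tp B Φ).map (Φ s)) ≤
          LinearMap.ker (f ∘ₗ symL B r) := by
        apply iSup_le
        rintro s _ ⟨w', hw', rfl⟩
        rw [LinearMap.mem_ker, LinearMap.comp_apply, symL_apply, hcomm s r hr w' hw']
        exact ih _ ⟨T_stable s hr.1, hΦTp s r hr.2⟩ (h s) w' hw'
      have h2 := hle (Tp_le_iSup hB hΦ hw)
      rw [LinearMap.mem_ker, LinearMap.comp_apply, symL_apply] at h2
      exact h2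
  refine sym_span hB.symm hB.nondeg C he heT heTp f ?_
  intro r hr w hw
  obtain ⟨k, hk⟩ := mem_T.1 hr.1
  exact hz k r hr hk w hw

/-- Lifting lemma with `X_s` in `Λ² T^⊥`. -/
theorem lift' [FiniteDimensional K V] [CharZero K] [Fintype ι]
    (hB : NS B) (hΦ : ∀ s, Sa B (Φ s)) (C : St.Core B Φ) (ξ : ι → End K V)
    (hξ : ∀ s, Sk B (ξ s))
    (hξM : ∀ s v, ξ s v ∈ C.M) (hξπ : ∀ s v, ξ s (C.π v) = ξ s v)
    (hsum : ∀ v ∈ C.M, ∑ s, (ξ s (C.π (Φ s v)) - C.π (Φ s (ξ s v))) = 0) :
    ∃ X : ι → End K V, (∀ s, Sk B (X s)) ∧ (∀ s v, X s v ∈ Tp B Φ) ∧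
      (∀ s, ∀ t ∈ T Φ, X s t ∈ T Φ) ∧
      (∀ s, ∀ v ∈ Tp B Φ, C.π (X s v) = ξ s v) ∧
      ∑ s, (X s * Φ s - Φ s * X s) = 0 := by
  classical
  set e : End K V := ∑ s, (ξ s * Φ s - Φ s * ξ s) with he
  have hΦTp : ∀ s, ∀ v ∈ Tp B Φ, Φ s v ∈ Tp B Φ := fun s v hv =>
    Tp_stable (hΦ s) (fun t ht => T_stable s ht) hv
  have hξT : ∀ s, ∀ t ∈ T Φ, ξ s t = 0 := by
    intro s t ht
    rw [← hξπ, C.killT t ht, map_zero]
  have heSa : Sa B e := by
    intro u v
    rw [he]
    simp only [LinearMap.sum_apply, map_sum]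
    refine Finset.sum_congr rfl fun s _ => ?_
    simp only [LinearMap.sub_apply, Module.End.mul_apply, map_sub]
    have h1 := hξ s (Φ s u) v
    have h2 := hξ s u (Φ s v)
    rw [hΦ] at h1
    have h3 : B (Φ s (ξ s u)) v = B (ξ s u) (Φ s v) := hΦ s _ _
    rw [h3]
    linear_combination h1 - h2
  have heT : ∀ t ∈ T Φ, e t = 0 := by
    intro t ht
    rw [he, LinearMap.sum_apply]
    refine Finset.sum_eq_zero fun s _ => ?_
    rw [LinearMap.sub_apply, Module.End.mul_apply, Module.End.mul_apply, hξT s t ht,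
      hξT s _ (T_stable s ht), map_zero, sub_zero]
  have heTp : ∀ v ∈ Tp B Φ, e v ∈ T Φ := by
    intro v hv
    have hev : e v ∈ Tp B Φ := by
      rw [he, LinearMap.sum_apply]
      refine Submodule.sum_mem _ fun s _ => ?_
      exact Submodule.sub_mem _ (C.le _ (hξM s _)) (hΦTp s _ (C.le _ (hξM s _)))
    have hπe : C.π (e v) = 0 := by
      rw [he, LinearMap.sum_apply, map_sum, ← hsum (C.π v) (C.mem v)]
      refine Finset.sum_congr rfl fun s _ => ?_
      have e1 : C.π (ξ s (Φ s v)) = ξ s (C.π (Φ s (C.π v))) := by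
        rw [C.fix _ (hξM s _), pi_pres C (pres_Φ hΦ s) hv, hξπ]
      rw [LinearMap.sub_apply, Module.End.mul_apply, Module.End.mul_apply, map_sub, e1, hξπ s v]
    have h2 := C.rem _ hev
    rwa [hπe, sub_zero] at h2
  obtain ⟨X', hX', hX'e⟩ := exists_solve' hB hΦ C heSa heT heTp
  have hsk' : ∀ s, Sk B (X' s) := by
    intro s
    refine Submodule.span_induction (p := fun Y _ => Sk B Y) ?_ ?_ ?_ ?_ (hX' s)
    · rintro _ ⟨r, _, w, _, rfl⟩
      exact wedge_sk B hB.symm r w
    · intro u v; simp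
    · intro x y _ _ hx hy u v
      have h1 := hx u v
      have h2 := hy u v
      simp only [LinearMap.add_apply, map_add]
      linear_combination h1 + h2
    · intro c x _ hx u v
      have h1 := hx u v
      simp only [LinearMap.smul_apply, map_smul, smul_eq_mul]
      linear_combination c * h1
  have hr' : ∀ s v, X' s v ∈ Tp B Φ := by
    intro s v
    refine Submodule.span_induction (p := fun Y _ => Y v ∈ Tp B Φ) ?_ ?_ ?_ ?_ (hX' s)
    · rintro _ ⟨r, hr, w, hw, rfl⟩
      rw [wedge_apply]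
      exact Submodule.sub_mem _ (Submodule.smul_mem _ _ hr.2) (Submodule.smul_mem _ _ hw)
    · exact Submodule.zero_mem _
    · intro x y _ _ hx hy; exact Submodule.add_mem _ hx hy
    · intro c x _ hx; exact Submodule.smul_mem _ _ hx
  have hT' : ∀ s, ∀ t ∈ T Φ, X' s t = 0 := by
    intro s t ht
    refine Submodule.span_induction (p := fun Y _ => Y t = 0) ?_ ?_ ?_ ?_ (hX' s)
    · rintro _ ⟨r, hr, w, hw, rfl⟩
      rw [wedge_apply, hw t ht, hr.2 t ht, zero_smul, zero_smul, sub_zero]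
    · rfl
    · intro x y _ _ hx hy; rw [LinearMap.add_apply, hx, hy, add_zero]
    · intro c x _ hx; rw [LinearMap.smul_apply, hx, smul_zero]
  have hπ' : ∀ s, ∀ v ∈ Tp B Φ, C.π (X' s v) = 0 := by
    intro s v hv
    refine Submodule.span_induction (p := fun Y _ => C.π (Y v) = 0) ?_ ?_ ?_ ?_ (hX' s)
    · rintro _ ⟨r, hr, w, hw, rfl⟩
      have h1 : B r v = 0 := by rw [hB.symm]; exact hv r hr.1
      rw [wedge_apply, h1, zero_smul, sub_zero, map_smul, C.killT r hr.1, smul_zero]
    · exact map_zero _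
    · intro x y _ _ hx hy; rw [LinearMap.add_apply, map_add, hx, hy, add_zero]
    · intro c x _ hx; rw [LinearMap.smul_apply, map_smul, hx, smul_zero]
  refine ⟨fun s => ξ s - X' s, ?_, ?_, ?_, ?_, ?_⟩
  · intro s u v
    have h1 := hξ s u v
    have h2 := hsk' s u v
    simp only [LinearMap.sub_apply, map_sub]
    linear_combination h1 - h2
  · intro s v
    exact Submodule.sub_mem _ (C.le _ (hξM s v)) (hr' s v)
  · intro s t ht
    change ξ s t - X' s t ∈ T Φ
    rw [hξT s t ht, hT' s t ht, sub_zero]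
    exact Submodule.zero_mem _
  · intro s v hv
    change C.π (ξ s v - X' s v) = ξ s v
    rw [map_sub, hπ' s v hv, sub_zero, C.fix _ (hξM s v)]
  · have h1 : ∀ s, (ξ s - X' s) * Φ s - Φ s * (ξ s - X' s) =
        (ξ s * Φ s - Φ s * ξ s) - (X' s * Φ s - Φ s * X' s) := by
      intro s; noncomm_ring
    rw [Finset.sum_congr rfl (fun s _ => h1 s), Finset.sum_sub_distrib, hX'e, ← he, sub_self]

/-- Descent of the restricted derivation hypothesis to the core. -/
theorem Der_core' [FiniteDimensional K V] [CharZero K] [Fintype ι] (hB : NS B)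
    (hΦ : ∀ s, Sa B (Φ s)) (hDer : DerR B Φ) (C : St.Core B Φ) :
    Der (BM C) (fun s => cp C (Φ s)) := by
  intro ξ hξ hsum
  -- extension of `ξ` to `V`
  let πM : V →ₗ[K] C.M := C.π.codRestrict C.M C.mem
  have hπM : ∀ v, ((πM v : C.M) : V) = C.π v := fun v => rfl
  have hππ : ∀ v, C.π (C.π v) = C.π v := fun v => C.fix _ (C.mem v)
  let Ξ : ι → End K V := fun s => C.M.subtype ∘ₗ ξ s ∘ₗ πM
  have hΞ : ∀ s v, Ξ s v = ((ξ s (πM v) : C.M) : V) := fun s v => rfl
  have hBM : ∀ (m : C.M) (w : V), B m w = BM C m (πM w) := by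
    intro m w
    rw [BM_apply, hπM, ← C.sa, C.fix m m.2]
  have hSk : ∀ s, Sk B (Ξ s) := by
    intro s u v
    rw [hΞ, hΞ, hBM, hB.symm u, hBM, hξ, (NS_BM hB C).symm (πM u)]
    ring
  obtain ⟨X, hXs, hXr, hXT, hXp, hX0⟩ := lift' hB hΦ C Ξ hSk
    (fun s v => (ξ s (πM v)).2) (fun s v => by
      rw [hΞ, hΞ]
      congr 2
      exact Subtype.ext (hππ v)) (by
      intro v hv
      have h := congrArg Subtype.val (LinearMap.congr_fun hsum ⟨v, hv⟩)
      rw [LinearMap.sum_apply, Submodule.coe_sum] at h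
      rw [show ((0 : Module.End K C.M) ⟨v, hv⟩ : C.M).1 = 0 from rfl] at h
      rw [← h]
      refine Finset.sum_congr rfl (fun s _ => ?_)
      have e1 : πM v = ⟨v, hv⟩ := Subtype.ext (C.fix v hv)
      have e2 : πM (C.π (Φ s v)) = cp C (Φ s) ⟨v, hv⟩ := Subtype.ext (hππ _)
      rw [hΞ, hΞ, e1, e2]
      rfl)
  obtain ⟨d, δ, hδs, hδB, hδΦ⟩ := hDer X (fun s v w => by
    have := hXs s v w
    linear_combination this) hXr hX0
  -- `δ` preserves `T`
  have hδN : ∀ k, ∀ v ∈ Nk Φ k, δ v ∈ T Φ := by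
    intro k
    induction k with
    | zero =>
      intro v hv
      rw [mem_Nk_zero] at hv
      rw [hv, map_zero]
      exact Submodule.zero_mem _
    | succ k ih =>
      intro v hv
      have hvT : v ∈ T Φ := Nk_le_T Φ _ hv
      apply T_closed
      intro s
      have h1 := ih _ (mem_Nk_succ.1 hv s)
      have h2 := hδΦ s v
      have h3 : Φ s (δ v) = δ (Φ s v) - (X s (Φ s v) - Φ s (X s v)) := by
        rw [← h2]; abel
      rw [h3]
      exact Submodule.sub_mem _ h1 (Submodule.sub_mem _ (hXT s _ (T_stable s hvT))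
        (T_stable s (hXT s _ hvT)))
  have hδT : ∀ v ∈ T Φ, δ v ∈ T Φ := by
    intro v hv
    obtain ⟨k, hk⟩ := mem_T.1 hv
    exact hδN k v hk
  have hδp : ∀ v ∈ Tp B Φ, δ v ∈ Tp B Φ := by
    intro v hv t ht
    have h := hδB v t
    rw [hv t ht, hv _ (hδT t ht), map_zero, add_zero] at h
    exact h
  have hπδ : ∀ v ∈ Tp B Φ, C.π (δ (C.π v)) = C.π (δ v) := by
    intro v hv
    have h1 : C.π (δ (v - C.π v)) = 0 := C.killT _ (hδT _ (C.rem v hv))
    rw [map_sub, map_sub, sub_eq_zero] at h1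
    exact h1.symm
  let δM : C.M →+ C.M :=
    { toFun := fun v => ⟨C.π (δ v), C.mem _⟩
      map_zero' := by
        apply Subtype.ext
        change C.π (δ (0 : V)) = 0
        rw [map_zero, map_zero]
      map_add' := by
        intro v w
        apply Subtype.ext
        change C.π (δ ((v : V) + w)) = C.π (δ v) + C.π (δ w)
        rw [map_add, map_add] }
  have hδM : ∀ v : C.M, ((δM v : C.M) : V) = C.π (δ v) := fun v => rfl
  refine ⟨d, δM, ?_, ?_, ?_⟩
  · intro c v
    apply Subtype.ext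
    rw [Submodule.coe_add, Submodule.coe_smul, Submodule.coe_smul, hδM, hδM, Submodule.coe_smul,
      hδs, map_add, map_smul, map_smul, C.fix v v.2]
  · intro v w
    rw [BM_apply, BM_apply, BM_apply, hδM, hδM, C.sa, C.fix w w.2, ← C.sa, C.fix v v.2, hδB]
  · intro s v
    apply Subtype.ext
    have hv := C.le v v.2
    have hΦv : Φ s v ∈ Tp B Φ := (pres_Φ hΦ s).Tp _ hv
    have hXv : X s v ∈ Tp B Φ := Tp_stable_sk (hXs s) (hXT s) hv
    rw [Submodule.coe_sub, Submodule.coe_sub, hδM, cp_coe, cp_coe, cp_coe, hδM, hπδ _ hΦv,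
      pi_pres C (pres_Φ hΦ s) (hδp _ hv), ← map_sub, hδΦ, map_sub, hXp s _ hΦv, hΞ]
    have e1 : πM (Φ s v) = cp C (Φ s) v := Subtype.ext rfl
    rw [e1]
    congr 1
    rw [← pi_pres C (pres_Φ hΦ s) hXv, hXp s _ hv, hΞ]
    have e2 : πM (v : V) = v := Subtype.ext (C.fix v v.2)
    rw [e2]

/-- The alternative (one block or tame) for ANY self-adjoint operator `D` of the core commuting
with the compressed `Φ_s` (needed in the non-spanning case). -/
theorem core_alt_of_DerR [FiniteDimensional K V] [IsAlgClosed K] [CharZero K] [Fintype ι]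
    (hB : NS B) (hΦ : ∀ s, Sa B (Φ s)) (hnil : ∃ k, ∀ s, Φ s ^ k = 0)
    (hsum : ∀ v, ∑ s, Φ s v = 0) (hDer : DerR B Φ) (C : St.Core B Φ)
    {D : End K C.M} (hDB : ∀ v w, BM C (D v) w = BM C v (D w))
    (hDΦ : ∀ s v, D (cp C (Φ s) v) = cp C (Φ s) (D v)) :
    (∃ lam, D.maxGenEigenspace lam = ⊤) ∨ Tame (fun s => cp C (Φ s)) D :=
  core_alt (B := BM C) (Φ := fun s => cp C (Φ s)) (D := D) (NS_BM hB C)
    (fun s v w => cp_sa C (hΦ s) v w)
    (by
      obtain ⟨k, hk⟩ := hnil
      refine ⟨k, fun s => ?_⟩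
      rw [cp_pow C (pres_Φ hΦ s), hk s]
      apply LinearMap.ext
      intro v
      apply Subtype.ext
      change C.π ((0 : End K V) v) = 0
      rw [LinearMap.zero_apply, map_zero])
    (by
      intro v
      apply Subtype.ext
      rw [Submodule.coe_sum]
      change ∑ s, C.π (Φ s v) = 0
      rw [← map_sum, hsum, map_zero])
    (fun v h => cp_ker hΦ C v h) (Der_core' hB hΦ hDer C) hDB hDΦ
    (Module.End.iSup_maxGenEigenspace_eq_top _)

/-- **The structure lemma (S) of note 12992**, with the restricted derivation hypothesis. -/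
theorem structure_lemma' [FiniteDimensional K V] [IsAlgClosed K] [CharZero K] [Fintype ι]
    (hB : NS B) (hΦ : ∀ s, Sa B (Φ s)) (hnil : ∃ k, ∀ s, Φ s ^ k = 0)
    (hsum : ∀ v, ∑ s, Φ s v = 0) (hDer : DerR B Φ)
    {D : End K V} (hDB : Sa B D) (hDΦ : ∀ s v, D (Φ s v) = Φ s (D v)) (C : St.Core B Φ) :
    (∃ (lam : K) (m : ℕ), ∀ l : List ι, m ≤ l.length → ∀ v, wd Φ l (((D - lam • 1) ^ m : End K V) v) = 0) ∨
      Tame (fun s => cp C (Φ s)) (cp C D) := by
  have hpD := pres_D hDB hDΦ
  have halt := core_alt (B := BM C) (Φ := fun s => cp C (Φ s)) (D := cp C D) (NS_BM hB C)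
    (fun s v w => cp_sa C (hΦ s) v w)
    (by
      obtain ⟨k, hk⟩ := hnil
      refine ⟨k, fun s => ?_⟩
      rw [cp_pow C (pres_Φ hΦ s), hk s]
      apply LinearMap.ext
      intro v
      apply Subtype.ext
      change C.π ((0 : End K V) v) = 0
      rw [LinearMap.zero_apply, map_zero])
    (by
      intro v
      apply Subtype.ext
      rw [Submodule.coe_sum]
      change ∑ s, C.π (Φ s v) = 0
      rw [← map_sum, hsum, map_zero])
    (fun v h => cp_ker hΦ C v h) (Der_core' hB hΦ hDer C)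
    (fun v w => cp_sa C hDB v w)
    (by
      intro s v
      rw [cp_comp C hpD (pres_Φ hΦ s), cp_comp C (pres_Φ hΦ s) hpD]
      congr 1
      exact congrArg _ (LinearMap.ext (hDΦ s)))
    (Module.End.iSup_maxGenEigenspace_eq_top _)
  rcases halt with ⟨lam, hlam⟩ | h
  · left
    -- `(D - lam)^n` kills the core
    set n : ℕ := finrank K C.M with hn
    have h1 : ∀ v : C.M, ((cp C D - lam • 1) ^ n : End K C.M) v = 0 := by
      intro v
      have hv : v ∈ (cp C D).maxGenEigenspace lam := by rw [hlam]; trivial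
      rw [Module.End.maxGenEigenspace_eq_genEigenspace_finrank,
        Module.End.mem_genEigenspace_nat] at hv
      exact hv
    have hpL : Pres B Φ (D - lam • 1) :=
      ⟨fun t ht => Submodule.sub_mem _ (hpD.T t ht) (Submodule.smul_mem _ _ ht),
        fun t ht => Submodule.sub_mem _ (hpD.Tp t ht) (Submodule.smul_mem _ _ ht)⟩
    have h2 : cp C D - lam • 1 = cp C (D - lam • 1) := by
      rw [cp_sub, cp_smul, cp_one]
    rw [h2, cp_pow C hpL] at h1
    set E : End K V := (D - lam • 1) ^ n with hE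
    have hpE : Pres B Φ E := pres_pow hpL n
    have hLΦ : ∀ s v, (D - lam • 1 : End K V) (Φ s v) = Φ s ((D - lam • 1 : End K V) v) := by
      intro s v
      change D (Φ s v) - lam • (Φ s v) = Φ s (D v - lam • v)
      rw [map_sub, map_smul, hDΦ]
    have hpowΦ : ∀ k, ∀ s v, ((D - lam • 1) ^ k : End K V) (Φ s v) =
        Φ s (((D - lam • 1) ^ k : End K V) v) := by
      intro k
      induction k with
      | zero => intro s v; rfl
      | succ k ih =>
        intro s v
        rw [pow_succ]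
        change ((D - lam • 1) ^ k : End K V) ((D - lam • 1 : End K V) (Φ s v)) =
          Φ s (((D - lam • 1) ^ k : End K V) ((D - lam • 1 : End K V) v))
        rw [hLΦ, ih]
    have hETp : ∀ v ∈ Tp B Φ, E v ∈ T Φ := by
      intro v hv
      have h3 := C.rem _ (hpE.Tp v hv)
      have h4 : C.π (E v) = 0 := by
        rw [← pi_pres C hpE hv]
        have := congrArg Subtype.val (h1 ⟨C.π v, C.mem v⟩)
        exact this
      rwa [h4, sub_zero] at h3
    obtain ⟨N, hN⟩ := T_eq_Nk Φ
    refine ⟨lam, N + N + n, ?_⟩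
    intro l hl v
    -- `(D-lam)^(N+N+n) v = E u`
    obtain ⟨u, hu⟩ : ∃ u, (((D - lam • 1) ^ (N + N + n) : End K V) v) = E u := by
      refine ⟨((D - lam • 1) ^ (N + N) : End K V) v, ?_⟩
      rw [add_comm (N + N) n, pow_add]
      rfl
    rw [hu]
    have hl2 : l = l.take (l.length - (N + N)) ++ l.drop (l.length - (N + N)) :=
      (List.take_append_drop _ _).symm
    rw [hl2, wd_append]
    set l' := l.drop (l.length - (N + N)) with hl'
    have hlen : l'.length = N + N := by
      rw [hl', List.length_drop]; omega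
    have hz : wd Φ l' (E u) = 0 := by
      have hl3 : l' = l'.take N ++ l'.drop N := (List.take_append_drop _ _).symm
      rw [hl3, wd_append, wd_comm (hpowΦ n)]
      have hlen2 : (l'.drop N).length = N := by rw [List.length_drop]; omega
      have hlen3 : (l'.take N).length = N := by rw [List.length_take]; omega
      have h5 : wd Φ (l'.drop N) u ∈ Tp B Φ := by
        intro t ht
        rw [wd_adj hΦ]
        rw [hN, mem_Nk_iff] at ht
        rw [ht _ (by rw [List.length_reverse]; exact hlen2), map_zero]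
      have h6 := hETp _ h5
      rw [hN, mem_Nk_iff] at h6
      exact h6 _ hlen3
    rw [hz, map_zero]
  · exact Or.inr h

end

end Crest.Agent.R172.Core
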