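import Crest.Agent.R172.TL1

/-!
Row 172, TAME, `R ≠ 0` (note 15129 of helper494, steps (2), (3), (4), (6)): linear algebra of the
defect.

* `def_mem`: if `ι (x, c x) ∈ T` for infinitely many `c` and all `x` with `x φ₁ = c φ₂ x`, then
  `ι (Y, S) ∈ T` for every filtered `Y` and EVERY `S` with `φ₂ S = Y φ₁`.
* `def_mem2`: the same for products through a second block.
* `ker_eq`: `ker π = ∑ₛ bₛ (ker Φₛ)`.
* `exists_shift`: the shifts `Sₛ` of a map filtered at every arm can be chosen with `∑ bₛ Sₛ = 0`.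
-/

set_option autoImplicit false

namespace Crest.Agent.R172.Def

open Module LinearMap Crest.Agent.R172.TL

variable {K : Type*} [Field K]
variable {C₁ C₂ C₃ : Type*} [AddCommGroup C₁] [Module K C₁] [AddCommGroup C₂] [Module K C₂]
  [AddCommGroup C₃] [Module K C₃]

section one

variable {φ₁ : End K C₁} {φ₂ : End K C₂} {l : ℕ}

/-- coordinates of a filtered map with a shift -/
theorem exists_coords [FiniteDimensional K C₂] {m₁ : ℕ} {e₁ : Fin m₁ → C₁}
    (b₁ : Basis (Fin l × Fin m₁) K C₁)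
    (hb₁ : ∀ p, b₁ p = (φ₁ ^ (p.1 : ℕ)) (e₁ p.2)) (h₁ : φ₁ ^ l = 0)
    (h₂ : φ₂ ^ l = 0) (hf₂ : l * finrank K (ker φ₂) = finrank K C₂)
    {Y S : C₁ →ₗ[K] C₂} (hY : Filt φ₁ φ₂ Y) (hS : φ₂ ∘ₗ S = Y ∘ₗ φ₁) :
    ∃ w : Fin (l + 1) × Fin m₁ → C₂,
      (∀ p : Fin l × Fin m₁, Y (b₁ p) = (φ₂ ^ (p.1 : ℕ)) (w (p.1.castSucc, p.2))) ∧
      (∀ p : Fin l × Fin m₁, S (b₁ p) = (φ₂ ^ (p.1 : ℕ)) (w (p.1.succ, p.2))) := by
  have hker : ∀ k : C₂, φ₂ k = 0 → 0 < l → ∃ u, (φ₂ ^ (l - 1)) u = k := by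
    intro k hk hl
    have h3 : ker (φ₂ ^ 1) = range (φ₂ ^ (l - 1)) := TC.ker_eq_range h₂ hf₂ (v := 1) (by omega)
    have h4 : k ∈ ker (φ₂ ^ 1) := by
      rw [pow_one]
      exact hk
    rw [h3] at h4
    exact h4
  have key : ∀ t : Fin (l + 1) × Fin m₁, ∃ w : C₂,
      (∀ ht : (t.1 : ℕ) < l, Y (b₁ (⟨t.1, ht⟩, t.2)) = (φ₂ ^ (t.1 : ℕ)) w) ∧
      (∀ ht : 0 < (t.1 : ℕ), S (b₁ (⟨(t.1 : ℕ) - 1, by omega⟩, t.2)) =
        (φ₂ ^ ((t.1 : ℕ) - 1)) w) := by
    rintro ⟨t, a⟩
    by_cases ht0 : (t : ℕ) = 0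
    · -- only `Y`
      by_cases hl : (t : ℕ) < l
      · obtain ⟨w, hw⟩ := hY (t : ℕ) (b₁ (⟨t, hl⟩, a)) ⟨e₁ a, (hb₁ (⟨t, hl⟩, a)).symm⟩
        refine ⟨w, fun _ => hw.symm, fun h => ?_⟩
        simp only at h
        omega
      · refine ⟨0, fun h => absurd h hl, fun h => ?_⟩
        simp only at h
        omega
    · have hl0 : 0 < l := by
        have := t.2
        omega
      have hlt : (t : ℕ) - 1 < l := by
        have := t.2
        omega
      have hφS : φ₂ (S (b₁ (⟨(t : ℕ) - 1, hlt⟩, a))) = Y (φ₁ (b₁ (⟨(t : ℕ) - 1, hlt⟩, a))) :=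
        LinearMap.congr_fun hS _
      have hφb : φ₁ (b₁ (⟨(t : ℕ) - 1, hlt⟩, a)) = (φ₁ ^ (t : ℕ)) (e₁ a) := by
        rw [hb₁, ← Module.End.mul_apply, ← pow_succ']
        congr 2
        simp only
        omega
      by_cases hl : (t : ℕ) < l
      · obtain ⟨w', hw'⟩ := hY (t : ℕ) (b₁ (⟨t, hl⟩, a)) ⟨e₁ a, (hb₁ (⟨t, hl⟩, a)).symm⟩
        have hφb' : φ₁ (b₁ (⟨(t : ℕ) - 1, hlt⟩, a)) = b₁ (⟨t, hl⟩, a) := by
          rw [hφb, hb₁]
        have hk : φ₂ (S (b₁ (⟨(t : ℕ) - 1, hlt⟩, a)) - (φ₂ ^ ((t : ℕ) - 1)) w') = 0 := by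
          rw [map_sub, hφS, hφb', ← hw', ← Module.End.mul_apply, ← pow_succ',
            show (t : ℕ) - 1 + 1 = t by omega, sub_self]
        obtain ⟨u, hu⟩ := hker _ hk hl0
        refine ⟨w' + (φ₂ ^ (l - t)) u, fun _ => ?_, fun _ => ?_⟩
        · rw [map_add, hw', ← Module.End.mul_apply, ← pow_add,
            show (t : ℕ) + (l - t) = l by omega, h₂, LinearMap.zero_apply, add_zero]
        · simp only
          rw [map_add, ← Module.End.mul_apply (φ₂ ^ ((t : ℕ) - 1)), ← pow_add,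
            show (t : ℕ) - 1 + (l - t) = l - 1 by omega, hu]
          abel
      · have htl : (t : ℕ) = l := by
          have := t.2
          omega
        have hk : φ₂ (S (b₁ (⟨(t : ℕ) - 1, hlt⟩, a))) = 0 := by
          rw [hφS, hφb, htl, h₁, LinearMap.zero_apply, map_zero]
        obtain ⟨u, hu⟩ := hker _ hk hl0
        refine ⟨u, fun h => absurd h hl, fun _ => ?_⟩
        simp only
        rw [← hu, htl]
  choose w hw1 hw2 using key
  refine ⟨w, fun p => ?_, fun p => ?_⟩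
  · have := hw1 (p.1.castSucc, p.2) (by simp)
    simpa using this
  · have := hw2 (p.1.succ, p.2) (by simp)
    simpa using this

theorem def_mem {E : Type*} [AddCommGroup E] [Module K E] [FiniteDimensional K C₁]
    [FiniteDimensional K C₂]
    (h₁ : φ₁ ^ l = 0) (hf₁ : l * finrank K (ker φ₁) = finrank K C₁)
    (h₂ : φ₂ ^ l = 0) (hf₂ : l * finrank K (ker φ₂) = finrank K C₂)
    (T : Submodule K E) (ι : ((C₁ →ₗ[K] C₂) × (C₁ →ₗ[K] C₂)) →ₗ[K] E)
    {Λ : Set K} (hΛ : Λ.Infinite)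
    (h : ∀ c ∈ Λ, ∀ x : C₁ →ₗ[K] C₂, x ∘ₗ φ₁ = c • (φ₂ ∘ₗ x) → ι (x, c • x) ∈ T)
    {Y S : C₁ →ₗ[K] C₂} (hY : Filt φ₁ φ₂ Y) (hS : φ₂ ∘ₗ S = Y ∘ₗ φ₁) : ι (Y, S) ∈ T := by
  classical
  obtain ⟨e₁, b₁, hb₁⟩ := TC.exists_adapted h₁ hf₁
  obtain ⟨w, hwY, hwS⟩ := exists_coords b₁ hb₁ h₁ h₂ hf₂ hY hS
  -- elementary maps
  let El : (Fin l × Fin (finrank K (ker φ₁))) → C₂ → (C₁ →ₗ[K] C₂) :=
    fun p v => (b₁.coord p).smulRight v
  have hElb : ∀ p q v, El p v (b₁ q) = if q = p then v else 0 := by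
    intro p q v
    simp only [El, LinearMap.smulRight_apply, Basis.coord_apply, Basis.repr_self]
    by_cases hqp : q = p
    · subst hqp
      simp
    · rw [if_neg hqp, Finsupp.single_eq_of_ne (fun h => hqp h.symm), zero_smul]
  let PY : Fin (l + 1) → Fin (finrank K (ker φ₁)) → C₂ → (C₁ →ₗ[K] C₂) := fun t a z =>
    if ht : (t : ℕ) < l then El (⟨t, ht⟩, a) ((φ₂ ^ (t : ℕ)) z) else 0
  let PS : Fin (l + 1) → Fin (finrank K (ker φ₁)) → C₂ → (C₁ →ₗ[K] C₂) := fun t a z =>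
    if ht : 0 < (t : ℕ) then El (⟨(t : ℕ) - 1, by omega⟩, a) ((φ₂ ^ ((t : ℕ) - 1)) z) else 0
  have key : ∀ (t : Fin (l + 1)) (a : Fin (finrank K (ker φ₁))) (z : C₂),
      ι (PY t a z, PS t a z) ∈ T := by
    intro t a z
    refine poly_mem T hΛ (Finset.univ : Finset (Fin (l + 1))) (fun t => (t : ℕ))
      (fun i _ j _ hij => Fin.ext hij) (fun t => ι (PY t a z, PS t a z)) ?_ t (Finset.mem_univ _)
    intro c hc
    let x : C₁ →ₗ[K] C₂ := b₁.constr K (fun p =>
      if p.2 = a then c ^ (p.1 : ℕ) • (φ₂ ^ (p.1 : ℕ)) z else 0)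
    have hxb : ∀ p, x (b₁ p) = if p.2 = a then c ^ (p.1 : ℕ) • (φ₂ ^ (p.1 : ℕ)) z else 0 :=
      fun p => b₁.constr_basis K _ p
    have hx : x ∘ₗ φ₁ = c • (φ₂ ∘ₗ x) := by
      refine b₁.ext fun p => ?_
      rw [LinearMap.smul_apply, LinearMap.comp_apply, LinearMap.comp_apply, hxb]
      have hφ : φ₁ (b₁ p) = (φ₁ ^ ((p.1 : ℕ) + 1)) (e₁ p.2) := by
        rw [hb₁, ← Module.End.mul_apply, ← pow_succ']
      by_cases hp : (p.1 : ℕ) + 1 < l
      · have h5 : φ₁ (b₁ p) = b₁ (⟨(p.1 : ℕ) + 1, hp⟩, p.2) := by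
          rw [hφ, hb₁]
        rw [h5, hxb]
        by_cases hpa : p.2 = a
        · rw [if_pos hpa, if_pos hpa, map_smul, ← Module.End.mul_apply, ← pow_succ', smul_smul]
          simp only
          rw [pow_succ' c]
        · rw [if_neg hpa, if_neg hpa]
          simp
      · have hpl : (p.1 : ℕ) + 1 = l := by
          have := p.1.2
          omega
        rw [hφ, hpl, h₁, LinearMap.zero_apply, map_zero]
        by_cases hpa : p.2 = a
        · rw [if_pos hpa, map_smul, ← Module.End.mul_apply, ← pow_succ', hpl, h₂,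
            LinearMap.zero_apply, smul_zero, smul_zero]
        · rw [if_neg hpa, map_zero, smul_zero]
    have hsumY : ∑ t : Fin (l + 1), c ^ (t : ℕ) • PY t a z = x := by
      refine b₁.ext fun p => ?_
      rw [LinearMap.sum_apply, Finset.sum_eq_single p.1.castSucc]
      · rw [LinearMap.smul_apply, hxb]
        have : PY p.1.castSucc a z = El (p.1, a) ((φ₂ ^ (p.1 : ℕ)) z) := by
          simp only [PY]
          rw [dif_pos (by simp)]
          simp
        rw [this, hElb]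
        by_cases hpa : p.2 = a
        · rw [if_pos (by rw [← hpa]), if_pos hpa]
          simp
        · rw [if_neg (by
            intro hh
            exact hpa (congrArg Prod.snd hh)), if_neg hpa, smul_zero]
      · intro t _ ht
        rw [LinearMap.smul_apply]
        simp only [PY]
        by_cases htl : (t : ℕ) < l
        · rw [dif_pos htl, hElb, if_neg, smul_zero]
          intro hh
          apply ht
          have := congrArg (fun q : Fin l × Fin (finrank K (ker φ₁)) => (q.1 : ℕ)) hh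
          simp only at this
          exact Fin.ext (by simp [this])
        · rw [dif_neg htl, LinearMap.zero_apply, smul_zero]
      · intro hh
        exact absurd (Finset.mem_univ _) hh
    have hsumS : ∑ t : Fin (l + 1), c ^ (t : ℕ) • PS t a z = c • x := by
      refine b₁.ext fun p => ?_
      rw [LinearMap.sum_apply, Finset.sum_eq_single p.1.succ]
      · rw [LinearMap.smul_apply, LinearMap.smul_apply, hxb]
        have : PS p.1.succ a z = El (p.1, a) ((φ₂ ^ (p.1 : ℕ)) z) := by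
          simp only [PS]
          rw [dif_pos (by simp)]
          simp
        rw [this, hElb]
        by_cases hpa : p.2 = a
        · rw [if_pos (by rw [← hpa]), if_pos hpa, smul_smul]
          simp only [Fin.val_succ]
          rw [pow_succ' c]
        · rw [if_neg (by
            intro hh
            exact hpa (congrArg Prod.snd hh)), if_neg hpa, smul_zero, smul_zero]
      · intro t _ ht
        rw [LinearMap.smul_apply]
        simp only [PS]
        by_cases htl : 0 < (t : ℕ)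
        · rw [dif_pos htl, hElb, if_neg, smul_zero]
          intro hh
          apply ht
          have := congrArg (fun q : Fin l × Fin (finrank K (ker φ₁)) => (q.1 : ℕ)) hh
          simp only at this
          exact Fin.ext (by
            simp only [Fin.val_succ]
            omega)
        · rw [dif_neg htl, LinearMap.zero_apply, smul_zero]
      · intro hh
        exact absurd (Finset.mem_univ _) hh
    have h6 := h c hc x hx
    have h7 : ∑ t : Fin (l + 1), c ^ (t : ℕ) • ι (PY t a z, PS t a z) = ι (x, c • x) := by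
      have h8 : ∑ t : Fin (l + 1), c ^ (t : ℕ) • ι (PY t a z, PS t a z) =
          ι (∑ t : Fin (l + 1), c ^ (t : ℕ) • (PY t a z, PS t a z)) := by
        rw [map_sum]
        exact Finset.sum_congr rfl fun t _ => (map_smul _ _ _).symm
      rw [h8]
      congr 1
      refine Prod.ext ?_ ?_
      · rw [Prod.fst_sum]
        exact hsumY
      · rw [Prod.snd_sum]
        exact hsumS
    rw [h7]
    exact h6
  have hdec : (Y, S) = ∑ t : Fin (l + 1), ∑ a, (PY t a (w (t, a)), PS t a (w (t, a))) := by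
    refine Prod.ext ?_ ?_
    · rw [Prod.fst_sum]
      refine b₁.ext fun p => ?_
      rw [LinearMap.sum_apply, Finset.sum_eq_single p.1.castSucc]
      · rw [Prod.fst_sum, LinearMap.sum_apply, Finset.sum_eq_single p.2]
        · have : PY p.1.castSucc p.2 (w (p.1.castSucc, p.2)) =
              El (p.1, p.2) ((φ₂ ^ (p.1 : ℕ)) (w (p.1.castSucc, p.2))) := by
            simp only [PY]
            rw [dif_pos (by simp)]
            simp
          simp only
          rw [this, hElb, if_pos rfl, hwY]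
        · intro a _ ha
          simp only [PY]
          rw [dif_pos (by simp), hElb, if_neg]
          intro hh
          exact ha (congrArg Prod.snd hh).symm
        · intro hh
          exact absurd (Finset.mem_univ _) hh
      · intro t _ ht
        rw [Prod.fst_sum, LinearMap.sum_apply]
        refine Finset.sum_eq_zero fun a _ => ?_
        simp only [PY]
        by_cases htl : (t : ℕ) < l
        · rw [dif_pos htl, hElb, if_neg]
          intro hh
          apply ht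
          have := congrArg (fun q : Fin l × Fin (finrank K (ker φ₁)) => (q.1 : ℕ)) hh
          simp only at this
          exact Fin.ext (by simp [this])
        · rw [dif_neg htl, LinearMap.zero_apply]
      · intro hh
        exact absurd (Finset.mem_univ _) hh
    · rw [Prod.snd_sum]
      refine b₁.ext fun p => ?_
      rw [LinearMap.sum_apply, Finset.sum_eq_single p.1.succ]
      · rw [Prod.snd_sum, LinearMap.sum_apply, Finset.sum_eq_single p.2]
        · have : PS p.1.succ p.2 (w (p.1.succ, p.2)) =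
              El (p.1, p.2) ((φ₂ ^ (p.1 : ℕ)) (w (p.1.succ, p.2))) := by
            simp only [PS]
            rw [dif_pos (by simp)]
            simp
          simp only
          rw [this, hElb, if_pos rfl, hwS]
        · intro a _ ha
          simp only [PS]
          rw [dif_pos (by simp), hElb, if_neg]
          intro hh
          exact ha (congrArg Prod.snd hh).symm
        · intro hh
          exact absurd (Finset.mem_univ _) hh
      · intro t _ ht
        rw [Prod.snd_sum, LinearMap.sum_apply]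
        refine Finset.sum_eq_zero fun a _ => ?_
        simp only [PS]
        by_cases htl : 0 < (t : ℕ)
        · rw [dif_pos htl, hElb, if_neg]
          intro hh
          apply ht
          have := congrArg (fun q : Fin l × Fin (finrank K (ker φ₁)) => (q.1 : ℕ)) hh
          simp only at this
          exact Fin.ext (by
            simp only [Fin.val_succ]
            omega)
        · rw [dif_neg htl, LinearMap.zero_apply]
      · intro hh
        exact absurd (Finset.mem_univ _) hh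
  rw [hdec, map_sum]
  refine T.sum_mem fun t _ => ?_
  rw [map_sum]
  exact T.sum_mem fun a _ => key t a _

/-- twisted intertwiner with prescribed values on the generators -/
noncomputable def tw {m₁ : ℕ} (b₁ : Basis (Fin l × Fin m₁) K C₁) (c : K) (ψ : End K C₃)
    (g : Fin m₁ → C₃) : C₁ →ₗ[K] C₃ :=
  b₁.constr K fun p => c ^ (p.1 : ℕ) • (ψ ^ (p.1 : ℕ)) (g p.2)

theorem tw_basis {m₁ : ℕ} (b₁ : Basis (Fin l × Fin m₁) K C₁) (c : K) (ψ : End K C₃)
    (g : Fin m₁ → C₃) (p : Fin l × Fin m₁) :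
    tw b₁ c ψ g (b₁ p) = c ^ (p.1 : ℕ) • (ψ ^ (p.1 : ℕ)) (g p.2) :=
  b₁.constr_basis K _ p

theorem tw_comm {m₁ : ℕ} {e₁ : Fin m₁ → C₁} (b₁ : Basis (Fin l × Fin m₁) K C₁)
    (hb₁ : ∀ p, b₁ p = (φ₁ ^ (p.1 : ℕ)) (e₁ p.2)) (h₁ : φ₁ ^ l = 0) (c : K) {ψ : End K C₃}
    (hψ : ψ ^ l = 0) (g : Fin m₁ → C₃) :
    tw b₁ c ψ g ∘ₗ φ₁ = c • (ψ ∘ₗ tw b₁ c ψ g) := by
  refine b₁.ext fun p => ?_
  rw [LinearMap.smul_apply, LinearMap.comp_apply, LinearMap.comp_apply, tw_basis]
  have hφ : φ₁ (b₁ p) = (φ₁ ^ ((p.1 : ℕ) + 1)) (e₁ p.2) := by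
    rw [hb₁, ← Module.End.mul_apply, ← pow_succ']
  by_cases hp : (p.1 : ℕ) + 1 < l
  · have h5 : φ₁ (b₁ p) = b₁ (⟨(p.1 : ℕ) + 1, hp⟩, p.2) := by
      rw [hφ, hb₁]
    rw [h5, tw_basis, map_smul, ← Module.End.mul_apply, ← pow_succ', smul_smul]
    simp only
    rw [pow_succ' c]
  · have hpl : (p.1 : ℕ) + 1 = l := by
      have := p.1.2
      omega
    rw [hφ, hpl, h₁, LinearMap.zero_apply, map_zero, map_smul, ← Module.End.mul_apply,
      ← pow_succ', hpl, hψ, LinearMap.zero_apply, smul_zero, smul_zero]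

theorem iter {c : K} {ψ : End K C₃} {x : C₁ →ₗ[K] C₃} (hx : x ∘ₗ φ₁ = c • (ψ ∘ₗ x)) (v : ℕ)
    (u : C₁) : x ((φ₁ ^ v) u) = c ^ v • (ψ ^ v) (x u) := by
  induction v with
  | zero => simp
  | succ v ih =>
    rw [pow_succ', Module.End.mul_apply]
    have h1 := LinearMap.congr_fun hx ((φ₁ ^ v) u)
    rw [LinearMap.comp_apply, LinearMap.smul_apply, LinearMap.comp_apply] at h1
    rw [h1, ih, map_smul, ← Module.End.mul_apply, ← pow_succ', smul_smul, pow_succ' c]

/-- **products through a second block** -/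
theorem def_mem2 {φ₃ : End K C₃} {E : Type*} [AddCommGroup E] [Module K E]
    [FiniteDimensional K C₁] [FiniteDimensional K C₂] [FiniteDimensional K C₃]
    (h₁ : φ₁ ^ l = 0) (hf₁ : l * finrank K (ker φ₁) = finrank K C₁)
    (h₂ : φ₂ ^ l = 0) (hf₂ : l * finrank K (ker φ₂) = finrank K C₂)
    (h₃ : φ₃ ^ l = 0) (hf₃ : l * finrank K (ker φ₃) = finrank K C₃)
    (hne : 0 < finrank K C₂)
    (T : Submodule K E) (ι : ((C₁ →ₗ[K] C₃) × (C₁ →ₗ[K] C₃)) →ₗ[K] E)
    {Λ : Set K} (hΛ : Λ.Infinite) {c' : K} (hc' : c' ≠ 0)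
    (h : ∀ c ∈ Λ, ∀ (y : C₁ →ₗ[K] C₂) (z : C₂ →ₗ[K] C₃), y ∘ₗ φ₁ = c • (φ₂ ∘ₗ y) →
      φ₃ ∘ₗ z = c' • (z ∘ₗ φ₂) → ι (z ∘ₗ y, (c * c'⁻¹) • (z ∘ₗ y)) ∈ T)
    {B S : C₁ →ₗ[K] C₃} (hB : Filt φ₁ φ₃ B) (hS : φ₃ ∘ₗ S = B ∘ₗ φ₁) : ι (B, S) ∈ T := by
  classical
  have hinj : Function.Injective fun c : K => c * c'⁻¹ := mul_left_injective₀ (inv_ne_zero hc')
  refine def_mem h₁ hf₁ h₃ hf₃ T ι (hΛ.image hinj.injOn) ?_ hB hS
  rintro _ ⟨c, hc, rfl⟩ x hx
  simp only at hx ⊢
  obtain ⟨e₁, b₁, hb₁⟩ := TC.exists_adapted h₁ hf₁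
  obtain ⟨e₂, b₂, hb₂⟩ := TC.exists_adapted h₂ hf₂
  have hk2 : 0 < finrank K (ker φ₂) := by
    rcases Nat.eq_zero_or_pos (finrank K (ker φ₂)) with h | h
    · rw [h, mul_zero] at hf₂
      omega
    · exact h
  let i₀ : Fin (finrank K (ker φ₂)) := ⟨0, hk2⟩
  let y : Fin (finrank K (ker φ₁)) → (C₁ →ₗ[K] C₂) := fun a =>
    tw b₁ c φ₂ (fun a' => if a' = a then e₂ i₀ else 0)
  let z : Fin (finrank K (ker φ₁)) → (C₂ →ₗ[K] C₃) := fun a =>
    tw b₂ c'⁻¹ φ₃ (fun i => if i = i₀ then x (e₁ a) else 0)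
  have hy : ∀ a, y a ∘ₗ φ₁ = c • (φ₂ ∘ₗ y a) := fun a => tw_comm b₁ hb₁ h₁ c h₂ _
  have hz : ∀ a, φ₃ ∘ₗ z a = c' • (z a ∘ₗ φ₂) := by
    intro a
    rw [show z a ∘ₗ φ₂ = c'⁻¹ • (φ₃ ∘ₗ z a) from tw_comm b₂ hb₂ h₂ c'⁻¹ h₃ _, smul_smul,
      mul_inv_cancel₀ hc', one_smul]
  have hsum : ∑ a, z a ∘ₗ y a = x := by
    refine b₁.ext fun p => ?_
    rw [LinearMap.sum_apply, Finset.sum_eq_single p.2]
    · rw [LinearMap.comp_apply]
      simp only [y, z]
      rw [tw_basis, if_pos rfl, map_smul]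
      have h5 : (φ₂ ^ (p.1 : ℕ)) (e₂ i₀) = b₂ (p.1, i₀) := (hb₂ (p.1, i₀)).symm
      rw [h5, tw_basis, if_pos rfl, smul_smul, ← mul_pow]
      conv_rhs => rw [hb₁, iter hx]
    · intro a _ ha
      rw [LinearMap.comp_apply]
      simp only [y]
      rw [tw_basis, if_neg (fun h => ha h.symm), map_zero, smul_zero, map_zero]
    · intro hh
      exact absurd (Finset.mem_univ _) hh
  have hfin : (x, (c * c'⁻¹) • x) = ∑ a, (z a ∘ₗ y a, (c * c'⁻¹) • (z a ∘ₗ y a)) := by
    refine Prod.ext ?_ ?_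
    · rw [Prod.fst_sum]
      exact hsum.symm
    · rw [Prod.snd_sum, ← Finset.smul_sum, hsum]
  rw [hfin, map_sum]
  exact T.sum_mem fun a _ => h c hc (y a) (z a) (hy a) (hz a)

end one

section arms

variable {κ : Type*} [Fintype κ]
variable {M P M₁ : Type*} [AddCommGroup M] [Module K M] [AddCommGroup P] [Module K P]
  [AddCommGroup M₁] [Module K M₁]

/-- lifting a linear map through another one -/
theorem exists_lift {A B' D : Type*} [AddCommGroup A] [Module K A] [AddCommGroup B'] [Module K B']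
    [AddCommGroup D] [Module K D] (g : B' →ₗ[K] D) (f : A →ₗ[K] D)
    (h : ∀ x, f x ∈ range g) : ∃ S : A →ₗ[K] B', g ∘ₗ S = f := by
  obtain ⟨S, hS⟩ := Module.projective_lifting_property g.rangeRestrict
    (f.codRestrict (range g) h) g.surjective_rangeRestrict
  refine ⟨S, ?_⟩
  ext x
  have := congrArg Subtype.val (LinearMap.congr_fun hS x)
  simpa using this

/-- **`ker π = ∑ₛ bₛ (ker Φₛ)`**: `Φₛ = π bₛ`, `∑ bₛ = 0`, the `bₛ` span `P`, `π` surjective,
`⋂ ker Φₛ = 0` and `∑ dim ker Φₛ = (|κ| - 2) dim M`. -/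
theorem ker_eq [FiniteDimensional K M] (b : κ → M →ₗ[K] P) (π : P →ₗ[K] M)
    (hsum : ∑ s, b s = 0) (hspan : ⨆ s, range (b s) = ⊤) (hπ : range π = ⊤)
    (hker : ∀ m : M, (∀ s, π (b s m) = 0) → m = 0)
    (hdim : ∑ s, finrank K (ker (π ∘ₗ b s)) + 2 * finrank K M = Fintype.card κ * finrank K M)
    (r : P) (hr : π r = 0) :
    ∃ k : κ → M, (∀ s, π (b s (k s)) = 0) ∧ r = ∑ s, b s (k s) := by
  classical
  -- the sum map
  let β : (κ → M) →ₗ[K] P := ∑ s, b s ∘ₗ LinearMap.proj s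
  have hβ : ∀ m, β m = ∑ s, b s (m s) := by
    intro m
    simp [β, LinearMap.sum_apply]
  have hβs : range β = ⊤ := by
    rw [eq_top_iff, ← hspan]
    refine iSup_le fun s => ?_
    rintro _ ⟨m, rfl⟩
    refine ⟨Pi.single s m, ?_⟩
    rw [hβ, Finset.sum_eq_single s]
    · rw [Pi.single_eq_same]
    · intro t _ ht
      rw [Pi.single_eq_of_ne ht, map_zero]
    · intro hh
      exact absurd (Finset.mem_univ _) hh
  let Z : Submodule K (κ → M) := ker (π ∘ₗ β)
  let Dg : M →ₗ[K] (κ → M) := LinearMap.pi fun _ => LinearMap.id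
  let Kk : Submodule K (κ → M) := Submodule.pi Set.univ fun s => ker (π ∘ₗ b s)
  have hDg : range Dg ≤ Z := by
    rintro _ ⟨m, rfl⟩
    change π (β (Dg m)) = 0
    rw [hβ]
    have : ∑ s, b s (Dg m s) = (∑ s, b s) m := by
      rw [LinearMap.sum_apply]
      rfl
    rw [this, hsum, LinearMap.zero_apply, map_zero]
  have hKk : Kk ≤ Z := by
    intro m hm
    change π (β m) = 0
    rw [hβ, map_sum]
    exact Finset.sum_eq_zero fun s _ => (Submodule.mem_pi.1 hm) s (Set.mem_univ s)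
  have hdisj : range Dg ⊓ Kk = ⊥ := by
    rw [eq_bot_iff]
    rintro _ ⟨⟨m, rfl⟩, hm⟩
    have h0 : m = 0 := hker m fun s => (Submodule.mem_pi.1 hm) s (Set.mem_univ s)
    rw [h0, map_zero]
    exact Submodule.zero_mem _
  have hdDg : finrank K (range Dg) ≥ finrank K M ∨ IsEmpty κ := by
    rcases isEmpty_or_nonempty κ with h | h
    · exact Or.inr h
    · left
      have hinj : Function.Injective Dg := by
        intro m m' hh
        obtain ⟨s⟩ := h
        exact congrFun hh s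
      exact le_of_eq (LinearMap.finrank_range_of_inj hinj).symm
  have hdK : finrank K Kk = ∑ s, finrank K (ker (π ∘ₗ b s)) := by
    let j : (∀ s, ker (π ∘ₗ b s)) →ₗ[K] (κ → M) :=
      LinearMap.pi fun s => (ker (π ∘ₗ b s)).subtype ∘ₗ LinearMap.proj s
    have hj : Function.Injective j := by
      intro k k' hh
      funext s
      exact Subtype.ext (congrFun hh s)
    have hr : range j = Kk := by
      ext m
      constructor
      · rintro ⟨k, rfl⟩
        exact Submodule.mem_pi.2 fun s _ => (k s).2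
      · intro hm
        exact ⟨fun s => ⟨m s, (Submodule.mem_pi.1 hm) s (Set.mem_univ s)⟩, rfl⟩
    rw [← hr, LinearMap.finrank_range_of_inj hj, Module.finrank_pi_fintype]
  have hdZ : finrank K Z + finrank K M = Fintype.card κ * finrank K M := by
    have h1 := LinearMap.finrank_range_add_finrank_ker (π ∘ₗ β)
    have h2 : range (π ∘ₗ β) = ⊤ := by
      rw [LinearMap.range_comp, hβs, Submodule.map_top, hπ]
    rw [h2, finrank_top, Module.finrank_pi_fintype] at h1
    simp only [Finset.sum_const, Finset.card_univ, smul_eq_mul] at h1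
    change finrank K M + finrank K Z = _ at h1
    omega
  have hZ : Z ≤ range Dg ⊔ Kk := by
    rcases hdDg with h | h
    · have h3 := Submodule.finrank_sup_add_finrank_inf_eq (range Dg) Kk
      rw [hdisj, finrank_bot, hdK] at h3
      have h4 : range Dg ⊔ Kk = Z := by
        refine Submodule.eq_of_le_of_finrank_le (sup_le hDg hKk) ?_
        omega
      rw [h4]
    · intro m _
      have : m = 0 := funext fun s => (h.false s).elim
      rw [this]
      exact Submodule.zero_mem _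
  obtain ⟨m, hm⟩ : r ∈ range β := by
    rw [hβs]
    exact Submodule.mem_top
  have hmZ : m ∈ Z := by
    change π (β m) = 0
    rw [hm, hr]
  obtain ⟨d, ⟨u, rfl⟩, k, hk, hdk⟩ := Submodule.mem_sup.1 (hZ hmZ)
  refine ⟨k, fun s => (Submodule.mem_pi.1 hk) s (Set.mem_univ s), ?_⟩
  have h7 : β (Dg u) = 0 := by
    rw [hβ]
    have : ∑ s, b s (Dg u s) = (∑ s, b s) u := by
      rw [LinearMap.sum_apply]
      rfl
    rw [this, hsum, LinearMap.zero_apply]
  rw [← hm, ← hdk, map_add, h7, zero_add, hβ]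

/-- **the shifts of a map filtered at every arm can be chosen with `∑ bₛ Sₛ = 0`**: only
`u Φ¹ₛ ⊆ im Φ²ₛ` is used. -/
theorem exists_shift [FiniteDimensional K M] (b : κ → M →ₗ[K] P) (π : P →ₗ[K] M)
    (hsum : ∑ s, b s = 0) (hspan : ⨆ s, range (b s) = ⊤) (hπ : range π = ⊤)
    (hker : ∀ m : M, (∀ s, π (b s m) = 0) → m = 0)
    (hdim : ∑ s, finrank K (ker (π ∘ₗ b s)) + 2 * finrank K M = Fintype.card κ * finrank K M)
    (Φ₁ : κ → End K M₁) (hsum₁ : ∑ s, Φ₁ s = 0) (u : M₁ →ₗ[K] M)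
    (hu : ∀ s x, u (Φ₁ s x) ∈ range (π ∘ₗ b s)) :
    ∃ S : κ → M₁ →ₗ[K] M, (∀ s, (π ∘ₗ b s) ∘ₗ S s = u ∘ₗ Φ₁ s) ∧ ∑ s, b s ∘ₗ S s = 0 := by
  classical
  have h1 : ∀ s, ∃ S : M₁ →ₗ[K] M, (π ∘ₗ b s) ∘ₗ S = u ∘ₗ Φ₁ s := fun s =>
    exists_lift (π ∘ₗ b s) (u ∘ₗ Φ₁ s) (hu s)
  choose S hS using h1
  let ρ : M₁ →ₗ[K] P := ∑ s, b s ∘ₗ S s
  have hρ : ∀ x, π (ρ x) = 0 := by
    intro x
    have h2 : π (ρ x) = ∑ s, ((π ∘ₗ b s) ∘ₗ S s) x := by
      simp [ρ, LinearMap.sum_apply, map_sum]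
    rw [h2]
    have h3 : ∑ s, ((π ∘ₗ b s) ∘ₗ S s) x = u ((∑ s, Φ₁ s) x) := by
      rw [LinearMap.sum_apply, map_sum]
      refine Finset.sum_congr rfl fun s _ => ?_
      rw [hS s]
      rfl
    rw [h3, hsum₁, LinearMap.zero_apply, map_zero]
  let γ : (∀ s, ker (π ∘ₗ b s)) →ₗ[K] P :=
    ∑ s, b s ∘ₗ (ker (π ∘ₗ b s)).subtype ∘ₗ LinearMap.proj s
  have hγ : ∀ k, γ k = ∑ s, b s (k s) := by
    intro k
    simp [γ, LinearMap.sum_apply]
  obtain ⟨k, hk⟩ := exists_lift γ ρ fun x => by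
    obtain ⟨k, hk0, hk⟩ := ker_eq b π hsum hspan hπ hker hdim (ρ x) (hρ x)
    refine ⟨fun s => ⟨k s, hk0 s⟩, ?_⟩
    rw [hγ, hk]
  refine ⟨fun s => S s - (ker (π ∘ₗ b s)).subtype ∘ₗ LinearMap.proj s ∘ₗ k, fun s => ?_, ?_⟩
  · rw [LinearMap.comp_sub, hS s, sub_eq_self]
    ext x
    exact (k x s).2
  · have h5 : ∑ s, b s ∘ₗ (S s - (ker (π ∘ₗ b s)).subtype ∘ₗ LinearMap.proj s ∘ₗ k) =
        ρ - γ ∘ₗ k := by
      simp only [LinearMap.comp_sub, Finset.sum_sub_distrib]
      congr 1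
      ext x
      simp only [LinearMap.sum_apply, LinearMap.comp_apply, hγ]
      rfl
    rw [h5, hk, sub_self]

end arms

end Crest.Agent.R172.Def
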