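import Crest.Agent.R172.Core2

/-!
Row 172, note 13814 (helper721), step (4): dimension counts for the tame exclusion.
Part 1: skew operators preserving the flags `range (Φ_s ^ v)`.
-/

set_option autoImplicit false

namespace Crest.Agent.R172.TC

open Module LinearMap
open Crest.Agent.R172.Core (NS)

variable {K : Type*} [Field K] {V : Type*} [AddCommGroup V] [Module K V]

section Alt

/-- An alternating form with prescribed zeros, by counting. -/
theorem exists_alt {α : Type*} [Fintype α] [LinearOrder α] (e : Basis α K V)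
    {T : Type*} [Fintype T] (v w : T → V)
    (hT : Fintype.card T < Fintype.card {p : α × α // p.1 < p.2}) :
    ∃ ω : V →ₗ[K] V →ₗ[K] K, ω ≠ 0 ∧ (∀ x, ω x x = 0) ∧ ∀ t, ω (v t) (w t) = 0 := by
  classical
  let P := {p : α × α // p.1 < p.2}
  -- elementary forms
  let el : P → (V →ₗ[K] V →ₗ[K] K) := fun p =>
    LinearMap.mk₂ K (fun x y => e.coord p.1.1 x * e.coord p.1.2 y - e.coord p.1.2 x * e.coord p.1.1 y)
      (by intro a b c; simp only [map_add]; ring)
      (by intro a b c; simp only [map_smul, smul_eq_mul]; ring)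
      (by intro a b c; simp only [map_add]; ring)
      (by intro a b c; simp only [map_smul, smul_eq_mul]; ring)
  have hel : ∀ p x y, el p x y =
      e.coord p.1.1 x * e.coord p.1.2 y - e.coord p.1.2 x * e.coord p.1.1 y := fun p x y => rfl
  let L : (P → K) →ₗ[K] (T → K) :=
    { toFun := fun c t => ∑ p, c p * el p (v t) (w t)
      map_add' := by
        intro c c'
        funext t
        simp only [Pi.add_apply, add_mul, Finset.sum_add_distrib]
      map_smul' := by
        intro a c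
        funext t
        simp only [Pi.smul_apply, smul_eq_mul, RingHom.id_apply, Finset.mul_sum, mul_assoc] }
  have hker : LinearMap.ker L ≠ ⊥ := by
    apply LinearMap.ker_ne_bot_of_finrank_lt
    rw [Module.finrank_fintype_fun_eq_card, Module.finrank_fintype_fun_eq_card]
    exact hT
  obtain ⟨c, hc, hc0⟩ := (Submodule.ne_bot_iff _).1 hker
  have hcT : ∀ t, ∑ p, c p * el p (v t) (w t) = 0 := fun t => congrFun (LinearMap.mem_ker.1 hc) t
  have hω : ∀ x y, (∑ p, c p • el p) x y = ∑ p, c p * el p x y := by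
    intro x y
    simp only [LinearMap.sum_apply, LinearMap.smul_apply, smul_eq_mul]
  refine ⟨∑ p, c p • el p, ?_, ?_, ?_⟩
  · intro h0
    obtain ⟨p, hp⟩ := Function.ne_iff.1 hc0
    apply hp
    have h1 := hω (e p.1.1) (e p.1.2)
    rw [h0] at h1
    rw [Finset.sum_eq_single p] at h1
    · rw [hel] at h1
      simp only [Basis.coord_apply, Basis.repr_self, Finsupp.single_eq_same] at h1
      rw [Finsupp.single_apply, if_neg (ne_of_lt p.2)] at h1
      simpa using h1.symm
    · intro q _ hq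
      rw [hel]
      simp only [Basis.coord_apply, Basis.repr_self, Finsupp.single_apply]
      have : ¬ (p.1.1 = q.1.1 ∧ p.1.2 = q.1.2) := by
        rintro ⟨h1, h2⟩
        exact hq (Subtype.ext (Prod.ext h1.symm h2.symm))
      have h3 : ¬ (p.1.1 = q.1.2 ∧ p.1.2 = q.1.1) := by
        rintro ⟨h1, h2⟩
        have ha := p.2
        have hb := q.2
        rw [h1, h2] at ha
        exact lt_asymm ha hb
      by_cases ha : p.1.1 = q.1.1
      · have hb : p.1.2 ≠ q.1.2 := fun h => this ⟨ha, h⟩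
        by_cases hc : p.1.1 = q.1.2
        · have hd : p.1.2 ≠ q.1.1 := fun h => h3 ⟨hc, h⟩
          simp [hb, hd]
        · simp [hb, hc]
      · by_cases hc : p.1.1 = q.1.2
        · have hd : p.1.2 ≠ q.1.1 := fun h => h3 ⟨hc, h⟩
          simp [ha, hd]
        · simp [ha, hc]
    · intro h
      exact absurd (Finset.mem_univ _) h
  · intro x
    rw [hω]
    refine Finset.sum_eq_zero fun p _ => ?_
    rw [hel]
    ring
  · intro t
    rw [hω]
    exact hcT t

theorem card_lt_pairs (N : ℕ) :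
    2 * Fintype.card {p : Fin N × Fin N // p.1 < p.2} = N * (N - 1) := by
  classical
  rw [Fintype.card_subtype]
  have h2 : (Finset.univ.filter fun p : Fin N × Fin N => p.1 < p.2).card =
      ∑ j : Fin N, (Finset.univ.filter fun i : Fin N => i < j).card := by
    rw [Finset.card_filter, Fintype.sum_prod_type_right]
    refine Finset.sum_congr rfl fun j _ => ?_
    rw [Finset.card_filter]
  have h3 : ∀ j : Fin N, (Finset.univ.filter fun i : Fin N => i < j).card = (j : ℕ) := by
    intro j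
    have : (Finset.univ.filter fun i : Fin N => i < j) = Finset.Iio j := by
      ext i
      simp
    rw [this, Fin.card_Iio]
  rw [h2]
  simp only [h3]
  rw [Fin.sum_univ_eq_sum_range (fun i => i) N, mul_comm, Finset.sum_range_id_mul_two]

/-- number of `u < l` with `l ≤ 2u` -/
def aL (l : ℕ) : ℕ := (Finset.univ.filter fun u : Fin l => l ≤ (u : ℕ) + u).card

/-- number of `(u,u')` with `l ≤ u + u'` -/
def bL (l : ℕ) : ℕ := (Finset.univ.filter fun u : Fin l × Fin l => l ≤ (u.1 : ℕ) + u.2).card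

/-- index set of the conditions of an arm -/
abbrev TT (l m : ℕ) : Type :=
  {p : (Fin l × Fin m) × (Fin l × Fin m) // toLex p.1 < toLex p.2 ∧ l ≤ (p.1.1 : ℕ) + p.2.1}

theorem card_TT (l m : ℕ) : 2 * Fintype.card (TT l m) + m * aL l = m ^ 2 * bL l := by
  classical
  let S : Finset ((Fin l × Fin m) × (Fin l × Fin m)) :=
    Finset.univ.filter fun p => l ≤ (p.1.1 : ℕ) + p.2.1
  have hS : S.card = m ^ 2 * bL l := by
    have : S = ((Finset.univ.filter fun u : Fin l × Fin l => l ≤ (u.1 : ℕ) + u.2) ×ˢ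
        (Finset.univ : Finset (Fin m × Fin m))).map
        (Equiv.prodProdProdComm (Fin l) (Fin l) (Fin m) (Fin m)).toEmbedding := by
      ext p
      simp only [S, Finset.mem_filter, Finset.mem_univ, true_and, Finset.mem_map,
        Finset.mem_product, and_true, Equiv.coe_toEmbedding]
      constructor
      · intro h
        exact ⟨((p.1.1, p.2.1), (p.1.2, p.2.2)), h, rfl⟩
      · rintro ⟨q, hq, rfl⟩
        exact hq
    rw [this, Finset.card_map, Finset.card_product, Finset.card_univ, Fintype.card_prod,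
      Fintype.card_fin, bL]
    ring
  have hA : (S.filter fun p => toLex p.1 < toLex p.2).card = Fintype.card (TT l m) := by
    rw [Fintype.card_subtype]
    congr 1
    ext p
    simp only [S, Finset.mem_filter, Finset.mem_univ, true_and]
    tauto
  have hB : (S.filter fun p => toLex p.2 < toLex p.1).card = Fintype.card (TT l m) := by
    rw [← hA]
    refine Finset.card_bij (fun p _ => p.swap) ?_ ?_ ?_
    · intro p hp
      simp only [S, Finset.mem_filter, Finset.mem_univ, true_and, Prod.fst_swap,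
        Prod.snd_swap] at hp ⊢
      exact ⟨by omega, hp.2⟩
    · intro p _ q _ h
      exact Prod.swap_injective h
    · intro p hp
      refine ⟨p.swap, ?_, Prod.swap_swap p⟩
      simp only [S, Finset.mem_filter, Finset.mem_univ, true_and, Prod.fst_swap,
        Prod.snd_swap] at hp ⊢
      exact ⟨by omega, hp.2⟩
  have hC : (S.filter fun p => p.1 = p.2).card = m * aL l := by
    have : (S.filter fun p => p.1 = p.2) = ((Finset.univ.filter fun u : Fin l => l ≤ (u : ℕ) + u) ×ˢ
        (Finset.univ : Finset (Fin m))).image (fun x => (x, x)) := by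
      ext p
      simp only [S, Finset.mem_filter, Finset.mem_univ, true_and, Finset.mem_image,
        Finset.mem_product, and_true]
      constructor
      · rintro ⟨h1, h2⟩
        refine ⟨p.1, ?_, Prod.ext rfl h2⟩
        rw [← h2] at h1
        exact h1
      · rintro ⟨q, hq, rfl⟩
        exact ⟨hq, rfl⟩
    rw [this, Finset.card_image_of_injective _ (fun x y h => (Prod.ext_iff.1 h).1),
      Finset.card_product, Finset.card_univ, Fintype.card_fin, aL]
    ring
  have hsplit : S.card = (S.filter fun p => toLex p.1 < toLex p.2).card +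
      (S.filter fun p => toLex p.2 < toLex p.1).card + (S.filter fun p => p.1 = p.2).card := by
    have e1 := Finset.card_filter_add_card_filter_not (s := S) (fun p => toLex p.1 < toLex p.2)
    have e2 := Finset.card_filter_add_card_filter_not
      (s := S.filter fun p => ¬ toLex p.1 < toLex p.2) (fun p => toLex p.2 < toLex p.1)
    have e3 : ((S.filter fun p => ¬ toLex p.1 < toLex p.2).filter fun p => toLex p.2 < toLex p.1) =
        S.filter fun p => toLex p.2 < toLex p.1 := by
      ext p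
      simp only [Finset.mem_filter]
      exact ⟨fun h => ⟨h.1.1, h.2⟩, fun h => ⟨⟨h.1, lt_asymm h.2⟩, h.2⟩⟩
    have e4 : ((S.filter fun p => ¬ toLex p.1 < toLex p.2).filter fun p => ¬ toLex p.2 < toLex p.1) =
        S.filter fun p => p.1 = p.2 := by
      ext p
      simp only [Finset.mem_filter]
      constructor
      · rintro ⟨⟨h0, h1⟩, h2⟩
        exact ⟨h0, toLex_inj.1 (le_antisymm (not_lt.1 h2) (not_lt.1 h1))⟩
      · rintro ⟨h0, h⟩
        rw [h]
        exact ⟨⟨h0, lt_irrefl _⟩, lt_irrefl _⟩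
    rw [e3, e4] at e2
    omega
  omega

end Alt

section Free

open Crest.Agent.R172.Core (rk rk_zero nn nn_zero nn_succ_le rk_succ_le)

theorem nn_le_ker [FiniteDimensional K V] (Φ : End K V) (j : ℕ) :
    nn Φ j ≤ finrank K (ker Φ) := by
  induction j with
  | zero => rw [nn_zero]
  | succ j ih => exact (nn_succ_le Φ j).trans ih

theorem le_rk [FiniteDimensional K V] (Φ : End K V) (j : ℕ) :
    (finrank K V : ℤ) - j * finrank K (ker Φ) ≤ rk Φ j := by
  induction j with
  | zero => simp [rk_zero]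
  | succ j ih =>
    have h1 := nn_le_ker Φ j
    unfold nn at h1
    push_cast
    linarith

/-- freeness: `ker Φ^v = range Φ^(l-v)`. -/
theorem ker_eq_range [FiniteDimensional K V] {Φ : End K V} {l : ℕ} (hl : Φ ^ l = 0)
    (hfree : l * finrank K (ker Φ) = finrank K V) {v : ℕ} (hv : v ≤ l) :
    ker (Φ ^ v) = range (Φ ^ (l - v)) := by
  symm
  apply Submodule.eq_of_le_of_finrank_le
  · rintro _ ⟨x, rfl⟩
    rw [LinearMap.mem_ker, ← Module.End.mul_apply, ← pow_add, Nat.add_sub_cancel' hv, hl]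
    rfl
  · have h1 := le_rk Φ v
    have h2 := le_rk Φ (l - v)
    have h3 := LinearMap.finrank_range_add_finrank_ker (Φ ^ v)
    have h4 : (rk Φ v : ℤ) = finrank K (range (Φ ^ v)) := rfl
    have h5 : (rk Φ (l - v) : ℤ) = finrank K (range (Φ ^ (l - v))) := rfl
    have h6 : ((l - v : ℕ) : ℤ) = l - v := by
      rw [Nat.cast_sub hv]
    rw [h6] at h2
    have h7 : (l : ℤ) * finrank K (ker Φ) = finrank K V := by exact_mod_cast hfree
    have h8 : (finrank K (range (Φ ^ v)) : ℤ) + finrank K (ker (Φ ^ v)) = finrank K V := by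
      exact_mod_cast h3
    have h9 : (finrank K (ker (Φ ^ v)) : ℤ) ≤ finrank K (range (Φ ^ (l - v))) := by
      rw [h4] at h1
      rw [h5] at h2
      nlinarith
    exact_mod_cast h9

/-- adapted basis -/
theorem exists_adapted [FiniteDimensional K V] {Φ : End K V} {l : ℕ} (hl : Φ ^ l = 0)
    (hfree : l * finrank K (ker Φ) = finrank K V) :
    ∃ (e : Fin (finrank K (ker Φ)) → V) (b : Basis (Fin l × Fin (finrank K (ker Φ))) K V),
      ∀ p, b p = (Φ ^ (p.1 : ℕ)) (e p.2) := by
  classical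
  set m := finrank K (ker Φ) with hm
  have hQ : finrank K (V ⧸ range Φ) = m := by
    have h1 := Submodule.finrank_quotient_add_finrank (range Φ)
    have h2 := LinearMap.finrank_range_add_finrank_ker Φ
    omega
  let q : Basis (Fin m) K (V ⧸ range Φ) := Module.finBasisOfFinrankEq K _ hQ
  have hlift : ∀ i, ∃ x : V, (range Φ).mkQ x = q i := fun i => Submodule.mkQ_surjective _ _
  choose e he using hlift
  let f : Fin l × Fin m → V := fun p => (Φ ^ (p.1 : ℕ)) (e p.2)
  have hspan1 : ∀ x : V, ∃ c : Fin m → K, ∃ y : V, x = ∑ i, c i • e i + Φ y := by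
    intro x
    refine ⟨fun i => q.repr ((range Φ).mkQ x) i, ?_⟩
    have h1 : x - ∑ i, (q.repr ((range Φ).mkQ x) i) • e i ∈ range Φ := by
      rw [← Submodule.Quotient.mk_eq_zero, ← Submodule.mkQ_apply, map_sub, map_sum]
      simp only [map_smul, he]
      rw [q.sum_repr, sub_self]
    obtain ⟨y, hy⟩ := h1
    exact ⟨y, by rw [hy]; abel⟩
  have hspan : ∀ j ≤ l, ∀ x : V, ∃ y : V, x - (Φ ^ j) y ∈ Submodule.span K (Set.range f) := by
    intro j
    induction j with
    | zero =>
      intro _ x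
      exact ⟨x, by simp⟩
    | succ j ih =>
      intro hj x
      obtain ⟨y, hy⟩ := ih (by omega) x
      obtain ⟨c, z, hz⟩ := hspan1 y
      refine ⟨z, ?_⟩
      have h1 : x - (Φ ^ (j + 1)) z = (x - (Φ ^ j) y) + ∑ i, c i • (Φ ^ j) (e i) := by
        have h2 : (Φ ^ j) y = ∑ i, c i • (Φ ^ j) (e i) + (Φ ^ (j + 1)) z := by
          rw [pow_succ, Module.End.mul_apply, hz, map_add, map_sum]
          simp only [map_smul]
        rw [h2]
        abel
      rw [h1]
      refine Submodule.add_mem _ hy (Submodule.sum_mem _ fun i _ => Submodule.smul_mem _ _ ?_)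
      exact Submodule.subset_span ⟨(⟨j, by omega⟩, i), rfl⟩
  have htop : ⊤ ≤ Submodule.span K (Set.range f) := by
    intro x _
    obtain ⟨y, hy⟩ := hspan l le_rfl x
    rw [hl] at hy
    simpa using hy
  have hcard : Fintype.card (Fin l × Fin m) = finrank K V := by
    rw [Fintype.card_prod, Fintype.card_fin, Fintype.card_fin]
    exact hfree
  refine ⟨e, basisOfTopLeSpanOfCardEqFinrank f htop hcard, fun p => ?_⟩
  rw [coe_basisOfTopLeSpanOfCardEqFinrank]

end Free

section Main

variable [FiniteDimensional K V] {B : LinearMap.BilinForm K V}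

/-- skew operator from an alternating form -/
theorem exists_op (hB : NS B) (ω : V →ₗ[K] V →ₗ[K] K) :
    ∃ X : End K V, ∀ v w, B (X v) w = ω v w := by
  refine ⟨(B.toDual hB.nondeg).symm.toLinearMap ∘ₗ ω, fun v w => ?_⟩
  rw [LinearMap.comp_apply]
  exact LinearMap.BilinForm.apply_toDual_symm_apply _ _

theorem range_eq_orth (hB : NS B) {Φ : End K V} (hΦ : ∀ v w, B (Φ v) w = B v (Φ w)) (v : ℕ)
    {y : V} (hy : ∀ z ∈ ker (Φ ^ v), B z y = 0) : y ∈ range (Φ ^ v) := by
  have hpow : ∀ (j : ℕ) (a b : V), B ((Φ ^ j) a) b = B a ((Φ ^ j) b) := by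
    intro j
    induction j with
    | zero => intro a b; rfl
    | succ j ih =>
      intro a b
      rw [pow_succ, Module.End.mul_apply, ih, hΦ, ← Module.End.mul_apply, ← pow_succ', pow_succ]
  have h1 : B.orthogonal (range (Φ ^ v)) ≤ ker (Φ ^ v) := by
    intro z hz
    rw [LinearMap.mem_ker]
    apply hB.nd
    intro w
    rw [hpow, hB.symm]
    exact hz _ ⟨w, rfl⟩
  rw [← hB.oo (range (Φ ^ v))]
  intro z hz
  exact hy z (h1 hz)

/-- **4a, general form.** -/
theorem exists_skew {ι : Type*} [Fintype ι] (hB : NS B) (Φ : ι → End K V)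
    (hΦ : ∀ s v w, B (Φ s v) w = B v (Φ s w)) (l : ι → ℕ) (hl : ∀ s, Φ s ^ l s = 0)
    (hfree : ∀ s, l s * finrank K (ker (Φ s)) = finrank K V)
    (hcount : ∑ s, 2 * Fintype.card (TT (l s) (finrank K (ker (Φ s)))) <
      finrank K V * (finrank K V - 1)) :
    ∃ X : End K V, X ≠ 0 ∧ (∀ v w, B (X v) w = - B v (X w)) ∧
      ∀ (s : ι) (j : ℕ), ∀ x ∈ range (Φ s ^ j), X x ∈ range (Φ s ^ j) := by
  classical
  have hb := fun s => exists_adapted (hl s) (hfree s)
  choose e b hb using hb
  obtain ⟨ω, hω0, halt, hωT⟩ := exists_alt (Module.finBasis K V)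
    (T := Σ s, TT (l s) (finrank K (ker (Φ s))))
    (fun t => b t.1 t.2.1.1) (fun t => b t.1 t.2.1.2) (by
      have h1 := card_lt_pairs (finrank K V)
      rw [Fintype.card_sigma]
      rw [← Finset.mul_sum] at hcount
      omega)
  obtain ⟨X, hX⟩ := exists_op hB ω
  have hskew : ∀ v w, ω v w = - ω w v := by
    intro v w
    have h1 := halt (v + w)
    simp only [map_add, LinearMap.add_apply, halt, zero_add, add_zero] at h1
    rw [add_comm] at h1
    linear_combination h1
  have hb0 : ∀ s p q, l s ≤ (p.1 : ℕ) + q.1 → ω (b s p) (b s q) = 0 := by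
    intro s p q hpq
    rcases lt_trichotomy (toLex p) (toLex q) with h | h | h
    · exact hωT ⟨s, ⟨(p, q), h, hpq⟩⟩
    · rw [toLex_inj.1 h]
      exact halt _
    · rw [hskew, hωT ⟨s, ⟨(q, p), h, by rw [add_comm]; exact hpq⟩⟩, neg_zero]
  refine ⟨X, ?_, ?_, ?_⟩
  · rintro rfl
    apply hω0
    ext v w
    rw [← hX]
    simp
  · intro v w
    rw [hX, hB.symm v, hX, hskew]
  · intro s j x hx
    by_cases hj : j ≤ l s
    · apply range_eq_orth hB (hΦ s)
      intro z hz
      rw [ker_eq_range (hl s) (hfree s) hj] at hz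
      rw [hB.symm, hX]
      obtain ⟨x', rfl⟩ := hx
      obtain ⟨z', rfl⟩ := hz
      rw [← (b s).sum_repr x', ← (b s).sum_repr z']
      simp only [map_sum, map_smul, LinearMap.sum_apply, LinearMap.smul_apply]
      refine Finset.sum_eq_zero fun p _ => ?_
      rw [Finset.smul_sum]
      refine Finset.sum_eq_zero fun q _ => ?_
      have key : ω ((Φ s ^ j) (b s q)) ((Φ s ^ (l s - j)) (b s p)) = 0 := by
        rw [hb, hb, ← Module.End.mul_apply, ← Module.End.mul_apply, ← pow_add, ← pow_add]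
        have hbig : ∀ n, l s ≤ n → Φ s ^ n = 0 := fun n hn => by
          rw [← Nat.sub_add_cancel hn, pow_add, hl, mul_zero]
        by_cases h1 : l s ≤ j + q.1
        · rw [hbig _ h1]; simp
        · by_cases h2 : l s ≤ l s - j + p.1
          · rw [hbig _ h2]; simp
          · have h3 := hb0 s (⟨j + q.1, by omega⟩, q.2) (⟨l s - j + p.1, by omega⟩, p.2)
              (by simp only; omega)
            rw [hb, hb] at h3
            exact h3
      rw [key]; simp
    · have h0 : Φ s ^ j = 0 := by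
        rw [← Nat.sub_add_cancel (show l s ≤ j by omega), pow_add, hl, mul_zero]
      obtain ⟨x', rfl⟩ := hx
      rw [h0]
      simp

/-- the solutions of `∑ (1 - 1/l) = 2` -/
theorem types (l : Fin 3 → ℕ) (h1 : ∀ s, 1 ≤ l s) (hsum : ∑ s, (1 - 1 / (l s : ℚ)) = 2) :
    (∀ s, 2 ≤ l s ∧ l s ≤ 6) ∧
      l 0 * l 1 + l 1 * l 2 + l 0 * l 2 = l 0 * l 1 * l 2 := by
  have hpos : ∀ s, (0 : ℚ) < l s := fun s => by exact_mod_cast h1 s
  have heq : (l 0 : ℚ) * l 1 + l 1 * l 2 + l 0 * l 2 = l 0 * l 1 * l 2 := by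
    rw [Fin.sum_univ_three] at hsum
    have := hpos 0
    have := hpos 1
    have := hpos 2
    field_simp at hsum
    linarith
  have heqN : l 0 * l 1 + l 1 * l 2 + l 0 * l 2 = l 0 * l 1 * l 2 := by exact_mod_cast heq
  have key : ∀ a b c : ℕ, 1 ≤ a → 1 ≤ b → 1 ≤ c → a * b + b * c + a * c = a * b * c →
      2 ≤ a ∧ a ≤ 6 := by
    intro a b c ha hb hc h
    have ha2 : 2 ≤ a := by
      by_contra hcon
      have : a = 1 := by omega
      subst this
      nlinarith
    have hb2 : 2 ≤ b := by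
      by_contra hcon
      have : b = 1 := by omega
      subst this
      nlinarith
    have hc2 : 2 ≤ c := by
      by_contra hcon
      have : c = 1 := by omega
      subst this
      nlinarith
    refine ⟨ha2, ?_⟩
    by_contra hcon
    obtain ⟨p, rfl⟩ : ∃ p, b = p + 1 := ⟨b - 1, by omega⟩
    obtain ⟨q, rfl⟩ : ∃ q, c = q + 1 := ⟨c - 1, by omega⟩
    have hp : 1 ≤ p := by omega
    have hq : 1 ≤ q := by omega
    have ha7 : 7 ≤ a := by omega
    -- `(p+1)(q+1) = a (pq - 1)`
    have h3 : (p + 1) * (q + 1) + a = a * (p * q) := by nlinarith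
    have h4 : 2 ≤ p * q := by
      by_contra h5
      have : p * q = 1 := by
        have : 1 ≤ p * q := Nat.mul_pos hp hq
        omega
      rw [this] at h3
      nlinarith
    have h5 : p + q ≤ p * q + 1 := by nlinarith
    nlinarith
  refine ⟨fun s => ?_, heqN⟩
  have e0 := key (l 0) (l 1) (l 2) (h1 0) (h1 1) (h1 2) heqN
  have e1 := key (l 1) (l 0) (l 2) (h1 1) (h1 0) (h1 2) (by linarith)
  have e2 := key (l 2) (l 0) (l 1) (h1 2) (h1 0) (h1 1) (by linarith)
  fin_cases s
  · exact e0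
  · exact e1
  · exact e2

theorem card2 (m : ℕ) : 2 * Fintype.card (TT 2 m) + m = m ^ 2 := by
  have h := card_TT 2 m
  rw [show aL 2 = 1 by decide, show bL 2 = 1 by decide] at h
  omega

theorem card3 (m : ℕ) : 2 * Fintype.card (TT 3 m) + m = 3 * m ^ 2 := by
  have h := card_TT 3 m
  rw [show aL 3 = 1 by decide, show bL 3 = 3 by decide] at h
  omega

theorem card4 (m : ℕ) : 2 * Fintype.card (TT 4 m) + 2 * m = 6 * m ^ 2 := by
  have h := card_TT 4 m
  rw [show aL 4 = 2 by decide, show bL 4 = 6 by decide] at h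
  omega

theorem card6 (m : ℕ) : 2 * Fintype.card (TT 6 m) + 3 * m = 15 * m ^ 2 := by
  have h := card_TT 6 m
  rw [show aL 6 = 3 by decide, show bL 6 = 15 by decide] at h
  omega

theorem count244 (N m0 m1 m2 : ℕ) (hN : 0 < N) (h0 : 2 * m0 = N) (h1 : 4 * m1 = N)
    (h2 : 4 * m2 = N) :
    2 * Fintype.card (TT 2 m0) + 2 * Fintype.card (TT 4 m1) + 2 * Fintype.card (TT 4 m2) + N <
      N * N := by
  have e1 : m2 = m1 := by omega
  have e2 : m0 = 2 * m1 := by omega
  subst e1 e2
  have c2 := card2 (2 * m2)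
  have c4 := card4 m2
  have : 0 < m2 := by omega
  subst h1
  nlinarith

theorem count236 (N m0 m1 m2 : ℕ) (hN : 0 < N) (h0 : 2 * m0 = N) (h1 : 3 * m1 = N)
    (h2 : 6 * m2 = N) :
    2 * Fintype.card (TT 2 m0) + 2 * Fintype.card (TT 3 m1) + 2 * Fintype.card (TT 6 m2) + N <
      N * N := by
  have e1 : m1 = 2 * m2 := by omega
  have e2 : m0 = 3 * m2 := by omega
  subst e1 e2
  have c2 := card2 (3 * m2)
  have c3 := card3 (2 * m2)
  have c6 := card6 m2
  have : 0 < m2 := by omega
  subst h2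
  nlinarith

theorem count_lt (a b c m0 m1 m2 N : ℕ) (hN : 0 < N) (ha : 2 ≤ a ∧ a ≤ 6) (hb : 2 ≤ b ∧ b ≤ 6)
    (hc : 2 ≤ c ∧ c ≤ 6) (heq : a * b + b * c + a * c = a * b * c)
    (h333 : a ≠ 3 ∨ b ≠ 3 ∨ c ≠ 3) (h0 : a * m0 = N) (h1 : b * m1 = N) (h2 : c * m2 = N) :
    2 * Fintype.card (TT a m0) + 2 * Fintype.card (TT b m1) + 2 * Fintype.card (TT c m2) <
      N * (N - 1) := by
  have hNN : N * (N - 1) + N = N * N := by
    obtain ⟨k, rfl⟩ : ∃ k, N = k + 1 := ⟨N - 1, by omega⟩
    simp only [Nat.add_sub_cancel]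
    ring
  have hcases : (a = 2 ∧ b = 4 ∧ c = 4) ∨ (a = 4 ∧ b = 2 ∧ c = 4) ∨ (a = 4 ∧ b = 4 ∧ c = 2) ∨
      (a = 2 ∧ b = 3 ∧ c = 6) ∨ (a = 2 ∧ b = 6 ∧ c = 3) ∨ (a = 3 ∧ b = 2 ∧ c = 6) ∨
      (a = 3 ∧ b = 6 ∧ c = 2) ∨ (a = 6 ∧ b = 2 ∧ c = 3) ∨ (a = 6 ∧ b = 3 ∧ c = 2) := by
    obtain ⟨ha1, ha2⟩ := ha
    obtain ⟨hb1, hb2⟩ := hb
    obtain ⟨hc1, hc2⟩ := hc
    interval_cases a <;> interval_cases b <;> interval_cases c <;> omega
  rcases hcases with ⟨rfl, rfl, rfl⟩ | ⟨rfl, rfl, rfl⟩ | ⟨rfl, rfl, rfl⟩ | ⟨rfl, rfl, rfl⟩ |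
    ⟨rfl, rfl, rfl⟩ | ⟨rfl, rfl, rfl⟩ | ⟨rfl, rfl, rfl⟩ | ⟨rfl, rfl, rfl⟩ | ⟨rfl, rfl, rfl⟩
  · have := count244 N m0 m1 m2 hN h0 h1 h2; omega
  · have := count244 N m1 m0 m2 hN h1 h0 h2; omega
  · have := count244 N m2 m0 m1 hN h2 h0 h1; omega
  · have := count236 N m0 m1 m2 hN h0 h1 h2; omega
  · have := count236 N m0 m2 m1 hN h0 h2 h1; omega
  · have := count236 N m1 m0 m2 hN h1 h0 h2; omega
  · have := count236 N m2 m0 m1 hN h2 h0 h1; omega
  · have := count236 N m1 m2 m0 hN h1 h2 h0; omega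
  · have := count236 N m2 m1 m0 hN h2 h1 h0; omega

/-- **4a**: types `(2,4,4)` and `(2,3,6)`. -/
theorem exists_skew_tame (hB : NS B) (Φ : Fin 3 → End K V)
    (hΦ : ∀ s v w, B (Φ s v) w = B v (Φ s w)) (l : Fin 3 → ℕ) (h1 : ∀ s, 1 ≤ l s)
    (hsum : ∑ s, (1 - 1 / (l s : ℚ)) = 2) (hl : ∀ s, Φ s ^ l s = 0)
    (hfree : ∀ s, l s * finrank K (ker (Φ s)) = finrank K V) (hpos : 0 < finrank K V)
    (h333 : ∃ s, l s ≠ 3) :
    ∃ X : End K V, X ≠ 0 ∧ (∀ v w, B (X v) w = - B v (X w)) ∧
      ∀ (s : Fin 3) (j : ℕ), ∀ x ∈ range (Φ s ^ j), X x ∈ range (Φ s ^ j) := by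
  apply exists_skew hB Φ hΦ l hl hfree
  obtain ⟨hr, heq⟩ := types l h1 hsum
  rw [Fin.sum_univ_three]
  refine count_lt _ _ _ _ _ _ _ hpos (hr 0) (hr 1) (hr 2) heq ?_ (hfree 0) (hfree 1) (hfree 2)
  obtain ⟨s, hs⟩ := h333
  fin_cases s
  · exact Or.inl hs
  · exact Or.inr (Or.inl hs)
  · exact Or.inr (Or.inr hs)

end Main

end Crest.Agent.R172.TC
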