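import Crest.Agent.R172.Core4
import Crest.Agent.R172.Def1
import Crest.Agent.R172.TameCount1

/-!
Row 172, TAME, arbitrary radical: from a core `C : St.Core B Φ` (with `R = T ∩ Tᗮ ≠ 0`) and a
block `Mi ≤ C.M` to the perfect submodule `PP C Mi ≤ Tᗮ` over `Mi`.
-/

set_option autoImplicit false
set_option linter.unusedSectionVars false

namespace Crest.Agent.R172.CP

open Module LinearMap
open Crest.Agent.R172.St Crest.Agent.R172.Core

variable {K : Type*} [Field K] {V : Type*} [AddCommGroup V] [Module K V] {ι : Type*}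

section perf

/-- `A Q = ∑_s Φ_s Q` -/
def Ax (Φ : ι → End K V) (Q : Submodule K V) : Submodule K V := ⨆ s, Q.map (Φ s)

theorem mem_Ax {Φ : ι → End K V} {Q : Submodule K V} {v : V} (hv : v ∈ Q) (s : ι) :
    Φ s v ∈ Ax Φ Q := Submodule.mem_iSup_of_mem s ⟨v, hv, rfl⟩

theorem Ax_le {Φ : ι → End K V} {Q R : Submodule K V} (h : ∀ s, ∀ v ∈ Q, Φ s v ∈ R) :
    Ax Φ Q ≤ R := by
  refine iSup_le fun s => ?_
  rintro _ ⟨v, hv, rfl⟩
  exact h s v hv

theorem Ax_mono {Φ : ι → End K V} {Q R : Submodule K V} (h : Q ≤ R) : Ax Φ Q ≤ Ax Φ R :=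
  Ax_le fun s _ hv => mem_Ax (h hv) s

theorem mem_Ax_iff [Fintype ι] {Φ : ι → End K V} {Q : Submodule K V} {v : V} :
    v ∈ Ax Φ Q ↔ ∃ q : ι → V, (∀ s, q s ∈ Q) ∧ v = ∑ s, Φ s (q s) := by
  classical
  constructor
  · intro h
    unfold Ax at h
    rw [Submodule.mem_iSup_iff_exists_finsupp] at h
    obtain ⟨f, hf, hfv⟩ := h
    choose q hq hqe using hf
    refine ⟨q, hq, ?_⟩
    rw [← hfv, Finsupp.sum_fintype _ _ (fun _ => rfl)]
    exact Finset.sum_congr rfl fun s _ => (hqe s).symm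
  · rintro ⟨q, hq, rfl⟩
    exact Submodule.sum_mem _ fun s _ => mem_Ax (hq s) s

/-- the largest perfect subspace of `Q` -/
def perf (Φ : ι → End K V) (Q : Submodule K V) : Submodule K V :=
  sSup {P | P ≤ Q ∧ P ≤ Ax Φ P}

theorem perf_le (Φ : ι → End K V) (Q : Submodule K V) : perf Φ Q ≤ Q :=
  sSup_le fun _ h => h.1

theorem le_perf {Φ : ι → End K V} {P Q : Submodule K V} (h1 : P ≤ Q) (h2 : P ≤ Ax Φ P) :
    P ≤ perf Φ Q := le_sSup ⟨h1, h2⟩

theorem perf_le_Ax (Φ : ι → End K V) (Q : Submodule K V) : perf Φ Q ≤ Ax Φ (perf Φ Q) :=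
  sSup_le fun _ h => h.2.trans (Ax_mono (le_sSup h))

theorem Ax_perf_le {Φ : ι → End K V} {Q : Submodule K V} (hQ : Ax Φ Q ≤ Q) :
    Ax Φ (perf Φ Q) ≤ perf Φ Q :=
  le_perf ((Ax_mono (perf_le Φ Q)).trans hQ) (Ax_mono (perf_le_Ax Φ Q))

theorem Ax_perf {Φ : ι → End K V} {Q : Submodule K V} (hQ : Ax Φ Q ≤ Q) :
    Ax Φ (perf Φ Q) = perf Φ Q := le_antisymm (Ax_perf_le hQ) (perf_le_Ax Φ Q)

theorem perf_stable {Φ : ι → End K V} {Q : Submodule K V} (hQ : Ax Φ Q ≤ Q) (s : ι) {v : V}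
    (hv : v ∈ perf Φ Q) : Φ s v ∈ perf Φ Q := Ax_perf_le hQ (mem_Ax hv s)

/-- iterates of `A` -/
def It (Φ : ι → End K V) (Q : Submodule K V) : ℕ → Submodule K V
  | 0 => Q
  | k + 1 => Ax Φ (It Φ Q k)

theorem It_mono {Φ : ι → End K V} {P Q : Submodule K V} (h : P ≤ Q) (k : ℕ) :
    It Φ P k ≤ It Φ Q k := by
  induction k with
  | zero => exact h
  | succ k ih => exact Ax_mono ih

theorem It_anti {Φ : ι → End K V} {Q : Submodule K V} (hQ : Ax Φ Q ≤ Q) : Antitone (It Φ Q) := by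
  apply antitone_nat_of_succ_le
  intro k
  induction k with
  | zero => exact hQ
  | succ k ih => exact Ax_mono ih

theorem exists_It [FiniteDimensional K V] {Φ : ι → End K V} {Q : Submodule K V}
    (hQ : Ax Φ Q ≤ Q) : ∃ k, It Φ Q k ≤ perf Φ Q := by
  obtain ⟨k, hk⟩ := (monotone_stabilizes_iff_artinian (R := K) (M := V)).2 inferInstance
    ⟨fun k => OrderDual.toDual (It Φ Q k), fun a b h => It_anti hQ h⟩
  refine ⟨k, le_perf ?_ ?_⟩
  · exact It_anti hQ (Nat.zero_le k)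
  · have h1 : It Φ Q k = It Φ Q (k + 1) := congrArg OrderDual.ofDual (hk (k + 1) (Nat.le_succ k))
    exact h1.le

/-- a surjection onto a perfect module stays surjective on the perfect part -/
theorem map_perf [FiniteDimensional K V] {Φ : ι → End K V} {Q : Submodule K V}
    (hQ : Ax Φ Q ≤ Q) {M : Type*} [AddCommGroup M] [Module K M] (ψ : ι → End K M)
    (π : V →ₗ[K] M) (hπ : ∀ s, ∀ v ∈ Q, π (Φ s v) = ψ s (π v)) {Mi : Submodule K M}
    (hMi : Mi ≤ Ax ψ Mi) (h : Mi ≤ Q.map π) : Mi ≤ (perf Φ Q).map π := by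
  obtain ⟨k, hk⟩ := exists_It hQ
  refine le_trans ?_ (Submodule.map_mono hk)
  clear hk
  induction k with
  | zero => exact h
  | succ k ih =>
    refine hMi.trans (Ax_le fun s v hv => ?_)
    obtain ⟨w, hw, rfl⟩ := ih hv
    refine ⟨Φ s w, mem_Ax hw s, ?_⟩
    exact hπ s w (It_anti hQ (Nat.zero_le k) hw)

/-- **Nakayama**: `R ≤ R' + A R` and `A^k R = 0` imply `R ≤ R'`. -/
theorem nak {Φ : ι → End K V} {R R' : Submodule K V} (hR' : Ax Φ R' ≤ R')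
    (h : R ≤ R' ⊔ Ax Φ R) {k : ℕ} (hk : It Φ R k ≤ R') : R ≤ R' := by
  have h1 : ∀ j, It Φ R j ≤ R' ⊔ It Φ R (j + 1) := by
    intro j
    induction j with
    | zero => exact h
    | succ j ih =>
      refine Ax_le fun s v hv => ?_
      obtain ⟨a, ha, b, hb, rfl⟩ := Submodule.mem_sup.1 (ih hv)
      rw [map_add]
      exact Submodule.add_mem_sup (hR' (mem_Ax ha s)) (mem_Ax hb s)
  have h2 : ∀ j, R ≤ R' ⊔ It Φ R j := by
    intro j
    induction j with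
    | zero => exact le_sup_right
    | succ j ih => exact ih.trans (sup_le le_sup_left (h1 j))
  exact (h2 k).trans (sup_le le_rfl hk)

end perf

section core

variable {B : LinearMap.BilinForm K V} {Φ : ι → End K V}

/-- the projection to the core -/
def pM (C : St.Core B Φ) : V →ₗ[K] C.M := C.π.codRestrict C.M C.mem

theorem pM_coe (C : St.Core B Φ) (v : V) : ((pM C v : C.M) : V) = C.π v := rfl

theorem pM_self (C : St.Core B Φ) (m : C.M) : pM C (m : V) = m := Subtype.ext (C.fix m m.2)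

theorem pM_Φ (hΦ : ∀ s, Sa B (Φ s)) (C : St.Core B Φ) (s : ι) {v : V} (hv : v ∈ Tp B Φ) :
    pM C (Φ s v) = cp C (Φ s) (pM C v) := by
  apply Subtype.ext
  rw [pM_coe, cp_coe, pM_coe]
  exact (pi_pres C (pres_Φ hΦ s) hv).symm

theorem pM_eq_zero (C : St.Core B Φ) {p : V} (hp : p ∈ Tp B Φ) : pM C p = 0 ↔ p ∈ T Φ := by
  constructor
  · intro h
    have h1 := C.rem p hp
    have h2 : C.π p = 0 := by rw [← pM_coe, h]; rfl
    rwa [h2, sub_zero] at h1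
  · intro h
    exact Subtype.ext (C.killT p h)

theorem Φ_Tp (hΦ : ∀ s, Sa B (Φ s)) (s : ι) {v : V} (hv : v ∈ Tp B Φ) : Φ s v ∈ Tp B Φ :=
  Tp_stable (hΦ s) (fun _ ht => T_stable s ht) hv

theorem pow_Tp (hΦ : ∀ s, Sa B (Φ s)) (s : ι) (l : ℕ) {v : V} (hv : v ∈ Tp B Φ) :
    (Φ s ^ l) v ∈ Tp B Φ := by
  induction l with
  | zero => exact hv
  | succ l ih => rw [pow_succ', Module.End.mul_apply]; exact Φ_Tp hΦ s ih

theorem pM_pow (hΦ : ∀ s, Sa B (Φ s)) (C : St.Core B Φ) (s : ι) (l : ℕ) {v : V}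
    (hv : v ∈ Tp B Φ) : pM C ((Φ s ^ l) v) = (cp C (Φ s) ^ l) (pM C v) := by
  induction l with
  | zero => rfl
  | succ l ih =>
    rw [pow_succ', Module.End.mul_apply, pM_Φ hΦ C s (pow_Tp hΦ s l hv), ih, pow_succ',
      Module.End.mul_apply]

theorem form_eq (hs : ∀ u v, B u v = B v u) (C : St.Core B Φ) {v w : V} (hv : v ∈ Tp B Φ)
    (hw : w ∈ Tp B Φ) : B v w = BM C (pM C v) (pM C w) := by
  rw [BM_apply, pM_coe, pM_coe]
  have h1 : B (v - C.π v) w = 0 := by rw [hs]; exact hw _ (C.rem v hv)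
  have h2 : B (C.π v) (w - C.π w) = 0 := C.le _ (C.mem v) _ (C.rem w hw)
  rw [map_sub, LinearMap.sub_apply, sub_eq_zero] at h1
  rw [map_sub, sub_eq_zero] at h2
  rw [h1, h2]

/-- `{v ∈ Tᗮ : π v ∈ Mi}` -/
def Q0 (C : St.Core B Φ) (Mi : Submodule K C.M) : Submodule K V := Tp B Φ ⊓ Mi.comap (pM C)

/-- the perfect submodule over `Mi` -/
def PP (C : St.Core B Φ) (Mi : Submodule K C.M) : Submodule K V := perf Φ (Q0 C Mi)

variable {C : St.Core B Φ} {Mi Mj : Submodule K C.M}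

theorem Q0_stable (hΦ : ∀ s, Sa B (Φ s)) (hM : ∀ s, ∀ m ∈ Mi, cp C (Φ s) m ∈ Mi) :
    Ax Φ (Q0 C Mi) ≤ Q0 C Mi := by
  refine Ax_le fun s v hv => ⟨Φ_Tp hΦ s hv.1, ?_⟩
  change pM C (Φ s v) ∈ Mi
  rw [pM_Φ hΦ C s hv.1]
  exact hM s _ hv.2

theorem PP_le_Q0 : PP C Mi ≤ Q0 C Mi := perf_le Φ _

theorem PP_le_Tp : PP C Mi ≤ Tp B Φ := fun _ hv => (PP_le_Q0 hv).1

theorem pM_mem {p : V} (hp : p ∈ PP C Mi) : pM C p ∈ Mi := (PP_le_Q0 hp).2

theorem PP_stable (hΦ : ∀ s, Sa B (Φ s)) (hM : ∀ s, ∀ m ∈ Mi, cp C (Φ s) m ∈ Mi) (s : ι)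
    {p : V} (hp : p ∈ PP C Mi) : Φ s p ∈ PP C Mi := perf_stable (Q0_stable hΦ hM) s hp

theorem PP_perfect : PP C Mi ≤ Ax Φ (PP C Mi) := perf_le_Ax Φ _

theorem le_PP {P : Submodule K V} (h1 : P ≤ Tp B Φ) (h2 : ∀ p ∈ P, pM C p ∈ Mi)
    (h3 : P ≤ Ax Φ P) : P ≤ PP C Mi := le_perf (fun p hp => ⟨h1 hp, h2 p hp⟩) h3

/-- `π (PP Mi) = Mi` -/
theorem map_PP [FiniteDimensional K V] (hΦ : ∀ s, Sa B (Φ s))
    (hM : ∀ s, ∀ m ∈ Mi, cp C (Φ s) m ∈ Mi) (hp : Mi ≤ Ax (fun s => cp C (Φ s)) Mi) :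
    (PP C Mi).map (pM C) = Mi := by
  apply le_antisymm
  · rintro _ ⟨p, hp', rfl⟩
    exact pM_mem hp'
  · refine map_perf (Q0_stable hΦ hM) (fun s => cp C (Φ s)) (pM C)
      (fun s v hv => pM_Φ hΦ C s hv.1) hp ?_
    intro m hm
    refine ⟨(m : V), ⟨C.le _ m.2, ?_⟩, pM_self C m⟩
    change pM C (m : V) ∈ Mi
    rw [pM_self]
    exact hm

/-- distinct blocks are orthogonal -/
theorem PP_orth (hs : ∀ u v, B u v = B v u) (h : ∀ m ∈ Mi, ∀ m' ∈ Mj, BM C m m' = 0) :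
    ∀ p ∈ PP C Mi, ∀ q ∈ PP C Mj, B p q = 0 := by
  intro p hp q hq
  rw [form_eq hs C (PP_le_Tp hp) (PP_le_Tp hq)]
  exact h _ (pM_mem hp) _ (pM_mem hq)

/-- `Φ_s^l PP ≤ T` -/
theorem pow_mem_T (hΦ : ∀ s, Sa B (Φ s)) {s : ι} {l : ℕ}
    (h : ∀ m ∈ Mi, (cp C (Φ s) ^ l) m = 0) {p : V} (hp : p ∈ PP C Mi) : (Φ s ^ l) p ∈ T Φ := by
  rw [← pM_eq_zero C (pow_Tp hΦ s l (PP_le_Tp hp)), pM_pow hΦ C s l (PP_le_Tp hp)]
  exact h _ (pM_mem hp)

theorem pow_mem_PP (hΦ : ∀ s, Sa B (Φ s)) (hM : ∀ s, ∀ m ∈ Mi, cp C (Φ s) m ∈ Mi) (s : ι)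
    (l : ℕ) {p : V} (hp : p ∈ PP C Mi) : (Φ s ^ l) p ∈ PP C Mi := by
  induction l with
  | zero => exact hp
  | succ l ih => rw [pow_succ', Module.End.mul_apply]; exact PP_stable hΦ hM s ih

theorem It_Nk (Φ : ι → End K V) (k : ℕ) : It Φ (Nk Φ k) k ≤ ⊥ := by
  have h : ∀ k j, It Φ (Nk Φ (k + j)) k ≤ Nk Φ j := by
    intro k
    induction k with
    | zero => intro j; simp [It]
    | succ k ih =>
      intro j
      refine Ax_le fun s v hv => ?_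
      have h1 := ih (j + 1) (by
        have e : k + (j + 1) = k + 1 + j := by ring
        rw [e]; exact hv)
      exact (mem_Nk_succ.1 h1) s
  have := h k 0
  rw [add_zero] at this
  exact this

/-- long words kill `T` -/
theorem words [FiniteDimensional K V] (Φ : ι → End K V) :
    ∃ m, ∀ l : List ι, m ≤ l.length → ∀ t ∈ T Φ, wd Φ l t = 0 := by
  obtain ⟨k, hk⟩ := T_eq_Nk Φ
  refine ⟨k, fun l hl t ht => ?_⟩
  rw [hk] at ht
  exact mem_Nk_iff.1 (Nk_mono Φ hl ht) l rfl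

/-- **generators of the radical part**: if `Φ_s^{l_s} = 0` on `Mi`, `Mi` is free over
`K[Φ_s]/Φ_s^{l_s}` and `∑ dim ker = (|ι| - 2) dim`, then `PP ⊓ T` is the smallest stable submodule
which contains all `Φ_s^{l_s} p`. -/
theorem gen [FiniteDimensional K V] [Fintype ι] (hΦ : ∀ s, Sa B (Φ s)) (hsum : ∑ s, Φ s = 0)
    (hM : ∀ s, ∀ m ∈ Mi, cp C (Φ s) m ∈ Mi) (hp : Mi ≤ Ax (fun s => cp C (Φ s)) Mi)
    (l : ι → ℕ) (hl : ∀ s, 1 ≤ l s) (hnil : ∀ s, ∀ m ∈ Mi, (cp C (Φ s) ^ l s) m = 0)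
    (hfree : ∀ s, l s * finrank K (ker (cp C (Φ s)) ⊓ Mi : Submodule K C.M) = finrank K Mi)
    (hdim : ∑ s, finrank K (ker (cp C (Φ s)) ⊓ Mi : Submodule K C.M) + 2 * finrank K Mi =
      Fintype.card ι * finrank K Mi)
    {R' : Submodule K V} (hR' : Ax Φ R' ≤ R')
    (h : ∀ s, ∀ p ∈ PP C Mi, (Φ s ^ l s) p ∈ R') : PP C Mi ⊓ T Φ ≤ R' := by
  classical
  set P := PP C Mi with hPdef
  set R := P ⊓ T Φ with hRdef
  have hRst : Ax Φ R ≤ R := Ax_le fun s v hv => ⟨PP_stable hΦ hM s hv.1, T_stable s hv.2⟩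
  -- reduce to `R' ≤ R`
  have hR'' : Ax Φ (R' ⊓ R) ≤ R' ⊓ R :=
    Ax_le fun s v hv => ⟨hR' (mem_Ax hv.1 s), hRst (mem_Ax hv.2 s)⟩
  suffices hh : R ≤ R' ⊓ R from hh.trans inf_le_left
  obtain ⟨k, hk⟩ := T_eq_Nk Φ
  refine nak hR'' ?_ (k := k) ?_
  swap
  · refine le_trans (It_mono ?_ k) ((It_Nk Φ k).trans bot_le)
    rw [← hk]; exact inf_le_right
  -- the quotient
  let S : Submodule K P := ((R' ⊓ R) ⊔ Ax Φ R).comap P.subtype
  let πP : P →ₗ[K] Mi := ((pM C) ∘ₗ P.subtype).codRestrict Mi (fun p => pM_mem p.2)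
  have hπP : ∀ p : P, ((πP p : Mi) : C.M) = pM C (p : V) := fun p => rfl
  have hπs : Function.Surjective πP := by
    intro m
    have h1 : (m : C.M) ∈ P.map (pM C) := by rw [hPdef, map_PP hΦ hM hp]; exact m.2
    obtain ⟨p, hp1, hp2⟩ := h1
    exact ⟨⟨p, hp1⟩, Subtype.ext hp2⟩
  obtain ⟨σ, hσ⟩ := πP.exists_rightInverse_of_surjective (LinearMap.range_eq_top.2 hπs)
  have hσ' : ∀ m : Mi, πP (σ m) = m := fun m => LinearMap.congr_fun hσ m
  let ΦP : ι → (P →ₗ[K] P) := fun s => (Φ s).restrict fun p hp' => PP_stable hΦ hM s hp'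
  have hΦP : ∀ s p, ((ΦP s p : P) : V) = Φ s p := fun s p => rfl
  have hkR : ∀ p : P, πP p = 0 → (p : V) ∈ R := by
    intro p hp'
    refine ⟨p.2, ?_⟩
    rw [SetLike.mem_coe, ← pM_eq_zero C (PP_le_Tp p.2), ← hπP, hp']
    rfl
  have hRk : ∀ p : P, (p : V) ∈ R → πP p = 0 := by
    intro p hp'
    apply Subtype.ext
    rw [hπP, (pM_eq_zero C (PP_le_Tp p.2)).2 hp'.2]
    rfl
  have hSk : S ≤ ker πP := by
    intro p hp'
    have h1 : (p : V) ∈ R := (sup_le inf_le_right hRst) hp'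
    exact hRk p h1
  let b : ι → Mi →ₗ[K] (P ⧸ S) := fun s => S.mkQ ∘ₗ ΦP s ∘ₗ σ
  let π2 : (P ⧸ S) →ₗ[K] Mi := S.liftQ πP hSk
  have hπ2 : ∀ p, π2 (S.mkQ p) = πP p := fun p => S.liftQ_apply πP p
  have hb : ∀ s m, b s m = S.mkQ (ΦP s (σ m)) := fun s m => rfl
  have hbp : ∀ s m, ((π2 (b s m) : Mi) : C.M) = cp C (Φ s) (m : C.M) := by
    intro s m
    rw [hb, hπ2, hπP, hΦP, pM_Φ hΦ C s (PP_le_Tp (σ m).2), ← hπP, hσ']
  -- `Φ_s` of an element over `m`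
  have hlift : ∀ s (p : P), S.mkQ (ΦP s p) = b s (πP p) := by
    intro s p
    rw [hb, ← sub_eq_zero, ← map_sub, ← map_sub]
    rw [Submodule.mkQ_apply, Submodule.Quotient.mk_eq_zero]
    change ((ΦP s (p - σ (πP p)) : P) : V) ∈ (R' ⊓ R) ⊔ Ax Φ R
    rw [hΦP]
    refine Submodule.mem_sup_right (mem_Ax (hkR _ ?_) s)
    rw [map_sub, hσ', sub_self]
  have hS1 : ∑ s, b s = 0 := by
    ext m
    rw [LinearMap.sum_apply]
    simp only [hb]
    rw [← map_sum]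
    have e : ∑ s, ΦP s (σ m) = 0 := by
      apply Subtype.ext
      rw [Submodule.coe_sum]
      simp only [hΦP]
      rw [← LinearMap.sum_apply, hsum]
      rfl
    rw [e, map_zero]
    rfl
  have hspan : ⨆ s, range (b s) = ⊤ := by
    rw [eq_top_iff]
    intro x _
    obtain ⟨p, rfl⟩ := S.mkQ_surjective x
    obtain ⟨q, hq, hqe⟩ := mem_Ax_iff.1 (PP_perfect p.2)
    have e : p = ∑ s, ΦP s ⟨q s, hq s⟩ := by
      apply Subtype.ext
      rw [Submodule.coe_sum, hqe]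
      rfl
    rw [e, map_sum]
    refine Submodule.sum_mem _ fun s _ => Submodule.mem_iSup_of_mem s ?_
    rw [hlift]
    exact ⟨_, rfl⟩
  have hπt : range π2 = ⊤ := by
    rw [LinearMap.range_eq_top]
    intro m
    obtain ⟨p, rfl⟩ := hπs m
    exact ⟨S.mkQ p, hπ2 p⟩
  have hker : ∀ m : Mi, (∀ s, π2 (b s m) = 0) → m = 0 := by
    intro m hm
    apply Subtype.ext
    refine cp_ker hΦ C _ fun s => ?_
    rw [← hbp, hm s]
    rfl
  -- kernels
  have hkf : ∀ s, finrank K (ker (π2 ∘ₗ b s)) =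
      finrank K (ker (cp C (Φ s)) ⊓ Mi : Submodule K C.M) := by
    intro s
    have e : (ker (π2 ∘ₗ b s)).map Mi.subtype = ker (cp C (Φ s)) ⊓ Mi := by
      ext m
      constructor
      · rintro ⟨x, hx, rfl⟩
        refine ⟨?_, x.2⟩
        rw [SetLike.mem_coe, LinearMap.mem_ker]
        have h1 : π2 (b s x) = 0 := hx
        rw [Submodule.subtype_apply, ← hbp, h1]
        rfl
      · rintro ⟨h1, h2⟩
        refine ⟨⟨m, h2⟩, ?_, rfl⟩
        rw [SetLike.mem_coe, LinearMap.mem_ker]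
        apply Subtype.ext
        rw [LinearMap.comp_apply, hbp]
        exact h1
    rw [← e]
    exact (Submodule.finrank_map_subtype_eq Mi _).symm
  have hdim' : ∑ s, finrank K (ker (π2 ∘ₗ b s)) + 2 * finrank K Mi =
      Fintype.card ι * finrank K Mi := by
    rw [← hdim]
    congr 1
    exact Finset.sum_congr rfl fun s _ => hkf s
  -- restricted operators on `Mi`
  let ψ : ι → End K Mi := fun s => (cp C (Φ s)).restrict (hM s)
  have hψ : ∀ s m, ((ψ s m : Mi) : C.M) = cp C (Φ s) m := fun s m => rfl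
  have hψb : ∀ s, π2 ∘ₗ b s = ψ s := by
    intro s
    ext m
    rw [LinearMap.comp_apply, hbp, hψ]
  have hψpow : ∀ s j (m : Mi), (((ψ s ^ j) m : Mi) : C.M) = (cp C (Φ s) ^ j) (m : C.M) := by
    intro s j m
    induction j with
    | zero => rfl
    | succ j ih => rw [pow_succ', Module.End.mul_apply, hψ, ih, pow_succ', Module.End.mul_apply]
  have hψnil : ∀ s, ψ s ^ l s = 0 := by
    intro s
    ext m
    rw [hψpow, hnil s _ m.2]
    rfl
  have hψfree : ∀ s, l s * finrank K (ker (ψ s)) = finrank K Mi := by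
    intro s
    rw [← hψb, hkf]
    exact hfree s
  -- main
  intro r hr
  obtain ⟨kk, hk1, hk2⟩ := Def.ker_eq b π2 hS1 hspan hπt hker hdim' (S.mkQ ⟨r, hr.1⟩) (by
    rw [hπ2]; exact hRk ⟨r, hr.1⟩ hr)
  have h0 : S.mkQ (⟨r, hr.1⟩ : P) = 0 := by
    rw [hk2]
    refine Finset.sum_eq_zero fun s _ => ?_
    have h1 : kk s ∈ ker (ψ s ^ 1) := by
      rw [pow_one, ← hψb]
      exact hk1 s
    rw [TC.ker_eq_range (hψnil s) (hψfree s) (hl s)] at h1
    obtain ⟨q, hq⟩ := h1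
    have e1 : πP ((ΦP s ^ (l s - 1)) (σ q)) = kk s := by
      rw [← hq]
      apply Subtype.ext
      have e2 : ∀ j (p : P), ((((ΦP s) ^ j) p : P) : V) = (Φ s ^ j) (p : V) := by
        intro j p
        induction j with
        | zero => rfl
        | succ j ih =>
          rw [pow_succ', Module.End.mul_apply, hΦP, ih, pow_succ', Module.End.mul_apply]
      rw [hπP, e2, pM_pow hΦ C s _ (PP_le_Tp (σ q).2), ← hπP, hσ', hψpow]
    rw [← e1, ← hlift, Submodule.mkQ_apply, Submodule.Quotient.mk_eq_zero]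
    change ((ΦP s ((ΦP s ^ (l s - 1)) (σ q)) : P) : V) ∈ (R' ⊓ R) ⊔ Ax Φ R
    have e3 : ΦP s ((ΦP s ^ (l s - 1)) (σ q)) = (ΦP s ^ l s) (σ q) := by
      rw [← Module.End.mul_apply, ← pow_succ', Nat.sub_add_cancel (hl s)]
    have e2 : ∀ j (p : P), ((((ΦP s) ^ j) p : P) : V) = (Φ s ^ j) (p : V) := by
      intro j p
      induction j with
      | zero => rfl
      | succ j ih =>
        rw [pow_succ', Module.End.mul_apply, hΦP, ih, pow_succ', Module.End.mul_apply]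
    rw [e3, e2]
    refine Submodule.mem_sup_left ⟨h s _ (σ q).2, pow_mem_PP hΦ hM s _ (σ q).2, ?_⟩
    exact pow_mem_T hΦ (hnil s) (σ q).2
  rw [Submodule.mkQ_apply, Submodule.Quotient.mk_eq_zero] at h0
  exact h0

end core

end Crest.Agent.R172.CP
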