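import Crest.Agent.R172.NilPat3

/-!
Row 172, node NILC: the counting part (N0)-(N3).
-/

set_option autoImplicit false
set_option linter.unusedSectionVars false
set_option linter.unusedSimpArgs false
set_option linter.unusedVariables false

namespace Crest.Agent.R172.NilNum

open Module Crest.Agent.R172.Kempf Crest.Agent.R172.NilPat

variable {K V ι : Type*} [Field K] [AddCommGroup V] [Module K V] [Fintype ι] [DecidableEq ι]

/-- Vectors supported on `P`. -/
def Supp (f : Basis ι K V) (P : ι → Prop) : Submodule K V where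
  carrier := {v | ∀ i, f.repr v i ≠ 0 → P i}
  zero_mem' := by intro i h; simp at h
  add_mem' := by
    intro x y hx hy i h
    by_cases h1 : f.repr x i = 0
    · refine hy i ?_
      intro h2; apply h; simp [h1, h2]
    · exact hx i h1
  smul_mem' := by
    intro c x hx i h
    refine hx i ?_
    intro h2; apply h; simp [h2]

theorem mem_Supp {f : Basis ι K V} {P : ι → Prop} {v : V} :
    v ∈ Supp f P ↔ ∀ i, f.repr v i ≠ 0 → P i := Iff.rfl

theorem Supp_eq_span (f : Basis ι K V) (P : ι → Prop) :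
    Supp f P = Submodule.span K (f '' {i | P i}) := by
  ext v
  rw [f.mem_span_image]
  constructor
  · intro h i hi
    exact h i (by simpa using hi)
  · intro h i hi
    exact h (by simpa using hi)

theorem finrank_Supp (f : Basis ι K V) (P : ι → Prop) :
    finrank K (Supp f P) = Nat.card {i // P i} := by
  classical
  rw [Supp_eq_span]
  have hli : LinearIndependent K (fun x : {i | P i} => f x) :=
    f.linearIndependent.comp _ Subtype.val_injective
  have := finrank_span_eq_card (R := K) hli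
  rw [Set.image_eq_range, this, Nat.card_eq_fintype_card]
  rfl

theorem Supp_inf (f : Basis ι K V) (P Q : ι → Prop) :
    Supp f P ⊓ Supp f Q = Supp f (fun i => P i ∧ Q i) := by
  ext v
  rw [Submodule.mem_inf, mem_Supp, mem_Supp, mem_Supp]
  exact ⟨fun h i hi => ⟨h.1 i hi, h.2 i hi⟩, fun h => ⟨fun i hi => (h i hi).1, fun i hi => (h i hi).2⟩⟩

theorem Fil_eq_Supp (f : Basis ι K V) (w : ι → ℝ) (a : ℝ) :
    Fil f w a = Supp f (fun i => a ≤ w i) := rfl

/-- Strict steps of the filtration. -/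
def Vgt (f : Basis ι K V) (w : ι → ℝ) (c : ℝ) : Submodule K V := Supp f (fun i => c < w i)

theorem mem_Vgt {f : Basis ι K V} {w : ι → ℝ} {c : ℝ} {v : V} :
    v ∈ Vgt f w c ↔ ∀ i, f.repr v i ≠ 0 → c < w i := Iff.rfl

/-- (N0) `Vgt` depends only on the flag. -/
theorem Vgt_congr {e f : Basis ι K V} {w u : ι → ℝ} (h : ∀ a, Fil f u a = Fil e w a) (c : ℝ) :
    Vgt f u c = Vgt e w c := by
  ext v
  rw [mem_Vgt, mem_Vgt]
  exact ⟨fun hv => strict_of_strict (fun a => (h a).symm) hv, fun hv => strict_of_strict h hv⟩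

theorem card_subtype_eq (P : ι → Prop) [DecidablePred P] :
    Nat.card {i // P i} = (Finset.univ.filter P).card := by
  rw [Nat.card_eq_fintype_card, Fintype.card_subtype]

theorem finrank_Vgt (f : Basis ι K V) (w : ι → ℝ) (c : ℝ) :
    finrank K (Vgt f w c) = Nat.card {i // c < w i} := finrank_Supp f _

theorem finrank_Fil' (f : Basis ι K V) (w : ι → ℝ) (c : ℝ) :
    finrank K (Fil f w c) = Nat.card {i // c ≤ w i} := finrank_Supp f _

/-- (N0). -/
theorem finrank_Fil_inf_Vgt (f : Basis ι K V) (u w : ι → ℝ) (a c : ℝ) :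
    finrank K (Fil f u a ⊓ Vgt f w c : Submodule K V) = Nat.card {i // a ≤ u i ∧ c < w i} := by
  rw [Fil_eq_Supp, Vgt, Supp_inf, finrank_Supp]

/-- (N0). -/
theorem finrank_Fil_inf_Fil (f : Basis ι K V) (u w : ι → ℝ) (a c : ℝ) :
    finrank K (Fil f u a ⊓ Fil f w c : Submodule K V) = Nat.card {i // a ≤ u i ∧ c ≤ w i} := by
  rw [Fil_eq_Supp, Fil_eq_Supp, Supp_inf, finrank_Supp]

theorem card_congr {P Q : ι → Prop} (h : ∀ i, P i ↔ Q i) :
    Nat.card {i // P i} = Nat.card {i // Q i} :=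
  Nat.card_congr (Equiv.subtypeEquivRight h)

section

variable (B : LinearMap.BilinForm K V) (hB : B.Nondegenerate) (hs : B.IsSymm)
  (h2 : (2 : K) ≠ 0) (f : Basis ι K V) (w u : ι → ℝ)

include hB hs h2

/-- (N1), strict part. -/
theorem finrank_Sym_Gt (hw : SD B f w) :
    finrank K (Sym B ⊓ Gt f w 0 : Submodule K (V →ₗ[K] V)) =
      finrank K (Skw B ⊓ Gt f w 0 : Submodule K (V →ₗ[K] V)) + finrank K (Vgt f w 0) := by
  rw [Gt_eq_Pat B hB f hs hw, finrank_Sym_eq B hB f hs h2 _ (fun j k h => by linarith),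
    finrank_Vgt]
  congr 1
  exact card_congr fun i => by constructor <;> intro h <;> linarith

/-- (N1), second part. -/
theorem finrank_Sym_Ge (hw : SD B f w) :
    finrank K (Sym B ⊓ Ge f w 1 : Submodule K (V →ₗ[K] V)) =
      finrank K (Skw B ⊓ Ge f w 1 : Submodule K (V →ₗ[K] V)) + finrank K (Fil f w (1 / 2)) := by
  rw [Ge_eq_Pat B hB f hs hw, finrank_Sym_eq B hB f hs h2 _ (fun j k h => by linarith),
    finrank_Fil']
  congr 1
  exact card_congr fun i => by constructor <;> intro h <;> linarith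

end

/-- The pattern of the arms. -/
def rho (u : ι → ℝ) (j k : ι) : Prop :=
  0 < u j + u k ∧ ¬ (u j = 1 ∧ u k = 0) ∧ ¬ (u j = 0 ∧ u k = 1)

theorem rho_symm (u : ι → ℝ) (j k : ι) (h : rho u j k) : rho u k j := by
  obtain ⟨h1, h2, h3⟩ := h
  exact ⟨by linarith, fun h => h3 ⟨h.2, h.1⟩, fun h => h2 ⟨h.2, h.1⟩⟩

/-- The space `n` of an arm. -/
def nn (B : LinearMap.BilinForm K V) (hB : B.Nondegenerate) (f : Basis ι K V) (u : ι → ℝ) :
    Submodule K (V →ₗ[K] V) := Sym B ⊓ Pat B hB f (rho u)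

/-- The space `p` of an arm. -/
def pp (B : LinearMap.BilinForm K V) (f : Basis ι K V) (u : ι → ℝ) :
    Submodule K (V →ₗ[K] V) := Skw B ⊓ Gt f u 0

section

variable (B : LinearMap.BilinForm K V) (hB : B.Nondegenerate) (hs : B.IsSymm)
  (h2 : (2 : K) ≠ 0) (f : Basis ι K V) (w u : ι → ℝ)

theorem nn_inf_Gt (hs : B.IsSymm) (hw : SD B f w) :
    nn B hB f u ⊓ Gt f w 0 = Sym B ⊓ Pat B hB f (fun j k => rho u j k ∧ 0 < w j + w k) := by
  rw [nn, Gt_eq_Pat B hB f hs hw, inf_assoc, Pat_inf]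

theorem nn_inf_Ge (hs : B.IsSymm) (hw : SD B f w) :
    nn B hB f u ⊓ Ge f w 1 = Sym B ⊓ Pat B hB f (fun j k => rho u j k ∧ 1 ≤ w j + w k) := by
  rw [nn, Ge_eq_Pat B hB f hs hw, inf_assoc, Pat_inf]

theorem pp_eq (hs : B.IsSymm) (hu : SD B f u) :
    pp B f u = Skw B ⊓ Pat B hB f (fun j k => 0 < u j + u k) := by
  rw [pp, Gt_eq_Pat B hB f hs hu]

theorem pp_inf_Gt (hs : B.IsSymm) (hw : SD B f w) (hu : SD B f u) :
    pp B f u ⊓ Gt f w 0 =
      Skw B ⊓ Pat B hB f (fun j k => 0 < u j + u k ∧ 0 < w j + w k) := by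
  rw [pp, Gt_eq_Pat B hB f hs hw, Gt_eq_Pat B hB f hs hu, inf_assoc, Pat_inf]

theorem pp_inf_Ge (hs : B.IsSymm) (hw : SD B f w) (hu : SD B f u) :
    pp B f u ⊓ Ge f w 1 =
      Skw B ⊓ Pat B hB f (fun j k => 0 < u j + u k ∧ 1 ≤ w j + w k) := by
  rw [pp, Ge_eq_Pat B hB f hs hw, Gt_eq_Pat B hB f hs hu, inf_assoc, Pat_inf]

include hB hs h2

/-- (N2), first. -/
theorem finrank_nn_even (hu : SD B f u) (hint : ∀ i, ∃ z : ℤ, u i = z) (h1 : ∀ i, u i ≠ 1) :
    finrank K (nn B hB f u) = finrank K (pp B f u) + finrank K (Fil f u 1) := by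
  have hρ : nn B hB f u = Sym B ⊓ Pat B hB f (fun j k => 0 < u j + u k) := by
    rw [nn]
    congr 2
    funext j k
    apply propext
    exact ⟨fun h => h.1, fun h => ⟨h, fun h' => h1 j h'.1, fun h' => h1 k h'.2⟩⟩
  rw [hρ, pp_eq B hB f u hs hu, finrank_Sym_eq B hB f hs h2 _ (fun j k h => by linarith),
    finrank_Fil']
  congr 1
  refine card_congr fun i => ?_
  obtain ⟨z, hz⟩ := hint i
  rw [hz]
  constructor
  · intro h
    have : (0 : ℝ) < z := by linarith
    have : 0 < z := by exact_mod_cast this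
    have : 1 ≤ z := this
    exact_mod_cast this
  · intro h; linarith

/-- (N2), second. -/
theorem finrank_nn_Gt_even (hw : SD B f w) (hu : SD B f u) (hint : ∀ i, ∃ z : ℤ, u i = z)
    (h1 : ∀ i, u i ≠ 1) :
    finrank K (nn B hB f u ⊓ Gt f w 0 : Submodule K (V →ₗ[K] V)) =
      finrank K (pp B f u ⊓ Gt f w 0 : Submodule K (V →ₗ[K] V)) +
        finrank K (Fil f u 1 ⊓ Vgt f w 0 : Submodule K V) := by
  have hρ : nn B hB f u ⊓ Gt f w 0 =
      Sym B ⊓ Pat B hB f (fun j k => 0 < u j + u k ∧ 0 < w j + w k) := by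
    rw [nn_inf_Gt B hB f w u hs hw]
    congr 2
    funext j k
    apply propext
    exact ⟨fun h => ⟨h.1.1, h.2⟩,
      fun h => ⟨⟨h.1, fun h' => h1 j h'.1, fun h' => h1 k h'.2⟩, h.2⟩⟩
  rw [hρ, pp_inf_Gt B hB f w u hs hw hu,
    finrank_Sym_eq B hB f hs h2 _ (fun j k h => ⟨by linarith [h.1], by linarith [h.2]⟩),
    finrank_Fil_inf_Vgt]
  congr 1
  refine card_congr fun i => ?_
  obtain ⟨z, hz⟩ := hint i
  rw [hz]
  constructor
  · rintro ⟨h, h'⟩
    refine ⟨?_, by linarith⟩
    have : (0 : ℝ) < z := by linarith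
    have : 0 < z := by exact_mod_cast this
    have : 1 ≤ z := this
    exact_mod_cast this
  · rintro ⟨h, h'⟩; constructor <;> linarith

/-- (N2), third. -/
theorem finrank_nn_Ge_even (hw : SD B f w) (hu : SD B f u) (hint : ∀ i, ∃ z : ℤ, u i = z)
    (h1 : ∀ i, u i ≠ 1) :
    finrank K (nn B hB f u ⊓ Ge f w 1 : Submodule K (V →ₗ[K] V)) =
      finrank K (pp B f u ⊓ Ge f w 1 : Submodule K (V →ₗ[K] V)) +
        finrank K (Fil f u 1 ⊓ Fil f w (1 / 2) : Submodule K V) := by
  have hρ : nn B hB f u ⊓ Ge f w 1 =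
      Sym B ⊓ Pat B hB f (fun j k => 0 < u j + u k ∧ 1 ≤ w j + w k) := by
    rw [nn_inf_Ge B hB f w u hs hw]
    congr 2
    funext j k
    apply propext
    exact ⟨fun h => ⟨h.1.1, h.2⟩,
      fun h => ⟨⟨h.1, fun h' => h1 j h'.1, fun h' => h1 k h'.2⟩, h.2⟩⟩
  rw [hρ, pp_inf_Ge B hB f w u hs hw hu,
    finrank_Sym_eq B hB f hs h2 _ (fun j k h => ⟨by linarith [h.1], by linarith [h.2]⟩),
    finrank_Fil_inf_Fil]
  congr 1
  refine card_congr fun i => ?_
  obtain ⟨z, hz⟩ := hint i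
  rw [hz]
  constructor
  · rintro ⟨h, h'⟩
    refine ⟨?_, by linarith⟩
    have : (0 : ℝ) < z := by linarith
    have : 0 < z := by exact_mod_cast this
    have : 1 ≤ z := this
    exact_mod_cast this
  · rintro ⟨h, h'⟩; constructor <;> linarith

end

/-! ### Symmetry of the weights of a self-dual flag -/

theorem SD_dual {B : LinearMap.BilinForm K V} (hB : B.Nondegenerate) (hs : B.IsSymm)
    {f : Basis ι K V} {w : ι → ℝ} (h : SD B f w) (a : ℝ) :
    Fil (B.dualBasis hB f) (fun i => - w i) a = Fil f w a := by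
  ext x
  rw [h, mem_Fil]
  constructor
  · intro hx i hi
    by_contra hne
    have := hx i (by rw [dual_repr, hs.eq x (f i)]; exact hne)
    linarith
  · intro hx i hi
    rw [dual_repr, hs.eq x (f i)] at hi
    by_contra hlt
    exact hi (hx i (by linarith [not_le.mp hlt]))

theorem Fil_combine' {e f : Basis ι K V} {w u w' u' : ι → ℝ} (hw : ∀ a, Fil f w' a = Fil e w a)
    (hu : ∀ a, Fil f u' a = Fil e u a) {c : ℝ} (hc : 0 ≤ c) (a : ℝ) :
    Fil f (fun i => w' i + c * u' i) a = Fil e (fun i => w i + c * u i) a := by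
  have key : ∀ {e f : Basis ι K V} {w u w' u' : ι → ℝ}, (∀ a, Fil f w' a = Fil e w a) →
      (∀ a, Fil f u' a = Fil e u a) → ∀ a,
      Fil f (fun i => w' i + c * u' i) a ≤ Fil e (fun i => w i + c * u i) a := by
    intro e f w u w' u' hw hu a
    rw [Fil_eq_span, Submodule.span_le]
    rintro _ ⟨j, hj, rfl⟩
    intro i hi
    have h1 : f j ∈ Fil e w (w' j) := by rw [← hw]; exact basis_mem_Fil f w' le_rfl
    have h2 : f j ∈ Fil e u (u' j) := by rw [← hu]; exact basis_mem_Fil f u' le_rfl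
    have h3 := h1 i hi
    have h4 := mul_le_mul_of_nonneg_left (h2 i hi) hc
    have h5 : a ≤ w' j + c * u' j := hj
    linarith
  exact le_antisymm (key hw hu a) (key (fun a => (hw a).symm) (fun a => (hu a).symm) a)

theorem exists_generic_c' (w u : ι → ℝ) : ∃ c : ℝ, 0 < c ∧
    ∀ i j, (w i + c * u i) + (w j + c * u j) = 0 → w i + w j = 0 ∧ u i + u j = 0 := by
  classical
  let S : Finset ℝ := Finset.univ.image fun p : ι × ι => -(w p.1 + w p.2) / (u p.1 + u p.2)
  obtain ⟨c, hc0, hc⟩ := (Set.Ioi_infinite (0 : ℝ)).exists_notMem_finset S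
  refine ⟨c, hc0, fun i j hij => ?_⟩
  have hu : u i + u j = 0 := by
    by_contra hne
    apply hc
    rw [Finset.mem_image]
    refine ⟨(i, j), Finset.mem_univ _, ?_⟩
    rw [div_eq_iff hne]
    linarith
  refine ⟨?_, hu⟩
  have : (w i + w j) + c * (u i + u j) = 0 := by linarith
  rw [hu] at this; linarith

/-- The pairs of weights of two self-dual flags with a common adapted basis are symmetric. -/
theorem exists_neg_perm {B : LinearMap.BilinForm K V} (hB : B.Nondegenerate) (hs : B.IsSymm)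
    {f : Basis ι K V} {w u : ι → ℝ} (hw : SD B f w) (hu : SD B f u) :
    ∃ σ : Equiv.Perm ι, ∀ i, w (σ i) = - w i ∧ u (σ i) = - u i := by
  obtain ⟨c, hc0, hc⟩ := exists_generic_c' w u
  let t : ι → ℝ := fun i => w i + c * u i
  have sdt : ∀ a, Fil (B.dualBasis hB f) (fun i => - t i) a = Fil f t a := by
    intro a
    have := Fil_combine' (SD_dual hB hs hw) (SD_dual hB hs hu) hc0.le a
    rw [← this]
    congr 1
    funext i
    simp only [t]; ring
  obtain ⟨σ, hσ⟩ := exists_perm f (B.dualBasis hB f) t (fun i => - t i) sdt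
  refine ⟨σ, fun i => ?_⟩
  have h1 := hσ i
  have := hc i (σ i) (by simp only [t] at h1; linarith)
  constructor <;> linarith [this.1, this.2]

theorem card_neg {B : LinearMap.BilinForm K V} (hB : B.Nondegenerate) (hs : B.IsSymm)
    {f : Basis ι K V} {w u : ι → ℝ} (hw : SD B f w) (hu : SD B f u) (P : ℝ → ℝ → Prop) :
    Nat.card {i // P (w i) (u i)} = Nat.card {i // P (- w i) (- u i)} := by
  obtain ⟨σ, hσ⟩ := exists_neg_perm hB hs hw hu
  refine (Nat.card_congr (Equiv.subtypeEquiv σ fun i => ?_)).symm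
  rw [(hσ i).1, (hσ i).2]

/-- (N2), last. -/
theorem two_mul_finrank_Fil_le {B : LinearMap.BilinForm K V} (hB : B.Nondegenerate)
    (hs : B.IsSymm) {f : Basis ι K V} {u : ι → ℝ} (hu : SD B f u) :
    2 * finrank K (Fil f u 1) ≤ finrank K V := by
  classical
  rw [finrank_Fil', Module.finrank_eq_card_basis f]
  have h1 : Nat.card {i // 1 ≤ u i} = Nat.card {i // 1 ≤ - u i} :=
    card_neg hB hs hu hu (fun a _ => 1 ≤ a)
  have h2 : Nat.card {i // 1 ≤ u i} + Nat.card {i // 1 ≤ - u i} ≤ Fintype.card ι := by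
    rw [card_subtype_eq, card_subtype_eq, ← Finset.card_union_of_disjoint]
    · exact Finset.card_le_univ _
    · rw [Finset.disjoint_left]
      intro i hi hi'
      have a1 := (Finset.mem_filter.mp hi).2
      have a2 := (Finset.mem_filter.mp hi').2
      linarith
  omega

/-! ### (N3) -/

section

variable (B : LinearMap.BilinForm K V) (hB : B.Nondegenerate) (hs : B.IsSymm)
  (h2 : (2 : K) ≠ 0) (f : Basis ι K V) (w u : ι → ℝ)

/-- Counting pairs in the type A pattern. -/
theorem card_pairs (j0 : ι) (hj0 : ∀ i, u i = 1 ↔ i = j0) (τ : ι → ι → Prop)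
    (hτ : ∀ j k, τ j k → τ k j) :
    Nat.card {p : ι × ι // 0 < u p.1 + u p.2 ∧ τ p.1 p.2} =
      Nat.card {p : ι × ι // rho u p.1 p.2 ∧ τ p.1 p.2} +
        2 * Nat.card {k // u k = 0 ∧ τ j0 k} := by
  classical
  have hu0 : u j0 = 1 := (hj0 j0).2 rfl
  rw [card_subtype_eq, card_subtype_eq, card_subtype_eq]
  set Z : Finset ι := Finset.univ.filter fun k => u k = 0 ∧ τ j0 k with hZ
  have hsplit : (Finset.univ.filter fun p : ι × ι => 0 < u p.1 + u p.2 ∧ τ p.1 p.2) =
      (Finset.univ.filter fun p : ι × ι => rho u p.1 p.2 ∧ τ p.1 p.2) ∪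
        (Z.image (fun k => (j0, k)) ∪ Z.image (fun k => (k, j0))) := by
    ext ⟨j, k⟩
    simp only [Finset.mem_union, Finset.mem_filter, Finset.mem_univ, true_and, Finset.mem_image,
      hZ, Prod.mk.injEq]
    constructor
    · rintro ⟨h1, h2⟩
      by_cases hA : u j = 1 ∧ u k = 0
      · have hj : j = j0 := (hj0 j).1 hA.1
        subst hj
        exact Or.inr (Or.inl ⟨k, ⟨hA.2, h2⟩, rfl, rfl⟩)
      · by_cases hB : u j = 0 ∧ u k = 1
        · have hk : k = j0 := (hj0 k).1 hB.2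
          subst hk
          exact Or.inr (Or.inr ⟨j, ⟨hB.1, hτ _ _ h2⟩, rfl, rfl⟩)
        · exact Or.inl ⟨⟨h1, hA, hB⟩, h2⟩
    · rintro (⟨h1, h2⟩ | ⟨l, ⟨h1, h2⟩, rfl, rfl⟩ | ⟨l, ⟨h1, h2⟩, rfl, rfl⟩)
      · exact ⟨h1.1, h2⟩
      · exact ⟨by rw [hu0, h1]; norm_num, h2⟩
      · exact ⟨by rw [hu0, h1]; norm_num, hτ _ _ h2⟩
  rw [hsplit, Finset.card_union_of_disjoint, Finset.card_union_of_disjoint,
    Finset.card_image_of_injective, Finset.card_image_of_injective]
  · ring
  · intro a b h; exact (Prod.mk.inj h).1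
  · intro a b h; exact (Prod.mk.inj h).2
  · rw [Finset.disjoint_left]
    rintro ⟨j, k⟩ h1 h2
    obtain ⟨l, hl, he⟩ := Finset.mem_image.mp h1
    obtain ⟨m, hm, he'⟩ := Finset.mem_image.mp h2
    have e1 : j0 = j := (Prod.mk.inj he).1
    have e2 : m = j := (Prod.mk.inj he').1
    have h3 : u m = 0 := (Finset.mem_filter.mp hm).2.1
    rw [e2, ← e1, hu0] at h3
    norm_num at h3
  · rw [Finset.disjoint_left]
    rintro ⟨j, k⟩ h1 h2
    have hr := (Finset.mem_filter.mp h1).2.1
    rcases Finset.mem_union.mp h2 with h3 | h3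
    · obtain ⟨l, hl, he⟩ := Finset.mem_image.mp h3
      obtain ⟨rfl, rfl⟩ := Prod.mk.inj he
      exact hr.2.1 ⟨hu0, (Finset.mem_filter.mp hl).2.1⟩
    · obtain ⟨l, hl, he⟩ := Finset.mem_image.mp h3
      obtain ⟨rfl, rfl⟩ := Prod.mk.inj he
      exact hr.2.2 ⟨(Finset.mem_filter.mp hl).2.1, hu0⟩

include hs h2

/-- The basic formula of type A: `dim n_τ + #Z_τ = dim p_τ + β_τ`. -/
theorem typeA_basic (j0 : ι) (hj0 : ∀ i, u i = 1 ↔ i = j0) (τ : ι → ι → Prop)
    (hτ : ∀ j k, τ j k → τ k j) :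
    finrank K (Sym B ⊓ Pat B hB f (fun j k => rho u j k ∧ τ j k) : Submodule K (V →ₗ[K] V)) +
        Nat.card {k // u k = 0 ∧ τ j0 k} =
      finrank K (Skw B ⊓ Pat B hB f (fun j k => 0 < u j + u k ∧ τ j k) :
        Submodule K (V →ₗ[K] V)) + Nat.card {i // 0 < u i + u i ∧ τ i i} := by
  have s1 : ∀ j k, (rho u j k ∧ τ j k) → (rho u k j ∧ τ k j) := fun j k h =>
    ⟨rho_symm u j k h.1, hτ _ _ h.2⟩
  have s2 : ∀ j k, (0 < u j + u k ∧ τ j k) → (0 < u k + u j ∧ τ k j) := fun j k h =>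
    ⟨by linarith [h.1], hτ _ _ h.2⟩
  have a1 := finrank_Sym_eq B hB f hs h2 (fun j k => rho u j k ∧ τ j k) s1
  have a2 := finrank_Sym_add_Skw B hB f hs h2 (fun j k => rho u j k ∧ τ j k) s1
  have b1 := finrank_Sym_eq B hB f hs h2 (fun j k => 0 < u j + u k ∧ τ j k) s2
  have b2 := finrank_Sym_add_Skw B hB f hs h2 (fun j k => 0 < u j + u k ∧ τ j k) s2
  have c1 := card_pairs u j0 hj0 τ hτ
  have d1 : Nat.card {i // rho u i i ∧ τ i i} = Nat.card {i // 0 < u i + u i ∧ τ i i} := by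
    refine card_congr fun i => ⟨fun h => ⟨h.1.1, h.2⟩, fun h => ⟨⟨h.1, ?_, ?_⟩, h.2⟩⟩
    · rintro ⟨h1, h2⟩; rw [h1] at h2; norm_num at h2
    · rintro ⟨h1, h2⟩; rw [h1] at h2; norm_num at h2
  omega

include hB

/-- (N3). -/
theorem typeA (hw : SD B f w) (hu : SD B f u) (hint : ∀ i, ∃ z : ℤ, u i = z) (j0 : ι)
    (hj0 : ∀ i, u i = 1 ↔ i = j0) (hw0 : 1 ≤ 2 * w j0) :
    2 * finrank K (pp B f u) + 4 * finrank K (Fil f u 1) +
        finrank K (nn B hB f u ⊓ Gt f w 0 : Submodule K (V →ₗ[K] V)) +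
        finrank K (nn B hB f u ⊓ Ge f w 1 : Submodule K (V →ₗ[K] V)) ≤
      2 * finrank K (nn B hB f u) + finrank K V +
        finrank K (pp B f u ⊓ Gt f w 0 : Submodule K (V →ₗ[K] V)) +
        finrank K (pp B f u ⊓ Ge f w 1 : Submodule K (V →ₗ[K] V)) +
        finrank K (Fil f u 1 ⊓ Vgt f w 0 : Submodule K V) +
        finrank K (Fil f u 1 ⊓ Fil f w (1 / 2) : Submodule K V) := by
  classical
  have hpos : ∀ i, 0 < u i + u i ↔ 1 ≤ u i := by
    intro i
    obtain ⟨z, hz⟩ := hint i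
    rw [hz]
    constructor
    · intro h
      have : (0 : ℝ) < z := by linarith
      have : 0 < z := by exact_mod_cast this
      have : 1 ≤ z := this
      exact_mod_cast this
    · intro h; linarith
  -- the three instances
  have t0 := typeA_basic B hB hs h2 f u j0 hj0 (fun _ _ => True) (fun _ _ _ => trivial)
  have t1 := typeA_basic B hB hs h2 f u j0 hj0 (fun j k => 0 < w j + w k)
    (fun j k h => by linarith)
  have t2 := typeA_basic B hB hs h2 f u j0 hj0 (fun j k => 1 ≤ w j + w k)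
    (fun j k h => by linarith)
  have e0 : (Sym B ⊓ Pat B hB f (fun j k => rho u j k ∧ True) : Submodule K (V →ₗ[K] V)) =
      nn B hB f u := by
    rw [nn]; congr 2; funext j k; simp
  have e0' : (Skw B ⊓ Pat B hB f (fun j k => 0 < u j + u k ∧ True) : Submodule K (V →ₗ[K] V)) =
      pp B f u := by
    rw [pp_eq B hB f u hs hu]; congr 2; funext j k; simp
  rw [e0, e0'] at t0
  rw [← nn_inf_Gt B hB f w u hs hw, ← pp_inf_Gt B hB f w u hs hw hu] at t1
  rw [← nn_inf_Ge B hB f w u hs hw, ← pp_inf_Ge B hB f w u hs hw hu] at t2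
  have c0 : Nat.card {i // 0 < u i + u i ∧ True} = finrank K (Fil f u 1) := by
    rw [finrank_Fil']; exact card_congr fun i => by rw [hpos]; simp
  have c1 : Nat.card {i // 0 < u i + u i ∧ 0 < w i + w i} =
      finrank K (Fil f u 1 ⊓ Vgt f w 0 : Submodule K V) := by
    rw [finrank_Fil_inf_Vgt]
    refine card_congr fun i => ?_
    rw [hpos]
    exact ⟨fun h => ⟨h.1, by linarith [h.2]⟩, fun h => ⟨h.1, by linarith [h.2]⟩⟩
  have c2 : Nat.card {i // 0 < u i + u i ∧ 1 ≤ w i + w i} =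
      finrank K (Fil f u 1 ⊓ Fil f w (1 / 2) : Submodule K V) := by
    rw [finrank_Fil_inf_Fil]
    refine card_congr fun i => ?_
    rw [hpos]
    exact ⟨fun h => ⟨h.1, by linarith [h.2]⟩, fun h => ⟨h.1, by linarith [h.2]⟩⟩
  rw [c0] at t0
  rw [c1] at t1
  rw [c2] at t2
  -- sizes of the zero level
  have z0 : Nat.card {k // u k = 0 ∧ True} = Nat.card {k // u k = 0} :=
    card_congr fun i => by simp
  rw [z0] at t0
  -- `N = 2 r' + #Z`
  have hN : finrank K V = 2 * finrank K (Fil f u 1) + Nat.card {k // u k = 0} := by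
    rw [Module.finrank_eq_card_basis f, finrank_Fil']
    have h1 : Nat.card {i // 1 ≤ u i} = Nat.card {i // 1 ≤ - u i} :=
      card_neg hB hs hu hu (fun a _ => 1 ≤ a)
    have h3 : Fintype.card ι = Nat.card {i // 1 ≤ u i} + Nat.card {i // 1 ≤ - u i} +
        Nat.card {k // u k = 0} := by
      rw [card_subtype_eq, card_subtype_eq, card_subtype_eq, ← Finset.card_union_of_disjoint,
        ← Finset.card_union_of_disjoint, ← Finset.card_univ]
      · congr 1
        ext i
        simp only [Finset.mem_univ, Finset.mem_union, Finset.mem_filter, true_and, true_iff]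
        obtain ⟨z, hz⟩ := hint i
        rw [hz]
        rcases lt_trichotomy z 0 with h | h | h
        · left; right
          have : 1 ≤ -z := by omega
          exact_mod_cast this
        · right; exact_mod_cast h
        · left; left
          have : 1 ≤ z := h
          exact_mod_cast this
      · rw [Finset.disjoint_left]
        intro i hi hi'
        have a2 := (Finset.mem_filter.mp hi').2
        rcases Finset.mem_union.mp hi with h | h
        · have a1 := (Finset.mem_filter.mp h).2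
          linarith
        · have a1 := (Finset.mem_filter.mp h).2
          linarith
      · rw [Finset.disjoint_left]
        intro i hi hi'
        have a1 := (Finset.mem_filter.mp hi).2
        have a2 := (Finset.mem_filter.mp hi').2
        linarith
    omega
  -- `#Z ≤ z1 + z2`
  have hZ : Nat.card {k // u k = 0} ≤ Nat.card {k // u k = 0 ∧ 0 < w j0 + w k} +
      Nat.card {k // u k = 0 ∧ 1 ≤ w j0 + w k} := by
    have h1 : Nat.card {k // u k = 0 ∧ w j0 ≤ - w k} =
        Nat.card {k // u k = 0 ∧ w j0 ≤ w k} := by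
      have := card_neg hB hs hw hu (fun a b => b = 0 ∧ w j0 ≤ -a)
      simp only [neg_eq_zero, neg_neg] at this
      exact this
    have h3 : Nat.card {k // u k = 0 ∧ w j0 ≤ w k} ≤
        Nat.card {k // u k = 0 ∧ 1 ≤ w j0 + w k} := by
      rw [card_subtype_eq, card_subtype_eq]
      apply Finset.card_le_card
      intro i hi
      have a1 := (Finset.mem_filter.mp hi).2
      exact Finset.mem_filter.mpr ⟨Finset.mem_univ _, a1.1, by linarith [a1.2]⟩
    have h4 : Nat.card {k // u k = 0} ≤ Nat.card {k // u k = 0 ∧ 0 < w j0 + w k} +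
        Nat.card {k // u k = 0 ∧ w j0 ≤ - w k} := by
      rw [card_subtype_eq, card_subtype_eq, card_subtype_eq]
      refine le_trans (Finset.card_le_card ?_) (Finset.card_union_le _ _)
      intro i hi
      have a1 := (Finset.mem_filter.mp hi).2
      by_cases h : 0 < w j0 + w i
      · exact Finset.mem_union_left _ (Finset.mem_filter.mpr ⟨Finset.mem_univ _, a1, h⟩)
      · exact Finset.mem_union_right _ (Finset.mem_filter.mpr ⟨Finset.mem_univ _, a1,
          by linarith [not_lt.mp h]⟩)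
    omega
  omega

end

end Crest.Agent.R172.NilNum
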