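import Crest.Agent.R172.NilCount9
import Crest.Agent.R172.NilNum

/-!
# Row 172, node NILC: the final count
-/

set_option autoImplicit false
set_option linter.unusedSectionVars false
set_option linter.unusedSimpArgs false
set_option linter.unusedVariables false

namespace Crest.Agent.R172.NilCount

open Module Crest.Agent.R172.Kempf Crest.Agent.R172.NilPat
open Crest.Agent.R172.NilConn (ten ten_apply)

namespace Conf

variable {K V X σ ι : Type*} [Field K] [AddCommGroup V] [Module K V] [Fintype ι] [DecidableEq ι]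
  {B : LinearMap.BilinForm K V} (F : Conf B X σ) [Fintype X] [DecidableEq σ] [DecidableEq X]
  [FiniteDimensional K V] [Fintype σ]

/-- The inequality of one arm. -/
theorem arm_ineq [DecidablePred F.odd] (hB : B.Nondegenerate) (hs : B.IsSymm) (h2 : (2 : K) ≠ 0)
    {s : σ} {f : Basis ι K V} {u : ι → ℝ} (h : F.Flag s f u) {w : ι → ℝ} (hw : SD B f w)
    (hG : F.Phi s ∈ Ge f w 1) :
    2 * finrank K (F.Nn s) + 2 * finrank K ↥(Skw B ⊓ Gt f u 0) + finrank K ↥(F.nn s ⊓ Gt f w 0) +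
      finrank K ↥(F.nn s ⊓ Ge f w 1) + 2 * finrank K (F.Rp s) ≤
    2 * finrank K (F.nn s) + finrank K ↥(Skw B ⊓ Gt f u 0 ⊓ Gt f w 0) +
      finrank K ↥(Skw B ⊓ Gt f u 0 ⊓ Ge f w 1) +
      (2 * F.card s + (if F.odd s then 1 else 0)) * finrank K V +
      finrank K ↥(F.Rp s ⊓ NilNum.Vgt f w 0) + finrank K ↥(F.Rp s ⊓ Fil f w (1 / 2)) := by
  classical
  have hN := F.finrank_Nn hB hs s
  have hnn : F.nn s = NilNum.nn B hB f u := F.nn_eq hB hs h2 h
  have hpp : Skw B ⊓ Gt f u 0 = NilNum.pp B f u := rfl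
  have h2r := NilNum.two_mul_finrank_Fil_le hB hs h.sd
  rw [hnn, hpp]
  by_cases hv : F.v0 s ∈ F.R s F.M
  · -- type B
    have ht := h.typeB hv
    have e1 := NilNum.finrank_nn_even B hB hs h2 f u h.sd h.int ht
    have e2 := NilNum.finrank_nn_Gt_even B hB hs h2 f w u hw h.sd h.int ht
    have e3 := NilNum.finrank_nn_Ge_even B hB hs h2 f w u hw h.sd h.int ht
    rw [h.Rp] at e1 e2 e3 h2r
    by_cases ho : F.odd s
    · rw [if_pos ho] at hN ⊢
      have h3 : (2 * F.card s + 1) * finrank K V = 2 * (F.card s * finrank K V) + finrank K V := by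
        ring
      rw [h3, e1, e2, e3]
      omega
    · rw [if_neg ho] at hN ⊢
      have h3 : (2 * F.card s + 0) * finrank K V = 2 * (F.card s * finrank K V) := by
        ring
      rw [h3, e1, e2, e3]
      omega
  · -- type A
    have ho : F.odd s := by
      by_contra ho
      apply hv
      rw [F.even0 s ho]; exact Submodule.zero_mem _
    obtain ⟨j0, hj0, hw0⟩ := h.typeA hB hs hv hw hG
    have e1 := NilNum.typeA B hB hs h2 f w u hw h.sd h.int j0 hj0 hw0
    rw [h.Rp] at e1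
    rw [if_pos ho] at hN ⊢
    have h3 : (2 * F.card s + 1) * finrank K V = 2 * (F.card s * finrank K V) + finrank K V := by
      ring
    rw [h3]
    omega

end Conf

/-- **NIL, the core.** -/
theorem nil_core {K V X σ : Type*} [Field K] [AddCommGroup V] [Module K V]
    [FiniteDimensional K V] [Nontrivial V] {B : LinearMap.BilinForm K V}
    (hB : B.Nondegenerate) (hs : B.IsSymm) (h2 : (2 : K) ≠ 0) [Fintype X] [Fintype σ]
    [DecidableEq σ] (F : Conf B X σ) [DecidablePred F.odd]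
    (hc : ∀ s (C : NilLower.Conn B), C.d (F.c0 s) = 0)
    (hsum : ∑ s, F.Phi s = 0) (htop : ⨆ s, F.Rp s = ⊤)
    (hlow : ∀ T : Submodule K (Conf.Wt V X σ), F.Closed T →
      (2 * Fintype.card X + (Finset.univ.filter F.odd).card) * finrank K V + 2 ≤
        2 * finrank K T + 2 * finrank K V)
    (m : ℕ) (hnil : ∀ l : List σ, l.length = m → (l.map F.Phi).prod = 0) : False := by
  classical
  obtain ⟨e, w, π, -, hort, hk1, hk2⟩ := kempf F.Phi
    (good_of_Kfil (finBasis K V) F.Phi m (Kfil_eq_top_of_words hnil)) B hB hs h2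
    (fun s => F.Phi_mem_Sym hs s)
  have hsd : SD B e w := SD.of_grading hB hs hort
  have kd : KData F.Phi e w := KData.of_kempf hk1 hk2
  have hex : ∀ s, ∃ (f : Basis _ K V) (u : Fin (finrank K V) → ℝ),
      (∀ a, Fil f w a = Fil e w a) ∧ F.Flag s f u := by
    intro s
    obtain ⟨g, om, hg⟩ := F.exists_Flag hB hs e s
    obtain ⟨f, u, hf, hu⟩ := exists_common e g w om
    exact ⟨f, u, hf, hg.congr hu⟩
  choose f u hf hfl using hex
  have hG : ∀ s, F.Phi s ∈ Ge e w 1 := kd.ge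
  have hcl := F.closed hB hs h2 e w hsd f u hfl hG hf hsum hc
  have low := hlow _ hcl
  have f3 := F3 (mkData B hB hs h2 e w hsd)
    (fun s => (F.farms hB hs h2 e w hsd f u hfl hG s).toArm) hsum (fun x hx hc => kd.K2 hx hc)
  have f4 := F4 (mkData B hB hs h2 e w hsd) (F.farms hB hs h2 e w hsd f u hfl hG) hsum
    (fun x hx => kd.K1 hx) (F.Tg hB hs h2 e w hsd f u hfl hG)
    (by rintro _ ⟨z, hz, rfl⟩; exact ⟨z, hz, rfl⟩)
  have n1 := NilNum.finrank_Sym_Gt B hB hs h2 e w hsd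
  have n2 := NilNum.finrank_Sym_Ge B hB hs h2 e w hsd
  have c1 := NilConn.spanning (NilNum.Vgt e w 0) F.Rp htop
  have c2 := NilConn.spanning (Fil e w (1 / 2)) F.Rp htop
  have hsum' : ∑ s, (2 * finrank K (F.Nn s) + 2 * finrank K ↥(Skw B ⊓ Gt (f s) (u s) 0) +
      finrank K ↥(F.nn s ⊓ Gt e w 0) +
      finrank K ↥(F.nn s ⊓ Ge e w 1) + 2 * finrank K (F.Rp s)) ≤
    ∑ s, (2 * finrank K (F.nn s) + finrank K ↥(Skw B ⊓ Gt (f s) (u s) 0 ⊓ Gt e w 0) +
      finrank K ↥(Skw B ⊓ Gt (f s) (u s) 0 ⊓ Ge e w 1) +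
      (2 * F.card s + (if F.odd s then 1 else 0)) * finrank K V +
      finrank K ↥(F.Rp s ⊓ NilNum.Vgt e w 0) + finrank K ↥(F.Rp s ⊓ Fil e w (1 / 2))) := by
    refine Finset.sum_le_sum fun s _ => ?_
    have h := F.arm_ineq hB hs h2 (hfl s) (hsd.congr (hf s))
      (by rw [Ge_congr (hf s)]; exact hG s)
    rw [Ge_congr (hf s), Gt_congr (hf s), NilNum.Vgt_congr (hf s), hf s] at h
    exact h
  have hcard : ∑ s, (2 * F.card s + (if F.odd s then 1 else 0)) * finrank K V =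
      (2 * Fintype.card X + (Finset.univ.filter F.odd).card) * finrank K V := by
    rw [← Finset.sum_mul, Finset.sum_add_distrib, ← Finset.mul_sum, F.sum_card,
      Finset.card_filter]
  simp only [Finset.sum_add_distrib, ← Finset.mul_sum] at hsum' f3 f4
  rw [hcard] at hsum'
  have hV : 0 < finrank K V := finrank_pos
  -- names
  change finrank K ↥(Sym B ⊓ Gt e w 0) + finrank K ↥(Skw B ⊓ Gt e w 0) +
      (∑ s, finrank K ↥(F.nn s ⊓ Ge e w 1) +
        ∑ s, finrank K ↥(Skw B ⊓ Gt (f s) (u s) 0 ⊓ Ge e w 1)) ≤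
    finrank K ↥(Sym B ⊓ Ge e w 1) + finrank K ↥(Skw B ⊓ Ge e w 1) +
      (∑ s, finrank K ↥(F.nn s ⊓ Gt e w 0) +
        ∑ s, finrank K ↥(Skw B ⊓ Gt (f s) (u s) 0 ⊓ Gt e w 0)) at f3
  change finrank K ↥(F.Tg hB hs h2 e w hsd f u hfl hG) + finrank K ↥(Sym B ⊓ Ge e w 1) +
      (∑ s, finrank K ↥(Skw B ⊓ Gt (f s) (u s) 0 ⊓ Gt e w 0) + ∑ s, finrank K (F.nn s)) ≤
    finrank K ↥(Skw B ⊓ Gt e w 0) +
      (∑ s, finrank K ↥(Skw B ⊓ Gt (f s) (u s) 0) + ∑ s, finrank K (F.Nn s) +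
        ∑ s, finrank K ↥(F.nn s ⊓ Ge e w 1)) at f4
  omega

end Crest.Agent.R172.NilCount
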