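import Crest.Agent.R172.NilFin
import Crest.Agent.R172.NilCount10

/-!
Row 172, node NILC: the final NIL theorems over a generic skew matrix `H`.
-/

set_option autoImplicit false
set_option linter.unusedSectionVars false

namespace Crest.Agent.R172.NilFin

open Module Crest.Agent.R172.NilLower Crest.Agent.R172.NilCount
open Crest.Agent.R172.NilConn (ten ten_apply)

variable {K V X σ : Type*} [Field K] [AddCommGroup V] [Module K V]
variable {B : LinearMap.BilinForm K V} [Fintype X] [Fintype σ] [DecidableEq σ]

/-- **NIL, even arms.** -/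
theorem nil_even [FiniteDimensional K V] [Nontrivial V] (hB : B.Nondegenerate) (hs : B.IsSymm)
    (h2 : (2 : K) ≠ 0) (arm : X → σ) (ht : X → ℕ) (H : X → X → K) (hH : ∀ x y, H x y = - H y x)
    (v w : X → V) (hw : ∀ x, w x = ∑ y, H x y • v y)
    (hv : Submodule.span K (Set.range v) = ⊤)
    (hgen : ∀ G : X → X → K, (∀ x y, G x y = - G y x) →
      ∃ C : Conn B, ∀ x y, C.d (H x y) = G x y)
    (vv : ∀ x y, arm x = arm y → B (v x) (v y) = 0)
    (vw : ∀ x y, arm x = arm y → ht x ≤ ht y → B (v x) (w y) = 0)
    (m : ℕ) (hnil : ∀ l : List σ, l.length = m →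
      (l.map fun s => ∑ x, if arm x = s then sten B (v x) (w x) else 0).prod = 0) : False := by
  classical
  refine nil_core hB hs h2 (confE arm ht v w vv vw) ?_ (confE_sum h2 H hH hw) (confE_top hv)
    (fun T hT => confE_low hB hs h2 H hw hv hgen T hT) m ?_
  · intro s C
    change C.d (0 : K) = 0
    exact map_zero _
  · intro l hl
    have h := hnil l hl
    have h1 : (confE arm ht v w vv vw).Phi
        = fun s => ∑ x, if arm x = s then sten B (v x) (w x) else 0 :=
      funext fun s => confE_Phi s
    rw [h1]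
    exact h

/-- **NIL, two odd arms.** -/
theorem nil_odd [FiniteDimensional K V] [Nontrivial V] (hB : B.Nondegenerate) (hs : B.IsSymm)
    (h2 : (2 : K) ≠ 0) (s1 s2 : σ) (h12 : s1 ≠ s2) (c : K) (hc : c ≠ 0)
    (hcd : ∀ d : Derivation ℤ K K, d c = 0) (arm : X → σ) (ht : X → ℕ)
    (H : Option X → Option X → K) (hH : ∀ x y, H x y = - H y x)
    (v w : Option X → V) (hw : ∀ x, w x = ∑ y, H x y • v y)
    (hv : Submodule.span K (Set.range v) = ⊤)
    (hgen : ∀ G : Option X → Option X → K, (∀ x y, G x y = - G y x) →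
      ∃ C : Conn B, ∀ x y, C.d (H x y) = G x y)
    (vv : ∀ x y, arm x = arm y → B (v (some x)) (v (some y)) = 0)
    (vw : ∀ x y, arm x = arm y → ht x ≤ ht y → B (v (some x)) (w (some y)) = 0)
    (v00 : ∀ s, B (vodd s1 s2 c v w s) (vodd s1 s2 c v w s) = 0)
    (vv0 : ∀ x, B (v (some x)) (vodd s1 s2 c v w (arm x)) = 0)
    (m : ℕ) (hnil : ∀ l : List σ, l.length = m →
      (l.map fun s => (∑ x, if arm x = s then sten B (v (some x)) (w (some x)) else 0)
        + codd s1 s2 c s • ten B (vodd s1 s2 c v w s) (vodd s1 s2 c v w s)).prod = 0) :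
    False := by
  classical
  refine nil_core hB hs h2 (confO s1 s2 h12 c hc h2 arm ht v w vv vw v00 vv0) ?_
    (confO_sum H hH hw) (confO_top hv) (fun T hT => confO_low hB hs hcd H hw hv hgen T hT) m ?_
  · intro s C
    change C.d (codd s1 s2 c s) = 0
    have h3 : C.d (2 * c)⁻¹ = 0 := by
      rw [Derivation.leibniz_inv, Derivation.leibniz, hcd, smul_zero, zero_add]
      have : C.d (2 : K) = 0 := by
        have := C.d.map_natCast 2
        simpa using this
      rw [this, smul_zero, smul_zero]
    unfold codd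
    split_ifs
    · exact h3
    · rw [map_neg, h3, neg_zero]
    · exact map_zero _
  · intro l hl
    exact hnil l hl

end Crest.Agent.R172.NilFin
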