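import Crest.Agent.R172.NilBr
import Crest.Agent.R172.NilFin2

/-!
Row 172: the abstract bridge from a symmetric form `b(u,u') = B(F u, G u')` on `U` to NIL.
-/

set_option autoImplicit false
set_option linter.unusedSectionVars false

namespace Crest.Agent.R172.NilBr

open Module Crest.Agent.R172.NilLower Crest.Agent.R172.NilCount Crest.Agent.R172.NilFin
open Crest.Agent.R172.NilConn (ten ten_apply)

variable {K : Type*} [Field K] {U : Type*} [AddCommGroup U] [Module K U]

/-- the nondegenerate quotient of a symmetric form, as a subspace. -/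
theorem exists_nondeg (b : LinearMap.BilinForm K U) (hs : b.IsSymm) :
    ∃ (S : Submodule K U) (c : U →ₗ[K] S), Function.Surjective c ∧
      (b.restrict S).Nondegenerate ∧ (b.restrict S).IsSymm ∧
      ∀ u u', b.restrict S (c u) (c u') = b u u' := by
  obtain ⟨S, hS⟩ := (LinearMap.ker b).exists_isCompl
  have hS' := hS.symm
  let c : U →ₗ[K] S := S.projectionOnto (LinearMap.ker b) hS'
  have hc : ∀ u, (c u : U) - u ∈ LinearMap.ker b := by
    intro u
    have h1 : c ((c u : U) - u) = 0 := by
      rw [map_sub, Submodule.projectionOnto_apply_left, sub_self]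
    exact (Submodule.projectionOnto_apply_eq_zero_iff hS').1 h1
  have hb1 : ∀ u u', b (c u : U) u' = b u u' := by
    intro u u'
    have := hc u
    rw [LinearMap.mem_ker] at this
    have h2 := LinearMap.congr_fun this u'
    rw [map_sub, LinearMap.sub_apply, LinearMap.zero_apply, sub_eq_zero] at h2
    exact h2
  have hb : ∀ u u', b.restrict S (c u) (c u') = b u u' := by
    intro u u'
    change b (c u : U) (c u' : U) = _
    rw [hb1, hs.eq u, hb1, hs.eq]
  have hsym : (b.restrict S).IsSymm := ⟨fun x y => hs.eq _ _⟩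
  have hleft : ∀ x : S, (∀ y : S, b.restrict S x y = 0) → x = 0 := by
    intro x hx
    have h1 : (x : U) ∈ LinearMap.ker b := by
      rw [LinearMap.mem_ker]
      ext u
      have h2 := hx (c u)
      change b (x : U) (c u : U) = 0 at h2
      rw [hs.eq, hb1, hs.eq] at h2
      rw [LinearMap.zero_apply]
      exact h2
    have h2 : (x : U) ∈ S ⊓ LinearMap.ker b := ⟨x.2, h1⟩
    rw [hS'.inf_eq_bot, Submodule.mem_bot] at h2
    exact Subtype.ext h2
  refine ⟨S, c, ?_, ⟨hleft, ?_⟩, hsym, hb⟩
  · intro x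
    exact ⟨x, Submodule.projectionOnto_apply_left hS' x⟩
  · intro y hy
    exact hleft y fun x => by rw [hsym.eq]; exact hy x

/-- pushing words down -/
theorem words_push {σ : Type*} {S : Type*} [AddCommGroup S] [Module K S] (c : U →ₗ[K] S)
    (Ψ : σ → Module.End K U) (Φ : σ → Module.End K S) (h : ∀ s u, Φ s (c u) = c (Ψ s u))
    (l : List σ) (u : U) : (l.map Φ).prod (c u) = c ((l.map Ψ).prod u) := by
  induction l generalizing u with
  | nil => simp
  | cons s l ih =>
    rw [List.map_cons, List.map_cons, List.prod_cons, List.prod_cons, Module.End.mul_apply,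
      Module.End.mul_apply, ih, h]

variable [FiniteDimensional K U] {X σ : Type*} [Fintype X] [Fintype σ] [DecidableEq σ]

/-- the operator `(E_s ∘ adj F ∘ G)` written in a hyperbolic basis. -/
noncomputable def psiE (b : LinearMap.BilinForm K U) (arm : X → σ) (e h : X → U) (s : σ) :
    Module.End K U := ∑ x, if arm x = s then sten b (e x) (h x) else 0

theorem span_v {Y S : Type*} [Fintype Y] [AddCommGroup S] [Module K S]
    (c : U →ₗ[K] S) (hc : Function.Surjective c) (e h : Y → U) (H : Y → Y → K)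
    (hw : ∀ x, c (h x) = ∑ y, H x y • c (e y))
    (hspan : Submodule.span K (Set.range e ∪ Set.range h) = ⊤) :
    Submodule.span K (Set.range fun x => c (e x)) = ⊤ := by
  have h1 : Submodule.map c (Submodule.span K (Set.range e ∪ Set.range h)) = ⊤ := by
    rw [hspan, Submodule.map_top, LinearMap.range_eq_top]
    exact hc
  rw [eq_top_iff, ← h1, Submodule.map_span_le]
  rintro _ (⟨x, rfl⟩ | ⟨x, rfl⟩)
  · exact Submodule.subset_span ⟨x, rfl⟩
  · rw [hw]
    exact Submodule.sum_mem _ fun y _ => Submodule.smul_mem _ _ (Submodule.subset_span ⟨y, rfl⟩)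

theorem sten_push {S : Type*} [AddCommGroup S] [Module K S] (c : U →ₗ[K] S)
    (b : LinearMap.BilinForm K U) (b' : LinearMap.BilinForm K S)
    (hb : ∀ u u', b' (c u) (c u') = b u u') (x y u : U) :
    sten b' (c x) (c y) (c u) = c (sten b x y u) := by
  simp only [sten, LinearMap.add_apply, ten_apply, map_add, map_smul, hb]

theorem ten_push {S : Type*} [AddCommGroup S] [Module K S] (c : U →ₗ[K] S)
    (b : LinearMap.BilinForm K U) (b' : LinearMap.BilinForm K S)
    (hb : ∀ u u', b' (c u) (c u') = b u u') (x y u : U) :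
    ten b' (c x) (c y) (c u) = c (ten b x y u) := by
  simp only [ten_apply, map_smul, hb]

/-- **The abstract bridge, even arms.** -/
theorem bridge_even (b : LinearMap.BilinForm K U) (hs : b.IsSymm) (h2 : (2 : K) ≠ 0)
    (arm : X → σ) (ht : X → ℕ) (e h : X → U) (H : X → X → K) (hH : ∀ x y, H x y = - H y x)
    (hw : ∀ x u, b (h x) u = ∑ y, H x y * b (e y) u)
    (hspan : Submodule.span K (Set.range e ∪ Set.range h) = ⊤)
    (hgen : ∀ G : X → X → K, (∀ x y, G x y = - G y x) →
      ∃ d : Derivation ℤ K K, ∀ x y, d (H x y) = G x y)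
    (vv : ∀ x y, arm x = arm y → b (e x) (e y) = 0)
    (vw : ∀ x y, arm x = arm y → ht x ≤ ht y → b (e x) (h y) = 0)
    (m : ℕ) (hnil : ∀ l : List σ, l.length = m →
      ∀ u u', b ((l.map (psiE b arm e h)).prod u) u' = 0) : ∀ u u', b u u' = 0 := by
  classical
  by_contra hne
  push Not at hne
  obtain ⟨u0, u0', h0⟩ := hne
  obtain ⟨S, c, hc, hnd, hsym, hb⟩ := exists_nondeg b hs
  have hnt : Nontrivial S := by
    refine ⟨⟨c u0, 0, fun h => h0 ?_⟩⟩
    rw [← hb, h, map_zero, LinearMap.zero_apply]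
  have hw' : ∀ x, c (h x) = ∑ y, H x y • c (e y) := by
    intro x
    rw [← sub_eq_zero]
    refine hnd.1 _ fun z => ?_
    obtain ⟨u, rfl⟩ := hc z
    rw [map_sub, LinearMap.sub_apply, hb, hw, map_sum, LinearMap.sum_apply, sub_eq_zero]
    refine Finset.sum_congr rfl fun y _ => ?_
    rw [map_smul, LinearMap.smul_apply, hb, smul_eq_mul]
  refine nil_even hnd hsym h2 arm ht H hH (fun x => c (e x)) (fun x => c (h x)) hw'
    (span_v c hc e h H hw' hspan) ?_ ?_ ?_ m ?_
  · intro G hG
    obtain ⟨d, hd⟩ := hgen G hG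
    obtain ⟨C, hC⟩ := exists_conn hnd hsym h2 d
    exact ⟨C, fun x y => by rw [hC]; exact hd x y⟩
  · intro x y hxy; rw [hb]; exact vv x y hxy
  · intro x y hxy hle; rw [hb]; exact vw x y hxy hle
  · intro l hl
    refine LinearMap.ext fun z => ?_
    obtain ⟨u, rfl⟩ := hc z
    rw [words_push c (psiE b arm e h)]
    · refine hnd.1 _ fun z' => ?_
      obtain ⟨u', rfl⟩ := hc z'
      rw [hb]
      exact hnil l hl u u'
    · intro s u
      rw [psiE, LinearMap.sum_apply, LinearMap.sum_apply, map_sum]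
      refine Finset.sum_congr rfl fun x _ => ?_
      split_ifs
      · exact sten_push c b _ hb _ _ _
      · rw [LinearMap.zero_apply, LinearMap.zero_apply, map_zero]

/-- the operator in the presence of two odd arms. -/
noncomputable def psiO (s1 s2 : σ) (c0 : K) (b : LinearMap.BilinForm K U) (arm : X → σ)
    (e h : Option X → U) (s : σ) : Module.End K U :=
  (∑ x, if arm x = s then sten b (e (some x)) (h (some x)) else 0)
    + codd s1 s2 c0 s • ten b (vodd s1 s2 c0 e h s) (vodd s1 s2 c0 e h s)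

theorem vodd_push {S : Type*} [AddCommGroup S] [Module K S] (c : U →ₗ[K] S)
    (s1 s2 : σ) (c0 : K) (e h : Option X → U) (s : σ) :
    vodd s1 s2 c0 (fun x => c (e x)) (fun x => c (h x)) s = c (vodd s1 s2 c0 e h s) := by
  unfold vodd
  split_ifs
  · rw [map_add, map_smul]
  · rw [map_sub, map_smul]
  · rw [map_zero]

/-- **The abstract bridge, two odd arms.** -/
theorem bridge_odd (b : LinearMap.BilinForm K U) (hs : b.IsSymm) (h2 : (2 : K) ≠ 0)
    (s1 s2 : σ) (h12 : s1 ≠ s2) (c0 : K) (hc0 : c0 ≠ 0)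
    (hcd : ∀ d : Derivation ℤ K K, d c0 = 0)
    (arm : X → σ) (ht : X → ℕ) (e h : Option X → U) (H : Option X → Option X → K)
    (hH : ∀ x y, H x y = - H y x)
    (hw : ∀ x u, b (h x) u = ∑ y, H x y * b (e y) u)
    (hspan : Submodule.span K (Set.range e ∪ Set.range h) = ⊤)
    (hgen : ∀ G : Option X → Option X → K, (∀ x y, G x y = - G y x) →
      ∃ d : Derivation ℤ K K, ∀ x y, d (H x y) = G x y)
    (vv : ∀ x y, arm x = arm y → b (e (some x)) (e (some y)) = 0)
    (vw : ∀ x y, arm x = arm y → ht x ≤ ht y → b (e (some x)) (h (some y)) = 0)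
    (v00 : ∀ s, b (vodd s1 s2 c0 e h s) (vodd s1 s2 c0 e h s) = 0)
    (vv0 : ∀ x, b (e (some x)) (vodd s1 s2 c0 e h (arm x)) = 0)
    (m : ℕ) (hnil : ∀ l : List σ, l.length = m →
      ∀ u u', b ((l.map (psiO s1 s2 c0 b arm e h)).prod u) u' = 0) : ∀ u u', b u u' = 0 := by
  classical
  by_contra hne
  push Not at hne
  obtain ⟨u0, u0', h0⟩ := hne
  obtain ⟨S, c, hc, hnd, hsym, hb⟩ := exists_nondeg b hs
  have hnt : Nontrivial S := by
    refine ⟨⟨c u0, 0, fun h => h0 ?_⟩⟩
    rw [← hb, h, map_zero, LinearMap.zero_apply]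
  have hw' : ∀ x, c (h x) = ∑ y, H x y • c (e y) := by
    intro x
    rw [← sub_eq_zero]
    refine hnd.1 _ fun z => ?_
    obtain ⟨u, rfl⟩ := hc z
    rw [map_sub, LinearMap.sub_apply, hb, hw, map_sum, LinearMap.sum_apply, sub_eq_zero]
    refine Finset.sum_congr rfl fun y _ => ?_
    rw [map_smul, LinearMap.smul_apply, hb, smul_eq_mul]
  refine nil_odd hnd hsym h2 s1 s2 h12 c0 hc0 hcd arm ht H hH (fun x => c (e x))
    (fun x => c (h x)) hw' (span_v c hc e h H hw' hspan) ?_ ?_ ?_ ?_ ?_ m ?_
  · intro G hG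
    obtain ⟨d, hd⟩ := hgen G hG
    obtain ⟨C, hC⟩ := exists_conn hnd hsym h2 d
    exact ⟨C, fun x y => by rw [hC]; exact hd x y⟩
  · intro x y hxy; rw [hb]; exact vv x y hxy
  · intro x y hxy hle; rw [hb]; exact vw x y hxy hle
  · intro s; rw [vodd_push, hb]; exact v00 s
  · intro x; rw [vodd_push, hb]; exact vv0 x
  · intro l hl
    refine LinearMap.ext fun z => ?_
    obtain ⟨u, rfl⟩ := hc z
    rw [words_push c (psiO s1 s2 c0 b arm e h)]
    · refine hnd.1 _ fun z' => ?_
      obtain ⟨u', rfl⟩ := hc z'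
      rw [hb]
      exact hnil l hl u u'
    · intro s u
      rw [psiO, LinearMap.add_apply, LinearMap.add_apply, LinearMap.sum_apply,
        LinearMap.sum_apply, map_add, map_sum, LinearMap.smul_apply, LinearMap.smul_apply,
        map_smul, vodd_push, ten_push c b _ hb]
      congr 1
      refine Finset.sum_congr rfl fun x _ => ?_
      split_ifs
      · exact sten_push c b _ hb _ _ _
      · rw [LinearMap.zero_apply, LinearMap.zero_apply, map_zero]

end Crest.Agent.R172.NilBr
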