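import Crest.Agent.R172.Rk1
import Crest.Agent.R172.NilBr2

/-!
Row 172: the concrete bridge. `CSys`: the concrete system `(V, U, p_s, adj, 𝒦)` of ThX2/ThX3.
-/

set_option autoImplicit false
set_option linter.unusedSectionVars false

namespace Crest.Agent.R172.CSys

open Module Matrix Crest.AlgebraR.SpinSaturation Crest.Agent.R172.SoGrade Crest.Agent.R172.CF
open Crest.Agent.R172.Gen (Jm Ix emb Ent ent)
open Crest.Agent.R172.NilLower Crest.Agent.R172.NilCount Crest.Agent.R172.NilFin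
open Crest.Agent.R172.NilBr Crest.Agent.R172.ThX
open Crest.Agent.R172.NilConn (ten ten_apply)
open Crest.Agent.R172.Core (NS)

variable {n : ℕ} {a : Fin 3 → Fin n → ℤ}

section forms

variable (c : Cfg n a) (K : Type) [Field K]

/-- the form of `V` -/
noncomputable def BV (n : ℕ) (K : Type) [Field K] : LinearMap.BilinForm K (Ix n → K) :=
  Matrix.toLinearMap₂' K (Jm n K)

/-- the form of `U` -/
noncomputable def BU : LinearMap.BilinForm K (c.δ → K) := Matrix.toLinearMap₂' K (c.B K)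

/-- the projector on an arm -/
noncomputable def pU (s : Fin 3) : Module.End K (c.δ → K) := Matrix.toLin' (FO.E K c.arm s)

/-- the adjoint -/
noncomputable def adjU :
    ((c.δ → K) →ₗ[K] (Ix n → K)) →ₗ[K] ((Ix n → K) →ₗ[K] (c.δ → K)) where
  toFun F := Matrix.toLin' (c.B K * (LinearMap.toMatrix' F)ᵀ * Jm n K)
  map_add' F G := by
    rw [map_add, transpose_add, Matrix.mul_add, Matrix.add_mul, map_add]
  map_smul' t F := by
    rw [map_smul, transpose_smul, Matrix.mul_smul, Matrix.smul_mul, map_smul, RingHom.id_apply]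

variable {c K}

theorem BV_apply (v w : Ix n → K) : BV n K v w = v ⬝ᵥ (Jm n K *ᵥ w) :=
  Matrix.toLinearMap₂'_apply' _ _ _

theorem BU_apply (v w : c.δ → K) : BU c K v w = v ⬝ᵥ (c.B K *ᵥ w) :=
  Matrix.toLinearMap₂'_apply' _ _ _

theorem dot_symm {ι : Type*} [Fintype ι] {A : Matrix ι ι K} (hA : Aᵀ = A) (v w : ι → K) :
    v ⬝ᵥ (A *ᵥ w) = w ⬝ᵥ (A *ᵥ v) := by
  rw [dotProduct_mulVec, ← mulVec_transpose, hA, dotProduct_comm]

theorem BV_ns : NS (BV n K) where
  symm v w := by rw [BV_apply, BV_apply]; exact dot_symm (Jm_transpose n K) v w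
  nd v h := by
    have h1 : ∀ w, v ⬝ᵥ w = 0 := by
      intro w
      have h2 := h (Jm n K *ᵥ w)
      rw [BV_apply, mulVec_mulVec, Jm_sq, one_mulVec] at h2
      exact h2
    exact dotProduct_eq_zero v h1

theorem BU_ns : NS (BU c K) where
  symm v w := by rw [BU_apply, BU_apply]; exact dot_symm (c.B_transpose K) v w
  nd v h := by
    have h1 : ∀ w, v ⬝ᵥ w = 0 := by
      intro w
      have h2 := h (c.B K *ᵥ w)
      rw [BU_apply, mulVec_mulVec, c.B_sq, one_mulVec] at h2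
      exact h2
    exact dotProduct_eq_zero v h1

/-- the form `b(u,u') = B(F u, G u')` -/
theorem BV_mulVec (F G : Matrix (Ix n) c.δ K) (u u' : c.δ → K) :
    BV n K (F *ᵥ u) (G *ᵥ u') = u ⬝ᵥ ((Fᵀ * Jm n K * G) *ᵥ u') := by
  rw [BV_apply, ← mulVec_mulVec, ← mulVec_mulVec, dotProduct_mulVec u, vecMul_transpose]

theorem adjU_toLin (F : Matrix (Ix n) c.δ K) (v : Ix n → K) :
    adjU c K (Matrix.toLin' F) v = (c.B K * Fᵀ * Jm n K) *ᵥ v := by
  change Matrix.toLin' (c.B K * (LinearMap.toMatrix' (Matrix.toLin' F))ᵀ * Jm n K) v = _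
  rw [LinearMap.toMatrix'_toLin', Matrix.toLin'_apply]

theorem MM_toLin (F G : Matrix (Ix n) c.δ K) (s : Fin 3) (v : Ix n → K) :
    MM (pU c K) (adjU c K) (Matrix.toLin' F) (Matrix.toLin' G) s v
      = (FO.M c.arm (c.B K) s F G * Jm n K) *ᵥ v := by
  rw [MM_apply, adjU_toLin, pU, Matrix.toLin'_apply, Matrix.toLin'_apply, mulVec_mulVec,
    mulVec_mulVec, FO.M]
  congr 1
  simp only [Matrix.mul_assoc]

/-- the space `𝒦` as a space of maps `U → V`. -/
noncomputable def KK (S : Submodule K (Matrix (Ix n) c.δ K)) :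
    Submodule K ((c.δ → K) →ₗ[K] (Ix n → K)) :=
  S.map (Matrix.toLin' : Matrix (Ix n) c.δ K ≃ₗ[K] _).toLinearMap

theorem mem_KK {S : Submodule K (Matrix (Ix n) c.δ K)} {f : (c.δ → K) →ₗ[K] (Ix n → K)} :
    f ∈ KK S ↔ ∃ F ∈ S, Matrix.toLin' F = f := Iff.rfl

theorem finrank_KK (S : Submodule K (Matrix (Ix n) c.δ K)) :
    finrank K (KK S) = finrank K S :=
  LinearEquiv.finrank_map_eq (Matrix.toLin' : Matrix (Ix n) c.δ K ≃ₗ[K] _) S

/-- **The concrete system.** -/
theorem sys [Algebra ℂ K] {N W : Submodule K (Matrix (Ix n) c.δ K)}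
    (hD : FO.Data ℂ c.arm (Jm n K) (c.B K) N W) :
    Sys (BV n K) (BU c K) (pU c K) (adjU c K) (KK (N ⊓ W)) where
  adj_spec F u v := by
    obtain ⟨F, rfl⟩ := (Matrix.toLin' : Matrix (Ix n) c.δ K ≃ₗ[K] _).surjective F
    rw [adjU_toLin, BV_apply, BU_apply, Matrix.toLin'_apply, mulVec_mulVec, ← Matrix.mul_assoc,
      ← Matrix.mul_assoc, c.B_sq, Matrix.one_mul, ← mulVec_mulVec, dotProduct_mulVec u,
      vecMul_transpose]
  p_sa s u u' := by
    rw [BU_apply, BU_apply, pU, Matrix.toLin'_apply, Matrix.toLin'_apply, mulVec_mulVec,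
      ← FO3.B_arm, ← mulVec_mulVec, dotProduct_mulVec u, ← mulVec_transpose, FO.E_transpose]
  F1 F hF G hG u u' := by
    obtain ⟨F, hF, rfl⟩ := hF
    obtain ⟨G, hG, rfl⟩ := hG
    change BV n K (F *ᵥ u) (G *ᵥ u') = BV n K (G *ᵥ u) (F *ᵥ u')
    rw [BV_mulVec, BV_mulVec, hD.symm_U hF hG]
  F2 F hF G hG s v := by
    obtain ⟨F, hF, rfl⟩ := hF
    obtain ⟨G, hG, rfl⟩ := hG
    change MM (pU c K) (adjU c K) (Matrix.toLin' F) (Matrix.toLin' G) s v
      = MM (pU c K) (adjU c K) (Matrix.toLin' G) (Matrix.toLin' F) s v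
    rw [MM_toLin, MM_toLin, hD.symm_arm hF hG]

end forms

section bridge

variable {c : Cfg n a} {K : Type} [Field K] [Algebra ℂ K]

/-- coordinate vectors -/
def sg (K : Type) [Field K] (d : c.δ) : c.δ → K := Pi.single d 1

theorem mulVec_sg (F : Matrix (Ix n) c.δ K) (d : c.δ) : F *ᵥ sg K d = F.col d := by
  rw [sg, mulVec_single_one]

theorem sg_dot (v : c.δ → K) (d : c.δ) : sg K d ⬝ᵥ v = v d := single_one_dotProduct _ _

theorem sg_apply (d e : c.δ) : sg K d e = if e = d then 1 else 0 := by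
  rw [sg, Pi.single_apply]

theorem sg_self (d : c.δ) : sg K d d = 1 := by rw [sg_apply, if_pos rfl]

theorem sg_ne {d e : c.δ} (h : e ≠ d) : sg K d e = 0 := by rw [sg_apply, if_neg h]

variable (q : SPol c)

/-- left half of the hyperbolic basis (the isotropic type columns) -/
noncomputable def eV (K : Type) [Field K] [Algebra ℂ K] (i : Fin q.m) : c.δ → K :=
  if q.z = some i then sg K (q.dd (Sum.inl i)) + algebraMap ℂ K Complex.I • sg K (q.dd (Sum.inr i))
  else sg K (q.dd (Sum.inr i))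

/-- right half of the hyperbolic basis -/
noncomputable def hV (K : Type) [Field K] [Algebra ℂ K] (i : Fin q.m) : c.δ → K :=
  if q.z = some i then (2 : K)⁻¹ • (sg K (q.dd (Sum.inl i)) -
    algebraMap ℂ K Complex.I • sg K (q.dd (Sum.inr i)))
  else sg K (q.dd (Sum.inl i))

theorem II : algebraMap ℂ K Complex.I * algebraMap ℂ K Complex.I = -1 := by
  rw [← map_mul, Complex.I_mul_I, map_neg, map_one]

theorem two_ne : (2 : K) ≠ 0 := by
  have hcz : CharZero K := charZero_of_injective_algebraMap (algebraMap ℂ K).injective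
  exact two_ne_zero

variable {q}

/-- the columns of `F ∈ V ⊗ L_H` -/
theorem col_inl {H : Matrix (Fin q.m) (Fin q.m) K} (R : Matrix (Ix n) (Fin q.m) K) (i : Fin q.m)
    (x : Ix n) : (R * (q.toPol.P H)ᵀ) x (q.dd (Sum.inl i)) =
      ∑ j, H i j * R x j + if q.z = some i then 2⁻¹ * R x i else 0 := by
  have h1 : (R * (q.toPol.P H)ᵀ) x (q.dd (Sum.inl i)) =
      ∑ j, R x j * q.toPol.P H (q.dd (Sum.inl i)) j := rfl
  rw [h1]
  simp only [SPol.P_inl, mul_add, Finset.sum_add_distrib]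
  congr 1
  · exact Finset.sum_congr rfl fun j _ => mul_comm _ _
  · split_ifs
    · simp only [mul_ite, mul_zero, Finset.sum_ite_eq, Finset.mem_univ, if_true]
      ring
    · simp

theorem col_inr {H : Matrix (Fin q.m) (Fin q.m) K} (R : Matrix (Ix n) (Fin q.m) K) (i : Fin q.m)
    (x : Ix n) : (R * (q.toPol.P H)ᵀ) x (q.dd (Sum.inr i)) =
      if q.z = some i then algebraMap ℂ K Complex.I * (∑ j, H i j * R x j - 2⁻¹ * R x i)
        else R x i := by
  have h1 : (R * (q.toPol.P H)ᵀ) x (q.dd (Sum.inr i)) =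
      ∑ j, R x j * q.toPol.P H (q.dd (Sum.inr i)) j := rfl
  rw [h1]
  simp only [SPol.P_inr]
  split_ifs
  · rw [mul_sub, Finset.mul_sum]
    simp only [mul_sub, mul_ite, mul_zero, Finset.sum_sub_distrib, Finset.sum_ite_eq,
      Finset.mem_univ, if_true]
    congr 1
    · exact Finset.sum_congr rfl fun j _ => by ring
    · ring
  · simp

theorem F_eV {H : Matrix (Fin q.m) (Fin q.m) K} (R : Matrix (Ix n) (Fin q.m) K) (i : Fin q.m)
    (x : Ix n) : ((R * (q.toPol.P H)ᵀ) *ᵥ eV q K i) x = R x i := by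
  have h2 : (2 : K) ≠ 0 := two_ne
  unfold eV
  by_cases hz : q.z = some i
  · rw [if_pos hz, mulVec_add, mulVec_smul, mulVec_sg, mulVec_sg, Pi.add_apply, Pi.smul_apply,
      Matrix.col_apply, Matrix.col_apply, col_inl, col_inr, if_pos hz, if_pos hz, smul_eq_mul,
      ← mul_assoc, II]
    field_simp
    ring
  · rw [if_neg hz, mulVec_sg, Matrix.col_apply, col_inr, if_neg hz]

theorem F_hV {H : Matrix (Fin q.m) (Fin q.m) K} (R : Matrix (Ix n) (Fin q.m) K) (i : Fin q.m)
    (x : Ix n) : ((R * (q.toPol.P H)ᵀ) *ᵥ hV q K i) x = ∑ j, H i j * R x j := by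
  have h2 : (2 : K) ≠ 0 := two_ne
  unfold hV
  by_cases hz : q.z = some i
  · rw [if_pos hz, mulVec_smul, mulVec_sub, mulVec_smul, mulVec_sg, mulVec_sg, Pi.smul_apply,
      Pi.sub_apply, Pi.smul_apply, Matrix.col_apply, Matrix.col_apply, col_inl, col_inr,
      if_pos hz, if_pos hz, smul_eq_mul, smul_eq_mul, ← mul_assoc (algebraMap ℂ K Complex.I), II]
    field_simp
    ring
  · rw [if_neg hz, mulVec_sg, Matrix.col_apply, col_inl, if_neg hz, add_zero]

/-- the relation `F h_i = ∑ H_ij F e_j` -/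
theorem F_rel {H : Matrix (Fin q.m) (Fin q.m) K} {F : Matrix (Ix n) c.δ K}
    (hF : F ∈ VL (q.toPol.LH H)) (i : Fin q.m) :
    F *ᵥ hV q K i = ∑ j, H i j • (F *ᵥ eV q K j) := by
  obtain ⟨R, rfl⟩ := q.toPol.mem_VL_iff.1 hF
  funext x
  have h1 : ((R * (q.toPol.P H)ᵀ) *ᵥ hV q K i) x = ∑ j, H i j * R x j := F_hV R i x
  rw [h1, Finset.sum_apply]
  refine Finset.sum_congr rfl fun j _ => ?_
  rw [Pi.smul_apply, smul_eq_mul]
  congr 1
  exact (F_eV R j x).symm

theorem sg_span : Submodule.span K (Set.range (fun d : c.δ => sg K d)) = ⊤ := by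
  rw [eq_top_iff]
  intro v _
  have : v = ∑ d, v d • sg K d := by
    funext e
    rw [Finset.sum_apply, Finset.sum_eq_single e]
    · rw [Pi.smul_apply, sg_self, smul_eq_mul, mul_one]
    · intro d _ hd
      rw [Pi.smul_apply, sg_ne hd.symm, smul_zero]
    · intro h; exact absurd (Finset.mem_univ _) h
  rw [this]
  exact Submodule.sum_mem _ fun d _ => Submodule.smul_mem _ _ (Submodule.subset_span ⟨d, rfl⟩)

theorem eh_span : Submodule.span K (Set.range (eV q K) ∪ Set.range (hV q K)) = ⊤ := by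
  have h2 : (2 : K) ≠ 0 := two_ne
  rw [eq_top_iff, ← sg_span (c := c) (K := K), Submodule.span_le]
  have hS : ∀ i, sg K (q.dd (Sum.inl i)) ∈
      Submodule.span K (Set.range (eV q K) ∪ Set.range (hV q K)) ∧
      sg K (q.dd (Sum.inr i)) ∈ Submodule.span K (Set.range (eV q K) ∪ Set.range (hV q K)) := by
    intro i
    have he : eV q K i ∈ Submodule.span K (Set.range (eV q K) ∪ Set.range (hV q K)) :=
      Submodule.subset_span (Or.inl ⟨i, rfl⟩)
    have hh : hV q K i ∈ Submodule.span K (Set.range (eV q K) ∪ Set.range (hV q K)) :=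
      Submodule.subset_span (Or.inr ⟨i, rfl⟩)
    by_cases hz : q.z = some i
    · have e1 : sg K (q.dd (Sum.inl i)) = (2 : K)⁻¹ • eV q K i + hV q K i := by
        rw [eV, hV, if_pos hz, if_pos hz, ← smul_add]
        have : sg K (q.dd (Sum.inl i)) + algebraMap ℂ K Complex.I • sg K (q.dd (Sum.inr i)) +
            (sg K (q.dd (Sum.inl i)) - algebraMap ℂ K Complex.I • sg K (q.dd (Sum.inr i)))
            = (2 : K) • sg K (q.dd (Sum.inl i)) := by
          rw [two_smul]; abel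
        rw [this, smul_smul, inv_mul_cancel₀ h2, one_smul]
      have e2 : sg K (q.dd (Sum.inr i)) = -(algebraMap ℂ K Complex.I) •
          ((2 : K)⁻¹ • eV q K i - hV q K i) := by
        rw [eV, hV, if_pos hz, if_pos hz, ← smul_sub]
        have : sg K (q.dd (Sum.inl i)) + algebraMap ℂ K Complex.I • sg K (q.dd (Sum.inr i)) -
            (sg K (q.dd (Sum.inl i)) - algebraMap ℂ K Complex.I • sg K (q.dd (Sum.inr i)))
            = (2 : K) • (algebraMap ℂ K Complex.I • sg K (q.dd (Sum.inr i))) := by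
          rw [two_smul]; abel
        rw [this, smul_smul (2 : K)⁻¹, inv_mul_cancel₀ h2, one_smul, smul_smul, neg_mul, II,
          neg_neg, one_smul]
      refine ⟨?_, ?_⟩
      · rw [e1]; exact Submodule.add_mem _ (Submodule.smul_mem _ _ he) hh
      · rw [e2]
        exact Submodule.smul_mem _ _ (Submodule.sub_mem _ (Submodule.smul_mem _ _ he) hh)
    · have e1 : sg K (q.dd (Sum.inr i)) = eV q K i := by rw [eV, if_neg hz]
      have e2 : sg K (q.dd (Sum.inl i)) = hV q K i := by rw [hV, if_neg hz]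
      rw [e1, e2]
      exact ⟨hh, he⟩
  rintro _ ⟨d, rfl⟩
  obtain ⟨x, rfl⟩ := q.dd.surjective d
  rcases x with i | i
  · exact (hS i).1
  · exact (hS i).2

/-- the form `b(u,u') = B(F u, G u')` -/
noncomputable def bFG (F G : Matrix (Ix n) c.δ K) : LinearMap.BilinForm K (c.δ → K) :=
  Matrix.toLinearMap₂' K (Fᵀ * Jm n K * G)

theorem bFG_apply (F G : Matrix (Ix n) c.δ K) (u u' : c.δ → K) :
    bFG F G u u' = BV n K (F *ᵥ u) (G *ᵥ u') := by
  rw [BV_mulVec, bFG, Matrix.toLinearMap₂'_apply']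

theorem bFG_dot (F G : Matrix (Ix n) c.δ K) (u u' : c.δ → K) :
    bFG F G u u' = u ⬝ᵥ ((Fᵀ * Jm n K * G) *ᵥ u') := by
  rw [bFG, Matrix.toLinearMap₂'_apply']

theorem bFG_sg (F G : Matrix (Ix n) c.δ K) (d : c.δ) (u' : c.δ → K) :
    bFG F G (sg K d) u' = ((Fᵀ * Jm n K * G) *ᵥ u') d := by
  rw [bFG_dot, sg_dot]

theorem bFG_sg_sg (F G : Matrix (Ix n) c.δ K) (d e : c.δ) :
    bFG F G (sg K d) (sg K e) = (Fᵀ * Jm n K * G) d e := by
  rw [bFG_sg, sg, mulVec_single_one, Matrix.col_apply]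

/-- the operator `E_s ∘ adj F ∘ G` -/
noncomputable def TT (F G : Matrix (Ix n) c.δ K) (s : Fin 3) : Module.End K (c.δ → K) :=
  Matrix.toLin' (FO.E K c.arm s * c.B K * Fᵀ * Jm n K * G)

theorem TT_apply (F G : Matrix (Ix n) c.δ K) (s : Fin 3) (u : c.δ → K) (d : c.δ) :
    TT F G s u d = if c.arm d = s then ((Fᵀ * Jm n K * G) *ᵥ u) (c.σ d) else 0 := by
  have h1 : TT F G s u = FO.E K c.arm s *ᵥ (c.B K *ᵥ ((Fᵀ * Jm n K * G) *ᵥ u)) := by
    rw [TT, Matrix.toLin'_apply, mulVec_mulVec, mulVec_mulVec]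
    congr 1
    simp only [Matrix.mul_assoc]
  rw [h1, FO.E, mulVec_diagonal, c.mulVec_B]
  split_ifs <;> simp

/-- words in `TT` and words in `M_s(G,F)` -/
theorem G_words (F G : Matrix (Ix n) c.δ K) (l : List (Fin 3)) (u : c.δ → K) :
    G *ᵥ ((l.map (TT F G)).prod u) =
      Core.wd (MM (pU c K) (adjU c K) (Matrix.toLin' G) (Matrix.toLin' F)) l (G *ᵥ u) := by
  induction l with
  | nil => simp [Core.wd]
  | cons s l ih =>
    rw [wd_cons, ← ih, MM_toLin, List.map_cons, List.prod_cons, Module.End.mul_apply, TT,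
      Matrix.toLin'_apply, mulVec_mulVec, mulVec_mulVec, FO.M]
    congr 1
    simp only [Matrix.mul_assoc]

/-- the columns `dd (inr i)` have positive rank -/
def PosR (R : Ranked c) (q : SPol c) : Prop := ∀ i, q.z ≠ some i → 0 < R.rk (q.dd (Sum.inr i))

end bridge

end Crest.Agent.R172.CSys
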