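import Crest.Agent.R172.ThX1

/-!
Row 172 (S0260), Theorem X of note 13222 (= Theorem U of 13447, R of 13450), abstract form.
-/

set_option autoImplicit false

namespace Crest.Agent.R172.ThX

open Module LinearMap St _root_.Crest.Agent.R172.Core

variable {K : Type*} [Field K] {V : Type*} [AddCommGroup V] [Module K V]
variable {U : Type*} [AddCommGroup U] [Module K U] {ι : Type*}

/-- The operator `M_s(F,G) = F p_s G^*`. -/
def MM (p : ι → End K U) (adj : (U →ₗ[K] V) →ₗ[K] (V →ₗ[K] U)) (F G : U →ₗ[K] V) (s : ι) :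
    End K V := F ∘ₗ p s ∘ₗ adj G

theorem MM_apply (p : ι → End K U) (adj : (U →ₗ[K] V) →ₗ[K] (V →ₗ[K] U)) (F G : U →ₗ[K] V)
    (s : ι) (v : V) : MM p adj F G s v = F (p s (adj G v)) := rfl

/-- First order relations on the space `𝒦` of maps `U → V`. -/
structure Sys (B : LinearMap.BilinForm K V) (q : LinearMap.BilinForm K U) (p : ι → End K U)
    (adj : (U →ₗ[K] V) →ₗ[K] (V →ₗ[K] U)) (𝒦 : Submodule K (U →ₗ[K] V)) : Prop where
  adj_spec : ∀ (F : U →ₗ[K] V) (u : U) (v : V), B (F u) v = q u (adj F v)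
  p_sa : ∀ s u u', q (p s u) u' = q u (p s u')
  F1 : ∀ F ∈ 𝒦, ∀ G ∈ 𝒦, ∀ u u', B (F u) (G u') = B (G u) (F u')
  F2 : ∀ F ∈ 𝒦, ∀ G ∈ 𝒦, ∀ s v, MM p adj F G s v = MM p adj G F s v

variable {B : LinearMap.BilinForm K V} {q : LinearMap.BilinForm K U} {p : ι → End K U}
variable {adj : (U →ₗ[K] V) →ₗ[K] (V →ₗ[K] U)} {𝒦 : Submodule K (U →ₗ[K] V)}

theorem Sys.adj_adj (S : Sys B q p adj 𝒦) (hq : NS q) {F G : U →ₗ[K] V} (hF : F ∈ 𝒦)
    (hG : G ∈ 𝒦) (u : U) : adj F (G u) = adj G (F u) := by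
  rw [← sub_eq_zero]
  apply hq.nd
  intro w
  rw [hq.symm, map_sub, ← S.adj_spec, ← S.adj_spec, S.F1 F hF G hG, sub_self]

theorem Sys.exchange (S : Sys B q p adj 𝒦) (hq : NS q) {F1 F2 F3 F4 : U →ₗ[K] V}
    (h2 : F2 ∈ 𝒦) (h3 : F3 ∈ 𝒦) (s t : ι) (v : V) :
    MM p adj F1 F2 s (MM p adj F3 F4 t v) = MM p adj F1 F3 s (MM p adj F2 F4 t v) := by
  simp only [MM_apply]
  rw [S.adj_adj hq h2 h3]

theorem Sys.MM_sa (S : Sys B q p adj 𝒦) (hB : NS B) (hq : NS q) {F G : U →ₗ[K] V} (hF : F ∈ 𝒦)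
    (hG : G ∈ 𝒦) (s : ι) : Sa B (MM p adj F G s) := by
  intro v w
  rw [S.F2 F hF G hG s w, MM_apply, MM_apply, S.adj_spec, S.p_sa, hB.symm v, S.adj_spec,
    hq.symm, S.p_sa, hq.symm, S.p_sa]

theorem MM_sub_smul (p : ι → End K U) (adj : (U →ₗ[K] V) →ₗ[K] (V →ₗ[K] U)) (F G : U →ₗ[K] V)
    (lam : K) (s : ι) (v : V) :
    MM p adj F (G - lam • F) s v = MM p adj F G s v - lam • MM p adj F F s v := by
  simp only [MM_apply, map_sub, LinearMap.sub_apply, map_smul, LinearMap.smul_apply]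

variable [FiniteDimensional K V] [Fintype ι]

/-- The operator `τ_G` on the core of `Φ = M(F,F)`. -/
theorem Sys.exists_tau (S : Sys B q p adj 𝒦) (hB : NS B) (hq : NS q) {F G : U →ₗ[K] V}
    (hF : F ∈ 𝒦) (hG : G ∈ 𝒦) (C : St.Core B (MM p adj F F)) :
    ∃ τ : End K C.M, (∀ v w, BM C (τ v) w = BM C v (τ w)) ∧
      (∀ s v, τ (cp C (MM p adj F F s) v) = cp C (MM p adj F F s) (τ v)) ∧
      (∀ s v, cp C (MM p adj F G s) v = cp C (MM p adj F F s) (τ v)) :=
  ThX.exists_tau hB (fun s => S.MM_sa hB hq hF hF s) (fun s => S.MM_sa hB hq hF hG s)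
    (fun s t v => by
      rw [S.F2 F hF G hG t v, S.exchange hq hF hG]) C

/-- **Theorem X, nilpotency**: if `τ_G` has the only eigenvalue `lam` on the core, then all long
words in the `M_s(F, G - lam F)` vanish. -/
theorem Sys.words (S : Sys B q p adj 𝒦) (hB : NS B) (hq : NS q) {F G : U →ₗ[K] V}
    (hF : F ∈ 𝒦) (hG : G ∈ 𝒦) (C : St.Core B (MM p adj F F)) (τ : End K C.M)
    (hτφ : ∀ s v, τ (cp C (MM p adj F F s) v) = cp C (MM p adj F F s) (τ v))
    (hψ : ∀ s v, cp C (MM p adj F G s) v = cp C (MM p adj F F s) (τ v)) (lam : K)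
    (hlam : τ.maxGenEigenspace lam = ⊤) :
    ∃ m, ∀ l : List ι, m ≤ l.length → ∀ v, wd (MM p adj F (G - lam • F)) l v = 0 := by
  have hG' : G - lam • F ∈ 𝒦 := 𝒦.sub_mem hG (𝒦.smul_mem lam hF)
  refine words_vanish (Φ := MM p adj F F) (Ψ := MM p adj F (G - lam • F))
    (Θ := MM p adj (G - lam • F) (G - lam • F)) (fun s => S.MM_sa hB hq hF hG' s) ?_ ?_ ?_ C
    (τ - lam • 1) ?_ ?_ (finrank K C.M) ?_
  · intro s t v
    rw [S.F2 F hF _ hG' t v, S.exchange hq hF hG']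
  · intro s t v
    rw [S.F2 F hF _ hG' s, S.F2 F hF _ hG' t, S.exchange hq hF hG']
  · intro s t v
    rw [S.F2 F hF _ hG' s, S.exchange hq hF hG']
  · intro s v
    simp only [LinearMap.sub_apply, LinearMap.smul_apply, Module.End.one_apply, hτφ, map_sub,
      map_smul]
  · intro s v
    have h1 : MM p adj F (G - lam • F) s = MM p adj F G s - lam • MM p adj F F s :=
      LinearMap.ext fun v => by
        rw [MM_sub_smul]; rfl
    rw [h1, cp_sub, cp_smul]
    simp only [LinearMap.sub_apply, LinearMap.smul_apply, Module.End.one_apply, map_sub,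
      map_smul, hψ]
  · intro v
    have hv : v ∈ τ.maxGenEigenspace lam := by rw [hlam]; trivial
    rw [Module.End.maxGenEigenspace_eq_genEigenspace_finrank,
      Module.End.mem_genEigenspace_nat] at hv
    exact hv

/-- If the core of `Φ = M(F,F)` is zero, then all long words in `M_s(F,G)` vanish for every `G`. -/
theorem Sys.words_of_core_zero (S : Sys B q p adj 𝒦) (hB : NS B) (hq : NS q) {F G : U →ₗ[K] V}
    (hF : F ∈ 𝒦) (hG : G ∈ 𝒦) (C : St.Core B (MM p adj F F)) (hC : C.M = ⊥) :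
    ∃ m, ∀ l : List ι, m ≤ l.length → ∀ v, wd (MM p adj F G) l v = 0 := by
  have hsub : Subsingleton C.M := by rw [hC]; infer_instance
  obtain ⟨τ, -, h2, h3⟩ := S.exists_tau hB hq hF hG C
  have h := S.words hB hq hF hG C τ h2 h3 0 (by
    rw [eq_top_iff]
    intro v _
    rw [Subsingleton.elim v 0]
    exact Submodule.zero_mem _)
  simpa using h

/-- **Theorem X** (note 13222): outside the tame case, `F^T G` is proportional to `F^T F`. The
statement NIL is used through the hypothesis `nil`. -/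
theorem Sys.thmX [IsAlgClosed K] [CharZero K] (S : Sys B q p adj 𝒦) (hB : NS B) (hq : NS q)
    {F : U →ₗ[K] V} (hF : F ∈ 𝒦) (hnil : ∃ k, ∀ s, MM p adj F F s ^ k = 0)
    (hsum : ∀ v, ∑ s, MM p adj F F s v = 0) (hDer : DerR B (MM p adj F F))
    (C : St.Core B (MM p adj F F))
    (htame : ∀ D : End K C.M, ¬ Tame (fun s => cp C (MM p adj F F s)) D)
    (nil : ∀ G ∈ 𝒦, (∃ m, ∀ l : List ι, m ≤ l.length → ∀ v, wd (MM p adj F G) l v = 0) →
      ∀ u u', B (F u) (G u') = 0) :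
    ∀ G ∈ 𝒦, ∃ lam : K, ∀ u u', B (F u) (G u') = lam * B (F u) (F u') := by
  intro G hG
  obtain ⟨τ, h1, h2, h3⟩ := S.exists_tau hB hq hF hG C
  rcases core_alt_of_DerR hB (fun s => S.MM_sa hB hq hF hF s) hnil hsum hDer C h1 h2 with
    ⟨lam, hlam⟩ | h
  · refine ⟨lam, fun u u' => ?_⟩
    have h4 := nil _ (𝒦.sub_mem hG (𝒦.smul_mem lam hF)) (S.words hB hq hF hG C τ h2 h3 lam hlam)
      u u'
    simp only [LinearMap.sub_apply, LinearMap.smul_apply, map_sub, map_smul, smul_eq_mul] at h4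
    exact sub_eq_zero.mp h4
  · exact absurd h (htame τ)

end Crest.Agent.R172.ThX
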