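import Crest.Agent.R172.CoreP
import Crest.Agent.R172.ThX2
import Crest.Agent.R172.NilBr3

/-!
Row 172, TAME, arbitrary radical, part B: the operators `M_s(F,G)` and the maps `Fᵀ`, `Gᵀ` on the
perfect submodules `PP C Mi` (`C` = core of `M(F,F)`).

* `PP_Ψ`: `M_s(F,G) PP ≤ PP`;
* `exists_D`: for `p ∈ PP` there is `d ∈ PP` with `Gᵀ p = Fᵀ d`, `π d = τ π p`;
* `lin_exact`: if `τ = lam` on `Mi` then `Gᵀ p = lam Fᵀ p` EXACTLY for `p ∈ PP`;
* `lin_exact_mat`: the same for matrices.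
-/

set_option autoImplicit false
set_option linter.unusedSectionVars false

namespace Crest.Agent.R172.CP

open Module LinearMap
open Crest.Agent.R172.St Crest.Agent.R172.Core Crest.Agent.R172.ThX

variable {K : Type*} [Field K] {V : Type*} [AddCommGroup V] [Module K V] {ι : Type*}
  {B : LinearMap.BilinForm K V}

section Psi

variable {Φ Ψ : ι → End K V} {C : St.Core B Φ} {Mi : Submodule K C.M}

theorem pM_pres {f : End K V} (hf : Pres B Φ f) (C : St.Core B Φ) {v : V} (hv : v ∈ Tp B Φ) :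
    pM C (f v) = cp C f (pM C v) := by
  apply Subtype.ext
  rw [pM_coe, cp_coe, pM_coe]
  exact (pi_pres C hf hv).symm

/-- `Ψ_s PP ≤ PP` -/
theorem PP_Ψ [Fintype ι] (hΨ : ∀ s, Sa B (Ψ s)) (hex : ∀ s t v, Φ s (Ψ t v) = Ψ s (Φ t v))
    (hM : ∀ s, ∀ m ∈ Mi, cp C (Ψ s) m ∈ Mi) (s : ι) {p : V} (hp : p ∈ PP C Mi) :
    Ψ s p ∈ PP C Mi := by
  have h : Ax Ψ (PP C Mi) ≤ PP C Mi := by
    refine le_PP ?_ ?_ ?_
    · exact Ax_le fun s v hv => (pres_Ψ hΨ hex s).Tp v (PP_le_Tp hv)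
    · have : Ax Ψ (PP C Mi) ≤ Mi.comap (pM C) := Ax_le fun s v hv => by
        change pM C (Ψ s v) ∈ Mi
        rw [pM_pres (pres_Ψ hΨ hex s) C (PP_le_Tp hv)]
        exact hM s _ (pM_mem hv)
      exact fun p hp => this hp
    · refine Ax_le fun s v hv => ?_
      obtain ⟨q, hq, rfl⟩ := mem_Ax_iff.1 (PP_perfect hv)
      rw [map_sum]
      refine Submodule.sum_mem _ fun t _ => ?_
      rw [← hex]
      exact mem_Ax (mem_Ax (hq t) t) s
  exact h (mem_Ax hp s)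

end Psi

section sys

variable {U : Type*} [AddCommGroup U] [Module K U] {q : LinearMap.BilinForm K U} {p : ι → End K U}
variable {adj : (U →ₗ[K] V) →ₗ[K] (V →ₗ[K] U)} {𝒦 : Submodule K (U →ₗ[K] V)}

theorem hex_of (S : Sys B q p adj 𝒦) (hq : NS q) {F G : U →ₗ[K] V} (hF : F ∈ 𝒦) (hG : G ∈ 𝒦)
    (s t : ι) (v : V) : MM p adj F F s (MM p adj F G t v) = MM p adj F G s (MM p adj F F t v) := by
  rw [S.F2 F hF G hG t v, S.exchange hq hF hG]

theorem adj_Φ (S : Sys B q p adj 𝒦) (hq : NS q) {F G : U →ₗ[K] V} (hF : F ∈ 𝒦) (hG : G ∈ 𝒦)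
    (s : ι) (v : V) : adj G (MM p adj F F s v) = adj F (MM p adj F G s v) := by
  rw [S.F2 F hF G hG s v, MM_apply, MM_apply, S.adj_adj hq hG hF]

variable [Fintype ι] {F G : U →ₗ[K] V} {C : St.Core B (MM p adj F F)} {Mi : Submodule K C.M}

/-- for `v ∈ PP` there is `d ∈ PP` with `Gᵀ v = Fᵀ d` and `π d = τ π v` -/
theorem exists_D (S : Sys B q p adj 𝒦) (hB : NS B) (hq : NS q) (hF : F ∈ 𝒦) (hG : G ∈ 𝒦)
    {τ : End K C.M}
    (hτφ : ∀ s v, τ (cp C (MM p adj F F s) v) = cp C (MM p adj F F s) (τ v))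
    (hψ : ∀ s v, cp C (MM p adj F G s) v = cp C (MM p adj F F s) (τ v))
    (hM : ∀ s, ∀ m ∈ Mi, cp C (MM p adj F F s) m ∈ Mi) (hτ : ∀ m ∈ Mi, τ m ∈ Mi)
    {v : V} (hv : v ∈ PP C Mi) :
    ∃ d ∈ PP C Mi, adj G v = adj F d ∧ pM C d = τ (pM C v) := by
  have hΨ : ∀ s, Sa B (MM p adj F G s) := fun s => S.MM_sa hB hq hF hG s
  have hΦ : ∀ s, Sa B (MM p adj F F s) := fun s => S.MM_sa hB hq hF hF s
  have hex := hex_of S hq hF hG
  obtain ⟨w, hw, rfl⟩ := mem_Ax_iff.1 (PP_perfect hv)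
  refine ⟨∑ s, MM p adj F G s (w s), ?_, ?_, ?_⟩
  · refine Submodule.sum_mem _ fun s _ => PP_Ψ hΨ hex ?_ s (hw s)
    intro s m hm
    rw [hψ]
    exact hM s _ (hτ m hm)
  · rw [map_sum, map_sum]
    exact Finset.sum_congr rfl fun s _ => adj_Φ S hq hF hG s (w s)
  · rw [map_sum, map_sum, map_sum]
    refine Finset.sum_congr rfl fun s _ => ?_
    rw [pM_pres (pres_Ψ hΨ hex s) C (PP_le_Tp (hw s)), hψ, pM_Φ hΦ C s (PP_le_Tp (hw s)), hτφ]

/-- **exact eigenvalue relation**: if `τ = lam` on `Mi`, then `Gᵀ v = lam Fᵀ v` on `PP`. -/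
theorem lin_exact [FiniteDimensional K V] (S : Sys B q p adj 𝒦) (hB : NS B) (hq : NS q)
    (hF : F ∈ 𝒦) (hG : G ∈ 𝒦) {τ : End K C.M}
    (hτφ : ∀ s v, τ (cp C (MM p adj F F s) v) = cp C (MM p adj F F s) (τ v))
    (hψ : ∀ s v, cp C (MM p adj F G s) v = cp C (MM p adj F F s) (τ v))
    (hM : ∀ s, ∀ m ∈ Mi, cp C (MM p adj F F s) m ∈ Mi) {lam : K} (hτ : ∀ m ∈ Mi, τ m = lam • m)
    {v : V} (hv : v ∈ PP C Mi) : adj G v = lam • adj F v := by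
  have hG' : G - lam • F ∈ 𝒦 := 𝒦.sub_mem hG (𝒦.smul_mem lam hF)
  obtain ⟨k, hk⟩ := T_eq_Nk (MM p adj F F)
  have key : ∀ j, j ≤ k → ∀ w ∈ PP C Mi, ∃ t ∈ Nk (MM p adj F F) (k - j),
      adj (G - lam • F) w = adj F t := by
    intro j
    induction j with
    | zero =>
      intro _ w hw
      obtain ⟨d, hd, h1, h2⟩ := exists_D S hB hq hF hG hτφ hψ hM
        (fun m hm => by rw [hτ m hm]; exact Mi.smul_mem _ hm) hw
      refine ⟨d - lam • w, ?_, ?_⟩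
      · rw [Nat.sub_zero, ← hk, ← pM_eq_zero C ((Tp B _).sub_mem (PP_le_Tp hd)
          ((Tp B _).smul_mem _ (PP_le_Tp hw))), map_sub, map_smul, h2, hτ _ (pM_mem hw), sub_self]
      · rw [map_sub, LinearMap.sub_apply, h1, map_smul, LinearMap.smul_apply, map_sub, map_smul]
    | succ j ih =>
      intro hj w hw
      obtain ⟨u, hu, rfl⟩ := mem_Ax_iff.1 (PP_perfect hw)
      choose t ht hte using fun s => ih (by omega) (u s) (hu s)
      refine ⟨∑ s, MM p adj F F s (t s), ?_, ?_⟩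
      · refine Submodule.sum_mem _ fun s _ => ?_
        have h1 := ht s
        have e : k - j = (k - (j + 1)) + 1 := by omega
        rw [e] at h1
        exact mem_Nk_succ.1 h1 s
      · rw [map_sum, map_sum]
        refine Finset.sum_congr rfl fun s _ => ?_
        rw [adj_Φ S hq hF hG' s (u s), MM_apply, hte s, MM_apply]
  obtain ⟨t, ht, hte⟩ := key k le_rfl v hv
  rw [Nat.sub_self, mem_Nk_zero] at ht
  rw [ht, map_zero, map_sub, LinearMap.sub_apply, map_smul, LinearMap.smul_apply, sub_eq_zero] at hte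
  exact hte

/-- `M_s(F,G) v = lam M_s(F,F) v` on `PP` -/
theorem MM_exact [FiniteDimensional K V] (S : Sys B q p adj 𝒦) (hB : NS B) (hq : NS q)
    (hF : F ∈ 𝒦) (hG : G ∈ 𝒦) {τ : End K C.M}
    (hτφ : ∀ s v, τ (cp C (MM p adj F F s) v) = cp C (MM p adj F F s) (τ v))
    (hψ : ∀ s v, cp C (MM p adj F G s) v = cp C (MM p adj F F s) (τ v))
    (hM : ∀ s, ∀ m ∈ Mi, cp C (MM p adj F F s) m ∈ Mi) {lam : K} (hτ : ∀ m ∈ Mi, τ m = lam • m)
    {v : V} (hv : v ∈ PP C Mi) (s : ι) : MM p adj F G s v = lam • MM p adj F F s v := by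
  rw [MM_apply, lin_exact S hB hq hF hG hτφ hψ hM hτ hv, map_smul, map_smul, MM_apply]

end sys

end Crest.Agent.R172.CP

namespace Crest.Agent.R172.CP

open Module Matrix Crest.Agent.R172.ThX Crest.Agent.R172.CSys Crest.Agent.R172.CF
open Crest.Agent.R172.Gen (Jm Ix)

variable {n : ℕ} {a : Fin 3 → Fin n → ℤ} {c : Cfg n a} {K : Type} [Field K]

/-- from adjoints to matrices -/
theorem adj_eq_iff {F G : Matrix (Ix n) c.δ K} {lam : K} {v w : Ix n → K} :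
    adjU c K (Matrix.toLin' G) v = lam • adjU c K (Matrix.toLin' F) w ↔
      (Gᵀ * Jm n K) *ᵥ v = lam • ((Fᵀ * Jm n K) *ᵥ w) := by
  rw [adjU_toLin, adjU_toLin]
  constructor
  · intro h
    have h1 := congrArg (fun x => c.B K *ᵥ x) h
    simp only [mulVec_smul, mulVec_mulVec, ← Matrix.mul_assoc, c.B_sq, Matrix.one_mul] at h1
    exact h1
  · intro h
    rw [Matrix.mul_assoc, Matrix.mul_assoc (c.B K) Fᵀ, ← mulVec_mulVec v (c.B K), h,
      ← mulVec_mulVec w (c.B K), mulVec_smul]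

section data

variable [Algebra ℂ K] {N W : Submodule K (Matrix (Ix n) c.δ K)} {F G : Matrix (Ix n) c.δ K}
  {C : St.Core (BV n K) (MM (pU c K) (adjU c K) (Matrix.toLin' F) (Matrix.toLin' F))}
  {Mi : Submodule K C.M} {τ : Module.End K C.M}

/-- **`Gᵀ J v = lam Fᵀ J v` exactly on `PP C Mi`**, if `τ_G = lam` on `Mi`. -/
theorem lin_exact_mat (hD : FO.Data ℂ c.arm (Jm n K) (c.B K) N W) (hF : F ∈ N ⊓ W)
    (hG : G ∈ N ⊓ W)
    (hτφ : ∀ s v, τ (Core.cp C (MM (pU c K) (adjU c K) (Matrix.toLin' F) (Matrix.toLin' F) s) v) =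
      Core.cp C (MM (pU c K) (adjU c K) (Matrix.toLin' F) (Matrix.toLin' F) s) (τ v))
    (hψ : ∀ s v, Core.cp C (MM (pU c K) (adjU c K) (Matrix.toLin' F) (Matrix.toLin' G) s) v =
      Core.cp C (MM (pU c K) (adjU c K) (Matrix.toLin' F) (Matrix.toLin' F) s) (τ v))
    (hM : ∀ s, ∀ m ∈ Mi,
      Core.cp C (MM (pU c K) (adjU c K) (Matrix.toLin' F) (Matrix.toLin' F) s) m ∈ Mi)
    {lam : K} (hτ : ∀ m ∈ Mi, τ m = lam • m) {v : Ix n → K} (hv : v ∈ PP C Mi) :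
    (Gᵀ * Jm n K) *ᵥ v = lam • ((Fᵀ * Jm n K) *ᵥ v) :=
  adj_eq_iff.1 (lin_exact (sys hD) BV_ns BU_ns ⟨F, hF, rfl⟩ ⟨G, hG, rfl⟩ hτφ hψ hM hτ hv)

/-- for `v ∈ PP` there is `d ∈ PP` with `Gᵀ J v = Fᵀ J d`, `π d = τ π v`. -/
theorem exists_D_mat (hD : FO.Data ℂ c.arm (Jm n K) (c.B K) N W) (hF : F ∈ N ⊓ W)
    (hG : G ∈ N ⊓ W)
    (hτφ : ∀ s v, τ (Core.cp C (MM (pU c K) (adjU c K) (Matrix.toLin' F) (Matrix.toLin' F) s) v) =
      Core.cp C (MM (pU c K) (adjU c K) (Matrix.toLin' F) (Matrix.toLin' F) s) (τ v))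
    (hψ : ∀ s v, Core.cp C (MM (pU c K) (adjU c K) (Matrix.toLin' F) (Matrix.toLin' G) s) v =
      Core.cp C (MM (pU c K) (adjU c K) (Matrix.toLin' F) (Matrix.toLin' F) s) (τ v))
    (hM : ∀ s, ∀ m ∈ Mi,
      Core.cp C (MM (pU c K) (adjU c K) (Matrix.toLin' F) (Matrix.toLin' F) s) m ∈ Mi)
    (hτ : ∀ m ∈ Mi, τ m ∈ Mi) {v : Ix n → K} (hv : v ∈ PP C Mi) :
    ∃ d ∈ PP C Mi, (Gᵀ * Jm n K) *ᵥ v = (Fᵀ * Jm n K) *ᵥ d ∧ pM C d = τ (pM C v) := by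
  obtain ⟨d, h1, h2, h3⟩ := exists_D (sys hD) BV_ns BU_ns ⟨F, hF, rfl⟩ ⟨G, hG, rfl⟩ hτφ hψ hM hτ hv
  refine ⟨d, h1, ?_, h3⟩
  have h4 : adjU c K (Matrix.toLin' G) v = (1 : K) • adjU c K (Matrix.toLin' F) d := by
    rw [one_smul]; exact h2
  rw [adj_eq_iff, one_smul] at h4
  exact h4

/-- distinct blocks are orthogonal, matrix form -/
theorem PP_orth_mat {Mj : Submodule K C.M} (h : ∀ m ∈ Mi, ∀ m' ∈ Mj, Core.BM C m m' = 0) :
    ∀ p ∈ PP C Mi, ∀ q ∈ PP C Mj, p ⬝ᵥ (Jm n K *ᵥ q) = 0 := by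
  intro p hp q hq
  have h1 := PP_orth (fun u v => BV_ns.symm u v) h p hp q hq
  rwa [BV_apply] at h1

/-- `PP` is perfect, matrix form: `p = ∑ Φ_s q_s` -/
theorem PP_perfect_mat {p : Ix n → K} (hp : p ∈ PP C Mi) :
    ∃ w : Fin 3 → Ix n → K, (∀ s, w s ∈ PP C Mi) ∧
      p = ∑ s, (FO.M c.arm (c.B K) s F F * Jm n K) *ᵥ w s := by
  obtain ⟨w, hw, h⟩ := mem_Ax_iff.1 (PP_perfect hp)
  refine ⟨w, hw, ?_⟩
  rw [h]
  exact Finset.sum_congr rfl fun s _ => MM_toLin F F s (w s)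

end data

end Crest.Agent.R172.CP
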