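import Crest.Agent.R172.TG2
import Crest.Agent.R172.TL1

/-!
Row 172 (S0260), TAME (T0), arbitrary radical: from single-arm memberships to the END.

`T p q = p ⊗ (J q)`. If for every arm `s` the filtered rank one matrices
`T (Φ_s^i p) (Φ_s^j q)`, `i + j + 1 = l_s`, `p, q ∈ P`, and the radical ones `T r p`, `T p r`
(`r ∈ P`, `e r = 0`) lie in `Q s`, then every endomorphism of the core `M` filtered at all arms
has a lift lying in all `Q s`.
-/

set_option autoImplicit false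
set_option linter.unusedSectionVars false

namespace Crest.Agent.R172.EndR

open Matrix Module Crest.Agent.R172.FO Crest.Agent.R172.TG Crest.Agent.R172.Core

variable {ι : Type*} [Fintype ι] [DecidableEq ι]
variable {K : Type*} [Field K]

/-- the rank one matrix `v ↦ (q, v) p` -/
def T (J : Matrix ι ι K) (p q : ι → K) : Matrix ι ι K := vecMulVec p (J *ᵥ q)

variable {J : Matrix ι ι K}

theorem T_add_left (p p' q : ι → K) : T J (p + p') q = T J p q + T J p' q := by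
  unfold T; exact Matrix.add_vecMulVec _ _ _

theorem T_add_right (p q q' : ι → K) : T J p (q + q') = T J p q + T J p q' := by
  unfold T; rw [mulVec_add]; exact Matrix.vecMulVec_add _ _ _

theorem T_smul_left (c : K) (p q : ι → K) : T J (c • p) q = c • T J p q := by
  unfold T; ext i j; simp [vecMulVec_apply, mul_assoc]

theorem T_smul_right (c : K) (p q : ι → K) : T J p (c • q) = c • T J p q := by
  unfold T; ext i j; simp [vecMulVec_apply, mulVec_smul, mul_left_comm]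

theorem T_mulVec (hJ : Jᵀ = J) (p q v : ι → K) : T J p q *ᵥ v = (q ⬝ᵥ (J *ᵥ v)) • p := by
  unfold T
  ext i
  have h1 : (J *ᵥ q) ⬝ᵥ v = q ⬝ᵥ (J *ᵥ v) := by
    rw [dotProduct_mulVec, ← vecMul_transpose, hJ]
  rw [← h1]
  generalize J *ᵥ q = u
  simp only [mulVec, dotProduct, vecMulVec_apply, Pi.smul_apply, smul_eq_mul, Finset.sum_mul]
  exact Finset.sum_congr rfl fun j _ => by ring

theorem mul_T (S : Matrix ι ι K) (p q : ι → K) : S * T J p q = T J (S *ᵥ p) q := by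
  unfold T; exact Matrix.mul_vecMulVec _ _ _

theorem T_mul {S S' : Matrix ι ι K} (h : Sᵀ * J = J * S') (p q : ι → K) :
    T J p q * S = T J p (S' *ᵥ q) := by
  unfold T
  rw [Matrix.vecMulVec_mul, mulVec_mulVec, ← h, ← mulVec_mulVec, mulVec_transpose]

theorem ext_mulVec' {A C : Matrix ι ι K} (h : ∀ v, A *ᵥ v = C *ᵥ v) : A = C := by
  ext i j
  have := congrFun (h (Pi.single j 1)) i
  rwa [mulVec_single_one, mulVec_single_one] at this

section main

variable {e : Matrix ι ι K} {M : Submodule K (ι → K)}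

/-- the span of the rank one matrices on `P` -/
def PP (J : Matrix ι ι K) (P : Submodule K (ι → K)) : Submodule K (Matrix ι ι K) :=
  Submodule.span K {y | ∃ p ∈ P, ∃ q ∈ P, y = T J p q}

theorem T_mem_PP {P : Submodule K (ι → K)} {p q : ι → K} (hp : p ∈ P) (hq : q ∈ P) :
    T J p q ∈ PP J P := Submodule.subset_span ⟨p, hp, q, hq, rfl⟩

/-- an element of `P ⊗ P` which vanishes on the core lies in `R ⊗ P + P ⊗ R` -/
theorem mem_of_core_zero (hJ : Jᵀ = J) (hJu : IsUnit J) (he : e * e = e) (heJ : eᵀ * J = J * e)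
    (hM : ∀ v, v ∈ M ↔ ∃ w, v = e *ᵥ w) {P : Submodule K (ι → K)}
    (hPM : ∀ m ∈ M, ∃ p ∈ P, e *ᵥ p = m) {Q : Submodule K (Matrix ι ι K)}
    (hb1 : ∀ r ∈ P, e *ᵥ r = 0 → ∀ p ∈ P, T J r p ∈ Q)
    (hb2 : ∀ r ∈ P, e *ᵥ r = 0 → ∀ p ∈ P, T J p r ∈ Q) {D : Matrix ι ι K} (hD : D ∈ PP J P)
    (h0 : e * D * e = 0) : D ∈ Q := by
  -- a section of `P → M`
  let g : P →ₗ[K] M := (prM e hM) ∘ₗ P.subtype
  have hg : Function.Surjective g := by
    rintro ⟨m, hm⟩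
    obtain ⟨p, hp, hpm⟩ := hPM m hm
    refine ⟨⟨p, hp⟩, Subtype.ext ?_⟩
    change ((prM e hM p : M) : ι → K) = m
    rw [prM_coe, hpm]
  obtain ⟨σ, hσ⟩ := LinearMap.exists_rightInverse_of_surjective g (LinearMap.range_eq_top.2 hg)
  let S : Matrix ι ι K := LinearMap.toMatrix' (P.subtype ∘ₗ σ ∘ₗ prM e hM)
  have hS : ∀ v, S *ᵥ v = ((σ (prM e hM v) : P) : ι → K) := by
    intro v
    have : toLin' S v = ((σ (prM e hM v) : P) : ι → K) := by
      simp only [S, toLin'_toMatrix']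
      rfl
    rw [← this, toLin'_apply]
  have hSP : ∀ v, S *ᵥ v ∈ P := fun v => by rw [hS]; exact (σ _).2
  have heS : ∀ v, e *ᵥ (S *ᵥ v) = e *ᵥ v := by
    intro v
    have h1 : g (σ (prM e hM v)) = prM e hM v := LinearMap.congr_fun hσ _
    have h2 := congrArg (fun m : M => (m : ι → K)) h1
    change ((prM e hM ((σ (prM e hM v) : P) : ι → K) : M) : ι → K) = (prM e hM v : ι → K) at h2
    rw [prM_coe, prM_coe] at h2
    rw [hS, h2]
  have hSe : S * e = S := by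
    refine ext_mulVec' fun v => ?_
    rw [← mulVec_mulVec, hS, hS]
    congr 2
    apply Subtype.ext
    rw [prM_coe, prM_coe, mulVec_mulVec, he]
  obtain ⟨Ji, hJi, hJi', hJit⟩ := symm_inv hJ hJu
  -- adjoint of `S`
  set S' : Matrix ι ι K := Ji * Sᵀ * J with hS'
  have hadj : S'ᵀ * J = J * S := by
    rw [hS', transpose_mul, transpose_mul, transpose_transpose, hJ, hJit, Matrix.mul_assoc,
      Matrix.mul_assoc S, hJi', Matrix.mul_one]
  have heS' : e * S' = S' := by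
    have h1 : J * (e * S') = J * S' := by
      rw [← Matrix.mul_assoc, ← heJ, hS', Matrix.mul_assoc eᵀ, ← Matrix.mul_assoc J,
        ← Matrix.mul_assoc J, hJi, Matrix.one_mul, ← Matrix.mul_assoc, ← transpose_mul, hSe]
    calc e * S' = Ji * (J * (e * S')) := by rw [← Matrix.mul_assoc Ji, hJi', Matrix.one_mul]
      _ = S' := by rw [h1, ← Matrix.mul_assoc, hJi', Matrix.one_mul]
  have key : ∀ D ∈ PP J P, D - S * D * S' ∈ Q := by
    intro D hD
    unfold PP at hD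
    induction hD using Submodule.span_induction with
    | mem x hx =>
      obtain ⟨p, hp, q, hq, rfl⟩ := hx
      rw [mul_T, T_mul hadj]
      have h1 : e *ᵥ (p - S *ᵥ p) = 0 := by rw [mulVec_sub, heS, sub_self]
      have h2 : e *ᵥ (q - S *ᵥ q) = 0 := by rw [mulVec_sub, heS, sub_self]
      have h3 : T J p q - T J (S *ᵥ p) (S *ᵥ q) =
          T J (p - S *ᵥ p) q + T J (S *ᵥ p) (q - S *ᵥ q) := by
        have e1 : T J p q = T J (p - S *ᵥ p) q + T J (S *ᵥ p) q := by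
          rw [← T_add_left, sub_add_cancel]
        have e2 : T J (S *ᵥ p) q = T J (S *ᵥ p) (q - S *ᵥ q) + T J (S *ᵥ p) (S *ᵥ q) := by
          rw [← T_add_right, sub_add_cancel]
        rw [e1]
        conv_lhs => rw [e2]
        abel
      rw [h3]
      exact Q.add_mem (hb1 _ (P.sub_mem hp (hSP p)) h1 q hq)
        (hb2 _ (P.sub_mem hq (hSP q)) h2 _ (hSP p))
    | zero => simp
    | add x y _ _ hx hy =>
      have : x + y - S * (x + y) * S' = (x - S * x * S') + (y - S * y * S') := by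
        rw [Matrix.mul_add, Matrix.add_mul]; abel
      rw [this]
      exact Q.add_mem hx hy
    | smul c x _ hx =>
      have : c • x - S * (c • x) * S' = c • (x - S * x * S') := by
        rw [Matrix.mul_smul, Matrix.smul_mul, smul_sub]
      rw [this]
      exact Q.smul_mem c hx
  have h1 := key D hD
  have h2 : S * D * S' = 0 := by
    calc S * D * S' = (S * e) * D * (e * S') := by rw [hSe, heS']
      _ = S * (e * D * e) * S' := by simp only [Matrix.mul_assoc]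
      _ = 0 := by rw [h0, Matrix.mul_zero, Matrix.zero_mul]
  rwa [h2, sub_zero] at h1

/-- every functional on the core is a product with an element of the core -/
theorem exists_rep (hJ : Jᵀ = J) (hJu : IsUnit J) (he : e * e = e) (heJ : eᵀ * J = J * e)
    (hM : ∀ v, v ∈ M ↔ ∃ w, v = e *ᵥ w) (f : M →ₗ[K] K) :
    ∃ m : M, ∀ x : M, f x = frm J M m x := by
  obtain ⟨Ji, hJi, hJi', hJit⟩ := symm_inv hJ hJu
  let F : (ι → K) →ₗ[K] K := f ∘ₗ prM e hM
  let u : ι → K := fun i => F (Pi.single i 1)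
  have hF : ∀ v, F v = u ⬝ᵥ v := by
    intro v
    have h1 : v = ∑ i, v i • (Pi.single i (1 : K) : ι → K) := by
      ext j
      rw [Finset.sum_apply, Finset.sum_eq_single j]
      · simp
      · intro i _ hi
        simp [Pi.single_eq_of_ne (Ne.symm hi)]
      · intro h; exact absurd (Finset.mem_univ j) h
    conv_lhs => rw [h1, map_sum]
    rw [dotProduct]
    refine Finset.sum_congr rfl fun i _ => ?_
    rw [map_smul, smul_eq_mul, mul_comm]
  refine ⟨prM e hM (Ji *ᵥ u), fun x => ?_⟩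
  have h1 : f x = F (x : ι → K) := by
    change f x = f (prM e hM (x : ι → K))
    rw [prM_fix he]
  rw [h1, hF, frm_apply, prM_coe]
  have h2 : (e *ᵥ (Ji *ᵥ u)) ⬝ᵥ (J *ᵥ (x : ι → K)) = (Ji *ᵥ u) ⬝ᵥ (J *ᵥ (e *ᵥ (x : ι → K))) :=
    adj heJ _ _
  rw [h2, fix_of_mem he hM x]
  have h3 : (Ji *ᵥ u) ⬝ᵥ (J *ᵥ (x : ι → K)) = u ⬝ᵥ ((Ji * J) *ᵥ (x : ι → K)) := by
    rw [← mulVec_mulVec, dotProduct_mulVec u, ← mulVec_transpose, hJit]
  rw [h3, hJi', one_mulVec]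

/-- filtered endomorphisms of the core, at one arm, lift to filtered rank one sums -/
theorem lift_arm (hJ : Jᵀ = J) (hJu : IsUnit J) (he : e * e = e) (heJ : eᵀ * J = J * e)
    (hM : ∀ v, v ∈ M ↔ ∃ w, v = e *ᵥ w) {P : Submodule K (ι → K)}
    (hPM : ∀ m ∈ M, ∃ p ∈ P, e *ᵥ p = m) {Φ : Matrix ι ι K} (hΦP : ∀ p ∈ P, Φ *ᵥ p ∈ P)
    {φ : Module.End K M} (hφ : ∀ p ∈ P, ((φ (prM e hM p) : M) : ι → K) = e *ᵥ (Φ *ᵥ p))
    (hsa : ∀ v w, frm J M (φ v) w = frm J M v (φ w)) {l : ℕ} (hl : φ ^ l = 0)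
    (hf : l * finrank K (LinearMap.ker φ) = finrank K M) {Q : Submodule K (Matrix ι ι K)}
    (ha : ∀ i j, i + j + 1 = l → ∀ p ∈ P, ∀ q ∈ P,
      T J ((Φ ^ i) *ᵥ p) ((Φ ^ j) *ᵥ q) ∈ Q)
    {A : Module.End K M}
    (hA : ∀ j : ℕ, ∀ x ∈ LinearMap.range (φ ^ j), A x ∈ LinearMap.range (φ ^ j)) :
    ∃ A' ∈ PP J P, A' ∈ Q ∧ e * A' * e = hat e hM A := by
  classical
  obtain ⟨e₁, b, hb⟩ := TC.exists_adapted hl hf
  obtain ⟨w, hw⟩ := TL.filt_sum b hb (y := A) hA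
  have hpow : ∀ (j : ℕ), ∀ p ∈ P, (Φ ^ j) *ᵥ p ∈ P ∧
      (((φ ^ j) (prM e hM p) : M) : ι → K) = e *ᵥ ((Φ ^ j) *ᵥ p) := by
    intro j
    induction j with
    | zero => intro p hp; exact ⟨by simpa using hp, by simp [prM_coe]⟩
    | succ j ih =>
      intro p hp
      obtain ⟨h1, h2⟩ := ih p hp
      have h3 : (Φ ^ (j + 1)) *ᵥ p = Φ *ᵥ ((Φ ^ j) *ᵥ p) := by rw [pow_succ', ← mulVec_mulVec]
      refine ⟨by rw [h3]; exact hΦP _ h1, ?_⟩
      have h4 : (φ ^ j) (prM e hM p) = prM e hM ((Φ ^ j) *ᵥ p) := by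
        apply Subtype.ext; rw [h2, prM_coe]
      rw [pow_succ', Module.End.mul_apply, h4, hφ _ h1, h3]
  have hlift : ∀ m : M, ∃ p ∈ P, prM e hM p = m := by
    intro m
    obtain ⟨p, hp, h1⟩ := hPM m m.2
    exact ⟨p, hp, Subtype.ext (by rw [prM_coe, h1])⟩
  have hsaj : ∀ (j : ℕ) (v w : M), frm J M ((φ ^ j) v) w = frm J M v ((φ ^ j) w) := by
    intro j
    induction j with
    | zero => intro v w; simp
    | succ j ih =>
      intro v w
      rw [pow_succ', Module.End.mul_apply, hsa, ih, ← Module.End.mul_apply, ← pow_succ,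
        pow_succ']
  have hzero : ∀ n : ℕ, l ≤ n → φ ^ n = 0 := by
    intro n hn
    obtain ⟨r, rfl⟩ := Nat.exists_eq_add_of_le hn
    rw [pow_add, hl, zero_mul]
  -- the coordinates
  have hcoord : ∀ (p : Fin l × Fin (finrank K (LinearMap.ker φ))) (hlt : l - 1 < l) (x : M),
      b.coord p x = b.coord (⟨l - 1, hlt⟩, p.2) ((φ ^ (l - 1 - (p.1 : ℕ))) x) := by
    intro p hlt x
    have h1 : b.coord p = (b.coord (⟨l - 1, hlt⟩, p.2)) ∘ₗ (φ ^ (l - 1 - (p.1 : ℕ))) := by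
      refine b.ext fun q => ?_
      have hp := p.1.2
      have hq := q.1.2
      rw [Basis.coord_apply, Basis.repr_self, LinearMap.comp_apply]
      have h2 : (φ ^ (l - 1 - (p.1 : ℕ))) (b q) = (φ ^ (l - 1 - (p.1 : ℕ) + q.1)) (e₁ q.2) := by
        rw [hb, ← Module.End.mul_apply, ← pow_add]
      rw [h2]
      by_cases hle : (q.1 : ℕ) ≤ p.1
      · have h3 : (φ ^ (l - 1 - (p.1 : ℕ) + q.1)) (e₁ q.2) =
            b (⟨l - 1 - (p.1 : ℕ) + q.1, by omega⟩, q.2) := by rw [hb]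
        rw [h3, Basis.coord_apply, Basis.repr_self]
        by_cases hqp : q = p
        · subst hqp
          have h4 : ((⟨l - 1 - (q.1 : ℕ) + q.1, by omega⟩ : Fin l), q.2) =
              ((⟨l - 1, hlt⟩ : Fin l), q.2) := by
            rw [Prod.mk.injEq]
            exact ⟨Fin.ext (by simp only; omega), rfl⟩
          rw [h4, Finsupp.single_eq_same, Finsupp.single_eq_same]
        · rw [Finsupp.single_eq_of_ne (fun h => hqp h.symm), Finsupp.single_eq_of_ne]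
          intro h
          have h5 := congrArg Prod.fst h
          have h6 := congrArg Prod.snd h
          simp only at h5 h6
          have h7 := congrArg Fin.val h5
          simp only at h7
          apply hqp
          rw [Prod.ext_iff]
          exact ⟨Fin.ext (by omega), h6.symm⟩
      · rw [hzero _ (by omega), LinearMap.zero_apply, map_zero, Finsupp.single_eq_of_ne]
        rintro rfl
        exact hle le_rfl
    rw [h1, LinearMap.comp_apply]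
  -- representatives
  have hrep : ∀ p : Fin l × Fin (finrank K (LinearMap.ker φ)), ∃ m : M, ∀ x : M,
      b.coord p x = frm J M m ((φ ^ (l - 1 - (p.1 : ℕ))) x) := by
    intro p
    have hlt : l - 1 < l := by have := p.1.2; omega
    obtain ⟨m, hm⟩ := exists_rep hJ hJu he heJ hM (b.coord (⟨l - 1, hlt⟩, p.2))
    exact ⟨m, fun x => by rw [hcoord p hlt, hm]⟩
  choose m hm using hrep
  choose u hu1 hu2 using fun p => hlift (w p)
  choose v hv1 hv2 using fun p => hlift (m p)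
  refine ⟨∑ p, T J ((Φ ^ (p.1 : ℕ)) *ᵥ u p) ((Φ ^ (l - 1 - (p.1 : ℕ))) *ᵥ v p),
    Submodule.sum_mem _ fun p _ => T_mem_PP (hpow _ _ (hu1 p)).1 (hpow _ _ (hv1 p)).1,
    Submodule.sum_mem _ fun p _ => ha _ _ (by have := p.1.2; omega) _ (hu1 p) _ (hv1 p), ?_⟩
  rw [Matrix.mul_sum, Matrix.sum_mul]
  refine ext_mulVec' fun x => ?_
  rw [hat_mulVec, Matrix.sum_mulVec, hw, LinearMap.sum_apply, Submodule.coe_sum]
  refine Finset.sum_congr rfl fun p _ => ?_
  rw [mul_T, T_mul heJ, T_mulVec hJ, LinearMap.smulRight_apply, Submodule.coe_smul, hm,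
    ← hsaj]
  have h1 : (((φ ^ (p.1 : ℕ)) (w p) : M) : ι → K) = e *ᵥ ((Φ ^ (p.1 : ℕ)) *ᵥ u p) := by
    rw [← hu2 p]; exact (hpow _ _ (hu1 p)).2
  have h2 : (((φ ^ (l - 1 - (p.1 : ℕ))) (m p) : M) : ι → K) =
      e *ᵥ ((Φ ^ (l - 1 - (p.1 : ℕ))) *ᵥ v p) := by
    rw [← hv2 p]; exact (hpow _ _ (hv1 p)).2
  rw [h1, frm_apply, h2, prM_coe]
  congr 1
  have h3 := adj heJ (e *ᵥ ((Φ ^ (l - 1 - (p.1 : ℕ))) *ᵥ v p)) x
  rw [mulVec_mulVec _ e e, he] at h3
  rw [h3]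

/-- **END glue for an arbitrary radical.** -/
theorem hext_of (hJ : Jᵀ = J) (hJu : IsUnit J) (he : e * e = e) (heJ : eᵀ * J = J * e)
    (hM : ∀ v, v ∈ M ↔ ∃ w, v = e *ᵥ w) {P : Submodule K (ι → K)}
    (hPM : ∀ m ∈ M, ∃ p ∈ P, e *ᵥ p = m) {Φ : Fin 3 → Matrix ι ι K}
    (hΦP : ∀ s, ∀ p ∈ P, Φ s *ᵥ p ∈ P)
    (hker : ∀ s, ∀ p ∈ P, e *ᵥ (Φ s *ᵥ p) = e *ᵥ (Φ s *ᵥ (e *ᵥ p)))
    {ΦM : Fin 3 → Module.End K M}
    (hΦM : ∀ s v, ((ΦM s v : M) : ι → K) = e *ᵥ (Φ s *ᵥ (v : ι → K)))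
    (hsa : ∀ s v w, frm J M (ΦM s v) w = frm J M v (ΦM s w)) {l : Fin 3 → ℕ}
    (hl : ∀ s, ΦM s ^ l s = 0)
    (hf : ∀ s, l s * finrank K (LinearMap.ker (ΦM s)) = finrank K M)
    {Q : Fin 3 → Submodule K (Matrix ι ι K)}
    (ha : ∀ s i j, i + j + 1 = l s → ∀ p ∈ P, ∀ q ∈ P,
      T J ((Φ s ^ i) *ᵥ p) ((Φ s ^ j) *ᵥ q) ∈ Q s)
    (hb1 : ∀ s, ∀ r ∈ P, e *ᵥ r = 0 → ∀ p ∈ P, T J r p ∈ Q s)
    (hb2 : ∀ s, ∀ r ∈ P, e *ᵥ r = 0 → ∀ p ∈ P, T J p r ∈ Q s)
    {A : Module.End K M} (hA : ∀ (s : Fin 3) (j : ℕ), ∀ x ∈ LinearMap.range (ΦM s ^ j),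
      A x ∈ LinearMap.range (ΦM s ^ j)) :
    ∃ A' : Matrix ι ι K, e * A' * e = hat e hM A ∧ ∀ s, A' ∈ Q s := by
  have h1 : ∀ s, ∃ A' ∈ PP J P, A' ∈ Q s ∧ e * A' * e = hat e hM A := fun s =>
    lift_arm hJ hJu he heJ hM hPM (hΦP s) (φ := ΦM s)
      (fun p hp => by rw [hΦM, prM_coe, ← hker s p hp]) (hsa s) (hl s) (hf s) (ha s) (hA s)
  choose A' h2 h3 h4 using h1
  refine ⟨A' 0, h4 0, fun s => ?_⟩
  have h5 : A' 0 - A' s ∈ Q s := by
    refine mem_of_core_zero hJ hJu he heJ hM hPM (hb1 s) (hb2 s) ((PP J P).sub_mem (h2 0) (h2 s)) ?_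
    rw [Matrix.mul_sub, Matrix.sub_mul, h4, h4, sub_self]
  have h6 := (Q s).add_mem h5 (h3 s)
  rwa [sub_add_cancel] at h6

end main

section final

variable {δ : Type*} [Fintype δ] [DecidableEq δ] {k : Type*} [Field k] [Algebra k K]
variable {arm : δ → Fin 3} {B : Matrix δ δ K} {N W : Submodule K (Matrix ι δ K)}
  {F : Matrix ι δ K} {e : Matrix ι ι K} {M : Submodule K (ι → K)}

/-- `y` with `y F E_s ∈ QQ` -/
def Qs (arm : δ → Fin 3) (J : Matrix ι ι K) (N W : Submodule K (Matrix ι δ K)) (F : Matrix ι δ K)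
    (e : Matrix ι ι K) (s : Fin 3) : Submodule K (Matrix ι ι K) where
  carrier := {y | y * F * E K arm s ∈ QQ J N W F e}
  add_mem' := by
    intro a b ha hb
    show (a + b) * F * E K arm s ∈ QQ J N W F e
    rw [Matrix.add_mul, Matrix.add_mul]
    exact Submodule.add_mem _ ha hb
  zero_mem' := by
    show (0 : Matrix ι ι K) * F * E K arm s ∈ QQ J N W F e
    rw [Matrix.zero_mul, Matrix.zero_mul]
    exact Submodule.zero_mem _
  smul_mem' := by
    intro c a ha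
    show (c • a) * F * E K arm s ∈ QQ J N W F e
    rw [Matrix.smul_mul, Matrix.smul_mul]
    exact Submodule.smul_mem _ _ ha

theorem mem_Qs {s : Fin 3} {y : Matrix ι ι K} :
    y ∈ Qs arm J N W F e s ↔ y * F * E K arm s ∈ QQ J N W F e := Iff.rfl

/-- **END of (T0), arbitrary radical, from single-arm memberships.** -/
theorem tame_false_of [CharZero K] (hD : Data k arm J B N W) (hF : F ∈ N ⊓ W)
    {R : Matrix δ ι K} (hR : F * R = e) (he : e * e = e) (heJ : eᵀ * J = J * e)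
    (hM : ∀ v, v ∈ M ↔ ∃ w, v = e *ᵥ w) (ΦM : Fin 3 → Module.End K M)
    (hΦM : ∀ s v, ((ΦM s v : M) : ι → K) = e *ᵥ (Phi arm J B F s *ᵥ (v : ι → K)))
    {D : Module.End K M} (hDΦ : ∀ s v, D (ΦM s v) = ΦM s (D v))
    (hDs : ⨆ ν, D.maxGenEigenspace ν = ⊤) (hT : Tame ΦM D)
    {P : Submodule K (ι → K)} (hPM : ∀ m ∈ M, ∃ p ∈ P, e *ᵥ p = m)
    (hΦP : ∀ s, ∀ p ∈ P, Phi arm J B F s *ᵥ p ∈ P)
    (hker : ∀ s, ∀ p ∈ P,
      e *ᵥ (Phi arm J B F s *ᵥ p) = e *ᵥ (Phi arm J B F s *ᵥ (e *ᵥ p)))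
    {l : Fin 3 → ℕ} (hl : ∀ s, ΦM s ^ l s = 0)
    (hf : ∀ s, l s * finrank K (LinearMap.ker (ΦM s)) = finrank K M)
    (ha : ∀ s i j, i + j + 1 = l s → ∀ p ∈ P, ∀ q ∈ P,
      T J ((Phi arm J B F s ^ i) *ᵥ p) ((Phi arm J B F s ^ j) *ᵥ q) * F * E K arm s ∈
        QQ J N W F e)
    (hb1 : ∀ s, ∀ r ∈ P, e *ᵥ r = 0 → ∀ p ∈ P, T J r p * F * E K arm s ∈ QQ J N W F e)
    (hb2 : ∀ s, ∀ r ∈ P, e *ᵥ r = 0 → ∀ p ∈ P, T J p r * F * E K arm s ∈ QQ J N W F e) :
    False := by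
  refine tame_falseR hD hF hR he heJ hM ΦM hΦM hDΦ hDs hT fun A hA _ => ?_
  obtain ⟨A', h1, h2⟩ := hext_of (Q := Qs arm J N W F e) hD.J_symm hD.J_unit he heJ hM hPM hΦP
    hker hΦM (core_sa hD he heJ hM hΦM) hl hf ha hb1 hb2 hA
  exact ⟨A', h1, sum_arm fun s => h2 s⟩

end final

section blocks

variable {e : Matrix ι ι K} {n : Type*} [Fintype n]

theorem exists_sum_of_mem {P : n → Submodule K (ι → K)} {r : ι → K} (hr : r ∈ ⨆ ν, P ν) :
    ∃ f : n → (ι → K), (∀ ν, f ν ∈ P ν) ∧ r = ∑ ν, f ν := by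
  classical
  induction hr using Submodule.iSup_induction' with
  | mem i x hx =>
    refine ⟨Pi.single i x, fun ν => ?_, ?_⟩
    · by_cases h : ν = i
      · subst h; rw [Pi.single_eq_same]; exact hx
      · rw [Pi.single_eq_of_ne h]; exact Submodule.zero_mem _
    · rw [Finset.sum_eq_single i]
      · rw [Pi.single_eq_same]
      · intro j _ hj; rw [Pi.single_eq_of_ne hj]
      · intro h; exact absurd (Finset.mem_univ i) h
  | zero => exact ⟨0, fun ν => Submodule.zero_mem _, by simp⟩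
  | add x y _ _ hx hy =>
    obtain ⟨f, hf, rfl⟩ := hx
    obtain ⟨g, hg, rfl⟩ := hy
    exact ⟨f + g, fun ν => Submodule.add_mem _ (hf ν) (hg ν), by
      rw [← Finset.sum_add_distrib]; rfl⟩

theorem T_sum_left {J : Matrix ι ι K} (f : n → (ι → K)) (q : ι → K) :
    T J (∑ ν, f ν) q = ∑ ν, T J (f ν) q := by
  classical
  let g : (ι → K) →+ Matrix ι ι K :=
    { toFun := fun p => T J p q
      map_zero' := by have := T_smul_left (J := J) (0 : K) 0 q; simpa using this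
      map_add' := fun a b => T_add_left a b q }
  exact map_sum g f Finset.univ

theorem T_sum_right {J : Matrix ι ι K} (p : ι → K) (f : n → (ι → K)) :
    T J p (∑ ν, f ν) = ∑ ν, T J p (f ν) := by
  classical
  let g : (ι → K) →+ Matrix ι ι K :=
    { toFun := fun q => T J p q
      map_zero' := by have := T_smul_right (J := J) (0 : K) p 0; simpa using this
      map_add' := fun a b => T_add_right p a b }
  exact map_sum g f Finset.univ

/-- from blocks to their sum: filtered rank one matrices -/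
theorem ha_of_blocks {J : Matrix ι ι K} {P : n → Submodule K (ι → K)} {Φ : Matrix ι ι K}
    {Q : Submodule K (Matrix ι ι K)} {i j : ℕ}
    (ha : ∀ μ ν, ∀ p ∈ P μ, ∀ q ∈ P ν, T J ((Φ ^ i) *ᵥ p) ((Φ ^ j) *ᵥ q) ∈ Q) :
    ∀ p ∈ ⨆ ν, P ν, ∀ q ∈ ⨆ ν, P ν, T J ((Φ ^ i) *ᵥ p) ((Φ ^ j) *ᵥ q) ∈ Q := by
  intro p hp q hq
  obtain ⟨f, hf, rfl⟩ := exists_sum_of_mem hp
  obtain ⟨g, hg, rfl⟩ := exists_sum_of_mem hq
  rw [Matrix.mulVec_sum, Matrix.mulVec_sum, T_sum_left]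
  refine Submodule.sum_mem _ fun μ _ => ?_
  rw [T_sum_right]
  exact Submodule.sum_mem _ fun ν _ => ha μ ν _ (hf μ) _ (hg ν)

/-- from blocks to their sum: radical rank one matrices -/
theorem hb_of_blocks {J : Matrix ι ι K} {P : n → Submodule K (ι → K)}
    (hind : ∀ f : n → (ι → K), (∀ ν, f ν ∈ P ν) → ∑ ν, e *ᵥ f ν = 0 → ∀ ν, e *ᵥ f ν = 0)
    {Q : Submodule K (Matrix ι ι K)}
    (hb1 : ∀ μ ν, ∀ r ∈ P μ, e *ᵥ r = 0 → ∀ p ∈ P ν, T J r p ∈ Q)
    (hb2 : ∀ μ ν, ∀ r ∈ P μ, e *ᵥ r = 0 → ∀ p ∈ P ν, T J p r ∈ Q) :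
    (∀ r ∈ ⨆ ν, P ν, e *ᵥ r = 0 → ∀ p ∈ ⨆ ν, P ν, T J r p ∈ Q) ∧
    (∀ r ∈ ⨆ ν, P ν, e *ᵥ r = 0 → ∀ p ∈ ⨆ ν, P ν, T J p r ∈ Q) := by
  constructor
  · intro r hr h0 p hp
    obtain ⟨f, hf, rfl⟩ := exists_sum_of_mem hr
    obtain ⟨g, hg, rfl⟩ := exists_sum_of_mem hp
    rw [Matrix.mulVec_sum] at h0
    have h1 := hind f hf h0
    rw [T_sum_left]
    refine Submodule.sum_mem _ fun μ _ => ?_
    rw [T_sum_right]
    exact Submodule.sum_mem _ fun ν _ => hb1 μ ν _ (hf μ) (h1 μ) _ (hg ν)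
  · intro r hr h0 p hp
    obtain ⟨f, hf, rfl⟩ := exists_sum_of_mem hr
    obtain ⟨g, hg, rfl⟩ := exists_sum_of_mem hp
    rw [Matrix.mulVec_sum] at h0
    have h1 := hind f hf h0
    rw [T_sum_left]
    refine Submodule.sum_mem _ fun μ _ => ?_
    rw [T_sum_right]
    exact Submodule.sum_mem _ fun ν _ => hb2 ν μ _ (hf ν) (h1 ν) _ (hg μ)

end blocks

end Crest.Agent.R172.EndR
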