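import Crest.Agent.R172.Fin2

/-!
Row 172 (S0260): the tame input restricted to `G ∈ 𝒦` over which `F` is generic.

`FO.GenOver F G`: `F, G ∈ 𝒦` and every direction of `F` in `𝒦` is realised by a vertical derivation
which kills `G`.  In particular `F + t • G` is generic for every `t` of the base field
(`GenOver.generic_add`).
`Ind.InT00`: no tame `τ_G` at `F` if `F` is generic over `G`.
-/

set_option autoImplicit false
set_option linter.unusedSectionVars false
set_option maxHeartbeats 400000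

namespace Crest.Agent.R172.FO

open Matrix

variable {ι δ : Type*} [Fintype ι] [DecidableEq ι] [Fintype δ] [DecidableEq δ]
variable {k K : Type*} [Field k] [Field K] [Algebra k K]

variable (k) in
/-- `F` is a generic element of `𝒦 = N ⊓ W` over the constant `G ∈ 𝒦` -/
structure GenOver (arm : δ → Fin 3) (N W : Submodule K (Matrix ι δ K)) (F G : Matrix ι δ K) :
    Prop where
  mem : F ∈ N ⊓ W
  memG : G ∈ N ⊓ W
  vert : ∀ F' ∈ N ⊓ W, ∃ d : Derivation k K K, F.map d = F' ∧ G.map d = 0 ∧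
    Realises arm N W (0 : Fin 3 → Matrix ι ι K) (0 : Matrix δ δ K) d

section
variable {arm : δ → Fin 3} {N W : Submodule K (Matrix ι δ K)} {F G : Matrix ι δ K}

theorem GenOver.generic (h : GenOver k arm N W F G) : Generic k arm N W F :=
  ⟨h.mem, fun F' hF' => by
    obtain ⟨d, h1, -, h2⟩ := h.vert F' hF'
    exact ⟨d, h1, h2⟩⟩

theorem map_smul_const (d : Derivation k K K) (t : k) (A : Matrix ι δ K) :
    (algebraMap k K t • A).map d = algebraMap k K t • A.map d := by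
  ext i j
  simp [Matrix.map_apply, Matrix.smul_apply, Algebra.smul_def]

/-- linear combinations with constant coefficients -/
theorem GenOver.lin (h : GenOver k arm N W F G) {a : k} (ha : a ≠ 0) (t : k) :
    GenOver k arm N W (algebraMap k K a • F + algebraMap k K t • G) G where
  mem := (N ⊓ W).add_mem ((N ⊓ W).smul_mem _ h.mem) ((N ⊓ W).smul_mem _ h.memG)
  memG := h.memG
  vert := by
    intro F' hF'
    obtain ⟨d, h1, h2, h3⟩ := h.vert (algebraMap k K a⁻¹ • F') ((N ⊓ W).smul_mem _ hF')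
    refine ⟨d, ?_, h2, h3⟩
    have e : ((algebraMap k K a • F + algebraMap k K t • G).map d : Matrix ι δ K)
        = (algebraMap k K a • F).map d + (algebraMap k K t • G).map d := by
      ext i j
      simp [Matrix.map_apply]
    rw [e, map_smul_const, map_smul_const, h1, h2, smul_zero, add_zero, smul_smul, ← map_mul,
      mul_inv_cancel₀ ha, map_one, one_smul]

theorem GenOver.add (h : GenOver k arm N W F G) (t : k) :
    GenOver k arm N W (F + algebraMap k K t • G) G := by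
  have h1 := h.lin one_ne_zero t
  rwa [map_one, one_smul] at h1

/-- `F + t • G` is generic for every constant `t` -/
theorem GenOver.generic_add (h : GenOver k arm N W F G) (t : k) :
    Generic k arm N W (F + algebraMap k K t • G) := (h.add t).generic

end

end Crest.Agent.R172.FO

namespace Crest.Agent.R172.ThX

open Module LinearMap St _root_.Crest.Agent.R172.Core

variable {K : Type*} [Field K] {V : Type*} [AddCommGroup V] [Module K V]
variable {U : Type*} [AddCommGroup U] [Module K U] {ι : Type*}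
variable {B : LinearMap.BilinForm K V} {q : LinearMap.BilinForm K U} {p : ι → End K U}
variable {adj : (U →ₗ[K] V) →ₗ[K] (V →ₗ[K] U)} {𝒦 : Submodule K (U →ₗ[K] V)}
variable [FiniteDimensional K V] [Fintype ι]

/-- **Theorem X** at one `G ∈ 𝒦`, with the tame hypothesis for `τ_G` only. -/
theorem Sys.thmX1 [IsAlgClosed K] [CharZero K] (S : Sys B q p adj 𝒦) (hB : NS B) (hq : NS q)
    {F G : U →ₗ[K] V} (hF : F ∈ 𝒦) (hG : G ∈ 𝒦) (hnil : ∃ k, ∀ s, MM p adj F F s ^ k = 0)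
    (hsum : ∀ v, ∑ s, MM p adj F F s v = 0) (hDer : DerR B (MM p adj F F))
    (C : St.Core B (MM p adj F F))
    (htame : ∀ τ : End K C.M, (∀ v w, BM C (τ v) w = BM C v (τ w)) →
      (∀ s v, τ (cp C (MM p adj F F s) v) = cp C (MM p adj F F s) (τ v)) →
      (∀ s v, cp C (MM p adj F G s) v = cp C (MM p adj F F s) (τ v)) →
      ¬ Tame (fun s => cp C (MM p adj F F s)) τ)
    (nil : ∀ G ∈ 𝒦, (∃ m, ∀ l : List ι, m ≤ l.length → ∀ v, wd (MM p adj F G) l v = 0) →
      ∀ u u', B (F u) (G u') = 0) :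
    ∃ lam : K, ∀ u u', B (F u) (G u') = lam * B (F u) (F u') := by
  obtain ⟨τ, h1, h2, h3⟩ := S.exists_tau hB hq hF hG C
  rcases core_alt_of_DerR hB (fun s => S.MM_sa hB hq hF hF s) hnil hsum hDer C h1 h2 with
    ⟨lam, hlam⟩ | h
  · refine ⟨lam, fun u u' => ?_⟩
    have h4 := nil _ (𝒦.sub_mem hG (𝒦.smul_mem lam hF)) (S.words hB hq hF hG C τ h2 h3 lam hlam)
      u u'
    simp only [LinearMap.sub_apply, LinearMap.smul_apply, map_sub, map_smul, smul_eq_mul] at h4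
    exact sub_eq_zero.mp h4
  · exact absurd h (htame τ h1 h2 h3)

end Crest.Agent.R172.ThX

namespace Crest.Agent.R172.CSys

open Module Matrix Crest.AlgebraR.SpinSaturation Crest.Agent.R172.SoGrade Crest.Agent.R172.CF
open Crest.Agent.R172.Gen (Jm Ix emb Ent ent)
open Crest.Agent.R172.ThX
open Crest.Agent.R172.Core (NS)

variable {n : ℕ} {a : Fin 3 → Fin n → ℤ} {c : Cfg n a} {K : Type} [Field K] [Algebra ℂ K]
variable {q : SPol c}

/-- the element `F` is not tame for `τ_G` -/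
def NotTameG (F G : Matrix (Ix n) c.δ K) : Prop :=
  ∃ C : St.Core (BV n K) (MM (pU c K) (adjU c K) (Matrix.toLin' F) (Matrix.toLin' F)),
    ∀ τ : Module.End K C.M, ¬ TameAt F G C τ

/-- **Theorem X at a generic element, one `G`.** -/
theorem thmX_generic1 [IsAlgClosed K] [CharZero K] (R : Ranked c) (hR : PosR R q)
    {g : Fin 3 → Matrix (Ix n) (Ix n) K} (hg : ∀ s, (g s)ᵀ * Jm n K * g s = Jm n K)
    {H : Matrix (Fin q.m) (Fin q.m) K} (hH : Hᵀ = -H)
    (hgen : ∀ G : Matrix (Fin q.m) (Fin q.m) K, Gᵀ = -G →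
      ∃ D : Derivation ℂ K K, H.map D = G)
    (hD : FO.Data ℂ c.arm (Jm n K) (c.B K) (c.N g) (VL (q.toPol.LH H)))
    {F G : Matrix (Ix n) c.δ K} (hF : FO.Generic ℂ c.arm (c.N g) (VL (q.toPol.LH H)) F)
    (hG : G ∈ c.N g ⊓ VL (q.toPol.LH H)) (hT : NotTameG F G) :
    ∃ lam : K, Fᵀ * Jm n K * G = lam • (Fᵀ * Jm n K * F) := by
  obtain ⟨C, hT⟩ := hT
  have hder : Core.DerR (BV n K)
      (MM (pU c K) (adjU c K) (Matrix.toLin' F) (Matrix.toLin' F)) := by
    rw [BV_eq, MM_eq]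
    exact DerG.derR hD hF
  obtain ⟨lam, hlam⟩ := (sys hD).thmX1 BV_ns BU_ns (F := Matrix.toLin' F) (G := Matrix.toLin' G)
    ⟨F, hF.mem, rfl⟩ ⟨G, hG, rfl⟩
    (MM_nil R hg hF.mem.1) (MM_sum hD hF.mem.2) hder C
    (fun τ h1 h2 h3 h4 => hT τ ⟨h1, h2, h3, h4⟩)
    (fun G hG => nil_pair R hR hg hH hgen hD _ ⟨F, hF.mem, rfl⟩ G hG)
  refine ⟨lam, ?_⟩
  ext d e
  have h1 := hlam (sg K d) (sg K e)
  change BV n K (F *ᵥ sg K d) (G *ᵥ sg K e) = lam * BV n K (F *ᵥ sg K d) (F *ᵥ sg K e) at h1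
  rw [← bFG_apply, ← bFG_apply, bFG_sg_sg, bFG_sg_sg] at h1
  rw [h1, Matrix.smul_apply, smul_eq_mul]

/-- **Theorem X descended to the base field** (the identity (*)). -/
theorem star_base1 (R : Ranked c) (hR : PosR R q)
    {g : Fin 3 → Matrix (Ix n) (Ix n) K} (hg : ∀ s, (g s)ᵀ * Jm n K * g s = Jm n K)
    {H : Matrix (Fin q.m) (Fin q.m) K} (hH : Hᵀ = -H)
    (hpkg : ∀ G ∈ c.N g ⊓ VL (q.toPol.LH H),
      GenPkg q K g H (fun L _ _ _ F => NotTameG F (emb K L G))) :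
    ∀ F ∈ c.N g ⊓ VL (q.toPol.LH H), ∀ G ∈ c.N g ⊓ VL (q.toPol.LH H), ∀ d e d' e',
      (Fᵀ * Jm n K * G) d e * (Fᵀ * Jm n K * F) d' e' =
      (Fᵀ * Jm n K * G) d' e' * (Fᵀ * Jm n K * F) d e := by
  intro F0 hF0 G hG d e d' e'
  obtain ⟨L, iL, iKL, iCL, ist, icl, icz, F, hD, hF, hgen, hspec, hT⟩ := hpkg G hG
  obtain ⟨lam, hlam⟩ := thmX_generic1 R hR (fun s => Top.emb_orth (hg s)) (FO3.emb_skew hH) hgen
    hD hF ⟨emb_mem_N hG.1, emb_mem_VL q.toPol hG.2⟩ hT
  have h1 := hspec (starP G d e d' e') (by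
    rw [star_eval, hlam]
    simp only [Matrix.smul_apply, smul_eq_mul]
    ring) F0 hF0.2 hF0.1
  rw [star_eval] at h1
  have h2 : emb K K G = G := by ext x y; rfl
  rw [h2, sub_eq_zero] at h1
  exact h1

/-- the hypothesis `hX` of ThX3 -/
theorem hX_base1 (R : Ranked c) (hR : PosR R q)
    {g : Fin 3 → Matrix (Ix n) (Ix n) K} (hg : ∀ s, (g s)ᵀ * Jm n K * g s = Jm n K)
    {H : Matrix (Fin q.m) (Fin q.m) K} (hH : Hᵀ = -H)
    (hpkg : ∀ G ∈ c.N g ⊓ VL (q.toPol.LH H),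
      GenPkg q K g H (fun L _ _ _ F => NotTameG F (emb K L G))) :
    ∀ F ∈ KK (c.N g ⊓ VL (q.toPol.LH H)), ∀ G ∈ KK (c.N g ⊓ VL (q.toPol.LH H)),
      ∀ u1 u1' u2 u2', BV n K (F u1) (G u1') * BV n K (F u2) (F u2')
        = BV n K (F u2) (G u2') * BV n K (F u1) (F u1') := by
  rintro _ ⟨F, hF, rfl⟩ _ ⟨G, hG, rfl⟩ u1 u1' u2 u2'
  change BV n K (F *ᵥ u1) (G *ᵥ u1') * BV n K (F *ᵥ u2) (F *ᵥ u2')
        = BV n K (F *ᵥ u2) (G *ᵥ u2') * BV n K (F *ᵥ u1) (F *ᵥ u1')
  have h1 := star_base1 R hR hg hH hpkg F hF G hG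
  simp only [BV_mulVec]
  by_cases h0 : Fᵀ * Jm n K * F = 0
  · rw [h0]; simp
  · obtain ⟨d', e', h2⟩ : ∃ d' e', (Fᵀ * Jm n K * F) d' e' ≠ 0 := by
      by_contra h
      push Not at h
      exact h0 (by ext d e; exact h d e)
    have h3 : Fᵀ * Jm n K * G =
        ((Fᵀ * Jm n K * G) d' e' / (Fᵀ * Jm n K * F) d' e') • (Fᵀ * Jm n K * F) := by
      ext d e
      rw [Matrix.smul_apply, smul_eq_mul, div_mul_eq_mul_div, eq_div_iff h2]
      exact h1 d e d' e'
    rw [h3, smul_mulVec, smul_mulVec, dotProduct_smul, dotProduct_smul, smul_eq_mul,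
      smul_eq_mul]
    ring

/-- **dimension count (outside tame)** -/
theorem finrank_base1 [IsAlgClosed K] (R : Ranked c) (hR : PosR R q)
    {g : Fin 3 → Matrix (Ix n) (Ix n) K} (hg : ∀ s, (g s)ᵀ * Jm n K * g s = Jm n K)
    {H : Matrix (Fin q.m) (Fin q.m) K} (hH : Hᵀ = -H)
    (hgen : ∀ G : Matrix (Fin q.m) (Fin q.m) K, Gᵀ = -G →
      ∃ D : Derivation ℂ K K, H.map D = G)
    (hD : FO.Data ℂ c.arm (Jm n K) (c.B K) (c.N g) (VL (q.toPol.LH H)))
    (hpkg : ∀ G ∈ c.N g ⊓ VL (q.toPol.LH H),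
      GenPkg q K g H (fun L _ _ _ F => NotTameG F (emb K L G))) :
    finrank K ↥(c.N g ⊓ VL (q.toPol.LH H)) ≤
      finrank K (Kiso (BV n K) (KK (c.N g ⊓ VL (q.toPol.LH H)))) + 1 := by
  rw [← finrank_KK]
  exact (sys hD).finrank_le BV_ns BU_ns (nil_pair R hR hg hH hgen hD)
    (hX_base1 R hR hg hH hpkg)

end Crest.Agent.R172.CSys

namespace Crest.Agent.R172.Ext

open Matrix Crest.AlgebraR.SpinSaturation Crest.Agent.R172.SoGrade Crest.Agent.R172.Sp
open Crest.Agent.R172.Gen (Jm Ix emb IsSo Ent ent)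
open Crest.Agent.R172.CF Crest.Agent.R172.HM8 Crest.Agent.R172.HM9 Module
open Crest.Agent.R172.Ind (GI kk mu perp Bd)

variable {n : ℕ} {a : Fin 3 → Fin n → ℤ} {c : Cfg n a} {q : SPol c}

/-- **The generic package over `GI`, with a constant `G ∈ 𝒦`.** -/
theorem genPkg_over {K : Type} [Field K] [Algebra ℂ K] {g : Fin 3 → Matrix (Ix n) (Ix n) K}
    {H : Matrix (Fin q.m) (Fin q.m) K} (hG : GI c q.toPol K g H)
    {G : Matrix (Ix n) c.δ K} (hGm : G ∈ c.N g ⊓ VL (q.toPol.LH H))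
    (P : ∀ (L : Type) [Field L] [Algebra K L] [Algebra ℂ L], Matrix (Ix n) c.δ L → Prop)
    (hP : ∀ (L : Type) [Field L] [Algebra K L] [Algebra ℂ L] [IsScalarTower ℂ K L]
      [IsAlgClosed L] [CharZero L] (F : Matrix (Ix n) c.δ L),
      GI c q.toPol L (fun s => emb K L (g s)) (emb K L H) →
      FO.GenOver ℂ c.arm (c.N (fun s => emb K L (g s))) (VL (q.toPol.LH (emb K L H))) F
        (emb K L G) → P L F) :
    CSys.GenPkg q K g H P := by
  have hcz : CharZero K := charZero_of K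
  obtain ⟨L, iL, iKL, iCL, ist, icl, icz, F, hF, hspec, hv⟩ :=
    exists_genZ K (c.N g ⊓ VL (q.toPol.LH H))
  have hGL : GI c q.toPol L (fun s => emb K L (g s)) (emb K L H) := gi_bc q.toPol hG
  have hgenF : FO.GenOver ℂ c.arm (c.N (fun s => emb K L (g s)))
      (VL (q.toPol.LH (emb K L H))) F (emb K L G) :=
    { mem := spL_le_KL q.toPol g H hF
      memG := ⟨CSys.emb_mem_N hGm.1, CSys.emb_mem_VL q.toPol hGm.2⟩
      vert := by
        intro F' hF'
        obtain ⟨D, hD1, hD2⟩ := hv F' (KL_le q.toPol hG.orth H hF')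
        exact ⟨D, hD2, emb_der_zero G D hD1, vert_real q.toPol hG.skew D hD1⟩ }
  exact ⟨L, iL, iKL, iCL, ist, icl, icz, F, data_of_GI q.toPol hGL, hgenF.generic,
    fun G hGs => hgen_of_GI hGL G hGs, fun p hp F0 h1 h2 => hspec p hp F0 ⟨h2, h1⟩,
    hP L F hGL hgenF⟩

/-- **(P1)** `dim 𝒦 ≤ dim 𝒦iso + 1` outside tame. -/
theorem finrank_Kiso1 {K : Type} [Field K] [Algebra ℂ K] [IsAlgClosed K]
    {g : Fin 3 → Matrix (Ix n) (Ix n) K} {H : Matrix (Fin q.m) (Fin q.m) K}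
    (R : Ranked c) (hR : CSys.PosR R q) (hG : GI c q.toPol K g H)
    (hT : ∀ (L : Type) [Field L] [Algebra K L] [Algebra ℂ L] [IsScalarTower ℂ K L]
      [IsAlgClosed L] [CharZero L] (F G : Matrix (Ix n) c.δ L),
      GI c q.toPol L (fun s => emb K L (g s)) (emb K L H) →
      FO.GenOver ℂ c.arm (c.N (fun s => emb K L (g s))) (VL (q.toPol.LH (emb K L H))) F G →
      CSys.NotTameG F G) :
    finrank K ↥(c.N g ⊓ VL (q.toPol.LH H)) ≤
      finrank K ↥(Om.Kiso (Jm n K) (c.N g) (VL (q.toPol.LH H))) + 1 := by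
  have h1 := CSys.finrank_base1 R hR hG.orth hG.skew (hgen_of_GI hG) (data_of_GI q.toPol hG)
    (fun G hGm => genPkg_over hG hGm (fun L _ _ _ F => CSys.NotTameG F (emb K L G))
      fun L _ _ _ _ _ _ F hGL hF => hT L F (emb K L G) hGL hF)
  rw [Kiso_eq, CSys.finrank_KK] at h1
  exact h1

end Crest.Agent.R172.Ext

namespace Crest.Agent.R172.Ind

open Matrix Module
open Crest.AlgebraR.SpinSaturation Crest.Agent.R172.SoGrade Crest.Agent.R172.Sp
open Crest.Agent.R172.Gen (Jm Ix emb IsSo)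
open Crest.Agent.R172.CF Crest.Agent.R172.HM2 Crest.Agent.R172.HM8 Crest.Agent.R172.HM9

/-- (T00) no tame `τ_G` at `F` if `F` is generic over `G` in a violating instance with
`𝒦iso = 0` -/
def InT00 : Prop :=
  ∀ (n : ℕ) (a : Fin 3 → Fin n → ℤ) (c : Cfg n a) (q : SPol c) (R : Ranked c)
    (K : Type) [Field K] [Algebra ℂ K] [IsAlgClosed K] (g : Fin 3 → Matrix (Ix n) (Ix n) K)
    (H : Matrix (Fin q.toPol.m) (Fin q.toPol.m) K), Inst c q R K g H →
    Om.Kiso (Jm n K) (c.N g) (VL (q.toPol.LH H)) = ⊥ →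
    ∀ F G : Matrix (Ix n) c.δ K, FO.GenOver ℂ c.arm (c.N g) (VL (q.toPol.LH H)) F G →
      CSys.NotTameG F G

/-- `InT0` implies `InT00` -/
theorem InT0.over (h : InT0) : InT00 := by
  intro n a c q R K _ _ _ g H hI h0 F G hF
  obtain ⟨C, hC⟩ := h n a c q R K g H hI h0 F hF.generic
  exact ⟨C, fun τ hτ => hC G hF.memG τ hτ⟩

/-- the form with all cores -/
theorem InT00.of_forall
    (h : ∀ (n : ℕ) (a : Fin 3 → Fin n → ℤ) (c : Cfg n a) (q : SPol c) (R : Ranked c)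
      (K : Type) [Field K] [Algebra ℂ K] [IsAlgClosed K] (g : Fin 3 → Matrix (Ix n) (Ix n) K)
      (H : Matrix (Fin q.toPol.m) (Fin q.toPol.m) K), Inst c q R K g H →
      Om.Kiso (Jm n K) (c.N g) (VL (q.toPol.LH H)) = ⊥ →
      ∀ F G : Matrix (Ix n) c.δ K, FO.GenOver ℂ c.arm (c.N g) (VL (q.toPol.LH H)) F G →
      ∀ (C : St.Core (CSys.BV n K)
        (ThX.MM (CSys.pU c K) (CSys.adjU c K) (Matrix.toLin' F) (Matrix.toLin' F)))
        (τ : Module.End K C.M), CSys.TameAt F G C τ → False) : InT00 := by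
  intro n a c q R K _ _ _ g H hI h0 F G hF
  obtain ⟨C⟩ := St.exists_core (CSys.BV n K) (fun u v => CSys.BV_ns.symm u v) CSys.BV_ns.nondeg
    (ThX.MM (CSys.pU c K) (CSys.adjU c K) (Matrix.toLin' F) (Matrix.toLin' F))
  exact ⟨C, fun τ hτ => h n a c q R K g H hI h0 F G hF C τ hτ⟩

/-- **STEP from (T00), (S2), (Q1)** -/
theorem step_of3 (hT : InT00) (hS : InS2) (hQ : InQ1) : Step := by
  intro n a c q R hR K _ _ _ g H hG b hb0 hB hk
  have hI : Inst c q R K g H := ⟨hR, hG, b, hb0, hB, hk⟩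
  have h2 : 2 ≤ finrank K ↥(c.N g ⊓ VL (q.toPol.LH H) : Submodule K (Matrix (Ix n) c.δ K)) :=
    hI.two_le
  have hScal : ∀ (L : Type) [Field L] [Algebra K L] [Algebra ℂ L] [IsScalarTower ℂ K L]
      [IsAlgClosed L], Om.Scal ℂ c.arm (Jm n L) (c.B L) (c.N (fun s => emb K L (g s)))
        (VL (q.toPol.LH (emb K L H))) := by
    intro L _ _ _ _ _
    by_cases h : 2 ≤ finrank L ↥(Om.Kiso (Jm n L) (c.N (fun s => emb K L (g s)))
        (VL (q.toPol.LH (emb K L H))))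
    · exact hS n a c q R L _ _ (hI.bc L) h
    · exact scal_of_le_one (by omega)
  refine Ext.exists_good R hR hG hScal ?_
  intro h0
  have hScalK : Om.Scal ℂ c.arm (Jm n K) (c.B K) (c.N g) (VL (q.toPol.LH H)) := by
    by_cases h : 2 ≤ finrank K ↥(Om.Kiso (Jm n K) (c.N g) (VL (q.toPol.LH H)))
    · exact hS n a c q R K _ _ hI h
    · exact scal_of_le_one (by omega)
  have h1 := Ext.finrank_ZI R hG hScalK
  rw [h0, finrank_bot] at h1
  by_cases h3 : Om.Kiso (Jm n K) (c.N g) (VL (q.toPol.LH H)) = c.N g ⊓ VL (q.toPol.LH H)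
  · rw [h3] at h1
    omega
  · by_cases h4 : finrank K ↥(Om.Kiso (Jm n K) (c.N g) (VL (q.toPol.LH H))) = 1
    · exact hQ n a c q R K g H hI h4 h3 h0
    · have h5 : Om.Kiso (Jm n K) (c.N g) (VL (q.toPol.LH H)) = ⊥ := by
        rw [← Submodule.finrank_eq_zero]
        omega
      have h6 := Ext.finrank_Kiso1 R hR hG fun L _ _ _ _ _ _ F G _ hF =>
        hT n a c q R L _ _ (hI.bc L) (by
          have h7 := Ext.spL_KI (L := L) q.toPol g H
          unfold Ext.KI at h7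
          rw [h5, Ext.spL_bot] at h7
          exact h7.symm) F G hF
      rw [h5, finrank_bot] at h6
      omega

/-- **S0260 from (T00), (S2), (Q1)** -/
theorem saturation_of3 (hT : InT00) (hS : InS2) (hQ : InQ1) (n : ℕ) (hn : 2 ≤ n)
    (a b c : Fin n → ℤ) (ha : IsDominantIntegral n a) (hb : IsDominantIntegral n b)
    (hc : IsDominantIntegral n c) (habc : InRootLattice n (a + b + c)) (N : ℕ) (hN : 1 ≤ N)
    (U : Irrep n a) (V : Irrep n b) (W : Irrep n c)
    (U' : Irrep n (N • a)) (V' : Irrep n (N • b)) (W' : Irrep n (N • c)) :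
    HasInvariant U V W ↔ HasInvariant U' V' W' :=
  Top.result_of_coreS hn (coreS_of_step (step_of3 hT hS hQ) n) a b c ha hb hc habc N hN
    U V W U' V' W'

end Crest.Agent.R172.Ind
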