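import Crest.Agent.R172.Kempf5

/-!
Row 172, NIL^sp (symplectic nilpotency theorem), abstract form: the Liouville form identity.

For a jointly nilpotent family `Ψ_s = Σ_{d ∈ s} ω(·, F_{σ d}) F_d` built on the rows
`F_d = Σ_j P_{dj} R_j` of an isotropic frame `P`, with the compatibility
`ω(F_{d'}, F_{σ d}) = 0` for `arm d' = arm d`, `lev d' ≤ lev d`, one has
`Σ_{jk} ω(R_j,R_k) (D(P)ᵀ J P)_{jk} = 0` for every derivation `D` of the field.
-/

set_option autoImplicit false
set_option linter.unusedSectionVars false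
set_option linter.unusedSimpArgs false

namespace Crest.Agent.R172.SN

open Module Crest.Agent.R172.Kempf

variable {K V ι : Type*} [Field K] [AddCommGroup V] [Module K V] [Fintype ι]

/-- Two chains of subspaces have a common adapted basis. -/
theorem exists_two_chains (e : Basis ι K V) (A C : ℕ → Submodule K V)
    (hA : Monotone A) (hA0 : A 0 = ⊥) (p : ℕ) (hAp : A p = ⊤)
    (hC : Monotone C) (hC0 : C 0 = ⊥) (r : ℕ) (hCr : C r = ⊤) :
    ∃ f : Basis ι K V, (∀ j, ∃ S : Set ι, A j = Submodule.span K (f '' S)) ∧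
      (∀ j, ∃ S : Set ι, C j = Submodule.span K (f '' S)) := by
  classical
  obtain ⟨g, lev, -, -, hg⟩ := NilPat.exists_adapted_chain e A hA hA0 p hAp
  obtain ⟨g', lev', -, -, hg'⟩ := NilPat.exists_adapted_chain e C hC hC0 r hCr
  obtain ⟨f, u, hf, hu⟩ := exists_common g g' (fun i => -(lev i : ℝ)) (fun i => -(lev' i : ℝ))
  refine ⟨f, fun j => ⟨{i | -(j : ℝ) ≤ -(lev i : ℝ)}, ?_⟩, fun j => ⟨{i | -(j : ℝ) ≤ u i}, ?_⟩⟩
  · rw [← Fil_eq_span f (fun i => -(lev i : ℝ)) (-(j : ℝ)), hf, Fil_eq_span, hg]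
    congr 2
    ext i
    simp
  · rw [← Fil_eq_span f u, hu, Fil_eq_span, hg']
    congr 2
    ext i
    simp

section conn

variable {R : Type*} [CommRing R] [Algebra R K]

/-- the connection for which the basis `f` is flat -/
noncomputable def nab (f : Basis ι K V) (D : Derivation R K K) (x : V) : V :=
  ∑ i, D (f.repr x i) • f i

theorem nab_add (f : Basis ι K V) (D : Derivation R K K) (x y : V) :
    nab f D (x + y) = nab f D x + nab f D y := by
  simp only [nab, map_add, Finsupp.add_apply, add_smul, Finset.sum_add_distrib]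

theorem nab_smul (f : Basis ι K V) (D : Derivation R K K) (c : K) (x : V) :
    nab f D (c • x) = D c • x + c • nab f D x := by
  have h : D c • x = ∑ i, (D c * f.repr x i) • f i := by
    conv_lhs => rw [← f.sum_repr x]
    rw [Finset.smul_sum]
    exact Finset.sum_congr rfl fun i _ => smul_smul _ _ _
  rw [h, nab, nab, Finset.smul_sum, ← Finset.sum_add_distrib]
  refine Finset.sum_congr rfl fun i _ => ?_
  rw [map_smul, Finsupp.smul_apply, smul_eq_mul, Derivation.leibniz, smul_smul, ← add_smul,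
    smul_eq_mul, smul_eq_mul]
  congr 1
  ring

theorem nab_zero (f : Basis ι K V) (D : Derivation R K K) : nab f D 0 = 0 := by
  simp [nab]

theorem nab_sum {m : Type*} (f : Basis ι K V) (D : Derivation R K K) (s : Finset m) (x : m → V) :
    nab f D (∑ j ∈ s, x j) = ∑ j ∈ s, nab f D (x j) := by
  classical
  induction s using Finset.induction_on with
  | empty => simp [nab_zero]
  | insert a s ha ih => rw [Finset.sum_insert ha, Finset.sum_insert ha, nab_add, ih]

theorem nab_mem (f : Basis ι K V) (D : Derivation R K K) {S : Set ι} {x : V}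
    (hx : x ∈ Submodule.span K (f '' S)) : nab f D x ∈ Submodule.span K (f '' S) := by
  rw [f.mem_span_image] at hx
  refine Submodule.sum_mem _ fun i _ => ?_
  by_cases h : f.repr x i = 0
  · rw [h, map_zero, zero_smul]; exact Submodule.zero_mem _
  · exact Submodule.smul_mem _ _ (Submodule.subset_span ⟨i, hx (by simpa using h), rfl⟩)

/-- the difference of two connections is linear -/
noncomputable def dif (f f' : Basis ι K V) (D : Derivation R K K) : V →ₗ[K] V where
  toFun x := nab f D x - nab f' D x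
  map_add' x y := by rw [nab_add, nab_add]; abel
  map_smul' c x := by
    rw [nab_smul, nab_smul, RingHom.id_apply, smul_sub]; abel

theorem dif_apply (f f' : Basis ι K V) (D : Derivation R K K) (x : V) :
    dif f f' D x = nab f D x - nab f' D x := rfl

end conn

/-- a strictly filtered operator has trace zero -/
theorem trace_eq_zero_of_strict [FiniteDimensional K V] (A : ℕ → Submodule K V) (hA0 : A 0 = ⊥)
    (p : ℕ) (hAp : A p = ⊤) (T : V →ₗ[K] V) (hT : ∀ j, ∀ x ∈ A (j + 1), T x ∈ A j) :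
    LinearMap.trace K V T = 0 := by
  have h1 : ∀ j, ∀ x ∈ A j, (T ^ j) x = 0 := by
    intro j
    induction j with
    | zero =>
      intro x hx
      rw [hA0, Submodule.mem_bot] at hx
      rw [hx]; simp
    | succ j ih =>
      intro x hx
      rw [pow_succ]
      exact ih _ (hT j x hx)
  have h2 : T ^ p = 0 := by
    ext x
    exact h1 p x (by rw [hAp]; trivial)
  exact (LinearMap.isNilpotent_trace_of_isNilpotent ⟨p, h2⟩).eq_zero

section main

variable {δ κ m : Type*} [Fintype δ] [Fintype κ] [DecidableEq κ] [Fintype m]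

/-- `Ψ_s v = Σ_{d ∈ s} ω(v, F_{σ d}) F_d` -/
noncomputable def Psi (w : LinearMap.BilinForm K V) (arm : δ → κ) (σ : δ → δ) (F : δ → V)
    (s : κ) : V →ₗ[K] V :=
  ∑ d ∈ Finset.univ.filter (fun d => arm d = s), (w.flip (F (σ d))).smulRight (F d)

theorem Psi_apply (w : LinearMap.BilinForm K V) (arm : δ → κ) (σ : δ → δ) (F : δ → V)
    (s : κ) (v : V) :
    Psi w arm σ F s v = ∑ d ∈ Finset.univ.filter (fun d => arm d = s), w v (F (σ d)) • F d := by
  rw [Psi, LinearMap.sum_apply]
  rfl

theorem trace_mul_Psi [FiniteDimensional K V] (w : LinearMap.BilinForm K V) (arm : δ → κ)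
    (σ : δ → δ) (F : δ → V) (s : κ) (X : V →ₗ[K] V) :
    LinearMap.trace K V (X ∘ₗ Psi w arm σ F s) =
      ∑ d ∈ Finset.univ.filter (fun d => arm d = s), w (X (F d)) (F (σ d)) := by
  have h : X ∘ₗ Psi w arm σ F s = ∑ d ∈ Finset.univ.filter (fun d => arm d = s),
      (w.flip (F (σ d))).smulRight (X (F d)) := by
    ext v
    rw [LinearMap.comp_apply, Psi_apply, map_sum, LinearMap.sum_apply]
    refine Finset.sum_congr rfl fun d _ => ?_
    rw [map_smul]
    rfl
  rw [h, map_sum]
  refine Finset.sum_congr rfl fun d _ => ?_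
  rw [LinearMap.trace_smulRight]
  rfl

/-- the Liouville form vanishes -/
theorem liouville [FiniteDimensional K V] {R : Type*} [CommRing R] [Algebra R K]
    (w : LinearMap.BilinForm K V)
    (arm : δ → κ) (σ : δ → δ) (lev : δ → ℕ) (F : δ → V)
    (hW : ∀ d d', arm d' = arm d → lev d' ≤ lev d → w (F d') (F (σ d)) = 0)
    (M : ℕ) (hnil : ∀ l : List κ, l.length = M → (l.map (Psi w arm σ F)).prod = 0)
    (D : Derivation R K K) :
    ∃ f : Basis (Fin (finrank K V)) K V, ∑ d, w (nab f D (F d)) (F (σ d)) = 0 := by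
  classical
  let e := Module.finBasis K V
  set A : ℕ → Submodule K V := Kfil (Psi w arm σ F) with hAdef
  have hAm : Monotone A := Kfil_mono _
  have hA0 : A 0 = ⊥ := rfl
  have hAM : A M = ⊤ := Kfil_eq_top_of_words hnil
  let N : ℕ := Finset.univ.sup lev + 1
  have hN : ∀ d, lev d < N := fun d => Nat.lt_succ_of_le (Finset.le_sup (Finset.mem_univ d))
  let C : κ → ℕ → Submodule K V := fun s j =>
    if j ≤ N then Submodule.span K (F '' {d | arm d = s ∧ lev d < j}) else ⊤
  have hC1 : ∀ s j, j ≤ N → C s j = Submodule.span K (F '' {d | arm d = s ∧ lev d < j}) :=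
    fun s j hj => if_pos hj
  have hCm : ∀ s, Monotone (C s) := by
    intro s i j hij
    by_cases hj : j ≤ N
    · rw [hC1 s i (hij.trans hj), hC1 s j hj]
      refine Submodule.span_mono (Set.image_mono ?_)
      rintro d ⟨h1, h2⟩
      exact ⟨h1, h2.trans_le hij⟩
    · have : C s j = ⊤ := if_neg hj
      rw [this]; exact le_top
  have hC0 : ∀ s, C s 0 = ⊥ := by
    intro s
    rw [hC1 s 0 (Nat.zero_le _)]
    simp
  have hCN : ∀ s, C s (N + 1) = ⊤ := fun s => if_neg (by omega)
  choose f hf1 hf2 using fun s => exists_two_chains e A (C s) hAm hA0 M hAM (hCm s) (hC0 s)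
    (N + 1) (hCN s)
  obtain ⟨f0, hf0, -⟩ := exists_two_chains e A A hAm hA0 M hAM hAm hA0 M hAM
  refine ⟨f0, ?_⟩
  have hpres : ∀ s j, ∀ x ∈ A j, dif f0 (f s) D x ∈ A j := by
    intro s j x hx
    rw [dif_apply]
    refine Submodule.sub_mem _ ?_ ?_
    · obtain ⟨S, hS⟩ := hf0 j
      rw [hS] at hx ⊢
      exact nab_mem f0 D hx
    · obtain ⟨S, hS⟩ := hf1 s j
      rw [hS] at hx ⊢
      exact nab_mem (f s) D hx
  have htr : ∀ s, ∑ d ∈ Finset.univ.filter (fun d => arm d = s),
      w (dif f0 (f s) D (F d)) (F (σ d)) = 0 := by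
    intro s
    rw [← trace_mul_Psi]
    refine trace_eq_zero_of_strict A hA0 M hAM _ fun j x hx => ?_
    exact hpres s j _ (mem_Kfil_succ.1 hx s)
  have hflat : ∀ d, w (nab (f (arm d)) D (F d)) (F (σ d)) = 0 := by
    intro d
    have hmem : F d ∈ C (arm d) (lev d + 1) := by
      rw [hC1 _ _ (hN d)]
      exact Submodule.subset_span ⟨d, ⟨rfl, Nat.lt_succ_self _⟩, rfl⟩
    have hmem2 : nab (f (arm d)) D (F d) ∈ C (arm d) (lev d + 1) := by
      obtain ⟨S, hS⟩ := hf2 (arm d) (lev d + 1)
      rw [hS] at hmem ⊢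
      exact nab_mem _ D hmem
    rw [hC1 _ _ (hN d)] at hmem2
    have hle : Submodule.span K (F '' {d' | arm d' = arm d ∧ lev d' < lev d + 1}) ≤
        LinearMap.ker (w.flip (F (σ d))) := by
      rw [Submodule.span_le]
      rintro _ ⟨d', ⟨h1, h2⟩, rfl⟩
      exact hW d d' h1 (Nat.lt_succ_iff.mp h2)
    exact hle hmem2
  have hsplit : ∑ d, w (nab f0 D (F d)) (F (σ d)) =
      ∑ s, ∑ d ∈ Finset.univ.filter (fun d => arm d = s), w (nab f0 D (F d)) (F (σ d)) :=
    (Finset.sum_fiberwise _ _ _).symm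
  rw [hsplit]
  refine Finset.sum_eq_zero fun s _ => ?_
  rw [← htr s]
  refine Finset.sum_congr rfl fun d hd => ?_
  have hd' : arm d = s := (Finset.mem_filter.mp hd).2
  rw [dif_apply, map_sub, LinearMap.sub_apply]
  have := hflat d
  rw [hd'] at this
  rw [this, sub_zero]

/-- **Liouville identity**: `Σ_{jk} ω(R_j,R_k) (D(P)ᵀ J P)_{jk} = 0`. -/
theorem liouville_frame [FiniteDimensional K V] {R : Type*} [CommRing R] [Algebra R K]
    (w : LinearMap.BilinForm K V)
    (arm : δ → κ) (σ : δ → δ) (lev : δ → ℕ) (P : δ → m → K) (r : m → V)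
    (hiso : ∀ j k, ∑ d, P d j * P (σ d) k = 0)
    (hW : ∀ d d', arm d' = arm d → lev d' ≤ lev d →
      w (∑ j, P d' j • r j) (∑ j, P (σ d) j • r j) = 0)
    (M : ℕ) (hnil : ∀ l : List κ, l.length = M →
      (l.map (Psi w arm σ (fun d => ∑ j, P d j • r j))).prod = 0)
    (D : Derivation R K K) :
    ∑ j, ∑ k, w (r j) (r k) * ∑ d, D (P d j) * P (σ d) k = 0 := by
  classical
  obtain ⟨f, hf⟩ := liouville w arm σ lev (fun d => ∑ j, P d j • r j) hW M hnil D
  have h1 : ∀ d, w (nab f D (∑ j, P d j • r j)) (∑ k, P (σ d) k • r k) =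
      ∑ j, ∑ k, (w (r j) (r k) * (D (P d j) * P (σ d) k) +
        w (nab f D (r j)) (r k) * (P d j * P (σ d) k)) := by
    intro d
    have e : ∀ (a : m → V) (y : V), w (∑ j, a j) y = ∑ j, w (a j) y := by
      intro a y
      rw [map_sum, LinearMap.sum_apply]
    rw [nab_sum, e]
    refine Finset.sum_congr rfl fun j _ => ?_
    rw [map_sum]
    refine Finset.sum_congr rfl fun k _ => ?_
    rw [nab_smul]
    simp only [map_add, LinearMap.add_apply, map_smul, LinearMap.smul_apply, smul_eq_mul]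
    ring
  have h2 : ∑ d, w (nab f D (∑ j, P d j • r j)) (∑ k, P (σ d) k • r k) =
      ∑ j, ∑ k, (w (r j) (r k) * ∑ d, D (P d j) * P (σ d) k) +
        ∑ j, ∑ k, w (nab f D (r j)) (r k) * ∑ d, P d j * P (σ d) k := by
    rw [Finset.sum_congr rfl fun d _ => h1 d, Finset.sum_comm, ← Finset.sum_add_distrib]
    refine Finset.sum_congr rfl fun j _ => ?_
    rw [Finset.sum_comm, ← Finset.sum_add_distrib]
    refine Finset.sum_congr rfl fun k _ => ?_
    rw [Finset.sum_add_distrib, Finset.mul_sum, Finset.mul_sum]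
  have h3 : ∑ j, ∑ k, w (nab f D (r j)) (r k) * ∑ d, P d j * P (σ d) k = 0 :=
    Finset.sum_eq_zero fun j _ => Finset.sum_eq_zero fun k _ => by rw [hiso, mul_zero]
  rw [h3, add_zero] at h2
  rw [← h2]
  exact hf

/-- **NIL^sp, abstract form.** -/
theorem nil_sp [FiniteDimensional K V] {R : Type*} [CommRing R] [Algebra R K] (h2 : (2 : K) ≠ 0)
    (w : LinearMap.BilinForm K V) (hskew : ∀ x y, w x y = - w y x)
    (arm : δ → κ) (σ : δ → δ) (lev : δ → ℕ) (P : δ → m → K) (r : m → V)
    (hiso : ∀ j k, ∑ d, P d j * P (σ d) k = 0)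
    (hW : ∀ d d', arm d' = arm d → lev d' ≤ lev d →
      w (∑ j, P d' j • r j) (∑ j, P (σ d) j • r j) = 0)
    (M : ℕ) (hnil : ∀ l : List κ, l.length = M →
      (l.map (Psi w arm σ (fun d => ∑ j, P d j • r j))).prod = 0)
    (hdir : ∀ G : m → m → K, (∀ j k, G j k = - G k j) →
      ∃ D : Derivation R K K, ∀ j k, ∑ d, D (P d j) * P (σ d) k = G j k)
    (j k : m) : w (r j) (r k) = 0 := by
  classical
  obtain ⟨D, hD⟩ := hdir (fun a b => (if a = j ∧ b = k then 1 else 0) -
    (if a = k ∧ b = j then 1 else 0)) (by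
      intro a b
      have h1 : (if b = j ∧ a = k then (1 : K) else 0) = if a = k ∧ b = j then 1 else 0 := by
        simp only [and_comm]
      have h2 : (if b = k ∧ a = j then (1 : K) else 0) = if a = j ∧ b = k then 1 else 0 := by
        simp only [and_comm]
      rw [h1, h2]; ring)
  have h := liouville_frame w arm σ lev P r hiso hW M hnil D
  simp only [hD] at h
  have e1 : ∑ a, ∑ b, w (r a) (r b) * (if a = j ∧ b = k then (1 : K) else 0) = w (r j) (r k) := by
    rw [Finset.sum_eq_single j]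
    · rw [Finset.sum_eq_single k]
      · simp
      · intro b _ hb; simp [hb]
      · simp
    · intro a _ ha
      exact Finset.sum_eq_zero fun b _ => by simp [ha]
    · simp
  have e2 : ∑ a, ∑ b, w (r a) (r b) * (if a = k ∧ b = j then (1 : K) else 0) = w (r k) (r j) := by
    rw [Finset.sum_eq_single k]
    · rw [Finset.sum_eq_single j]
      · simp
      · intro b _ hb; simp [hb]
      · simp
    · intro a _ ha
      exact Finset.sum_eq_zero fun b _ => by simp [ha]
    · simp
  have h3 : w (r j) (r k) - w (r k) (r j) = 0 := by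
    simp only [mul_sub, Finset.sum_sub_distrib] at h
    rw [e1, e2] at h
    exact h
  rw [hskew (r k) (r j), sub_neg_eq_add, ← two_mul] at h3
  exact (mul_eq_zero.mp h3).resolve_left h2

end main

end Crest.Agent.R172.SN
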