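import Crest.Agent.R172.FO2
import Crest.Agent.R172.SN1

/-!
Row 172, TAME: the slack theorem (716's note 14318), first order form on `FO.Data`.

* `nil_trace`: `M` nilpotent, `z M = M z` ⇒ `tr (z * D(M)) = 0` for every derivation `D`.
* `realise`: all directions `(X_s, ν)` orthogonal to the `a ∈ V ⊗ L` with `Hᵀ J a` symmetric are
  realised, `dH = X H + ν`.
* `slack`: for `z` selfadjoint, commuting with `Φ_s(H)`, there is `a ∈ V ⊗ L`, `Hᵀ J a` symmetric,
  `H_t B a_tᵀ` symmetric for all `t`, with `a - z H_s ∈ N`.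
-/

set_option autoImplicit false
set_option linter.unusedSectionVars false

namespace Crest.Agent.R172.Slack

open Matrix Crest.Agent.R172.FO Module

section nil

variable {K : Type*} [Field K] {R : Type*} [CommRing R] [Algebra R K]

theorem nil_trace_lin {V ι : Type*} [AddCommGroup V] [Module K V] [Fintype ι]
    [FiniteDimensional K V] (e : Basis ι K V) (D : Derivation R K K) (M z dM : V →ₗ[K] V)
    {p : ℕ} (hM : M ^ p = 0) (hz : z ∘ₗ M = M ∘ₗ z)
    (hd : ∀ x, SN.nab e D (M x) = dM x + M (SN.nab e D x)) :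
    LinearMap.trace K V (z ∘ₗ dM) = 0 := by
  classical
  have hmono : Monotone (fun j : ℕ => LinearMap.ker (M ^ j)) := by
    intro i j hij x hx
    obtain ⟨c, rfl⟩ := Nat.exists_eq_add_of_le hij
    rw [LinearMap.mem_ker] at hx ⊢
    rw [add_comm, pow_add, Module.End.mul_apply, hx, map_zero]
  obtain ⟨f, lev, -, -, hf⟩ := NilPat.exists_adapted_chain e (fun j => LinearMap.ker (M ^ j))
    hmono (by
      show LinearMap.ker (M ^ 0) = ⊥
      rw [pow_zero, LinearMap.ker_eq_bot']
      intro x hx
      exact hx) p (by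
      show LinearMap.ker (M ^ p) = ⊤
      rw [hM, LinearMap.ker_zero])
  have hnab : ∀ j, ∀ x ∈ LinearMap.ker (M ^ j), SN.nab f D x ∈ LinearMap.ker (M ^ j) := by
    intro j x hx
    have h1 := hf j
    have h2 : x ∈ Submodule.span K (f '' {i | lev i ≤ j}) := by
      rw [← h1]; exact hx
    have h3 := SN.nab_mem f D h2
    rw [← h1] at h3
    exact h3
  set Y := SN.dif e f D with hY
  set T : V →ₗ[K] V := dM - Y ∘ₗ M + M ∘ₗ Y with hT
  have hTx : ∀ x, T x = SN.nab f D (M x) - M (SN.nab f D x) := by
    intro x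
    simp only [hT, hY, LinearMap.add_apply, LinearMap.sub_apply, LinearMap.comp_apply,
      SN.dif_apply, map_sub]
    rw [hd x]
    abel
  have hstep : ∀ j, ∀ x ∈ LinearMap.ker (M ^ (j + 1)), M x ∈ LinearMap.ker (M ^ j) := by
    intro j x hx
    rw [LinearMap.mem_ker] at hx ⊢
    rw [pow_succ, Module.End.mul_apply] at hx
    exact hx
  have hzc : ∀ j, ∀ x, (M ^ j) (z x) = z ((M ^ j) x) := by
    intro j
    induction j with
    | zero => intro x; simp
    | succ j ih =>
      intro x
      rw [pow_succ, Module.End.mul_apply, Module.End.mul_apply]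
      have : M (z x) = z (M x) := (LinearMap.congr_fun hz x).symm
      rw [this, ih]
  have htr : LinearMap.trace K V (z ∘ₗ T) = 0 := by
    apply SN.trace_eq_zero_of_strict (fun j => LinearMap.ker (M ^ j)) (by
      show LinearMap.ker (M ^ 0) = ⊥
      rw [pow_zero, LinearMap.ker_eq_bot']
      intro x hx
      exact hx) p (by
      show LinearMap.ker (M ^ p) = ⊤
      rw [hM, LinearMap.ker_zero])
    intro j x hx
    rw [LinearMap.comp_apply, LinearMap.mem_ker, hzc, hTx]
    have h1 : SN.nab f D (M x) ∈ LinearMap.ker (M ^ j) := hnab j _ (hstep j x hx)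
    have h2 : M (SN.nab f D x) ∈ LinearMap.ker (M ^ j) := hstep j _ (hnab (j + 1) x hx)
    have h3 := (LinearMap.ker (M ^ j)).sub_mem h1 h2
    rw [LinearMap.mem_ker] at h3
    rw [h3, map_zero]
  have h5 : z ∘ₗ T = z ∘ₗ dM - z ∘ₗ (Y ∘ₗ M) + z ∘ₗ (M ∘ₗ Y) := by
    rw [hT, LinearMap.comp_add, LinearMap.comp_sub]
  rw [h5, map_add, map_sub] at htr
  have h6 : LinearMap.trace K V (z ∘ₗ (Y ∘ₗ M)) = LinearMap.trace K V (z ∘ₗ (M ∘ₗ Y)) := by
    have h7 : LinearMap.trace K V ((z ∘ₗ Y) ∘ₗ M) = LinearMap.trace K V (M ∘ₗ (z ∘ₗ Y)) :=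
      LinearMap.trace_mul_comm K (z ∘ₗ Y) M
    rw [← LinearMap.comp_assoc, h7, ← LinearMap.comp_assoc, ← LinearMap.comp_assoc, hz]
  rw [h6] at htr
  simpa using htr

theorem nil_trace {ι : Type*} [Fintype ι] [DecidableEq ι] (D : Derivation R K K)
    (M z : Matrix ι ι K) {p : ℕ} (hM : M ^ p = 0) (hz : z * M = M * z) :
    trace (z * M.map D) = 0 := by
  have h := nil_trace_lin (Pi.basisFun K ι) D (toLin' M) (toLin' z) (toLin' (M.map D)) (p := p)
    (by
      have : (toLin' M) ^ p = toLin' (M ^ p) := by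
        rw [Matrix.toLin'_pow]
      rw [this, hM, map_zero])
    (by rw [← toLin'_mul, ← toLin'_mul, hz])
    (by
      intro x
      have hn : ∀ y : ι → K, SN.nab (Pi.basisFun K ι) D y = fun i => D (y i) := by
        intro y
        ext i
        rw [SN.nab, Finset.sum_apply, Finset.sum_eq_single i]
        · simp
        · intro j _ hj
          simp [hj.symm]
        · simp
      rw [hn, hn]
      ext i
      simp only [toLin'_apply, Pi.add_apply, mulVec, dotProduct, map_sum, Derivation.leibniz,
        smul_eq_mul, map_apply, Finset.sum_add_distrib]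
      rw [add_comm]
      congr 1
      exact Finset.sum_congr rfl fun j _ => mul_comm _ _)
  rwa [← toLin'_mul, trace_toLin'_eq] at h

end nil

section data

variable {ι : Type*} [Fintype ι] [DecidableEq ι] {δ : Type*} [Fintype δ] [DecidableEq δ]
variable {k K : Type*} [Field k] [Field K] [Algebra k K]
variable {arm : δ → Fin 3} {J : Matrix ι ι K} {B : Matrix δ δ K}
  {N W : Submodule K (Matrix ι δ K)}

theorem pair_comm (hJ : Jᵀ = J) (hB : Bᵀ = B) (F G : Matrix ι δ K) :
    pair J B F G = pair J B G F := by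
  unfold pair
  rw [← trace_transpose]
  simp only [transpose_mul, transpose_transpose, hJ, hB]
  rw [trace_mul_comm]
  simp only [Matrix.mul_assoc]

theorem pair_add (F G G' : Matrix ι δ K) :
    pair J B F (G + G') = pair J B F G + pair J B F G' := by
  unfold pair
  rw [Matrix.mul_add, Matrix.add_mul, trace_add]

theorem pair_add_left (F F' G : Matrix ι δ K) :
    pair J B (F + F') G = pair J B F G + pair J B F' G := by
  unfold pair
  rw [transpose_add, Matrix.add_mul, Matrix.add_mul, Matrix.add_mul, trace_add]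

theorem pair_neg (F G : Matrix ι δ K) : pair J B F (-G) = - pair J B F G := by
  unfold pair
  rw [Matrix.mul_neg, Matrix.neg_mul, trace_neg]

theorem pair_sub (F G G' : Matrix ι δ K) :
    pair J B F (G - G') = pair J B F G - pair J B F G' := by
  rw [sub_eq_add_neg, pair_add, pair_neg, sub_eq_add_neg]

theorem pair_smul (c : K) (F G : Matrix ι δ K) : pair J B F (c • G) = c * pair J B F G := by
  unfold pair
  rw [Matrix.mul_smul, Matrix.smul_mul, trace_smul, smul_eq_mul]

theorem pair_zero (F : Matrix ι δ K) : pair J B F 0 = 0 := by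
  unfold pair
  rw [Matrix.mul_zero, Matrix.zero_mul, trace_zero]

/-- every linear functional on `V ⊗ U` is a pairing -/
theorem dual_repr (hJ : Jᵀ = J) (hJu : IsUnit J) (hB : Bᵀ = B) (hBu : IsUnit B)
    (φ : Matrix ι δ K →ₗ[K] K) : ∃ a : Matrix ι δ K, ∀ F, φ F = pair J B a F := by
  obtain ⟨Ji, hJi, hJi', hJit⟩ := symm_inv hJ hJu
  obtain ⟨Bi, hBi, hBi', hBit⟩ := symm_inv hB hBu
  refine ⟨Ji * (Matrix.of fun i j => φ (Matrix.single i j 1)) * Bi, fun F => ?_⟩
  have h1 : φ F = trace ((Matrix.of fun i j => φ (Matrix.single i j 1))ᵀ * F) := by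
    conv_lhs => rw [matrix_eq_sum_single F]
    rw [map_sum]
    simp_rw [map_sum]
    rw [Finset.sum_comm]
    simp only [trace, diag_apply, mul_apply, transpose_apply, of_apply]
    refine Finset.sum_congr rfl fun j _ => Finset.sum_congr rfl fun i _ => ?_
    have : (Matrix.single i j (F i j) : Matrix ι δ K) = F i j • Matrix.single i j 1 := by
      rw [Matrix.smul_single, smul_eq_mul, mul_one]
    rw [this, map_smul, smul_eq_mul, mul_comm]
  rw [h1]
  generalize (Matrix.of fun i j => φ (Matrix.single i j 1)) = C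
  unfold pair
  rw [transpose_mul, transpose_mul, hJit, hBit]
  have : Bi * (Cᵀ * Ji) * J * F * B = Bi * (Cᵀ * F * B) := by
    simp only [Matrix.mul_assoc]
    rw [← Matrix.mul_assoc Ji J, hJi', Matrix.one_mul]
  rw [this, trace_mul_comm Bi, Matrix.mul_assoc (Cᵀ * F), hBi, Matrix.mul_one]

/-- the double orthogonal -/
theorem mem_of_pair (hJ : Jᵀ = J) (hJu : IsUnit J) (hB : Bᵀ = B) (hBu : IsUnit B)
    (S : Submodule K (Matrix ι δ K)) (w : Matrix ι δ K)
    (h : ∀ a, (∀ G ∈ S, pair J B a G = 0) → pair J B a w = 0) : w ∈ S := by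
  rw [← Subspace.forall_mem_dualAnnihilator_apply_eq_zero_iff]
  intro φ hφ
  obtain ⟨a, ha⟩ := dual_repr hJ hJu hB hBu φ
  rw [ha]
  apply h
  intro G hG
  rw [← ha]
  exact (Submodule.mem_dualAnnihilator φ).1 hφ G hG

/-- the subspace of the `a ∈ V ⊗ L` with `Hᵀ J a` symmetric -/
def Wsym (J : Matrix ι ι K) (W : Submodule K (Matrix ι δ K)) (H : Matrix ι δ K) :
    Submodule K (Matrix ι δ K) where
  carrier := {a | a ∈ W ∧ aᵀ * J * H = Hᵀ * J * a}
  add_mem' := by
    rintro a b ⟨ha, ha'⟩ ⟨hb, hb'⟩
    refine ⟨W.add_mem ha hb, ?_⟩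
    rw [transpose_add, Matrix.add_mul, Matrix.add_mul, ha', hb', Matrix.mul_add]
  zero_mem' := ⟨W.zero_mem, by simp⟩
  smul_mem' := by
    rintro c a ⟨ha, ha'⟩
    refine ⟨W.smul_mem c ha, ?_⟩
    rw [transpose_smul, Matrix.smul_mul, Matrix.smul_mul, ha', Matrix.mul_smul]

/-- `AA` of 14318: moreover `H_s B a_sᵀ` symmetric for all `s` -/
def AA (arm : δ → Fin 3) (J : Matrix ι ι K) (B : Matrix δ δ K) (W : Submodule K (Matrix ι δ K))
    (H : Matrix ι δ K) : Submodule K (Matrix ι δ K) where
  carrier := {a | (a ∈ W ∧ aᵀ * J * H = Hᵀ * J * a) ∧ ∀ s, M arm B s H a = M arm B s a H}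
  add_mem' := by
    rintro a b ⟨⟨ha, ha'⟩, ha2⟩ ⟨⟨hb, hb'⟩, hb2⟩
    refine ⟨⟨W.add_mem ha hb, ?_⟩, fun s => ?_⟩
    · rw [transpose_add, Matrix.add_mul, Matrix.add_mul, ha', hb', Matrix.mul_add]
    · have h1 := ha2 s
      have h2 := hb2 s
      unfold M at h1 h2 ⊢
      rw [transpose_add, Matrix.mul_add, h1, h2, Matrix.add_mul, Matrix.add_mul, Matrix.add_mul]
  zero_mem' := ⟨⟨W.zero_mem, by simp⟩, fun s => by simp [M]⟩
  smul_mem' := by
    rintro c a ⟨⟨ha, ha'⟩, ha2⟩
    refine ⟨⟨W.smul_mem c ha, ?_⟩, fun s => ?_⟩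
    · rw [transpose_smul, Matrix.smul_mul, Matrix.smul_mul, ha', Matrix.mul_smul]
    · have h1 := ha2 s
      unfold M at h1 ⊢
      rw [transpose_smul, Matrix.mul_smul, h1, Matrix.smul_mul, Matrix.smul_mul, Matrix.smul_mul]

/-- `K ⊂ AA` -/
theorem mem_AA_of_mem (hD : Data k arm J B N W) {H F : Matrix ι δ K} (hH : H ∈ N ⊓ W)
    (hF : F ∈ N ⊓ W) : F ∈ AA arm J B W H :=
  ⟨⟨hF.2, hD.symm_U hH hF⟩, fun s => hD.symm_arm hH hF s⟩

/-- skew matrices for the form `B`, written with `Bi` -/
theorem skew_Bi {B Bi G : Matrix δ δ K} (hBi : B * Bi = 1) (hBi' : Bi * B = 1)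
    (hBit : Biᵀ = Bi) (hG : Gᵀ = -G) : (Bi * G)ᵀ * B + B * (Bi * G) = 0 := by
  rw [transpose_mul, hG, hBit, Matrix.neg_mul, Matrix.neg_mul, Matrix.mul_assoc, hBi',
    Matrix.mul_one, ← Matrix.mul_assoc, hBi, Matrix.one_mul, neg_add_cancel]

/-- **Realisation**: a direction `(X_s, ν)` is realised if it is orthogonal to `Wsym`. -/
theorem realise (hD : Data k arm J B N W)
    (hWmax : ∀ F, (∀ G ∈ W, pair J B F G = 0) → F ∈ W) {H : Matrix ι δ K}
    (hH : Generic k arm N W H) (X : Fin 3 → Matrix ι ι K)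
    (hX : ∀ s, (X s)ᵀ * J + J * X s = 0) {ν : Matrix ι δ K} (hν : ν ∈ N)
    (hort : ∀ a ∈ Wsym J W H, pair J B (act arm X H + ν) a = 0) :
    ∃ (ξ : Matrix δ δ K) (d : Derivation k K K), ξᵀ * B + B * ξ = 0 ∧
      Realises arm N W X ξ d ∧ H.map d = act arm X H + ν := by
  obtain ⟨Bi, hBi, hBi', hBit⟩ := symm_inv hD.B_symm hD.B_unit
  -- the subspace `{H ξᵀ} + W`
  let S : Submodule K (Matrix ι δ K) :=
    { carrier := {w | ∃ ξ : Matrix δ δ K, ξᵀ * B + B * ξ = 0 ∧ w - H * ξᵀ ∈ W}
      add_mem' := by
        rintro a b ⟨ξ, h1, h2⟩ ⟨ξ', h1', h2'⟩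
        refine ⟨ξ + ξ', ?_, ?_⟩
        · rw [transpose_add, Matrix.add_mul, Matrix.mul_add]
          calc _ = (ξᵀ * B + B * ξ) + (ξ'ᵀ * B + B * ξ') := by abel
            _ = 0 := by rw [h1, h1', add_zero]
        · rw [transpose_add, Matrix.mul_add]
          have := W.add_mem h2 h2'
          convert this using 1
          abel
      zero_mem' := ⟨0, by simp, by simp⟩
      smul_mem' := by
        rintro c a ⟨ξ, h1, h2⟩
        refine ⟨c • ξ, ?_, ?_⟩
        · rw [transpose_smul, Matrix.smul_mul, Matrix.mul_smul, ← smul_add, h1, smul_zero]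
        · rw [transpose_smul, Matrix.mul_smul, ← smul_sub]
          exact W.smul_mem c h2 }
  have hmem : act arm X H + ν ∈ S := by
    apply mem_of_pair hD.J_symm hD.J_unit hD.B_symm hD.B_unit S
    intro a ha
    have haW : a ∈ W := by
      apply hWmax
      intro G hG
      exact ha G ⟨0, by simp, by simpa using hG⟩
    have hsym : aᵀ * J * H = Hᵀ * J * a := by
      have key : (Hᵀ * J * a)ᵀ = Hᵀ * J * a := by
        apply symm_of_trace_skew
        intro G hG
        have h1 := ha (H * (Bi * G)ᵀ) ⟨Bi * G, skew_Bi hBi hBi' hBit hG, by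
          rw [sub_self]; exact W.zero_mem⟩
        rw [pair_comm hD.J_symm hD.B_symm] at h1
        unfold pair at h1
        rw [transpose_mul, transpose_transpose] at h1
        have h2 : Bi * G * Hᵀ * J * a * B = Bi * (G * (Hᵀ * J * a) * B) := by
          simp only [Matrix.mul_assoc]
        rw [h2, trace_mul_comm, Matrix.mul_assoc (G * (Hᵀ * J * a)), hBi, Matrix.mul_one] at h1
        exact h1
      rw [transpose_mul, transpose_mul, transpose_transpose, hD.J_symm, ← Matrix.mul_assoc] at key
      exact key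
    rw [pair_comm hD.J_symm hD.B_symm]
    exact hort a ⟨haW, hsym⟩
  obtain ⟨ξ, hξ, hξW⟩ := hmem
  obtain ⟨d0, hd0⟩ := hD.dir X ξ hX hξ
  have h1 : H.map d0 - (act arm X H + ν) ∈ N ⊓ W := by
    constructor
    · have e : H.map d0 - (act arm X H + ν) = (H.map d0 - act arm X H) - ν := by abel
      rw [e]
      exact N.sub_mem (hd0.onN H hH.mem.1) hν
    · have e : H.map d0 - (act arm X H + ν)
          = (H.map d0 - H * ξᵀ) - (act arm X H + ν - H * ξᵀ) := by abel
      rw [e]
      exact W.sub_mem (hd0.onW H hH.mem.2) hξW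
  obtain ⟨d1, hd1, hr⟩ := hH.vert _ h1
  have hsub : ∀ G : Matrix ι δ K, G.map (d0 - d1) = G.map d0 - G.map d1 := by
    intro G; ext i j; simp
  refine ⟨ξ, d0 - d1, hξ, ⟨?_, ?_⟩, ?_⟩
  · intro G hG
    have h2 := hd0.onN G hG
    have h3 := hr.onN G hG
    rw [act_zero, sub_zero] at h3
    rw [hsub]
    have : G.map d0 - G.map d1 - act arm X G = (G.map d0 - act arm X G) - G.map d1 := by abel
    rw [this]
    exact N.sub_mem h2 h3
  · intro G hG
    have h2 := hd0.onW G hG
    have h3 := hr.onW G hG
    rw [transpose_zero, Matrix.mul_zero, sub_zero] at h3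
    rw [hsub]
    have : G.map d0 - G.map d1 - G * ξᵀ = (G.map d0 - G * ξᵀ) - G.map d1 := by abel
    rw [this]
    exact W.sub_mem h2 h3
  · rw [hsub, hd1]
    abel

/-- derivative of `M_s(H,H)` when `dH = XH + ν` -/
theorem map_M_nu (hD : Data k arm J B N W) (H ν : Matrix ι δ K)
    (X : Fin 3 → Matrix ι ι K) (d : Derivation k K K) (hd : H.map d = act arm X H + ν)
    (s : Fin 3) :
    (M arm B s H H).map d = X s * M arm B s H H + M arm B s H H * (X s)ᵀ
      + (M arm B s ν H + M arm B s H ν) := by
  have h1 : (M arm B s H H).map d = M arm B s (H.map d) H + M arm B s H (H.map d) := by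
    unfold M
    rw [map_mul_der, map_mul_der, map_mul_der, hD.B_const, E_map_der, map_transpose_der,
      Matrix.mul_zero, Matrix.mul_zero, add_zero, add_zero]
  have h2 : M arm B s (act arm X H) H = X s * M arm B s H H := by
    unfold M
    rw [act_mul_E]
    simp only [Matrix.mul_assoc]
  have h3 : M arm B s H (act arm X H) = M arm B s H H * (X s)ᵀ := by
    have h4 : M arm B s H (act arm X H) = H * B * (act arm X H * E K arm s)ᵀ := by
      unfold M
      rw [transpose_mul, E_transpose]
      simp only [Matrix.mul_assoc]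
      rw [← Matrix.mul_assoc (E K arm s) B, hD.B_arm, Matrix.mul_assoc]
    have h5 : M arm B s H H * (X s)ᵀ = H * B * (X s * H * E K arm s)ᵀ := by
      unfold M
      rw [transpose_mul _ (E K arm s), E_transpose, transpose_mul]
      simp only [Matrix.mul_assoc]
      rw [← Matrix.mul_assoc (E K arm s) B, hD.B_arm, Matrix.mul_assoc]
    rw [h4, h5, act_mul_E]
  rw [h1, hd]
  have h6 : M arm B s (act arm X H + ν) H = M arm B s (act arm X H) H + M arm B s ν H := by
    unfold M
    rw [Matrix.add_mul, Matrix.add_mul, Matrix.add_mul]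
  have h7 : M arm B s H (act arm X H + ν) = M arm B s H (act arm X H) + M arm B s H ν := by
    unfold M
    rw [transpose_add, Matrix.mul_add]
  rw [h6, h7, h2, h3]
  abel

theorem M_transpose (hD : Data k arm J B N W) (F G : Matrix ι δ K) (s : Fin 3) :
    (M arm B s F G)ᵀ = M arm B s G F := by
  unfold M
  rw [transpose_mul, transpose_mul, transpose_mul, transpose_transpose, E_transpose, hD.B_symm]
  simp only [Matrix.mul_assoc]
  rw [← Matrix.mul_assoc B, ← hD.B_arm, Matrix.mul_assoc]

/-- **THE SLACK THEOREM** (14318). -/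
theorem slack (h2 : (2 : K) ≠ 0) (hD : Data k arm J B N W)
    (hNmax : ∀ F, (∀ G ∈ N, pair J B F G = 0) → F ∈ N)
    (hWmax : ∀ F, (∀ G ∈ W, pair J B F G = 0) → F ∈ W) {H : Matrix ι δ K}
    (hH : Generic k arm N W H) (s : Fin 3) {p : ℕ} (hnil : (Phi arm J B H s) ^ p = 0)
    (z : Matrix ι ι K) (hz : zᵀ * J = J * z)
    (hzc : z * Phi arm J B H s = Phi arm J B H s * z) :
    ∃ a ∈ AA arm J B W H, a - z * H * E K arm s ∈ N := by
  classical
  obtain ⟨Ji, hJi, hJi', hJit⟩ := symm_inv hD.J_symm hD.J_unit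
  -- it is enough that `z H_s ∈ N + AA`
  suffices h : z * H * E K arm s ∈ N ⊔ AA arm J B W H by
    obtain ⟨ν, hν, a, ha, he⟩ := Submodule.mem_sup.1 h
    refine ⟨a, ha, ?_⟩
    rw [← he]
    have : a - (ν + a) = -ν := by abel
    rw [this]
    exact N.neg_mem hν
  apply mem_of_pair hD.J_symm hD.J_unit hD.B_symm hD.B_unit
  intro ν hν
  have hνN : ν ∈ N := hNmax ν fun G hG => hν G (Submodule.mem_sup_left hG)
  have hνA : ∀ a ∈ AA arm J B W H, pair J B ν a = 0 := fun a ha =>
    hν a (Submodule.mem_sup_right ha)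
  -- find `X` with `X H + ν ⊥ Wsym`
  have hX : ∃ X : Fin 3 → Matrix ι ι K, (∀ t, (X t)ᵀ * J + J * X t = 0) ∧
      ∀ a ∈ Wsym J W H, pair J B (act arm X H + ν) a = 0 := by
    let S : Submodule K (Matrix ι δ K) :=
      { carrier := {w | ∃ X : Fin 3 → Matrix ι ι K, (∀ t, (X t)ᵀ * J + J * X t = 0) ∧
          ∀ a ∈ Wsym J W H, pair J B (act arm X H + w) a = 0}
        add_mem' := by
          rintro a b ⟨X, h1, h2⟩ ⟨X', h1', h2'⟩
          refine ⟨fun t => X t + X' t, fun t => ?_, fun c hc => ?_⟩
          · rw [transpose_add, Matrix.add_mul, Matrix.mul_add]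
            calc _ = ((X t)ᵀ * J + J * X t) + ((X' t)ᵀ * J + J * X' t) := by abel
              _ = 0 := by rw [h1, h1', add_zero]
          · have h3 : act arm (fun t => X t + X' t) H = act arm X H + act arm X' H := by
              unfold act
              rw [← Finset.sum_add_distrib]
              refine Finset.sum_congr rfl fun t _ => ?_
              rw [Matrix.add_mul, Matrix.add_mul]
            have h4 : act arm (fun t => X t + X' t) H + (a + b)
                = (act arm X H + a) + (act arm X' H + b) := by rw [h3]; abel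
            rw [h4, pair_add_left, h2 c hc, h2' c hc, add_zero]
        zero_mem' := ⟨0, fun t => by simp, fun c hc => by
          rw [act_zero, add_zero, pair_comm hD.J_symm hD.B_symm, pair_zero]⟩
        smul_mem' := by
          rintro c a ⟨X, h1, h2⟩
          refine ⟨fun t => c • X t, fun t => ?_, fun b hb => ?_⟩
          · rw [transpose_smul, Matrix.smul_mul, Matrix.mul_smul, ← smul_add, h1, smul_zero]
          · have h3 : act arm (fun t => c • X t) H = c • act arm X H := by
              unfold act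
              rw [Finset.smul_sum]
              refine Finset.sum_congr rfl fun t _ => ?_
              rw [Matrix.smul_mul, Matrix.smul_mul]
            rw [h3, ← smul_add, pair_comm hD.J_symm hD.B_symm, pair_smul,
              pair_comm hD.J_symm hD.B_symm, h2 b hb, mul_zero] }
    have hmem : ν ∈ S := by
      apply mem_of_pair hD.J_symm hD.J_unit hD.B_symm hD.B_unit S
      intro a ha
      -- `a ∈ Wsym`
      have haW : a ∈ Wsym J W H := by
        apply mem_of_pair hD.J_symm hD.J_unit hD.B_symm hD.B_unit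
        intro w hw
        rw [pair_comm hD.J_symm hD.B_symm]
        apply ha w
        refine ⟨0, fun t => by simp, fun b hb => ?_⟩
        rw [act_zero, zero_add]
        exact hw b hb
      have haA : a ∈ AA arm J B W H := by
        refine ⟨haW, fun t => ?_⟩
        rw [← M_transpose hD]
        apply symm_of_trace_skew
        intro G hG
        have hskew : ∀ u, ((fun u => if u = t then Ji * G else 0 : Fin 3 → Matrix ι ι K) u)ᵀ * J
            + J * ((fun u => if u = t then Ji * G else 0 : Fin 3 → Matrix ι ι K) u) = 0 := by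
          intro u
          by_cases hu : u = t
          · simp only [hu, if_true]
            rw [transpose_mul, hG, hJit, Matrix.neg_mul, Matrix.neg_mul, Matrix.mul_assoc, hJi',
              Matrix.mul_one, ← Matrix.mul_assoc, hJi, Matrix.one_mul, neg_add_cancel]
          · simp [hu]
        have h1 := ha (-(act arm (fun u => if u = t then Ji * G else 0) H))
          ⟨fun u => if u = t then Ji * G else 0, hskew, fun b hb => by
            rw [add_neg_cancel, pair_comm hD.J_symm hD.B_symm, pair_zero]⟩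
        rw [pair_neg, neg_eq_zero, pair_comm hD.J_symm hD.B_symm] at h1
        have hact : act arm (fun u => if u = t then Ji * G else 0) H
            = Ji * G * H * E K arm t := by
          unfold act
          rw [Finset.sum_eq_single t]
          · simp
          · intro u _ hu
            simp [hu]
          · intro h
            exact absurd (Finset.mem_univ t) h
        rw [hact] at h1
        unfold pair at h1
        rw [transpose_mul, transpose_mul, transpose_mul, hG, hJit, E_transpose] at h1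
        have h3 : E K arm t * (Hᵀ * (-G * Ji)) * J * a * B
            = -(E K arm t * (Hᵀ * (G * (a * B)))) := by
          rw [Matrix.neg_mul, Matrix.mul_neg, Matrix.mul_neg, Matrix.neg_mul, Matrix.neg_mul,
            Matrix.neg_mul]
          congr 1
          simp only [Matrix.mul_assoc]
          rw [← Matrix.mul_assoc Ji J, hJi', Matrix.one_mul]
        rw [h3, trace_neg, neg_eq_zero] at h1
        -- trace (G * M t a H)
        have h4 : trace (E K arm t * (Hᵀ * (G * (a * B)))) = trace (G * (a * B * E K arm t * Hᵀ)) := by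
          have : E K arm t * (Hᵀ * (G * (a * B))) = (E K arm t * Hᵀ) * (G * (a * B)) := by
            simp only [Matrix.mul_assoc]
          rw [this, trace_mul_comm]
          simp only [Matrix.mul_assoc]
        rw [h4] at h1
        unfold M
        rw [← h1]
        congr 1
        simp only [Matrix.mul_assoc]
        rw [← Matrix.mul_assoc (E K arm t) B, hD.B_arm, Matrix.mul_assoc]
      have := hνA a haA
      rwa [pair_comm hD.J_symm hD.B_symm] at this
    exact hmem
  obtain ⟨X, hXs, hXo⟩ := hX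
  obtain ⟨ξ, d, hξ, hr, hd⟩ := realise hD hWmax hH X hXs hνN hXo
  have h3 := map_M_nu hD H ν X d hd s
  have h4 := nil_trace d (Phi arm J B H s) z hnil hzc
  have h5 : (Phi arm J B H s).map d = X s * Phi arm J B H s - Phi arm J B H s * X s
      + (M arm B s ν H + M arm B s H ν) * J := by
    unfold Phi
    rw [map_mulJ hD, h3, Matrix.add_mul, Matrix.add_mul]
    have : (X s)ᵀ * J = -(J * X s) := eq_neg_of_add_eq_zero_left (hXs s)
    rw [Matrix.mul_assoc (M arm B s H H) (X s)ᵀ J, this, Matrix.mul_neg, ← sub_eq_add_neg]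
    simp only [Matrix.mul_assoc]
  rw [h5, Matrix.mul_add, Matrix.mul_sub, trace_add, trace_sub] at h4
  have h6 : trace (z * (X s * Phi arm J B H s)) = trace (z * (Phi arm J B H s * X s)) := by
    rw [← Matrix.mul_assoc, trace_mul_comm, ← Matrix.mul_assoc, ← Matrix.mul_assoc, hzc]
  rw [h6, sub_self, zero_add, Matrix.add_mul, Matrix.mul_add, trace_add] at h4
  -- both terms are the pairing
  have h7 : trace (z * (M arm B s ν H * J)) = pair J B ν (z * H * E K arm s) := by
    rw [pair_comm hD.J_symm hD.B_symm]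
    unfold M pair
    rw [transpose_mul, transpose_mul, E_transpose]
    have e1 : E K arm s * (Hᵀ * zᵀ) * J * ν * B = (E K arm s * Hᵀ) * (J * z * ν * B) := by
      rw [← hz]
      simp only [Matrix.mul_assoc]
    have e2 : z * (ν * E K arm s * B * Hᵀ * J) = (z * ν * B) * (E K arm s * Hᵀ) * J := by
      simp only [Matrix.mul_assoc]
      rw [← Matrix.mul_assoc (E K arm s) B, hD.B_arm, Matrix.mul_assoc]
    rw [e1, e2, trace_mul_comm _ J, ← Matrix.mul_assoc, trace_mul_comm]
    simp only [Matrix.mul_assoc]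
  have h8 : trace (z * (M arm B s H ν * J)) = pair J B ν (z * H * E K arm s) := by
    rw [← h7, ← trace_transpose, transpose_mul, transpose_mul, M_transpose hD, hD.J_symm]
    have e1 : J * M arm B s ν H * zᵀ = J * (M arm B s ν H * zᵀ) := by rw [Matrix.mul_assoc]
    have e2 : trace (J * (M arm B s ν H * zᵀ)) = trace (M arm B s ν H * (zᵀ * J)) := by
      rw [trace_mul_comm]
      simp only [Matrix.mul_assoc]
    have e3 : trace (z * (M arm B s ν H * J)) = trace (M arm B s ν H * (J * z)) := by
      rw [trace_mul_comm]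
      simp only [Matrix.mul_assoc]
    rw [e1, e2, hz, e3]
  rw [h7, h8, ← two_mul] at h4
  exact (mul_eq_zero.1 h4).resolve_left h2

end data

end Crest.Agent.R172.Slack
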