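import Crest.Agent.R172.FO2
import Crest.Agent.R172.Slack1

/-!
Row 172 (S0260), TAME (T0), `R = 0`: facts for 824's `Cx`.

* `nil_all`: words of length `m` in ANY elements of `𝒦` kill `1 - e`;
* `gen_add`: `Generic F ⇒ Generic (F + t G)` for all but finitely many constants `t`;
* `D = G p`: `e G = D F`, self-adjoint, commuting with `Φ_r`,
  `Φ_r(F+tG) e = (e + t D)² Φ_r(F) = e Φ_r(F+tG)`;
* `hom`: `z` commuting with all `Φ_r(F+tG)` has `(1-e) z e = 0 = e z (1-e)`.
-/

set_option autoImplicit false
set_option linter.unusedSectionVars false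
set_option maxHeartbeats 400000

namespace Crest.Agent.R172.QN

open Matrix Crest.Agent.R172.FO

variable {ι : Type*} [Fintype ι] [DecidableEq ι] {δ : Type*} [Fintype δ] [DecidableEq δ]
variable {k K : Type*} [Field k] [Field K] [Algebra k K]
variable {arm : δ → Fin 3} {J : Matrix ι ι K} {B : Matrix δ δ K}
  {N W : Submodule K (Matrix ι δ K)}

/-- word operators -/
def wd (Φ : Fin 3 → Matrix ι ι K) (l : List (Fin 3)) : Matrix ι ι K := (l.map Φ).prod

/-- the killing lemma -/
theorem kill {Φ : Fin 3 → Matrix ι ι K} {e y : Matrix ι ι K} {Q : Fin 3 → Matrix ι ι K} {m : ℕ}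
    (hnil : ∀ l : List (Fin 3), l.length = m → wd Φ l * (1 - e) = 0)
    (hy : y = ∑ s, Φ s * y * Q s) (hye : (1 - e) * y = y) : y = 0 := by
  have key : ∀ n, ∀ l : List (Fin 3), l.length + n = m → wd Φ l * y = 0 := by
    intro n
    induction n with
    | zero =>
      intro l hl
      rw [← hye, ← Matrix.mul_assoc, hnil l (by omega), Matrix.zero_mul]
    | succ n ih =>
      intro l hl
      rw [hy, Matrix.mul_sum]
      refine Finset.sum_eq_zero fun s _ => ?_
      have h1 := ih (l ++ [s]) (by simp; omega)
      have h2 : wd Φ (l ++ [s]) = wd Φ l * Φ s := by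
        simp [wd]
      rw [h2] at h1
      calc wd Φ l * (Φ s * y * Q s) = wd Φ l * Φ s * y * Q s := by
            simp only [Matrix.mul_assoc]
        _ = 0 := by rw [h1, Matrix.zero_mul]
  have h := key m [] (by simp)
  simpa [wd] using h

/-- mixed operator -/
def Psi (arm : δ → Fin 3) (J : Matrix ι ι K) (B : Matrix δ δ K) (F G : Matrix ι δ K)
    (s : Fin 3) : Matrix ι ι K := M arm B s F G * J

theorem Psi_self (F : Matrix ι δ K) (s : Fin 3) : Psi arm J B F F s = Phi arm J B F s := rfl

theorem Psi_comm (hD : Data k arm J B N W) {F G : Matrix ι δ K} (hF : F ∈ N ⊓ W)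
    (hG : G ∈ N ⊓ W) (s : Fin 3) : Psi arm J B F G s = Psi arm J B G F s := by
  unfold Psi; rw [hD.symm_arm hF hG]

/-- `Φ_r Ψ_s = Ψ_r Φ_s` -/
theorem Phi_Psi (hD : Data k arm J B N W) {F G : Matrix ι δ K} (hF : F ∈ N ⊓ W)
    (hG : G ∈ N ⊓ W) (r s : Fin 3) :
    Phi arm J B F r * Psi arm J B F G s = Psi arm J B F G r * Phi arm J B F s := by
  have h1 := hD.symm_U hF hG
  rw [Psi_comm hD hF hG s]
  unfold Phi Psi M
  calc F * E K arm r * B * Fᵀ * J * (G * E K arm s * B * Fᵀ * J)
      = F * E K arm r * B * (Fᵀ * J * G) * E K arm s * B * Fᵀ * J := by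
        simp only [Matrix.mul_assoc]
    _ = F * E K arm r * B * (Gᵀ * J * F) * E K arm s * B * Fᵀ * J := by rw [h1]
    _ = F * E K arm r * B * Gᵀ * J * (F * E K arm s * B * Fᵀ * J) := by
        simp only [Matrix.mul_assoc]

/-- the multilinear words -/
def Wd (arm : δ → Fin 3) (J : Matrix ι ι K) (B : Matrix δ δ K) :
    List (Fin 3) → (ℕ → Matrix ι δ K) → Matrix ι ι K
  | [], _ => 1
  | s :: l, a => M arm B s (a 0) (a 1) * J * Wd arm J B l (fun n => a (n + 2))

theorem Wd_const (F : Matrix ι δ K) (l : List (Fin 3)) :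
    Wd arm J B l (fun _ => F) = wd (Phi arm J B F) l := by
  induction l with
  | nil => rfl
  | cons s l ih =>
    rw [Wd, ih]
    rfl

theorem Wd_congr {l : List (Fin 3)} {a b : ℕ → Matrix ι δ K}
    (h : ∀ n, n < 2 * l.length → a n = b n) : Wd arm J B l a = Wd arm J B l b := by
  induction l generalizing a b with
  | nil => rfl
  | cons s l ih =>
    rw [Wd, Wd, h 0 (by simp), h 1 (by simp; omega),
      ih (a := fun n => a (n + 2)) (b := fun n => b (n + 2)) (fun n hn => h (n + 2) (by
        simp only [List.length_cons]; omega))]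

/-- adjacent transpositions do not change the word -/
theorem Wd_swap (hD : Data k arm J B N W) {l : List (Fin 3)} {a : ℕ → Matrix ι δ K}
    (ha : ∀ n, a n ∈ N ⊓ W) {i : ℕ} (hi : i + 1 < 2 * l.length) :
    Wd arm J B l (fun n => a (Equiv.swap i (i + 1) n)) = Wd arm J B l a := by
  induction l generalizing a i with
  | nil => simp at hi
  | cons s l ih =>
    match i, hi with
    | 0, _ =>
      rw [Wd, Wd]
      have h0 : (Equiv.swap 0 (0 + 1)) 0 = 1 := by simp
      have h1 : (Equiv.swap 0 (0 + 1)) 1 = 0 := by simp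
      have h2 : (fun n => a ((Equiv.swap 0 (0 + 1)) (n + 2))) = fun n => a (n + 2) := by
        funext n
        rw [Equiv.swap_apply_of_ne_of_ne (by omega) (by omega)]
      rw [h0, h1, h2, hD.symm_arm (ha 1) (ha 0)]
    | 1, hi =>
      match l, hi with
      | [], hi => simp at hi
      | u :: l', _ =>
        rw [Wd, Wd, Wd, Wd]
        have h0 : (Equiv.swap 1 (1 + 1)) 0 = 0 :=
          Equiv.swap_apply_of_ne_of_ne (by omega) (by omega)
        have h1 : (Equiv.swap 1 (1 + 1)) 1 = 2 := by simp
        have h2 : (Equiv.swap 1 (1 + 1)) (0 + 2) = 1 := by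
          simp
        have h3 : (Equiv.swap 1 (1 + 1)) (1 + 2) = 3 :=
          Equiv.swap_apply_of_ne_of_ne (by omega) (by omega)
        have h4 : (fun n => a ((Equiv.swap 1 (1 + 1)) (n + 2 + 2))) = fun n => a (n + 2 + 2) := by
          funext n
          rw [Equiv.swap_apply_of_ne_of_ne (by omega) (by omega)]
        simp only [h0, h1, h2, h3, h4]
        have h5 := hD.symm_U (ha 1) (ha 2)
        unfold M
        calc a 0 * E K arm s * B * (a 2)ᵀ * J * (a 1 * E K arm u * B * (a 3)ᵀ * J *
              Wd arm J B l' fun n => a (n + 2 + 2))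
            = a 0 * E K arm s * B * ((a 2)ᵀ * J * a 1) * (E K arm u * B * (a 3)ᵀ * J *
              Wd arm J B l' fun n => a (n + 2 + 2)) := by simp only [Matrix.mul_assoc]
          _ = a 0 * E K arm s * B * ((a 1)ᵀ * J * a 2) * (E K arm u * B * (a 3)ᵀ * J *
              Wd arm J B l' fun n => a (n + 2 + 2)) := by rw [h5]
          _ = _ := by simp only [Matrix.mul_assoc, Nat.zero_add, Nat.reduceAdd]
    | j + 2, hi =>
      rw [Wd, Wd]
      have h0 : (Equiv.swap (j + 2) (j + 2 + 1)) 0 = 0 :=
        Equiv.swap_apply_of_ne_of_ne (by omega) (by omega)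
      have h1 : (Equiv.swap (j + 2) (j + 2 + 1)) 1 = 1 :=
        Equiv.swap_apply_of_ne_of_ne (by omega) (by omega)
      have h2 : (fun n => a ((Equiv.swap (j + 2) (j + 2 + 1)) (n + 2))) =
          fun n => (fun n => a (n + 2)) (Equiv.swap j (j + 1) n) := by
        funext n
        change a _ = a _
        congr 1
        rw [Equiv.swap_apply_def, Equiv.swap_apply_def]
        split_ifs <;> omega
      rw [h0, h1, h2, ih (a := fun n => a (n + 2)) (fun n => ha (n + 2)) (by
        simp only [List.length_cons] at hi; omega)]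

theorem map_M' (hD : Data k arm J B N W) (d : Derivation k K K) (s : Fin 3)
    (A C : Matrix ι δ K) :
    (M arm B s A C).map d = M arm B s (A.map d) C + M arm B s A (C.map d) := by
  unfold M
  rw [map_mul_der, map_mul_der, map_mul_der, hD.B_const, E_map_der, map_transpose_der,
    Matrix.mul_zero, Matrix.mul_zero, add_zero, add_zero]

theorem map_one' (d : Derivation k K K) : (1 : Matrix ι ι K).map d = 0 := by
  ext i j
  by_cases h : i = j
  · subst h; simp
  · simp [h]

/-- derivative of a word -/
theorem Wd_map (hD : Data k arm J B N W) (d : Derivation k K K) (l : List (Fin 3))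
    (a : ℕ → Matrix ι δ K) : (Wd arm J B l a).map d =
      ∑ i ∈ Finset.range (2 * l.length), Wd arm J B l (Function.update a i ((a i).map d)) := by
  induction l generalizing a with
  | nil =>
    rw [Wd, map_one']
    simp
  | cons s l ih =>
    have e1 : 2 * (s :: l).length = 2 * l.length + 1 + 1 := by
      rw [List.length_cons]; ring
    rw [e1, Finset.sum_range_succ', Finset.sum_range_succ', Wd, map_mul_der, map_mul_der,
      hD.J_const, Matrix.mul_zero, add_zero, map_M' hD, ih]
    have h2 : ∀ i, Wd arm J B (s :: l) (Function.update a (i + 1 + 1) ((a (i + 1 + 1)).map d)) =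
        M arm B s (a 0) (a 1) * J *
          Wd arm J B l (Function.update (fun n => a (n + 2)) i ((a (i + 2)).map d)) := by
      intro i
      rw [Wd, Function.update_of_ne (by omega), Function.update_of_ne (by omega)]
      congr 2
      funext n
      by_cases h : n = i
      · subst h; simp
      · rw [Function.update_of_ne h, Function.update_of_ne (by omega)]
    have h1 : Wd arm J B (s :: l) (Function.update a (0 + 1) ((a (0 + 1)).map d)) =
        M arm B s (a 0) ((a 1).map d) * J * Wd arm J B l (fun n => a (n + 2)) := by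
      rw [Wd, Function.update_of_ne (by omega)]
      have : (fun n => Function.update a (0 + 1) ((a (0 + 1)).map d) (n + 2)) =
          fun n => a (n + 2) := by
        funext n
        rw [Function.update_of_ne (by omega)]
      rw [this]
      simp
    have h0 : Wd arm J B (s :: l) (Function.update a 0 ((a 0).map d)) =
        M arm B s ((a 0).map d) (a 1) * J * Wd arm J B l (fun n => a (n + 2)) := by
      rw [Wd, Function.update_of_ne (by omega : (1 : ℕ) ≠ 0)]
      have : (fun n => Function.update a 0 ((a 0).map d) (n + 2)) =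
          fun n => a (n + 2) := by
        funext n
        rw [Function.update_of_ne (by omega)]
      rw [this]
      simp
    simp only [h2, h1, h0]
    rw [← Matrix.mul_sum, Matrix.add_mul, Matrix.add_mul]
    abel

/-- the core projector of a generic element (`R = 0`) -/
structure Co (k : Type*) {K : Type*} [Field k] [Field K] [Algebra k K] (arm : δ → Fin 3)
    (J : Matrix ι ι K) (B : Matrix δ δ K) (N W : Submodule K (Matrix ι δ K))
    (F : Matrix ι δ K) (e : Matrix ι ι K) (Q : Fin 3 → Matrix ι ι K) (m : ℕ) : Prop where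
  data : Data k arm J B N W
  gen : Generic k arm N W F
  ee : e * e = e
  sa : eᵀ * J = J * e
  com : ∀ s, e * Phi arm J B F s = Phi arm J B F s * e
  perf : ∑ r, Phi arm J B F r * Q r = e
  nil : ∀ l : List (Fin 3), l.length = m → wd (Phi arm J B F) l * (1 - e) = 0

namespace Co

variable {F : Matrix ι δ K} {e : Matrix ι ι K} {Q : Fin 3 → Matrix ι ι K} {m : ℕ}
variable (h : Co k arm J B N W F e Q m)
include h

theorem J_inj {A C : Matrix ι ι K} (hAC : J * A = J * C) : A = C := by
  obtain ⟨Ji, hJi, hJi', hJit⟩ := symm_inv h.data.J_symm h.data.J_unit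
  have := congrArg (fun Z => Ji * Z) hAC
  simpa only [← Matrix.mul_assoc, hJi', Matrix.one_mul] using this

theorem J_inj' {A C : Matrix ι δ K} (hAC : J * A = J * C) : A = C := by
  obtain ⟨Ji, hJi, hJi', hJit⟩ := symm_inv h.data.J_symm h.data.J_unit
  have := congrArg (fun Z => Ji * Z) hAC
  simpa only [← Matrix.mul_assoc, hJi', Matrix.one_mul] using this

theorem e1e : (1 - e) * e = 0 := by rw [Matrix.sub_mul, Matrix.one_mul, h.ee, sub_self]
theorem ee1 : e * (1 - e) = 0 := by rw [Matrix.mul_sub, Matrix.mul_one, h.ee, sub_self]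
theorem e1e1 : (1 - e) * (1 - e) = 1 - e := by rw [Matrix.mul_sub, Matrix.mul_one, h.e1e, sub_zero]
theorem com1 (s : Fin 3) : (1 - e) * Phi arm J B F s = Phi arm J B F s * (1 - e) := by
  rw [Matrix.sub_mul, Matrix.mul_sub, Matrix.one_mul, Matrix.mul_one, h.com]

/-- `Ψ` preserves the core -/
theorem Psi_e {G : Matrix ι δ K} (hG : G ∈ N ⊓ W) (r : Fin 3) :
    (1 - e) * Psi arm J B F G r * e = 0 := by
  set Y : Matrix ι ι K := ∑ s, (1 - e) * Psi arm J B F G s * e * Q s with hY
  have key : ∀ r, (1 - e) * Psi arm J B F G r * e = Phi arm J B F r * Y := by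
    intro r
    have h1 : ∑ s, Phi arm J B F s * (e * Q s) = e := by
      calc ∑ s, Phi arm J B F s * (e * Q s) = e * ∑ s, Phi arm J B F s * Q s := by
            rw [Matrix.mul_sum]
            refine Finset.sum_congr rfl fun s _ => ?_
            rw [← Matrix.mul_assoc, ← h.com, Matrix.mul_assoc]
        _ = e := by rw [h.perf, h.ee]
    have h2 : (1 - e) * Psi arm J B F G r * e =
        (1 - e) * Psi arm J B F G r * ∑ s, Phi arm J B F s * (e * Q s) := by rw [h1]
    rw [h2, hY, Matrix.mul_sum, Matrix.mul_sum]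
    refine Finset.sum_congr rfl fun s _ => ?_
    calc (1 - e) * Psi arm J B F G r * (Phi arm J B F s * (e * Q s))
        = (1 - e) * (Psi arm J B F G r * Phi arm J B F s) * (e * Q s) := by
          simp only [Matrix.mul_assoc]
      _ = (1 - e) * (Phi arm J B F r * Psi arm J B F G s) * (e * Q s) := by
          rw [Phi_Psi h.data h.gen.mem hG]
      _ = ((1 - e) * Phi arm J B F r) * Psi arm J B F G s * (e * Q s) := by
          simp only [Matrix.mul_assoc]
      _ = Phi arm J B F r * ((1 - e) * Psi arm J B F G s * e * Q s) := by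
          rw [h.com1]; simp only [Matrix.mul_assoc]
  have hY0 : Y = 0 := by
    refine kill (Q := Q) h.nil ?_ ?_
    · conv_lhs => rw [hY]
      refine Finset.sum_congr rfl fun s _ => ?_
      rw [key s]
    · rw [hY, Matrix.mul_sum]
      refine Finset.sum_congr rfl fun s _ => ?_
      rw [← Matrix.mul_assoc, ← Matrix.mul_assoc, ← Matrix.mul_assoc, h.e1e1]
  rw [key r, hY0, Matrix.mul_zero]

theorem Psi_sa {G : Matrix ι δ K} (hG : G ∈ N ⊓ W) (r : Fin 3) :
    (Psi arm J B F G r)ᵀ * J = J * Psi arm J B F G r := by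
  unfold Psi
  rw [transpose_mul, Slack.M_transpose h.data, h.data.J_symm, h.data.symm_arm hG h.gen.mem,
    Matrix.mul_assoc]

theorem e_Psi {G : Matrix ι δ K} (hG : G ∈ N ⊓ W) (r : Fin 3) :
    e * Psi arm J B F G r * (1 - e) = 0 := by
  apply h.J_inj
  rw [Matrix.mul_zero]
  have h1 := congrArg (fun A : Matrix ι ι K => Aᵀ) (h.Psi_e hG r)
  simp only [transpose_mul, transpose_sub, transpose_one, transpose_zero] at h1
  have h2 : (1 - eᵀ) * J = J * (1 - e) := by
    rw [Matrix.sub_mul, Matrix.mul_sub, h.sa, Matrix.one_mul, Matrix.mul_one]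
  calc J * (e * Psi arm J B F G r * (1 - e)) = (J * e) * Psi arm J B F G r * (1 - e) := by
        simp only [Matrix.mul_assoc]
    _ = eᵀ * (J * Psi arm J B F G r) * (1 - e) := by rw [← h.sa]; simp only [Matrix.mul_assoc]
    _ = eᵀ * (Psi arm J B F G r)ᵀ * (J * (1 - e)) := by
        rw [← h.Psi_sa hG]; simp only [Matrix.mul_assoc]
    _ = (eᵀ * ((Psi arm J B F G r)ᵀ * (1 - eᵀ))) * J := by
        rw [← h2]; simp only [Matrix.mul_assoc]
    _ = 0 := by rw [h1, Matrix.zero_mul]

/-- `e` commutes with `Ψ_r` -/
theorem com_Psi {G : Matrix ι δ K} (hG : G ∈ N ⊓ W) (r : Fin 3) :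
    e * Psi arm J B F G r = Psi arm J B F G r * e := by
  have h1 := h.Psi_e hG r
  have h2 := h.e_Psi hG r
  rw [Matrix.sub_mul, Matrix.one_mul, Matrix.sub_mul, sub_eq_zero] at h1
  rw [Matrix.mul_sub, Matrix.mul_one, sub_eq_zero] at h2
  rw [h2, h1]

/-- `e` is constant along the vertical derivations -/
theorem e_const {G : Matrix ι δ K} (hG : G ∈ N ⊓ W) {d : Derivation k K K}
    (hd : F.map d = G) : e.map d = 0 := by
  set z := e.map d with hz
  have hPhi : ∀ r, (Phi arm J B F r).map d = Psi arm J B F G r + Psi arm J B F G r := by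
    intro r
    unfold Phi
    rw [map_mul_der, h.data.J_const, Matrix.mul_zero, add_zero, map_M' h.data, hd,
      Matrix.add_mul]
    congr 1
    exact (Psi_comm h.data h.gen.mem hG r).symm
  have hcom : ∀ r, z * Phi arm J B F r = Phi arm J B F r * z := by
    intro r
    have h1 := congrArg (fun A : Matrix ι ι K => A.map d) (h.com r)
    simp only [map_mul_der, hPhi, Matrix.mul_add, Matrix.add_mul, h.com_Psi hG r] at h1
    have h2 : z * Phi arm J B F r + (Psi arm J B F G r * e + Psi arm J B F G r * e) =
        Phi arm J B F r * z + (Psi arm J B F G r * e + Psi arm J B F G r * e) := by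
      rw [h1]; abel
    exact add_right_cancel h2
  have hee : z * e + e * z = z := by
    have h1 := congrArg (fun A : Matrix ι ι K => A.map d) h.ee
    simp only [map_mul_der] at h1
    exact h1
  have hzsa : zᵀ * J = J * z := by
    have h1 := congrArg (fun A : Matrix ι ι K => A.map d) h.sa
    simp only [map_mul_der, h.data.J_const, Matrix.mul_zero, Matrix.zero_mul, add_zero,
      zero_add, map_transpose_der] at h1
    exact h1
  have hy : (1 - e) * z * e = 0 := by
    refine kill (Q := Q) h.nil ?_ ?_
    · have h2 : (1 - e) * z * e = (1 - e) * z * ∑ s, Phi arm J B F s * Q s := by rw [h.perf]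
      have hze : ∀ s, (1 - e) * z * (Phi arm J B F s * Q s) =
          Phi arm J B F s * ((1 - e) * z) * Q s := by
        intro s
        calc (1 - e) * z * (Phi arm J B F s * Q s)
            = (1 - e) * (z * Phi arm J B F s) * Q s := by simp only [Matrix.mul_assoc]
          _ = ((1 - e) * Phi arm J B F s) * z * Q s := by
              rw [hcom]; simp only [Matrix.mul_assoc]
          _ = Phi arm J B F s * ((1 - e) * z) * Q s := by
              rw [h.com1]; simp only [Matrix.mul_assoc]
      have h3 : (1 - e) * z = (1 - e) * z * e := by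
        have h4 := congrArg (fun A : Matrix ι ι K => (1 - e) * A) hee
        simp only [Matrix.mul_add] at h4
        rw [← Matrix.mul_assoc (1 - e) e z, h.e1e, Matrix.zero_mul, add_zero,
          ← Matrix.mul_assoc] at h4
        exact h4.symm
      rw [← h3]
      conv_lhs => rw [h3, h2, Matrix.mul_sum]
      exact Finset.sum_congr rfl fun s _ => hze s
    · rw [← Matrix.mul_assoc, ← Matrix.mul_assoc, h.e1e1]
  have h3 : (1 - e) * z = (1 - e) * z * e := by
    have h4 := congrArg (fun A : Matrix ι ι K => (1 - e) * A) hee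
    simp only [Matrix.mul_add] at h4
    rw [← Matrix.mul_assoc (1 - e) e z, h.e1e, Matrix.zero_mul, add_zero,
      ← Matrix.mul_assoc] at h4
    exact h4.symm
  have h5 : z = e * z := by
    have h6 : (1 - e) * z = 0 := by rw [h3, hy]
    rw [Matrix.sub_mul, Matrix.one_mul, sub_eq_zero] at h6
    exact h6
  have h7 : z = z * e := by
    apply h.J_inj
    calc J * z = zᵀ * J := hzsa.symm
      _ = (e * z)ᵀ * J := by rw [← h5]
      _ = zᵀ * (eᵀ * J) := by rw [transpose_mul, Matrix.mul_assoc]
      _ = J * (z * e) := by rw [h.sa, ← Matrix.mul_assoc, hzsa, Matrix.mul_assoc]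
  rw [← h7, ← h5] at hee
  exact add_eq_left.1 hee

theorem stab {d : Derivation k K K}
    (hr : Realises arm N W (0 : Fin 3 → Matrix ι ι K) (0 : Matrix δ δ K) d)
    {A : Matrix ι δ K} (hA : A ∈ N ⊓ W) : A.map d ∈ N ⊓ W := by
  refine ⟨?_, ?_⟩
  · have := hr.onN A hA.1
    rwa [act_zero, sub_zero] at this
  · have := hr.onW A hA.2
    rwa [transpose_zero, Matrix.mul_zero, sub_zero] at this

/-- **NILALL**: words of length `m` in arbitrary elements of `𝒦` kill `1 - e`. -/
theorem nil_all [CharZero K] {l : List (Fin 3)} (hl : l.length = m) {a : ℕ → Matrix ι δ K}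
    (ha : ∀ n, a n ∈ N ⊓ W) : Wd arm J B l a * (1 - e) = 0 := by
  have key : ∀ j, j ≤ 2 * m → ∀ G : ℕ → Matrix ι δ K, (∀ n, G n ∈ N ⊓ W) →
      Wd arm J B l (fun n => if n < j then G n else F) * (1 - e) = 0 := by
    intro j
    induction j with
    | zero =>
      intro _ G _
      have : (fun n => if n < 0 then G n else F) = fun _ => F := by
        funext n; simp
      rw [this, Wd_const]
      exact h.nil l hl
    | succ j ih =>
      intro hj G hG
      have ih' := ih (by omega)
      obtain ⟨d, hd, hr⟩ := h.gen.vert (G j) (hG j)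
      have hec := h.e_const (hG j) hd
      set a : ℕ → Matrix ι δ K := fun n => if n < j then G n else F with hadef
      have hamem : ∀ n, a n ∈ N ⊓ W := by
        intro n
        by_cases hn : n < j
        · simp only [hadef, hn, if_true]; exact hG n
        · simp only [hadef, hn, if_false]; exact h.gen.mem
      have haj : ∀ n, j ≤ n → a n = F := fun n hn => by
        simp only [hadef, not_lt.2 hn, if_false]
      have h0 := ih' G hG
      have h1 := congrArg (fun A : Matrix ι ι K => A.map d) h0
      simp only [map_mul_der] at h1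
      have h1e : (1 - e).map d = 0 := by rw [map_sub_der, map_one', hec, sub_zero]
      have h00 : (0 : Matrix ι ι K).map d = 0 := by ext i j; simp
      rw [h1e, Matrix.mul_zero, add_zero, h00, Wd_map h.data, Matrix.sum_mul, hl] at h1
      -- the terms
      have hlow : ∀ i, i < j → Wd arm J B l (Function.update a i ((a i).map d)) * (1 - e) = 0 := by
        intro i hi
        have hai : a i = G i := by simp only [hadef, hi, if_true]
        have e1 : Function.update a i ((a i).map d) =
            fun n => if n < j then (Function.update G i ((G i).map d)) n else F := by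
          funext n
          by_cases hn : n = i
          · subst hn
            simp [hi, hai]
          · rw [Function.update_of_ne hn, Function.update_of_ne hn]
        rw [e1]
        refine ih' _ fun n => ?_
        by_cases hn : n = i
        · subst hn
          rw [Function.update_self]
          exact stab h hr (hG n)
        · rw [Function.update_of_ne hn]; exact hG n
      have hhigh : ∀ q, j + q < 2 * m →
          Wd arm J B l (Function.update a (j + q) (G j)) =
            Wd arm J B l (Function.update a j (G j)) := by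
        intro q
        induction q with
        | zero => intro _; rfl
        | succ q ihq =>
          intro hq
          rw [← ihq (by omega)]
          have hmem : ∀ n, Function.update a (j + q) (G j) n ∈ N ⊓ W := by
            intro n
            by_cases hn : n = j + q
            · subst hn; rw [Function.update_self]; exact hG j
            · rw [Function.update_of_ne hn]; exact hamem n
          rw [← Wd_swap h.data (l := l) hmem (i := j + q) (by rw [hl]; omega)]
          congr 1
          funext n
          rw [Equiv.swap_apply_def]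
          by_cases h1n : n = j + q
          · subst h1n
            rw [if_pos rfl, Function.update_of_ne (by omega), Function.update_of_ne (by omega),
              haj _ (by omega), haj _ (by omega)]
          · rw [if_neg h1n]
            by_cases h2n : n = j + q + 1
            · subst h2n
              rw [if_pos rfl, Function.update_self]
              exact Function.update_self ..
            · rw [if_neg h2n, Function.update_of_ne h1n, Function.update_of_ne (by omega)]
      have hsum : ∑ i ∈ Finset.range (2 * m),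
          Wd arm J B l (Function.update a i ((a i).map d)) * (1 - e) =
          ((2 * m - j : ℕ) : K) • (Wd arm J B l (Function.update a j (G j)) * (1 - e)) := by
        have e2 : 2 * m = j + (2 * m - j) := by omega
        conv_lhs => rw [e2, Finset.sum_range_add]
        rw [Finset.sum_eq_zero (fun i hi => hlow i (Finset.mem_range.1 hi)), zero_add]
        rw [Finset.sum_congr rfl (g := fun _ => Wd arm J B l (Function.update a j (G j)) * (1 - e))
          (fun q hq => by
            have hq' := Finset.mem_range.1 hq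
            rw [haj (j + q) (by omega), hd, hhigh q (by omega)])]
        rw [Finset.sum_const, Finset.card_range, ← Nat.cast_smul_eq_nsmul K]
      rw [hsum] at h1
      have hne : ((2 * m - j : ℕ) : K) ≠ 0 := by
        rw [Nat.cast_ne_zero]; omega
      have h2 := (smul_eq_zero.1 h1).resolve_left hne
      have e3 : Function.update a j (G j) = fun n => if n < j + 1 then G n else F := by
        funext n
        by_cases hn : n = j
        · subst hn; rw [Function.update_self]; simp
        · rw [Function.update_of_ne hn]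
          by_cases hn2 : n < j
          · simp only [hadef, hn2, if_true, if_pos (show n < j + 1 by omega)]
          · simp only [hadef, hn2, if_false, if_neg (show ¬ n < j + 1 by omega)]
      rw [e3] at h2
      exact h2
  have h1 := key (2 * m) le_rfl a ha
  rw [Wd_congr (b := a) (fun n hn => by
    rw [hl] at hn
    simp only [hn, if_true])] at h1
  exact h1

/-- words in `Φ(H)`, `H ∈ 𝒦` -/
theorem nil_H [CharZero K] {H : Matrix ι δ K} (hH : H ∈ N ⊓ W) {l : List (Fin 3)}
    (hl : l.length = m) : wd (Phi arm J B H) l * (1 - e) = 0 := by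
  rw [← Wd_const]
  exact h.nil_all hl fun _ => hH

/-- right inverse of `F` on the core -/
def pp (arm : δ → Fin 3) (J : Matrix ι ι K) (B : Matrix δ δ K) (F : Matrix ι δ K)
    (e : Matrix ι ι K) (Q : Fin 3 → Matrix ι ι K) : Matrix δ ι K :=
  ∑ u, E K arm u * B * Fᵀ * J * (e * Q u * e)

/-- the operator `D_G` on the core -/
def DD (arm : δ → Fin 3) (J : Matrix ι ι K) (B : Matrix δ δ K) (F : Matrix ι δ K)
    (e : Matrix ι ι K) (Q : Fin 3 → Matrix ι ι K) (G : Matrix ι δ K) : Matrix ι ι K :=
  G * pp arm J B F e Q

theorem sum_Phi_Q : ∑ u, Phi arm J B F u * (e * Q u * e) = e := by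
  calc ∑ u, Phi arm J B F u * (e * Q u * e) = e * (∑ u, Phi arm J B F u * Q u) * e := by
        rw [Matrix.mul_sum, Matrix.sum_mul]
        refine Finset.sum_congr rfl fun s _ => ?_
        rw [← Matrix.mul_assoc e, h.com]
        simp only [Matrix.mul_assoc]
    _ = e := by rw [h.perf, h.ee, h.ee]

theorem F_pp : F * pp arm J B F e Q = e := by
  unfold pp
  rw [Matrix.mul_sum]
  conv_rhs => rw [← h.sum_Phi_Q]
  refine Finset.sum_congr rfl fun u _ => ?_
  unfold Phi M
  simp only [Matrix.mul_assoc]

theorem pp_e : pp arm J B F e Q * e = pp arm J B F e Q := by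
  unfold pp
  rw [Matrix.sum_mul]
  refine Finset.sum_congr rfl fun u _ => ?_
  rw [Matrix.mul_assoc, Matrix.mul_assoc (e * Q u), h.ee]

theorem DD_eq {G : Matrix ι δ K} (hG : G ∈ N ⊓ W) :
    DD arm J B F e Q G = ∑ u, Psi arm J B F G u * (e * Q u * e) := by
  unfold DD pp
  rw [Matrix.mul_sum]
  refine Finset.sum_congr rfl fun u _ => ?_
  rw [Psi_comm h.data h.gen.mem hG]
  unfold Psi M
  simp only [Matrix.mul_assoc]

variable {G : Matrix ι δ K} (hG : G ∈ N ⊓ W)
include hG

theorem e_DD : e * DD arm J B F e Q G = DD arm J B F e Q G := by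
  rw [h.DD_eq hG, Matrix.mul_sum]
  refine Finset.sum_congr rfl fun u _ => ?_
  rw [← Matrix.mul_assoc, h.com_Psi hG, Matrix.mul_assoc, ← Matrix.mul_assoc e (e * Q u),
    ← Matrix.mul_assoc e e, h.ee]

theorem DD_e : DD arm J B F e Q G * e = DD arm J B F e Q G := by
  unfold DD
  rw [Matrix.mul_assoc, h.pp_e]

theorem DD_sa : (DD arm J B F e Q G)ᵀ * J = J * DD arm J B F e Q G := by
  have hs := h.data.symm_U h.gen.mem hG
  set p := pp arm J B F e Q with hp
  calc (DD arm J B F e Q G)ᵀ * J = (e * DD arm J B F e Q G)ᵀ * J := by rw [h.e_DD hG]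
    _ = (DD arm J B F e Q G)ᵀ * (J * e) := by rw [transpose_mul, Matrix.mul_assoc, h.sa]
    _ = (DD arm J B F e Q G)ᵀ * (J * (F * p)) := by rw [hp, h.F_pp]
    _ = pᵀ * (Gᵀ * J * F) * p := by
        unfold DD; rw [← hp, transpose_mul]; simp only [Matrix.mul_assoc]
    _ = pᵀ * (Fᵀ * J * G) * p := by rw [hs]
    _ = (F * p)ᵀ * J * (G * p) := by rw [transpose_mul]; simp only [Matrix.mul_assoc]
    _ = J * (e * (G * p)) := by rw [hp, h.F_pp, h.sa, Matrix.mul_assoc]
    _ = J * DD arm J B F e Q G := by
        have := h.e_DD hG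
        unfold DD at this ⊢
        rw [← hp] at this ⊢
        rw [this]

/-- `e G = D F` -/
theorem eG : e * G = DD arm J B F e Q G * F := by
  have hs := h.data.symm_U h.gen.mem hG
  apply h.J_inj'
  set p := pp arm J B F e Q with hp
  calc J * (e * G) = (F * p)ᵀ * J * G := by rw [← Matrix.mul_assoc, ← h.sa, hp, h.F_pp]
    _ = pᵀ * (Fᵀ * J * G) := by rw [transpose_mul]; simp only [Matrix.mul_assoc]
    _ = pᵀ * (Gᵀ * J * F) := by rw [hs]
    _ = (DD arm J B F e Q G)ᵀ * J * F := by
        unfold DD; rw [← hp, transpose_mul]; simp only [Matrix.mul_assoc]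
    _ = J * (DD arm J B F e Q G * F) := by rw [h.DD_sa hG, Matrix.mul_assoc]

theorem e_Psi_eq (r : Fin 3) :
    e * Psi arm J B F G r = DD arm J B F e Q G * Phi arm J B F r := by
  rw [Psi_comm h.data h.gen.mem hG]
  unfold Psi Phi M
  calc e * (G * E K arm r * B * Fᵀ * J) = (e * G) * (E K arm r * B * Fᵀ * J) := by
        simp only [Matrix.mul_assoc]
    _ = _ := by rw [h.eG hG]; simp only [Matrix.mul_assoc]

theorem GJe : Gᵀ * J * e = Fᵀ * J * DD arm J B F e Q G := by
  calc Gᵀ * J * e = (e * G)ᵀ * J := by
        rw [transpose_mul, Matrix.mul_assoc, ← h.sa, Matrix.mul_assoc]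
    _ = Fᵀ * ((DD arm J B F e Q G)ᵀ * J) := by
        rw [h.eG hG, transpose_mul, Matrix.mul_assoc]
    _ = Fᵀ * J * DD arm J B F e Q G := by rw [h.DD_sa hG, Matrix.mul_assoc]

theorem Psi_e_eq (r : Fin 3) :
    Psi arm J B F G r * e = Phi arm J B F r * DD arm J B F e Q G := by
  unfold Psi Phi M
  calc F * E K arm r * B * Gᵀ * J * e = F * E K arm r * B * (Gᵀ * J * e) := by
        simp only [Matrix.mul_assoc]
    _ = _ := by rw [h.GJe hG]; simp only [Matrix.mul_assoc]

/-- `D` commutes with `Φ_r` -/
theorem DD_Phi (r : Fin 3) :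
    DD arm J B F e Q G * Phi arm J B F r = Phi arm J B F r * DD arm J B F e Q G := by
  rw [← h.e_Psi_eq hG, h.com_Psi hG, h.Psi_e_eq hG]

theorem GG_e (r : Fin 3) : M arm B r G G * J * e =
    DD arm J B F e Q G * DD arm J B F e Q G * Phi arm J B F r := by
  have e1 : M arm B r G G * J * e = Psi arm J B F G r * e * DD arm J B F e Q G := by
    rw [Psi_comm h.data h.gen.mem hG]
    unfold Psi M
    calc G * E K arm r * B * Gᵀ * J * e = G * E K arm r * B * (Gᵀ * J * e) := by
          simp only [Matrix.mul_assoc]
      _ = G * E K arm r * B * Fᵀ * J * (e * DD arm J B F e Q G) := by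
          rw [h.GJe hG, h.e_DD hG]; simp only [Matrix.mul_assoc]
      _ = _ := by simp only [Matrix.mul_assoc]
  rw [e1, h.Psi_e_eq hG, ← h.DD_Phi hG, Matrix.mul_assoc, ← h.DD_Phi hG, Matrix.mul_assoc]

theorem e_GG (r : Fin 3) : e * (M arm B r G G * J) =
    DD arm J B F e Q G * DD arm J B F e Q G * Phi arm J B F r := by
  have e1 : e * (M arm B r G G * J) = DD arm J B F e Q G * (e * Psi arm J B F G r) := by
    unfold Psi M
    calc e * (G * E K arm r * B * Gᵀ * J) = (e * G) * (E K arm r * B * Gᵀ * J) := by
          simp only [Matrix.mul_assoc]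
      _ = (DD arm J B F e Q G * e) * F * (E K arm r * B * Gᵀ * J) := by
          rw [h.eG hG, h.DD_e hG]
      _ = _ := by simp only [Matrix.mul_assoc]
  rw [e1, h.e_Psi_eq hG, Matrix.mul_assoc]

theorem Phi_add (t : K) (r : Fin 3) : Phi arm J B (F + t • G) r =
    Phi arm J B F r + (2 * t) • Psi arm J B F G r + (t * t) • (M arm B r G G * J) := by
  have h1 := h.data.symm_arm h.gen.mem hG r
  have e1 : M arm B r (F + t • G) (F + t • G) = M arm B r F F + (2 * t) • M arm B r F G +
      (t * t) • M arm B r G G := by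
    have e2 : M arm B r (F + t • G) (F + t • G) = M arm B r F F + t • M arm B r F G +
        (t • M arm B r G F + (t * t) • M arm B r G G) := by
      unfold M
      rw [transpose_add, transpose_smul]
      simp only [Matrix.add_mul, Matrix.mul_add, Matrix.smul_mul, Matrix.mul_smul, smul_smul,
        smul_add]
      abel
    rw [e2, ← h1, two_mul, add_smul]
    abel
  unfold Phi Psi
  rw [e1, Matrix.add_mul, Matrix.add_mul, Matrix.smul_mul, Matrix.smul_mul]

theorem sq_eq (t : K) : (e + t • DD arm J B F e Q G) * (e + t • DD arm J B F e Q G) =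
    e + (2 * t) • DD arm J B F e Q G +
      (t * t) • (DD arm J B F e Q G * DD arm J B F e Q G) := by
  rw [Matrix.mul_add, Matrix.add_mul, Matrix.add_mul, h.ee, Matrix.smul_mul, Matrix.mul_smul,
    Matrix.mul_smul, Matrix.smul_mul, h.e_DD hG, h.DD_e hG, smul_smul, two_mul, add_smul]
  abel

theorem Phi_add_e (t : K) (r : Fin 3) : Phi arm J B (F + t • G) r * e =
    (e + t • DD arm J B F e Q G) * (e + t • DD arm J B F e Q G) * Phi arm J B F r := by
  rw [h.Phi_add hG, h.sq_eq hG, Matrix.add_mul, Matrix.add_mul, Matrix.smul_mul,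
    Matrix.smul_mul, h.GG_e hG, h.Psi_e_eq hG, ← h.DD_Phi hG, ← h.com, Matrix.add_mul,
    Matrix.add_mul, Matrix.smul_mul, Matrix.smul_mul]

theorem e_Phi_add (t : K) (r : Fin 3) : e * Phi arm J B (F + t • G) r =
    (e + t • DD arm J B F e Q G) * (e + t • DD arm J B F e Q G) * Phi arm J B F r := by
  rw [h.Phi_add hG, h.sq_eq hG, Matrix.mul_add, Matrix.mul_add, Matrix.mul_smul,
    Matrix.mul_smul, h.e_GG hG, h.e_Psi_eq hG, Matrix.add_mul,
    Matrix.add_mul, Matrix.smul_mul, Matrix.smul_mul]

theorem mem_add (t : K) : F + t • G ∈ N ⊓ W :=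
  Submodule.add_mem _ h.gen.mem (Submodule.smul_mem _ t hG)

/-- **HOM**: `z` commuting with `Φ_r(F+tG)` preserves the core and its complement. -/
theorem hom [CharZero K] {t : K} {c' : Matrix ι ι K}
    (hc' : (e + t • DD arm J B F e Q G) * c' = e) (hc'e : e * c' = c')
    (hc'Phi : ∀ r, c' * Phi arm J B F r = Phi arm J B F r * c') {z : Matrix ι ι K}
    (hz : ∀ r, z * Phi arm J B (F + t • G) r = Phi arm J B (F + t • G) r * z) :
    (1 - e) * z * e = 0 := by
  set c := e + t • DD arm J B F e Q G with hcdef
  set P := fun r => Phi arm J B (F + t • G) r with hP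
  have hcomP : ∀ r, (1 - e) * P r = P r * (1 - e) := by
    intro r
    rw [Matrix.sub_mul, Matrix.mul_sub, Matrix.one_mul, Matrix.mul_one]
    congr 1
    exact (h.e_Phi_add hG t r).trans (h.Phi_add_e hG t r).symm
  have hec : e * c = c := by
    rw [hcdef, Matrix.mul_add, h.ee, Matrix.mul_smul, h.e_DD hG]
  have hperf : ∑ r, P r * (e * (c' * c' * (e * Q r * e))) = e := by
    conv_rhs => rw [← h.sum_Phi_Q]
    refine Finset.sum_congr rfl fun r _ => ?_
    have e1 : P r * e = c * c * Phi arm J B F r := h.Phi_add_e hG t r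
    calc P r * (e * (c' * c' * (e * Q r * e))) = P r * e * c' * c' * (e * Q r * e) := by
          simp only [Matrix.mul_assoc]
      _ = c * c * (Phi arm J B F r * c') * c' * (e * Q r * e) := by
          rw [e1]; simp only [Matrix.mul_assoc]
      _ = c * c * (c' * Phi arm J B F r) * c' * (e * Q r * e) := by rw [hc'Phi]
      _ = c * (c * c') * (Phi arm J B F r * c') * (e * Q r * e) := by
          simp only [Matrix.mul_assoc]
      _ = c * (e * c') * Phi arm J B F r * (e * Q r * e) := by
          rw [hc', ← hc'Phi]; simp only [Matrix.mul_assoc]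
      _ = e * Phi arm J B F r * (e * Q r * e) := by rw [hc'e, hc']
      _ = Phi arm J B F r * (e * Q r * e) := by
          rw [h.com, Matrix.mul_assoc, ← Matrix.mul_assoc e (e * Q r), ← Matrix.mul_assoc e e,
            h.ee]
  refine kill (Φ := P) (Q := fun r => e * (c' * c' * (e * Q r * e)) * e)
    (fun l hl => h.nil_H (h.mem_add hG t) hl) ?_ ?_
  · have h2 : (1 - e) * z * e =
        (1 - e) * z * ∑ r, P r * (e * (c' * c' * (e * Q r * e))) := by rw [hperf]
    have h3 : (1 - e) * z * e = (1 - e) * z * e * e := by rw [Matrix.mul_assoc _ e e, h.ee]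
    conv_lhs => rw [h3, h2, Matrix.mul_sum, Matrix.sum_mul]
    refine Finset.sum_congr rfl fun r _ => ?_
    calc (1 - e) * z * (P r * (e * (c' * c' * (e * Q r * e)))) * e
        = (1 - e) * (z * P r) * (e * (c' * c' * (e * Q r * e))) * e := by
          simp only [Matrix.mul_assoc]
      _ = ((1 - e) * P r) * z * (e * (c' * c' * (e * Q r * e))) * e := by
          rw [show z * P r = P r * z from hz r]; simp only [Matrix.mul_assoc]
      _ = P r * ((1 - e) * z) * (e * (c' * c' * (e * Q r * e))) * e := by
          rw [hcomP]; simp only [Matrix.mul_assoc]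
      _ = P r * ((1 - e) * z * e) * (e * (c' * c' * (e * Q r * e)) * e) := by
          have : e * (c' * c' * (e * Q r * e)) = e * (e * (c' * c' * (e * Q r * e))) := by
            rw [← Matrix.mul_assoc e e, h.ee]
          conv_lhs => rw [this]
          simp only [Matrix.mul_assoc]
  · rw [← Matrix.mul_assoc, ← Matrix.mul_assoc, h.e1e1]

/-- **HOM'**: the adjoint statement. -/
theorem hom' [CharZero K] {t : K} {c' : Matrix ι ι K}
    (hc' : (e + t • DD arm J B F e Q G) * c' = e) (hc'e : e * c' = c')
    (hc'Phi : ∀ r, c' * Phi arm J B F r = Phi arm J B F r * c') {z : Matrix ι ι K}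
    (hz : ∀ r, z * Phi arm J B (F + t • G) r = Phi arm J B (F + t • G) r * z) :
    e * z * (1 - e) = 0 := by
  obtain ⟨Ji, hJi, hJi', hJit⟩ := symm_inv h.data.J_symm h.data.J_unit
  have hPsa : ∀ r, (Phi arm J B (F + t • G) r)ᵀ * J = J * Phi arm J B (F + t • G) r := by
    intro r
    unfold Phi
    rw [transpose_mul, Slack.M_transpose h.data, h.data.J_symm, Matrix.mul_assoc]
  have hPsa' : ∀ r, Ji * (Phi arm J B (F + t • G) r)ᵀ = Phi arm J B (F + t • G) r * Ji := by
    intro r
    calc Ji * (Phi arm J B (F + t • G) r)ᵀ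
        = Ji * ((Phi arm J B (F + t • G) r)ᵀ * J) * Ji := by
          rw [Matrix.mul_assoc, Matrix.mul_assoc _ J Ji, hJi, Matrix.mul_one]
      _ = Phi arm J B (F + t • G) r * Ji := by
          rw [hPsa, ← Matrix.mul_assoc, hJi', Matrix.one_mul]
  have h1 := h.hom hG hc' hc'e hc'Phi (z := Ji * zᵀ * J) (fun r => by
    calc Ji * zᵀ * J * Phi arm J B (F + t • G) r
        = Ji * zᵀ * ((Phi arm J B (F + t • G) r)ᵀ * J) := by
          rw [hPsa, ← Matrix.mul_assoc]
      _ = Ji * (Phi arm J B (F + t • G) r * z)ᵀ * J := by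
          rw [transpose_mul]; simp only [Matrix.mul_assoc]
      _ = Ji * (z * Phi arm J B (F + t • G) r)ᵀ * J := by rw [hz]
      _ = (Ji * (Phi arm J B (F + t • G) r)ᵀ) * zᵀ * J := by
          rw [transpose_mul]; simp only [Matrix.mul_assoc]
      _ = Phi arm J B (F + t • G) r * (Ji * zᵀ * J) := by
          rw [hPsa']; simp only [Matrix.mul_assoc])
  have h2 := congrArg (fun A : Matrix ι ι K => Aᵀ) h1
  simp only [transpose_mul, transpose_sub, transpose_one, transpose_zero, transpose_transpose,
    h.data.J_symm, hJit] at h2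
  have h3 : (1 - eᵀ) * J = J * (1 - e) := by
    rw [Matrix.sub_mul, Matrix.mul_sub, h.sa, Matrix.one_mul, Matrix.mul_one]
  apply h.J_inj
  rw [Matrix.mul_zero]
  calc J * (e * z * (1 - e)) = (J * e) * z * (Ji * J) * (1 - e) := by
        rw [hJi', Matrix.mul_one]; simp only [Matrix.mul_assoc]
    _ = eᵀ * (J * (z * Ji) * (1 - eᵀ)) * J := by
        rw [← h.sa, Matrix.mul_assoc _ (Ji * J), Matrix.mul_assoc Ji J, ← h3]
        simp only [Matrix.mul_assoc]
    _ = 0 := by rw [h2, Matrix.zero_mul]

end Co

end Crest.Agent.R172.QN
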