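import Crest.Agent.R172.N5a
import Crest.Agent.R172.Fin3
import Crest.Agent.R172.QN1

/-!
Row 172, TAME (T0), node N5, part 2 (radical zero): from a core `C` of `M(F,F)` and `TameAt F G C τ`
to the matrix data `QN.Co` and `D = hat τ`.
-/

set_option autoImplicit false
set_option linter.unusedSectionVars false
set_option maxHeartbeats 400000

namespace Crest.Agent.R172.N5

open Module Matrix Crest.AlgebraR.SpinSaturation Crest.Agent.R172.SoGrade Crest.Agent.R172.CF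
open Crest.Agent.R172.Gen (Jm Ix emb Ent ent)
open Crest.Agent.R172.ThX Crest.Agent.R172.CSys Crest.Agent.R172.TG
open Crest.Agent.R172.Core (NS cp BM Tame)
open Crest.Agent.R172.QN (Co Psi)

variable {n : ℕ} {a : Fin 3 → Fin n → ℤ} {c : Cfg n a} {K : Type} [Field K] [Algebra ℂ K]
variable {N W : Submodule K (Matrix (Ix n) c.δ K)} {F G : Matrix (Ix n) c.δ K}

/-- the operators `Φ_s` as linear maps -/
noncomputable abbrev Ph (F : Matrix (Ix n) c.δ K) : Fin 3 → Module.End K (Ix n → K) :=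
  MM (pU c K) (adjU c K) (Matrix.toLin' F) (Matrix.toLin' F)

theorem Ph_apply (F : Matrix (Ix n) c.δ K) (s : Fin 3) (v : Ix n → K) :
    Ph F s v = FO.Phi c.arm (Jm n K) (c.B K) F s *ᵥ v := MM_toLin F F s v

theorem wd_Ph (F : Matrix (Ix n) c.δ K) (l : List (Fin 3)) (v : Ix n → K) :
    Core.wd (Ph F) l v = QN.wd (FO.Phi c.arm (Jm n K) (c.B K) F) l *ᵥ v := by
  induction l generalizing v with
  | nil => simp [Core.wd, QN.wd]
  | cons s l ih =>
    rw [ThX.wd_cons, ih, Ph_apply, mulVec_mulVec]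
    rfl

/-- the matrix of the projection of the core -/
noncomputable def eM (C : St.Core (BV n K) (Ph F)) : Matrix (Ix n) (Ix n) K :=
  LinearMap.toMatrix' C.π

theorem eM_mulVec (C : St.Core (BV n K) (Ph F)) (v : Ix n → K) : eM C *ᵥ v = C.π v := by
  rw [eM, ← Matrix.toLin'_apply, Matrix.toLin'_toMatrix']

theorem mem_M (C : St.Core (BV n K) (Ph F)) (v : Ix n → K) :
    v ∈ C.M ↔ ∃ w, v = eM C *ᵥ w := by
  constructor
  · intro h
    exact ⟨v, by rw [eM_mulVec, C.fix v h]⟩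
  · rintro ⟨w, rfl⟩
    rw [eM_mulVec]
    exact C.mem w

theorem eM_idem (C : St.Core (BV n K) (Ph F)) : eM C * eM C = eM C := by
  refine ext_mulVec (α := Ix n) fun v => ?_
  rw [← mulVec_mulVec, eM_mulVec, eM_mulVec, C.fix _ (C.mem v)]

/-- self-adjoint matrices -/
theorem sa_of {A : Matrix (Ix n) (Ix n) K} (h : ∀ v w, BV n K (A *ᵥ v) w = BV n K v (A *ᵥ w)) :
    Aᵀ * Jm n K = Jm n K * A := by
  ext i j
  have h1 := h (Pi.single i 1) (Pi.single j 1)
  rw [BV_apply, BV_apply] at h1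
  have e1 : (A *ᵥ Pi.single i 1) ⬝ᵥ (Jm n K *ᵥ Pi.single j 1) = (Aᵀ * Jm n K) i j := by
    rw [mulVec_single_one, mulVec_single_one, Matrix.mul_apply, dotProduct]
    rfl
  have e2 : (Pi.single i 1 : Ix n → K) ⬝ᵥ (Jm n K *ᵥ (A *ᵥ Pi.single j 1)) =
      (Jm n K * A) i j := by
    rw [mulVec_mulVec, mulVec_single_one, single_one_dotProduct]
    rfl
  rw [e1, e2] at h1
  exact h1

theorem eM_sa (C : St.Core (BV n K) (Ph F)) : (eM C)ᵀ * Jm n K = Jm n K * eM C := by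
  apply sa_of
  intro v w
  rw [eM_mulVec, eM_mulVec]
  exact C.sa v w

variable (hD : FO.Data ℂ c.arm (Jm n K) (c.B K) N W)

include hD in
theorem Ph_sa (hF : F ∈ N ⊓ W) (s : Fin 3) : St.Sa (BV n K) (Ph F s) :=
  (sys hD).MM_sa BV_ns BU_ns ⟨F, hF, rfl⟩ ⟨F, hF, rfl⟩ s

include hD in
/-- **`QN.Co` from a core with radical zero** -/
theorem exists_Co (hF : FO.Generic ℂ c.arm N W F) (C : St.Core (BV n K) (Ph F))
    (hR : Rad0 (BV n K) (Ph F)) :
    ∃ Q m, Co ℂ c.arm (Jm n K) (c.B K) N W F (eM C) Q m := by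
  classical
  have hsa := Ph_sa hD hF.mem
  obtain ⟨m, hm⟩ := St.T_eq_Nk (Ph F)
  have h1 : ∀ v : Ix n → K, ∃ w : Fin 3 → C.M, C.π v = ∑ s, Ph F s (w s) := fun v =>
    perf BV_ns hsa hR C ⟨C.π v, C.mem v⟩
  choose w hw using h1
  refine ⟨fun s => Matrix.of fun i j => (w (Pi.single j 1) s : Ix n → K) i, m, ?_⟩
  refine ⟨hD, hF, eM_idem C, eM_sa C, ?_, ?_, ?_⟩
  · intro s
    refine ext_mulVec (α := Ix n) fun v => ?_
    rw [← mulVec_mulVec, ← mulVec_mulVec, eM_mulVec, eM_mulVec, ← Ph_apply, ← Ph_apply]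
    exact pi_comm BV_ns hR C (Core.pres_Φ hsa s) v
  · ext i j
    have h2 := congrFun (hw (Pi.single j 1)) i
    rw [← eM_mulVec, mulVec_single_one] at h2
    have e1 : (eM C).col j i = eM C i j := rfl
    rw [e1] at h2
    rw [h2, Matrix.sum_apply, Finset.sum_apply]
    refine Finset.sum_congr rfl fun s _ => ?_
    rw [Ph_apply, Matrix.mul_apply]
    rfl
  · intro l hl
    refine ext_mulVec (α := Ix n) fun v => ?_
    rw [← mulVec_mulVec, ← wd_Ph, zero_mulVec, sub_mulVec, one_mulVec, eM_mulVec]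
    have h2 := sub_pi_mem BV_ns hR C v
    rw [hm, Core.mem_Nk_iff] at h2
    exact h2 l hl

variable {C : St.Core (BV n K) (Ph F)} {τ : Module.End K C.M}

/-- the matrix of an operator of the core -/
noncomputable abbrev ht (C : St.Core (BV n K) (Ph F)) (A : Module.End K C.M) :
    Matrix (Ix n) (Ix n) K := hat (eM C) (mem_M C) A

theorem ht_mulVec (A : Module.End K C.M) (v : Ix n → K) :
    ht C A *ᵥ v = (A ⟨C.π v, C.mem v⟩ : Ix n → K) := by
  rw [hat_mulVec]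
  congr 2
  apply Subtype.ext
  rw [prM_coe, eM_mulVec]

theorem ht_mul (A A' : Module.End K C.M) : ht C A * ht C A' = ht C (A * A') := by
  refine ext_mulVec (α := Ix n) fun v => ?_
  rw [← mulVec_mulVec, ht_mulVec, ht_mulVec, ht_mulVec]
  have e : (⟨C.π (A' ⟨C.π v, C.mem v⟩ : Ix n → K), C.mem _⟩ : C.M) = A' ⟨C.π v, C.mem v⟩ :=
    Subtype.ext (C.fix _ (A' _).2)
  rw [e]
  rfl

theorem ht_one : ht C (1 : Module.End K C.M) = eM C := by
  refine ext_mulVec (α := Ix n) fun v => ?_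
  rw [ht_mulVec, eM_mulVec]
  rfl

theorem e_ht (A : Module.End K C.M) : eM C * ht C A = ht C A := by
  rw [← ht_one, ht_mul, one_mul]

theorem ht_e (A : Module.End K C.M) : ht C A * eM C = ht C A := by
  rw [← ht_one, ht_mul, mul_one]

theorem ht_sa {A : Module.End K C.M} (h : ∀ v w, BM C (A v) w = BM C v (A w)) :
    (ht C A)ᵀ * Jm n K = Jm n K * ht C A := by
  apply sa_of
  intro v w
  rw [ht_mulVec, ht_mulVec]
  have h1 := h ⟨C.π v, C.mem v⟩ ⟨C.π w, C.mem w⟩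
  rw [Core.BM_apply, Core.BM_apply] at h1
  have h2 : BV n K (A ⟨C.π v, C.mem v⟩ : Ix n → K) w =
      BV n K (A ⟨C.π v, C.mem v⟩ : Ix n → K) (C.π w) := by
    rw [← C.sa, C.fix _ (A _).2]
  have h3 : BV n K v (A ⟨C.π w, C.mem w⟩ : Ix n → K) =
      BV n K (C.π v) (A ⟨C.π w, C.mem w⟩ : Ix n → K) := by
    rw [C.sa, C.fix _ (A _).2]
  rw [h2, h3]
  exact h1

include hD in
/-- operators commuting with the core operators -/
theorem ht_Phi (hF : F ∈ N ⊓ W) (hR : Rad0 (BV n K) (Ph F)) {A : Module.End K C.M}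
    (h : ∀ s v, A (cp C (Ph F s) v) = cp C (Ph F s) (A v)) (s : Fin 3) :
    ht C A * FO.Phi c.arm (Jm n K) (c.B K) F s = FO.Phi c.arm (Jm n K) (c.B K) F s * ht C A := by
  have hsa := Ph_sa hD hF
  refine ext_mulVec (α := Ix n) fun v => ?_
  rw [← mulVec_mulVec, ← mulVec_mulVec, ht_mulVec, ht_mulVec, ← Ph_apply, ← Ph_apply]
  have h1 := congrArg (Subtype.val) (h s ⟨C.π v, C.mem v⟩)
  rw [cp_val hR C (Core.pres_Φ hsa s)] at h1
  rw [← h1]
  congr 2
  apply Subtype.ext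
  rw [cp_val hR C (Core.pres_Φ hsa s)]
  exact pi_comm BV_ns hR C (Core.pres_Φ hsa s) v

/-- `D = hat τ` -/
theorem DD_eq_ht {Q : Fin 3 → Matrix (Ix n) (Ix n) K} {m : ℕ}
    (h : Co ℂ c.arm (Jm n K) (c.B K) N W F (eM C) Q m) (hG : G ∈ N ⊓ W)
    (hR : Rad0 (BV n K) (Ph F)) (hT : TameAt F G C τ) :
    Co.DD c.arm (Jm n K) (c.B K) F (eM C) Q G = ht C τ := by
  have hsa := Ph_sa h.data h.gen.mem
  have key : ∀ v : C.M, Co.DD c.arm (Jm n K) (c.B K) F (eM C) Q G *ᵥ (v : Ix n → K) = τ v := by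
    intro v
    have hv : eM C *ᵥ (v : Ix n → K) = v := by rw [eM_mulVec, C.fix _ v.2]
    have hmem : Co.DD c.arm (Jm n K) (c.B K) F (eM C) Q G *ᵥ (v : Ix n → K) ∈ C.M := by
      rw [mem_M]
      refine ⟨Co.DD c.arm (Jm n K) (c.B K) F (eM C) Q G *ᵥ (v : Ix n → K), ?_⟩
      rw [mulVec_mulVec, h.e_DD hG]
    have h1 : (⟨_, hmem⟩ : C.M) - τ v = 0 := by
      apply Core.cp_ker hsa C
      intro s
      rw [map_sub, sub_eq_zero]
      apply Subtype.ext
      have h2 := congrArg Subtype.val (hT.rel s v)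
      rw [← h2, Core.cp_coe, Core.cp_coe, MM_toLin, MM_toLin, mulVec_mulVec]
      change C.π ((FO.Phi c.arm (Jm n K) (c.B K) F s *
        Co.DD c.arm (Jm n K) (c.B K) F (eM C) Q G) *ᵥ (v : Ix n → K)) =
        C.π (Psi c.arm (Jm n K) (c.B K) F G s *ᵥ (v : Ix n → K))
      rw [← h.Psi_e_eq hG, ← mulVec_mulVec, hv]
    rw [sub_eq_zero] at h1
    exact congrArg Subtype.val h1
  refine ext_mulVec (α := Ix n) fun v => ?_
  rw [ht_mulVec, ← key]
  change _ = Co.DD c.arm (Jm n K) (c.B K) F (eM C) Q G *ᵥ (C.π v)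
  rw [← eM_mulVec C v, mulVec_mulVec, h.DD_e hG]

end Crest.Agent.R172.N5
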