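import Crest.Agent.R172.TameCount3
import Crest.Agent.R172.Core3

/-!
Row 172: the data of `Core.Tame` in the form needed by `TC.exists_skew_final`.
-/

set_option autoImplicit false

namespace Crest.Agent.R172.TC

open Module LinearMap
open Crest.Agent.R172.Core (NS Tame)

variable {K : Type*} [Field K] {V : Type*} [AddCommGroup V] [Module K V]

theorem finrank_biSup [FiniteDimensional K V] {α : Type*} {p : α → Submodule K V}
    (hp : iSupIndep p) (s : Finset α) :
    finrank K (⨆ ν ∈ s, p ν : Submodule K V) = ∑ ν ∈ s, finrank K (p ν) := by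
  classical
  induction s using Finset.induction_on with
  | empty => simp
  | insert a s ha ih =>
    rw [Finset.sum_insert ha, ← ih, Finset.iSup_insert]
    have hd : Disjoint (p a) (⨆ ν ∈ s, p ν) := by
      refine hp.disjoint_biSup (y := (s : Set α)) ?_
      exact fun h => ha h
    have h1 := Submodule.finrank_sup_add_finrank_inf_eq (p a) (⨆ ν ∈ s, p ν)
    rw [hd.eq_bot, finrank_bot, add_zero] at h1
    exact h1

theorem finrank_iSup [FiniteDimensional K V] {α : Type*} {p : α → Submodule K V}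
    (hp : iSupIndep p) {s : Finset α} (hs : ∀ ν, p ν ≠ ⊥ → ν ∈ s) :
    finrank K (⨆ ν, p ν : Submodule K V) = ∑ ν ∈ s, finrank K (p ν) := by
  rw [← finrank_biSup hp s]
  have : (⨆ ν, p ν) = ⨆ ν ∈ s, p ν := by
    apply le_antisymm
    · refine iSup_le fun ν => ?_
      by_cases h : p ν = ⊥
      · rw [h]; exact bot_le
      · exact le_iSup₂_of_le ν (hs ν h) le_rfl
    · exact iSup₂_le fun ν _ => le_iSup p ν
  rw [this]

variable {ι : Type*} [Fintype ι]

/-- freeness on the whole space from `Tame`. -/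
theorem free_of_tame [FiniteDimensional K V] {Φ : ι → End K V} {D : End K V}
    (hDΦ : ∀ s v, D (Φ s v) = Φ s (D v)) (hD : ⨆ ν, D.maxGenEigenspace ν = ⊤)
    (h : Tame Φ D) :
    ∃ l : ι → ℕ, (∀ s, 1 ≤ l s) ∧ ∑ s, (1 - 1 / (l s : ℚ)) = 2 ∧ (∀ s, Φ s ^ l s = 0) ∧
      (∀ s, l s * finrank K (ker (Φ s)) = finrank K V) ∧ 0 < finrank K V ∧
      ∀ s, l s < finrank K V := by
  classical
  obtain ⟨⟨lam, mu, hne, hlam, hmu⟩, -, l, h1, h2, h3⟩ := h
  have hind := Module.End.independent_maxGenEigenspace D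
  have hfin : {ν | D.maxGenEigenspace ν ≠ ⊥}.Finite :=
    WellFoundedGT.finite_ne_bot_of_iSupIndep hind
  set S : Finset K := hfin.toFinset with hS
  have hmem : ∀ ν, ν ∈ S ↔ D.maxGenEigenspace ν ≠ ⊥ := by
    intro ν; rw [hS, Set.Finite.mem_toFinset]; rfl
  have hV : finrank K V = ∑ ν ∈ S, finrank K (D.maxGenEigenspace ν) := by
    rw [← finrank_iSup hind (fun ν h => (hmem ν).2 h), hD, finrank_top]
  have hnil : ∀ s, Φ s ^ l s = 0 := by
    intro s
    apply LinearMap.ext
    intro v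
    have hle : (⊤ : Submodule K V) ≤ ker (Φ s ^ l s) := by
      rw [← hD]
      refine iSup_le fun ν => ?_
      by_cases hν : D.maxGenEigenspace ν = ⊥
      · rw [hν]; exact bot_le
      · intro w hw
        exact (((h2 s ν hν).1 (l s)).2 le_rfl) w hw
    exact hle (Submodule.mem_top (x := v))
  have hker : ∀ s, finrank K (ker (Φ s)) =
      ∑ ν ∈ S, finrank K (ker (Φ s) ⊓ D.maxGenEigenspace ν : Submodule K V) := by
    intro s
    have hind' : iSupIndep fun ν => (ker (Φ s) ⊓ D.maxGenEigenspace ν : Submodule K V) :=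
      hind.mono fun ν => inf_le_right
    rw [← finrank_iSup hind' (fun ν h => (hmem ν).2 fun h0 => h (by rw [h0, inf_bot_eq]))]
    have hst : ∀ x ∈ ker (Φ s), D x ∈ ker (Φ s) := by
      intro x hx
      rw [LinearMap.mem_ker] at hx ⊢
      rw [← hDΦ, hx, map_zero]
    have h4 := Submodule.inf_iSup_genEigenspace (f := D) (p := ker (Φ s)) hst
      (k := ⊤)
    have h5 : (⨆ ν, ker (Φ s) ⊓ D.maxGenEigenspace ν) = ker (Φ s) := by
      have h6 : (⨆ ν, (D.genEigenspace ν) ⊤) = ⊤ := hD
      rw [h6, inf_top_eq] at h4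
      exact h4.symm
    rw [h5]
  have hfree : ∀ s, l s * finrank K (ker (Φ s)) = finrank K V := by
    intro s
    rw [hker, hV, Finset.mul_sum]
    exact Finset.sum_congr rfl fun ν hν => ((h2 s ν ((hmem ν).1 hν)).2)
  have hlt : ∀ s, l s < finrank K V := by
    intro s
    have hge : ∀ ν, D.maxGenEigenspace ν ≠ ⊥ → l s ≤ finrank K (D.maxGenEigenspace ν) := by
      intro ν hν
      rw [← (h2 s ν hν).2]
      have hpos : 0 < finrank K (D.maxGenEigenspace ν) := by
        rw [Nat.pos_iff_ne_zero]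
        intro h0
        exact hν (Submodule.finrank_eq_zero.1 h0)
      rw [← (h2 s ν hν).2] at hpos
      have := Nat.pos_of_mul_pos_left hpos
      exact Nat.le_mul_of_pos_right _ (by
        by_contra h0
        simp only [not_lt, Nat.le_zero] at h0
        rw [h0] at hpos
        simp at hpos)
    have ha := hge lam hlam
    have hb := hge mu hmu
    have hsub : ({lam, mu} : Finset K) ⊆ S := by
      intro x hx
      simp only [Finset.mem_insert, Finset.mem_singleton] at hx
      rcases hx with rfl | rfl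
      · exact (hmem _).2 hlam
      · exact (hmem _).2 hmu
    have hle := Finset.sum_le_sum_of_subset (f := fun ν => finrank K (D.maxGenEigenspace ν)) hsub
    rw [Finset.sum_pair hne] at hle
    have := h1 s
    omega
  refine ⟨l, h1, h3, hnil, hfree, ?_, hlt⟩
  rw [hV]
  refine Finset.sum_pos' (fun _ _ => Nat.zero_le _) ⟨lam, (hmem _).2 hlam, ?_⟩
  rw [Nat.pos_iff_ne_zero]
  intro h0
  exact hlam (Submodule.finrank_eq_zero.1 h0)

/-- **Step (4) from `Tame`.** -/
theorem exists_skew_of_tame [FiniteDimensional K V] [CharZero K] {B : LinearMap.BilinForm K V}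
    (hB : NS B) (Φ : Fin 3 → End K V) (hΦ : ∀ s v w, B (Φ s v) w = B v (Φ s w)) {D : End K V}
    (hDΦ : ∀ s v, D (Φ s v) = Φ s (D v)) (hD : ⨆ ν, D.maxGenEigenspace ν = ⊤)
    (h : Tame Φ D)
    (h333 : (∀ s, Φ s ^ 3 = 0 ∧ 3 * finrank K (ker (Φ s)) = finrank K V) →
      Gen B (fun i : Fin 3 => i) (fun s => range (Φ s ^ 2))) :
    ∃ X : End K V, X ≠ 0 ∧ (∀ v w, B (X v) w = - B v (X w)) ∧
      ∀ (s : Fin 3) (j : ℕ), ∀ x ∈ range (Φ s ^ j), X x ∈ range (Φ s ^ j) := by
  obtain ⟨l, h1, h2, h3, h4, h5, h6⟩ := free_of_tame hDΦ hD h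
  refine exists_skew_final hB Φ hΦ l h1 h2 h3 h4 h5 fun hl => ⟨?_, h333 fun s => ?_⟩
  · have := h6 0
    rwa [hl] at this
  · have e1 := h3 s
    have e2 := h4 s
    rw [hl] at e1 e2
    exact ⟨e1, e2⟩

end Crest.Agent.R172.TC
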