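import Crest.Agent.R172.CoreP2
import Crest.Agent.R172.EndR
import Crest.Agent.R172.N5b
import Crest.Agent.R172.TameCount4

/-!
Row 172, TAME, arbitrary radical, part C: from `CSys.TameAt F G C τ` to the END (`EndR.tame_false_of`).

* `Nums C τ l`: the numbers `l` and all elementary properties of the blocks `τ.maxGenEigenspace nu`;
* `nums_of_tame`;
* `Tp_eq_iSup`: `Tp = ⨆ PP_nu`, and the decomposition of radical elements;
* `false_of_blocks`: single arm memberships for all pairs of blocks contradict `TameAt`.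
-/

set_option autoImplicit false
set_option linter.unusedSectionVars false

namespace Crest.Agent.R172.CP

open Module LinearMap
open Crest.Agent.R172.St Crest.Agent.R172.Core

variable {K : Type*} [Field K]

section blocks

variable {M : Type*} [AddCommGroup M] [Module K M] {ι : Type*} [Fintype ι]
  {Φ : ι → End K M} {τ : End K M}

theorem gen_le_Ax [FiniteDimensional K M] (htop : ⨆ s, range (Φ s) = ⊤)
    (hD : ∀ s v, τ (Φ s v) = Φ s (τ v))
    (hDs : ⨆ ν, τ.maxGenEigenspace ν = ⊤) (nu : K) :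
    τ.maxGenEigenspace nu ≤ Ax Φ (τ.maxGenEigenspace nu) := by
  intro v hv
  have h1 : v ∈ Ax Φ (⊤ : Submodule K M) := by
    have h2 : v ∈ (⊤ : Submodule K M) := Submodule.mem_top
    rw [← htop] at h2
    unfold Ax
    simpa only [Submodule.map_top] using h2
  obtain ⟨w, -, rfl⟩ := mem_Ax_iff.1 h1
  have hc := gen_isCompl hDs nu
  have h2 : ∀ s, ∃ a ∈ τ.maxGenEigenspace nu, ∃ b ∈ co τ nu, a + b = w s := by
    intro s
    have h3 : w s ∈ τ.maxGenEigenspace nu ⊔ co τ nu := by rw [hc.sup_eq_top]; trivial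
    exact Submodule.mem_sup.1 h3
  choose a ha b hb hab using h2
  have h3 : ∑ s, Φ s (w s) = ∑ s, Φ s (a s) + ∑ s, Φ s (b s) := by
    rw [← Finset.sum_add_distrib]
    exact Finset.sum_congr rfl fun s _ => by rw [← hab s, map_add]
  have h4 : ∑ s, Φ s (a s) ∈ τ.maxGenEigenspace nu :=
    Submodule.sum_mem _ fun s _ => gen_stable (hD s) nu _ (ha s)
  have h5 : ∑ s, Φ s (b s) ∈ co τ nu :=
    Submodule.sum_mem _ fun s _ => co_stable (hD s) nu _ (hb s)
  have h6 : ∑ s, Φ s (b s) ∈ τ.maxGenEigenspace nu := by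
    rw [h3] at hv
    have h7 := Submodule.sub_mem _ hv h4
    rwa [add_sub_cancel_left] at h7
  have h7 : ∑ s, Φ s (b s) = 0 := Submodule.disjoint_def.1 hc.disjoint _ h6 h5
  rw [h3, h7, add_zero]
  exact mem_Ax_iff.2 ⟨a, ha, rfl⟩

end blocks

section nums

variable {V : Type*} [AddCommGroup V] [Module K V] {B : LinearMap.BilinForm K V}
  {Φ : Fin 3 → End K V}

/-- the numbers `l` and the elementary properties of the blocks. -/
structure Nums (C : St.Core B Φ) (τ : End K C.M) (l : Fin 3 → ℕ) : Prop where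
  one_le : ∀ s, 1 ≤ l s
  sum : ∑ s, (1 - 1 / (l s : ℚ)) = 2
  stable : ∀ nu s, ∀ m ∈ τ.maxGenEigenspace nu, cp C (Φ s) m ∈ τ.maxGenEigenspace nu
  perfect : ∀ nu, τ.maxGenEigenspace nu ≤ Ax (fun s => cp C (Φ s)) (τ.maxGenEigenspace nu)
  nil : ∀ nu s, ∀ m ∈ τ.maxGenEigenspace nu, (cp C (Φ s) ^ l s) m = 0
  free : ∀ nu s, l s * finrank K (ker (cp C (Φ s)) ⊓ τ.maxGenEigenspace nu : Submodule K C.M) =
    finrank K (τ.maxGenEigenspace nu)
  dim : ∀ nu, ∑ s, finrank K (ker (cp C (Φ s)) ⊓ τ.maxGenEigenspace nu : Submodule K C.M) +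
    2 * finrank K (τ.maxGenEigenspace nu) =
      Fintype.card (Fin 3) * finrank K (τ.maxGenEigenspace nu)
  orth : ∀ nu mu, nu ≠ mu → ∀ m ∈ τ.maxGenEigenspace nu, ∀ m' ∈ τ.maxGenEigenspace mu,
    BM C m m' = 0
  top : ⨆ ν, τ.maxGenEigenspace ν = ⊤
  nilM : ∀ s, cp C (Φ s) ^ l s = 0
  freeM : ∀ s, l s * finrank K (ker (cp C (Φ s))) = finrank K C.M

/-- the numbers of a tame triple -/
theorem nums_of_tame [FiniteDimensional K V] (hB : NS B) (hΦ : ∀ s, Sa B (Φ s))
    (C : St.Core B Φ) {τ : End K C.M} (hsa : ∀ v w, BM C (τ v) w = BM C v (τ w))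
    (hcomm : ∀ s v, τ (cp C (Φ s) v) = cp C (Φ s) (τ v))
    (hDs : ⨆ ν, τ.maxGenEigenspace ν = ⊤) (hT : Tame (fun s => cp C (Φ s)) τ) :
    ∃ l, Nums C τ l := by
  classical
  obtain ⟨-, -, l, h1, h2, h3⟩ := hT
  have hnil : ∀ nu s, ∀ m ∈ τ.maxGenEigenspace nu, (cp C (Φ s) ^ l s) m = 0 := by
    intro nu s m hm
    by_cases hν : τ.maxGenEigenspace nu = ⊥
    · rw [hν, Submodule.mem_bot] at hm
      rw [hm, map_zero]
    · exact (((h2 s nu hν).1 (l s)).2 le_rfl) m hm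
  have hfree : ∀ nu s, l s *
      finrank K (ker (cp C (Φ s)) ⊓ τ.maxGenEigenspace nu : Submodule K C.M) =
      finrank K (τ.maxGenEigenspace nu) := by
    intro nu s
    by_cases hν : τ.maxGenEigenspace nu = ⊥
    · rw [hν, inf_bot_eq, finrank_bot, mul_zero]
    · exact (h2 s nu hν).2
  have hind := Module.End.independent_maxGenEigenspace τ
  have hfin : {ν | τ.maxGenEigenspace ν ≠ ⊥}.Finite :=
    WellFoundedGT.finite_ne_bot_of_iSupIndep hind
  set S : Finset K := hfin.toFinset with hS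
  have hmem : ∀ ν, ν ∈ S ↔ τ.maxGenEigenspace ν ≠ ⊥ := by
    intro ν; rw [hS, Set.Finite.mem_toFinset]; rfl
  have hV : finrank K C.M = ∑ ν ∈ S, finrank K (τ.maxGenEigenspace ν) := by
    rw [← TC.finrank_iSup hind (fun ν h => (hmem ν).2 h), hDs, finrank_top]
  have hker : ∀ s, finrank K (ker (cp C (Φ s))) =
      ∑ ν ∈ S, finrank K (ker (cp C (Φ s)) ⊓ τ.maxGenEigenspace ν : Submodule K C.M) := by
    intro s
    have hind' : iSupIndep fun ν =>
        (ker (cp C (Φ s)) ⊓ τ.maxGenEigenspace ν : Submodule K C.M) :=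
      hind.mono fun ν => inf_le_right
    rw [← TC.finrank_iSup hind' (fun ν h => (hmem ν).2 fun h0 => h (by rw [h0, inf_bot_eq]))]
    have hst : ∀ x ∈ ker (cp C (Φ s)), τ x ∈ ker (cp C (Φ s)) := by
      intro x hx
      rw [LinearMap.mem_ker] at hx ⊢
      rw [← hcomm, hx, map_zero]
    have h4 := Submodule.inf_iSup_genEigenspace (f := τ) (p := ker (cp C (Φ s))) hst
      (k := ⊤)
    have h5 : (⨆ ν, ker (cp C (Φ s)) ⊓ τ.maxGenEigenspace ν) = ker (cp C (Φ s)) := by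
      have h6 : (⨆ ν, (τ.genEigenspace ν) ⊤) = ⊤ := hDs
      rw [h6, inf_top_eq] at h4
      exact h4.symm
    rw [h5]
  refine ⟨l, h1, h3, fun nu s => gen_stable (hcomm s) nu, ?_, hnil, hfree, ?_,
    fun nu mu hne => gen_ortho hsa hne, hDs, ?_, ?_⟩
  · intro nu
    exact gen_le_Ax (iSup_range_eq_top (NS_BM hB C) (fun s => cp_sa C (hΦ s)) (cp_ker hΦ C))
      hcomm hDs nu
  · intro nu
    have h4 : ∀ s, ((finrank K (ker (cp C (Φ s)) ⊓ τ.maxGenEigenspace nu :
        Submodule K C.M) : ℕ) : ℚ) = (1 / (l s : ℚ)) * finrank K (τ.maxGenEigenspace nu) := by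
      intro s
      have h5 : (l s : ℚ) ≠ 0 := by
        have := h1 s
        exact_mod_cast (by omega : l s ≠ 0)
      rw [← hfree nu s]
      push_cast
      field_simp
    have h6 : (((∑ s, finrank K (ker (cp C (Φ s)) ⊓ τ.maxGenEigenspace nu : Submodule K C.M)) +
        2 * finrank K (τ.maxGenEigenspace nu) : ℕ) : ℚ) =
        ((Fintype.card (Fin 3) * finrank K (τ.maxGenEigenspace nu) : ℕ) : ℚ) := by
      push_cast
      rw [Finset.sum_congr rfl fun s _ => h4 s, ← Finset.sum_mul]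
      rw [Finset.sum_sub_distrib] at h3
      have h7 : ∑ s, (1 / (l s : ℚ)) = 1 := by
        have h8 : ∑ _s : Fin 3, (1 : ℚ) = 3 := by simp
        rw [h8] at h3
        linarith
      rw [h7, Fintype.card_fin]
      push_cast
      ring
    exact_mod_cast h6
  · intro s
    apply LinearMap.ext
    intro v
    have hle : (⊤ : Submodule K C.M) ≤ ker (cp C (Φ s) ^ l s) := by
      rw [← hDs]
      exact iSup_le fun ν w hw => hnil ν s w hw
    exact hle (Submodule.mem_top (x := v))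
  · intro s
    rw [hker, hV, Finset.mul_sum]
    exact Finset.sum_congr rfl fun ν _ => hfree ν s

variable {C : St.Core B Φ} {τ : End K C.M} {l : Fin 3 → ℕ}

/-- `Tp` is perfect -/
theorem Tp_le_Ax [FiniteDimensional K V] (hB : NS B) (hΦ : ∀ s, Sa B (Φ s)) :
    Tp B Φ ≤ Ax Φ (Tp B Φ) := by
  have hrefl : B.IsRefl := fun u v h => by rw [hB.symm]; exact h
  have h1 : B.orthogonal (B.orthogonal (Ax Φ (Tp B Φ))) = Ax Φ (Tp B Φ) :=
    LinearMap.BilinForm.orthogonal_orthogonal hB.nondeg hrefl _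
  have hTp : B.orthogonal (T Φ) = Tp B Φ := by
    ext v
    rw [LinearMap.BilinForm.mem_orthogonal_iff]
    constructor
    · intro h t ht
      rw [hB.symm]; exact h t ht
    · intro h t ht
      show B t v = 0
      rw [hB.symm]; exact h t ht
  have h2 : B.orthogonal (Tp B Φ) = T Φ := by
    rw [← hTp]
    exact LinearMap.BilinForm.orthogonal_orthogonal hB.nondeg hrefl _
  have h3 : B.orthogonal (Ax Φ (Tp B Φ)) ≤ T Φ := by
    intro u hu
    rw [LinearMap.BilinForm.mem_orthogonal_iff] at hu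
    apply T_closed
    intro s
    rw [← h2, LinearMap.BilinForm.mem_orthogonal_iff]
    intro v hv
    show B v (Φ s u) = 0
    rw [← hΦ s v u]
    exact hu _ (mem_Ax hv s)
  rw [← h1]
  have h4 := LinearMap.BilinForm.orthogonal_le (B := B) h3
  rw [hTp] at h4
  exact h4

theorem It_T_le [FiniteDimensional K V] (Φ : Fin 3 → End K V) : ∃ k, It Φ (T Φ) k ≤ ⊥ := by
  obtain ⟨k, hk⟩ := T_eq_Nk Φ
  exact ⟨k, by rw [hk]; exact It_Nk Φ k⟩

/-- **`Tp` is the sum of the perfect blocks** -/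
theorem Tp_eq_iSup [FiniteDimensional K V] (hB : NS B) (hΦ : ∀ s, Sa B (Φ s))
    (h : Nums C τ l) : ⨆ ν, PP C (τ.maxGenEigenspace ν) = Tp B Φ := by
  apply le_antisymm
  · exact iSup_le fun ν => PP_le_Tp
  · set S : Submodule K V := ⨆ ν, PP C (τ.maxGenEigenspace ν) with hS
    have hSst : Ax Φ S ≤ S := by
      refine Ax_le fun s v hv => ?_
      have : S ≤ S.comap (Φ s) := by
        rw [hS]
        refine iSup_le fun ν p hp => ?_
        exact Submodule.mem_iSup_of_mem ν (PP_stable hΦ (h.stable ν) s hp)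
      exact this hv
    have hmap : ∀ m : C.M, ∃ p ∈ S, pM C p = m := by
      intro m
      have h1 : (⨆ ν, τ.maxGenEigenspace ν) ≤ S.map (pM C) := by
        refine iSup_le fun ν => ?_
        rw [← map_PP hΦ (h.stable ν) (h.perfect ν)]
        exact Submodule.map_mono (le_iSup (fun ν => PP C (τ.maxGenEigenspace ν)) ν)
      rw [h.top] at h1
      obtain ⟨p, hp, hpm⟩ := h1 (Submodule.mem_top (x := m))
      exact ⟨p, hp, hpm⟩
    have hsplit : ∀ v ∈ Tp B Φ, ∃ p ∈ S, v - p ∈ T Φ := by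
      intro v hv
      obtain ⟨p, hp, hpm⟩ := hmap (pM C v)
      refine ⟨p, hp, ?_⟩
      have hpT : p ∈ Tp B Φ := (iSup_le fun ν => PP_le_Tp : S ≤ Tp B Φ) hp
      rw [← pM_eq_zero C (Submodule.sub_mem _ hv hpT), map_sub, hpm, sub_self]
    obtain ⟨k, hk⟩ := It_T_le Φ
    -- `Tp ≤ S + It_j T`
    have key : ∀ j, Tp B Φ ≤ S ⊔ It Φ (T Φ) j := by
      intro j
      induction j with
      | zero =>
        intro v hv
        obtain ⟨p, hp, hpT⟩ := hsplit v hv
        exact Submodule.mem_sup.2 ⟨p, hp, v - p, hpT, by abel⟩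
      | succ j ih =>
        refine (Tp_le_Ax hB hΦ).trans (Ax_le fun s v hv => ?_)
        obtain ⟨p, hp, t, ht, rfl⟩ := Submodule.mem_sup.1 (ih hv)
        rw [map_add]
        exact Submodule.add_mem_sup (hSst (mem_Ax hp s)) (mem_Ax ht s)
    exact (key k).trans (sup_le le_rfl (hk.trans bot_le))

end nums

end Crest.Agent.R172.CP

namespace Crest.Agent.R172.CP

open Module LinearMap
open Crest.Agent.R172.St Crest.Agent.R172.Core

section rad

variable {K : Type*} [Field K] {V : Type*} [AddCommGroup V] [Module K V]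
  {B : LinearMap.BilinForm K V} {Φ : Fin 3 → End K V} {C : St.Core B Φ} {τ : End K C.M}
  {l : Fin 3 → ℕ}

/-- radical elements decompose along the blocks -/
theorem rad_le_iSup [FiniteDimensional K V] (hB : NS B) (hΦ : ∀ s, Sa B (Φ s))
    (h : Nums C τ l) : Tp B Φ ⊓ T Φ ≤ ⨆ ν, (PP C (τ.maxGenEigenspace ν) ⊓ T Φ) := by
  rintro r ⟨hr1, hr2⟩
  have hr1' := hr1
  rw [SetLike.mem_coe, ← Tp_eq_iSup hB hΦ h,
    Submodule.mem_iSup_iff_exists_finsupp] at hr1
  obtain ⟨f, hf, hfr⟩ := hr1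
  have h1 : ∑ ν ∈ f.support, pM C (f ν) = 0 := by
    rw [← map_sum]
    have h2 : ∑ ν ∈ f.support, f ν = r := hfr
    rw [h2, pM_eq_zero C hr1']
    exact hr2
  have h2 := (iSupIndep_iff_finsetSum_eq_zero_imp_eq_zero _).1
    (Module.End.independent_maxGenEigenspace τ) f.support (fun ν => pM C (f ν))
    (fun ν _ => pM_mem (hf ν)) h1
  have h3 : r = ∑ ν ∈ f.support, f ν := hfr.symm
  rw [h3]
  refine Submodule.sum_mem _ fun ν hν => Submodule.mem_iSup_of_mem ν ⟨hf ν, ?_⟩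
  rw [SetLike.mem_coe, ← pM_eq_zero C (PP_le_Tp (hf ν))]
  exact h2 ν hν

end rad

end Crest.Agent.R172.CP

namespace Crest.Agent.R172.CP

open Module Matrix Crest.Agent.R172.ThX Crest.Agent.R172.CSys Crest.Agent.R172.CF
open Crest.Agent.R172.Gen (Jm Ix)
open Crest.Agent.R172.TG Crest.Agent.R172.N5

section tens

variable {ι : Type*} [Fintype ι] [DecidableEq ι] {K : Type*} [Field K] {J : Matrix ι ι K}

theorem T_zero_left (q : ι → K) : EndR.T J 0 q = 0 := by
  have := EndR.T_smul_left (J := J) (0 : K) 0 q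
  simpa using this

theorem T_zero_right (p : ι → K) : EndR.T J p 0 = 0 := by
  have := EndR.T_smul_right (J := J) (0 : K) p 0
  simpa using this

theorem iSup_bilin {α β : Type*} {P : α → Submodule K (ι → K)} {P' : β → Submodule K (ι → K)}
    {Q : Submodule K (Matrix ι ι K)} {A A' : Matrix ι ι K}
    (h : ∀ μ ν, ∀ p ∈ P μ, ∀ q ∈ P' ν, EndR.T J (A *ᵥ p) (A' *ᵥ q) ∈ Q) :
    ∀ p ∈ ⨆ μ, P μ, ∀ q ∈ ⨆ ν, P' ν, EndR.T J (A *ᵥ p) (A' *ᵥ q) ∈ Q := by
  intro p hp
  induction hp using Submodule.iSup_induction' with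
  | mem μ p hp =>
    intro q hq
    induction hq using Submodule.iSup_induction' with
    | mem ν q hq => exact h μ ν p hp q hq
    | zero => rw [mulVec_zero, T_zero_right]; exact Q.zero_mem
    | add x y _ _ hx hy => rw [mulVec_add, EndR.T_add_right]; exact Q.add_mem hx hy
  | zero => intro q _; rw [mulVec_zero, T_zero_left]; exact Q.zero_mem
  | add x y _ _ hx hy =>
    intro q hq
    rw [mulVec_add, EndR.T_add_left]
    exact Q.add_mem (hx q hq) (hy q hq)

theorem iSup_bilin1 {α β : Type*} {P : α → Submodule K (ι → K)} {P' : β → Submodule K (ι → K)}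
    {Q : Submodule K (Matrix ι ι K)}
    (h : ∀ μ ν, ∀ p ∈ P μ, ∀ q ∈ P' ν, EndR.T J p q ∈ Q) :
    ∀ p ∈ ⨆ μ, P μ, ∀ q ∈ ⨆ ν, P' ν, EndR.T J p q ∈ Q := by
  have h1 := iSup_bilin (J := J) (P := P) (P' := P') (Q := Q) (A := 1) (A' := 1)
    (by simpa using h)
  simpa using h1

end tens

section mat

variable {n : ℕ} {a : Fin 3 → Fin n → ℤ} {c : Cfg n a} {K : Type} [Field K] [Algebra ℂ K]
variable {N W : Submodule K (Matrix (Ix n) c.δ K)} {F G : Matrix (Ix n) c.δ K}
  {C : St.Core (BV n K) (Ph F)} {τ : Module.End K C.M} {l : Fin 3 → ℕ}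

theorem eM_eq_zero {v : Ix n → K} (hv : v ∈ St.Tp (BV n K) (Ph F)) :
    eM C *ᵥ v = 0 ↔ v ∈ St.T (Ph F) := by
  rw [eM_mulVec]
  constructor
  · intro h
    have h1 := C.rem v hv
    rwa [h, sub_zero] at h1
  · intro h
    exact C.killT v h

/-- the section of `F` on the core -/
theorem exists_R (hD : FO.Data ℂ c.arm (Jm n K) (c.B K) N W) (hF : F ∈ N ⊓ W)
    (C : St.Core (BV n K) (Ph F)) : ∃ R : Matrix c.δ (Ix n) K, F * R = eM C := by
  have h1 : ∀ v : Ix n → K, ∃ x : c.δ → K, C.π v = F *ᵥ x := by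
    intro v
    obtain ⟨w, -, hw⟩ := mem_Ax_iff.1 (Tp_le_Ax BV_ns (Ph_sa hD hF) (C.le _ (C.mem v)))
    refine ⟨∑ s, (FO.E K c.arm s * c.B K * Fᵀ * Jm n K) *ᵥ w s, ?_⟩
    rw [hw, Matrix.mulVec_sum]
    refine Finset.sum_congr rfl fun s _ => ?_
    rw [Ph_apply, mulVec_mulVec, FO.Phi, FO.M]
    simp only [Matrix.mul_assoc]
  choose x hx using h1
  refine ⟨Matrix.of fun i j => x (Pi.single j 1) i, ?_⟩
  ext i j
  have h2 := congrFun (hx (Pi.single j 1)) i
  rw [← eM_mulVec, mulVec_single_one] at h2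
  have h3 : (eM C).col j i = eM C i j := rfl
  rw [h3] at h2
  rw [h2, Matrix.mul_apply]
  rfl

theorem Ph_pow_apply (s : Fin 3) (k : ℕ) (v : Ix n → K) :
    (Ph F s ^ k) v = (FO.Phi c.arm (Jm n K) (c.B K) F s ^ k) *ᵥ v := by
  induction k with
  | zero => simp
  | succ k ih =>
    rw [pow_succ', Module.End.mul_apply, ih, Ph_apply, mulVec_mulVec, ← pow_succ']

/-- **(T0), arbitrary radical: the END.** Single arm memberships for all pairs of blocks contradict
`TameAt`. -/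
theorem false_of_blocks [IsAlgClosed K] [CharZero K]
    (hD : FO.Data ℂ c.arm (Jm n K) (c.B K) N W) (hF : F ∈ N ⊓ W)
    {C : St.Core (BV n K) (Ph F)} {τ : Module.End K C.M} (hT : TameAt F G C τ)
    (hl : Nums C τ l)
    (ha : ∀ s mu nu i j, i + j + 1 = l s → ∀ p ∈ PP C (τ.maxGenEigenspace mu),
      ∀ q ∈ PP C (τ.maxGenEigenspace nu),
      EndR.T (Jm n K) ((FO.Phi c.arm (Jm n K) (c.B K) F s ^ i) *ᵥ p)
        ((FO.Phi c.arm (Jm n K) (c.B K) F s ^ j) *ᵥ q) * F * FO.E K c.arm s ∈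
          QQ (Jm n K) N W F (eM C))
    (hb1 : ∀ s mu nu, ∀ r ∈ PP C (τ.maxGenEigenspace mu), r ∈ St.T (Ph F) →
      ∀ p ∈ PP C (τ.maxGenEigenspace nu),
      EndR.T (Jm n K) r p * F * FO.E K c.arm s ∈ QQ (Jm n K) N W F (eM C))
    (hb2 : ∀ s mu nu, ∀ r ∈ PP C (τ.maxGenEigenspace mu), r ∈ St.T (Ph F) →
      ∀ p ∈ PP C (τ.maxGenEigenspace nu),
      EndR.T (Jm n K) p r * F * FO.E K c.arm s ∈ QQ (Jm n K) N W F (eM C)) : False := by
  have hsa := Ph_sa hD hF
  obtain ⟨R, hR⟩ := exists_R hD hF C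
  have hsup := Tp_eq_iSup BV_ns hsa hl
  have hrad : ∀ r ∈ St.Tp (BV n K) (Ph F), eM C *ᵥ r = 0 →
      r ∈ ⨆ ν, (PP C (τ.maxGenEigenspace ν) ⊓ St.T (Ph F)) := fun r hr h0 =>
    rad_le_iSup BV_ns hsa hl ⟨hr, (eM_eq_zero hr).1 h0⟩
  refine EndR.tame_false_of hD hF hR (eM_idem C) (eM_sa C) (mem_M C)
    (fun s => Core.cp C (Ph F s)) ?_ hT.comm (Module.End.iSup_maxGenEigenspace_eq_top τ) hT.tame
    (P := St.Tp (BV n K) (Ph F)) ?_ ?_ ?_ hl.nilM hl.freeM ?_ ?_ ?_
  · intro s v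
    rw [Core.cp_coe, eM_mulVec, Ph_apply]
  · intro m hm
    exact ⟨m, C.le m hm, by rw [eM_mulVec, C.fix m hm]⟩
  · intro s p hp
    rw [← Ph_apply]
    exact Φ_Tp hsa s hp
  · intro s p hp
    rw [← Ph_apply, ← Ph_apply, eM_mulVec, eM_mulVec, eM_mulVec]
    exact (Core.pi_pres C (Core.pres_Φ hsa s) hp).symm
  · intro s i j hij p hp q hq
    rw [← hsup] at hp hq
    have h1 := iSup_bilin (J := Jm n K) (Q := EndR.Qs c.arm (Jm n K) N W F (eM C) s)
      (fun mu nu p hp q hq => ha s mu nu i j hij p hp q hq) p hp q hq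
    exact h1
  · intro s r hr h0 p hp
    rw [← hsup] at hp
    have h1 := iSup_bilin1 (J := Jm n K) (Q := EndR.Qs c.arm (Jm n K) N W F (eM C) s)
      (P := fun ν => PP C (τ.maxGenEigenspace ν) ⊓ St.T (Ph F))
      (fun mu nu p hp q hq => hb1 s mu nu p hp.1 hp.2 q hq) r (hrad r hr h0) p hp
    exact h1
  · intro s r hr h0 p hp
    rw [← hsup] at hp
    have h1 := iSup_bilin1 (J := Jm n K) (Q := EndR.Qs c.arm (Jm n K) N W F (eM C) s)
      (P' := fun ν => PP C (τ.maxGenEigenspace ν) ⊓ St.T (Ph F))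
      (fun nu mu q hq p hp => hb2 s mu nu p hp.1 hp.2 q hq) p hp r (hrad r hr h0)
    exact h1

end mat

end Crest.Agent.R172.CP
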