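import Crest.Agent.R172.EndP2

/-!
Row 172, TAME (T0), arbitrary radical, arbitrary `D`: the END in `P`-language with the correction
operators in a parameter space `ZZ ≤ End M` (644's `ZZ`, note 15796).

* `SyZ`: `w ∈ W` such that `(F u, w u') = (e F u, z e F u')` on `F⁻¹(P)` for some `z ∈ ZZ`.
* `tame_false_SZ`: single-arm memberships in `N ⊔ SyZ` and `(Z3)` contradict `Core.Tame`.
-/

set_option autoImplicit false
set_option linter.unusedSectionVars false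

namespace Crest.Agent.R172.EndP

open Matrix Module Crest.Agent.R172.FO Crest.Agent.R172.Core Crest.Agent.R172.TG
open Crest.Agent.R172.EndR (T PP T_mem_PP T_mulVec hext_of)

variable {ι : Type*} [Fintype ι] [DecidableEq ι] {δ : Type*} [Fintype δ] [DecidableEq δ]
variable {k K : Type*} [Field k] [Field K] [Algebra k K]
variable {arm : δ → Fin 3} {J : Matrix ι ι K} {B : Matrix δ δ K}
  {N W : Submodule K (Matrix ι δ K)} {F : Matrix ι δ K} {P : Submodule K (ι → K)}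
  {e : Matrix ι ι K} {M : Submodule K (ι → K)}

/-- corrections given by an operator of `ZZ` on the core -/
def SyZ (J : Matrix ι ι K) (W : Submodule K (Matrix ι δ K)) (F : Matrix ι δ K)
    (P : Submodule K (ι → K)) (e : Matrix ι ι K) (hM : ∀ v, v ∈ M ↔ ∃ w, v = e *ᵥ w)
    (ZZ : Submodule K (Module.End K M)) : Submodule K (Matrix ι δ K) where
  carrier := {w | w ∈ W ∧ ∃ z ∈ ZZ, ∀ u u' : δ → K, F *ᵥ u ∈ P → F *ᵥ u' ∈ P →
    (F *ᵥ u) ⬝ᵥ (J *ᵥ (w *ᵥ u')) =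
      frm J M (prM e hM (F *ᵥ u)) (z (prM e hM (F *ᵥ u')))}
  add_mem' := by
    rintro w w' ⟨h1, z, hz, h2⟩ ⟨h1', z', hz', h2'⟩
    refine ⟨W.add_mem h1 h1', z + z', ZZ.add_mem hz hz', fun u u' hu hu' => ?_⟩
    rw [add_mulVec, mulVec_add, dotProduct_add, h2 u u' hu hu', h2' u u' hu hu',
      LinearMap.add_apply, map_add]
  zero_mem' := ⟨W.zero_mem, 0, ZZ.zero_mem, fun u u' _ _ => by simp⟩
  smul_mem' := by
    rintro c w ⟨h1, z, hz, h2⟩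
    refine ⟨W.smul_mem c h1, c • z, ZZ.smul_mem c hz, fun u u' hu hu' => ?_⟩
    rw [smul_mulVec, mulVec_smul, dotProduct_smul, h2 u u' hu hu', LinearMap.smul_apply,
      map_smul]

/-- **END of (T0)**, arbitrary radical, arbitrary `D`. -/
theorem tame_false_SZ [CharZero K] (hD : Data k arm J B N W) (hF : F ∈ N ⊓ W)
    (hPF : ∀ p ∈ P, ∃ u, F *ᵥ u = p) (he : e * e = e) (heJ : eᵀ * J = J * e)
    (hM : ∀ v, v ∈ M ↔ ∃ w, v = e *ᵥ w) (ΦM : Fin 3 → Module.End K M)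
    (hΦM : ∀ s v, ((ΦM s v : M) : ι → K) = e *ᵥ (Phi arm J B F s *ᵥ (v : ι → K)))
    {D : Module.End K M} (hDΦ : ∀ s v, D (ΦM s v) = ΦM s (D v))
    (hDs : ⨆ ν, D.maxGenEigenspace ν = ⊤) (hT : Tame ΦM D)
    (hPM : ∀ m ∈ M, ∃ p ∈ P, e *ᵥ p = m)
    (hPe : ∀ p ∈ P, ∀ q ∈ P, (e *ᵥ p) ⬝ᵥ (J *ᵥ q) = p ⬝ᵥ (J *ᵥ q))
    (hΦP : ∀ s, ∀ p ∈ P, Phi arm J B F s *ᵥ p ∈ P)
    (hker : ∀ s, ∀ p ∈ P,
      e *ᵥ (Phi arm J B F s *ᵥ p) = e *ᵥ (Phi arm J B F s *ᵥ (e *ᵥ p)))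
    {l : Fin 3 → ℕ} (hl : ∀ s, ΦM s ^ l s = 0)
    (hf : ∀ s, l s * finrank K (LinearMap.ker (ΦM s)) = finrank K M)
    (ZZ : Submodule K (Module.End K M))
    (Z3 : ∀ X z : Module.End K M, (∀ v w, frm J M (X v) w = - frm J M v (X w)) →
      (∀ (s : Fin 3) (j : ℕ), ∀ x ∈ LinearMap.range (ΦM s ^ j),
        X x ∈ LinearMap.range (ΦM s ^ j)) → z ∈ ZZ →
      (∀ v w, frm J M ((X - z) v) w = frm J M v ((X - z) w)) →
      (∀ r v, (X - z) (ΦM r v) = ΦM r ((X - z) v)) → X = 0)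
    (ha : ∀ s i j, i + j + 1 = l s → ∀ p ∈ P, ∀ q ∈ P,
      T J ((Phi arm J B F s ^ i) *ᵥ p) ((Phi arm J B F s ^ j) *ᵥ q) * F * E K arm s ∈
        N ⊔ SyZ J W F P e hM ZZ)
    (hb1 : ∀ s, ∀ r ∈ P, e *ᵥ r = 0 → ∀ p ∈ P,
      T J r p * F * E K arm s ∈ N ⊔ SyZ J W F P e hM ZZ)
    (hb2 : ∀ s, ∀ r ∈ P, e *ᵥ r = 0 → ∀ p ∈ P,
      T J p r * F * E K arm s ∈ N ⊔ SyZ J W F P e hM ZZ) : False := by
  have hpow : ∀ s (i : ℕ), ∀ p ∈ P, (Phi arm J B F s ^ i) *ᵥ p ∈ P := by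
    intro s i
    induction i with
    | zero => intro p hp; simpa using hp
    | succ i ih =>
      intro p hp
      rw [pow_succ, ← mulVec_mulVec]
      exact ih _ (hΦP s p hp)
  have hNS := frm_NS hD.J_symm hD.J_unit he heJ hM
  have hsa := core_sa hD he heJ hM hΦM
  obtain ⟨A, hA0, hAs, hAr⟩ := TC.exists_skew_of_tame' hNS ΦM hsa hDΦ hDs hT
  obtain ⟨A', h1, h2⟩ := hext_of (Q := Qp arm J F (N ⊔ SyZ J W F P e hM ZZ) P) hD.J_symm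
    hD.J_unit he heJ hM hPM hΦP hker hΦM hsa hl hf
    (fun s i j hij p hp q hq => ⟨T_mem_PP (hpow s i p hp) (hpow s j q hq), ha s i j hij p hp q hq⟩)
    (fun s r hr hr0 p hp => ⟨T_mem_PP hr hp, hb1 s r hr hr0 p hp⟩)
    (fun s r hr hr0 p hp => ⟨T_mem_PP hp hr, hb2 s r hr hr0 p hp⟩) hAr
  have hA'F : A' * F ∈ N ⊔ SyZ J W F P e hM ZZ := sum_arm fun s => (h2 s).2
  obtain ⟨ν, hν, w, ⟨hw, z, hz, hwz⟩, hνw⟩ := Submodule.mem_sup.1 hA'F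
  have hν2 : ν = A' * F - w := by rw [← hνw]; abel
  have hK : ν ∈ N ⊓ W := ⟨hν, hν2 ▸ W.sub_mem (hD.W_left _ hF.2 A') hw⟩
  -- the form of `ν` on `F⁻¹(P)`
  have hval : ∀ v w : M, frm J M v (A w) = (v : ι → K) ⬝ᵥ (J *ᵥ (A' *ᵥ (w : ι → K))) := by
    intro v w
    rw [frm_apply]
    have e1 : ((A w : M) : ι → K) = (e * A' * e) *ᵥ (w : ι → K) := by
      rw [h1, hat_mulVec, prM_fix he]
    rw [e1, ← mulVec_mulVec, ← mulVec_mulVec, fix_of_mem he hM w, ← adj heJ, fix_of_mem he hM v]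
  have hform : ∀ u u' : δ → K, F *ᵥ u ∈ P → F *ᵥ u' ∈ P →
      (F *ᵥ u) ⬝ᵥ (J *ᵥ (ν *ᵥ u')) =
        frm J M (prM e hM (F *ᵥ u)) ((A - z) (prM e hM (F *ᵥ u'))) := by
    intro u u' hu hu'
    rw [hν2, sub_mulVec, mulVec_sub, dotProduct_sub, hwz u u' hu hu', LinearMap.sub_apply,
      map_sub, hval, prM_coe, prM_coe, PP_core hD.J_symm hPe (h2 0).1 hu hu', ← mulVec_mulVec]
  -- every element of `M` comes from `F⁻¹(P)`
  have hsur : ∀ v : M, ∃ u, F *ᵥ u ∈ P ∧ prM e hM (F *ᵥ u) = v := by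
    intro v
    obtain ⟨p, hp, hpv⟩ := hPM v v.2
    obtain ⟨u, rfl⟩ := hPF p hp
    exact ⟨u, hp, Subtype.ext (by rw [prM_coe, hpv])⟩
  have hsymm : ∀ u u' : δ → K, (F *ᵥ u) ⬝ᵥ (J *ᵥ (ν *ᵥ u')) =
      (F *ᵥ u') ⬝ᵥ (J *ᵥ (ν *ᵥ u)) := by
    intro u u'
    have hs := hD.symm_U hF hK
    have h5 : u ⬝ᵥ ((Fᵀ * J * ν) *ᵥ u') = u ⬝ᵥ ((νᵀ * J * F) *ᵥ u') := by rw [hs]
    rw [← mulVec_mulVec u' (Fᵀ * J), ← mulVec_mulVec u' (νᵀ * J), adjv, adjv] at h5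
    rw [h5, dot_J_symm hD.J_symm]
  have hSsa : ∀ v w, frm J M ((A - z) v) w = frm J M v ((A - z) w) := by
    intro v w
    obtain ⟨u, hu, rfl⟩ := hsur v
    obtain ⟨u', hu', rfl⟩ := hsur w
    rw [hNS.symm, ← hform u' u hu' hu, hsymm, hform u u' hu hu']
  have hProj : ∀ r, ∀ p ∈ P, prM e hM (Phi arm J B F r *ᵥ p) = ΦM r (prM e hM p) := by
    intro r p hp
    apply Subtype.ext
    rw [prM_coe, hΦM, prM_coe, hker r p hp]
  have hScom : ∀ r v, (A - z) (ΦM r v) = ΦM r ((A - z) v) := by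
    intro r v
    rw [← sub_eq_zero]
    apply hNS.nd
    intro v'
    rw [map_sub, LinearMap.sub_apply, sub_eq_zero]
    obtain ⟨u0, hu0, rfl⟩ := hsur v
    obtain ⟨u', hu', rfl⟩ := hsur v'
    have key : ∀ a b : δ → K, F *ᵥ a ∈ P → F *ᵥ b ∈ P →
        frm J M (prM e hM (F *ᵥ b)) ((A - z) (ΦM r (prM e hM (F *ᵥ a)))) =
        (F *ᵥ b) ⬝ᵥ ((J * (ν * E K arm r * B * Fᵀ * J)) *ᵥ (F *ᵥ a)) := by
      intro a b ha' hb'
      have e1 : F *ᵥ ((E K arm r * B * (Fᵀ * J)) *ᵥ (F *ᵥ a)) = Phi arm J B F r *ᵥ (F *ᵥ a) := by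
        rw [mulVec_mulVec _ F]
        unfold FO.Phi FO.M
        simp only [Matrix.mul_assoc]
      have e2 : F *ᵥ ((E K arm r * B * (Fᵀ * J)) *ᵥ (F *ᵥ a)) ∈ P := by
        rw [e1]; exact hΦP r _ ha'
      have e3 := hform b _ hb' e2
      rw [e1, hProj r _ ha'] at e3
      rw [← e3, mulVec_mulVec _ ν, mulVec_mulVec _ J]
      simp only [Matrix.mul_assoc]
    have e4 : ν * E K arm r * B * Fᵀ * J = F * E K arm r * B * νᵀ * J := by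
      have := hD.symm_arm hK hF r
      unfold FO.M at this
      rw [this]
    have e6 : (J * (ν * E K arm r * B * Fᵀ * J))ᵀ = J * (ν * E K arm r * B * Fᵀ * J) := by
      conv_lhs => rw [e4]
      simp only [transpose_mul, transpose_transpose, hD.J_symm, hD.B_symm, E_transpose]
      simp only [← Matrix.mul_assoc]
      rw [Matrix.mul_assoc (J * ν) B, ← hD.B_arm, ← Matrix.mul_assoc]
    calc frm J M ((A - z) (ΦM r (prM e hM (F *ᵥ u0)))) (prM e hM (F *ᵥ u'))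
        = frm J M (prM e hM (F *ᵥ u')) ((A - z) (ΦM r (prM e hM (F *ᵥ u0)))) := hNS.symm _ _
      _ = (F *ᵥ u') ⬝ᵥ ((J * (ν * E K arm r * B * Fᵀ * J)) *ᵥ (F *ᵥ u0)) := key u0 u' hu0 hu'
      _ = (F *ᵥ u0) ⬝ᵥ ((J * (ν * E K arm r * B * Fᵀ * J)) *ᵥ (F *ᵥ u')) := by
          rw [dotProduct_mulVec, ← mulVec_transpose, e6, dotProduct_comm]
      _ = frm J M (prM e hM (F *ᵥ u0)) ((A - z) (ΦM r (prM e hM (F *ᵥ u')))) :=
          (key u' u0 hu' hu0).symm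
      _ = frm J M ((A - z) (prM e hM (F *ᵥ u0))) (ΦM r (prM e hM (F *ᵥ u'))) := (hSsa _ _).symm
      _ = frm J M (ΦM r ((A - z) (prM e hM (F *ᵥ u0)))) (prM e hM (F *ᵥ u')) := (hsa _ _ _).symm
  exact hA0 (Z3 A z hAs hAr hz hSsa hScom)

end Crest.Agent.R172.EndP
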