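import Crest.Agent.R172.CoreP3
import Crest.Agent.R172.EndZ

/-!
Row 172, TAME, arbitrary radical, arbitrary `τ`: the END from single-arm memberships for pairs of
blocks, corrections in `EndP.SyZ` (helper471's `EndP.tame_false_SZ`).
-/

set_option autoImplicit false
set_option linter.unusedSectionVars false

namespace Crest.Agent.R172.CP

open Module Matrix Crest.Agent.R172.ThX Crest.Agent.R172.CSys Crest.Agent.R172.CF
open Crest.Agent.R172.Gen (Jm Ix)
open Crest.Agent.R172.TG Crest.Agent.R172.N5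

section mat

variable {n : ℕ} {a : Fin 3 → Fin n → ℤ} {c : Cfg n a} {K : Type} [Field K] [Algebra ℂ K]
variable {N W : Submodule K (Matrix (Ix n) c.δ K)} {F G : Matrix (Ix n) c.δ K}

/-- `Tp ≤ range F` -/
theorem Tp_le_range (hD : FO.Data ℂ c.arm (Jm n K) (c.B K) N W) (hF : F ∈ N ⊓ W) :
    ∀ p ∈ St.Tp (BV n K) (Ph F), ∃ u, F *ᵥ u = p := by
  intro p hp
  obtain ⟨w, -, hw⟩ := mem_Ax_iff.1 (Tp_le_Ax BV_ns (Ph_sa hD hF) hp)
  refine ⟨∑ s, (FO.E K c.arm s * c.B K * Fᵀ * Jm n K) *ᵥ w s, ?_⟩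
  rw [hw, Matrix.mulVec_sum]
  refine Finset.sum_congr rfl fun s _ => ?_
  rw [Ph_apply, mulVec_mulVec, FO.Phi, FO.M]
  simp only [Matrix.mul_assoc]

/-- **(T0), arbitrary radical, arbitrary `τ`: the END.** -/
theorem false_of_blocksZ [IsAlgClosed K] [CharZero K]
    (hD : FO.Data ℂ c.arm (Jm n K) (c.B K) N W) (hF : F ∈ N ⊓ W)
    {C : St.Core (BV n K) (Ph F)} {τ : Module.End K C.M} (hT : TameAt F G C τ)
    {l : Fin 3 → ℕ} (hl : Nums C τ l) (ZZ : Submodule K (Module.End K C.M))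
    (Z3 : ∀ X z : Module.End K C.M,
      (∀ v w, frm (Jm n K) C.M (X v) w = - frm (Jm n K) C.M v (X w)) →
      (∀ (s : Fin 3) (j : ℕ), ∀ x ∈ LinearMap.range (Core.cp C (Ph F s) ^ j),
        X x ∈ LinearMap.range (Core.cp C (Ph F s) ^ j)) → z ∈ ZZ →
      (∀ v w, frm (Jm n K) C.M ((X - z) v) w = frm (Jm n K) C.M v ((X - z) w)) →
      (∀ r v, (X - z) (Core.cp C (Ph F r) v) = Core.cp C (Ph F r) ((X - z) v)) → X = 0)
    (ha : ∀ s mu nu i j, i + j + 1 = l s → ∀ p ∈ PP C (τ.maxGenEigenspace mu),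
      ∀ q ∈ PP C (τ.maxGenEigenspace nu),
      EndR.T (Jm n K) ((FO.Phi c.arm (Jm n K) (c.B K) F s ^ i) *ᵥ p)
        ((FO.Phi c.arm (Jm n K) (c.B K) F s ^ j) *ᵥ q) * F * FO.E K c.arm s ∈
          N ⊔ EndP.SyZ (Jm n K) W F (St.Tp (BV n K) (Ph F)) (eM C) (mem_M C) ZZ)
    (hb1 : ∀ s mu nu, ∀ r ∈ PP C (τ.maxGenEigenspace mu), r ∈ St.T (Ph F) →
      ∀ p ∈ PP C (τ.maxGenEigenspace nu),
      EndR.T (Jm n K) r p * F * FO.E K c.arm s ∈
        N ⊔ EndP.SyZ (Jm n K) W F (St.Tp (BV n K) (Ph F)) (eM C) (mem_M C) ZZ)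
    (hb2 : ∀ s mu nu, ∀ r ∈ PP C (τ.maxGenEigenspace mu), r ∈ St.T (Ph F) →
      ∀ p ∈ PP C (τ.maxGenEigenspace nu),
      EndR.T (Jm n K) p r * F * FO.E K c.arm s ∈
        N ⊔ EndP.SyZ (Jm n K) W F (St.Tp (BV n K) (Ph F)) (eM C) (mem_M C) ZZ) : False := by
  have hsa := Ph_sa hD hF
  have hsup := Tp_eq_iSup BV_ns hsa hl
  have hrad : ∀ r ∈ St.Tp (BV n K) (Ph F), eM C *ᵥ r = 0 →
      r ∈ ⨆ ν, (PP C (τ.maxGenEigenspace ν) ⊓ St.T (Ph F)) := fun r hr h0 =>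
    rad_le_iSup BV_ns hsa hl ⟨hr, (eM_eq_zero hr).1 h0⟩
  -- membership as a submodule of matrices
  let Q : Fin 3 → Submodule K (Matrix (Ix n) (Ix n) K) := fun s =>
    { carrier := {y : Matrix (Ix n) (Ix n) K | y * F * FO.E K c.arm s ∈
        N ⊔ EndP.SyZ (Jm n K) W F (St.Tp (BV n K) (Ph F)) (eM C) (mem_M C) ZZ}
      add_mem' := by
        intro x y hx hy
        rw [Set.mem_ofPred_eq] at hx hy ⊢
        rw [Matrix.add_mul, Matrix.add_mul]
        exact Submodule.add_mem _ hx hy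
      zero_mem' := by
        rw [Set.mem_ofPred_eq, Matrix.zero_mul, Matrix.zero_mul]
        exact Submodule.zero_mem _
      smul_mem' := by
        intro c' x hx
        rw [Set.mem_ofPred_eq] at hx ⊢
        rw [Matrix.smul_mul, Matrix.smul_mul]
        exact Submodule.smul_mem _ _ hx }
  refine EndP.tame_false_SZ hD hF (Tp_le_range hD hF) (eM_idem C) (eM_sa C) (mem_M C)
    (fun s => Core.cp C (Ph F s)) ?_ hT.comm (Module.End.iSup_maxGenEigenspace_eq_top τ) hT.tame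
    ?_ ?_ ?_ ?_ hl.nilM hl.freeM ZZ Z3 ?_ ?_ ?_
  · intro s v
    rw [Core.cp_coe, eM_mulVec, Ph_apply]
  · intro m hm
    exact ⟨m, C.le m hm, by rw [eM_mulVec, C.fix m hm]⟩
  · intro p hp q hq
    rw [← BV_apply, ← BV_apply, eM_mulVec]
    have h1 : BV n K (p - C.π p) q = 0 := by
      rw [BV_ns.symm]
      exact hq _ (C.rem p hp)
    rw [map_sub, LinearMap.sub_apply, sub_eq_zero] at h1
    exact h1.symm
  · intro s p hp
    rw [← Ph_apply]
    exact Φ_Tp hsa s hp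
  · intro s p hp
    rw [← Ph_apply, ← Ph_apply, eM_mulVec, eM_mulVec, eM_mulVec]
    exact (Core.pi_pres C (Core.pres_Φ hsa s) hp).symm
  · intro s i j hij p hp q hq
    rw [← hsup] at hp hq
    have h1 := iSup_bilin (J := Jm n K) (Q := Q s)
      (fun mu nu p hp q hq => ha s mu nu i j hij p hp q hq) p hp q hq
    exact h1
  · intro s r hr h0 p hp
    rw [← hsup] at hp
    have h1 := iSup_bilin1 (J := Jm n K) (Q := Q s)
      (P := fun ν => PP C (τ.maxGenEigenspace ν) ⊓ St.T (Ph F))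
      (fun mu nu p hp q hq => hb1 s mu nu p hp.1 hp.2 q hq) r (hrad r hr h0) p hp
    exact h1
  · intro s r hr h0 p hp
    rw [← hsup] at hp
    have h1 := iSup_bilin1 (J := Jm n K) (Q := Q s)
      (P' := fun ν => PP C (τ.maxGenEigenspace ν) ⊓ St.T (Ph F))
      (fun nu mu q hq p hp => hb2 s mu nu p hp.1 hp.2 q hq) p hp r (hrad r hr h0)
    exact h1

end mat

end Crest.Agent.R172.CP
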