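import Crest.Agent.R172.FO2

/-!
Row 172 (S0260), T0 in a frame `p : ι × n` (note 16086 of helper455, (4)): the second derivative
with `L` fixed.

`io y = act (p y_r pᵀ J) F`; `Q3 y w z`: `w ∈ W`, `io y - w ∈ N`, `wᵀ J p = Fᵀ J p z` and
`w E_r B Fᵀ J p ∈ im p`.
* `exists_D`: for `Y` skew in `Q3` there is a derivation realising `(p Y pᵀ J, 0)` with `dF = w_Y`;
* `persist`: `dp = p π`;
* `second`: the derivative of `Q3 y w z` along it.
-/

set_option autoImplicit false
set_option linter.unusedSectionVars false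

namespace Crest.Agent.R172.FrmB

open Matrix Crest.Agent.R172.FO

variable {ι : Type*} [Fintype ι] [DecidableEq ι] {δ : Type*} [Fintype δ] [DecidableEq δ]
variable {n : Type*} [Fintype n] [DecidableEq n]
variable {k K : Type*} [Field k] [Field K] [Algebra k K]
variable {arm : δ → Fin 3} {J : Matrix ι ι K} {B : Matrix δ δ K}
  {N W : Submodule K (Matrix ι δ K)} {F G : Matrix ι δ K} {p : Matrix ι n K}

/-- `act (p y_r pᵀ J) F` -/
def io (arm : δ → Fin 3) (J : Matrix ι ι K) (F : Matrix ι δ K) (p : Matrix ι n K)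
    (y : Fin 3 → Matrix n n K) : Matrix ι δ K :=
  act arm (fun r => p * y r * pᵀ * J) F

theorem io_eq (y : Fin 3 → Matrix n n K) :
    io arm J F p y = ∑ r, p * (y r * (pᵀ * (J * (F * E K arm r)))) := by
  unfold io act
  refine Finset.sum_congr rfl fun r _ => ?_
  simp only [Matrix.mul_assoc]

theorem io_add (y y' : Fin 3 → Matrix n n K) :
    io arm J F p (fun r => y r + y' r) = io arm J F p y + io arm J F p y' := by
  rw [io_eq, io_eq, io_eq, ← Finset.sum_add_distrib]
  refine Finset.sum_congr rfl fun r _ => ?_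
  rw [Matrix.add_mul, Matrix.mul_add]

theorem io_sub (y y' : Fin 3 → Matrix n n K) :
    io arm J F p (fun r => y r - y' r) = io arm J F p y - io arm J F p y' := by
  rw [io_eq, io_eq, io_eq, ← Finset.sum_sub_distrib]
  refine Finset.sum_congr rfl fun r _ => ?_
  rw [Matrix.sub_mul, Matrix.mul_sub]

theorem io_smul (c : K) (y : Fin 3 → Matrix n n K) :
    io arm J F p (fun r => c • y r) = c • io arm J F p y := by
  rw [io_eq, io_eq, Finset.smul_sum]
  refine Finset.sum_congr rfl fun r _ => ?_
  rw [Matrix.smul_mul, Matrix.mul_smul]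

/-- `(y, w, z)`: `io y ≡ w` mod `N`, `w ∈ W`, `wᵀ J p = Fᵀ J p z`, and `w E_r B Fᵀ J` maps `im p`
into `im p` -/
structure Q3 (arm : δ → Fin 3) (J : Matrix ι ι K) (B : Matrix δ δ K)
    (N W : Submodule K (Matrix ι δ K)) (F : Matrix ι δ K) (p : Matrix ι n K)
    (y : Fin 3 → Matrix n n K) (w : Matrix ι δ K) (z : Matrix n n K) : Prop where
  memW : w ∈ W
  memN : io arm J F p y - w ∈ N
  val : wᵀ * J * p = Fᵀ * J * p * z
  img : ∀ r, ∃ μ : Matrix n n K, w * E K arm r * B * (Fᵀ * J * p) = p * μ

namespace Q3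

variable {y y' : Fin 3 → Matrix n n K} {w w' : Matrix ι δ K} {z z' : Matrix n n K}

theorem add (h : Q3 arm J B N W F p y w z) (h' : Q3 arm J B N W F p y' w' z') :
    Q3 arm J B N W F p (fun r => y r + y' r) (w + w') (z + z') where
  memW := W.add_mem h.memW h'.memW
  memN := by
    rw [io_add]
    have := N.add_mem h.memN h'.memN
    have e : io arm J F p y + io arm J F p y' - (w + w') =
        (io arm J F p y - w) + (io arm J F p y' - w') := by abel
    rw [e]; exact this
  val := by
    rw [transpose_add, Matrix.add_mul, Matrix.add_mul, h.val, h'.val, Matrix.mul_add]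
  img := fun r => by
    obtain ⟨μ, hμ⟩ := h.img r
    obtain ⟨μ', hμ'⟩ := h'.img r
    exact ⟨μ + μ', by rw [Matrix.add_mul, Matrix.add_mul, Matrix.add_mul, hμ, hμ', Matrix.mul_add]⟩

theorem smul (c : K) (h : Q3 arm J B N W F p y w z) :
    Q3 arm J B N W F p (fun r => c • y r) (c • w) (c • z) where
  memW := W.smul_mem c h.memW
  memN := by
    rw [io_smul, ← smul_sub]
    exact N.smul_mem c h.memN
  val := by
    rw [transpose_smul, Matrix.smul_mul, Matrix.smul_mul, h.val, Matrix.mul_smul]
  img := fun r => by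
    obtain ⟨μ, hμ⟩ := h.img r
    exact ⟨c • μ, by rw [Matrix.smul_mul, Matrix.smul_mul, Matrix.smul_mul, hμ, Matrix.mul_smul]⟩

/-- the transposed value: `pᵀ J w = zᵀ pᵀ J F` -/
theorem val' (hD : Data k arm J B N W) (h : Q3 arm J B N W F p y w z) :
    pᵀ * (J * w) = zᵀ * (pᵀ * (J * F)) := by
  have h1 := congrArg transpose h.val
  simp only [transpose_mul, transpose_transpose, hD.J_symm] at h1
  exact h1

end Q3

variable (k) in
/-- `F` is generic over the constant `G` (the fields of `FO.GenOver`) -/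
structure Vt (arm : δ → Fin 3) (N W : Submodule K (Matrix ι δ K)) (F G : Matrix ι δ K) :
    Prop where
  mem : F ∈ N ⊓ W
  vert : ∀ F' ∈ N ⊓ W, ∃ d : Derivation k K K, F.map d = F' ∧ G.map d = 0 ∧
    Realises arm N W (0 : Fin 3 → Matrix ι ι K) (0 : Matrix δ δ K) d

theorem map_dsub {α β : Type*} (A : Matrix α β K) (d d' : Derivation k K K) :
    A.map (d - d') = A.map d - A.map d' := by
  ext i j; simp

theorem sub_zero' {X : Fin 3 → Matrix ι ι K} {ξ : Matrix δ δ K} {d d' : Derivation k K K}
    (h : Realises arm N W X ξ d)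
    (h' : Realises arm N W (0 : Fin 3 → Matrix ι ι K) (0 : Matrix δ δ K) d') :
    Realises arm N W X ξ (d - d') := by
  refine ⟨fun A hA => ?_, fun A hA => ?_⟩
  · have h2 := h.onN A hA
    have h3 := h'.onN A hA
    rw [act_zero, sub_zero] at h3
    rw [map_dsub]
    have : A.map d - A.map d' - act arm X A = (A.map d - act arm X A) - A.map d' := by abel
    rw [this]
    exact N.sub_mem h2 h3
  · have h2 := h.onW A hA
    have h3 := h'.onW A hA
    rw [transpose_zero, Matrix.mul_zero, sub_zero] at h3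
    rw [map_dsub]
    have : A.map d - A.map d' - A * ξᵀ = (A.map d - A * ξᵀ) - A.map d' := by abel
    rw [this]
    exact W.sub_mem h2 h3

/-- `p Y pᵀ J ∈ so(V)` for `Y` skew -/
theorem skew_dir (hD : Data k arm J B N W) {Y : Matrix n n K} (hY : Yᵀ = -Y) :
    (p * Y * pᵀ * J)ᵀ * J + J * (p * Y * pᵀ * J) = 0 := by
  simp only [transpose_mul, transpose_transpose, hD.J_symm, hY]
  simp only [Matrix.mul_neg, Matrix.neg_mul, Matrix.mul_assoc]
  exact neg_add_cancel _

/-- **the `L`-fixed derivation in the direction `Y ∈ QQ`** -/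
theorem exists_D (hD : Data k arm J B N W) (hF : Vt k arm N W F G)
    {Y : Fin 3 → Matrix n n K} {wY : Matrix ι δ K} {zY : Matrix n n K}
    (hY : ∀ r, (Y r)ᵀ = -Y r) (h : Q3 arm J B N W F p Y wY zY) :
    ∃ d : Derivation k K K, Realises arm N W (fun r => p * Y r * pᵀ * J) 0 d ∧ F.map d = wY := by
  obtain ⟨d0, hd0⟩ := hD.dir (fun r => p * Y r * pᵀ * J) 0 (fun r => skew_dir hD (hY r)) (by simp)
  have h1 : F.map d0 - wY ∈ N ⊓ W := by
    constructor
    · have e : F.map d0 - wY = (F.map d0 - act arm (fun r => p * Y r * pᵀ * J) F) +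
          (io arm J F p Y - wY) := by
        unfold io; abel
      rw [e]
      exact N.add_mem (hd0.onN F hF.mem.1) h.memN
    · have h2 := hd0.onW F hF.mem.2
      rw [transpose_zero, Matrix.mul_zero, sub_zero] at h2
      exact W.sub_mem h2 h.memW
  obtain ⟨d1, hd1, -, hr⟩ := hF.vert _ h1
  refine ⟨d0 - d1, sub_zero' hd0 hr, ?_⟩
  rw [map_dsub, hd1]
  abel

/-- **second derivative, `L` fixed** -/
theorem second (hD : Data k arm J B N W)
    {Y : Fin 3 → Matrix n n K} {wY : Matrix ι δ K} {zY : Matrix n n K}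
    (hQ : Q3 arm J B N W F p Y wY zY) {d : Derivation k K K}
    (hd : Realises arm N W (fun r => p * Y r * pᵀ * J) 0 d) (hdF : F.map d = wY)
    {π : Matrix n n K} (hp : p.map d = p * π)
    {y : Fin 3 → Matrix n n K} {w : Matrix ι δ K} {z : Matrix n n K}
    (h : Q3 arm J B N W F p y w z) :
    Q3 arm J B N W F p
      (fun r => (y r).map d + π * y r + y r * πᵀ + y r * zYᵀ - Y r * (pᵀ * J * p) * y r +
        Y r * zᵀ)
      (w.map d) (zY * z + z.map d + π * z - z * π) := by
  have hv := h.val' hD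
  have hvY := hQ.val' hD
  refine ⟨?_, ?_, ?_, ?_⟩
  · have h2 := hd.onW w h.memW
    rwa [transpose_zero, Matrix.mul_zero, sub_zero] at h2
  · have h1 := hd.onN _ h.memN
    -- derivative of `io y`
    have e1 : (io arm J F p y).map d =
        ∑ r, p * (((y r).map d + π * y r + y r * πᵀ + y r * zYᵀ) *
          (pᵀ * (J * (F * E K arm r)))) := by
      rw [io_eq]
      have hs : ∀ (T : Finset (Fin 3)) (A : Fin 3 → Matrix ι δ K),
          (∑ s ∈ T, A s).map d = ∑ s ∈ T, (A s).map d := by
        intro T A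
        ext i j
        simp [Matrix.sum_apply, map_sum]
      rw [hs]
      refine Finset.sum_congr rfl fun r _ => ?_
      have hvr : pᵀ * (J * (wY * E K arm r)) = zYᵀ * (pᵀ * (J * (F * E K arm r))) := by
        have := congrArg (fun A => A * E K arm r) hvY
        simpa only [Matrix.mul_assoc] using this
      rw [map_mul_der, map_mul_der, map_mul_der, map_mul_der, map_mul_der, map_transpose_der, hp,
        hD.J_const, E_map_der, hdF, transpose_mul, Matrix.zero_mul, zero_add, Matrix.mul_zero,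
        add_zero, Matrix.mul_add (y r), hvr]
      simp only [Matrix.add_mul, Matrix.mul_add, Matrix.mul_assoc]
      abel
    have e2 : act arm (fun r => p * Y r * pᵀ * J) (io arm J F p y) =
        ∑ r, p * ((Y r * (pᵀ * J * p) * y r) * (pᵀ * (J * (F * E K arm r)))) := by
      unfold act
      refine Finset.sum_congr rfl fun r _ => ?_
      have e3 : io arm J F p y * E K arm r = p * y r * pᵀ * J * F * E K arm r := by
        unfold io
        rw [act_mul_E]
      rw [Matrix.mul_assoc (p * Y r * pᵀ * J), e3]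
      simp only [Matrix.mul_assoc]
    have e3 : act arm (fun r => p * Y r * pᵀ * J) w =
        ∑ r, p * ((Y r * zᵀ) * (pᵀ * (J * (F * E K arm r)))) := by
      unfold act
      refine Finset.sum_congr rfl fun r _ => ?_
      have e4 : p * Y r * pᵀ * J * w * E K arm r = p * (Y r * (pᵀ * (J * w) * E K arm r)) := by
        simp only [Matrix.mul_assoc]
      rw [e4, hv]
      simp only [Matrix.mul_assoc]
    have e5 : act arm (fun r => p * Y r * pᵀ * J) (io arm J F p y - w) =
        act arm (fun r => p * Y r * pᵀ * J) (io arm J F p y) -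
          act arm (fun r => p * Y r * pᵀ * J) w := by
      unfold act
      rw [← Finset.sum_sub_distrib]
      refine Finset.sum_congr rfl fun r _ => ?_
      rw [Matrix.mul_sub, Matrix.sub_mul]
    rw [map_sub_der, e5, e1, e2, e3] at h1
    rw [io_eq]
    have e6 : ∑ r, p * (((y r).map d + π * y r + y r * πᵀ + y r * zYᵀ -
        Y r * (pᵀ * J * p) * y r + Y r * zᵀ) * (pᵀ * (J * (F * E K arm r)))) - w.map d =
        ∑ r, p * (((y r).map d + π * y r + y r * πᵀ + y r * zYᵀ) *
          (pᵀ * (J * (F * E K arm r)))) - w.map d -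
        (∑ r, p * ((Y r * (pᵀ * J * p) * y r) * (pᵀ * (J * (F * E K arm r)))) -
          ∑ r, p * ((Y r * zᵀ) * (pᵀ * (J * (F * E K arm r))))) := by
      have e7 : ∀ r, p * (((y r).map d + π * y r + y r * πᵀ + y r * zYᵀ -
        Y r * (pᵀ * J * p) * y r + Y r * zᵀ) * (pᵀ * (J * (F * E K arm r)))) =
        p * (((y r).map d + π * y r + y r * πᵀ + y r * zYᵀ) *
          (pᵀ * (J * (F * E K arm r)))) -
        p * ((Y r * (pᵀ * J * p) * y r) * (pᵀ * (J * (F * E K arm r)))) +
          p * ((Y r * zᵀ) * (pᵀ * (J * (F * E K arm r)))) := by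
        intro r
        rw [Matrix.add_mul _ (Y r * zᵀ), Matrix.sub_mul, Matrix.mul_add, Matrix.mul_sub]
      rw [Finset.sum_congr rfl fun r _ => e7 r, Finset.sum_add_distrib, Finset.sum_sub_distrib]
      abel
    rw [e6]
    exact h1
  · have h1 := congrArg (fun A : Matrix δ n K => A.map d) h.val
    simp only [map_mul_der, map_transpose_der, hD.J_const, hdF, hp, Matrix.mul_zero, add_zero]
      at h1
    have e1 : wᵀ * J * (p * π) = Fᵀ * J * p * (z * π) := by
      rw [← Matrix.mul_assoc, h.val, Matrix.mul_assoc]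
    have e2 : wYᵀ * J * p = Fᵀ * J * p * zY := hQ.val
    rw [e1, e2] at h1
    have e3 : (w.map d)ᵀ * J * p = (Fᵀ * J * p * zY + Fᵀ * J * (p * π)) * z +
        Fᵀ * J * p * z.map d - Fᵀ * J * p * (z * π) := by
      rw [← h1]; abel
    rw [e3]
    simp only [Matrix.mul_add, Matrix.mul_sub, Matrix.add_mul, Matrix.mul_assoc]
    abel
  · intro r
    obtain ⟨μ, hμ⟩ := h.img r
    refine ⟨π * μ + μ.map d - μ * zY - μ * π, ?_⟩
    have h1 := congrArg (fun A : Matrix ι n K => A.map d) hμ
    simp only [map_mul_der, map_transpose_der, hD.J_const, hD.B_const, E_map_der, hdF, hp,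
      Matrix.mul_zero, add_zero] at h1
    have e2 : wYᵀ * J * p = Fᵀ * J * p * zY := hQ.val
    have e1 : w * E K arm r * B * (wYᵀ * J * p + Fᵀ * J * (p * π)) =
        p * (μ * zY + μ * π) := by
      rw [e2, Matrix.mul_add, ← Matrix.mul_assoc _ _ zY, hμ, ← Matrix.mul_assoc _ p π,
        ← Matrix.mul_assoc _ _ π, hμ, Matrix.mul_add, Matrix.mul_assoc, Matrix.mul_assoc]
    rw [e1] at h1
    have e3 : w.map d * E K arm r * B * (Fᵀ * J * p) = p * π * μ + p * μ.map d -
        p * (μ * zY + μ * π) := by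
      rw [← h1]; abel
    rw [e3]
    simp only [Matrix.mul_add, Matrix.mul_sub, Matrix.mul_assoc]
    abel

end Crest.Agent.R172.FrmB
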