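import Crest.Agent.R172.CoreP4
import Crest.Agent.R172.FrmB

/-!
Row 172, TAME, arbitrary radical, arbitrary `τ`: the END in FRAME form.

* `Rel N W F p C ZZ`: families `y` with `FrmB.Q3 y w z` such that the value of `z` on the core is the
  adjoint of an element of `ZZ`;
* `io_mem`: `y ∈ Rel → io y ∈ N ⊔ SyZ`;
* `false_of_frame`: all single-arm filtered and radical rank one families in `Rel` contradict
  `TameAt`.
-/

set_option autoImplicit false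
set_option linter.unusedSectionVars false

namespace Crest.Agent.R172.CP

open Module Matrix Crest.Agent.R172.ThX Crest.Agent.R172.CSys Crest.Agent.R172.CF
open Crest.Agent.R172.Gen (Jm Ix)
open Crest.Agent.R172.TG Crest.Agent.R172.N5

section frame

variable {n : ℕ} {a : Fin 3 → Fin n → ℤ} {c : Cfg n a} {K : Type} [Field K] [Algebra ℂ K]
variable {N W : Submodule K (Matrix (Ix n) c.δ K)} {F G : Matrix (Ix n) c.δ K}
variable {α : Type*} [Fintype α] [DecidableEq α] {p : Matrix (Ix n) α K}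
  {C : St.Core (BV n K) (Ph F)}

/-- families with a correction in `Q3` whose core value is (the adjoint of) an element of `ZZ` -/
def Rel (N W : Submodule K (Matrix (Ix n) c.δ K)) (F : Matrix (Ix n) c.δ K) (p : Matrix (Ix n) α K)
    (C : St.Core (BV n K) (Ph F)) (ZZ : Submodule K (Module.End K C.M)) :
    Submodule K (Fin 3 → Matrix α α K) where
  carrier := {y | ∃ (w : Matrix (Ix n) c.δ K) (z : Matrix α α K),
    FrmB.Q3 c.arm (Jm n K) (c.B K) N W F p y w z ∧ ∃ za ∈ ZZ, ∀ u v : α → K,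
      frm (Jm n K) C.M (prM (eM C) (mem_M C) (p *ᵥ (z *ᵥ u))) (prM (eM C) (mem_M C) (p *ᵥ v)) =
        frm (Jm n K) C.M (prM (eM C) (mem_M C) (p *ᵥ u)) (za (prM (eM C) (mem_M C) (p *ᵥ v)))}
  add_mem' := by
    rintro y y' ⟨w, z, h, za, hza, h1⟩ ⟨w', z', h', za', hza', h1'⟩
    refine ⟨w + w', z + z', h.add h', za + za', ZZ.add_mem hza hza', fun u v => ?_⟩
    rw [add_mulVec, mulVec_add, map_add, map_add, LinearMap.add_apply, h1, h1',
      LinearMap.add_apply, map_add]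
  zero_mem' := by
    refine ⟨0, 0, ⟨W.zero_mem, ?_, by simp, fun r => ⟨0, by simp⟩⟩, 0, ZZ.zero_mem,
      fun u v => by simp⟩
    rw [sub_zero, FrmB.io_eq]
    simp
  smul_mem' := by
    rintro b y ⟨w, z, h, za, hza, h1⟩
    refine ⟨b • w, b • z, h.smul b, b • za, ZZ.smul_mem b hza, fun u v => ?_⟩
    rw [smul_mulVec, mulVec_smul, map_smul, map_smul, LinearMap.smul_apply, h1,
      LinearMap.smul_apply, map_smul]

/-- the form of `Tp` is the form of the core -/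
theorem frm_prM {v w : Ix n → K} (hv : v ∈ St.Tp (BV n K) (Ph F))
    (hw : w ∈ St.Tp (BV n K) (Ph F)) :
    frm (Jm n K) C.M (prM (eM C) (mem_M C) v) (prM (eM C) (mem_M C) w) =
      v ⬝ᵥ (Jm n K *ᵥ w) := by
  rw [frm_apply, prM_coe, prM_coe, eM_mulVec, eM_mulVec, ← BV_apply, ← BV_apply]
  have h1 : BV n K (v - C.π v) w = 0 := by
    rw [BV_ns.symm]; exact hw _ (C.rem v hv)
  have h2 : BV n K (C.π v) (w - C.π w) = 0 := C.le _ (C.mem v) _ (C.rem w hw)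
  rw [map_sub, LinearMap.sub_apply, sub_eq_zero] at h1
  rw [map_sub, sub_eq_zero] at h2
  rw [h1, h2]

theorem io_mem {ZZ : Submodule K (Module.End K C.M)}
    (hr : ∀ v, v ∈ St.Tp (BV n K) (Ph F) ↔ ∃ y, p *ᵥ y = v) {y : Fin 3 → Matrix α α K}
    (hy : y ∈ Rel N W F p C ZZ) :
    FrmB.io c.arm (Jm n K) F p y ∈
      N ⊔ EndP.SyZ (Jm n K) W F (St.Tp (BV n K) (Ph F)) (eM C) (mem_M C) ZZ := by
  obtain ⟨w, z, h, za, hza, h1⟩ := hy
  refine Submodule.mem_sup.2 ⟨_, h.memN, w, ⟨h.memW, za, hza, fun u u' hu hu' => ?_⟩,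
    sub_add_cancel _ _⟩
  obtain ⟨x, hx⟩ := (hr _).1 hu
  obtain ⟨x', hx'⟩ := (hr _).1 hu'
  have hJ : (Jm n K)ᵀ = Jm n K := Jm_transpose n K
  have e1 : (F *ᵥ u) ⬝ᵥ (Jm n K *ᵥ (w *ᵥ u')) = ((wᵀ * Jm n K * p) *ᵥ x) ⬝ᵥ u' := by
    rw [← hx, ← mulVec_mulVec, ← mulVec_mulVec, mulVec_transpose, ← dotProduct_mulVec,
      dotProduct_mulVec, ← mulVec_transpose, hJ]
  have e2 : ((Fᵀ * Jm n K * p * z) *ᵥ x) ⬝ᵥ u' =
      (p *ᵥ (z *ᵥ x)) ⬝ᵥ (Jm n K *ᵥ (F *ᵥ u')) := by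
    rw [← mulVec_mulVec, ← mulVec_mulVec, ← mulVec_mulVec, mulVec_transpose, ← dotProduct_mulVec,
      dotProduct_mulVec (p *ᵥ (z *ᵥ x)), ← mulVec_transpose, hJ]
  rw [e1, h.val, e2, ← hx', ← hx, ← h1, frm_prM ((hr _).2 ⟨_, rfl⟩) ((hr _).2 ⟨_, rfl⟩)]

theorem vecMulVec_J (u v : α → K) :
    p * vecMulVec u v * pᵀ * Jm n K = EndR.T (Jm n K) (p *ᵥ u) (p *ᵥ v) := by
  have hJ : (Jm n K)ᵀ = Jm n K := Jm_transpose n K
  rw [EndR.T, Matrix.mul_vecMulVec, Matrix.vecMulVec_mul, Matrix.vecMulVec_mul,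
    Matrix.vecMul_transpose, ← Matrix.mulVec_transpose, hJ]

theorem io_single (s : Fin 3) (u v : α → K) :
    FrmB.io c.arm (Jm n K) F p (Pi.single s (vecMulVec u v)) =
      EndR.T (Jm n K) (p *ᵥ u) (p *ᵥ v) * F * FO.E K c.arm s := by
  rw [FrmB.io_eq, Finset.sum_eq_single s]
  · rw [Pi.single_eq_same, ← vecMulVec_J]
    simp only [Matrix.mul_assoc]
  · intro r _ hr
    rw [Pi.single_eq_of_ne hr, Matrix.zero_mul, Matrix.mul_zero]
  · intro h; exact absurd (Finset.mem_univ s) h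

/-- **(T0), arbitrary radical, arbitrary `τ`: the END in frame form.** -/
theorem false_of_frame [IsAlgClosed K] [CharZero K]
    (hD : FO.Data ℂ c.arm (Jm n K) (c.B K) N W) (hF : F ∈ N ⊓ W)
    {τ : Module.End K C.M} (hT : TameAt F G C τ)
    {l : Fin 3 → ℕ} (hl : Nums C τ l) (ZZ : Submodule K (Module.End K C.M))
    (Z3 : ∀ X z : Module.End K C.M,
      (∀ v w, frm (Jm n K) C.M (X v) w = - frm (Jm n K) C.M v (X w)) →
      (∀ (s : Fin 3) (j : ℕ), ∀ x ∈ LinearMap.range (Core.cp C (Ph F s) ^ j),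
        X x ∈ LinearMap.range (Core.cp C (Ph F s) ^ j)) → z ∈ ZZ →
      (∀ v w, frm (Jm n K) C.M ((X - z) v) w = frm (Jm n K) C.M v ((X - z) w)) →
      (∀ r v, (X - z) (Core.cp C (Ph F r) v) = Core.cp C (Ph F r) ((X - z) v)) → X = 0)
    (hr : ∀ v, v ∈ St.Tp (BV n K) (Ph F) ↔ ∃ y, p *ᵥ y = v)
    {al : Fin 3 → Matrix α α K} (hal : ∀ s, FO.Phi c.arm (Jm n K) (c.B K) F s * p = p * al s)
    (U : K → Submodule K (α → K))
    (hU : ∀ nu, ∀ v ∈ PP C (τ.maxGenEigenspace nu), ∃ y ∈ U nu, p *ᵥ y = v)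
    (ha : ∀ (s : Fin 3) (mu nu : K) (i j : ℕ), i + j + 1 = l s → ∀ u ∈ U mu, ∀ v ∈ U nu,
      (Pi.single s (vecMulVec ((al s ^ i) *ᵥ u) ((al s ^ j) *ᵥ v)) : Fin 3 → Matrix α α K) ∈
        Rel N W F p C ZZ)
    (hb1 : ∀ (s : Fin 3) (mu nu : K), ∀ r ∈ U mu, p *ᵥ r ∈ St.T (Ph F) → ∀ v ∈ U nu,
      (Pi.single s (vecMulVec r v) : Fin 3 → Matrix α α K) ∈ Rel N W F p C ZZ)
    (hb2 : ∀ (s : Fin 3) (mu nu : K), ∀ r ∈ U mu, p *ᵥ r ∈ St.T (Ph F) → ∀ v ∈ U nu,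
      (Pi.single s (vecMulVec v r) : Fin 3 → Matrix α α K) ∈ Rel N W F p C ZZ) : False := by
  have hpow : ∀ s (i : ℕ) (u : α → K),
      (FO.Phi c.arm (Jm n K) (c.B K) F s ^ i) *ᵥ (p *ᵥ u) = p *ᵥ ((al s ^ i) *ᵥ u) := by
    intro s i
    induction i with
    | zero => intro u; simp
    | succ i ih =>
      intro u
      calc (FO.Phi c.arm (Jm n K) (c.B K) F s ^ (i + 1)) *ᵥ (p *ᵥ u)
          = (FO.Phi c.arm (Jm n K) (c.B K) F s ^ i) *ᵥ
              (FO.Phi c.arm (Jm n K) (c.B K) F s *ᵥ (p *ᵥ u)) := by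
            rw [pow_succ, ← mulVec_mulVec]
        _ = (FO.Phi c.arm (Jm n K) (c.B K) F s ^ i) *ᵥ (p *ᵥ (al s *ᵥ u)) := by
            rw [mulVec_mulVec u _ p, hal, ← mulVec_mulVec]
        _ = p *ᵥ ((al s ^ i) *ᵥ (al s *ᵥ u)) := ih _
        _ = p *ᵥ ((al s ^ (i + 1)) *ᵥ u) := by rw [mulVec_mulVec u, ← pow_succ]
  refine false_of_blocksZ hD hF hT hl ZZ Z3 ?_ ?_ ?_
  · intro s mu nu i j hij v hv w hw
    obtain ⟨u, hu, rfl⟩ := hU mu v hv
    obtain ⟨u', hu', rfl⟩ := hU nu w hw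
    rw [hpow, hpow, ← io_single]
    exact io_mem hr (ha s mu nu i j hij u hu u' hu')
  · intro s mu nu r hr' h0 v hv
    obtain ⟨u, hu, rfl⟩ := hU mu r hr'
    obtain ⟨u', hu', rfl⟩ := hU nu v hv
    rw [← io_single]
    exact io_mem hr (hb1 s mu nu u hu h0 u' hu')
  · intro s mu nu r hr' h0 v hv
    obtain ⟨u, hu, rfl⟩ := hU mu r hr'
    obtain ⟨u', hu', rfl⟩ := hU nu v hv
    rw [← io_single]
    exact io_mem hr (hb2 s mu nu u hu h0 u' hu')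

end frame

end Crest.Agent.R172.CP
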