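import Mathlib

/-!
Row 172, TAME, arbitrary radical and arbitrary `D`: the **cover** `X → P ≤ V` of a perfect core on
which the operator `D` is exact.  Abstract form: `Φ s = F' s ∘ f`, `Ψ s = F' s ∘ g`
(`f = Fᵀ J`, `g = Gᵀ J`), `g (Φ s v) = f (Ψ s v)`.
-/

set_option autoImplicit false
set_option linter.unusedSectionVars false

namespace Crest.Agent.R172.CovT

open Module LinearMap

/-- `Nil Φ k` = vectors killed by all words of length `k` -/
def Nil {K V : Type*} [Field K] [AddCommGroup V] [Module K V] {σ : Type*} (Φ : σ → End K V) :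
    ℕ → Submodule K V
  | 0 => ⊥
  | k + 1 => ⨅ s, (Nil Φ k).comap (Φ s)

section

variable {K V : Type*} [Field K] [AddCommGroup V] [Module K V] {σ : Type*} {Φ : σ → End K V}

theorem mem_Nil_zero {v : V} : v ∈ Nil Φ 0 ↔ v = 0 := Submodule.mem_bot K

theorem mem_Nil_succ {k : ℕ} {v : V} : v ∈ Nil Φ (k + 1) ↔ ∀ s, Φ s v ∈ Nil Φ k := by
  change v ∈ (⨅ s, (Nil Φ k).comap (Φ s)) ↔ _
  rw [Submodule.mem_iInf]
  rfl

theorem Nil_pred {k : ℕ} {v : V} (hv : v ∈ Nil Φ k) (s : σ) : Φ s v ∈ Nil Φ (k - 1) := by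
  cases k with
  | zero => rw [mem_Nil_zero] at hv; rw [hv, map_zero]; exact Submodule.zero_mem _
  | succ k => exact mem_Nil_succ.1 hv s

end

universe u

variable {K : Type*} [Field K]

section step

variable {V U' M X0 : Type*} [AddCommGroup V] [Module K V] [AddCommGroup U'] [Module K U']
  [AddCommGroup M] [Module K M] [AddCommGroup X0] [Module K X0]

/-- one stage of the cover -/
structure Stage
    (Φ : Fin 3 → End K V) (f g : V →ₗ[K] U') (Tp : Submodule K V) (pM : V →ₗ[K] M)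
    (A0 : Fin 3 → End K X0) (D0 : End K X0) (p0 : X0 →ₗ[K] M) (P : Prop) (e e' : ℕ) (n : ℕ)
    {X : Type u} [AddCommGroup X] [Module K X]
    (A : Fin 3 → End K X) (D : End K X) (pr : X →ₗ[K] X0) (l : X →ₗ[K] V) : Prop where
  sumA : ∀ x, A 0 x + A 1 x + A 2 x = 0
  comm : ∀ s x, D (A s x) = A s (D x)
  prA : ∀ s x, pr (A s x) = A0 s (pr x)
  prD : ∀ x, pr (D x) = D0 (pr x)
  surj : Function.Surjective pr
  perf : ∀ x, ∃ y : Fin 3 → X, x = ∑ s, A s (y s)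
  nil : ∀ x, pr x = 0 → x ∈ Nil A n
  lTp : ∀ x, l x ∈ Tp
  lpM : ∀ x, pM (l x) = p0 (pr x)
  errA : ∀ s x, Φ s (l x) - l (A s x) ∈ Nil Φ e
  errG : P → ∀ x, ∃ t ∈ Nil Φ e', g (l x) = f (l (D x) + t)
  nilD : ∀ (lam : K) (m : ℕ), (D0 - lam • (1 : End K X0)) ^ m = 0 →
    (D - lam • (1 : End K X)) ^ m = 0
  fin : FiniteDimensional K X0 → FiniteDimensional K X

variable {X : Type u} [AddCommGroup X] [Module K X]

/-- `π (a, b) = A₀ a + A₁ b` -/
def pi' (A : Fin 3 → End K X) : X × X →ₗ[K] X := (A 0).coprod (A 1)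

/-- the vectors `e₀ ⊗ x, e₁ ⊗ x, e₂ ⊗ x`, `e₂ = -e₀-e₁` -/
def em (K : Type*) [Field K] (X : Type u) [AddCommGroup X] [Module K X] :
    Fin 3 → (X →ₗ[K] X × X)
  | 0 => LinearMap.inl K X X
  | 1 => LinearMap.inr K X X
  | 2 => -(LinearMap.inl K X X + LinearMap.inr K X X)

/-- the action on `X × X` -/
def A' (A : Fin 3 → End K X) (s : Fin 3) : End K (X × X) := em K X s ∘ₗ pi' A

theorem em_sum (x : X) : em K X 0 x + em K X 1 x + em K X 2 x = 0 := by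
  simp [em]

theorem pi'_em {A : Fin 3 → End K X} (hs : ∀ x, A 0 x + A 1 x + A 2 x = 0) (s : Fin 3) (x : X) :
    pi' A (em K X s x) = A s x := by
  have h2 : A 2 x = -(A 0 x + A 1 x) := by
    rw [eq_neg_iff_add_eq_zero, add_comm]; exact hs x
  fin_cases s
  · simp [pi', em]
  · simp [pi', em]
  · change pi' A (em K X 2 x) = A 2 x
    rw [h2]
    simp [pi', em]
    abel

/-- the lift on `X × X` -/
def l' (Φ : Fin 3 → End K V) (l : X →ₗ[K] V) : X × X →ₗ[K] V := (Φ 0 ∘ₗ l).coprod (Φ 1 ∘ₗ l)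

theorem l'_em {Φ : Fin 3 → End K V} (hs : ∀ v, Φ 0 v + Φ 1 v + Φ 2 v = 0) (l : X →ₗ[K] V)
    (s : Fin 3) (x : X) : l' Φ l (em K X s x) = Φ s (l x) := by
  have h2 : Φ 2 (l x) = -(Φ 0 (l x) + Φ 1 (l x)) := by
    rw [eq_neg_iff_add_eq_zero, add_comm]; exact hs (l x)
  fin_cases s
  · simp [l', em]
  · simp [l', em]
  · change l' Φ l (em K X 2 x) = Φ 2 (l x)
    rw [h2]
    simp [l', em]
    abel

theorem mem_Nil_A' {A : Fin 3 → End K X} (hs : ∀ x, A 0 x + A 1 x + A 2 x = 0) :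
    ∀ (n : ℕ) (z : X × X), pi' A z ∈ Nil A n → z ∈ Nil (A' A) (n + 1) := by
  intro n
  induction n with
  | zero =>
    intro z hz
    rw [mem_Nil_zero] at hz
    refine mem_Nil_succ.2 fun s => ?_
    rw [mem_Nil_zero]
    change em K X s (pi' A z) = 0
    rw [hz, map_zero]
  | succ n ih =>
    intro z hz
    refine mem_Nil_succ.2 fun s => ih _ ?_
    change pi' A (em K X s (pi' A z)) ∈ _
    rw [pi'_em hs]
    exact mem_Nil_succ.1 hz s

variable {Φ Ψ : Fin 3 → End K V} {f g : V →ₗ[K] U'} {F' : Fin 3 → U' →ₗ[K] V}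
  {Tp : Submodule K V}
  {pM : V →ₗ[K] M} {A0 : Fin 3 → End K X0} {D0 : End K X0} {p0 : X0 →ₗ[K] M}
  {A : Fin 3 → End K X} {D : End K X}
  {pr : X →ₗ[K] X0} {l : X →ₗ[K] V}

theorem mem_Nil_of_le {k : ℕ} {v : V} (hv : v ∈ Nil Φ k) : v ∈ Nil Φ (k + 1) := by
  induction k generalizing v with
  | zero =>
    rw [mem_Nil_zero] at hv
    rw [hv]; exact Submodule.zero_mem _
  | succ k ih => exact mem_Nil_succ.2 fun s => ih (mem_Nil_succ.1 hv s)

/-- **the step** -/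
theorem Stage.step {P : Prop} {e e' n : ℕ} (hΦ : ∀ s v, Φ s v = F' s (f v)) (hΨ : ∀ s v, Ψ s v = F' s (g v))
    (hgf : ∀ s v, g (Φ s v) = f (Ψ s v)) (hsum : ∀ v, Φ 0 v + Φ 1 v + Φ 2 v = 0)
    (hTp : ∀ s, ∀ v ∈ Tp, Φ s v ∈ Tp) {φ : Fin 3 → End K M}
    (hpM : ∀ s, ∀ v ∈ Tp, pM (Φ s v) = φ s (pM v)) (hp0 : ∀ s x, p0 (A0 s x) = φ s (p0 x))
    (h : Stage Φ f g Tp pM A0 D0 p0 P e e' n A D pr l) :
    Stage Φ f g Tp pM A0 D0 p0 P (e - 1) (e' - 1) (n + 1) (A' A) (LinearMap.prodMap D D)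
      (pr ∘ₗ pi' A) (l' Φ l) where
  sumA z := em_sum (pi' A z)
  comm s z := by
    change (LinearMap.prodMap D D) (em K X s (pi' A z)) = em K X s (pi' A (LinearMap.prodMap D D z))
    have h1 : pi' A (LinearMap.prodMap D D z) = D (pi' A z) := by
      simp [pi', h.comm]
    rw [h1]
    fin_cases s <;> simp [em]
  prA s z := by
    change pr (pi' A (em K X s (pi' A z))) = A0 s (pr (pi' A z))
    rw [pi'_em h.sumA, h.prA]
  prD z := by
    have h1 : pi' A (LinearMap.prodMap D D z) = D (pi' A z) := by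
      simp [pi', h.comm]
    change pr (pi' A (LinearMap.prodMap D D z)) = D0 (pr (pi' A z))
    rw [h1, h.prD]
  surj x := by
    obtain ⟨x1, rfl⟩ := h.surj x
    obtain ⟨y, hy⟩ := h.perf x1
    refine ⟨(y 0 - y 2, y 1 - y 2), ?_⟩
    change pr (pi' A (y 0 - y 2, y 1 - y 2)) = _
    congr 1
    rw [hy, Fin.sum_univ_three]
    simp only [pi', LinearMap.coprod_apply, map_sub]
    have h2 : A 2 (y 2) = -(A 0 (y 2) + A 1 (y 2)) := by
      rw [eq_neg_iff_add_eq_zero, add_comm]; exact h.sumA (y 2)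
    rw [h2]; abel
  perf z := by
    obtain ⟨y0, hy0⟩ := h.perf z.1
    obtain ⟨y1, hy1⟩ := h.perf z.2
    have key : ∀ x : X, ∃ w : X × X, pi' A w = x := by
      intro x
      obtain ⟨y, hy⟩ := h.perf x
      refine ⟨(y 0 - y 2, y 1 - y 2), ?_⟩
      rw [hy, Fin.sum_univ_three]
      simp only [pi', LinearMap.coprod_apply, map_sub]
      have h2 : A 2 (y 2) = -(A 0 (y 2) + A 1 (y 2)) := by
        rw [eq_neg_iff_add_eq_zero, add_comm]; exact h.sumA (y 2)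
      rw [h2]; abel
    obtain ⟨w0, hw0⟩ := key z.1
    obtain ⟨w1, hw1⟩ := key z.2
    refine ⟨fun s => if s = 0 then w0 else if s = 1 then w1 else 0, ?_⟩
    rw [Fin.sum_univ_three]
    simp only [if_true, Fin.isValue, one_ne_zero, if_false]
    change z = em K X 0 (pi' A w0) + em K X 1 (pi' A w1) + _
    rw [hw0, hw1]
    have h3 : (A' A 2) (if (2 : Fin 3) = 0 then w0 else if (2 : Fin 3) = 1 then w1 else 0) = 0 := by
      rw [if_neg (by decide), if_neg (by decide), map_zero]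
    rw [h3]
    simp [em]
  nil z hz := mem_Nil_A' h.sumA n z (h.nil _ hz)
  lTp z := by
    simp only [l', LinearMap.coprod_apply, LinearMap.comp_apply]
    exact Tp.add_mem (hTp 0 _ (h.lTp _)) (hTp 1 _ (h.lTp _))
  lpM z := by
    change pM (l' Φ l z) = p0 (pr (pi' A z))
    simp only [l', pi', LinearMap.coprod_apply, LinearMap.comp_apply, map_add]
    rw [hpM 0 _ (h.lTp _), hpM 1 _ (h.lTp _), h.lpM, h.lpM, h.prA, h.prA, hp0, hp0]
  errA s z := by
    change Φ s (l' Φ l z) - l' Φ l (em K X s (pi' A z)) ∈ _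
    rw [l'_em hsum, ← map_sub]
    refine Nil_pred ?_ s
    simp only [l', pi', LinearMap.coprod_apply, LinearMap.comp_apply, map_add]
    have e1 : Φ 0 (l z.1) + Φ 1 (l z.2) - (l (A 0 z.1) + l (A 1 z.2)) =
      (Φ 0 (l z.1) - l (A 0 z.1)) + (Φ 1 (l z.2) - l (A 1 z.2)) := by abel
    rw [e1]
    exact Submodule.add_mem _ (h.errA 0 _) (h.errA 1 _)
  errG hP z := by
    obtain ⟨t0, ht0, h0⟩ := h.errG hP z.1
    obtain ⟨t1, ht1, h1⟩ := h.errG hP z.2
    refine ⟨Φ 0 t0 + Φ 1 t1, Submodule.add_mem _ (Nil_pred ht0 0) (Nil_pred ht1 1), ?_⟩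
    simp only [l', LinearMap.coprod_apply, LinearMap.comp_apply, LinearMap.prodMap_apply]
    rw [map_add, hgf, hgf, hΨ, hΨ, h0, h1, ← hΦ, ← hΦ]
    simp only [map_add]
    abel
  nilD lam m hm := by
    have h1 := h.nilD lam m hm
    have h2 : (LinearMap.prodMap D D - lam • (1 : End K (X × X))) =
        LinearMap.prodMap (D - lam • (1 : End K X)) (D - lam • (1 : End K X)) := by
      ext z <;> simp
    rw [h2]
    have h3 : ∀ k, (LinearMap.prodMap (D - lam • (1 : End K X)) (D - lam • (1 : End K X)) :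
        End K (X × X)) ^ k =
        LinearMap.prodMap ((D - lam • (1 : End K X)) ^ k) ((D - lam • (1 : End K X)) ^ k) := by
      intro k
      induction k with
      | zero => ext z <;> simp
      | succ k ih =>
        rw [pow_succ, ih]
        ext z <;> simp [pow_succ]
    rw [h3, h1]
    ext z <;> simp
  fin h0 := by
    have := h.fin h0
    infer_instance

/-- the base stage -/
theorem Stage.base (hA0 : ∀ x, A0 0 x + A0 1 x + A0 2 x = 0) (hAD : ∀ s x, D0 (A0 s x) = A0 s (D0 x))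
    (hperf : ∀ x, ∃ y : Fin 3 → X0, x = ∑ s, A0 s (y s)) {φ : Fin 3 → End K M}
    (hTp : ∀ s, ∀ v ∈ Tp, Φ s v ∈ Tp)
    (hpM : ∀ s, ∀ v ∈ Tp, pM (Φ s v) = φ s (pM v)) (hp0 : ∀ s x, p0 (A0 s x) = φ s (p0 x))
    {k : ℕ} (hk : ∀ v ∈ Tp, pM v = 0 → v ∈ Nil Φ k) {sec : M →ₗ[K] V}
    (hsec : ∀ m, sec m ∈ Tp) (hsec' : ∀ m, pM (sec m) = m) :
    Stage Φ f g Tp pM A0 D0 p0 False k k 0 A0 D0 LinearMap.id (sec ∘ₗ p0) where
  sumA := hA0
  comm := hAD
  prA _ _ := rfl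
  prD _ := rfl
  surj x := ⟨x, rfl⟩
  perf := hperf
  nil x hx := mem_Nil_zero.2 hx
  lTp x := hsec _
  lpM x := hsec' _
  errA s x := by
    refine hk _ (Tp.sub_mem (hTp s _ (hsec _)) (hsec _)) ?_
    simp only [LinearMap.comp_apply]
    rw [map_sub, hpM s _ (hsec _), hsec', hsec', hp0, sub_self]
  errG h := h.elim
  nilD _ _ h := h
  fin h := h

end step

section main

variable {V U' M : Type*} {X0 : Type u} [AddCommGroup V] [Module K V] [AddCommGroup U']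
  [Module K U'] [AddCommGroup M] [Module K M] [AddCommGroup X0] [Module K X0]
  {Φ Ψ : Fin 3 → End K V} {f g : V →ₗ[K] U'} {F' : Fin 3 → U' →ₗ[K] V} {Tp : Submodule K V}
  {pM : V →ₗ[K] M} {A0 : Fin 3 → End K X0} {D0 : End K X0} {p0 : X0 →ₗ[K] M}

/-- **The cover.** -/
theorem exists_cov (hΦ : ∀ s v, Φ s v = F' s (f v)) (hΨ : ∀ s v, Ψ s v = F' s (g v))
    (hgf : ∀ s v, g (Φ s v) = f (Ψ s v)) (hsum : ∀ v, Φ 0 v + Φ 1 v + Φ 2 v = 0)
    (hTp : ∀ s, ∀ v ∈ Tp, Φ s v ∈ Tp) (hTp' : ∀ s, ∀ v ∈ Tp, Ψ s v ∈ Tp)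
    {φ : Fin 3 → End K M} {τ : End K M}
    (hpM : ∀ s, ∀ v ∈ Tp, pM (Φ s v) = φ s (pM v))
    (hpM' : ∀ s, ∀ v ∈ Tp, pM (Ψ s v) = φ s (τ (pM v)))
    {k : ℕ} (hk : ∀ v ∈ Tp, pM v = 0 → v ∈ Nil Φ k) {sec : M →ₗ[K] V}
    (hsec : ∀ m, sec m ∈ Tp) (hsec' : ∀ m, pM (sec m) = m)
    (hA0 : ∀ x, A0 0 x + A0 1 x + A0 2 x = 0) (hAD : ∀ s x, D0 (A0 s x) = A0 s (D0 x))
    (hperf : ∀ x, ∃ y : Fin 3 → X0, x = ∑ s, A0 s (y s))
    (hp0 : ∀ s x, p0 (A0 s x) = φ s (p0 x)) (hpD : ∀ x, p0 (D0 x) = τ (p0 x)) :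
    ∃ (X : Type u) (_ : AddCommGroup X) (_ : Module K X) (A : Fin 3 → End K X) (D : End K X)
      (pr : X →ₗ[K] X0) (l : X →ₗ[K] V) (n : ℕ),
      Stage Φ f g Tp pM A0 D0 p0 True 0 0 n A D pr l := by
  have h0 := Stage.base (Φ := Φ) (f := f) (g := g) (D0 := D0) hA0 hAD hperf hTp hpM hp0 hk hsec hsec'
  have h1 := Stage.step (e' := k) (F' := F') hΦ hΨ hgf hsum hTp hpM hp0 h0
  have h2 : Stage Φ f g Tp pM A0 D0 p0 True (k - 1) k (0 + 1) (A' A0) (LinearMap.prodMap D0 D0)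
      (LinearMap.id ∘ₗ pi' A0) (l' Φ (sec ∘ₗ p0)) :=
    { sumA := h1.sumA
      comm := h1.comm
      prA := h1.prA
      prD := h1.prD
      surj := h1.surj
      perf := h1.perf
      nil := h1.nil
      lTp := h1.lTp
      lpM := h1.lpM
      errA := h1.errA
      nilD := h1.nilD
      fin := h1.fin
      errG := by
        intro _ z
        refine ⟨(Ψ 0 (sec (p0 z.1)) - Φ 0 (sec (p0 (D0 z.1)))) +
          (Ψ 1 (sec (p0 z.2)) - Φ 1 (sec (p0 (D0 z.2)))), ?_, ?_⟩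
        · refine hk _ (Tp.add_mem (Tp.sub_mem (hTp' 0 _ (hsec _)) (hTp 0 _ (hsec _)))
            (Tp.sub_mem (hTp' 1 _ (hsec _)) (hTp 1 _ (hsec _)))) ?_
          rw [map_add, map_sub, map_sub, hpM' 0 _ (hsec _), hpM' 1 _ (hsec _), hpM 0 _ (hsec _),
            hpM 1 _ (hsec _), hsec', hsec', hsec', hsec', hpD, hpD, sub_self, sub_self, add_zero]
        · simp only [l', LinearMap.coprod_apply, LinearMap.comp_apply, LinearMap.prodMap_apply]
          rw [map_add, hgf, hgf]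
          simp only [map_add, map_sub]
          abel }
  clear h0 h1
  -- iterate
  have key : ∀ j : ℕ, ∃ (X : Type u) (_ : AddCommGroup X) (_ : Module K X) (A : Fin 3 → End K X)
      (D : End K X) (pr : X →ₗ[K] X0) (l : X →ₗ[K] V) (n : ℕ),
      Stage Φ f g Tp pM A0 D0 p0 True (k - 1 - j) (k - j) n A D pr l := by
    intro j
    induction j with
    | zero => exact ⟨_, _, _, _, _, _, _, _, h2⟩
    | succ j ih =>
      obtain ⟨X, i1, i2, A, D, pr, l, n, h⟩ := ih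
      exact ⟨_, _, _, _, _, _, _, _, Stage.step (F' := F') hΦ hΨ hgf hsum hTp hpM hp0 h⟩
  obtain ⟨X, i1, i2, A, D, pr, l, n, h⟩ := key k
  refine ⟨X, i1, i2, A, D, pr, l, n, ?_⟩
  have e1 : k - 1 - k = 0 := by omega
  have e2 : k - k = 0 := by omega
  rw [e1, e2] at h
  exact h

variable {P : Prop} {n : ℕ} {X : Type u} [AddCommGroup X] [Module K X] {A : Fin 3 → End K X}
  {D : End K X} {pr : X →ₗ[K] X0} {l : X →ₗ[K] V}

/-- `Φ_s ∘ l = l ∘ A_s` exactly -/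
theorem Stage.exA {e' : ℕ} (h : Stage Φ f g Tp pM A0 D0 p0 P 0 e' n A D pr l) (s : Fin 3) (x : X) :
    Φ s (l x) = l (A s x) := sub_eq_zero.1 (mem_Nil_zero.1 (h.errA s x))

/-- `Gᵀ l = Fᵀ l D` exactly -/
theorem Stage.exG {e : ℕ} (h : Stage Φ f g Tp pM A0 D0 p0 True e 0 n A D pr l) (x : X) :
    g (l x) = f (l (D x)) := by
  obtain ⟨t, ht, h1⟩ := h.errG trivial x
  rw [mem_Nil_zero] at ht
  rw [h1, ht, add_zero]

end main

end Crest.Agent.R172.CovT
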