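import Mathlib

/-!
Row 172, TAME (T0), arbitrary radical and arbitrary `D`: the cover of the perfect part `P` on which
`D` is an honest operator (notes 16141 (1), 16086 (1)).

The cover is a finite dimensional space `U` of sequences `y : ℕ → V`, with `y n ∈ P` and
`Gs (y n) = Fs (y (n + 1))`, stable under `Φ r` (componentwise) and under the shift.
-/

set_option autoImplicit false
set_option linter.unusedSectionVars false

namespace Crest.Agent.R172.Cov

open Module

variable {K : Type*} [Field K] {V : Type*} [AddCommGroup V] [Module K V]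
variable {L : Type*} [AddCommGroup L] [Module K L] {τ : Type*}

/-- componentwise action on sequences -/
def hat (f : End K V) : End K (ℕ → V) := LinearMap.compLeft f ℕ

@[simp] theorem hat_apply (f : End K V) (y : ℕ → V) (n : ℕ) : hat f y n = f (y n) := rfl

/-- the shift -/
def sh : End K (ℕ → V) := LinearMap.funLeft K V Nat.succ

@[simp] theorem sh_apply (y : ℕ → V) (n : ℕ) : sh (K := K) y n = y (n + 1) := rfl

/-- evaluation at `0` -/
def ev0 : (ℕ → V) →ₗ[K] V := LinearMap.proj 0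

@[simp] theorem ev0_apply (y : ℕ → V) : ev0 (K := K) y = y 0 := rfl

theorem sh_hat (f : End K V) (y : ℕ → V) : sh (K := K) (hat f y) = hat f (sh (K := K) y) := rfl

theorem ev0_hat (f : End K V) (y : ℕ → V) : ev0 (K := K) (hat f y) = f (ev0 (K := K) y) := rfl

theorem hat_words (Φ : τ → End K V) (w : List τ) (y : ℕ → V) (n : ℕ) :
    (w.map fun t => hat (Φ t)).prod y n = (w.map Φ).prod (y n) := by
  induction w with
  | nil => simp
  | cons t w ih =>
    rw [List.map_cons, List.prod_cons, List.map_cons, List.prod_cons, Module.End.mul_apply,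
      Module.End.mul_apply, hat_apply, ih]

/-- one step `⨆ Φ_r S` -/
def Ax (Φ : τ → End K V) (S : Submodule K V) : Submodule K V := ⨆ t, S.map (Φ t)

theorem Ax_mono (Φ : τ → End K V) {S S' : Submodule K V} (h : S ≤ S') : Ax Φ S ≤ Ax Φ S' :=
  iSup_mono fun _ => Submodule.map_mono h

theorem map_Ax (Φ : τ → End K V) (S : Submodule K (ℕ → V)) :
    (Ax (fun t => hat (Φ t)) S).map (ev0 (K := K)) = Ax Φ (S.map (ev0 (K := K))) := by
  unfold Ax
  rw [Submodule.map_iSup]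
  refine iSup_congr fun t => ?_
  rw [← Submodule.map_comp, ← Submodule.map_comp]
  rfl

theorem sh_Ax (Φ : τ → End K V) {S : Submodule K (ℕ → V)} (h : S.map (sh (K := K)) ≤ S) :
    (Ax (fun t => hat (Φ t)) S).map (sh (K := K)) ≤ Ax (fun t => hat (Φ t)) S := by
  unfold Ax
  rw [Submodule.map_iSup]
  refine iSup_mono fun t => ?_
  rw [← Submodule.map_comp]
  have e : sh (K := K) ∘ₗ hat (Φ t) = hat (Φ t) ∘ₗ sh (K := K) := rfl
  rw [e, Submodule.map_comp]
  exact Submodule.map_mono h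

/-- the properties of the cover -/
structure IsCover (Φ : τ → End K V) (P R : Submodule K V) (Fs Gs : V →ₗ[K] L)
    (U : Submodule K (ℕ → V)) : Prop where
  fin : FiniteDimensional K U
  mem : ∀ y ∈ U, ∀ n, y n ∈ P
  rel : ∀ y ∈ U, ∀ n, Gs (y n) = Fs (y (n + 1))
  hat_mem : ∀ t, ∀ y ∈ U, hat (Φ t) y ∈ U
  sh_mem : ∀ y ∈ U, sh (K := K) y ∈ U
  perf : U = Ax (fun t => hat (Φ t)) U
  onto : U.map (ev0 (K := K)) = P
  rad : ∀ y ∈ U, y 0 ∈ R → ∀ n, y n ∈ R

section construct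

variable {Φ : τ → End K V} {P R : Submodule K V} {Fs Gs : V →ₗ[K] L}

/-- a linear lift of the correspondence -/
theorem exists_lift (hG : ∀ p ∈ P, ∃ q ∈ P, Gs p = Fs q) :
    ∃ σ : P →ₗ[K] P, ∀ p : P, Gs p = Fs (σ p) := by
  have h1 : ∀ p : P, (Gs ∘ₗ P.subtype) p ∈ LinearMap.range (Fs ∘ₗ P.subtype) := by
    intro p
    obtain ⟨q, hq, h⟩ := hG p p.2
    exact ⟨⟨q, hq⟩, by simpa using h.symm⟩
  obtain ⟨σ, hσ⟩ := Module.projective_lifting_property
    (Fs ∘ₗ P.subtype).rangeRestrict ((Gs ∘ₗ P.subtype).codRestrict _ h1)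
    (LinearMap.surjective_rangeRestrict _)
  refine ⟨σ, fun p => ?_⟩
  have h2 := congrArg (fun f => ((f p : LinearMap.range (Fs ∘ₗ P.subtype)) : L)) hσ
  simpa using h2.symm

/-- the sequence `n ↦ a (σ ^ n q)` -/
def sq (σ : End K P) : End K P →ₗ[K] P →ₗ[K] (ℕ → V) :=
  LinearMap.mk₂ K (fun a q n => ((a ((σ ^ n) q) : P) : V))
    (fun a a' q => by funext n; simp) (fun c a q => by funext n; simp)
    (fun a q q' => by funext n; simp) (fun c a q => by funext n; simp)

@[simp] theorem sq_apply (σ : End K P) (a : End K P) (q : P) (n : ℕ) :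
    sq σ a q n = ((a ((σ ^ n) q) : P) : V) := rfl

/-- restriction of `Φ` to `P` -/
def res (hP : ∀ t, ∀ p ∈ P, Φ t p ∈ P) (t : τ) : End K P := (Φ t).restrict (hP t)

/-- the space spanned by the sequences `Φ_w σ^n q` -/
def Y0 (hP : ∀ t, ∀ p ∈ P, Φ t p ∈ P) (σ : End K P) : Submodule K (ℕ → V) :=
  Submodule.span K {y | ∃ (w : List τ) (q : P), y = sq σ (w.map (res hP)).prod q}

theorem Y0_fin [FiniteDimensional K V] (hP : ∀ t, ∀ p ∈ P, Φ t p ∈ P) (σ : End K P) :
    FiniteDimensional K (Y0 hP σ) := by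
  have h : Y0 hP σ ≤ LinearMap.range (TensorProduct.lift (sq σ)) := by
    refine Submodule.span_le.2 ?_
    rintro _ ⟨w, q, rfl⟩
    exact ⟨(w.map (res hP)).prod ⊗ₜ[K] q, by simp⟩
  exact Submodule.finiteDimensional_of_le h

theorem Y0_hat (hP : ∀ t, ∀ p ∈ P, Φ t p ∈ P) (σ : End K P) (t : τ) :
    (Y0 hP σ).map (hat (Φ t)) ≤ Y0 hP σ := by
  unfold Y0
  rw [Submodule.map_span_le]
  rintro _ ⟨w, q, rfl⟩
  refine Submodule.subset_span ⟨t :: w, q, ?_⟩
  funext n
  simp [res]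

theorem Y0_sh (hP : ∀ t, ∀ p ∈ P, Φ t p ∈ P) (σ : End K P) :
    (Y0 hP σ).map (sh (K := K)) ≤ Y0 hP σ := by
  unfold Y0
  rw [Submodule.map_span_le]
  rintro _ ⟨w, q, rfl⟩
  refine Submodule.subset_span ⟨w, σ q, ?_⟩
  funext n
  simp [pow_succ]

/-- the space of all sequences with the relation -/
def Zs (P : Submodule K V) (Fs Gs : V →ₗ[K] L) : Submodule K (ℕ → V) where
  carrier := {y | ∀ n, y n ∈ P ∧ Gs (y n) = Fs (y (n + 1))}
  add_mem' := by
    intro a b ha hb n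
    exact ⟨P.add_mem (ha n).1 (hb n).1, by simp [(ha n).2, (hb n).2]⟩
  zero_mem' := fun n => ⟨P.zero_mem, by simp⟩
  smul_mem' := by
    intro c a ha n
    exact ⟨P.smul_mem c (ha n).1, by simp [(ha n).2]⟩

theorem Y0_le (hP : ∀ t, ∀ p ∈ P, Φ t p ∈ P)
    (hrel : ∀ t, ∀ p ∈ P, ∀ q ∈ P, Gs p = Fs q → Gs (Φ t p) = Fs (Φ t q))
    {σ : End K P} (hσ : ∀ p : P, Gs p = Fs (σ p)) : Y0 hP σ ≤ Zs P Fs Gs := by
  refine Submodule.span_le.2 ?_
  rintro _ ⟨w, q, rfl⟩ n
  refine ⟨(((w.map (res hP)).prod ((σ ^ n) q) : P)).2, ?_⟩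
  simp only [sq_apply]
  rw [pow_succ', Module.End.mul_apply]
  generalize (σ ^ n) q = p
  induction w with
  | nil => simpa using hσ p
  | cons t w ih =>
    simp only [List.map_cons, List.prod_cons, Module.End.mul_apply]
    exact hrel t _ (Subtype.mem _) _ (Subtype.mem _) ih

/-- iterated step -/
def It (Φ : τ → End K V) (S : Submodule K (ℕ → V)) (k : ℕ) : Submodule K (ℕ → V) :=
  (Ax (fun t => hat (Φ t)))^[k] S

theorem It_succ (S : Submodule K (ℕ → V)) (k : ℕ) :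
    It Φ S (k + 1) = Ax (fun t => hat (Φ t)) (It Φ S k) := by
  unfold It
  rw [Function.iterate_succ_apply']

theorem It_step {S : Submodule K (ℕ → V)} (hS : ∀ t, S.map (hat (Φ t)) ≤ S) (k : ℕ) :
    It Φ S (k + 1) ≤ It Φ S k := by
  induction k with
  | zero =>
    rw [It_succ]
    exact iSup_le hS
  | succ k ih =>
    rw [It_succ (k := k + 1), It_succ (k := k)]
    rw [It_succ (k := k)] at ih
    exact Ax_mono _ ih

theorem It_le {S : Submodule K (ℕ → V)} (hS : ∀ t, S.map (hat (Φ t)) ≤ S) (k : ℕ) :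
    It Φ S k ≤ S := by
  induction k with
  | zero => exact le_rfl
  | succ k ih => exact (It_step hS k).trans ih

theorem exists_stable {S : Submodule K (ℕ → V)} [FiniteDimensional K S]
    (hS : ∀ t, S.map (hat (Φ t)) ≤ S) : ∃ k, It Φ S (k + 1) = It Φ S k := by
  have hf : ∀ k, FiniteDimensional K (It Φ S k) := fun k =>
    Submodule.finiteDimensional_of_le (It_le hS k)
  obtain ⟨k, hk⟩ : ∃ k, ∀ j, finrank K (It Φ S k) ≤ finrank K (It Φ S j) := by
    exact ⟨Function.argmin (fun k => finrank K (It Φ S k)), fun j =>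
      Function.argmin_le (fun k => finrank K (It Φ S k)) j⟩
  refine ⟨k, ?_⟩
  have := hf k
  exact Submodule.eq_of_le_of_finrank_le (It_step hS k) (hk (k + 1))

theorem It_sh {S : Submodule K (ℕ → V)} (hS : S.map (sh (K := K)) ≤ S) (k : ℕ) :
    (It Φ S k).map (sh (K := K)) ≤ It Φ S k := by
  induction k with
  | zero => exact hS
  | succ k ih =>
    rw [It_succ]
    exact sh_Ax Φ ih

theorem It_ev (hP1 : Ax Φ P = P) {S : Submodule K (ℕ → V)} (hS : S.map (ev0 (K := K)) = P)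
    (k : ℕ) : (It Φ S k).map (ev0 (K := K)) = P := by
  induction k with
  | zero => exact hS
  | succ k ih => rw [It_succ, map_Ax, ih, hP1]

/-- **the cover** -/
theorem exists_cover [FiniteDimensional K V] (hP : ∀ t, ∀ p ∈ P, Φ t p ∈ P)
    (hperf : P ≤ ⨆ t, P.map (Φ t)) (hG : ∀ p ∈ P, ∃ q ∈ P, Gs p = Fs q)
    (hrel : ∀ t, ∀ p ∈ P, ∀ q ∈ P, Gs p = Fs q → Gs (Φ t p) = Fs (Φ t q))
    (hR : ∀ p ∈ R, ∀ q ∈ P, Gs p = Fs q → q ∈ R) :
    ∃ U : Submodule K (ℕ → V), IsCover Φ P R Fs Gs U := by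
  obtain ⟨σ, hσ⟩ := exists_lift hG
  have := Y0_fin hP σ
  have hS := Y0_hat hP σ
  obtain ⟨k, hk⟩ := exists_stable hS
  have hle : It Φ (Y0 hP σ) k ≤ Zs P Fs Gs := (It_le hS k).trans (Y0_le hP hrel hσ)
  have hP1 : Ax Φ P = P := by
    refine le_antisymm (iSup_le fun t => ?_) hperf
    rintro _ ⟨p, hp, rfl⟩
    exact hP t p hp
  have hev : (Y0 hP σ).map (ev0 (K := K)) = P := by
    apply le_antisymm
    · rintro _ ⟨y, hy, rfl⟩
      exact (Y0_le hP hrel hσ hy 0).1
    · intro p hp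
      refine ⟨sq σ 1 ⟨p, hp⟩, Submodule.subset_span ⟨[], ⟨p, hp⟩, by simp⟩, ?_⟩
      simp
  refine ⟨It Φ (Y0 hP σ) k, Submodule.finiteDimensional_of_le (It_le hS k),
    fun y hy n => (hle hy n).1, fun y hy n => (hle hy n).2, fun t y hy => ?_, fun y hy => ?_,
    ?_, It_ev hP1 hev k, fun y hy h0 n => ?_⟩
  · have h1 : hat (Φ t) y ∈ It Φ (Y0 hP σ) (k + 1) := by
      rw [It_succ]
      exact Submodule.mem_iSup_of_mem t ⟨y, hy, rfl⟩
    rwa [hk] at h1
  · exact It_sh (Y0_sh hP σ) k ⟨y, hy, rfl⟩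
  · rw [← It_succ, hk]
  · induction n with
    | zero => exact h0
    | succ n ih => exact hR _ ih _ (hle hy (n + 1)).1 (hle hy n).2

end construct

namespace IsCover

variable {Φ : τ → End K V} {P R : Submodule K V} {Fs Gs : V →ₗ[K] L} {U : Submodule K (ℕ → V)}

/-- the operators on the cover -/
def al (h : IsCover Φ P R Fs Gs U) (t : τ) : End K U := (hat (Φ t)).restrict (h.hat_mem t)

/-- `D` on the cover -/
def tau (h : IsCover Φ P R Fs Gs U) : End K U := (sh (K := K)).restrict h.sh_mem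

/-- the map to `V` -/
def pi (_h : IsCover Φ P R Fs Gs U) : U →ₗ[K] V := ev0 (K := K) ∘ₗ U.subtype

variable (h : IsCover Φ P R Fs Gs U)

@[simp] theorem pi_apply (y : U) : h.pi y = (y : ℕ → V) 0 := rfl

@[simp] theorem al_coe (t : τ) (y : U) : (h.al t y : ℕ → V) = hat (Φ t) y := rfl

@[simp] theorem tau_coe (y : U) : (h.tau y : ℕ → V) = sh (K := K) (y : ℕ → V) := rfl

theorem al_tau (t : τ) (y : U) : h.al t (h.tau y) = h.tau (h.al t y) := rfl

theorem pi_al (t : τ) (y : U) : h.pi (h.al t y) = Φ t (h.pi y) := rfl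

theorem rel_pi (y : U) : Gs (h.pi y) = Fs (h.pi (h.tau y)) := h.rel y y.2 0

theorem pi_mem (y : U) : h.pi y ∈ P := h.mem y y.2 0

theorem range_pi : LinearMap.range h.pi = P := by
  unfold pi
  rw [LinearMap.range_comp, Submodule.range_subtype, h.onto]

theorem sum_al [Fintype τ] (hsum : ∀ v, ∑ t, Φ t v = 0) (y : U) : ∑ t, h.al t y = 0 := by
  apply Subtype.ext
  funext n
  rw [AddSubmonoidClass.coe_finsetSum, Finset.sum_apply]
  exact hsum ((y : ℕ → V) n)

/-- `U` is perfect -/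
theorem perfect [Fintype τ] (y : U) : ∃ f : τ → U, y = ∑ t, h.al t (f t) := by
  have h1 : (y : ℕ → V) ∈ ⨆ t, U.map (hat (Φ t)) := (le_of_eq h.perf) y.2
  obtain ⟨f, hf, hs⟩ := (Submodule.mem_iSup_iff_exists_finsupp _ _).1 h1
  choose g hg1 hg2 using hf
  refine ⟨fun t => ⟨g t, hg1 t⟩, ?_⟩
  apply Subtype.ext
  rw [AddSubmonoidClass.coe_finsetSum]
  rw [← hs, Finsupp.sum_fintype _ _ (fun _ => rfl)]
  exact Finset.sum_congr rfl fun t _ => (hg2 t).symm

theorem sup_range [Fintype τ] : ⨆ t, LinearMap.range (h.al t) = ⊤ := by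
  rw [eq_top_iff]
  intro y _
  obtain ⟨f, hf⟩ := h.perfect y
  rw [hf]
  exact Submodule.sum_mem _ fun t _ => Submodule.mem_iSup_of_mem t ⟨f t, rfl⟩

/-- the radical of the cover -/
def Rt (h : IsCover Φ P R Fs Gs U) : Submodule K U := R.comap h.pi

theorem mem_Rt {y : U} : y ∈ h.Rt ↔ h.pi y ∈ R := Iff.rfl

theorem Rt_al (hRP : ∀ t, ∀ r ∈ R, Φ t r ∈ R) (t : τ) {y : U} (hy : y ∈ h.Rt) :
    h.al t y ∈ h.Rt := hRP t _ hy

theorem Rt_tau {y : U} (hy : y ∈ h.Rt) : h.tau y ∈ h.Rt := h.rad y y.2 hy 1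

theorem al_words (w : List τ) (y : U) (n : ℕ) :
    (((w.map h.al).prod y : U) : ℕ → V) n = (w.map Φ).prod ((y : ℕ → V) n) := by
  induction w with
  | nil => simp
  | cons t w ih =>
    rw [List.map_cons, List.prod_cons, List.map_cons, List.prod_cons, Module.End.mul_apply,
      Module.End.mul_apply, al_coe, hat_apply, ih]

theorem al_pow (t : τ) (j : ℕ) (y : U) (n : ℕ) :
    (((h.al t ^ j) y : U) : ℕ → V) n = (Φ t ^ j) ((y : ℕ → V) n) := by
  have h1 := h.al_words (List.replicate j t) y n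
  simpa using h1

theorem pi_pow (t : τ) (j : ℕ) (y : U) : h.pi ((h.al t ^ j) y) = (Φ t ^ j) (h.pi y) :=
  h.al_pow t j y 0

/-- the radical of the cover is nilpotent -/
theorem words_kill {m : ℕ} (hN : ∀ w : List τ, w.length = m → ∀ r ∈ R, (w.map Φ).prod r = 0)
    (w : List τ) (hw : w.length = m) {y : U} (hy : y ∈ h.Rt) : (w.map h.al).prod y = 0 := by
  apply Subtype.ext
  funext n
  rw [h.al_words]
  exact hN w hw _ (h.rad y y.2 hy n)

end IsCover

end Crest.Agent.R172.Cov
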