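import Mathlib

/-!
Row 172 (S0260), node (S) = structure lemma of note 12992.
File 1: the largest nilpotent submodule, its orthogonal, and the core.
-/

set_option autoImplicit false

namespace Crest.Agent.R172.St

open Module

variable {K : Type*} [Field K] {V : Type*} [AddCommGroup V] [Module K V] {ι : Type*}

/-- `f` is self-adjoint for `B`. -/
def Sa (B : LinearMap.BilinForm K V) (f : End K V) : Prop := ∀ u v, B (f u) v = B u (f v)

/-- `f` is skew-adjoint for `B`. -/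
def Sk (B : LinearMap.BilinForm K V) (f : End K V) : Prop := ∀ u v, B (f u) v + B u (f v) = 0

/-- `N_k = {v : every word of length k in the Φ_s kills v}`. -/
def Nk (Φ : ι → End K V) : ℕ → Submodule K V
  | 0 => ⊥
  | k + 1 => ⨅ s, (Nk Φ k).comap (Φ s)

theorem mem_Nk_zero {Φ : ι → End K V} {v : V} : v ∈ Nk Φ 0 ↔ v = 0 := by
  simp [Nk]

theorem mem_Nk_succ {Φ : ι → End K V} {k : ℕ} {v : V} :
    v ∈ Nk Φ (k + 1) ↔ ∀ s, Φ s v ∈ Nk Φ k := by
  simp [Nk, Submodule.mem_iInf]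

theorem Nk_le_succ (Φ : ι → End K V) (k : ℕ) : Nk Φ k ≤ Nk Φ (k + 1) := by
  induction k with
  | zero => intro v hv; rw [mem_Nk_zero] at hv; subst hv; exact Submodule.zero_mem _
  | succ k ih => intro v hv; rw [mem_Nk_succ] at hv ⊢; exact fun s => ih (hv s)

theorem Nk_mono (Φ : ι → End K V) : Monotone (Nk Φ) := monotone_nat_of_le_succ (Nk_le_succ Φ)

/-- the largest nilpotent submodule -/
def T (Φ : ι → End K V) : Submodule K V := ⨆ k, Nk Φ k

theorem mem_T {Φ : ι → End K V} {v : V} : v ∈ T Φ ↔ ∃ k, v ∈ Nk Φ k := by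
  unfold T
  rw [Submodule.mem_iSup_of_directed _ (Nk_mono Φ).directed_le]

theorem Nk_le_T (Φ : ι → End K V) (k : ℕ) : Nk Φ k ≤ T Φ := le_iSup (Nk Φ) k

theorem T_stable {Φ : ι → End K V} (s : ι) {v : V} (hv : v ∈ T Φ) : Φ s v ∈ T Φ := by
  obtain ⟨k, hk⟩ := mem_T.1 hv
  exact mem_T.2 ⟨k, mem_Nk_succ.1 (Nk_le_succ Φ k hk) s⟩

theorem T_closed [Finite ι] {Φ : ι → End K V} {v : V} (h : ∀ s, Φ s v ∈ T Φ) : v ∈ T Φ := by
  cases nonempty_fintype ι
  choose k hk using fun s => mem_T.1 (h s)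
  refine mem_T.2 ⟨(Finset.univ.sup k) + 1, mem_Nk_succ.2 fun s => ?_⟩
  exact Nk_mono Φ (Finset.le_sup (f := k) (Finset.mem_univ s)) (hk s)

theorem T_eq_Nk [FiniteDimensional K V] (Φ : ι → End K V) : ∃ k, T Φ = Nk Φ k := by
  obtain ⟨k, hk⟩ := (monotone_stabilizes_iff_noetherian (R := K) (M := V)).2 inferInstance
    ⟨Nk Φ, Nk_mono Φ⟩
  refine ⟨k, le_antisymm (iSup_le fun j => ?_) (Nk_le_T Φ k)⟩
  rcases le_total j k with h | h
  · exact Nk_mono Φ h
  · exact (hk j h).symm.le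

/-- `Y` is a linear operator which commutes with all `Φ s`: it preserves `T`. -/
theorem T_comm {Φ : ι → End K V} {D : End K V} (hD : ∀ s v, D (Φ s v) = Φ s (D v)) {v : V}
    (hv : v ∈ T Φ) : D v ∈ T Φ := by
  obtain ⟨k, hk⟩ := mem_T.1 hv
  refine mem_T.2 ⟨k, ?_⟩
  clear hv
  induction k generalizing v with
  | zero => rw [mem_Nk_zero] at hk ⊢; rw [hk, map_zero]
  | succ k ih => rw [mem_Nk_succ] at hk ⊢; intro s; rw [← hD]; exact ih (hk s)

/-- the orthogonal of `T` -/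
def Tp (B : LinearMap.BilinForm K V) (Φ : ι → End K V) : Submodule K V where
  carrier := {v | ∀ t ∈ T Φ, B v t = 0}
  add_mem' := by
    intro a b ha hb t ht
    rw [map_add, LinearMap.add_apply, ha t ht, hb t ht, add_zero]
  zero_mem' := by intro t _; simp
  smul_mem' := by
    intro c a ha t ht
    rw [map_smul, LinearMap.smul_apply, ha t ht, smul_zero]

theorem mem_Tp {B : LinearMap.BilinForm K V} {Φ : ι → End K V} {v : V} :
    v ∈ Tp B Φ ↔ ∀ t ∈ T Φ, B v t = 0 := Iff.rfl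

theorem Tp_stable {B : LinearMap.BilinForm K V} {Φ : ι → End K V} {f : End K V} (hf : Sa B f)
    (hT : ∀ t ∈ T Φ, f t ∈ T Φ) {v : V} (hv : v ∈ Tp B Φ) : f v ∈ Tp B Φ := by
  intro t ht
  rw [hf]
  exact hv _ (hT t ht)

theorem Tp_stable_sk {B : LinearMap.BilinForm K V} {Φ : ι → End K V} {f : End K V} (hf : Sk B f)
    (hT : ∀ t ∈ T Φ, f t ∈ T Φ) {v : V} (hv : v ∈ Tp B Φ) : f v ∈ Tp B Φ := by
  intro t ht
  have := hf v t
  rw [hv _ (hT t ht), add_zero] at this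
  exact this

end Crest.Agent.R172.St
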