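import Crest.Agent.R172.TameCount1
import Crest.Agent.R172.St1

/-!
Row 172, TAME (T0), arbitrary radical, node N5R part (A): a perfect module `P` over the free algebra
on `A₁, A₂, A₃` (`∑ A_s = 0`) with tame quotient `π : P → M` and nilpotent kernel: `ker π` is
generated by the elements `A_s ^ l_s p` (hypotheses `gen1`, `gen2` of `Dual1.span_exact`).
-/

set_option autoImplicit false
set_option linter.unusedSectionVars false

namespace Crest.Agent.R172.RG

open Module LinearMap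

variable {K : Type*} [Field K]
variable {P M : Type*} [AddCommGroup P] [Module K P] [AddCommGroup M] [Module K M]
variable {κ : Type*} [Fintype κ]

theorem exists_sum (A : κ → End K P) (h : ⨆ s, range (A s) = ⊤) (p : P) :
    ∃ q : κ → P, ∑ s, A s (q s) = p := by
  classical
  let β : (κ → P) →ₗ[K] P := ∑ s, A s ∘ₗ LinearMap.proj s
  have hβ : ∀ m, β m = ∑ s, A s (m s) := by
    intro m
    simp [β, LinearMap.sum_apply]
  have hβs : range β = ⊤ := by
    rw [eq_top_iff, ← h]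
    refine iSup_le fun s => ?_
    rintro _ ⟨m, rfl⟩
    refine ⟨Pi.single s m, ?_⟩
    rw [hβ, Finset.sum_eq_single s]
    · rw [Pi.single_eq_same]
    · intro t _ ht
      rw [Pi.single_eq_of_ne ht, map_zero]
    · intro hh
      exact absurd (Finset.mem_univ s) hh
  obtain ⟨q, hq⟩ : p ∈ range β := by rw [hβs]; exact Submodule.mem_top
  exact ⟨q, by rw [← hβ, hq]⟩

/-- `{m : ∑ Ψ_s m_s = 0} = diag + ∏ ker Ψ_s` -/
theorem zero_sum [FiniteDimensional K M] [Nonempty κ] (Ψ : κ → End K M) (hsum : ∑ s, Ψ s = 0)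
    (hspan : ⨆ s, range (Ψ s) = ⊤) (hker : ∀ m : M, (∀ s, Ψ s m = 0) → m = 0)
    (hdim : ∑ s, finrank K (ker (Ψ s)) + 2 * finrank K M = Fintype.card κ * finrank K M)
    (m : κ → M) (hm : ∑ s, Ψ s (m s) = 0) :
    ∃ (u : M) (k : κ → M), (∀ s, Ψ s (k s) = 0) ∧ ∀ s, m s = u + k s := by
  classical
  let β : (κ → M) →ₗ[K] M := ∑ s, Ψ s ∘ₗ LinearMap.proj s
  have hβ : ∀ m, β m = ∑ s, Ψ s (m s) := by
    intro m
    simp [β, LinearMap.sum_apply]
  have hβs : range β = ⊤ := by
    rw [eq_top_iff]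
    intro p _
    obtain ⟨q, hq⟩ := exists_sum Ψ hspan p
    exact ⟨q, by rw [hβ, hq]⟩
  let Z : Submodule K (κ → M) := ker β
  let Dg : M →ₗ[K] (κ → M) := LinearMap.pi fun _ => LinearMap.id
  let Kk : Submodule K (κ → M) := Submodule.pi Set.univ fun s => ker (Ψ s)
  have hDg : range Dg ≤ Z := by
    rintro _ ⟨m, rfl⟩
    change β (Dg m) = 0
    rw [hβ]
    have : ∑ s, Ψ s (Dg m s) = (∑ s, Ψ s) m := by
      rw [LinearMap.sum_apply]
      rfl
    rw [this, hsum, LinearMap.zero_apply]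
  have hKk : Kk ≤ Z := by
    intro m hm
    change β m = 0
    rw [hβ]
    exact Finset.sum_eq_zero fun s _ => (Submodule.mem_pi.1 hm) s (Set.mem_univ s)
  have hdisj : range Dg ⊓ Kk = ⊥ := by
    rw [eq_bot_iff]
    rintro _ ⟨⟨m, rfl⟩, hm⟩
    have h0 : m = 0 := hker m fun s => (Submodule.mem_pi.1 hm) s (Set.mem_univ s)
    rw [h0, map_zero]
    exact Submodule.zero_mem _
  have hdDg : finrank K (range Dg) = finrank K M := by
    have hinj : Function.Injective Dg := by
      intro m m' hh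
      exact congrFun hh (Classical.arbitrary κ)
    exact LinearMap.finrank_range_of_inj hinj
  have hdK : finrank K Kk = ∑ s, finrank K (ker (Ψ s)) := by
    let j : (∀ s, ker (Ψ s)) →ₗ[K] (κ → M) :=
      LinearMap.pi fun s => (ker (Ψ s)).subtype ∘ₗ LinearMap.proj s
    have hj : Function.Injective j := by
      intro k k' hh
      funext s
      exact Subtype.ext (congrFun hh s)
    have hr : range j = Kk := by
      ext m
      constructor
      · rintro ⟨k, rfl⟩
        exact Submodule.mem_pi.2 fun s _ => (k s).2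
      · intro hm
        exact ⟨fun s => ⟨m s, (Submodule.mem_pi.1 hm) s (Set.mem_univ s)⟩, rfl⟩
    rw [← hr, LinearMap.finrank_range_of_inj hj, Module.finrank_pi_fintype]
  have hdZ : finrank K Z + finrank K M = Fintype.card κ * finrank K M := by
    have h1 := LinearMap.finrank_range_add_finrank_ker β
    rw [hβs, finrank_top, Module.finrank_pi_fintype] at h1
    simp only [Finset.sum_const, Finset.card_univ, smul_eq_mul] at h1
    change finrank K M + finrank K Z = _ at h1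
    omega
  have hZ : range Dg ⊔ Kk = Z := by
    have h3 := Submodule.finrank_sup_add_finrank_inf_eq (range Dg) Kk
    rw [hdisj, finrank_bot, hdK] at h3
    refine Submodule.eq_of_le_of_finrank_le (sup_le hDg hKk) ?_
    omega
  have hmZ : m ∈ Z := by
    change β m = 0
    rw [hβ, hm]
  rw [← hZ] at hmZ
  obtain ⟨d, ⟨u, rfl⟩, k, hk, hdk⟩ := Submodule.mem_sup.1 hmZ
  refine ⟨u, k, fun s => (Submodule.mem_pi.1 hk) s (Set.mem_univ s), fun s => ?_⟩
  rw [← hdk]
  rfl

theorem pi_pow (A : κ → End K P) (Ψ : κ → End K M) (π : P →ₗ[K] M)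
    (hπ : ∀ s p, π (A s p) = Ψ s (π p)) (s : κ) (j : ℕ) (p : P) :
    π ((A s ^ j) p) = (Ψ s ^ j) (π p) := by
  induction j generalizing p with
  | zero => simp
  | succ j ih => rw [pow_succ, Module.End.mul_apply, ih, hπ, pow_succ, Module.End.mul_apply]

/-- Nakayama for a nilpotent submodule. -/
theorem nak {A : κ → End K P} {R S : Submodule K P} (hS : ∀ s, ∀ v ∈ S, A s v ∈ S) {k : ℕ}
    (hR : R ≤ St.Nk A k) (h : R ≤ S ⊔ ⨆ s, R.map (A s)) : R ≤ S := by
  have key : ∀ j ≤ k, ∃ Z : Submodule K P, Z ≤ St.Nk A (k - j) ∧ R ≤ S ⊔ Z := by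
    intro j
    induction j with
    | zero => intro _; exact ⟨R, by simpa using hR, le_sup_right⟩
    | succ j ih =>
      intro hj
      obtain ⟨Z, hZ, hRZ⟩ := ih (by omega)
      refine ⟨⨆ s, Z.map (A s), ?_, ?_⟩
      · refine iSup_le fun s => ?_
        rintro _ ⟨v, hv, rfl⟩
        have h1 := hZ hv
        have e : k - j = (k - (j + 1)) + 1 := by omega
        rw [e, St.mem_Nk_succ] at h1
        exact h1 s
      · refine h.trans (sup_le le_sup_left (iSup_le fun s => ?_))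
        refine (Submodule.map_mono hRZ).trans ?_
        rw [Submodule.map_sup]
        refine sup_le ?_ ?_
        · rintro _ ⟨v, hv, rfl⟩
          exact Submodule.mem_sup_left (hS s v hv)
        · exact (le_iSup (fun s => Z.map (A s)) s).trans le_sup_right
  obtain ⟨Z, hZ, hRZ⟩ := key k le_rfl
  have hZ0 : Z = ⊥ := by
    rw [Nat.sub_self] at hZ
    exact le_bot_iff.1 hZ
  rw [hZ0, sup_bot_eq] at hRZ
  exact hRZ

theorem dim_eq [FiniteDimensional K M] {Ψ : Fin 3 → End K M} {l : Fin 3 → ℕ}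
    (hl1 : ∀ s, 1 ≤ l s) (hfree : ∀ s, l s * finrank K (ker (Ψ s)) = finrank K M)
    (hq : ∑ s, (1 - 1 / (l s : ℚ)) = 2) :
    ∑ s, finrank K (ker (Ψ s)) + 2 * finrank K M = Fintype.card (Fin 3) * finrank K M := by
  have h1 : ∀ s, (finrank K (ker (Ψ s)) : ℚ) = finrank K M * (1 / (l s : ℚ)) := by
    intro s
    have h2 : (l s : ℚ) * finrank K (ker (Ψ s)) = finrank K M := by exact_mod_cast hfree s
    have h3 : (l s : ℚ) ≠ 0 := by
      have := hl1 s
      positivity
    rw [← h2]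
    field_simp
  have h2 : ∑ s, (1 / (l s : ℚ)) = 1 := by
    rw [Finset.sum_sub_distrib] at hq
    simp only [Finset.sum_const, Finset.card_univ, Fintype.card_fin, nsmul_eq_mul, mul_one] at hq
    push_cast at hq
    linarith
  have h3 : ((∑ s, finrank K (ker (Ψ s)) : ℕ) : ℚ) = finrank K M := by
    push_cast
    rw [Finset.sum_congr rfl fun s _ => h1 s, ← Finset.mul_sum, h2, mul_one]
  have h4 : ∑ s, finrank K (ker (Ψ s)) = finrank K M := by exact_mod_cast h3
  rw [h4, Fintype.card_fin]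
  ring

/-- **`ker π` is generated by the `A_s ^ l_s p`.** -/
theorem gen [FiniteDimensional K M] (A : Fin 3 → End K P) (Ψ : Fin 3 → End K M) (π : P →ₗ[K] M)
    (hπ : ∀ s p, π (A s p) = Ψ s (π p)) (hr : range π = ⊤) (hsum : ∑ s, A s = 0)
    (hperf : ⨆ s, range (A s) = ⊤) {k : ℕ} (hnil : ker π ≤ St.Nk A k)
    (hker : ∀ m : M, (∀ s, Ψ s m = 0) → m = 0)
    (l : Fin 3 → ℕ) (hl1 : ∀ s, 1 ≤ l s) (hl : ∀ s, Ψ s ^ l s = 0)
    (hfree : ∀ s, l s * finrank K (ker (Ψ s)) = finrank K M)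
    (hq : ∑ s, (1 - 1 / (l s : ℚ)) = 2)
    (S : Submodule K P) (hS : ∀ s, ∀ v ∈ S, A s v ∈ S) (hSl : ∀ s p, (A s ^ l s) p ∈ S) :
    ker π ≤ S := by
  classical
  have hsurj : Function.Surjective π := LinearMap.range_eq_top.1 hr
  have hΨsum : ∑ s, Ψ s = 0 := by
    ext m
    obtain ⟨p, rfl⟩ := hsurj m
    rw [LinearMap.sum_apply, Finset.sum_congr rfl fun s _ => (hπ s p).symm, ← map_sum,
      ← LinearMap.sum_apply, hsum]
    simp
  have hΨspan : ⨆ s, range (Ψ s) = ⊤ := by
    rw [eq_top_iff]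
    intro m _
    obtain ⟨p, rfl⟩ := hsurj m
    obtain ⟨q, rfl⟩ := exists_sum A hperf p
    rw [map_sum]
    refine Submodule.sum_mem _ fun s _ => ?_
    rw [hπ]
    exact Submodule.mem_iSup_of_mem s ⟨_, rfl⟩
  refine nak hS hnil ?_
  intro ρ hρ
  obtain ⟨p, hp⟩ := exists_sum A hperf ρ
  have h0 : ∑ s, Ψ s (π (p s)) = 0 := by
    rw [Finset.sum_congr rfl fun s _ => (hπ s (p s)).symm, ← map_sum, hp]
    exact hρ
  obtain ⟨u, k', hk, hm⟩ := zero_sum Ψ hΨsum hΨspan hker (dim_eq hl1 hfree hq) _ h0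
  have h1 : ∀ s, ∃ g : P, (Ψ s ^ (l s - 1)) (π g) = k' s := by
    intro s
    have h2 : k' s ∈ ker (Ψ s ^ 1) := by
      rw [pow_one]
      exact hk s
    rw [TC.ker_eq_range (hl s) (hfree s) (hl1 s)] at h2
    obtain ⟨m, hm'⟩ := h2
    obtain ⟨g, rfl⟩ := hsurj m
    exact ⟨g, hm'⟩
  choose g hg using h1
  obtain ⟨q, hq'⟩ := hsurj u
  have h2 : ∀ s, p s - q - (A s ^ (l s - 1)) (g s) ∈ ker π := by
    intro s
    rw [LinearMap.mem_ker, map_sub, map_sub, pi_pow A Ψ π hπ, hg, hq', hm s]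
    abel
  have h3 : ρ = ∑ s, (A s ^ l s) (g s) + ∑ s, A s (p s - q - (A s ^ (l s - 1)) (g s)) := by
    have h4 : ∀ s, A s (p s - q - (A s ^ (l s - 1)) (g s)) =
        A s (p s) - A s q - (A s ^ l s) (g s) := by
      intro s
      rw [map_sub, map_sub]
      congr 1
      rw [← Module.End.mul_apply, ← pow_succ']
      congr 2
      have := hl1 s
      omega
    rw [Finset.sum_congr rfl fun s _ => h4 s, Finset.sum_sub_distrib, Finset.sum_sub_distrib, hp,
      ← LinearMap.sum_apply, hsum]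
    simp
  rw [h3]
  refine Submodule.add_mem_sup (S.sum_mem fun s _ => hSl s (g s)) (Submodule.sum_mem _ fun s _ => ?_)
  exact Submodule.mem_iSup_of_mem s ⟨_, h2 s, rfl⟩

end Crest.Agent.R172.RG
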