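import Crest.Agent.R172.Cov1
import Crest.Agent.R172.RGen

/-!
Row 172, TAME (T0): blocks of the cover `U` of `Cov1`: generalised eigenspaces of `tau`.
-/

set_option autoImplicit false
set_option linter.unusedSectionVars false

namespace Crest.Agent.R172.Cov2

open Module LinearMap Crest.Agent.R172.Cov

section fit

variable {K : Type*} [Field K] {W : Type*} [AddCommGroup W] [Module K W]

/-- the part of `W` on which `f - μ` is bijective -/
def Rg (f : End K W) (μ : K) : Submodule K W := ⨅ n, range ((f - μ • (1 : End K W)) ^ n)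

theorem mem_Rg {f : End K W} {μ : K} {x : W} :
    x ∈ Rg f μ ↔ ∀ n, ∃ y, ((f - μ • (1 : End K W)) ^ n) y = x := by
  simp [Rg, Submodule.mem_iInf]

theorem compl [FiniteDimensional K W] (f : End K W) (μ : K) :
    IsCompl (f.maxGenEigenspace μ) (Rg f μ) := by
  have h := LinearMap.isCompl_iSup_ker_pow_iInf_range_pow (f - μ • (1 : End K W))
  have e : f.maxGenEigenspace μ = ⨆ n, ker ((f - μ • (1 : End K W)) ^ n) := by
    ext x
    rw [Module.End.mem_maxGenEigenspace, Submodule.mem_iSup_of_directed]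
    · simp
    · exact (LinearMap.iterateKer (f - μ • (1 : End K W))).monotone.directed_le
  rw [e]
  exact h

theorem Rg_of_comm {f A : End K W} (hc : ∀ y, A (f y) = f (A y)) {μ : K} {x : W}
    (hx : x ∈ Rg f μ) : A x ∈ Rg f μ := by
  rw [mem_Rg] at hx ⊢
  intro n
  obtain ⟨y, hy⟩ := hx n
  refine ⟨A y, ?_⟩
  have hcc : Commute A (f - μ • (1 : End K W)) := by
    apply LinearMap.ext
    intro z
    simp [hc]
  have h1 := congrArg (fun g => g y) (hcc.pow_right n).eq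
  simp only [Module.End.mul_apply] at h1
  rw [← h1, hy]

theorem E_of_comm {f A : End K W} (hc : ∀ y, A (f y) = f (A y)) {μ : K} {x : W}
    (hx : x ∈ f.maxGenEigenspace μ) : A x ∈ f.maxGenEigenspace μ := by
  rw [Module.End.mem_maxGenEigenspace] at hx ⊢
  obtain ⟨n, hn⟩ := hx
  refine ⟨n, ?_⟩
  have hcc : Commute A (f - μ • (1 : End K W)) := by
    apply LinearMap.ext
    intro z
    simp [hc]
  have h1 := congrArg (fun g => g x) (hcc.pow_right n).eq
  simp only [Module.End.mul_apply] at h1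
  rw [← h1, hn, map_zero]

theorem split [FiniteDimensional K W] (f : End K W) (μ : K) (y : W) :
    ∃ a ∈ f.maxGenEigenspace μ, ∃ b ∈ Rg f μ, a + b = y := by
  have h := (compl f μ).sup_eq_top
  have hy : y ∈ f.maxGenEigenspace μ ⊔ Rg f μ := by rw [h]; exact Submodule.mem_top
  obtain ⟨a, ha, b, hb, hab⟩ := Submodule.mem_sup.1 hy
  exact ⟨a, ha, b, hb, hab⟩

theorem disj [FiniteDimensional K W] {f : End K W} {μ : K} {x : W}
    (h1 : x ∈ f.maxGenEigenspace μ) (h2 : x ∈ Rg f μ) : x = 0 := by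
  have h := (compl f μ).inf_eq_bot
  have : x ∈ f.maxGenEigenspace μ ⊓ Rg f μ := ⟨h1, h2⟩
  rw [h] at this
  exact (Submodule.mem_bot K).1 this

/-- intertwiners respect the generalised eigenspaces -/
theorem map_E {W' : Type*} [AddCommGroup W'] [Module K W'] {f : End K W} {f' : End K W'}
    {ρ : W →ₗ[K] W'} (hρ : ∀ y, ρ (f y) = f' (ρ y)) {μ : K} {x : W}
    (hx : x ∈ f.maxGenEigenspace μ) : ρ x ∈ f'.maxGenEigenspace μ := by
  rw [Module.End.mem_maxGenEigenspace] at hx ⊢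
  obtain ⟨n, hn⟩ := hx
  refine ⟨n, ?_⟩
  have h1 : ∀ n y, ρ (((f - μ • (1 : End K W)) ^ n) y) = ((f' - μ • (1 : End K W')) ^ n) (ρ y) := by
    intro n
    induction n with
    | zero => intro y; simp
    | succ n ih =>
      intro y
      rw [pow_succ, Module.End.mul_apply, ih, pow_succ, Module.End.mul_apply]
      simp [hρ]
  rw [← h1, hn, map_zero]

theorem map_Rg {W' : Type*} [AddCommGroup W'] [Module K W'] {f : End K W} {f' : End K W'}
    {ρ : W →ₗ[K] W'} (hρ : ∀ y, ρ (f y) = f' (ρ y)) {μ : K} {x : W}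
    (hx : x ∈ Rg f μ) : ρ x ∈ Rg f' μ := by
  rw [mem_Rg] at hx ⊢
  intro n
  obtain ⟨y, hy⟩ := hx n
  have h1 : ∀ n y, ρ (((f - μ • (1 : End K W)) ^ n) y) = ((f' - μ • (1 : End K W')) ^ n) (ρ y) := by
    intro n
    induction n with
    | zero => intro y; simp
    | succ n ih =>
      intro y
      rw [pow_succ, Module.End.mul_apply, ih, pow_succ, Module.End.mul_apply]
      simp [hρ]
  exact ⟨ρ y, by rw [← h1, hy]⟩

end fit

/-- the data of the core: `ρ : P → M` onto with kernel `R`, `D` on `M` -/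
structure OnCore {K : Type*} [Field K] {V : Type*} [AddCommGroup V] [Module K V]
    {L : Type*} [AddCommGroup L] [Module K L] {M : Type*} [AddCommGroup M] [Module K M]
    {τ : Type*} (Φ : τ → End K V) (P R : Submodule K V) (Fs Gs : V →ₗ[K] L)
    (ρ : V →ₗ[K] M) (Ψ : τ → End K M) (D : End K M) : Prop where
  ker_iff : ∀ p ∈ P, ρ p = 0 ↔ p ∈ R
  onto : ∀ m, ∃ p ∈ P, ρ p = m
  comm : ∀ t, ∀ p ∈ P, ρ (Φ t p) = Ψ t (ρ p)
  rel : ∀ p ∈ P, ∀ q ∈ P, Gs p = Fs q → ρ q = D (ρ p)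

variable {K : Type*} [Field K] {V : Type*} [AddCommGroup V] [Module K V]
variable {L : Type*} [AddCommGroup L] [Module K L] {M : Type*} [AddCommGroup M] [Module K M]
variable {τ : Type*} {Φ : τ → End K V} {P R : Submodule K V} {Fs Gs : V →ₗ[K] L}
variable {ρ : V →ₗ[K] M} {Ψ : τ → End K M} {D : End K M}

/-- **the cover from the core data** -/
theorem exists_cover_core [FiniteDimensional K V] (hRP : R ≤ P)
    (c : OnCore Φ P R Fs Gs ρ Ψ D) (hP : ∀ t, ∀ p ∈ P, Φ t p ∈ P)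
    (hperf : P ≤ ⨆ t, P.map (Φ t)) (hG : ∀ p ∈ P, ∃ q ∈ P, Gs p = Fs q)
    (hrel : ∀ t, ∀ p ∈ P, ∀ q ∈ P, Gs p = Fs q → Gs (Φ t p) = Fs (Φ t q)) :
    ∃ U : Submodule K (ℕ → V), IsCover Φ P R Fs Gs U :=
  exists_cover hP hperf hG hrel fun p hp q hq h => by
    rw [← c.ker_iff q hq, c.rel p (hRP hp) q hq h, (c.ker_iff p (hRP hp)).2 hp, map_zero]

section blocks

variable {U : Submodule K (ℕ → V)} (h : IsCover Φ P R Fs Gs U) (c : OnCore Φ P R Fs Gs ρ Ψ D)

/-- `U → M` -/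
def rU (h : IsCover Φ P R Fs Gs U) (ρ : V →ₗ[K] M) : U →ₗ[K] M := ρ ∘ₗ h.pi

theorem rU_apply (y : U) : rU h ρ y = ρ (h.pi y) := rfl

include c in
theorem rU_al (t : τ) (y : U) : rU h ρ (h.al t y) = Ψ t (rU h ρ y) := by
  rw [rU_apply, h.pi_al, c.comm t _ (h.pi_mem y), ← rU_apply]

include c in
theorem rU_tau (y : U) : rU h ρ (h.tau y) = D (rU h ρ y) :=
  c.rel _ (h.pi_mem y) _ (h.pi_mem _) (h.rel_pi y)

include c in
theorem rU_eq_zero (y : U) : rU h ρ y = 0 ↔ y ∈ h.Rt := c.ker_iff _ (h.pi_mem y)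

include c in
theorem rU_onto (m : M) : ∃ y : U, rU h ρ y = m := by
  obtain ⟨p, hp, hm⟩ := c.onto m
  rw [← h.range_pi] at hp
  obtain ⟨y, rfl⟩ := hp
  exact ⟨y, hm⟩

include h c in
theorem D_Ψ (t : τ) (m : M) : D (Ψ t m) = Ψ t (D m) := by
  obtain ⟨y, rfl⟩ := rU_onto h c m
  rw [← rU_al h c, ← rU_tau h c, ← rU_tau h c, ← rU_al h c, h.al_tau]

/-- kernel filtration of the radical -/
theorem Rt_Nk {m : ℕ} (hN : R ≤ St.Nk Φ m) : h.Rt ≤ St.Nk h.al m := by
  have key : ∀ (m : ℕ) (y : U), (∀ n, (y : ℕ → V) n ∈ St.Nk Φ m) → y ∈ St.Nk h.al m := by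
    intro m
    induction m with
    | zero =>
      intro y hy
      rw [St.mem_Nk_zero]
      apply Subtype.ext
      funext n
      exact St.mem_Nk_zero.1 (hy n)
    | succ m ih =>
      intro y hy
      rw [St.mem_Nk_succ]
      intro t
      exact ih _ fun n => (St.mem_Nk_succ.1 (hy n)) t
  intro y hy
  exact key m y fun n => hN (h.rad y y.2 hy n)

/-- a perfect submodule of the radical vanishes -/
theorem perf_zero {m : ℕ} (hN : R ≤ St.Nk Φ m) {S : Submodule K U} (hS : S ≤ h.Rt)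
    (hp : S ≤ ⨆ t, S.map (h.al t)) : S = ⊥ := by
  have key : ∀ j ≤ m, S ≤ St.Nk h.al (m - j) := by
    intro j
    induction j with
    | zero => intro _; exact hS.trans (Rt_Nk h hN)
    | succ j ih =>
      intro hj
      refine hp.trans (iSup_le fun t => ?_)
      rintro _ ⟨v, hv, rfl⟩
      have h1 := ih (by omega) hv
      have e : m - j = (m - (j + 1)) + 1 := by omega
      rw [e, St.mem_Nk_succ] at h1
      exact h1 t
  have h2 := key m le_rfl
  rw [Nat.sub_self] at h2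
  exact le_bot_iff.1 h2

/-- the block of `μ` -/
def Um (h : IsCover Φ P R Fs Gs U) (μ : K) : Submodule K U := h.tau.maxGenEigenspace μ

theorem Um_al {μ : K} (t : τ) {y : U} (hy : y ∈ Um h μ) : h.al t y ∈ Um h μ :=
  E_of_comm (fun y => h.al_tau t y) hy

theorem Um_tau {μ : K} {y : U} (hy : y ∈ Um h μ) : h.tau y ∈ Um h μ :=
  E_of_comm (fun _ => rfl) hy

theorem iSup_Um [IsAlgClosed K] [FiniteDimensional K U] : ⨆ μ, Um h μ = ⊤ :=
  Module.End.iSup_maxGenEigenspace_eq_top h.tau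

/-- the blocks are perfect -/
theorem Um_perfect' [Fintype τ] {μ : K} {y : U} (hy : y ∈ Um h μ) :
    ∃ f : τ → U, (∀ t, f t ∈ Um h μ) ∧ y = ∑ t, h.al t (f t) := by
  have := h.fin
  obtain ⟨f, hf⟩ := h.perfect y
  choose a ha b hb hab using fun t => split h.tau μ (f t)
  refine ⟨a, ha, ?_⟩
  have e : y - ∑ t, h.al t (a t) = ∑ t, h.al t (b t) := by
    rw [hf, ← Finset.sum_sub_distrib]
    refine Finset.sum_congr rfl fun t _ => ?_
    rw [← map_sub, ← hab t, add_sub_cancel_left]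
  have h1 : y - ∑ t, h.al t (a t) ∈ h.tau.maxGenEigenspace μ :=
    Submodule.sub_mem _ hy (Submodule.sum_mem _ fun t _ => Um_al h t (ha t))
  have h2 : y - ∑ t, h.al t (a t) ∈ Rg h.tau μ := by
    rw [e]
    exact Submodule.sum_mem _ fun t _ => Rg_of_comm (fun y => h.al_tau t y) (hb t)
  exact sub_eq_zero.1 (disj h1 h2)

theorem Um_perfect [Fintype τ] {μ : K} : Um h μ ≤ ⨆ t, (Um h μ).map (h.al t) := by
  intro y hy
  obtain ⟨f, hf, e⟩ := Um_perfect' h hy
  rw [e]
  exact Submodule.sum_mem _ fun t _ => Submodule.mem_iSup_of_mem t ⟨f t, hf t, rfl⟩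

include c in
theorem rU_Um {μ : K} {y : U} (hy : y ∈ Um h μ) : rU h ρ y ∈ D.maxGenEigenspace μ :=
  map_E (rU_tau h c) hy

include c in
/-- the block maps onto the block of the core -/
theorem rU_Um_onto [FiniteDimensional K M] {μ : K} {m : M} (hm : m ∈ D.maxGenEigenspace μ) :
    ∃ y ∈ Um h μ, rU h ρ y = m := by
  have := h.fin
  obtain ⟨y, hy⟩ := rU_onto h c m
  obtain ⟨a, ha, b, hb, hab⟩ := split h.tau μ y
  refine ⟨a, ha, ?_⟩
  have e : m - rU h ρ a = rU h ρ b := by rw [← hy, ← hab, map_add, add_sub_cancel_left]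
  have h1 : m - rU h ρ a ∈ D.maxGenEigenspace μ :=
    Submodule.sub_mem _ hm (rU_Um h c ha)
  have h2 : m - rU h ρ a ∈ Rg D μ := by
    rw [e]
    exact map_Rg (rU_tau h c) hb
  exact (sub_eq_zero.1 (disj h1 h2)).symm

include c in
/-- only eigenvalues of `D` occur -/
theorem Um_eq_bot [Fintype τ] {m : ℕ} (hN : R ≤ St.Nk Φ m) {μ : K}
    (hμ : D.maxGenEigenspace μ = ⊥) : Um h μ = ⊥ := by
  refine perf_zero h hN (fun y hy => ?_) (Um_perfect h)
  rw [← rU_eq_zero h c]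
  have h1 := rU_Um h c hy
  rw [hμ] at h1
  exact (Submodule.mem_bot K).1 h1

include c in
/-- if `D = μ` on the block of the core then `tau = μ` on the block of the cover -/
theorem tau_eq [Fintype τ] {m : ℕ} (hN : R ≤ St.Nk Φ m) {μ : K}
    (hμ : ∀ x ∈ D.maxGenEigenspace μ, D x = μ • x) {y : U} (hy : y ∈ Um h μ) :
    h.tau y = μ • y := by
  have hS : (Um h μ).map (h.tau - μ • (1 : End K U)) = ⊥ := by
    refine perf_zero h hN ?_ ?_
    · rintro _ ⟨y, hy, rfl⟩
      rw [← rU_eq_zero h c]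
      simp only [LinearMap.sub_apply, LinearMap.smul_apply, Module.End.one_apply, map_sub, map_smul]
      rw [rU_tau h c, hμ _ (rU_Um h c hy), sub_self]
    · rintro _ ⟨y, hy, rfl⟩
      obtain ⟨f, hf, e⟩ := Um_perfect' h hy
      have e2 : (h.tau - μ • (1 : End K U)) y
          = ∑ t, h.al t ((h.tau - μ • (1 : End K U)) (f t)) := by
        rw [e, map_sum]
        refine Finset.sum_congr rfl fun t _ => ?_
        simp only [LinearMap.sub_apply, LinearMap.smul_apply, Module.End.one_apply, map_sub,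
          map_smul, h.al_tau]
      rw [e2]
      exact Submodule.sum_mem _ fun t _ =>
        Submodule.mem_iSup_of_mem t ⟨_, ⟨f t, hf t, rfl⟩, rfl⟩
  have h1 : (h.tau - μ • (1 : End K U)) y ∈ (Um h μ).map (h.tau - μ • (1 : End K U)) :=
    ⟨y, hy, rfl⟩
  rw [hS] at h1
  have h2 := (Submodule.mem_bot K).1 h1
  simp only [LinearMap.sub_apply, LinearMap.smul_apply, Module.End.one_apply] at h2
  exact sub_eq_zero.1 h2

/-- the operators on the block -/
def alU (h : IsCover Φ P R Fs Gs U) (μ : K) (t : τ) : End K (Um h μ) :=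
  (h.al t).restrict fun _ hy => Um_al h t hy

/-- `D` on the block -/
def tauU (h : IsCover Φ P R Fs Gs U) (μ : K) : End K (Um h μ) :=
  h.tau.restrict fun _ hy => Um_tau h hy

@[simp] theorem alU_coe {μ : K} (t : τ) (y : Um h μ) :
    ((alU h μ t y : Um h μ) : U) = h.al t y := rfl

@[simp] theorem tauU_coe {μ : K} (y : Um h μ) : ((tauU h μ y : Um h μ) : U) = h.tau y := rfl

theorem alU_tauU {μ : K} (t : τ) (y : Um h μ) :
    alU h μ t (tauU h μ y) = tauU h μ (alU h μ t y) := rfl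

theorem alU_pow {μ : K} (t : τ) (j : ℕ) (y : Um h μ) :
    (((alU h μ t ^ j) y : Um h μ) : U) = (h.al t ^ j) y := by
  induction j generalizing y with
  | zero => simp
  | succ j ih => rw [pow_succ, Module.End.mul_apply, ih, pow_succ, Module.End.mul_apply, alU_coe]

theorem alU_words {μ : K} (w : List τ) (y : Um h μ) :
    (((w.map (alU h μ)).prod y : Um h μ) : U) = (w.map h.al).prod y := by
  induction w with
  | nil => simp
  | cons t w ih =>
    rw [List.map_cons, List.prod_cons, List.map_cons, List.prod_cons, Module.End.mul_apply,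
      Module.End.mul_apply, alU_coe, ih]

theorem alU_sum [Fintype τ] (hsum : ∀ v, ∑ t, Φ t v = 0) (μ : K) : ∑ t, alU h μ t = 0 := by
  apply LinearMap.ext
  intro y
  apply Subtype.ext
  rw [LinearMap.sum_apply, AddSubmonoidClass.coe_finsetSum]
  exact h.sum_al hsum y

theorem alU_range [Fintype τ] (μ : K) : ⨆ t, range (alU h μ t) = ⊤ := by
  rw [eq_top_iff]
  intro y _
  obtain ⟨f, hf, e⟩ := Um_perfect' h y.2
  have e2 : y = ∑ t, alU h μ t ⟨f t, hf t⟩ := by
    apply Subtype.ext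
    rw [AddSubmonoidClass.coe_finsetSum]
    exact e
  rw [e2]
  exact Submodule.sum_mem _ fun t _ => Submodule.mem_iSup_of_mem t ⟨_, rfl⟩

/-- the radical of the block -/
def RU (h : IsCover Φ P R Fs Gs U) (μ : K) : Submodule K (Um h μ) := h.Rt.comap (Um h μ).subtype

theorem mem_RU {μ : K} {y : Um h μ} : y ∈ RU h μ ↔ h.pi (y : U) ∈ R := Iff.rfl

theorem RU_al {μ : K} (hRP : ∀ t, ∀ r ∈ R, Φ t r ∈ R) (t : τ) {y : Um h μ} (hy : y ∈ RU h μ) :
    alU h μ t y ∈ RU h μ := hRP t _ hy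

theorem RU_tau {μ : K} {y : Um h μ} (hy : y ∈ RU h μ) : tauU h μ y ∈ RU h μ :=
  h.Rt_tau hy

theorem RU_words {μ : K} {m : ℕ}
    (hN : ∀ w : List τ, w.length = m → ∀ r ∈ R, (w.map Φ).prod r = 0)
    (w : List τ) (hw : w.length = m) {y : Um h μ} (hy : y ∈ RU h μ) :
    (w.map (alU h μ)).prod y = 0 := by
  apply Subtype.ext
  rw [alU_words]
  exact h.words_kill hN w hw hy

theorem RU_Nk {μ : K} {m : ℕ} (hN : R ≤ St.Nk Φ m) :
    RU h μ ≤ St.Nk (K := K) (V := ↥(Um h μ)) (alU h μ) m := by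
  have key : ∀ (m : ℕ) (y : Um h μ), (y : U) ∈ St.Nk h.al m → y ∈ St.Nk (alU h μ) m := by
    intro m
    induction m with
    | zero =>
      intro y hy
      rw [St.mem_Nk_zero] at hy ⊢
      exact Subtype.ext hy
    | succ m ih =>
      intro y hy
      rw [St.mem_Nk_succ] at hy ⊢
      exact fun t => ih _ (hy t)
  intro y hy
  exact key m y (Rt_Nk h hN hy)

/-- **the block data**: everything needed for `Dual1`, `RJ1`, `Span2` -/
theorem gen_block [FiniteDimensional K M] {Φ : Fin 3 → End K V} {Ψ : Fin 3 → End K M}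
    (h : IsCover Φ P R Fs Gs U) (c : OnCore Φ P R Fs Gs ρ Ψ D) (hsum : ∀ v, ∑ t, Φ t v = 0)
    {m : ℕ} (hN : R ≤ St.Nk Φ m) {μ : K}
    (hst : ∀ t, ∀ x ∈ D.maxGenEigenspace μ, Ψ t x ∈ D.maxGenEigenspace μ)
    (hker : ∀ x ∈ D.maxGenEigenspace μ, (∀ s, Ψ s x = 0) → x = 0)
    (l : Fin 3 → ℕ) (hl1 : ∀ s, 1 ≤ l s)
    (hl : ∀ s, ∀ x ∈ D.maxGenEigenspace μ, (Ψ s ^ l s) x = 0)
    (hfree : ∀ s, l s * finrank K ↥(ker (Ψ s) ⊓ D.maxGenEigenspace μ)
      = finrank K (D.maxGenEigenspace μ))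
    (hq : ∑ s, (1 - 1 / (l s : ℚ)) = 2) :
    (∀ s y, (alU h μ s ^ l s) y ∈ RU h μ) ∧
    ∀ S : Submodule K (Um h μ), (∀ s, ∀ v ∈ S, alU h μ s v ∈ S) →
      (∀ s y, (alU h μ s ^ l s) y ∈ S) → RU h μ ≤ S := by
  have := h.fin
  set Mμ := D.maxGenEigenspace μ with hMμ
  let Ψμ : Fin 3 → End K Mμ := fun t => (Ψ t).restrict (hst t)
  let π : Um h μ →ₗ[K] Mμ := ((rU h ρ) ∘ₗ (Um h μ).subtype).codRestrict Mμ
    fun y => rU_Um h c y.2
  have hπc : ∀ y : Um h μ, ((π y : Mμ) : M) = rU h ρ y := fun _ => rfl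
  have hπ : ∀ s y, π (alU h μ s y) = Ψμ s (π y) := by
    intro s y
    apply Subtype.ext
    change rU h ρ (h.al s y) = Ψ s (rU h ρ y)
    exact rU_al h c s y
  have hr : range π = ⊤ := by
    rw [eq_top_iff]
    intro x _
    obtain ⟨y, hy, e⟩ := rU_Um_onto h c x.2
    exact ⟨⟨y, hy⟩, Subtype.ext e⟩
  have hkerπ : ker π = RU h μ := by
    ext y
    rw [LinearMap.mem_ker, mem_RU, ← h.mem_Rt, ← rU_eq_zero h c, ← hπc]
    exact ⟨fun e => by rw [e]; rfl, fun e => Subtype.ext e⟩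
  have hΨpow : ∀ s j (x : Mμ), (((Ψμ s ^ j) x : Mμ) : M) = (Ψ s ^ j) x := by
    intro s j
    induction j with
    | zero => intro x; simp
    | succ j ih =>
      intro x
      rw [pow_succ, Module.End.mul_apply, ih, pow_succ, Module.End.mul_apply]
      rfl
  have hl' : ∀ s, Ψμ s ^ l s = 0 := by
    intro s
    apply LinearMap.ext
    intro x
    apply Subtype.ext
    rw [hΨpow]
    exact hl s x x.2
  have hfree' : ∀ s, l s * finrank K (ker (Ψμ s)) = finrank K Mμ := by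
    intro s
    rw [← hfree s]
    congr 1
    have e : (ker (Ψμ s)).map Mμ.subtype = ker (Ψ s) ⊓ Mμ := by
      ext x
      constructor
      · rintro ⟨y, hy, rfl⟩
        exact ⟨congrArg Subtype.val hy, y.2⟩
      · rintro ⟨h1, h2⟩
        exact ⟨⟨x, h2⟩, Subtype.ext h1, rfl⟩
    rw [← e]
    exact (LinearEquiv.finrank_eq (Submodule.equivMapOfInjective _
      (Submodule.injective_subtype Mμ) (ker (Ψμ s))))
  refine ⟨fun s y => ?_, fun S hS hSl => ?_⟩
  · have h1 := RG.pi_pow (P := ↥(Um h μ)) (M := ↥Mμ) (alU h μ) Ψμ π hπ s (l s) y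
    have h2 : (Ψμ s ^ l s) (π y) = 0 := by rw [hl' s]; rfl
    have h3 : π ((alU h μ s ^ l s) y) = 0 := h1.trans h2
    rw [← hkerπ]
    exact h3
  · rw [← hkerπ]
    have hk1 : ker π ≤ St.Nk (K := K) (V := ↥(Um h μ)) (alU h μ) m := by
      rw [hkerπ]
      exact RU_Nk h hN
    have hk2 : ∀ x : Mμ, (∀ s, Ψμ s x = 0) → x = 0 := by
      intro x hx
      apply Subtype.ext
      exact hker x x.2 fun s => congrArg Subtype.val (hx s)
    exact RG.gen (P := ↥(Um h μ)) (M := ↥Mμ) (alU h μ) Ψμ π hπ hr (alU_sum h hsum μ)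
      (alU_range h μ) (k := m) hk1 hk2 l hl1 hl' hfree' hq S hS hSl

end blocks

end Crest.Agent.R172.Cov2
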