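import Crest.Agent.R172.DerG
import Crest.Agent.R172.Slack1

/-!
Row 172 (S0260), TAME, arbitrary radical and arbitrary `D`: the inputs of the perfect cover
(notes 16086 (1), 16141 (1)).

`Pen B Fs Gs f g`: the pencil `Fs = Fᵀ J`, `Gs = Gᵀ J`, `f_r = F E_r B`, `g_r = G E_r B`;
`Φ_r = f_r Fs`, `Ψ_r = f_r Gs`; the relation `Gs x = Fs y` ("`y = D x`") is `Φ`-stable.
-/

set_option autoImplicit false
set_option linter.unusedSectionVars false

namespace Crest.Agent.R172.CovI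

open Module LinearMap
open Crest.Agent.R172.St Crest.Agent.R172.Core

variable {K : Type*} [Field K] {V : Type*} [AddCommGroup V] [Module K V]
variable {U : Type*} [AddCommGroup U] [Module K U] {τ : Type*}

/-- the pencil identities -/
structure Pen (B : LinearMap.BilinForm K V) (Fs Gs : V →ₗ[K] U) (f g : τ → U →ₗ[K] V) : Prop where
  ns : NS B
  fG : ∀ r v, f r (Gs v) = g r (Fs v)
  Fg : ∀ r v, Fs (g r (Fs v)) = Gs (f r (Fs v))
  sa : ∀ r u v, B (f r (Fs u)) v = B u (f r (Fs v))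
  saG : ∀ r u v, B (f r (Gs u)) v = B u (f r (Gs v))

/-- `Φ_r` -/
def Ph (Fs : V →ₗ[K] U) (f : τ → U →ₗ[K] V) (r : τ) : End K V := f r ∘ₗ Fs

/-- `Ψ_r` -/
def Ps (Gs : V →ₗ[K] U) (f : τ → U →ₗ[K] V) (r : τ) : End K V := f r ∘ₗ Gs

variable {B : LinearMap.BilinForm K V} {Fs Gs : V →ₗ[K] U} {f g : τ → U →ₗ[K] V}

theorem Ph_apply (r : τ) (v : V) : Ph Fs f r v = f r (Fs v) := rfl

theorem Ps_apply (r : τ) (v : V) : Ps Gs f r v = f r (Gs v) := rfl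

namespace Pen

variable (h : Pen B Fs Gs f g)
include h

theorem Ph_sa (r : τ) : Sa B (Ph Fs f r) := fun u v => h.sa r u v

theorem Ps_sa (r : τ) : Sa B (Ps Gs f r) := fun u v => h.saG r u v

/-- `Gs Φ_r = Fs Ψ_r` -/
theorem Gs_Ph (r : τ) (x : V) : Gs (Ph Fs f r x) = Fs (Ps Gs f r x) := by
  rw [Ph_apply, Ps_apply, ← h.Fg, h.fG]

/-- `Φ_r Ψ_s = Ψ_r Φ_s` -/
theorem Ph_Ps (r s : τ) (x : V) : Ph Fs f r (Ps Gs f s x) = Ps Gs f r (Ph Fs f s x) := by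
  rw [Ph_apply, ← h.Gs_Ph, Ps_apply]

/-- the relation gives `Ψ_r x = Φ_r y` -/
theorem rel_Ps {x y : V} (hxy : Gs x = Fs y) (r : τ) : Ps Gs f r x = Ph Fs f r y := by
  rw [Ph_apply, Ps_apply, hxy]

/-- the relation is `Φ`-stable -/
theorem rel_Ph {x y : V} (hxy : Gs x = Fs y) (r : τ) :
    Gs (Ph Fs f r x) = Fs (Ph Fs f r y) := by
  rw [h.Gs_Ph, h.rel_Ps hxy]

theorem Ps_Nk (k : ℕ) : ∀ (s : τ) (t : V), t ∈ Nk (Ph Fs f) k → Ps Gs f s t ∈ Nk (Ph Fs f) k := by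
  induction k with
  | zero =>
    intro s t ht
    rw [mem_Nk_zero] at ht ⊢
    rw [ht, map_zero]
  | succ k ih =>
    intro s t ht
    rw [mem_Nk_succ] at ht ⊢
    intro r
    rw [h.Ph_Ps]
    exact ih r _ (ht s)

theorem Ps_T (s : τ) {t : V} (ht : t ∈ T (Ph Fs f)) : Ps Gs f s t ∈ T (Ph Fs f) := by
  obtain ⟨k, hk⟩ := mem_T.1 ht
  exact mem_T.2 ⟨k, h.Ps_Nk k s t hk⟩

theorem Ps_Tp (s : τ) {v : V} (hv : v ∈ Tp B (Ph Fs f)) : Ps Gs f s v ∈ Tp B (Ph Fs f) :=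
  Tp_stable (h.Ps_sa s) (fun _ ht => h.Ps_T s ht) hv

theorem Ph_Tp (s : τ) {v : V} (hv : v ∈ Tp B (Ph Fs f)) : Ph Fs f s v ∈ Tp B (Ph Fs f) :=
  Tp_stable (h.Ph_sa s) (fun _ ht => T_stable s ht) hv

/-- the relation preserves `T` -/
theorem rel_T {x y : V} (hxy : Gs x = Fs y) (hx : x ∈ T (Ph Fs f)) : y ∈ T (Ph Fs f) := by
  obtain ⟨k, hk⟩ := mem_T.1 hx
  refine mem_T.2 ⟨k + 1, ?_⟩
  rw [mem_Nk_succ]
  intro r
  rw [← h.rel_Ps hxy]
  exact h.Ps_Nk k r x hk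

/-- `Fs s = 0` implies `s ⊥ P` -/
theorem ker_perp [FiniteDimensional K V] [Finite τ] {p s : V} (hp : p ∈ Tp B (Ph Fs f))
    (hs : Fs s = 0) : B p s = 0 := by
  have h1 : s ∈ T (Ph Fs f) := by
    refine mem_T.2 ⟨1, ?_⟩
    rw [mem_Nk_succ]
    intro r
    rw [mem_Nk_zero, Ph_apply, hs, map_zero]
  exact hp s h1

/-- `P` is perfect -/
theorem perfect [FiniteDimensional K V] [Finite τ] :
    Tp B (Ph Fs f) ≤ ⨆ r, (Tp B (Ph Fs f)).map (Ph Fs f r) := Tp_le_iSup h.ns h.Ph_sa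

/-- `P` is perfect, elements -/
theorem exists_div [FiniteDimensional K V] [Fintype τ] {p : V} (hp : p ∈ Tp B (Ph Fs f)) :
    ∃ q : τ → V, (∀ r, q r ∈ Tp B (Ph Fs f)) ∧ p = ∑ r, Ph Fs f r (q r) := by
  classical
  have h1 := h.perfect hp
  rw [Submodule.mem_iSup_iff_exists_finsupp] at h1
  obtain ⟨c, hc, hcp⟩ := h1
  choose q hq hqe using hc
  refine ⟨q, hq, ?_⟩
  rw [← hcp, Finsupp.sum_fintype _ _ (fun _ => rfl)]
  exact Finset.sum_congr rfl fun s _ => (hqe s).symm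

theorem Gs_div [Fintype τ] {p : V} {q : τ → V} (hq : p = ∑ r, Ph Fs f r (q r)) :
    Gs p = Fs (∑ r, Ps Gs f r (q r)) := by
  rw [hq, map_sum, map_sum]
  exact Finset.sum_congr rfl fun r _ => h.Gs_Ph r _

/-- the relation has a solution in `P` -/
theorem exists_rel [FiniteDimensional K V] [Fintype τ] {p : V} (hp : p ∈ Tp B (Ph Fs f)) :
    ∃ q ∈ Tp B (Ph Fs f), Gs p = Fs q := by
  obtain ⟨q, hq, hqe⟩ := h.exists_div hp
  exact ⟨_, Submodule.sum_mem _ fun r _ => h.Ps_Tp r (hq r), h.Gs_div hqe⟩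

/-- a LINEAR solution of the relation on `P` -/
theorem exists_sg [FiniteDimensional K V] [Fintype τ] :
    ∃ sg : ↥(Tp B (Ph Fs f)) →ₗ[K] ↥(Tp B (Ph Fs f)),
      ∀ p : ↥(Tp B (Ph Fs f)), Gs (p : V) = Fs (sg p : V) := by
  classical
  set P := Tp B (Ph Fs f) with hP
  let S : (τ → ↥P) →ₗ[K] ↥P := LinearMap.lsum K (fun _ => ↥P) K
    (fun r => (Ph Fs f r).restrict (p := P) (q := P) (fun v hv => h.Ph_Tp r hv))
  let S' : (τ → ↥P) →ₗ[K] ↥P := LinearMap.lsum K (fun _ => ↥P) K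
    (fun r => (Ps Gs f r).restrict (p := P) (q := P) (fun v hv => h.Ps_Tp r hv))
  have hS : ∀ q : τ → ↥P, ((S q : ↥P) : V) = ∑ r, Ph Fs f r (q r : V) := by
    intro q
    simp [S, LinearMap.lsum_apply, LinearMap.sum_apply]
  have hS' : ∀ q : τ → ↥P, ((S' q : ↥P) : V) = ∑ r, Ps Gs f r (q r : V) := by
    intro q
    simp [S', LinearMap.lsum_apply, LinearMap.sum_apply]
  have hsur : Function.Surjective S := by
    rintro ⟨p, hp⟩
    obtain ⟨q, hq, hqe⟩ := h.exists_div hp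
    refine ⟨fun r => ⟨q r, hq r⟩, Subtype.ext ?_⟩
    rw [hS]
    exact hqe.symm
  obtain ⟨s, hs⟩ := LinearMap.exists_rightInverse_of_surjective S (LinearMap.range_eq_top.2 hsur)
  refine ⟨S' ∘ₗ s, fun p => ?_⟩
  have h1 : S (s p) = p := LinearMap.congr_fun hs p
  have h2 : ((p : ↥P) : V) = ∑ r, Ph Fs f r ((s p) r : V) := by rw [← hS, h1]
  rw [LinearMap.comp_apply, hS']
  exact h.Gs_div h2

/-- the relation is self-adjoint on `P` -/
theorem rel_sa [FiniteDimensional K V] [Fintype τ] {p p' q q' : V} (hp : p ∈ Tp B (Ph Fs f))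
    (hp' : p' ∈ Tp B (Ph Fs f)) (h1 : Gs p = Fs q) (h2 : Gs p' = Fs q') :
    B q p' = B p q' := by
  obtain ⟨c, hc, hce⟩ := h.exists_div hp'
  have h3 := h.Gs_div hce
  have h4 : B p (q' - ∑ r, Ps Gs f r (c r)) = 0 :=
    h.ker_perp hp (by rw [map_sub, ← h2, ← h3, sub_self])
  rw [map_sub, sub_eq_zero] at h4
  rw [h4, hce, map_sum, map_sum]
  refine Finset.sum_congr rfl fun r _ => ?_
  rw [← h.Ph_sa r, ← h.rel_Ps h1, h.Ps_sa r]

end Pen

/-! ### the instance -/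

section inst

open Matrix Crest.Agent.R172.FO Crest.Agent.R172.DerG

variable {ι : Type*} [Fintype ι] [DecidableEq ι] {δ : Type*} [Fintype δ] [DecidableEq δ]
variable {k : Type*} [Field k] [Algebra k K]
variable {arm : δ → Fin 3} {J : Matrix ι ι K} {Bm : Matrix δ δ K}
  {N W : Submodule K (Matrix ι δ K)} {F G : Matrix ι δ K}

/-- `v ↦ Fᵀ J v` -/
noncomputable def st (J : Matrix ι ι K) (F : Matrix ι δ K) : (ι → K) →ₗ[K] (δ → K) :=
  Matrix.toLin' (Fᵀ * J)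

/-- `u ↦ F E_r B u` -/
noncomputable def lo (arm : δ → Fin 3) (Bm : Matrix δ δ K) (F : Matrix ι δ K) (r : Fin 3) :
    (δ → K) →ₗ[K] (ι → K) := Matrix.toLin' (F * E K arm r * Bm)

theorem lo_st (F F' : Matrix ι δ K) (r : Fin 3) :
    lo arm Bm F r ∘ₗ st J F' = Matrix.toLin' (M arm Bm r F F' * J) := by
  rw [lo, st, ← Matrix.toLin'_mul]
  congr 1
  unfold M
  simp only [Matrix.mul_assoc]

theorem lo_st_apply (F F' : Matrix ι δ K) (r : Fin 3) (v : ι → K) :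
    lo arm Bm F r (st J F' v) = (M arm Bm r F F' * J) *ᵥ v := by
  have := LinearMap.congr_fun (lo_st (arm := arm) (Bm := Bm) (J := J) F F' r) v
  exact this

theorem Ph_eq (F : Matrix ι δ K) : CovI.Ph (st J F) (lo arm Bm F) = DerG.Ph arm J Bm F := by
  funext r
  exact lo_st F F r

theorem BJ_ns (hJs : Jᵀ = J) (hJu : IsUnit J) : NS (BJ J) := by
  obtain ⟨Ji, hJi, hJi', _⟩ := FO.symm_inv hJs hJu
  refine ⟨fun v w => ?_, fun v hv => ?_⟩
  · rw [BJ_apply, BJ_apply, dotProduct_mulVec, ← mulVec_transpose, hJs, dotProduct_comm]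
  · have h1 : ∀ w : ι → K, v ⬝ᵥ w = 0 := by
      intro w
      have := hv (Ji *ᵥ w)
      rwa [BJ_apply, mulVec_mulVec, hJi, one_mulVec] at this
    funext i
    have := h1 (Pi.single i 1)
    rwa [dotProduct_single_one] at this

theorem BJ_sa (hJs : Jᵀ = J) {S : Matrix ι ι K} (hS : Sᵀ = S) (u v : ι → K) :
    BJ J ((S * J) *ᵥ u) v = BJ J u ((S * J) *ᵥ v) := by
  rw [BJ_apply, BJ_apply, mulVec_mulVec, ← Matrix.mul_assoc]
  have h1 : ((S * J) *ᵥ u) ⬝ᵥ (J *ᵥ v) = u ⬝ᵥ (((S * J)ᵀ * J) *ᵥ v) := by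
    rw [← mulVec_mulVec v, dotProduct_mulVec u, vecMul_transpose]
  rw [h1, transpose_mul, hJs, hS]

/-- **the pencil of `F, G ∈ 𝒦`** -/
theorem pen (hD : FO.Data k arm J Bm N W) (hF : F ∈ N ⊓ W) (hG : G ∈ N ⊓ W) :
    Pen (BJ J) (st J F) (st J G) (lo arm Bm F) (lo arm Bm G) where
  ns := BJ_ns hD.J_symm hD.J_unit
  fG := by
    intro r v
    rw [lo_st_apply, lo_st_apply, hD.symm_arm hF hG r]
  Fg := by
    intro r v
    have h1 : ∀ (A : Matrix ι δ K) (x : ι → K), st J A x = (Aᵀ * J) *ᵥ x := fun _ _ => rfl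
    rw [lo_st_apply, lo_st_apply, h1, h1, mulVec_mulVec, mulVec_mulVec]
    congr 1
    unfold M
    have h2 := hD.symm_U hF hG
    calc Fᵀ * J * (G * E K arm r * Bm * Fᵀ * J)
        = (Fᵀ * J * G) * (E K arm r * Bm * Fᵀ * J) := by simp only [Matrix.mul_assoc]
      _ = (Gᵀ * J * F) * (E K arm r * Bm * Fᵀ * J) := by rw [h2]
      _ = Gᵀ * J * (F * E K arm r * Bm * Fᵀ * J) := by simp only [Matrix.mul_assoc]
  sa := by
    intro r u v
    rw [lo_st_apply, lo_st_apply]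
    refine BJ_sa hD.J_symm ?_ u v
    exact Slack.M_transpose hD F F r
  saG := by
    intro r u v
    rw [lo_st_apply, lo_st_apply]
    refine BJ_sa hD.J_symm ?_ u v
    rw [Slack.M_transpose hD F G r, hD.symm_arm hF hG r]

/-- `∑ Φ_r = 0` -/
theorem sum_Ph (hD : FO.Data k arm J Bm N W) (hF : F ∈ N ⊓ W) :
    ∑ r, CovI.Ph (st J F) (lo arm Bm F) r = 0 := by
  rw [Ph_eq]
  have h1 : ∑ r, M arm Bm r F F = 0 := by
    rw [sum_M]
    exact hD.W_iso F hF.2 F hF.2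
  have h2 : ∑ r, DerG.Ph arm J Bm F r = Matrix.toLin' ((∑ r, M arm Bm r F F) * J) := by
    rw [Matrix.sum_mul, map_sum]
    rfl
  rw [h2, h1, Matrix.zero_mul, map_zero]

end inst

end Crest.Agent.R172.CovI
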