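import Crest.Agent.R172.Cov2
import Crest.Agent.R172.CovI
import Crest.Agent.R172.CoreP3

/-!
Row 172, TAME (T0): the cover of the core, instance: `Pen` (`CovI`), `St.Core`, `TameAt` (`Fin2`).
-/

set_option autoImplicit false
set_option linter.unusedSectionVars false

namespace Crest.Agent.R172.Cov3

open Module LinearMap
open Crest.Agent.R172.St Crest.Agent.R172.Core Crest.Agent.R172.Cov Crest.Agent.R172.Cov2
open Crest.Agent.R172.CP

section abs

variable {K : Type*} [Field K] {V : Type*} [AddCommGroup V] [Module K V]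
variable {L : Type*} [AddCommGroup L] [Module K L] {ι : Type*}
variable {B : LinearMap.BilinForm K V} {Fs Gs : V →ₗ[K] L} {f g : ι → L →ₗ[K] V}

/-- the radical of the perfect part -/
def Rd (B : LinearMap.BilinForm K V) (Φ : ι → End K V) : Submodule K V := Tp B Φ ⊓ T Φ

theorem exists_Nk [FiniteDimensional K V] (B : LinearMap.BilinForm K V) (Φ : ι → End K V) :
    ∃ m, Rd B Φ ≤ Nk Φ m := by
  obtain ⟨m, hm⟩ := T_eq_Nk Φ
  exact ⟨m, by rw [← hm]; exact inf_le_right⟩

/-- `OnCore` from the pencil -/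
theorem onCore [Finite ι] (h : CovI.Pen B Fs Gs f g) (C : St.Core B (CovI.Ph Fs f))
    {D : End K C.M}
    (hrel : ∀ s v, cp C (CovI.Ps Gs f s) v = cp C (CovI.Ph Fs f s) (D v)) :
    OnCore (CovI.Ph Fs f) (Tp B (CovI.Ph Fs f)) (Rd B (CovI.Ph Fs f)) Fs Gs (pM C)
      (fun s => cp C (CovI.Ph Fs f s)) D where
  ker_iff := by
    intro p hp
    rw [pM_eq_zero C hp]
    exact ⟨fun h1 => ⟨hp, h1⟩, fun h1 => h1.2⟩
  onto := fun m => ⟨m, C.le _ m.2, pM_self C m⟩
  comm := fun t p hp => pM_Φ h.Ph_sa C t hp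
  rel := by
    intro p hp q hq hpq
    rw [← sub_eq_zero]
    apply cp_ker h.Ph_sa C
    intro s
    have h1 : pM C (CovI.Ph Fs f s q) = cp C (CovI.Ph Fs f s) (pM C q) := pM_Φ h.Ph_sa C s hq
    have hps : Pres B (CovI.Ph Fs f) (CovI.Ps Gs f s) :=
      ⟨fun t ht => h.Ps_T s ht, fun t ht => h.Ps_Tp s ht⟩
    have h2 : pM C (CovI.Ps Gs f s p) = cp C (CovI.Ps Gs f s) (pM C p) := pM_pres hps C hp
    rw [map_sub, ← h1, ← hrel, ← h2, h.rel_Ps hpq s, sub_self]

/-- **the cover of the core** -/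
theorem exists_cover_pen [FiniteDimensional K V] [Fintype ι] (h : CovI.Pen B Fs Gs f g)
    (C : St.Core B (CovI.Ph Fs f)) {D : End K C.M}
    (hrel : ∀ s v, cp C (CovI.Ps Gs f s) v = cp C (CovI.Ph Fs f s) (D v)) :
    ∃ U : Submodule K (ℕ → V), IsCover (CovI.Ph Fs f) (Tp B (CovI.Ph Fs f))
      (Rd B (CovI.Ph Fs f)) Fs Gs U :=
  exists_cover_core inf_le_left (onCore h C hrel) (fun t _ hp => h.Ph_Tp t hp) h.perfect
    (fun _ hp => h.exists_rel hp) (fun t _ _ _ _ hpq => h.rel_Ph hpq t)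

variable {U : Submodule K (ℕ → V)}

/-- the form of the cover is pulled back from the core -/
theorem form_rU (hB : NS B) {Φ : ι → End K V} (C : St.Core B Φ) {R : Submodule K V}
    (hU : IsCover Φ (Tp B Φ) R Fs Gs U) (y y' : U) :
    B (hU.pi y) (hU.pi y') = BM C (rU hU (pM C) y) (rU hU (pM C) y') :=
  form_eq hB.symm C (hU.pi_mem y) (hU.pi_mem y')

/-- different blocks are orthogonal -/
theorem orth_Um [FiniteDimensional K V] (hB : NS B) {Φ : ι → End K V} (C : St.Core B Φ)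
    {R : Submodule K V} (hU : IsCover Φ (Tp B Φ) R Fs Gs U) {Ψ : ι → End K C.M}
    {D : End K C.M} (c : OnCore Φ (Tp B Φ) R Fs Gs (pM C) Ψ D)
    (horth : ∀ nu mu, nu ≠ mu → ∀ m ∈ D.maxGenEigenspace nu, ∀ m' ∈ D.maxGenEigenspace mu,
      BM C m m' = 0) {nu mu : K} (hne : nu ≠ mu) {y y' : U} (hy : y ∈ Um hU nu)
    (hy' : y' ∈ Um hU mu) : B (hU.pi y) (hU.pi y') = 0 := by
  rw [form_rU hB C hU]
  exact horth nu mu hne _ (rU_Um hU c hy) _ (rU_Um hU c hy')

/-- the radical of the block = the radical of the form on the block -/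
theorem mem_RU_iff [FiniteDimensional K V] [Finite ι] (hB : NS B) {Φ : ι → End K V}
    (C : St.Core B Φ) {R : Submodule K V} (hU : IsCover Φ (Tp B Φ) R Fs Gs U)
    {Ψ : ι → End K C.M} {D : End K C.M} (c : OnCore Φ (Tp B Φ) R Fs Gs (pM C) Ψ D)
    (htop : ⨆ ν, D.maxGenEigenspace ν = ⊤)
    (horth : ∀ nu mu, nu ≠ mu → ∀ m ∈ D.maxGenEigenspace nu, ∀ m' ∈ D.maxGenEigenspace mu,
      BM C m m' = 0) {nu : K} {y : Um hU nu} :
    y ∈ RU hU nu ↔ ∀ y' : Um hU nu, B (hU.pi (y : U)) (hU.pi (y' : U)) = 0 := by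
  constructor
  · intro hy y'
    have h1 : rU hU (pM C) (y : U) = 0 := (rU_eq_zero hU c _).2 hy
    rw [form_rU hB C hU, h1, map_zero, LinearMap.zero_apply]
  · intro hy
    change (y : U) ∈ hU.Rt
    rw [← rU_eq_zero hU c]
    apply (NS_BM hB C).nd
    intro m
    have hm : m ∈ ⨆ ν, D.maxGenEigenspace ν := by rw [htop]; exact Submodule.mem_top
    refine Submodule.iSup_induction (fun ν => D.maxGenEigenspace ν)
      (motive := fun m => BM C (rU hU (pM C) (y : U)) m = 0) hm ?_ ?_ ?_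
    · intro mu x hx
      by_cases hne : nu = mu
      · subst hne
        obtain ⟨y', hy', rfl⟩ := rU_Um_onto hU c hx
        rw [← form_rU hB C hU]
        exact hy ⟨y', hy'⟩
      · exact horth nu mu hne _ (rU_Um hU c y.2) _ hx
    · rw [map_zero]
    · intro a b ha hb
      rw [map_add, ha, hb, add_zero]

/-- `al` and `tau` are self-adjoint for the form of the cover -/
theorem al_sa {Φ : ι → End K V} {P R : Submodule K V} (hU : IsCover Φ P R Fs Gs U)
    (hsa : ∀ s, Sa B (Φ s)) (t : ι) (y y' : U) :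
    B (hU.pi (hU.al t y)) (hU.pi y') = B (hU.pi y) (hU.pi (hU.al t y')) := hsa t _ _

theorem tau_sa [FiniteDimensional K V] [Fintype ι] (h : CovI.Pen B Fs Gs f g)
    {R : Submodule K V} (hU : IsCover (CovI.Ph Fs f) (Tp B (CovI.Ph Fs f)) R Fs Gs U)
    (y y' : U) : B (hU.pi (hU.tau y)) (hU.pi y') = B (hU.pi y) (hU.pi (hU.tau y')) :=
  h.rel_sa (hU.pi_mem y) (hU.pi_mem y') (hU.rel_pi y) (hU.rel_pi y')

end abs

section block

variable {K : Type*} [Field K] {V : Type*} [AddCommGroup V] [Module K V]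
variable {L : Type*} [AddCommGroup L] [Module K L]
variable {B : LinearMap.BilinForm K V} {Fs Gs : V →ₗ[K] L} {Φ : Fin 3 → End K V}
variable {U : Submodule K (ℕ → V)}

/-- **all block data of the cover** in the form of `RJ.main`, `Span2.main`, `Dual.span_exact` -/
theorem block [FiniteDimensional K V] (hB : NS B) (hsa : ∀ s, Sa B (Φ s)) (C : St.Core B Φ)
    {D : End K C.M} (hsum : ∀ v, ∑ s, Φ s v = 0)
    (hU : IsCover Φ (Tp B Φ) (Rd B Φ) Fs Gs U)
    (c : OnCore Φ (Tp B Φ) (Rd B Φ) Fs Gs (pM C) (fun s => cp C (Φ s)) D) {l : Fin 3 → ℕ}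
    (hn : Nums C D l) (nu : K) :
    (∀ s y, (alU hU nu s ^ l s) y ∈ RU hU nu) ∧
    (∀ S : Submodule K (Um hU nu), (∀ s, ∀ v ∈ S, alU hU nu s v ∈ S) →
      (∀ s y, (alU hU nu s ^ l s) y ∈ S) → RU hU nu ≤ S) := by
  obtain ⟨m, hm⟩ := exists_Nk B Φ
  exact gen_block hU c hsum hm (fun t => hn.stable nu t)
    (fun x _ hx => cp_ker hsa C x hx) l hn.one_le (fun s => hn.nil nu s)
    (fun s => hn.free nu s) hn.sum

theorem words_le {R : Submodule K V} {m : ℕ} (hN : R ≤ Nk Φ m) (w : List (Fin 3))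
    (hw : w.length = m) {r : V} (hr : r ∈ R) : (w.map Φ).prod r = 0 := by
  have key : ∀ (m : ℕ) (w : List (Fin 3)), w.length = m → ∀ r ∈ Nk Φ m, (w.reverse.map Φ).prod r = 0 := by
    intro m
    induction m with
    | zero =>
      intro w hw r hr
      rw [mem_Nk_zero] at hr
      rw [hr, map_zero]
    | succ m ih =>
      intro w hw r hr
      cases w with
      | nil => simp at hw
      | cons t w =>
        rw [List.reverse_cons, List.map_append, List.prod_append, Module.End.mul_apply]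
        simp only [List.map_cons, List.map_nil, List.prod_cons, List.prod_nil, mul_one]
        rw [mem_Nk_succ] at hr
        exact ih w (by simpa using hw) _ (hr t)
  have h1 := key m w.reverse (by simpa using hw) r (hN hr)
  rwa [List.reverse_reverse] at h1

end block

end Crest.Agent.R172.Cov3
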