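import Crest.Agent.R172.Cov3

/-!
Row 172, TAME (T0): the cover for `FO.Data`, `St.Core`, `TameAt` (`Fin2`).
-/

set_option autoImplicit false
set_option linter.unusedSectionVars false
set_option maxHeartbeats 400000

namespace Crest.Agent.R172.Cov4

open Module Matrix Crest.AlgebraR.SpinSaturation Crest.Agent.R172.SoGrade Crest.Agent.R172.CF
open Crest.Agent.R172.Gen (Jm Ix emb Ent ent)
open Crest.Agent.R172.ThX Crest.Agent.R172.CSys
open Crest.Agent.R172.Core (NS cp BM)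
open Crest.Agent.R172.St (T Tp Nk Sa)
open Crest.Agent.R172.Cov Crest.Agent.R172.Cov2 Crest.Agent.R172.Cov3
open Crest.Agent.R172.CP (pM Nums)
open Crest.Agent.R172.N5 (Ph)

section abs

variable {K : Type*} [Field K] {V : Type*} [AddCommGroup V] [Module K V]
variable {L : Type*} [AddCommGroup L] [Module K L] {ι : Type*}
variable {B : LinearMap.BilinForm K V} {Fs Gs : V →ₗ[K] L} {f g : ι → L →ₗ[K] V}

theorem cover_gen [FiniteDimensional K V] [Fintype ι] {Φ Θ : ι → Module.End K V}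
    (h : CovI.Pen B Fs Gs f g) (hΦ : Φ = CovI.Ph Fs f) (hΘ : Θ = CovI.Ps Gs f)
    (C : St.Core B Φ) {D : Module.End K C.M}
    (hrel : ∀ s v, cp C (Θ s) v = cp C (Φ s) (D v)) :
    OnCore Φ (Tp B Φ) (Rd B Φ) Fs Gs (pM C) (fun s => cp C (Φ s)) D ∧
    (∃ U : Submodule K (ℕ → V), IsCover Φ (Tp B Φ) (Rd B Φ) Fs Gs U) ∧
    ∀ {R : Submodule K V} {U : Submodule K (ℕ → V)} (hU : IsCover Φ (Tp B Φ) R Fs Gs U)
      (y y' : U), B (hU.pi (hU.tau y)) (hU.pi y') = B (hU.pi y) (hU.pi (hU.tau y')) := by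
  subst hΦ hΘ
  exact ⟨onCore h C hrel, exists_cover_pen h C hrel, fun hU y y' => tau_sa h hU y y'⟩

end abs

variable {n : ℕ} {a : Fin 3 → Fin n → ℤ} {c : Cfg n a} {K : Type} [Field K] [Algebra ℂ K]
variable {N W : Submodule K (Matrix (Ix n) c.δ K)} {F G : Matrix (Ix n) c.δ K}

/-- `v ↦ Fᵀ J v` -/
noncomputable abbrev Fs (F : Matrix (Ix n) c.δ K) : (Ix n → K) →ₗ[K] (c.δ → K) :=
  CovI.st (Jm n K) F

theorem pen_cfg (hD : FO.Data ℂ c.arm (Jm n K) (c.B K) N W) (hF : F ∈ N ⊓ W) (hG : G ∈ N ⊓ W) :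
    CovI.Pen (BV n K) (Fs F) (Fs G) (CovI.lo c.arm (c.B K) F) (CovI.lo c.arm (c.B K) G) := by
  rw [BV_eq]
  exact CovI.pen hD hF hG

theorem Ph_cfg (F : Matrix (Ix n) c.δ K) :
    Ph F = CovI.Ph (Fs F) (CovI.lo c.arm (c.B K) F) := by
  rw [CovI.Ph_eq]
  exact MM_eq F

theorem Ps_cfg (F G : Matrix (Ix n) c.δ K) :
    MM (pU c K) (adjU c K) (Matrix.toLin' F) (Matrix.toLin' G)
      = CovI.Ps (Fs G) (CovI.lo c.arm (c.B K) F) := by
  funext s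
  refine LinearMap.ext fun v => ?_
  rw [MM_toLin]
  exact (CovI.lo_st_apply F G s v).symm

theorem Ph_sa_cfg (hD : FO.Data ℂ c.arm (Jm n K) (c.B K) N W) (hF : F ∈ N ⊓ W) (s : Fin 3) :
    Sa (BV n K) (Ph F s) := by
  rw [Ph_cfg]
  exact (pen_cfg hD hF hF).Ph_sa s

theorem Ph_sum_cfg (hD : FO.Data ℂ c.arm (Jm n K) (c.B K) N W) (hF : F ∈ N ⊓ W)
    (v : Ix n → K) : ∑ s, Ph F s v = 0 := by
  have h1 := CovI.sum_Ph hD hF
  rw [← Ph_cfg] at h1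
  have h2 := congrArg (fun f : Module.End K (Ix n → K) => f v) h1
  simpa [LinearMap.sum_apply] using h2

/-- **the cover at a tame core** -/
theorem exists_cover_tame [IsAlgClosed K] (hD : FO.Data ℂ c.arm (Jm n K) (c.B K) N W)
    (hF : F ∈ N ⊓ W) (hG : G ∈ N ⊓ W) (C : St.Core (BV n K) (Ph F)) {τ : Module.End K C.M}
    (hT : TameAt F G C τ) :
    ∃ l : Fin 3 → ℕ, Nums C τ l ∧
    OnCore (Ph F) (Tp (BV n K) (Ph F)) (Rd (BV n K) (Ph F)) (Fs F) (Fs G) (pM C)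
      (fun s => cp C (Ph F s)) τ ∧
    ∃ (U : Submodule K (ℕ → (Ix n → K)))
      (hU : IsCover (Ph F) (Tp (BV n K) (Ph F)) (Rd (BV n K) (Ph F)) (Fs F) (Fs G) U),
      (∀ y y' : U, BV n K (hU.pi (hU.tau y)) (hU.pi y')
        = BV n K (hU.pi y) (hU.pi (hU.tau y'))) ∧
      ∀ nu : K, (∀ s y, (alU hU nu s ^ l s) y ∈ RU hU nu) ∧
        ∀ S : Submodule K (Um hU nu), (∀ s, ∀ v ∈ S, alU hU nu s v ∈ S) →
          (∀ s y, (alU hU nu s ^ l s) y ∈ S) → RU hU nu ≤ S := by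
  have hsa := Ph_sa_cfg hD hF
  obtain ⟨l, hn⟩ := CP.nums_of_tame BV_ns hsa C hT.sa hT.comm
    (Module.End.iSup_maxGenEigenspace_eq_top τ) hT.tame
  obtain ⟨hc, ⟨U, hU⟩, hta⟩ := cover_gen (pen_cfg hD hF hG) (Ph_cfg F) (Ps_cfg F G) C
    (D := τ) hT.rel
  exact ⟨l, hn, hc, U, hU, fun y y' => hta hU y y',
    fun nu => block BV_ns hsa C (Ph_sum_cfg hD hF) hU hc hn nu⟩

end Crest.Agent.R172.Cov4
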