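import Crest.Agent.R172.FO1

/-!
Row 172 (S0260), node FO: PERSISTENCE = step (0) of note 12992 (and Lemma 3 of 13002).
-/

set_option linter.unusedSectionVars false

namespace Crest.Agent.R172.FO

open Matrix

variable {ι : Type*} [Fintype ι] [DecidableEq ι] {δ : Type*} [Fintype δ] [DecidableEq δ]
variable {k K : Type*} [Field k] [Field K] [Algebra k K]
variable {arm : δ → Fin 3} {J : Matrix ι ι K} {B : Matrix δ δ K}
  {N W : Submodule K (Matrix ι δ K)}

lemma symm_inv {α : Type*} [Fintype α] [DecidableEq α] {B : Matrix α α K} (hB : Bᵀ = B)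
    (hu : IsUnit B) : ∃ Bi : Matrix α α K, B * Bi = 1 ∧ Bi * B = 1 ∧ Biᵀ = Bi := by
  obtain ⟨Bi, hBi⟩ := hu.exists_right_inv
  have hBi' : Bi * B = 1 := by
    rw [mul_eq_one_comm] at hBi; exact hBi
  refine ⟨Bi, hBi, hBi', ?_⟩
  have h : B * Biᵀ = 1 := by
    have := congrArg transpose hBi'
    rw [transpose_mul, transpose_one, hB] at this
    exact this
  calc Biᵀ = (Bi * B) * Biᵀ := by rw [hBi', Matrix.one_mul]
    _ = Bi := by rw [Matrix.mul_assoc, h, Matrix.mul_one]

/-- every matrix has a generalised inverse `F R F = F` -/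
lemma exists_gen_inv (F : Matrix ι δ K) : ∃ R : Matrix δ ι K, F * R * F = F := by
  obtain ⟨g, hg⟩ := LinearMap.exists_leftInverse_of_injective
    ((LinearMap.range (toLin' F)).subtype) (by simp)
  obtain ⟨h, hh⟩ := LinearMap.exists_rightInverse_of_surjective
    ((toLin' F).rangeRestrict) (by simp)
  refine ⟨LinearMap.toMatrix' (h ∘ₗ g), ?_⟩
  apply Matrix.toLin'.injective
  rw [toLin'_mul, toLin'_mul, toLin'_toMatrix']
  apply LinearMap.ext
  intro x
  simp only [LinearMap.comp_apply]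
  have h1 : g ((toLin' F) x) = (toLin' F).rangeRestrict x :=
    LinearMap.congr_fun hg ((toLin' F).rangeRestrict x)
  have h2 := LinearMap.congr_fun hh ((toLin' F).rangeRestrict x)
  rw [h1]
  have h3 := congrArg Subtype.val h2
  simpa using h3

/-- sum of the twisted commutators: the first order isotropy condition
`Σ_s (X_s M_s + M_s X_s^T) = 0`. -/
def Iso (arm : δ → Fin 3) (B : Matrix δ δ K) (X : Fin 3 → Matrix ι ι K) (F : Matrix ι δ K) :
    Prop :=
  act arm X F * B * Fᵀ + F * B * (act arm X F)ᵀ = 0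

/-- the element `ξ ∈ so(U)` with `F ξ^T = X F`. -/
theorem exists_xi (hBs : Bᵀ = B) (hBu : IsUnit B) (F P : Matrix ι δ K) (R : Matrix δ ι K)
    (hP : F * R * P = P) (hR : F * R * F = F) (hiso : P * B * Fᵀ + F * B * Pᵀ = 0) :
    ∃ ξ : Matrix δ δ K, ξᵀ * B + B * ξ = 0 ∧ F * ξᵀ = P := by
  obtain ⟨Bi, hBi, hBi', hBit⟩ := symm_inv hBs hBu
  -- C = Pᵀ, R' = Rᵀ
  set C : Matrix δ ι K := Pᵀ with hC
  have hCR : C * Rᵀ * Fᵀ = C := by
    rw [hC, Matrix.mul_assoc, ← transpose_mul, ← transpose_mul, hP]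
  have hFR : Fᵀ * Rᵀ * Fᵀ = Fᵀ := by
    rw [Matrix.mul_assoc, ← transpose_mul, ← transpose_mul, hR]
  have hiso1 : Cᵀ * B * Fᵀ + F * B * C = 0 := by
    rw [hC, transpose_transpose]; exact hiso
  refine ⟨C * Rᵀ - Bi * (R * Cᵀ * B) - Bi * (R * F * B * C * Rᵀ), ?_, ?_⟩
  · have e1 : B * (C * Rᵀ - Bi * (R * Cᵀ * B) - Bi * (R * F * B * C * Rᵀ))
        = B * C * Rᵀ - R * Cᵀ * B - R * F * B * C * Rᵀ := by
      rw [Matrix.mul_sub, Matrix.mul_sub, ← Matrix.mul_assoc B Bi, ← Matrix.mul_assoc B Bi, hBi,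
        Matrix.one_mul, Matrix.one_mul, Matrix.mul_assoc B]
    have e2 : (C * Rᵀ - Bi * (R * Cᵀ * B) - Bi * (R * F * B * C * Rᵀ))ᵀ * B
        = (B * (C * Rᵀ - Bi * (R * Cᵀ * B) - Bi * (R * F * B * C * Rᵀ)))ᵀ := by
      rw [transpose_mul B, hBs]
    rw [e2, e1]
    simp only [transpose_sub, transpose_mul, transpose_transpose, hBs]
    have e3 : R * (Cᵀ * (B * (Fᵀ * Rᵀ))) + R * (F * (B * (C * Rᵀ))) = 0 := by
      have : R * (Cᵀ * B * Fᵀ + F * B * C) * Rᵀ = 0 := by rw [hiso1]; simp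
      rw [Matrix.mul_add, Matrix.add_mul] at this
      simpa only [Matrix.mul_assoc] using this
    have e4 : R * (Cᵀ * (B * (Fᵀ * Rᵀ))) = - (R * (F * (B * (C * Rᵀ)))) :=
      eq_neg_of_add_eq_zero_left e3
    simp only [Matrix.mul_assoc, e4]
    abel
  · have e5 : (C * Rᵀ - Bi * (R * Cᵀ * B) - Bi * (R * F * B * C * Rᵀ)) * Fᵀ = C := by
      rw [Matrix.sub_mul, Matrix.sub_mul, hCR]
      have e6 : Bi * (R * Cᵀ * B) * Fᵀ + Bi * (R * F * B * C * Rᵀ) * Fᵀ = 0 := by
        calc Bi * (R * Cᵀ * B) * Fᵀ + Bi * (R * F * B * C * Rᵀ) * Fᵀ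
            = Bi * R * (Cᵀ * B * Fᵀ + F * B * (C * Rᵀ * Fᵀ)) := by
              rw [Matrix.mul_add]; simp only [Matrix.mul_assoc]
          _ = 0 := by rw [hCR, hiso1, Matrix.mul_zero]
      rw [sub_sub, e6, sub_zero]
    have e7 := congrArg transpose e5
    rw [transpose_mul, transpose_transpose] at e7
    rw [e7, hC, transpose_transpose]

/-- PERSISTENCE: if `X_s ∈ so(V)`, the columns of `XF` lie in `im F` (automatic if `F` is onto)
and `Σ_s [X_s, Φ_s] = 0`, then some derivation has `dF = XF`. Moreover `d` realises `(X,ξ)` for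
some `ξ ∈ so(U)` with `F ξᵀ = XF`. -/
theorem Data.persist (hD : Data k arm J B N W) {F : Matrix ι δ K} (hF : Generic k arm N W F)
    (X : Fin 3 → Matrix ι ι K) (hX : ∀ s, (X s)ᵀ * J + J * X s = 0)
    (R : Matrix δ ι K) (hR : F * R * F = F) (hXF : F * R * act arm X F = act arm X F)
    (hiso : Iso arm B X F) :
    ∃ (ξ : Matrix δ δ K) (d : Derivation k K K), ξᵀ * B + B * ξ = 0 ∧ F * ξᵀ = act arm X F ∧
      Realises arm N W X ξ d ∧ F.map d = act arm X F := by
  obtain ⟨ξ, hξ, hξF⟩ := exists_xi hD.B_symm hD.B_unit F (act arm X F) R hXF hR hiso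
  obtain ⟨d0, hd0⟩ := hD.dir X ξ hX hξ
  have h1 : F.map d0 - act arm X F ∈ N ⊓ W := by
    refine ⟨hd0.onN F hF.mem.1, ?_⟩
    have := hd0.onW F hF.mem.2
    rwa [hξF] at this
  obtain ⟨d1, hd1, hr⟩ := hF.vert _ h1
  have hsub : ∀ G : Matrix ι δ K, G.map (d0 - d1) = G.map d0 - G.map d1 := by
    intro G; ext i j; simp
  refine ⟨ξ, d0 - d1, hξ, hξF, ⟨?_, ?_⟩, ?_⟩
  · intro G hG
    have h2 := hd0.onN G hG
    have h3 := hr.onN G hG
    rw [act_zero, sub_zero] at h3
    rw [hsub]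
    have : G.map d0 - G.map d1 - act arm X G = (G.map d0 - act arm X G) - G.map d1 := by abel
    rw [this]
    exact N.sub_mem h2 h3
  · intro G hG
    have h2 := hd0.onW G hG
    have h3 := hr.onW G hG
    rw [transpose_zero, Matrix.mul_zero, sub_zero] at h3
    rw [hsub]
    have : G.map d0 - G.map d1 - G * ξᵀ = (G.map d0 - G * ξᵀ) - G.map d1 := by abel
    rw [this]
    exact W.sub_mem h2 h3
  · rw [hsub, hd1]
    abel

/-- derivative of `M_s(F,F)` when `dF = XF` -/
theorem Data.map_M (hD : Data k arm J B N W) (F : Matrix ι δ K)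
    (X : Fin 3 → Matrix ι ι K) (d : Derivation k K K) (hd : F.map d = act arm X F) (s : Fin 3) :
    (M arm B s F F).map d = X s * M arm B s F F + M arm B s F F * (X s)ᵀ := by
  unfold M
  rw [map_mul_der, map_mul_der, map_mul_der, hD.B_const, E_map_der, map_transpose_der, hd,
    Matrix.mul_zero, Matrix.mul_zero, add_zero, add_zero, act_mul_E]
  have h1 : F * E K arm s * B * (act arm X F)ᵀ = F * E K arm s * B * (X s * F)ᵀ := by
    have h2 : F * E K arm s * B * (act arm X F)ᵀ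
        = F * B * (act arm X F * E K arm s)ᵀ := by
      rw [transpose_mul, E_transpose]
      simp only [Matrix.mul_assoc]
      rw [← Matrix.mul_assoc (E K arm s) B, hD.B_arm, Matrix.mul_assoc]
    have h3 : F * E K arm s * B * (X s * F)ᵀ
        = F * B * (X s * F * E K arm s)ᵀ := by
      rw [transpose_mul _ (E K arm s), E_transpose]
      simp only [Matrix.mul_assoc]
      rw [← Matrix.mul_assoc (E K arm s) B, hD.B_arm, Matrix.mul_assoc]
    rw [h2, h3, act_mul_E]
  rw [h1, transpose_mul]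
  simp only [Matrix.mul_assoc]

theorem map_mulJ (hD : Data k arm J B N W) (A : Matrix ι ι K) (d : Derivation k K K) :
    (A * J).map d = A.map d * J := by
  rw [map_mul_der, hD.J_const, Matrix.mul_zero, add_zero]

/-- the operators `Φ_s = M_s J` -/
def Phi (arm : δ → Fin 3) (J : Matrix ι ι K) (B : Matrix δ δ K) (F : Matrix ι δ K) (s : Fin 3) :
    Matrix ι ι K := M arm B s F F * J

theorem Data.map_Phi (hD : Data k arm J B N W) (F : Matrix ι δ K)
    (X : Fin 3 → Matrix ι ι K) (hX : ∀ s, (X s)ᵀ * J + J * X s = 0)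
    (d : Derivation k K K) (hd : F.map d = act arm X F) (s : Fin 3) :
    (Phi arm J B F s).map d = X s * Phi arm J B F s - Phi arm J B F s * X s := by
  unfold Phi
  rw [map_mulJ hD, hD.map_M F X d hd, Matrix.add_mul]
  have : (X s)ᵀ * J = -(J * X s) := eq_neg_of_add_eq_zero_left (hX s)
  rw [Matrix.mul_assoc (M arm B s F F) (X s)ᵀ J, this, Matrix.mul_neg, ← sub_eq_add_neg]
  simp only [Matrix.mul_assoc]

/-- the isotropy condition in terms of the `Φ_s` -/
theorem Data.iso_iff (hD : Data k arm J B N W) (F : Matrix ι δ K)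
    (X : Fin 3 → Matrix ι ι K) (hX : ∀ s, (X s)ᵀ * J + J * X s = 0) :
    Iso arm B X F ↔
      ∑ s, (X s * Phi arm J B F s - Phi arm J B F s * X s) = 0 := by
  obtain ⟨Ji, hJi, hJi', _⟩ := symm_inv hD.J_symm hD.J_unit
  have h1 : act arm X F * B * Fᵀ = ∑ s, X s * M arm B s F F := by
    unfold act M
    rw [Matrix.sum_mul, Matrix.sum_mul]
    refine Finset.sum_congr rfl fun s _ => ?_
    simp only [Matrix.mul_assoc]
  have h2 : F * B * (act arm X F)ᵀ = ∑ s, M arm B s F F * (X s)ᵀ := by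
    unfold act M
    rw [transpose_sum, Matrix.mul_sum]
    refine Finset.sum_congr rfl fun s _ => ?_
    rw [transpose_mul, transpose_mul, E_transpose]
    simp only [Matrix.mul_assoc]
    rw [← Matrix.mul_assoc (E K arm s) B, hD.B_arm, Matrix.mul_assoc]
  have h3 : (act arm X F * B * Fᵀ + F * B * (act arm X F)ᵀ) * J
      = ∑ s, (X s * Phi arm J B F s - Phi arm J B F s * X s) := by
    rw [h1, h2, ← Finset.sum_add_distrib, Matrix.sum_mul]
    refine Finset.sum_congr rfl fun s _ => ?_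
    unfold Phi
    have : (X s)ᵀ * J = -(J * X s) := eq_neg_of_add_eq_zero_left (hX s)
    rw [Matrix.add_mul, Matrix.mul_assoc (M arm B s F F) (X s)ᵀ J, this, Matrix.mul_neg,
      ← sub_eq_add_neg]
    simp only [Matrix.mul_assoc]
  unfold Iso
  rw [← h3]
  constructor
  · intro h; rw [h, Matrix.zero_mul]
  · intro h
    have h4 := congrArg (· * Ji) h
    simp only [Matrix.zero_mul] at h4
    rwa [Matrix.mul_assoc, hJi, Matrix.mul_one] at h4

/-- (0) of note 12992 for `F` onto: every `(X_s)` with `Σ [X_s,Φ_s] = 0` is realised by a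
derivation `d` with `dΦ_s = [X_s,Φ_s]`. -/
theorem Data.persist_Phi (hD : Data k arm J B N W) {F : Matrix ι δ K}
    (hF : Generic k arm N W F) (R : Matrix δ ι K) (hR : F * R = 1)
    (X : Fin 3 → Matrix ι ι K) (hX : ∀ s, (X s)ᵀ * J + J * X s = 0)
    (hsum : ∑ s, (X s * Phi arm J B F s - Phi arm J B F s * X s) = 0) :
    ∃ (ξ : Matrix δ δ K) (d : Derivation k K K), ξᵀ * B + B * ξ = 0 ∧ F * ξᵀ = act arm X F ∧
      Realises arm N W X ξ d ∧ F.map d = act arm X F ∧
      ∀ s, (Phi arm J B F s).map d = X s * Phi arm J B F s - Phi arm J B F s * X s := by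
  obtain ⟨ξ, d, h1, h2, h3, h4⟩ := hD.persist hF X hX R (by rw [hR, Matrix.one_mul])
    (by rw [hR, Matrix.one_mul]) ((hD.iso_iff F X hX).2 hsum)
  exact ⟨ξ, d, h1, h2, h3, h4, fun s => hD.map_Phi F X hX d h4 s⟩

end Crest.Agent.R172.FO
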