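import Crest.Agent.R172.CoreP
import Crest.Agent.R172.FO2

/-!
Row 172, `(o2)` with `R ≠ 0`: the cover of a perfect module on which the derivation-induced
operator `D` (only defined up to the kernel of `Fᵀ J`) is an honest operator commuting with `A`.
-/

set_option autoImplicit false
set_option linter.unusedSectionVars false

namespace Crest.Agent.R172.CovF

open Module LinearMap TensorProduct
open Crest.Agent.R172.CP (Ax mem_Ax Ax_le Ax_mono mem_Ax_iff perf perf_le le_perf perf_le_Ax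
  Ax_perf_le perf_stable map_perf)

section seq

variable {K : Type*} [Field K] {P : Type*} [AddCommGroup P] [Module K P]
  {W : Type*} [AddCommGroup W] [Module K W]

/-- the sequences `p_n` with `G p_n = F p_(n+1)` -/
def SS (Fs Gs : P →ₗ[K] W) : Submodule K (ℕ → P) where
  carrier := {s | ∀ n, Gs (s n) = Fs (s (n + 1))}
  add_mem' := by
    intro a b ha hb n
    rw [Pi.add_apply, Pi.add_apply, map_add, map_add, ha n, hb n]
  zero_mem' := by intro n; simp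
  smul_mem' := by
    intro c a ha n
    rw [Pi.smul_apply, Pi.smul_apply, map_smul, map_smul, ha n]

/-- `a ⊗ y ↦ (a σ^n y)_n` -/
noncomputable def Ps (σ : End K P) : End K P ⊗[K] P →ₗ[K] (ℕ → P) :=
  LinearMap.pi fun n => TensorProduct.lift (LinearMap.id.compl₂ (σ ^ n))

theorem Ps_tmul (σ : End K P) (a : End K P) (y : P) (n : ℕ) :
    Ps σ (a ⊗ₜ y) n = a ((σ ^ n) y) := by
  simp [Ps]

/-- the finite-dimensional space of sequences -/
noncomputable def UU (Fs Gs : P →ₗ[K] W) (σ : End K P) : Submodule K (ℕ → P) :=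
  SS Fs Gs ⊓ LinearMap.range (Ps σ)

instance (Fs Gs : P →ₗ[K] W) (σ : End K P) [FiniteDimensional K P] :
    FiniteDimensional K (UU Fs Gs σ) := by
  have : FiniteDimensional K (LinearMap.range (Ps σ)) := inferInstance
  exact Submodule.finiteDimensional_of_le (inf_le_right : UU Fs Gs σ ≤ LinearMap.range (Ps σ))

/-- termwise action -/
def tw (a : End K P) : End K (ℕ → P) := LinearMap.pi fun n => a ∘ₗ LinearMap.proj n

theorem tw_apply (a : End K P) (s : ℕ → P) (n : ℕ) : tw a s n = a (s n) := rfl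

/-- the shift -/
def sh : End K (ℕ → P) := LinearMap.pi fun n => LinearMap.proj (n + 1)

theorem sh_apply (s : ℕ → P) (n : ℕ) : sh (K := K) s n = s (n + 1) := rfl

variable {Fs Gs : P →ₗ[K] W} {σ : End K P}

theorem tw_range (a : End K P) {s : ℕ → P} (hs : s ∈ LinearMap.range (Ps σ)) :
    tw a s ∈ LinearMap.range (Ps σ) := by
  obtain ⟨x, rfl⟩ := hs
  induction x using TensorProduct.induction_on with
  | zero => simp
  | tmul b y =>
    refine ⟨(a * b) ⊗ₜ y, ?_⟩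
    funext n
    rw [Ps_tmul, tw_apply, Ps_tmul]
    rfl
  | add x y hx hy =>
    rw [map_add, map_add]
    exact Submodule.add_mem _ hx hy

theorem sh_range {s : ℕ → P} (hs : s ∈ LinearMap.range (Ps σ)) :
    sh (K := K) s ∈ LinearMap.range (Ps σ) := by
  obtain ⟨x, rfl⟩ := hs
  induction x using TensorProduct.induction_on with
  | zero => simp
  | tmul b y =>
    refine ⟨b ⊗ₜ (σ y), ?_⟩
    funext n
    rw [Ps_tmul, sh_apply, Ps_tmul, pow_succ]
    rfl
  | add x y hx hy =>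
    rw [map_add, map_add]
    exact Submodule.add_mem _ hx hy

theorem tw_UU {a : End K P} (ha : ∀ p p', Gs p = Fs p' → Gs (a p) = Fs (a p')) {s : ℕ → P}
    (hs : s ∈ UU Fs Gs σ) : tw a s ∈ UU Fs Gs σ :=
  ⟨fun n => ha _ _ (hs.1 n), tw_range a hs.2⟩

theorem sh_UU {s : ℕ → P} (hs : s ∈ UU Fs Gs σ) : sh (K := K) s ∈ UU Fs Gs σ :=
  ⟨fun n => hs.1 (n + 1), sh_range hs.2⟩

/-- termwise action on `UU` -/
noncomputable def twU (Fs Gs : P →ₗ[K] W) (σ : End K P) {a : End K P}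
    (ha : ∀ p p', Gs p = Fs p' → Gs (a p) = Fs (a p')) : End K (UU Fs Gs σ) :=
  (tw a).restrict fun _ hs => tw_UU ha hs

/-- shift on `UU` -/
noncomputable def shU (Fs Gs : P →ₗ[K] W) (σ : End K P) : End K (UU Fs Gs σ) :=
  (sh (K := K)).restrict fun _ hs => sh_UU hs

theorem twU_coe {a : End K P} (ha : ∀ p p', Gs p = Fs p' → Gs (a p) = Fs (a p'))
    (s : UU Fs Gs σ) (n : ℕ) : (twU Fs Gs σ ha s : ℕ → P) n = a ((s : ℕ → P) n) := rfl

theorem shU_coe (s : UU Fs Gs σ) (n : ℕ) :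
    (shU Fs Gs σ s : ℕ → P) n = (s : ℕ → P) (n + 1) := rfl

theorem shU_pow_coe (s : UU Fs Gs σ) (m n : ℕ) :
    (((shU Fs Gs σ) ^ m) s : UU Fs Gs σ).1 n = (s : ℕ → P) (n + m) := by
  induction m generalizing n with
  | zero => rfl
  | succ m ih =>
    rw [pow_succ', Module.End.mul_apply]
    change ((((shU Fs Gs σ) ^ m) s : UU Fs Gs σ).1) (n + 1) = _
    rw [ih (n + 1), show n + 1 + m = n + (m + 1) by omega]

/-- the value at `0` -/
noncomputable def p0 (Fs Gs : P →ₗ[K] W) (σ : End K P) : UU Fs Gs σ →ₗ[K] P :=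
  LinearMap.proj 0 ∘ₗ (UU Fs Gs σ).subtype

theorem p0_apply (s : UU Fs Gs σ) : p0 Fs Gs σ s = (s : ℕ → P) 0 := rfl

end seq

section cover

universe u v w

variable {K : Type u} [Field K] {P : Type v} [AddCommGroup P] [Module K P]
  {W : Type w} [AddCommGroup W] [Module K W] {τ : Type*} [Fintype τ]

/-- **the cover**, module version -/
theorem exists_cover_mod [FiniteDimensional K P] (A : τ → End K P) (Fs Gs : P →ₗ[K] W)
    (hA : ∀ t p p', Gs p = Fs p' → Gs (A t p) = Fs (A t p'))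
    (hperf : (⊤ : Submodule K P) ≤ Ax A ⊤) (hG : ∀ p, ∃ p', Gs p = Fs p') :
    ∃ (X : Type v) (_ : AddCommGroup X) (_ : Module K X) (_ : FiniteDimensional K X)
      (Ah : τ → End K X) (Dh : End K X) (π : X →ₗ[K] P),
      (∀ t x, π (Ah t x) = A t (π x)) ∧ (∀ x, Gs (π x) = Fs (π (Dh x))) ∧
      (∀ t, Commute (Ah t) Dh) ∧ Function.Surjective π ∧
      (⊤ : Submodule K X) ≤ Ax Ah ⊤ ∧ (∀ x, (∀ n, π ((Dh ^ n) x) = 0) → x = 0) := by
  classical
  -- a linear lift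
  obtain ⟨σ, hσ⟩ : ∃ σ : End K P, ∀ p, Gs p = Fs (σ p) := by
    choose f hf using fun i => hG (Module.finBasis K P i)
    refine ⟨(Module.finBasis K P).constr K f, fun p => ?_⟩
    have h1 : Gs = Fs ∘ₗ (Module.finBasis K P).constr K f := by
      refine (Module.finBasis K P).ext fun i => ?_
      rw [LinearMap.comp_apply, Module.Basis.constr_basis, hf]
    exact LinearMap.congr_fun h1 p
  let U := UU Fs Gs σ
  let AU : τ → End K U := fun t => twU Fs Gs σ (hA t)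
  let DU : End K U := shU Fs Gs σ
  have hcom : ∀ t (s : U), AU t (DU s) = DU (AU t s) := fun t s => rfl
  let X : Submodule K U := perf AU ⊤
  have hXA : ∀ t, ∀ s ∈ X, AU t s ∈ X := fun t s hs => perf_stable le_top t hs
  have hXD : ∀ s ∈ X, DU s ∈ X := by
    have h1 : X.map DU ≤ perf AU ⊤ := by
      refine le_perf le_top ?_
      rintro _ ⟨s, hs, rfl⟩
      obtain ⟨q, hq, hqs⟩ := mem_Ax_iff.1 (perf_le_Ax AU ⊤ hs)
      rw [hqs, map_sum]
      refine Submodule.sum_mem _ fun t _ => ?_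
      rw [← hcom]
      exact mem_Ax (Submodule.mem_map_of_mem (hq t)) t
    exact fun s hs => h1 (Submodule.mem_map_of_mem hs)
  have hsurj : ∀ p : P, ∃ s ∈ X, p0 Fs Gs σ s = p := by
    have h1 : (⊤ : Submodule K P) ≤ (perf AU ⊤).map (p0 Fs Gs σ) := by
      refine map_perf le_top A (p0 Fs Gs σ) (fun t s _ => rfl) hperf ?_
      intro p _
      have hs : Ps σ ((1 : End K P) ⊗ₜ p) ∈ U := by
        refine ⟨fun n => ?_, ⟨_, rfl⟩⟩
        rw [Ps_tmul, Ps_tmul, pow_succ']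
        exact hσ _
      refine ⟨⟨_, hs⟩, Submodule.mem_top, ?_⟩
      rw [p0_apply]
      change Ps σ ((1 : End K P) ⊗ₜ p) 0 = p
      rw [Ps_tmul]
      rfl
    intro p
    obtain ⟨s, hs, hsp⟩ := h1 (Submodule.mem_top (x := p))
    exact ⟨s, hs, hsp⟩
  refine ⟨X, inferInstance, inferInstance, inferInstance,
    fun t => (AU t).restrict (hXA t), DU.restrict hXD, p0 Fs Gs σ ∘ₗ X.subtype,
    fun t x => rfl, fun x => ?_, fun t => ?_, ?_, ?_, ?_⟩
  · exact x.1.2.1 0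
  · apply LinearMap.ext
    intro x
    rfl
  · intro p
    obtain ⟨s, hs, hsp⟩ := hsurj p
    exact ⟨⟨s, hs⟩, hsp⟩
  · rintro ⟨x, hx⟩ -
    obtain ⟨q, hq, hqx⟩ := mem_Ax_iff.1 (perf_le_Ax AU ⊤ hx)
    refine mem_Ax_iff.2 ⟨fun t => ⟨q t, hq t⟩, fun _ => Submodule.mem_top, ?_⟩
    apply Subtype.ext
    rw [AddSubmonoidClass.coe_finsetSum]
    exact hqx
  · intro x hx
    apply Subtype.ext
    apply Subtype.ext
    funext n
    have h1 := hx n
    have h2 : ∀ m, (((DU.restrict hXD) ^ m) x : U) = (DU ^ m) (x : U) := by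
      intro m
      induction m with
      | zero => rfl
      | succ m ih =>
        rw [pow_succ', pow_succ', Module.End.mul_apply, Module.End.mul_apply, ← ih]
        rfl
    rw [LinearMap.comp_apply, Submodule.subtype_apply, h2, p0_apply] at h1
    have h3 := shU_pow_coe (x : U) n 0
    rw [Nat.zero_add] at h3
    exact h3.symm.trans h1

end cover

section mat

open Matrix Crest.Agent.R172.FO

universe u u'

variable {ι : Type u'} [Fintype ι] [DecidableEq ι] {δ : Type*} [Fintype δ] [DecidableEq δ]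
variable {k : Type*} {K : Type u} [Field k] [Field K] [Algebra k K]
variable {arm : δ → Fin 3} {J : Matrix ι ι K} {B : Matrix δ δ K}
  {N W : Submodule K (Matrix ι δ K)} {F G : Matrix ι δ K}

theorem Phi_def' (r : Fin 3) : Phi arm J B F r = F * E K arm r * B * Fᵀ * J := rfl

/-- `Gᵀ J Φ_r = (Fᵀ J F E_r B) Gᵀ J` -/
theorem key (hD : Data k arm J B N W) (hF : F ∈ N ⊓ W) (hG : G ∈ N ⊓ W) (r : Fin 3) :
    Gᵀ * J * Phi arm J B F r = Fᵀ * J * (F * E K arm r * B) * (Gᵀ * J) := by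
  have h1 : Gᵀ * J * F = Fᵀ * J * G := hD.symm_U hF hG
  have h2 : M arm B r F G = M arm B r G F := hD.symm_arm hF hG r
  rw [Phi_def']
  unfold M at h2
  calc Gᵀ * J * (F * E K arm r * B * Fᵀ * J)
      = (Gᵀ * J * F) * E K arm r * B * Fᵀ * J := by simp only [Matrix.mul_assoc]
    _ = Fᵀ * J * (G * E K arm r * B * Fᵀ) * J := by
        rw [h1]; simp only [Matrix.mul_assoc]
    _ = Fᵀ * J * (F * E K arm r * B * Gᵀ) * J := by rw [h2]
    _ = Fᵀ * J * (F * E K arm r * B) * (Gᵀ * J) := by simp only [Matrix.mul_assoc]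

/-- `Gᵀ J p = Fᵀ J p'` is preserved by `Φ_r` -/
theorem move (hD : Data k arm J B N W) (hF : F ∈ N ⊓ W) (hG : G ∈ N ⊓ W) (r : Fin 3)
    {p p' : ι → K} (h : (Gᵀ * J) *ᵥ p = (Fᵀ * J) *ᵥ p') :
    (Gᵀ * J) *ᵥ (Phi arm J B F r *ᵥ p) = (Fᵀ * J) *ᵥ (Phi arm J B F r *ᵥ p') := by
  have h3 : Fᵀ * J * Phi arm J B F r = Fᵀ * J * (F * E K arm r * B) * (Fᵀ * J) := by
    rw [Phi_def']; simp only [Matrix.mul_assoc]
  calc (Gᵀ * J) *ᵥ (Phi arm J B F r *ᵥ p)
      = (Fᵀ * J * (F * E K arm r * B)) *ᵥ ((Gᵀ * J) *ᵥ p) := by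
        rw [mulVec_mulVec, key hD hF hG, mulVec_mulVec]
    _ = (Fᵀ * J * (F * E K arm r * B)) *ᵥ ((Fᵀ * J) *ᵥ p') := by rw [h]
    _ = (Fᵀ * J) *ᵥ (Phi arm J B F r *ᵥ p') := by
        rw [mulVec_mulVec, ← h3, ← mulVec_mulVec]

/-- the relation `Gᵀ J p = Fᵀ J p'` preserves the radical of a perfect submodule -/
theorem rad_of_rel (hD : Data k arm J B N W) (hF : F ∈ N ⊓ W) (hG : G ∈ N ⊓ W)
    (P : Submodule K (ι → K)) (hst : ∀ r, ∀ p ∈ P, Phi arm J B F r *ᵥ p ∈ P)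
    (hperf : ∀ p ∈ P, ∃ f : Fin 3 → ι → K, (∀ r, f r ∈ P) ∧ p = ∑ r, Phi arm J B F r *ᵥ f r)
    (hGP : ∀ p ∈ P, ∃ p' ∈ P, (Gᵀ * J) *ᵥ p = (Fᵀ * J) *ᵥ p')
    {p p' : ι → K} (h : (Gᵀ * J) *ᵥ p = (Fᵀ * J) *ᵥ p')
    (hp : ∀ q ∈ P, q ⬝ᵥ (J *ᵥ p) = 0) : ∀ q ∈ P, q ⬝ᵥ (J *ᵥ p') = 0 := by
  intro q hq
  obtain ⟨f, hf, rfl⟩ := hperf q hq
  rw [sum_dotProduct]
  refine Finset.sum_eq_zero fun r _ => ?_
  obtain ⟨q', hq', hqq⟩ := hGP _ (hf r)
  have h2 : M arm B r F G = M arm B r G F := hD.symm_arm hF hG r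
  have e1 : Phi arm J B F r *ᵥ f r = F *ᵥ ((E K arm r * B) *ᵥ ((Fᵀ * J) *ᵥ f r)) := by
    rw [mulVec_mulVec, mulVec_mulVec, Phi_def']
    simp only [Matrix.mul_assoc]
  have e2 : G *ᵥ ((E K arm r * B) *ᵥ ((Fᵀ * J) *ᵥ f r)) = Phi arm J B F r *ᵥ q' := by
    have e3 : G * (E K arm r * B * (Fᵀ * J)) = F * E K arm r * B * (Gᵀ * J) := by
      unfold M at h2
      calc G * (E K arm r * B * (Fᵀ * J)) = (G * E K arm r * B * Fᵀ) * J := by
            simp only [Matrix.mul_assoc]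
        _ = (F * E K arm r * B * Gᵀ) * J := by rw [h2]
        _ = _ := by simp only [Matrix.mul_assoc]
    rw [mulVec_mulVec, mulVec_mulVec, Matrix.mul_assoc, e3, ← mulVec_mulVec, hqq, mulVec_mulVec,
      Phi_def']
    simp only [Matrix.mul_assoc]
  have e4 : ∀ (A : Matrix ι δ K) (z : δ → K) (w : ι → K),
      (A *ᵥ z) ⬝ᵥ (J *ᵥ w) = z ⬝ᵥ ((Aᵀ * J) *ᵥ w) := by
    intro A z w
    rw [← mulVec_mulVec, dotProduct_mulVec z, vecMul_transpose]
  rw [e1, e4, ← h, ← e4, e2]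
  exact hp _ (hst r q' hq')

/-- the frame matrix of a map `π : X → P` and a basis of `X` -/
noncomputable def fr {X : Type*} [AddCommGroup X] [Module K X] {a : ℕ} (b : Module.Basis (Fin a) K X)
    (π : X →ₗ[K] (ι → K)) : Matrix ι (Fin a) K := Matrix.of fun i j => π (b j) i

theorem fr_repr {X : Type*} [AddCommGroup X] [Module K X] {a : ℕ} (b : Module.Basis (Fin a) K X)
    (π : X →ₗ[K] (ι → K)) (x : X) : fr b π *ᵥ (b.equivFun x) = π x := by
  have h1 : π x = π (∑ j, b.equivFun x j • b j) := by rw [b.sum_equivFun]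
  rw [h1, map_sum]
  funext i
  rw [Finset.sum_apply]
  unfold fr mulVec dotProduct
  refine Finset.sum_congr rfl fun j _ => ?_
  rw [map_smul, Pi.smul_apply, smul_eq_mul]
  exact mul_comm _ _

theorem toMatrix_equivFun {X : Type*} [AddCommGroup X] [Module K X] {a : ℕ}
    (b : Module.Basis (Fin a) K X) (T : End K X) (x : X) :
    LinearMap.toMatrix b b T *ᵥ (b.equivFun x) = b.equivFun (T x) := by
  exact LinearMap.toMatrix_mulVec_repr b b T x

theorem ext_mulVec {α : Type*} {X : Type*} [AddCommGroup X] [Module K X] {a : ℕ}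
    (b : Module.Basis (Fin a) K X) {A C : Matrix α (Fin a) K}
    (h : ∀ x : X, A *ᵥ (b.equivFun x) = C *ᵥ (b.equivFun x)) : A = C := by
  apply Matrix.ext_of_mulVec_single
  intro j
  have := h (b.equivFun.symm (Pi.single j 1))
  rwa [LinearEquiv.apply_symm_apply] at this

/-- **The cover, matrix version.** -/
theorem exists_cover (hD : Data k arm J B N W) (hF : F ∈ N ⊓ W) (hG : G ∈ N ⊓ W)
    (P : Submodule K (ι → K)) (hst : ∀ r, ∀ p ∈ P, Phi arm J B F r *ᵥ p ∈ P)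
    (hperf : ∀ p ∈ P, ∃ f : Fin 3 → ι → K, (∀ r, f r ∈ P) ∧ p = ∑ r, Phi arm J B F r *ᵥ f r)
    (hGP : ∀ p ∈ P, ∃ p' ∈ P, (Gᵀ * J) *ᵥ p = (Fᵀ * J) *ᵥ p') :
    ∃ (a : ℕ) (p : Matrix ι (Fin a) K) (al rho : Fin 3 → Matrix (Fin a) (Fin a) K)
      (tau : Matrix (Fin a) (Fin a) K),
      (∀ r, Phi arm J B F r * p = p * al r) ∧ Gᵀ * J * p = Fᵀ * J * p * tau ∧
      (∀ r, al r * tau = tau * al r) ∧ ∑ r, al r * rho r = 1 ∧
      (∀ v, v ∈ P ↔ ∃ y, p *ᵥ y = v) ∧
      (∀ y, (∀ n, p *ᵥ ((tau ^ n) *ᵥ y) = 0) → y = 0) ∧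
      (∀ y, (∀ q ∈ P, q ⬝ᵥ (J *ᵥ (p *ᵥ y)) = 0) →
        ∀ n, ∀ q ∈ P, q ⬝ᵥ (J *ᵥ (p *ᵥ ((tau ^ n) *ᵥ y))) = 0) := by
  classical
  let A : Fin 3 → End K P := fun r => ((Phi arm J B F r).mulVecLin).restrict (hst r)
  let Fs : P →ₗ[K] (δ → K) := (Fᵀ * J).mulVecLin ∘ₗ P.subtype
  let Gs : P →ₗ[K] (δ → K) := (Gᵀ * J).mulVecLin ∘ₗ P.subtype
  obtain ⟨X, i1, i2, i3, Ah, Dh, π, h1, h2, h3, h4, h5, h6⟩ := exists_cover_mod A Fs Gs
    (fun t p p' h => move hD hF hG t (p := (p : ι → K)) (p' := (p' : ι → K)) h)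
    (by
      rintro ⟨p, hp⟩ -
      obtain ⟨f, hf, hfp⟩ := hperf p hp
      refine mem_Ax_iff.2 ⟨fun r => ⟨f r, hf r⟩, fun _ => Submodule.mem_top, ?_⟩
      apply Subtype.ext
      rw [AddSubmonoidClass.coe_finsetSum]
      exact hfp)
    (by
      rintro ⟨p, hp⟩
      obtain ⟨p', hp', h⟩ := hGP p hp
      exact ⟨⟨p', hp'⟩, h⟩)
  let b := Module.finBasis K X
  let π' : X →ₗ[K] (ι → K) := P.subtype ∘ₗ π
  have hsec : ∀ x : X, ∃ f : Fin 3 → X, x = ∑ r, Ah r (f r) := by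
    intro x
    obtain ⟨q, -, hq⟩ := mem_Ax_iff.1 (h5 (Submodule.mem_top (x := x)))
    exact ⟨q, hq⟩
  choose g hg using fun j => hsec (b j)
  let Rh : Fin 3 → End K X := fun r => b.constr K fun j => g j r
  have hR : ∑ r, Ah r * Rh r = 1 := by
    refine b.ext fun j => ?_
    rw [LinearMap.sum_apply, Module.End.one_apply]
    conv_rhs => rw [hg j]
    refine Finset.sum_congr rfl fun r _ => ?_
    rw [Module.End.mul_apply, Module.Basis.constr_basis]
  have htau : ∀ n (x : X), (LinearMap.toMatrix b b Dh) ^ n *ᵥ (b.equivFun x) =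
      b.equivFun ((Dh ^ n) x) := by
    intro n
    induction n with
    | zero => intro x; simp
    | succ n ih =>
      intro x
      rw [pow_succ', pow_succ', ← mulVec_mulVec, ih, toMatrix_equivFun]
      rfl
  have hrel : ∀ x, (Gᵀ * J) *ᵥ π' x = (Fᵀ * J) *ᵥ π' (Dh x) := fun x => h2 x
  refine ⟨_, fr b π', fun r => LinearMap.toMatrix b b (Ah r),
    fun r => LinearMap.toMatrix b b (Rh r), LinearMap.toMatrix b b Dh,
    fun r => ?_, ?_, fun r => ?_, ?_, fun v => ⟨?_, ?_⟩, fun y hy => ?_, fun y hy n => ?_⟩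
  · apply ext_mulVec b
    intro x
    rw [← mulVec_mulVec, fr_repr, ← mulVec_mulVec, toMatrix_equivFun, fr_repr]
    exact (congrArg Subtype.val (h1 r x)).symm
  · apply ext_mulVec b
    intro x
    have g1 : (Gᵀ * J * fr b π') *ᵥ (b.equivFun x) = (Gᵀ * J) *ᵥ (fr b π' *ᵥ (b.equivFun x)) :=
      (mulVec_mulVec _ _ _).symm
    have g2 : (Fᵀ * J * fr b π' * LinearMap.toMatrix b b Dh) *ᵥ (b.equivFun x) =
        (Fᵀ * J) *ᵥ (fr b π' *ᵥ (LinearMap.toMatrix b b Dh *ᵥ (b.equivFun x))) := by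
      rw [mulVec_mulVec, mulVec_mulVec, Matrix.mul_assoc (Fᵀ * J)]
    rw [g1, g2, toMatrix_equivFun, fr_repr, fr_repr]
    exact hrel x
  · rw [← LinearMap.toMatrix_mul, ← LinearMap.toMatrix_mul, (h3 r).eq]
  · rw [← LinearMap.toMatrix_one b, ← hR, map_sum]
    exact Finset.sum_congr rfl fun r _ => (LinearMap.toMatrix_mul b _ _).symm
  · intro hv
    obtain ⟨x, hx⟩ := h4 ⟨v, hv⟩
    refine ⟨b.equivFun x, ?_⟩
    rw [fr_repr]
    exact congrArg Subtype.val hx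
  · rintro ⟨y, rfl⟩
    obtain ⟨x, rfl⟩ := b.equivFun.surjective y
    rw [fr_repr]
    exact (π x).2
  · obtain ⟨x, rfl⟩ := b.equivFun.surjective y
    rw [h6 x, map_zero]
    intro n
    have h7 := hy n
    rw [htau, fr_repr] at h7
    exact Subtype.ext h7
  · obtain ⟨x, rfl⟩ := b.equivFun.surjective y
    rw [fr_repr] at hy
    rw [htau, fr_repr]
    induction n with
    | zero => exact hy
    | succ n ih =>
      rw [pow_succ', Module.End.mul_apply]
      exact rad_of_rel hD hF hG P hst hperf hGP (hrel _) ih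

end mat

end Crest.Agent.R172.CovF
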