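import Mathlib

/-!
Row 172 (S0260), tame case `t1`, arbitrary radical: the duality lemma.

`P1, P2` perfect modules over the free algebra on `τ` (operators `A t`, `B t`), `R1, R2` nilpotent
submodules generated by the images of the powers `A s ^ l s`, `B s ^ l s`. A family
`x : τ → P2 ⊗ P1` is `c`-exact if `∑ ((1 ⊗ A t) x_t - c (B t ⊗ 1) x_t) = 0` and each term lies in
`Rad = R2 ⊗ P1 + P2 ⊗ R1`. The span over infinitely many `c` of the `c`-exact families contains all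
single-arm filtered tensors `(B s ^ j) p2 ⊗ (A s ^ i) p1`, `i + j + 1 = l s`, and all single-arm
radical tensors.
-/

set_option autoImplicit false
set_option linter.unusedSectionVars false

namespace Crest.Agent.R172.Dual

open Module Polynomial TensorProduct

section poly

variable {K : Type*} [Field K] (Λ : Set K)

/-- only non-negative powers of `c` -/
def Pos (v : K → K) : Prop := ∃ p : K[X], ∀ c ∈ Λ, v c = p.eval c

/-- only non-positive powers of `c` -/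
def NP (v : K → K) : Prop :=
  ∃ (d : ℕ) (p : K[X]), p.degree ≤ (d : WithBot ℕ) ∧ ∀ c ∈ Λ, c ^ d * v c = p.eval c

/-- only negative powers of `c` -/
def Neg (v : K → K) : Prop :=
  ∃ (d : ℕ) (p : K[X]), p.degree < (d : WithBot ℕ) ∧ ∀ c ∈ Λ, c ^ d * v c = p.eval c

variable {Λ}

theorem Pos.const (a : K) : Pos Λ (fun _ => a) := ⟨C a, fun c _ => by simp⟩

theorem Pos.add {u v : K → K} (hu : Pos Λ u) (hv : Pos Λ v) : Pos Λ (fun c => u c + v c) := by
  obtain ⟨p, hp⟩ := hu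
  obtain ⟨q, hq⟩ := hv
  exact ⟨p + q, fun c hc => by simp only [eval_add, hp c hc, hq c hc]⟩

theorem Pos.mul_c {u : K → K} (hu : Pos Λ u) : Pos Λ (fun c => c * u c) := by
  obtain ⟨p, hp⟩ := hu
  exact ⟨X * p, fun c hc => by simp only [eval_mul, eval_X, hp c hc]⟩

theorem Pos.congr {u v : K → K} (hu : Pos Λ u) (h : ∀ c ∈ Λ, v c = u c) : Pos Λ v := by
  obtain ⟨p, hp⟩ := hu
  exact ⟨p, fun c hc => by rw [h c hc, hp c hc]⟩

theorem Pos.sum {α : Type*} (s : Finset α) {u : α → K → K} (hu : ∀ a ∈ s, Pos Λ (u a)) :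
    Pos Λ (fun c => ∑ a ∈ s, u a c) := by
  classical
  induction s using Finset.induction_on with
  | empty => exact (Pos.const 0).congr fun c _ => by simp
  | insert a s ha ih =>
    refine ((hu a (Finset.mem_insert_self _ _)).add
      (ih fun b hb => hu b (Finset.mem_insert_of_mem hb))).congr fun c _ => ?_
    rw [Finset.sum_insert ha]

theorem Neg.np {u : K → K} (hu : Neg Λ u) : NP Λ u := by
  obtain ⟨d, p, h1, h2⟩ := hu
  exact ⟨d, p, h1.le, h2⟩

theorem NP.const (a : K) : NP Λ (fun _ => a) :=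
  ⟨0, C a, degree_C_le, fun c _ => by simp⟩

theorem NP.add {u v : K → K} (hu : NP Λ u) (hv : NP Λ v) : NP Λ (fun c => u c + v c) := by
  obtain ⟨d, p, hp, hp'⟩ := hu
  obtain ⟨e, q, hq, hq'⟩ := hv
  refine ⟨d + e, X ^ e * p + X ^ d * q, ?_, fun c hc => ?_⟩
  · refine (degree_add_le _ _).trans (max_le ?_ ?_)
    · rw [degree_mul, degree_X_pow, Nat.cast_add, add_comm]
      exact add_le_add_left hp _
    · rw [degree_mul, degree_X_pow, Nat.cast_add]
      exact add_le_add_right hq _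
  · rw [eval_add, eval_mul, eval_mul, eval_pow, eval_pow, eval_X, ← hp' c hc, ← hq' c hc]
    ring

theorem Neg.add {u v : K → K} (hu : Neg Λ u) (hv : Neg Λ v) : Neg Λ (fun c => u c + v c) := by
  obtain ⟨d, p, hp, hp'⟩ := hu
  obtain ⟨e, q, hq, hq'⟩ := hv
  refine ⟨d + e, X ^ e * p + X ^ d * q, ?_, fun c hc => ?_⟩
  · refine lt_of_le_of_lt (degree_add_le _ _) (max_lt ?_ ?_)
    · rw [degree_mul, degree_X_pow, Nat.cast_add, add_comm]
      exact WithBot.add_lt_add_right (by simp) hp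
    · rw [degree_mul, degree_X_pow, Nat.cast_add]
      exact WithBot.add_lt_add_left (by simp) hq
  · rw [eval_add, eval_mul, eval_mul, eval_pow, eval_pow, eval_X, ← hp' c hc, ← hq' c hc]
    ring

theorem NP.sub_const {u : K → K} (hu : NP Λ u) (a : K) : NP Λ (fun c => u c - a) := by
  obtain ⟨d, p, h1, h2⟩ := hu.add (NP.const (Λ := Λ) (-a))
  exact ⟨d, p, h1, fun c hc => by rw [← h2 c hc]; simp only [sub_eq_add_neg]⟩

theorem NP.div {u v : K → K} (hu : NP Λ u) (h : ∀ c ∈ Λ, c * v c = u c) : Neg Λ v := by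
  obtain ⟨d, p, h1, h2⟩ := hu
  refine ⟨d + 1, p, lt_of_le_of_lt h1 (by exact_mod_cast Nat.lt_succ_self d), fun c hc => ?_⟩
  rw [← h2 c hc, ← h c hc, pow_succ, mul_assoc]

theorem Neg.zero : Neg Λ (fun _ => (0 : K)) :=
  ⟨0, 0, by simp, fun c _ => by simp⟩

theorem Neg.congr {u v : K → K} (hu : Neg Λ u) (h : ∀ c ∈ Λ, v c = u c) : Neg Λ v := by
  obtain ⟨d, p, h1, h2⟩ := hu
  exact ⟨d, p, h1, fun c hc => by rw [h c hc, h2 c hc]⟩

theorem Neg.sum {α : Type*} (s : Finset α) {u : α → K → K} (hu : ∀ a ∈ s, Neg Λ (u a)) :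
    Neg Λ (fun c => ∑ a ∈ s, u a c) := by
  classical
  induction s using Finset.induction_on with
  | empty => exact Neg.zero.congr fun c _ => by simp
  | insert a s ha ih =>
    refine ((hu a (Finset.mem_insert_self _ _)).add
      (ih fun b hb => hu b (Finset.mem_insert_of_mem hb))).congr fun c _ => ?_
    rw [Finset.sum_insert ha]

/-- separation of powers of `c` -/
theorem powers (hΛ : Λ.Infinite) (h0 : (0 : K) ∉ Λ) {l : ℕ} (a : ℕ → K) {N P : K → K}
    (hN : Neg Λ N) (hP : Pos Λ P)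
    (h : ∀ c ∈ Λ, ∑ j ∈ Finset.range l, c ^ j * a j = N c - c ^ l * P c) :
    (∀ j < l, a j = 0) ∧ (∀ c ∈ Λ, N c = 0) ∧ ∀ c ∈ Λ, P c = 0 := by
  obtain ⟨d, p, hp, hp'⟩ := hN
  obtain ⟨q, hq⟩ := hP
  set S : K[X] := ∑ j ∈ Finset.range l, C (a j) * X ^ j with hS
  have hSe : ∀ c, S.eval c = ∑ j ∈ Finset.range l, c ^ j * a j := by
    intro c
    rw [hS, eval_finsetSum]
    refine Finset.sum_congr rfl fun j _ => ?_
    rw [eval_mul, eval_C, eval_pow, eval_X, mul_comm]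
  have key : X ^ d * (S + X ^ l * q) = p := by
    refine eq_of_infinite_eval_eq _ _ (hΛ.mono fun c hc => ?_)
    show eval c _ = eval c _
    rw [eval_mul, eval_add, eval_mul, eval_pow, eval_pow, eval_X, hSe, h c hc, ← hq c hc,
      ← hp' c hc]
    ring
  have hz : S + X ^ l * q = 0 := by
    by_contra hne
    have h1 : (d : WithBot ℕ) ≤ p.degree := by
      rw [← key, degree_mul, degree_X_pow, degree_eq_natDegree hne]
      exact_mod_cast Nat.le_add_right _ _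
    exact absurd hp (not_lt.2 h1)
  have ha : ∀ j < l, a j = 0 := by
    intro j hj
    have h1 := congrArg (fun r : K[X] => r.coeff j) hz
    simp only [coeff_add, coeff_zero, coeff_X_pow_mul', if_neg (not_le.2 hj), add_zero] at h1
    rw [hS, finsetSum_coeff] at h1
    simp only [coeff_C_mul, coeff_X_pow] at h1
    rw [Finset.sum_eq_single j] at h1
    · simpa using h1
    · intro b _ hb
      rw [if_neg (Ne.symm hb), mul_zero]
    · intro hj'
      exact absurd (Finset.mem_range.2 hj) hj'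
  have hS0 : S = 0 := by
    rw [hS]
    refine Finset.sum_eq_zero fun j hj => ?_
    rw [ha j (Finset.mem_range.1 hj), C_0, zero_mul]
  have hq0 : q = 0 := by
    rw [hS0, zero_add] at hz
    exact (mul_eq_zero.1 hz).resolve_left (pow_ne_zero _ X_ne_zero)
  have hp0 : p = 0 := by rw [← key, hz, mul_zero]
  refine ⟨ha, fun c hc => ?_, fun c hc => by rw [hq c hc, hq0, eval_zero]⟩
  have h1 := hp' c hc
  rw [hp0, eval_zero] at h1
  exact (mul_eq_zero.1 h1).resolve_left (pow_ne_zero _ fun h2 => h0 (h2 ▸ hc))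

end poly

section core

variable {K : Type*} [Field K] {P1 P2 : Type*} [AddCommGroup P1] [Module K P1]
  [AddCommGroup P2] [Module K P2] {τ : Type*} [Fintype τ]

/-- every word of length `n` kills `r` -/
def Kills {P : Type*} [AddCommGroup P] [Module K P] (A : τ → End K P) (n : ℕ) (r : P) : Prop :=
  ∀ w : List τ, w.length = n → (w.map A).prod r = 0

theorem Kills.zero {P : Type*} [AddCommGroup P] [Module K P] {A : τ → End K P} {r : P}
    (h : Kills A 0 r) : r = 0 := by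
  have := h [] rfl
  simpa using this

theorem Kills.succ {P : Type*} [AddCommGroup P] [Module K P] {A : τ → End K P} {n : ℕ} {r : P}
    (h : Kills A (n + 1) r) (t : τ) : Kills A n (A t r) := by
  intro w hw
  have := h (w ++ [t]) (by simp [hw])
  rw [List.map_append, List.prod_append] at this
  simpa using this

variable {A : τ → End K P1} {B : τ → End K P2} {R1 : Submodule K P1} {R2 : Submodule K P2}
  {l : τ → ℕ} {Λ : Set K} {η : τ → P2 →ₗ[K] P1 →ₗ[K] K} {z : K → τ → P2 →ₗ[K] P1 →ₗ[K] K}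

theorem pos_of (hA : ∀ p, ∃ f : τ → P1, p = ∑ t, A t (f t))
    (hB2 : ∀ t, ∀ r ∈ R2, B t r ∈ R2)
    (hz : ∀ c ∈ Λ, ∀ t p2 p1, η t p2 p1 = z c t p2 (A t p1) - c * z c t (B t p2) p1)
    (hz2 : ∀ c ∈ Λ, ∀ t u, ∀ r ∈ R2, ∀ p1, z c t r p1 = z c u r p1) (n : ℕ) :
    ∀ r ∈ R2, Kills B n r → ∀ t p1, Pos Λ (fun c => z c t r p1) := by
  induction n with
  | zero =>
    intro r _ hk t p1
    refine (Pos.const 0).congr fun c _ => ?_
    rw [hk.zero]; simp
  | succ n ih =>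
    intro r hr hk t p1
    obtain ⟨f, hf⟩ := hA p1
    have h1 : Pos Λ (fun c => ∑ u, (η u r (f u) + c * z c u (B u r) (f u))) :=
      Pos.sum _ fun u _ => (Pos.const _).add (ih _ (hB2 u r hr) (hk.succ u) u (f u)).mul_c
    refine h1.congr fun c hc => ?_
    conv_lhs => rw [hf, map_sum]
    refine Finset.sum_congr rfl fun u _ => ?_
    rw [hz c hc, sub_add_cancel]
    exact hz2 c hc t u r hr _

theorem neg_of (hB : ∀ p, ∃ f : τ → P2, p = ∑ t, B t (f t))
    (hA1 : ∀ t, ∀ r ∈ R1, A t r ∈ R1)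
    (hz : ∀ c ∈ Λ, ∀ t p2 p1, η t p2 p1 = z c t p2 (A t p1) - c * z c t (B t p2) p1)
    (hz1 : ∀ c ∈ Λ, ∀ t u, ∀ r ∈ R1, ∀ p2, z c t p2 r = z c u p2 r) (n : ℕ) :
    ∀ r ∈ R1, Kills A n r → ∀ t p2, Neg Λ (fun c => z c t p2 r) := by
  induction n with
  | zero =>
    intro r _ hk t p2
    refine Neg.zero.congr fun c _ => ?_
    rw [hk.zero]; simp
  | succ n ih =>
    intro r hr hk t p2
    obtain ⟨f, hf⟩ := hB p2
    have h2 : ∀ u, Neg Λ (fun c => z c u (B u (f u)) r) := by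
      intro u
      refine ((ih _ (hA1 u r hr) (hk.succ u) u (f u)).np.sub_const (η u (f u) r)).div
        fun c hc => ?_
      rw [hz c hc]
      ring
    have h1 : Neg Λ (fun c => ∑ u, z c u (B u (f u)) r) := Neg.sum _ fun u _ => h2 u
    refine h1.congr fun c hc => ?_
    conv_lhs => rw [hf, map_sum, LinearMap.sum_apply]
    refine Finset.sum_congr rfl fun u _ => ?_
    exact hz1 c hc t u r hr _

theorem tele {s : τ} {c : K} {zz : P2 →ₗ[K] P1 →ₗ[K] K} {e : P2 →ₗ[K] P1 →ₗ[K] K}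
    (h : ∀ p2 p1, e p2 p1 = zz p2 (A s p1) - c * zz (B s p2) p1) (n : ℕ) (p2 : P2) (p1 : P1) :
    ∑ j ∈ Finset.range n, c ^ j * e ((B s ^ j) p2) ((A s ^ (n - 1 - j)) p1) =
      zz p2 ((A s ^ n) p1) - c ^ n * zz ((B s ^ n) p2) p1 := by
  have h1 : ∀ j ∈ Finset.range n, c ^ j * e ((B s ^ j) p2) ((A s ^ (n - 1 - j)) p1) =
      (fun j => c ^ j * zz ((B s ^ j) p2) ((A s ^ (n - j)) p1)) j -
      (fun j => c ^ j * zz ((B s ^ j) p2) ((A s ^ (n - j)) p1)) (j + 1) := by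
    intro j hj
    have hj' := Finset.mem_range.1 hj
    have e1 : A s ((A s ^ (n - 1 - j)) p1) = (A s ^ (n - j)) p1 := by
      rw [show n - j = (n - 1 - j) + 1 by omega, pow_succ', Module.End.mul_apply]
    have e2 : B s ((B s ^ j) p2) = (B s ^ (j + 1)) p2 := by
      rw [pow_succ', Module.End.mul_apply]
    have e3 : n - (j + 1) = n - 1 - j := by omega
    simp only [h, e1, e2, e3]
    ring
  rw [Finset.sum_congr rfl h1, Finset.sum_range_sub']
  simp

/-- the algebraic core: the functional vanishes on all filtered and all radical tensors -/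
theorem core (hΛ : Λ.Infinite) (h0 : (0 : K) ∉ Λ)
    (hA : ∀ p, ∃ f : τ → P1, p = ∑ t, A t (f t)) (hB : ∀ p, ∃ f : τ → P2, p = ∑ t, B t (f t))
    (hA1 : ∀ t, ∀ r ∈ R1, A t r ∈ R1) (hB2 : ∀ t, ∀ r ∈ R2, B t r ∈ R2)
    (hn1 : ∃ n, ∀ r ∈ R1, Kills A n r) (hn2 : ∃ n, ∀ r ∈ R2, Kills B n r)
    (hl1 : ∀ s p, (A s ^ l s) p ∈ R1) (hl2 : ∀ s p, (B s ^ l s) p ∈ R2)
    (gen1 : ∀ S : Submodule K P1, (∀ s p, (A s ^ l s) p ∈ S) → (∀ t, ∀ r ∈ S, A t r ∈ S) → R1 ≤ S)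
    (gen2 : ∀ S : Submodule K P2, (∀ s p, (B s ^ l s) p ∈ S) → (∀ t, ∀ r ∈ S, B t r ∈ S) → R2 ≤ S)
    (hz : ∀ c ∈ Λ, ∀ t p2 p1, η t p2 p1 = z c t p2 (A t p1) - c * z c t (B t p2) p1)
    (hz1 : ∀ c ∈ Λ, ∀ t u, ∀ r ∈ R1, ∀ p2, z c t p2 r = z c u p2 r)
    (hz2 : ∀ c ∈ Λ, ∀ t u, ∀ r ∈ R2, ∀ p1, z c t r p1 = z c u r p1) :
    (∀ s j, j < l s → ∀ p2 p1, η s ((B s ^ j) p2) ((A s ^ (l s - 1 - j)) p1) = 0) ∧
    (∀ t, ∀ r ∈ R2, ∀ p1, η t r p1 = 0) ∧ (∀ t, ∀ r ∈ R1, ∀ p2, η t p2 r = 0) := by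
  obtain ⟨n1, hn1⟩ := hn1
  obtain ⟨n2, hn2⟩ := hn2
  have hpos : ∀ r ∈ R2, ∀ t p1, Pos Λ (fun c => z c t r p1) := fun r hr =>
    pos_of hA hB2 hz hz2 n2 r hr (hn2 r hr)
  have hneg : ∀ r ∈ R1, ∀ t p2, Neg Λ (fun c => z c t p2 r) := fun r hr =>
    neg_of hB hA1 hz hz1 n1 r hr (hn1 r hr)
  have hzero : ∀ v : K → K, Pos Λ v → Neg Λ v → ∀ c ∈ Λ, v c = 0 := by
    intro v hp hn
    exact (powers hΛ h0 (l := 0) (fun _ => 0) hn hp (fun c _ => by simp)).2.1
  have main : ∀ s p2 p1, (∀ j < l s, η s ((B s ^ j) p2) ((A s ^ (l s - 1 - j)) p1) = 0) ∧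
      (∀ c ∈ Λ, z c s p2 ((A s ^ l s) p1) = 0) ∧ (∀ c ∈ Λ, z c s ((B s ^ l s) p2) p1 = 0) := by
    intro s p2 p1
    exact powers hΛ h0 (l := l s) (fun j => η s ((B s ^ j) p2) ((A s ^ (l s - 1 - j)) p1))
      (hneg _ (hl1 s p1) s p2) (hpos _ (hl2 s p2) s p1)
      (fun c hc => tele (hz c hc s) (l s) p2 p1)
  have hne : ∃ c, c ∈ Λ := hΛ.nonempty
  -- the radical of `P1`
  have hS1 : ∀ r ∈ R1, ∀ c ∈ Λ, ∀ t p2, z c t p2 r = 0 := by
    let S : Submodule K P1 :=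
      { carrier := {r | r ∈ R1 ∧ ∀ c ∈ Λ, ∀ t p2, z c t p2 r = 0}
        zero_mem' := ⟨R1.zero_mem, fun c _ t p2 => map_zero _⟩
        add_mem' := fun {a b} ha hb => ⟨R1.add_mem ha.1 hb.1, fun c hc t p2 => by
          rw [map_add, ha.2 c hc, hb.2 c hc, add_zero]⟩
        smul_mem' := fun a {b} hb => ⟨R1.smul_mem a hb.1, fun c hc t p2 => by
          rw [map_smul, hb.2 c hc, smul_zero]⟩ }
    have hS : R1 ≤ S := by
      apply gen1
      · intro s p
        refine ⟨hl1 s p, fun c hc t p2 => ?_⟩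
        rw [hz1 c hc t s _ (hl1 s p)]
        exact (main s p2 p).2.1 c hc
      · rintro t r ⟨hr, hr0⟩
        refine ⟨hA1 t r hr, fun c hc u p2 => ?_⟩
        rw [hz1 c hc u t _ (hA1 t r hr)]
        have h1 : ∀ c ∈ Λ, z c t p2 (A t r) = η t p2 r := by
          intro c hc
          rw [hz c hc t p2 r, hr0 c hc t, mul_zero, sub_zero]
        exact hzero (fun c => z c t p2 (A t r)) ((Pos.const (η t p2 r)).congr h1)
          (hneg _ (hA1 t r hr) t p2) c hc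
    intro r hr
    exact (hS hr).2
  have hS2 : ∀ r ∈ R2, ∀ c ∈ Λ, ∀ t p1, z c t r p1 = 0 := by
    let S : Submodule K P2 :=
      { carrier := {r | r ∈ R2 ∧ ∀ c ∈ Λ, ∀ t p1, z c t r p1 = 0}
        zero_mem' := ⟨R2.zero_mem, fun c _ t p1 => by simp⟩
        add_mem' := fun {a b} ha hb => ⟨R2.add_mem ha.1 hb.1, fun c hc t p1 => by
          rw [map_add, LinearMap.add_apply, ha.2 c hc, hb.2 c hc, add_zero]⟩
        smul_mem' := fun a {b} hb => ⟨R2.smul_mem a hb.1, fun c hc t p1 => by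
          rw [map_smul, LinearMap.smul_apply, hb.2 c hc, smul_zero]⟩ }
    have hS : R2 ≤ S := by
      apply gen2
      · intro s p
        refine ⟨hl2 s p, fun c hc t p1 => ?_⟩
        rw [hz2 c hc t s _ (hl2 s p)]
        exact (main s p p1).2.2 c hc
      · rintro t r ⟨hr, hr0⟩
        refine ⟨hB2 t r hr, fun c hc u p1 => ?_⟩
        rw [hz2 c hc u t _ (hB2 t r hr)]
        have h1 : ∀ c ∈ Λ, c * z c t (B t r) p1 = (fun _ => -η t r p1) c := by
          intro c hc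
          simp only
          rw [hz c hc t r p1, hr0 c hc t, zero_sub, neg_neg]
        exact hzero (fun c => z c t (B t r) p1) (hpos _ (hB2 t r hr) t p1)
          ((NP.const _).div h1) c hc
    intro r hr
    exact (hS hr).2
  obtain ⟨c, hc⟩ := hne
  refine ⟨fun s j hj p2 p1 => (main s p2 p1).1 j hj, ?_, ?_⟩
  · intro t r hr p1
    rw [hz c hc, hS2 r hr c hc, hS2 _ (hB2 t r hr) c hc, mul_zero, sub_zero]
  · intro t r hr p2
    rw [hz c hc, hS1 r hr c hc, hS1 _ (hA1 t r hr) c hc, mul_zero, sub_zero]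

end core

section dual

variable {K : Type*} [Field K] {P1 P2 : Type*} [AddCommGroup P1] [Module K P1]
  [AddCommGroup P2] [Module K P2] {τ : Type*} [Fintype τ]

/-- `R2 ⊗ P1 + P2 ⊗ R1` -/
def Rad (R1 : Submodule K P1) (R2 : Submodule K P2) : Submodule K (P2 ⊗[K] P1) :=
  Submodule.span K {x | ∃ r ∈ R2, ∃ p : P1, x = r ⊗ₜ[K] p} ⊔
    Submodule.span K {x | ∃ p : P2, ∃ r ∈ R1, x = p ⊗ₜ[K] r}

/-- the defect `(1 ⊗ A t) x - c (B t ⊗ 1) x` -/
def defect (A : End K P1) (B : End K P2) (c : K) : P2 ⊗[K] P1 →ₗ[K] P2 ⊗[K] P1 :=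
  LinearMap.lTensor P2 A - c • LinearMap.rTensor P1 B

theorem defect_tmul (A : End K P1) (B : End K P2) (c : K) (p2 : P2) (p1 : P1) :
    defect A B c (p2 ⊗ₜ p1) = p2 ⊗ₜ (A p1) - c • ((B p2) ⊗ₜ p1) := by
  simp [defect]

/-- `c`-exact families -/
def Exact (A : τ → End K P1) (B : τ → End K P2) (R1 : Submodule K P1) (R2 : Submodule K P2)
    (c : K) (x : τ → P2 ⊗[K] P1) : Prop :=
  ∑ t, defect (A t) (B t) c (x t) = 0 ∧ ∀ t, defect (A t) (B t) c (x t) ∈ Rad R1 R2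

theorem exists_factor {X Y : Type*} [AddCommGroup X] [Module K X] [AddCommGroup Y] [Module K Y]
    (g : X →ₗ[K] Y) (f : X →ₗ[K] K) (h : ∀ x, g x = 0 → f x = 0) : ∃ F : Y →ₗ[K] K, F ∘ₗ g = f := by
  have h1 : f ∈ (LinearMap.ker g).dualAnnihilator := by
    rw [Submodule.mem_dualAnnihilator]
    intro x hx
    exact h x (LinearMap.mem_ker.1 hx)
  rw [← LinearMap.range_dualMap_eq_dualAnnihilator_ker] at h1
  obtain ⟨F, hF⟩ := h1
  exact ⟨F, hF⟩

theorem exists_z [DecidableEq τ] (A : τ → End K P1) (B : τ → End K P2) (R1 : Submodule K P1)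
    (R2 : Submodule K P2) (η : τ → P2 →ₗ[K] P1 →ₗ[K] K) (c : K)
    (h : ∀ x : τ → P2 ⊗[K] P1, Exact A B R1 R2 c x → ∑ t, TensorProduct.lift (η t) (x t) = 0) :
    ∃ z : τ → P2 →ₗ[K] P1 →ₗ[K] K,
      (∀ t p2 p1, η t p2 p1 = z t p2 (A t p1) - c * z t (B t p2) p1) ∧
      (∀ t u, ∀ r ∈ R1, ∀ p2, z t p2 r = z u p2 r) ∧
      (∀ t u, ∀ r ∈ R2, ∀ p1, z t r p1 = z u r p1) := by
  let T := P2 ⊗[K] P1
  let J := Rad R1 R2
  let g1 : (τ → T) →ₗ[K] T := ∑ t, defect (A t) (B t) c ∘ₗ LinearMap.proj t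
  let g2 : (τ → T) →ₗ[K] (τ → T ⧸ J) :=
    LinearMap.pi fun t => J.mkQ ∘ₗ defect (A t) (B t) c ∘ₗ LinearMap.proj t
  let g : (τ → T) →ₗ[K] T × (τ → T ⧸ J) := LinearMap.prod g1 g2
  let f : (τ → T) →ₗ[K] K := ∑ t, TensorProduct.lift (η t) ∘ₗ LinearMap.proj t
  have hg1 : ∀ x, g1 x = ∑ t, defect (A t) (B t) c (x t) := by
    intro x
    simp only [g1, LinearMap.sum_apply, LinearMap.comp_apply, LinearMap.proj_apply]
  have hg2 : ∀ x t, g2 x t = J.mkQ (defect (A t) (B t) c (x t)) := fun x t => rfl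
  have hf : ∀ x, f x = ∑ t, TensorProduct.lift (η t) (x t) := by
    intro x
    simp only [f, LinearMap.sum_apply, LinearMap.comp_apply, LinearMap.proj_apply]
  obtain ⟨F, hF⟩ := exists_factor g f (by
    intro x hx
    rw [hf]
    refine h x ⟨?_, fun t => ?_⟩
    · rw [← hg1]
      exact congrArg Prod.fst hx
    · have h1 := congrFun (congrArg Prod.snd hx) t
      change g2 x t = 0 at h1
      rw [hg2, Submodule.mkQ_apply, Submodule.Quotient.mk_eq_zero] at h1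
      exact h1)
  let w : τ → T →ₗ[K] K := fun t =>
    F ∘ₗ LinearMap.prod LinearMap.id (LinearMap.single K (fun _ => T ⧸ J) t ∘ₗ J.mkQ)
  have hw : ∀ t x, w t x = F (x, Pi.single t (J.mkQ x)) := fun t x => rfl
  have hJ : ∀ t u, ∀ x ∈ J, w t x = w u x := by
    intro t u x hx
    rw [hw, hw]
    have h1 : J.mkQ x = 0 := by
      rw [Submodule.mkQ_apply, Submodule.Quotient.mk_eq_zero]; exact hx
    rw [h1, Pi.single_zero, Pi.single_zero]
  refine ⟨fun t => (TensorProduct.mk K P2 P1).compr₂ (w t), ?_, ?_, ?_⟩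
  · intro t p2 p1
    have h1 : f (Pi.single t (p2 ⊗ₜ p1)) = F (g (Pi.single t (p2 ⊗ₜ p1))) := by
      rw [← hF]; rfl
    have h2 : f (Pi.single t (p2 ⊗ₜ p1)) = η t p2 p1 := by
      rw [hf, Finset.sum_eq_single t]
      · rw [Pi.single_eq_same, TensorProduct.lift.tmul]
      · intro u _ hu
        rw [Pi.single_eq_of_ne hu, map_zero]
      · intro h; exact absurd (Finset.mem_univ t) h
    have h3 : g (Pi.single t (p2 ⊗ₜ p1)) =
        (defect (A t) (B t) c (p2 ⊗ₜ p1), Pi.single t (J.mkQ (defect (A t) (B t) c (p2 ⊗ₜ p1)))) := by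
      refine Prod.ext ?_ ?_
      · change g1 _ = _
        rw [hg1, Finset.sum_eq_single t]
        · rw [Pi.single_eq_same]
        · intro u _ hu
          rw [Pi.single_eq_of_ne hu, map_zero]
        · intro h; exact absurd (Finset.mem_univ t) h
      · change g2 _ = _
        funext u
        rw [hg2]
        by_cases hu : u = t
        · subst hu
          simp only [Pi.single_eq_same]
        · simp only [Pi.single_eq_of_ne hu, map_zero]
    rw [h2, h3, ← hw, defect_tmul, map_sub, map_smul] at h1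
    rw [h1]
    rfl
  · intro t u r hr p2
    exact hJ t u _ (Submodule.mem_sup_right (Submodule.subset_span ⟨p2, r, hr, rfl⟩))
  · intro t u r hr p1
    exact hJ t u _ (Submodule.mem_sup_left (Submodule.subset_span ⟨r, hr, p1, rfl⟩))

/-- **The span of the exact families contains everything.** -/
theorem span_exact {E : Type*} [AddCommGroup E] [Module K E]
    {A : τ → End K P1} {B : τ → End K P2} {R1 : Submodule K P1} {R2 : Submodule K P2}
    {l : τ → ℕ} {Λ : Set K} (hΛ : Λ.Infinite) (h0 : (0 : K) ∉ Λ)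
    (hA : ∀ p, ∃ f : τ → P1, p = ∑ t, A t (f t)) (hB : ∀ p, ∃ f : τ → P2, p = ∑ t, B t (f t))
    (hA1 : ∀ t, ∀ r ∈ R1, A t r ∈ R1) (hB2 : ∀ t, ∀ r ∈ R2, B t r ∈ R2)
    (hn1 : ∃ n, ∀ r ∈ R1, Kills A n r) (hn2 : ∃ n, ∀ r ∈ R2, Kills B n r)
    (hl1 : ∀ s p, (A s ^ l s) p ∈ R1) (hl2 : ∀ s p, (B s ^ l s) p ∈ R2)
    (gen1 : ∀ S : Submodule K P1, (∀ s p, (A s ^ l s) p ∈ S) → (∀ t, ∀ r ∈ S, A t r ∈ S) → R1 ≤ S)
    (gen2 : ∀ S : Submodule K P2, (∀ s p, (B s ^ l s) p ∈ S) → (∀ t, ∀ r ∈ S, B t r ∈ S) → R2 ≤ S)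
    (q : τ → P2 →ₗ[K] P1 →ₗ[K] E) (Q : Submodule K E)
    (h : ∀ c ∈ Λ, ∀ x : τ → P2 ⊗[K] P1, Exact A B R1 R2 c x →
      ∑ t, TensorProduct.lift (q t) (x t) ∈ Q) :
    (∀ s i j, i + j + 1 = l s → ∀ p2 p1, q s ((B s ^ j) p2) ((A s ^ i) p1) ∈ Q) ∧
    (∀ t, ∀ r ∈ R2, ∀ p1, q t r p1 ∈ Q) ∧ (∀ t, ∀ r ∈ R1, ∀ p2, q t p2 r ∈ Q) := by
  classical
  have key : ∀ φ : E →ₗ[K] K, (∀ y ∈ Q, φ y = 0) →
      (∀ s j, j < l s → ∀ p2 p1, φ (q s ((B s ^ j) p2) ((A s ^ (l s - 1 - j)) p1)) = 0) ∧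
      (∀ t, ∀ r ∈ R2, ∀ p1, φ (q t r p1) = 0) ∧ (∀ t, ∀ r ∈ R1, ∀ p2, φ (q t p2 r) = 0) := by
    intro φ hφ
    have hlift : ∀ (t : τ) (x : P2 ⊗[K] P1),
        TensorProduct.lift ((q t).compr₂ φ) x = φ (TensorProduct.lift (q t) x) := by
      intro t x
      rw [TensorProduct.lift_compr₂]
      rfl
    have hex : ∀ c ∈ Λ, ∃ z : τ → P2 →ₗ[K] P1 →ₗ[K] K,
        (∀ t p2 p1, (q t).compr₂ φ p2 p1 = z t p2 (A t p1) - c * z t (B t p2) p1) ∧
        (∀ t u, ∀ r ∈ R1, ∀ p2, z t p2 r = z u p2 r) ∧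
        (∀ t u, ∀ r ∈ R2, ∀ p1, z t r p1 = z u r p1) := by
      intro c hc
      apply exists_z
      intro x hx
      have h1 := hφ _ (h c hc x hx)
      rw [map_sum] at h1
      rw [← h1]
      exact Finset.sum_congr rfl fun t _ => hlift t _
    choose! z hz using hex
    exact core (η := fun t => (q t).compr₂ φ) (z := z) hΛ h0 hA hB hA1 hB2 hn1 hn2 hl1 hl2 gen1 gen2
      (fun c hc => (hz c hc).1) (fun c hc => (hz c hc).2.1) (fun c hc => (hz c hc).2.2)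
  have sep : ∀ y : E, (∀ φ : E →ₗ[K] K, (∀ y ∈ Q, φ y = 0) → φ y = 0) → y ∈ Q := by
    intro y hy
    by_contra hn
    obtain ⟨φ, h1, h2⟩ := Submodule.exists_le_ker_of_notMem hn
    exact h1 (hy φ fun x hx => h2 hx)
  refine ⟨fun s i j hij p2 p1 => sep _ fun φ hφ => ?_, fun t r hr p1 => sep _ fun φ hφ =>
    (key φ hφ).2.1 t r hr p1, fun t r hr p2 => sep _ fun φ hφ => (key φ hφ).2.2 t r hr p2⟩
  have h1 := (key φ hφ).1 s j (by omega) p2 p1
  rwa [show l s - 1 - j = i by omega] at h1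

theorem dec_of_iSup {P : Type*} [AddCommGroup P] [Module K P] {A : τ → End K P}
    (h : ⨆ t, LinearMap.range (A t) = ⊤) : ∀ p, ∃ f : τ → P, p = ∑ t, A t (f t) := by
  classical
  let g : (τ → P) →ₗ[K] P := ∑ t, A t ∘ₗ LinearMap.proj t
  have hg : ∀ x, g x = ∑ t, A t (x t) := by
    intro x
    simp only [g, LinearMap.sum_apply, LinearMap.comp_apply, LinearMap.proj_apply]
  have h1 : (⊤ : Submodule K P) ≤ LinearMap.range g := by
    rw [← h]
    refine iSup_le fun t => ?_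
    rintro _ ⟨y, rfl⟩
    refine ⟨Pi.single t y, ?_⟩
    rw [hg, Finset.sum_eq_single t]
    · rw [Pi.single_eq_same]
    · intro u _ hu
      rw [Pi.single_eq_of_ne hu, map_zero]
    · intro h; exact absurd (Finset.mem_univ t) h
  intro p
  obtain ⟨x, hx⟩ := h1 (Submodule.mem_top (x := p))
  exact ⟨x, by rw [← hx, hg]⟩

end dual

end Crest.Agent.R172.Dual
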