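import Crest.Agent.R172.CovF
import Crest.Agent.R172.Dual1

/-!
Row 172: the dictionary between tensors `X₂ ⊗ X₁` and matrices in bases of `X₂`, `X₁`, used to
translate the matrix form of the derivative relations (frames) to the tensor form of the span
lemmas.
-/

set_option autoImplicit false
set_option linter.unusedSectionVars false

namespace Crest.Agent.R172.CovM

open Module TensorProduct Matrix Crest.Agent.R172.CovF Crest.Agent.R172.Dual

variable {K : Type*} [Field K] {X₂ X₁ : Type*} [AddCommGroup X₂] [Module K X₂]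
  [AddCommGroup X₁] [Module K X₁] {a₂ a₁ : ℕ}
  (b₂ : Module.Basis (Fin a₂) K X₂) (b₁ : Module.Basis (Fin a₁) K X₁)

/-- tensors as matrices -/
noncomputable def mt : X₂ ⊗[K] X₁ →ₗ[K] Matrix (Fin a₂) (Fin a₁) K :=
  TensorProduct.lift (LinearMap.mk₂ K (fun x y => vecMulVec (b₂.equivFun x) (b₁.equivFun y))
    (fun x x' y => by rw [map_add, add_vecMulVec])
    (fun c x y => by rw [map_smul, smul_vecMulVec])
    (fun x y y' => by rw [map_add, vecMulVec_add])
    (fun c x y => by rw [map_smul, vecMulVec_smul]))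

theorem mt_tmul (x : X₂) (y : X₁) :
    mt b₂ b₁ (x ⊗ₜ y) = vecMulVec (b₂.equivFun x) (b₁.equivFun y) := rfl

theorem mt_apply (z : X₂ ⊗[K] X₁) (i : Fin a₂) (j : Fin a₁) :
    mt b₂ b₁ z i j = (b₂.tensorProduct b₁).repr z (i, j) := by
  induction z using TensorProduct.induction_on with
  | zero => simp
  | tmul x y =>
    rw [mt_tmul, vecMulVec_apply, Module.Basis.tensorProduct_repr_tmul_apply, smul_eq_mul,
      mul_comm]
    simp [Module.Basis.equivFun_apply, mul_comm]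
  | add x y hx hy => rw [map_add, Matrix.add_apply, hx, hy, map_add]; rfl

theorem mt_injective : Function.Injective (mt b₂ b₁) := by
  intro z z' h
  apply (b₂.tensorProduct b₁).repr.injective
  ext ⟨i, j⟩
  rw [← mt_apply, ← mt_apply, h]

theorem mt_surjective : Function.Surjective (mt b₂ b₁) := by
  intro A
  refine ⟨∑ i, ∑ j, A i j • (b₂ i ⊗ₜ b₁ j), ?_⟩
  ext i j
  rw [map_sum]
  simp only [map_sum, map_smul, mt_tmul]
  rw [Matrix.sum_apply]
  simp only [Matrix.sum_apply, Matrix.smul_apply, vecMulVec_apply, smul_eq_mul,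
    Module.Basis.equivFun_apply, Module.Basis.repr_self]
  rw [Finset.sum_eq_single i, Finset.sum_eq_single j]
  · simp
  · intro l _ hl
    simp [Finsupp.single_apply, hl]
  · intro h; exact absurd (Finset.mem_univ j) h
  · intro l _ hl
    refine Finset.sum_eq_zero fun m _ => ?_
    simp [Finsupp.single_apply, hl]
  · intro h; exact absurd (Finset.mem_univ i) h

/-- operators on the left factor -/
theorem mt_rTensor (S : End K X₂) (z : X₂ ⊗[K] X₁) :
    mt b₂ b₁ (LinearMap.rTensor X₁ S z) = LinearMap.toMatrix b₂ b₂ S * mt b₂ b₁ z := by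
  induction z using TensorProduct.induction_on with
  | zero => simp
  | tmul x y =>
    rw [LinearMap.rTensor_tmul, mt_tmul, mt_tmul, mul_vecMulVec, toMatrix_equivFun]
  | add x y hx hy => rw [map_add, map_add, hx, hy, map_add, Matrix.mul_add]

/-- operators on the right factor -/
theorem mt_lTensor (T : End K X₁) (z : X₂ ⊗[K] X₁) :
    mt b₂ b₁ (LinearMap.lTensor X₂ T z) = mt b₂ b₁ z * (LinearMap.toMatrix b₁ b₁ T)ᵀ := by
  induction z using TensorProduct.induction_on with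
  | zero => simp
  | tmul x y =>
    rw [LinearMap.lTensor_tmul, mt_tmul, mt_tmul, vecMulVec_mul, vecMul_transpose,
      toMatrix_equivFun]
  | add x y hx hy => rw [map_add, map_add, hx, hy, map_add, Matrix.add_mul]

theorem mt_map (S : End K X₂) (T : End K X₁) (z : X₂ ⊗[K] X₁) :
    mt b₂ b₁ (TensorProduct.map S T z) =
      LinearMap.toMatrix b₂ b₂ S * mt b₂ b₁ z * (LinearMap.toMatrix b₁ b₁ T)ᵀ := by
  induction z using TensorProduct.induction_on with
  | zero => simp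
  | tmul x y =>
    rw [TensorProduct.map_tmul, mt_tmul, mt_tmul, mul_vecMulVec, vecMulVec_mul, vecMul_transpose,
      toMatrix_equivFun, toMatrix_equivFun]
  | add x y hx hy => rw [map_add, map_add, hx, hy, map_add, Matrix.mul_add, Matrix.add_mul]

/-- the swap is the transposition -/
theorem mt_comm (z : X₂ ⊗[K] X₁) :
    mt b₁ b₂ (TensorProduct.comm K X₂ X₁ z) = (mt b₂ b₁ z)ᵀ := by
  induction z using TensorProduct.induction_on with
  | zero => simp
  | tmul x y =>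
    rw [TensorProduct.comm_tmul, mt_tmul, mt_tmul, transpose_vecMulVec]
  | add x y hx hy => rw [map_add, map_add, hx, hy, map_add, transpose_add]

/-- the defect of 716 in matrices -/
theorem mt_defect (A : End K X₁) (B : End K X₂) (c : K) (z : X₂ ⊗[K] X₁) :
    mt b₂ b₁ (defect A B c z) = mt b₂ b₁ z * (LinearMap.toMatrix b₁ b₁ A)ᵀ -
      c • (LinearMap.toMatrix b₂ b₂ B * mt b₂ b₁ z) := by
  unfold defect
  rw [LinearMap.sub_apply, LinearMap.smul_apply, map_sub, map_smul, mt_lTensor, mt_rTensor]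

/-- exactness (operator form): tensors versus matrices -/
theorem exact_iff {τ : Type*} [Fintype τ] (A : τ → End K X₁) (B : τ → End K X₂)
    (x : τ → X₂ ⊗[K] X₁) :
    ∑ t, (LinearMap.lTensor X₂ (A t) (x t) - LinearMap.rTensor X₁ (B t) (x t)) = 0 ↔
      ∑ t, (mt b₂ b₁ (x t) * (LinearMap.toMatrix b₁ b₁ (A t))ᵀ -
        LinearMap.toMatrix b₂ b₂ (B t) * mt b₂ b₁ (x t)) = 0 := by
  have h : mt b₂ b₁ (∑ t, (LinearMap.lTensor X₂ (A t) (x t) - LinearMap.rTensor X₁ (B t) (x t)))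
      = ∑ t, (mt b₂ b₁ (x t) * (LinearMap.toMatrix b₁ b₁ (A t))ᵀ -
        LinearMap.toMatrix b₂ b₂ (B t) * mt b₂ b₁ (x t)) := by
    rw [map_sum]
    refine Finset.sum_congr rfl fun t _ => ?_
    rw [map_sub, mt_lTensor, mt_rTensor]
  rw [← h, map_eq_zero_iff _ (mt_injective b₂ b₁)]

/-- exactness (scalar `c`, 716's `defect`): tensors versus matrices -/
theorem exact_iff_defect {τ : Type*} [Fintype τ] (A : τ → End K X₁) (B : τ → End K X₂) (c : K)
    (x : τ → X₂ ⊗[K] X₁) :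
    ∑ t, defect (A t) (B t) c (x t) = 0 ↔
      ∑ t, (mt b₂ b₁ (x t) * (LinearMap.toMatrix b₁ b₁ (A t))ᵀ -
        c • (LinearMap.toMatrix b₂ b₂ (B t) * mt b₂ b₁ (x t))) = 0 := by
  have h : mt b₂ b₁ (∑ t, defect (A t) (B t) c (x t))
      = ∑ t, (mt b₂ b₁ (x t) * (LinearMap.toMatrix b₁ b₁ (A t))ᵀ -
        c • (LinearMap.toMatrix b₂ b₂ (B t) * mt b₂ b₁ (x t))) := by
    rw [map_sum]
    exact Finset.sum_congr rfl fun t _ => mt_defect b₂ b₁ _ _ _ _
  rw [← h, map_eq_zero_iff _ (mt_injective b₂ b₁)]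

section frame

variable {ι : Type*} [Fintype ι] [DecidableEq ι] {δ : Type*} [Fintype δ] [DecidableEq δ]

/-- the rank-one matrices `(π₂ x)(π₁ y)ᵀ`, bilinearly -/
noncomputable def opV (π₂ : X₂ →ₗ[K] (ι → K)) (π₁ : X₁ →ₗ[K] (ι → K)) :
    X₂ →ₗ[K] X₁ →ₗ[K] Matrix ι ι K :=
  LinearMap.mk₂ K (fun x y => vecMulVec (π₂ x) (π₁ y))
    (fun x x' y => by rw [map_add, add_vecMulVec])
    (fun c x y => by rw [map_smul, smul_vecMulVec])
    (fun x y y' => by rw [map_add, vecMulVec_add])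
    (fun c x y => by rw [map_smul, vecMulVec_smul])

theorem opV_apply (π₂ : X₂ →ₗ[K] (ι → K)) (π₁ : X₁ →ₗ[K] (ι → K)) (x : X₂) (y : X₁) :
    opV π₂ π₁ x y = vecMulVec (π₂ x) (π₁ y) := rfl

/-- `p₂ · mt z · p₁ᵀ` is the image of `z` in `V ⊗ V` -/
theorem fr_mt (π₂ : X₂ →ₗ[K] (ι → K)) (π₁ : X₁ →ₗ[K] (ι → K)) (z : X₂ ⊗[K] X₁) :
    fr b₂ π₂ * mt b₂ b₁ z * (fr b₁ π₁)ᵀ = TensorProduct.lift (opV π₂ π₁) z := by
  induction z using TensorProduct.induction_on with
  | zero => simp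
  | tmul x y =>
    rw [mt_tmul, mul_vecMulVec, vecMulVec_mul, vecMul_transpose, fr_repr, fr_repr,
      TensorProduct.lift.tmul, opV_apply]
  | add x y hx hy => rw [map_add, map_add, Matrix.mul_add, Matrix.add_mul, hx, hy]

/-- the one-arm map `q_s(x,y) = (π₂ x)(π₁ y)ᵀ J F E_s` -/
noncomputable def qs (π₂ : X₂ →ₗ[K] (ι → K)) (π₁ : X₁ →ₗ[K] (ι → K)) (J : Matrix ι ι K)
    (FE : Matrix ι δ K) : X₂ →ₗ[K] X₁ →ₗ[K] Matrix ι δ K :=
  LinearMap.mk₂ K (fun x y => vecMulVec (π₂ x) (π₁ y) * J * FE)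
    (fun x x' y => by rw [map_add, add_vecMulVec, Matrix.add_mul, Matrix.add_mul])
    (fun c x y => by rw [map_smul, smul_vecMulVec, Matrix.smul_mul, Matrix.smul_mul])
    (fun x y y' => by rw [map_add, vecMulVec_add, Matrix.add_mul, Matrix.add_mul])
    (fun c x y => by rw [map_smul, vecMulVec_smul, Matrix.smul_mul, Matrix.smul_mul])

theorem qs_apply (π₂ : X₂ →ₗ[K] (ι → K)) (π₁ : X₁ →ₗ[K] (ι → K)) (J : Matrix ι ι K)
    (FE : Matrix ι δ K) (x : X₂) (y : X₁) :
    qs π₂ π₁ J FE x y = vecMulVec (π₂ x) (π₁ y) * J * FE := rfl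

/-- `lift q_s z = p₂ · mt z · p₁ᵀ J F E_s` -/
theorem lift_qs (π₂ : X₂ →ₗ[K] (ι → K)) (π₁ : X₁ →ₗ[K] (ι → K)) (J : Matrix ι ι K)
    (FE : Matrix ι δ K) (z : X₂ ⊗[K] X₁) :
    TensorProduct.lift (qs π₂ π₁ J FE) z =
      fr b₂ π₂ * mt b₂ b₁ z * (fr b₁ π₁)ᵀ * J * FE := by
  induction z using TensorProduct.induction_on with
  | zero => simp
  | tmul x y =>
    rw [mt_tmul, mul_vecMulVec, vecMulVec_mul, vecMul_transpose, fr_repr, fr_repr,
      TensorProduct.lift.tmul, qs_apply]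
  | add x y hx hy =>
    rw [map_add, map_add, Matrix.mul_add, Matrix.add_mul, Matrix.add_mul, Matrix.add_mul, hx, hy]

/-- the pulled back form as a matrix: `x · g · y = (π₂ x) · J (π₁ y)` -/
theorem fr_form (π₂ : X₂ →ₗ[K] (ι → K)) (π₁ : X₁ →ₗ[K] (ι → K)) (J : Matrix ι ι K)
    (x : X₂) (y : X₁) :
    b₂.equivFun x ⬝ᵥ (((fr b₂ π₂)ᵀ * J * fr b₁ π₁) *ᵥ b₁.equivFun y) = π₂ x ⬝ᵥ (J *ᵥ π₁ y) := by
  rw [← fr_repr b₂ π₂ x, ← fr_repr b₁ π₁ y, ← mulVec_mulVec, ← mulVec_mulVec,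
    dotProduct_mulVec (b₂.equivFun x), vecMul_transpose]

end frame

end Crest.Agent.R172.CovM
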