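import Mathlib

/-!
# R172: the perfect cover on which `D` is an honest operator (abstract form of 16086 (1))
-/

namespace Crest.Agent.R172.CovX

variable {K : Type*} [Field K]

section It

variable {E : Type*} [AddCommGroup E] [Module K E] {τ : Type*}

/-- one step `Z ↦ ∑ a_t Z` -/
def step (a : τ → Module.End K E) (Z : Submodule K E) : Submodule K E := ⨆ t, Z.map (a t)

/-- `n` steps -/
def It (a : τ → Module.End K E) (Y : Submodule K E) (n : ℕ) : Submodule K E := (step a)^[n] Y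

lemma step_mono (a : τ → Module.End K E) : Monotone (step a) := fun _ _ h =>
  iSup_mono fun _ => Submodule.map_mono h

@[simp] lemma It_zero (a : τ → Module.End K E) (Y : Submodule K E) : It a Y 0 = Y := rfl

lemma It_succ (a : τ → Module.End K E) (Y : Submodule K E) (n : ℕ) :
    It a Y (n + 1) = step a (It a Y n) := Function.iterate_succ_apply' _ _ _

lemma It_add (a : τ → Module.End K E) (Y : Submodule K E) (m n : ℕ) :
    It a Y (m + n) = It a (It a Y n) m := Function.iterate_add_apply _ _ _ _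

lemma step_le {a : τ → Module.End K E} {Y Z : Submodule K E} :
    step a Y ≤ Z ↔ ∀ t, ∀ y ∈ Y, a t y ∈ Z := by
  unfold step
  rw [iSup_le_iff]
  constructor
  · intro h t y hy
    exact h t ⟨y, hy, rfl⟩
  · rintro h t _ ⟨y, hy, rfl⟩
    exact h t y hy

lemma It_succ_le {a : τ → Module.End K E} {Y : Submodule K E}
    (hY : ∀ t, ∀ y ∈ Y, a t y ∈ Y) (n : ℕ) : It a Y (n + 1) ≤ It a Y n := by
  induction n with
  | zero => rw [It_succ, It_zero]; exact step_le.2 hY
  | succ n ih =>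
    calc It a Y (n + 1 + 1) = step a (It a Y (n + 1)) := It_succ a Y (n + 1)
      _ ≤ step a (It a Y n) := step_mono a ih
      _ = It a Y (n + 1) := (It_succ a Y n).symm

lemma It_antitone {a : τ → Module.End K E} {Y : Submodule K E}
    (hY : ∀ t, ∀ y ∈ Y, a t y ∈ Y) : Antitone (It a Y) :=
  antitone_nat_of_succ_le (It_succ_le hY)

/-- a perfect subspace of `Y` lies in all `It`. -/
lemma le_It {a : τ → Module.End K E} {Y Z : Submodule K E} (hZ : Z ≤ Y)
    (hp : Z ≤ step a Z) (n : ℕ) : Z ≤ It a Y n := by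
  induction n with
  | zero => exact hZ
  | succ n ih => rw [It_succ]; exact hp.trans (step_mono a ih)

/-- `It` via words. -/
lemma It_le_iff {a : τ → Module.End K E} {Y : Submodule K E} (n : ℕ) :
    ∀ {Z : Submodule K E}, It a Y n ≤ Z ↔
      ∀ l : List τ, l.length = n → ∀ y ∈ Y, (l.map a).prod y ∈ Z := by
  induction n with
  | zero =>
    intro Z
    constructor
    · intro h l hl y hy
      obtain rfl := List.length_eq_zero_iff.1 hl
      simpa using h hy
    · intro h y hy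
      simpa using h [] rfl y hy
  | succ n ih =>
    intro Z
    rw [It_succ, step_le]
    constructor
    · intro h l hl y hy
      cases l with
      | nil => simp at hl
      | cons t l =>
        have h1 : It a Y n ≤ Z.comap (a t) := fun y hy => h t y hy
        have h2 := ih.1 h1 l (by simpa using hl) y hy
        simpa using h2
    · intro h t y hy
      have h1 : It a Y n ≤ Z.comap (a t) := by
        refine ih.2 fun l hl y hy => ?_
        have := h (t :: l) (by simpa using hl) y hy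
        simpa using this
      exact h1 hy

lemma exists_stab [FiniteDimensional K E] {a : τ → Module.End K E} {Y : Submodule K E}
    (hY : ∀ t, ∀ y ∈ Y, a t y ∈ Y) : ∃ N, ∀ m, N ≤ m → It a Y N = It a Y m := by
  let f : ℕ →o (Submodule K E)ᵒᵈ := ⟨fun n => OrderDual.toDual (It a Y n), fun i j h => by
    exact It_antitone hY h⟩
  obtain ⟨N, hN⟩ := IsArtinian.monotone_stabilizes f
  exact ⟨N, fun m hm => hN m hm⟩

end It

section Cover

variable {V : Type*} [AddCommGroup V] [Module K V] {U : Type*} [AddCommGroup U] [Module K U]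
  {C : Type*} [AddCommGroup C] [Module K C] {τ : Type*} {k : ℕ}

/-- the termwise action -/
def tw (k : ℕ) (f : Module.End K V) : Module.End K (Fin (k + 1) → V) :=
  LinearMap.pi fun j => f ∘ₗ LinearMap.proj j

@[simp] lemma tw_apply (f : Module.End K V) (x : Fin (k + 1) → V) (j : Fin (k + 1)) :
    tw k f x j = f (x j) := rfl

/-- the shift -/
def sh (K : Type*) [Field K] (V : Type*) [AddCommGroup V] [Module K V] (k : ℕ) :
    Module.End K (Fin (k + 1) → V) :=
  LinearMap.pi fun j => if h : (j : ℕ) + 1 < k + 1 then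
    LinearMap.proj (⟨j + 1, h⟩ : Fin (k + 1)) else 0

lemma sh_lt (x : Fin (k + 1) → V) (j : Fin (k + 1)) (h : (j : ℕ) + 1 < k + 1) :
    sh K V k x j = x ⟨j + 1, h⟩ := by
  rw [sh, LinearMap.pi_apply, dif_pos h, LinearMap.proj_apply]

lemma sh_last (x : Fin (k + 1) → V) (j : Fin (k + 1)) (h : ¬ (j : ℕ) + 1 < k + 1) :
    sh K V k x j = 0 := by
  rw [sh, LinearMap.pi_apply, dif_neg h, LinearMap.zero_apply]

lemma sh_tw (f : Module.End K V) (x : Fin (k + 1) → V) :
    sh K V k (tw k f x) = tw k f (sh K V k x) := by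
  funext j
  by_cases h : (j : ℕ) + 1 < k + 1
  · rw [sh_lt _ _ h, tw_apply, tw_apply, sh_lt _ _ h]
  · rw [sh_last _ _ h, tw_apply, sh_last _ _ h, map_zero]

lemma sh_pow_apply (n : ℕ) (x : Fin (k + 1) → V) (j : Fin (k + 1)) :
    ((sh K V k) ^ n) x j = if h : (j : ℕ) + n < k + 1 then x ⟨j + n, h⟩ else 0 := by
  induction n generalizing j with
  | zero =>
    rw [dif_pos (show (j : ℕ) + 0 < k + 1 from j.2)]
    simp
  | succ n ih =>
    rw [pow_succ', Module.End.mul_apply]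
    by_cases h1 : (j : ℕ) + 1 < k + 1
    · rw [sh_lt _ _ h1, ih]
      by_cases h2 : (j : ℕ) + (n + 1) < k + 1
      · rw [dif_pos (show ((⟨(j : ℕ) + 1, h1⟩ : Fin (k + 1)) : ℕ) + n < k + 1 by
          simp only; omega), dif_pos h2]
        congr 1
        ext
        simp only
        omega
      · rw [dif_neg (show ¬ ((⟨(j : ℕ) + 1, h1⟩ : Fin (k + 1)) : ℕ) + n < k + 1 by
          simp only; omega), dif_neg h2]
    · rw [sh_last _ _ h1, dif_neg (by omega)]

lemma sh_pow_eq_zero : (sh K V k) ^ (k + 1) = 0 := by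
  refine LinearMap.ext fun x => ?_
  funext j
  rw [sh_pow_apply, dif_neg (by omega)]
  rfl

lemma word_tw (A : τ → Module.End K V) (l : List τ) (x : Fin (k + 1) → V) (j : Fin (k + 1)) :
    (l.map fun t => tw k (A t)).prod x j = (l.map A).prod (x j) := by
  induction l with
  | nil => simp
  | cons t l ih =>
    simp only [List.map_cons, List.prod_cons, Module.End.mul_apply, tw_apply]
    rw [ih]

/-- The data of the cover. -/
structure Data (A Psi : τ → Module.End K V) (Fs Gs : V →ₗ[K] U) (P : Submodule K V)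
    (e : V →ₗ[K] C) (Φ : τ → Module.End K C) (D : Module.End K C) (m : ℕ) : Prop where
  stA : ∀ t, ∀ p ∈ P, A t p ∈ P
  stPsi : ∀ t, ∀ p ∈ P, Psi t p ∈ P
  perf : P ≤ step A P
  c3 : ∀ t, ∀ x ∈ P, Gs (A t x) = Fs (Psi t x)
  c5 : ∀ x ∈ P, ∀ y ∈ P, Gs x = Fs y → ∀ t, Psi t x = A t y
  eA : ∀ t, ∀ p ∈ P, e (A t p) = Φ t (e p)
  ePsi : ∀ t, ∀ p ∈ P, e (Psi t p) = Φ t (D (e p))
  faith : ∀ c, (∀ t, Φ t c = 0) → c = 0
  nil : ∀ p ∈ P, e p = 0 → ∀ l : List τ, m ≤ l.length → (l.map A).prod p = 0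

variable {A Psi : τ → Module.End K V} {Fs Gs : V →ₗ[K] U} {P : Submodule K V}
    {e : V →ₗ[K] C} {Φ : τ → Module.End K C} {D : Module.End K C} {m : ℕ}

/-- `Gs p ∈ Fs P` for `p ∈ P`. -/
lemma Data.exists_next (h : Data A Psi Fs Gs P e Φ D m) :
    ∀ p ∈ P, ∃ q ∈ P, Gs p = Fs q := by
  have h1 : P ≤ (P.map Fs).comap Gs := by
    refine h.perf.trans (step_le.2 fun t y hy => ?_)
    exact ⟨Psi t y, h.stPsi t y hy, (h.c3 t y hy).symm⟩
  intro p hp
  obtain ⟨q, hq, hq'⟩ := h1 hp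
  exact ⟨q, hq, hq'.symm⟩

/-- the space of chains -/
def Y (Fs Gs : V →ₗ[K] U) (P : Submodule K V) (e : V →ₗ[K] C) (Ci : Submodule K C) (la : K)
    (k : ℕ) : Submodule K (Fin (k + 1) → V) where
  carrier := {x | (∀ j, x j ∈ P) ∧ (∀ j : Fin (k + 1), (j : ℕ) + 1 < k + 1 →
    Gs (x j) = Fs (la • x j + sh K V k x j)) ∧ e (x 0) ∈ Ci}
  add_mem' := by
    rintro x y ⟨hx, hx', hx''⟩ ⟨hy, hy', hy''⟩
    refine ⟨fun j => P.add_mem (hx j) (hy j), fun j hj => ?_, ?_⟩
    · rw [Pi.add_apply, map_add, hx' j hj, hy' j hj, ← map_add, map_add (sh K V k)]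
      congr 1
      simp only [Pi.add_apply, smul_add]
      abel
    · rw [Pi.add_apply, map_add]
      exact Ci.add_mem hx'' hy''
  zero_mem' := by
    refine ⟨fun j => P.zero_mem, fun j _ => ?_, ?_⟩
    · simp
    · simp
  smul_mem' := by
    rintro c x ⟨hx, hx', hx''⟩
    refine ⟨fun j => P.smul_mem c (hx j), fun j hj => ?_, ?_⟩
    · rw [Pi.smul_apply, map_smul, hx' j hj, ← map_smul, map_smul (sh K V k)]
      congr 1
      simp only [Pi.smul_apply, smul_add]
      rw [smul_comm]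
    · rw [Pi.smul_apply, map_smul]
      exact Ci.smul_mem c hx''

variable {Ci : Submodule K C} {la : K}

lemma mem_Y {x : Fin (k + 1) → V} : x ∈ Y Fs Gs P e Ci la k ↔
    (∀ j, x j ∈ P) ∧ (∀ j : Fin (k + 1), (j : ℕ) + 1 < k + 1 →
    Gs (x j) = Fs (la • x j + sh K V k x j)) ∧ e (x 0) ∈ Ci := Iff.rfl

lemma sh_mem_P {x : Fin (k + 1) → V} (hx : ∀ j, x j ∈ P) (j : Fin (k + 1)) :
    sh K V k x j ∈ P := by
  by_cases hj : (j : ℕ) + 1 < k + 1
  · rw [sh_lt _ _ hj]; exact hx _
  · rw [sh_last _ _ hj]; exact P.zero_mem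

lemma Y_stable (h : Data A Psi Fs Gs P e Φ D m) (hCi : ∀ t, ∀ c ∈ Ci, Φ t c ∈ Ci) (t : τ)
    (x : Fin (k + 1) → V) (hx : x ∈ Y Fs Gs P e Ci la k) :
    tw k (A t) x ∈ Y Fs Gs P e Ci la k := by
  obtain ⟨h1, h2, h3⟩ := hx
  refine ⟨fun j => h.stA t _ (h1 j), fun j hj => ?_, ?_⟩
  · rw [tw_apply, h.c3 t _ (h1 j), sh_tw, tw_apply]
    have hy : la • x j + sh K V k x j ∈ P :=
      P.add_mem (P.smul_mem _ (h1 j)) (sh_mem_P h1 j)
    rw [h.c5 _ (h1 j) _ hy (h2 j hj) t, map_add, map_smul]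
  · rw [tw_apply, h.eA t _ (h1 0)]
    exact hCi t _ h3

/-- the `e`-values of a chain are `(D - la)^j`. -/
lemma e_sh (h : Data A Psi Fs Gs P e Φ D m) {x : Fin (k + 1) → V}
    (hx : x ∈ Y Fs Gs P e Ci la k) (j : Fin (k + 1)) (hj : (j : ℕ) + 1 < k + 1) :
    e (sh K V k x j) = (D - algebraMap K (Module.End K C) la) (e (x j)) := by
  obtain ⟨h1, h2, h3⟩ := hx
  have hy : la • x j + sh K V k x j ∈ P :=
    P.add_mem (P.smul_mem _ (h1 j)) (sh_mem_P h1 j)
  rw [← sub_eq_zero]
  refine h.faith _ fun t => ?_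
  have h4 := congrArg e (h.c5 _ (h1 j) _ hy (h2 j hj) t)
  rw [h.ePsi t _ (h1 j), h.eA t _ hy, map_add, map_smul, map_add, map_smul] at h4
  rw [map_sub, LinearMap.sub_apply, map_sub, h4, Module.algebraMap_end_apply, map_smul]
  abel

lemma e_pow (h : Data A Psi Fs Gs P e Φ D m) {x : Fin (k + 1) → V}
    (hx : x ∈ Y Fs Gs P e Ci la k) (n : ℕ) (hn : n < k + 1) :
    e (x ⟨n, hn⟩) = ((D - algebraMap K (Module.End K C) la) ^ n) (e (x 0)) := by
  induction n with
  | zero => simp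
  | succ n ih =>
    have h1 := e_sh h hx ⟨n, by omega⟩ (by simpa using hn)
    rw [sh_lt _ _ (by simpa using hn)] at h1
    rw [pow_succ', Module.End.mul_apply, ← ih (by omega)]
    exact h1

/-- the cover -/
theorem exists_cover [FiniteDimensional K V] (h : Data A Psi Fs Gs P e Φ D m)
    (hCi : ∀ t, ∀ c ∈ Ci, Φ t c ∈ Ci) (hCD : ∀ c ∈ Ci, D c ∈ Ci)
    (hCp : Ci ≤ step Φ Ci)
    (hk : ∀ c ∈ Ci, ((D - algebraMap K (Module.End K C) la) ^ k) c = 0)
    (he : Ci ≤ P.map e) :
    ∃ X : Submodule K (Fin (k + 1) → V),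
      (∀ t, ∀ x ∈ X, tw k (A t) x ∈ X) ∧
      (∀ x ∈ X, sh K V k x ∈ X) ∧
      X = ⨆ t, X.map (tw k (A t)) ∧
      (∀ x ∈ X, ∀ j, x j ∈ P) ∧
      (∀ x ∈ X, ∀ j, Gs (x j) = Fs (la • x j + sh K V k x j)) ∧
      X.map (e ∘ₗ LinearMap.proj 0) = Ci ∧
      (∀ x ∈ X, ∀ j, e (sh K V k x j) = (D - algebraMap K (Module.End K C) la) (e (x j))) ∧
      (∀ x ∈ X, e (x 0) = 0 → ∀ l : List τ, m ≤ l.length →
        (l.map fun t => tw k (A t)).prod x = 0) := by
  set Y0 := Y Fs Gs P e Ci la k with hY0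
  have hst : ∀ t, ∀ y ∈ Y0, tw k (A t) y ∈ Y0 := fun t y hy => Y_stable h hCi t y hy
  obtain ⟨N, hN⟩ := exists_stab (a := fun t => tw k (A t)) hst
  set X := It (fun t => tw k (A t)) Y0 N with hX
  have hXY : X ≤ Y0 := It_antitone (a := fun t => tw k (A t)) hst (Nat.zero_le N)
  have hXs : X = step (fun t => tw k (A t)) X := by
    rw [hX, ← It_succ]
    exact hN (N + 1) (Nat.le_succ N)
  have hXst : ∀ t, ∀ x ∈ X, tw k (A t) x ∈ X := step_le.1 hXs.symm.le
  have hXit : ∀ n, X ≤ It (fun t => tw k (A t)) X n := fun n =>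
    le_It le_rfl hXs.le n
  -- last coordinate vanishes
  have hlast : ∀ x ∈ X, x (Fin.last k) = 0 := by
    have h1 : It (fun t => tw k (A t)) X m ≤
        LinearMap.ker (LinearMap.proj (Fin.last k) : (Fin (k + 1) → V) →ₗ[K] V) := by
      refine (It_le_iff m).2 fun l hl y hy => ?_
      rw [LinearMap.mem_ker, LinearMap.proj_apply, word_tw]
      refine h.nil _ ((hXY hy).1 _) ?_ l hl.ge
      have h2 := e_pow h (hXY hy) k (Nat.lt_succ_self k)
      rw [hk _ (hXY hy).2.2] at h2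
      exact h2
    intro x hx
    have := h1 (hXit m hx)
    simpa using this
  have hrel : ∀ x ∈ X, ∀ j, Gs (x j) = Fs (la • x j + sh K V k x j) := by
    intro x hx j
    by_cases hj : (j : ℕ) + 1 < k + 1
    · exact (hXY hx).2.1 j hj
    · have hj' : j = Fin.last k := by
        ext
        have := j.2
        simp only [Fin.val_last]
        omega
      rw [sh_last _ _ hj, hj', hlast x hx]
      simp
  have heD : ∀ x ∈ X, ∀ j,
      e (sh K V k x j) = (D - algebraMap K (Module.End K C) la) (e (x j)) := by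
    intro x hx j
    by_cases hj : (j : ℕ) + 1 < k + 1
    · exact e_sh h (hXY hx) j hj
    · have hj' : j = Fin.last k := by
        ext
        have := j.2
        simp only [Fin.val_last]
        omega
      rw [sh_last _ _ hj, hj', hlast x hx]
      simp
  have hshY : ∀ x ∈ X, sh K V k x ∈ Y0 := by
    intro x hx
    refine ⟨sh_mem_P (hXY hx).1, fun j hj => ?_, ?_⟩
    · rw [sh_lt x j hj]
      rw [hrel x hx ⟨j + 1, hj⟩]
      congr 2
      by_cases hj2 : ((⟨(j : ℕ) + 1, hj⟩ : Fin (k + 1)) : ℕ) + 1 < k + 1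
      · rw [sh_lt _ _ hj2, sh_lt _ _ hj, sh_lt _ _ hj2]
      · rw [sh_last _ _ hj2, sh_lt _ _ hj, sh_last _ _ hj2]
    · rw [heD x hx 0, LinearMap.sub_apply, Module.algebraMap_end_apply]
      exact Ci.sub_mem (hCD _ (hXY hx).2.2) (Ci.smul_mem _ (hXY hx).2.2)
  have hshX : ∀ x ∈ X, sh K V k x ∈ X := by
    have h1 : X.map (sh K V k) ≤ Y0 := by
      rintro _ ⟨x, hx, rfl⟩
      exact hshY x hx
    have h2 : X.map (sh K V k) ≤ step (fun t => tw k (A t)) (X.map (sh K V k)) := by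
      have h3 : step (fun t => tw k (A t)) X ≤
          (step (fun t => tw k (A t)) (X.map (sh K V k))).comap (sh K V k) := by
        refine step_le.2 fun t y hy => ?_
        rw [Submodule.mem_comap]
        show sh K V k (tw k (A t) y) ∈ _
        rw [sh_tw]
        exact step_le.1 le_rfl t _ ⟨y, hy, rfl⟩
      rw [← hXs] at h3
      rintro _ ⟨x, hx, rfl⟩
      exact h3 hx
    have h4 := le_It (a := fun t => tw k (A t)) h1 h2 N
    intro x hx
    exact h4 ⟨x, hx, rfl⟩
  -- surjectivity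
  have hsurj : ∀ n, Ci ≤ (It (fun t => tw k (A t)) Y0 n).map (e ∘ₗ LinearMap.proj 0) := by
    intro n
    induction n with
    | zero =>
      intro c hc
      obtain ⟨p, hp, hpe⟩ := he hc
      have hnx : ∀ p : P, ∃ q : P, Gs (p : V) = Fs (la • (p : V) + (q : V)) := by
        intro p
        obtain ⟨q, hq, hq'⟩ := h.exists_next p p.2
        refine ⟨⟨q - la • (p : V), P.sub_mem hq (P.smul_mem _ p.2)⟩, ?_⟩
        rw [hq']
        congr 1
        simp
      choose s hs using hnx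
      refine ⟨fun j : Fin (k + 1) => ((s^[(j : ℕ)] ⟨p, hp⟩ : P) : V), ⟨fun j => Subtype.mem _,
        fun j hj => ?_, ?_⟩, ?_⟩
      · rw [sh_lt _ _ hj]
        show Gs ((s^[(j : ℕ)] ⟨p, hp⟩ : P) : V) = Fs (la • ((s^[(j : ℕ)] ⟨p, hp⟩ : P) : V) +
          ((s^[(j : ℕ) + 1] ⟨p, hp⟩ : P) : V))
        rw [Function.iterate_succ_apply']
        exact hs _
      · show e (((s^[((0 : Fin (k + 1)) : ℕ)] ⟨p, hp⟩ : P) : V)) ∈ Ci
        simpa [hpe] using hc
      · show e (((s^[((0 : Fin (k + 1)) : ℕ)] ⟨p, hp⟩ : P) : V)) = c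
        simpa using hpe
    | succ n ih =>
      refine hCp.trans (step_le.2 fun t c hc => ?_)
      obtain ⟨x, hx, rfl⟩ := ih hc
      refine ⟨tw k (A t) x, ?_, ?_⟩
      · rw [It_succ]
        exact step_le.1 le_rfl t _ hx
      · show e (A t (x 0)) = Φ t (e (x 0))
        have hxY : x ∈ Y0 := It_antitone (a := fun t => tw k (A t)) hst (Nat.zero_le n) hx
        exact h.eA t _ (hxY.1 0)
  refine ⟨X, hXst, hshX, hXs, fun x hx => (hXY hx).1, hrel, le_antisymm ?_ (hsurj N), heD, ?_⟩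
  · rintro _ ⟨x, hx, rfl⟩
    exact (hXY hx).2.2
  · intro x hx hx0 l hl
    funext j
    rw [word_tw]
    refine h.nil _ ((hXY hx).1 j) ?_ l hl
    have h1 := e_pow h (hXY hx) j j.2
    rw [hx0, map_zero] at h1
    exact h1

end Cover

end Crest.Agent.R172.CovX
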