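import Crest.Agent.R172.Ind6
import Crest.Agent.R172.Adapt

/-!
Row 172, node CtxFr: common frames of `(E_s, S)` in `V` and their logarithmic derivatives.
-/

set_option autoImplicit false
set_option maxHeartbeats 400000
set_option linter.unusedSectionVars false

namespace Crest.Agent.R172.CtxFr

open Module Matrix Crest.Agent.R172.HM2 Crest.Agent.R172.HM8 Crest.Agent.R172.HM9
open Crest.Agent.R172.Gen (Jm Ix emb IsSo)
open Crest.Agent.R172.CF Crest.Agent.R172.Ind

variable {n : ℕ} {a : Fin 3 → Fin n → ℤ}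

section frames

variable {K : Type*} [Field K]

/-- a basis of a subspace as a sequence -/
theorem exists_seq (S : Submodule K (Ix n → K)) :
    ∃ (v : ℕ → Ix n → K) (r : ℕ), (∀ b < r, v b ∉ Submodule.span K (v '' Set.Iio b)) ∧
      (∀ b < r, v b ∈ S) ∧ Submodule.span K (v '' Set.Iio r) = S := by
  classical
  let bS := Module.finBasis K S
  let r := finrank K S
  let u : Fin r → Ix n → K := fun i => ((bS i : S) : Ix n → K)
  have hu : LinearIndependent K u := by
    have h := bS.linearIndependent.map' S.subtype (Submodule.ker_subtype S)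
    exact h
  let v : ℕ → Ix n → K := fun b => if h : b < r then u ⟨b, h⟩ else 0
  have hv : ∀ i : Fin r, v i = u i := fun i => dif_pos i.2
  have himg : ∀ b ≤ r, v '' Set.Iio b = u '' {i | (i : ℕ) < b} := by
    intro b hb
    ext x
    constructor
    · rintro ⟨k, hk, rfl⟩
      have hk' : k < b := hk
      exact ⟨⟨k, by omega⟩, hk', (hv ⟨k, by omega⟩).symm⟩
    · rintro ⟨i, hi, rfl⟩
      exact ⟨i, hi, hv i⟩
  refine ⟨v, r, ?_, ?_, ?_⟩
  · intro b hb
    rw [himg b hb.le, hv ⟨b, hb⟩]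
    apply hu.notMem_span_image
    exact fun h => lt_irrefl b h
  · intro b hb
    rw [hv ⟨b, hb⟩]
    exact (bS ⟨b, hb⟩).2
  · rw [himg r le_rfl]
    have h1 : {i : Fin r | (i : ℕ) < r} = Set.univ := by
      ext i; simp
    rw [h1, Set.image_univ]
    have h2 : Set.range u = S.subtype '' Set.range bS := by
      rw [← Set.range_comp]; rfl
    rw [h2, ← Submodule.map_span, bS.span_eq, Submodule.map_top, Submodule.range_subtype]

/-- the matrix of a basis family -/
def mat (b : Ix n → Ix n → K) : Matrix (Ix n) (Ix n) K := Matrix.of fun q p => b p q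

theorem Co_mat (b : Ix n → Ix n → K) (X : Ix n → Prop) :
    Co (mat b) X = Submodule.span K (b '' {p | X p}) := by
  rw [Co_eq_span]; rfl

/-- the weights of the arm `s` -/
noncomputable def wt (c : Cfg n a) (s : Fin 3) (p : Ix n) : ℝ := by
  classical
  exact 2 * ((Finset.univ.filter (fun d => c.arm d = s ∧ Gd c d p)).card : ℝ) -
    ((Finset.univ.filter (fun d => c.arm d = s)).card : ℝ)

theorem Gd_sw (c : Cfg n a) (d : c.δ) (p : Ix n) : ¬ Gd c d (sw p) ↔ Gd c (c.σ d) p := by
  have h := congrFun (Gd_hat c d) p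
  exact iff_of_eq h

theorem wt_sw (c : Cfg n a) (s : Fin 3) (p : Ix n) : wt c s (sw p) = - wt c s p := by
  classical
  unfold wt
  have h1 : (Finset.univ.filter (fun d => c.arm d = s ∧ Gd c d (sw p))).card +
      (Finset.univ.filter (fun d => c.arm d = s ∧ ¬ Gd c d (sw p))).card =
      (Finset.univ.filter (fun d => c.arm d = s)).card := by
    rw [← Finset.filter_filter, ← Finset.filter_filter]
    exact Finset.card_filter_add_card_filter_not _
  have h2 : (Finset.univ.filter (fun d => c.arm d = s ∧ ¬ Gd c d (sw p))).card =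
      (Finset.univ.filter (fun d => c.arm d = s ∧ Gd c d p)).card := by
    refine Finset.card_bij' (fun d _ => c.σ d) (fun d _ => c.σ d) ?_ ?_ ?_ ?_
    · intro d hd
      rw [Finset.mem_filter] at hd ⊢
      refine ⟨Finset.mem_univ _, by rw [c.arm_σ]; exact hd.2.1, ?_⟩
      exact (Gd_sw c d p).1 hd.2.2
    · intro d hd
      rw [Finset.mem_filter] at hd ⊢
      refine ⟨Finset.mem_univ _, by rw [c.arm_σ]; exact hd.2.1, ?_⟩
      rw [Gd_sw, c.inv]
      exact hd.2.2
    · intro d _; exact c.inv d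
    · intro d _; exact c.inv d
  have h3 : ((Finset.univ.filter (fun d => c.arm d = s ∧ Gd c d (sw p))).card : ℝ) +
      ((Finset.univ.filter (fun d => c.arm d = s ∧ Gd c d p)).card : ℝ) =
      ((Finset.univ.filter (fun d => c.arm d = s)).card : ℝ) := by
    rw [← h1, ← h2]
    push_cast
    ring
  linarith

theorem Gd_anti {c : Cfg n a} (R : Ranked c) {d e : c.δ} (h1 : c.arm d = c.arm e)
    (h2 : R.rk e ≤ R.rk d) (p : Ix n) (h : Gd c d p) : Gd c e p := by
  rcases p with i | i
  · exact R.anti d e h1 h2 i h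
  · intro h'
    refine h (R.anti (c.σ e) (c.σ d) (by rw [c.arm_σ, c.arm_σ, h1]) ?_ i h')
    rw [R.rk_σ, R.rk_σ]
    omega

/-- the columns are up-sets for the weights -/
theorem wt_lt {c : Cfg n a} (R : Ranked c) {s : Fin 3} {d : c.δ} (hd : c.arm d = s)
    {p q : Ix n} (hp : Gd c d p) (hq : ¬ Gd c d q) : wt c s q < wt c s p := by
  classical
  unfold wt
  have h1 : (Finset.univ.filter (fun e => c.arm e = s ∧ Gd c e q)).card <
      (Finset.univ.filter (fun e => c.arm e = s ∧ Gd c e p)).card := by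
    apply Finset.card_lt_card
    refine ⟨?_, ?_⟩
    · intro e he
      have he' := (Finset.mem_filter.1 he).2
      refine Finset.mem_filter.2 ⟨Finset.mem_univ _, he'.1, ?_⟩
      rcases le_total (R.rk e) (R.rk d) with h | h
      · exact Gd_anti R (by rw [hd, he'.1]) h p hp
      · exact absurd (Gd_anti R (by rw [hd, he'.1]) h q he'.2) hq
    · intro h
      have h2 := h (Finset.mem_filter.2 ⟨Finset.mem_univ d, hd, hp⟩)
      exact hq (Finset.mem_filter.1 h2).2.2
  have h2 : ((Finset.univ.filter (fun e => c.arm e = s ∧ Gd c e q)).card : ℝ) <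
      ((Finset.univ.filter (fun e => c.arm e = s ∧ Gd c e p)).card : ℝ) := by exact_mod_cast h1
  linarith

/-- the columns are sup-level sets of the weights -/
theorem exists_level {c : Cfg n a} (R : Ranked c) {s : Fin 3} {d : c.δ} (hd : c.arm d = s) :
    ∃ u : ℝ, ∀ p, Gd c d p ↔ u ≤ wt c s p := by
  classical
  by_cases hne : (Finset.univ.filter fun p => Gd c d p).Nonempty
  · obtain ⟨p0, hp0, hmin⟩ := Finset.exists_min_image _ (wt c s) hne
    refine ⟨wt c s p0, fun p => ⟨fun hp => hmin p (Finset.mem_filter.2 ⟨Finset.mem_univ _, hp⟩), ?_⟩⟩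
    intro h
    by_contra hc
    exact absurd h (not_le.mpr (wt_lt R hd (Finset.mem_filter.1 hp0).2 hc))
  · rw [Finset.not_nonempty_iff_eq_empty] at hne
    obtain ⟨u, hu⟩ : ∃ u : ℝ, ∀ p, wt c s p < u := by
      refine ⟨∑ p, |wt c s p| + 1, fun p => ?_⟩
      have h1 := Finset.single_le_sum (f := fun p => |wt c s p|) (fun _ _ => abs_nonneg _)
        (Finset.mem_univ p)
      have h2 := le_abs_self (wt c s p)
      linarith
    refine ⟨u, fun p => ⟨fun hp => ?_, fun h => absurd h (not_le.mpr (hu p))⟩⟩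
    have : p ∈ (Finset.univ.filter fun p => Gd c d p) :=
      Finset.mem_filter.2 ⟨Finset.mem_univ _, hp⟩
    rw [hne] at this
    simp at this

theorem finrank_Vge (b : Basis (Ix n) K (Ix n → K)) (lam : Ix n → ℝ) (u : ℝ) :
    finrank K (Adapt.Vge K b lam u) = Nat.card {i | u ≤ lam i} := by
  classical
  have h2 : b '' {i | u ≤ lam i} = Set.range (fun i : {i | u ≤ lam i} => b i) := by
    rw [Set.image_eq_range]
  rw [Adapt.Vge, h2]
  have h3 := finrank_span_eq_card (b.linearIndependent.comp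
    (Subtype.val : {i | u ≤ lam i} → Ix n) Subtype.val_injective)
  rw [← Nat.card_eq_fintype_card] at h3
  exact h3

/-- **a common frame of one arm and an isotropic subspace** -/
theorem exists_frame1 {c : Cfg n a} (R : Ranked c) {s : Fin 3} {g : Matrix (Ix n) (Ix n) K}
    (hg : Orth g) {S : Submodule K (Ix n → K)} (hS : Ind.Iso S) :
    ∃ h : Matrix (Ix n) (Ix n) K, Orth h ∧ (∃ X : Ix n → Prop, S = Co h X) ∧
      ∀ d, c.arm d = s → Co g (Gd c d) = Co h (Gd c d) := by
  classical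
  rcases Nat.eq_zero_or_pos n with hn | hn
  · subst hn
    refine ⟨1, orth_one, ⟨fun _ => True, Subsingleton.elim _ _⟩, fun d _ => Subsingleton.elim _ _⟩
  have : Nonempty (Ix n) := ⟨Sum.inl ⟨0, hn⟩⟩
  -- the columns of `g`
  have hcol : ∀ p q, form n K (fun x => g x p) (fun x => g x q) = if q = sw p then 1 else 0 := by
    intro p q
    have h1 : (fun x => g x p) = g *ᵥ Pi.single p 1 := by
      funext x; rw [mulVec_single_one]; rfl
    have h2 : (fun x => g x q) = g *ᵥ Pi.single q 1 := by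
      funext x; rw [mulVec_single_one]; rfl
    rw [h1, h2, form_mulVec hg, form_single, Pi.single_apply]
    by_cases h : q = sw p
    · rw [if_pos h, h, sw_sw, if_pos rfl]
    · rw [if_neg h, if_neg]
      intro h'
      exact h (by rw [← h', sw_sw])
  have hyp0 : Adapt.Hyp (form n K) sw (fun p => fun x => g x p) := hcol
  let e : Basis (Ix n) K (Ix n → K) := hyp0.toBasis (Pi.basisFun K (Ix n)) (fun p => sw_sw p)
  have he0 : ⇑e = fun p => fun x => g x p := Adapt.Hyp.coe_toBasis _ _ _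
  have he : Adapt.Hyp (form n K) sw e := by rw [he0]; exact hyp0
  obtain ⟨v, r, hli, hvS, hspan⟩ := exists_seq S
  obtain ⟨b, hb, hbe, j, -, -, hj⟩ := Adapt.exists_adapted (form_isSymm (n := n) (K := K))
    (inv := sw) (fun p => sw_sw p) e he (wt c s) (wt_sw c s) (by
      intro i j hi _
      exfalso
      rcases i with i | i
      · rw [sw_inl] at hi; exact absurd hi (by simp)
      · rw [sw_inr] at hi; exact absurd hi (by simp)) v r hli
    (fun x hx y hy => hS _ (hvS x hx) _ (hvS y hy))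
  refine ⟨mat b, ?_, ⟨fun p => ∃ k < r, j k = p, ?_⟩, ?_⟩
  · apply orth_of_cols
    intro p q
    exact hb p q
  · rw [Co_mat, ← hspan, hj r le_rfl]
    congr 1
    ext x
    constructor
    · rintro ⟨k, hk, rfl⟩
      exact ⟨j k, ⟨k, hk, rfl⟩, rfl⟩
    · rintro ⟨p, ⟨k, hk, rfl⟩, rfl⟩
      exact ⟨k, hk, rfl⟩
  · intro d hd
    obtain ⟨u, hu⟩ := exists_level R hd
    have h1 : Co g (Gd c d) = Adapt.Vge K e (wt c s) u := by
      rw [Co_eq_span, Adapt.Vge, he0]
      congr 2
      ext p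
      exact hu p
    have h2 : Co (mat b) (Gd c d) = Adapt.Vge K b (wt c s) u := by
      rw [Co_mat, Adapt.Vge]
      congr 2
      ext p
      exact hu p
    rw [h1, h2]
    symm
    apply Submodule.eq_of_le_of_finrank_eq (Adapt.Vge_le_of_mem _ hbe u)
    rw [finrank_Vge, finrank_Vge]

/-- **common frames** -/
theorem exists_frame {c : Cfg n a} (R : Ranked c) {g : Fin 3 → Matrix (Ix n) (Ix n) K}
    (hg : ∀ s, Orth (g s)) {S : Submodule K (Ix n → K)} (hS : Ind.Iso S) :
    ∃ h : Fin 3 → Matrix (Ix n) (Ix n) K, (∀ s, Orth (h s)) ∧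
      (∀ s, ∃ X : Ix n → Prop, S = Co (h s) X) ∧ ∀ d, CC c g d = CC c h d := by
  choose h h1 h2 h3 using fun s => exists_frame1 R (s := s) (hg s) hS
  exact ⟨h, h1, h2, fun d => h3 (c.arm d) d rfl⟩

theorem N_eq {c : Cfg n a} {g h : Fin 3 → Matrix (Ix n) (Ix n) K}
    (H : ∀ d, CC c g d = CC c h d) : c.N g = c.N h := by
  ext F
  rw [mem_N'', mem_N'']
  simp only [H]

end frames

section der

variable {K : Type} [Field K] [Algebra ℂ K]

theorem act_mul_D {δ : Type*} [Fintype δ] [DecidableEq δ] (arm : δ → Fin 3)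
    (h : Fin 3 → Matrix (Ix n) (Ix n) K) (D : Derivation ℂ K K) (F : Matrix (Ix n) δ K) :
    (FO.act arm h F).map D = FO.act arm (fun s => (h s).map D) F + FO.act arm h (F.map D) := by
  ext p d
  rw [Matrix.map_apply, Matrix.add_apply, act_apply, act_apply, act_apply]
  have h1 := congrFun (congrFun (map_mul_D D (h (arm d)) F) p) d
  rw [Matrix.map_apply, Matrix.add_apply] at h1
  exact h1

theorem nstd_D (c : Cfg n a) (D : Derivation ℂ K K) {F : Matrix (Ix n) c.δ K}
    (hF : F ∈ c.nstd K) : F.map D ∈ c.nstd K := by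
  intro i d
  refine ⟨fun h => ?_, fun h => ?_⟩
  · rw [Matrix.map_apply, (hF i d).1 h, map_zero]
  · rw [Matrix.map_apply, (hF i d).2 h, map_zero]

/-- **logarithmic derivatives of common frames** -/
theorem exists_log {c : Cfg n a} (R : Ranked c) {g : Fin 3 → Matrix (Ix n) (Ix n) K}
    (hg : ∀ s, Orth (g s)) {S : Submodule K (Ix n → K)} (hS : Ind.Iso S)
    (D : Derivation ℂ K K) :
    ∃ Y : Fin 3 → Matrix (Ix n) (Ix n) K, (∀ s, IsSo (Y s)) ∧
      (∀ F ∈ c.N g, F.map D - FO.act c.arm Y F ∈ c.N g) ∧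
      ∀ s, ∀ v ∈ S, (fun i => D (v i)) - Y s *ᵥ v ∈ S := by
  obtain ⟨h, h1, h2, h3⟩ := exists_frame R hg hS
  choose Y hY1 hY2 using fun s => exists_logD (h1 s) D
  refine ⟨Y, hY1, ?_, ?_⟩
  · intro F hF
    rw [N_eq h3] at hF ⊢
    obtain ⟨G, hG, rfl⟩ := c.mem_N.1 hF
    have e : (FO.act c.arm h G).map D - FO.act c.arm Y (FO.act c.arm h G) =
        FO.act c.arm h (G.map D) := by
      rw [act_mul_D, act_act]
      simp only [hY2]
      abel
    rw [e]
    exact c.mem_N.2 ⟨_, nstd_D c D hG, rfl⟩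
  · intro s v hv
    obtain ⟨X, hX⟩ := h2 s
    rw [hX] at hv ⊢
    obtain ⟨x, hx, rfl⟩ := mem_Co.1 hv
    have e : (fun i => D ((h s *ᵥ x) i)) - Y s *ᵥ (h s *ᵥ x) = h s *ᵥ (fun i => D (x i)) := by
      rw [mulVec_D, mulVec_mulVec, hY2]
      abel
    rw [e]
    refine mem_Co.2 ⟨_, fun p hp => ?_, rfl⟩
    rw [hx p hp, map_zero]

/-- the column space of a matrix -/
def colS {δ : Type*} [Fintype δ] (F : Matrix (Ix n) δ K) : Submodule K (Ix n → K) :=
  LinearMap.range (mulVecLin F)

theorem iso_colS {δ : Type*} [Fintype δ] {F : Matrix (Ix n) δ K} (hF : Fᵀ * Jm n K * F = 0) :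
    Ind.Iso (colS F) := by
  rintro _ ⟨x, rfl⟩ _ ⟨y, rfl⟩
  rw [mulVecLin_apply, mulVecLin_apply, form_eq, mulVec_mulVec, dotProduct_mulVec,
    vecMul_mulVec, ← dotProduct_mulVec, ← Matrix.mul_assoc, hF, zero_mulVec, dotProduct_zero]

/-- **the field `frame` of `Qt.Ctx`** -/
theorem ctx_frame {c : Cfg n a} (R : Ranked c) {g : Fin 3 → Matrix (Ix n) (Ix n) K}
    (hg : ∀ s, Orth (g s)) {F : Matrix (Ix n) c.δ K} (hF : Fᵀ * Jm n K * F = 0)
    (D : Derivation ℂ K K) :
    ∃ Y : Fin 3 → Matrix (Ix n) (Ix n) K, (∀ s, (Y s)ᵀ * Jm n K + Jm n K * Y s = 0) ∧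
      (∀ G ∈ c.N g, G.map D - FO.act c.arm Y G ∈ c.N g) ∧
      ∀ s, ∃ C : Matrix c.δ c.δ K, F.map D - Y s * F = F * C := by
  obtain ⟨Y, h1, h2, h3⟩ := exists_log R hg (iso_colS hF) D
  refine ⟨Y, h1, h2, fun s => ?_⟩
  have h4 : ∀ d, ∃ x : c.δ → K, F *ᵥ x = fun i => D (F i d) - (Y s * F) i d := by
    intro d
    have h5 : (fun i => F i d) ∈ colS F := by
      refine ⟨Pi.single d 1, ?_⟩
      rw [mulVecLin_apply, mulVec_single_one]
      rfl
    obtain ⟨x, hx⟩ := h3 s _ h5
    refine ⟨x, ?_⟩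
    rw [mulVecLin_apply] at hx
    rw [hx]
    funext i
    rfl
  choose x hx using h4
  refine ⟨Matrix.of fun e d => x d e, ?_⟩
  ext i d
  have h5 := congrFun (hx d) i
  rw [Matrix.sub_apply, Matrix.map_apply, ← h5]
  rfl

end der

end Crest.Agent.R172.CtxFr
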