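import Mathlib
import Crest.Agent.R172.Span2

/-! # Row 172: the abstract end with arbitrary radical, sign version.

The statement is literally helper514's frozen `RJ.main` (note 16051). -/

open TensorProduct Module

namespace Crest.Agent.R172.RJM

variable {K : Type*} [Field K] {P1 P2 E τ : Type*} [AddCommGroup P1] [Module K P1]
  [AddCommGroup P2] [Module K P2] [AddCommGroup E] [Module K E] [Fintype τ]

/-- `R ⊗ P1` -/
def RT (R : Submodule K P2) : Submodule K (P2 ⊗[K] P1) :=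
  Submodule.span K {z | ∃ r ∈ R, ∃ p : P1, z = r ⊗ₜ[K] p}

/-- `P2 ⊗ R` -/
def TR (R : Submodule K P1) : Submodule K (P2 ⊗[K] P1) :=
  Submodule.span K {z | ∃ p : P2, ∃ r ∈ R, z = p ⊗ₜ[K] r}

/-- the operator `1 ⊗ A_t - c B_t ⊗ 1` -/
noncomputable def DD (A : τ → End K P1) (B : τ → End K P2) (c : K) (t : τ) :
    P2 ⊗[K] P1 →ₗ[K] P2 ⊗[K] P1 :=
  (A t).lTensor P2 - c • (B t).rTensor P1

/-- exact families at `c` -/
structure Ex (A : τ → End K P1) (B : τ → End K P2) (R1 : Submodule K P1) (R2 : Submodule K P2)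
    (c : K) (x : τ → P2 ⊗[K] P1) : Prop where
  sum : ∑ t, DD A B c t (x t) = 0
  arm : ∀ t, DD A B c t (x t) ∈ (RT R2 ⊔ TR R1 : Submodule K (P2 ⊗[K] P1))

/-- the transpose `p2 ⊗ p1 ↦ (p ↦ g p2 p • p1)` -/
noncomputable def ev (g : P2 →ₗ[K] P2 →ₗ[K] K) : P2 ⊗[K] P1 →ₗ[K] (P2 →ₗ[K] P1) :=
  TensorProduct.lift (LinearMap.mk₂ K (fun p2 p1 => (g p2).smulRight p1)
    (fun a b p => by ext q; simp [add_smul]) (fun a b p => by ext q; simp [mul_smul])
    (fun a p p' => by ext q; simp) (fun a b p => by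
      ext q
      simp only [LinearMap.smulRight_apply, LinearMap.smul_apply]
      rw [smul_comm]))

/-- `b` is the correction of `x` at `c` -/
structure Cor (A : τ → End K P1) (B : τ → End K P2) (R1 : Submodule K P1)
    (g : P2 →ₗ[K] P2 →ₗ[K] K) (eps c : K) (x : τ → P2 ⊗[K] P1) (b : P2 →ₗ[K] P1) : Prop where
  mem : ∀ p, b p ∈ R1
  eq : ∀ t p, A t (b p) - (eps * c) • b (B t p)
    = A t (ev g (x t) p) - (eps * c) • ev g (x t) (B t p)

omit [Fintype τ] in
@[simp] theorem ev_tmul (g : P2 →ₗ[K] P2 →ₗ[K] K) (p2 : P2) (p1 : P1) (p : P2) :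
    ev g (p2 ⊗ₜ[K] p1) p = g p2 p • p1 := by
  simp [ev]

omit [Fintype τ] in
lemma Rad_le (R1 : Submodule K P1) (R2 : Submodule K P2) :
    Span2.Rad R1 R2 ≤ RT R2 ⊔ TR R1 := by
  rw [Span2.Rad, Submodule.span_le]
  rintro _ ⟨p2, p1, h | h, rfl⟩
  · exact Submodule.mem_sup_left (Submodule.subset_span ⟨p2, h, p1, rfl⟩)
  · exact Submodule.mem_sup_right (Submodule.subset_span ⟨p2, p1, h, rfl⟩)

lemma Ex_of {A : τ → End K P1} {B : τ → End K P2} {R1 : Submodule K P1} {R2 : Submodule K P2}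
    {c : K} {x : τ → P2 ⊗[K] P1} (h : Span2.Ex A B R1 R2 c x) : Ex A B R1 R2 c x :=
  ⟨h.sum, fun t => Rad_le R1 R2 (h.rad t)⟩

omit [Fintype τ] in
lemma ev_DD (A : τ → End K P1) (B : τ → End K P2)
    {g : P2 →ₗ[K] P2 →ₗ[K] K} {eps : K} (gB : ∀ t p p', g (B t p) p' = eps * g p (B t p'))
    (c : K) (t : τ) (z : P2 ⊗[K] P1) (p : P2) :
    ev g (DD A B c t z) p = A t (ev g z p) - (eps * c) • ev g z (B t p) := by
  induction z using TensorProduct.induction_on with
  | zero => simp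
  | tmul x y =>
    simp only [DD, LinearMap.sub_apply, LinearMap.smul_apply, LinearMap.lTensor_tmul,
      LinearMap.rTensor_tmul, map_sub, map_smul, ev_tmul, gB, smul_smul]
    congr 2
    ring
  | add x y hx hy =>
    rw [map_add, map_add, LinearMap.add_apply, hx, hy, map_add, LinearMap.add_apply,
      LinearMap.add_apply, map_add, smul_add]
    abel

omit [Fintype τ] in
lemma ev_zero_of {g : P2 →ₗ[K] P2 →ₗ[K] K} {r : P2} (h : ∀ p, g p r = 0) (z : P2 ⊗[K] P1) :
    ev g z r = 0 := by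
  induction z using TensorProduct.induction_on with
  | zero => simp
  | tmul p2 p1 => simp [h p2]
  | add a b ha hb => rw [map_add, LinearMap.add_apply, ha, hb, add_zero]

/-- a functional of the correction which is a Laurent functional of the defects. -/
def Good (A : τ → End K P1) (B : τ → End K P2)
    (R1 : Submodule K P1) (R2 : Submodule K P2) (g : P2 →ₗ[K] P2 →ₗ[K] K) (eps : K) (Λ : Set K)
    (Θ : (P2 →ₗ[K] P1) → K) : Prop :=
  ∃ θ : K → τ → P2 →ₗ[K] P1 →ₗ[K] K,
    (∀ c ∈ Λ, ∀ t, ∀ r ∈ R2, ∀ p, θ c t r p = 0) ∧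
    (∀ t p2 p1, Span2.Neg Λ (fun c => θ c t p2 p1)) ∧
    ∀ c ∈ Λ, ∀ x β, Cor A B R1 g eps c x β →
      Θ β = ∑ t, TensorProduct.lift (θ c t) (DD A B c t (x t))

section Good

variable {A : τ → End K P1} {B : τ → End K P2}
  {R1 : Submodule K P1} {R2 : Submodule K P2} {g : P2 →ₗ[K] P2 →ₗ[K] K} {eps : K} {Λ : Set K}

lemma Good.congr {Θ Θ' : (P2 →ₗ[K] P1) → K} (h : Good A B R1 R2 g eps Λ Θ)
    (e : ∀ c ∈ Λ, ∀ x β, Cor A B R1 g eps c x β → Θ' β = Θ β) :
    Good A B R1 R2 g eps Λ Θ' := by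
  obtain ⟨θ, h1, h2, h3⟩ := h
  exact ⟨θ, h1, h2, fun c hc x β hβ => (e c hc x β hβ).trans (h3 c hc x β hβ)⟩

lemma Good.zero : Good A B R1 R2 g eps Λ (fun _ => 0) :=
  ⟨fun _ _ => 0, fun c _ t r _ p => by simp,
    fun t p2 p1 => Span2.Neg.zero.congr fun c _ => by simp,
    fun c _ x β _ => by simp [Span2.lift_zero_apply]⟩

lemma Good.add {Θ Θ' : (P2 →ₗ[K] P1) → K} (h : Good A B R1 R2 g eps Λ Θ)
    (h' : Good A B R1 R2 g eps Λ Θ') : Good A B R1 R2 g eps Λ (fun β => Θ β + Θ' β) := by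
  obtain ⟨θ, h1, h2, h3⟩ := h
  obtain ⟨θ', h1', h2', h3'⟩ := h'
  refine ⟨fun c t => θ c t + θ' c t, fun c hc t r hr p => ?_, fun t p2 p1 => ?_,
    fun c hc x β hβ => ?_⟩
  · simp [h1 c hc t r hr p, h1' c hc t r hr p]
  · exact ((h2 t p2 p1).add (h2' t p2 p1)).congr fun c _ => by simp
  · show Θ β + Θ' β = _
    rw [h3 c hc x β hβ, h3' c hc x β hβ, ← Finset.sum_add_distrib]
    exact Finset.sum_congr rfl fun t _ => (Span2.lift_add_apply _ _ _).symm

lemma Good.smul {Θ : (P2 →ₗ[K] P1) → K} (h : Good A B R1 R2 g eps Λ Θ) (a : K) :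
    Good A B R1 R2 g eps Λ (fun β => a * Θ β) := by
  obtain ⟨θ, h1, h2, h3⟩ := h
  refine ⟨fun c t => a • θ c t, fun c hc t r hr p => ?_, fun t p2 p1 => ?_,
    fun c hc x β hβ => ?_⟩
  · simp [h1 c hc t r hr p]
  · exact ((h2 t p2 p1).const_mul a).congr fun c _ => by simp
  · show a * Θ β = _
    rw [h3 c hc x β hβ, Finset.mul_sum]
    exact Finset.sum_congr rfl fun t _ => (Span2.lift_smul_apply _ _ _).symm

lemma Good.point (hB : ⨆ t, LinearMap.range (B t) = ⊤)
    (hg1 : ∀ r ∈ R2, ∀ p, g r p = 0) (heps : eps ≠ 0)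
    (hgB : ∀ t p p', g (B t p) p' = eps * g p (B t p')) (h0 : (0 : K) ∉ Λ) :
    ∀ n, ∀ ξ : P1 →ₗ[K] K, (∀ r ∈ Span2.Dn A R1 n, ξ r = 0) → ∀ p : P2,
      Good A B R1 R2 g eps Λ (fun β => ξ (β p)) := by
  classical
  have pB : ∀ p : P2, p ∈ ⨆ t, LinearMap.range (B t) := fun p => by rw [hB]; trivial
  intro n
  induction n with
  | zero =>
    intro ξ hξ p
    exact Good.zero.congr fun c hc x β hβ => hξ _ (hβ.mem p)
  | succ n ih =>
    intro ξ hξ p
    refine Submodule.iSup_induction (fun t => LinearMap.range (B t))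
      (motive := fun p => Good A B R1 R2 g eps Λ (fun β => ξ (β p))) (pB p) ?_ ?_ ?_
    · rintro s _ ⟨p, rfl⟩
      obtain ⟨θ, h1, h2, h3⟩ := (ih (ξ ∘ₗ A s)
        (fun r hr => hξ _ (Span2.apply_mem_Dn hr s)) p).smul eps⁻¹
      refine ⟨fun c t => c⁻¹ • θ c t -
          (if t = s then c⁻¹ • eps⁻¹ • (g.flip p).smulRight ξ else 0),
        fun c hc t r hr p' => ?_, fun t p2 p1 => ?_, fun c hc x β hβ => ?_⟩
      · by_cases ht : t = s
        · simp [ht, h1 c hc s r hr p', hg1 r hr p]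
        · simp [ht, h1 c hc t r hr p']
      · by_cases ht : t = s
        · refine ((h2 t p2 p1).inv_mul.sub
            (Span2.Neg.inv_const (eps⁻¹ * (g p2 p * ξ p1)))).congr fun c _ => ?_
          simp [ht]
        · refine (h2 t p2 p1).inv_mul.congr fun c _ => ?_
          simp [ht]
      · have hc0 : c ≠ 0 := fun h => h0 (h ▸ hc)
        have e1 := hβ.eq s p
        rw [← ev_DD A B hgB] at e1
        have e2 := congrArg ξ e1
        rw [map_sub, map_smul, smul_eq_mul] at e2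
        have e3 := h3 c hc x β hβ
        simp only [LinearMap.comp_apply] at e3
        have e4 : ξ (ev g (DD A B c s (x s)) p) =
            TensorProduct.lift ((g.flip p).smulRight ξ) (DD A B c s (x s)) := by
          generalize DD A B c s (x s) = z
          induction z using TensorProduct.induction_on with
          | zero => simp
          | tmul x y => simp
          | add x y hx hy => rw [map_add, LinearMap.add_apply, map_add, hx, hy, map_add]
        have e5 : ∑ t, TensorProduct.lift (c⁻¹ • θ c t -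
            (if t = s then c⁻¹ • eps⁻¹ • (g.flip p).smulRight ξ else 0))
              (DD A B c t (x t)) =
            c⁻¹ * (∑ t, TensorProduct.lift (θ c t) (DD A B c t (x t))) -
            c⁻¹ * (eps⁻¹ * TensorProduct.lift ((g.flip p).smulRight ξ)
              (DD A B c s (x s))) := by
          rw [Finset.mul_sum]
          simp only [Span2.lift_sub_apply, Span2.lift_smul_apply, Finset.sum_sub_distrib]
          congr 1
          rw [Finset.sum_eq_single s]
          · rw [if_pos rfl, Span2.lift_smul_apply, Span2.lift_smul_apply]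
          · intro t _ ht
            rw [if_neg ht, Span2.lift_zero_apply]
          · intro h
            exact absurd (Finset.mem_univ s) h
        simp only
        rw [e5, ← e3, ← e4]
        have e6 : c⁻¹ * c = 1 := inv_mul_cancel₀ hc0
        have e7 : eps⁻¹ * eps = 1 := inv_mul_cancel₀ heps
        linear_combination (-c⁻¹ * eps⁻¹) * e2 - ξ (β (B s p)) * e6 * (eps⁻¹ * eps) -
          ξ (β (B s p)) * e7
    · exact Good.zero.congr fun c _ x β _ => by simp
    · intro x y hx hy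
      exact (hx.add hy).congr fun c _ x β _ => by simp

lemma Good.sum {ι : Type*} (S : Finset ι) {Θ : ι → (P2 →ₗ[K] P1) → K}
    (h : ∀ i ∈ S, Good A B R1 R2 g eps Λ (Θ i)) :
    Good A B R1 R2 g eps Λ (fun β => ∑ i ∈ S, Θ i β) := by
  classical
  induction S using Finset.induction_on with
  | empty => exact Good.zero.congr fun c _ x β _ => by simp
  | insert a S ha ih =>
    have h1 := h a (Finset.mem_insert_self a S)
    have h2 := ih fun i hi => h i (Finset.mem_insert_of_mem hi)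
    exact (h1.add h2).congr fun c _ x β _ => by rw [Finset.sum_insert ha]

end Good

/-- the standing hypotheses. -/
structure Hyp (A : τ → End K P1) (B : τ → End K P2) (R1 : Submodule K P1)
    (R2 : Submodule K P2) (m : ℕ) (l : τ → ℕ) (g : P2 →ₗ[K] P2 →ₗ[K] K) (eps : K)
    (Λ : Set K) : Prop where
  hA : ⨆ t, LinearMap.range (A t) = ⊤
  hB : ⨆ t, LinearMap.range (B t) = ⊤
  sR1 : ∀ t, R1.map (A t) ≤ R1
  sR2 : ∀ t, R2.map (B t) ≤ R2
  n1 : Span2.Dn A R1 m = ⊥
  n2 : Span2.Dn B R2 m = ⊥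
  lpos : ∀ s, 0 < l s
  l1 : ∀ s p, (A s ^ l s) p ∈ R1
  l2 : ∀ s p, (B s ^ l s) p ∈ R2
  gen1 : ∀ X : Submodule K P1, (∀ t, X.map (A t) ≤ X) → (∀ s p, (A s ^ l s) p ∈ X) → R1 ≤ X
  gen2 : ∀ X : Submodule K P2, (∀ t, X.map (B t) ≤ X) → (∀ s p, (B s ^ l s) p ∈ X) → R2 ≤ X
  eps0 : eps ≠ 0
  rad1 : ∀ r ∈ R2, ∀ p, g r p = 0
  rad2 : ∀ r ∈ R2, ∀ p, g p r = 0
  adj : ∀ t p p', g (B t p) p' = eps * g p (B t p')
  ne : ∀ s, ∃ p p', g ((B s ^ (l s - 1)) p) p' ≠ 0
  inf : Λ.Infinite
  zero : (0 : K) ∉ Λ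

section Main

variable {A : τ → End K P1} {B : τ → End K P2}
  {R1 : Submodule K P1} {R2 : Submodule K P2} {m : ℕ} {l : τ → ℕ}
  {g : P2 →ₗ[K] P2 →ₗ[K] K} {eps : K} {Λ : Set K}

theorem Hyp.key0 (H : Hyp A B R1 R2 m l g eps Λ) (η : τ → P2 →ₗ[K] P1 →ₗ[K] K)
    (h : ∀ c ∈ Λ, ∀ x, Ex A B R1 R2 c x → ∑ t, TensorProduct.lift (η t) (x t) = 0) :
    (∀ t, ∀ r ∈ R2, ∀ p, η t r p = 0) ∧
    (∀ s i j, i + j + 1 = l s → ∀ p2 p1, η s ((B s ^ j) p2) ((A s ^ i) p1) = 0) :=
  Span2.key H.hA H.hB H.sR1 H.sR2 H.n1 H.n2 H.l1 H.l2 H.gen2 H.inf H.zero η (fun _ _ => 0)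
    (fun c _ t r _ p => by simp)
    (fun t p2 p1 => Span2.Neg.zero.congr fun c _ => by simp)
    (fun c hc x hx => by simpa [Span2.lift_zero_apply] using h c hc x (Ex_of hx))

/-- step 0: a functional of `x` and of its correction. -/
theorem Hyp.step0 (H : Hyp A B R1 R2 m l g eps Λ)
    (hex : ∀ c ∈ Λ, ∀ x, Ex A B R1 R2 c x → ∃ β, Cor A B R1 g eps c x β)
    (η : τ → P2 →ₗ[K] P1 →ₗ[K] K) {Θ : (P2 →ₗ[K] P1) → K}
    (hΘ : Good A B R1 R2 g eps Λ Θ)
    (h : ∀ c ∈ Λ, ∀ x β, Ex A B R1 R2 c x → Cor A B R1 g eps c x β →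
      ∑ t, TensorProduct.lift (η t) (x t) + Θ β = 0) :
    ∀ t, ∀ r ∈ R2, ∀ p, η t r p = 0 := by
  obtain ⟨θ, h1, h2, h3⟩ := hΘ
  refine (Span2.key H.hA H.hB H.sR1 H.sR2 H.n1 H.n2 H.l1 H.l2 H.gen2 H.inf H.zero
    η θ h1 h2 (fun c hc x hx => ?_)).1
  obtain ⟨β, hβ⟩ := hex c hc x (Ex_of hx)
  have e1 := h c hc x β (Ex_of hx) hβ
  rw [h3 c hc x β hβ] at e1
  rw [Finset.sum_add_distrib]
  exact e1

lemma Hyp.good (H : Hyp A B R1 R2 m l g eps Λ) (f : P1 →ₗ[K] P1 →ₗ[K] K)
    (z : P2 ⊗[K] P1) :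
    Good A B R1 R2 g eps Λ (fun β => TensorProduct.lift (f ∘ₗ β) z) := by
  induction z using TensorProduct.induction_on with
  | zero => exact Good.zero.congr fun c _ x β _ => by simp
  | tmul p2 p1 =>
    refine (Good.point (R1 := R1) H.hB H.rad1 H.eps0 H.adj H.zero m (f.flip p1)
      (fun r hr => ?_) p2).congr fun c _ x β _ => by simp
    rw [H.n1] at hr
    have : r = 0 := hr
    rw [this, map_zero]
  | add a b ha hb => exact (ha.add hb).congr fun c _ x β _ => by simp

/-- step 2: Nakayama. -/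
theorem Hyp.step2 (H : Hyp A B R1 R2 m l g eps Λ)
    (hex : ∀ c ∈ Λ, ∀ x, Ex A B R1 R2 c x → ∃ β, Cor A B R1 g eps c x β)
    (Y : Submodule K P1)
    (hY : ∀ c ∈ Λ, ∀ x β, Ex A B R1 R2 c x → Cor A B R1 g eps c x β → ∀ r ∈ R2, β r ∈ Y) :
    R1 ≤ Y := by
  classical
  set Z : Submodule K P1 := Submodule.span K
    {z | ∃ c ∈ Λ, ∃ x β, Ex A B R1 R2 c x ∧ Cor A B R1 g eps c x β ∧ ∃ r ∈ R2, z = β r}
    with hZ
  have hZY : Z ≤ Y := by
    rw [hZ, Submodule.span_le]
    rintro _ ⟨c, hc, x, β, hx, hβ, r, hr, rfl⟩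
    exact hY c hc x β hx hβ r hr
  have ev0 : ∀ z : P2 ⊗[K] P1, ∀ r ∈ R2, ev g z r = 0 :=
    fun z r hr => ev_zero_of (H.rad2 r hr) z
  have hZs : ∀ t, Z.map (A t) ≤ Z := by
    intro t
    rw [hZ, Submodule.map_span, Submodule.span_le]
    rintro _ ⟨_, ⟨c, hc, x, β, hx, hβ, r, hr, rfl⟩, rfl⟩
    have hBr : B t r ∈ R2 := H.sR2 t (Submodule.mem_map_of_mem hr)
    have e1 := hβ.eq t r
    rw [ev0 _ r hr, ev0 _ _ hBr, map_zero, smul_zero, sub_zero, sub_eq_zero] at e1
    rw [e1]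
    exact Submodule.smul_mem _ _ (Submodule.subset_span ⟨c, hc, x, β, hx, hβ, _, hBr, rfl⟩)
  have hgen : ∀ s p, (A s ^ l s) p ∈ Z ⊔ Span2.Dn A R1 1 := by
    intro s p
    by_contra hcon
    obtain ⟨ξ, hξ, hker⟩ := Submodule.exists_le_ker_of_notMem hcon
    have kZ : ∀ z ∈ Z, ξ z = 0 := fun z hz => hker (Submodule.mem_sup_left hz)
    have kD : ∀ z ∈ Span2.Dn A R1 1, ξ z = 0 := fun z hz => hker (Submodule.mem_sup_right hz)
    obtain ⟨p2, p2', hne⟩ := H.ne s
    have hk := (H.key0 (fun t => if t = s then (g.flip p2').smulRight (ξ ∘ₗ (A s ^ l s)) else 0)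
      (fun c hc x hx => by
        obtain ⟨β, hβ⟩ := hex c hc x hx
        rw [Finset.sum_eq_single s]
        · rw [if_pos rfl]
          have e4 : TensorProduct.lift ((g.flip p2').smulRight (ξ ∘ₗ (A s ^ l s))) (x s) =
              ξ ((A s ^ l s) (ev g (x s) p2')) := by
            generalize x s = z
            induction z using TensorProduct.induction_on with
            | zero => simp
            | tmul x y => simp
            | add x y hx hy =>
              rw [map_add, hx, hy, map_add, LinearMap.add_apply, map_add, map_add]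
          rw [e4]
          have e5 : ∀ n q, (A s ^ n) (β q - ev g (x s) q) =
              (eps * c) ^ n • (β ((B s ^ n) q) - ev g (x s) ((B s ^ n) q)) := by
            intro n
            induction n with
            | zero => intro q; simp
            | succ n ih =>
              intro q
              have e6 : A s (β q - ev g (x s) q) =
                  (eps * c) • (β (B s q) - ev g (x s) (B s q)) := by
                have := hβ.eq s q
                rw [map_sub, smul_sub]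
                rw [sub_eq_iff_eq_add] at this ⊢
                rw [this]
                abel
              have e7 : (A s ^ (n + 1)) (β q - ev g (x s) q) =
                  (A s ^ n) (A s (β q - ev g (x s) q)) := by rw [pow_succ]; rfl
              have e8 : (B s ^ n) (B s q) = (B s ^ (n + 1)) q := by rw [pow_succ]; rfl
              rw [e7, e6, map_smul, ih, smul_smul, e8, ← pow_succ']
          have e9 := e5 (l s) p2'
          rw [ev0 _ _ (H.l2 s p2'), sub_zero, map_sub] at e9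
          have e10 := congrArg ξ e9
          have hl : l s = (l s - 1) + 1 := (Nat.succ_pred_eq_of_pos (H.lpos s)).symm
          have e11 : (A s ^ l s) (β p2') ∈ Span2.Dn A R1 1 := by
            rw [hl, pow_succ']
            have h1 : ∀ n, (A s ^ n) (β p2') ∈ R1 := by
              intro n
              induction n with
              | zero => simpa using hβ.mem p2'
              | succ n ih =>
                rw [pow_succ']
                exact H.sR1 s (Submodule.mem_map_of_mem ih)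
            exact Span2.apply_mem_Dn (A := A) (R := R1) (n := 0) (h1 (l s - 1)) s
          have e12 : ξ (β ((B s ^ l s) p2')) = 0 :=
            kZ _ (Submodule.subset_span ⟨c, hc, x, β, hx, hβ, _, H.l2 s p2', rfl⟩)
          rw [map_sub, map_smul, e12, smul_zero, kD _ e11, zero_sub, neg_eq_zero] at e10
          exact e10
        · intro t _ ht
          rw [if_neg ht, Span2.lift_zero_apply]
        · intro h
          exact absurd (Finset.mem_univ s) h)).2 s 0 (l s - 1) (by have := H.lpos s; omega) p2 p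
    rw [if_pos rfl] at hk
    simp only [LinearMap.smulRight_apply, LinearMap.flip_apply, LinearMap.smul_apply,
      smul_eq_mul, LinearMap.comp_apply, pow_zero, Module.End.one_apply] at hk
    rcases mul_eq_zero.1 hk with h | h
    · exact hne h
    · exact hξ h
  have hsup : ∀ n, R1 ≤ Z ⊔ Span2.Dn A R1 n := by
    have hD : ∀ n, Span2.Dn A R1 n ≤ Z ⊔ Span2.Dn A R1 (n + 1) := by
      intro n
      induction n with
      | zero =>
        refine H.gen1 _ (fun t => ?_) hgen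
        rw [Submodule.map_sup]
        refine sup_le_sup (hZs t) ?_
        refine (le_iSup (fun t => (Span2.Dn A R1 1).map (A t)) t).trans ?_
        exact Span2.Dn_anti H.sR1 1
      | succ n ih =>
        refine iSup_le fun t => ?_
        refine (Submodule.map_mono ih).trans ?_
        rw [Submodule.map_sup]
        exact sup_le_sup (hZs t) (le_iSup (fun t => (Span2.Dn A R1 (n + 1)).map (A t)) t)
    intro n
    induction n with
    | zero => exact le_sup_right
    | succ n ih => exact ih.trans (sup_le le_sup_left (hD n))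
  have := hsup m
  rw [H.n1, sup_bot_eq] at this
  exact this.trans hZY

omit [Fintype τ] in
lemma swap (g : P2 →ₗ[K] P2 →ₗ[K] K) (f : P1 →ₗ[K] P1 →ₗ[K] K) (x x' : P2 ⊗[K] P1) :
    TensorProduct.lift (f ∘ₗ ev g x') x = TensorProduct.lift (f.flip ∘ₗ ev g.flip x) x' := by
  induction x using TensorProduct.induction_on with
  | zero => simp [Span2.lift_zero_apply]
  | tmul p2 p1 =>
    induction x' using TensorProduct.induction_on with
    | zero => simp [Span2.lift_zero_apply]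
    | tmul q2 q1 => simp
    | add a b ha hb =>
      rw [map_add, LinearMap.comp_add, Span2.lift_add_apply, ha, hb, map_add]
  | add a b ha hb =>
    rw [map_add, ha, hb, map_add, LinearMap.comp_add, Span2.lift_add_apply]

/-- the relation of the second derivatives, functional form. -/
def Rel (A : τ → End K P1) (B : τ → End K P2) (R1 : Submodule K P1)
    (R2 : Submodule K P2) (g : P2 →ₗ[K] P2 →ₗ[K] K) (eps : K) (Λ : Set K)
    (a1 a2 a3 : K) (f : τ → P1 →ₗ[K] P1 →ₗ[K] K) : Prop :=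
  ∀ c ∈ Λ, ∀ c' ∈ Λ, ∀ x β x' β', Ex A B R1 R2 c x → Cor A B R1 g eps c x β →
    Ex A B R1 R2 c' x' → Cor A B R1 g eps c' x' β' →
      ∑ t, (a1 • TensorProduct.lift ((f t) ∘ₗ β') (x t) +
        a2 • TensorProduct.lift ((f t).flip ∘ₗ β) (x' t) +
        a3 • TensorProduct.lift ((f t) ∘ₗ (ev g (x' t))) (x t)) = 0

theorem Hyp.left (H : Hyp A B R1 R2 m l g eps Λ) {f : τ → P1 →ₗ[K] P1 →ₗ[K] K} {a1 a2 a3 : K}
    (ha1 : a1 ≠ 0)
    (hex : ∀ c ∈ Λ, ∀ x, Ex A B R1 R2 c x → ∃ β, Cor A B R1 g eps c x β)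
    (h : Rel A B R1 R2 g eps Λ a1 a2 a3 f) : ∀ t, ∀ r ∈ R1, ∀ p, f t r p = 0 := by
  intro t r hr p
  have := H.step2 hex (LinearMap.ker ((f t).flip p)) (fun c' hc' x' β' hx' hβ' r hr => by
    rw [LinearMap.mem_ker, LinearMap.flip_apply]
    have h0 := H.step0 hex (fun t => a1 • ((f t) ∘ₗ β') + a3 • ((f t) ∘ₗ (ev g (x' t))))
      (Θ := fun β => ∑ t, a2 * TensorProduct.lift ((f t).flip ∘ₗ β) (x' t))
      (Good.sum _ fun t _ => (H.good (f t).flip (x' t)).smul a2)
      (fun c hc x β hx hβ => by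
        rw [← h c hc c' hc' x β x' β' hx hβ hx' hβ', ← Finset.sum_add_distrib]
        refine Finset.sum_congr rfl fun t _ => ?_
        rw [Span2.lift_add_apply, Span2.lift_smul_apply, Span2.lift_smul_apply]
        simp only [smul_eq_mul]
        ring) t r hr p
    have e2 := ev_zero_of (H.rad2 r hr) (x' t)
    simp only [LinearMap.add_apply, LinearMap.smul_apply, LinearMap.comp_apply, e2, map_zero,
      LinearMap.zero_apply, smul_zero, add_zero, smul_eq_mul] at h0
    exact (mul_eq_zero.1 h0).resolve_left ha1) hr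
  simpa using this

theorem Hyp.right (H : Hyp A B R1 R2 m l g eps Λ) {f : τ → P1 →ₗ[K] P1 →ₗ[K] K}
    {a1 a2 a3 : K} (ha2 : a2 ≠ 0)
    (hex : ∀ c ∈ Λ, ∀ x, Ex A B R1 R2 c x → ∃ β, Cor A B R1 g eps c x β)
    (h : Rel A B R1 R2 g eps Λ a1 a2 a3 f) : ∀ t, ∀ r ∈ R1, ∀ p, f t p r = 0 := by
  intro t r hr p
  have := H.step2 hex (LinearMap.ker (f t p)) (fun c hc x β hx hβ r hr => by
    rw [LinearMap.mem_ker]
    have h0 := H.step0 hex (fun t => a2 • ((f t).flip ∘ₗ β) +
        a3 • ((f t).flip ∘ₗ (ev g.flip (x t))))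
      (Θ := fun β' => ∑ t, a1 * TensorProduct.lift ((f t) ∘ₗ β') (x t))
      (Good.sum _ fun t _ => (H.good (f t) (x t)).smul a1)
      (fun c' hc' x' β' hx' hβ' => by
        rw [← h c hc c' hc' x β x' β' hx hβ hx' hβ', ← Finset.sum_add_distrib]
        refine Finset.sum_congr rfl fun t _ => ?_
        rw [Span2.lift_add_apply, Span2.lift_smul_apply, Span2.lift_smul_apply, swap g (f t)]
        simp only [smul_eq_mul]
        ring) t r hr p
    have e2 := ev_zero_of (g := g.flip) (H.rad1 r hr) (x t)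
    simp only [LinearMap.add_apply, LinearMap.smul_apply, LinearMap.comp_apply, e2, map_zero,
      LinearMap.zero_apply, smul_zero, add_zero, smul_eq_mul] at h0
    exact (mul_eq_zero.1 h0).resolve_left ha2) hr
  simpa using this

theorem Hyp.prod (H : Hyp A B R1 R2 m l g eps Λ) {f : τ → P1 →ₗ[K] P1 →ₗ[K] K}
    {a1 a2 a3 : K} (ha1 : a1 ≠ 0) (ha2 : a2 ≠ 0) (ha3 : a3 ≠ 0)
    (hex : ∀ c ∈ Λ, ∀ x, Ex A B R1 R2 c x → ∃ β, Cor A B R1 g eps c x β)
    (h : Rel A B R1 R2 g eps Λ a1 a2 a3 f) : ∀ s i j, i + j + 1 = l s → ∀ p p',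
      f s ((A s ^ i) p) ((A s ^ j) p') = 0 := by
  classical
  have hl := H.left ha1 hex h
  have hr := H.right ha2 hex h
  have h1 : ∀ c ∈ Λ, ∀ c' ∈ Λ, ∀ x x', Ex A B R1 R2 c x → Ex A B R1 R2 c' x' →
      ∑ t, TensorProduct.lift ((f t) ∘ₗ (ev g (x' t))) (x t) = 0 := by
    intro c hc c' hc' x x' hx hx'
    obtain ⟨β, hβ⟩ := hex c hc x hx
    obtain ⟨β', hβ'⟩ := hex c' hc' x' hx'
    have e := h c hc c' hc' x β x' β' hx hβ hx' hβ'
    have e1 : ∀ t, (f t) ∘ₗ β' = 0 := by
      intro t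
      ext p q
      exact hl t _ (hβ'.mem p) q
    have e2 : ∀ t, (f t).flip ∘ₗ β = 0 := by
      intro t
      ext p q
      exact hr t _ (hβ.mem p) q
    simp only [e1, e2, Span2.lift_zero_apply, mul_zero, zero_add, smul_eq_mul] at e
    rw [← Finset.mul_sum] at e
    exact (mul_eq_zero.1 e).resolve_left ha3
  intro s i j hij p p'
  obtain ⟨p2, p2', hne⟩ := H.ne s
  -- first in `x`
  have h2 : ∀ c' ∈ Λ, ∀ x', Ex A B R1 R2 c' x' →
      f s (ev g (x' s) ((B s ^ i) p2')) ((A s ^ j) p') = 0 := by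
    intro c' hc' x' hx'
    exact (H.key0 (fun t => (f t) ∘ₗ (ev g (x' t)))
      (fun c hc x hx => h1 c hc c' hc' x x' hx hx')).2 s j i (by omega) p2' p'
  have h3 := (H.key0 (fun t => if t = s then
      (g.flip ((B s ^ i) p2')).smulRight ((f s).flip ((A s ^ j) p')) else 0)
    (fun c hc x hx => by
      rw [Finset.sum_eq_single s]
      · rw [if_pos rfl, ← h2 c hc x hx]
        generalize x s = z
        induction z using TensorProduct.induction_on with
        | zero => simp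
        | tmul x y => simp
        | add x y hx hy =>
          rw [map_add, hx, hy, map_add, LinearMap.add_apply, map_add, LinearMap.add_apply]
      · intro t _ ht
        rw [if_neg ht, Span2.lift_zero_apply]
      · intro h
        exact absurd (Finset.mem_univ s) h)).2 s i j hij p2 p
  rw [if_pos rfl] at h3
  simp only [LinearMap.smulRight_apply, LinearMap.flip_apply, LinearMap.smul_apply,
      smul_eq_mul] at h3
  have e1 : g ((B s ^ (l s - 1)) p2) p2' = eps ^ i * g ((B s ^ j) p2) ((B s ^ i) p2') := by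
    have e2 : ∀ n q q', g ((B s ^ n) q) q' = eps ^ n * g q ((B s ^ n) q') := by
      intro n
      induction n with
      | zero => intro q q'; simp
      | succ n ih =>
        intro q q'
        have e3 : (B s ^ (n + 1)) q = B s ((B s ^ n) q) := by rw [pow_succ']; rfl
        have e4 : (B s ^ (n + 1)) q' = (B s ^ n) (B s q') := by rw [pow_succ]; rfl
        rw [e3, H.adj, ih, e4]
        ring
    rw [← e2]
    have e5 : (B s ^ i) ((B s ^ j) p2) = (B s ^ (l s - 1)) p2 := by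
      have : l s - 1 = i + j := by omega
      rw [this, pow_add]
      rfl
    rw [e5]
  have hne' : g ((B s ^ j) p2) ((B s ^ i) p2') ≠ 0 := by
    intro h
    rw [h, mul_zero] at e1
    exact hne e1
  exact (mul_eq_zero.1 h3).resolve_left hne'

/-- **The abstract end with arbitrary radical.** -/
theorem main (hA : ⨆ t, LinearMap.range (A t) = ⊤) (hB : ⨆ t, LinearMap.range (B t) = ⊤)
    (hR1 : ∀ t, ∀ r ∈ R1, A t r ∈ R1) (hR2 : ∀ t, ∀ r ∈ R2, B t r ∈ R2) {m : ℕ}
    (hN1 : ∀ w : List τ, w.length = m → ∀ r ∈ R1, (w.map A).prod r = 0)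
    (hN2 : ∀ w : List τ, w.length = m → ∀ r ∈ R2, (w.map B).prod r = 0)
    (hl : ∀ s, 1 ≤ l s)
    (hl1 : ∀ s p, (A s ^ l s) p ∈ R1) (hl2 : ∀ s p, (B s ^ l s) p ∈ R2)
    (gen1 : ∀ S : Submodule K P1, (∀ t, ∀ v ∈ S, A t v ∈ S) → (∀ s p, (A s ^ l s) p ∈ S) → R1 ≤ S)
    (gen2 : ∀ S : Submodule K P2, (∀ t, ∀ v ∈ S, B t v ∈ S) → (∀ s p, (B s ^ l s) p ∈ S) → R2 ≤ S)
    (heps : eps ≠ 0) (gR1 : ∀ r ∈ R2, ∀ p, g r p = 0) (gR2 : ∀ r ∈ R2, ∀ p, g p r = 0)
    (gB : ∀ t p p', g (B t p) p' = eps * g p (B t p'))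
    (gtop : ∀ s, ∃ p p', g ((B s ^ (l s - 1)) p) p' ≠ 0)
    {Λ : Set K} (hΛ : Λ.Infinite) (h0 : (0 : K) ∉ Λ)
    (q : τ → P1 →ₗ[K] P1 →ₗ[K] E) (Q : Submodule K E) {a1 a2 a3 : K}
    (ha1 : a1 ≠ 0) (ha2 : a2 ≠ 0) (ha3 : a3 ≠ 0)
    (hex : ∀ c ∈ Λ, ∀ x, Ex A B R1 R2 c x → ∃ b, Cor A B R1 g eps c x b)
    (hrel : ∀ c ∈ Λ, ∀ c' ∈ Λ, ∀ x b x' b', Ex A B R1 R2 c x → Cor A B R1 g eps c x b →
      Ex A B R1 R2 c' x' → Cor A B R1 g eps c' x' b' →
      ∑ t, (a1 • TensorProduct.lift ((q t) ∘ₗ b') (x t)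
        + a2 • TensorProduct.lift ((q t).flip ∘ₗ b) (x' t)
        + a3 • TensorProduct.lift ((q t) ∘ₗ (ev g (x' t))) (x t)) ∈ Q) :
    (∀ t, ∀ r ∈ R1, ∀ p, q t r p ∈ Q ∧ q t p r ∈ Q) ∧
      (∀ s i j, i + j + 1 = l s → ∀ p p', q s ((A s ^ i) p) ((A s ^ j) p') ∈ Q) := by
  have H : Hyp A B R1 R2 m l g eps Λ :=
    { hA := hA
      hB := hB
      sR1 := fun t => by
        rintro _ ⟨r, hr, rfl⟩
        exact hR1 t r hr
      sR2 := fun t => by
        rintro _ ⟨r, hr, rfl⟩
        exact hR2 t r hr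
      n1 := Span2.Dn_eq_bot hN1
      n2 := Span2.Dn_eq_bot hN2
      lpos := hl
      l1 := hl1
      l2 := hl2
      gen1 := fun X hX => gen1 X fun t v hv => hX t (Submodule.mem_map_of_mem hv)
      gen2 := fun X hX => gen2 X fun t v hv => hX t (Submodule.mem_map_of_mem hv)
      eps0 := heps
      rad1 := gR1
      rad2 := gR2
      adj := gB
      ne := gtop
      inf := hΛ
      zero := h0 }
  have hf : ∀ φ : E →ₗ[K] K, Q ≤ LinearMap.ker φ →
      Rel A B R1 R2 g eps Λ a1 a2 a3 (fun t => (q t).compr₂ φ) := by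
    intro φ hφ c hc c' hc' x β x' β' hx hβ hx' hβ'
    have e := hφ (hrel c hc c' hc' x β x' β' hx hβ hx' hβ')
    rw [LinearMap.mem_ker, map_sum] at e
    rw [← e]
    refine Finset.sum_congr rfl fun t _ => ?_
    rw [map_add, map_add, map_smul, map_smul, map_smul]
    congr 1
    · congr 2
      · generalize x t = z
        induction z using TensorProduct.induction_on with
        | zero => simp
        | tmul a b => simp
        | add a b ha hb => rw [map_add, ha, hb, map_add, map_add]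
      · generalize x' t = z
        induction z using TensorProduct.induction_on with
        | zero => simp
        | tmul a b => simp
        | add a b ha hb => rw [map_add, ha, hb, map_add, map_add]
    · congr 1
      generalize x t = z
      induction z using TensorProduct.induction_on with
      | zero => simp
      | tmul a b => simp
      | add a b ha hb => rw [map_add, ha, hb, map_add, map_add]
  have hmem : ∀ v : E, (∀ φ : E →ₗ[K] K, Q ≤ LinearMap.ker φ → φ v = 0) → v ∈ Q := by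
    intro v hv
    by_contra hcon
    obtain ⟨φ, h1, h2⟩ := Submodule.exists_le_ker_of_notMem hcon
    exact h1 (hv φ h2)
  refine ⟨fun t r hr p => ⟨hmem _ fun φ hφ => ?_, hmem _ fun φ hφ => ?_⟩,
    fun s i j hij p p' => hmem _ fun φ hφ => ?_⟩
  · exact H.left ha1 hex (hf φ hφ) t r hr p
  · exact H.right ha2 hex (hf φ hφ) t r hr p
  · exact H.prod ha1 ha2 ha3 hex (hf φ hφ) s i j hij p p'

end Main

end Crest.Agent.R172.RJM
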