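import Crest.Agent.R172.DualD
import Crest.Agent.R172.RJM

/-!
Row 172 (S0260), tame case, non-semisimple `D`: transfer for decorated families `(x, b, k)`.

`x` a family in `P2 ⊗ P1`, `b : P2 → R1`, `k : P1 → R2` its corrections. `dec_transfer`: relations known
for the operator-exact decorated families (`c_i = 1 + t D_i`) hold, both parts separately, for all
decorated families exact at a scalar `c` outside a finite set.
-/

set_option autoImplicit false
set_option linter.unusedSectionVars false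

namespace Crest.Agent.R172.DecT

open Module TensorProduct Crest.Agent.R172.Dual

variable {K : Type*} [Field K] {P1 P2 : Type*} [AddCommGroup P1] [Module K P1]
  [AddCommGroup P2] [Module K P2] {τ : Type*} [Fintype τ]

/-- `p2 ⊗ p1 ↦ (p ↦ g1 p1 p • p2)` -/
noncomputable def evk (g1 : P1 →ₗ[K] P1 →ₗ[K] K) : P2 ⊗[K] P1 →ₗ[K] (P1 →ₗ[K] P2) :=
  RJM.ev g1 ∘ₗ (TensorProduct.comm K P2 P1).toLinearMap

@[simp] theorem evk_tmul (g1 : P1 →ₗ[K] P1 →ₗ[K] K) (p2 : P2) (p1 : P1) (p : P1) :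
    evk g1 (p2 ⊗ₜ[K] p1) p = g1 p1 p • p2 := by
  simp [evk]

/-- `k` is the second correction of `x` at `c` -/
structure CorK (A : τ → End K P1) (B : τ → End K P2) (R2 : Submodule K P2)
    (g1 : P1 →ₗ[K] P1 →ₗ[K] K) (eps c : K) (x : τ → P2 ⊗[K] P1) (k : P1 →ₗ[K] P2) : Prop where
  mem : ∀ p, k p ∈ R2
  eq : ∀ t p, k (A t p) - evk g1 (x t) (A t p) = (eps * c) • B t (k p - evk g1 (x t) p)

/-- the second correction is the first correction of the transposed family at `c⁻¹` -/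
theorem CorK.of_cor {A : τ → End K P1} {B : τ → End K P2} {R2 : Submodule K P2}
    {g1 : P1 →ₗ[K] P1 →ₗ[K] K} {eps c : K} (heps : eps ≠ 0) (hc : c ≠ 0)
    {x : τ → P2 ⊗[K] P1} {k : P1 →ₗ[K] P2}
    (h : RJM.Cor B A R2 g1 eps c⁻¹ (fun t => TensorProduct.comm K P2 P1 (x t)) k) :
    CorK A B R2 g1 eps⁻¹ c x k := by
  refine ⟨h.mem, fun t p => ?_⟩
  have h1 := h.eq t p
  have h2 : ∀ p, evk g1 (x t) p = RJM.ev g1 (TensorProduct.comm K P2 P1 (x t)) p := fun p => rfl
  rw [h2, h2, map_sub]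
  have h3 : B t (k p) - B t (RJM.ev g1 (TensorProduct.comm K P2 P1 (x t)) p) =
      (eps * c⁻¹) • (k (A t p) - RJM.ev g1 (TensorProduct.comm K P2 P1 (x t)) (A t p)) := by
    rw [smul_sub]
    rw [sub_eq_sub_iff_add_eq_add] at h1 ⊢
    rw [h1]
    abel
  rw [h3, smul_smul]
  have h4 : eps⁻¹ * c * (eps * c⁻¹) = 1 := by
    field_simp
  rw [h4, one_smul]

theorem CorK.to_cor {A : τ → End K P1} {B : τ → End K P2} {R2 : Submodule K P2}
    {g1 : P1 →ₗ[K] P1 →ₗ[K] K} {eps c : K} (heps : eps ≠ 0) (hc : c ≠ 0)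
    {x : τ → P2 ⊗[K] P1} {k : P1 →ₗ[K] P2}
    (h : CorK A B R2 g1 eps⁻¹ c x k) :
    RJM.Cor B A R2 g1 eps c⁻¹ (fun t => TensorProduct.comm K P2 P1 (x t)) k := by
  refine ⟨h.mem, fun t p => ?_⟩
  have h1 := h.eq t p
  have h2 : ∀ p, evk g1 (x t) p = RJM.ev g1 (TensorProduct.comm K P2 P1 (x t)) p := fun p => rfl
  rw [h2, h2, map_sub] at h1
  have h4 : eps * c⁻¹ * (eps⁻¹ * c) = 1 := by
    field_simp
  have h3 := congrArg (fun v => (eps * c⁻¹) • v) h1
  simp only [smul_smul, h4, one_smul] at h3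
  rw [smul_sub] at h3
  rw [sub_eq_sub_iff_add_eq_add] at h3 ⊢
  rw [← h3, add_comm]

/-- the space of decorated families -/
abbrev Dec (K : Type*) [Field K] (P1 P2 τ : Type*) [AddCommGroup P1] [Module K P1]
    [AddCommGroup P2] [Module K P2] :=
  (τ → P2 ⊗[K] P1) × (P2 →ₗ[K] P1) × (P1 →ₗ[K] P2)

/-- operator-exact decorated families at `c1 = 1 + t D1`, `c2 = 1 + t D2` -/
structure OpEx (A : τ → End K P1) (B : τ → End K P2) (R1 : Submodule K P1) (R2 : Submodule K P2)
    (g : P2 →ₗ[K] P2 →ₗ[K] K) (g1 : P1 →ₗ[K] P1 →ₗ[K] K) (eps eps' : K)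
    (c1 : End K P1) (c2 : End K P2) (x : τ → P2 ⊗[K] P1) (b : P2 →ₗ[K] P1) (k : P1 →ₗ[K] P2) :
    Prop where
  ex : ExactD A B R1 R2 c1 c2 x
  memb : ∀ p, b p ∈ R1
  memk : ∀ p, k p ∈ R2
  cor : ∀ t p, c1 (c1 (A t (b p - RJM.ev g (x t) p))) =
    eps • (b (c2 (c2 (B t p))) - RJM.ev g (x t) (c2 (c2 (B t p))))
  cork : ∀ t p, k (c1 (c1 (A t p))) - evk g1 (x t) (c1 (c1 (A t p))) =
    eps' • c2 (c2 (B t (k p - evk g1 (x t) p)))

section maps

variable (g : P2 →ₗ[K] P2 →ₗ[K] K) (g1 : P1 →ₗ[K] P1 →ₗ[K] K)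

/-- `b - ev x_t` -/
noncomputable def bm (t : τ) : Dec K P1 P2 τ →ₗ[K] (P2 →ₗ[K] P1) :=
  LinearMap.fst K _ _ ∘ₗ LinearMap.snd K _ _ -
    RJM.ev g ∘ₗ LinearMap.proj t ∘ₗ LinearMap.fst K _ _

/-- `k - ev' x_t` -/
noncomputable def km (t : τ) : Dec K P1 P2 τ →ₗ[K] (P1 →ₗ[K] P2) :=
  LinearMap.snd K _ _ ∘ₗ LinearMap.snd K _ _ -
    evk g1 ∘ₗ LinearMap.proj t ∘ₗ LinearMap.fst K _ _

theorem bm_apply (t : τ) (X : Dec K P1 P2 τ) (p : P2) :
    bm g t X p = X.2.1 p - RJM.ev g (X.1 t) p := rfl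

theorem km_apply (t : τ) (X : Dec K P1 P2 τ) (p : P1) :
    km g1 t X p = X.2.2 p - evk g1 (X.1 t) p := rfl

/-- the two linear maps of the pencil -/
noncomputable def LL0 (A : τ → End K P1) (R1 : Submodule K P1) (R2 : Submodule K P2) :
    Dec K P1 P2 τ →ₗ[K] ((P2 ⊗[K] P1) × (τ → (P2 ⊗[K] P1) ⧸ Rad R1 R2)) ×
      (τ → P2 →ₗ[K] P1) × (τ → P1 →ₗ[K] P2) × (P2 →ₗ[K] P1 ⧸ R1) × (P1 →ₗ[K] P2 ⧸ R2) :=
  LinearMap.prod (pen (Rad R1 R2) (fun t => LinearMap.lTensor P2 (A t)) ∘ₗ LinearMap.fst K _ _)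
    (LinearMap.prod (LinearMap.pi fun t => LinearMap.llcomp K P2 P1 P1 (A t) ∘ₗ bm g t)
      (LinearMap.prod (LinearMap.pi fun t => LinearMap.lcomp K P2 (A t) ∘ₗ km g1 t)
        (LinearMap.prod
          (LinearMap.llcomp K P2 P1 _ R1.mkQ ∘ₗ LinearMap.fst K _ _ ∘ₗ LinearMap.snd K _ _)
          (LinearMap.llcomp K P1 P2 _ R2.mkQ ∘ₗ LinearMap.snd K _ _ ∘ₗ LinearMap.snd K _ _))))

noncomputable def LL1 (B : τ → End K P2) (R1 : Submodule K P1) (R2 : Submodule K P2)
    (eps eps' : K) :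
    Dec K P1 P2 τ →ₗ[K] ((P2 ⊗[K] P1) × (τ → (P2 ⊗[K] P1) ⧸ Rad R1 R2)) ×
      (τ → P2 →ₗ[K] P1) × (τ → P1 →ₗ[K] P2) × (P2 →ₗ[K] P1 ⧸ R1) × (P1 →ₗ[K] P2 ⧸ R2) :=
  LinearMap.prod (pen (Rad R1 R2) (fun t => LinearMap.rTensor P1 (B t)) ∘ₗ LinearMap.fst K _ _)
    (LinearMap.prod (LinearMap.pi fun t => eps • (LinearMap.lcomp K P1 (B t) ∘ₗ bm g t))
      (LinearMap.prod (LinearMap.pi fun t => eps' • (LinearMap.llcomp K P1 P2 P2 (B t) ∘ₗ km g1 t))
        (LinearMap.prod 0 0)))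

theorem LL_iff (A : τ → End K P1) (B : τ → End K P2) (R1 : Submodule K P1) (R2 : Submodule K P2)
    (eps eps' : K) (X Z : Dec K P1 P2 τ) : LL0 g g1 A R1 R2 X = LL1 g g1 B R1 R2 eps eps' Z ↔
      (pen (Rad R1 R2) (fun t => LinearMap.lTensor P2 (A t)) X.1 =
        pen (Rad R1 R2) (fun t => LinearMap.rTensor P1 (B t)) Z.1) ∧
      (∀ t p, A t (bm g t X p) = eps • bm g t Z (B t p)) ∧
      (∀ t p, km g1 t X (A t p) = eps' • B t (km g1 t Z p)) ∧
      (∀ p, X.2.1 p ∈ R1) ∧ (∀ p, X.2.2 p ∈ R2) := by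
  constructor
  · intro h
    refine ⟨congrArg Prod.fst h, fun t p => ?_, fun t p => ?_, fun p => ?_, fun p => ?_⟩
    · exact LinearMap.congr_fun (congrFun (congrArg (fun w => w.2.1) h) t) p
    · exact LinearMap.congr_fun (congrFun (congrArg (fun w => w.2.2.1) h) t) p
    · exact (Submodule.Quotient.mk_eq_zero R1).1
        (LinearMap.congr_fun (congrArg (fun w => w.2.2.2.1) h) p)
    · exact (Submodule.Quotient.mk_eq_zero R2).1
        (LinearMap.congr_fun (congrArg (fun w => w.2.2.2.2) h) p)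
  · rintro ⟨h1, h2, h3, h4, h5⟩
    exact Prod.ext h1 (Prod.ext (funext fun t => LinearMap.ext fun p => h2 t p)
      (Prod.ext (funext fun t => LinearMap.ext fun p => h3 t p)
        (Prod.ext (LinearMap.ext fun p => (Submodule.Quotient.mk_eq_zero R1).2 (h4 p))
          (LinearMap.ext fun p => (Submodule.Quotient.mk_eq_zero R2).2 (h5 p)))))

end maps

section nil

variable {V W : Type*} [AddCommGroup V] [Module K V] [AddCommGroup W] [Module K W]

theorem prodMap_nil {f : End K V} {h : End K W} (hf : IsNilpotent f) (hh : IsNilpotent h) :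
    IsNilpotent (LinearMap.prodMap f h : End K (V × W)) := by
  obtain ⟨n, hn⟩ := hf
  obtain ⟨m, hm⟩ := hh
  refine ⟨n + m, ?_⟩
  have h1 : ∀ j : ℕ, (LinearMap.prodMap f h : End K (V × W)) ^ j =
      LinearMap.prodMap (f ^ j) (h ^ j) := by
    intro j
    induction j with
    | zero => rfl
    | succ j ih => rw [pow_succ, ih, pow_succ, pow_succ]; rfl
  rw [h1, pow_add, hn, zero_mul, pow_add, hm, mul_zero]
  refine LinearMap.ext fun p => ?_
  rfl

theorem lcomp_nil {N : End K V} (hN : IsNilpotent N) :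
    IsNilpotent (LinearMap.lcomp K W N : End K (V →ₗ[K] W)) := by
  obtain ⟨n, hn⟩ := hN
  refine ⟨n, ?_⟩
  have h1 : ∀ j : ℕ, (LinearMap.lcomp K W N : End K (V →ₗ[K] W)) ^ j =
      LinearMap.lcomp K W (N ^ j) := by
    intro j
    induction j with
    | zero => rfl
    | succ j ih =>
      rw [pow_succ, ih, pow_succ']
      rfl
  rw [h1, hn]
  refine LinearMap.ext fun f => LinearMap.ext fun p => ?_
  show f 0 = 0
  exact map_zero f

theorem llcomp_nil {N : End K W} (hN : IsNilpotent N) :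
    IsNilpotent (LinearMap.llcomp K V W W N : End K (V →ₗ[K] W)) := by
  obtain ⟨n, hn⟩ := hN
  refine ⟨n, ?_⟩
  have h1 : ∀ j : ℕ, (LinearMap.llcomp K V W W N : End K (V →ₗ[K] W)) ^ j =
      LinearMap.llcomp K V W W (N ^ j) := by
    intro j
    induction j with
    | zero => rfl
    | succ j ih =>
      rw [pow_succ, ih, pow_succ]
      rfl
  rw [h1, hn]
  rfl

theorem pi_nil {g : End K V} (hg : IsNilpotent g) :
    IsNilpotent (LinearMap.pi fun s => g ∘ₗ LinearMap.proj s : End K (τ → V)) := by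
  obtain ⟨n, hn⟩ := hg
  refine ⟨n, ?_⟩
  have h1 : ∀ m : ℕ, (LinearMap.pi fun s => g ∘ₗ LinearMap.proj s : End K (τ → V)) ^ m =
      LinearMap.pi fun s => (g ^ m) ∘ₗ LinearMap.proj s := by
    intro m
    induction m with
    | zero => rfl
    | succ m ih => rw [pow_succ, ih, pow_succ]; rfl
  rw [h1, hn]
  rfl

end nil

section ops

theorem ev_lTensor (g : P2 →ₗ[K] P2 →ₗ[K] K) (N : End K P1) (x : P2 ⊗[K] P1) (p : P2) :
    RJM.ev g (LinearMap.lTensor P2 N x) p = N (RJM.ev g x p) := by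
  induction x using TensorProduct.induction_on with
  | zero => simp
  | tmul a b => simp
  | add a b ha hb => simp only [map_add, LinearMap.add_apply, ha, hb]

theorem ev_rTensor {g : P2 →ₗ[K] P2 →ₗ[K] K} {N : End K P2}
    (h : ∀ p q, g (N p) q = g p (N q)) (x : P2 ⊗[K] P1) (p : P2) :
    RJM.ev g (LinearMap.rTensor P1 N x) p = RJM.ev g x (N p) := by
  induction x using TensorProduct.induction_on with
  | zero => simp
  | tmul a b => simp [h]
  | add a b ha hb => simp only [map_add, LinearMap.add_apply, ha, hb]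

theorem evk_rTensor (g1 : P1 →ₗ[K] P1 →ₗ[K] K) (N : End K P2) (x : P2 ⊗[K] P1) (p : P1) :
    evk g1 (LinearMap.rTensor P1 N x) p = N (evk g1 x p) := by
  induction x using TensorProduct.induction_on with
  | zero => simp
  | tmul a b => simp
  | add a b ha hb => simp only [map_add, LinearMap.add_apply, ha, hb]

theorem evk_lTensor {g1 : P1 →ₗ[K] P1 →ₗ[K] K} {N : End K P1}
    (h : ∀ p q, g1 (N p) q = g1 p (N q)) (x : P2 ⊗[K] P1) (p : P1) :
    evk g1 (LinearMap.lTensor P2 N x) p = evk g1 x (N p) := by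
  induction x using TensorProduct.induction_on with
  | zero => simp
  | tmul a b => simp [h]
  | add a b ha hb => simp only [map_add, LinearMap.add_apply, ha, hb]

/-- action of an operator of `P1` on decorated families -/
noncomputable def op1 (τ : Type*) (P2 : Type*) [AddCommGroup P2] [Module K P2] (N : End K P1) :
    End K (Dec K P1 P2 τ) :=
  LinearMap.prodMap (LinearMap.pi fun s => LinearMap.lTensor P2 N ∘ₗ LinearMap.proj s)
    (LinearMap.prodMap (LinearMap.llcomp K P2 P1 P1 N) (LinearMap.lcomp K P2 N))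

/-- action of an operator of `P2` on decorated families -/
noncomputable def op2 (τ : Type*) (P1 : Type*) [AddCommGroup P1] [Module K P1] (N : End K P2) :
    End K (Dec K P1 P2 τ) :=
  LinearMap.prodMap (LinearMap.pi fun s => LinearMap.rTensor P1 N ∘ₗ LinearMap.proj s)
    (LinearMap.prodMap (LinearMap.lcomp K P1 N) (LinearMap.llcomp K P1 P2 P2 N))

theorem op1_apply (N : End K P1) (X : Dec K P1 P2 τ) : op1 τ P2 N X =
    ((fun s => LinearMap.lTensor P2 N (X.1 s)), N ∘ₗ X.2.1, X.2.2 ∘ₗ N) := rfl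

theorem op2_apply (N : End K P2) (X : Dec K P1 P2 τ) : op2 τ P1 N X =
    ((fun s => LinearMap.rTensor P1 N (X.1 s)), X.2.1 ∘ₗ N, N ∘ₗ X.2.2) := rfl

theorem op1_nil {N : End K P1} (hN : IsNilpotent N) : IsNilpotent (op1 τ P2 N) := by
  refine prodMap_nil (pi_nil ?_) (prodMap_nil (llcomp_nil hN) (lcomp_nil hN))
  obtain ⟨n, hn⟩ := hN
  refine ⟨n, ?_⟩
  have h1 : ∀ m : ℕ, (LinearMap.lTensor P2 N : End K (P2 ⊗[K] P1)) ^ m =
      LinearMap.lTensor P2 (N ^ m) := by
    intro m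
    induction m with
    | zero => rw [pow_zero, pow_zero]; exact (LinearMap.lTensor_id _ _).symm
    | succ m ih => rw [pow_succ, ih, pow_succ]; exact (LinearMap.lTensor_comp _ _ _).symm
  rw [h1, hn, LinearMap.lTensor_zero]

theorem op2_nil {N : End K P2} (hN : IsNilpotent N) : IsNilpotent (op2 τ P1 N) := by
  refine prodMap_nil (pi_nil ?_) (prodMap_nil (lcomp_nil hN) (llcomp_nil hN))
  obtain ⟨n, hn⟩ := hN
  refine ⟨n, ?_⟩
  have h1 : ∀ m : ℕ, (LinearMap.rTensor P1 N : End K (P2 ⊗[K] P1)) ^ m =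
      LinearMap.rTensor P1 (N ^ m) := by
    intro m
    induction m with
    | zero => rw [pow_zero, pow_zero]; exact (LinearMap.rTensor_id _ _).symm
    | succ m ih => rw [pow_succ, ih, pow_succ]; exact (LinearMap.rTensor_comp _ _ _).symm
  rw [h1, hn, LinearMap.rTensor_zero]

theorem op12_comm (N1 : End K P1) (N2 : End K P2) : Commute (op2 τ P1 N2) (op1 τ P2 N1) := by
  refine LinearMap.ext fun X => ?_
  show op2 τ P1 N2 (op1 τ P2 N1 X) = op1 τ P2 N1 (op2 τ P1 N2 X)
  rw [op1_apply, op2_apply, op1_apply, op2_apply]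
  refine Prod.ext (funext fun s => (lr_comm N1 N2 (X.1 s)).symm) rfl

/-- `op1 N` respects the pencil -/
theorem op1_adm {A : τ → End K P1} {B : τ → End K P2} {R1 : Submodule K P1}
    {R2 : Submodule K P2} {g : P2 →ₗ[K] P2 →ₗ[K] K} {g1 : P1 →ₗ[K] P1 →ₗ[K] K} {eps eps' : K}
    {N : End K P1} (hA : ∀ t p, N (A t p) = A t (N p)) (hR : ∀ r ∈ R1, N r ∈ R1)
    (hg : ∀ p q, g1 (N p) q = g1 p (N q)) (X Z : Dec K P1 P2 τ)
    (h : LL0 g g1 A R1 R2 X = LL1 g g1 B R1 R2 eps eps' Z) :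
    LL0 g g1 A R1 R2 (op1 τ P2 N X) = LL1 g g1 B R1 R2 eps eps' (op1 τ P2 N Z) := by
  rw [LL_iff] at h ⊢
  obtain ⟨h1, h2, h3, h4, h5⟩ := h
  have hb : ∀ t X (p : P2), bm g t (op1 τ P2 N X) p = N (bm g t X p) := by
    intro t X p
    rw [bm_apply, bm_apply, op1_apply]
    show N (X.2.1 p) - RJM.ev g (LinearMap.lTensor P2 N (X.1 t)) p = _
    rw [ev_lTensor, map_sub]
  have hk : ∀ t X (p : P1), km g1 t (op1 τ P2 N X) p = km g1 t X (N p) := by
    intro t X p
    rw [km_apply, km_apply, op1_apply]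
    show X.2.2 (N p) - evk g1 (LinearMap.lTensor P2 N (X.1 t)) p = _
    rw [evk_lTensor hg]
  have hll : ∀ t (x : P2 ⊗[K] P1), LinearMap.lTensor P2 (A t) (LinearMap.lTensor P2 N x) =
      LinearMap.lTensor P2 N (LinearMap.lTensor P2 (A t) x) := by
    intro t x
    rw [← LinearMap.lTensor_comp_apply, ← LinearMap.lTensor_comp_apply]
    congr 2
    exact LinearMap.ext fun p => (hA t p).symm
  refine ⟨?_, fun t p => ?_, fun t p => ?_, fun p => ?_, fun p => ?_⟩
  · rw [pen_eq_iff] at h1 ⊢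
    refine ⟨?_, fun t => ?_⟩
    · simp only [op1_apply, hll, ← lr_comm, ← map_sum, h1.1]
    · simp only [op1_apply, hll, ← lr_comm, ← map_sub]
      exact rad_lTensor hR _ (h1.2 t)
  · rw [hb, hb, ← hA, h2, map_smul]
  · rw [hk, hk, hA, h3]
  · exact hR _ (h4 p)
  · exact h5 (N p)

/-- `op2 N` respects the pencil -/
theorem op2_adm {A : τ → End K P1} {B : τ → End K P2} {R1 : Submodule K P1}
    {R2 : Submodule K P2} {g : P2 →ₗ[K] P2 →ₗ[K] K} {g1 : P1 →ₗ[K] P1 →ₗ[K] K} {eps eps' : K}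
    {N : End K P2} (hB : ∀ t p, N (B t p) = B t (N p)) (hR : ∀ r ∈ R2, N r ∈ R2)
    (hg : ∀ p q, g (N p) q = g p (N q)) (X Z : Dec K P1 P2 τ)
    (h : LL0 g g1 A R1 R2 X = LL1 g g1 B R1 R2 eps eps' Z) :
    LL0 g g1 A R1 R2 (op2 τ P1 N X) = LL1 g g1 B R1 R2 eps eps' (op2 τ P1 N Z) := by
  rw [LL_iff] at h ⊢
  obtain ⟨h1, h2, h3, h4, h5⟩ := h
  have hb : ∀ t X (p : P2), bm g t (op2 τ P1 N X) p = bm g t X (N p) := by
    intro t X p
    rw [bm_apply, bm_apply, op2_apply]
    show X.2.1 (N p) - RJM.ev g (LinearMap.rTensor P1 N (X.1 t)) p = _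
    rw [ev_rTensor hg]
  have hk : ∀ t X (p : P1), km g1 t (op2 τ P1 N X) p = N (km g1 t X p) := by
    intro t X p
    rw [km_apply, km_apply, op2_apply]
    show N (X.2.2 p) - evk g1 (LinearMap.rTensor P1 N (X.1 t)) p = _
    rw [evk_rTensor, map_sub]
  have hrr : ∀ t (x : P2 ⊗[K] P1), LinearMap.rTensor P1 (B t) (LinearMap.rTensor P1 N x) =
      LinearMap.rTensor P1 N (LinearMap.rTensor P1 (B t) x) := by
    intro t x
    rw [← LinearMap.rTensor_comp_apply, ← LinearMap.rTensor_comp_apply]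
    congr 2
    exact LinearMap.ext fun p => (hB t p).symm
  refine ⟨?_, fun t p => ?_, fun t p => ?_, fun p => ?_, fun p => ?_⟩
  · rw [pen_eq_iff] at h1 ⊢
    refine ⟨?_, fun t => ?_⟩
    · simp only [op2_apply, hrr, lr_comm, ← map_sum, h1.1]
    · simp only [op2_apply, hrr, lr_comm, ← map_sub]
      exact rad_rTensor hR _ (h1.2 t)
  · rw [hb, hb, hB, h2]
  · rw [hk, hk, ← hB, h3, map_smul]
  · exact h4 (N p)
  · exact hR _ (h5 p)

end ops

theorem inj_of {P : Type*} [AddCommGroup P] [Module K P] {N c : End K P} (hN : IsNilpotent N)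
    {ξ t : K} (hξ : ξ ≠ 0) (hc : ∀ x, c x = ξ • x + t • N x) : Function.Injective c := by
  rw [← LinearMap.ker_eq_bot, LinearMap.ker_eq_bot']
  intro x hx
  have h1 : x = (-(t / ξ)) • N x := by
    have h2 := hc x
    rw [hx] at h2
    have h3 : ξ • x = -(t • N x) := by
      rw [eq_neg_iff_add_eq_zero]
      exact h2.symm
    have h4 := congrArg (fun v => ξ⁻¹ • v) h3
    simp only [smul_smul, inv_mul_cancel₀ hξ, one_smul, smul_neg] at h4
    rw [neg_smul, div_eq_inv_mul]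
    exact h4
  have h2 : ∀ m : ℕ, x = (-(t / ξ)) ^ m • (N ^ m) x := by
    intro m
    induction m with
    | zero => simp
    | succ m ih =>
      conv_lhs => rw [ih]
      conv_lhs => rw [h1]
      rw [map_smul, smul_smul, ← pow_succ, pow_succ N]
      rfl
  obtain ⟨n, hn⟩ := hN
  rw [h2 n, hn]
  simp

theorem mem_of_map {P : Type*} [AddCommGroup P] [Module K P] [FiniteDimensional K P]
    {c : End K P} (hc : Function.Injective c) {R : Submodule K P} (hR : ∀ r ∈ R, c r ∈ R) {x : P}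
    (hx : c x ∈ R) : x ∈ R := by
  have h1 : Function.Injective (c.restrict hR) := by
    intro a b hab
    exact Subtype.ext (hc (congrArg Subtype.val hab))
  have h2 := LinearMap.injective_iff_surjective.1 h1
  obtain ⟨y, hy⟩ := h2 ⟨c x, hx⟩
  have h3 : c y = c x := congrArg Subtype.val hy
  rw [← hc h3]
  exact y.2

/-- **Transfer for decorated families.** -/
theorem dec_transfer [FiniteDimensional K P1] [FiniteDimensional K P2]
    (A : τ → End K P1) (B : τ → End K P2) (R1 : Submodule K P1) (R2 : Submodule K P2)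
    (g : P2 →ₗ[K] P2 →ₗ[K] K) (g1 : P1 →ₗ[K] P1 →ₗ[K] K) (eps eps' : K)
    {D1 : End K P1} {D2 : End K P2} (hD1 : ∀ t p, D1 (A t p) = A t (D1 p))
    (hD2 : ∀ t p, D2 (B t p) = B t (D2 p)) (hR1 : ∀ r ∈ R1, D1 r ∈ R1) (hR2 : ∀ r ∈ R2, D2 r ∈ R2)
    (hg : ∀ p q, g (D2 p) q = g p (D2 q)) (hg1 : ∀ p q, g1 (D1 p) q = g1 p (D1 q))
    {la1 la2 : K} (hla : la1 ≠ la2) (hN1 : IsNilpotent (D1 - la1 • (1 : End K P1)))
    (hN2 : IsNilpotent (D2 - la2 • (1 : End K P2))) {𝒯 : Set K} (h𝒯 : 𝒯.Infinite) :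
    ∃ S : Set K, S.Finite ∧ ∀ c ∉ S, ∀ (x : τ → P2 ⊗[K] P1) (b : P2 →ₗ[K] P1) (k : P1 →ₗ[K] P2),
      Exact A B R1 R2 c x → RJM.Cor A B R1 g eps c x b → CorK A B R2 g1 eps' c x k →
      ∀ M : Submodule K (Dec K P1 P2 τ × Dec K P1 P2 τ),
      (∀ t ∈ 𝒯, ∀ x b k, OpEx A B R1 R2 g g1 eps eps' (1 + t • D1) (1 + t • D2) x b k →
        (op1 τ P2 (1 + t • D1) (x, b, k), op2 τ P1 (1 + t • D2) (x, b, k)) ∈ M) →
      (((x, b, k) : Dec K P1 P2 τ), (0 : Dec K P1 P2 τ)) ∈ M ∧
        ((0 : Dec K P1 P2 τ), ((x, b, k) : Dec K P1 P2 τ)) ∈ M := by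
  classical
  set N1 := D1 - la1 • (1 : End K P1) with hN1d
  set N2 := D2 - la2 • (1 : End K P2) with hN2d
  have hAN : ∀ t p, N1 (A t p) = A t (N1 p) := by
    intro t p
    simp [hN1d, hD1, map_sub, map_smul]
  have hBN : ∀ t p, N2 (B t p) = B t (N2 p) := by
    intro t p
    simp [hN2d, hD2, map_sub, map_smul]
  have hRN1 : ∀ r ∈ R1, N1 r ∈ R1 := fun r hr => by
    simp only [hN1d, LinearMap.sub_apply, LinearMap.smul_apply, Module.End.one_apply]
    exact R1.sub_mem (hR1 r hr) (R1.smul_mem _ hr)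
  have hRN2 : ∀ r ∈ R2, N2 r ∈ R2 := fun r hr => by
    simp only [hN2d, LinearMap.sub_apply, LinearMap.smul_apply, Module.End.one_apply]
    exact R2.sub_mem (hR2 r hr) (R2.smul_mem _ hr)
  have hgN : ∀ p q, g (N2 p) q = g p (N2 q) := by
    intro p q
    simp [hN2d, hg, map_sub, map_smul]
  have hgN1 : ∀ p q, g1 (N1 p) q = g1 p (N1 q) := by
    intro p q
    simp [hN1d, hg1, map_sub, map_smul]
  have hfin1 : {t : K | 1 + t * la1 = 0}.Finite := by
    refine Set.Subsingleton.finite fun s hs t ht => ?_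
    have hs' : 1 + s * la1 = 0 := hs
    have ht' : 1 + t * la1 = 0 := ht
    have hla0 : la1 ≠ 0 := by
      rintro h0
      rw [h0, mul_zero, add_zero] at hs'
      exact one_ne_zero hs'
    exact mul_right_cancel₀ hla0 (by linear_combination hs' - ht')
  have h𝒯' : (𝒯 \ {t | 1 + t * la1 = 0}).Infinite := h𝒯.sdiff hfin1
  obtain ⟨S, hS, hT⟩ := transfer (LL0 g g1 A R1 R2) (LL1 g g1 B R1 R2 eps eps')
    (a := op2 τ P1 N2) (b := op1 τ P2 N1) (op12_comm N1 N2) (op2_nil hN2) (op1_nil hN1)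
    (op2_adm hBN hRN2 hgN) (op1_adm hAN hRN1 hgN1) hla h𝒯'
    (fun t => op1 τ P2 (1 + t • D1)) (fun t => op2 τ P1 (1 + t • D2))
    (by
      intro t X
      have h1 : (1 + t • D1 : End K P1) = (1 + t * la1) • LinearMap.id + t • N1 := by
        refine LinearMap.ext fun p => ?_
        simp only [hN1d, LinearMap.add_apply, LinearMap.smul_apply, LinearMap.sub_apply,
          Module.End.one_apply, LinearMap.id_apply, add_smul, smul_sub, smul_smul, one_smul]
        abel
      rw [h1, op1_apply, op1_apply]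
      refine Prod.ext (funext fun s => ?_) (Prod.ext ?_ ?_)
      · show LinearMap.lTensor P2 ((1 + t * la1) • LinearMap.id + t • N1) (X.1 s) =
          (1 + t * la1) • X.1 s + t • LinearMap.lTensor P2 N1 (X.1 s)
        rw [LinearMap.lTensor_add, LinearMap.lTensor_smul, LinearMap.lTensor_smul,
          LinearMap.lTensor_id]
        rfl
      · rfl
      · refine LinearMap.ext fun p => ?_
        show X.2.2 ((1 + t * la1) • p + t • N1 p) = (1 + t * la1) • X.2.2 p + t • X.2.2 (N1 p)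
        rw [map_add, map_smul, map_smul])
    (by
      intro t X
      have h1 : (1 + t • D2 : End K P2) = (1 + t * la2) • LinearMap.id + t • N2 := by
        refine LinearMap.ext fun p => ?_
        simp only [hN2d, LinearMap.add_apply, LinearMap.smul_apply, LinearMap.sub_apply,
          Module.End.one_apply, LinearMap.id_apply, add_smul, smul_sub, smul_smul, one_smul]
        abel
      rw [h1, op2_apply, op2_apply]
      refine Prod.ext (funext fun s => ?_) (Prod.ext ?_ ?_)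
      · show LinearMap.rTensor P1 ((1 + t * la2) • LinearMap.id + t • N2) (X.1 s) =
          (1 + t * la2) • X.1 s + t • LinearMap.rTensor P1 N2 (X.1 s)
        rw [LinearMap.rTensor_add, LinearMap.rTensor_smul, LinearMap.rTensor_smul,
          LinearMap.rTensor_id]
        rfl
      · refine LinearMap.ext fun p => ?_
        show X.2.1 ((1 + t * la2) • p + t • N2 p) = (1 + t * la2) • X.2.1 p + t • X.2.1 (N2 p)
        rw [map_add, map_smul, map_smul]
      · rfl)
  refine ⟨S, hS, fun c hc x b k hx hb hk M hM => hT c hc (x, b, k) ?_ M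
    fun t ht X hX => hM t ht.1 X.1 X.2.1 X.2.2 ?_⟩
  · have h1 : LL0 g g1 A R1 R2 (x, b, k) = LL1 g g1 B R1 R2 eps eps' (c • (x, b, k)) := by
      rw [LL_iff]
      refine ⟨?_, fun t p => ?_, fun t p => ?_, hb.mem, hk.mem⟩
      · rw [pen_eq_iff]
        have h2 : ∀ t, LinearMap.lTensor P2 (A t) (x t) -
            LinearMap.rTensor P1 (B t) ((c • (x, b, k) : Dec K P1 P2 τ).1 t) =
            defect (A t) (B t) c (x t) := by
          intro t
          show _ - LinearMap.rTensor P1 (B t) (c • x t) = _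
          rw [map_smul]
          rfl
        refine ⟨?_, fun t => ?_⟩
        · rw [← sub_eq_zero, ← Finset.sum_sub_distrib]
          simp only [h2]
          exact hx.1
        · show LinearMap.lTensor P2 (A t) (x t) -
            LinearMap.rTensor P1 (B t) ((c • (x, b, k) : Dec K P1 P2 τ).1 t) ∈ _
          rw [h2]
          exact hx.2 t
      · rw [map_smul (bm g t) c, bm_apply, LinearMap.smul_apply, bm_apply]
        show A t (b p - RJM.ev g (x t) p) = eps • c • (b (B t p) - RJM.ev g (x t) (B t p))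
        have h3 := hb.eq t p
        rw [smul_smul, map_sub, smul_sub]
        rw [sub_eq_sub_iff_add_eq_add] at h3 ⊢
        rw [h3]
        abel
      · rw [map_smul (km g1 t) c, km_apply, LinearMap.smul_apply, km_apply]
        show k (A t p) - evk g1 (x t) (A t p) = eps' • B t (c • (k p - evk g1 (x t) p))
        rw [map_smul, smul_smul]
        exact hk.eq t p
    rw [h1, map_smul]
  · rw [LL_iff] at hX
    obtain ⟨h1, h2, h3, h4, h5⟩ := hX
    have cA : ∀ t' p, (1 + t • D1 : End K P1) (A t' p) = A t' ((1 + t • D1 : End K P1) p) := by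
      intro t' p
      simp only [LinearMap.add_apply, LinearMap.smul_apply, Module.End.one_apply, hD1, map_add,
        map_smul]
    have cB : ∀ t' p, (1 + t • D2 : End K P2) (B t' p) = B t' ((1 + t • D2 : End K P2) p) := by
      intro t' p
      simp only [LinearMap.add_apply, LinearMap.smul_apply, Module.End.one_apply, hD2, map_add,
        map_smul]
    have ht1 : 1 + t * la1 ≠ 0 := ht.2
    have hc1x : ∀ x, (1 + t • D1 : End K P1) x = (1 + t * la1) • x + t • N1 x := by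
      intro x
      simp only [hN1d, LinearMap.add_apply, LinearMap.smul_apply, LinearMap.sub_apply,
        Module.End.one_apply, add_smul, smul_sub, smul_smul, one_smul]
      abel
    have hinj : Function.Injective (1 + t • D1 : End K P1) := inj_of hN1 ht1 hc1x
    have hsur : Function.Surjective (1 + t • D1 : End K P1) :=
      LinearMap.injective_iff_surjective.1 hinj
    have hRc : ∀ r ∈ R1, (1 + t • D1 : End K P1) r ∈ R1 := by
      intro r hr
      rw [LinearMap.add_apply, LinearMap.smul_apply, Module.End.one_apply]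
      exact R1.add_mem hr (R1.smul_mem _ (hR1 r hr))
    have hgc : ∀ p q, g ((1 + t • D2 : End K P2) p) q = g p ((1 + t • D2 : End K P2) q) := by
      intro p q
      simp [hg]
    have hgc1 : ∀ p q, g1 ((1 + t • D1 : End K P1) p) q = g1 p ((1 + t • D1 : End K P1) q) := by
      intro p q
      simp [hg1]
    generalize (1 + t • D1 : End K P1) = c1 at *
    generalize (1 + t • D2 : End K P2) = c2 at *
    have ll : ∀ (s : τ) (x : P2 ⊗[K] P1),
        LinearMap.lTensor P2 (A s) (LinearMap.lTensor P2 c1 x) =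
          LinearMap.lTensor P2 c1 (LinearMap.lTensor P2 (A s) x) := by
      intro s x
      rw [← LinearMap.lTensor_comp_apply, ← LinearMap.lTensor_comp_apply]
      congr 2
      exact LinearMap.ext fun p => (cA s p).symm
    have rr : ∀ (s : τ) (x : P2 ⊗[K] P1),
        LinearMap.rTensor P1 (B s) (LinearMap.rTensor P1 c2 x) =
          LinearMap.rTensor P1 c2 (LinearMap.rTensor P1 (B s) x) := by
      intro s x
      rw [← LinearMap.rTensor_comp_apply, ← LinearMap.rTensor_comp_apply]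
      congr 2
      exact LinearMap.ext fun p => (cB s p).symm
    have e1 : ∀ s, LinearMap.lTensor P2 (c1 ∘ₗ c1 ∘ₗ A s) (X.1 s) =
        LinearMap.lTensor P2 (A s) ((op1 τ P2 c1 (op1 τ P2 c1 X)).1 s) := by
      intro s
      rw [LinearMap.lTensor_comp_apply, LinearMap.lTensor_comp_apply, ← ll, ← ll]
      rfl
    have e2 : ∀ s, LinearMap.rTensor P1 (c2 ∘ₗ c2 ∘ₗ B s) (X.1 s) =
        LinearMap.rTensor P1 (B s) ((op2 τ P1 c2 (op2 τ P1 c2 X)).1 s) := by
      intro s
      rw [LinearMap.rTensor_comp_apply, LinearMap.rTensor_comp_apply, ← rr, ← rr]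
      rfl
    have hb : ∀ t X (p : P2), bm g t (op1 τ P2 c1 X) p = c1 (bm g t X p) := by
      intro t X p
      rw [bm_apply, bm_apply, op1_apply]
      show c1 (X.2.1 p) - RJM.ev g (LinearMap.lTensor P2 c1 (X.1 t)) p = _
      rw [ev_lTensor, map_sub]
    have hk : ∀ t X (p : P1), km g1 t (op1 τ P2 c1 X) p = km g1 t X (c1 p) := by
      intro t X p
      rw [km_apply, km_apply, op1_apply]
      show X.2.2 (c1 p) - evk g1 (LinearMap.lTensor P2 c1 (X.1 t)) p = _
      rw [evk_lTensor hgc1]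
    have hb2 : ∀ t X (p : P2), bm g t (op2 τ P1 c2 X) p = bm g t X (c2 p) := by
      intro t X p
      rw [bm_apply, bm_apply, op2_apply]
      show X.2.1 (c2 p) - RJM.ev g (LinearMap.rTensor P1 c2 (X.1 t)) p = _
      rw [ev_rTensor hgc]
    have hk2 : ∀ t X (p : P1), km g1 t (op2 τ P1 c2 X) p = c2 (km g1 t X p) := by
      intro t X p
      rw [km_apply, km_apply, op2_apply]
      show c2 (X.2.2 p) - evk g1 (LinearMap.rTensor P1 c2 (X.1 t)) p = _
      rw [evk_rTensor, map_sub]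
    rw [pen_eq_iff] at h1
    refine ⟨⟨?_, fun s => ?_⟩, fun p => ?_, fun p => ?_, fun s p => ?_, fun s p => ?_⟩
    · simp only [e1, e2]
      rw [Finset.sum_sub_distrib, sub_eq_zero]
      exact h1.1
    · rw [e1, e2]
      exact h1.2 s
    · exact mem_of_map hinj hRc (mem_of_map hinj hRc (h4 p))
    · obtain ⟨q, hq⟩ := hsur p
      obtain ⟨q', hq'⟩ := hsur q
      rw [← hq, ← hq']
      exact h5 q'
    · have h6 := h2 s p
      rw [hb, hb, hb2, hb2, ← cA, ← cA] at h6
      exact h6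
    · have h6 := h3 s p
      rw [hk, hk, hk2, hk2, ← cB, ← cB] at h6
      exact h6

end Crest.Agent.R172.DecT
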