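import Crest.Agent.R172.FO2
import Crest.Agent.R172.Core5

/-!
Row 172: the derivation hypothesis `DerR` of the structure lemma, from the first order data, for a
generic element `F` of `K = N ⊓ W` (not necessarily onto).
-/

set_option autoImplicit false
set_option linter.unusedSectionVars false

namespace Crest.Agent.R172.DerG

open Matrix Crest.Agent.R172.FO Crest.Agent.R172.St

variable {ι : Type*} [Fintype ι] [DecidableEq ι] {δ : Type*} [Fintype δ] [DecidableEq δ]
variable {k K : Type*} [Field k] [Field K] [Algebra k K]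
variable {arm : δ → Fin 3} {J : Matrix ι ι K} {B : Matrix δ δ K} {N W : Submodule K (Matrix ι δ K)}

/-- the bilinear form of `V` -/
noncomputable def BJ (J : Matrix ι ι K) : LinearMap.BilinForm K (ι → K) := Matrix.toBilin' J

theorem BJ_apply (J : Matrix ι ι K) (v w : ι → K) : BJ J v w = v ⬝ᵥ (J *ᵥ w) :=
  Matrix.toBilin'_apply' J v w

/-- the operators `Φ_s` -/
noncomputable def Ph (arm : δ → Fin 3) (J : Matrix ι ι K) (B : Matrix δ δ K) (F : Matrix ι δ K)
    (s : Fin 3) : Module.End K (ι → K) := Matrix.toLin' (FO.Phi arm J B F s)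

theorem Ph_apply (F : Matrix ι δ K) (s : Fin 3) (v : ι → K) :
    Ph arm J B F s v = FO.Phi arm J B F s *ᵥ v := rfl

/-- `T^⊥` is contained in the image of `F` -/
theorem Tp_le (hJs : Jᵀ = J) (hJu : IsUnit J) (F : Matrix ι δ K) :
    Tp (BJ J) (Ph arm J B F) ≤ LinearMap.range (Matrix.toLin' F) := by
  -- the orthogonal of the image
  have h1 : ∀ v : ι → K, (Fᵀ * J) *ᵥ v = 0 → v ∈ T (Ph arm J B F) := by
    intro v hv
    refine mem_T.2 ⟨1, ?_⟩
    rw [mem_Nk_succ]
    intro s
    rw [mem_Nk_zero, Ph_apply, FO.Phi, FO.M]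
    have h2 : F * E K arm s * B * Fᵀ * J = F * E K arm s * B * (Fᵀ * J) := by
      simp only [Matrix.mul_assoc]
    rw [h2, ← mulVec_mulVec, hv, mulVec_zero]
  intro v hv
  by_contra hne
  -- a functional vanishing on the range and not at `v`
  obtain ⟨f, hf1, hf2⟩ := Submodule.exists_le_ker_of_notMem hne
  obtain ⟨Ji, hJi, hJi', hJit⟩ := FO.symm_inv hJs hJu
  let w : ι → K := fun i => f (Pi.single i 1)
  have hw : ∀ x : ι → K, f x = w ⬝ᵥ x := by
    intro x
    have : x = ∑ i, x i • (Pi.single i (1 : K) : ι → K) := by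
      ext j; simp [Finset.sum_apply, Pi.single_apply]
    conv_lhs => rw [this]
    rw [map_sum, dotProduct]
    refine Finset.sum_congr rfl fun i _ => ?_
    rw [map_smul, smul_eq_mul, mul_comm]
  let t : ι → K := Ji *ᵥ w
  have ht : t ∈ T (Ph arm J B F) := by
    apply h1
    rw [mulVec_mulVec, Matrix.mul_assoc, hJi, Matrix.mul_one]
    funext d
    have h3 := hf2 (LinearMap.mem_range.2 ⟨Pi.single d 1, rfl⟩)
    rw [LinearMap.mem_ker, hw, toLin'_apply, mulVec_single_one] at h3
    rw [mulVec, dotProduct, Pi.zero_apply, ← h3, dotProduct]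
    exact Finset.sum_congr rfl fun i _ => mul_comm _ _
  have h4 := hv t ht
  rw [BJ_apply, mulVec_mulVec, hJi, one_mulVec, dotProduct_comm, ← hw] at h4
  exact hf1 h4

/-- **`DerR` from the first order data.** -/
theorem derR (hD : FO.Data k arm J B N W) {F : Matrix ι δ K} (hF : FO.Generic k arm N W F) :
    _root_.Crest.Agent.R172.Core.DerR (BJ J) (Ph arm J B F) := by
  intro X hX hXT hsum
  let Xm : Fin 3 → Matrix ι ι K := fun s => LinearMap.toMatrix' (X s)
  have hXm : ∀ s v, Xm s *ᵥ v = X s v := fun s v => LinearMap.toMatrix'_mulVec _ _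
  have hskew : ∀ s, (Xm s)ᵀ * J + J * Xm s = 0 := by
    intro s
    ext i j
    have h1 := hX s (Pi.single i 1) (Pi.single j 1)
    rw [BJ_apply, BJ_apply, ← hXm, ← hXm, dotProduct_comm, mulVec_single_one, mulVec_single_one,
      mulVec_single_one, single_one_dotProduct] at h1
    rw [Matrix.add_apply, Matrix.zero_apply, Matrix.mul_apply, Matrix.mul_apply]
    have h2 : J.col j ⬝ᵥ (Xm s).col i = ∑ x, (Xm s)ᵀ i x * J x j := by
      rw [dotProduct]
      exact Finset.sum_congr rfl fun x _ => mul_comm _ _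
    have h3 : (J *ᵥ (Xm s).col j) i = ∑ x, J i x * Xm s x j := rfl
    rw [h2, h3] at h1
    rw [h1, neg_add_cancel]
  obtain ⟨R, hR⟩ := FO.exists_gen_inv F
  have hXF : F * R * FO.act arm Xm F = FO.act arm Xm F := by
    ext p d
    -- the column `d`
    have hcol : (FO.act arm Xm F).col d = X (arm d) (F.col d) := by
      rw [← hXm]
      funext q
      rw [col_apply, FO.act, Matrix.sum_apply, Finset.sum_eq_single (arm d)]
      · rw [FO.E, Matrix.mul_diagonal, if_pos rfl, mul_one]
        rfl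
      · intro s _ hs
        rw [FO.E, Matrix.mul_diagonal, if_neg hs.symm, mul_zero]
      · simp
    obtain ⟨u, hu⟩ := Tp_le (B := B) (arm := arm) hD.J_symm hD.J_unit F (hXT (arm d) (F.col d))
    have h4 : (F * R) *ᵥ (FO.act arm Xm F).col d = (FO.act arm Xm F).col d := by
      rw [hcol, ← hu, toLin'_apply, mulVec_mulVec, hR]
    exact congrFun h4 p
  have hiso : FO.Iso arm B Xm F := by
    rw [hD.iso_iff F Xm hskew]
    apply Matrix.toLin'.injective
    rw [map_sum, map_zero, ← hsum]
    refine Finset.sum_congr rfl fun s _ => ?_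
    rw [map_sub, Matrix.toLin'_mul, Matrix.toLin'_mul]
    have h5 : Matrix.toLin' (Xm s) = X s := Matrix.toLin'_toMatrix' _
    rw [h5]
    rfl
  obtain ⟨ξ, d, -, -, -, hd⟩ := hD.persist hF Xm hskew R hR hXF hiso
  have hPhi := fun s => hD.map_Phi F Xm hskew d hd s
  let dl : (ι → K) →+ (ι → K) :=
    { toFun := fun v i => d (v i)
      map_zero' := by funext i; simp
      map_add' := by intro v w; funext i; simp }
  have hmul : ∀ (A : Matrix ι ι K) (v : ι → K), dl (A *ᵥ v) = A.map d *ᵥ v + A *ᵥ dl v := by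
    intro A v
    funext i
    change d ((A *ᵥ v) i) = _
    simp only [mulVec, dotProduct, map_sum, Derivation.leibniz, smul_eq_mul, Pi.add_apply,
      map_apply]
    rw [Finset.sum_add_distrib, add_comm]
    congr 1
    exact Finset.sum_congr rfl fun x _ => mul_comm _ _
  refine ⟨d.restrictScalars ℤ, dl, ?_, ?_, ?_⟩
  · intro c v
    funext i
    change d (c * v i) = d c * v i + c * d (v i)
    rw [Derivation.leibniz, smul_eq_mul, smul_eq_mul]
    ring
  · intro v w
    rw [BJ_apply, BJ_apply, BJ_apply]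
    change dl v ⬝ᵥ J *ᵥ w + v ⬝ᵥ J *ᵥ dl w = d (v ⬝ᵥ J *ᵥ w)
    have h6 : dl (J *ᵥ w) = J *ᵥ dl w := by
      rw [hmul, hD.J_const, zero_mulVec, zero_add]
    rw [← h6]
    simp only [dotProduct, map_sum, Derivation.leibniz, smul_eq_mul]
    rw [← Finset.sum_add_distrib]
    refine Finset.sum_congr rfl fun i _ => ?_
    change d (v i) * (J *ᵥ w) i + v i * d ((J *ᵥ w) i) = _
    ring
  · intro s v
    have h7 : dl (Ph arm J B F s v) - Ph arm J B F s (dl v) = (FO.Phi arm J B F s).map d *ᵥ v := by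
      rw [Ph_apply, Ph_apply, hmul, add_sub_cancel_right]
    rw [h7, hPhi s, Matrix.sub_mulVec, ← mulVec_mulVec, ← mulVec_mulVec, hXm, hXm]
    rfl

end Crest.Agent.R172.DerG
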