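import Crest.Agent.R172.RJM

/-!
Row 172, node RD `diag` (skeleton of note 16775): translation of `RJM.main` to matrices.
(helper418)
-/

set_option autoImplicit false
set_option linter.unusedSectionVars false

namespace Crest.Agent.R172.DiagT

open Matrix Module TensorProduct Crest.Agent.R172.RJM

variable {n : Type*} [Fintype n] [DecidableEq n] {K : Type*} [Field K]
  {M : Type*} [AddCommGroup M] [Module K M]

/-- the image of `e` -/
abbrev U (e : Matrix n n K) : Submodule K (n → K) := LinearMap.range (toLin' e)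

theorem mem_U {e : Matrix n n K} (he : e * e = e) {v : n → K} : v ∈ U e ↔ e *ᵥ v = v := by
  constructor
  · rintro ⟨u, rfl⟩
    rw [toLin'_apply, mulVec_mulVec, he]
  · intro h
    exact ⟨v, by rw [toLin'_apply, h]⟩

theorem mk_mem (e : Matrix n n K) (u : n → K) : e *ᵥ u ∈ U e := ⟨u, by rw [toLin'_apply]⟩

section

variable {e : Matrix n n K} {al : Fin 3 → Matrix n n K}

theorem al_mem (hea : ∀ s, e * al s = al s * e) (s : Fin 3) :
    ∀ v ∈ U e, toLin' (al s) v ∈ U e := by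
  rintro _ ⟨u, rfl⟩
  refine ⟨al s *ᵥ u, ?_⟩
  rw [toLin'_apply, toLin'_apply, toLin'_apply, mulVec_mulVec, mulVec_mulVec, hea]

/-- the operators on `U e` -/
noncomputable def op (hea : ∀ s, e * al s = al s * e) (s : Fin 3) : Module.End K (U e) :=
  (toLin' (al s)).restrict (al_mem hea s)

theorem op_coe (hea : ∀ s, e * al s = al s * e) (s : Fin 3) (v : U e) :
    (op hea s v : n → K) = al s *ᵥ (v : n → K) := rfl

theorem op_pow (hea : ∀ s, e * al s = al s * e) (s : Fin 3) (a : ℕ) (v : U e) :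
    (((op hea s) ^ a) v : n → K) = (al s ^ a) *ᵥ (v : n → K) := by
  induction a generalizing v with
  | zero => simp
  | succ a ih =>
    rw [pow_succ, Module.End.mul_apply, ih, op_coe, mulVec_mulVec, ← pow_succ]

theorem op_word (hea : ∀ s, e * al s = al s * e) (w : List (Fin 3)) (v : U e) :
    ((w.map (op hea)).prod v : n → K) = (w.map al).prod *ᵥ (v : n → K) := by
  induction w with
  | nil => simp
  | cons s w ih =>
    rw [List.map_cons, List.prod_cons, Module.End.mul_apply, op_coe, ih, List.map_cons,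
      List.prod_cons, mulVec_mulVec]

theorem op_top (he : e * e = e) (hea : ∀ s, e * al s = al s * e)
    (perf : ∃ ρ : Fin 3 → Matrix n n K, ∑ s, al s * ρ s = 1) :
    ⨆ s, LinearMap.range (op hea s) = ⊤ := by
  rw [eq_top_iff]
  rintro ⟨v, hv⟩ -
  obtain ⟨ρ, hρ⟩ := perf
  have hv' := (mem_U he).1 hv
  have e1 : (⟨v, hv⟩ : U e) = ∑ s, op hea s ⟨e *ᵥ (ρ s *ᵥ v), mk_mem e _⟩ := by
    apply Subtype.ext
    rw [Submodule.coe_sum]
    simp only [op_coe]
    have e2 : ∑ s, al s *ᵥ (e *ᵥ (ρ s *ᵥ v)) = e *ᵥ ((∑ s, al s * ρ s) *ᵥ v) := by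
      rw [Matrix.sum_mulVec, mulVec_sum]
      refine Finset.sum_congr rfl fun s _ => ?_
      rw [mulVec_mulVec, mulVec_mulVec, mulVec_mulVec, ← hea, Matrix.mul_assoc]
    rw [e2, hρ, one_mulVec, hv']
  rw [e1]
  exact Submodule.sum_mem _ fun s _ => Submodule.mem_iSup_of_mem s ⟨_, rfl⟩

end

/-- tensors as matrices -/
noncomputable def Θ (ei ej : Matrix n n K) : (U ej) ⊗[K] (U ei) →ₗ[K] Matrix n n K :=
  TensorProduct.lift (LinearMap.mk₂ K
    (fun (u : U ej) (v : U ei) => vecMulVec (u : n → K) (v : n → K))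
    (fun a b p => by rw [Submodule.coe_add, add_vecMulVec])
    (fun c b p => by rw [Submodule.coe_smul, smul_vecMulVec])
    (fun a b p => by rw [Submodule.coe_add, vecMulVec_add])
    (fun c b p => by rw [Submodule.coe_smul, vecMulVec_smul]))

theorem Θ_tmul (ei ej : Matrix n n K) (u : U ej) (v : U ei) :
    Θ ei ej (u ⊗ₜ[K] v) = vecMulVec (u : n → K) (v : n → K) := by
  simp [Θ]

/-- exact families with correction (one side only) -/
structure DecI (g ei ej : Matrix n n K) (al : Fin 3 → Matrix n n K) (π : (n → K) →ₗ[K] M) (c : K)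
    (x : Fin 3 → Matrix n n K) (b : Matrix n n K) : Prop where
  bx : ∀ r, ej * x r * eiᵀ = x r
  sum : ∑ r, (x r * (al r)ᵀ - c • (al r * x r)) = 0
  arm : ∀ r, g * (x r * (al r)ᵀ - c • (al r * x r)) * g = 0
  bb : ei * b * ej = b
  rb : ∀ u, π (b *ᵥ u) = 0
  eb : ∀ r, al r * (b + (x r)ᵀ * g) = c • ((b + (x r)ᵀ * g) * al r)

theorem DD_tmul {P1 P2 : Type*} [AddCommGroup P1] [Module K P1] [AddCommGroup P2] [Module K P2]
    (A : Fin 3 → Module.End K P1) (B : Fin 3 → Module.End K P2) (c : K) (t : Fin 3) (u : P2)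
    (v : P1) : DD A B c t (u ⊗ₜ[K] v) = u ⊗ₜ[K] (A t v) - c • ((B t u) ⊗ₜ[K] v) := by
  simp only [DD, LinearMap.sub_apply, LinearMap.smul_apply, LinearMap.lTensor_tmul,
    LinearMap.rTensor_tmul]

section main

variable {g ei ej : Matrix n n K} {al : Fin 3 → Matrix n n K} {π : (n → K) →ₗ[K] M}

theorem Θ_block (hii : ei * ei = ei) (hjj : ej * ej = ej) (x : (U ej) ⊗[K] (U ei)) :
    ej * Θ ei ej x * eiᵀ = Θ ei ej x := by
  induction x with
  | zero => simp
  | add x y hx hy => rw [map_add, Matrix.mul_add, Matrix.add_mul, hx, hy]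
  | tmul u v =>
    rw [Θ_tmul, mul_vecMulVec, vecMulVec_mul, vecMul_transpose, (mem_U hjj).1 u.2,
      (mem_U hii).1 v.2]

theorem Θ_DD (hia : ∀ s, ei * al s = al s * ei) (hja : ∀ s, ej * al s = al s * ej) (c : K)
    (t : Fin 3) (x : (U ej) ⊗[K] (U ei)) :
    Θ ei ej (DD (op hia) (op hja) c t x) =
      Θ ei ej x * (al t)ᵀ - c • (al t * Θ ei ej x) := by
  induction x with
  | zero => simp
  | add x y hx hy =>
    rw [map_add, map_add, hx, hy, map_add, Matrix.add_mul, Matrix.mul_add, smul_add]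
    abel
  | tmul u v =>
    have e := DD_tmul (op hia) (op hja) c t u v
    rw [e, map_sub, map_smul, Θ_tmul, Θ_tmul, Θ_tmul, op_coe, op_coe, mul_vecMulVec,
      vecMulVec_mul, vecMul_transpose]

/-- the form on `U ej` -/
noncomputable def g2 (g ej : Matrix n n K) : (U ej) →ₗ[K] (U ej) →ₗ[K] K :=
  LinearMap.mk₂ K (fun u v => (u : n → K) ⬝ᵥ (g *ᵥ (v : n → K)))
    (fun a b p => by rw [Submodule.coe_add, add_dotProduct])
    (fun c b p => by rw [Submodule.coe_smul, smul_dotProduct])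
    (fun a b p => by rw [Submodule.coe_add, mulVec_add, dotProduct_add])
    (fun c b p => by rw [Submodule.coe_smul, mulVec_smul, dotProduct_smul])

theorem g2_apply (u v : U ej) : g2 g ej u v = (u : n → K) ⬝ᵥ (g *ᵥ (v : n → K)) := rfl

theorem ev_Θ (x : (U ej) ⊗[K] (U ei)) (p : U ej) :
    (ev (g2 g ej) x p : n → K) = ((Θ ei ej x)ᵀ * g) *ᵥ (p : n → K) := by
  induction x with
  | zero => simp
  | add x y hx hy =>
    rw [map_add, LinearMap.add_apply, Submodule.coe_add, hx, hy, map_add, transpose_add,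
      Matrix.add_mul, add_mulVec]
  | tmul u v =>
    rw [ev_tmul, Θ_tmul, Submodule.coe_smul, g2_apply, transpose_vecMulVec, ← mulVec_mulVec,
      vecMulVec_mulVec]
    simp

/-- the bilinear maps `q t` -/
noncomputable def qt (ei : Matrix n n K) (t : Fin 3) :
    (U ei) →ₗ[K] (U ei) →ₗ[K] (Fin 3 → Matrix n n K) :=
  LinearMap.mk₂ K (fun u v => Pi.single t (vecMulVec (u : n → K) (v : n → K)))
    (fun a b p => by rw [Submodule.coe_add, add_vecMulVec, Pi.single_add])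
    (fun c b p => by rw [Submodule.coe_smul, smul_vecMulVec, Pi.single_smul])
    (fun a b p => by rw [Submodule.coe_add, vecMulVec_add, Pi.single_add])
    (fun c b p => by rw [Submodule.coe_smul, vecMulVec_smul, Pi.single_smul])

theorem qt_apply (t : Fin 3) (u v : U ei) :
    qt ei t u v = Pi.single t (vecMulVec (u : n → K) (v : n → K)) := rfl

theorem lift1 (t : Fin 3) (f : (U ej) →ₗ[K] (U ei)) (Fm : Matrix n n K)
    (hf : ∀ p : U ej, (f p : n → K) = Fm *ᵥ (p : n → K)) (x : (U ej) ⊗[K] (U ei)) :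
    TensorProduct.lift ((qt ei t) ∘ₗ f) x = Pi.single t (Fm * Θ ei ej x) := by
  induction x with
  | zero => simp
  | add x y hx hy => rw [map_add, hx, hy, map_add, Matrix.mul_add, Pi.single_add]
  | tmul u v =>
    rw [TensorProduct.lift.tmul, LinearMap.comp_apply, qt_apply, hf, Θ_tmul, mul_vecMulVec]

theorem lift2 (t : Fin 3) (f : (U ej) →ₗ[K] (U ei)) (Fm : Matrix n n K)
    (hf : ∀ p : U ej, (f p : n → K) = Fm *ᵥ (p : n → K)) (x : (U ej) ⊗[K] (U ei)) :
    TensorProduct.lift ((qt ei t).flip ∘ₗ f) x = Pi.single t ((Θ ei ej x)ᵀ * Fmᵀ) := by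
  induction x with
  | zero => simp
  | add x y hx hy =>
    rw [map_add, hx, hy, map_add, transpose_add, Matrix.add_mul, Pi.single_add]
  | tmul u v =>
    rw [TensorProduct.lift.tmul, LinearMap.comp_apply, LinearMap.flip_apply, qt_apply, hf, Θ_tmul,
      transpose_vecMulVec, vecMulVec_mul, vecMul_transpose]

/-- **The translation.** -/
theorem diag_abs {l : Fin 3 → ℕ} (hii : ei * ei = ei) (hjj : ej * ej = ej)
    (hia : ∀ s, ei * al s = al s * ei) (hja : ∀ s, ej * al s = al s * ej)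
    (perf : ∃ ρ : Fin 3 → Matrix n n K, ∑ s, al s * ρ s = 1)
    (gsym : gᵀ = g) (gej : ejᵀ * g = g * ej) (gal : ∀ s, (al s)ᵀ * g = g * al s)
    (hker : ∀ u, π u = 0 → g *ᵥ u = 0)
    (pial : ∀ s u, π u = 0 → π (al s *ᵥ u) = 0)
    (kill : ∃ m0 : ℕ, ∀ w : List (Fin 3), w.length = m0 → ∀ u, π u = 0 →
      (w.map al).prod *ᵥ u = 0)
    (lpos : ∀ s, 1 ≤ l s) (lnil : ∀ s u, π ((al s ^ l s) *ᵥ u) = 0)
    (geni : ∀ (S : Submodule K (n → K)), (∀ s, ∀ v ∈ S, al s *ᵥ v ∈ S) →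
      (∀ s u, (al s ^ l s) *ᵥ (ei *ᵥ u) ∈ S) → ∀ u, π (ei *ᵥ u) = 0 → ei *ᵥ u ∈ S)
    (genj : ∀ (S : Submodule K (n → K)), (∀ s, ∀ v ∈ S, al s *ᵥ v ∈ S) →
      (∀ s u, (al s ^ l s) *ᵥ (ej *ᵥ u) ∈ S) → ∀ u, π (ej *ᵥ u) = 0 → ej *ᵥ u ∈ S)
    (topj : ∀ s, ∃ u u' : n → K, (ej *ᵥ u) ⬝ᵥ (g *ᵥ ((al s ^ (l s - 1)) *ᵥ (ej *ᵥ u'))) ≠ 0)
    {Λ : Set K} (hΛ : Λ.Infinite) (h0 : (0 : K) ∉ Λ)
    (Q : Submodule K (Fin 3 → Matrix n n K))
    (hexS : ∀ c ∈ Λ, ∀ x : Fin 3 → Matrix n n K, (∀ r, ej * x r * eiᵀ = x r) →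
      ∑ r, (x r * (al r)ᵀ - c • (al r * x r)) = 0 →
      (∀ r, g * (x r * (al r)ᵀ - c • (al r * x r)) * g = 0) →
      ∃ b, DecI g ei ej al π c x b)
    (hrel : ∀ c ∈ Λ, ∀ c' ∈ Λ, ∀ x y b b', DecI g ei ej al π c x b →
      DecI g ei ej al π c' y b' →
      (fun r => b * y r + (x r)ᵀ * g * y r + (x r)ᵀ * b'ᵀ) ∈ Q) :
    (∀ s, ∀ r, π (ei *ᵥ r) = 0 → ∀ y,
      (Pi.single s (vecMulVec (ei *ᵥ r) (ei *ᵥ y)) : Fin 3 → Matrix n n K) ∈ Q ∧
      (Pi.single s (vecMulVec (ei *ᵥ y) (ei *ᵥ r)) : Fin 3 → Matrix n n K) ∈ Q) ∧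
    (∀ s a a', a + a' + 1 = l s → ∀ y y' : n → K,
      (Pi.single s (vecMulVec ((al s ^ a) *ᵥ (ei *ᵥ y)) ((al s ^ a') *ᵥ (ei *ᵥ y'))) :
        Fin 3 → Matrix n n K) ∈ Q) := by
  obtain ⟨m0, hm0⟩ := kill
  let R1 : Submodule K (U ei) := LinearMap.ker (π ∘ₗ (U ei).subtype)
  let R2 : Submodule K (U ej) := LinearMap.ker (π ∘ₗ (U ej).subtype)
  have hR1m : ∀ v : U ei, v ∈ R1 ↔ π (v : n → K) = 0 := fun v => Iff.rfl
  have hR2m : ∀ v : U ej, v ∈ R2 ↔ π (v : n → K) = 0 := fun v => Iff.rfl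
  -- the arm condition
  have harm : ∀ z : (U ej) ⊗[K] (U ei), z ∈ (RT R2 ⊔ TR R1 : Submodule K _) →
      g * Θ ei ej z * g = 0 := by
    have h1 : (RT R2 ⊔ TR R1 : Submodule K ((U ej) ⊗[K] (U ei))) ≤
        LinearMap.ker ({ toFun := fun z => g * Θ ei ej z * g
                         map_add' := fun a b => by
                          rw [map_add, Matrix.mul_add, Matrix.add_mul]
                         map_smul' := fun c a => by
                          rw [map_smul, Matrix.mul_smul, Matrix.smul_mul, RingHom.id_apply] } :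
          (U ej) ⊗[K] (U ei) →ₗ[K] Matrix n n K) := by
      refine sup_le (Submodule.span_le.2 ?_) (Submodule.span_le.2 ?_)
      · rintro _ ⟨r, hr, p, rfl⟩
        show g * Θ ei ej (r ⊗ₜ[K] p) * g = 0
        have hr0 : g *ᵥ (r : n → K) = 0 := hker _ hr
        rw [Θ_tmul, mul_vecMulVec, hr0]
        simp
      · rintro _ ⟨p, r, hr, rfl⟩
        show g * Θ ei ej (p ⊗ₜ[K] r) * g = 0
        have : (r : n → K) ᵥ* g = 0 := by
          rw [← mulVec_transpose, gsym]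
          exact hker _ hr
        rw [Θ_tmul, mul_vecMulVec, vecMulVec_mul, this]
        simp
    intro z hz
    exact h1 hz
  -- exact tensor families give exact matrix families
  have hEx : ∀ c x, Ex (op hia) (op hja) R1 R2 c x →
      (∀ r, ej * Θ ei ej (x r) * eiᵀ = Θ ei ej (x r)) ∧
      ∑ r, (Θ ei ej (x r) * (al r)ᵀ - c • (al r * Θ ei ej (x r))) = 0 ∧
      ∀ r, g * (Θ ei ej (x r) * (al r)ᵀ - c • (al r * Θ ei ej (x r))) * g = 0 := by
    intro c x hx
    refine ⟨fun r => Θ_block hii hjj _, ?_, fun r => ?_⟩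
    · have h1 := congrArg (Θ ei ej) hx.sum
      rw [map_sum, map_zero] at h1
      rw [← h1]
      exact Finset.sum_congr rfl fun r _ => (Θ_DD hia hja c r _).symm
    · rw [← Θ_DD hia hja]
      exact harm _ (hx.arm r)
  -- a correction as a matrix
  let inc : ((U ej) →ₗ[K] (U ei)) → Matrix n n K := fun b =>
    LinearMap.toMatrix' ((U ei).subtype ∘ₗ b ∘ₗ (toLin' ej).rangeRestrict)
  have hinc : ∀ (b : (U ej) →ₗ[K] (U ei)) (u : n → K),
      inc b *ᵥ u = (b ⟨ej *ᵥ u, mk_mem ej u⟩ : n → K) := by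
    intro b u
    show (LinearMap.toMatrix' ((U ei).subtype ∘ₗ b ∘ₗ (toLin' ej).rangeRestrict)) *ᵥ u = _
    rw [LinearMap.toMatrix'_mulVec]
    rfl
  have hincp : ∀ (b : (U ej) →ₗ[K] (U ei)) (p : U ej), (b p : n → K) = inc b *ᵥ (p : n → K) := by
    intro b p
    rw [hinc]
    have : (⟨ej *ᵥ (p : n → K), mk_mem ej p⟩ : U ej) = p := Subtype.ext ((mem_U hjj).1 p.2)
    rw [this]
  have hmat : ∀ A C : Matrix n n K, (∀ u, A *ᵥ u = C *ᵥ u) → A = C := by
    intro A C h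
    apply (toLin' (R := K)).injective
    apply LinearMap.ext
    intro u
    rw [toLin'_apply, toLin'_apply, h]
  have hDec : ∀ c x b, Ex (op hia) (op hja) R1 R2 c x →
      Cor (op hia) (op hja) R1 (g2 g ej) 1 c x b →
      DecI g ei ej al π c (fun r => Θ ei ej (x r)) (-inc b) := by
    intro c x b hx hb
    obtain ⟨h1, h2, h3⟩ := hEx c x hx
    have hTe : ∀ r, (Θ ei ej (x r))ᵀ * g = (Θ ei ej (x r))ᵀ * g * ej := by
      intro r
      have h4 := congrArg transpose (h1 r)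
      rw [transpose_mul, transpose_mul, transpose_transpose] at h4
      have h5 : (Θ ei ej (x r))ᵀ * ejᵀ = (Θ ei ej (x r))ᵀ := by
        conv_lhs => rw [← h4]
        rw [Matrix.mul_assoc, Matrix.mul_assoc, ← transpose_mul, hjj, h4]
      rw [Matrix.mul_assoc, ← gej, ← Matrix.mul_assoc, h5]
    have hbb : ei * (-inc b) * ej = -inc b := by
      rw [Matrix.mul_neg, Matrix.neg_mul]
      congr 1
      apply hmat
      intro u
      rw [← mulVec_mulVec, ← mulVec_mulVec, hinc, hinc]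
      have e1 : (⟨ej *ᵥ (ej *ᵥ u), mk_mem ej _⟩ : U ej) = ⟨ej *ᵥ u, mk_mem ej _⟩ := by
        apply Subtype.ext
        show ej *ᵥ (ej *ᵥ u) = ej *ᵥ u
        rw [mulVec_mulVec, hjj]
      rw [e1]
      exact (mem_U hii).1 (b _).2
    refine ⟨h1, h2, h3, hbb, fun u => ?_, fun r => ?_⟩
    · rw [neg_mulVec, map_neg, neg_eq_zero, hinc]
      exact hb.mem _
    · -- both sides agree after `* ej` and the relation holds on `U ej`
      set Tm : Matrix n n K := -inc b + (Θ ei ej (x r))ᵀ * g with hTm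
      have hTj : Tm * ej = Tm := by
        rw [hTm, Matrix.add_mul, ← hTe]
        congr 1
        conv_lhs => rw [← hbb]
        rw [Matrix.mul_assoc, hjj, hbb]
      have hrel0 : ∀ p : U ej, al r *ᵥ (Tm *ᵥ (p : n → K)) = c • (Tm *ᵥ (al r *ᵥ (p : n → K))) := by
        intro p
        have h6 := congrArg (fun v : U ei => (v : n → K)) (hb.eq r p)
        simp only [one_mul] at h6
        have h7 : al r *ᵥ (inc b *ᵥ (p : n → K)) - c • (inc b *ᵥ (al r *ᵥ (p : n → K))) =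
            al r *ᵥ (((Θ ei ej (x r))ᵀ * g) *ᵥ (p : n → K)) -
              c • (((Θ ei ej (x r))ᵀ * g) *ᵥ (al r *ᵥ (p : n → K))) := by
          rw [← hincp, ← op_coe hja r p, ← hincp, ← ev_Θ, ← ev_Θ]
          exact h6
        rw [hTm, add_mulVec, add_mulVec, neg_mulVec, neg_mulVec, mulVec_add, mulVec_neg, smul_add,
          smul_neg]
        have h8 := congrArg (fun v => v - al r *ᵥ (inc b *ᵥ (p : n → K)) +
          c • (((Θ ei ej (x r))ᵀ * g) *ᵥ (al r *ᵥ (p : n → K)))) h7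
        have h9 : al r *ᵥ (inc b *ᵥ (p : n → K)) - c • (inc b *ᵥ (al r *ᵥ (p : n → K))) -
            al r *ᵥ (inc b *ᵥ (p : n → K)) +
            c • (((Θ ei ej (x r))ᵀ * g) *ᵥ (al r *ᵥ (p : n → K))) =
            -(c • (inc b *ᵥ (al r *ᵥ (p : n → K)))) +
            c • (((Θ ei ej (x r))ᵀ * g) *ᵥ (al r *ᵥ (p : n → K))) := by abel
        rw [← h9, h8]
        abel
      show al r * Tm = c • (Tm * al r)
      apply hmat
      intro u
      rw [smul_mulVec, ← mulVec_mulVec, ← mulVec_mulVec]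
      have h10 := hrel0 ⟨ej *ᵥ u, mk_mem ej u⟩
      have h11 : Tm *ᵥ (ej *ᵥ u) = Tm *ᵥ u := by rw [mulVec_mulVec, hTj]
      have h12 : Tm *ᵥ (al r *ᵥ (ej *ᵥ u)) = Tm *ᵥ (al r *ᵥ u) := by
        have e : al r *ᵥ (ej *ᵥ u) = ej *ᵥ (al r *ᵥ u) := by
          rw [mulVec_mulVec, mulVec_mulVec, hja]
        rw [e, mulVec_mulVec (al r *ᵥ u) Tm ej, hTj]
      simp only at h10
      rw [h11, h12] at h10
      exact h10
  have hwordR : ∀ {e : Matrix n n K} (hea : ∀ s, e * al s = al s * e) (w : List (Fin 3)),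
      w.length = m0 → ∀ r : U e, π (r : n → K) = 0 → (w.map (op hea)).prod r = 0 := by
    intro e hea w hw r hr
    apply Subtype.ext
    rw [op_word, hm0 w hw _ hr]
    rfl
  have hgen : ∀ {e : Matrix n n K} (he : e * e = e) (hea : ∀ s, e * al s = al s * e)
      (gen : ∀ (S : Submodule K (n → K)), (∀ s, ∀ v ∈ S, al s *ᵥ v ∈ S) →
        (∀ s u, (al s ^ l s) *ᵥ (e *ᵥ u) ∈ S) → ∀ u, π (e *ᵥ u) = 0 → e *ᵥ u ∈ S)
      (S : Submodule K (U e)), (∀ t, ∀ v ∈ S, op hea t v ∈ S) →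
      (∀ s p, ((op hea s) ^ l s) p ∈ S) → LinearMap.ker (π ∘ₗ (U e).subtype) ≤ S := by
    intro e he hea gen S hS1 hS2 r hr
    have h1 := gen (S.map (U e).subtype) (by
        rintro s _ ⟨v, hv, rfl⟩
        exact ⟨op hea s v, hS1 s v hv, op_coe hea s v⟩) (by
        intro s u
        exact ⟨((op hea s) ^ l s) ⟨e *ᵥ u, mk_mem e u⟩, hS2 s _, op_pow hea s _ _⟩)
      (r : n → K) (by rw [(mem_U he).1 r.2]; exact hr)
    rw [(mem_U he).1 r.2] at h1
    obtain ⟨v, hv, hvr⟩ := h1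
    have : v = r := Subtype.ext hvr
    rwa [← this]
  obtain ⟨k1, k2⟩ := RJM.main (A := op hia) (B := op hja) (R1 := R1) (R2 := R2) (l := l)
    (g := g2 g ej) (eps := 1) (m := m0) (E := Fin 3 → Matrix n n K)
    (op_top hii hia perf) (op_top hjj hja perf)
    (fun t r hr => pial t _ hr) (fun t r hr => pial t _ hr)
    (fun w hw r hr => hwordR hia w hw r hr) (fun w hw r hr => hwordR hja w hw r hr) lpos
    (fun s p => by rw [hR1m, op_pow]; exact lnil s _)
    (fun s p => by rw [hR2m, op_pow]; exact lnil s _)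
    (fun S h1 h2 => hgen hii hia geni S h1 h2) (fun S h1 h2 => hgen hjj hja genj S h1 h2)
    one_ne_zero
    (fun r hr p => by
      rw [g2_apply, dotProduct_mulVec, ← mulVec_transpose, gsym]
      have : g *ᵥ (r : n → K) = 0 := hker _ hr
      rw [this, zero_dotProduct])
    (fun r hr p => by
      rw [g2_apply]
      have : g *ᵥ (r : n → K) = 0 := hker _ hr
      rw [this, dotProduct_zero])
    (fun t p p' => by
      rw [one_mul, g2_apply, g2_apply, op_coe, op_coe, mulVec_mulVec, ← gal, ← mulVec_mulVec,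
        dotProduct_mulVec _ (al t)ᵀ, vecMul_transpose])
    (fun s => by
      obtain ⟨u, u', h⟩ := topj s
      refine ⟨⟨ej *ᵥ u', mk_mem ej u'⟩, ⟨ej *ᵥ u, mk_mem ej u⟩, ?_⟩
      rw [g2_apply, op_pow]
      rw [dotProduct_mulVec, ← mulVec_transpose, gsym, dotProduct_comm]
      exact h)
    hΛ h0 (qt ei) Q (a1 := -1) (a2 := -1) (a3 := 1) (neg_ne_zero.2 one_ne_zero)
    (neg_ne_zero.2 one_ne_zero) one_ne_zero
    (by
      intro c hc x hx
      obtain ⟨h1, h2, h3⟩ := hEx c x hx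
      obtain ⟨b, hb⟩ := hexS c hc _ h1 h2 h3
      have hbm : ∀ u, b *ᵥ u ∈ U ei := by
        intro u
        rw [← hb.bb, Matrix.mul_assoc, ← mulVec_mulVec]
        exact mk_mem ei _
      refine ⟨LinearMap.codRestrict (U ei) (-(toLin' b) ∘ₗ (U ej).subtype)
        (fun u => (U ei).neg_mem (hbm u)), fun p => ?_, fun t p => ?_⟩
      · show π (-(b *ᵥ (p : n → K))) = 0
        rw [map_neg, hb.rb, neg_zero]
      · apply Subtype.ext
        have h5 := congrArg (fun A : Matrix n n K => A *ᵥ (p : n → K)) (hb.eb t)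
        simp only [smul_mulVec, ← mulVec_mulVec, add_mulVec, mulVec_add, smul_add] at h5
        rw [one_mul]
        show al t *ᵥ (-(b *ᵥ (p : n → K))) - c • (-(b *ᵥ (al t *ᵥ (p : n → K)))) =
          al t *ᵥ (ev (g2 g ej) (x t) p : n → K) -
            c • (ev (g2 g ej) (x t) (op hja t p) : n → K)
        rw [ev_Θ, ev_Θ, op_coe, mulVec_neg, smul_neg, ← mulVec_mulVec, ← mulVec_mulVec]
        have h6 := congrArg (fun v => v - al t *ᵥ (b *ᵥ (p : n → K)) -
          c • ((Θ ei ej (x t))ᵀ *ᵥ (g *ᵥ (al t *ᵥ (p : n → K))))) h5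
        have h7 : al t *ᵥ (b *ᵥ (p : n → K)) + al t *ᵥ ((Θ ei ej (x t))ᵀ *ᵥ (g *ᵥ (p : n → K))) -
            al t *ᵥ (b *ᵥ (p : n → K)) -
            c • ((Θ ei ej (x t))ᵀ *ᵥ (g *ᵥ (al t *ᵥ (p : n → K)))) =
            al t *ᵥ ((Θ ei ej (x t))ᵀ *ᵥ (g *ᵥ (p : n → K))) -
            c • ((Θ ei ej (x t))ᵀ *ᵥ (g *ᵥ (al t *ᵥ (p : n → K)))) := by abel
        rw [← h7, h6]
        abel)
    (by
      intro c hc c' hc' x b x' b' hx hb hx' hb'
      have h1 := hrel c' hc' c hc _ _ _ _ (hDec c' x' b' hx' hb') (hDec c x b hx hb)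
      have h2 : ∑ t, ((-1 : K) • TensorProduct.lift ((qt ei t) ∘ₗ b') (x t)
        + (-1 : K) • TensorProduct.lift ((qt ei t).flip ∘ₗ b) (x' t)
        + (1 : K) • TensorProduct.lift ((qt ei t) ∘ₗ (ev (g2 g ej) (x' t))) (x t)) =
        fun r => -inc b' * Θ ei ej (x r) + (Θ ei ej (x' r))ᵀ * g * Θ ei ej (x r) +
          (Θ ei ej (x' r))ᵀ * (-inc b)ᵀ := by
        rw [← Finset.univ_sum_single (fun r => -inc b' * Θ ei ej (x r) +
          (Θ ei ej (x' r))ᵀ * g * Θ ei ej (x r) + (Θ ei ej (x' r))ᵀ * (-inc b)ᵀ)]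
        refine Finset.sum_congr rfl fun t _ => ?_
        rw [lift1 t b' (inc b') (hincp b') (x t), lift2 t b (inc b) (hincp b) (x' t),
          lift1 t (ev (g2 g ej) (x' t)) ((Θ ei ej (x' t))ᵀ * g) (fun p => ev_Θ (x' t) p) (x t),
          neg_one_smul, neg_one_smul, one_smul, ← Pi.single_neg, ← Pi.single_neg,
          ← Pi.single_add, ← Pi.single_add]
        congr 1
        rw [transpose_neg, Matrix.neg_mul, Matrix.mul_neg]
        abel
      rw [h2]
      exact h1)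
  refine ⟨fun s r hr y => ?_, fun s a a' haa y y' => ?_⟩
  · exact k1 s ⟨ei *ᵥ r, mk_mem ei r⟩ hr ⟨ei *ᵥ y, mk_mem ei y⟩
  · have h := k2 s a a' haa ⟨ei *ᵥ y, mk_mem ei y⟩ ⟨ei *ᵥ y', mk_mem ei y'⟩
    rw [qt_apply, op_pow, op_pow] at h
    exact h

end main

end Crest.Agent.R172.DiagT
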