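import Mathlib

/-!
Row 172, T0 with arbitrary radical: the span lemma with tracking of the motion `b` (note 15688 ff).
-/

set_option autoImplicit false
set_option linter.unusedSectionVars false
set_option maxHeartbeats 400000

namespace Crest.Agent.R172.Dual2

open TensorProduct Module Polynomial

variable {K : Type*} [Field K] {τ : Type*} [Fintype τ] [DecidableEq τ]

section fil
variable {P : Type*} [AddCommGroup P] [Module K P]

/-- the kernel filtration -/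
def kf (A : τ → End K P) : ℕ → Submodule K P
  | 0 => ⊥
  | m + 1 => ⨅ t, (kf A m).comap (A t)

theorem mem_kf_succ {A : τ → End K P} {m : ℕ} {x : P} :
    x ∈ kf A (m + 1) ↔ ∀ t, A t x ∈ kf A m := by
  simp [kf]

theorem exists_sec (A : τ → End K P) (hA : ⨆ t, LinearMap.range (A t) = ⊤) :
    ∃ s : τ → End K P, ∀ x, ∑ t, A t (s t x) = x := by
  let S : (τ → P) →ₗ[K] P := ∑ t, (A t) ∘ₗ (LinearMap.proj t)
  have hS : ∀ y, S y = ∑ t, A t (y t) := by intro y; simp [S]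
  have hsur : LinearMap.range S = ⊤ := by
    rw [eq_top_iff, ← hA, iSup_le_iff]
    rintro t _ ⟨x, rfl⟩
    refine ⟨Pi.single t x, ?_⟩
    rw [hS, Finset.sum_eq_single t]
    · simp
    · intro u _ hu; simp [Pi.single_eq_of_ne hu]
    · simp
  obtain ⟨g, hg⟩ := LinearMap.exists_rightInverse_of_surjective S hsur
  refine ⟨fun t => (LinearMap.proj t) ∘ₗ g, fun x => ?_⟩
  have := LinearMap.congr_fun hg x
  rw [LinearMap.comp_apply, hS] at this
  simpa using this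

end fil

section pol
variable {Λ : Set K}

def PolP (Λ : Set K) (φ : K → K) : Prop := ∃ f : K[X], ∀ c ∈ Λ, φ c = f.eval c
def PolN (Λ : Set K) (φ : K → K) : Prop := ∃ g : K[X], ∀ c ∈ Λ, φ c = c⁻¹ * g.eval c⁻¹

theorem PolP.add {φ ψ : K → K} (h : PolP Λ φ) (h' : PolP Λ ψ) : PolP Λ (fun c => φ c + ψ c) := by
  obtain ⟨f, hf⟩ := h
  obtain ⟨f', hf'⟩ := h'
  exact ⟨f + f', fun c hc => by beta_reduce; rw [hf c hc, hf' c hc, eval_add]⟩

theorem PolP.const (a : K) : PolP Λ (fun _ => a) := ⟨C a, fun c _ => by simp⟩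

theorem PolP.mulX {φ : K → K} (h : PolP Λ φ) : PolP Λ (fun c => c * φ c) := by
  obtain ⟨f, hf⟩ := h
  exact ⟨X * f, fun c hc => by beta_reduce; rw [hf c hc, eval_mul, eval_X]⟩

theorem PolP.sum {σ : Type*} (s : Finset σ) (φ : σ → K → K) (h : ∀ i ∈ s, PolP Λ (φ i)) :
    PolP Λ (fun c => ∑ i ∈ s, φ i c) := by
  classical
  induction s using Finset.induction_on with
  | empty => exact ⟨0, fun c _ => by simp⟩
  | insert i s hi ih =>
    have h1 := (h i (Finset.mem_insert_self i s)).add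
      (ih fun j hj => h j (Finset.mem_insert_of_mem hj))
    obtain ⟨f, hf⟩ := h1
    exact ⟨f, fun c hc => by beta_reduce; rw [Finset.sum_insert hi]; exact hf c hc⟩

theorem PolN.add {φ ψ : K → K} (h : PolN Λ φ) (h' : PolN Λ ψ) : PolN Λ (fun c => φ c + ψ c) := by
  obtain ⟨f, hf⟩ := h
  obtain ⟨f', hf'⟩ := h'
  exact ⟨f + f', fun c hc => by beta_reduce; rw [hf c hc, hf' c hc, eval_add, mul_add]⟩

theorem PolN.neg {φ : K → K} (h : PolN Λ φ) : PolN Λ (fun c => - φ c) := by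
  obtain ⟨f, hf⟩ := h
  exact ⟨-f, fun c hc => by beta_reduce; rw [hf c hc, eval_neg, mul_neg]⟩

theorem PolN.zero : PolN Λ (fun _ => 0) := ⟨0, fun c _ => by simp⟩

theorem PolN.inv_const (a : K) : PolN Λ (fun c => c⁻¹ * a) := ⟨C a, fun c _ => by simp⟩

theorem PolN.inv {φ : K → K} (h : PolN Λ φ) : PolN Λ (fun c => c⁻¹ * φ c) := by
  obtain ⟨f, hf⟩ := h
  exact ⟨X * f, fun c hc => by beta_reduce; rw [hf c hc, eval_mul, eval_X]⟩

theorem PolN.sum {σ : Type*} (s : Finset σ) (φ : σ → K → K) (h : ∀ i ∈ s, PolN Λ (φ i)) :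
    PolN Λ (fun c => ∑ i ∈ s, φ i c) := by
  classical
  induction s using Finset.induction_on with
  | empty => exact ⟨0, fun c _ => by simp⟩
  | insert i s hi ih =>
    have h1 := (h i (Finset.mem_insert_self i s)).add
      (ih fun j hj => h j (Finset.mem_insert_of_mem hj))
    obtain ⟨f, hf⟩ := h1
    exact ⟨f, fun c hc => by beta_reduce; rw [Finset.sum_insert hi]; exact hf c hc⟩

theorem PolN.congr {φ ψ : K → K} (h : PolN Λ φ) (e : ∀ c ∈ Λ, ψ c = φ c) : PolN Λ ψ := by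
  obtain ⟨f, hf⟩ := h
  exact ⟨f, fun c hc => by beta_reduce; rw [e c hc, hf c hc]⟩

theorem PolP.congr {φ ψ : K → K} (h : PolP Λ φ) (e : ∀ c ∈ Λ, ψ c = φ c) : PolP Λ ψ := by
  obtain ⟨f, hf⟩ := h
  exact ⟨f, fun c hc => by beta_reduce; rw [e c hc, hf c hc]⟩

theorem separate (hΛ : Λ.Infinite) (h0 : (0 : K) ∉ Λ) (l : ℕ) (a : ℕ → K) {φ ψ : K → K}
    (hφ : PolN Λ φ) (hψ : PolP Λ ψ)
    (h : ∀ c ∈ Λ, ∑ j ∈ Finset.range l, c ^ j * a j = φ c - c ^ l * ψ c) :
    (∀ j < l, a j = 0) ∧ (∀ c ∈ Λ, ψ c = 0) ∧ (∀ c ∈ Λ, φ c = 0) := by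
  obtain ⟨g, hg⟩ := hφ
  obtain ⟨f, hf⟩ := hψ
  set d := g.natDegree with hd
  set p : K[X] := ∑ j ∈ Finset.range l, X ^ (d + 1 + j) * C (a j) with hp
  have hev : ∀ c ∈ Λ, (reverse g).eval c = c ^ (d + 1) * (c⁻¹ * g.eval c⁻¹) := by
    intro c hc
    have hc0 : c ≠ 0 := fun e => h0 (e ▸ hc)
    have : Invertible c⁻¹ := invertibleOfNonzero (inv_ne_zero hc0)
    have h1 := eval₂_reverse_mul_pow (RingHom.id K) c⁻¹ g
    have h2 : ⅟(c⁻¹) = c := by rw [invOf_eq_inv, inv_inv]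
    rw [h2] at h1
    simp only [eval₂_id] at h1
    rw [← h1, ← hd, pow_succ, inv_pow]
    field_simp
  have hid : p = reverse g - X ^ (l + d + 1) * f := by
    apply Polynomial.eq_of_infinite_eval_eq
    refine hΛ.mono fun c hc => ?_
    have hc0 : c ≠ 0 := fun e => h0 (e ▸ hc)
    show p.eval c = (reverse g - X ^ (l + d + 1) * f).eval c
    rw [eval_sub, hev c hc, ← hg c hc, eval_mul, eval_pow, eval_X, ← hf c hc, hp,
      eval_finsetSum]
    have h1 := h c hc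
    have h2 : c ^ (d + 1) * φ c - c ^ (l + d + 1) * ψ c = c ^ (d + 1) * (φ c - c ^ l * ψ c) := by
      ring
    rw [h2, ← h1, Finset.mul_sum]
    refine Finset.sum_congr rfl fun j _ => ?_
    simp only [eval_mul, eval_pow, eval_X, eval_C]
    ring
  have hdeg : ∀ i, d < i → (reverse g).coeff i = 0 := by
    intro i hi
    apply coeff_eq_zero_of_natDegree_lt
    exact lt_of_le_of_lt (reverse_natDegree_le g) hi
  have hpc : ∀ i, p.coeff i = if d + 1 ≤ i ∧ i < d + 1 + l then a (i - (d + 1)) else 0 := by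
    intro i
    rw [hp, finsetSum_coeff]
    simp only [coeff_mul_C, coeff_X_pow]
    split_ifs with hi
    · rw [Finset.sum_eq_single (i - (d + 1))]
      · rw [if_pos (by omega), one_mul]
      · intro j _ hj
        rw [if_neg (by omega), zero_mul]
      · intro hj
        exact absurd (Finset.mem_range.2 (by omega)) hj
    · apply Finset.sum_eq_zero
      intro j hj
      rw [Finset.mem_range] at hj
      rw [if_neg (by omega), zero_mul]
  have ha : ∀ j < l, a j = 0 := by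
    intro j hj
    have h1 := congrArg (fun q => coeff q (d + 1 + j)) hid
    simp only [coeff_sub, coeff_X_pow_mul'] at h1
    rw [hpc, if_pos (by omega), hdeg _ (by omega), if_neg (by omega)] at h1
    have : d + 1 + j - (d + 1) = j := by omega
    rw [this] at h1
    simpa using h1
  have hf0 : f = 0 := by
    ext i
    have h1 := congrArg (fun q => coeff q (l + d + 1 + i)) hid
    simp only [coeff_sub, coeff_X_pow_mul'] at h1
    rw [hpc, if_neg (by omega), hdeg _ (by omega), if_pos (by omega)] at h1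
    have : l + d + 1 + i - (l + d + 1) = i := by omega
    rw [this] at h1
    simp only [zero_sub] at h1
    rw [coeff_zero]
    exact neg_eq_zero.1 h1.symm
  refine ⟨ha, fun c hc => by beta_reduce; rw [hf c hc, hf0, eval_zero], fun c hc => ?_⟩
  have h1 := h c hc
  rw [hf c hc, hf0, eval_zero, mul_zero, sub_zero] at h1
  rw [← h1]
  apply Finset.sum_eq_zero
  intro j hj
  rw [ha j (Finset.mem_range.1 hj), mul_zero]

end pol

section core
variable {P1 P2 : Type*} [AddCommGroup P1] [Module K P1] [AddCommGroup P2] [Module K P2]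

/-- the output of the functional argument -/
structure ZSys (A : τ → End K P1) (B : τ → End K P2) (R1 : Submodule K P1) (R2 : Submodule K P2)
    (Λ : Set K) (η : τ → P2 →ₗ[K] P1 →ₗ[K] K) (Z κ : K → τ → P2 →ₗ[K] P1 →ₗ[K] K) : Prop where
  rel : ∀ c ∈ Λ, ∀ t p2 p1, η t p2 p1 = Z c t p2 (A t p1) - c * Z c t (B t p2) p1
  com2 : ∀ c ∈ Λ, ∀ t t', ∀ r ∈ R2, ∀ p1, Z c t r p1 = Z c t' r p1
  com1 : ∀ c ∈ Λ, ∀ t t' p2, ∀ r ∈ R1, Z c t p2 r + κ c t p2 r = Z c t' p2 r + κ c t' p2 r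
  kap : ∀ t p2 p1, PolN Λ (fun c => κ c t p2 p1)

variable {A : τ → End K P1} {B : τ → End K P2} {R1 : Submodule K P1} {R2 : Submodule K P2}
  {Λ : Set K} {η : τ → P2 →ₗ[K] P1 →ₗ[K] K} {Z κ : K → τ → P2 →ₗ[K] P1 →ₗ[K] K}

theorem ZSys.polR2 (h : ZSys A B R1 R2 Λ η Z κ) (hA : ⨆ t, LinearMap.range (A t) = ⊤)
    (hs2 : ∀ t, ∀ r ∈ R2, B t r ∈ R2) (n : ℕ) :
    ∀ r ∈ R2, r ∈ kf B n → ∀ p1 t, PolP Λ (fun c => Z c t r p1) := by
  obtain ⟨s, hs⟩ := exists_sec A hA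
  induction n with
  | zero =>
    intro r _ hr p1 t
    have : r = 0 := by simpa [kf] using hr
    subst this
    exact (PolP.const 0).congr fun c _ => by simp
  | succ n ih =>
    intro r hr hrn p1 t
    rw [mem_kf_succ] at hrn
    have h1 : PolP Λ (fun c => ∑ u, (η u r (s u p1) + c * Z c u (B u r) (s u p1))) :=
      PolP.sum _ _ fun u _ =>
        (PolP.const _).add (ih (B u r) (hs2 u r hr) (hrn u) (s u p1) u).mulX
    refine h1.congr fun c hc => ?_
    have e1 : Z c t r p1 = ∑ u, Z c t r (A u (s u p1)) := by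
      rw [← map_sum, hs]
    rw [e1]
    refine Finset.sum_congr rfl fun u _ => ?_
    rw [h.com2 c hc t u r hr, h.rel c hc u]
    ring

theorem ZSys.polR1 (h : ZSys A B R1 R2 Λ η Z κ) (hB : ⨆ t, LinearMap.range (B t) = ⊤)
    (hs1 : ∀ t, ∀ r ∈ R1, A t r ∈ R1) (h0 : (0 : K) ∉ Λ) (n : ℕ) :
    ∀ r ∈ R1, r ∈ kf A n → ∀ p2 t, PolN Λ (fun c => Z c t p2 r) := by
  obtain ⟨s, hs⟩ := exists_sec B hB
  induction n with
  | zero =>
    intro r _ hr p1 t
    have : r = 0 := by simpa [kf] using hr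
    subst this
    exact PolN.zero.congr fun c _ => by simp
  | succ n ih =>
    intro r hr hrn p2 t
    rw [mem_kf_succ] at hrn
    have h1 : PolN Λ (fun c => (∑ u, ((c⁻¹ * Z c u (s u p2) (A u r) + - (c⁻¹ * η u (s u p2) r)) +
        κ c u (B u (s u p2)) r)) + - κ c t p2 r) :=
      (PolN.sum _ _ fun u _ =>
        (((ih (A u r) (hs1 u r hr) (hrn u) (s u p2) u).inv).add (PolN.inv_const _).neg).add
          (h.kap u _ _)).add (h.kap t _ _).neg
    refine h1.congr fun c hc => ?_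
    have hc0 : c ≠ 0 := fun e => h0 (e ▸ hc)
    have e1 : Z c t p2 r + κ c t p2 r
        = ∑ u, (Z c t (B u (s u p2)) r + κ c t (B u (s u p2)) r) := by
      rw [Finset.sum_add_distrib, ← LinearMap.sum_apply, ← LinearMap.sum_apply, ← map_sum,
        ← map_sum, hs]
    have e2 : ∀ u, Z c t (B u (s u p2)) r + κ c t (B u (s u p2)) r
        = (c⁻¹ * Z c u (s u p2) (A u r) + - (c⁻¹ * η u (s u p2) r)) + κ c u (B u (s u p2)) r := by
      intro u
      rw [h.com1 c hc t u _ r hr, h.rel c hc u (s u p2) r]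
      field_simp
      ring
    rw [eq_comm, ← sub_eq_add_neg, sub_eq_iff_eq_add, e1]
    exact Finset.sum_congr rfl fun u _ => (e2 u).symm

theorem ZSys.tele (h : ZSys A B R1 R2 Λ η Z κ) {c : K} (hc : c ∈ Λ) (s : τ) (l : ℕ) (p2 : P2)
    (p1 : P1) (m : ℕ) (hm : m ≤ l) :
    ∑ j ∈ Finset.range m, c ^ j * η s ((B s ^ j) p2) ((A s ^ (l - 1 - j)) p1) =
      Z c s p2 ((A s ^ l) p1) - c ^ m * Z c s ((B s ^ m) p2) ((A s ^ (l - m)) p1) := by
  induction m with
  | zero => simp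
  | succ m ih =>
    rw [Finset.sum_range_succ, ih (by omega), h.rel c hc]
    have e1 : A s ((A s ^ (l - 1 - m)) p1) = (A s ^ (l - m)) p1 := by
      rw [← Module.End.mul_apply, ← pow_succ', show l - 1 - m + 1 = l - m by omega]
    have e2 : B s ((B s ^ m) p2) = (B s ^ (m + 1)) p2 := by
      rw [← Module.End.mul_apply, ← pow_succ']
    have e3 : l - (m + 1) = l - 1 - m := by omega
    rw [e1, e2, e3]
    ring

theorem ZSys.main (h : ZSys A B R1 R2 Λ η Z κ) (hΛ : Λ.Infinite) (h0 : (0 : K) ∉ Λ)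
    (hA : ⨆ t, LinearMap.range (A t) = ⊤) (hB : ⨆ t, LinearMap.range (B t) = ⊤)
    (hs1 : ∀ t, ∀ r ∈ R1, A t r ∈ R1) (hs2 : ∀ t, ∀ r ∈ R2, B t r ∈ R2)
    {n : ℕ} (hn1 : R1 ≤ kf A n) (hn2 : R2 ≤ kf B n) (l : τ → ℕ)
    (hl1 : ∀ s p, (A s ^ l s) p ∈ R1) (hl2 : ∀ s p, (B s ^ l s) p ∈ R2) (s : τ) (p2 : P2)
    (p1 : P1) :
    (∀ j < l s, η s ((B s ^ j) p2) ((A s ^ (l s - 1 - j)) p1) = 0) ∧
      (∀ c ∈ Λ, Z c s ((B s ^ l s) p2) p1 = 0) ∧ (∀ c ∈ Λ, Z c s p2 ((A s ^ l s) p1) = 0) := by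
  refine separate hΛ h0 (l s) (fun j => η s ((B s ^ j) p2) ((A s ^ (l s - 1 - j)) p1))
    (φ := fun c => Z c s p2 ((A s ^ l s) p1)) (ψ := fun c => Z c s ((B s ^ l s) p2) p1)
    (h.polR1 hB hs1 h0 n _ (hl1 s p1) (hn1 (hl1 s p1)) p2 s)
    (h.polR2 hA hs2 n _ (hl2 s p2) (hn2 (hl2 s p2)) p1 s) ?_
  intro c hc
  have := h.tele hc s (l s) p2 p1 (l s) le_rfl
  rw [Nat.sub_self, pow_zero, Module.End.one_apply] at this
  exact this

theorem ZSys.zero2 (h : ZSys A B R1 R2 Λ η Z κ) (hΛ : Λ.Infinite) (h0 : (0 : K) ∉ Λ)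
    (hA : ⨆ t, LinearMap.range (A t) = ⊤) (hB : ⨆ t, LinearMap.range (B t) = ⊤)
    (hs1 : ∀ t, ∀ r ∈ R1, A t r ∈ R1) (hs2 : ∀ t, ∀ r ∈ R2, B t r ∈ R2)
    {n : ℕ} (hn1 : R1 ≤ kf A n) (hn2 : R2 ≤ kf B n) (l : τ → ℕ)
    (hl1 : ∀ s p, (A s ^ l s) p ∈ R1) (hl2 : ∀ s p, (B s ^ l s) p ∈ R2)
    (gen2 : ∀ G : Submodule K P2, (∀ t, ∀ r ∈ G, B t r ∈ G) → (∀ s p, (B s ^ l s) p ∈ G) →
      R2 ≤ G) : ∀ t, ∀ r ∈ R2, ∀ p1, η t r p1 = 0 := by
  have key : ∀ r ∈ R2, (∀ c ∈ Λ, ∀ t, Z c t r = 0) → ∀ t p1, η t r p1 = 0 ∧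
      ∀ c ∈ Λ, Z c t (B t r) p1 = 0 := by
    intro r hr hz t p1
    have h1 := separate hΛ h0 1 (fun _ => η t r p1) (φ := fun _ => 0)
      (ψ := fun c => Z c t (B t r) p1) PolN.zero
      (h.polR2 hA hs2 n _ (hs2 t r hr) (hn2 (hs2 t r hr)) p1 t) (by
        intro c hc
        rw [Finset.sum_range_one, pow_zero, one_mul, pow_one, h.rel c hc, hz c hc]
        simp)
    exact ⟨h1.1 0 (by omega), h1.2.1⟩
  have hG := gen2 (R2 ⊓ ⨅ c ∈ Λ, ⨅ t, LinearMap.ker (Z c t)) (by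
    intro t r hr
    simp only [Submodule.mem_inf, Submodule.mem_iInf, LinearMap.mem_ker] at hr ⊢
    refine ⟨hs2 t r hr.1, fun c hc u => ?_⟩
    ext p1
    rw [h.com2 c hc u t _ (hs2 t r hr.1), (key r hr.1 hr.2 t p1).2 c hc, LinearMap.zero_apply])
    (by
    intro s p
    simp only [Submodule.mem_inf, Submodule.mem_iInf, LinearMap.mem_ker]
    refine ⟨hl2 s p, fun c hc u => ?_⟩
    ext p1
    rw [h.com2 c hc u s _ (hl2 s p),
      (h.main hΛ h0 hA hB hs1 hs2 hn1 hn2 l hl1 hl2 s p p1).2.1 c hc, LinearMap.zero_apply])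
  intro t r hr p1
  have h1 := hG hr
  simp only [Submodule.mem_inf, Submodule.mem_iInf, LinearMap.mem_ker] at h1
  exact (key r hr h1.2 t p1).1

theorem ZSys.zero1 (h : ZSys A B R1 R2 Λ η Z (fun _ _ => 0)) (hΛ : Λ.Infinite)
    (h0 : (0 : K) ∉ Λ)
    (hA : ⨆ t, LinearMap.range (A t) = ⊤) (hB : ⨆ t, LinearMap.range (B t) = ⊤)
    (hs1 : ∀ t, ∀ r ∈ R1, A t r ∈ R1) (hs2 : ∀ t, ∀ r ∈ R2, B t r ∈ R2)
    {n : ℕ} (hn1 : R1 ≤ kf A n) (hn2 : R2 ≤ kf B n) (l : τ → ℕ)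
    (hl1 : ∀ s p, (A s ^ l s) p ∈ R1) (hl2 : ∀ s p, (B s ^ l s) p ∈ R2)
    (gen1 : ∀ G : Submodule K P1, (∀ t, ∀ r ∈ G, A t r ∈ G) → (∀ s p, (A s ^ l s) p ∈ G) →
      R1 ≤ G) : ∀ t p2, ∀ r ∈ R1, η t p2 r = 0 := by
  have com : ∀ c ∈ Λ, ∀ t t' p2, ∀ r ∈ R1, Z c t p2 r = Z c t' p2 r := by
    intro c hc t t' p2 r hr
    have := h.com1 c hc t t' p2 r hr
    simpa using this
  have key : ∀ r ∈ R1, (∀ c ∈ Λ, ∀ t p2, Z c t p2 r = 0) → ∀ t p2, η t p2 r = 0 ∧
      ∀ c ∈ Λ, Z c t p2 (A t r) = 0 := by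
    intro r hr hz t p2
    have h1 := separate hΛ h0 1 (fun _ => η t p2 r) (φ := fun c => Z c t p2 (A t r))
      (ψ := fun _ => 0)
      (h.polR1 hB hs1 h0 n _ (hs1 t r hr) (hn1 (hs1 t r hr)) p2 t) (PolP.const 0) (by
        intro c hc
        rw [Finset.sum_range_one, pow_zero, one_mul, pow_one, h.rel c hc, hz c hc])
    exact ⟨h1.1 0 (by omega), h1.2.2⟩
  have hG := gen1 (R1 ⊓ ⨅ c ∈ Λ, ⨅ t, LinearMap.ker (Z c t).flip) (by
    intro t r hr
    simp only [Submodule.mem_inf, Submodule.mem_iInf, LinearMap.mem_ker] at hr ⊢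
    refine ⟨hs1 t r hr.1, fun c hc u => ?_⟩
    ext p2
    have hz : ∀ c ∈ Λ, ∀ t p2, Z c t p2 r = 0 := by
      intro c hc t p2
      have := LinearMap.congr_fun (hr.2 c hc t) p2
      simpa using this
    rw [LinearMap.flip_apply, com c hc u t _ _ (hs1 t r hr.1),
      (key r hr.1 hz t p2).2 c hc, LinearMap.zero_apply])
    (by
    intro s p
    simp only [Submodule.mem_inf, Submodule.mem_iInf, LinearMap.mem_ker]
    refine ⟨hl1 s p, fun c hc u => ?_⟩
    ext p2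
    rw [LinearMap.flip_apply, com c hc u s _ _ (hl1 s p),
      (h.main hΛ h0 hA hB hs1 hs2 hn1 hn2 l hl1 hl2 s p2 p).2.2 c hc, LinearMap.zero_apply])
  intro t p2 r hr
  have h1 := hG hr
  simp only [Submodule.mem_inf, Submodule.mem_iInf, LinearMap.mem_ker] at h1
  refine (key r hr (fun c hc t p2 => ?_) t p2).1
  have := LinearMap.congr_fun (h1.2 c hc t) p2
  simpa using this

end core

section fct
variable {P1 P2 : Type*} [AddCommGroup P1] [Module K P1] [AddCommGroup P2] [Module K P2]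

/-- `(1 ⊗ A) - c (B ⊗ 1)` -/
noncomputable def uu (A : End K P1) (B : End K P2) (c : K) : P2 ⊗[K] P1 →ₗ[K] P2 ⊗[K] P1 :=
  LinearMap.lTensor P2 A - c • LinearMap.rTensor P1 B

theorem uu_tmul (A : End K P1) (B : End K P2) (c : K) (p2 : P2) (p1 : P1) :
    uu A B c (p2 ⊗ₜ p1) = p2 ⊗ₜ A p1 - c • (B p2 ⊗ₜ p1) := by
  simp [uu]

/-- `R2 ⊗ P1 + P2 ⊗ R1` -/
def RR (R1 : Submodule K P1) (R2 : Submodule K P2) : Submodule K (P2 ⊗[K] P1) :=
  Submodule.span K {z | (∃ r ∈ R2, ∃ p, z = r ⊗ₜ p) ∨ (∃ p, ∃ r ∈ R1, z = p ⊗ₜ r)}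

/-- `c`-exact families, arm by arm exact modulo the radical -/
structure Exact (A : τ → End K P1) (B : τ → End K P2) (R1 : Submodule K P1)
    (R2 : Submodule K P2) (c : K) (x : τ → P2 ⊗[K] P1) : Prop where
  sum : ∑ t, uu (A t) (B t) c (x t) = 0
  mem : ∀ t, uu (A t) (B t) c (x t) ∈ RR R1 R2

theorem factor (A : τ → End K P1) (B : τ → End K P2) (R1 : Submodule K P1)
    (R2 : Submodule K P2) (c : K) (ξ : (τ → P2 ⊗[K] P1) →ₗ[K] K)
    (h : ∀ x, Exact A B R1 R2 c x → ξ x = 0) :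
    ∃ ζ : τ → (P2 ⊗[K] P1 →ₗ[K] K), (∀ t y, ξ (Pi.single t y) = ζ t (uu (A t) (B t) c y)) ∧
      ∀ t t', ∀ r ∈ RR R1 R2, ζ t r = ζ t' r := by
  let U : (τ → P2 ⊗[K] P1) →ₗ[K] (τ → P2 ⊗[K] P1) :=
    LinearMap.pi fun t => (uu (A t) (B t) c) ∘ₗ (LinearMap.proj t)
  have hU : ∀ x t, U x t = uu (A t) (B t) c (x t) := by intro x t; rfl
  let NN : Submodule K (τ → P2 ⊗[K] P1) :=
    { carrier := {y | (∀ t, y t ∈ RR R1 R2) ∧ ∑ t, y t = 0}
      add_mem' := by
        rintro a b ⟨h1, h2⟩ ⟨h3, h4⟩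
        exact ⟨fun t => (RR R1 R2).add_mem (h1 t) (h3 t), by
          simp only [Pi.add_apply, Finset.sum_add_distrib, h2, h4, add_zero]⟩
      zero_mem' := ⟨fun t => (RR R1 R2).zero_mem, by simp⟩
      smul_mem' := by
        rintro a b ⟨h1, h2⟩
        exact ⟨fun t => (RR R1 R2).smul_mem a (h1 t), by
          simp only [Pi.smul_apply, ← Finset.smul_sum, h2, smul_zero]⟩ }
  have hker : ξ ∈ (LinearMap.ker (NN.mkQ ∘ₗ U)).dualAnnihilator := by
    rw [Submodule.mem_dualAnnihilator]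
    intro x hx
    rw [LinearMap.mem_ker, LinearMap.comp_apply, Submodule.mkQ_apply,
      Submodule.Quotient.mk_eq_zero] at hx
    refine h x ⟨?_, fun t => ?_⟩
    · exact hx.2
    · exact hx.1 t
  rw [← LinearMap.range_dualMap_eq_dualAnnihilator_ker] at hker
  obtain ⟨ell, hell⟩ := hker
  refine ⟨fun t => ell ∘ₗ NN.mkQ ∘ₗ (LinearMap.single K (fun _ => P2 ⊗[K] P1) t), ?_, ?_⟩
  · intro t y
    rw [← hell]
    show ell (NN.mkQ (U (Pi.single t y))) = ell (NN.mkQ (Pi.single t (uu (A t) (B t) c y)))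
    congr 2
    funext u
    rw [hU]
    by_cases hu : u = t
    · subst hu; simp
    · rw [Pi.single_eq_of_ne hu, Pi.single_eq_of_ne hu, map_zero]
  · intro t t' r hr
    show ell (NN.mkQ (Pi.single t r)) = ell (NN.mkQ (Pi.single t' r))
    congr 1
    rw [← sub_eq_zero, ← map_sub, Submodule.mkQ_apply, Submodule.Quotient.mk_eq_zero]
    refine ⟨fun u => ?_, ?_⟩
    · rw [Pi.sub_apply]
      refine (RR R1 R2).sub_mem ?_ ?_
      · by_cases hu : u = t
        · subst hu; simpa using hr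
        · rw [Pi.single_eq_of_ne hu]; exact (RR R1 R2).zero_mem
      · by_cases hu : u = t'
        · subst hu; simpa using hr
        · rw [Pi.single_eq_of_ne hu]; exact (RR R1 R2).zero_mem
    · simp only [Pi.sub_apply, Finset.sum_sub_distrib, Finset.sum_pi_single', Finset.mem_univ,
        if_true, sub_self, Finset.sum_pi_single]

/-- `b ↦ A b s` -/
def opT (A : End K P1) (s : End K P2) : (P2 →ₗ[K] P1) →ₗ[K] (P2 →ₗ[K] P1) where
  toFun b := A ∘ₗ b ∘ₗ s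
  map_add' := by intro b b'; ext x; simp
  map_smul' := by intro c b; ext x; simp

/-- `b ↦ b s` -/
def opS (s : End K P2) : (P2 →ₗ[K] P1) →ₗ[K] (P2 →ₗ[K] P1) where
  toFun b := b ∘ₗ s
  map_add' := by intro b b'; ext x; simp
  map_smul' := by intro c b; ext x; simp

/-- iterates of `σ ↦ Σ σ(A_t · s_t)` -/
noncomputable def ThI (A : τ → End K P1) (s : τ → End K P2) (σ : (P2 →ₗ[K] P1) →ₗ[K] K) :
    ℕ → ((P2 →ₗ[K] P1) →ₗ[K] K)
  | 0 => σ
  | n + 1 => ∑ t, (ThI A s σ n) ∘ₗ (opT (A t) (s t))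

theorem ThI_zero (A : τ → End K P1) (s : τ → End K P2) (σ : (P2 →ₗ[K] P1) →ₗ[K] K) (n : ℕ) :
    ∀ b : P2 →ₗ[K] P1, (∀ p, b p ∈ kf A n) → ThI A s σ n b = 0 := by
  induction n with
  | zero =>
    intro b hb
    have : b = 0 := by
      ext p
      simpa [kf] using hb p
    rw [this, map_zero]
  | succ n ih =>
    intro b hb
    show (∑ t, (ThI A s σ n) ∘ₗ (opT (A t) (s t))) b = 0
    rw [LinearMap.sum_apply]
    refine Finset.sum_eq_zero fun t _ => ?_
    rw [LinearMap.comp_apply]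
    exact ih _ fun p => (mem_kf_succ.1 (hb (s t p))) t

/-- the functionals `κ_t(c)` -/
noncomputable def kapF (A : τ → End K P1) (s : τ → End K P2) (σ : (P2 →ₗ[K] P1) →ₗ[K] K)
    (n : ℕ) (c : K) (t : τ) : (P2 →ₗ[K] P1) →ₗ[K] K :=
  - ∑ i ∈ Finset.range n, (c⁻¹ ^ (i + 1)) • ((ThI A s σ i) ∘ₗ (opS (s t)))

theorem kapF_id {A : τ → End K P1} {B : τ → End K P2} {s : τ → End K P2}
    (hs : ∀ x, ∑ t, B t (s t x) = x) (σ : (P2 →ₗ[K] P1) →ₗ[K] K) {c : K} (hc : c ≠ 0)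
    (b : P2 →ₗ[K] P1) (n : ℕ) :
    σ b = (∑ t, kapF A s σ n c t ((A t) ∘ₗ b - c • (b ∘ₗ (B t)))) +
      c⁻¹ ^ n * ThI A s σ n b := by
  induction n with
  | zero => simp [kapF, ThI]
  | succ n ih =>
    rw [ih]
    have e1 : ThI A s σ n b = c⁻¹ * (ThI A s σ (n + 1) b -
        ∑ t, ThI A s σ n (opS (s t) ((A t) ∘ₗ b - c • (b ∘ₗ (B t))))) := by
      have h1 : ThI A s σ (n + 1) b = ∑ t, ThI A s σ n (opT (A t) (s t) b) := by
        show (∑ t, (ThI A s σ n) ∘ₗ (opT (A t) (s t))) b = _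
        rw [LinearMap.sum_apply]
        rfl
      have h2 : ∑ t, opS (s t) (b ∘ₗ (B t)) = b := by
        ext x
        rw [LinearMap.sum_apply]
        show ∑ t, b (B t (s t x)) = b x
        rw [← map_sum, hs]
      have h3 : ∀ t, opS (s t) ((A t) ∘ₗ b - c • (b ∘ₗ (B t)))
          = opT (A t) (s t) b - c • opS (s t) (b ∘ₗ (B t)) := by
        intro t
        rw [map_sub, map_smul]
        rfl
      have h4 : ∑ t, ThI A s σ n (opS (s t) ((A t) ∘ₗ b - c • (b ∘ₗ (B t))))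
          = ThI A s σ (n + 1) b - c * ThI A s σ n b := by
        rw [h1]
        conv_rhs => rw [← h2, map_sum, Finset.mul_sum, ← Finset.sum_sub_distrib]
        refine Finset.sum_congr rfl fun t _ => ?_
        rw [h3, map_sub, map_smul, h2, smul_eq_mul]
      rw [h4]
      field_simp
      ring
    have e2 : ∀ t, kapF A s σ (n + 1) c t ((A t) ∘ₗ b - c • (b ∘ₗ (B t)))
        = kapF A s σ n c t ((A t) ∘ₗ b - c • (b ∘ₗ (B t))) -
          c⁻¹ ^ (n + 1) * ThI A s σ n (opS (s t) ((A t) ∘ₗ b - c • (b ∘ₗ (B t)))) := by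
      intro t
      unfold kapF
      rw [Finset.sum_range_succ]
      simp only [LinearMap.neg_apply, LinearMap.add_apply, LinearMap.smul_apply,
        LinearMap.comp_apply, smul_eq_mul]
      ring
    simp only [e2, Finset.sum_sub_distrib, ← Finset.mul_sum]
    rw [e1]
    ring

end fct

section final
variable {P1 P2 E : Type*} [AddCommGroup P1] [Module K P1] [AddCommGroup P2] [Module K P2]
  [AddCommGroup E] [Module K E]

/-- `(p2 ⊗ p1)♯ p = g2(p2,p) p1` -/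
noncomputable def sharp (g2 : P2 →ₗ[K] P2 →ₗ[K] K) : P2 ⊗[K] P1 →ₗ[K] (P2 →ₗ[K] P1) :=
  TensorProduct.lift (LinearMap.mk₂ K (fun p2 p1 => (g2 p2).smulRight p1)
    (by intro a b p; ext x; simp [add_smul]) (by intro c a p; ext x; simp [mul_smul])
    (by intro a b p; ext x; simp)
    (by
      intro c a p; ext x
      simp only [LinearMap.smulRight_apply, LinearMap.smul_apply]
      rw [smul_comm]))

@[simp] theorem sharp_tmul (g2 : P2 →ₗ[K] P2 →ₗ[K] K) (p2 : P2) (p1 : P1) (p : P2) :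
    sharp g2 (p2 ⊗ₜ[K] p1) p = g2 p2 p • p1 := by
  simp [sharp]

theorem sharp_uu {g2 : P2 →ₗ[K] P2 →ₗ[K] K} {A : End K P1} {B : End K P2} {ε : K}
    (hg : ∀ x y, g2 (B x) y = ε * g2 x (B y)) (c : K) (x : P2 ⊗[K] P1) :
    sharp g2 (uu A B c x) = A ∘ₗ (sharp g2 x) - (ε * c) • ((sharp g2 x) ∘ₗ B) := by
  induction x using TensorProduct.induction_on with
  | zero => simp
  | tmul p2 p1 =>
    ext p
    rw [uu_tmul, map_sub, map_smul]
    simp only [LinearMap.sub_apply, LinearMap.smul_apply, LinearMap.comp_apply, sharp_tmul,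
      map_smul, smul_smul, hg p2 p]
    congr 2
    ring
  | add a b ha hb =>
    rw [map_add, map_add, ha, hb, map_add]
    ext p
    simp only [LinearMap.add_apply, LinearMap.sub_apply, LinearMap.smul_apply,
      LinearMap.comp_apply]
    rw [map_add, smul_add]
    abel

/-- **Span lemma with the motion.** -/
theorem span_beta (A : τ → End K P1) (B : τ → End K P2)
    (hA : ⨆ t, LinearMap.range (A t) = ⊤) (hB : ⨆ t, LinearMap.range (B t) = ⊤)
    (R1 : Submodule K P1) (R2 : Submodule K P2)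
    (hs1 : ∀ t, ∀ r ∈ R1, A t r ∈ R1) (hs2 : ∀ t, ∀ r ∈ R2, B t r ∈ R2)
    {n : ℕ} (hn1 : R1 ≤ kf A n) (hn2 : R2 ≤ kf B n) (l : τ → ℕ)
    (hl1 : ∀ s p, (A s ^ l s) p ∈ R1) (hl2 : ∀ s p, (B s ^ l s) p ∈ R2)
    (gen2 : ∀ G : Submodule K P2, (∀ t, ∀ r ∈ G, B t r ∈ G) → (∀ s p, (B s ^ l s) p ∈ G) →
      R2 ≤ G)
    (g2 : P2 →ₗ[K] P2 →ₗ[K] K) {ε : K} (hε : ε ≠ 0)
    (hg : ∀ t x y, g2 (B t x) y = ε * g2 x (B t y))
    (hg0 : ∀ r ∈ R2, ∀ y, g2 r y = 0)
    (Λ : Set K) (hΛ : Λ.Infinite) (h0 : (0 : K) ∉ Λ)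
    (q : τ → P2 →ₗ[K] P1 →ₗ[K] E) (Q : Submodule K (E × (P2 →ₗ[K] P1)))
    (h : ∀ c ∈ Λ, ∀ x : τ → P2 ⊗[K] P1, Exact A B R1 R2 c x → ∃ b : P2 →ₗ[K] P1,
      (∀ p, b p ∈ R1) ∧ (∀ t, A t ∘ₗ b - (ε * c) • (b ∘ₗ B t) =
        A t ∘ₗ (sharp g2 (x t)) - (ε * c) • ((sharp g2 (x t)) ∘ₗ B t)) ∧
      (∑ t, TensorProduct.lift (q t) (x t), b) ∈ Q) :
    (∀ s i j, i + j + 1 = l s → ∀ p2 p1, (q s ((B s ^ j) p2) ((A s ^ i) p1), 0) ∈ Q) ∧
      ∀ t, ∀ r ∈ R2, ∀ p1, (q t r p1, (0 : P2 →ₗ[K] P1)) ∈ Q := by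
  obtain ⟨s, hs⟩ := exists_sec B hB
  -- every functional vanishing on `Q`
  have key : ∀ f : (E × (P2 →ₗ[K] P1)) →ₗ[K] K, (∀ z ∈ Q, f z = 0) →
      (∀ s' i j, i + j + 1 = l s' → ∀ p2 p1, f (q s' ((B s' ^ j) p2) ((A s' ^ i) p1), 0) = 0) ∧
      ∀ t, ∀ r ∈ R2, ∀ p1, f (q t r p1, (0 : P2 →ₗ[K] P1)) = 0 := by
    intro f hf
    let η : τ → P2 →ₗ[K] P1 →ₗ[K] K := fun t =>
      (q t).compr₂ (f ∘ₗ (LinearMap.inl K E (P2 →ₗ[K] P1)))
    let σ : (P2 →ₗ[K] P1) →ₗ[K] K := f ∘ₗ (LinearMap.inr K E (P2 →ₗ[K] P1))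
    have hη : ∀ t p2 p1, η t p2 p1 = f (q t p2 p1, 0) := by intro t p2 p1; rfl
    let κ : K → τ → (P2 ⊗[K] P1 →ₗ[K] K) := fun c t => (kapF A s σ n (ε * c) t) ∘ₗ (sharp g2)
    let ξ : K → ((τ → P2 ⊗[K] P1) →ₗ[K] K) := fun c =>
      ∑ t, (TensorProduct.lift (η t) + (κ c t) ∘ₗ (uu (A t) (B t) c)) ∘ₗ (LinearMap.proj t)
    have hξ : ∀ c x, ξ c x = ∑ t, (TensorProduct.lift (η t) (x t) +
        κ c t (uu (A t) (B t) c (x t))) := by
      intro c x
      simp [ξ]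
    have hlift : ∀ t y, TensorProduct.lift (η t) y = f (TensorProduct.lift (q t) y, 0) := by
      intro t y
      induction y using TensorProduct.induction_on with
      | zero => rw [map_zero, map_zero, Prod.mk_zero_zero, map_zero]
      | tmul p2 p1 => rw [TensorProduct.lift.tmul, TensorProduct.lift.tmul, hη]
      | add a b ha hb =>
        rw [map_add, map_add, ha, hb, ← map_add]
        congr 1
        rw [Prod.mk_add_mk, add_zero]
    have hvan : ∀ c ∈ Λ, ∀ x, Exact A B R1 R2 c x → ξ c x = 0 := by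
      intro c hc x hx
      have hc0 : c ≠ 0 := fun e => h0 (e ▸ hc)
      obtain ⟨b, hb1, hb2, hb3⟩ := h c hc x hx
      have h1 := hf _ hb3
      have h2 : f (∑ t, TensorProduct.lift (q t) (x t), b)
          = ∑ t, TensorProduct.lift (η t) (x t) + σ b := by
        have e1 : (∑ t, TensorProduct.lift (q t) (x t), b)
            = ∑ t, ((TensorProduct.lift (q t) (x t), 0) : E × (P2 →ₗ[K] P1)) + (0, b) := by
          ext
          · simp [Prod.fst_sum]
          · simp [Prod.snd_sum]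
        rw [e1, map_add, map_sum]
        congr 1
        exact Finset.sum_congr rfl fun t _ => (hlift t _).symm
      have h3 := kapF_id (A := A) hs σ (mul_ne_zero hε hc0) b n
      rw [ThI_zero A s σ n b (fun p => hn1 (hb1 p)), mul_zero, add_zero] at h3
      rw [hξ, Finset.sum_add_distrib, ← h1, h2, h3]
      congr 1
      refine Finset.sum_congr rfl fun t _ => ?_
      show kapF A s σ n (ε * c) t (sharp g2 (uu (A t) (B t) c (x t))) = _
      rw [sharp_uu (hg t), hb2]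
    choose! ζ hζ1 hζ2 using fun c (hc : c ∈ Λ) => factor A B R1 R2 c (ξ c) (hvan c hc)
    have hsys : ZSys A B R1 R2 Λ η
        (fun c t => TensorProduct.curry (ζ c t - κ c t)) (fun c t => TensorProduct.curry (κ c t)) := by
      refine ⟨?_, ?_, ?_, ?_⟩
      · intro c hc t p2 p1
        have h1 := hζ1 c hc t (p2 ⊗ₜ p1)
        rw [hξ, Finset.sum_eq_single t, Pi.single_eq_same] at h1
        · rw [TensorProduct.lift.tmul] at h1
          simp only [TensorProduct.curry_apply, LinearMap.sub_apply]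
          have h2 : η t p2 p1 = ζ c t (uu (A t) (B t) c (p2 ⊗ₜ p1)) -
              κ c t (uu (A t) (B t) c (p2 ⊗ₜ p1)) := by rw [← h1]; ring
          rw [h2, uu_tmul, map_sub, map_sub, map_smul, map_smul, smul_eq_mul, smul_eq_mul]
          ring
        · intro u _ hu
          rw [Pi.single_eq_of_ne hu]; simp
        · simp
      · intro c hc t t' r hr p1
        have hk : ∀ t, κ c t (r ⊗ₜ p1) = 0 := by
          intro t
          show kapF A s σ n (ε * c) t (sharp g2 (r ⊗ₜ p1)) = 0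
          have : sharp g2 (r ⊗ₜ[K] p1) = 0 := by
            ext p
            simp [hg0 r hr]
          rw [this, map_zero]
        simp only [TensorProduct.curry_apply, LinearMap.sub_apply, hk]
        rw [hζ2 c hc t t' _ (Submodule.subset_span (Or.inl ⟨r, hr, p1, rfl⟩))]
      · intro c hc t t' p2 r hr
        simp only [TensorProduct.curry_apply, LinearMap.sub_apply, sub_add_cancel]
        rw [hζ2 c hc t t' _ (Submodule.subset_span (Or.inr ⟨p2, r, hr, rfl⟩))]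
      · intro t p2 p1
        have h1 : PolN Λ (fun c => - ∑ i ∈ Finset.range n,
            ((ε * c)⁻¹ ^ (i + 1) * ThI A s σ i (opS (s t) (sharp g2 (p2 ⊗ₜ p1))))) := by
          refine (PolN.sum _ _ fun i _ => ?_).neg
          refine ⟨C (ε⁻¹ ^ (i + 1) * ThI A s σ i (opS (s t) (sharp g2 (p2 ⊗ₜ p1)))) * X ^ i,
            fun c _ => ?_⟩
          beta_reduce
          rw [eval_mul, eval_C, eval_pow, eval_X, mul_inv, mul_pow]
          ring
        refine h1.congr fun c _ => ?_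
        show kapF A s σ n (ε * c) t (sharp g2 (p2 ⊗ₜ p1)) = _
        simp only [kapF, LinearMap.neg_apply, LinearMap.sum_apply, LinearMap.smul_apply,
          LinearMap.comp_apply, smul_eq_mul]
    refine ⟨?_, ?_⟩
    · intro s' i j hij p2 p1
      have h1 := (hsys.main hΛ h0 hA hB hs1 hs2 hn1 hn2 l hl1 hl2 s' p2 p1).1 j (by omega)
      rw [show l s' - 1 - j = i by omega] at h1
      rw [← hη]; exact h1
    · intro t r hr p1
      rw [← hη]
      exact hsys.zero2 hΛ h0 hA hB hs1 hs2 hn1 hn2 l hl1 hl2 gen2 t r hr p1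
  have sep : ∀ z : E × (P2 →ₗ[K] P1), (∀ f : (E × (P2 →ₗ[K] P1)) →ₗ[K] K,
      (∀ w ∈ Q, f w = 0) → f z = 0) → z ∈ Q := by
    intro z hz
    by_contra hzQ
    obtain ⟨f, hf1, hf2⟩ := Submodule.exists_le_ker_of_notMem hzQ
    exact hf1 (hz f fun w hw => hf2 hw)
  exact ⟨fun s' i j hij p2 p1 => sep _ fun f hf => (key f hf).1 s' i j hij p2 p1,
    fun t r hr p1 => sep _ fun f hf => (key f hf).2 t r hr p1⟩

end final

end Crest.Agent.R172.Dual2
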