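import Crest.Agent.R172.Dual3

/-!
Row 172 (S0260), tame case, non-semisimple `D`: transfer from the operator `q = c₂ c₁⁻¹` to scalars.

* `pencil`: for all but finitely many `c`, every `x` with `L0 x = c • L1 x` is the value at `c` of a
  polynomial family `Y` with `(L0 - X L1) Y = 0`.
* `transfer`: relations known on the families `X` with `L0 (c₁² X) = L1 (c₂² X)`,
  `c_i = 1 + t (la_i + nilpotent)`, hold for the families exact for scalar `c`, both parts
  separately.
* `span_exactD`: corollary with the duality lemma.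
-/

set_option autoImplicit false
set_option linter.unusedSectionVars false

namespace Crest.Agent.R172.Dual

open Module Polynomial TensorProduct

section polyfun

variable {K : Type*} [Field K] {V W : Type*} [AddCommGroup V] [Module K V]
  [AddCommGroup W] [Module K W]

/-- polynomial functions with values in a vector space -/
def PF (f : K → V) : Prop :=
  ∃ (n : ℕ) (Y : ℕ → V), (∀ k, n ≤ k → Y k = 0) ∧ ∀ c, f c = ∑ k ∈ Finset.range n, c ^ k • Y k

theorem sum_range_of_le {Y : ℕ → V} {n m : ℕ} (hY : ∀ k, n ≤ k → Y k = 0) (h : n ≤ m) (c : K) :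
    ∑ k ∈ Finset.range m, c ^ k • Y k = ∑ k ∈ Finset.range n, c ^ k • Y k := by
  symm
  refine Finset.sum_subset (Finset.range_mono h) fun k _ hk => ?_
  rw [hY k (by simpa using hk), smul_zero]

theorem PF.add {f g : K → V} (hf : PF f) (hg : PF g) : PF (fun c => f c + g c) := by
  obtain ⟨n, Y, hY, hf⟩ := hf
  obtain ⟨m, Z, hZ, hg⟩ := hg
  refine ⟨max n m, fun k => Y k + Z k, fun k hk => ?_, fun c => ?_⟩
  · show Y k + Z k = 0
    rw [hY k (le_trans (le_max_left _ _) hk), hZ k (le_trans (le_max_right _ _) hk), add_zero]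
  · show f c + g c = _
    rw [hf, hg, ← sum_range_of_le hY (le_max_left n m) c, ← sum_range_of_le hZ (le_max_right n m) c,
      ← Finset.sum_add_distrib]
    simp only [smul_add]

theorem PF.zero : PF (fun _ : K => (0 : V)) := ⟨0, fun _ => 0, fun _ _ => rfl, fun c => by simp⟩

theorem PF.sum {ι : Type*} (s : Finset ι) {f : ι → K → V} (hf : ∀ i ∈ s, PF (f i)) :
    PF (fun c => ∑ i ∈ s, f i c) := by
  classical
  induction s using Finset.induction_on with
  | empty => simpa using (PF.zero : PF (fun _ : K => (0 : V)))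
  | insert a s ha ih =>
    have h1 := (hf a (Finset.mem_insert_self _ _)).add
      (ih fun b hb => hf b (Finset.mem_insert_of_mem hb))
    simpa only [Finset.sum_insert ha] using h1

theorem PF.mono (k : ℕ) (v : V) : PF (fun c : K => c ^ k • v) := by
  refine ⟨k + 1, fun j => if j = k then v else 0, fun j hj => if_neg (by omega), fun c => ?_⟩
  show c ^ k • v = ∑ j ∈ Finset.range (k + 1), c ^ j • (if j = k then v else 0)
  rw [Finset.sum_eq_single k]
  · rw [if_pos rfl]
  · intro j _ hj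
    rw [if_neg hj, smul_zero]
  · intro hk
    exact absurd (Finset.mem_range.2 (Nat.lt_succ_self k)) hk

theorem PF.poly (p : K[X]) (v : V) : PF (fun c => p.eval c • v) := by
  have h1 : (fun c => p.eval c • v) = fun c => ∑ k ∈ p.support, c ^ k • (p.coeff k • v) := by
    funext c
    rw [eval_eq_sum, Polynomial.sum, Finset.sum_smul]
    refine Finset.sum_congr rfl fun k _ => ?_
    rw [smul_smul, mul_comm]
  rw [h1]
  exact PF.sum _ fun k _ => PF.mono k _

theorem coeff_zero_of {Z : ℕ → V} {n : ℕ} {Λ : Set K} (hΛ : Λ.Infinite)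
    (h : ∀ c ∈ Λ, ∑ k ∈ Finset.range n, c ^ k • Z k = 0) : ∀ k < n, Z k = 0 := by
  intro k hk
  by_contra hne
  obtain ⟨φ, hφ⟩ : ∃ φ : Dual K V, φ (Z k) ≠ 0 := by
    by_contra hcon
    push Not at hcon
    exact hne ((Module.forall_dual_apply_eq_zero_iff K (Z k)).1 hcon)
  have h1 : (∑ j ∈ Finset.range n, C (φ (Z j)) * X ^ j : K[X]) = 0 := by
    refine eq_zero_of_infinite_isRoot _ (hΛ.mono fun c hc => ?_)
    show eval c _ = 0
    rw [eval_finsetSum]
    have h2 := congrArg φ (h c hc)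
    rw [map_sum, map_zero] at h2
    rw [← h2]
    refine Finset.sum_congr rfl fun j _ => ?_
    rw [map_smul, eval_mul, eval_C, eval_pow, eval_X, smul_eq_mul, mul_comm]
  have h2 := congrArg (fun r : K[X] => r.coeff k) h1
  simp only [finsetSum_coeff, coeff_C_mul, coeff_X_pow, coeff_zero] at h2
  rw [Finset.sum_eq_single k] at h2
  · exact hφ (by simpa using h2)
  · intro j _ hj
    rw [if_neg (Ne.symm hj), mul_zero]
  · intro hk'
    exact absurd (Finset.mem_range.2 hk) hk'

end polyfun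

section pencil

variable {K : Type*} [Field K] {V W : Type*} [AddCommGroup V] [Module K V]
  [AddCommGroup W] [Module K W]

/-- polynomial solution of the pencil `L0 - X L1` -/
structure Chain (L0 L1 : V →ₗ[K] W) (n : ℕ) (Y : ℕ → V) : Prop where
  zero : L0 (Y 0) = 0
  succ : ∀ k, L0 (Y (k + 1)) = L1 (Y k)
  fin : ∀ k, n ≤ k → Y k = 0

/-- **pencil lemma**: for almost all `c`, exact families are values of polynomial ones -/
theorem pencil [FiniteDimensional K V] [Infinite K] (L0 L1 : V →ₗ[K] W) :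
    ∃ S : Set K, S.Finite ∧ ∀ c ∉ S, ∀ x, L0 x = c • L1 x →
      ∃ (n : ℕ) (Y : ℕ → V), Chain L0 L1 n Y ∧ x = ∑ k ∈ Finset.range n, c ^ k • Y k := by
  classical
  set L : K → V →ₗ[K] W := fun c => L0 - c • L1 with hL
  have hLx : ∀ c x, L c x = L0 x - c • L1 x := fun c x => rfl
  -- maximal rank
  obtain ⟨c0, hc0⟩ : ∃ c0, ∀ c, finrank K (LinearMap.range (L c)) ≤
      finrank K (LinearMap.range (L c0)) := by
    let A : Set ℕ := Set.range fun c => finrank K (LinearMap.range (L c))
    have hne : A.Nonempty := ⟨_, 0, rfl⟩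
    have hb : BddAbove A := by
      refine ⟨finrank K V, ?_⟩
      rintro _ ⟨c, rfl⟩
      exact LinearMap.finrank_range_le _
    obtain ⟨c0, hc0⟩ := Nat.sSup_mem hne hb
    refine ⟨c0, fun c => ?_⟩
    have h1 : finrank K (LinearMap.range (L c)) ≤ sSup A := le_csSup hb ⟨c, rfl⟩
    have h2 : finrank K (LinearMap.range (L c0)) = sSup A := hc0
    rw [h2]
    exact h1
  set R0 := LinearMap.range (L c0) with hR0
  obtain ⟨s, hs⟩ := (L c0).rangeRestrict.exists_rightInverse_of_surjective
    (LinearMap.range_rangeRestrict _)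
  obtain ⟨p, hp⟩ := R0.subtype.exists_leftInverse_of_injective (Submodule.ker_subtype _)
  set G : K → End K R0 := fun c => p ∘ₗ L c ∘ₗ s with hG
  have hG0 : G c0 = 1 := by
    have h1 : (L c0) ∘ₗ s = R0.subtype := by
      refine LinearMap.ext fun y => ?_
      have h2 := LinearMap.congr_fun hs y
      exact congrArg Subtype.val h2
    show p ∘ₗ (L c0 ∘ₗ s) = 1
    rw [h1, hp]
    rfl
  let b := Module.finBasis K R0
  set g0 := LinearMap.toMatrix b b (p ∘ₗ L0 ∘ₗ s) with hg0
  set g1 := LinearMap.toMatrix b b (p ∘ₗ L1 ∘ₗ s) with hg1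
  have hGm : ∀ c, LinearMap.toMatrix b b (G c) = g0 - c • g1 := by
    intro c
    rw [hg0, hg1, ← map_smul, ← map_sub]
    congr 1
    ext x
    simp [hG, hL]
  let GX : Matrix _ _ K[X] := g0.map C - (X : K[X]) • g1.map C
  have hev : ∀ c, (evalRingHom c).mapMatrix GX = LinearMap.toMatrix b b (G c) := by
    intro c
    rw [hGm]
    ext i j
    simp [GX]
    exact mul_comm _ _
  set δ : K[X] := GX.det with hδ
  have hδe : ∀ c, δ.eval c = (LinearMap.toMatrix b b (G c)).det := by
    intro c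
    rw [← hev c, ← RingHom.map_det]
    rfl
  have hadj : ∀ c i j, (GX.adjugate i j).eval c =
      (LinearMap.toMatrix b b (G c)).adjugate i j := by
    intro c i j
    rw [← hev c, ← RingHom.map_adjugate]
    rfl
  have hδ0 : δ ≠ 0 := by
    intro h0
    have h1 := hδe c0
    rw [h0, eval_zero, hG0] at h1
    rw [show LinearMap.toMatrix b b (1 : End K R0) = 1 from LinearMap.toMatrix_one b] at h1
    simp at h1
  have hfin : {c : K | δ.eval c = 0}.Finite := by
    have := δ.roots.toFinset.finite_toSet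
    refine this.subset fun c hc => ?_
    simp only [Finset.mem_coe, Multiset.mem_toFinset, mem_roots hδ0]
    exact hc
  have hinf : {c : K | δ.eval c ≠ 0}.Infinite := by
    have := hfin.infinite_compl
    exact this
  -- kernel of `p ∘ L c` for good `c`
  have hker : ∀ c, δ.eval c ≠ 0 → ∀ x, p (L c x) = 0 → L c x = 0 := by
    intro c hc x hx
    have hu : Function.Surjective (G c) := by
      have h1 : IsUnit (LinearMap.toMatrix b b (G c)).det := by
        rw [← hδe]; exact isUnit_iff_ne_zero.2 hc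
      have h2 : IsUnit (G c) := by
        rw [LinearMap.det_toMatrix] at h1
        exact (LinearMap.isUnit_iff_isUnit_det _).2 h1
      exact ((Module.End.isUnit_iff _).1 h2).2
    let f : LinearMap.range (L c) →ₗ[K] R0 := p ∘ₗ (LinearMap.range (L c)).subtype
    have hf : Function.Surjective f := by
      intro y
      obtain ⟨z, hz⟩ := hu y
      exact ⟨⟨L c (s z), ⟨_, rfl⟩⟩, hz⟩
    have hfr : finrank K (LinearMap.range (L c)) = finrank K R0 := by
      refine le_antisymm (hc0 c) ?_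
      exact LinearMap.finrank_le_finrank_of_surjective hf
    have hinj : Function.Injective f :=
      (LinearMap.injective_iff_surjective_of_finrank_eq_finrank hfr).2 hf
    have h3 : (⟨L c x, ⟨x, rfl⟩⟩ : LinearMap.range (L c)) = 0 := by
      apply hinj
      rw [map_zero]
      exact hx
    exact congrArg Subtype.val h3
  refine ⟨{c | δ.eval c = 0}, hfin, fun c1 hc1 x hx => ?_⟩
  -- the polynomial family
  set w0 : R0 := p (L0 x) with hw0
  set w1 : R0 := p (L1 x) with hw1
  set Ad : K → End K R0 := fun c =>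
    Matrix.toLin b b (LinearMap.toMatrix b b (G c)).adjugate with hAd
  have hGAd : ∀ c y, G c (Ad c y) = δ.eval c • y := by
    intro c y
    have h1 : G c = Matrix.toLin b b (LinearMap.toMatrix b b (G c)) :=
      (Matrix.toLin_toMatrix b b (G c)).symm
    have h2 : (Matrix.toLin b b (LinearMap.toMatrix b b (G c))) (Ad c y) = δ.eval c • y := by
      rw [hAd, ← LinearMap.comp_apply, ← Matrix.toLin_mul, Matrix.mul_adjugate, ← hδe, map_smul,
        Matrix.toLin_one]
      rfl
    rw [← h1] at h2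
    exact h2
  have hF : PF (fun c => δ.eval c • x - s (Ad c (p (L c x)))) := by
    have h1 : ∀ c, s (Ad c (p (L c x))) = ∑ j, ∑ i,
        (GX.adjugate i j * (C (b.repr w0 j) - X * C (b.repr w1 j))).eval c • s (b i) := by
      intro c
      have h2 : p (L c x) = ∑ j, (b.repr w0 j - c * b.repr w1 j) • b j := by
        have h3 : p (L c x) = w0 - c • w1 := by
          rw [hLx, map_sub, map_smul]
        rw [h3]
        conv_lhs => rw [← b.sum_repr w0, ← b.sum_repr w1]
        rw [Finset.smul_sum, ← Finset.sum_sub_distrib]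
        refine Finset.sum_congr rfl fun j _ => ?_
        rw [sub_smul, smul_smul]
      rw [h2, map_sum, map_sum]
      refine Finset.sum_congr rfl fun j _ => ?_
      rw [map_smul, map_smul, hAd, Matrix.toLin_self, map_sum, Finset.smul_sum]
      refine Finset.sum_congr rfl fun i _ => ?_
      rw [map_smul, smul_smul]
      congr 1
      rw [eval_mul, hadj, eval_sub, eval_mul, eval_C, eval_C, eval_X, mul_comm]
    have h2 : (fun c => δ.eval c • x - s (Ad c (p (L c x)))) = fun c => δ.eval c • x +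
        ∑ j, ∑ i, (-(GX.adjugate i j * (C (b.repr w0 j) - X * C (b.repr w1 j)))).eval c •
          s (b i) := by
      funext c
      rw [h1 c, sub_eq_add_neg, ← Finset.sum_neg_distrib]
      congr 1
      refine Finset.sum_congr rfl fun j _ => ?_
      rw [← Finset.sum_neg_distrib]
      refine Finset.sum_congr rfl fun i _ => ?_
      rw [eval_neg, neg_smul]
    rw [h2]
    exact (PF.poly δ x).add (PF.sum _ fun j _ => PF.sum _ fun i _ => PF.poly _ _)
  obtain ⟨n, Y, hY, hf⟩ := hF
  have hgood : ∀ c, δ.eval c ≠ 0 → L c (∑ k ∈ Finset.range n, c ^ k • Y k) = 0 := by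
    intro c hc
    refine hker c hc _ ?_
    rw [← hf c, map_sub, map_sub, map_smul, map_smul]
    have h1 : p (L c (s (Ad c (p (L c x))))) = G c (Ad c (p (L c x))) := rfl
    rw [h1, hGAd, sub_self]
  -- coefficients
  let Z : ℕ → W := fun k => L0 (Y k) - (match k with | 0 => 0 | k + 1 => L1 (Y k))
  have hZ : ∀ k < n + 1, Z k = 0 := by
    refine coeff_zero_of hinf fun c hc => ?_
    have h1 := hgood c hc
    rw [hLx, map_sum, map_sum, Finset.smul_sum] at h1
    have h2 : ∑ k ∈ Finset.range (n + 1), c ^ k • Z k =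
        ∑ k ∈ Finset.range (n + 1), c ^ k • L0 (Y k) -
        ∑ k ∈ Finset.range (n + 1), c ^ k • (match k with | 0 => 0 | k + 1 => L1 (Y k) : W) := by
      rw [← Finset.sum_sub_distrib]
      refine Finset.sum_congr rfl fun k _ => ?_
      rw [← smul_sub]
    rw [h2, Finset.sum_range_succ, hY n le_rfl, map_zero, smul_zero, add_zero,
      Finset.sum_range_succ' _ n]
    simp only [smul_zero, add_zero]
    rw [← h1]
    congr 1
    · exact Finset.sum_congr rfl fun k _ => (map_smul L0 _ _).symm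
    · refine Finset.sum_congr rfl fun k _ => ?_
      rw [map_smul, smul_smul, pow_succ, mul_comm]
  have hch : Chain L0 L1 n Y := by
    refine ⟨?_, fun k => ?_, hY⟩
    · have := hZ 0 (Nat.succ_pos n)
      simpa [Z] using this
    · by_cases hk : k < n
      · have := hZ (k + 1) (by omega)
        exact sub_eq_zero.1 this
      · rw [hY k (by omega), hY (k + 1) (by omega), map_zero, map_zero]
  have hx1 : δ.eval c1 • x = ∑ k ∈ Finset.range n, c1 ^ k • Y k := by
    rw [← hf c1]
    have h1 : L c1 x = 0 := by rw [hLx, hx, sub_self]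
    show δ.eval c1 • x = δ.eval c1 • x - s (Ad c1 (p (L c1 x)))
    rw [h1, map_zero, map_zero, map_zero, sub_zero]
  refine ⟨n, fun k => (δ.eval c1)⁻¹ • Y k, ⟨?_, fun k => ?_, fun k hk => ?_⟩, ?_⟩
  · rw [map_smul, hch.zero, smul_zero]
  · rw [map_smul, map_smul, hch.succ]
  · show (δ.eval c1)⁻¹ • Y k = 0
    rw [hY k hk, smul_zero]
  · have h1 : x = (δ.eval c1)⁻¹ • (δ.eval c1 • x) := by
      rw [smul_smul, inv_mul_cancel₀ hc1, one_smul]
    rw [h1, hx1, Finset.smul_sum]
    refine Finset.sum_congr rfl fun k _ => ?_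
    rw [smul_comm]

end pencil

section transfer

variable {K : Type*} [Field K] {V W : Type*} [AddCommGroup V] [Module K V]
  [AddCommGroup W] [Module K W]

/-- Nakayama for one nilpotent operator -/
theorem nak1 {g : End K V} (hg : IsNilpotent g) {F T : Submodule K V}
    (hT : ∀ x ∈ T, g x ∈ T) (h : F ≤ T ⊔ F.map g) : F ≤ T := by
  have h1 : ∀ k, F ≤ T ⊔ F.map (g ^ k) := by
    intro k
    induction k with
    | zero =>
      rw [pow_zero]
      intro x hx
      exact Submodule.mem_sup_right ⟨x, hx, rfl⟩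
    | succ k ih =>
      intro x hx
      obtain ⟨a, ha, b, ⟨y, hy, rfl⟩, rfl⟩ := Submodule.mem_sup.1 (ih hx)
      obtain ⟨a', ha', b', ⟨y', hy', rfl⟩, hyy⟩ := Submodule.mem_sup.1 (h hy)
      have hTk : ∀ k : ℕ, ∀ x ∈ T, (g ^ k) x ∈ T := by
        intro k
        induction k with
        | zero => intro x hx; exact hx
        | succ k ih => intro x hx; rw [pow_succ]; exact ih _ (hT x hx)
      rw [← hyy, map_add, ← add_assoc]
      refine Submodule.add_mem_sup (T.add_mem ha (hTk k _ ha')) ⟨y', hy', ?_⟩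
      rw [pow_succ]
      rfl
  obtain ⟨k, hk⟩ := hg
  have h2 := h1 k
  rw [hk, Submodule.map_zero, sup_bot_eq] at h2
  exact h2

/-- Nakayama for two commuting nilpotent operators -/
theorem nak2 {a b : End K V} (hab : ∀ x, a (b x) = b (a x)) (ha : IsNilpotent a)
    (hb : IsNilpotent b) {F S : Submodule K V}
    (hFb : ∀ x ∈ F, b x ∈ F) (hSa : ∀ x ∈ S, a x ∈ S) (hSb : ∀ x ∈ S, b x ∈ S)
    (h : F ≤ S ⊔ F.map a ⊔ F.map b) : F ≤ S := by
  refine nak1 ha hSa (nak1 hb ?_ h)
  intro x hx
  obtain ⟨y, hy, z, ⟨w, hw, rfl⟩, rfl⟩ := Submodule.mem_sup.1 hx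
  rw [map_add, ← hab]
  exact Submodule.add_mem_sup (hSb y hy) ⟨b w, hFb w hw, rfl⟩

theorem pow_sub_mem {g : End K V} {N D : Submodule K V} {ξ : K} (hD : ∀ x ∈ D, g x ∈ D)
    (h : ∀ y ∈ N, g y - ξ • y ∈ D) (m : ℕ) : ∀ y ∈ N, (g ^ m) y - ξ ^ m • y ∈ D := by
  induction m with
  | zero => intro y _; simp
  | succ m ih =>
    intro y hy
    have h1 : (g ^ (m + 1)) y - ξ ^ (m + 1) • y =
        g ((g ^ m) y - ξ ^ m • y) + ξ ^ m • (g y - ξ • y) := by
      rw [pow_succ' g, Module.End.mul_apply, map_sub, map_smul, smul_sub, smul_smul, pow_succ ξ]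
      abel
    rw [h1]
    exact D.add_mem (hD _ (ih y hy)) (D.smul_mem _ (h y hy))

/-- **Transfer** from the operator `q = c₂ c₁⁻¹` (`c₁ = 1 + t (la1 + b)`, `c₂ = 1 + t (la2 + a)`,
`a, b` nilpotent) to scalars, for an arbitrary linear pencil `L0 - c L1`. -/
theorem transfer [FiniteDimensional K V] (L0 L1 : V →ₗ[K] W) {a b : End K V}
    (hab : Commute a b) (ha : IsNilpotent a) (hb : IsNilpotent b)
    (hLa : ∀ y z, L0 y = L1 z → L0 (a y) = L1 (a z))
    (hLb : ∀ y z, L0 y = L1 z → L0 (b y) = L1 (b z))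
    {la1 la2 : K} (hla : la1 ≠ la2) {𝒯 : Set K} (h𝒯 : 𝒯.Infinite) (c1 c2 : K → End K V)
    (hc1 : ∀ t x, c1 t x = (1 + t * la1) • x + t • b x)
    (hc2 : ∀ t x, c2 t x = (1 + t * la2) • x + t • a x) :
    ∃ S : Set K, S.Finite ∧ ∀ c ∉ S, ∀ x, L0 x = c • L1 x → ∀ M : Submodule K (V × V),
      (∀ t ∈ 𝒯, ∀ X, L0 (c1 t (c1 t X)) = L1 (c2 t (c2 t X)) → (c1 t X, c2 t X) ∈ M) →
      (x, 0) ∈ M ∧ (0, x) ∈ M := by
  classical
  have : Infinite K := Set.infinite_univ_iff.1 (h𝒯.mono (Set.subset_univ _))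
  obtain ⟨S, hS, hpen⟩ := pencil L0 L1
  refine ⟨S, hS, fun c hc x hx M hM => ?_⟩
  have hab' : ∀ x, a (b x) = b (a x) := fun x => LinearMap.congr_fun hab x
  -- polynomial coefficients
  let gen : Set V := {y | ∃ (n : ℕ) (Y : ℕ → V) (k : ℕ), Chain L0 L1 n Y ∧ y = Y k}
  let LL : Submodule K V := Submodule.span K gen
  have hstep : ∀ (g : End K V), (∀ y z, L0 y = L1 z → L0 (g y) = L1 (g z)) →
      ∀ n Y, Chain L0 L1 n Y → Chain L0 L1 n fun k => g (Y k) := by
    intro g hg n Y hY
    refine ⟨?_, fun k => hg _ _ (hY.succ k), fun k hk => ?_⟩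
    · have := hg (Y 0) 0 (by rw [hY.zero, map_zero])
      rwa [map_zero, map_zero] at this
    · show g (Y k) = 0
      rw [hY.fin k hk, map_zero]
  have hLL : ∀ (g : End K V), (∀ y z, L0 y = L1 z → L0 (g y) = L1 (g z)) →
      ∀ y ∈ LL, g y ∈ LL := by
    intro g hg y hy
    refine Submodule.span_induction ?_ ?_ ?_ ?_ hy
    · rintro _ ⟨n, Y, k, hY, rfl⟩
      exact Submodule.subset_span ⟨n, _, k, hstep g hg n Y hY, rfl⟩
    · rw [map_zero]; exact LL.zero_mem
    · intro x y _ _ h1 h2; rw [map_add]; exact LL.add_mem h1 h2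
    · intro r x _ h1; rw [map_smul]; exact LL.smul_mem _ h1
  have hxL : x ∈ LL := by
    obtain ⟨n, Y, hY, hxY⟩ := hpen c hc x hx
    rw [hxY]
    exact Submodule.sum_mem _ fun k _ => LL.smul_mem _ (Submodule.subset_span ⟨n, Y, k, hY, rfl⟩)
  -- good operators
  have hg1 : ∀ t y z, L0 y = L1 z → L0 (c1 t y) = L1 (c1 t z) := by
    intro t y z h
    rw [hc1, hc1, map_add, map_add, map_smul, map_smul, map_smul, map_smul, h, hLb y z h]
  have hg2 : ∀ t y z, L0 y = L1 z → L0 (c2 t y) = L1 (c2 t z) := by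
    intro t y z h
    rw [hc2, hc2, map_add, map_add, map_smul, map_smul, map_smul, map_smul, h, hLa y z h]
  have hgp : ∀ (g : End K V), (∀ y z, L0 y = L1 z → L0 (g y) = L1 (g z)) → ∀ m : ℕ,
      ∀ y z, L0 y = L1 z → L0 ((g ^ m) y) = L1 ((g ^ m) z) := by
    intro g hg m
    induction m with
    | zero => intro y z h; exact h
    | succ m ih =>
      intro y z h
      rw [pow_succ', Module.End.mul_apply, Module.End.mul_apply]
      exact hg _ _ (ih y z h)
  have hc12 : ∀ t, Commute (c1 t) (c2 t) := by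
    intro t
    refine LinearMap.ext fun y => ?_
    show c1 t (c2 t y) = c2 t (c1 t y)
    simp only [hc1, hc2, map_add, map_smul, hab', smul_add, smul_smul]
    rw [mul_comm (1 + t * la1) (1 + t * la2), mul_comm (1 + t * la1) t, mul_comm t (1 + t * la2)]
    abel
  have hac1 : ∀ t y, a (c1 t y) = c1 t (a y) := by
    intro t y
    rw [hc1, hc1, map_add, map_smul, map_smul, hab']
  have hac2 : ∀ t y, a (c2 t y) = c2 t (a y) := by
    intro t y
    rw [hc2, hc2, map_add, map_smul, map_smul]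
  have hbc1 : ∀ t y, b (c1 t y) = c1 t (b y) := by
    intro t y
    rw [hc1, hc1, map_add, map_smul, map_smul]
  have hbc2 : ∀ t y, b (c2 t y) = c2 t (b y) := by
    intro t y
    rw [hc2, hc2, map_add, map_smul, map_smul, hab']
  -- the span
  let gS : Set (V × V) := {p | ∃ t ∈ 𝒯, ∃ X, L0 (c1 t (c1 t X)) = L1 (c2 t (c2 t X)) ∧
    p = (c1 t X, c2 t X)}
  let SS : Submodule K (V × V) := Submodule.span K gS
  have hSM : SS ≤ M := by
    refine Submodule.span_le.2 ?_
    rintro _ ⟨t, ht, X, hX, rfl⟩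
    exact hM t ht X hX
  let a2 : End K (V × V) := LinearMap.prodMap a a
  let b2 : End K (V × V) := LinearMap.prodMap b b
  have ha2 : IsNilpotent a2 := by
    obtain ⟨n, hn⟩ := ha
    refine ⟨n, ?_⟩
    have h1 : ∀ m : ℕ, a2 ^ m = LinearMap.prodMap (a ^ m) (a ^ m) := by
      intro m
      induction m with
      | zero => rfl
      | succ m ih => rw [pow_succ, ih, pow_succ]; rfl
    rw [h1, hn]
    refine LinearMap.ext fun p => ?_
    rfl
  have hb2 : IsNilpotent b2 := by
    obtain ⟨n, hn⟩ := hb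
    refine ⟨n, ?_⟩
    have h1 : ∀ m : ℕ, b2 ^ m = LinearMap.prodMap (b ^ m) (b ^ m) := by
      intro m
      induction m with
      | zero => rfl
      | succ m ih => rw [pow_succ, ih, pow_succ]; rfl
    rw [h1, hn]
    refine LinearMap.ext fun p => ?_
    rfl
  have hSa : ∀ p ∈ SS, a2 p ∈ SS := by
    intro p hp
    refine Submodule.span_induction ?_ ?_ ?_ ?_ hp
    · rintro _ ⟨t, ht, X, hX, rfl⟩
      refine Submodule.subset_span ⟨t, ht, a X, ?_, ?_⟩
      · rw [← hac1, ← hac1, ← hac2, ← hac2]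
        exact hLa _ _ hX
      · show (a (c1 t X), a (c2 t X)) = _
        rw [hac1, hac2]
    · rw [map_zero]; exact SS.zero_mem
    · intro x y _ _ h1 h2; rw [map_add]; exact SS.add_mem h1 h2
    · intro r x _ h1; rw [map_smul]; exact SS.smul_mem _ h1
  have hSb : ∀ p ∈ SS, b2 p ∈ SS := by
    intro p hp
    refine Submodule.span_induction ?_ ?_ ?_ ?_ hp
    · rintro _ ⟨t, ht, X, hX, rfl⟩
      refine Submodule.subset_span ⟨t, ht, b X, ?_, ?_⟩
      · rw [← hbc1, ← hbc1, ← hbc2, ← hbc2]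
        exact hLb _ _ hX
      · show (b (c1 t X), b (c2 t X)) = _
        rw [hbc1, hbc2]
    · rw [map_zero]; exact SS.zero_mem
    · intro x y _ _ h1 h2; rw [map_add]; exact SS.add_mem h1 h2
    · intro r x _ h1; rw [map_smul]; exact SS.smul_mem _ h1
  let NN : Submodule K (V × V) := LL.prod LL
  have hNN : NN ≤ SS := by
    refine nak2 (a := a2) (b := b2) (fun p => ?_) ha2 hb2 ?_ hSa hSb ?_
    · show (a (b p.1), a (b p.2)) = (b (a p.1), b (a p.2))
      rw [hab', hab']
    · intro p hp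
      exact ⟨hLL b hLb _ hp.1, hLL b hLb _ hp.2⟩
    · set T : Submodule K (V × V) := SS ⊔ NN.map a2 ⊔ NN.map b2 with hT
      let D : Submodule K V := LL.map a ⊔ LL.map b
      have hDT1 : ∀ y ∈ D, ((y, 0) : V × V) ∈ T := by
        intro y hy
        obtain ⟨_, ⟨u, hu, rfl⟩, _, ⟨v, hv, rfl⟩, rfl⟩ := Submodule.mem_sup.1 hy
        have h1 : ((a u + b v, 0) : V × V) = a2 (u, 0) + b2 (v, 0) := by
          show _ = ((a u, a 0) + (b v, b 0) : V × V)
          rw [map_zero, map_zero, Prod.mk_add_mk, add_zero]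
        rw [h1]
        refine T.add_mem ?_ ?_
        · exact Submodule.mem_sup_left (Submodule.mem_sup_right ⟨(u, 0), ⟨hu, LL.zero_mem⟩, rfl⟩)
        · exact Submodule.mem_sup_right ⟨(v, 0), ⟨hv, LL.zero_mem⟩, rfl⟩
      have hDT2 : ∀ y ∈ D, ((0, y) : V × V) ∈ T := by
        intro y hy
        obtain ⟨_, ⟨u, hu, rfl⟩, _, ⟨v, hv, rfl⟩, rfl⟩ := Submodule.mem_sup.1 hy
        have h1 : ((0, a u + b v) : V × V) = a2 (0, u) + b2 (0, v) := by
          show _ = ((a 0, a u) + (b 0, b v) : V × V)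
          rw [map_zero, map_zero, Prod.mk_add_mk, add_zero]
        rw [h1]
        refine T.add_mem ?_ ?_
        · exact Submodule.mem_sup_left (Submodule.mem_sup_right ⟨(0, u), ⟨LL.zero_mem, hu⟩, rfl⟩)
        · exact Submodule.mem_sup_right ⟨(0, v), ⟨LL.zero_mem, hv⟩, rfl⟩
      have hDg : ∀ g : End K V, (∀ y, a (g y) = g (a y)) → (∀ y, b (g y) = g (b y)) →
          (∀ y ∈ LL, g y ∈ LL) → ∀ y ∈ D, g y ∈ D := by
        intro g h1 h2 h3 y hy
        obtain ⟨_, ⟨u, hu, rfl⟩, _, ⟨v, hv, rfl⟩, rfl⟩ := Submodule.mem_sup.1 hy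
        rw [map_add, ← h1, ← h2]
        exact Submodule.add_mem_sup ⟨_, h3 u hu, rfl⟩ ⟨_, h3 v hv, rfl⟩
      have hD1 : ∀ t, ∀ y ∈ D, c1 t y ∈ D := fun t =>
        hDg _ (hac1 t) (hbc1 t) (hLL _ (hg1 t))
      have hD2 : ∀ t, ∀ y ∈ D, c2 t y ∈ D := fun t =>
        hDg _ (hac2 t) (hbc2 t) (hLL _ (hg2 t))
      have hD2p : ∀ t (m : ℕ), ∀ y ∈ D, ((c2 t) ^ m) y ∈ D := by
        intro t m
        induction m with
        | zero => intro y hy; exact hy
        | succ m ih => intro y hy; rw [pow_succ]; exact ih _ (hD2 t y hy)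
      have hm1 : ∀ t, ∀ y ∈ LL, c1 t y - (1 + t * la1) • y ∈ D := by
        intro t y hy
        rw [hc1, add_sub_cancel_left]
        exact D.smul_mem _ (Submodule.mem_sup_right ⟨y, hy, rfl⟩)
      have hm2 : ∀ t, ∀ y ∈ LL, c2 t y - (1 + t * la2) • y ∈ D := by
        intro t y hy
        rw [hc2, add_sub_cancel_left]
        exact D.smul_mem _ (Submodule.mem_sup_left ⟨y, hy, rfl⟩)
      have hmm : ∀ t (i j : ℕ), ∀ y ∈ LL, ((c2 t) ^ i) (((c1 t) ^ j) y) -
          ((1 + t * la2) ^ i * (1 + t * la1) ^ j) • y ∈ D := by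
        intro t i j y hy
        have h1 := pow_sub_mem (hD1 t) (hm1 t) j y hy
        have h2 := pow_sub_mem (hD2 t) (hm2 t) i y hy
        have h3 : ((c2 t) ^ i) (((c1 t) ^ j) y) - ((1 + t * la2) ^ i * (1 + t * la1) ^ j) • y =
            ((c2 t) ^ i) (((c1 t) ^ j) y - (1 + t * la1) ^ j • y) +
            (1 + t * la1) ^ j • (((c2 t) ^ i) y - (1 + t * la2) ^ i • y) := by
          rw [map_sub, map_smul, smul_sub, smul_smul, mul_comm ((1 + t * la2) ^ i)]
          abel
        rw [h3]
        exact D.add_mem (hD2p t i _ h1) (D.smul_mem _ h2)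
      -- the main step
      have key : ∀ (n : ℕ) (Y : ℕ → V), Chain L0 L1 n Y → ∀ k,
          ((Y k, 0) : V × V) ∈ T ∧ ((0, Y k) : V × V) ∈ T := by
        intro n Y hY
        have hYL : ∀ k, Y k ∈ LL := fun k => Submodule.subset_span ⟨n, Y, k, hY, rfl⟩
        -- membership of the scalar combination
        have hmem : ∀ t ∈ 𝒯, ((∑ k ∈ Finset.range n,
              ((1 + t * la2) ^ (2 * k) * (1 + t * la1) ^ (2 * (n - k) + 1)) • Y k,
            ∑ k ∈ Finset.range n,
              ((1 + t * la2) ^ (2 * k + 1) * (1 + t * la1) ^ (2 * (n - k))) • Y k) : V × V) ∈ T := by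
          intro t ht
          let X : V := ∑ k ∈ Finset.range n, ((c2 t) ^ (2 * k)) (((c1 t) ^ (2 * (n - k))) (Y k))
          have e1 : ∀ m : ℕ, ((c1 t) ^ m) X = ∑ k ∈ Finset.range n,
              ((c2 t) ^ (2 * k)) (((c1 t) ^ (2 * (n - k) + m)) (Y k)) := by
            intro m
            rw [map_sum]
            refine Finset.sum_congr rfl fun k _ => ?_
            have h1 := LinearMap.congr_fun ((hc12 t).pow_pow m (2 * k)).eq
              (((c1 t) ^ (2 * (n - k))) (Y k))
            rw [Module.End.mul_apply, Module.End.mul_apply] at h1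
            rw [h1, ← Module.End.mul_apply ((c1 t) ^ m), ← pow_add, add_comm m]
          have e2 : ∀ m : ℕ, ((c2 t) ^ m) X = ∑ k ∈ Finset.range n,
              ((c2 t) ^ (2 * k + m)) (((c1 t) ^ (2 * (n - k))) (Y k)) := by
            intro m
            rw [map_sum]
            refine Finset.sum_congr rfl fun k _ => ?_
            rw [← Module.End.mul_apply ((c2 t) ^ m), ← pow_add, add_comm m]
          have hX : L0 (c1 t (c1 t X)) = L1 (c2 t (c2 t X)) := by
            have h1 : c1 t (c1 t X) = ((c1 t) ^ 2) X := by rw [pow_two]; rfl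
            have h2 : c2 t (c2 t X) = ((c2 t) ^ 2) X := by rw [pow_two]; rfl
            rw [h1, h2, e1, e2, map_sum, map_sum]
            let f : ℕ → W := fun k => L0 (((c2 t) ^ (2 * k)) (((c1 t) ^ (2 * (n - k) + 2)) (Y k)))
            have hgg : ∀ i j : ℕ, ∀ y z, L0 y = L1 z →
                L0 (((c2 t) ^ i) (((c1 t) ^ j) y)) = L1 (((c2 t) ^ i) (((c1 t) ^ j) z)) := by
              intro i j y z h
              exact hgp _ (hg2 t) i _ _ (hgp _ (hg1 t) j _ _ h)
            have hf0 : f 0 = 0 := by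
              have := hgg (2 * 0) (2 * (n - 0) + 2) (Y 0) 0 (by rw [hY.zero, map_zero])
              rw [map_zero, map_zero, map_zero] at this
              exact this
            have hfn : f n = 0 := by
              show L0 (((c2 t) ^ (2 * n)) (((c1 t) ^ (2 * (n - n) + 2)) (Y n))) = 0
              rw [hY.fin n le_rfl, map_zero, map_zero, map_zero]
            have h3 : ∑ k ∈ Finset.range n, f k = ∑ k ∈ Finset.range n, f (k + 1) := by
              have h4 := Finset.sum_range_succ f n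
              have h5 := Finset.sum_range_succ' f n
              rw [hfn, add_zero] at h4
              rw [hf0, add_zero] at h5
              rw [← h4, h5]
            refine h3.trans (Finset.sum_congr rfl fun k hk => ?_)
            have hk' := Finset.mem_range.1 hk
            have h6 := hgg (2 * k + 2) (2 * (n - k)) (Y (k + 1)) (Y k) (hY.succ k)
            rw [← h6]
            show L0 (((c2 t) ^ (2 * (k + 1))) (((c1 t) ^ (2 * (n - (k + 1)) + 2)) (Y (k + 1)))) = _
            rw [show 2 * (k + 1) = 2 * k + 2 by ring,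
              show 2 * (n - (k + 1)) + 2 = 2 * (n - k) by omega]
          have hXS : ((c1 t X, c2 t X) : V × V) ∈ T :=
            Submodule.mem_sup_left (Submodule.mem_sup_left
              (Submodule.subset_span ⟨t, ht, X, hX, rfl⟩))
          have h1 : c1 t X - ∑ k ∈ Finset.range n,
              ((1 + t * la2) ^ (2 * k) * (1 + t * la1) ^ (2 * (n - k) + 1)) • Y k ∈ D := by
            have := e1 1
            rw [pow_one] at this
            rw [this, ← Finset.sum_sub_distrib]
            exact Submodule.sum_mem _ fun k _ => hmm t _ _ _ (hYL k)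
          have h2 : c2 t X - ∑ k ∈ Finset.range n,
              ((1 + t * la2) ^ (2 * k + 1) * (1 + t * la1) ^ (2 * (n - k))) • Y k ∈ D := by
            have := e2 1
            rw [pow_one] at this
            rw [this, ← Finset.sum_sub_distrib]
            exact Submodule.sum_mem _ fun k _ => hmm t _ _ _ (hYL k)
          have h3 := T.sub_mem (T.sub_mem hXS (hDT1 _ h1)) (hDT2 _ h2)
          rw [Prod.mk_sub_mk, Prod.mk_sub_mk, sub_sub_cancel, sub_zero, sub_zero,
            sub_sub_cancel] at h3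
          exact h3
        -- Vandermonde
        have hfun : ∀ φ : (V × V) →ₗ[K] K, (∀ p ∈ T, φ p = 0) → ∀ k,
            φ (Y k, 0) = 0 ∧ φ (0, Y k) = 0 := by
          intro φ hφ k
          by_cases hk : n ≤ k
          · rw [hY.fin k hk]
            have : ((0, 0) : V × V) = 0 := rfl
            rw [this, map_zero]
            exact ⟨rfl, rfl⟩
          let 𝒯' : Set K := 𝒯 \ ({t | 1 + t * la1 = 0} ∪ {t | 1 + t * la2 = 0})
          have hfin1 : ∀ la : K, {t : K | 1 + t * la = 0}.Finite := by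
            intro la
            refine Set.Subsingleton.finite fun s hs t ht => ?_
            have hs' : 1 + s * la = 0 := hs
            have ht' : 1 + t * la = 0 := ht
            have hla0 : la ≠ 0 := by
              rintro rfl
              rw [mul_zero, add_zero] at hs'
              exact one_ne_zero hs'
            exact mul_right_cancel₀ hla0 (by linear_combination hs' - ht')
          have h𝒯' : 𝒯'.Infinite := h𝒯.sdiff ((hfin1 la1).union (hfin1 la2))
          let ρ : K → K := fun t => (1 + t * la2) / (1 + t * la1)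
          have hρi : Set.InjOn ρ 𝒯' := by
            intro s hs t ht hst
            have hs1 : 1 + s * la1 ≠ 0 := fun h => hs.2 (Or.inl h)
            have ht1 : 1 + t * la1 ≠ 0 := fun h => ht.2 (Or.inl h)
            have h1 : (1 + s * la2) / (1 + s * la1) = (1 + t * la2) / (1 + t * la1) := hst
            rw [div_eq_div_iff hs1 ht1] at h1
            have h2 : (s - t) * (la2 - la1) = 0 := by linear_combination h1
            rcases mul_eq_zero.1 h2 with h3 | h3
            · exact sub_eq_zero.1 h3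
            · exact absurd (sub_eq_zero.1 h3).symm hla
          have hΛ : (ρ '' 𝒯').Infinite := h𝒯'.image hρi
          have hΛ0 : (0 : K) ∉ ρ '' 𝒯' := by
            rintro ⟨t, ht, h0⟩
            have ht1 : 1 + t * la1 ≠ 0 := fun h => ht.2 (Or.inl h)
            have ht2 : 1 + t * la2 ≠ 0 := fun h => ht.2 (Or.inr h)
            exact (div_ne_zero ht2 ht1) h0
          have hpw := powers2 hΛ hΛ0 (l := n) (fun k => φ (Y k, 0)) (fun k => φ (0, Y k))
            Neg.zero (Pos.const 0) (by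
              rintro _ ⟨t, ht, rfl⟩
              have ht1 : 1 + t * la1 ≠ 0 := fun h => ht.2 (Or.inl h)
              have h1 := hφ _ (hmem t ht.1)
              have h2 : (((∑ k ∈ Finset.range n,
                  ((1 + t * la2) ^ (2 * k) * (1 + t * la1) ^ (2 * (n - k) + 1)) • Y k,
                ∑ k ∈ Finset.range n,
                  ((1 + t * la2) ^ (2 * k + 1) * (1 + t * la1) ^ (2 * (n - k))) • Y k) : V × V)) =
                ∑ k ∈ Finset.range n,
                  (((1 + t * la2) ^ (2 * k) * (1 + t * la1) ^ (2 * (n - k) + 1)) •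
                    ((Y k, 0) : V × V) +
                  ((1 + t * la2) ^ (2 * k + 1) * (1 + t * la1) ^ (2 * (n - k))) •
                    ((0, Y k) : V × V)) := by
                refine Prod.ext ?_ ?_
                · rw [Prod.fst_sum]
                  dsimp only
                  refine Finset.sum_congr rfl fun k _ => ?_
                  simp
                · rw [Prod.snd_sum]
                  dsimp only
                  refine Finset.sum_congr rfl fun k _ => ?_
                  simp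
              rw [h2, map_sum] at h1
              have h3 : (1 + t * la1) ^ (2 * n + 1) * (∑ j ∈ Finset.range n,
                  (ρ t) ^ (2 * j) * (φ (Y j, 0) + ρ t * φ (0, Y j))) = 0 := by
                rw [← h1, Finset.mul_sum]
                refine Finset.sum_congr rfl fun k hk => ?_
                have hk' := Finset.mem_range.1 hk
                rw [map_add, map_smul, map_smul, smul_eq_mul, smul_eq_mul]
                have hρt : ρ t * (1 + t * la1) = 1 + t * la2 := div_mul_cancel₀ _ ht1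
                rw [← hρt]
                have e : 2 * n + 1 = 2 * k + (2 * (n - k) + 1) := by omega
                rw [e, pow_add, mul_pow, mul_pow, pow_succ (1 + t * la1) (2 * (n - k)),
                  pow_succ (ρ t) (2 * k), pow_succ (1 + t * la1) (2 * k)]
                ring
              have h4 := (mul_eq_zero.1 h3).resolve_left (pow_ne_zero _ ht1)
              rw [h4]
              simp)
          exact hpw.1 k (by omega)
        intro k
        constructor
        · by_contra hn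
          obtain ⟨φ, h1, h2⟩ := Submodule.exists_le_ker_of_notMem hn
          exact h1 (hfun φ (fun p hp => h2 hp) k).1
        · by_contra hn
          obtain ⟨φ, h1, h2⟩ := Submodule.exists_le_ker_of_notMem hn
          exact h1 (hfun φ (fun p hp => h2 hp) k).2
      have hL12 : ∀ y ∈ LL, ((y, 0) : V × V) ∈ T ∧ ((0, y) : V × V) ∈ T := by
        intro y hy
        refine Submodule.span_induction ?_ ?_ ?_ ?_ hy
        · rintro _ ⟨n, Y, k, hY, rfl⟩
          exact key n Y hY k
        · exact ⟨T.zero_mem, T.zero_mem⟩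
        · intro x y _ _ h1 h2
          have e1 : ((x + y, 0) : V × V) = (x, 0) + (y, 0) := by simp
          have e2 : ((0, x + y) : V × V) = (0, x) + (0, y) := by simp
          rw [e1, e2]
          exact ⟨T.add_mem h1.1 h2.1, T.add_mem h1.2 h2.2⟩
        · intro r x _ h1
          have e1 : ((r • x, 0) : V × V) = r • (x, 0) := by simp
          have e2 : ((0, r • x) : V × V) = r • (0, x) := by simp
          rw [e1, e2]
          exact ⟨T.smul_mem _ h1.1, T.smul_mem _ h1.2⟩
      rintro ⟨y, z⟩ hp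
      have e : ((y, z) : V × V) = (y, 0) + (0, z) := by simp
      rw [e]
      exact T.add_mem (hL12 y hp.1).1 (hL12 z hp.2).2
  exact ⟨hSM (hNN ⟨hxL, LL.zero_mem⟩), hSM (hNN ⟨LL.zero_mem, hxL⟩)⟩

end transfer

section exactD

variable {K : Type*} [Field K] {P1 P2 : Type*} [AddCommGroup P1] [Module K P1]
  [AddCommGroup P2] [Module K P2] {τ : Type*} [Fintype τ]

/-- the linear map whose pencil describes exact families: total sum and classes modulo `J` -/
def pen {V : Type*} [AddCommGroup V] [Module K V] (J : Submodule K V) (a : τ → End K V) :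
    (τ → V) →ₗ[K] V × (τ → V ⧸ J) :=
  LinearMap.prod (∑ t, a t ∘ₗ LinearMap.proj t)
    (LinearMap.pi fun t => J.mkQ ∘ₗ a t ∘ₗ LinearMap.proj t)

theorem pen_fst {V : Type*} [AddCommGroup V] [Module K V] (J : Submodule K V) (a : τ → End K V)
    (x : τ → V) : (pen J a x).1 = ∑ t, a t (x t) := by
  simp [pen]

theorem pen_snd {V : Type*} [AddCommGroup V] [Module K V] (J : Submodule K V) (a : τ → End K V)
    (x : τ → V) (t : τ) : (pen J a x).2 t = J.mkQ (a t (x t)) := rfl

theorem pen_eq_iff {V : Type*} [AddCommGroup V] [Module K V] (J : Submodule K V)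
    (a b : τ → End K V) (x y : τ → V) : pen J a x = pen J b y ↔
      ∑ t, a t (x t) = ∑ t, b t (y t) ∧ ∀ t, a t (x t) - b t (y t) ∈ J := by
  constructor
  · intro h
    refine ⟨?_, fun t => ?_⟩
    · rw [← pen_fst J, ← pen_fst J, h]
    · have h1 := congrFun (congrArg Prod.snd h) t
      rw [pen_snd, pen_snd] at h1
      exact (Submodule.Quotient.eq J).1 h1
  · rintro ⟨h1, h2⟩
    refine Prod.ext ?_ (funext fun t => ?_)
    · rw [pen_fst, pen_fst, h1]
    · rw [pen_snd, pen_snd]
      exact (Submodule.Quotient.eq J).2 (h2 t)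

/-- families exact at `t` for the operators `D1, D2`: with `c_i = 1 + t D_i` -/
def ExactD (A : τ → End K P1) (B : τ → End K P2) (R1 : Submodule K P1) (R2 : Submodule K P2)
    (c1 : End K P1) (c2 : End K P2) (x : τ → P2 ⊗[K] P1) : Prop :=
  ∑ t, (LinearMap.lTensor P2 (c1 ∘ₗ c1 ∘ₗ A t) (x t) -
    LinearMap.rTensor P1 (c2 ∘ₗ c2 ∘ₗ B t) (x t)) = 0 ∧
  ∀ t, LinearMap.lTensor P2 (c1 ∘ₗ c1 ∘ₗ A t) (x t) -
    LinearMap.rTensor P1 (c2 ∘ₗ c2 ∘ₗ B t) (x t) ∈ Rad R1 R2

theorem rad_lTensor {R1 : Submodule K P1} {R2 : Submodule K P2} {g : End K P1}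
    (hg : ∀ r ∈ R1, g r ∈ R1) : ∀ x ∈ Rad R1 R2, LinearMap.lTensor P2 g x ∈ Rad R1 R2 := by
  have h : Rad R1 R2 ≤ (Rad R1 R2).comap (LinearMap.lTensor P2 g) := by
    refine sup_le (Submodule.span_le.2 ?_) (Submodule.span_le.2 ?_)
    · rintro _ ⟨r, hr, p, rfl⟩
      show LinearMap.lTensor P2 g (r ⊗ₜ p) ∈ Rad R1 R2
      rw [LinearMap.lTensor_tmul]
      exact Submodule.mem_sup_left (Submodule.subset_span ⟨r, hr, _, rfl⟩)
    · rintro _ ⟨p, r, hr, rfl⟩
      show LinearMap.lTensor P2 g (p ⊗ₜ r) ∈ Rad R1 R2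
      rw [LinearMap.lTensor_tmul]
      exact Submodule.mem_sup_right (Submodule.subset_span ⟨p, _, hg r hr, rfl⟩)
  exact fun x hx => h hx

theorem rad_rTensor {R1 : Submodule K P1} {R2 : Submodule K P2} {g : End K P2}
    (hg : ∀ r ∈ R2, g r ∈ R2) : ∀ x ∈ Rad R1 R2, LinearMap.rTensor P1 g x ∈ Rad R1 R2 := by
  have h : Rad R1 R2 ≤ (Rad R1 R2).comap (LinearMap.rTensor P1 g) := by
    refine sup_le (Submodule.span_le.2 ?_) (Submodule.span_le.2 ?_)
    · rintro _ ⟨r, hr, p, rfl⟩
      show LinearMap.rTensor P1 g (r ⊗ₜ p) ∈ Rad R1 R2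
      rw [LinearMap.rTensor_tmul]
      exact Submodule.mem_sup_left (Submodule.subset_span ⟨_, hg r hr, _, rfl⟩)
    · rintro _ ⟨p, r, hr, rfl⟩
      show LinearMap.rTensor P1 g (p ⊗ₜ r) ∈ Rad R1 R2
      rw [LinearMap.rTensor_tmul]
      exact Submodule.mem_sup_right (Submodule.subset_span ⟨_, r, hr, rfl⟩)
  exact fun x hx => h hx

theorem lr_comm (g : End K P1) (k : End K P2) (x : P2 ⊗[K] P1) :
    LinearMap.lTensor P2 g (LinearMap.rTensor P1 k x) =
      LinearMap.rTensor P1 k (LinearMap.lTensor P2 g x) := by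
  rw [← LinearMap.comp_apply, ← LinearMap.comp_apply, LinearMap.lTensor_comp_rTensor,
    LinearMap.rTensor_comp_lTensor]

/-- transfer for pure tensor families -/
theorem transfer_exact [FiniteDimensional K P1] [FiniteDimensional K P2]
    (A : τ → End K P1) (B : τ → End K P2) (R1 : Submodule K P1) (R2 : Submodule K P2)
    {D1 : End K P1} {D2 : End K P2} (hD1 : ∀ t p, D1 (A t p) = A t (D1 p))
    (hD2 : ∀ t p, D2 (B t p) = B t (D2 p)) (hR1 : ∀ r ∈ R1, D1 r ∈ R1) (hR2 : ∀ r ∈ R2, D2 r ∈ R2)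
    {la1 la2 : K} (hla : la1 ≠ la2) (hN1 : IsNilpotent (D1 - la1 • (1 : End K P1)))
    (hN2 : IsNilpotent (D2 - la2 • (1 : End K P2))) {𝒯 : Set K} (h𝒯 : 𝒯.Infinite) :
    ∃ S : Set K, S.Finite ∧ ∀ c ∉ S, ∀ x : τ → P2 ⊗[K] P1, Exact A B R1 R2 c x →
      ∀ M : Submodule K ((τ → P2 ⊗[K] P1) × (τ → P2 ⊗[K] P1)),
      (∀ t ∈ 𝒯, ∀ X : τ → P2 ⊗[K] P1, ExactD A B R1 R2 (1 + t • D1) (1 + t • D2) X →
        ((fun s => LinearMap.lTensor P2 (1 + t • D1) (X s)),
          (fun s => LinearMap.rTensor P1 (1 + t • D2) (X s))) ∈ M) →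
      (x, 0) ∈ M ∧ (0, x) ∈ M := by
  classical
  let J := Rad R1 R2
  let aa : τ → End K (P2 ⊗[K] P1) := fun t => LinearMap.lTensor P2 (A t)
  let bb : τ → End K (P2 ⊗[K] P1) := fun t => LinearMap.rTensor P1 (B t)
  let pw : End K (P2 ⊗[K] P1) → End K (τ → P2 ⊗[K] P1) := fun g =>
    LinearMap.pi fun s => g ∘ₗ LinearMap.proj s
  have hpw : ∀ g x s, pw g x s = g (x s) := fun g x s => rfl
  -- admissible operators
  have hadm : ∀ g : End K (P2 ⊗[K] P1), (∀ t x, g (aa t x) = aa t (g x)) →
      (∀ t x, g (bb t x) = bb t (g x)) → (∀ x ∈ J, g x ∈ J) → ∀ y z,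
      pen J aa y = pen J bb z → pen J aa (pw g y) = pen J bb (pw g z) := by
    intro g h1 h2 h3 y z h
    rw [pen_eq_iff] at h ⊢
    refine ⟨?_, fun t => ?_⟩
    · simp only [hpw, ← h1, ← h2, ← map_sum, h.1]
    · simp only [hpw, ← h1, ← h2, ← map_sub]
      exact h3 _ (h.2 t)
  have hpn : ∀ g : End K (P2 ⊗[K] P1), IsNilpotent g → IsNilpotent (pw g) := by
    rintro g ⟨n, hn⟩
    refine ⟨n, ?_⟩
    have h1 : ∀ m : ℕ, pw g ^ m = pw (g ^ m) := by
      intro m
      induction m with
      | zero => rfl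
      | succ m ih => rw [pow_succ, ih, pow_succ]; rfl
    rw [h1, hn]
    rfl
  set N1 := D1 - la1 • (1 : End K P1) with hN1d
  set N2 := D2 - la2 • (1 : End K P2) with hN2d
  let b0 : End K (P2 ⊗[K] P1) := LinearMap.lTensor P2 N1
  let a0 : End K (P2 ⊗[K] P1) := LinearMap.rTensor P1 N2
  have hb0 : IsNilpotent b0 := by
    obtain ⟨n, hn⟩ := hN1
    refine ⟨n, ?_⟩
    have h1 : ∀ m : ℕ, b0 ^ m = LinearMap.lTensor P2 (N1 ^ m) := by
      intro m
      induction m with
      | zero => rw [pow_zero, pow_zero]; exact (LinearMap.lTensor_id _ _).symm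
      | succ m ih => rw [pow_succ, ih, pow_succ]; exact (LinearMap.lTensor_comp _ _ _).symm
    rw [h1, hn, LinearMap.lTensor_zero]
  have ha0 : IsNilpotent a0 := by
    obtain ⟨n, hn⟩ := hN2
    refine ⟨n, ?_⟩
    have h1 : ∀ m : ℕ, a0 ^ m = LinearMap.rTensor P1 (N2 ^ m) := by
      intro m
      induction m with
      | zero => rw [pow_zero, pow_zero]; exact (LinearMap.rTensor_id _ _).symm
      | succ m ih => rw [pow_succ, ih, pow_succ]; exact (LinearMap.rTensor_comp _ _ _).symm
    rw [h1, hn, LinearMap.rTensor_zero]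
  have hAN : ∀ t p, N1 (A t p) = A t (N1 p) := by
    intro t p
    simp [hN1d, hD1, map_sub, map_smul]
  have hBN : ∀ t p, N2 (B t p) = B t (N2 p) := by
    intro t p
    simp [hN2d, hD2, map_sub, map_smul]
  have hRN1 : ∀ r ∈ R1, N1 r ∈ R1 := fun r hr => by
    simp only [hN1d, LinearMap.sub_apply, LinearMap.smul_apply, Module.End.one_apply]
    exact R1.sub_mem (hR1 r hr) (R1.smul_mem _ hr)
  have hRN2 : ∀ r ∈ R2, N2 r ∈ R2 := fun r hr => by
    simp only [hN2d, LinearMap.sub_apply, LinearMap.smul_apply, Module.End.one_apply]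
    exact R2.sub_mem (hR2 r hr) (R2.smul_mem _ hr)
  have ll : ∀ (f g : End K P1), (∀ p, f (g p) = g (f p)) → ∀ x : P2 ⊗[K] P1,
      LinearMap.lTensor P2 f (LinearMap.lTensor P2 g x) =
        LinearMap.lTensor P2 g (LinearMap.lTensor P2 f x) := by
    intro f g h x
    rw [← LinearMap.lTensor_comp_apply, ← LinearMap.lTensor_comp_apply]
    congr 2
    exact LinearMap.ext h
  have rr : ∀ (f g : End K P2), (∀ p, f (g p) = g (f p)) → ∀ x : P2 ⊗[K] P1,
      LinearMap.rTensor P1 f (LinearMap.rTensor P1 g x) =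
        LinearMap.rTensor P1 g (LinearMap.rTensor P1 f x) := by
    intro f g h x
    rw [← LinearMap.rTensor_comp_apply, ← LinearMap.rTensor_comp_apply]
    congr 2
    exact LinearMap.ext h
  obtain ⟨S, hS, hT⟩ := transfer (pen J aa) (pen J bb) (a := pw a0) (b := pw b0)
    (by
      refine LinearMap.ext fun x => funext fun s => ?_
      exact (lr_comm N1 N2 (x s)).symm)
    (hpn _ ha0) (hpn _ hb0)
    (hadm a0 (fun t x => (lr_comm (A t) N2 x).symm) (fun t x => rr N2 (B t) (hBN t) x)
      (rad_rTensor hRN2))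
    (hadm b0 (fun t x => ll N1 (A t) (hAN t) x) (fun t x => lr_comm N1 (B t) x)
      (rad_lTensor hRN1))
    hla h𝒯 (fun t => pw (LinearMap.lTensor P2 (1 + t • D1)))
    (fun t => pw (LinearMap.rTensor P1 (1 + t • D2)))
    (by
      intro t x
      funext s
      show LinearMap.lTensor P2 (1 + t • D1) (x s) =
        (1 + t * la1) • x s + t • LinearMap.lTensor P2 N1 (x s)
      have h1 : (1 + t • D1 : End K P1) = (1 + t * la1) • LinearMap.id + t • N1 := by
        refine LinearMap.ext fun p => ?_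
        simp only [hN1d, LinearMap.add_apply, LinearMap.smul_apply, LinearMap.sub_apply,
          Module.End.one_apply, LinearMap.id_apply, add_smul, smul_sub, smul_smul, one_smul]
        abel
      rw [h1, LinearMap.lTensor_add, LinearMap.lTensor_smul, LinearMap.lTensor_smul,
        LinearMap.lTensor_id]
      rfl)
    (by
      intro t x
      funext s
      show LinearMap.rTensor P1 (1 + t • D2) (x s) =
        (1 + t * la2) • x s + t • LinearMap.rTensor P1 N2 (x s)
      have h1 : (1 + t • D2 : End K P2) = (1 + t * la2) • LinearMap.id + t • N2 := by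
        refine LinearMap.ext fun p => ?_
        simp only [hN2d, LinearMap.add_apply, LinearMap.smul_apply, LinearMap.sub_apply,
          Module.End.one_apply, LinearMap.id_apply, add_smul, smul_sub, smul_smul, one_smul]
        abel
      rw [h1, LinearMap.rTensor_add, LinearMap.rTensor_smul, LinearMap.rTensor_smul,
        LinearMap.rTensor_id]
      rfl)
  refine ⟨S, hS, fun c hc x hx M hM => hT c hc x ?_ M fun t ht X hX => hM t ht X ?_⟩
  · have h1 : pen J aa x = pen J bb (c • x) := by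
      rw [pen_eq_iff]
      have h2 : ∀ t, aa t (x t) - bb t ((c • x) t) = defect (A t) (B t) c (x t) := by
        intro t
        show _ - bb t (c • x t) = _
        rw [map_smul]
        rfl
      refine ⟨?_, fun t => by rw [h2]; exact hx.2 t⟩
      rw [← sub_eq_zero, ← Finset.sum_sub_distrib]
      simp only [h2]
      exact hx.1
    rw [h1, map_smul]
  · rw [pen_eq_iff] at hX
    have cA : ∀ t' p, (1 + t • D1 : End K P1) (A t' p) = A t' ((1 + t • D1 : End K P1) p) := by
      intro t' p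
      simp only [LinearMap.add_apply, LinearMap.smul_apply, Module.End.one_apply, hD1, map_add,
        map_smul]
    have cB : ∀ t' p, (1 + t • D2 : End K P2) (B t' p) = B t' ((1 + t • D2 : End K P2) p) := by
      intro t' p
      simp only [LinearMap.add_apply, LinearMap.smul_apply, Module.End.one_apply, hD2, map_add,
        map_smul]
    have e1 : ∀ s, LinearMap.lTensor P2 ((1 + t • D1) ∘ₗ (1 + t • D1) ∘ₗ A s) (X s) =
        aa s (pw (LinearMap.lTensor P2 (1 + t • D1)) (pw (LinearMap.lTensor P2 (1 + t • D1)) X) s)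
        := by
      intro s
      rw [LinearMap.lTensor_comp_apply, LinearMap.lTensor_comp_apply]
      rw [ll _ _ (cA s), ll _ _ (cA s)]
      rfl
    have e2 : ∀ s, LinearMap.rTensor P1 ((1 + t • D2) ∘ₗ (1 + t • D2) ∘ₗ B s) (X s) =
        bb s (pw (LinearMap.rTensor P1 (1 + t • D2)) (pw (LinearMap.rTensor P1 (1 + t • D2)) X) s)
        := by
      intro s
      rw [LinearMap.rTensor_comp_apply, LinearMap.rTensor_comp_apply]
      rw [rr _ _ (cB s), rr _ _ (cB s)]
      rfl
    refine ⟨?_, fun s => ?_⟩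
    · simp only [e1, e2]
      rw [Finset.sum_sub_distrib, sub_eq_zero]
      exact hX.1
    · rw [e1, e2]
      exact hX.2 s

/-- **Span lemma with non-semisimple `D`.** -/
theorem span_exactD [FiniteDimensional K P1] [FiniteDimensional K P2]
    {E : Type*} [AddCommGroup E] [Module K E]
    {A : τ → End K P1} {B : τ → End K P2} {R1 : Submodule K P1} {R2 : Submodule K P2}
    {l : τ → ℕ}
    (hA : ∀ p, ∃ f : τ → P1, p = ∑ t, A t (f t)) (hB : ∀ p, ∃ f : τ → P2, p = ∑ t, B t (f t))
    (hA1 : ∀ t, ∀ r ∈ R1, A t r ∈ R1) (hB2 : ∀ t, ∀ r ∈ R2, B t r ∈ R2)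
    (hn1 : ∃ n, ∀ r ∈ R1, Kills A n r) (hn2 : ∃ n, ∀ r ∈ R2, Kills B n r)
    (hl1 : ∀ s p, (A s ^ l s) p ∈ R1) (hl2 : ∀ s p, (B s ^ l s) p ∈ R2)
    (gen1 : ∀ S : Submodule K P1, (∀ s p, (A s ^ l s) p ∈ S) → (∀ t, ∀ r ∈ S, A t r ∈ S) → R1 ≤ S)
    (gen2 : ∀ S : Submodule K P2, (∀ s p, (B s ^ l s) p ∈ S) → (∀ t, ∀ r ∈ S, B t r ∈ S) → R2 ≤ S)
    {D1 : End K P1} {D2 : End K P2} (hD1 : ∀ t p, D1 (A t p) = A t (D1 p))
    (hD2 : ∀ t p, D2 (B t p) = B t (D2 p)) (hR1 : ∀ r ∈ R1, D1 r ∈ R1) (hR2 : ∀ r ∈ R2, D2 r ∈ R2)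
    {la1 la2 : K} (hla : la1 ≠ la2) (hN1 : IsNilpotent (D1 - la1 • (1 : End K P1)))
    (hN2 : IsNilpotent (D2 - la2 • (1 : End K P2))) {𝒯 : Set K} (h𝒯 : 𝒯.Infinite)
    (q1 q2 : τ → P2 →ₗ[K] P1 →ₗ[K] E) (Q : Submodule K E)
    (h : ∀ t ∈ 𝒯, ∀ x : τ → P2 ⊗[K] P1, ExactD A B R1 R2 (1 + t • D1) (1 + t • D2) x →
      ∑ s, TensorProduct.lift (q1 s) (LinearMap.lTensor P2 (1 + t • D1) (x s)) +
        ∑ s, TensorProduct.lift (q2 s) (LinearMap.rTensor P1 (1 + t • D2) (x s)) ∈ Q) :
    (∀ s i j, i + j + 1 = l s → ∀ p2 p1, q1 s ((B s ^ j) p2) ((A s ^ i) p1) ∈ Q ∧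
      q2 s ((B s ^ j) p2) ((A s ^ i) p1) ∈ Q) ∧
    (∀ t, ∀ r ∈ R2, ∀ p1, q1 t r p1 ∈ Q ∧ q2 t r p1 ∈ Q) ∧
    (∀ t, ∀ r ∈ R1, ∀ p2, q1 t p2 r ∈ Q ∧ q2 t p2 r ∈ Q) := by
  classical
  have : Infinite K := Set.infinite_univ_iff.1 (h𝒯.mono (Set.subset_univ _))
  obtain ⟨S, hS, hT⟩ := transfer_exact A B R1 R2 hD1 hD2 hR1 hR2 hla hN1 hN2 h𝒯
  let F1 : (τ → P2 ⊗[K] P1) →ₗ[K] E := ∑ s, TensorProduct.lift (q1 s) ∘ₗ LinearMap.proj s
  let F2 : (τ → P2 ⊗[K] P1) →ₗ[K] E := ∑ s, TensorProduct.lift (q2 s) ∘ₗ LinearMap.proj s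
  have hF1 : ∀ x, F1 x = ∑ s, TensorProduct.lift (q1 s) (x s) := fun x => by simp [F1]
  have hF2 : ∀ x, F2 x = ∑ s, TensorProduct.lift (q2 s) (x s) := fun x => by simp [F2]
  let Ψ : ((τ → P2 ⊗[K] P1) × (τ → P2 ⊗[K] P1)) →ₗ[K] E := F1.coprod F2
  have hΨ : ∀ x y, Ψ (x, y) = F1 x + F2 y := fun x y => LinearMap.coprod_apply _ _ _
  have key : ∀ c ∉ S, ∀ x : τ → P2 ⊗[K] P1, Exact A B R1 R2 c x → F1 x ∈ Q ∧ F2 x ∈ Q := by
    intro c hc x hx
    have h1 := hT c hc x hx (Q.comap Ψ) (by
      intro t ht X hX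
      show Ψ _ ∈ Q
      rw [hΨ, hF1, hF2]
      exact h t ht X hX)
    have h2 : Ψ (x, 0) ∈ Q := h1.1
    have h3 : Ψ (0, x) ∈ Q := h1.2
    rw [hΨ, map_zero, add_zero] at h2
    rw [hΨ, map_zero, zero_add] at h3
    exact ⟨h2, h3⟩
  let Λ : Set K := (S ∪ {0})ᶜ
  have hΛ : Λ.Infinite := (hS.union (Set.finite_singleton 0)).infinite_compl
  have hΛ0 : (0 : K) ∉ Λ := fun h => h (Or.inr rfl)
  have k1 := span_exact hΛ hΛ0 hA hB hA1 hB2 hn1 hn2 hl1 hl2 gen1 gen2 q1 Q
    (fun c hc x hx => by rw [← hF1]; exact (key c (fun h => hc (Or.inl h)) x hx).1)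
  have k2 := span_exact hΛ hΛ0 hA hB hA1 hB2 hn1 hn2 hl1 hl2 gen1 gen2 q2 Q
    (fun c hc x hx => by rw [← hF2]; exact (key c (fun h => hc (Or.inl h)) x hx).2)
  exact ⟨fun s i j hij p2 p1 => ⟨k1.1 s i j hij p2 p1, k2.1 s i j hij p2 p1⟩,
    fun t r hr p1 => ⟨k1.2.1 t r hr p1, k2.2.1 t r hr p1⟩,
    fun t r hr p2 => ⟨k1.2.2 t r hr p2, k2.2.2 t r hr p2⟩⟩

end exactD

end Crest.Agent.R172.Dual
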