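import Crest.Agent.R172.TG2

/-!
Row 172, TAME (T0), arbitrary radical: the END in `P`-language (no projection `e`, no `M ≤ P`).

* `QP J N W F P`: `Y` with `Y - w ∈ N`, `w ∈ W`, `wᵀ J p = Fᵀ J z(p)` for `p ∈ P`, `z` self-adjoint on `P`
  (for the derivation steps `z p ∈ μ_i p + R`).
* `end_zero`: `X F ∈ QP`, `X` skew on `P × P`, `P ≤ im F` ⟹ `X` vanishes on `P × P`.
* `tame_falseP`: the contradiction with `Core.Tame`.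
-/

set_option autoImplicit false
set_option linter.unusedSectionVars false

namespace Crest.Agent.R172.EndP

open Matrix Module Crest.Agent.R172.FO Crest.Agent.R172.Core

variable {ι : Type*} [Fintype ι] [DecidableEq ι] {δ : Type*} [Fintype δ] [DecidableEq δ]
variable {k K : Type*} [Field k] [Field K] [Algebra k K]
variable {arm : δ → Fin 3} {J : Matrix ι ι K} {B : Matrix δ δ K}
  {N W : Submodule K (Matrix ι δ K)} {F : Matrix ι δ K} {P : Submodule K (ι → K)}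

/-- the correction space in `P`-language -/
def QP (J : Matrix ι ι K) (N W : Submodule K (Matrix ι δ K)) (F : Matrix ι δ K)
    (P : Submodule K (ι → K)) : Submodule K (Matrix ι δ K) where
  carrier := {Y | ∃ (w : Matrix ι δ K) (z : P →ₗ[K] (ι → K)), w ∈ W ∧ Y - w ∈ N ∧
    (∀ p p' : P, (p' : ι → K) ⬝ᵥ (J *ᵥ z p) = (p : ι → K) ⬝ᵥ (J *ᵥ z p')) ∧
    ∀ p : P, (wᵀ * J) *ᵥ (p : ι → K) = (Fᵀ * J) *ᵥ z p}
  add_mem' := by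
    rintro Y Y' ⟨w, z, h1, h2, h3, h4⟩ ⟨w', z', h1', h2', h3', h4'⟩
    refine ⟨w + w', z + z', W.add_mem h1 h1', ?_, ?_, ?_⟩
    · have : Y + Y' - (w + w') = (Y - w) + (Y' - w') := by abel
      rw [this]; exact N.add_mem h2 h2'
    · intro p p'
      rw [LinearMap.add_apply, LinearMap.add_apply, mulVec_add, mulVec_add, dotProduct_add,
        dotProduct_add, h3, h3']
    · intro p
      rw [LinearMap.add_apply, mulVec_add, transpose_add, Matrix.add_mul, add_mulVec, h4, h4']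
  zero_mem' := ⟨0, 0, W.zero_mem, by simp, by simp, by simp⟩
  smul_mem' := by
    rintro c Y ⟨w, z, h1, h2, h3, h4⟩
    refine ⟨c • w, c • z, W.smul_mem c h1, ?_, ?_, ?_⟩
    · rw [← smul_sub]; exact N.smul_mem c h2
    · intro p p'
      rw [LinearMap.smul_apply, LinearMap.smul_apply, mulVec_smul, mulVec_smul, dotProduct_smul,
        dotProduct_smul, h3]
    · intro p
      rw [LinearMap.smul_apply, mulVec_smul, transpose_smul, Matrix.smul_mul, smul_mulVec, h4]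

theorem mem_QP {Y : Matrix ι δ K} : Y ∈ QP J N W F P ↔
    ∃ (w : Matrix ι δ K) (z : P →ₗ[K] (ι → K)), w ∈ W ∧ Y - w ∈ N ∧
      (∀ p p' : P, (p' : ι → K) ⬝ᵥ (J *ᵥ z p) = (p : ι → K) ⬝ᵥ (J *ᵥ z p')) ∧
      ∀ p : P, (wᵀ * J) *ᵥ (p : ι → K) = (Fᵀ * J) *ᵥ z p := Iff.rfl

theorem N_le_QP {Y : Matrix ι δ K} (h : Y ∈ N) : Y ∈ QP J N W F P :=
  ⟨0, 0, W.zero_mem, by simpa using h, by simp, by simp⟩

theorem dot_J_symm (hJ : Jᵀ = J) (v w : ι → K) : v ⬝ᵥ (J *ᵥ w) = w ⬝ᵥ (J *ᵥ v) := by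
  rw [dotProduct_mulVec, ← mulVec_transpose, hJ, dotProduct_comm]

theorem adjv (J : Matrix ι ι K) (A : Matrix ι δ K) (a : δ → K) (v : ι → K) :
    a ⬝ᵥ ((Aᵀ * J) *ᵥ v) = (A *ᵥ a) ⬝ᵥ (J *ᵥ v) := by
  rw [← mulVec_mulVec, dotProduct_mulVec, vecMul_transpose]

/-- if `X F ∈ QP` then `X` is self-adjoint on `P` -/
theorem symm_of_QP (hD : Data k arm J B N W) (hF : F ∈ N ⊓ W)
    (hP : ∀ p ∈ P, ∃ u, F *ᵥ u = p) {X : Matrix ι ι K} (hX : X * F ∈ QP J N W F P)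
    {p p' : ι → K} (hp : p ∈ P) (hp' : p' ∈ P) :
    p ⬝ᵥ (J *ᵥ (X *ᵥ p')) = p' ⬝ᵥ (J *ᵥ (X *ᵥ p)) := by
  obtain ⟨w, z, h1, h2, h3, h4⟩ := hX
  have hK : X * F - w ∈ N ⊓ W := ⟨h2, W.sub_mem (hD.W_left _ hF.2 X) h1⟩
  have hs := hD.symm_U hF hK
  obtain ⟨u, rfl⟩ := hP p hp
  obtain ⟨u', rfl⟩ := hP p' hp'
  have hw : ∀ a b : δ → K, ∀ hb : F *ᵥ b ∈ P,
      (F *ᵥ b) ⬝ᵥ (J *ᵥ (w *ᵥ a)) = (F *ᵥ a) ⬝ᵥ (J *ᵥ z ⟨F *ᵥ b, hb⟩) := by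
    intro a b hb
    have h5 := h4 ⟨F *ᵥ b, hb⟩
    have h6 : a ⬝ᵥ ((wᵀ * J) *ᵥ (F *ᵥ b)) = a ⬝ᵥ ((Fᵀ * J) *ᵥ z ⟨F *ᵥ b, hb⟩) := by rw [h5]
    rw [adjv, adjv] at h6
    rw [dot_J_symm hD.J_symm, h6]
  have hsym : (F *ᵥ u) ⬝ᵥ (J *ᵥ ((X * F - w) *ᵥ u')) = (F *ᵥ u') ⬝ᵥ (J *ᵥ ((X * F - w) *ᵥ u)) := by
    have h5 : u ⬝ᵥ ((Fᵀ * J * (X * F - w)) *ᵥ u') = u ⬝ᵥ (((X * F - w)ᵀ * J * F) *ᵥ u') := by
      rw [hs]
    rw [← mulVec_mulVec u' (Fᵀ * J), ← mulVec_mulVec u' ((X * F - w)ᵀ * J), adjv, adjv] at h5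
    rw [h5, dot_J_symm hD.J_symm]
  have e1 : (F *ᵥ u) ⬝ᵥ (J *ᵥ (X *ᵥ (F *ᵥ u'))) = (F *ᵥ u) ⬝ᵥ (J *ᵥ ((X * F - w) *ᵥ u'))
      + (F *ᵥ u) ⬝ᵥ (J *ᵥ (w *ᵥ u')) := by
    rw [sub_mulVec, mulVec_sub, dotProduct_sub, ← mulVec_mulVec]; ring
  have e2 : (F *ᵥ u') ⬝ᵥ (J *ᵥ (X *ᵥ (F *ᵥ u))) = (F *ᵥ u') ⬝ᵥ (J *ᵥ ((X * F - w) *ᵥ u))
      + (F *ᵥ u') ⬝ᵥ (J *ᵥ (w *ᵥ u)) := by
    rw [sub_mulVec, mulVec_sub, dotProduct_sub, ← mulVec_mulVec]; ring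
  rw [e1, e2, hsym, hw u' u hp, hw u u' hp', h3 ⟨F *ᵥ u, hp⟩ ⟨F *ᵥ u', hp'⟩]

/-- a matrix skew on `P` with `X F ∈ QP` vanishes on `P` -/
theorem end_zero (hD : Data k arm J B N W) (h2 : (2 : K) ≠ 0) (hF : F ∈ N ⊓ W)
    (hP : ∀ p ∈ P, ∃ u, F *ᵥ u = p) {X : Matrix ι ι K} (hX : X * F ∈ QP J N W F P)
    (hsk : ∀ p ∈ P, ∀ p' ∈ P, p ⬝ᵥ (J *ᵥ (X *ᵥ p')) = - (p' ⬝ᵥ (J *ᵥ (X *ᵥ p))))
    {p p' : ι → K} (hp : p ∈ P) (hp' : p' ∈ P) : p ⬝ᵥ (J *ᵥ (X *ᵥ p')) = 0 := by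
  have h3 := symm_of_QP hD hF hP hX hp hp'
  have h4 := hsk p hp p' hp'
  have h5 : (2 : K) * (p ⬝ᵥ (J *ᵥ (X *ᵥ p'))) = 0 := by
    rw [two_mul]
    nth_rewrite 1 [h4]
    rw [h3]; ring
  exact (mul_eq_zero.1 h5).resolve_left h2

/-- **END of (T0), arbitrary radical, `P`-language.** -/
theorem tame_falseP [CharZero K] (hD : Data k arm J B N W) (hF : F ∈ N ⊓ W)
    (hP : ∀ p ∈ P, ∃ u, F *ᵥ u = p)
    {M : Type*} [AddCommGroup M] [Module K M] [FiniteDimensional K M]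
    {β : LinearMap.BilinForm K M} (hβ : NS β) (π : (ι → K) →ₗ[K] M)
    (hπ : ∀ m, ∃ p ∈ P, π p = m)
    (Ψ : Fin 3 → Module.End K M) (hΨ : ∀ s v w, β (Ψ s v) w = β v (Ψ s w))
    {D : Module.End K M} (hDΦ : ∀ s v, D (Ψ s v) = Ψ s (D v))
    (hDs : ⨆ ν, D.maxGenEigenspace ν = ⊤) (hT : Tame Ψ D)
    (hext : ∀ A : Module.End K M,
      (∀ (s : Fin 3) (j : ℕ), ∀ x ∈ LinearMap.range (Ψ s ^ j), A x ∈ LinearMap.range (Ψ s ^ j)) →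
      (∀ v w, β (A v) w = - β v (A w)) →
      ∃ X : Matrix ι ι K, X * F ∈ QP J N W F P ∧
        ∀ p ∈ P, ∀ p' ∈ P, p ⬝ᵥ (J *ᵥ (X *ᵥ p')) = β (π p) (A (π p'))) : False := by
  obtain ⟨A, hA0, hAs, hAr⟩ := TC.exists_skew_of_tame' hβ Ψ hΨ hDΦ hDs hT
  obtain ⟨X, h1, h2⟩ := hext A hAr hAs
  apply hA0
  apply LinearMap.ext
  intro v
  rw [LinearMap.zero_apply]
  apply hβ.nd
  intro w
  obtain ⟨p, hp, rfl⟩ := hπ v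
  obtain ⟨p', hp', rfl⟩ := hπ w
  rw [hβ.symm, ← h2 p' hp' p hp]
  refine end_zero hD two_ne_zero hF hP h1 ?_ hp' hp
  intro a ha b hb
  rw [h2 a ha b hb, h2 b hb a ha, hβ.symm, hAs]

end Crest.Agent.R172.EndP
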