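import Crest.Agent.R172.EndR
import Crest.Agent.R172.EndP

/-!
Row 172, TAME (T0), arbitrary radical: the END with the weakest correction space.

* `Sy J W F P`: `w ∈ W` with `(F u, w u') = (F u', w u)` whenever `F u, F u' ∈ P`.
* `QS = N ⊔ Sy`.
* `sy_of_blocks`: `zᵀ J p = μ_m Fᵀ J p + Fᵀ J ρ` on the blocks implies `z ∈ Sy`.
* `tame_false_S`: single-arm memberships in `QS` contradict `Core.Tame`.
-/

set_option autoImplicit false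
set_option linter.unusedSectionVars false

namespace Crest.Agent.R172.EndP

open Matrix Module Crest.Agent.R172.FO Crest.Agent.R172.Core Crest.Agent.R172.TG
open Crest.Agent.R172.EndR (T PP T_mem_PP T_mulVec hext_of)

variable {ι : Type*} [Fintype ι] [DecidableEq ι] {δ : Type*} [Fintype δ] [DecidableEq δ]
variable {k K : Type*} [Field k] [Field K] [Algebra k K]
variable {arm : δ → Fin 3} {J : Matrix ι ι K} {B : Matrix δ δ K}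
  {N W : Submodule K (Matrix ι δ K)} {F : Matrix ι δ K} {P : Submodule K (ι → K)}
  {e : Matrix ι ι K} {M : Submodule K (ι → K)}

/-- corrections symmetric on `F⁻¹(P)` -/
def Sy (J : Matrix ι ι K) (W : Submodule K (Matrix ι δ K)) (F : Matrix ι δ K)
    (P : Submodule K (ι → K)) : Submodule K (Matrix ι δ K) where
  carrier := {w | w ∈ W ∧ ∀ u u' : δ → K, F *ᵥ u ∈ P → F *ᵥ u' ∈ P →
    (F *ᵥ u) ⬝ᵥ (J *ᵥ (w *ᵥ u')) = (F *ᵥ u') ⬝ᵥ (J *ᵥ (w *ᵥ u))}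
  add_mem' := by
    rintro w w' ⟨h1, h2⟩ ⟨h1', h2'⟩
    refine ⟨W.add_mem h1 h1', fun u u' hu hu' => ?_⟩
    rw [add_mulVec, add_mulVec, mulVec_add, mulVec_add, dotProduct_add, dotProduct_add,
      h2 u u' hu hu', h2' u u' hu hu']
  zero_mem' := ⟨W.zero_mem, fun u u' _ _ => by simp⟩
  smul_mem' := by
    rintro c w ⟨h1, h2⟩
    refine ⟨W.smul_mem c h1, fun u u' hu hu' => ?_⟩
    rw [smul_mulVec, smul_mulVec, mulVec_smul, mulVec_smul, dotProduct_smul, dotProduct_smul,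
      h2 u u' hu hu']

/-- the correction space of the END -/
def QS (J : Matrix ι ι K) (N W : Submodule K (Matrix ι δ K)) (F : Matrix ι δ K)
    (P : Submodule K (ι → K)) : Submodule K (Matrix ι δ K) := N ⊔ Sy J W F P

theorem symm_of_QS (hD : Data k arm J B N W) (hF : F ∈ N ⊓ W) {X : Matrix ι ι K}
    (hX : X * F ∈ QS J N W F P) {u u' : δ → K} (hu : F *ᵥ u ∈ P) (hu' : F *ᵥ u' ∈ P) :
    (F *ᵥ u) ⬝ᵥ (J *ᵥ (X *ᵥ (F *ᵥ u'))) = (F *ᵥ u') ⬝ᵥ (J *ᵥ (X *ᵥ (F *ᵥ u))) := by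
  obtain ⟨ν, hν, w, ⟨hw, hw2⟩, hνw⟩ := Submodule.mem_sup.1 hX
  have hν2 : ν = X * F - w := by rw [← hνw]; abel
  have hK : X * F - w ∈ N ⊓ W := ⟨hν2 ▸ hν, W.sub_mem (hD.W_left _ hF.2 X) hw⟩
  have hs := hD.symm_U hF hK
  have hsym : (F *ᵥ u) ⬝ᵥ (J *ᵥ ((X * F - w) *ᵥ u')) =
      (F *ᵥ u') ⬝ᵥ (J *ᵥ ((X * F - w) *ᵥ u)) := by
    have h5 : u ⬝ᵥ ((Fᵀ * J * (X * F - w)) *ᵥ u') = u ⬝ᵥ (((X * F - w)ᵀ * J * F) *ᵥ u') := by
      rw [hs]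
    rw [← mulVec_mulVec u' (Fᵀ * J), ← mulVec_mulVec u' ((X * F - w)ᵀ * J), adjv, adjv] at h5
    rw [h5, dot_J_symm hD.J_symm]
  have e1 : ∀ a b : δ → K, (F *ᵥ a) ⬝ᵥ (J *ᵥ (X *ᵥ (F *ᵥ b))) =
      (F *ᵥ a) ⬝ᵥ (J *ᵥ ((X * F - w) *ᵥ b)) + (F *ᵥ a) ⬝ᵥ (J *ᵥ (w *ᵥ b)) := by
    intro a b
    rw [sub_mulVec, mulVec_sub, dotProduct_sub, ← mulVec_mulVec]; ring
  rw [e1, e1, hsym, hw2 u u' hu hu']

/-- block corrections are symmetric -/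
theorem sy_of_blocks {n : Type*} [Fintype n] (hJ : Jᵀ = J) {P : n → Submodule K (ι → K)}
    {R : Submodule K (ι → K)}
    (orth : ∀ i j, i ≠ j → ∀ p ∈ P i, ∀ q ∈ P j, p ⬝ᵥ (J *ᵥ q) = 0)
    (rad : ∀ ρ ∈ R, ∀ i, ∀ p ∈ P i, ρ ⬝ᵥ (J *ᵥ p) = 0) {z : Matrix ι δ K} (hz : z ∈ W)
    {μ : n → K} (h : ∀ m, ∀ p ∈ P m, ∃ ρ ∈ R,
      (zᵀ * J) *ᵥ p = μ m • ((Fᵀ * J) *ᵥ p) + (Fᵀ * J) *ᵥ ρ) :
    z ∈ Sy J W F (⨆ i, P i) := by
  refine ⟨hz, ?_⟩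
  have key : ∀ u u' : δ → K, ∀ f f' : n → ι → K, (∀ i, f i ∈ P i) → (∀ i, f' i ∈ P i) →
      F *ᵥ u = ∑ i, f i → F *ᵥ u' = ∑ i, f' i →
      (F *ᵥ u) ⬝ᵥ (J *ᵥ (z *ᵥ u')) = ∑ m, μ m * (f m ⬝ᵥ (J *ᵥ f' m)) := by
    intro u u' f f' hf hf' hu hu'
    have h1 : (F *ᵥ u) ⬝ᵥ (J *ᵥ (z *ᵥ u')) = u' ⬝ᵥ ((zᵀ * J) *ᵥ (F *ᵥ u)) := by
      rw [adjv, dot_J_symm hJ]
    rw [h1, hu, mulVec_sum, dotProduct_sum]
    refine Finset.sum_congr rfl fun m _ => ?_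
    obtain ⟨ρ, hρ, h2⟩ := h m (f m) (hf m)
    rw [h2, dotProduct_add, dotProduct_smul, adjv, adjv, smul_eq_mul, hu']
    have h3 : (∑ i, f' i) ⬝ᵥ (J *ᵥ ρ) = 0 := by
      rw [sum_dotProduct]
      refine Finset.sum_eq_zero fun i _ => ?_
      rw [dot_J_symm hJ]
      exact rad ρ hρ i _ (hf' i)
    have h4 : (∑ i, f' i) ⬝ᵥ (J *ᵥ f m) = f m ⬝ᵥ (J *ᵥ f' m) := by
      rw [sum_dotProduct, Finset.sum_eq_single m]
      · rw [dot_J_symm hJ]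
      · intro i _ hi
        exact orth i m hi _ (hf' i) _ (hf m)
      · intro hm; exact absurd (Finset.mem_univ m) hm
    rw [h3, add_zero, h4]
  intro u u' hu hu'
  obtain ⟨f, hf, hfu⟩ := EndR.exists_sum_of_mem hu
  obtain ⟨f', hf', hfu'⟩ := EndR.exists_sum_of_mem hu'
  rw [key u u' f f' hf hf' hfu hfu', key u' u f' f hf' hf hfu' hfu]
  refine Finset.sum_congr rfl fun m _ => ?_
  rw [dot_J_symm hJ]

/-- `y` with `y F E_s ∈ Q` and `y ∈ P ⊗ P` -/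
def Qp (arm : δ → Fin 3) (J : Matrix ι ι K) (F : Matrix ι δ K)
    (Q : Submodule K (Matrix ι δ K)) (P : Submodule K (ι → K)) (s : Fin 3) :
    Submodule K (Matrix ι ι K) where
  carrier := {y | y ∈ PP J P ∧ y * F * E K arm s ∈ Q}
  add_mem' := by
    rintro a b ⟨ha, ha'⟩ ⟨hb, hb'⟩
    refine ⟨Submodule.add_mem _ ha hb, ?_⟩
    rw [Matrix.add_mul, Matrix.add_mul]
    exact Submodule.add_mem _ ha' hb'
  zero_mem' := by
    refine ⟨Submodule.zero_mem _, ?_⟩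
    rw [Matrix.zero_mul, Matrix.zero_mul]
    exact Submodule.zero_mem _
  smul_mem' := by
    rintro c a ⟨ha, ha'⟩
    refine ⟨Submodule.smul_mem _ _ ha, ?_⟩
    rw [Matrix.smul_mul, Matrix.smul_mul]
    exact Submodule.smul_mem _ _ ha'

/-- a matrix of `P ⊗ P` only sees the core -/
theorem PP_core (hJ : Jᵀ = J)
    (hPe : ∀ p ∈ P, ∀ q ∈ P, (e *ᵥ p) ⬝ᵥ (J *ᵥ q) = p ⬝ᵥ (J *ᵥ q)) {A : Matrix ι ι K}
    (hA : A ∈ PP J P) {p q : ι → K} (hp : p ∈ P) (hq : q ∈ P) :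
    (e *ᵥ p) ⬝ᵥ (J *ᵥ (A *ᵥ (e *ᵥ q))) = p ⬝ᵥ (J *ᵥ (A *ᵥ q)) := by
  unfold PP at hA
  induction hA using Submodule.span_induction with
  | mem y hy =>
    obtain ⟨p1, hp1, q1, hq1, rfl⟩ := hy
    rw [T_mulVec hJ, T_mulVec hJ, mulVec_smul, mulVec_smul, dotProduct_smul, dotProduct_smul,
      hPe p hp p1 hp1, dot_J_symm hJ q1 (e *ᵥ q), hPe q hq q1 hq1, dot_J_symm hJ q q1]
  | zero => simp
  | add a b _ _ ha hb =>
    rw [add_mulVec, add_mulVec, mulVec_add, mulVec_add, dotProduct_add, dotProduct_add, ha, hb]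
  | smul c a _ ha =>
    rw [smul_mulVec, smul_mulVec, mulVec_smul, mulVec_smul, dotProduct_smul, dotProduct_smul, ha]

/-- **END of (T0), arbitrary radical**, weakest correction space. -/
theorem tame_false_S [CharZero K] (hD : Data k arm J B N W) (hF : F ∈ N ⊓ W)
    (hPF : ∀ p ∈ P, ∃ u, F *ᵥ u = p) (he : e * e = e) (heJ : eᵀ * J = J * e)
    (hM : ∀ v, v ∈ M ↔ ∃ w, v = e *ᵥ w) (ΦM : Fin 3 → Module.End K M)
    (hΦM : ∀ s v, ((ΦM s v : M) : ι → K) = e *ᵥ (Phi arm J B F s *ᵥ (v : ι → K)))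
    {D : Module.End K M} (hDΦ : ∀ s v, D (ΦM s v) = ΦM s (D v))
    (hDs : ⨆ ν, D.maxGenEigenspace ν = ⊤) (hT : Tame ΦM D)
    (hPM : ∀ m ∈ M, ∃ p ∈ P, e *ᵥ p = m)
    (hPe : ∀ p ∈ P, ∀ q ∈ P, (e *ᵥ p) ⬝ᵥ (J *ᵥ q) = p ⬝ᵥ (J *ᵥ q))
    (hΦP : ∀ s, ∀ p ∈ P, Phi arm J B F s *ᵥ p ∈ P)
    (hker : ∀ s, ∀ p ∈ P,
      e *ᵥ (Phi arm J B F s *ᵥ p) = e *ᵥ (Phi arm J B F s *ᵥ (e *ᵥ p)))
    {l : Fin 3 → ℕ} (hl : ∀ s, ΦM s ^ l s = 0)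
    (hf : ∀ s, l s * finrank K (LinearMap.ker (ΦM s)) = finrank K M)
    (ha : ∀ s i j, i + j + 1 = l s → ∀ p ∈ P, ∀ q ∈ P,
      T J ((Phi arm J B F s ^ i) *ᵥ p) ((Phi arm J B F s ^ j) *ᵥ q) * F * E K arm s ∈
        QS J N W F P)
    (hb1 : ∀ s, ∀ r ∈ P, e *ᵥ r = 0 → ∀ p ∈ P, T J r p * F * E K arm s ∈ QS J N W F P)
    (hb2 : ∀ s, ∀ r ∈ P, e *ᵥ r = 0 → ∀ p ∈ P, T J p r * F * E K arm s ∈ QS J N W F P) :
    False := by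
  have hpow : ∀ s (i : ℕ), ∀ p ∈ P, (Phi arm J B F s ^ i) *ᵥ p ∈ P := by
    intro s i
    induction i with
    | zero => intro p hp; simpa using hp
    | succ i ih =>
      intro p hp
      rw [pow_succ, ← mulVec_mulVec]
      exact ih _ (hΦP s p hp)
  have hNS := frm_NS hD.J_symm hD.J_unit he heJ hM
  obtain ⟨A, hA0, hAs, hAr⟩ :=
    TC.exists_skew_of_tame' hNS ΦM (core_sa hD he heJ hM hΦM) hDΦ hDs hT
  obtain ⟨A', h1, h2⟩ := hext_of (Q := Qp arm J F (QS J N W F P) P) hD.J_symm hD.J_unit he heJ hM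
    hPM hΦP hker hΦM (core_sa hD he heJ hM hΦM) hl hf
    (fun s i j hij p hp q hq => ⟨T_mem_PP (hpow s i p hp) (hpow s j q hq), ha s i j hij p hp q hq⟩)
    (fun s r hr hr0 p hp => ⟨T_mem_PP hr hp, hb1 s r hr hr0 p hp⟩)
    (fun s r hr hr0 p hp => ⟨T_mem_PP hp hr, hb2 s r hr hr0 p hp⟩) hAr
  have hA'F : A' * F ∈ QS J N W F P := sum_arm fun s => (h2 s).2
  apply hA0
  apply LinearMap.ext
  intro v
  rw [LinearMap.zero_apply]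
  apply hNS.nd
  intro w
  have hval : ∀ v w : M, frm J M (A v) w = (w : ι → K) ⬝ᵥ (J *ᵥ (A' *ᵥ (v : ι → K))) := by
    intro v w
    rw [hNS.symm, frm_apply]
    have e1 : ((A v : M) : ι → K) = (e * A' * e) *ᵥ (v : ι → K) := by
      rw [h1, hat_mulVec, prM_fix he]
    rw [e1, ← mulVec_mulVec, ← mulVec_mulVec, fix_of_mem he hM v, ← adj heJ, fix_of_mem he hM w]
  obtain ⟨p, hp, hpv⟩ := hPM v v.2
  obtain ⟨q, hq, hqw⟩ := hPM w w.2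
  have hsymm : frm J M (A v) w = frm J M (A w) v := by
    rw [hval, hval, ← hpv, ← hqw, PP_core hD.J_symm hPe (h2 0).1 hq hp,
      PP_core hD.J_symm hPe (h2 0).1 hp hq]
    obtain ⟨u, rfl⟩ := hPF p hp
    obtain ⟨u', rfl⟩ := hPF q hq
    exact symm_of_QS hD hF hA'F hq hp
  have hskew : frm J M (A v) w = - frm J M (A w) v := by
    rw [hAs, hNS.symm]
  rw [hsymm] at hskew ⊢
  have h5 : (2 : K) * frm J M (A w) v = 0 := by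
    rw [two_mul]
    nth_rewrite 1 [hskew]
    ring
  exact (mul_eq_zero.1 h5).resolve_left two_ne_zero

end Crest.Agent.R172.EndP
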