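import Crest.Agent.R172.EndP2

/-!
Row 172, TAME (T0), arbitrary radical, arbitrary `D`: the END with the corrections `z` in a parameter
space `ZZ` of operators of the core (note 15796, (Z3)).

* `Sz J W F P ZZ`: `w ∈ W` with `(F u, w u') = (e F u, z (e F u'))` for all `u, u'` with `F u, F u' ∈ P`,
  for some `z ∈ ZZ`.
* `tame_false_Z`: single-arm memberships in `N ⊔ Sz` contradict `Core.Tame`, if (Z3) holds.
-/

set_option autoImplicit false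
set_option linter.unusedSectionVars false

namespace Crest.Agent.R172.EndZ47

open Matrix Module Crest.Agent.R172.FO Crest.Agent.R172.Core Crest.Agent.R172.TG
open Crest.Agent.R172.EndR (T PP T_mem_PP T_mulVec hext_of)
open Crest.Agent.R172.EndP

variable {ι : Type*} [Fintype ι] [DecidableEq ι] {δ : Type*} [Fintype δ] [DecidableEq δ]
variable {k K : Type*} [Field k] [Field K] [Algebra k K]
variable {arm : δ → Fin 3} {J : Matrix ι ι K} {B : Matrix δ δ K}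
  {N W : Submodule K (Matrix ι δ K)} {F : Matrix ι δ K} {P : Submodule K (ι → K)}
  {e : Matrix ι ι K} {M : Submodule K (ι → K)}

/-- corrections with core part in `ZZ` -/
def Sz (J : Matrix ι ι K) (W : Submodule K (Matrix ι δ K)) (F : Matrix ι δ K)
    (P : Submodule K (ι → K)) (hM : ∀ v, v ∈ M ↔ ∃ w, v = e *ᵥ w)
    (ZZ : Submodule K (Module.End K M)) : Submodule K (Matrix ι δ K) where
  carrier := {w | w ∈ W ∧ ∃ z ∈ ZZ, ∀ u u' : δ → K, F *ᵥ u ∈ P → F *ᵥ u' ∈ P →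
    (F *ᵥ u) ⬝ᵥ (J *ᵥ (w *ᵥ u')) =
      frm J M (prM e hM (F *ᵥ u)) (z (prM e hM (F *ᵥ u')))}
  add_mem' := by
    rintro w w' ⟨h1, z, hz, h2⟩ ⟨h1', z', hz', h2'⟩
    refine ⟨W.add_mem h1 h1', z + z', ZZ.add_mem hz hz', fun u u' hu hu' => ?_⟩
    rw [add_mulVec, mulVec_add, dotProduct_add, h2 u u' hu hu', h2' u u' hu hu',
      LinearMap.add_apply, map_add]
  zero_mem' := ⟨W.zero_mem, 0, ZZ.zero_mem, fun u u' _ _ => by simp⟩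
  smul_mem' := by
    rintro c w ⟨h1, z, hz, h2⟩
    refine ⟨W.smul_mem c h1, c • z, ZZ.smul_mem c hz, fun u u' hu hu' => ?_⟩
    rw [smul_mulVec, mulVec_smul, dotProduct_smul, h2 u u' hu hu', LinearMap.smul_apply, map_smul]

/-- the core operator of `κ = A' F - w ∈ N ⊓ W` is self-adjoint and commutes with `Φ_M` -/
theorem core_op (hD : Data k arm J B N W) (hF : F ∈ N ⊓ W)
    (hPF : ∀ p ∈ P, ∃ u, F *ᵥ u = p) (he : e * e = e) (heJ : eᵀ * J = J * e)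
    (hM : ∀ v, v ∈ M ↔ ∃ w, v = e *ᵥ w) (ΦM : Fin 3 → Module.End K M)
    (hΦM : ∀ s v, ((ΦM s v : M) : ι → K) = e *ᵥ (Phi arm J B F s *ᵥ (v : ι → K)))
    (hPM : ∀ m ∈ M, ∃ p ∈ P, e *ᵥ p = m)
    (hΦP : ∀ s, ∀ p ∈ P, Phi arm J B F s *ᵥ p ∈ P)
    (hker : ∀ s, ∀ p ∈ P,
      e *ᵥ (Phi arm J B F s *ᵥ p) = e *ᵥ (Phi arm J B F s *ᵥ (e *ᵥ p)))
    {κ : Matrix ι δ K} (hκ : κ ∈ N ⊓ W) {Y : Module.End K M}
    (hY : ∀ u u' : δ → K, F *ᵥ u ∈ P → F *ᵥ u' ∈ P →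
      (F *ᵥ u) ⬝ᵥ (J *ᵥ (κ *ᵥ u')) = frm J M (prM e hM (F *ᵥ u)) (Y (prM e hM (F *ᵥ u')))) :
    (∀ v w, frm J M (Y v) w = frm J M v (Y w)) ∧ ∀ s v, Y (ΦM s v) = ΦM s (Y v) := by
  have hNS := frm_NS hD.J_symm hD.J_unit he heJ hM
  have hsa := core_sa hD he heJ hM hΦM
  -- representatives
  have hrep : ∀ m : M, ∃ u : δ → K, F *ᵥ u ∈ P ∧ prM e hM (F *ᵥ u) = m := by
    intro m
    obtain ⟨p, hp, hpm⟩ := hPM m m.2
    obtain ⟨u, rfl⟩ := hPF p hp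
    exact ⟨u, hp, Subtype.ext (by rw [prM_coe, hpm])⟩
  have hs := hD.symm_U hF hκ
  have hsymU : ∀ u u' : δ → K, (F *ᵥ u) ⬝ᵥ (J *ᵥ (κ *ᵥ u')) = (F *ᵥ u') ⬝ᵥ (J *ᵥ (κ *ᵥ u)) := by
    intro u u'
    have h5 : u ⬝ᵥ ((Fᵀ * J * κ) *ᵥ u') = u ⬝ᵥ ((κᵀ * J * F) *ᵥ u') := by rw [hs]
    rw [← mulVec_mulVec u' (Fᵀ * J), ← mulVec_mulVec u' (κᵀ * J), adjv, adjv] at h5
    rw [h5, dot_J_symm hD.J_symm]
  have hYsa : ∀ v w, frm J M (Y v) w = frm J M v (Y w) := by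
    intro v w
    obtain ⟨u, hu, rfl⟩ := hrep v
    obtain ⟨u', hu', rfl⟩ := hrep w
    rw [hNS.symm, ← hY u' u hu' hu, ← hY u u' hu hu', hsymU]
  refine ⟨hYsa, ?_⟩
  -- `Φ_s` on representatives
  have hstep : ∀ (s : Fin 3) (u : δ → K), F *ᵥ u ∈ P →
      F *ᵥ ((E K arm s * B * Fᵀ * J) *ᵥ (F *ᵥ u)) ∈ P ∧
      prM e hM (F *ᵥ ((E K arm s * B * Fᵀ * J) *ᵥ (F *ᵥ u))) = ΦM s (prM e hM (F *ᵥ u)) := by
    intro s u hu
    have e1 : F *ᵥ ((E K arm s * B * Fᵀ * J) *ᵥ (F *ᵥ u)) = Phi arm J B F s *ᵥ (F *ᵥ u) := by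
      rw [mulVec_mulVec]
      unfold Phi FO.M
      simp only [Matrix.mul_assoc]
    refine ⟨e1 ▸ hΦP s _ hu, ?_⟩
    rw [e1]
    apply Subtype.ext
    rw [prM_coe, hΦM, prM_coe, hker s _ hu]
  have hcr : ∀ (s : Fin 3) (u u' : δ → K),
      (F *ᵥ u) ⬝ᵥ (J *ᵥ (κ *ᵥ ((E K arm s * B * Fᵀ * J) *ᵥ (F *ᵥ u')))) =
      (F *ᵥ u') ⬝ᵥ (J *ᵥ (κ *ᵥ ((E K arm s * B * Fᵀ * J) *ᵥ (F *ᵥ u)))) := by
    intro s u u'
    have h1 : κ * E K arm s * B * Fᵀ = F * E K arm s * B * κᵀ := by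
      have := hD.symm_arm hκ hF s
      unfold FO.M at this
      exact this
    have hEB : E K arm s * B = B * E K arm s := hD.B_arm s
    have e1 : (J * (κ * (E K arm s * B * Fᵀ * J)))ᵀ = J * (κ * (E K arm s * B * Fᵀ * J)) := by
      have e2 : J * (κ * (E K arm s * B * Fᵀ * J)) = J * (F * E K arm s * B * κᵀ) * J := by
        rw [← h1]
        simp only [Matrix.mul_assoc]
      have e3 : J * (κ * (E K arm s * B * Fᵀ * J)) = J * (κ * (B * E K arm s) * Fᵀ) * J := by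
        rw [← hEB]
        simp only [Matrix.mul_assoc]
      nth_rewrite 1 [e2]
      rw [e3]
      simp only [transpose_mul, transpose_transpose, hD.J_symm, hD.B_symm, E_transpose]
      simp only [Matrix.mul_assoc]
    have key : ∀ v v' : ι → K, v ⬝ᵥ ((J * (κ * (E K arm s * B * Fᵀ * J))) *ᵥ v') =
        v' ⬝ᵥ ((J * (κ * (E K arm s * B * Fᵀ * J))) *ᵥ v) := by
      intro v v'
      rw [dotProduct_mulVec, ← mulVec_transpose, e1, dotProduct_comm]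
    have e4 : ∀ v : ι → K, J *ᵥ (κ *ᵥ ((E K arm s * B * Fᵀ * J) *ᵥ v)) =
        (J * (κ * (E K arm s * B * Fᵀ * J))) *ᵥ v := by
      intro v
      rw [mulVec_mulVec, mulVec_mulVec, Matrix.mul_assoc]
    rw [e4, e4, key]
  intro s v
  apply sub_eq_zero.1
  apply hNS.nd
  intro w
  rw [map_sub, LinearMap.sub_apply, sub_eq_zero]
  obtain ⟨u, hu, rfl⟩ := hrep v
  obtain ⟨u', hu', rfl⟩ := hrep w
  obtain ⟨g1, g2⟩ := hstep s u hu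
  obtain ⟨g1', g2'⟩ := hstep s u' hu'
  have a1 := hY u' _ hu' g1
  have a2 := hY u _ hu g1'
  rw [g2] at a1
  rw [g2'] at a2
  rw [hcr, a2] at a1
  rw [hNS.symm, ← a1, ← hYsa, hsa]

/-- **END of (T0), arbitrary radical, corrections in `ZZ`.** -/
theorem tame_false_Z [CharZero K] (hD : Data k arm J B N W) (hF : F ∈ N ⊓ W)
    (hPF : ∀ p ∈ P, ∃ u, F *ᵥ u = p) (he : e * e = e) (heJ : eᵀ * J = J * e)
    (hM : ∀ v, v ∈ M ↔ ∃ w, v = e *ᵥ w) (ΦM : Fin 3 → Module.End K M)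
    (hΦM : ∀ s v, ((ΦM s v : M) : ι → K) = e *ᵥ (Phi arm J B F s *ᵥ (v : ι → K)))
    {D : Module.End K M} (hDΦ : ∀ s v, D (ΦM s v) = ΦM s (D v))
    (hDs : ⨆ ν, D.maxGenEigenspace ν = ⊤) (hT : Tame ΦM D)
    (hPM : ∀ m ∈ M, ∃ p ∈ P, e *ᵥ p = m)
    (hPe : ∀ p ∈ P, ∀ q ∈ P, (e *ᵥ p) ⬝ᵥ (J *ᵥ q) = p ⬝ᵥ (J *ᵥ q))
    (hΦP : ∀ s, ∀ p ∈ P, Phi arm J B F s *ᵥ p ∈ P)
    (hker : ∀ s, ∀ p ∈ P,
      e *ᵥ (Phi arm J B F s *ᵥ p) = e *ᵥ (Phi arm J B F s *ᵥ (e *ᵥ p)))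
    {l : Fin 3 → ℕ} (hl : ∀ s, ΦM s ^ l s = 0)
    (hf : ∀ s, l s * finrank K (LinearMap.ker (ΦM s)) = finrank K M)
    {ZZ : Submodule K (Module.End K M)}
    (Z3 : ∀ X : Module.End K M, ∀ z ∈ ZZ, (∀ v w, frm J M (X v) w = - frm J M v (X w)) →
      (∀ (s : Fin 3) (j : ℕ), ∀ x ∈ LinearMap.range (ΦM s ^ j),
        X x ∈ LinearMap.range (ΦM s ^ j)) →
      (∀ v w, frm J M ((X - z) v) w = frm J M v ((X - z) w)) →
      (∀ s v, (X - z) (ΦM s v) = ΦM s ((X - z) v)) → X = 0)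
    (ha : ∀ s i j, i + j + 1 = l s → ∀ p ∈ P, ∀ q ∈ P,
      T J ((Phi arm J B F s ^ i) *ᵥ p) ((Phi arm J B F s ^ j) *ᵥ q) * F * E K arm s ∈
        N ⊔ Sz J W F P hM ZZ)
    (hb1 : ∀ s, ∀ r ∈ P, e *ᵥ r = 0 → ∀ p ∈ P, T J r p * F * E K arm s ∈ N ⊔ Sz J W F P hM ZZ)
    (hb2 : ∀ s, ∀ r ∈ P, e *ᵥ r = 0 → ∀ p ∈ P, T J p r * F * E K arm s ∈ N ⊔ Sz J W F P hM ZZ) :
    False := by
  have hpow : ∀ s (i : ℕ), ∀ p ∈ P, (Phi arm J B F s ^ i) *ᵥ p ∈ P := by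
    intro s i
    induction i with
    | zero => intro p hp; simpa using hp
    | succ i ih =>
      intro p hp
      rw [pow_succ, ← mulVec_mulVec]
      exact ih _ (hΦP s p hp)
  have hNS := frm_NS hD.J_symm hD.J_unit he heJ hM
  obtain ⟨A, hA0, hAs, hAr⟩ :=
    TC.exists_skew_of_tame' hNS ΦM (core_sa hD he heJ hM hΦM) hDΦ hDs hT
  obtain ⟨A', h1, h2⟩ := hext_of (Q := Qp arm J F (N ⊔ Sz J W F P hM ZZ) P) hD.J_symm hD.J_unit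
    he heJ hM hPM hΦP hker hΦM (core_sa hD he heJ hM hΦM) hl hf
    (fun s i j hij p hp q hq => ⟨T_mem_PP (hpow s i p hp) (hpow s j q hq), ha s i j hij p hp q hq⟩)
    (fun s r hr hr0 p hp => ⟨T_mem_PP hr hp, hb1 s r hr hr0 p hp⟩)
    (fun s r hr hr0 p hp => ⟨T_mem_PP hp hr, hb2 s r hr hr0 p hp⟩) hAr
  have hA'F : A' * F ∈ N ⊔ Sz J W F P hM ZZ := sum_arm fun s => (h2 s).2
  obtain ⟨ν, hν, w, ⟨hw, z, hz, hw2⟩, hνw⟩ := Submodule.mem_sup.1 hA'F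
  have hν2 : ν = A' * F - w := by rw [← hνw]; abel
  have hK : A' * F - w ∈ N ⊓ W := ⟨hν2 ▸ hν, W.sub_mem (hD.W_left _ hF.2 A') hw⟩
  have hval : ∀ v w : M, frm J M v (A w) = (v : ι → K) ⬝ᵥ (J *ᵥ (A' *ᵥ (w : ι → K))) := by
    intro v w
    rw [frm_apply]
    have e1 : ((A w : M) : ι → K) = (e * A' * e) *ᵥ (w : ι → K) := by
      rw [h1, hat_mulVec, prM_fix he]
    rw [e1, ← mulVec_mulVec, ← mulVec_mulVec, fix_of_mem he hM w, ← adj heJ, fix_of_mem he hM v]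
  have hpair : ∀ u u' : δ → K, F *ᵥ u ∈ P → F *ᵥ u' ∈ P →
      (F *ᵥ u) ⬝ᵥ (J *ᵥ ((A' * F - w) *ᵥ u')) =
        frm J M (prM e hM (F *ᵥ u)) ((A - z) (prM e hM (F *ᵥ u'))) := by
    intro u u' hu hu'
    rw [sub_mulVec, mulVec_sub, dotProduct_sub, hw2 u u' hu hu', ← mulVec_mulVec,
      LinearMap.sub_apply, map_sub, hval, prM_coe, prM_coe,
      PP_core hD.J_symm hPe (h2 0).1 hu hu']
  obtain ⟨c1, c2⟩ := core_op hD hF hPF he heJ hM ΦM hΦM hPM hΦP hker hK hpair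
  exact hA0 (Z3 A z hz hAs hAr c1 c2)

end Crest.Agent.R172.EndZ47
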