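import Crest.Agent.R172.FO2

/-!
Row 172 (S0260), TAME (T0), arbitrary radical `R` and arbitrary (not nec. semisimple) `D`:
FAMILY CALCULUS WITH `D` ON `P` (note 16028), first derivative.

`p : Matrix ι a K` is a frame (NOT nec. injective) of the perfect submodule `P = A^∞ V`,
`Φ_s(F) p = p α_s`, `Gᵀ J p = Fᵀ J p τ`.  A family `η : Fin 3 → Matrix a a K` stands for the operators
`p η_s pᵀ J` on the three arms.
-/

set_option autoImplicit false
set_option linter.unusedSectionVars false

namespace Crest.Agent.R172.FC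

open Matrix Crest.Agent.R172.FO

variable {ι : Type*} [Fintype ι] [DecidableEq ι] {δ : Type*} [Fintype δ] [DecidableEq δ]
variable {a : Type*} [Fintype a] [DecidableEq a]
variable {k K : Type*} [Field k] [Field K] [Algebra k K]
variable {arm : δ → Fin 3} {J : Matrix ι ι K} {B : Matrix δ δ K}
  {N W : Submodule K (Matrix ι δ K)} {F G : Matrix ι δ K} {p : Matrix ι a K}
  {al : Fin 3 → Matrix a a K} {τ : Matrix a a K}

/-- the data: `p` a basis of `P`, `al s` the action of `Φ_s(F)`, `τ` the lift of `D` to `P`. -/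
structure Ctx (k : Type*) {K : Type*} [Field k] [Field K] [Algebra k K]
    (arm : δ → Fin 3) (J : Matrix ι ι K) (B : Matrix δ δ K)
    (N W : Submodule K (Matrix ι δ K)) (F G : Matrix ι δ K) (p : Matrix ι a K)
    (al : Fin 3 → Matrix a a K) (τ : Matrix a a K) : Prop where
  data : Data k arm J B N W
  memF : F ∈ N ⊓ W
  memG : G ∈ N ⊓ W
  hal : ∀ s, Phi arm J B F s * p = p * al s
  perf : ∃ ρ : Fin 3 → Matrix a a K, ∑ s, al s * ρ s = 1
  hτ : Gᵀ * J * p = Fᵀ * J * p * τ
  comm : ∀ s, τ * al s = al s * τ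

/-- `E_s B Fᵀ J p` -/
def bs (arm : δ → Fin 3) (J : Matrix ι ι K) (B : Matrix δ δ K) (F : Matrix ι δ K)
    (p : Matrix ι a K) (s : Fin 3) : Matrix δ a K := E K arm s * B * (Fᵀ * J * p)

/-- the element of `V ⊗ U` of a family -/
def fam (arm : δ → Fin 3) (J : Matrix ι ι K) (F : Matrix ι δ K) (p : Matrix ι a K)
    (η : Fin 3 → Matrix a a K) : Matrix ι δ K :=
  ∑ s, p * η s * (pᵀ * J * F) * E K arm s

/-- the family as operators on `V` -/
def op (J : Matrix ι ι K) (p : Matrix ι a K) (η : Fin 3 → Matrix a a K) (s : Fin 3) :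
    Matrix ι ι K := p * η s * (pᵀ * J)

/-- corrections of type `(z, z')` -/
structure Cor (arm : δ → Fin 3) (J : Matrix ι ι K) (B : Matrix δ δ K)
    (W : Submodule K (Matrix ι δ K)) (F : Matrix ι δ K) (p : Matrix ι a K)
    (al : Fin 3 → Matrix a a K) (w : Matrix ι δ K) (z z' : Matrix a a K) : Prop where
  mem : w ∈ W
  left : wᵀ * J * p = Fᵀ * J * p * z
  right : ∀ s, w * bs arm J B F p s = p * z' * al s
  adj : (pᵀ * J * p) * z = z'ᵀ * (pᵀ * J * p)

/-- the family `η` is good with correction `(z, z')` -/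
def Good (arm : δ → Fin 3) (J : Matrix ι ι K) (B : Matrix δ δ K)
    (N W : Submodule K (Matrix ι δ K)) (F : Matrix ι δ K) (p : Matrix ι a K)
    (al : Fin 3 → Matrix a a K) (η : Fin 3 → Matrix a a K) (z z' : Matrix a a K) : Prop :=
  ∃ w, Cor arm J B W F p al w z z' ∧ fam arm J F p η - w ∈ N

/-- covariant derivative of an endomorphism of `P` -/
def nab (d : Derivation k K K) (θ z : Matrix a a K) : Matrix a a K := z.map d + θ * z - z * θ

theorem map_smul_alg (d : Derivation k K K) (c : k) {α β : Type*} (A : Matrix α β K) :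
    ((algebraMap k K c) • A).map d = (algebraMap k K c) • A.map d := by
  ext i j
  simp [Algebra.smul_def]

theorem map_one_d (d : Derivation k K K) : (1 : Matrix a a K).map d = 0 := by
  ext i j
  by_cases h : i = j
  · subst h; simp
  · simp [h]

theorem map_zero_d {α β : Type*} (d : Derivation k K K) : (0 : Matrix α β K).map d = 0 := by
  ext i j; simp

theorem map_neg_d {α β : Type*} (d : Derivation k K K) (A : Matrix α β K) :
    (-A).map d = -A.map d := by ext i j; simp

theorem map_sum_d {α β : Type*} {σ : Type*} (d : Derivation k K K) (S : Finset σ)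
    (A : σ → Matrix α β K) : (∑ s ∈ S, A s).map d = ∑ s ∈ S, (A s).map d := by
  ext i j
  simp [Matrix.sum_apply]

/-- persistence with a prescribed `ξ` -/
theorem persist' (hD : Data k arm J B N W) {H : Matrix ι δ K} (hH : Generic k arm N W H)
    (X : Fin 3 → Matrix ι ι K) (hX : ∀ s, (X s)ᵀ * J + J * X s = 0) (ξ : Matrix δ δ K)
    (hξ : ξᵀ * B + B * ξ = 0) (hξH : H * ξᵀ = act arm X H) :
    ∃ d : Derivation k K K, Realises arm N W X ξ d ∧ H.map d = act arm X H := by
  obtain ⟨d0, hd0⟩ := hD.dir X ξ hX hξ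
  have h1 : H.map d0 - act arm X H ∈ N ⊓ W := by
    refine ⟨hd0.onN H hH.mem.1, ?_⟩
    have := hd0.onW H hH.mem.2
    rwa [hξH] at this
  obtain ⟨d1, hd1, hr⟩ := hH.vert _ h1
  have hsub : ∀ Y : Matrix ι δ K, Y.map (d0 - d1) = Y.map d0 - Y.map d1 := by
    intro Y; ext i j; simp
  refine ⟨d0 - d1, ⟨?_, ?_⟩, ?_⟩
  · intro Y hY
    have h2 := hd0.onN Y hY
    have h3 := hr.onN Y hY
    rw [act_zero, sub_zero] at h3
    rw [hsub]
    have : Y.map d0 - Y.map d1 - act arm X Y = (Y.map d0 - act arm X Y) - Y.map d1 := by abel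
    rw [this]
    exact N.sub_mem h2 h3
  · intro Y hY
    have h2 := hd0.onW Y hY
    have h3 := hr.onW Y hY
    rw [transpose_zero, Matrix.mul_zero, sub_zero] at h3
    rw [hsub]
    have : Y.map d0 - Y.map d1 - Y * ξᵀ = (Y.map d0 - Y * ξᵀ) - Y.map d1 := by abel
    rw [this]
    exact W.sub_mem h2 h3
  · rw [hsub, hd1]
    abel

theorem op_skew (hJ : Jᵀ = J) {χ : Fin 3 → Matrix a a K} (hχ : ∀ s, (χ s)ᵀ = - χ s)
    (s : Fin 3) : (op J p χ s)ᵀ * J + J * op J p χ s = 0 := by
  unfold op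
  rw [transpose_mul, transpose_mul, transpose_mul, transpose_transpose, hJ, hχ s]
  simp only [Matrix.neg_mul, Matrix.mul_neg, Matrix.mul_assoc]
  exact neg_add_cancel _

theorem act_op (η : Fin 3 → Matrix a a K) (Y : Matrix ι δ K) :
    act arm (op J p η) Y = ∑ s, p * η s * (pᵀ * J * Y) * E K arm s := by
  unfold act op
  refine Finset.sum_congr rfl fun s _ => ?_
  simp only [Matrix.mul_assoc]

theorem act_opF (η : Fin 3 → Matrix a a K) :
    act arm (op J p η) F = fam arm J F p η := act_op η F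

theorem fam_sub (η η' : Fin 3 → Matrix a a K) :
    fam arm J F p η - fam arm J F p η' = fam arm J F p (fun s => η s - η' s) := by
  unfold fam
  rw [← Finset.sum_sub_distrib]
  refine Finset.sum_congr rfl fun s _ => ?_
  rw [Matrix.mul_sub, Matrix.sub_mul, Matrix.sub_mul]

theorem fam_add (η η' : Fin 3 → Matrix a a K) :
    fam arm J F p η + fam arm J F p η' = fam arm J F p (fun s => η s + η' s) := by
  unfold fam
  rw [← Finset.sum_add_distrib]
  refine Finset.sum_congr rfl fun s _ => ?_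
  rw [Matrix.mul_add, Matrix.add_mul, Matrix.add_mul]

theorem tr3 {χ : Matrix a a K} (hχ : χᵀ = -χ) (X Y : Matrix δ a K) :
    (X * χ * Yᵀ)ᵀ = -(Y * χ * Xᵀ) := by
  rw [transpose_mul, transpose_mul, transpose_transpose, hχ, Matrix.neg_mul, Matrix.mul_neg,
    Matrix.mul_assoc]

theorem bs_transpose (hD : Data k arm J B N W) (s : Fin 3) :
    (bs arm J B F p s)ᵀ = pᵀ * J * F * E K arm s * B := by
  unfold bs
  rw [transpose_mul, transpose_mul, transpose_mul, transpose_mul, transpose_transpose,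
    hD.B_symm, E_transpose, hD.J_symm]
  have := hD.B_arm s
  simp only [Matrix.mul_assoc]
  rw [this]

theorem E_bs (hD : Data k arm J B N W) (r s : Fin 3) :
    E K arm r * bs arm J B F p s = if r = s then bs arm J B F p s else 0 := by
  unfold bs
  have e : ∀ X : Matrix δ a K, E K arm r * (E K arm s * B * X) =
      (E K arm r * E K arm s) * (B * X) := by
    intro X; simp only [Matrix.mul_assoc]
  rw [e]
  by_cases h : r = s
  · subst h
    rw [if_pos rfl, E_mul_self, ← Matrix.mul_assoc]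
  · rw [if_neg h, E_mul_ne arm h, Matrix.zero_mul]

theorem fam_bs (hD : Data k arm J B N W) (η : Fin 3 → Matrix a a K) (s : Fin 3) :
    fam arm J F p η * bs arm J B F p s = p * η s * (pᵀ * J * (F * bs arm J B F p s)) := by
  unfold fam
  rw [Matrix.sum_mul, Finset.sum_eq_single s]
  · rw [Matrix.mul_assoc _ (E K arm s), E_bs hD, if_pos rfl]
    simp only [Matrix.mul_assoc]
  · intro r _ hr
    rw [Matrix.mul_assoc _ (E K arm r), E_bs hD, if_neg hr, Matrix.mul_zero]
  · intro h
    exact absurd (Finset.mem_univ s) h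

/-- `(fam η)ᵀ J p` -/
theorem fam_left (hJ : Jᵀ = J) (η : Fin 3 → Matrix a a K) :
    (fam arm J F p η)ᵀ * J * p = ∑ s, E K arm s * (Fᵀ * J * p) * ((η s)ᵀ * (pᵀ * J * p)) := by
  unfold fam
  rw [transpose_sum, Matrix.sum_mul, Matrix.sum_mul]
  refine Finset.sum_congr rfl fun s _ => ?_
  simp only [transpose_mul, transpose_transpose, E_transpose, hJ, Matrix.mul_assoc]

namespace Ctx

variable (h : Ctx k arm J B N W F G p al τ)
include h

theorem Fbs (s : Fin 3) : F * bs arm J B F p s = p * al s := by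
  rw [← h.hal s]
  unfold bs Phi M
  simp only [Matrix.mul_assoc]

theorem Gbs (s : Fin 3) : G * bs arm J B F p s = p * τ * al s := by
  have e1 : G * bs arm J B F p s = M arm B s G F * J * p := by
    unfold bs M
    simp only [Matrix.mul_assoc]
  rw [e1, ← h.data.symm_arm h.memF h.memG s]
  have e2 : M arm B s F G * J * p = F * E K arm s * B * (Gᵀ * J * p) := by
    unfold M
    simp only [Matrix.mul_assoc]
  rw [e2, h.hτ]
  have e3 : F * E K arm s * B * (Fᵀ * J * p * τ) = (F * bs arm J B F p s) * τ := by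
    unfold bs
    simp only [Matrix.mul_assoc]
  rw [e3, h.Fbs, Matrix.mul_assoc, ← h.comm, Matrix.mul_assoc]

/-- `P ⊂ im F` -/
theorem exists_v : ∃ v : Matrix δ a K, F * v = p ∧ G * v = p * τ := by
  obtain ⟨ρ, hρ⟩ := h.perf
  refine ⟨∑ s, bs arm J B F p s * ρ s, ?_, ?_⟩
  · rw [Matrix.mul_sum]
    have : ∀ s, F * (bs arm J B F p s * ρ s) = p * (al s * ρ s) := by
      intro s
      rw [← Matrix.mul_assoc, h.Fbs, Matrix.mul_assoc]
    simp only [this]
    rw [← Matrix.mul_sum, hρ, Matrix.mul_one]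
  · rw [Matrix.mul_sum]
    have : ∀ s, G * (bs arm J B F p s * ρ s) = p * τ * (al s * ρ s) := by
      intro s
      rw [← Matrix.mul_assoc, h.Gbs, Matrix.mul_assoc (p * τ)]
    simp only [this]
    rw [← Matrix.mul_sum, hρ, Matrix.mul_one]

theorem gam_symm : (pᵀ * J * p)ᵀ = pᵀ * J * p := by
  rw [transpose_mul, transpose_mul, transpose_transpose, h.data.J_symm, Matrix.mul_assoc]

/-- `τ` is self-adjoint for the form on `P` -/
theorem tau_sa : (pᵀ * J * p) * τ = τᵀ * (pᵀ * J * p) := by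
  obtain ⟨v, hv, hv'⟩ := h.exists_v
  have hs := h.data.symm_U h.memG h.memF
  -- hs : Fᵀ J G = Gᵀ J F
  have e1 : (pᵀ * J * p) * τ = vᵀ * (Fᵀ * J * G) * v := by
    calc (pᵀ * J * p) * τ = pᵀ * J * (p * τ) := by rw [Matrix.mul_assoc]
      _ = (F * v)ᵀ * J * (G * v) := by rw [hv, hv']
      _ = vᵀ * (Fᵀ * J * G) * v := by rw [transpose_mul]; simp only [Matrix.mul_assoc]
  have e2 : τᵀ * (pᵀ * J * p) = vᵀ * (Gᵀ * J * F) * v := by
    calc τᵀ * (pᵀ * J * p) = (p * τ)ᵀ * J * p := by
          rw [transpose_mul]; simp only [Matrix.mul_assoc]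
      _ = (G * v)ᵀ * J * (F * v) := by rw [hv, hv']
      _ = vᵀ * (Gᵀ * J * F) * v := by rw [transpose_mul]; simp only [Matrix.mul_assoc]
  rw [e1, e2, hs]

omit h in
theorem cancel (hi : ∃ l : Matrix a ι K, l * p = 1) {b : Type*} {x y : Matrix a b K}
    (e : p * x = p * y) : x = y := by
  obtain ⟨l, hl⟩ := hi
  have := congrArg (fun z => l * z) e
  simpa only [← Matrix.mul_assoc, hl, Matrix.one_mul] using this

end Ctx

/-- the parameter `t`: `H = F + t G`, `κ = 1 + t τ` invertible, `V/P` nilpotent for `Φ(H)`. -/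
structure Par (k : Type*) {K : Type*} [Field k] [Field K] [Algebra k K]
    (arm : δ → Fin 3) (J : Matrix ι ι K) (B : Matrix δ δ K)
    (N W : Submodule K (Matrix ι δ K)) (F G : Matrix ι δ K) (p : Matrix ι a K)
    (τ : Matrix a a K) (c : K) (kap kai : Matrix a a K) : Prop where
  const : ∃ t : k, algebraMap k K t = c
  gen : Generic k arm N W (F + c • G)
  kap_eq : kap = 1 + c • τ
  mul : kap * kai = 1
  nil : ∃ m : ℕ, ∀ w : List (Fin 3), w.length = m → ∃ C : Matrix a ι K,
    (w.map (Phi arm J B (F + c • G))).prod = p * C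

namespace Ctx

variable (h : Ctx k arm J B N W F G p al τ) {c : K} {kap kai : Matrix a a K}
  (hp : Par k arm J B N W F G p τ c kap kai)
include h hp

theorem mul' : kai * kap = 1 := mul_eq_one_comm.1 hp.mul

theorem kap_al (s : Fin 3) : kap * al s = al s * kap := by
  rw [hp.kap_eq, Matrix.add_mul, Matrix.mul_add, Matrix.one_mul, Matrix.mul_one,
    Matrix.smul_mul, Matrix.mul_smul, h.comm]

theorem kai_al (s : Fin 3) : kai * al s = al s * kai := by
  have h1 : kai * (kap * al s) * kai = kai * (al s * kap) * kai := by rw [h.kap_al hp]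
  rw [← Matrix.mul_assoc, h.mul' hp, Matrix.one_mul, Matrix.mul_assoc kai, Matrix.mul_assoc,
    hp.mul, Matrix.mul_one] at h1
  exact h1.symm

theorem Hp : (F + c • G)ᵀ * J * p = Fᵀ * J * p * kap := by
  rw [hp.kap_eq, transpose_add, transpose_smul, Matrix.add_mul, Matrix.add_mul,
    Matrix.smul_mul, Matrix.smul_mul, h.hτ, Matrix.mul_add, Matrix.mul_one, Matrix.mul_smul]

theorem Hbs (s : Fin 3) : (F + c • G) * bs arm J B F p s = p * kap * al s := by
  rw [hp.kap_eq, Matrix.add_mul, Matrix.smul_mul, h.Fbs, h.Gbs, Matrix.mul_add, Matrix.mul_one,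
    Matrix.add_mul, Matrix.mul_smul, Matrix.smul_mul]

theorem PhiHp (s : Fin 3) : Phi arm J B (F + c • G) s * p = p * (al s * (kap * kap)) := by
  have e : Phi arm J B (F + c • G) s * p =
      (F + c • G) * (E K arm s * B * ((F + c • G)ᵀ * J * p)) := by
    unfold Phi M
    simp only [Matrix.mul_assoc]
  rw [e, h.Hp hp]
  have e2 : (F + c • G) * (E K arm s * B * (Fᵀ * J * p * kap)) =
      ((F + c • G) * bs arm J B F p s) * kap := by
    unfold bs
    simp only [Matrix.mul_assoc]
  rw [e2, h.Hbs hp, Matrix.mul_assoc p, h.kap_al hp]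
  simp only [Matrix.mul_assoc]

theorem kap_sa : (pᵀ * J * p) * kap = kapᵀ * (pᵀ * J * p) := by
  rw [hp.kap_eq, Matrix.mul_add, Matrix.mul_one, Matrix.mul_smul, h.tau_sa, transpose_add,
    transpose_one, transpose_smul, Matrix.add_mul, Matrix.one_mul, Matrix.smul_mul]

theorem kai_sa : (pᵀ * J * p) * kai = kaiᵀ * (pᵀ * J * p) := by
  have h1 : kaiᵀ * ((pᵀ * J * p) * kap) * kai = kaiᵀ * (kapᵀ * (pᵀ * J * p)) * kai := by
    rw [h.kap_sa hp]
  have h2 : kaiᵀ * kapᵀ = 1 := by rw [← transpose_mul, hp.mul, transpose_one]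
  rw [← Matrix.mul_assoc kaiᵀ kapᵀ, h2, Matrix.one_mul, ← Matrix.mul_assoc kaiᵀ,
    Matrix.mul_assoc _ kap kai, hp.mul, Matrix.mul_one] at h1
  exact h1.symm

/-- the direction `ξ`. -/
theorem exists_xi (χ : Fin 3 → Matrix a a K) (hχ : ∀ s, (χ s)ᵀ = - χ s)
    (hex : ∑ s, (χ s * (kap * kap)ᵀ * (al s)ᵀ - al s * (kap * kap) * χ s) = 0) :
    ∃ ξ : Matrix δ δ K, ξᵀ * B + B * ξ = 0 ∧
      ∀ (w : Matrix ι δ K) (z' : Matrix a a K),
        (∀ s, w * bs arm J B F p s = p * z' * al s) →
        w * ξᵀ = fam arm J F p (fun s => z' * kai * χ s * kapᵀ) := by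
  obtain ⟨Bi, hBi, hBi', hBit⟩ := symm_inv h.data.B_symm h.data.B_unit
  obtain ⟨ρ, hρ⟩ := h.perf
  set u : Matrix δ a K := ∑ s, bs arm J B F p s * (kai * ρ s) with hu
  set Z : Matrix a a K := ∑ s, al s * (kap * kap) * χ s with hZ
  have hZt : Zᵀ = -Z := by
    have e1 : Zᵀ = -∑ s, χ s * (kap * kap)ᵀ * (al s)ᵀ := by
      rw [hZ, transpose_sum, ← Finset.sum_neg_distrib]
      refine Finset.sum_congr rfl fun s _ => ?_
      rw [transpose_mul, transpose_mul, hχ s, Matrix.neg_mul, Matrix.mul_assoc]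
    rw [Finset.sum_sub_distrib, sub_eq_zero] at hex
    rw [e1, hex]
  set A : Fin 3 → Matrix δ a K := fun s => bs arm J B F p s * kap with hA
  set S : Matrix δ δ K := ∑ s, (u * χ s * (A s)ᵀ + A s * χ s * uᵀ) - u * Z * uᵀ with hS
  have hSt : Sᵀ = -S := by
    rw [hS, transpose_sub, transpose_sum]
    have e1 : ∀ s, (u * χ s * (A s)ᵀ + A s * χ s * uᵀ)ᵀ =
        -(u * χ s * (A s)ᵀ + A s * χ s * uᵀ) := by
      intro s
      rw [transpose_add, tr3 (hχ s), tr3 (hχ s), neg_add, add_comm]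
    have e2 : (u * Z * uᵀ)ᵀ = -(u * Z * uᵀ) := by
      rw [transpose_mul, transpose_mul, transpose_transpose, hZt]
      simp only [Matrix.neg_mul, Matrix.mul_neg, Matrix.mul_assoc]
    simp only [e1, e2]
    rw [Finset.sum_neg_distrib]
    abel
  have hξt : (-(Bi * S))ᵀ = S * Bi := by
    rw [transpose_neg, transpose_mul, hBit, hSt, Matrix.neg_mul, neg_neg]
  refine ⟨-(Bi * S), ?_, ?_⟩
  · rw [hξt, Matrix.mul_assoc, hBi', Matrix.mul_one, Matrix.mul_neg, ← Matrix.mul_assoc, hBi,
      Matrix.one_mul, add_neg_cancel]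
  · intro w z' hw
    have hwu : w * u = p * (z' * kai) := by
      rw [hu, Matrix.mul_sum]
      have : ∀ s, w * (bs arm J B F p s * (kai * ρ s)) = p * (z' * kai) * (al s * ρ s) := by
        intro s
        rw [← Matrix.mul_assoc, hw s, ← Matrix.mul_assoc, Matrix.mul_assoc (p * z'),
          ← h.kai_al hp]
        simp only [Matrix.mul_assoc]
      simp only [this]
      rw [← Matrix.mul_sum, hρ, Matrix.mul_one]
    have hwA : ∀ s, w * A s = p * z' * al s * kap := by
      intro s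
      rw [hA]
      dsimp only
      rw [← Matrix.mul_assoc, hw s]
    have hwS : w * S = ∑ s, p * (z' * kai) * χ s * (A s)ᵀ := by
      rw [hS, Matrix.mul_sub, Matrix.mul_sum]
      have e1 : ∀ s, w * (u * χ s * (A s)ᵀ + A s * χ s * uᵀ) =
          p * (z' * kai) * χ s * (A s)ᵀ + p * (z' * kai) * (al s * (kap * kap) * χ s) * uᵀ := by
        intro s
        have f1 : w * (u * χ s * (A s)ᵀ) = (w * u) * χ s * (A s)ᵀ := by
          simp only [Matrix.mul_assoc]
        have f2 : w * (A s * χ s * uᵀ) = (w * A s) * χ s * uᵀ := by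
          simp only [Matrix.mul_assoc]
        rw [Matrix.mul_add, f1, f2, hwu, hwA]
        congr 1
        have e2 : kai * (al s * (kap * kap) * χ s) = al s * kap * χ s := by
          rw [← Matrix.mul_assoc, ← Matrix.mul_assoc, h.kai_al hp, Matrix.mul_assoc (al s) kai,
            ← Matrix.mul_assoc kai kap, h.mul' hp, Matrix.one_mul]
        rw [Matrix.mul_assoc p (z' * kai), Matrix.mul_assoc z' kai, e2]
        simp only [Matrix.mul_assoc]
      simp only [e1]
      rw [Finset.sum_add_distrib, ← Matrix.sum_mul, ← Matrix.mul_sum, ← hZ]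
      have e3 : w * (u * Z * uᵀ) = p * (z' * kai) * Z * uᵀ := by
        rw [← Matrix.mul_assoc, ← Matrix.mul_assoc, hwu]
      rw [e3, add_sub_cancel_right]
    rw [hξt, ← Matrix.mul_assoc, hwS, Matrix.sum_mul]
    unfold fam
    refine Finset.sum_congr rfl fun s _ => ?_
    have e4 : (A s)ᵀ * Bi = kapᵀ * (pᵀ * J * F) * E K arm s := by
      rw [hA]
      dsimp only
      rw [transpose_mul, bs_transpose h.data, Matrix.mul_assoc, Matrix.mul_assoc _ B Bi, hBi,
        Matrix.mul_one]
      simp only [Matrix.mul_assoc]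
    rw [Matrix.mul_assoc _ ((A s)ᵀ) Bi, e4]
    simp only [Matrix.mul_assoc]

end Ctx

end Crest.Agent.R172.FC
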