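import Crest.Agent.R172.FC1
import Crest.Agent.R172.FrmB

/-!
Row 172 (S0260), TAME (T0), arbitrary `R` and `D`: family calculus (note 16028), (1) the FIRST
DERIVATIVE.
-/

set_option autoImplicit false
set_option linter.unusedSectionVars false

namespace Crest.Agent.R172.FC

open Matrix Crest.Agent.R172.FO

variable {ι : Type*} [Fintype ι] [DecidableEq ι] {δ : Type*} [Fintype δ] [DecidableEq δ]
variable {a : Type*} [Fintype a] [DecidableEq a]
variable {k K : Type*} [Field k] [Field K] [Algebra k K]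
variable {arm : δ → Fin 3} {J : Matrix ι ι K} {B : Matrix δ δ K}
  {N W : Submodule K (Matrix ι δ K)} {F G : Matrix ι δ K} {p : Matrix ι a K}
  {al : Fin 3 → Matrix a a K} {τ : Matrix a a K}

namespace Ctx

variable (h : Ctx k arm J B N W F G p al τ) {c : K} {kap kai : Matrix a a K}
  (hp : Par k arm J B N W F G p τ c kap kai)
include h hp

theorem pJH : pᵀ * J * (F + c • G) = kapᵀ * (pᵀ * J * F) := by
  have h1 := congrArg transpose (h.Hp hp)
  rw [transpose_mul, transpose_mul, transpose_transpose, h.data.J_symm, transpose_mul,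
    transpose_mul, transpose_mul, transpose_transpose, h.data.J_symm] at h1
  rw [Matrix.mul_assoc, h1, Matrix.mul_assoc]

theorem actH (χ : Fin 3 → Matrix a a K) :
    act arm (op J p χ) (F + c • G) = fam arm J F p (fun s => χ s * kapᵀ) := by
  rw [act_op]
  unfold fam
  refine Finset.sum_congr rfl fun s _ => ?_
  rw [h.pJH hp]
  simp only [Matrix.mul_assoc]

/-- `d p = p θ` -/
theorem der_p (χ : Fin 3 → Matrix a a K) (hχ : ∀ s, (χ s)ᵀ = - χ s) (d : Derivation k K K)
    (hd : (F + c • G).map d = act arm (op J p χ) (F + c • G)) :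
    ∃ θ : Matrix a a K, p.map d = p * θ ∧
      ∀ s, p * nab d θ (al s * (kap * kap)) =
        p * (χ s * (pᵀ * J * p) * (al s * (kap * kap)) -
          al s * (kap * kap) * (χ s * (pᵀ * J * p))) := by
  obtain ⟨m, hm⟩ := hp.nil
  obtain ⟨ρ, hρ⟩ := h.perf
  obtain ⟨Φ, hΦ⟩ : ∃ Φ : Fin 3 → Matrix ι ι K, Φ = Phi arm J B (F + c • G) := ⟨_, rfl⟩
  obtain ⟨β, hβ⟩ : ∃ β : Fin 3 → Matrix a a K, ∀ s, β s = al s * (kap * kap) :=
    ⟨_, fun _ => rfl⟩
  obtain ⟨γ, hγ⟩ : ∃ γ : Matrix a a K, γ = pᵀ * J * p := ⟨_, rfl⟩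
  rw [← hγ]
  simp only [← hβ]
  rw [← hΦ] at hm
  have hΦp : ∀ s, Φ s * p = p * β s := by
    intro s; rw [hΦ, hβ]; exact h.PhiHp hp s
  have hdΦ : ∀ s, (Φ s).map d = op J p χ s * Φ s - Φ s * op J p χ s := by
    intro s; rw [hΦ]
    exact h.data.map_Phi (F + c • G) (op J p χ) (op_skew h.data.J_symm hχ) d hd s
  have hopp : ∀ s, op J p χ s * p = p * (χ s * γ) := by
    intro s
    unfold op
    rw [hγ]
    simp only [Matrix.mul_assoc]
  obtain ⟨Es, hEs⟩ : ∃ Es : Fin 3 → Matrix a a K,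
      ∀ s, Es s = (β s).map d - χ s * γ * β s + β s * (χ s * γ) := ⟨_, fun _ => rfl⟩
  have hcom : ∀ s, Φ s * p.map d = p.map d * β s + p * Es s := by
    intro s
    have h1 := congrArg (fun A : Matrix ι a K => A.map d) (hΦp s)
    simp only [map_mul_der] at h1
    rw [hdΦ s, Matrix.sub_mul, Matrix.mul_assoc, hΦp, ← Matrix.mul_assoc (op J p χ s), hopp,
      Matrix.mul_assoc (Φ s), hopp, ← Matrix.mul_assoc (Φ s), hΦp] at h1
    have h2 : Φ s * p.map d = p.map d * β s + p * (β s).map d -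
        (p * (χ s * γ) * β s - p * β s * (χ s * γ)) := by
      rw [← h1]; abel
    rw [h2, hEs]
    simp only [Matrix.mul_add, Matrix.mul_sub, Matrix.mul_assoc]
    abel
  have hword : ∀ w : List (Fin 3), ∃ E : Matrix a a K,
      (w.map Φ).prod * p.map d = p.map d * (w.map β).prod + p * E := by
    intro w
    induction w with
    | nil => exact ⟨0, by simp⟩
    | cons s w ih =>
      obtain ⟨E, hE⟩ := ih
      refine ⟨Es s * (w.map β).prod + β s * E, ?_⟩
      rw [List.map_cons, List.prod_cons, List.map_cons, List.prod_cons, Matrix.mul_assoc, hE,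
        Matrix.mul_add, ← Matrix.mul_assoc (Φ s), hcom, ← Matrix.mul_assoc (Φ s) p, hΦp,
        Matrix.add_mul, Matrix.mul_add]
      simp only [Matrix.mul_assoc]
      abel
  have hρ' : ∑ s, β s * (kai * kai * ρ s) = 1 := by
    rw [← hρ]
    refine Finset.sum_congr rfl fun s _ => ?_
    have e : β s * (kai * kai * ρ s) = al s * (kap * (kap * kai) * kai) * ρ s := by
      rw [hβ s]; simp only [Matrix.mul_assoc]
    rw [e, hp.mul, Matrix.mul_one, hp.mul, Matrix.mul_one]
  have hcl : ∀ n : ℕ, ∀ w : List (Fin 3), w.length + n = m →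
      ∃ C : Matrix a a K, p.map d * (w.map β).prod = p * C := by
    intro n
    induction n with
    | zero =>
      intro w hw
      obtain ⟨C, hC⟩ := hm w (by simpa using hw)
      obtain ⟨E, hE⟩ := hword w
      refine ⟨C * p.map d - E, ?_⟩
      rw [hC] at hE
      rw [Matrix.mul_sub, ← Matrix.mul_assoc, hE]
      abel
    | succ n ih =>
      intro w hw
      have hs : ∀ s : Fin 3, ∃ C : Matrix a a K,
          p.map d * ((w ++ [s]).map β).prod = p * C := by
        intro s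
        apply ih
        rw [List.length_append, List.length_singleton]
        omega
      choose C hC using hs
      refine ⟨∑ s, C s * (kai * kai * ρ s), ?_⟩
      have e1 : p.map d * (w.map β).prod =
          ∑ s, p.map d * ((w ++ [s]).map β).prod * (kai * kai * ρ s) := by
        have e2 : ∀ s : Fin 3, p.map d * ((w ++ [s]).map β).prod * (kai * kai * ρ s) =
            p.map d * (w.map β).prod * (β s * (kai * kai * ρ s)) := by
          intro s
          rw [List.map_append, List.prod_append, List.map_singleton, List.prod_singleton]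
          simp only [Matrix.mul_assoc]
        simp only [e2]
        rw [← Matrix.mul_sum, hρ', Matrix.mul_one]
      rw [e1, Matrix.mul_sum]
      refine Finset.sum_congr rfl fun s _ => ?_
      rw [hC s, Matrix.mul_assoc]
  obtain ⟨θ, hθ⟩ := hcl m [] (by simp)
  rw [List.map_nil, List.prod_nil, Matrix.mul_one] at hθ
  refine ⟨θ, hθ, fun s => ?_⟩
  have h3 := hcom s
  rw [hθ, ← Matrix.mul_assoc, hΦp] at h3
  have h4 : p * (β s).map d = p * β s * θ - p * θ * β s +
      (p * (χ s * γ * β s) - p * (β s * (χ s * γ))) := by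
    rw [h3, hEs]
    simp only [Matrix.mul_add, Matrix.mul_sub]
    abel
  unfold nab
  rw [Matrix.mul_sub, Matrix.mul_add, h4, Matrix.mul_sub]
  simp only [Matrix.mul_assoc]
  abel

theorem der_gam {d : Derivation k K K} {θ : Matrix a a K} (hθ : p.map d = p * θ) :
    (pᵀ * J * p).map d = θᵀ * (pᵀ * J * p) + (pᵀ * J * p) * θ := by
  rw [map_mul_der, map_mul_der, map_transpose_der, hθ, h.data.J_const, Matrix.mul_zero,
    add_zero, transpose_mul]
  simp only [Matrix.mul_assoc]

theorem nab_tau_sa {d : Derivation k K K} {θ : Matrix a a K} (hθ : p.map d = p * θ) :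
    (pᵀ * J * p) * nab d θ τ = (nab d θ τ)ᵀ * (pᵀ * J * p) := by
  have h1 := congrArg (fun A : Matrix a a K => A.map d) h.tau_sa
  simp only [map_mul_der _ (pᵀ * J * p), map_mul_der _ τᵀ, map_transpose_der,
    h.der_gam hp hθ] at h1
  have h2 := h.tau_sa
  generalize pᵀ * J * p = γ at h1 h2 ⊢
  unfold nab
  rw [transpose_sub, transpose_add, transpose_mul, transpose_mul, Matrix.mul_sub,
    Matrix.mul_add, Matrix.sub_mul, Matrix.add_mul]
  have e1 : γ * (θ * τ) = γ * θ * τ := by rw [Matrix.mul_assoc]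
  have e2 : γ * (τ * θ) = τᵀ * (γ * θ) := by rw [← Matrix.mul_assoc, h2, Matrix.mul_assoc]
  have e3 : θᵀ * γ * τ = θᵀ * τᵀ * γ := by rw [Matrix.mul_assoc, h2, Matrix.mul_assoc]
  rw [Matrix.add_mul, e3, Matrix.mul_add] at h1
  rw [e1, e2]
  have h3 : γ * τ.map d = (τ.map d)ᵀ * γ + (τᵀ * (θᵀ * γ) + τᵀ * (γ * θ)) -
      (θᵀ * τᵀ * γ + γ * θ * τ) := by
    rw [← h1]; abel
  rw [h3]
  simp only [Matrix.mul_assoc]
  abel

/-- **(1) FIRST DERIVATIVE**, frame not nec. injective. -/
theorem first0 (χ : Fin 3 → Matrix a a K) (hχ : ∀ s, (χ s)ᵀ = - χ s)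
    (hex : ∑ s, (χ s * (kap * kap)ᵀ * (al s)ᵀ - al s * (kap * kap) * χ s) = 0) :
    ∃ (d : Derivation k K K) (ξ : Matrix δ δ K) (θ : Matrix a a K),
      Realises arm N W (op J p χ) ξ d ∧ p.map d = p * θ ∧
      (∀ (w : Matrix ι δ K) (z' : Matrix a a K),
        (∀ s, w * bs arm J B F p s = p * z' * al s) →
        w * ξᵀ = fam arm J F p (fun s => z' * kai * χ s * kapᵀ)) ∧
      (F + c • G).map d = act arm (op J p χ) (F + c • G) ∧
      F.map d - fam arm J F p (fun s => kai * χ s * kapᵀ) ∈ W ∧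
      (F.map d - fam arm J F p (fun s => kai * χ s * kapᵀ))ᵀ * J * p =
        Fᵀ * J * p * (-(c • (nab d θ τ * kai))) ∧
      (∀ s, (bs arm J B F p s).map d = bs arm J B F p s *
        (kap * ((χ s)ᵀ * ((pᵀ * J * p) * kai)) + -(c • (nab d θ τ * kai)) + θ)) ∧
      (pᵀ * J * p) * nab d θ τ = (nab d θ τ)ᵀ * (pᵀ * J * p) ∧
      (∀ s, p * nab d θ (al s * (kap * kap)) =
        p * (χ s * (pᵀ * J * p) * (al s * (kap * kap)) -
          al s * (kap * kap) * (χ s * (pᵀ * J * p)))) := by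
  obtain ⟨ξ, hξ, hw⟩ := h.exists_xi hp χ hχ hex
  have hξH : (F + c • G) * ξᵀ = act arm (op J p χ) (F + c • G) := by
    rw [hw _ kap (fun s => h.Hbs hp s), h.actH hp]
    simp only [hp.mul, Matrix.one_mul]
  have hξF : F * ξᵀ = fam arm J F p (fun s => kai * χ s * kapᵀ) := by
    rw [hw F 1 (fun s => by rw [Matrix.mul_one]; exact h.Fbs s)]
    simp only [Matrix.one_mul]
  obtain ⟨d, hreal, hd⟩ := persist' h.data hp.gen (op J p χ) (op_skew h.data.J_symm hχ) ξ hξ hξH
  obtain ⟨θ, hθ, hβ⟩ := h.der_p hp χ hχ d hd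
  have hsa := h.nab_tau_sa hp hθ
  have hkai := h.kai_sa hp
  have hkap := h.kap_sa hp
  obtain ⟨t, ht⟩ := hp.const
  obtain ⟨γ, hγ⟩ : ∃ γ : Matrix a a K, γ = pᵀ * J * p := ⟨_, rfl⟩
  obtain ⟨Δ, hΔ⟩ : ∃ Δ : Matrix a a K, Δ = nab d θ τ := ⟨_, rfl⟩
  obtain ⟨Q, hQ⟩ : ∃ Q : Matrix δ a K, Q = Fᵀ * J * p := ⟨_, rfl⟩
  have hd0 := hd
  have hsa0 := hsa
  rw [← hγ, ← hΔ] at hsa
  rw [← hγ] at hkai hkap
  -- derivative of `H`
  have hdH : (F + c • G).map d = F.map d + c • G.map d := by
    rw [map_add_der, ← ht, map_smul_alg]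
  rw [hdH, h.actH hp] at hd
  -- (f) left
  have hdG : (G.map d)ᵀ * J * p = (F.map d)ᵀ * J * p * τ + Q * Δ := by
    have h1 := congrArg (fun A : Matrix δ a K => A.map d) h.hτ
    simp only [map_mul_der, map_transpose_der, h.data.J_const, Matrix.mul_zero, add_zero,
      hθ] at h1
    have h2 : (G.map d)ᵀ * J * p = ((F.map d)ᵀ * J * p + Fᵀ * J * (p * θ)) * τ +
        Fᵀ * J * p * τ.map d - Gᵀ * J * (p * θ) := by
      rw [← h1]; abel
    have h3 : Gᵀ * J * (p * θ) = Fᵀ * J * p * τ * θ := by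
      rw [← Matrix.mul_assoc, h.hτ]
    rw [h2, h3, hQ, hΔ]
    unfold nab
    simp only [Matrix.mul_add, Matrix.add_mul, Matrix.mul_sub, Matrix.mul_assoc]
    abel
  have hL : (F.map d)ᵀ * J * p * kap + c • (Q * Δ) =
      (fam arm J F p (fun s => χ s * kapᵀ))ᵀ * J * p := by
    rw [← hd, transpose_add, transpose_smul, Matrix.add_mul, Matrix.add_mul, Matrix.smul_mul,
      Matrix.smul_mul, hdG, hp.kap_eq, Matrix.mul_add, Matrix.mul_one, Matrix.mul_smul,
      smul_add]
    abel
  have hfl : (fam arm J F p (fun s => χ s * kapᵀ))ᵀ * J * p * kai =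
      (fam arm J F p (fun s => kai * χ s * kapᵀ))ᵀ * J * p := by
    rw [fam_left h.data.J_symm, fam_left h.data.J_symm, Matrix.sum_mul, ← hγ]
    refine Finset.sum_congr rfl fun s _ => ?_
    simp only [transpose_mul, transpose_transpose, Matrix.mul_assoc]
    rw [hkai]
  have hleft : (F.map d - fam arm J F p (fun s => kai * χ s * kapᵀ))ᵀ * J * p =
      Q * (-(c • (Δ * kai))) := by
    rw [transpose_sub, Matrix.sub_mul, Matrix.sub_mul, ← hfl, ← hL, Matrix.add_mul,
      Matrix.mul_assoc _ kap kai, hp.mul, Matrix.mul_one, Matrix.smul_mul,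
      Matrix.mul_assoc Q Δ kai, Matrix.mul_neg, Matrix.mul_smul]
    abel
  -- (g) right
  have hX1 : (F.map d)ᵀ * J * p =
      ∑ r, E K arm r * Q * (kap * ((χ r)ᵀ * (γ * kai))) + Q * (-(c • (Δ * kai))) := by
    rw [← hleft, transpose_sub, Matrix.sub_mul, Matrix.sub_mul, ← hfl,
      fam_left h.data.J_symm, Matrix.sum_mul, ← hγ, ← hQ]
    have e : ∀ r : Fin 3, E K arm r * Q * ((χ r * kapᵀ)ᵀ * γ) * kai =
        E K arm r * Q * (kap * ((χ r)ᵀ * (γ * kai))) := by
      intro r
      simp only [transpose_mul, transpose_transpose, Matrix.mul_assoc]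
    simp only [e]
    abel
  have hdbs : ∀ s, (bs arm J B F p s).map d = bs arm J B F p s *
      (kap * ((χ s)ᵀ * (γ * kai)) + -(c • (Δ * kai)) + θ) := by
    intro s
    have e1 : (bs arm J B F p s).map d = E K arm s * B * ((F.map d)ᵀ * J * p + Q * θ) := by
      unfold bs
      rw [map_mul_der, map_mul_der, E_map_der, h.data.B_const, Matrix.zero_mul,
        Matrix.mul_zero, add_zero, Matrix.zero_mul, zero_add, map_mul_der, map_mul_der,
        map_transpose_der, h.data.J_const, Matrix.mul_zero, add_zero, hθ, hQ]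
      simp only [Matrix.mul_assoc]
    have e2 : ∀ r : Fin 3, E K arm s * B * (E K arm r * Q * (kap * ((χ r)ᵀ * (γ * kai)))) =
        if r = s then bs arm J B F p s * (kap * ((χ s)ᵀ * (γ * kai))) else 0 := by
      intro r
      have e3 : E K arm s * B * (E K arm r * Q * (kap * ((χ r)ᵀ * (γ * kai)))) =
          (E K arm s * E K arm r) * (B * Q * (kap * ((χ r)ᵀ * (γ * kai)))) := by
        have := h.data.B_arm r
        simp only [Matrix.mul_assoc]
        rw [← Matrix.mul_assoc B (E K arm r), ← this]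
        simp only [Matrix.mul_assoc]
      rw [e3]
      by_cases hr : r = s
      · subst hr
        rw [if_pos rfl, E_mul_self]
        unfold bs
        rw [← hQ]
        simp only [Matrix.mul_assoc]
      · rw [if_neg hr, E_mul_ne arm (Ne.symm hr), Matrix.zero_mul]
    rw [e1, hX1, Matrix.mul_add, Matrix.mul_add, Matrix.mul_sum]
    simp only [e2]
    rw [Finset.sum_ite_eq' Finset.univ s, if_pos (Finset.mem_univ s), Matrix.mul_add,
      Matrix.mul_add]
    unfold bs
    rw [← hQ]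
    simp only [Matrix.mul_assoc]
  refine ⟨d, ξ, θ, hreal, hθ, hw, hd0, ?_, ?_, ?_, hsa0, hβ⟩
  · have := hreal.onW F h.memF.2
    rwa [hξF] at this
  · rw [hleft, hQ, hΔ]
  · rw [← hγ, ← hΔ]; exact hdbs

omit h hp in
theorem famio (η : Fin 3 → Matrix a a K) :
    fam arm J F p η = FrmB.io arm J F p η := by
  rw [FrmB.io_eq]
  unfold fam
  refine Finset.sum_congr rfl fun s _ => ?_
  simp only [Matrix.mul_assoc]

omit h hp in
theorem op_eq (η : Fin 3 → Matrix a a K) : op J p η = fun s => p * η s * pᵀ * J := by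
  funext s
  unfold op
  simp only [Matrix.mul_assoc]

/-- FIRST DERIVATIVE, frame not nec. injective, in the form `FrmB.Q3`. -/
theorem firstQ (χ : Fin 3 → Matrix a a K) (hχ : ∀ s, (χ s)ᵀ = - χ s)
    (hex : ∑ s, (χ s * (kap * kap)ᵀ * (al s)ᵀ - al s * (kap * kap) * χ s) = 0) :
    ∃ (d : Derivation k K K) (ξ : Matrix δ δ K) (θ : Matrix a a K),
      Realises arm N W (fun s => p * χ s * pᵀ * J) ξ d ∧ p.map d = p * θ ∧
      (F + c • G).map d = act arm (fun s => p * χ s * pᵀ * J) (F + c • G) ∧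
      FrmB.Q3 arm J B N W F p (fun s => kai * χ s * kapᵀ - χ s)
        (FrmB.io arm J F p (fun s => kai * χ s * kapᵀ) - F.map d)
        (c • (nab d θ τ * kai)) ∧
      (pᵀ * J * p) * nab d θ τ = (nab d θ τ)ᵀ * (pᵀ * J * p) ∧
      (∀ s, p * nab d θ (al s * (kap * kap)) =
        p * (χ s * (pᵀ * J * p) * (al s * (kap * kap)) -
          al s * (kap * kap) * (χ s * (pᵀ * J * p)))) := by
  obtain ⟨d, ξ, θ, hreal, hθ, -, hdH, hW, hleft, hdbs, hsa, hβ⟩ := h.first0 hp χ hχ hex
  have hreal' := hreal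
  rw [op_eq] at hreal' hdH
  refine ⟨d, ξ, θ, hreal', hθ, hdH, ⟨?_, ?_, ?_, ?_⟩, hsa, hβ⟩
  · rw [← famio]
    have := W.neg_mem hW
    rwa [neg_sub] at this
  · rw [← famio, ← famio]
    have h1 := hreal.onN F h.memF.1
    rw [act_opF] at h1
    rw [← fam_sub (fun s => kai * χ s * kapᵀ) χ]
    have e : fam arm J F p (fun s => kai * χ s * kapᵀ) - fam arm J F p χ -
        (fam arm J F p (fun s => kai * χ s * kapᵀ) - F.map d) =
        F.map d - fam arm J F p χ := by abel
    rw [e]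
    exact h1
  · rw [← famio]
    have e : fam arm J F p (fun s => kai * χ s * kapᵀ) - F.map d =
        -(F.map d - fam arm J F p (fun s => kai * χ s * kapᵀ)) := by abel
    rw [e, transpose_neg, Matrix.neg_mul, Matrix.neg_mul, hleft, Matrix.mul_neg, neg_neg]
  · intro s
    rw [← famio]
    have f1 : ∃ φ : Matrix a a K, F.map d * bs arm J B F p s = p * φ := by
      have h1 := congrArg (fun A : Matrix ι a K => A.map d) (h.Fbs s)
      simp only [map_mul_der, hdbs s, hθ] at h1
      obtain ⟨μ, hμ⟩ : ∃ μ : Matrix a a K, μ = kap * ((χ s)ᵀ * ((pᵀ * J * p) * kai)) +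
        -(c • (nab d θ τ * kai)) + θ := ⟨_, rfl⟩
      rw [← hμ] at h1
      refine ⟨θ * al s + (al s).map d - al s * μ, ?_⟩
      have h2 : F.map d * bs arm J B F p s = p * θ * al s + p * (al s).map d -
          F * (bs arm J B F p s * μ) := by
        rw [← h1]; abel
      rw [h2, ← Matrix.mul_assoc F, h.Fbs]
      simp only [Matrix.mul_add, Matrix.mul_sub, Matrix.mul_assoc]
    obtain ⟨φ, hφ⟩ := f1
    refine ⟨kai * χ s * kapᵀ * (pᵀ * J * (p * al s)) - φ, ?_⟩
    have e : (fam arm J F p (fun s => kai * χ s * kapᵀ) - F.map d) * E K arm s * B *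
        (Fᵀ * J * p) = fam arm J F p (fun s => kai * χ s * kapᵀ) * bs arm J B F p s -
          F.map d * bs arm J B F p s := by
      unfold bs
      simp only [Matrix.sub_mul, Matrix.mul_assoc]
    rw [e, hφ, fam_bs h.data, h.Fbs, Matrix.mul_sub]
    simp only [Matrix.mul_assoc]

/-- FIRST DERIVATIVE, injective frame, with the type `(b)` output. -/
theorem first (hi : ∃ l : Matrix a ι K, l * p = 1)
    (χ : Fin 3 → Matrix a a K) (hχ : ∀ s, (χ s)ᵀ = - χ s)
    (hex : ∑ s, (χ s * (kap * kap)ᵀ * (al s)ᵀ - al s * (kap * kap) * χ s) = 0) :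
    ∃ (d : Derivation k K K) (ξ : Matrix δ δ K) (θ : Matrix a a K),
      Realises arm N W (op J p χ) ξ d ∧ p.map d = p * θ ∧
      (∀ (w : Matrix ι δ K) (z' : Matrix a a K),
        (∀ s, w * bs arm J B F p s = p * z' * al s) →
        w * ξᵀ = fam arm J F p (fun s => z' * kai * χ s * kapᵀ)) ∧
      (F + c • G).map d = act arm (op J p χ) (F + c • G) ∧
      Cor arm J B W F p al (F.map d - fam arm J F p (fun s => kai * χ s * kapᵀ))
        (-(c • (nab d θ τ * kai))) (-(c • (kai * nab d θ τ))) ∧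
      (pᵀ * J * p) * nab d θ τ = (nab d θ τ)ᵀ * (pᵀ * J * p) ∧
      (∀ s, nab d θ (al s * (kap * kap)) =
        χ s * (pᵀ * J * p) * (al s * (kap * kap)) -
          al s * (kap * kap) * (χ s * (pᵀ * J * p))) := by
  obtain ⟨d, ξ, θ, hreal, hθ, hw, hd, hW, hleft, hdbs, hsa, hβ⟩ := h.first0 hp χ hχ hex
  have hkai := h.kai_sa hp
  obtain ⟨t, ht⟩ := hp.const
  obtain ⟨γ, hγ⟩ : ∃ γ : Matrix a a K, γ = pᵀ * J * p := ⟨_, rfl⟩
  obtain ⟨Δ, hΔ⟩ : ∃ Δ : Matrix a a K, Δ = nab d θ τ := ⟨_, rfl⟩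
  refine ⟨d, ξ, θ, hreal, hθ, hw, hd, ⟨hW, hleft, ?_, ?_⟩, hsa, fun s => cancel hi (hβ s)⟩
  · have hdH : (F + c • G).map d = F.map d + c • G.map d := by
      rw [map_add_der, ← ht, map_smul_alg]
    rw [hdH, h.actH hp] at hd
    rw [← hγ, ← hΔ] at hdbs
    intro s
    obtain ⟨μ, hμ⟩ : ∃ μ : Matrix a a K, μ = kap * ((χ s)ᵀ * (γ * kai)) + -(c • (Δ * kai)) + θ :=
      ⟨_, rfl⟩
    obtain ⟨φ, hφ⟩ : ∃ φ : Matrix a a K, φ = θ * al s + (al s).map d - al s * μ := ⟨_, rfl⟩
    have hdb := hdbs s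
    rw [← hμ] at hdb
    have f1 : F.map d * bs arm J B F p s = p * φ := by
      have h1 := congrArg (fun A : Matrix ι a K => A.map d) (h.Fbs s)
      simp only [map_mul_der, hdb, hθ] at h1
      have h2 : F.map d * bs arm J B F p s = p * θ * al s + p * (al s).map d -
          F * (bs arm J B F p s * μ) := by
        rw [← h1]; abel
      rw [h2, ← Matrix.mul_assoc F, h.Fbs, hφ]
      simp only [Matrix.mul_add, Matrix.mul_sub, Matrix.mul_assoc]
    have f2 : G.map d * bs arm J B F p s = p * (Δ * al s + τ * φ) := by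
      have h1 := congrArg (fun A : Matrix ι a K => A.map d) (h.Gbs s)
      simp only [map_mul_der, hdb, hθ] at h1
      have h2 : G.map d * bs arm J B F p s = (p * θ * τ + p * τ.map d) * al s +
          p * τ * (al s).map d - G * (bs arm J B F p s * μ) := by
        rw [← h1]; abel
      rw [h2, ← Matrix.mul_assoc G, h.Gbs, hφ, hΔ]
      unfold nab
      simp only [Matrix.mul_add, Matrix.mul_sub, Matrix.add_mul, Matrix.sub_mul,
        Matrix.mul_assoc]
      abel
    have f3 := congrArg (fun A : Matrix ι δ K => A * bs arm J B F p s) hd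
    simp only [Matrix.add_mul, Matrix.smul_mul] at f3
    rw [f1, f2, fam_bs h.data, h.Fbs] at f3
    have f4 : kap * φ = χ s * kapᵀ * (γ * al s) - c • (Δ * al s) := by
      apply cancel hi
      have e : p * (χ s * kapᵀ) * (pᵀ * J * (p * al s)) = p * (χ s * kapᵀ * (γ * al s)) := by
        rw [hγ]; simp only [Matrix.mul_assoc]
      rw [e] at f3
      rw [Matrix.mul_sub, ← f3, hp.kap_eq, Matrix.add_mul, Matrix.one_mul, Matrix.mul_add,
        Matrix.mul_add, Matrix.smul_mul, Matrix.mul_smul, Matrix.mul_smul, smul_add]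
      abel
    have f5 : φ = kai * (χ s * kapᵀ * (γ * al s)) - c • (kai * (Δ * al s)) := by
      have e := congrArg (fun A => kai * A) f4
      simp only [← Matrix.mul_assoc kai kap, h.mul' hp, Matrix.one_mul] at e
      rw [e, Matrix.mul_sub, Matrix.mul_smul]
    rw [Matrix.sub_mul, f1, fam_bs h.data, h.Fbs, f5, ← hΔ]
    have e : p * (kai * χ s * kapᵀ) * (pᵀ * J * (p * al s)) =
        p * (kai * (χ s * kapᵀ * (γ * al s))) := by
      rw [hγ]; simp only [Matrix.mul_assoc]
    rw [e, Matrix.mul_sub, Matrix.mul_neg, Matrix.neg_mul, Matrix.mul_smul, Matrix.mul_smul,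
      Matrix.smul_mul]
    simp only [Matrix.mul_assoc]
    abel
  · rw [← hγ, ← hΔ] at hsa ⊢
    rw [← hγ] at hkai
    rw [Matrix.mul_neg, Matrix.mul_smul, transpose_neg, transpose_smul,
      transpose_mul, Matrix.neg_mul, Matrix.smul_mul, ← Matrix.mul_assoc, hsa,
      Matrix.mul_assoc, hkai, ← Matrix.mul_assoc]

end Ctx

end Crest.Agent.R172.FC
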