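import Crest.Agent.R172.Top2
import Crest.Agent.R172.FO2

/-!
R172: the first order data `FO.Data`, `FO.Generic` at the generic point, from the package `GPt`.
-/

set_option autoImplicit false
set_option linter.unusedSectionVars false

namespace Crest.Agent.R172.FO3

open Matrix Crest.AlgebraR.SpinSaturation Crest.Agent.R172.SoGrade Crest.Agent.R172.CF
open Crest.Agent.R172.Top
open Crest.Agent.R172.Gen (Jm Ix emb Ent ent IsSo)

variable {n : ℕ} {a : Fin 3 → Fin n → ℤ} {c : Cfg n a}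

section basic

variable {L : Type} [Field L] [Algebra ℂ L]

theorem Jm_der (m : ℕ) (d : Derivation ℂ L L) : (Jm m L).map d = 0 := by
  simp only [LieAlgebra.Orthogonal.JD, fromBlocks_map]
  ext i j
  rcases i with i | i <;> rcases j with j | j <;> simp [Matrix.one_apply] <;> split_ifs <;> simp

theorem B_der (c : Cfg n a) (d : Derivation ℂ L L) : (c.B L).map d = 0 := by
  ext i j
  rw [map_apply, Cfg.B, of_apply]
  split_ifs <;> simp

theorem B_arm (c : Cfg n a) (s : Fin 3) :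
    FO.E L c.arm s * c.B L = c.B L * FO.E L c.arm s := by
  ext i j
  rw [FO.E, Matrix.diagonal_mul, Matrix.mul_diagonal, Cfg.B, of_apply]
  by_cases h : j = c.σ i
  · rw [if_pos h, h, c.arm_σ, mul_comm]
  · rw [if_neg h, mul_zero, zero_mul]

theorem mul_E_apply {ι : Type*} (c : Cfg n a) (F : Matrix ι c.δ L) (s : Fin 3) (p : ι) (d : c.δ) :
    (F * FO.E L c.arm s) p d = if c.arm d = s then F p d else 0 := by
  rw [FO.E, Matrix.mul_diagonal]
  split_ifs <;> simp

theorem nstd_arm (c : Cfg n a) {F : Matrix (Ix n) c.δ L} (hF : F ∈ c.nstd L) (s : Fin 3) :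
    F * FO.E L c.arm s ∈ c.nstd L := by
  intro i d
  rw [mul_E_apply, mul_E_apply]
  refine ⟨fun h => ?_, fun h => ?_⟩
  · rw [(hF i d).1 h]; simp
  · rw [(hF i d).2 h]; simp

theorem N_arm (c : Cfg n a) (g : Fin 3 → Matrix (Ix n) (Ix n) L) {F : Matrix (Ix n) c.δ L}
    (hF : F ∈ c.N g) (s : Fin 3) : F * FO.E L c.arm s ∈ c.N g := by
  obtain ⟨G, hG, rfl⟩ := c.mem_N.1 hF
  refine c.mem_N.2 ⟨G * FO.E L c.arm s, nstd_arm c hG s, ?_⟩
  ext p d
  rw [mul_E_apply, act_apply, act_apply, ← Matrix.mul_assoc, mul_E_apply]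

/-- the pairing in coordinates -/
theorem pair_eq (c : Cfg n a) (F F' : Matrix (Ix n) c.δ L) :
    FO.pair (Jm n L) (c.B L) F F' = ∑ d, (Fᵀ * Jm n L * F') d (c.σ d) := by
  rw [FO.pair, trace]
  refine Finset.sum_congr rfl fun d _ => ?_
  rw [diag_apply, Matrix.mul_apply, Finset.sum_eq_single (c.σ d)]
  · rw [Cfg.B, of_apply, if_pos (by rw [c.inv]), mul_one]
  · intro x _ hx
    rw [Cfg.B, of_apply, if_neg, mul_zero]
    intro h
    apply hx
    rw [h, c.inv]
  · simp

/-- the swap as a permutation -/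
def swE : Ix n ≃ Ix n := ⟨sw, sw, sw_sw, sw_sw⟩

theorem mul_Jm {α : Type*} (F : Matrix α (Ix n) L) (d : α) (q : Ix n) :
    (F * Jm n L) d q = F d (sw q) := by
  rw [Matrix.mul_apply, Finset.sum_eq_single (sw q)]
  · rcases q with i | i <;> simp [LieAlgebra.Orthogonal.JD, sw]
  · intro x _ hx
    have : Jm n L x q = 0 := by
      rcases x with x | x <;> rcases q with q | q
      · simp [LieAlgebra.Orthogonal.JD]
      · simp only [LieAlgebra.Orthogonal.JD, fromBlocks_apply₁₂]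
        rw [Matrix.one_apply, if_neg]
        intro h
        exact hx (by rw [h]; rfl)
      · simp only [LieAlgebra.Orthogonal.JD, fromBlocks_apply₂₁]
        rw [Matrix.one_apply, if_neg]
        intro h
        exact hx (by rw [h]; rfl)
      · simp [LieAlgebra.Orthogonal.JD]
    rw [this, mul_zero]
  · simp

theorem nstd_iso (c : Cfg n a) {G G' : Matrix (Ix n) c.δ L} (hG : G ∈ c.nstd L)
    (hG' : G' ∈ c.nstd L) (d : c.δ) : (Gᵀ * Jm n L * G') d (c.σ d) = 0 := by
  rw [Matrix.mul_apply]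
  refine Finset.sum_eq_zero fun q _ => ?_
  rw [mul_Jm, transpose_apply]
  rcases q with i | i
  · -- `G (inr i) d * G' (inl i) (σ d)`
    by_cases h : c.A i (c.σ d)
    · have := (hG i d).2 h
      rw [show (sw (Sum.inl i) : Ix n) = Sum.inr i from rfl, this, zero_mul]
    · rw [(hG' i (c.σ d)).1 h, mul_zero]
  · by_cases h : c.A i d
    · rw [(hG' i (c.σ d)).2 (by rw [c.inv]; exact h), mul_zero]
    · have := (hG i d).1 h
      rw [show (sw (Sum.inr i) : Ix n) = Sum.inl i from rfl, this, zero_mul]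

theorem act_pair (c : Cfg n a) {g : Fin 3 → Matrix (Ix n) (Ix n) L}
    (hg : ∀ s, (g s)ᵀ * Jm n L * g s = Jm n L) (G G' : Matrix (Ix n) c.δ L) (d : c.δ) :
    ((FO.act c.arm g G)ᵀ * Jm n L * FO.act c.arm g G') d (c.σ d) =
      (Gᵀ * Jm n L * G') d (c.σ d) := by
  have h1 : ((FO.act c.arm g G)ᵀ * Jm n L * FO.act c.arm g G') d (c.σ d) =
      ((g (c.arm d) * G)ᵀ * Jm n L * (g (c.arm d) * G')) d (c.σ d) := by
    rw [Matrix.mul_apply, Matrix.mul_apply]
    refine Finset.sum_congr rfl fun q _ => ?_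
    rw [mul_Jm, mul_Jm, transpose_apply, transpose_apply, act_apply, act_apply, c.arm_σ]
  have h2 : Gᵀ * (g (c.arm d))ᵀ * Jm n L * (g (c.arm d) * G') = Gᵀ * Jm n L * G' := by
    calc Gᵀ * (g (c.arm d))ᵀ * Jm n L * (g (c.arm d) * G')
        = Gᵀ * ((g (c.arm d))ᵀ * Jm n L * g (c.arm d)) * G' := by simp only [Matrix.mul_assoc]
      _ = Gᵀ * Jm n L * G' := by rw [hg]
  rw [h1, transpose_mul, h2]

theorem N_iso (c : Cfg n a) {g : Fin 3 → Matrix (Ix n) (Ix n) L}
    (hg : ∀ s, (g s)ᵀ * Jm n L * g s = Jm n L) {F F' : Matrix (Ix n) c.δ L} (hF : F ∈ c.N g)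
    (hF' : F' ∈ c.N g) : FO.pair (Jm n L) (c.B L) F F' = 0 := by
  obtain ⟨G, hG, rfl⟩ := c.mem_N.1 hF
  obtain ⟨G', hG', rfl⟩ := c.mem_N.1 hF'
  rw [pair_eq]
  refine Finset.sum_eq_zero fun d _ => ?_
  rw [act_pair c hg, nstd_iso c hG hG']

theorem map_der_mul {α β γ : Type*} [Fintype β] (d : Derivation ℂ L L) (A : Matrix α β L)
    (C : Matrix β γ L) : (A * C).map d = A.map d * C + A * C.map d := by
  ext i j
  simp only [map_apply, mul_apply, map_sum, Derivation.leibniz, smul_eq_mul, Matrix.add_apply]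
  rw [Finset.sum_add_distrib, add_comm]
  congr 1
  exact Finset.sum_congr rfl fun x _ => mul_comm _ _

theorem E_der (c : Cfg n a) (s : Fin 3) (d : Derivation ℂ L L) :
    (FO.E L c.arm s).map d = 0 := by
  unfold FO.E
  ext i j
  by_cases h : i = j
  · subst h
    rw [map_apply, diagonal_apply_eq]
    split_ifs <;> simp
  · simp [h]

/-- realisation on `N` -/
theorem onN (c : Cfg n a) {g X : Fin 3 → Matrix (Ix n) (Ix n) L} (D : Derivation ℂ L L)
    (hD : ∀ s, (g s).map D = X s * g s) {F : Matrix (Ix n) c.δ L} (hF : F ∈ c.N g) :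
    F.map D - FO.act c.arm X F ∈ c.N g := by
  obtain ⟨G, hG, rfl⟩ := c.mem_N.1 hF
  refine c.mem_N.2 ⟨G.map D, ?_, ?_⟩
  · intro i d
    refine ⟨fun h => ?_, fun h => ?_⟩
    · rw [map_apply, (hG i d).1 h, map_zero]
    · rw [map_apply, (hG i d).2 h, map_zero]
  · rw [act_act]
    have h1 : (FO.act c.arm g G).map D = FO.act c.arm (fun s => X s * g s) G +
        FO.act c.arm g (G.map D) := by
      ext p d
      rw [map_apply, act_apply, Matrix.add_apply, act_apply, act_apply]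
      have h2 := congrFun (congrFun (map_der_mul D (g (c.arm d)) G) p) d
      rw [map_apply, Matrix.add_apply, hD] at h2
      exact h2
    rw [h1]
    abel

end basic

section pol

variable (p : Pol c) {L : Type} [Field L] [Algebra ℂ L]

theorem TK_der (d : Derivation ℂ L L) : (p.TK L).map d = 0 := by
  ext i j
  rw [map_apply, Pol.TK, map_apply, Derivation.map_algebraMap]
  rfl

/-- the inverse of `T` -/
noncomputable def Ti (L : Type) [Field L] [Algebra ℂ L] : Matrix (Fin p.m ⊕ Fin p.m) c.δ L :=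
  Jm p.m L * (p.TK L)ᵀ * c.B L

theorem Ti_T : Ti p L * p.TK L = 1 := by
  rw [Ti]
  have h1 : Jm p.m L * (p.TK L)ᵀ * c.B L * p.TK L = Jm p.m L * ((p.TK L)ᵀ * c.B L * p.TK L) := by
    simp only [Matrix.mul_assoc]
  rw [h1, p.hTK, Jm_sq]

theorem T_Ti : p.TK L * Ti p L = 1 := by
  rw [Matrix.mul_eq_one_comm_of_card_eq]
  · exact Ti_T p
  · rw [p.card, Fintype.card_sum, Fintype.card_fin]; ring

/-- the direction of `H` induced by `ξ` -/
noncomputable def dirH (H : Matrix (Fin p.m) (Fin p.m) L) (ξ : Matrix c.δ c.δ L) :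
    Matrix (Fin p.m) (Fin p.m) L :=
  (p.P H)ᵀ * c.B L * ξ * p.P H

theorem dirH_skew (H : Matrix (Fin p.m) (Fin p.m) L) {ξ : Matrix c.δ c.δ L}
    (hξ : ξᵀ * c.B L + c.B L * ξ = 0) : (dirH p H ξ)ᵀ = - dirH p H ξ := by
  rw [dirH, transpose_mul, transpose_mul, transpose_mul, transpose_transpose, c.B_transpose]
  have h1 : ξᵀ * c.B L = -(c.B L * ξ) := eq_neg_of_add_eq_zero_left hξ
  rw [← Matrix.mul_assoc ξᵀ, h1]
  simp only [Matrix.mul_assoc, Matrix.neg_mul, Matrix.mul_neg]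

theorem resolution (m : ℕ) {H : Matrix (Fin m) (Fin m) L} (hH : Hᵀ = -H) :
    Pol.st m H * Pol.pr L m +
      Matrix.fromRows (1 : Matrix (Fin m) (Fin m) L) (0 : Matrix (Fin m) (Fin m) L) *
        ((Pol.st m H)ᵀ * Jm m L) = 1 := by
  have h1 : (Pol.st m H)ᵀ * Jm m L = Matrix.fromCols (1 : Matrix (Fin m) (Fin m) L) (-H) := by
    rw [Pol.st, Matrix.transpose_fromRows, hH, transpose_one]
    simp only [LieAlgebra.Orthogonal.JD]
    rw [Matrix.fromCols_mul_fromBlocks]
    simp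
  rw [h1, Pol.st, Pol.pr, Matrix.fromRows_mul_fromCols, Matrix.fromRows_mul_fromCols,
    Matrix.fromBlocks_add, ← Matrix.fromBlocks_one]
  congr 1 <;> simp

/-- realisation on `W` -/
theorem onW {H : Matrix (Fin p.m) (Fin p.m) L} (hH : Hᵀ = -H) {ξ : Matrix c.δ c.δ L}
    (D : Derivation ℂ L L) (hD : H.map D = dirH p H ξ)
    {F : Matrix (Ix n) c.δ L} (hF : F ∈ VL (p.LH H)) :
    F.map D - F * ξᵀ ∈ VL (p.LH H) := by
  obtain ⟨R, rfl⟩ := p.mem_VL_iff.1 hF
  -- `P.map D - ξ P = P Z`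
  have key : ∃ Z : Matrix (Fin p.m) (Fin p.m) L, (p.P H).map D - ξ * p.P H = p.P H * Z := by
    let y : Matrix (Fin p.m ⊕ Fin p.m) (Fin p.m) L :=
      (Pol.st p.m H).map D - Ti p L * ξ * p.P H
    have hy1 : (p.P H).map D - ξ * p.P H = p.TK L * y := by
      rw [Matrix.mul_sub, ← Matrix.mul_assoc, ← Matrix.mul_assoc, T_Ti, Matrix.one_mul]
      congr 1
      rw [Pol.P, map_der_mul, TK_der, Matrix.zero_mul, zero_add]
    have hst : (Pol.st p.m H).map D =
        Matrix.fromRows (dirH p H ξ) (0 : Matrix (Fin p.m) (Fin p.m) L) := by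
      rw [← hD]
      ext i j
      rcases i with i | i
      · simp [Pol.st]
      · simp only [Pol.st, map_apply, Matrix.fromRows_apply_inr, Matrix.zero_apply]
        rw [Matrix.one_apply]
        split_ifs <;> simp
    have hy2 : ((Pol.st p.m H)ᵀ * Jm p.m L) * y = 0 := by
      rw [Matrix.mul_sub, hst]
      have h1 : (Pol.st p.m H)ᵀ * Jm p.m L * (Ti p L * ξ * p.P H) = dirH p H ξ := by
        rw [Ti, dirH]
        have h2 : (Pol.st p.m H)ᵀ * Jm p.m L * (Jm p.m L * (p.TK L)ᵀ * c.B L * ξ * p.P H) =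
            (Pol.st p.m H)ᵀ * (Jm p.m L * Jm p.m L) * (p.TK L)ᵀ * c.B L * ξ * p.P H := by
          simp only [Matrix.mul_assoc]
        rw [h2, Jm_sq, Matrix.mul_one, ← transpose_mul]
        rfl
      have h3 : (Pol.st p.m H)ᵀ * Jm p.m L *
          Matrix.fromRows (dirH p H ξ) (0 : Matrix (Fin p.m) (Fin p.m) L) = dirH p H ξ := by
        have h4 : (Pol.st p.m H)ᵀ * Jm p.m L =
            Matrix.fromCols (1 : Matrix (Fin p.m) (Fin p.m) L) (-H) := by
          rw [Pol.st, Matrix.transpose_fromRows, hH, transpose_one]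
          simp only [LieAlgebra.Orthogonal.JD]
          rw [Matrix.fromCols_mul_fromBlocks]
          simp
        rw [h4, Matrix.fromCols_mul_fromRows]
        simp
      rw [h1, h3, sub_self]
    refine ⟨Pol.pr L p.m * y, ?_⟩
    rw [hy1]
    have h5 : y = Pol.st p.m H * (Pol.pr L p.m * y) := by
      have h6 : (Pol.st p.m H * Pol.pr L p.m +
          Matrix.fromRows (1 : Matrix (Fin p.m) (Fin p.m) L) (0 : Matrix (Fin p.m) (Fin p.m) L) *
            ((Pol.st p.m H)ᵀ * Jm p.m L)) * y =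
              (1 : Matrix (Fin p.m ⊕ Fin p.m) (Fin p.m ⊕ Fin p.m) L) * y := by
        rw [resolution p.m hH]
      rw [Matrix.add_mul, Matrix.one_mul, Matrix.mul_assoc (Matrix.fromRows _ _), hy2,
        Matrix.mul_zero, add_zero, Matrix.mul_assoc] at h6
      exact h6.symm
    calc p.TK L * y = p.TK L * (Pol.st p.m H * (Pol.pr L p.m * y)) := by rw [← h5]
      _ = _ := by rw [Pol.P]; simp only [Matrix.mul_assoc]
  obtain ⟨Z, hZ⟩ := key
  refine p.mem_VL_iff.2 ⟨R.map D + R * Zᵀ, ?_⟩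
  rw [map_der_mul, Matrix.mul_assoc, ← transpose_mul, add_sub_assoc]
  have h1 : (p.P H)ᵀ.map D = ((p.P H).map D)ᵀ := rfl
  rw [h1, ← Matrix.mul_sub, ← transpose_sub, hZ, transpose_mul, Matrix.add_mul,
    Matrix.mul_assoc R]

theorem W_iso {H : Matrix (Fin p.m) (Fin p.m) L} (hH : Hᵀ = -H) {F F' : Matrix (Ix n) c.δ L}
    (hF : F ∈ VL (p.LH H)) (hF' : F' ∈ VL (p.LH H)) : F * c.B L * F'ᵀ = 0 := by
  obtain ⟨R, rfl⟩ := p.mem_VL_iff.1 hF
  obtain ⟨R', rfl⟩ := p.mem_VL_iff.1 hF'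
  rw [transpose_mul, transpose_transpose]
  have h1 : R * (p.P H)ᵀ * c.B L * (p.P H * R'ᵀ) = R * ((p.P H)ᵀ * c.B L * p.P H) * R'ᵀ := by
    simp only [Matrix.mul_assoc]
  rw [h1, p.P_iso hH, Matrix.mul_zero, Matrix.zero_mul]

theorem W_left {H : Matrix (Fin p.m) (Fin p.m) L} {F : Matrix (Ix n) c.δ L}
    (hF : F ∈ VL (p.LH H)) (A : Matrix (Ix n) (Ix n) L) : A * F ∈ VL (p.LH H) := by
  obtain ⟨R, rfl⟩ := p.mem_VL_iff.1 hF
  exact p.mem_VL_iff.2 ⟨A * R, by rw [Matrix.mul_assoc]⟩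

/-- **`FO.Data` at `(g, H)`**, given that all directions are realised. -/
theorem data_of {g : Fin 3 → Matrix (Ix n) (Ix n) L} {H : Matrix (Fin p.m) (Fin p.m) L}
    (hg : ∀ s, (g s)ᵀ * Jm n L * g s = Jm n L) (hH : Hᵀ = -H)
    (hdir : ∀ X : Fin 3 → Matrix (Ix n) (Ix n) L, (∀ s, IsSo (X s)) →
      ∀ G : Matrix (Fin p.m) (Fin p.m) L, Gᵀ = -G →
        ∃ D : Derivation ℂ L L, (∀ s, (g s).map D = X s * g s) ∧ H.map D = G) :
    FO.Data ℂ c.arm (Jm n L) (c.B L) (c.N g) (VL (p.LH H)) where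
  J_symm := Jm_transpose n L
  J_unit := ⟨⟨Jm n L, Jm n L, Jm_sq n L, Jm_sq n L⟩, rfl⟩
  J_const := Jm_der n
  B_symm := c.B_transpose L
  B_unit := ⟨⟨c.B L, c.B L, c.B_sq L, c.B_sq L⟩, rfl⟩
  B_const := B_der c
  B_arm := B_arm c
  N_arm := fun F hF s => N_arm c g hF s
  N_iso := fun F hF F' hF' => N_iso c hg hF hF'
  W_iso := fun F hF F' hF' => W_iso p hH hF hF'
  W_left := fun F hF A => W_left p hF A
  dir := by
    intro X ξ hX hξ
    obtain ⟨D, hD1, hD2⟩ := hdir X hX (dirH p H ξ) (dirH_skew p H hξ)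
    exact ⟨D, ⟨fun F hF => onN c D hD1 hF, fun F hF => onW p hH D hD2 hF⟩⟩

end pol

section generic

variable (p : Pol c) {K : Type} [Field K] [Algebra ℂ K]

theorem emb_apply' {K L : Type} [Field K] [Field L] [Algebra K L] {α β : Type*} (A : Matrix α β K)
    (i : α) (j : β) : emb K L A i j = algebraMap K L (A i j) := rfl

theorem emb_mul' {K L : Type} [Field K] [Field L] [Algebra K L] {α β γ : Type*} [Fintype β]
    (A : Matrix α β K) (B : Matrix β γ K) : emb K L (A * B) = emb K L A * emb K L B :=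
  Matrix.map_mul

theorem emb_skew {K L : Type} [Field K] [Field L] [Algebra K L] {α : Type*} {H : Matrix α α K}
    (hH : Hᵀ = -H) : (emb K L H)ᵀ = -(emb K L H) := by
  ext i j
  have h2 := congrFun (congrFun hH i) j
  rw [transpose_apply, Matrix.neg_apply] at h2
  rw [transpose_apply, Matrix.neg_apply, emb_apply', emb_apply', h2, map_neg]

/-- **`FO.Data` over every extension `L` of `K`.** -/
theorem data {g : Fin 3 → Matrix (Ix n) (Ix n) K} {H : Matrix (Fin p.m) (Fin p.m) K}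
    (hG : GPt n p.m K g H) (L : Type) [Field L] [Algebra K L] [Algebra ℂ L]
    [IsScalarTower ℂ K L] :
    FO.Data ℂ c.arm (Jm n L) (c.B L) (c.N (fun s => emb K L (g s))) (VL (p.LH (emb K L H))) := by
  refine data_of p (fun s => emb_orth (hG.orth s)) (emb_skew hG.skew) ?_
  intro X hX G hG'
  exact hG.dir L X hX G hG'

/-- base change of the polynomial system -/
theorem emb_Lam {L : Type} [Field L] [Algebra K L] [Algebra ℂ L] [IsScalarTower ℂ K L]
    (g : Fin 3 → Matrix (Ix n) (Ix n) K) (H : Matrix (Fin p.m) (Fin p.m) K) :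
    emb K L (p.Lam.map (MvPolynomial.aeval (ent g H))) =
      p.Lam.map (MvPolynomial.aeval (ent (fun s => emb K L (g s)) (emb K L H))) := by
  ext x y
  rw [emb_apply', map_apply, map_apply, ← MvPolynomial.aeval_algebraMap_apply]
  congr 2
  funext e
  rcases e with ⟨s, i, j⟩ | ⟨i, j⟩ <;> rfl

/-- base change of the basis matrix -/
theorem emb_P {L : Type} [Field L] [Algebra K L] [Algebra ℂ L] [IsScalarTower ℂ K L]
    (H : Matrix (Fin p.m) (Fin p.m) K) : emb K L (p.P H) = p.P (emb K L H) := by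
  have h1 : emb K L (p.TK K) = p.TK L := by
    ext i j
    rw [emb_apply', Pol.TK, Pol.TK, map_apply, map_apply, ← IsScalarTower.algebraMap_apply]
  have h2 : emb K L (Pol.st p.m H) = Pol.st p.m (emb K L H) := by
    ext i j
    rcases i with i | i
    · rfl
    · rw [emb_apply', Pol.st, Pol.st, Matrix.fromRows_apply_inr, Matrix.fromRows_apply_inr,
        Matrix.one_apply, Matrix.one_apply]
      split_ifs <;> simp
  rw [Pol.P, Pol.P, emb_mul', h1, h2]

/-- derivations which kill `g` and `H` kill the system -/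
theorem Lam_der {L : Type} [Field L] [Algebra ℂ L] {g : Fin 3 → Matrix (Ix n) (Ix n) L}
    {H : Matrix (Fin p.m) (Fin p.m) L} (D : Derivation ℂ L L) (h1 : ∀ s, (g s).map D = 0)
    (h2 : H.map D = 0) : (p.Lam.map (MvPolynomial.aeval (ent g H))).map D = 0 := by
  have key : ∀ q : MvPolynomial (Ent n (Fin p.m)) ℂ, D (MvPolynomial.aeval (ent g H) q) = 0 := by
    intro q
    induction q using MvPolynomial.induction_on with
    | C x => simp
    | add x y hx hy => rw [map_add, map_add, hx, hy, add_zero]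
    | mul_X q e h =>
      rw [map_mul, Derivation.leibniz, h, smul_zero, add_zero, MvPolynomial.aeval_X]
      have : D (ent g H e) = 0 := by
        rcases e with ⟨s, i, j⟩ | ⟨i, j⟩
        · exact congrFun (congrFun (h1 s) i) j
        · exact congrFun (congrFun h2 i) j
      rw [this, smul_zero]
  ext x y
  rw [map_apply, map_apply, key]
  rfl

/-- **Generic elements of `(V ⊗ L_H) ∩ N(g)`.** -/
theorem exists_generic {g : Fin 3 → Matrix (Ix n) (Ix n) K} {H : Matrix (Fin p.m) (Fin p.m) K}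
    (hG : GPt n p.m K g H) :
    ∃ (L : Type) (_ : Field L) (_ : Algebra K L) (_ : Algebra ℂ L) (_ : IsScalarTower ℂ K L)
      (_ : IsAlgClosed L) (_ : CharZero L) (F : Matrix (Ix n) c.δ L),
      FO.Generic ℂ c.arm (c.N (fun s => emb K L (g s))) (VL (p.LH (emb K L H))) F ∧
      ∀ q : MvPolynomial (Ix n × c.δ) K, MvPolynomial.aeval (fun y => F y.1 y.2) q = 0 →
        ∀ F0 ∈ VL (p.LH H), F0 ∈ c.N g → MvPolynomial.aeval (fun y => F0 y.1 y.2) q = 0 := by
  classical
  let A : Matrix (Ix n × c.δ) (Ix n × Fin p.m) K := p.Lam.map (MvPolynomial.aeval (ent g H))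
  obtain ⟨L, iL, iKL, iCL, ist, icl, icz, F, hF, hspec, hder⟩ := hG.ker _ _ A
  let gL : Fin 3 → Matrix (Ix n) (Ix n) L := fun s => emb K L (g s)
  let HL : Matrix (Fin p.m) (Fin p.m) L := emb K L H
  have hgL : ∀ s, (gL s)ᵀ * Jm n L * gL s = Jm n L := fun s => emb_orth (hG.orth s)
  have hHL : HLᵀ = -HL := emb_skew hG.skew
  have hAL : emb K L A = p.Lam.map (MvPolynomial.aeval (ent gL HL)) := emb_Lam p g H
  let R : Matrix (Ix n) (Fin p.m) L := Matrix.of fun q i => F (q, i)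
  have hR : (p.Lam.map (MvPolynomial.aeval (ent gL HL))) *ᵥ (fun y => R y.1 y.2) = 0 := by
    rw [← hAL]; exact hF
  have hmemW : R * (p.P HL)ᵀ ∈ VL (p.LH HL) := p.mem_VL_iff.2 ⟨R, rfl⟩
  have hmemN : R * (p.P HL)ᵀ ∈ c.N gL := (p.Lam_ker hgL HL R).1 hR
  refine ⟨L, iL, iKL, iCL, ist, icl, icz, R * (p.P HL)ᵀ, ⟨⟨hmemN, hmemW⟩, ?_⟩, ?_⟩
  · rintro F' ⟨hN', hW'⟩
    obtain ⟨R', rfl⟩ := p.mem_VL_iff.1 hW'
    obtain ⟨δ, hδ1, hδ2, hδ3⟩ := hder (fun _ => 0) (fun s => by simp [IsSo]) 0 (by simp)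
    have hδ1' : ∀ s, (gL s).map δ = 0 := by
      intro s
      rw [hδ1 s, Matrix.zero_mul]
    have hAd : (emb K L A).map δ = 0 := by
      rw [hAL]
      exact Lam_der p δ hδ1' hδ2
    have hw : (p.Lam.map (MvPolynomial.aeval (ent gL HL))) *ᵥ (fun y => R' y.1 y.2) = 0 :=
      (p.Lam_ker hgL HL R').2 hN'
    obtain ⟨D, hD0, hD1, hD2, hD3⟩ := hδ3 (fun y => R' y.1 y.2) (by
      rw [hAd, zero_mulVec, add_zero, hAL]
      exact hw)
    have hP : (p.P HL).map D = 0 := by
      rw [Pol.P, map_der_mul, TK_der, Matrix.zero_mul, zero_add]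
      have h3 : (Pol.st p.m HL).map D = 0 := by
        ext i j
        rcases i with i | i
        · exact congrFun (congrFun hD2 i) j
        · rw [map_apply, Pol.st, Matrix.fromRows_apply_inr, Matrix.one_apply, Matrix.zero_apply]
          split_ifs <;> simp
      rw [h3, Matrix.mul_zero]
    refine ⟨D, ?_, ⟨fun G hG' => ?_, fun G hG' => ?_⟩⟩
    · rw [map_der_mul]
      have h4 : (p.P HL)ᵀ.map D = ((p.P HL).map D)ᵀ := rfl
      rw [h4, hP, transpose_zero, Matrix.mul_zero, add_zero]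
      congr 1
      ext q i
      exact hD3 (q, i)
    · exact onN c D (X := fun _ => 0) (fun s => hD1 s) hG'
    · refine onW p hHL D ?_ hG'
      rw [dirH, Matrix.mul_zero, Matrix.zero_mul]
      exact hD2
  · intro q hq F0 hF0 hN0
    obtain ⟨R0, rfl⟩ := p.mem_VL_iff.1 hF0
    have hR0 : A *ᵥ (fun y => R0 y.1 y.2) = 0 := (p.Lam_ker hG.orth H R0).2 hN0
    let q' : MvPolynomial (Ix n × Fin p.m) K :=
      MvPolynomial.aeval (fun y : Ix n × c.δ => ∑ i, MvPolynomial.X (y.1, i) *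
        MvPolynomial.C (p.P H y.2 i)) q
    have hq' : ∀ (M : Type) [Field M] [Algebra K M] (x : Ix n × Fin p.m → M),
        MvPolynomial.aeval x q' = MvPolynomial.aeval (fun y : Ix n × c.δ =>
          ∑ i, x (y.1, i) * algebraMap K M (p.P H y.2 i)) q := by
      intro M _ _ x
      have h5 := MvPolynomial.comp_aeval_apply (R := K)
        (fun y : Ix n × c.δ => ∑ i, (MvPolynomial.X (y.1, i) : MvPolynomial (Ix n × Fin p.m) K) *
          MvPolynomial.C (p.P H y.2 i)) (MvPolynomial.aeval x) q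
      rw [h5]
      congr 2
      funext y
      simp
    have h6 : MvPolynomial.aeval F q' = 0 := by
      rw [hq' L F]
      rw [← hq]
      congr 2
      funext y
      rw [Matrix.mul_apply]
      refine Finset.sum_congr rfl fun i _ => ?_
      rw [transpose_apply]
      have h7 : p.P HL y.2 i = algebraMap K L (p.P H y.2 i) := by
        have := emb_P (L := L) p H
        exact (congrFun (congrFun this y.2) i).symm
      rw [h7]
      rfl
    have h8 := hspec q' h6 _ hR0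
    rw [hq' K] at h8
    rw [← h8]
    congr 2

end generic

end Crest.Agent.R172.FO3
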