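import Crest.Agent.R172.RD0
import Crest.Agent.R172.TameCount1

/-!
Row 172 (S0260), `RD`: filtered tensors of the cover are spanned by the elementary ones.
-/

set_option autoImplicit false
set_option linter.unusedSectionVars false

namespace Crest.Agent.R172.RD

open Matrix Module Crest.Agent.R172.FO Crest.Agent.R172.FrmB
open Crest.Agent.R172.Core (NS Tame)

variable {ι : Type*} [Fintype ι] [DecidableEq ι] {δ : Type*} [Fintype δ] [DecidableEq δ]
variable {n : Type*} [Fintype n] [DecidableEq n]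
variable {k K : Type*} [Field k] [Field K] [Algebra k K]
variable {M : Type*} [AddCommGroup M] [Module K M]
variable {m : Type*} [Fintype m] [DecidableEq m]

/-- the elementary filtered tensors at the arm with the operator `A`, block `(j, i)` -/
def ElS (π : (n → K) →ₗ[K] M) (ej ei A : Matrix n n K) (L : ℕ) : Submodule K (Matrix n n K) :=
  Submodule.span K {x | (∃ a a', a + a' + 1 = L ∧ ∃ u u',
      x = vecMulVec ((A ^ a) *ᵥ (ej *ᵥ u)) ((A ^ a') *ᵥ (ei *ᵥ u'))) ∨
    (∃ r u, π (ej *ᵥ r) = 0 ∧ x = vecMulVec (ej *ᵥ r) (ei *ᵥ u)) ∨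
    (∃ u r, π (ei *ᵥ r) = 0 ∧ x = vecMulVec (ej *ᵥ u) (ei *ᵥ r))}

section abs

variable {β : LinearMap.BilinForm K M} {π : (n → K) →ₗ[K] M} {g A : Matrix n n K}
  {Ψ : Module.End K M} {L : ℕ}

theorem ElS_left {ej ei : Matrix n n K} {r u : n → K} (hr : π (ej *ᵥ r) = 0) :
    vecMulVec (ej *ᵥ r) (ei *ᵥ u) ∈ ElS π ej ei A L :=
  Submodule.subset_span (Or.inr (Or.inl ⟨r, u, hr, rfl⟩))

theorem ElS_right {ej ei : Matrix n n K} {r u : n → K} (hr : π (ei *ᵥ r) = 0) :
    vecMulVec (ej *ᵥ u) (ei *ᵥ r) ∈ ElS π ej ei A L :=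
  Submodule.subset_span (Or.inr (Or.inr ⟨u, r, hr, rfl⟩))

theorem ElS_core {ej ei : Matrix n n K} {a a' : ℕ} (h : a + a' + 1 = L) (u u' : n → K) :
    vecMulVec ((A ^ a) *ᵥ (ej *ᵥ u)) ((A ^ a') *ᵥ (ei *ᵥ u')) ∈ ElS π ej ei A L :=
  Submodule.subset_span (Or.inl ⟨a, a', h, u, u', rfl⟩)

theorem pow_pi (hop : ∀ y, Ψ (π y) = π (A *ᵥ y)) (a : ℕ) (y : n → K) :
    (Ψ ^ a) (π y) = π ((A ^ a) *ᵥ y) := by
  induction a generalizing y with
  | zero => simp
  | succ a ih =>
    rw [pow_succ, pow_succ, Module.End.mul_apply, hop, ih, mulVec_mulVec]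

/-- the case without blocks -/
theorem fil_span_one (hns : NS β) (honto : Function.Surjective π)
    (hform : ∀ y y', β (π y) (π y') = y ⬝ᵥ (g *ᵥ y'))
    (hop : ∀ y, Ψ (π y) = π (A *ᵥ y)) (hsa : ∀ v w, β (Ψ v) w = β v (Ψ w))
    (hnil : Ψ ^ L = 0) (hfree : L * finrank K (LinearMap.ker Ψ) = finrank K M)
    {y : Matrix n n K} {yb : Module.End K M} (hy : ∀ u, π (y *ᵥ (g *ᵥ u)) = yb (π u))
    (hf : ∀ (a : ℕ) v, ∃ v', yb ((Ψ ^ a) v) = (Ψ ^ a) v') :
    y ∈ ElS π 1 1 A L := by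
  classical
  have hfin : FiniteDimensional K M := Module.Finite.of_surjective π honto
  obtain ⟨e, b, hb⟩ := TC.exists_adapted hnil hfree
  have hnd := hns.nondeg
  set θ := LinearMap.BilinForm.dualBasis β hnd b with hθ
  have hθb : ∀ ν μ, β (θ ν) (b μ) = if μ = ν then 1 else 0 := by
    intro ν μ
    rw [hθ, LinearMap.BilinForm.apply_dualBasis_left]
  obtain ⟨σ, hσ⟩ := LinearMap.exists_rightInverse_of_surjective π
    (LinearMap.range_eq_top.2 honto)
  have hσ' : ∀ x, π (σ x) = x := fun x => LinearMap.congr_fun hσ x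
  -- the dual expansion
  have hexp : ∀ x, ∑ ν, β x (b ν) • θ ν = x := by
    intro x
    rw [← sub_eq_zero]
    apply hns.nd
    intro w
    have : ∀ μ, β (∑ ν, β x (b ν) • θ ν - x) (b μ) = 0 := by
      intro μ
      rw [map_sub, LinearMap.sub_apply, map_sum, LinearMap.sum_apply, Finset.sum_eq_single μ]
      · rw [map_smul, LinearMap.smul_apply, hθb, if_pos rfl, smul_eq_mul, mul_one, sub_self]
      · intro ν _ hν
        rw [map_smul, LinearMap.smul_apply, hθb, if_neg (Ne.symm hν), smul_zero]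
      · intro h; exact absurd (Finset.mem_univ μ) h
    rw [← b.sum_repr w, map_sum]
    refine Finset.sum_eq_zero fun μ _ => ?_
    rw [map_smul, this, smul_zero]
  -- `θ ν ∈ range Ψ^(L-1-a)`
  have hθr : ∀ ν : Fin L × Fin (finrank K (LinearMap.ker Ψ)),
      ∃ x : M, θ ν = (Ψ ^ (L - ((ν.1 : ℕ) + 1))) x := by
    intro ν
    have hle : (ν.1 : ℕ) + 1 ≤ L := ν.1.2
    have h1 : θ ν ∈ LinearMap.ker (Ψ ^ ((ν.1 : ℕ) + 1)) := by
      rw [LinearMap.mem_ker]
      apply hns.nd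
      intro w
      have hpow : ∀ (j : ℕ) (v w : M), β ((Ψ ^ j) v) w = β v ((Ψ ^ j) w) := by
        intro j
        induction j with
        | zero => intro v w; simp
        | succ j ih =>
          intro v w
          rw [pow_succ, Module.End.mul_apply, ih, hsa, ← Module.End.mul_apply, ← pow_succ', pow_succ]
      rw [hpow, ← b.sum_repr w, map_sum, map_sum]
      refine Finset.sum_eq_zero fun μ _ => ?_
      rw [map_smul, map_smul, hb μ, ← Module.End.mul_apply, ← pow_add]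
      by_cases hc : (ν.1 : ℕ) + 1 + (μ.1 : ℕ) < L
      · have h2 := hθb ν (⟨(ν.1 : ℕ) + 1 + (μ.1 : ℕ), hc⟩, μ.2)
        rw [hb] at h2
        rw [h2, if_neg, smul_zero]
        intro h3
        have h4 := congrArg (fun q : Fin L × Fin (finrank K (LinearMap.ker Ψ)) => (q.1 : ℕ)) h3
        simp only at h4
        omega
      · have h3 : Ψ ^ ((ν.1 : ℕ) + 1 + (μ.1 : ℕ)) = 0 := by
          have : (ν.1 : ℕ) + 1 + (μ.1 : ℕ) = L + ((ν.1 : ℕ) + 1 + (μ.1 : ℕ) - L) := by omega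
          rw [this, pow_add, hnil, zero_mul]
        rw [h3, LinearMap.zero_apply, map_zero, smul_zero]
    rw [TC.ker_eq_range hnil hfree hle] at h1
    obtain ⟨x, hx⟩ := h1
    exact ⟨x, hx.symm⟩
  -- the projection
  set E : Matrix n n K := ∑ ν, vecMulVec (σ (θ ν)) (g *ᵥ (σ (b ν))) with hE
  have hEk : ∀ u, π ((1 - E) *ᵥ u) = 0 := by
    intro u
    have h1 : E *ᵥ u = ∑ ν, β (π u) (b ν) • σ (θ ν) := by
      rw [hE, Matrix.sum_mulVec]
      refine Finset.sum_congr rfl fun ν _ => ?_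
      rw [vecMulVec_mulVec, ← hσ' (b ν), hform, hσ', dotProduct_comm, op_smul_eq_smul]
    rw [Matrix.sub_mulVec, one_mulVec, map_sub, h1, map_sum]
    simp only [map_smul, hσ']
    rw [hexp, sub_self]
  have hy1 : y = y * Eᵀ + y * (1 - E)ᵀ := by
    rw [← Matrix.mul_add, ← transpose_add, add_sub_cancel, transpose_one, Matrix.mul_one]
  rw [hy1]
  refine Submodule.add_mem _ ?_ ?_
  · rw [hE, transpose_sum, Matrix.mul_sum]
    refine Submodule.sum_mem _ fun ν _ => ?_
    rw [transpose_vecMulVec, Matrix.mul_vecMulVec]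
    obtain ⟨x, hx⟩ := hθr ν
    obtain ⟨v', hv'⟩ := hf (ν.1 : ℕ) (e ν.2)
    obtain ⟨u', rfl⟩ := honto x
    obtain ⟨u, rfl⟩ := honto v'
    rw [pow_pi hop] at hv' hx
    have h1 : π (y *ᵥ (g *ᵥ (σ (b ν))) - (A ^ (ν.1 : ℕ)) *ᵥ u) = 0 := by
      rw [map_sub, hy, hσ', hb, hv', sub_self]
    have h2 : π (σ (θ ν) - (A ^ (L - ((ν.1 : ℕ) + 1))) *ᵥ u') = 0 := by
      rw [map_sub, hσ', hx, sub_self]
    obtain ⟨r, hr⟩ : ∃ r, r = y *ᵥ (g *ᵥ (σ (b ν))) - (A ^ (ν.1 : ℕ)) *ᵥ u := ⟨_, rfl⟩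
    obtain ⟨r', hr'⟩ : ∃ r, r = σ (θ ν) - (A ^ (L - ((ν.1 : ℕ) + 1))) *ᵥ u' := ⟨_, rfl⟩
    rw [← hr] at h1
    rw [← hr'] at h2
    have e1 : y *ᵥ (g *ᵥ (σ (b ν))) = (A ^ (ν.1 : ℕ)) *ᵥ u + r := by rw [hr]; abel
    have e2 : σ (θ ν) = (A ^ (L - ((ν.1 : ℕ) + 1))) *ᵥ u' + r' := by rw [hr']; abel
    have hle : (ν.1 : ℕ) + 1 ≤ L := ν.1.2
    rw [e1, Matrix.add_vecMulVec]
    refine Submodule.add_mem _ ?_ ?_
    · rw [e2, Matrix.vecMulVec_add]
      refine Submodule.add_mem _ ?_ ?_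
      · have := ElS_core (π := π) (ej := (1 : Matrix n n K)) (ei := 1) (A := A) (L := L)
          (a := (ν.1 : ℕ)) (a' := L - ((ν.1 : ℕ) + 1)) (by omega) u u'
        simpa only [one_mulVec] using this
      · have := ElS_right (π := π) (ej := (1 : Matrix n n K)) (ei := 1) (A := A) (L := L)
          (r := r') (u := (A ^ (ν.1 : ℕ)) *ᵥ u) (by rw [one_mulVec]; exact h2)
        simpa only [one_mulVec] using this
    · have := ElS_left (π := π) (ej := (1 : Matrix n n K)) (ei := 1) (A := A) (L := L)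
          (r := r) (u := σ (θ ν)) (by rw [one_mulVec]; exact h1)
      simpa only [one_mulVec] using this
  · -- right factor in the kernel
    have h1 : y * (1 - E)ᵀ = ∑ a : n, vecMulVec (Pi.single a 1) ((1 - E) *ᵥ (y a)) := by
      ext a c
      rw [Matrix.sum_apply, Finset.sum_eq_single a]
      · rw [vecMulVec_apply, Pi.single_eq_same, one_mul, Matrix.mul_apply]
        unfold mulVec dotProduct
        refine Finset.sum_congr rfl fun x _ => ?_
        rw [transpose_apply, mul_comm]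
      · intro b' _ hb'
        rw [vecMulVec_apply, Pi.single_eq_of_ne (Ne.symm hb'), zero_mul]
      · intro h; exact absurd (Finset.mem_univ a) h
    rw [h1]
    refine Submodule.sum_mem _ fun a _ => ?_
    have := ElS_right (π := π) (ej := (1 : Matrix n n K)) (ei := 1) (A := A) (L := L)
          (r := (1 - E) *ᵥ (y a)) (u := Pi.single a 1) (by rw [one_mulVec]; exact hEk _)
    simpa only [one_mulVec] using this

/-- the map `x ↦ ej x eiᵀ` sends the elementary tensors to the elementary tensors of the block -/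
theorem ElS_block {ej ei : Matrix n n K} (hj : ej * A = A * ej) (hi : ei * A = A * ei)
    (kj : ∀ r, π r = 0 → π (ej *ᵥ r) = 0) (ki : ∀ r, π r = 0 → π (ei *ᵥ r) = 0)
    {y : Matrix n n K} (hy : y ∈ ElS π 1 1 A L) : ej * y * eiᵀ ∈ ElS π ej ei A L := by
  have hpow : ∀ {e : Matrix n n K}, e * A = A * e → ∀ (a : ℕ) (u : n → K),
      e *ᵥ ((A ^ a) *ᵥ u) = (A ^ a) *ᵥ (e *ᵥ u) := by
    intro e he a u
    rw [mulVec_mulVec, mulVec_mulVec]
    congr 1
    exact (show Commute e A from he).pow_right a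
  have hv : ∀ u v : n → K, ej * vecMulVec u v * eiᵀ = vecMulVec (ej *ᵥ u) (ei *ᵥ v) := by
    intro u v
    rw [Matrix.mul_vecMulVec, Matrix.vecMulVec_mul, vecMul_transpose]
  unfold ElS at hy
  induction hy using Submodule.span_induction with
  | mem x hx =>
    rcases hx with ⟨a, a', h, u, u', rfl⟩ | ⟨r, u, hr, rfl⟩ | ⟨u, r, hr, rfl⟩
    · rw [hv, one_mulVec, one_mulVec, hpow hj, hpow hi]
      exact ElS_core h u u'
    · rw [hv, one_mulVec, one_mulVec]
      rw [one_mulVec] at hr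
      exact ElS_left (kj r hr)
    · rw [hv, one_mulVec, one_mulVec]
      rw [one_mulVec] at hr
      exact ElS_right (ki r hr)
  | zero => rw [Matrix.mul_zero, Matrix.zero_mul]; exact Submodule.zero_mem _
  | add x y _ _ hx hy =>
    rw [Matrix.mul_add, Matrix.add_mul]; exact Submodule.add_mem _ hx hy
  | smul c x _ hx =>
    rw [Matrix.mul_smul, Matrix.smul_mul]; exact Submodule.smul_mem _ c hx

end abs

section frame

variable {arm : δ → Fin 3} {J : Matrix ι ι K} {B : Matrix δ δ K}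
  {N W : Submodule K (Matrix ι δ K)} {F G : Matrix ι δ K} {p : Matrix ι n K}
  {al : Fin 3 → Matrix n n K} {tau : Matrix n n K}
  {β : LinearMap.BilinForm K M} {T : Module.End K M →ₗ[K] Module.End K M}
  {Ψ : Fin 3 → Module.End K M} {D : Module.End K M} {π : (n → K) →ₗ[K] M}
  {e : m → Matrix n n K} {lam : m → K} {l : Fin 3 → ℕ} {TT : Set k}

/-- `ker π` is stable under the block idempotents -/
theorem ker_block (h : Fr k arm J B N W F G p al tau β T Ψ D π e lam l TT) (i : m) {r : n → K}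
    (hr : π r = 0) : π (e i *ᵥ r) = 0 := by
  apply h.cr.ns.nd
  intro w
  obtain ⟨u, rfl⟩ := h.cr.onto w
  rw [h.cr.ns.symm, h.cr.form, mulVec_mulVec, ← h.eg i, ← mulVec_mulVec, dotProduct_mulVec,
    vecMul_transpose, ← h.cr.form, hr, map_zero]

/-- **filtered tensors of the block `(j, i)` are spanned by the elementary ones** -/
theorem fil_span (h : Fr k arm J B N W F G p al tau β T Ψ D π e lam l TT) (i j : m) (s : Fin 3)
    {y : Matrix n n K} (hy : e j * y * (e i)ᵀ = y) (hf : Fil (pᵀ * J * p) π Ψ s y) :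
    y ∈ ElS π (e j) (e i) (al s) (l s) := by
  obtain ⟨yb, h1, h2⟩ := hf
  have h3 := fil_span_one (A := al s) h.cr.ns h.cr.onto h.cr.form (h.cr.op s) (h.cr.sa s)
    (h.lnil s) (h.free s) h1 h2
  have h4 := ElS_block (ej := e j) (ei := e i) (h.eal j s) (h.eal i s)
    (fun r hr => ker_block h j hr) (fun r hr => ker_block h i hr) h3
  rwa [hy] at h4

/-- **single-arm memberships from the elementary ones** -/
theorem single_mem (h : Fr k arm J B N W F G p al tau β T Ψ D π e lam l TT) (i j : m) (s : Fin 3)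
    (S : Submodule K (Fin 3 → Matrix n n K))
    (hc : ∀ a a', a + a' + 1 = l s → ∀ u u', (Pi.single s (vecMulVec ((al s ^ a) *ᵥ (e j *ᵥ u))
      ((al s ^ a') *ᵥ (e i *ᵥ u'))) : Fin 3 → Matrix n n K) ∈ S)
    (hl : ∀ r u, π (e j *ᵥ r) = 0 →
      (Pi.single s (vecMulVec (e j *ᵥ r) (e i *ᵥ u)) : Fin 3 → Matrix n n K) ∈ S)
    (hr : ∀ u r, π (e i *ᵥ r) = 0 →
      (Pi.single s (vecMulVec (e j *ᵥ u) (e i *ᵥ r)) : Fin 3 → Matrix n n K) ∈ S)
    {y : Matrix n n K} (hy : e j * y * (e i)ᵀ = y) (hf : Fil (pᵀ * J * p) π Ψ s y) :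
    (Pi.single s y : Fin 3 → Matrix n n K) ∈ S := by
  have h1 := fil_span h i j s hy hf
  have h2 : ElS π (e j) (e i) (al s) (l s) ≤
      S.comap (LinearMap.single K (fun _ : Fin 3 => Matrix n n K) s) := by
    unfold ElS
    rw [Submodule.span_le]
    rintro x (⟨a, a', h, u, u', rfl⟩ | ⟨r, u, h, rfl⟩ | ⟨u, r, h, rfl⟩)
    · exact hc a a' h u u'
    · exact hl r u h
    · exact hr u r h
  exact h2 h1

end frame

end Crest.Agent.R172.RD
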