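import Crest.Agent.R172.RD0

/-!
Row 172 (S0260), (T0), any radical, any `D`: filtered tensors in the frame.

`Fil g π Ψ s y` (RD0) is stable under sums, under left and right multiplication by corrections of
`ZF`, under block cuts and under the connection of an `L`-fixed derivation.
-/

set_option autoImplicit false
set_option linter.unusedSectionVars false

namespace Crest.Agent.R172.FilZ

open Matrix Module Crest.Agent.R172.ZP Crest.Agent.R172.ZFr Crest.Agent.R172.FO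
open Crest.Agent.R172.FrmB

section Abs

variable {E : Type*} [Ring E]

theorem tail (S : AddSubgroup E) : ∀ (m : ℕ) (h : ℕ → E),
    (∀ k, ((DD : AddMonoid.End (ℕ → E)) ^ m) h k ∈ S) →
    (∃ N, ∀ k ≥ N, h k ∈ S) → ∀ k, h k ∈ S := by
  intro m
  induction m with
  | zero => intro h h1 _ k; simpa using h1 k
  | succ m ih =>
    rintro h h1 ⟨N, hN⟩
    have h2 : ∀ k, (DD h : ℕ → E) k ∈ S := by
      apply ih (DD h)
      · intro k
        have := h1 k
        rwa [pow_succ, AddMonoid.End.coe_mul, Function.comp_apply] at this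
      · exact ⟨N, fun k hk => by
          rw [DD_apply]; exact S.sub_mem (hN _ (Nat.le_succ_of_le hk)) (hN _ hk)⟩
    have h3 : ∀ j k, k + j ≥ N → h k ∈ S := by
      intro j
      induction j with
      | zero => intro k hk; exact hN k hk
      | succ j jh =>
        intro k hk
        have e : h k = h (k + 1) - (DD h : ℕ → E) k := by rw [DD_apply]; abel
        rw [e]
        exact S.sub_mem (jh (k + 1) (by omega)) (h2 k)
    intro k
    exact h3 N k (by omega)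

/-- `x P ∈ P E` -/
def Sr (P : E) : AddSubgroup E where
  carrier := {x | ∃ y, x * P = P * y}
  add_mem' := by
    rintro x x' ⟨y, h⟩ ⟨y', h'⟩
    exact ⟨y + y', by rw [add_mul, h, h', mul_add]⟩
  zero_mem' := ⟨0, by simp⟩
  neg_mem' := by
    rintro x ⟨y, h⟩
    exact ⟨-y, by rw [neg_mul, h, mul_neg]⟩

theorem shift {h : ℕ → E} {P : E} (hh : ∀ k, h (k + 2) * P = P * h k) (a k : ℕ) :
    h (k + 2 * a) * P ^ a = P ^ a * h k := by
  induction a with
  | zero => simp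
  | succ a ih =>
    have e : k + 2 * (a + 1) = (k + 2 * a) + 2 := by ring
    rw [e, pow_succ', ← mul_assoc, hh, mul_assoc, ih, mul_assoc]

theorem mem_Sr {h : ℕ → E} {P : E} (hn : NilAt DD h) (hh : ∀ k, h (k + 2) * P = P * h k)
    (a k : ℕ) : h k ∈ Sr (P ^ a) := by
  obtain ⟨m, hm⟩ := hn
  refine tail _ m h (fun k => by rw [hm]; exact (Sr _).zero_mem) ⟨2 * a, fun k hk => ?_⟩ k
  obtain ⟨j, rfl⟩ := Nat.exists_eq_add_of_le' hk
  exact ⟨h j, shift hh a j⟩

theorem der_pow (d : E → E)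
    (hmul : ∀ x y, d (x * y) = d x * y + x * d y) {h : ℕ → E} {P : E}
    (hh : ∀ k, h (k + 2) * P = P * h k) (hd : d P = (h 1 + h 2) * P) (a : ℕ) :
    d (P ^ a) = (∑ j ∈ Finset.range (2 * a), h (j + 1)) * P ^ a := by
  induction a with
  | zero =>
    have h1 := hmul 1 1
    rw [mul_one, mul_one, one_mul] at h1
    rw [pow_zero, Nat.mul_zero, Finset.range_zero, Finset.sum_empty, zero_mul]
    exact left_eq_add.mp h1
  | succ a ih =>
    have e : 2 * (a + 1) = 2 * a + 1 + 1 := by ring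
    have e2 : P * ∑ j ∈ Finset.range (2 * a), h (j + 1) =
        (∑ j ∈ Finset.range (2 * a), h (j + 1 + 1 + 1)) * P := by
      rw [Finset.mul_sum, Finset.sum_mul]
      refine Finset.sum_congr rfl fun j _ => ?_
      rw [← hh]
    rw [pow_succ', hmul, hd, ih, e, Finset.sum_range_succ', Finset.sum_range_succ',
      ← mul_assoc P, e2]
    noncomm_ring

theorem der_pow_mem (d : E → E)
    (hmul : ∀ x y, d (x * y) = d x * y + x * d y) {h : ℕ → E} {P : E} (hn : NilAt DD h)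
    (hh : ∀ k, h (k + 2) * P = P * h k) (hd : d P = (h 1 + h 2) * P) (a : ℕ) :
    ∃ y, d (P ^ a) = P ^ a * y := by
  have h1 : (∑ j ∈ Finset.range (2 * a), h (j + 1)) ∈ Sr (P ^ a) :=
    (Sr (P ^ a)).sum_mem fun j _ => mem_Sr hn hh a (j + 1)
  obtain ⟨y, hy⟩ := h1
  exact ⟨y, by rw [der_pow d hmul hh hd, hy]⟩

end Abs

section Core

variable {k K : Type*} [Field k] [Field K] [Algebra k K]
variable {M : Type*} [AddCommGroup M] [Module K M]

/-- the endomorphism `A` preserves the ranges of the powers of `P` -/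
def FilE (P A : End K M) : Prop := ∀ (a : ℕ) v, ∃ v', A ((P ^ a) v) = (P ^ a) v'

theorem FilE.zero {P : End K M} : FilE P (0 : End K M) := fun a v => ⟨0, by simp⟩

theorem FilE.add {P A A' : End K M} (h : FilE P A) (h' : FilE P A') : FilE P (A + A') := by
  intro a v
  obtain ⟨u, hu⟩ := h a v
  obtain ⟨u', hu'⟩ := h' a v
  exact ⟨u + u', by rw [LinearMap.add_apply, hu, hu', map_add]⟩

theorem FilE.smul {P A : End K M} (c : K) (h : FilE P A) : FilE P (c • A) := by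
  intro a v
  obtain ⟨u, hu⟩ := h a v
  exact ⟨c • u, by rw [LinearMap.smul_apply, hu, map_smul]⟩

theorem FilE.mul {P A A' : End K M} (h : FilE P A) (h' : FilE P A') : FilE P (A * A') := by
  intro a v
  obtain ⟨u, hu⟩ := h' a v
  obtain ⟨u', hu'⟩ := h a u
  exact ⟨u', by rw [Module.End.mul_apply, hu, hu']⟩

theorem FilE.of_comm {P A : End K M} {c : K} (h : ∀ v, A (P v) = c • P (A v)) : FilE P A := by
  intro a
  have key : ∀ (a : ℕ) v, A ((P ^ a) v) = c ^ a • (P ^ a) (A v) := by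
    intro a
    induction a with
    | zero => intro v; simp
    | succ a ih =>
      intro v
      rw [pow_succ, Module.End.mul_apply, ih, h, map_smul, Module.End.mul_apply, smul_smul,
        pow_succ]
  intro v
  exact ⟨c ^ a • A v, by rw [key, map_smul]⟩

theorem FilE.of_Sr {P x : End K M} (h : ∀ a : ℕ, x ∈ Sr (P ^ a)) : FilE P x := by
  intro a v
  obtain ⟨y, hy⟩ := h a
  exact ⟨y v, by rw [← Module.End.mul_apply, hy, Module.End.mul_apply]⟩

variable {κ : Type*} {T : End K M →ₗ[K] End K M} {Ψ : κ → End K M} {D : End K M}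

theorem fil_ZZ {z : End K M} (hz : z ∈ ZZ T 1 D Ψ) (s : κ) : FilE (Ψ s) z := by
  obtain ⟨h, h1, -, -, -, -, h6, h7⟩ := hz
  rw [← h6]
  exact FilE.of_Sr fun a => mem_Sr h1 (fun k => h7 k s) a 1

theorem fil_ZZ' {z : End K M} (hz : z ∈ ZZ T 1 D Ψ) (s : κ) : FilE (Ψ s) (T z) := by
  obtain ⟨h, h1, -, -, -, h5, -, h7⟩ := hz
  rw [← h5]
  exact FilE.of_Sr fun a => mem_Sr h1 (fun k => h7 k s) a 0

/-- the connection preserves `FilE` -/
theorem FilE.dE {d : Derivation k K K} {nb : M → M} (h : Conn d nb) {v : End K M}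
    (hv : v ∈ ZZ T 1 D Ψ) (s : κ)
    (hd : h.dE (Ψ s) = v * Ψ s + Ψ s * T v) {A : End K M} (hA : FilE (Ψ s) A) :
    FilE (Ψ s) (h.dE A) := by
  obtain ⟨u, h1, -, -, -, h5, h6, h7⟩ := hv
  have hd' : h.dE (Ψ s) = (u 1 + u 2) * Ψ s := by
    rw [hd, ← h5, ← h6, add_mul, h7]
  intro a m
  obtain ⟨y, hy⟩ := der_pow_mem h.dE h.dE_mul h1 (fun k => h7 k s) hd' a
  have key : ∀ m', nb ((Ψ s ^ a) m') = (Ψ s ^ a) (y m' + nb m') := by
    intro m'
    have := congrArg (fun X : End K M => X m') hy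
    simp only [Conn.dE_apply, Module.End.mul_apply] at this
    rw [map_add, ← this]
    abel
  obtain ⟨m1, hm1⟩ := hA a m
  obtain ⟨m2, hm2⟩ := hA a (y m + nb m)
  refine ⟨y m1 + nb m1 - m2, ?_⟩
  rw [Conn.dE_apply, hm1, key, key, hm2, ← map_sub]

end Core

section Frame

variable {ι : Type*} [Fintype ι] [DecidableEq ι] {δ : Type*} [Fintype δ] [DecidableEq δ]
variable {n : Type*} [Fintype n] [DecidableEq n]
variable {k K : Type*} [Field k] [Field K] [Algebra k K]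
variable {M : Type*} [AddCommGroup M] [Module K M]
variable {arm : δ → Fin 3} {J : Matrix ι ι K} {B : Matrix δ δ K}
  {N W : Submodule K (Matrix ι δ K)} {F G : Matrix ι δ K} {p : Matrix ι n K}
  {al : Fin 3 → Matrix n n K}
  {β : LinearMap.BilinForm K M} {T : Module.End K M →ₗ[K] Module.End K M}
  {Ψ : Fin 3 → Module.End K M} {π : (n → K) →ₗ[K] M} {g : Matrix n n K}

open Crest.Agent.R172.RD (Fil)

theorem cf (cr : RDEnd.Cr J p al β π Ψ T) : CF β T π (pᵀ * J * p) where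
  adj := ⟨cr.ns.symm, cr.ns.nd, cr.adj⟩
  surj := cr.onto
  form := cr.form

theorem Fil.add {s : Fin 3} {y y' : Matrix n n K} (h : Fil g π Ψ s y) (h' : Fil g π Ψ s y') :
    Fil g π Ψ s (y + y') := by
  obtain ⟨yb, h1, h2⟩ := h
  obtain ⟨yb', h1', h2'⟩ := h'
  refine ⟨yb + yb', fun u => ?_, FilE.add h2 h2'⟩
  rw [Matrix.add_mulVec, map_add, h1, h1', LinearMap.add_apply]

theorem Fil.smul {s : Fin 3} {y : Matrix n n K} (c : K) (h : Fil g π Ψ s y) :
    Fil g π Ψ s (c • y) := by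
  obtain ⟨yb, h1, h2⟩ := h
  refine ⟨c • yb, fun u => ?_, FilE.smul c h2⟩
  rw [Matrix.smul_mulVec, map_smul, h1, LinearMap.smul_apply]

theorem Fil.neg {s : Fin 3} {y : Matrix n n K} (h : Fil g π Ψ s y) : Fil g π Ψ s (-y) := by
  have := Fil.smul (-1) h
  rwa [neg_one_smul] at this

theorem Fil.of_ker {s : Fin 3} {y : Matrix n n K} (h : ∀ u, π (y *ᵥ (g *ᵥ u)) = 0) :
    Fil g π Ψ s y :=
  ⟨0, fun u => by rw [h, LinearMap.zero_apply], FilE.zero⟩

theorem Fil.mul_left {s : Fin 3} {y z : Matrix n n K} {zb : End K M} (hz : Lifts π z zb)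
    (hb : FilE (Ψ s) zb) (h : Fil g π Ψ s y) : Fil g π Ψ s (z * y) := by
  obtain ⟨yb, h1, h2⟩ := h
  refine ⟨zb * yb, fun u => ?_, FilE.mul hb h2⟩
  rw [← Matrix.mulVec_mulVec, hz, h1, Module.End.mul_apply]

/-- `zᵀ g u = g u'` with `π u' = T zb (π u)` -/
theorem transpose_g (h : CF β T π g) {z : Matrix n n K} {zb : End K M} (hz : Lifts π z zb)
    {u u' : n → K} (hu : π u' = T zb (π u)) : zᵀ *ᵥ (g *ᵥ u) = g *ᵥ u' := by
  rw [← sub_eq_zero]
  refine dotProduct_eq_zero _ fun w => ?_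
  rw [dotProduct_comm, dotProduct_sub, Matrix.dotProduct_mulVec, Matrix.vecMul_transpose,
    ← h.form, ← h.form, hz, hu, h.adj.symm (π w), h.adj.adj, h.adj.symm (π u), sub_self]

theorem Fil.mul_right (hc : CF β T π g) {s : Fin 3} {y z : Matrix n n K} {zb : End K M}
    (hz : Lifts π z zb) (hb : FilE (Ψ s) (T zb)) (h : Fil g π Ψ s y) :
    Fil g π Ψ s (y * zᵀ) := by
  obtain ⟨yb, h1, h2⟩ := h
  refine ⟨yb * T zb, fun u => ?_, FilE.mul h2 hb⟩
  obtain ⟨u', hu'⟩ := hc.surj (T zb (π u))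
  rw [← Matrix.mulVec_mulVec, transpose_g hc hz hu', h1, hu', Module.End.mul_apply]

/-- right multiplication by the transpose of a correction -/
theorem Fil.mul_ZF (hc : CF β T π g) {s : Fin 3} {y z : Matrix n n K} (hz : z ∈ ZF T π Ψ)
    (h : Fil g π Ψ s y) : Fil g π Ψ s (y * zᵀ) := by
  obtain ⟨zb, h1, h2⟩ := hz
  exact Fil.mul_right hc h1 (fil_ZZ h2 s) h

theorem sa_of (h : CF β T π g) {a : Matrix n n K} {ab : End K M} (hl : Lifts π a ab)
    (hT : T ab = ab) : aᵀ * g = g * a := by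
  apply Matrix.ext_of_mulVec_single
  intro i
  rw [← Matrix.mulVec_mulVec, ← Matrix.mulVec_mulVec]
  exact transpose_g h hl (u := Pi.single i 1) (u' := a *ᵥ Pi.single i 1) (by rw [hT]; exact hl _)

theorem flip_exact {a y : Matrix n n K} {c : K} (hg : gᵀ = g) (hc : c ≠ 0)
    (h : g * (y * aᵀ - c • (a * y)) * g = 0) : g * (yᵀ * aᵀ - c⁻¹ • (a * yᵀ)) * g = 0 := by
  have h1 := congrArg transpose h
  rw [transpose_mul, transpose_mul, transpose_sub, transpose_smul, transpose_mul, transpose_mul,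
    transpose_transpose, hg, transpose_zero] at h1
  have h2 : yᵀ * aᵀ - c⁻¹ • (a * yᵀ) = -(c⁻¹ • (a * yᵀ - c • (yᵀ * aᵀ))) := by
    rw [smul_sub, smul_smul, inv_mul_cancel₀ hc, one_smul, neg_sub]
  rw [h2, Matrix.mul_neg, Matrix.neg_mul, Matrix.mul_smul, Matrix.smul_mul, Matrix.mul_assoc, h1,
    smul_zero, neg_zero]

/-- a block idempotent descends to the core -/
theorem exists_eb (hc : CF β T π g) {e : Matrix n n K} (heg : eᵀ * g = g * e) :
    ∃ eb : End K M, Lifts π e eb ∧ T eb = eb := by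
  obtain ⟨eb, heb⟩ := hc.exists_lift (z := e) (N := eᵀ) heg.symm
  exact ⟨eb, heb, hc.T_eq heb heb heg.symm⟩

theorem eb_comm (cr : RDEnd.Cr J p al β π Ψ T) {e : Matrix n n K} {eb : End K M}
    (he : Lifts π e eb) {s : Fin 3} (hea : e * al s = al s * e) : FilE (Ψ s) eb := by
  refine FilE.of_comm (c := 1) fun v => ?_
  obtain ⟨y, rfl⟩ := cr.onto v
  rw [one_smul, cr.op, ← he, ← he, cr.op, Matrix.mulVec_mulVec, Matrix.mulVec_mulVec, hea]

/-- block cut -/
theorem Fil.cut (cr : RDEnd.Cr J p al β π Ψ T) {s : Fin 3} {y e e' : Matrix n n K}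
    (heg : eᵀ * (pᵀ * J * p) = (pᵀ * J * p) * e) (hea : e * al s = al s * e)
    (heg' : e'ᵀ * (pᵀ * J * p) = (pᵀ * J * p) * e') (hea' : e' * al s = al s * e')
    (h : Fil (pᵀ * J * p) π Ψ s y) : Fil (pᵀ * J * p) π Ψ s (e * y * e'ᵀ) := by
  obtain ⟨eb, h1, h2⟩ := exists_eb (cf cr) heg
  obtain ⟨eb', h1', h2'⟩ := exists_eb (cf cr) heg'
  refine Fil.mul_right (cf cr) h1' ?_ (Fil.mul_left h1 (eb_comm cr h1 hea) h)
  rw [h2']
  exact eb_comm cr h1' hea'

/-- scalar exact families are filtered -/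
theorem Fil.of_exact (cr : RDEnd.Cr J p al β π Ψ T) {s : Fin 3} {y : Matrix n n K} {c : K}
    (hc : c ≠ 0) (h : (pᵀ * J * p) * (y * (al s)ᵀ - c • (al s * y)) * (pᵀ * J * p) = 0) :
    Fil (pᵀ * J * p) π Ψ s y := by
  set g := pᵀ * J * p with hg
  have hf : CF β T π g := cf cr
  have hag : (al s)ᵀ * g = g * al s :=
    sa_of hf (fun u => (cr.op s u).symm) (hf.adj.eq_of fun x y => cr.sa s x y)
  -- `y g` descends
  have hle : LinearMap.ker π ≤ LinearMap.ker (π ∘ₗ Matrix.toLin' (y * g)) := by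
    intro u hu
    rw [LinearMap.mem_ker] at hu ⊢
    rw [LinearMap.comp_apply, Matrix.toLin'_apply, ← Matrix.mulVec_mulVec, (hf.ker u).1 hu,
      Matrix.mulVec_zero, map_zero]
  obtain ⟨yb, hyb⟩ : ∃ yb : End K M, ∀ u, π (y *ᵥ (g *ᵥ u)) = yb (π u) := by
    refine ⟨((LinearMap.ker π).liftQ (π ∘ₗ Matrix.toLin' (y * g)) hle) ∘ₗ
      (π.quotKerEquivOfSurjective cr.onto).symm.toLinearMap, fun u => ?_⟩
    have h1 : (π.quotKerEquivOfSurjective cr.onto).symm (π u) = (LinearMap.ker π).mkQ u := by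
      rw [LinearEquiv.symm_apply_eq]
      rfl
    rw [LinearMap.comp_apply, LinearEquiv.coe_coe, h1]
    change _ = π (Matrix.toLin' (y * g) u)
    rw [Matrix.toLin'_apply, Matrix.mulVec_mulVec]
  refine ⟨yb, hyb, ?_⟩
  refine FilE.of_comm (c := c) fun v => ?_
  obtain ⟨u, rfl⟩ := cr.onto v
  rw [cr.op, ← hyb, ← hyb, cr.op, ← map_smul, ← sub_eq_zero, ← map_sub, hf.ker]
  have e1 : y *ᵥ (g *ᵥ (al s *ᵥ u)) = (y * (al s)ᵀ * g) *ᵥ u := by
    rw [Matrix.mul_assoc, hag]; simp only [Matrix.mulVec_mulVec, Matrix.mul_assoc]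
  have e2 : c • (al s *ᵥ (y *ᵥ (g *ᵥ u))) = (c • (al s * y) * g) *ᵥ u := by
    rw [Matrix.smul_mul, Matrix.smul_mulVec]; simp only [Matrix.mulVec_mulVec, Matrix.mul_assoc]
  rw [e1, e2, ← Matrix.sub_mulVec, ← Matrix.sub_mul, Matrix.mulVec_mulVec, ← Matrix.mul_assoc, h,
    Matrix.zero_mulVec]

/-- transpose -/
theorem Fil.of_exact_transpose (cr : RDEnd.Cr J p al β π Ψ T) {s : Fin 3} {y : Matrix n n K}
    {c : K} (hc : c ≠ 0)
    (h : (pᵀ * J * p) * (y * (al s)ᵀ - c • (al s * y)) * (pᵀ * J * p) = 0)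
    (hJ : Jᵀ = J) :
    Fil (pᵀ * J * p) π Ψ s yᵀ := by
  refine Fil.of_exact cr (c := c⁻¹) (inv_ne_zero hc) (flip_exact ?_ hc h)
  simp only [transpose_mul, transpose_transpose, hJ, Matrix.mul_assoc]

/-- **the connection of an `L`-fixed derivation preserves `Fil`** -/
theorem Fil.nab (cr : RDEnd.Cr J p al β π Ψ T) {d : Derivation k K K} {P : Matrix n n K}
    (hg : (pᵀ * J * p).map d = Pᵀ * (pᵀ * J * p) + (pᵀ * J * p) * P)
    {zY : Matrix n n K}
    (hv : ∀ r, (pᵀ * J * p) * ((al r).map d + P * al r - al r * P) =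
      zYᵀ * (pᵀ * J * p) * al r + (pᵀ * J * p) * al r * zY)
    (hzY : zY ∈ ZF T π Ψ) {s : Fin 3} {y : Matrix n n K} (h : Fil (pᵀ * J * p) π Ψ s y) :
    Fil (pᵀ * J * p) π Ψ s (y.map d + P * y + y * Pᵀ) := by
  obtain ⟨yb, h1, h2⟩ := h
  obtain ⟨vb, v1, v2⟩ := hzY
  set g := pᵀ * J * p with hgdef
  have hf : CF β T π g := cf cr
  have hΨ : ∀ r, Lifts π (al r) (Ψ r) := fun r u => (cr.op r u).symm
  refine ⟨(hf.conn hg).dE yb, fun u => ?_, ?_⟩
  · rw [Conn.dE_apply, ← h1, hf.nb_q hg, hf.nb_q hg, ← h1, ← map_sub]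
    congr 1
    unfold fr
    rw [d_mulVec d y, d_mulVec d g, hg]
    simp only [Matrix.add_mulVec, Matrix.mulVec_add, Matrix.mulVec_mulVec, Matrix.mul_add,
      Matrix.add_mul, Matrix.mul_assoc]
    abel
  · refine FilE.dE (hf.conn hg) v2 s ?_ h2
    rw [hf.adj.TT]
    apply hf.adj.ext
    intro x x'
    obtain ⟨x, rfl⟩ := hf.surj x
    obtain ⟨x', rfl⟩ := hf.surj x'
    have e1 := hf.lifts_dE hg (hΨ s)
    rw [hf.adj.symm, ← e1, hf.form, Matrix.mulVec_mulVec, hv, LinearMap.add_apply,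
      Module.End.mul_apply, Module.End.mul_apply, map_add, LinearMap.add_apply, hf.adj.adj,
      ← v1, ← v1, ← hΨ, ← hΨ, hf.adj.symm (π (al s *ᵥ x)), hf.form,
      hf.adj.symm (π (al s *ᵥ (zY *ᵥ x))), hf.form, Matrix.add_mulVec, dotProduct_add]
    congr 1
    · rw [Matrix.mul_assoc, ← Matrix.mulVec_mulVec, Matrix.dotProduct_mulVec,
        Matrix.vecMul_transpose, Matrix.mulVec_mulVec]
    · simp only [Matrix.mulVec_mulVec, Matrix.mul_assoc]

end Frame

end Crest.Agent.R172.FilZ
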