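import Crest.Agent.R172.Ind3

/-!
Row 172, node IND: base change of subspaces along a field extension `L / K`.
-/

set_option autoImplicit false
set_option linter.unusedSectionVars false
set_option maxHeartbeats 400000

namespace Crest.Agent.R172.BC

open Matrix Crest.AlgebraR.SpinSaturation Crest.Agent.R172.SoGrade Crest.Agent.R172.Sp
open Crest.Agent.R172.Gen (Jm Ix emb IsSo)
open Crest.Agent.R172.CF Crest.Agent.R172.HM2 Crest.Agent.R172.HM8 Crest.Agent.R172.HM9 Module
open Crest.Agent.R172.Ind (GI kk mu perp Bd)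

variable {K L : Type} [Field K] [Field L] [Algebra K L]

/-- base change of a subspace of `K^ι` -/
def bcV (L : Type) [Field L] [Algebra K L] {ι : Type} (A : Submodule K (ι → K)) :
    Submodule L (ι → L) where
  carrier := {v | ∀ φ : L →ₗ[K] K, (fun i => φ (v i)) ∈ A}
  add_mem' := by
    intro v w hv hw φ
    have h : (fun i => φ ((v + w) i)) = (fun i => φ (v i)) + fun i => φ (w i) := by
      funext i; rw [Pi.add_apply, Pi.add_apply, map_add]
    rw [h]
    exact A.add_mem (hv φ) (hw φ)
  zero_mem' := by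
    intro φ
    have h : (fun i => φ ((0 : ι → L) i)) = 0 := by
      funext i; rw [Pi.zero_apply, Pi.zero_apply, map_zero]
    rw [h]
    exact A.zero_mem
  smul_mem' := by
    intro t v hv φ
    exact hv (φ ∘ₗ (LinearMap.mul K L t))

/-- base change of a subspace of matrices -/
def bcM (L : Type) [Field L] [Algebra K L] {ι δ : Type} (A : Submodule K (Matrix ι δ K)) :
    Submodule L (Matrix ι δ L) where
  carrier := {F | ∀ φ : L →ₗ[K] K, F.map φ ∈ A}
  add_mem' := by
    intro v w hv hw φ
    have h : (v + w).map φ = v.map φ + w.map φ := by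
      ext i j; rw [map_apply, Matrix.add_apply, Matrix.add_apply, map_apply, map_apply, map_add]
    rw [h]
    exact A.add_mem (hv φ) (hw φ)
  zero_mem' := by
    intro φ
    have h : (0 : Matrix ι δ L).map φ = 0 := by
      ext i j; rw [map_apply, Matrix.zero_apply, Matrix.zero_apply, map_zero]
    rw [h]
    exact A.zero_mem
  smul_mem' := by
    intro t v hv φ
    exact hv (φ ∘ₗ (LinearMap.mul K L t))

variable {ι δ : Type} [Fintype ι] [Fintype δ]

theorem mem_bcV {A : Submodule K (ι → K)} {v : ι → L} :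
    v ∈ bcV L A ↔ ∀ φ : L →ₗ[K] K, (fun i => φ (v i)) ∈ A := Iff.rfl

theorem mem_bcM {A : Submodule K (Matrix ι δ K)} {F : Matrix ι δ L} :
    F ∈ bcM L A ↔ ∀ φ : L →ₗ[K] K, F.map φ ∈ A := Iff.rfl

theorem exists_phi (K L : Type) [Field K] [Field L] [Algebra K L] :
    ∃ φ : L →ₗ[K] K, φ 1 = 1 := by
  obtain ⟨φ, hφ⟩ := LinearMap.exists_leftInverse_of_injective (Algebra.linearMap K L)
    (LinearMap.ker_eq_bot.2 (algebraMap K L).injective)
  refine ⟨φ, ?_⟩
  have h1 := LinearMap.congr_fun hφ 1
  simpa using h1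

theorem phi_alg (φ : L →ₗ[K] K) (x : K) : φ (algebraMap K L x) = x * φ 1 := by
  rw [Algebra.algebraMap_eq_smul_one, map_smul, smul_eq_mul]

theorem emb_mem_bcV {A : Submodule K (ι → K)} {v : ι → K} :
    (fun i => algebraMap K L (v i)) ∈ bcV L A ↔ v ∈ A := by
  constructor
  · intro h
    obtain ⟨φ, hφ⟩ := exists_phi K L
    have h1 := h φ
    have h2 : (fun i => φ (algebraMap K L (v i))) = v := by
      funext i; rw [phi_alg, hφ, mul_one]
    rw [h2] at h1
    exact h1
  · intro h φ
    have h2 : (fun i => φ (algebraMap K L (v i))) = φ 1 • v := by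
      funext i; rw [phi_alg, Pi.smul_apply, smul_eq_mul, mul_comm]
    rw [h2]
    exact A.smul_mem _ h

theorem emb_mem_bcM {A : Submodule K (Matrix ι δ K)} {F : Matrix ι δ K} :
    emb K L F ∈ bcM L A ↔ F ∈ A := by
  constructor
  · intro h
    obtain ⟨φ, hφ⟩ := exists_phi K L
    have h1 := h φ
    have h2 : (emb K L F).map φ = F := by
      ext i j; rw [map_apply, FO3.emb_apply', phi_alg, hφ, mul_one]
    rw [h2] at h1
    exact h1
  · intro h φ
    have h2 : (emb K L F).map φ = φ 1 • F := by
      ext i j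
      rw [map_apply, FO3.emb_apply', phi_alg, Matrix.smul_apply, smul_eq_mul, mul_comm]
    rw [h2]
    exact A.smul_mem _ h

/-- an element vanishes if all functionals vanish on it -/
theorem eq_zero_of_phi {x : L} (h : ∀ φ : L →ₗ[K] K, φ x = 0) : x = 0 := by
  obtain ⟨φ, hφ⟩ := exists_phi K L
  by_contra hx
  have h1 := h (φ ∘ₗ (LinearMap.mul K L x⁻¹))
  have h2 : φ (x⁻¹ * x) = 0 := h1
  rw [inv_mul_cancel₀ hx, hφ] at h2
  exact one_ne_zero h2

/-- expansion of a family in a basis -/
theorem expand {α : Type} [Fintype α] (v : α → L) :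
    ∃ (s : Finset (Module.Free.ChooseBasisIndex K L)), ∀ i,
      v i = ∑ b ∈ s, algebraMap K L ((Module.Free.chooseBasis K L).coord b (v i)) *
        (Module.Free.chooseBasis K L) b := by
  classical
  set bs := Module.Free.chooseBasis K L
  refine ⟨Finset.univ.biUnion fun i => (bs.repr (v i)).support, fun i => ?_⟩
  conv_lhs => rw [← bs.linearCombination_repr (v i), Finsupp.linearCombination_apply,
    Finsupp.sum]
  have h1 : (bs.repr (v i)).support ⊆ Finset.univ.biUnion fun i => (bs.repr (v i)).support :=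
    Finset.subset_biUnion_of_mem (fun i => (bs.repr (v i)).support) (Finset.mem_univ i)
  rw [Finset.sum_subset h1]
  · refine Finset.sum_congr rfl fun b _ => ?_
    rw [Algebra.smul_def]
    rfl
  · intro b _ hb
    rw [Finsupp.notMem_support_iff.1 hb, zero_smul]

theorem bcV_eq_span (A : Submodule K (ι → K)) :
    bcV L A = Submodule.span L ((fun v : ι → K => fun i => algebraMap K L (v i)) '' A) := by
  apply le_antisymm
  · intro v hv
    obtain ⟨s, hs⟩ := expand (K := K) v
    have h1 : v = ∑ b ∈ s, (Module.Free.chooseBasis K L) b •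
        (fun i => algebraMap K L ((Module.Free.chooseBasis K L).coord b (v i))) := by
      funext i
      rw [Finset.sum_apply]
      conv_lhs => rw [hs i]
      exact Finset.sum_congr rfl fun b _ => mul_comm _ _
    rw [h1]
    exact Submodule.sum_mem _ fun b _ => Submodule.smul_mem _ _
      (Submodule.subset_span ⟨_, hv ((Module.Free.chooseBasis K L).coord b), rfl⟩)
  · rw [Submodule.span_le]
    rintro _ ⟨v, hv, rfl⟩
    exact emb_mem_bcV.2 hv

theorem bcM_eq_span (A : Submodule K (Matrix ι δ K)) :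
    bcM L A = Submodule.span L ((fun F => emb K L F) '' A) := by
  apply le_antisymm
  · intro F hF
    obtain ⟨s, hs⟩ := expand (K := K) (fun x : ι × δ => F x.1 x.2)
    have h1 : F = ∑ b ∈ s, (Module.Free.chooseBasis K L) b •
        (emb K L (F.map ((Module.Free.chooseBasis K L).coord b))) := by
      ext i j
      rw [Matrix.sum_apply]
      have h2 := hs (i, j)
      simp only at h2
      conv_lhs => rw [h2]
      exact Finset.sum_congr rfl fun b _ => mul_comm _ _
    rw [h1]
    exact Submodule.sum_mem _ fun b _ => Submodule.smul_mem _ _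
      (Submodule.subset_span ⟨_, hF ((Module.Free.chooseBasis K L).coord b), rfl⟩)
  · rw [Submodule.span_le]
    rintro _ ⟨v, hv, rfl⟩
    exact emb_mem_bcM.2 hv

/-- general dimension statement -/
theorem finrank_gen {α : Type} [Fintype α] (A : Submodule K (α → K)) (A' : Submodule L (α → L))
    (hA : A' = Submodule.span L ((fun v : α → K => fun i => algebraMap K L (v i)) '' A)) :
    finrank L A' = finrank K A := by
  classical
  let b := Module.finBasis K A
  let e : Fin (finrank K A) → (α → L) := fun j i => algebraMap K L ((b j : α → K) i)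
  have hli : LinearIndependent L e := by
    rw [Fintype.linearIndependent_iff]
    intro l hl j
    apply eq_zero_of_phi (K := K)
    intro φ
    have h1 : ∑ j, φ (l j) • b j = 0 := by
      apply Subtype.ext
      rw [AddSubmonoidClass.coe_finset_sum, ZeroMemClass.coe_zero]
      funext i
      rw [Finset.sum_apply, Pi.zero_apply]
      have h2 := congrArg φ (congrFun hl i)
      rw [Finset.sum_apply, map_sum, Pi.zero_apply, map_zero] at h2
      rw [← h2]
      refine Finset.sum_congr rfl fun j _ => ?_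
      rw [Pi.smul_apply, smul_eq_mul, Submodule.coe_smul, Pi.smul_apply, smul_eq_mul]
      change _ = φ (l j * algebraMap K L _)
      rw [mul_comm (l j), ← Algebra.smul_def, map_smul, smul_eq_mul, mul_comm]
    exact Fintype.linearIndependent_iff.1 b.linearIndependent _ h1 j
  have hsp : A' = Submodule.span L (Set.range e) := by
    rw [hA]
    apply le_antisymm
    · rw [Submodule.span_le]
      rintro _ ⟨v, hv, rfl⟩
      have h1 : (fun i => algebraMap K L (v i)) =
          ∑ j, algebraMap K L (b.repr ⟨v, hv⟩ j) • e j := by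
        funext i
        rw [Finset.sum_apply]
        have h2 := congrArg (fun w : A => (w : α → K) i) (b.sum_repr ⟨v, hv⟩)
        simp only at h2
        rw [AddSubmonoidClass.coe_finset_sum, Finset.sum_apply] at h2
        rw [← h2, map_sum]
        refine Finset.sum_congr rfl fun j _ => ?_
        rw [Submodule.coe_smul, Pi.smul_apply, Pi.smul_apply, smul_eq_mul, smul_eq_mul, map_mul]
      simp only [SetLike.mem_coe]
      rw [h1]
      exact Submodule.sum_mem _ fun j _ => Submodule.smul_mem _ _ (Submodule.subset_span ⟨j, rfl⟩)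
    · rw [Submodule.span_le]
      rintro _ ⟨j, rfl⟩
      exact Submodule.subset_span ⟨_, (b j).2, rfl⟩
  rw [hsp, finrank_span_eq_card hli, Fintype.card_fin]

theorem finrank_bcV (A : Submodule K (ι → K)) : finrank L (bcV L A) = finrank K A :=
  finrank_gen A _ (bcV_eq_span A)

theorem finrank_bcM (A : Submodule K (Matrix ι δ K)) : finrank L (bcM L A) = finrank K A := by
  classical
  let eK : Matrix ι δ K ≃ₗ[K] (ι × δ → K) :=
    { toFun := fun F x => F x.1 x.2
      invFun := fun f => Matrix.of fun i j => f (i, j)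
      map_add' := fun _ _ => rfl
      map_smul' := fun _ _ => rfl
      left_inv := fun _ => rfl
      right_inv := fun _ => rfl }
  let eL : Matrix ι δ L ≃ₗ[L] (ι × δ → L) :=
    { toFun := fun F x => F x.1 x.2
      invFun := fun f => Matrix.of fun i j => f (i, j)
      map_add' := fun _ _ => rfl
      map_smul' := fun _ _ => rfl
      left_inv := fun _ => rfl
      right_inv := fun _ => rfl }
  have h1 : finrank L ((bcM L A).map eL.toLinearMap) = finrank K (A.map eK.toLinearMap) := by
    apply finrank_gen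
    rw [bcM_eq_span, Submodule.map_span]
    congr 1
    ext f
    constructor
    · rintro ⟨_, ⟨F, hF, rfl⟩, rfl⟩
      exact ⟨eK F, ⟨F, hF, rfl⟩, rfl⟩
    · rintro ⟨_, ⟨F, hF, rfl⟩, rfl⟩
      exact ⟨_, ⟨F, hF, rfl⟩, rfl⟩
  rw [LinearEquiv.finrank_map_eq, LinearEquiv.finrank_map_eq] at h1
  exact h1

theorem bcV_inf (A B : Submodule K (ι → K)) : bcV L (A ⊓ B) = bcV L A ⊓ bcV L B := by
  ext v
  exact ⟨fun h => ⟨fun φ => (h φ).1, fun φ => (h φ).2⟩, fun h φ => ⟨h.1 φ, h.2 φ⟩⟩

theorem bcM_inf (A B : Submodule K (Matrix ι δ K)) : bcM L (A ⊓ B) = bcM L A ⊓ bcM L B := by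
  ext v
  exact ⟨fun h => ⟨fun φ => (h φ).1, fun φ => (h φ).2⟩, fun h φ => ⟨h.1 φ, h.2 φ⟩⟩

theorem bcM_mono {A B : Submodule K (Matrix ι δ K)} (h : A ≤ B) : bcM L A ≤ bcM L B :=
  fun _ hF φ => h (hF φ)

theorem bcM_sup (A B : Submodule K (Matrix ι δ K)) : bcM L (A ⊔ B) = bcM L A ⊔ bcM L B := by
  apply le_antisymm
  · rw [bcM_eq_span, Submodule.span_le]
    rintro _ ⟨F, hF, rfl⟩
    obtain ⟨X, hX, Y, hY, rfl⟩ := Submodule.mem_sup.1 hF
    have h1 : emb K L (X + Y) = emb K L X + emb K L Y := by
      ext i j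
      rw [Matrix.add_apply, FO3.emb_apply', FO3.emb_apply', FO3.emb_apply', Matrix.add_apply,
        map_add]
    simp only [SetLike.mem_coe]
    rw [h1]
    exact Submodule.add_mem _ (Submodule.mem_sup_left (emb_mem_bcM.2 hX))
      (Submodule.mem_sup_right (emb_mem_bcM.2 hY))
  · exact sup_le (bcM_mono le_sup_left) (bcM_mono le_sup_right)

theorem app_mulVec {κ : Type} (T : Matrix κ ι K) (v : ι → L) (φ : L →ₗ[K] K) :
    (fun i => φ ((emb K L T *ᵥ v) i)) = T *ᵥ (fun j => φ (v j)) := by
  funext i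
  rw [mulVec, mulVec, dotProduct, dotProduct, map_sum]
  refine Finset.sum_congr rfl fun j _ => ?_
  rw [FO3.emb_apply', ← Algebra.smul_def, map_smul, smul_eq_mul]

theorem emb_mulVec {κ : Type} (T : Matrix κ ι K) (v : ι → K) :
    emb K L T *ᵥ (fun i => algebraMap K L (v i)) = fun i => algebraMap K L ((T *ᵥ v) i) := by
  funext i
  rw [mulVec, mulVec, dotProduct, dotProduct, map_sum]
  exact Finset.sum_congr rfl fun j _ => by rw [FO3.emb_apply', map_mul]

theorem bcV_map {κ : Type} [Fintype κ] (T : Matrix κ ι K) (A : Submodule K (ι → K)) :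
    bcV L (A.map (mulVecLin T)) = (bcV L A).map (mulVecLin (emb K L T)) := by
  rw [bcV_eq_span, bcV_eq_span, Submodule.map_span]
  congr 1
  ext f
  constructor
  · rintro ⟨_, ⟨F, hF, rfl⟩, rfl⟩
    exact ⟨_, ⟨F, hF, rfl⟩, emb_mulVec T F⟩
  · rintro ⟨_, ⟨F, hF, rfl⟩, rfl⟩
    exact ⟨_, ⟨F, hF, rfl⟩, (emb_mulVec T F).symm⟩

variable {n : ℕ} {a : Fin 3 → Fin n → ℤ}

theorem form_emb (v w : Ix n → K) :
    form n L (fun i => algebraMap K L (v i)) (fun i => algebraMap K L (w i)) =
      algebraMap K L (form n K v w) := by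
  rw [form_apply, form_apply, map_sum]
  exact Finset.sum_congr rfl fun p _ => by rw [map_mul]

theorem form_app (v : Ix n → L) (w : Ix n → K) (φ : L →ₗ[K] K) :
    φ (form n L v (fun i => algebraMap K L (w i))) = form n K (fun i => φ (v i)) w := by
  rw [form_apply, form_apply, map_sum]
  refine Finset.sum_congr rfl fun p _ => ?_
  rw [mul_comm, ← Algebra.smul_def, map_smul, smul_eq_mul, mul_comm]

theorem bcV_perp (S : Submodule K (Ix n → K)) : bcV L (perp S) = perp (bcV L S) := by
  ext v
  constructor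
  · intro hv w hw
    rw [bcV_eq_span] at hw
    induction hw using Submodule.span_induction with
    | mem x hx =>
      obtain ⟨y, hy, rfl⟩ := hx
      apply eq_zero_of_phi (K := K)
      intro φ
      rw [form_app]
      exact hv φ y hy
    | zero => rw [map_zero]
    | add x y _ _ hx hy => rw [map_add, hx, hy, add_zero]
    | smul t x _ hx => rw [map_smul, hx, smul_zero]
  · intro hv φ s hs
    have h1 := hv _ (emb_mem_bcV.2 hs)
    rw [← form_app, h1, map_zero]

theorem bcV_mono {A B : Submodule K (ι → K)} (h : A ≤ B) : bcV L A ≤ bcV L B :=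
  fun _ hF φ => h (hF φ)

theorem bcV_iso {S : Submodule K (Ix n → K)} (h : Ind.Iso S) : Ind.Iso (bcV L S) := by
  apply Ind.Iso.of_le_perp
  rw [← bcV_perp]
  exact bcV_mono h.le_perp

theorem bcV_Cs (X : Ix n → Prop) : bcV L (Cs K X) = Cs L X := by
  ext v
  constructor
  · intro h p hp
    exact eq_zero_of_phi (K := K) fun φ => h φ p hp
  · intro h φ p hp
    change φ (v p) = 0
    rw [h p hp, map_zero]

theorem bcV_Co {g : Matrix (Ix n) (Ix n) K} (_hg : Orth g) (X : Ix n → Prop) :
    bcV L (Co g X) = Co (emb K L g) X := by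
  rw [Co, Co, bcV_map, bcV_Cs]

theorem bcM_SU (S : Submodule K (Ix n → K)) :
    bcM L (SU S : Submodule K (Matrix (Ix n) δ K)) = SU (bcV L S) := by
  ext F
  exact ⟨fun h d φ => h φ d, fun h φ d => h d φ⟩

theorem bcM_N (c : Cfg n a) {g : Fin 3 → Matrix (Ix n) (Ix n) K}
    (hg : ∀ s, (g s)ᵀ * Jm n K * g s = Jm n K) :
    bcM L (c.N g) = c.N (fun s => emb K L (g s)) := by
  ext F
  rw [mem_N', mem_bcM]
  have h1 : ∀ d, Co (emb K L (g (c.arm d))) (Gd c d) = bcV L (Co (g (c.arm d)) (Gd c d)) :=
    fun d => (bcV_Co (hg _) _).symm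
  constructor
  · intro h d
    rw [h1]
    intro φ
    exact (mem_N' c).1 (h φ) d
  · intro h φ
    rw [mem_N']
    intro d
    have h2 := h d
    rw [h1] at h2
    exact h2 φ

theorem bcM_VL {c : Cfg n a} (p : Pol c) [Algebra ℂ K] [Algebra ℂ L] [IsScalarTower ℂ K L]
    {H : Matrix (Fin p.m) (Fin p.m) K} (_hH : Hᵀ = -H) :
    bcM L (VL (p.LH H) : Submodule K (Matrix (Ix n) c.δ K)) = VL (p.LH (emb K L H)) := by
  have key : bcV L (p.LH H) = p.LH (emb K L H) := by
    have h1 : p.LH H = LinearMap.range (mulVecLin (p.P H)) := rfl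
    have h2 : p.LH (emb K L H) = LinearMap.range (mulVecLin (p.P (emb K L H))) := rfl
    rw [h1, h2, LinearMap.range_eq_map, LinearMap.range_eq_map, bcV_map, FO3.emb_P]
    congr 1
    ext v
    exact ⟨fun _ => trivial, fun _ φ => trivial⟩
  ext F
  rw [← key]
  exact ⟨fun h d φ => h φ d, fun h φ d => h d φ⟩

theorem kk_bc {c : Cfg n a} (p : Pol c) [Algebra ℂ K] [Algebra ℂ L] [IsScalarTower ℂ K L]
    {g : Fin 3 → Matrix (Ix n) (Ix n) K} (hg : ∀ s, (g s)ᵀ * Jm n K * g s = Jm n K)
    {H : Matrix (Fin p.m) (Fin p.m) K} (hH : Hᵀ = -H) :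
    kk c p (fun s => emb K L (g s)) (emb K L H) = kk c p g H := by
  rw [kk, kk, ← bcM_VL p hH, ← bcM_N c hg, ← bcM_inf, finrank_bcM]

theorem mu_bc {c : Cfg n a} (p : Pol c)
    {g : Fin 3 → Matrix (Ix n) (Ix n) K} (hg : ∀ s, (g s)ᵀ * Jm n K * g s = Jm n K)
    (S : Submodule K (Ix n → K)) :
    mu c p (fun s => emb K L (g s)) (bcV L S) = mu c p g S := by
  rw [mu, mu, ← bcM_SU, ← bcM_N c hg, ← bcM_inf, finrank_bcM, finrank_bcV]

end Crest.Agent.R172.BC
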