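import Crest.Agent.R172.FO3

/-!
Row 172, node IND: extension of derivations, generic rotations.
-/

set_option autoImplicit false
set_option linter.unusedSectionVars false
set_option maxHeartbeats 400000

namespace Crest.Agent.R172.Ext

open Matrix Crest.AlgebraR.SpinSaturation Crest.Agent.R172.SoGrade
open Crest.Agent.R172.Gen (Jm Ix emb IsSo)
open Crest.Agent.R172.CF Module

/-- a derivation of `K` extends to every extension field (char 0) -/
theorem extend_der {K L : Type} [Field K] [Field L] [Algebra K L] [Algebra ℂ K] [Algebra ℂ L]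
    [IsScalarTower ℂ K L] (D0 : Derivation ℂ K K) :
    ∃ D : Derivation ℂ L L, ∀ x, D (algebraMap K L x) = algebraMap K L (D0 x) := by
  have hc : CharZero K := charZero_of_injective_algebraMap (algebraMap ℂ K).injective
  obtain ⟨D, hD, -⟩ := Gen.exists_derivation (k := ℂ) (K := K) (L := L) (ι := Empty)
    (v := fun i : Empty => i.elim) (by
      rw [algebraicIndependent_empty_type_iff]
      exact (algebraMap K L).injective)
    ((Algebra.linearMap K L).compDer D0) (fun i : Empty => i.elim)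
  exact ⟨D, fun x => hD x⟩

theorem isSo_add {n : ℕ} {L : Type} [Field L] {X Y : Matrix (Ix n) (Ix n) L} (hX : IsSo X)
    (hY : IsSo Y) : IsSo (X + Y) := by
  unfold IsSo at *
  rw [transpose_add, Matrix.add_mul, Matrix.mul_add]
  calc Xᵀ * Jm n L + Yᵀ * Jm n L + (Jm n L * X + Jm n L * Y)
      = (Xᵀ * Jm n L + Jm n L * X) + (Yᵀ * Jm n L + Jm n L * Y) := by abel
    _ = 0 := by rw [hX, hY, add_zero]

theorem isSo_neg {n : ℕ} {L : Type} [Field L] {X : Matrix (Ix n) (Ix n) L} (hX : IsSo X) :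
    IsSo (-X) := by
  unfold IsSo at *
  rw [transpose_neg, Matrix.neg_mul, Matrix.mul_neg, ← neg_add, hX, neg_zero]

theorem inv_left {n : ℕ} {L : Type} [Field L] {h : Matrix (Ix n) (Ix n) L}
    (hh : hᵀ * Jm n L * h = Jm n L) : (Jm n L * hᵀ * Jm n L) * h = 1 := by
  have : (Jm n L * hᵀ * Jm n L) * h = Jm n L * (hᵀ * Jm n L * h) := by
    simp only [Matrix.mul_assoc]
  rw [this, hh, Jm_sq]

theorem inv_right {n : ℕ} {L : Type} [Field L] {h : Matrix (Ix n) (Ix n) L}
    (hh : hᵀ * Jm n L * h = Jm n L) : h * (Jm n L * hᵀ * Jm n L) = 1 :=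
  mul_eq_one_comm.1 (inv_left hh)

/-- the logarithmic derivative of an orthogonal matrix -/
theorem isSo_log {n : ℕ} {L : Type} [Field L] [Algebra ℂ L] {h : Matrix (Ix n) (Ix n) L}
    (hh : hᵀ * Jm n L * h = Jm n L) (D : Derivation ℂ L L) :
    IsSo (h.map D * (Jm n L * hᵀ * Jm n L)) := by
  have h1 : (h.map D)ᵀ * Jm n L * h + hᵀ * Jm n L * h.map D = 0 := by
    have h2 : (hᵀ * Jm n L * h).map D = 0 := by rw [hh, FO3.Jm_der]
    rw [FO3.map_der_mul, FO3.map_der_mul, FO3.Jm_der, Matrix.mul_zero, add_zero] at h2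
    exact h2
  -- let `G = h⁻¹`
  have hGJ : (Jm n L * hᵀ * Jm n L)ᵀ = Jm n L * h * Jm n L := by
    rw [transpose_mul, transpose_mul, transpose_transpose, Jm_transpose, ← Matrix.mul_assoc]
  unfold IsSo
  rw [transpose_mul, hGJ]
  have h3 : Jm n L * h * Jm n L * (h.map D)ᵀ * Jm n L +
      Jm n L * (h.map D * (Jm n L * hᵀ * Jm n L)) =
      Jm n L * h * Jm n L * ((h.map D)ᵀ * Jm n L * h + hᵀ * Jm n L * h.map D) *
        (Jm n L * hᵀ * Jm n L) := by
    have h4 : Jm n L * h * Jm n L * ((h.map D)ᵀ * Jm n L * h) * (Jm n L * hᵀ * Jm n L) =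
        Jm n L * h * Jm n L * (h.map D)ᵀ * Jm n L * (h * (Jm n L * hᵀ * Jm n L)) := by
      simp only [Matrix.mul_assoc]
    have h5 : Jm n L * h * Jm n L * (hᵀ * Jm n L * h.map D) * (Jm n L * hᵀ * Jm n L) =
        Jm n L * (h * (Jm n L * hᵀ * Jm n L)) * (h.map D * (Jm n L * hᵀ * Jm n L)) := by
      simp only [Matrix.mul_assoc]
    rw [Matrix.mul_add, Matrix.add_mul, h4, h5, inv_right hh, Matrix.mul_one, Matrix.mul_one]
  rw [h3, h1, Matrix.mul_zero, Matrix.zero_mul]

/-- node R -/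
theorem exists_rot (K : Type) [Field K] [Algebra ℂ K] (n : ℕ) :
    ∃ (L : Type) (_ : Field L) (_ : Algebra K L) (_ : Algebra ℂ L) (_ : IsScalarTower ℂ K L)
      (_ : IsAlgClosed L) (h : Matrix (Ix n) (Ix n) L), hᵀ * Jm n L * h = Jm n L ∧
      ∀ (D0 : Derivation ℂ K K) (Y : Matrix (Ix n) (Ix n) L), IsSo Y →
        ∃ D : Derivation ℂ L L, (∀ x, D (algebraMap K L x) = algebraMap K L (D0 x)) ∧
          h.map D = Y * h := by
  have hc : CharZero K := charZero_of_injective_algebraMap (algebraMap ℂ K).injective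
  obtain ⟨L, iL, iKL, icl, icz, g, H, horth, -, -, -, -, hdir, -⟩ :=
    Gen.package K (n := n) (M := Fin 0) (fun _ => 1) (fun _ => by simp)
  letI iCL : Algebra ℂ L := ((algebraMap K L).comp (algebraMap ℂ K)).toAlgebra
  haveI ist : IsScalarTower ℂ K L := IsScalarTower.of_algebraMap_eq' rfl
  refine ⟨L, iL, iKL, iCL, ist, icl, g 0, horth 0, ?_⟩
  intro D0 Y hY
  obtain ⟨D1, hD1⟩ := extend_der (L := L) D0
  have hZ := isSo_log (horth 0) D1
  have hW : IsSo (Y + -((g 0).map D1 * (Jm n L * (g 0)ᵀ * Jm n L))) := isSo_add hY (isSo_neg hZ)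
  obtain ⟨D2, hD2, -⟩ := hdir L (fun _ => Y + -((g 0).map D1 * (Jm n L * (g 0)ᵀ * Jm n L)))
    (fun _ => hW) 0 (by simp)
  have hD2' := hD2 0
  have he : emb L L (g 0) = g 0 := by
    ext i j; rfl
  rw [he] at hD2'
  refine ⟨D1 + D2.restrictScalars ℂ, fun x => ?_, ?_⟩
  · rw [Derivation.add_apply, hD1]
    have : (D2.restrictScalars ℂ) (algebraMap K L x) = D2 (algebraMap K L x) := rfl
    rw [this, Derivation.map_algebraMap, add_zero]
  · have h1 : (g 0).map (D1 + D2.restrictScalars ℂ) = (g 0).map D1 + (g 0).map D2 := by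
      ext i j; rfl
    rw [h1, hD2', Matrix.add_mul, Matrix.neg_mul, Matrix.mul_assoc ((g 0).map D1),
      inv_left (horth 0), Matrix.mul_one]
    abel

end Crest.Agent.R172.Ext
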