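import Crest.Agent.R172.Ind3
import Crest.Agent.R172.IndExtA

/-!
Row 172, node IND: extension of generic instances.
-/

set_option autoImplicit false
set_option linter.unusedSectionVars false
set_option maxHeartbeats 400000

namespace Crest.Agent.R172.Ext

open Matrix Crest.AlgebraR.SpinSaturation Crest.Agent.R172.SoGrade Crest.Agent.R172.Sp
open Crest.Agent.R172.Gen (Jm Ix emb IsSo)
open Crest.Agent.R172.CF Crest.Agent.R172.HM8 Crest.Agent.R172.HM9 Module
open Crest.Agent.R172.Ind (GI kk mu perp Bd)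

theorem emb_self2 {K : Type} [Field K] {α β : Type*} (A : Matrix α β K) : emb K K A = A := by
  ext x y; rfl

/-- GPt gives GI -/
theorem gi_of_GPt {n : ℕ} {a : Fin 3 → Fin n → ℤ} {c : Cfg n a} (p : Pol c) {K : Type} [Field K]
    [Algebra ℂ K] {g : Fin 3 → Matrix (Ix n) (Ix n) K} {H : Matrix (Fin p.m) (Fin p.m) K}
    (hG : Top.GPt n p.m K g H) : GI c p K g H where
  orth := hG.orth
  skew := hG.skew
  dir := by
    intro X hX G hG'
    obtain ⟨D, hD1, hD2⟩ := hG.dir K X hX G hG'
    refine ⟨D, fun F hF => FO3.onN c D (fun s => ?_) hF, ?_⟩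
    · have := hD1 s
      rwa [emb_self2] at this
    · rwa [emb_self2] at hD2

/-- `FO.Data` at a generic instance -/
theorem data_of_GI {n : ℕ} {a : Fin 3 → Fin n → ℤ} {c : Cfg n a} (p : Pol c) {K : Type} [Field K]
    [Algebra ℂ K] {g : Fin 3 → Matrix (Ix n) (Ix n) K} {H : Matrix (Fin p.m) (Fin p.m) K}
    (hG : GI c p K g H) : FO.Data ℂ c.arm (Jm n K) (c.B K) (c.N g) (VL (p.LH H)) where
  J_symm := Jm_transpose n K
  J_unit := ⟨⟨Jm n K, Jm n K, Jm_sq n K, Jm_sq n K⟩, rfl⟩
  J_const := FO3.Jm_der n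
  B_symm := c.B_transpose K
  B_unit := ⟨⟨c.B K, c.B K, c.B_sq K, c.B_sq K⟩, rfl⟩
  B_const := FO3.B_der c
  B_arm := FO3.B_arm c
  N_arm := fun F hF s => FO3.N_arm c g hF s
  N_iso := fun F hF F' hF' => FO3.N_iso c hG.orth hF hF'
  W_iso := fun F hF F' hF' => FO3.W_iso p hG.skew hF hF'
  W_left := fun F hF A => FO3.W_left p hF A
  dir := by
    intro X ξ hX hξ
    obtain ⟨D, hD1, hD2⟩ := hG.dir X hX (FO3.dirH p H ξ) (FO3.dirH_skew p H hξ)
    exact ⟨D, ⟨fun F hF => hD1 F hF, fun F hF => FO3.onW p hG.skew D hD2 hF⟩⟩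

section act

variable {n : ℕ} {δ : Type} [Fintype δ] [DecidableEq δ] {K L : Type} [Field K] [Field L]

theorem act_add_right (arm : δ → Fin 3) (X : Fin 3 → Matrix (Ix n) (Ix n) K)
    (F G : Matrix (Ix n) δ K) : FO.act arm X (F + G) = FO.act arm X F + FO.act arm X G :=
  (actL arm X).map_add F G

theorem act_smul_right (arm : δ → Fin 3) (X : Fin 3 → Matrix (Ix n) (Ix n) K) (t : K)
    (F : Matrix (Ix n) δ K) : FO.act arm X (t • F) = t • FO.act arm X F :=
  (actL arm X).map_smul t F

theorem act_add_left (arm : δ → Fin 3) (X Y : Fin 3 → Matrix (Ix n) (Ix n) K)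
    (F : Matrix (Ix n) δ K) :
    FO.act arm (fun s => X s + Y s) F = FO.act arm X F + FO.act arm Y F := by
  ext x d
  rw [Matrix.add_apply, act_apply, act_apply, act_apply, Matrix.add_mul, Matrix.add_apply]

theorem act_smul_left (arm : δ → Fin 3) (t : K) (X : Fin 3 → Matrix (Ix n) (Ix n) K)
    (F : Matrix (Ix n) δ K) :
    FO.act arm (fun s => t • X s) F = t • FO.act arm X F := by
  ext x d
  rw [Matrix.smul_apply, act_apply, act_apply, Matrix.smul_mul, Matrix.smul_apply]

theorem act_const (arm : δ → Fin 3) (Y : Matrix (Ix n) (Ix n) K) (F : Matrix (Ix n) δ K) :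
    FO.act arm (fun _ => Y) F = Y * F := by
  ext x d
  rw [act_apply]

theorem act_mul_left (arm : δ → Fin 3) (A : Matrix (Ix n) (Ix n) K)
    (X : Fin 3 → Matrix (Ix n) (Ix n) K) (F : Matrix (Ix n) δ K) :
    FO.act arm (fun s => A * X s) F = A * FO.act arm X F := by
  rw [← act_act, act_const]

theorem act_mul_right (arm : δ → Fin 3) (A : Matrix (Ix n) (Ix n) K)
    (X : Fin 3 → Matrix (Ix n) (Ix n) K) (F : Matrix (Ix n) δ K) :
    FO.act arm X (A * F) = FO.act arm (fun s => X s * A) F := by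
  rw [← act_act, act_const]

theorem emb_act [Algebra K L] (arm : δ → Fin 3) (X : Fin 3 → Matrix (Ix n) (Ix n) K)
    (F : Matrix (Ix n) δ K) :
    emb K L (FO.act arm X F) = FO.act arm (fun s => emb K L (X s)) (emb K L F) := by
  ext x d
  rw [act_apply, FO3.emb_apply', act_apply, ← FO3.emb_apply', FO3.emb_mul']

end act

section ext

variable {n : ℕ} {a : Fin 3 → Fin n → ℤ} {c : Cfg n a} {K L : Type} [Field K]
  [Field L] [Algebra K L] [Algebra ℂ K] [Algebra ℂ L] [IsScalarTower ℂ K L]

theorem emb_mem_N' {g : Fin 3 → Matrix (Ix n) (Ix n) K}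
    {F : Matrix (Ix n) c.δ K} (hF : F ∈ c.N g) : emb K L F ∈ c.N (fun s => emb K L (g s)) := by
  obtain ⟨G, hG, rfl⟩ := c.mem_N.1 hF
  refine c.mem_N.2 ⟨emb K L G, ?_, ?_⟩
  · intro i d
    refine ⟨fun h => ?_, fun h => ?_⟩
    · rw [FO3.emb_apply', (hG i d).1 h, map_zero]
    · rw [FO3.emb_apply', (hG i d).2 h, map_zero]
  · rw [emb_act]

/-- `N` over the big field is spanned by `N` over the small field -/
theorem N_induction {g : Fin 3 → Matrix (Ix n) (Ix n) K}
    (P : Submodule L (Matrix (Ix n) c.δ L))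
    (h : ∀ F ∈ c.N g, ∀ t : L, t • emb K L F ∈ P) : c.N (fun s => emb K L (g s)) ≤ P := by
  classical
  rintro F ⟨G, hG, rfl⟩
  rw [Matrix.matrix_eq_sum_single G, map_sum]
  refine Submodule.sum_mem _ fun x _ => ?_
  rw [map_sum]
  refine Submodule.sum_mem _ fun d _ => ?_
  by_cases h0 : G x d = 0
  · rw [h0]
    simp
  · have h1 : (Matrix.single x d (1 : K)) ∈ c.nstd K := by
      intro i e
      refine ⟨fun hA => ?_, fun hA => ?_⟩
      · rw [Matrix.single_apply]
        split_ifs with h2
        · exfalso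
          obtain ⟨rfl, rfl⟩ := h2
          exact h0 ((hG i d).1 hA)
        · rfl
      · rw [Matrix.single_apply]
        split_ifs with h2
        · exfalso
          obtain ⟨rfl, rfl⟩ := h2
          exact h0 ((hG i d).2 hA)
        · rfl
    have h2 := h _ (c.mem_N.2 ⟨_, h1, rfl⟩) (G x d)
    rw [emb_act] at h2
    have h3 : Matrix.single x d (G x d) = G x d • emb K L (Matrix.single x d (1 : K)) := by
      ext i j
      rw [Matrix.smul_apply, FO3.emb_apply', Matrix.single_apply, Matrix.single_apply]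
      split_ifs
      · rw [map_one, smul_eq_mul, mul_one]
      · rw [map_zero, smul_zero]
    rw [h3, LinearMap.map_smul]
    exact h2

/-- the submodule of the `F ∈ N` on which the derivation realises the direction `Z` -/
def GoodF (N : Submodule L (Matrix (Ix n) c.δ L)) (D : Derivation ℂ L L)
    (Z : Fin 3 → Matrix (Ix n) (Ix n) L) : Submodule L (Matrix (Ix n) c.δ L) where
  carrier := {F | F ∈ N ∧ F.map D - FO.act c.arm Z F ∈ N}
  zero_mem' := by
    refine ⟨Submodule.zero_mem _, ?_⟩
    have e1 : (0 : Matrix (Ix n) c.δ L).map D = 0 := by ext i j; simp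
    have e2 : FO.act c.arm Z (0 : Matrix (Ix n) c.δ L) = 0 := (actL c.arm Z).map_zero
    rw [e1, e2, sub_zero]
    exact Submodule.zero_mem _
  add_mem' := by
    rintro F G ⟨hF1, hF2⟩ ⟨hG1, hG2⟩
    refine ⟨Submodule.add_mem _ hF1 hG1, ?_⟩
    have e1 : (F + G).map D = F.map D + G.map D := by ext i j; simp
    rw [e1, act_add_right, add_sub_add_comm]
    exact Submodule.add_mem _ hF2 hG2
  smul_mem' := by
    rintro t F ⟨hF1, hF2⟩
    refine ⟨Submodule.smul_mem _ _ hF1, ?_⟩
    have e1 : (t • F).map D = D t • F + t • F.map D := by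
      ext i j
      simp only [map_apply, Matrix.smul_apply, Matrix.add_apply, smul_eq_mul,
        Derivation.leibniz]
      ring
    rw [e1, act_smul_right, add_sub_assoc, ← smul_sub]
    exact Submodule.add_mem _ (Submodule.smul_mem _ _ hF1) (Submodule.smul_mem _ _ hF2)

variable (c) in
/-- the realisable directions -/
def Real (g : Fin 3 → Matrix (Ix n) (Ix n) L) {m : ℕ} (H : Matrix (Fin m) (Fin m) L)
    (h : Matrix (Ix n) (Ix n) L) :
    Submodule L ((Fin 3 → Matrix (Ix n) (Ix n) L) × Matrix (Fin m) (Fin m) L) where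
  carrier := {x | ∃ (D : Derivation ℂ L L) (Y : Matrix (Ix n) (Ix n) L), h.map D = Y * h ∧
    (∀ F ∈ c.N g, F.map D - FO.act c.arm (fun s => x.1 s + Y) F ∈ c.N g) ∧ H.map D = x.2}
  zero_mem' := by
    refine ⟨0, 0, ?_, fun F hF => ?_, ?_⟩
    · rw [Matrix.zero_mul]; ext i j; rfl
    · have h1 : F.map (0 : Derivation ℂ L L) = 0 := by ext i j; rfl
      have h2 : FO.act c.arm (fun s => (0 : (Fin 3 → Matrix (Ix n) (Ix n) L) ×
          Matrix (Fin m) (Fin m) L).1 s + (0 : Matrix (Ix n) (Ix n) L)) F = 0 := by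
        ext x d
        rw [act_apply]
        simp
      rw [h1, h2, sub_zero]
      exact Submodule.zero_mem _
    · ext i j; rfl
  add_mem' := by
    rintro x y ⟨D1, Y1, h1, h2, h3⟩ ⟨D2, Y2, k1, k2, k3⟩
    refine ⟨D1 + D2, Y1 + Y2, ?_, fun F hF => ?_, ?_⟩
    · rw [Matrix.add_mul, ← h1, ← k1]; ext i j; rfl
    · have e1 : F.map (D1 + D2) = F.map D1 + F.map D2 := by ext i j; rfl
      have e2 : FO.act c.arm (fun s => (x + y).1 s + (Y1 + Y2)) F =
          FO.act c.arm (fun s => x.1 s + Y1) F + FO.act c.arm (fun s => y.1 s + Y2) F := by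
        rw [← act_add_left]
        congr 1
        funext s
        rw [Prod.fst_add, Pi.add_apply]
        abel
      rw [e1, e2, add_sub_add_comm]
      exact Submodule.add_mem _ (h2 F hF) (k2 F hF)
    · rw [Prod.snd_add, ← h3, ← k3]; ext i j; rfl
  smul_mem' := by
    rintro t x ⟨D1, Y1, h1, h2, h3⟩
    refine ⟨t • D1, t • Y1, ?_, fun F hF => ?_, ?_⟩
    · rw [Matrix.smul_mul, ← h1]; ext i j; rfl
    · have e1 : F.map (t • D1) = t • F.map D1 := by ext i j; rfl
      have e2 : FO.act c.arm (fun s => (t • x).1 s + t • Y1) F =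
          t • FO.act c.arm (fun s => x.1 s + Y1) F := by
        rw [← act_smul_left]
        congr 1
        funext s
        rw [Prod.smul_fst, Pi.smul_apply, smul_add]
      rw [e1, e2, ← smul_sub]
      exact Submodule.smul_mem _ _ (h2 F hF)
    · rw [Prod.smul_snd, ← h3]; ext i j; rfl

/-- the basic skew matrix -/
def sk {α : Type*} [DecidableEq α] (K : Type*) [Field K] (i j : α) : Matrix α α K :=
  Matrix.single i j 1 - Matrix.single j i 1

theorem sk_transpose {α : Type*} [DecidableEq α] (i j : α) : (sk K i j)ᵀ = -(sk K i j) := by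
  rw [sk, transpose_sub, transpose_single, transpose_single, neg_sub]

theorem emb_sk {α : Type*} [DecidableEq α] (i j : α) : emb K L (sk K i j) = sk L i j := by
  ext x y
  rw [FO3.emb_apply', sk, sk, Matrix.sub_apply, Matrix.sub_apply, Matrix.single_apply,
    Matrix.single_apply, Matrix.single_apply, Matrix.single_apply, map_sub]
  split_ifs <;> simp

theorem skew_expand {α : Type*} [DecidableEq α] [Fintype α] (h2 : (2 : L) ≠ 0)
    {S : Matrix α α L} (hS : Sᵀ = -S) :
    S = ∑ i, ∑ j, (S i j / 2) • sk L i j := by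
  have h1 : ∑ i, ∑ j, (S i j / 2) • sk L i j =
      (∑ i, ∑ j, Matrix.single i j (S i j / 2)) - ∑ i, ∑ j, Matrix.single j i (S i j / 2) := by
    rw [← Finset.sum_sub_distrib]
    refine Finset.sum_congr rfl fun i _ => ?_
    rw [← Finset.sum_sub_distrib]
    refine Finset.sum_congr rfl fun j _ => ?_
    rw [sk, smul_sub, Matrix.smul_single, Matrix.smul_single, smul_eq_mul, mul_one]
  have e1 : ∑ i, ∑ j, Matrix.single i j (S i j / 2) = (2⁻¹ : L) • S := by
    have := Matrix.matrix_eq_sum_single ((2⁻¹ : L) • S)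
    rw [this]
    refine Finset.sum_congr rfl fun i _ => Finset.sum_congr rfl fun j _ => ?_
    rw [Matrix.smul_apply, smul_eq_mul, div_eq_inv_mul]
  have e2 : ∑ i, ∑ j, Matrix.single j i (S i j / 2) = -((2⁻¹ : L) • S) := by
    rw [Finset.sum_comm]
    have := Matrix.matrix_eq_sum_single (-((2⁻¹ : L) • S))
    rw [this]
    refine Finset.sum_congr rfl fun i _ => Finset.sum_congr rfl fun j _ => ?_
    congr 1
    have h3 := congrFun (congrFun hS i) j
    rw [transpose_apply, Matrix.neg_apply] at h3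
    rw [Matrix.neg_apply, Matrix.smul_apply, smul_eq_mul, h3, div_eq_inv_mul, mul_neg]
  rw [h1, e1, e2, sub_neg_eq_add, ← add_smul]
  have : (2⁻¹ : L) + 2⁻¹ = 1 := by
    rw [← two_mul, mul_inv_cancel₀ h2]
  rw [this, one_smul]

/-- all directions are in the submodule of realisable directions -/
theorem mem_Real (hK : (2 : L) ≠ 0) {m : ℕ} (P : Submodule L ((Fin 3 → Matrix (Ix n) (Ix n) L) ×
    Matrix (Fin m) (Fin m) L))
    (hP : ∀ X : Fin 3 → Matrix (Ix n) (Ix n) K, (∀ s, IsSo (X s)) →
      ∀ G : Matrix (Fin m) (Fin m) K, Gᵀ = -G →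
        ((fun s => emb K L (X s)), emb K L G) ∈ P)
    {X : Fin 3 → Matrix (Ix n) (Ix n) L} (hX : ∀ s, IsSo (X s))
    {G : Matrix (Fin m) (Fin m) L} (hG : Gᵀ = -G) : (X, G) ∈ P := by
  classical
  have h1 : (X, G) = (X, 0) + (0, G) := by
    rw [Prod.mk_add_mk, add_zero, zero_add]
  rw [h1]
  refine P.add_mem ?_ ?_
  · -- the `so` part
    have h2 : X = ∑ s, ∑ i, ∑ j, ((Jm n L * X s) i j / 2) •
        (Pi.single s (Jm n L * sk L i j) : Fin 3 → Matrix (Ix n) (Ix n) L) := by
      have hS : ∀ s, (Jm n L * X s)ᵀ = -(Jm n L * X s) := by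
        intro s
        rw [transpose_mul, Jm_transpose]
        exact eq_neg_of_add_eq_zero_left (hX s)
      have h3 : ∀ s, X s = ∑ i, ∑ j, ((Jm n L * X s) i j / 2) • (Jm n L * sk L i j) := by
        intro s
        have h4 := skew_expand hK (hS s)
        calc X s = Jm n L * (Jm n L * X s) := by rw [← Matrix.mul_assoc, Jm_sq, Matrix.one_mul]
          _ = Jm n L * ∑ i, ∑ j, ((Jm n L * X s) i j / 2) • sk L i j := by rw [← h4]
          _ = _ := by
            rw [Matrix.mul_sum]
            refine Finset.sum_congr rfl fun i _ => ?_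
            rw [Matrix.mul_sum]
            refine Finset.sum_congr rfl fun j _ => ?_
            rw [Matrix.mul_smul]
      funext t
      rw [Finset.sum_apply, Finset.sum_eq_single t]
      · rw [Finset.sum_apply]
        conv_lhs => rw [h3 t]
        refine Finset.sum_congr rfl fun i _ => ?_
        rw [Finset.sum_apply]
        refine Finset.sum_congr rfl fun j _ => ?_
        rw [Pi.smul_apply, Pi.single_eq_same]
      · intro s _ hs
        rw [Finset.sum_apply]
        refine Finset.sum_eq_zero fun i _ => ?_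
        rw [Finset.sum_apply]
        refine Finset.sum_eq_zero fun j _ => ?_
        rw [Pi.smul_apply, Pi.single_eq_of_ne hs.symm, smul_zero]
      · intro h; exact absurd (Finset.mem_univ t) h
    have h5 : ∀ (s : Fin 3) (i j : Ix n),
        ((Pi.single s (Jm n L * sk L i j) : Fin 3 → Matrix (Ix n) (Ix n) L),
          (0 : Matrix (Fin m) (Fin m) L)) ∈ P := by
      intro s i j
      have h6 := hP (Pi.single s (Jm n K * sk K i j)) (by
        intro t
        by_cases ht : t = s
        · subst ht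
          rw [Pi.single_eq_same]
          unfold IsSo
          rw [transpose_mul, Jm_transpose, sk_transpose, Matrix.mul_assoc, Jm_sq, Matrix.mul_one,
            ← Matrix.mul_assoc, Jm_sq, Matrix.one_mul, neg_add_cancel]
        · rw [Pi.single_eq_of_ne ht]
          unfold IsSo
          simp) 0 (by simp)
      convert h6 using 2
      · funext t
        by_cases ht : t = s
        · subst ht
          rw [Pi.single_eq_same, Pi.single_eq_same, FO3.emb_mul', emb_sk]
          congr 1
          exact (Pol.Jm_map (algebraMap K L)).symm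
        · rw [Pi.single_eq_of_ne ht, Pi.single_eq_of_ne ht]
          ext x y
          rw [FO3.emb_apply', Matrix.zero_apply, Matrix.zero_apply, map_zero]
      · ext x y
        rw [FO3.emb_apply', Matrix.zero_apply, Matrix.zero_apply, map_zero]
    have h7 : (X, (0 : Matrix (Fin m) (Fin m) L)) = ∑ s, ∑ i, ∑ j, ((Jm n L * X s) i j / 2) •
        ((Pi.single s (Jm n L * sk L i j) : Fin 3 → Matrix (Ix n) (Ix n) L),
          (0 : Matrix (Fin m) (Fin m) L)) := by
      refine Prod.ext ?_ ?_
      · simp only [Prod.fst_sum, Prod.smul_fst]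
        exact h2
      · simp only [Prod.snd_sum, Prod.smul_snd, smul_zero, Finset.sum_const_zero]
    rw [h7]
    exact P.sum_mem fun s _ => P.sum_mem fun i _ => P.sum_mem fun j _ => P.smul_mem _ (h5 s i j)
  · have h7 : ((0 : Fin 3 → Matrix (Ix n) (Ix n) L), G) = ∑ i, ∑ j, (G i j / 2) •
        ((0 : Fin 3 → Matrix (Ix n) (Ix n) L), sk L i j) := by
      refine Prod.ext ?_ ?_
      · simp only [Prod.fst_sum, Prod.smul_fst, smul_zero, Finset.sum_const_zero]
      · simp only [Prod.snd_sum, Prod.smul_snd]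
        exact skew_expand hK hG
    rw [h7]
    refine P.sum_mem fun i _ => P.sum_mem fun j _ => P.smul_mem _ ?_
    have h6 := hP 0 (by intro t; unfold IsSo; simp) (sk K i j) (sk_transpose i j)
    convert h6 using 2
    · funext t
      ext x y
      rw [FO3.emb_apply', Pi.zero_apply, Pi.zero_apply, Matrix.zero_apply, Matrix.zero_apply,
        map_zero]
    · rw [emb_sk]

/-- node E -/
theorem ext (p : Pol c)
    (Yok : Matrix (Ix n) (Ix n) K → Prop) (_hYok : ∀ Y, Yok Y → IsSo Y)
    {g : Fin 3 → Matrix (Ix n) (Ix n) K} (hg : ∀ s, (g s)ᵀ * Jm n K * g s = Jm n K)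
    {H : Matrix (Fin p.m) (Fin p.m) K} (hH : Hᵀ = -H)
    (hdir : ∀ X : Fin 3 → Matrix (Ix n) (Ix n) K, (∀ s, IsSo (X s)) →
      ∀ G : Matrix (Fin p.m) (Fin p.m) K, Gᵀ = -G →
        ∃ (D : Derivation ℂ K K) (Y : Matrix (Ix n) (Ix n) K), Yok Y ∧
          (∀ F ∈ c.N g, F.map D - FO.act c.arm (fun s => X s + Y) F ∈ c.N g) ∧ H.map D = G)
    {h : Matrix (Ix n) (Ix n) L} (hh : hᵀ * Jm n L * h = Jm n L)
    (hext : ∀ (D0 : Derivation ℂ K K) (Y : Matrix (Ix n) (Ix n) K), Yok Y →
      ∃ D : Derivation ℂ L L, (∀ x, D (algebraMap K L x) = algebraMap K L (D0 x)) ∧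
        h.map D = emb K L Y * h) :
    GI c p L (fun s => Jm n L * hᵀ * Jm n L * emb K L (g s)) (emb K L H) := by
  have hcL : CharZero L := charZero_of_injective_algebraMap (algebraMap ℂ L).injective
  -- the basic directions
  have hbase : ∀ X : Fin 3 → Matrix (Ix n) (Ix n) K, (∀ s, IsSo (X s)) →
      ∀ G : Matrix (Fin p.m) (Fin p.m) K, Gᵀ = -G →
        ((fun s => emb K L (X s)), emb K L G) ∈ Real c (fun s => emb K L (g s)) (emb K L H) h := by
    intro X hX G hG
    obtain ⟨D0, Y, hY, h1, h2⟩ := hdir X hX G hG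
    obtain ⟨D, hD1, hD2⟩ := hext D0 Y hY
    refine ⟨D, emb K L Y, hD2, ?_, ?_⟩
    · -- the submodule of good `F`
      have hP : c.N (fun s => emb K L (g s)) ≤ GoodF (c.N (fun s => emb K L (g s))) D
          (fun s => emb K L (X s) + emb K L Y) := by
        refine N_induction _ ?_
        intro F hF t
        refine Submodule.smul_mem _ t ⟨emb_mem_N' hF, ?_⟩
        have e1 : (emb K L F).map D = emb K L (F.map D0) := by
          ext i j
          exact hD1 (F i j)
        have e2 : FO.act c.arm (fun s => emb K L (X s) + emb K L Y) (emb K L F) =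
            emb K L (FO.act c.arm (fun s => X s + Y) F) := by
          rw [emb_act]
          congr 1
          funext s
          ext i j
          rw [Matrix.add_apply, FO3.emb_apply', FO3.emb_apply', FO3.emb_apply', Matrix.add_apply,
            map_add]
        have e3 : emb K L (F.map D0) - emb K L (FO.act c.arm (fun s => X s + Y) F) =
            emb K L (F.map D0 - FO.act c.arm (fun s => X s + Y) F) := by
          ext i j
          rw [Matrix.sub_apply, FO3.emb_apply', FO3.emb_apply', FO3.emb_apply', Matrix.sub_apply,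
            map_sub]
        rw [e1, e2, e3]
        exact emb_mem_N' (h1 F hF)
      exact fun F hF => (hP hF).2
    · rw [← h2]
      ext i j
      exact hD1 (H i j)
  refine ⟨?_, FO3.emb_skew hH, ?_⟩
  · intro s
    have h1 := Top.emb_orth (L := L) (hg s)
    have h2 : (Jm n L * hᵀ * Jm n L)ᵀ * Jm n L * (Jm n L * hᵀ * Jm n L) = Jm n L := by
      have h3 : (Jm n L * hᵀ * Jm n L)ᵀ = Jm n L * h * Jm n L := by
        rw [transpose_mul, transpose_mul, transpose_transpose, Jm_transpose, ← Matrix.mul_assoc]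
      rw [h3]
      calc Jm n L * h * Jm n L * Jm n L * (Jm n L * hᵀ * Jm n L)
          = Jm n L * h * (Jm n L * Jm n L) * (Jm n L * hᵀ * Jm n L) := by
            simp only [Matrix.mul_assoc]
        _ = Jm n L * (h * (Jm n L * hᵀ * Jm n L)) := by
            rw [Jm_sq, Matrix.mul_one, Matrix.mul_assoc]
        _ = Jm n L := by rw [inv_right hh, Matrix.mul_one]
    calc (Jm n L * hᵀ * Jm n L * emb K L (g s))ᵀ * Jm n L * (Jm n L * hᵀ * Jm n L * emb K L (g s))
        = (emb K L (g s))ᵀ * ((Jm n L * hᵀ * Jm n L)ᵀ * Jm n L * (Jm n L * hᵀ * Jm n L)) *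
            emb K L (g s) := by
          rw [transpose_mul]
          simp only [Matrix.mul_assoc]
      _ = Jm n L := by rw [h2, h1]
  · intro X hX G hG
    have hX' : ∀ s, IsSo (h * X s * (Jm n L * hᵀ * Jm n L)) := by
      intro s
      have h1 := Gen.isSo_conj (Jm n L * hᵀ * Jm n L) (hX s)
      have h3 : (Jm n L * hᵀ * Jm n L)ᵀ = Jm n L * h * Jm n L := by
        rw [transpose_mul, transpose_mul, transpose_transpose, Jm_transpose, ← Matrix.mul_assoc]
      have h4 : Jm n L * (Jm n L * hᵀ * Jm n L)ᵀ * Jm n L = h := by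
        rw [h3]
        calc Jm n L * (Jm n L * h * Jm n L) * Jm n L
            = (Jm n L * Jm n L) * h * (Jm n L * Jm n L) := by simp only [Matrix.mul_assoc]
          _ = h := by rw [Jm_sq, Matrix.one_mul, Matrix.mul_one]
      rw [h4] at h1
      exact h1
    obtain ⟨D, Y, hD1, hD2, hD3⟩ := mem_Real (K := K) (two_ne_zero : (2 : L) ≠ 0)
      (Real c (fun s => emb K L (g s)) (emb K L H) h) hbase hX' hG
    refine ⟨D, ?_, hD3⟩
    intro F' hF'
    obtain ⟨G', hG', rfl⟩ := c.mem_N.1 hF'
    set F : Matrix (Ix n) c.δ L := FO.act c.arm (fun s => emb K L (g s)) G' with hFdef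
    have hF : F ∈ c.N (fun s => emb K L (g s)) := c.mem_N.2 ⟨G', hG', rfl⟩
    have e0 : FO.act c.arm (fun s => Jm n L * hᵀ * Jm n L * emb K L (g s)) G' =
        (Jm n L * hᵀ * Jm n L) * F := act_mul_left c.arm _ _ _
    have hder : (Jm n L * hᵀ * Jm n L).map D = -((Jm n L * hᵀ * Jm n L) * Y) := by
      have k1 : ((Jm n L * hᵀ * Jm n L) * h).map D = 0 := by
        rw [inv_left hh]
        ext i j
        rw [map_apply, Matrix.one_apply]
        split_ifs <;> simp
      rw [FO3.map_der_mul, hD1] at k1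
      have k2 : ((Jm n L * hᵀ * Jm n L).map D * h + Jm n L * hᵀ * Jm n L * (Y * h)) *
          (Jm n L * hᵀ * Jm n L) = 0 := by rw [k1, Matrix.zero_mul]
      rw [Matrix.add_mul, Matrix.mul_assoc _ h, inv_right hh, Matrix.mul_one,
        Matrix.mul_assoc _ (Y * h), Matrix.mul_assoc Y h, inv_right hh, Matrix.mul_one] at k2
      exact eq_neg_of_add_eq_zero_left k2
    have e1 : ((Jm n L * hᵀ * Jm n L) * F).map D - FO.act c.arm X ((Jm n L * hᵀ * Jm n L) * F) =
        (Jm n L * hᵀ * Jm n L) *
          (F.map D - FO.act c.arm (fun s => h * X s * (Jm n L * hᵀ * Jm n L) + Y) F) := by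
      have k1 : FO.act c.arm X ((Jm n L * hᵀ * Jm n L) * F) = (Jm n L * hᵀ * Jm n L) *
          FO.act c.arm (fun s => h * X s * (Jm n L * hᵀ * Jm n L)) F := by
        rw [act_mul_right, ← act_mul_left]
        congr 1
        funext s
        calc X s * (Jm n L * hᵀ * Jm n L)
            = ((Jm n L * hᵀ * Jm n L) * h) * X s * (Jm n L * hᵀ * Jm n L) := by
              rw [inv_left hh, Matrix.one_mul]
          _ = _ := by simp only [Matrix.mul_assoc]
      have k2 : FO.act c.arm (fun s => h * X s * (Jm n L * hᵀ * Jm n L) + Y) F =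
          FO.act c.arm (fun s => h * X s * (Jm n L * hᵀ * Jm n L)) F + Y * F := by
        rw [← act_const c.arm Y F, ← act_add_left]
      rw [FO3.map_der_mul, hder, k1, k2, Matrix.mul_sub, Matrix.mul_add, Matrix.neg_mul,
        ← Matrix.mul_assoc _ Y F]
      abel
    rw [e0, e1]
    obtain ⟨G'', hG'', hG3⟩ := c.mem_N.1 (hD2 F hF)
    refine c.mem_N.2 ⟨G'', hG'', ?_⟩
    rw [act_mul_left, hG3]

/-- corollary: base change of generic instances -/
theorem gi_bc (p : Pol c) {g : Fin 3 → Matrix (Ix n) (Ix n) K} {H : Matrix (Fin p.m) (Fin p.m) K}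
    (hG : GI c p K g H) :
    GI c p L (fun s => emb K L (g s)) (emb K L H) := by
  have h1 := ext (L := L) p (fun Y => Y = 0) (by rintro Y rfl; unfold IsSo; simp) hG.orth hG.skew
    (by
      intro X hX G hG'
      obtain ⟨D, hD1, hD2⟩ := hG.dir X hX G hG'
      refine ⟨D, 0, rfl, ?_, hD2⟩
      intro F hF
      simp only [add_zero]
      exact hD1 F hF)
    (h := 1) (by rw [transpose_one, Matrix.one_mul, Matrix.mul_one])
    (by
      intro D0 Y hY
      obtain ⟨D, hD⟩ := extend_der (L := L) D0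
      refine ⟨D, hD, ?_⟩
      rw [hY]
      ext i j
      rw [map_apply, Matrix.one_apply, Matrix.mul_one, FO3.emb_apply', Matrix.zero_apply, map_zero]
      split_ifs <;> simp)
  have h2 : (fun s => Jm n L * (1 : Matrix (Ix n) (Ix n) L)ᵀ * Jm n L * emb K L (g s)) =
      fun s => emb K L (g s) := by
    funext s
    rw [transpose_one, Matrix.mul_one, Jm_sq, Matrix.one_mul]
  rw [h2] at h1
  exact h1

end ext

end Crest.Agent.R172.Ext
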