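import Crest.Agent.R172.SPol2
import Crest.Agent.R172.FO3

/-!
R172: the outer assembly for the standard data: `CoreS n` implies the statement of S0260.
-/

set_option autoImplicit false
set_option linter.unusedSectionVars false

namespace Crest.Agent.R172.Top

open Matrix Crest.AlgebraR.SpinSaturation Crest.Agent.R172.Fwd Crest.Agent.R172.CF
open Crest.Agent.R172.Gen (Jm Ix emb Ent ent IsSo)

variable {n : ℕ}

/-- **The core, weakest form**: `k ≤ 1` at the generic point, for the standard configuration and a
standard polarisation. (`Std.good : Good c`; `FO3.data`, `FO3.exists_generic` give the first order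
data.) -/
def CoreS (n : ℕ) : Prop :=
  ∀ (a : Fin 3 → Fin n → ℤ), (∀ s, IsDominantIntegral n (a s)) →
    InRootLattice n (a 0 + a 1 + a 2) →
    ∀ (m : Fin 3 → ℕ) (c : Cfg n a) (h : Std c m) (q : SPol c), q.Neg h →
      ∀ (K : Type) [Field K] [Algebra ℂ K]
      (g : Fin 3 → Matrix (Ix n) (Ix n) K) (H : Matrix (Fin q.m) (Fin q.m) K),
      GPt n q.m K g H → SemiAll c K g →
      Module.finrank K ↥(VL (q.toPol.LH H) ⊓ c.N g) ≤ 1

/-- **S0260 from the core.** -/
theorem result_of_coreS (hn : 2 ≤ n) (hcore : CoreS n) (a b c : Fin n → ℤ)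
    (ha : IsDominantIntegral n a) (hb : IsDominantIntegral n b) (hc : IsDominantIntegral n c)
    (habc : InRootLattice n (a + b + c)) (N : ℕ) (hN : 1 ≤ N)
    (U : Irrep n a) (V : Irrep n b) (W : Irrep n c)
    (U' : Irrep n (N • a)) (V' : Irrep n (N • b)) (W' : Irrep n (N • c)) :
    HasInvariant U V W ↔ HasInvariant U' V' W' := by
  constructor
  · exact SpHW2.forward hn ha hb hc N hN U V W U' V' W'
  intro h
  let A : Fin 3 → Fin n → ℤ := ![a, b, c]
  have hA : ∀ s, IsDominantIntegral n (A s) := by
    intro s
    fin_cases s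
    · exact ha
    · exact hb
    · exact hc
  have hr : InRootLattice n (A 0 + A 1 + A 2) := habc
  obtain ⟨m, cfg, hstd, q, hneg⟩ := exists_std hn A hA hr
  refine invariant_of_at hn A hA cfg q.toPol (fun K _ _ g H hG hI => ?_) N hN U V W U' V' W' h
  have hcz : CharZero K := charZero_of_injective_algebraMap (algebraMap ℂ K).injective
  have hS : SemiAll cfg K g := by
    intro L _ _
    have hczL : CharZero L := charZero_of_injective_algebraMap (algebraMap K L).injective
    exact HM10.semi_of cfg (fun s => emb_orth (hG.orth s)) (hI L)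
  exact Par.eq_zero_of_finrank_le_one cfg two_ne_zero (q.toPol.LH_iso hG.skew)
    (q.toPol.finrank_LH H) hG.orth hG.det hr (hcore A hA hr m cfg hstd q hneg K g H hG hS)

end Crest.Agent.R172.Top
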