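import Crest.Agent.R172.NilBr4

/-!
Row 172: NIL for symmetric matrices `β` with values in `Λ ⊗ Λ`, triangular on every arm; LEMMA N.
-/

set_option autoImplicit false
set_option linter.unusedSectionVars false

namespace Crest.Agent.R172.CSys

open Module Matrix Crest.AlgebraR.SpinSaturation Crest.Agent.R172.SoGrade Crest.Agent.R172.CF
open Crest.Agent.R172.Gen (Jm Ix emb Ent ent)
open Crest.Agent.R172.NilLower Crest.Agent.R172.NilCount Crest.Agent.R172.NilFin
open Crest.Agent.R172.NilBr Crest.Agent.R172.ThX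
open Crest.Agent.R172.NilConn (ten ten_apply)
open Crest.Agent.R172.Core (NS)

variable {n : ℕ} {a : Fin 3 → Fin n → ℤ} {c : Cfg n a} {K : Type} [Field K] [Algebra ℂ K]
variable {q : SPol c}

/-- the form of `β` -/
noncomputable def bB (β : Matrix c.δ c.δ K) : LinearMap.BilinForm K (c.δ → K) :=
  Matrix.toLinearMap₂' K β

theorem bB_dot (β : Matrix c.δ c.δ K) (u u' : c.δ → K) : bB β u u' = u ⬝ᵥ (β *ᵥ u') := by
  rw [bB, Matrix.toLinearMap₂'_apply']

theorem bB_sg (β : Matrix c.δ c.δ K) (d : c.δ) (u' : c.δ → K) :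
    bB β (sg K d) u' = (β *ᵥ u') d := by
  rw [bB_dot, sg_dot]

theorem bB_sg_sg (β : Matrix c.δ c.δ K) (d e : c.δ) : bB β (sg K d) (sg K e) = β d e := by
  rw [bB_sg, sg, mulVec_single_one, Matrix.col_apply]

/-- the operator `E_s B β` -/
noncomputable def TB (β : Matrix c.δ c.δ K) (s : Fin 3) : Module.End K (c.δ → K) :=
  Matrix.toLin' (FO.E K c.arm s * c.B K * β)

theorem TB_apply (β : Matrix c.δ c.δ K) (s : Fin 3) (u : c.δ → K) (d : c.δ) :
    TB β s u d = if c.arm d = s then (β *ᵥ u) (c.σ d) else 0 := by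
  have h1 : TB β s u = FO.E K c.arm s *ᵥ (c.B K *ᵥ (β *ᵥ u)) := by
    rw [TB, Matrix.toLin'_apply, mulVec_mulVec, mulVec_mulVec]
  rw [h1, FO.E, mulVec_diagonal, c.mulVec_B]
  split_ifs <;> simp

theorem sten_sgB (β : Matrix c.δ c.δ K) (d e : c.δ) (u : c.δ → K) :
    sten (bB β) (sg K d) (sg K e) u = (β *ᵥ u) e • sg K d + (β *ᵥ u) d • sg K e := by
  rw [sten, LinearMap.add_apply, ten_apply, ten_apply, bB_sg, bB_sg]

theorem bB_inl {H : Matrix (Fin q.m) (Fin q.m) K} {β : Matrix c.δ c.δ K}
    {Y : Matrix (Fin q.m) c.δ K} (hβ : β = q.toPol.P H * Y) (i : Fin q.m) (u : c.δ → K) :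
    bB β (sg K (q.dd (Sum.inl i))) u =
      ∑ j, H i j * (Y *ᵥ u) j + if q.z = some i then 2⁻¹ * (Y *ᵥ u) i else 0 := by
  have h1 : bB β (sg K (q.dd (Sum.inl i))) u =
      ∑ j, q.toPol.P H (q.dd (Sum.inl i)) j * (Y *ᵥ u) j := by
    rw [bB_sg, hβ, ← mulVec_mulVec]
    rfl
  rw [h1]
  simp only [SPol.P_inl, add_mul, Finset.sum_add_distrib]
  congr 1
  split_ifs
  · simp only [ite_mul, zero_mul, Finset.sum_ite_eq, Finset.mem_univ, if_true]
    ring
  · simp

theorem bB_inr {H : Matrix (Fin q.m) (Fin q.m) K} {β : Matrix c.δ c.δ K}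
    {Y : Matrix (Fin q.m) c.δ K} (hβ : β = q.toPol.P H * Y) (i : Fin q.m) (u : c.δ → K) :
    bB β (sg K (q.dd (Sum.inr i))) u =
      if q.z = some i then algebraMap ℂ K Complex.I *
        (∑ j, H i j * (Y *ᵥ u) j - 2⁻¹ * (Y *ᵥ u) i) else (Y *ᵥ u) i := by
  have h1 : bB β (sg K (q.dd (Sum.inr i))) u =
      ∑ j, q.toPol.P H (q.dd (Sum.inr i)) j * (Y *ᵥ u) j := by
    rw [bB_sg, hβ, ← mulVec_mulVec]
    rfl
  rw [h1]
  simp only [SPol.P_inr]
  split_ifs
  · rw [mul_sub, Finset.mul_sum]
    simp only [mul_sub, sub_mul, mul_ite, mul_zero, ite_mul, zero_mul, Finset.sum_sub_distrib,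
      Finset.sum_ite_eq, Finset.mem_univ, if_true]
    congr 1
    · exact Finset.sum_congr rfl fun j _ => by ring
    · ring
  · simp

theorem bB_eV {H : Matrix (Fin q.m) (Fin q.m) K} {β : Matrix c.δ c.δ K}
    {Y : Matrix (Fin q.m) c.δ K} (hβ : β = q.toPol.P H * Y) (i : Fin q.m) (u : c.δ → K) :
    bB β (eV q K i) u = (Y *ᵥ u) i := by
  have h2 : (2 : K) ≠ 0 := two_ne
  unfold eV
  by_cases hz : q.z = some i
  · rw [if_pos hz, map_add, map_smul, LinearMap.add_apply, LinearMap.smul_apply, bB_inl hβ,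
      bB_inr hβ, if_pos hz, if_pos hz, smul_eq_mul, ← mul_assoc, II]
    field_simp
    ring
  · rw [if_neg hz, bB_inr hβ, if_neg hz]

/-- the relation `b(h_i, u) = ∑ H_ij b(e_j, u)` -/
theorem bB_rel {H : Matrix (Fin q.m) (Fin q.m) K} {β : Matrix c.δ c.δ K}
    {Y : Matrix (Fin q.m) c.δ K} (hβ : β = q.toPol.P H * Y) (i : Fin q.m) (u : c.δ → K) :
    bB β (hV q K i) u = ∑ j, H i j * bB β (eV q K j) u := by
  have h2 : (2 : K) ≠ 0 := two_ne
  simp only [bB_eV hβ]
  unfold hV
  by_cases hz : q.z = some i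
  · rw [if_pos hz, map_smul, map_sub, map_smul, LinearMap.smul_apply, LinearMap.sub_apply,
      LinearMap.smul_apply, bB_inl hβ, bB_inr hβ, if_pos hz, if_pos hz, smul_eq_mul, smul_eq_mul,
      ← mul_assoc (algebraMap ℂ K Complex.I), II]
    field_simp
    ring
  · rw [if_neg hz, bB_inl hβ, if_neg hz, add_zero]

/-- **NIL bridge, no odd arm** -/
theorem nil_beta_even (R : Ranked c) (hR : PosR R q) (hz : q.z = none)
    {H : Matrix (Fin q.m) (Fin q.m) K} (hH : Hᵀ = -H)
    (hgen : ∀ G : Matrix (Fin q.m) (Fin q.m) K, Gᵀ = -G →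
      ∃ D : Derivation ℂ K K, H.map D = G)
    {β : Matrix c.δ c.δ K} (hs : βᵀ = β) {Y : Matrix (Fin q.m) c.δ K}
    (hβ : β = q.toPol.P H * Y)
    (htri : ∀ d e, c.arm d = c.arm e → 0 ≤ R.rk d + R.rk e → β d e = 0)
    (m : ℕ) (hnil : ∀ l : List (Fin 3), l.length = m → ∀ u : c.δ → K,
      β *ᵥ ((l.map (TB β)).prod u) = 0)
    (u u' : c.δ → K) : bB β u u' = 0 := by
  have hne : ∀ i, q.z ≠ some i := fun i => by rw [hz]; simp
  have he : ∀ i, eV q K i = sg K (q.dd (Sum.inr i)) := fun i => by rw [eV, if_neg (hne i)]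
  have hh : ∀ i, hV q K i = sg K (q.dd (Sum.inl i)) := fun i => by rw [hV, if_neg (hne i)]
  have hσ : ∀ i, c.σ (q.dd (Sum.inl i)) = q.dd (Sum.inr i) := fun i => q.reg i (hne i)
  have hσ' : ∀ i, c.σ (q.dd (Sum.inr i)) = q.dd (Sum.inl i) := fun i => by rw [← hσ, c.inv]
  have harm : ∀ i, c.arm (q.dd (Sum.inl i)) = c.arm (q.dd (Sum.inr i)) := fun i => by
    rw [← hσ, c.arm_σ]
  have hsymb : ∀ u u', bB β u u' = bB β u' u := by
    intro u u'
    rw [bB_dot, bB_dot]
    exact dot_symm hs u u'
  refine bridge_even (bB β) ⟨fun x y => hsymb x y⟩ two_ne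
    (fun i : Fin q.m => c.arm (q.dd (Sum.inr i))) (fun i => hgt R (q.dd (Sum.inr i)))
    (eV q K) (hV q K) (fun i j => H i j) ?_ ?_ eh_span ?_ ?_ ?_ m ?_ u u'
  · intro x y
    have := congrFun (congrFun hH y) x
    exact this
  · intro x u
    exact bB_rel hβ x u
  · intro G hG
    obtain ⟨D, hD⟩ := hgen (Matrix.of G) (by ext x y; exact hG y x)
    exact ⟨D.restrictScalars ℤ, fun x y => congrFun (congrFun hD x) y⟩
  · intro x y hxy
    rw [he, he, bB_sg_sg]
    refine htri _ _ hxy ?_
    have := hR x (hne x)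
    have := hR y (hne y)
    omega
  · intro x y hxy hle
    rw [he, hh, bB_sg_sg]
    refine htri _ _ (by rw [harm]; exact hxy) ?_
    have h1 := hgt_le R hle
    rw [← hσ' y, R.rk_σ]
    omega
  · intro l hl u u'
    have h1 : psiE (bB β) (fun i : Fin q.m => c.arm (q.dd (Sum.inr i))) (eV q K) (hV q K)
        = TB β := by
      funext s
      refine LinearMap.ext fun u => ?_
      funext d
      rw [TB_apply, psiE, LinearMap.sum_apply, Finset.sum_apply]
      have h2 : ∀ x : Fin q.m, (if c.arm (q.dd (Sum.inr x)) = s then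
          sten (bB β) (eV q K x) (hV q K x) else 0 : Module.End K (c.δ → K)) u d =
          if c.arm (q.dd (Sum.inr x)) = s then
            (β *ᵥ u) (q.dd (Sum.inl x)) * sg K (q.dd (Sum.inr x)) d +
            (β *ᵥ u) (q.dd (Sum.inr x)) * sg K (q.dd (Sum.inl x)) d else 0 := by
        intro x
        split_ifs
        · rw [he, hh, sten_sgB, Pi.add_apply, Pi.smul_apply, Pi.smul_apply, smul_eq_mul,
            smul_eq_mul]
        · rfl
      simp only [h2]
      obtain ⟨y, rfl⟩ := q.dd.surjective d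
      rcases y with i | i
      · rw [Finset.sum_eq_single i]
        · rw [harm, hσ]
          have h3 : sg K (q.dd (Sum.inr i)) (q.dd (Sum.inl i)) = 0 :=
            sg_ne (fun h => by simpa using q.dd.injective h)
          rw [sg_self, h3, mul_zero, zero_add, mul_one]
        · intro j _ hj
          have h3 : sg K (q.dd (Sum.inr j)) (q.dd (Sum.inl i)) = 0 :=
            sg_ne (fun h => by simpa using q.dd.injective h)
          have h4 : sg K (q.dd (Sum.inl j)) (q.dd (Sum.inl i)) = 0 :=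
            sg_ne (fun h => hj (by simpa using (q.dd.injective h).symm))
          rw [h3, h4, mul_zero, mul_zero, add_zero, ite_self]
        · intro h; exact absurd (Finset.mem_univ _) h
      · rw [Finset.sum_eq_single i]
        · rw [hσ']
          have h3 : sg K (q.dd (Sum.inl i)) (q.dd (Sum.inr i)) = 0 :=
            sg_ne (fun h => by simpa using q.dd.injective h)
          rw [sg_self, h3, mul_zero, add_zero, mul_one]
        · intro j _ hj
          have h3 : sg K (q.dd (Sum.inl j)) (q.dd (Sum.inr i)) = 0 :=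
            sg_ne (fun h => by simpa using q.dd.injective h)
          have h4 : sg K (q.dd (Sum.inr j)) (q.dd (Sum.inr i)) = 0 :=
            sg_ne (fun h => hj (by simpa using (q.dd.injective h).symm))
          rw [h3, h4, mul_zero, mul_zero, add_zero, ite_self]
        · intro h; exact absurd (Finset.mem_univ _) h
    rw [h1, hsymb, bB_dot, hnil l hl, dotProduct_zero]

/-- **NIL bridge, two odd arms** -/
theorem nil_beta_odd (R : Ranked c) (hR : PosR R q) {i0 : Fin q.m} (hz : q.z = some i0)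
    {H : Matrix (Fin q.m) (Fin q.m) K} (hH : Hᵀ = -H)
    (hgen : ∀ G : Matrix (Fin q.m) (Fin q.m) K, Gᵀ = -G →
      ∃ D : Derivation ℂ K K, H.map D = G)
    {β : Matrix c.δ c.δ K} (hs : βᵀ = β) {Y : Matrix (Fin q.m) c.δ K}
    (hβ : β = q.toPol.P H * Y)
    (htri : ∀ d e, c.arm d = c.arm e → 0 ≤ R.rk d + R.rk e → β d e = 0)
    (m : ℕ) (hnil : ∀ l : List (Fin 3), l.length = m → ∀ u : c.δ → K,
      β *ᵥ ((l.map (TB β)).prod u) = 0)
    (u u' : c.δ → K) : bB β u u' = 0 := by
  have h2 : (2 : K) ≠ 0 := two_ne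
  obtain ⟨hf1, hf2, hf3⟩ := q.fix i0 hz
  set z1 := q.dd (Sum.inl i0) with hz1
  set z2 := q.dd (Sum.inr i0) with hz2
  have rz1 : R.rk z1 = 0 := by have := R.rk_σ z1; rw [hf1] at this; omega
  have rz2 : R.rk z2 = 0 := by have := R.rk_σ z2; rw [hf2] at this; omega
  set Im : K := algebraMap ℂ K Complex.I with hIm
  have hI : Im * Im = -1 := II
  let ψ : Option {i : Fin q.m // i ≠ i0} ≃ Fin q.m := Equiv.optionSubtypeNe i0
  have ψn : ψ none = i0 := rfl
  have ψs : ∀ x : {i : Fin q.m // i ≠ i0}, ψ (some x) = x.1 := fun x => rfl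
  have hne : ∀ x : {i : Fin q.m // i ≠ i0}, q.z ≠ some x.1 := fun x h => by
    rw [hz] at h
    exact x.2 (Option.some.inj h).symm
  let e : Option {i : Fin q.m // i ≠ i0} → (c.δ → K) := fun x => eV q K (ψ x)
  let h : Option {i : Fin q.m // i ≠ i0} → (c.δ → K) := fun x => hV q K (ψ x)
  have he : ∀ x, e (some x) = sg K (q.dd (Sum.inr x.1)) := fun x => by
    change eV q K x.1 = _
    rw [eV, if_neg (hne x)]
  have hh : ∀ x, h (some x) = sg K (q.dd (Sum.inl x.1)) := fun x => by
    change hV q K x.1 = _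
    rw [hV, if_neg (hne x)]
  have hen : e none = sg K z1 + Im • sg K z2 := by
    change eV q K i0 = _
    rw [eV, if_pos hz]
  have hhn : h none = (2 : K)⁻¹ • (sg K z1 - Im • sg K z2) := by
    change hV q K i0 = _
    rw [hV, if_pos hz]
  have hσ : ∀ x : {i : Fin q.m // i ≠ i0}, c.σ (q.dd (Sum.inl x.1)) = q.dd (Sum.inr x.1) :=
    fun x => q.reg x.1 (hne x)
  have hσ' : ∀ x : {i : Fin q.m // i ≠ i0}, c.σ (q.dd (Sum.inr x.1)) = q.dd (Sum.inl x.1) :=
    fun x => by rw [← hσ, c.inv]
  have harm : ∀ x : {i : Fin q.m // i ≠ i0},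
      c.arm (q.dd (Sum.inl x.1)) = c.arm (q.dd (Sum.inr x.1)) := fun x => by rw [← hσ, c.arm_σ]
  have hv1 : vodd (c.arm z1) (c.arm z2) (2 : K) e h (c.arm z1) = (2 : K) • sg K z1 := by
    rw [vodd, if_pos rfl, hen, hhn, smul_smul, mul_inv_cancel₀ h2, one_smul, two_smul]
    abel
  have hv2 : vodd (c.arm z1) (c.arm z2) (2 : K) e h (c.arm z2) = (2 * Im) • sg K z2 := by
    rw [vodd, if_neg (Ne.symm hf3), if_pos rfl, hen, hhn, smul_smul, mul_inv_cancel₀ h2,
      one_smul, mul_smul, two_smul]
    abel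
  have hv0 : ∀ s, s ≠ c.arm z1 → s ≠ c.arm z2 →
      vodd (c.arm z1) (c.arm z2) (2 : K) e h s = 0 := by
    intro s h1 h3
    rw [vodd, if_neg h1, if_neg h3]
  have hsymb : ∀ u u', bB β u u' = bB β u' u := by
    intro u u'
    rw [bB_dot, bB_dot]
    exact dot_symm hs u u'
  refine bridge_odd (bB β) ⟨fun x y => hsymb x y⟩ two_ne (c.arm z1) (c.arm z2) hf3 2 h2 ?_
    (fun x : {i : Fin q.m // i ≠ i0} => c.arm (q.dd (Sum.inr x.1)))
    (fun x => hgt R (q.dd (Sum.inr x.1))) e h (fun x y => H (ψ x) (ψ y)) ?_ ?_ ?_ ?_ ?_ ?_ ?_ ?_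
    m ?_ u u'
  · intro d
    have := d.map_natCast 2
    simpa using this
  · intro x y
    have := congrFun (congrFun hH (ψ y)) (ψ x)
    exact this
  · intro x u
    change bB β (hV q K (ψ x)) u = ∑ y, H (ψ x) (ψ y) * bB β (eV q K (ψ y)) u
    rw [bB_rel hβ, ← ψ.sum_comp]
  · have h3 : Set.range e = Set.range (eV q K) := ψ.surjective.range_comp (eV q K)
    have h4 : Set.range h = Set.range (hV q K) := ψ.surjective.range_comp (hV q K)
    rw [h3, h4]
    exact eh_span
  · intro G hG
    obtain ⟨D, hD⟩ := hgen (Matrix.of fun i j => G (ψ.symm i) (ψ.symm j)) (by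
      ext x y; exact hG (ψ.symm y) (ψ.symm x))
    refine ⟨D.restrictScalars ℤ, fun x y => ?_⟩
    have h5 := congrFun (congrFun hD (ψ x)) (ψ y)
    rw [Matrix.of_apply, ψ.symm_apply_apply, ψ.symm_apply_apply] at h5
    exact h5
  · intro x y hxy
    rw [he, he, bB_sg_sg]
    refine htri _ _ hxy ?_
    have := hR x.1 (hne x)
    have := hR y.1 (hne y)
    omega
  · intro x y hxy hle
    rw [he, hh, bB_sg_sg]
    refine htri _ _ (by rw [harm]; exact hxy) ?_
    have h1 := hgt_le R hle
    rw [← hσ' y, R.rk_σ]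
    omega
  · intro s
    by_cases h3 : s = c.arm z1
    · rw [h3, hv1, map_smul, map_smul, LinearMap.smul_apply, bB_sg_sg,
        htri _ _ rfl (by omega), smul_zero, smul_zero]
    · by_cases h4 : s = c.arm z2
      · rw [h4, hv2, map_smul, map_smul, LinearMap.smul_apply, bB_sg_sg,
          htri _ _ rfl (by omega), smul_zero, smul_zero]
      · rw [hv0 s h3 h4, map_zero]
  · intro x
    rw [he]
    have hx := hR x.1 (hne x)
    by_cases h3 : c.arm (q.dd (Sum.inr x.1)) = c.arm z1
    · rw [h3, hv1, map_smul, bB_sg_sg, htri _ _ h3 (by omega), smul_zero]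
    · by_cases h4 : c.arm (q.dd (Sum.inr x.1)) = c.arm z2
      · rw [h4, hv2, map_smul, bB_sg_sg, htri _ _ h4 (by omega), smul_zero]
      · rw [hv0 _ h3 h4, map_zero]
  · intro l hl u u'
    have h1 : psiO (c.arm z1) (c.arm z2) (2 : K) (bB β)
        (fun x : {i : Fin q.m // i ≠ i0} => c.arm (q.dd (Sum.inr x.1))) e h = TB β := by
      funext s
      refine LinearMap.ext fun u => ?_
      funext d
      rw [TB_apply, psiO, LinearMap.add_apply, Pi.add_apply, LinearMap.sum_apply,
        Finset.sum_apply]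
      have h3 : ∀ x : {i : Fin q.m // i ≠ i0}, (if c.arm (q.dd (Sum.inr x.1)) = s then
          sten (bB β) (e (some x)) (h (some x)) else 0 : Module.End K (c.δ → K)) u d =
          if c.arm (q.dd (Sum.inr x.1)) = s then
            (β *ᵥ u) (q.dd (Sum.inl x.1)) * sg K (q.dd (Sum.inr x.1)) d +
            (β *ᵥ u) (q.dd (Sum.inr x.1)) * sg K (q.dd (Sum.inl x.1)) d
          else 0 := by
        intro x
        split_ifs
        · rw [he, hh, sten_sgB, Pi.add_apply, Pi.smul_apply, Pi.smul_apply, smul_eq_mul,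
            smul_eq_mul]
        · rfl
      simp only [h3]
      -- the odd part
      have h4 : (codd (c.arm z1) (c.arm z2) (2 : K) s • ten (bB β)
          (vodd (c.arm z1) (c.arm z2) (2 : K) e h s)
          (vodd (c.arm z1) (c.arm z2) (2 : K) e h s)) u d =
          (if s = c.arm z1 then (β *ᵥ u) z1 * sg K z1 d else 0) +
          (if s = c.arm z2 then (β *ᵥ u) z2 * sg K z2 d else 0) := by
        by_cases h5 : s = c.arm z1
        · rw [h5, hv1, if_pos rfl, if_neg hf3, codd, if_pos rfl, add_zero,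
            LinearMap.smul_apply, ten_apply, Pi.smul_apply, Pi.smul_apply, Pi.smul_apply,
            map_smul, LinearMap.smul_apply, bB_sg]
          simp only [smul_eq_mul]
          field_simp
        · by_cases h6 : s = c.arm z2
          · rw [h6, hv2, if_neg (Ne.symm hf3), if_pos rfl, codd, if_neg (Ne.symm hf3),
              if_pos rfl, zero_add, LinearMap.smul_apply, ten_apply, Pi.smul_apply,
              Pi.smul_apply, Pi.smul_apply, map_smul, LinearMap.smul_apply, bB_sg]
            simp only [smul_eq_mul]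
            field_simp
            linear_combination (-((β *ᵥ u) z2 * sg K z2 d)) * hI
          · rw [if_neg h5, if_neg h6, codd, if_neg h5, if_neg h6, zero_smul, add_zero]
            rfl
      rw [h4]
      obtain ⟨y, rfl⟩ := q.dd.surjective d
      rcases y with i | i
      · by_cases hi : i = i0
        · -- d = z1
          subst hi
          have hz1' : q.dd (Sum.inl i) = z1 := rfl
          rw [Finset.sum_eq_zero]
          · rw [hz1', hf1, sg_self, mul_one, zero_add]
            have h7 : sg K z2 z1 = 0 := sg_ne (fun h => hf3 (by rw [h]))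
            rw [h7, mul_zero, ite_self, add_zero]
            by_cases h8 : c.arm z1 = s
            · rw [if_pos h8.symm, if_pos h8]
            · rw [if_neg (Ne.symm h8), if_neg h8]
          · intro x _
            have h5 : sg K (q.dd (Sum.inr x.1)) (q.dd (Sum.inl i)) = 0 :=
              sg_ne (fun h => by simpa using q.dd.injective h)
            have h6 : sg K (q.dd (Sum.inl x.1)) (q.dd (Sum.inl i)) = 0 :=
              sg_ne (fun h => x.2 (by simpa using (q.dd.injective h).symm))
            rw [h5, h6, mul_zero, mul_zero, add_zero, ite_self]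
        · -- regular
          have e1 : sg K z1 (q.dd (Sum.inl i)) = 0 :=
            sg_ne (fun h => hi (by simpa using (q.dd.injective h)))
          have e2 : sg K z2 (q.dd (Sum.inl i)) = 0 :=
            sg_ne (fun h => by simpa using q.dd.injective h)
          rw [e1, e2, mul_zero, mul_zero, ite_self, ite_self, add_zero, add_zero,
            Finset.sum_eq_single (⟨i, hi⟩ : {i : Fin q.m // i ≠ i0})]
          · change (if c.arm (q.dd (Sum.inr i)) = s then
                (β *ᵥ u) (q.dd (Sum.inl i)) * sg K (q.dd (Sum.inr i))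
                  (q.dd (Sum.inl i)) +
                (β *ᵥ u) (q.dd (Sum.inr i)) * sg K (q.dd (Sum.inl i))
                  (q.dd (Sum.inl i)) else 0) = _
            have h3 : sg K (q.dd (Sum.inr i)) (q.dd (Sum.inl i)) = 0 :=
              sg_ne (fun h => by simpa using q.dd.injective h)
            have e3 := hσ ⟨i, hi⟩
            have e4 := harm ⟨i, hi⟩
            simp only at e3 e4
            rw [sg_self, h3, mul_zero, zero_add, mul_one, e3, e4]
          · intro x _ hx
            have hx' : x.1 ≠ i := fun h => hx (Subtype.ext h)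
            have h5 : sg K (q.dd (Sum.inr x.1)) (q.dd (Sum.inl i)) = 0 :=
              sg_ne (fun h => by simpa using q.dd.injective h)
            have h6 : sg K (q.dd (Sum.inl x.1)) (q.dd (Sum.inl i)) = 0 :=
              sg_ne (fun h => hx' (by simpa using (q.dd.injective h).symm))
            rw [h5, h6, mul_zero, mul_zero, add_zero, ite_self]
          · intro h; exact absurd (Finset.mem_univ _) h
      · by_cases hi : i = i0
        · -- d = z2
          subst hi
          have hz2' : q.dd (Sum.inr i) = z2 := rfl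
          rw [Finset.sum_eq_zero]
          · rw [hz2', hf2, sg_self, mul_one, zero_add]
            have h7 : sg K z1 z2 = 0 := sg_ne (fun h => hf3 (by rw [← h]))
            rw [h7, mul_zero, ite_self, zero_add]
            by_cases h8 : c.arm z2 = s
            · rw [if_pos h8.symm, if_pos h8]
            · rw [if_neg (Ne.symm h8), if_neg h8]
          · intro x _
            have h5 : sg K (q.dd (Sum.inl x.1)) (q.dd (Sum.inr i)) = 0 :=
              sg_ne (fun h => by simpa using q.dd.injective h)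
            have h6 : sg K (q.dd (Sum.inr x.1)) (q.dd (Sum.inr i)) = 0 :=
              sg_ne (fun h => x.2 (by simpa using (q.dd.injective h).symm))
            rw [h5, h6, mul_zero, mul_zero, add_zero, ite_self]
        · -- regular
          have e1 : sg K z2 (q.dd (Sum.inr i)) = 0 :=
            sg_ne (fun h => hi (by simpa using (q.dd.injective h)))
          have e2 : sg K z1 (q.dd (Sum.inr i)) = 0 :=
            sg_ne (fun h => by simpa using q.dd.injective h)
          rw [e1, e2, mul_zero, mul_zero, ite_self, ite_self, add_zero, add_zero,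
            Finset.sum_eq_single (⟨i, hi⟩ : {i : Fin q.m // i ≠ i0})]
          · change (if c.arm (q.dd (Sum.inr i)) = s then
                (β *ᵥ u) (q.dd (Sum.inl i)) * sg K (q.dd (Sum.inr i))
                  (q.dd (Sum.inr i)) +
                (β *ᵥ u) (q.dd (Sum.inr i)) * sg K (q.dd (Sum.inl i))
                  (q.dd (Sum.inr i)) else 0) = _
            have h3 : sg K (q.dd (Sum.inl i)) (q.dd (Sum.inr i)) = 0 :=
              sg_ne (fun h => by simpa using q.dd.injective h)
            have e3 := hσ' ⟨i, hi⟩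
            simp only at e3
            rw [sg_self, h3, mul_zero, add_zero, mul_one, e3]
          · intro x _ hx
            have hx' : x.1 ≠ i := fun h => hx (Subtype.ext h)
            have h5 : sg K (q.dd (Sum.inl x.1)) (q.dd (Sum.inr i)) = 0 :=
              sg_ne (fun h => by simpa using q.dd.injective h)
            have h6 : sg K (q.dd (Sum.inr x.1)) (q.dd (Sum.inr i)) = 0 :=
              sg_ne (fun h => hx' (by simpa using (q.dd.injective h).symm))
            rw [h5, h6, mul_zero, mul_zero, add_zero, ite_self]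
          · intro h; exact absurd (Finset.mem_univ _) h
    rw [h1, hsymb, bB_dot, hnil l hl, dotProduct_zero]

/-- **NIL for `β`** -/
theorem nil_beta (R : Ranked c) (hR : PosR R q)
    {H : Matrix (Fin q.m) (Fin q.m) K} (hH : Hᵀ = -H)
    (hgen : ∀ G : Matrix (Fin q.m) (Fin q.m) K, Gᵀ = -G →
      ∃ D : Derivation ℂ K K, H.map D = G)
    {β : Matrix c.δ c.δ K} (hs : βᵀ = β) {Y : Matrix (Fin q.m) c.δ K}
    (hβ : β = q.toPol.P H * Y)
    (htri : ∀ d e, c.arm d = c.arm e → 0 ≤ R.rk d + R.rk e → β d e = 0)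
    (m : ℕ) (hnil : ∀ l : List (Fin 3), l.length = m → ∀ u : c.δ → K,
      β *ᵥ ((l.map (TB β)).prod u) = 0) : β = 0 := by
  have key : ∀ u u', bB β u u' = 0 := by
    intro u u'
    rcases hz : q.z with _ | i0
    · exact nil_beta_even R hR hz hH hgen hs hβ htri m hnil u u'
    · exact nil_beta_odd R hR hz hH hgen hs hβ htri m hnil u u'
  ext d e
  rw [← bB_sg_sg β d e, key]
  rfl

/-- **LEMMA N** -/
theorem lemN (R : Ranked c) (hR : PosR R q)
    {g : Fin 3 → Matrix (Ix n) (Ix n) K} (hg : ∀ s, (g s)ᵀ * Jm n K * g s = Jm n K)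
    {H : Matrix (Fin q.m) (Fin q.m) K} (hH : Hᵀ = -H)
    (hgen : ∀ G : Matrix (Fin q.m) (Fin q.m) K, Gᵀ = -G →
      ∃ D : Derivation ℂ K K, H.map D = G)
    {F A ν : Matrix (Ix n) c.δ K} (hF : F ∈ c.N g) (hFW : F ∈ VL (q.toPol.LH H))
    (hν : ν ∈ c.N g) (hβ : Fᵀ * Jm n K * A = Fᵀ * Jm n K * ν)
    (hs : (Fᵀ * Jm n K * A)ᵀ = Fᵀ * Jm n K * A)
    (h0 : ∀ s, (Fᵀ * Jm n K * A) * (FO.E K c.arm s * c.B K) * (Fᵀ * Jm n K * A) = 0) :
    Fᵀ * Jm n K * A = 0 := by
  obtain ⟨R', rfl⟩ := q.toPol.mem_VL_iff.1 hFW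
  refine nil_beta R hR hH hgen hs (Y := R'ᵀ * Jm n K * A) ?_ ?_ 1 ?_
  · rw [transpose_mul, transpose_transpose]
    simp only [Matrix.mul_assoc]
  · intro d e h1 h2
    rw [hβ]
    exact R.col_perp hg hF hν h1 h2
  · intro l hl u
    obtain ⟨s, rfl⟩ := List.length_eq_one_iff.1 hl
    rw [List.map_singleton, List.prod_singleton, TB, Matrix.toLin'_apply, mulVec_mulVec,
      ← Matrix.mul_assoc, h0 s, zero_mulVec]

end Crest.Agent.R172.CSys
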