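import Crest.Agent.R172.NilBr4
import Crest.Agent.R172.DerG

/-!
Row 172: Theorem X at the generic element and its descent: outside tame `𝒦iso` has codimension at
most one in `𝒦`.
-/

set_option autoImplicit false
set_option linter.unusedSectionVars false

namespace Crest.Agent.R172.CSys

open Module Matrix Crest.AlgebraR.SpinSaturation Crest.Agent.R172.SoGrade Crest.Agent.R172.CF
open Crest.Agent.R172.Gen (Jm Ix emb Ent ent)
open Crest.Agent.R172.ThX
open Crest.Agent.R172.Core (NS)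

variable {n : ℕ} {a : Fin 3 → Fin n → ℤ} {c : Cfg n a} {K : Type} [Field K] [Algebra ℂ K]
variable {q : SPol c}

theorem TT_pow_supp (R : Ranked c) {g : Fin 3 → Matrix (Ix n) (Ix n) K}
    (hg : ∀ s, (g s)ᵀ * Jm n K * g s = Jm n K) {F G : Matrix (Ix n) c.δ K} (hF : F ∈ c.N g)
    (hG : G ∈ c.N g) (s : Fin 3) (S : ℤ) (hS : ∀ d, -S ≤ R.rk d) (k : ℕ) (u : c.δ → K)
    (d : c.δ) (hd : ((TT F G s) ^ (k + 1)) u d ≠ 0) : c.arm d = s ∧ (k : ℤ) - S ≤ R.rk d := by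
  induction k generalizing d with
  | zero =>
    rw [zero_add, pow_one, TT_apply] at hd
    have h1 : c.arm d = s := by by_contra h; rw [if_neg h] at hd; exact hd rfl
    refine ⟨h1, ?_⟩
    have := hS d
    push_cast
    omega
  | succ k ih =>
    rw [pow_succ', Module.End.mul_apply, TT_apply] at hd
    have h1 : c.arm d = s := by by_contra h; rw [if_neg h] at hd; exact hd rfl
    rw [if_pos h1, mulVec, dotProduct] at hd
    obtain ⟨e, -, he⟩ := Finset.exists_ne_zero_of_sum_ne_zero hd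
    have he1 : (Fᵀ * Jm n K * G) (c.σ d) e ≠ 0 := left_ne_zero_of_mul he
    have he2 := ih e (right_ne_zero_of_mul he)
    have h3 : ¬ (0 ≤ R.rk (c.σ d) + R.rk e) := by
      intro h
      exact he1 (R.col_perp hg hF hG (by rw [c.arm_σ, h1, he2.1]) h)
    rw [R.rk_σ] at h3
    refine ⟨h1, ?_⟩
    push_cast
    have := he2.2
    omega

/-- the operators `E_s ∘ adj F ∘ G` are nilpotent -/
theorem TT_nil (R : Ranked c) {g : Fin 3 → Matrix (Ix n) (Ix n) K}
    (hg : ∀ s, (g s)ᵀ * Jm n K * g s = Jm n K) {F G : Matrix (Ix n) c.δ K} (hF : F ∈ c.N g)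
    (hG : G ∈ c.N g) : ∃ k, ∀ s, (TT F G s) ^ k = 0 := by
  have h1 : ∀ d, |R.rk d| ≤ ∑ e, |R.rk e| := fun d =>
    Finset.single_le_sum (f := fun e => |R.rk e|) (fun e _ => abs_nonneg _) (Finset.mem_univ d)
  refine ⟨(2 * ∑ e, |R.rk e| + 1).toNat + 1, fun s => ?_⟩
  refine LinearMap.ext fun u => ?_
  funext d
  by_contra hne
  have h2 := TT_pow_supp R hg hF hG s (∑ e, |R.rk e|) (fun d => by
    have := h1 d
    have := neg_abs_le (R.rk d)
    omega) _ u d hne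
  have h3 := h1 d
  have h4 := le_abs_self (R.rk d)
  have h5 : 0 ≤ ∑ e, |R.rk e| := Finset.sum_nonneg fun e _ => abs_nonneg _
  omega

/-- **the `Φ_s` are nilpotent** -/
theorem MM_nil (R : Ranked c) {g : Fin 3 → Matrix (Ix n) (Ix n) K}
    (hg : ∀ s, (g s)ᵀ * Jm n K * g s = Jm n K) {F : Matrix (Ix n) c.δ K} (hF : F ∈ c.N g) :
    ∃ k, ∀ s, MM (pU c K) (adjU c K) (Matrix.toLin' F) (Matrix.toLin' F) s ^ k = 0 := by
  obtain ⟨k, hk⟩ := TT_nil R hg hF hF
  have key : ∀ (s : Fin 3) (j : ℕ) (v : Ix n → K),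
      (MM (pU c K) (adjU c K) (Matrix.toLin' F) (Matrix.toLin' F) s ^ (j + 1)) v =
        F *ᵥ ((TT F F s ^ j) ((FO.E K c.arm s * c.B K * Fᵀ * Jm n K) *ᵥ v)) := by
    intro s j
    induction j with
    | zero =>
      intro v
      rw [zero_add, pow_one, pow_zero, Module.End.one_apply, MM_toLin, mulVec_mulVec, FO.M]
      congr 1
      simp only [Matrix.mul_assoc]
    | succ j ih =>
      intro v
      rw [pow_succ', Module.End.mul_apply, ih, MM_toLin, pow_succ' (TT F F s),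
        Module.End.mul_apply]
      rw [TT, Matrix.toLin'_apply, mulVec_mulVec, mulVec_mulVec, FO.M]
      congr 1
      simp only [Matrix.mul_assoc]
  refine ⟨k + 1, fun s => ?_⟩
  refine LinearMap.ext fun v => ?_
  rw [key, hk, LinearMap.zero_apply, mulVec_zero, LinearMap.zero_apply]

/-- `∑_s Φ_s = 0` -/
theorem MM_sum {N W : Submodule K (Matrix (Ix n) c.δ K)}
    (hD : FO.Data ℂ c.arm (Jm n K) (c.B K) N W) {F : Matrix (Ix n) c.δ K} (hF : F ∈ W)
    (v : Ix n → K) :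
    ∑ s, MM (pU c K) (adjU c K) (Matrix.toLin' F) (Matrix.toLin' F) s v = 0 := by
  simp only [MM_toLin]
  rw [← Matrix.sum_mulVec, ← Finset.sum_mul, FO.sum_M, hD.W_iso F hF F hF, Matrix.zero_mul,
    zero_mulVec]

theorem BV_eq : BV n K = DerG.BJ (Jm n K) := by
  refine LinearMap.ext fun v => LinearMap.ext fun w => ?_
  rw [BV_apply, DerG.BJ_apply]

theorem MM_eq (F : Matrix (Ix n) c.δ K) :
    MM (pU c K) (adjU c K) (Matrix.toLin' F) (Matrix.toLin' F)
      = DerG.Ph c.arm (Jm n K) (c.B K) F := by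
  funext s
  refine LinearMap.ext fun v => ?_
  rw [MM_toLin, DerG.Ph_apply, FO.Phi]

/-- the generic element `F` is tame (on some core, for some `D`) -/
def NotTame (F : Matrix (Ix n) c.δ K) : Prop :=
  ∀ (C : St.Core (BV n K) (MM (pU c K) (adjU c K) (Matrix.toLin' F) (Matrix.toLin' F)))
    (D : Module.End K C.M), ¬ Core.Tame
      (fun s => Core.cp C (MM (pU c K) (adjU c K) (Matrix.toLin' F) (Matrix.toLin' F) s)) D

/-- **Theorem X at a generic element.** -/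
theorem thmX_generic [IsAlgClosed K] [CharZero K] (R : Ranked c) (hR : PosR R q)
    {g : Fin 3 → Matrix (Ix n) (Ix n) K} (hg : ∀ s, (g s)ᵀ * Jm n K * g s = Jm n K)
    {H : Matrix (Fin q.m) (Fin q.m) K} (hH : Hᵀ = -H)
    (hgen : ∀ G : Matrix (Fin q.m) (Fin q.m) K, Gᵀ = -G →
      ∃ D : Derivation ℂ K K, H.map D = G)
    (hD : FO.Data ℂ c.arm (Jm n K) (c.B K) (c.N g) (VL (q.toPol.LH H)))
    {F : Matrix (Ix n) c.δ K} (hF : FO.Generic ℂ c.arm (c.N g) (VL (q.toPol.LH H)) F)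
    (hT : NotTame F) :
    ∀ G ∈ c.N g ⊓ VL (q.toPol.LH H), ∃ lam : K, Fᵀ * Jm n K * G = lam • (Fᵀ * Jm n K * F) := by
  intro G hG
  obtain ⟨C⟩ := St.exists_core (BV n K) (fun u v => BV_ns.symm u v) BV_ns.nondeg
    (MM (pU c K) (adjU c K) (Matrix.toLin' F) (Matrix.toLin' F))
  have hder : Core.DerR (BV n K)
      (MM (pU c K) (adjU c K) (Matrix.toLin' F) (Matrix.toLin' F)) := by
    rw [BV_eq, MM_eq]
    exact DerG.derR hD hF
  obtain ⟨lam, hlam⟩ := (sys hD).thmX BV_ns BU_ns (F := Matrix.toLin' F) ⟨F, hF.mem, rfl⟩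
    (MM_nil R hg hF.mem.1) (MM_sum hD hF.mem.2) hder C (fun D => hT C D)
    (fun G hG => nil_pair R hR hg hH hgen hD _ ⟨F, hF.mem, rfl⟩ G hG)
    (Matrix.toLin' G) ⟨G, hG, rfl⟩
  refine ⟨lam, ?_⟩
  ext d e
  have h1 := hlam (sg K d) (sg K e)
  change BV n K (F *ᵥ sg K d) (G *ᵥ sg K e) = lam * BV n K (F *ᵥ sg K d) (F *ᵥ sg K e) at h1
  rw [← bFG_apply, ← bFG_apply, bFG_sg_sg, bFG_sg_sg] at h1
  rw [h1, Matrix.smul_apply, smul_eq_mul]

section descent

/-- polynomial matrix of unknowns -/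
noncomputable def XM (c : Cfg n a) (K : Type) [Field K] :
    Matrix (Ix n) c.δ (MvPolynomial (Ix n × c.δ) K) :=
  Matrix.of fun x d => MvPolynomial.X (x, d)

theorem XM_map {L : Type} [Field L] [Algebra K L] (F : Matrix (Ix n) c.δ L) :
    (XM c K).map (MvPolynomial.aeval (fun y : Ix n × c.δ => F y.1 y.2)) = F := by
  ext x d
  rw [map_apply, XM, of_apply, MvPolynomial.aeval_X]

/-- constant matrices -/
noncomputable def CM (c : Cfg n a) {K : Type} [Field K] {α β : Type} (A : Matrix α β K) :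
    Matrix α β (MvPolynomial (Ix n × c.δ) K) := A.map MvPolynomial.C

theorem CM_map {L : Type} [Field L] [Algebra K L] {α β : Type} (A : Matrix α β K)
    (f : Ix n × c.δ → L) : (CM c A).map (MvPolynomial.aeval f) = emb K L A := by
  ext x d
  rw [CM, map_apply, map_apply, MvPolynomial.aeval_C]
  rfl

/-- the polynomial of the identity (*) -/
noncomputable def starP (G : Matrix (Ix n) c.δ K) (d e d' e' : c.δ) :
    MvPolynomial (Ix n × c.δ) K :=
  ((XM c K)ᵀ * CM c (Jm n K * G)) d e * ((XM c K)ᵀ * CM c (Jm n K) * XM c K) d' e' -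
  ((XM c K)ᵀ * CM c (Jm n K * G)) d' e' * ((XM c K)ᵀ * CM c (Jm n K) * XM c K) d e

theorem emb_Jm {L : Type} [Field L] [Algebra K L] : emb K L (Jm n K) = Jm n L :=
  Pol.Jm_map (algebraMap K L)

theorem star_eval {L : Type} [Field L] [Algebra K L] (G : Matrix (Ix n) c.δ K)
    (F : Matrix (Ix n) c.δ L) (d e d' e' : c.δ) :
    MvPolynomial.aeval (fun y : Ix n × c.δ => F y.1 y.2) (starP G d e d' e') =
      (Fᵀ * Jm n L * emb K L G) d e * (Fᵀ * Jm n L * F) d' e' -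
      (Fᵀ * Jm n L * emb K L G) d' e' * (Fᵀ * Jm n L * F) d e := by
  let φ : MvPolynomial (Ix n × c.δ) K →+* L :=
    (MvPolynomial.aeval (fun y : Ix n × c.δ => F y.1 y.2)).toRingHom
  have e1 : (XM c K)ᵀ.map φ = Fᵀ := by
    have := XM_map (K := K) F
    calc (XM c K)ᵀ.map φ = ((XM c K).map φ)ᵀ := rfl
      _ = Fᵀ := congrArg Matrix.transpose this
  have e3 : (XM c K).map φ = F := XM_map F
  have h1 : ((XM c K)ᵀ * CM c (Jm n K * G)).map φ = Fᵀ * Jm n L * emb K L G := by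
    have e2 : (CM c (Jm n K * G)).map φ = emb K L (Jm n K * G) := CM_map _ _
    rw [Matrix.map_mul, e1, e2, FO3.emb_mul', emb_Jm, Matrix.mul_assoc]
  have h2 : ((XM c K)ᵀ * CM c (Jm n K) * XM c K).map φ = Fᵀ * Jm n L * F := by
    have e2 : (CM c (Jm n K)).map φ = emb K L (Jm n K) := CM_map _ _
    rw [Matrix.map_mul, Matrix.map_mul, e1, e2, e3, emb_Jm]
  have h3 : φ (starP G d e d' e') =
      φ (((XM c K)ᵀ * CM c (Jm n K * G)) d e) *
        φ (((XM c K)ᵀ * CM c (Jm n K) * XM c K) d' e') -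
      φ (((XM c K)ᵀ * CM c (Jm n K * G)) d' e') *
        φ (((XM c K)ᵀ * CM c (Jm n K) * XM c K) d e) := by
    rw [starP, map_sub, map_mul, map_mul]
  change φ (starP G d e d' e') = _
  rw [h3, ← h1, ← h2]
  rfl

/-- base change of elements of `N` -/
theorem emb_mem_N {L : Type} [Field L] [Algebra K L] {g : Fin 3 → Matrix (Ix n) (Ix n) K}
    {F : Matrix (Ix n) c.δ K} (hF : F ∈ c.N g) : emb K L F ∈ c.N (fun s => emb K L (g s)) := by
  obtain ⟨G, hG, rfl⟩ := c.mem_N.1 hF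
  refine c.mem_N.2 ⟨emb K L G, ?_, ?_⟩
  · intro i d
    refine ⟨fun h => ?_, fun h => ?_⟩
    · rw [FO3.emb_apply', (hG i d).1 h, map_zero]
    · rw [FO3.emb_apply', (hG i d).2 h, map_zero]
  · ext p d
    rw [act_apply, FO3.emb_apply', act_apply, ← FO3.emb_apply', FO3.emb_mul']

theorem emb_mem_VL {L : Type} [Field L] [Algebra K L] [Algebra ℂ L] [IsScalarTower ℂ K L]
    (p : Pol c) {H : Matrix (Fin p.m) (Fin p.m) K}
    {F : Matrix (Ix n) c.δ K} (hF : F ∈ VL (p.LH H)) : emb K L F ∈ VL (p.LH (emb K L H)) := by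
  obtain ⟨R, rfl⟩ := p.mem_VL_iff.1 hF
  refine p.mem_VL_iff.2 ⟨emb K L R, ?_⟩
  rw [FO3.emb_mul']
  congr 1
  rw [← FO3.emb_P]
  rfl

/-- **The generic package** over an extension `L` of `K`: everything which is used about a generic
element `F` of `𝒦`. -/
def GenPkg (q : SPol c) (K : Type) [Field K] [Algebra ℂ K]
    (g : Fin 3 → Matrix (Ix n) (Ix n) K) (H : Matrix (Fin q.m) (Fin q.m) K)
    (P : ∀ (L : Type) [Field L] [Algebra K L] [Algebra ℂ L], Matrix (Ix n) c.δ L → Prop) :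
    Prop :=
  ∃ (L : Type) (_ : Field L) (_ : Algebra K L) (_ : Algebra ℂ L) (_ : IsScalarTower ℂ K L)
    (_ : IsAlgClosed L) (_ : CharZero L) (F : Matrix (Ix n) c.δ L),
    FO.Data ℂ c.arm (Jm n L) (c.B L) (c.N (fun s => emb K L (g s)))
      (VL (q.toPol.LH (emb K L H))) ∧
    FO.Generic ℂ c.arm (c.N (fun s => emb K L (g s))) (VL (q.toPol.LH (emb K L H))) F ∧
    (∀ G : Matrix (Fin q.m) (Fin q.m) L, Gᵀ = -G →
      ∃ D : Derivation ℂ L L, (emb K L H).map D = G) ∧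
    (∀ p : MvPolynomial (Ix n × c.δ) K, MvPolynomial.aeval (fun y => F y.1 y.2) p = 0 →
      ∀ F0 ∈ VL (q.toPol.LH H), F0 ∈ c.N g → MvPolynomial.aeval (fun y => F0 y.1 y.2) p = 0) ∧
    P L F

/-- **Theorem X descended to the base field** (the identity (*)). -/
theorem star_base (R : Ranked c) (hR : PosR R q)
    {g : Fin 3 → Matrix (Ix n) (Ix n) K} (hg : ∀ s, (g s)ᵀ * Jm n K * g s = Jm n K)
    {H : Matrix (Fin q.m) (Fin q.m) K} (hH : Hᵀ = -H)
    (hpkg : GenPkg q K g H (fun _ _ _ _ F => NotTame F)) :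
    ∀ F ∈ c.N g ⊓ VL (q.toPol.LH H), ∀ G ∈ c.N g ⊓ VL (q.toPol.LH H), ∀ d e d' e',
      (Fᵀ * Jm n K * G) d e * (Fᵀ * Jm n K * F) d' e' =
      (Fᵀ * Jm n K * G) d' e' * (Fᵀ * Jm n K * F) d e := by
  intro F0 hF0 G hG d e d' e'
  obtain ⟨L, iL, iKL, iCL, ist, icl, icz, F, hD, hF, hgen, hspec, hT⟩ := hpkg
  obtain ⟨lam, hlam⟩ := thmX_generic R hR (fun s => Top.emb_orth (hg s)) (FO3.emb_skew hH) hgen
    hD hF hT (emb K L G) ⟨emb_mem_N hG.1, emb_mem_VL q.toPol hG.2⟩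
  have h1 := hspec (starP G d e d' e') (by
    rw [star_eval, hlam]
    simp only [Matrix.smul_apply, smul_eq_mul]
    ring) F0 hF0.2 hF0.1
  rw [star_eval] at h1
  have h2 : emb K K G = G := by ext x y; rfl
  rw [h2, sub_eq_zero] at h1
  exact h1

/-- the hypothesis `hX` of ThX3 -/
theorem hX_base (R : Ranked c) (hR : PosR R q)
    {g : Fin 3 → Matrix (Ix n) (Ix n) K} (hg : ∀ s, (g s)ᵀ * Jm n K * g s = Jm n K)
    {H : Matrix (Fin q.m) (Fin q.m) K} (hH : Hᵀ = -H)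
    (hpkg : GenPkg q K g H (fun _ _ _ _ F => NotTame F)) :
    ∀ F ∈ KK (c.N g ⊓ VL (q.toPol.LH H)), ∀ G ∈ KK (c.N g ⊓ VL (q.toPol.LH H)),
      ∀ u1 u1' u2 u2', BV n K (F u1) (G u1') * BV n K (F u2) (F u2')
        = BV n K (F u2) (G u2') * BV n K (F u1) (F u1') := by
  rintro _ ⟨F, hF, rfl⟩ _ ⟨G, hG, rfl⟩ u1 u1' u2 u2'
  change BV n K (F *ᵥ u1) (G *ᵥ u1') * BV n K (F *ᵥ u2) (F *ᵥ u2')
        = BV n K (F *ᵥ u2) (G *ᵥ u2') * BV n K (F *ᵥ u1) (F *ᵥ u1')
  have h1 := star_base R hR hg hH hpkg F hF G hG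
  simp only [BV_mulVec]
  by_cases h0 : Fᵀ * Jm n K * F = 0
  · rw [h0]; simp
  · obtain ⟨d', e', h2⟩ : ∃ d' e', (Fᵀ * Jm n K * F) d' e' ≠ 0 := by
      by_contra h
      push Not at h
      exact h0 (by ext d e; exact h d e)
    have h3 : Fᵀ * Jm n K * G =
        ((Fᵀ * Jm n K * G) d' e' / (Fᵀ * Jm n K * F) d' e') • (Fᵀ * Jm n K * F) := by
      ext d e
      rw [Matrix.smul_apply, smul_eq_mul, div_mul_eq_mul_div, eq_div_iff h2]
      exact h1 d e d' e'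
    rw [h3, smul_mulVec, smul_mulVec, dotProduct_smul, dotProduct_smul, smul_eq_mul,
      smul_eq_mul]
    ring

/-- **`𝒦iso` has codimension at most one in `𝒦` (outside tame).** -/
theorem codim_base [IsAlgClosed K] (R : Ranked c) (hR : PosR R q)
    {g : Fin 3 → Matrix (Ix n) (Ix n) K} (hg : ∀ s, (g s)ᵀ * Jm n K * g s = Jm n K)
    {H : Matrix (Fin q.m) (Fin q.m) K} (hH : Hᵀ = -H)
    (hgen : ∀ G : Matrix (Fin q.m) (Fin q.m) K, Gᵀ = -G →
      ∃ D : Derivation ℂ K K, H.map D = G)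
    (hD : FO.Data ℂ c.arm (Jm n K) (c.B K) (c.N g) (VL (q.toPol.LH H)))
    (hpkg : GenPkg q K g H (fun _ _ _ _ F => NotTame F)) :
    Kiso (BV n K) (KK (c.N g ⊓ VL (q.toPol.LH H))) = KK (c.N g ⊓ VL (q.toPol.LH H)) ∨
      ∃ F0 ∈ KK (c.N g ⊓ VL (q.toPol.LH H)),
        F0 ∉ Kiso (BV n K) (KK (c.N g ⊓ VL (q.toPol.LH H))) ∧
        KK (c.N g ⊓ VL (q.toPol.LH H)) =
          Kiso (BV n K) (KK (c.N g ⊓ VL (q.toPol.LH H))) ⊔ Submodule.span K {F0} :=
  (sys hD).codim BV_ns BU_ns (nil_pair R hR hg hH hgen hD) (hX_base R hR hg hH hpkg)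

/-- **dimension count (outside tame)** -/
theorem finrank_base [IsAlgClosed K] (R : Ranked c) (hR : PosR R q)
    {g : Fin 3 → Matrix (Ix n) (Ix n) K} (hg : ∀ s, (g s)ᵀ * Jm n K * g s = Jm n K)
    {H : Matrix (Fin q.m) (Fin q.m) K} (hH : Hᵀ = -H)
    (hgen : ∀ G : Matrix (Fin q.m) (Fin q.m) K, Gᵀ = -G →
      ∃ D : Derivation ℂ K K, H.map D = G)
    (hD : FO.Data ℂ c.arm (Jm n K) (c.B K) (c.N g) (VL (q.toPol.LH H)))
    (hpkg : GenPkg q K g H (fun _ _ _ _ F => NotTame F)) :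
    finrank K ↥(c.N g ⊓ VL (q.toPol.LH H)) ≤
      finrank K (Kiso (BV n K) (KK (c.N g ⊓ VL (q.toPol.LH H)))) + 1 := by
  rw [← finrank_KK]
  exact (sys hD).finrank_le BV_ns BU_ns (nil_pair R hR hg hH hgen hD)
    (hX_base R hR hg hH hpkg)

theorem emb_self' {α β : Type*} (A : Matrix α β K) : emb K K A = A := by ext x y; rfl

/-- directions of `H` at the generic point, over every extension -/
theorem hgen_of_GPt {g : Fin 3 → Matrix (Ix n) (Ix n) K} {H : Matrix (Fin q.m) (Fin q.m) K}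
    (hG : Top.GPt n q.m K g H) (L : Type) [Field L] [Algebra K L] [Algebra ℂ L]
    [IsScalarTower ℂ K L] (G : Matrix (Fin q.m) (Fin q.m) L) (hGs : Gᵀ = -G) :
    ∃ D : Derivation ℂ L L, (emb K L H).map D = G := by
  obtain ⟨D, -, hD⟩ := hG.dir L (fun _ => 0) (fun s => by simp [Gen.IsSo]) G hGs
  exact ⟨D, hD⟩

theorem hgen_of_GPt' {g : Fin 3 → Matrix (Ix n) (Ix n) K} {H : Matrix (Fin q.m) (Fin q.m) K}
    (hG : Top.GPt n q.m K g H) (G : Matrix (Fin q.m) (Fin q.m) K) (hGs : Gᵀ = -G) :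
    ∃ D : Derivation ℂ K K, H.map D = G := by
  obtain ⟨D, hD⟩ := hgen_of_GPt hG K G hGs
  rw [emb_self'] at hD
  exact ⟨D, hD⟩

theorem data_of_GPt {g : Fin 3 → Matrix (Ix n) (Ix n) K} {H : Matrix (Fin q.m) (Fin q.m) K}
    (hG : Top.GPt n q.m K g H) :
    FO.Data ℂ c.arm (Jm n K) (c.B K) (c.N g) (VL (q.toPol.LH H)) := by
  have h := FO3.data q.toPol hG K
  have h1 : (fun s => emb K K (g s)) = g := funext fun s => emb_self' (g s)
  have h2 : emb K K H = H := emb_self' H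
  rw [h1] at h
  have h3 : q.toPol.LH (emb K K H) = q.toPol.LH H := congrArg _ h2
  rw [h3] at h
  exact h

/-- the package at the generic point -/
theorem genPkg_of_GPt {g : Fin 3 → Matrix (Ix n) (Ix n) K} {H : Matrix (Fin q.m) (Fin q.m) K}
    (hG : Top.GPt n q.m K g H)
    (P : ∀ (L : Type) [Field L] [Algebra K L] [Algebra ℂ L], Matrix (Ix n) c.δ L → Prop)
    (hP : ∀ (L : Type) [Field L] [Algebra K L] [Algebra ℂ L] [IsScalarTower ℂ K L]
      [IsAlgClosed L] [CharZero L] (F : Matrix (Ix n) c.δ L),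
      FO.Generic ℂ c.arm (c.N (fun s => emb K L (g s))) (VL (q.toPol.LH (emb K L H))) F → P L F) :
    GenPkg q K g H P := by
  obtain ⟨L, iL, iKL, iCL, ist, icl, icz, F, hF, hspec⟩ := FO3.exists_generic q.toPol hG
  exact ⟨L, iL, iKL, iCL, ist, icl, icz, F, FO3.data q.toPol hG L, hF,
    fun G hGs => hgen_of_GPt hG L G hGs, hspec, hP L F hF⟩

end descent

end Crest.Agent.R172.CSys
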