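import Crest.Agent.R172.IndSt1
import Crest.Agent.R172.IndBC
import Crest.Agent.R172.IndExt
import Crest.Agent.R172.CtxFr
import Crest.Agent.R172.LemN
import Crest.Agent.R172.NilBr5

/-!
Row 172, node IND: violating instances `Inst` and their first properties.
-/

set_option autoImplicit false
set_option maxHeartbeats 400000
set_option linter.unusedSectionVars false

namespace Crest.Agent.R172.Ind

open Matrix Module
open Crest.AlgebraR.SpinSaturation Crest.Agent.R172.SoGrade Crest.Agent.R172.Sp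
open Crest.Agent.R172.Gen (Jm Ix emb IsSo)
open Crest.Agent.R172.CF Crest.Agent.R172.HM2 Crest.Agent.R172.HM8 Crest.Agent.R172.HM9

variable {n : ℕ} {a : Fin 3 → Fin n → ℤ} {c : Cfg n a}

/-- **A violating instance** `k(V) ≥ b + 2`, all `μ ≤ b`. -/
structure Inst (c : Cfg n a) (q : SPol c) (R : Ranked c) (K : Type) [Field K] [Algebra ℂ K]
    (g : Fin 3 → Matrix (Ix n) (Ix n) K) (H : Matrix (Fin q.toPol.m) (Fin q.toPol.m) K) : Prop where
  posR : CSys.PosR R q
  gi : GI c q.toPol K g H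
  bad : ∃ b : ℤ, 0 ≤ b ∧ Bd c q.toPol K g b ∧ b + 2 ≤ kk c q.toPol g H

variable {q : SPol c} {R : Ranked c} {K : Type} [Field K] [Algebra ℂ K]
  {g : Fin 3 → Matrix (Ix n) (Ix n) K} {H : Matrix (Fin q.toPol.m) (Fin q.toPol.m) K}

theorem Inst.two_ne (_h : Inst c q R K g H) : (2 : K) ≠ 0 := by
  have : CharZero K := charZero_of_injective_algebraMap (algebraMap ℂ K).injective
  exact two_ne_zero

theorem GI.data {p : Pol c} {H : Matrix (Fin p.m) (Fin p.m) K} (h : GI c p K g H) :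
    FO.Data ℂ c.arm (Jm n K) (c.B K) (c.N g) (VL (p.LH H)) := Ext.data_of_GI p h

theorem GI.hgen {p : Pol c} {H : Matrix (Fin p.m) (Fin p.m) K} (h : GI c p K g H)
    (G : Matrix (Fin p.m) (Fin p.m) K) (hG : Gᵀ = -G) : ∃ D : Derivation ℂ K K, H.map D = G := by
  obtain ⟨D, -, hD⟩ := h.dir 0 (fun s => by simp [IsSo]) G hG
  exact ⟨D, hD⟩

theorem Inst.data (h : Inst c q R K g H) :
    FO.Data ℂ c.arm (Jm n K) (c.B K) (c.N g) (VL (q.toPol.LH H)) := h.gi.data

theorem Inst.hgen (h : Inst c q R K g H) (G : Matrix (Fin q.toPol.m) (Fin q.toPol.m) K)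
    (hG : Gᵀ = -G) : ∃ D : Derivation ℂ K K, H.map D = G := h.gi.hgen G hG

/-- **isotropic elements are perpendicular to everything** -/
theorem Inst.isoK (h : Inst c q R K g H) {w : Matrix (Ix n) c.δ K}
    (hw : w ∈ c.N g ⊓ VL (q.toPol.LH H)) (hw0 : wᵀ * Jm n K * w = 0) :
    w ∈ Om.Kiso (Jm n K) (c.N g) (VL (q.toPol.LH H)) := by
  have h1 := (CSys.sys h.data).iso_mem CSys.BV_ns CSys.BU_ns
    (CSys.nil_pair R h.posR h.gi.orth h.gi.skew h.hgen h.data)
    (G := Matrix.toLin' w) ⟨w, hw, rfl⟩ (by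
      intro u u'
      rw [Matrix.toLin'_apply, Matrix.toLin'_apply, CSys.BV_mulVec, hw0, zero_mulVec,
        dotProduct_zero])
  refine ⟨hw, fun F hF => ?_⟩
  have h2 := h1.2 (Matrix.toLin' F) ⟨F, hF, rfl⟩
  have h3 : Fᵀ * Jm n K * w = 0 := by
    ext d e
    have h4 := h2 (Pi.single d 1) (Pi.single e 1)
    rw [Matrix.toLin'_apply, Matrix.toLin'_apply, CSys.BV_mulVec, mulVec_single_one,
      single_one_dotProduct] at h4
    exact h4
  have h4 := congrArg transpose h3
  rw [transpose_mul, transpose_mul, transpose_transpose, Jm_transpose, transpose_zero,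
    ← Matrix.mul_assoc] at h4
  exact h4

/-- the two versions of `Kiso` have the same dimension -/
theorem finrank_Kiso :
    finrank K (ThX.Kiso (CSys.BV n K) (CSys.KK (c.N g ⊓ VL (q.toPol.LH H)))) =
      finrank K (Om.Kiso (Jm n K) (c.N g) (VL (q.toPol.LH H))) := by
  have e : ThX.Kiso (CSys.BV n K) (CSys.KK (c.N g ⊓ VL (q.toPol.LH H))) =
      CSys.KK (Om.Kiso (Jm n K) (c.N g) (VL (q.toPol.LH H))) := by
    ext f
    constructor
    · rintro ⟨⟨w, hw, rfl⟩, h1⟩
      refine ⟨w, ⟨hw, fun F hF => ?_⟩, rfl⟩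
      have h2 := h1 (Matrix.toLin' F) ⟨F, hF, rfl⟩
      have h3 : Fᵀ * Jm n K * w = 0 := by
        ext d e
        have h4 := h2 (Pi.single d 1) (Pi.single e 1)
        change CSys.BV n K (Matrix.toLin' F _) (Matrix.toLin' w _) = 0 at h4
        rw [Matrix.toLin'_apply, Matrix.toLin'_apply, CSys.BV_mulVec, mulVec_single_one,
          single_one_dotProduct] at h4
        exact h4
      have h4 := congrArg transpose h3
      rw [transpose_mul, transpose_mul, transpose_transpose, Jm_transpose, transpose_zero,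
        ← Matrix.mul_assoc] at h4
      exact h4
    · rintro ⟨w, ⟨hw, h1⟩, rfl⟩
      refine ⟨⟨w, hw, rfl⟩, ?_⟩
      rintro _ ⟨F, hF, rfl⟩ u u'
      have h4 := congrArg transpose (h1 F hF)
      rw [transpose_mul, transpose_mul, transpose_transpose, Jm_transpose, transpose_zero,
        ← Matrix.mul_assoc] at h4
      change CSys.BV n K (Matrix.toLin' F _) (Matrix.toLin' w _) = 0
      rw [Matrix.toLin'_apply, Matrix.toLin'_apply, CSys.BV_mulVec, h4, zero_mulVec,
        dotProduct_zero]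
  rw [e, CSys.finrank_KK]

/-- **the context of the Q-theory at every element of `Kiso`** -/
theorem Inst.ctx (h : Inst c q R K g H) {F : Matrix (Ix n) c.δ K}
    (hF : F ∈ Om.Kiso (Jm n K) (c.N g) (VL (q.toPol.LH H))) :
    Qt.Ctx ℂ c.arm (Jm n K) (c.B K) (c.N g) (VL (q.toPol.LH H)) F where
  data := h.data
  memN := hF.1.1
  memW := hF.1.2
  perp := hF.2
  frame := CtxFr.ctx_frame R h.gi.orth (hF.2 F hF.1)
  lemN := fun _ hν _ _ h1 h2 h3 =>
    CSys.lemN R h.posR h.gi.orth h.gi.skew h.hgen hF.1.1 hF.1.2 hν h1 h2 h3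

theorem Inst.nilSp (h : Inst c q R K g H) :
    Om.NilSp ℂ c.arm (Jm n K) (c.B K) (c.N g) (VL (q.toPol.LH H)) :=
  Om.nilSp_cfg R q.toPol h.gi.orth h.gi.skew h.hgen h.data

theorem Bd.bc {p : Pol c} {b : ℤ} (h : Bd c p K g b) (L : Type) [Field L] [Algebra K L] :
    Bd c p L (fun s => emb K L (g s)) b := by
  intro P _ _ S hS
  let _ : Algebra K P := ((algebraMap L P).comp (algebraMap K L)).toAlgebra
  exact h P S hS

/-- **base change** -/
theorem Inst.bc (h : Inst c q R K g H) (L : Type) [Field L] [Algebra K L] [Algebra ℂ L]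
    [IsScalarTower ℂ K L] : Inst c q R L (fun s => emb K L (g s)) (emb K L H) where
  posR := h.posR
  gi := Ext.gi_bc q.toPol h.gi
  bad := by
    obtain ⟨b, h1, h2, h3⟩ := h.bad
    refine ⟨b, h1, h2.bc L, ?_⟩
    rw [BC.kk_bc q.toPol h.gi.orth h.gi.skew]
    exact h3

theorem Inst.two_le (h : Inst c q R K g H) :
    2 ≤ finrank K ↥(c.N g ⊓ VL (q.toPol.LH H) : Submodule K (Matrix (Ix n) c.δ K)) := by
  obtain ⟨b, h1, -, h3⟩ := h.bad
  have e : kk c q.toPol g H =
      finrank K ↥(c.N g ⊓ VL (q.toPol.LH H) : Submodule K (Matrix (Ix n) c.δ K)) := by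
    rw [kk, inf_comm]
  rw [e] at h3
  omega

end Crest.Agent.R172.Ind
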