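import Crest.Agent.R172.IndGen4
import Crest.Agent.R172.IndSt2
import Crest.Agent.R172.Ind7
import Crest.Agent.R172.Top3

/-!
Row 172 (S0260): the final assembly from the three inputs `InT` (no tame core), `InS` (`T_g` is
scalar), `InQ` (G1.2).
-/

set_option autoImplicit false
set_option linter.unusedSectionVars false
set_option maxHeartbeats 400000

namespace Crest.Agent.R172.Ind

open Matrix Module
open Crest.AlgebraR.SpinSaturation Crest.Agent.R172.SoGrade Crest.Agent.R172.Sp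
open Crest.Agent.R172.Gen (Jm Ix emb IsSo)
open Crest.Agent.R172.CF Crest.Agent.R172.HM2 Crest.Agent.R172.HM8 Crest.Agent.R172.HM9

/-- (T) no tame core at a generic element of a violating instance -/
def InT : Prop :=
  ∀ (n : ℕ) (a : Fin 3 → Fin n → ℤ) (c : Cfg n a) (q : SPol c) (R : Ranked c)
    (K : Type) [Field K] [Algebra ℂ K] [IsAlgClosed K] (g : Fin 3 → Matrix (Ix n) (Ix n) K)
    (H : Matrix (Fin q.toPol.m) (Fin q.toPol.m) K), Inst c q R K g H →
    ∀ F : Matrix (Ix n) c.δ K, FO.Generic ℂ c.arm (c.N g) (VL (q.toPol.LH H)) F →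
      CSys.NotTame F

/-- (S) `T_g` is scalar for a violating instance -/
def InS : Prop :=
  ∀ (n : ℕ) (a : Fin 3 → Fin n → ℤ) (c : Cfg n a) (q : SPol c) (R : Ranked c)
    (K : Type) [Field K] [Algebra ℂ K] [IsAlgClosed K] (g : Fin 3 → Matrix (Ix n) (Ix n) K)
    (H : Matrix (Fin q.toPol.m) (Fin q.toPol.m) K), Inst c q R K g H →
    Om.Scal ℂ c.arm (Jm n K) (c.B K) (c.N g) (VL (q.toPol.LH H))

/-- (Q) G1.2 for a violating instance -/
def InQ : Prop :=
  ∀ (n : ℕ) (a : Fin 3 → Fin n → ℤ) (c : Cfg n a) (q : SPol c) (R : Ranked c)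
    (K : Type) [Field K] [Algebra ℂ K] [IsAlgClosed K] (g : Fin 3 → Matrix (Ix n) (Ix n) K)
    (H : Matrix (Fin q.toPol.m) (Fin q.toPol.m) K), Inst c q R K g H →
    Om.Kiso (Jm n K) (c.N g) (VL (q.toPol.LH H)) ≠ c.N g ⊓ VL (q.toPol.LH H) →
    Ext.ZI c q.toPol g H = Om.Kiso (Jm n K) (c.N g) (VL (q.toPol.LH H))

/-- **STEP from (T), (S), (Q)** -/
theorem step_of (hT : InT) (hS : InS) (hQ : InQ) : Step := by
  intro n a c q R hR K _ _ _ g H hG b hb0 hB hk
  have hI : Inst c q R K g H := ⟨hR, hG, b, hb0, hB, hk⟩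
  refine Ext.step_inputs R hR hG ?_ ?_ ?_ (hS n a c q R K g H hI) (hQ n a c q R K g H hI)
  · have e : kk c q.toPol g H =
        finrank K ↥(c.N g ⊓ VL (q.toPol.LH H) : Submodule K (Matrix (Ix n) c.δ K)) := by
      rw [kk, inf_comm]
    have h2 := hI.two_le
    omega
  · exact Ext.finrank_Kiso R hR hG fun L _ _ _ _ _ _ F _ hF =>
      hT n a c q R L _ _ (hI.bc L) F hF
  · intro L _ _ _ _ _
    exact hS n a c q R L _ _ (hI.bc L)

/-- **the result from (T), (S), (Q)** -/
theorem result_of (hT : InT) (hS : InS) (hQ : InQ) : ∀ n, Top.CoreS n :=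
  coreS_of_step (step_of hT hS hQ)

/-- **S0260 from (T), (S), (Q)** -/
theorem saturation_of (hT : InT) (hS : InS) (hQ : InQ) (n : ℕ) (hn : 2 ≤ n)
    (a b c : Fin n → ℤ) (ha : IsDominantIntegral n a) (hb : IsDominantIntegral n b)
    (hc : IsDominantIntegral n c) (habc : InRootLattice n (a + b + c)) (N : ℕ) (hN : 1 ≤ N)
    (U : Irrep n a) (V : Irrep n b) (W : Irrep n c)
    (U' : Irrep n (N • a)) (V' : Irrep n (N • b)) (W' : Irrep n (N • c)) :
    HasInvariant U V W ↔ HasInvariant U' V' W' :=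
  Top.result_of_coreS hn (result_of hT hS hQ n) a b c ha hb hc habc N hN U V W U' V' W'

end Crest.Agent.R172.Ind
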