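import Crest.Agent.R172.Fin1

/-!
Row 172 (S0260): the final assembly with the tame input restricted to the operators `τ_G`, `G ∈ 𝒦`.

`CSys.TameAt F G C τ`: `C` is a core of `Φ = M(F,F)`, `τ = τ_G` (self-adjoint, commutes with the
core operators, `cp C (M_s(F,G)) = cp C (M_s(F,F)) ∘ τ`) and `(C.M, Φ, τ)` is tame.
`Ind.InT'`: for a generic `F` of a violating instance there is a core `C` such that `TameAt F G C τ`
is false for all `G ∈ 𝒦`, `τ`.
-/

set_option autoImplicit false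
set_option linter.unusedSectionVars false
set_option maxHeartbeats 400000

namespace Crest.Agent.R172.ThX

open Module LinearMap St _root_.Crest.Agent.R172.Core

variable {K : Type*} [Field K] {V : Type*} [AddCommGroup V] [Module K V]
variable {U : Type*} [AddCommGroup U] [Module K U] {ι : Type*}
variable {B : LinearMap.BilinForm K V} {q : LinearMap.BilinForm K U} {p : ι → End K U}
variable {adj : (U →ₗ[K] V) →ₗ[K] (V →ₗ[K] U)} {𝒦 : Submodule K (U →ₗ[K] V)}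
variable [FiniteDimensional K V] [Fintype ι]

/-- **Theorem X** with the tame hypothesis for the operators `τ_G` only. -/
theorem Sys.thmX' [IsAlgClosed K] [CharZero K] (S : Sys B q p adj 𝒦) (hB : NS B) (hq : NS q)
    {F : U →ₗ[K] V} (hF : F ∈ 𝒦) (hnil : ∃ k, ∀ s, MM p adj F F s ^ k = 0)
    (hsum : ∀ v, ∑ s, MM p adj F F s v = 0) (hDer : DerR B (MM p adj F F))
    (C : St.Core B (MM p adj F F))
    (htame : ∀ G ∈ 𝒦, ∀ τ : End K C.M, (∀ v w, BM C (τ v) w = BM C v (τ w)) →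
      (∀ s v, τ (cp C (MM p adj F F s) v) = cp C (MM p adj F F s) (τ v)) →
      (∀ s v, cp C (MM p adj F G s) v = cp C (MM p adj F F s) (τ v)) →
      ¬ Tame (fun s => cp C (MM p adj F F s)) τ)
    (nil : ∀ G ∈ 𝒦, (∃ m, ∀ l : List ι, m ≤ l.length → ∀ v, wd (MM p adj F G) l v = 0) →
      ∀ u u', B (F u) (G u') = 0) :
    ∀ G ∈ 𝒦, ∃ lam : K, ∀ u u', B (F u) (G u') = lam * B (F u) (F u') := by
  intro G hG
  obtain ⟨τ, h1, h2, h3⟩ := S.exists_tau hB hq hF hG C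
  rcases core_alt_of_DerR hB (fun s => S.MM_sa hB hq hF hF s) hnil hsum hDer C h1 h2 with
    ⟨lam, hlam⟩ | h
  · refine ⟨lam, fun u u' => ?_⟩
    have h4 := nil _ (𝒦.sub_mem hG (𝒦.smul_mem lam hF)) (S.words hB hq hF hG C τ h2 h3 lam hlam)
      u u'
    simp only [LinearMap.sub_apply, LinearMap.smul_apply, map_sub, map_smul, smul_eq_mul] at h4
    exact sub_eq_zero.mp h4
  · exact absurd h (htame G hG τ h1 h2 h3)

end Crest.Agent.R172.ThX

namespace Crest.Agent.R172.CSys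

open Module Matrix Crest.AlgebraR.SpinSaturation Crest.Agent.R172.SoGrade Crest.Agent.R172.CF
open Crest.Agent.R172.Gen (Jm Ix emb Ent ent)
open Crest.Agent.R172.ThX
open Crest.Agent.R172.Core (NS)

variable {n : ℕ} {a : Fin 3 → Fin n → ℤ} {c : Cfg n a} {K : Type} [Field K] [Algebra ℂ K]
variable {q : SPol c}

/-- `τ = τ_G` on the core `C` of `M(F,F)` and `(C.M, Φ, τ)` is tame -/
structure TameAt (F G : Matrix (Ix n) c.δ K)
    (C : St.Core (BV n K) (MM (pU c K) (adjU c K) (Matrix.toLin' F) (Matrix.toLin' F)))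
    (τ : Module.End K C.M) : Prop where
  sa : ∀ v w, Core.BM C (τ v) w = Core.BM C v (τ w)
  comm : ∀ s v, τ (Core.cp C (MM (pU c K) (adjU c K) (Matrix.toLin' F) (Matrix.toLin' F) s) v) =
    Core.cp C (MM (pU c K) (adjU c K) (Matrix.toLin' F) (Matrix.toLin' F) s) (τ v)
  rel : ∀ s v, Core.cp C (MM (pU c K) (adjU c K) (Matrix.toLin' F) (Matrix.toLin' G) s) v =
    Core.cp C (MM (pU c K) (adjU c K) (Matrix.toLin' F) (Matrix.toLin' F) s) (τ v)
  tame : Core.Tame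
    (fun s => Core.cp C (MM (pU c K) (adjU c K) (Matrix.toLin' F) (Matrix.toLin' F) s)) τ

/-- the generic element `F` is not tame for any `τ_G`, `G ∈ 𝒦` -/
def NotTameK (q : SPol c) (g : Fin 3 → Matrix (Ix n) (Ix n) K)
    (H : Matrix (Fin q.m) (Fin q.m) K) (F : Matrix (Ix n) c.δ K) : Prop :=
  ∃ C : St.Core (BV n K) (MM (pU c K) (adjU c K) (Matrix.toLin' F) (Matrix.toLin' F)),
    ∀ G ∈ c.N g ⊓ VL (q.toPol.LH H), ∀ τ : Module.End K C.M, ¬ TameAt F G C τ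

/-- **Theorem X at a generic element.** -/
theorem thmX_generic' [IsAlgClosed K] [CharZero K] (R : Ranked c) (hR : PosR R q)
    {g : Fin 3 → Matrix (Ix n) (Ix n) K} (hg : ∀ s, (g s)ᵀ * Jm n K * g s = Jm n K)
    {H : Matrix (Fin q.m) (Fin q.m) K} (hH : Hᵀ = -H)
    (hgen : ∀ G : Matrix (Fin q.m) (Fin q.m) K, Gᵀ = -G →
      ∃ D : Derivation ℂ K K, H.map D = G)
    (hD : FO.Data ℂ c.arm (Jm n K) (c.B K) (c.N g) (VL (q.toPol.LH H)))
    {F : Matrix (Ix n) c.δ K} (hF : FO.Generic ℂ c.arm (c.N g) (VL (q.toPol.LH H)) F)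
    (hT : NotTameK q g H F) :
    ∀ G ∈ c.N g ⊓ VL (q.toPol.LH H), ∃ lam : K, Fᵀ * Jm n K * G = lam • (Fᵀ * Jm n K * F) := by
  intro G hG
  obtain ⟨C, hT⟩ := hT
  have hder : Core.DerR (BV n K)
      (MM (pU c K) (adjU c K) (Matrix.toLin' F) (Matrix.toLin' F)) := by
    rw [BV_eq, MM_eq]
    exact DerG.derR hD hF
  obtain ⟨lam, hlam⟩ := (sys hD).thmX' BV_ns BU_ns (F := Matrix.toLin' F) ⟨F, hF.mem, rfl⟩
    (MM_nil R hg hF.mem.1) (MM_sum hD hF.mem.2) hder C (by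
      rintro _ ⟨G', hG', rfl⟩ τ h1 h2 h3 h4
      exact hT G' hG' τ ⟨h1, h2, h3, h4⟩)
    (fun G hG => nil_pair R hR hg hH hgen hD _ ⟨F, hF.mem, rfl⟩ G hG)
    (Matrix.toLin' G) ⟨G, hG, rfl⟩
  refine ⟨lam, ?_⟩
  ext d e
  have h1 := hlam (sg K d) (sg K e)
  change BV n K (F *ᵥ sg K d) (G *ᵥ sg K e) = lam * BV n K (F *ᵥ sg K d) (F *ᵥ sg K e) at h1
  rw [← bFG_apply, ← bFG_apply, bFG_sg_sg, bFG_sg_sg] at h1
  rw [h1, Matrix.smul_apply, smul_eq_mul]

/-- **Theorem X descended to the base field** (the identity (*)). -/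
theorem star_base' (R : Ranked c) (hR : PosR R q)
    {g : Fin 3 → Matrix (Ix n) (Ix n) K} (hg : ∀ s, (g s)ᵀ * Jm n K * g s = Jm n K)
    {H : Matrix (Fin q.m) (Fin q.m) K} (hH : Hᵀ = -H)
    (hpkg : GenPkg q K g H (fun L _ _ _ F =>
      NotTameK q (fun s => emb K L (g s)) (emb K L H) F)) :
    ∀ F ∈ c.N g ⊓ VL (q.toPol.LH H), ∀ G ∈ c.N g ⊓ VL (q.toPol.LH H), ∀ d e d' e',
      (Fᵀ * Jm n K * G) d e * (Fᵀ * Jm n K * F) d' e' =
      (Fᵀ * Jm n K * G) d' e' * (Fᵀ * Jm n K * F) d e := by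
  intro F0 hF0 G hG d e d' e'
  obtain ⟨L, iL, iKL, iCL, ist, icl, icz, F, hD, hF, hgen, hspec, hT⟩ := hpkg
  obtain ⟨lam, hlam⟩ := thmX_generic' R hR (fun s => Top.emb_orth (hg s)) (FO3.emb_skew hH) hgen
    hD hF hT (emb K L G) ⟨emb_mem_N hG.1, emb_mem_VL q.toPol hG.2⟩
  have h1 := hspec (starP G d e d' e') (by
    rw [star_eval, hlam]
    simp only [Matrix.smul_apply, smul_eq_mul]
    ring) F0 hF0.2 hF0.1
  rw [star_eval] at h1
  have h2 : emb K K G = G := by ext x y; rfl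
  rw [h2, sub_eq_zero] at h1
  exact h1

/-- the hypothesis `hX` of ThX3 -/
theorem hX_base' (R : Ranked c) (hR : PosR R q)
    {g : Fin 3 → Matrix (Ix n) (Ix n) K} (hg : ∀ s, (g s)ᵀ * Jm n K * g s = Jm n K)
    {H : Matrix (Fin q.m) (Fin q.m) K} (hH : Hᵀ = -H)
    (hpkg : GenPkg q K g H (fun L _ _ _ F =>
      NotTameK q (fun s => emb K L (g s)) (emb K L H) F)) :
    ∀ F ∈ KK (c.N g ⊓ VL (q.toPol.LH H)), ∀ G ∈ KK (c.N g ⊓ VL (q.toPol.LH H)),
      ∀ u1 u1' u2 u2', BV n K (F u1) (G u1') * BV n K (F u2) (F u2')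
        = BV n K (F u2) (G u2') * BV n K (F u1) (F u1') := by
  rintro _ ⟨F, hF, rfl⟩ _ ⟨G, hG, rfl⟩ u1 u1' u2 u2'
  change BV n K (F *ᵥ u1) (G *ᵥ u1') * BV n K (F *ᵥ u2) (F *ᵥ u2')
        = BV n K (F *ᵥ u2) (G *ᵥ u2') * BV n K (F *ᵥ u1) (F *ᵥ u1')
  have h1 := star_base' R hR hg hH hpkg F hF G hG
  simp only [BV_mulVec]
  by_cases h0 : Fᵀ * Jm n K * F = 0
  · rw [h0]; simp
  · obtain ⟨d', e', h2⟩ : ∃ d' e', (Fᵀ * Jm n K * F) d' e' ≠ 0 := by
      by_contra h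
      push Not at h
      exact h0 (by ext d e; exact h d e)
    have h3 : Fᵀ * Jm n K * G =
        ((Fᵀ * Jm n K * G) d' e' / (Fᵀ * Jm n K * F) d' e') • (Fᵀ * Jm n K * F) := by
      ext d e
      rw [Matrix.smul_apply, smul_eq_mul, div_mul_eq_mul_div, eq_div_iff h2]
      exact h1 d e d' e'
    rw [h3, smul_mulVec, smul_mulVec, dotProduct_smul, dotProduct_smul, smul_eq_mul,
      smul_eq_mul]
    ring

/-- **dimension count (outside tame)** -/
theorem finrank_base' [IsAlgClosed K] (R : Ranked c) (hR : PosR R q)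
    {g : Fin 3 → Matrix (Ix n) (Ix n) K} (hg : ∀ s, (g s)ᵀ * Jm n K * g s = Jm n K)
    {H : Matrix (Fin q.m) (Fin q.m) K} (hH : Hᵀ = -H)
    (hgen : ∀ G : Matrix (Fin q.m) (Fin q.m) K, Gᵀ = -G →
      ∃ D : Derivation ℂ K K, H.map D = G)
    (hD : FO.Data ℂ c.arm (Jm n K) (c.B K) (c.N g) (VL (q.toPol.LH H)))
    (hpkg : GenPkg q K g H (fun L _ _ _ F =>
      NotTameK q (fun s => emb K L (g s)) (emb K L H) F)) :
    finrank K ↥(c.N g ⊓ VL (q.toPol.LH H)) ≤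
      finrank K (Kiso (BV n K) (KK (c.N g ⊓ VL (q.toPol.LH H)))) + 1 := by
  rw [← finrank_KK]
  exact (sys hD).finrank_le BV_ns BU_ns (nil_pair R hR hg hH hgen hD)
    (hX_base' R hR hg hH hpkg)

end Crest.Agent.R172.CSys

namespace Crest.Agent.R172.Ext

open Matrix Crest.AlgebraR.SpinSaturation Crest.Agent.R172.SoGrade Crest.Agent.R172.Sp
open Crest.Agent.R172.Gen (Jm Ix emb IsSo Ent ent)
open Crest.Agent.R172.CF Crest.Agent.R172.HM8 Crest.Agent.R172.HM9 Module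
open Crest.Agent.R172.Ind (GI kk mu perp Bd)

variable {n : ℕ} {a : Fin 3 → Fin n → ℤ} {c : Cfg n a} {q : SPol c}

/-- **(P1)** `dim 𝒦 ≤ dim 𝒦iso + 1` outside tame. -/
theorem finrank_Kiso' {K : Type} [Field K] [Algebra ℂ K] [IsAlgClosed K]
    {g : Fin 3 → Matrix (Ix n) (Ix n) K} {H : Matrix (Fin q.m) (Fin q.m) K}
    (R : Ranked c) (hR : CSys.PosR R q) (hG : GI c q.toPol K g H)
    (hT : ∀ (L : Type) [Field L] [Algebra K L] [Algebra ℂ L] [IsScalarTower ℂ K L]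
      [IsAlgClosed L] [CharZero L] (F : Matrix (Ix n) c.δ L),
      GI c q.toPol L (fun s => emb K L (g s)) (emb K L H) →
      FO.Generic ℂ c.arm (c.N (fun s => emb K L (g s))) (VL (q.toPol.LH (emb K L H))) F →
      CSys.NotTameK q (fun s => emb K L (g s)) (emb K L H) F) :
    finrank K ↥(c.N g ⊓ VL (q.toPol.LH H)) ≤
      finrank K ↥(Om.Kiso (Jm n K) (c.N g) (VL (q.toPol.LH H))) + 1 := by
  have h1 := CSys.finrank_base' R hR hG.orth hG.skew (hgen_of_GI hG) (data_of_GI q.toPol hG)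
    (genPkg_of_GI hG (fun L _ _ _ F =>
      CSys.NotTameK q (fun s => emb K L (g s)) (emb K L H) F) hT)
  rw [Kiso_eq, CSys.finrank_KK] at h1
  exact h1

end Crest.Agent.R172.Ext

namespace Crest.Agent.R172.Ind

open Matrix Module
open Crest.AlgebraR.SpinSaturation Crest.Agent.R172.SoGrade Crest.Agent.R172.Sp
open Crest.Agent.R172.Gen (Jm Ix emb IsSo)
open Crest.Agent.R172.CF Crest.Agent.R172.HM2 Crest.Agent.R172.HM8 Crest.Agent.R172.HM9

/-- (T') no tame `τ_G`, `G ∈ 𝒦`, at a generic element of a violating instance -/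
def InT' : Prop :=
  ∀ (n : ℕ) (a : Fin 3 → Fin n → ℤ) (c : Cfg n a) (q : SPol c) (R : Ranked c)
    (K : Type) [Field K] [Algebra ℂ K] [IsAlgClosed K] (g : Fin 3 → Matrix (Ix n) (Ix n) K)
    (H : Matrix (Fin q.toPol.m) (Fin q.toPol.m) K), Inst c q R K g H →
    ∀ F : Matrix (Ix n) c.δ K, FO.Generic ℂ c.arm (c.N g) (VL (q.toPol.LH H)) F →
      CSys.NotTameK q g H F

/-- (T) implies (T') -/
theorem InT.weak (h : InT) : InT' := by
  intro n a c q R K _ _ _ g H hI F hF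
  obtain ⟨C⟩ := St.exists_core (CSys.BV n K) (fun u v => CSys.BV_ns.symm u v) CSys.BV_ns.nondeg
    (ThX.MM (CSys.pU c K) (CSys.adjU c K) (Matrix.toLin' F) (Matrix.toLin' F))
  exact ⟨C, fun G _ τ hτ => h n a c q R K g H hI F hF C τ hτ.tame⟩

/-- **STEP from (T'), (S), (Q)** -/
theorem step_of' (hT : InT') (hS : InS) (hQ : InQ) : Step := by
  intro n a c q R hR K _ _ _ g H hG b hb0 hB hk
  have hI : Inst c q R K g H := ⟨hR, hG, b, hb0, hB, hk⟩
  refine Ext.step_inputs R hR hG ?_ ?_ ?_ (hS n a c q R K g H hI) (hQ n a c q R K g H hI)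
  · have e : kk c q.toPol g H =
        finrank K ↥(c.N g ⊓ VL (q.toPol.LH H) : Submodule K (Matrix (Ix n) c.δ K)) := by
      rw [kk, inf_comm]
    have h2 := hI.two_le
    omega
  · exact Ext.finrank_Kiso' R hR hG fun L _ _ _ _ _ _ F _ hF =>
      hT n a c q R L _ _ (hI.bc L) F hF
  · intro L _ _ _ _ _
    exact hS n a c q R L _ _ (hI.bc L)

/-- **S0260 from (T'), (S), (Q)** -/
theorem saturation_of' (hT : InT') (hS : InS) (hQ : InQ) (n : ℕ) (hn : 2 ≤ n)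
    (a b c : Fin n → ℤ) (ha : IsDominantIntegral n a) (hb : IsDominantIntegral n b)
    (hc : IsDominantIntegral n c) (habc : InRootLattice n (a + b + c)) (N : ℕ) (hN : 1 ≤ N)
    (U : Irrep n a) (V : Irrep n b) (W : Irrep n c)
    (U' : Irrep n (N • a)) (V' : Irrep n (N • b)) (W' : Irrep n (N • c)) :
    HasInvariant U V W ↔ HasInvariant U' V' W' :=
  Top.result_of_coreS hn (coreS_of_step (step_of' hT hS hQ) n) a b c ha hb hc habc N hN
    U V W U' V' W'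

/-! ### The weakest inputs (MASTER v3, 15216) -/

/-- (T0) no tame `τ_G`, `G ∈ 𝒦`, at a generic element of a violating instance with `𝒦iso = 0` -/
def InT0 : Prop :=
  ∀ (n : ℕ) (a : Fin 3 → Fin n → ℤ) (c : Cfg n a) (q : SPol c) (R : Ranked c)
    (K : Type) [Field K] [Algebra ℂ K] [IsAlgClosed K] (g : Fin 3 → Matrix (Ix n) (Ix n) K)
    (H : Matrix (Fin q.toPol.m) (Fin q.toPol.m) K), Inst c q R K g H →
    Om.Kiso (Jm n K) (c.N g) (VL (q.toPol.LH H)) = ⊥ →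
    ∀ F : Matrix (Ix n) c.δ K, FO.Generic ℂ c.arm (c.N g) (VL (q.toPol.LH H)) F →
      CSys.NotTameK q g H F

/-- (S2) `T_g` is scalar for a violating instance with `dim 𝒦iso ≥ 2` -/
def InS2 : Prop :=
  ∀ (n : ℕ) (a : Fin 3 → Fin n → ℤ) (c : Cfg n a) (q : SPol c) (R : Ranked c)
    (K : Type) [Field K] [Algebra ℂ K] [IsAlgClosed K] (g : Fin 3 → Matrix (Ix n) (Ix n) K)
    (H : Matrix (Fin q.toPol.m) (Fin q.toPol.m) K), Inst c q R K g H →
    2 ≤ finrank K ↥(Om.Kiso (Jm n K) (c.N g) (VL (q.toPol.LH H))) →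
    Om.Scal ℂ c.arm (Jm n K) (c.B K) (c.N g) (VL (q.toPol.LH H))

/-- (Q1) a violating instance with `dim 𝒦iso = 1`, `𝒦iso ≠ 𝒦` has `ZZ ≠ 0` -/
def InQ1 : Prop :=
  ∀ (n : ℕ) (a : Fin 3 → Fin n → ℤ) (c : Cfg n a) (q : SPol c) (R : Ranked c)
    (K : Type) [Field K] [Algebra ℂ K] [IsAlgClosed K] (g : Fin 3 → Matrix (Ix n) (Ix n) K)
    (H : Matrix (Fin q.toPol.m) (Fin q.toPol.m) K), Inst c q R K g H →
    finrank K ↥(Om.Kiso (Jm n K) (c.N g) (VL (q.toPol.LH H))) = 1 →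
    Om.Kiso (Jm n K) (c.N g) (VL (q.toPol.LH H)) ≠ c.N g ⊓ VL (q.toPol.LH H) →
    Ext.ZI c q.toPol g H ≠ ⊥

theorem InT'.zero (h : InT') : InT0 := fun n a c q R K _ _ _ g H hI _ F hF =>
  h n a c q R K g H hI F hF

theorem InS.two (h : InS) : InS2 := fun n a c q R K _ _ _ g H hI _ => h n a c q R K g H hI

theorem InQ.one (h : InQ) : InQ1 := by
  intro n a c q R K _ _ _ g H hI h1 h2 h3
  rw [← h n a c q R K g H hI h2, h3, finrank_bot] at h1
  omega

/-- `Scal` is trivial if `dim 𝒦iso ≤ 1` -/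
theorem scal_of_le_one {ι : Type*} [Fintype ι] [DecidableEq ι] {δ : Type*} [Fintype δ]
    [DecidableEq δ] {k K : Type*} [Field k] [Field K] [Algebra k K] {arm : δ → Fin 3}
    {J : Matrix ι ι K} {B : Matrix δ δ K} {N W : Submodule K (Matrix ι δ K)}
    (h : finrank K ↥(Om.Kiso J N W) ≤ 1) : Om.Scal k arm J B N W := by
  intro g hg
  by_cases hg0 : g = 0
  · subst hg0
    refine ⟨fun _ => 0, fun f _ d _ => ?_⟩
    have h1 : ∀ f : Matrix ι δ K, Om.Om J d 0 f = 0 := fun f => by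
      simp [Om.Om]
    rw [h1, h1, smul_zero]
  · have h1 : finrank K ↥(Om.Kiso J N W) = 1 := by
      have h2 : 0 < finrank K ↥(Om.Kiso J N W) := by
        rw [Module.finrank_pos_iff]
        exact ⟨⟨⟨g, hg⟩, 0, fun h => hg0 (congrArg Subtype.val h)⟩⟩
      omega
    have h2 : ∀ f ∈ Om.Kiso J N W, ∃ c : K, c • g = f := by
      intro f hf
      obtain ⟨c, hc⟩ := (finrank_eq_one_iff_of_nonzero' (⟨g, hg⟩ : ↥(Om.Kiso J N W))
        (fun h => hg0 (congrArg Subtype.val h))).1 h1 ⟨f, hf⟩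
      exact ⟨c, congrArg Subtype.val hc⟩
    classical
    refine ⟨fun f => if hf : f ∈ Om.Kiso J N W then (h2 f hf).choose else 0, fun f hf d _ => ?_⟩
    have h3 := (h2 f hf).choose_spec
    have h4 : (fun f => if hf : f ∈ Om.Kiso J N W then (h2 f hf).choose else 0) f
        = (h2 f hf).choose := dif_pos hf
    rw [h4]
    conv_lhs => rw [← h3]
    rw [Om.Om_smul_right' d _ hg hg]

/-- **STEP from (T0), (S2), (Q1)** -/
theorem step_of2 (hT : InT0) (hS : InS2) (hQ : InQ1) : Step := by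
  intro n a c q R hR K _ _ _ g H hG b hb0 hB hk
  have hI : Inst c q R K g H := ⟨hR, hG, b, hb0, hB, hk⟩
  have h2 : 2 ≤ finrank K ↥(c.N g ⊓ VL (q.toPol.LH H) : Submodule K (Matrix (Ix n) c.δ K)) :=
    hI.two_le
  have hScal : ∀ (L : Type) [Field L] [Algebra K L] [Algebra ℂ L] [IsScalarTower ℂ K L]
      [IsAlgClosed L], Om.Scal ℂ c.arm (Jm n L) (c.B L) (c.N (fun s => emb K L (g s)))
        (VL (q.toPol.LH (emb K L H))) := by
    intro L _ _ _ _ _
    by_cases h : 2 ≤ finrank L ↥(Om.Kiso (Jm n L) (c.N (fun s => emb K L (g s)))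
        (VL (q.toPol.LH (emb K L H))))
    · exact hS n a c q R L _ _ (hI.bc L) h
    · exact scal_of_le_one (by omega)
  refine Ext.exists_good R hR hG hScal ?_
  intro h0
  have hScalK : Om.Scal ℂ c.arm (Jm n K) (c.B K) (c.N g) (VL (q.toPol.LH H)) := by
    by_cases h : 2 ≤ finrank K ↥(Om.Kiso (Jm n K) (c.N g) (VL (q.toPol.LH H)))
    · exact hS n a c q R K _ _ hI h
    · exact scal_of_le_one (by omega)
  have h1 := Ext.finrank_ZI R hG hScalK
  rw [h0, finrank_bot] at h1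
  by_cases h3 : Om.Kiso (Jm n K) (c.N g) (VL (q.toPol.LH H)) = c.N g ⊓ VL (q.toPol.LH H)
  · rw [h3] at h1
    omega
  · by_cases h4 : finrank K ↥(Om.Kiso (Jm n K) (c.N g) (VL (q.toPol.LH H))) = 1
    · exact hQ n a c q R K g H hI h4 h3 h0
    · have h5 : Om.Kiso (Jm n K) (c.N g) (VL (q.toPol.LH H)) = ⊥ := by
        rw [← Submodule.finrank_eq_zero]
        omega
      have h6 := Ext.finrank_Kiso' R hR hG fun L _ _ _ _ _ _ F _ hF =>
        hT n a c q R L _ _ (hI.bc L) (by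
          have h7 := Ext.spL_KI (L := L) q.toPol g H
          unfold Ext.KI at h7
          rw [h5, Ext.spL_bot] at h7
          exact h7.symm) F hF
      rw [h5, finrank_bot] at h6
      omega

/-- **S0260 from (T0), (S2), (Q1)** -/
theorem saturation_of2 (hT : InT0) (hS : InS2) (hQ : InQ1) (n : ℕ) (hn : 2 ≤ n)
    (a b c : Fin n → ℤ) (ha : IsDominantIntegral n a) (hb : IsDominantIntegral n b)
    (hc : IsDominantIntegral n c) (habc : InRootLattice n (a + b + c)) (N : ℕ) (hN : 1 ≤ N)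
    (U : Irrep n a) (V : Irrep n b) (W : Irrep n c)
    (U' : Irrep n (N • a)) (V' : Irrep n (N • b)) (W' : Irrep n (N • c)) :
    HasInvariant U V W ↔ HasInvariant U' V' W' :=
  Top.result_of_coreS hn (coreS_of_step (step_of2 hT hS hQ) n) a b c ha hb hc habc N hN
    U V W U' V' W'

end Crest.Agent.R172.Ind
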