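import Crest.Agent.R172.Qt9
import Crest.Agent.R172.Fin1

/-!
Row 172 (S0260), node G1.2, part 6: `InQ` from the mixed tame exclusion.
-/

set_option autoImplicit false
set_option linter.unusedSectionVars false
set_option linter.unusedFintypeInType false
set_option linter.unusedDecidableInType false
set_option maxHeartbeats 400000

namespace Crest.Agent.R172.Qt

open Matrix Module Crest.Agent.R172.FO
open Crest.Agent.R172.CF Crest.Agent.R172.CSys
open Crest.Agent.R172.Gen (Jm Ix emb IsSo)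
open Crest.Agent.R172.Ind (GI Inst)

variable {n : ℕ} {a : Fin 3 → Fin n → ℤ} {c : Cfg n a} {q : SPol c}

/-- **No mixed tame pair** in a violating instance: `G` generic in `𝒦iso`, `f ∈ 𝒦`, `p ∈ NN G`. -/
def NoTameQ (c : Cfg n a) (q : SPol c) (R : Ranked c) : Prop :=
  ∀ (L : Type) [Field L] [Algebra ℂ L] [IsAlgClosed L]
    (g : Fin 3 → Matrix (Ix n) (Ix n) L) (H : Matrix (Fin q.toPol.m) (Fin q.toPol.m) L),
    Inst c q R L g H →
    ∀ G ∈ Om.Kiso (Jm n L) (c.N g) (VL (q.toPol.LH H)),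
    (∀ w ∈ Om.Kiso (Jm n L) (c.N g) (VL (q.toPol.LH H)), GenQ.VertH c g H G w) →
    ∀ f ∈ c.N g ⊓ VL (q.toPol.LH H), ∀ p ∈ NN c.arm (Jm n L) (c.N g) G,
      ¬ TameMix c G f p.1

/-- descent: `ω_d(F,F) = 0` for the generic `F` implies `ω_d(g,g) = 0` for all `g ∈ 𝒦iso`. -/
theorem om_zero_descent {K : Type} [Field K] [Algebra ℂ K]
    {g : Fin 3 → Matrix (Ix n) (Ix n) K} {H : Matrix (Fin q.toPol.m) (Fin q.toPol.m) K}
    (hG : GI c q.toPol K g H) {r : ℕ} {κ : Fin r → Matrix (Ix n) c.δ K}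
    (hκ : Submodule.span K (Set.range κ) = Om.Kiso (Jm n K) (c.N g) (VL (q.toPol.LH H)))
    {L : Type} [Field L] [Algebra K L] [Algebra ℂ L] [IsScalarTower ℂ K L]
    {t : Fin r → L} (ht : AlgebraicIndependent K t)
    (h0 : ∀ d : Derivation ℂ L L,
      Om.IsY ℂ c.arm (c.B L) (c.N (fun s => emb K L (g s))) (VL (q.toPol.LH (emb K L H))) d →
      Om.Om (Jm n L) d (∑ j, t j • emb K L (κ j)) (∑ j, t j • emb K L (κ j)) = 0)
    {d : Derivation ℂ K K} (hd : Om.IsY ℂ c.arm (c.B K) (c.N g) (VL (q.toPol.LH H)) d)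
    {F : Matrix (Ix n) c.δ K} (hF : F ∈ Om.Kiso (Jm n K) (c.N g) (VL (q.toPol.LH H))) :
    Om.Om (Jm n K) d F F = 0 := by
  classical
  have hbc := GenQ.bcNW (L := L) q.toPol hG
  have hbK := GenQ.bcKiso (L := L) q.toPol hG
  have hDL : FO.Data ℂ c.arm (Jm n L) (c.B L) (c.N (fun s => emb K L (g s)))
      (VL (q.toPol.LH (emb K L H))) := Ext.data_of_GI q.toPol (Ext.gi_bc q.toPol hG)
  have hJ : (Jm n K).map (algebraMap K L) = Jm n L := Pol.Jm_map (algebraMap K L)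
  have hB : (c.B K).map (algebraMap K L) = c.B L := c.B_map K L (algebraMap K L)
  have hκm : ∀ j, κ j ∈ Om.Kiso (Jm n K) (c.N g) (VL (q.toPol.LH H)) := fun j => by
    rw [← hκ]; exact Submodule.subset_span ⟨j, rfl⟩
  obtain ⟨Y, hY, hr⟩ := hd
  have hYL : (Y.map (algebraMap K L))ᵀ * c.B L + c.B L * Y.map (algebraMap K L) = 0 := by
    rw [← hB]; exact Om.skew_map_emb hY
  obtain ⟨d', hr'⟩ := hDL.dir 0 (Y.map (algebraMap K L)) (by intro s; simp) hYL
  have h1 := h0 d' ⟨_, hYL, hr'⟩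
  have hdir : ∀ i j, Om.Om (Jm n L) d' (emb K L (κ i)) (emb K L (κ j)) =
      (Om.Om (Jm n K) d (κ i) (κ j)).map (algebraMap K L) := by
    intro i j
    have := Om.Om_dir (J := Jm n K) hbc.1 hbc.2 hr hr' (hκm j).1 (hκm i)
    rw [hJ] at this
    exact this
  have hκL : ∀ j, emb K L (κ j) ∈ Om.Kiso (Jm n L) (c.N (fun s => emb K L (g s)))
      (VL (q.toPol.LH (emb K L H))) := fun j => hbK.up _ (hκm j)
  have hFL : (∑ j, t j • emb K L (κ j)) ∈ Om.Kiso (Jm n L) (c.N (fun s => emb K L (g s)))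
      (VL (q.toPol.LH (emb K L H))) :=
    Submodule.sum_mem _ fun j _ => Submodule.smul_mem _ _ (hκL j)
  rw [SpS.Om_sum_left] at h1
  simp only [SpS.Om_sum_right d' Finset.univ t (fun j => emb K L (κ j)) hκL (hκL _), hdir] at h1
  -- the polynomial
  have hpoly : ∀ x y, (∑ i, ∑ j, MvPolynomial.C (Om.Om (Jm n K) d (κ i) (κ j) x y) *
      MvPolynomial.X i * MvPolynomial.X j : MvPolynomial (Fin r) K) = 0 := by
    intro x y
    apply ht.eq_zero_of_aeval_eq_zero
    have h2 := congrFun (congrFun h1 x) y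
    rw [Matrix.sum_apply, Matrix.zero_apply] at h2
    rw [map_sum, ← h2]
    refine Finset.sum_congr rfl fun i _ => ?_
    rw [map_sum, Matrix.smul_apply, Matrix.sum_apply, Finset.smul_sum]
    refine Finset.sum_congr rfl fun j _ => ?_
    rw [map_mul, map_mul, MvPolynomial.aeval_C, MvPolynomial.aeval_X, MvPolynomial.aeval_X,
      Matrix.smul_apply, map_apply, smul_eq_mul, smul_eq_mul]
    ring
  -- coordinates of `F`
  have hF' := hF
  rw [← hκ] at hF'
  obtain ⟨b, hb⟩ := (Submodule.mem_span_range_iff_exists_fun K).1 hF'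
  ext x y
  have h3 := congrArg (MvPolynomial.aeval b) (hpoly x y)
  rw [map_zero, map_sum] at h3
  rw [Matrix.zero_apply, ← h3, ← hb]
  have e1 : Om.Om (Jm n K) d (∑ i, b i • κ i) (∑ i, b i • κ i)
      = ∑ i, b i • ∑ j, b j • Om.Om (Jm n K) d (κ i) (κ j) := by
    rw [SpS.Om_sum_left]
    exact Finset.sum_congr rfl fun i _ => by
      rw [SpS.Om_sum_right d Finset.univ b κ hκm (hκm i)]
  rw [e1, Matrix.sum_apply]
  refine Finset.sum_congr rfl fun i _ => ?_
  rw [map_sum, Matrix.smul_apply, Matrix.sum_apply, Finset.smul_sum]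
  refine Finset.sum_congr rfl fun j _ => ?_
  rw [map_mul, map_mul, MvPolynomial.aeval_C, MvPolynomial.aeval_X, MvPolynomial.aeval_X,
    Matrix.smul_apply, smul_eq_mul, smul_eq_mul]
  change _ = Om.Om (Jm n K) d (κ i) (κ j) x y * b i * b j
  ring

/-- **(P3)** for one instance. -/
theorem P3 {R : Ranked c} (hNT : NoTameQ c q R) {K : Type} [Field K] [Algebra ℂ K]
    {g : Fin 3 → Matrix (Ix n) (Ix n) K} {H : Matrix (Fin q.toPol.m) (Fin q.toPol.m) K}
    (hI : Inst c q R K g H)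
    (hne : Om.Kiso (Jm n K) (c.N g) (VL (q.toPol.LH H)) ≠ c.N g ⊓ VL (q.toPol.LH H)) :
    Ext.ZI c q.toPol g H = Om.Kiso (Jm n K) (c.N g) (VL (q.toPol.LH H)) := by
  classical
  have hG := hI.gi
  -- a non-isotropic element
  obtain ⟨f, hf, hfn⟩ : ∃ f ∈ c.N g ⊓ VL (q.toPol.LH H),
      f ∉ Om.Kiso (Jm n K) (c.N g) (VL (q.toPol.LH H)) := by
    by_contra hcon
    push Not at hcon
    exact hne (le_antisymm (fun F hF => hF.1) hcon)
  obtain ⟨r, κ, -, hκ⟩ := GenQ.exists_family (Om.Kiso (Jm n K) (c.N g) (VL (q.toPol.LH H)))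
  obtain ⟨L, iL, iKL, iCL, ist, icl, icz, t, ht, hFL, hV⟩ := GenQ.step1 q.toPol hG hκ
  have hIL := hI.bc L
  have hCL := hIL.ctx hFL
  have hglue := glue_of hIL.gi hCL (fun w hw hw0 => hIL.isoK hw hw0) hV
  have hbc := GenQ.bcNW (L := L) q.toPol hG
  have hbK := GenQ.bcKiso (L := L) q.toPol hG
  have hfL : emb K L f ∈ c.N (fun s => emb K L (g s)) ⊓ VL (q.toPol.LH (emb K L H)) :=
    ⟨hbc.1.up f hf.1, hbc.2.up f hf.2⟩
  -- `emb f` is not isotropic
  have hfniso : (emb K L f)ᵀ * Jm n L * emb K L f ≠ 0 := by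
    intro h0
    apply hfn
    refine hI.isoK hf ?_
    have hJ : (Jm n K).map (algebraMap K L) = Jm n L := Pol.Jm_map (algebraMap K L)
    have h1 : (fᵀ * Jm n K * f).map (algebraMap K L) = 0 := by
      rw [Matrix.map_mul, Matrix.map_mul, Matrix.transpose_map, hJ]
      exact h0
    ext i j
    have h2 := congrFun (congrFun h1 i) j
    rw [map_apply, Matrix.zero_apply] at h2
    exact (FaithfulSMul.algebraMap_injective K L) (by rw [h2, Matrix.zero_apply, map_zero])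
  have hNN : ∀ p ∈ NN c.arm (Jm n L) (c.N (fun s => emb K L (g s)))
      (∑ j, t j • emb K L (κ j)),
      (∑ j, t j • emb K L (κ j))ᵀ * Jm n L * (p.1 * (∑ j, t j • emb K L (κ j))) = 0 := by
    intro p hp
    rcases mix_final R hI.posR hIL.gi hCL hglue hfL hp with h | h | h
    · exact absurd h hfniso
    · exact h
    · exact absurd h (hNT L _ _ hIL _ hFL hV _ hfL p hp)
  have hOm0 : ∀ d : Derivation ℂ L L,
      Om.IsY ℂ c.arm (c.B L) (c.N (fun s => emb K L (g s))) (VL (q.toPol.LH (emb K L H))) d →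
      Om.Om (Jm n L) d (∑ j, t j • emb K L (κ j)) (∑ j, t j • emb K L (κ j)) = 0 := by
    intro d hd
    obtain ⟨p, hp, hpf⟩ := Om.exists_NN hCL hd
    rw [hpf _ hFL.1]
    exact hNN p hp
  -- descent
  refine le_antisymm Om.ZZ_le_Kiso fun F hF => ⟨hF, fun G' hG' d hd => ?_⟩
  obtain ⟨p, hp, hpf⟩ := Om.exists_NN (hI.ctx hG') hd
  have h1 : Om.Om (Jm n K) d G' G' = 0 := om_zero_descent hG hκ ht hOm0 hd hG'
  rw [hpf G' hG'.1] at h1
  rw [hpf F hF.1]
  exact (hI.ctx hG').tf_zero hF.1 hp h1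

/-- **`InQ` from the mixed tame exclusion** -/
theorem inQ_of (hNT : ∀ (n : ℕ) (a : Fin 3 → Fin n → ℤ) (c : Cfg n a) (q : SPol c)
    (R : Ranked c), NoTameQ c q R) : Ind.InQ := by
  intro n a c q R K _ _ _ g H hI hne
  exact P3 (hNT n a c q R) hI hne

end Crest.Agent.R172.Qt
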