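import Crest.Agent.R172.Om4
import Crest.Agent.R172.FO3

/-!
Row 172 (S0260), node G1.5, fifth part: base change of `Kiso` and `ZZ`.
-/

set_option autoImplicit false
set_option linter.unusedSectionVars false

namespace Crest.Agent.R172.Om

open Matrix Module Crest.Agent.R172.FO

section abstract

variable {ι : Type*} [Fintype ι] [DecidableEq ι] {δ : Type*} [Fintype δ] [DecidableEq δ]
variable {k K L : Type*} [Field k] [Field K] [Field L] [Algebra k K] [Algebra k L] [Algebra K L]

/-- expansion of a matrix over `L` along a basis of `L/K` -/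
theorem expand {α β : Type*} [Fintype α] [Fintype β] (G : Matrix α β L) :
    ∃ (s : Finset L) (φ : L → (L →ₗ[K] K)),
      G = ∑ e ∈ s, e • (G.map (φ e)).map (algebraMap K L) := by
  classical
  let b := Basis.ofVectorSpace K L
  let S : Finset (Basis.ofVectorSpaceIndex K L) :=
    Finset.univ.biUnion fun i : α => Finset.univ.biUnion fun j : β => (b.repr (G i j)).support
  have hb : Function.Injective (fun t : Basis.ofVectorSpaceIndex K L => b t) := b.injective
  let φ : L → (L →ₗ[K] K) := fun e =>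
    if h : ∃ t, b t = e then b.coord h.choose else 0
  have hφ : ∀ t, φ (b t) = b.coord t := by
    intro t
    have h : ∃ t', b t' = b t := ⟨t, rfl⟩
    change (if h : ∃ t', b t' = b t then b.coord h.choose else 0) = _
    rw [dif_pos h]
    congr 1
    exact hb h.choose_spec
  refine ⟨S.image b, φ, ?_⟩
  rw [Finset.sum_image (fun x _ y _ h => hb h)]
  ext i j
  rw [Matrix.sum_apply]
  have h1 : ∀ t ∈ S, (b t • (G.map (φ (b t))).map (algebraMap K L)) i j =
      (b.repr (G i j) t) • b t := by
    intro t _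
    rw [Matrix.smul_apply, map_apply, map_apply, hφ, smul_eq_mul, Algebra.smul_def, mul_comm]
    rfl
  rw [Finset.sum_congr rfl h1]
  have h2 : (b.repr (G i j)).support ⊆ S := by
    intro t ht
    exact Finset.mem_biUnion.2 ⟨i, Finset.mem_univ _, Finset.mem_biUnion.2
      ⟨j, Finset.mem_univ _, ht⟩⟩
  have h3 := b.linearCombination_repr (G i j)
  rw [Finsupp.linearCombination_apply, Finsupp.sum_of_support_subset _ h2 _ (by simp)] at h3
  exact h3.symm

/-- `P_L` is the base change of `P_K`. -/
structure BC (PK : Submodule K (Matrix ι δ K)) (PL : Submodule L (Matrix ι δ L)) : Prop where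
  up : ∀ F ∈ PK, F.map (algebraMap K L) ∈ PL
  down : ∀ F ∈ PL, ∀ φ : L →ₗ[K] K, F.map φ ∈ PK

theorem BC.inf {PK QK : Submodule K (Matrix ι δ K)} {PL QL : Submodule L (Matrix ι δ L)}
    (h : BC PK PL) (h' : BC QK QL) : BC (PK ⊓ QK) (PL ⊓ QL) :=
  ⟨fun F hF => ⟨h.up F hF.1, h'.up F hF.2⟩,
    fun F hF φ => ⟨h.down F hF.1 φ, h'.down F hF.2 φ⟩⟩

/-- elements of `P_L` are combinations of elements of `P_K`. -/
theorem BC.mem_span {PK : Submodule K (Matrix ι δ K)} {PL : Submodule L (Matrix ι δ L)}
    (h : BC PK PL) {G : Matrix ι δ L} (hG : G ∈ PL) :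
    G ∈ Submodule.span L ((fun F : Matrix ι δ K => F.map (algebraMap K L)) '' (PK : Set _)) := by
  obtain ⟨s, φ, hs⟩ := expand (K := K) G
  rw [hs]
  exact Submodule.sum_mem _ fun e _ => Submodule.smul_mem _ _
    (Submodule.subset_span ⟨_, h.down G hG (φ e), rfl⟩)

theorem BC.eq_span {PK : Submodule K (Matrix ι δ K)} {PL : Submodule L (Matrix ι δ L)}
    (h : BC PK PL) :
    PL = Submodule.span L ((fun F : Matrix ι δ K => F.map (algebraMap K L)) '' (PK : Set _)) := by
  refine le_antisymm (fun G hG => h.mem_span hG) ?_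
  rw [Submodule.span_le]
  rintro _ ⟨F, hF, rfl⟩
  exact h.up F hF

/-- a functional applied to a product with a matrix over `K` -/
theorem map_mul_left_lin {α β γ : Type*} [Fintype β] (φ : L →ₗ[K] K) (A : Matrix α β K)
    (C : Matrix β γ L) : (A.map (algebraMap K L) * C).map φ = A * C.map φ := by
  ext i j
  rw [map_apply, Matrix.mul_apply, Matrix.mul_apply, map_sum]
  refine Finset.sum_congr rfl fun x _ => ?_
  rw [map_apply, map_apply, ← Algebra.smul_def, map_smul, smul_eq_mul]

theorem map_mul_right_lin {α β γ : Type*} [Fintype β] (φ : L →ₗ[K] K) (A : Matrix α β L)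
    (C : Matrix β γ K) : (A * C.map (algebraMap K L)).map φ = A.map φ * C := by
  ext i j
  rw [map_apply, Matrix.mul_apply, Matrix.mul_apply, map_sum]
  refine Finset.sum_congr rfl fun x _ => ?_
  rw [map_apply, map_apply, mul_comm, ← Algebra.smul_def, map_smul, smul_eq_mul, mul_comm]

theorem map_add_lin {α β : Type*} (φ : L →ₗ[K] K) (A C : Matrix α β L) :
    (A + C).map φ = A.map φ + C.map φ := by
  ext i j; simp

theorem map_zero_lin {α β : Type*} (φ : L →ₗ[K] K) : (0 : Matrix α β L).map φ = 0 := by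
  ext i j; simp

theorem map_sum_lin {α β γ : Type*} (φ : L →ₗ[K] K) (s : Finset γ) (A : γ → Matrix α β L) :
    (∑ e ∈ s, A e).map φ = ∑ e ∈ s, (A e).map φ := by
  ext i j
  rw [map_apply, Matrix.sum_apply, Matrix.sum_apply, map_sum]
  rfl

theorem map_smul_emb {α β : Type*} (φ : L →ₗ[K] K) (l : L) (A : Matrix α β K) :
    (l • A.map (algebraMap K L)).map φ = φ l • A := by
  ext i j
  rw [map_apply, Matrix.smul_apply, Matrix.smul_apply, map_apply, smul_eq_mul, mul_comm,
    ← Algebra.smul_def, map_smul, smul_eq_mul, smul_eq_mul, mul_comm]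

/-- criterion in the form of 267's `bcM` -/
theorem BC.of_forall {PK : Submodule K (Matrix ι δ K)} {PL : Submodule L (Matrix ι δ L)}
    (h : ∀ G, G ∈ PL ↔ ∀ φ : L →ₗ[K] K, G.map φ ∈ PK) : BC PK PL := by
  refine ⟨fun F hF => (h _).2 fun φ => ?_, fun G hG φ => (h G).1 hG φ⟩
  have h1 := map_smul_emb (K := K) (L := L) φ 1 F
  rw [one_smul] at h1
  rw [h1]
  exact PK.smul_mem _ hF

variable {arm : δ → Fin 3} {J : Matrix ι ι K} {B : Matrix δ δ K}
  {N W : Submodule K (Matrix ι δ K)} {NL WL : Submodule L (Matrix ι δ L)}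

/-- base change of `Kiso` -/
theorem bc_Kiso (hN : BC N NL) (hW : BC W WL) :
    BC (Kiso J N W) (Kiso (J.map (algebraMap K L)) NL WL) := by
  have hK := hN.inf hW
  constructor
  · intro F hF
    refine ⟨hK.up F hF.1, fun G hG => ?_⟩
    obtain ⟨s, φ, hs⟩ := expand (K := K) G
    rw [hs, Matrix.mul_sum]
    refine Finset.sum_eq_zero fun e _ => ?_
    rw [Matrix.mul_smul, ← Matrix.transpose_map, ← Matrix.map_mul, ← Matrix.map_mul,
      hF.2 _ (hK.down G hG (φ e))]
    rw [Matrix.map_zero _ (map_zero _), smul_zero]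
  · intro G hG φ
    refine ⟨hK.down G hG.1 φ, fun F hF => ?_⟩
    have h1 := hG.2 _ (hK.up F hF)
    have h2 := congrArg (fun A : Matrix δ δ L => A.map φ) h1
    beta_reduce at h2
    rw [map_mul_right_lin, map_zero_lin, map_mul_right_lin] at h2
    exact h2

/-- `ω` depends only on the direction: comparison of `K` and `L`. -/
theorem Om_dir (hN : BC N NL) (hW : BC W WL) {Y : Matrix δ δ K}
    {d : Derivation k K K} (hd : Realises arm N W 0 Y d)
    {d' : Derivation k L L} (hd' : Realises arm NL WL 0 (Y.map (algebraMap K L)) d')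
    {f : Matrix ι δ K} (hf : f ∈ N ⊓ W) {g : Matrix ι δ K} (hg : g ∈ Kiso J N W) :
    Om (J.map (algebraMap K L)) d' (g.map (algebraMap K L)) (f.map (algebraMap K L)) =
      (Om J d g f).map (algebraMap K L) := by
  have hgL := (bc_Kiso (J := J) hN hW).up g hg
  have h1 : (f.map (algebraMap K L)).map d' - (f.map d).map (algebraMap K L) ∈ NL ⊓ WL := by
    constructor
    · have h2 := hd'.onN _ (hN.up f hf.1)
      have h3 := hN.up _ (hd.onN f hf.1)
      rw [act_zero, sub_zero] at h2 h3
      exact NL.sub_mem h2 h3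
    · have h2 := hd'.onW _ (hW.up f hf.2)
      have h3 := hW.up _ (hd.onW f hf.2)
      have h4 : (f.map d - f * Yᵀ).map (algebraMap K L) =
          (f.map d).map (algebraMap K L) -
            f.map (algebraMap K L) * (Y.map (algebraMap K L))ᵀ := by
        rw [Matrix.map_sub _ (map_sub _), Matrix.map_mul, Matrix.transpose_map]
      rw [h4] at h3
      have h5 := WL.sub_mem h2 h3
      rwa [sub_sub_sub_cancel_right] at h5
  have h6 := hgL.2 _ h1
  rw [Matrix.mul_sub, sub_eq_zero] at h6
  unfold Om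
  rw [h6, ← Matrix.transpose_map, ← Matrix.map_mul, ← Matrix.map_mul]

/-- `ω` depends only on the direction. -/
theorem Om_dir' {J : Matrix ι ι K} {Y : Matrix δ δ K}
    {d d' : Derivation k K K} (hd : Realises arm N W 0 Y d)
    (hd' : Realises arm N W 0 Y d')
    {f : Matrix ι δ K} (hf : f ∈ N ⊓ W) {g : Matrix ι δ K} (hg : g ∈ Kiso J N W) :
    Om J d' g f = Om J d g f := by
  have h1 : f.map d' - f.map d ∈ N ⊓ W := by
    constructor
    · have h2 := hd'.onN _ hf.1
      have h3 := hd.onN f hf.1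
      rw [act_zero, sub_zero] at h2 h3
      exact N.sub_mem h2 h3
    · have h5 := W.sub_mem (hd'.onW _ hf.2) (hd.onW f hf.2)
      rwa [sub_sub_sub_cancel_right] at h5
  have h6 := hg.2 _ h1
  rw [Matrix.mul_sub, sub_eq_zero] at h6
  exact h6

theorem skew_map_emb {Y : Matrix δ δ K} (hY : Yᵀ * B + B * Y = 0) :
    (Y.map (algebraMap K L))ᵀ * B.map (algebraMap K L) +
      B.map (algebraMap K L) * Y.map (algebraMap K L) = 0 := by
  rw [← Matrix.transpose_map, ← Matrix.map_mul, ← Matrix.map_mul,
    ← Matrix.map_add _ (map_add _), hY, Matrix.map_zero _ (map_zero _)]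

theorem skew_map_lin (φ : L →ₗ[K] K) {Y : Matrix δ δ L}
    (hY : Yᵀ * B.map (algebraMap K L) + B.map (algebraMap K L) * Y = 0) :
    (Y.map φ)ᵀ * B + B * Y.map φ = 0 := by
  have h2 := congrArg (fun A : Matrix δ δ L => A.map φ) hY
  beta_reduce at h2
  rw [map_add_lin, map_mul_right_lin, map_mul_left_lin, map_zero_lin] at h2
  exact h2

theorem der_sum_apply {γ : Type*} {F : Type*} [Field F] [Algebra k F] (s : Finset γ) (l : γ → F)
    (d : γ → Derivation k F F) (x : F) :
    (∑ e ∈ s, l e • d e : Derivation k F F) x = ∑ e ∈ s, l e * d e x := by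
  classical
  induction s using Finset.induction_on with
  | empty => rw [Finset.sum_empty, Finset.sum_empty]; rfl
  | insert e t het ih =>
    rw [Finset.sum_insert het, Finset.sum_insert het, Derivation.add_apply, ih]
    rfl

/-- sums of directions -/
theorem realises_sum {γ : Type*} (s : Finset γ) (l : γ → K) (Y : γ → Matrix δ δ K)
    (d : γ → Derivation k K K) (h : ∀ e ∈ s, Realises arm N W 0 (Y e) (d e)) :
    Realises arm N W 0 (∑ e ∈ s, l e • Y e) (∑ e ∈ s, l e • d e) := by
  have hmap : ∀ F : Matrix ι δ K, F.map (∑ e ∈ s, l e • d e : Derivation k K K) =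
      ∑ e ∈ s, l e • F.map (d e) := by
    intro F
    ext i j
    rw [map_apply, Matrix.sum_apply, der_sum_apply]
    rfl
  constructor
  · intro F hF
    rw [act_zero, sub_zero, hmap]
    refine N.sum_mem fun e he => N.smul_mem _ ?_
    have := (h e he).onN F hF
    rwa [act_zero, sub_zero] at this
  · intro F hF
    have e1 : F.map (∑ e ∈ s, l e • d e : Derivation k K K) - F * (∑ e ∈ s, l e • Y e)ᵀ =
        ∑ e ∈ s, l e • (F.map (d e) - F * (Y e)ᵀ) := by
      rw [hmap, Matrix.transpose_sum, Matrix.mul_sum, ← Finset.sum_sub_distrib]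
      refine Finset.sum_congr rfl fun e _ => ?_
      rw [transpose_smul, Matrix.mul_smul, smul_sub]
    rw [e1]
    exact W.sum_mem fun e he => W.smul_mem _ ((h e he).onW F hF)

/-- **base change of `ZZ`**: up -/
theorem ZZ_up (hN : BC N NL) (hW : BC W WL) (hD : Data k arm J B N W)
    (hDL : Data k arm (J.map (algebraMap K L)) (B.map (algebraMap K L)) NL WL)
    {F : Matrix ι δ K} (hF : F ∈ ZZ k arm J B N W) :
    F.map (algebraMap K L) ∈
      ZZ k arm (J.map (algebraMap K L)) (B.map (algebraMap K L)) NL WL := by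
  have hKi := bc_Kiso (J := J) hN hW
  refine ⟨hKi.up F hF.1, fun g hg d hd => ?_⟩
  -- reduce to `g` over `K`
  obtain ⟨s, φ, hs⟩ := expand (K := K) g
  have hsum : Om (J.map (algebraMap K L)) d g (F.map (algebraMap K L)) =
      ∑ e ∈ s, e • Om (J.map (algebraMap K L)) d ((g.map (φ e)).map (algebraMap K L))
        (F.map (algebraMap K L)) := by
    conv_lhs => rw [hs]
    unfold Om
    rw [Matrix.transpose_sum, Matrix.sum_mul, Matrix.sum_mul]
    refine Finset.sum_congr rfl fun e _ => ?_
    rw [transpose_smul, Matrix.smul_mul, Matrix.smul_mul]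
  rw [hsum]
  refine Finset.sum_eq_zero fun e _ => ?_
  have hg' := hKi.down g hg (φ e)
  generalize g.map (φ e) = g' at hg'
  -- expand the direction
  obtain ⟨Y, hY, hr⟩ := hd
  obtain ⟨t, ψ, ht⟩ := expand (K := K) Y
  have hYj : ∀ e, (Y.map (ψ e))ᵀ * B + B * Y.map (ψ e) = 0 := fun e => skew_map_lin (ψ e) hY
  have hdL : ∀ e, ∃ d' : Derivation k L L, Realises arm NL WL 0
      ((Y.map (ψ e)).map (algebraMap K L)) d' := fun e =>
    hDL.dir 0 _ (by intro s; simp) (skew_map_emb (hYj e))
  choose dL hdL using hdL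
  have hdK : ∀ e, ∃ d' : Derivation k K K, Realises arm N W 0 (Y.map (ψ e)) d' := fun e =>
    hD.dir 0 _ (by intro s; simp) (hYj e)
  choose dK hdK using hdK
  have hr' : Realises arm NL WL 0 Y (∑ e ∈ t, e • dL e) := by
    have := realises_sum (arm := arm) (N := NL) (W := WL) t (fun e => e)
      (fun e => (Y.map (ψ e)).map (algebraMap K L)) dL (fun e _ => hdL e)
    rwa [← ht] at this
  rw [Om_dir' hr' hr ((hN.inf hW).up F hF.1.1) (hKi.up g' hg')]
  have hsum2 : Om (J.map (algebraMap K L)) (∑ e ∈ t, e • dL e : Derivation k L L)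
      (g'.map (algebraMap K L)) (F.map (algebraMap K L)) =
      ∑ e ∈ t, e • Om (J.map (algebraMap K L)) (dL e) (g'.map (algebraMap K L))
        (F.map (algebraMap K L)) := by
    unfold Om
    have hmap : (F.map (algebraMap K L)).map (∑ e ∈ t, e • dL e : Derivation k L L) =
        ∑ e ∈ t, e • (F.map (algebraMap K L)).map (dL e) := by
      ext i j
      rw [map_apply, Matrix.sum_apply, der_sum_apply]
      rfl
    rw [hmap, Matrix.mul_sum]
    exact Finset.sum_congr rfl fun e _ => Matrix.mul_smul _ _ _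
  rw [hsum2, smul_eq_zero]
  right
  refine Finset.sum_eq_zero fun e _ => ?_
  rw [Om_dir hN hW (hdK e) (hdL e) hF.1.1 hg',
    hF.2 g' hg' (dK e) ⟨_, hYj e, hdK e⟩, Matrix.map_zero _ (map_zero _), smul_zero]

/-- **base change of `ZZ`**: down -/
theorem ZZ_down (hN : BC N NL) (hW : BC W WL)
    (hDL : Data k arm (J.map (algebraMap K L)) (B.map (algebraMap K L)) NL WL)
    {G : Matrix ι δ L}
    (hG : G ∈ ZZ k arm (J.map (algebraMap K L)) (B.map (algebraMap K L)) NL WL)
    (φ : L →ₗ[K] K) : G.map φ ∈ ZZ k arm J B N W := by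
  have hKi := bc_Kiso (J := J) hN hW
  refine ⟨hKi.down G hG.1 φ, fun g hg d hd => ?_⟩
  obtain ⟨Y, hY, hr⟩ := hd
  obtain ⟨d', hr'⟩ := hDL.dir 0 (Y.map (algebraMap K L)) (by intro s; simp) (skew_map_emb hY)
  have h0 := hG.2 _ (hKi.up g hg) d' ⟨_, skew_map_emb hY, hr'⟩
  obtain ⟨s, ψ, hs⟩ := expand (K := K) G
  have hGj : ∀ e, G.map (ψ e) ∈ Kiso J N W := fun e => hKi.down G hG.1 (ψ e)
  -- the expansion of `ω`
  have h1 : Om (J.map (algebraMap K L)) d' (g.map (algebraMap K L)) G =
      ∑ e ∈ s, e • (Om J d g (G.map (ψ e))).map (algebraMap K L) := by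
    conv_lhs => rw [hs]
    have : ∀ t : Finset L, Om (J.map (algebraMap K L)) d' (g.map (algebraMap K L))
        (∑ e ∈ t, e • (G.map (ψ e)).map (algebraMap K L)) =
        ∑ e ∈ t, e • (Om J d g (G.map (ψ e))).map (algebraMap K L) := by
      intro t
      classical
      induction t using Finset.induction_on with
      | empty => rw [Finset.sum_empty, Finset.sum_empty, Om_zero_right]
      | insert e t het ih =>
        rw [Finset.sum_insert het, Finset.sum_insert het, Om_add_right, ih,
          Om_smul_right' d' e (hKi.up g hg) (hKi.up _ (hGj e)),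
          Om_dir hN hW hr hr' (hGj e).1 hg]
    exact this s
  have h2 : G.map φ = ∑ e ∈ s, φ e • G.map (ψ e) := by
    conv_lhs => rw [hs]
    rw [map_sum_lin]
    exact Finset.sum_congr rfl fun e _ => map_smul_emb φ e _
  have h3 : Om J d g (G.map φ) = ∑ e ∈ s, φ e • Om J d g (G.map (ψ e)) := by
    rw [h2]
    have : ∀ t : Finset L, Om J d g (∑ e ∈ t, φ e • G.map (ψ e)) =
        ∑ e ∈ t, φ e • Om J d g (G.map (ψ e)) := by
      intro t
      classical
      induction t using Finset.induction_on with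
      | empty => rw [Finset.sum_empty, Finset.sum_empty, Om_zero_right]
      | insert e t het ih =>
        rw [Finset.sum_insert het, Finset.sum_insert het, Om_add_right, ih,
          Om_smul_right' d _ hg (hGj e)]
    exact this s
  rw [h1] at h0
  have h4 := congrArg (fun A : Matrix δ δ L => A.map φ) h0
  beta_reduce at h4
  rw [map_sum_lin, map_zero_lin] at h4
  rw [h3, ← h4]
  exact Finset.sum_congr rfl fun e _ => (map_smul_emb φ e _).symm

theorem bc_ZZ (hN : BC N NL) (hW : BC W WL) (hD : Data k arm J B N W)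
    (hDL : Data k arm (J.map (algebraMap K L)) (B.map (algebraMap K L)) NL WL) :
    BC (ZZ k arm J B N W)
      (ZZ k arm (J.map (algebraMap K L)) (B.map (algebraMap K L)) NL WL) :=
  ⟨fun _ hF => ZZ_up hN hW hD hDL hF, fun _ hG φ => ZZ_down hN hW hDL hG φ⟩

end abstract

end Crest.Agent.R172.Om
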