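import Crest.Agent.R172.GenP
import Crest.Agent.R172.IndBC
import Crest.Agent.R172.Om5

/-!
Row 172: the generic pair `(g, p)`, `g ∈ 𝒦_iso`, `p ∈ H⁰(so(V)/p_S)`, over a tower of extensions,
in coordinates with respect to bases (algebraically independent coefficients).
-/

set_option autoImplicit false
set_option linter.unusedSectionVars false
set_option maxHeartbeats 400000

namespace Crest.Agent.R172.GenQ

open Matrix Crest.AlgebraR.SpinSaturation Crest.Agent.R172.SoGrade Crest.Agent.R172.Sp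
open Crest.Agent.R172.Gen (Jm Ix emb IsSo)
open Crest.Agent.R172.CF Crest.Agent.R172.HM8 Crest.Agent.R172.HM9 Module
open Crest.Agent.R172.Ind (GI kk mu perp Bd)
open Crest.Agent.R172.Ext Crest.Agent.R172.GenP

/-- algebraically independent elements with all vertical derivations -/
theorem gen_tuple (K : Type) [Field K] [Algebra ℂ K] (r : ℕ) :
    ∃ (L : Type) (_ : Field L) (_ : Algebra K L) (_ : Algebra ℂ L) (_ : IsScalarTower ℂ K L)
      (_ : IsAlgClosed L) (_ : CharZero L) (t : Fin r → L), AlgebraicIndependent K t ∧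
      ∀ w : Fin r → L, ∃ D : Derivation ℂ L L, (∀ x, D (algebraMap K L x) = 0) ∧
        ∀ i, D (t i) = w i := by
  have hc : CharZero K := charZero_of_injective_algebraMap (algebraMap ℂ K).injective
  obtain ⟨L, iL, iKL, icl, icz, t, ht⟩ := Gen.exists_generic K (Fin r)
  let iCL : Algebra ℂ L := ((algebraMap K L).comp (algebraMap ℂ K)).toAlgebra
  have ist : IsScalarTower ℂ K L := IsScalarTower.of_algebraMap_eq' rfl
  refine ⟨L, iL, iKL, iCL, ist, icl, icz, t, ht, ?_⟩
  intro w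
  obtain ⟨D, hD1, hD2⟩ := Gen.exists_derivation (k := ℂ) ht (0 : Derivation ℂ K L) w
  exact ⟨D, fun x => hD1 x, hD2⟩

section mat

variable {K L : Type} [Field K] [Field L] [Algebra K L] {α β : Type}

theorem emb_add2 (A B : Matrix α β K) : emb K L (A + B) = emb K L A + emb K L B := by
  ext i j; simp [Matrix.map_apply]

theorem emb_smul2 (t : K) (A : Matrix α β K) : emb K L (t • A) = algebraMap K L t • emb K L A := by
  ext i j; simp [Matrix.map_apply]

theorem emb_zero2 : emb K L (0 : Matrix α β K) = 0 := by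
  ext i j; simp [Matrix.map_apply]

theorem emb_sum2 {γ : Type} (s : Finset γ) (A : γ → Matrix α β K) :
    emb K L (∑ i ∈ s, A i) = ∑ i ∈ s, emb K L (A i) := by
  ext i j
  rw [FO3.emb_apply', Matrix.sum_apply, Matrix.sum_apply, map_sum]
  rfl

/-- elements of the base change in coordinates -/
theorem exists_coord [Fintype α] [Fintype β] [DecidableEq α] [DecidableEq β]
    {Z : Submodule K (Matrix α β K)} {r : ℕ} {κ : Fin r → Matrix α β K}
    (hκ : Submodule.span K (Set.range κ) = Z) {w : Matrix α β L}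
    (hw : ∀ φ : L →ₗ[K] K, w.map φ ∈ Z) : ∃ u : Fin r → L, w = ∑ j, u j • emb K L (κ j) := by
  have h1 : InBC (Z.comap (unc K α β).toLinearMap) (fun y : α × β => w y.1 y.2) := fun φ => hw φ
  obtain ⟨P, hP1, hP2⟩ := exists_proj (Z.comap (unc K α β).toLinearMap)
  have h2 := h1.expand hP1 hP2
  have h3 : ∀ y : α × β, ∃ a : Fin r → K, ∑ j, a j • κ j =
      Matrix.of fun i j => P (i, j) y := by
    intro y
    have h4 : (Matrix.of fun i j => P (i, j) y) ∈ Submodule.span K (Set.range κ) := by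
      rw [hκ]; exact hP1 y
    exact (Submodule.mem_span_range_iff_exists_fun K).1 h4
  choose a ha using h3
  refine ⟨fun j => ∑ y, w y.1 y.2 * algebraMap K L (a y j), ?_⟩
  ext i j
  have h5 := congrFun h2 (i, j)
  simp only [Finset.sum_apply, Pi.smul_apply, smul_eq_mul] at h5
  rw [h5, Matrix.sum_apply]
  simp only [Matrix.smul_apply, FO3.emb_apply', smul_eq_mul, Finset.sum_mul]
  rw [Finset.sum_comm]
  refine Finset.sum_congr rfl fun y _ => ?_
  have h6 := congrFun (congrFun (ha y) i) j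
  rw [Matrix.sum_apply, Matrix.of_apply] at h6
  simp only [Matrix.smul_apply, smul_eq_mul] at h6
  rw [← h6, map_sum, Finset.mul_sum]
  refine Finset.sum_congr rfl fun k _ => ?_
  rw [map_mul]
  ring

/-- the derivative of a combination with constant coefficients matrices -/
theorem sum_der [Algebra ℂ L] {r : ℕ} {D : Derivation ℂ L L} (hD : ∀ x, D (algebraMap K L x) = 0)
    (t : Fin r → L) (κ : Fin r → Matrix α β K) :
    (∑ j, t j • emb K L (κ j)).map D = ∑ j, D (t j) • emb K L (κ j) := by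
  ext x y
  rw [map_apply, Matrix.sum_apply, Matrix.sum_apply, map_sum]
  refine Finset.sum_congr rfl fun j _ => ?_
  rw [Matrix.smul_apply, Matrix.smul_apply, smul_eq_mul, smul_eq_mul, Derivation.leibniz,
    FO3.emb_apply', hD, smul_zero, zero_add, smul_eq_mul, mul_comm]

end mat

section nn

variable {n : ℕ} {a : Fin 3 → Fin n → ℤ} {c : Cfg n a} {K L : Type} [Field K]
  [Field L] [Algebra K L] [Algebra ℂ K] [Algebra ℂ L] [IsScalarTower ℂ K L]

variable (L) in
/-- base change of pairs -/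
def embP (p : Matrix (Ix n) (Ix n) K × (Fin 3 → Matrix (Ix n) (Ix n) K)) :
    Matrix (Ix n) (Ix n) L × (Fin 3 → Matrix (Ix n) (Ix n) L) :=
  (emb K L p.1, fun s => emb K L (p.2 s))

theorem act_zero2 (arm : c.δ → Fin 3) (X : Fin 3 → Matrix (Ix n) (Ix n) L) :
    FO.act arm X (0 : Matrix (Ix n) c.δ L) = 0 := (actL arm X).map_zero

/-- upwards base change of `NN` -/
theorem nn_up {g : Fin 3 → Matrix (Ix n) (Ix n) K} {F : Matrix (Ix n) c.δ K}
    {p : Matrix (Ix n) (Ix n) K × (Fin 3 → Matrix (Ix n) (Ix n) K)}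
    (hp : p ∈ Qt.NN c.arm (Jm n K) (c.N g) F) :
    embP L p ∈ Qt.NN c.arm (Jm n L) (c.N (fun s => emb K L (g s))) (emb K L F) := by
  obtain ⟨h1, h2, h3⟩ := hp
  have hJ : emb K L (Jm n K) = Jm n L := Pol.Jm_map (algebraMap K L)
  have hsk : ∀ X : Matrix (Ix n) (Ix n) K, Qt.Skw (Jm n K) X → Qt.Skw (Jm n L) (emb K L X) := by
    intro X hX
    have h4 := congrArg (fun A : Matrix (Ix n) (Ix n) K => emb K L A) hX
    beta_reduce at h4
    rw [emb_add2, FO3.emb_mul', FO3.emb_mul', hJ, emb_zero2] at h4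
    exact h4
  refine ⟨hsk _ h1, ⟨fun s => hsk _ (h2.skw s), ?_⟩, fun s => ?_⟩
  · intro G hG
    let P : Submodule L (Matrix (Ix n) c.δ L) :=
      (c.N (fun s => emb K L (g s))).comap (actL c.arm (fun s => emb K L (p.2 s)))
    have hP : c.N (fun s => emb K L (g s)) ≤ P := by
      refine N_induction P ?_
      intro F hF t
      refine P.smul_mem t ?_
      change FO.act c.arm (fun s => emb K L (p.2 s)) (emb K L F) ∈
        c.N (fun s => emb K L (g s))
      rw [← emb_act]
      exact emb_mem_N' (h2.pres F hF)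
    exact hP hG
  · obtain ⟨C, hC⟩ := h3 s
    refine ⟨emb K L C, ?_⟩
    have h4 := congrArg (fun A : Matrix (Ix n) c.δ K => emb K L A) hC
    beta_reduce at h4
    rw [FO3.emb_mul', FO3.emb_mul'] at h4
    rw [← h4]
    congr 1
    ext x y
    simp [embP, Matrix.map_apply]

/-- downwards base change of `NN` -/
theorem nn_down {g : Fin 3 → Matrix (Ix n) (Ix n) K}
    (hg : ∀ s, (g s)ᵀ * Jm n K * g s = Jm n K) {F : Matrix (Ix n) c.δ K}
    {p : Matrix (Ix n) (Ix n) L × (Fin 3 → Matrix (Ix n) (Ix n) L)}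
    (hp : p ∈ Qt.NN c.arm (Jm n L) (c.N (fun s => emb K L (g s))) (emb K L F))
    (φ : L →ₗ[K] K) :
    ((p.1.map φ, fun s => (p.2 s).map φ) :
      Matrix (Ix n) (Ix n) K × (Fin 3 → Matrix (Ix n) (Ix n) K)) ∈
      Qt.NN c.arm (Jm n K) (c.N g) F := by
  obtain ⟨h1, h2, h3⟩ := hp
  have hJ : (Jm n K).map (algebraMap K L) = Jm n L := Pol.Jm_map (algebraMap K L)
  have hsk : ∀ X : Matrix (Ix n) (Ix n) L, Qt.Skw (Jm n L) X → Qt.Skw (Jm n K) (X.map φ) := by
    intro X hX
    have h4 := congrArg (fun A : Matrix (Ix n) (Ix n) L => A.map φ) hX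
    beta_reduce at h4
    rw [Om.map_add_lin, ← hJ, Om.map_mul_right_lin, Om.map_mul_left_lin, Om.map_zero_lin] at h4
    exact h4
  refine ⟨hsk _ h1, ⟨fun s => hsk _ (h2.skw s), ?_⟩, fun s => ?_⟩
  · intro G hG
    have h4 := h2.pres (emb K L G) (emb_mem_N' hG)
    rw [← BC.bcM_N c hg] at h4
    have h5 := h4 φ
    have h6 : (FO.act c.arm p.2 (emb K L G)).map φ =
        FO.act c.arm (fun s => (p.2 s).map φ) G := by
      ext x d
      have h7 := congrFun (congrFun
        (Om.map_mul_right_lin (K := K) (L := L) φ (p.2 (c.arm d)) G) x) d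
      rw [map_apply, act_apply, act_apply]
      rw [map_apply] at h7
      exact h7
    rw [h6] at h5
    exact h5
  · obtain ⟨C, hC⟩ := h3 s
    refine ⟨C.map φ, ?_⟩
    have h4 := congrArg (fun A : Matrix (Ix n) c.δ L => A.map φ) hC
    beta_reduce at h4
    rw [Om.map_mul_right_lin, Om.map_mul_left_lin] at h4
    rw [← h4]
    congr 1
    ext x y
    simp [Matrix.map_apply]

/-- coordinates of pairs -/
def cp (K : Type) [Field K] (n : ℕ) : (((Ix n × Ix n) ⊕ (Fin 3 × Ix n × Ix n)) → K) ≃ₗ[K]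
    (Matrix (Ix n) (Ix n) K × (Fin 3 → Matrix (Ix n) (Ix n) K)) where
  toFun f := (Matrix.of fun i j => f (Sum.inl (i, j)),
    fun s => Matrix.of fun i j => f (Sum.inr (s, i, j)))
  invFun p := Sum.elim (fun y => p.1 y.1 y.2) (fun y => p.2 y.1 y.2.1 y.2.2)
  map_add' _ _ := rfl
  map_smul' _ _ := rfl
  left_inv f := by funext y; rcases y with y | y <;> rfl
  right_inv _ := rfl

/-- elements of the base change of a space of pairs in coordinates -/
theorem exists_coordP {Z : Submodule K (Matrix (Ix n) (Ix n) K × (Fin 3 → Matrix (Ix n) (Ix n) K))}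
    {r : ℕ} {π : Fin r → Matrix (Ix n) (Ix n) K × (Fin 3 → Matrix (Ix n) (Ix n) K)}
    (hπ : Submodule.span K (Set.range π) = Z)
    {p : Matrix (Ix n) (Ix n) L × (Fin 3 → Matrix (Ix n) (Ix n) L)}
    (hp : ∀ φ : L →ₗ[K] K, ((p.1.map φ, fun s => (p.2 s).map φ) :
      Matrix (Ix n) (Ix n) K × (Fin 3 → Matrix (Ix n) (Ix n) K)) ∈ Z) :
    ∃ u : Fin r → L, p = ∑ j, u j • embP L (π j) := by
  set v : ((Ix n × Ix n) ⊕ (Fin 3 × Ix n × Ix n)) → L := (cp L n).symm p with hv
  have h1 : InBC (Z.comap (cp K n).toLinearMap) v := by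
    intro φ
    exact hp φ
  obtain ⟨P, hP1, hP2⟩ := exists_proj (Z.comap (cp K n).toLinearMap)
  have h2 := h1.expand hP1 hP2
  have h3 : ∀ y, ∃ b : Fin r → K, ∑ j, b j • π j = cp K n (fun i => P i y) := by
    intro y
    have h4 : cp K n (fun i => P i y) ∈ Submodule.span K (Set.range π) := by
      rw [hπ]; exact hP1 y
    exact (Submodule.mem_span_range_iff_exists_fun K).1 h4
  choose b hb using h3
  refine ⟨fun j => ∑ y, v y * algebraMap K L (b y j), ?_⟩
  apply (cp L n).symm.injective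
  rw [← hv, map_sum]
  conv_lhs => rw [h2]
  funext x
  simp only [Finset.sum_apply, Pi.smul_apply, smul_eq_mul, map_smul, Finset.sum_mul]
  rw [Finset.sum_comm]
  refine Finset.sum_congr rfl fun y _ => ?_
  have h6 := congrFun (congrArg (cp K n).symm (hb y)) x
  rw [LinearEquiv.symm_apply_apply, map_sum, Finset.sum_apply] at h6
  rw [← h6, map_sum, Finset.mul_sum]
  refine Finset.sum_congr rfl fun k _ => ?_
  rw [map_smul, Pi.smul_apply, smul_eq_mul, map_mul, mul_assoc]
  congr 2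
  rcases x with x | x <;> rfl

end nn

section steps

variable {n : ℕ} {a : Fin 3 → Fin n → ℤ} {c : Cfg n a} (p : Pol c) {K : Type} [Field K]
  [Algebra ℂ K]

/-- base change of `N` and `W` -/
theorem bcNW {L : Type} [Field L] [Algebra K L] [Algebra ℂ L] [IsScalarTower ℂ K L]
    {g : Fin 3 → Matrix (Ix n) (Ix n) K} {H : Matrix (Fin p.m) (Fin p.m) K}
    (hG : GI c p K g H) :
    Om.BC (c.N g) (c.N (fun s => emb K L (g s))) ∧
      Om.BC (VL (p.LH H) : Submodule K (Matrix (Ix n) c.δ K))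
        (VL (p.LH (emb K L H)) : Submodule L (Matrix (Ix n) c.δ L)) :=
  ⟨Om.BC.of_forall fun G => by rw [← BC.bcM_N c hG.orth]; rfl,
    Om.BC.of_forall fun G => by rw [← BC.bcM_VL p hG.skew]; rfl⟩

theorem bcKiso {L : Type} [Field L] [Algebra K L] [Algebra ℂ L] [IsScalarTower ℂ K L]
    {g : Fin 3 → Matrix (Ix n) (Ix n) K} {H : Matrix (Fin p.m) (Fin p.m) K}
    (hG : GI c p K g H) :
    Om.BC (Om.Kiso (Jm n K) (c.N g) (VL (p.LH H)))
      (Om.Kiso (Jm n L) (c.N (fun s => emb K L (g s))) (VL (p.LH (emb K L H)))) := by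
  have h1 := bcNW (L := L) p hG
  have h2 := Om.bc_Kiso (J := Jm n K) h1.1 h1.2
  have hJ : (Jm n K).map (algebraMap K L) = Jm n L := Pol.Jm_map (algebraMap K L)
  rw [hJ] at h2
  exact h2

/-- a vertical direction `w` for `F` (with `H` fixed) -/
def VertH (c : Cfg n a) {L : Type} [Field L] [Algebra ℂ L] (g : Fin 3 → Matrix (Ix n) (Ix n) L)
    {m : ℕ} (H : Matrix (Fin m) (Fin m) L) (F w : Matrix (Ix n) c.δ L) : Prop :=
  ∃ D : Derivation ℂ L L, (∀ G ∈ c.N g, G.map D - FO.act c.arm 0 G ∈ c.N g) ∧ H.map D = 0 ∧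
    F.map D = w

/-- realisation of `(0, 0)` -/
theorem realises_of {L : Type} [Field L] [Algebra ℂ L] {g : Fin 3 → Matrix (Ix n) (Ix n) L}
    {H : Matrix (Fin p.m) (Fin p.m) L} (hH : Hᵀ = -H) {D : Derivation ℂ L L}
    (h1 : ∀ G ∈ c.N g, G.map D - FO.act c.arm 0 G ∈ c.N g) (h2 : H.map D = 0) :
    FO.Realises c.arm (c.N g) (VL (p.LH H)) (0 : Fin 3 → Matrix (Ix n) (Ix n) L)
      (0 : Matrix c.δ c.δ L) D := by
  refine ⟨h1, fun F hF => FO3.onW p hH D ?_ hF⟩
  rw [h2, FO3.dirH, Matrix.mul_zero, Matrix.zero_mul]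

/-- **STEP 1**: the generic element of `𝒦_iso` -/
theorem step1 {g : Fin 3 → Matrix (Ix n) (Ix n) K} {H : Matrix (Fin p.m) (Fin p.m) K}
    (hG : GI c p K g H) {r : ℕ} {κ : Fin r → Matrix (Ix n) c.δ K}
    (hκ : Submodule.span K (Set.range κ) = Om.Kiso (Jm n K) (c.N g) (VL (p.LH H))) :
    ∃ (L : Type) (_ : Field L) (_ : Algebra K L) (_ : Algebra ℂ L) (_ : IsScalarTower ℂ K L)
      (_ : IsAlgClosed L) (_ : CharZero L) (t : Fin r → L), AlgebraicIndependent K t ∧
      (∑ j, t j • emb K L (κ j)) ∈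
        Om.Kiso (Jm n L) (c.N (fun s => emb K L (g s))) (VL (p.LH (emb K L H))) ∧
      (∀ w ∈ Om.Kiso (Jm n L) (c.N (fun s => emb K L (g s))) (VL (p.LH (emb K L H))),
        VertH c (fun s => emb K L (g s)) (emb K L H) (∑ j, t j • emb K L (κ j)) w) := by
  obtain ⟨L, iL, iKL, iCL, ist, icl, icz, t, ht, hder⟩ := gen_tuple K r
  have hbc := bcKiso (L := L) p hG
  refine ⟨L, iL, iKL, iCL, ist, icl, icz, t, ht, ?_, ?_⟩
  · refine Submodule.sum_mem _ fun j _ => Submodule.smul_mem _ _ (hbc.up _ ?_)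
    rw [← hκ]
    exact Submodule.subset_span ⟨j, rfl⟩
  · intro w hw
    obtain ⟨u, hu⟩ := exists_coord hκ (hbc.down w hw)
    obtain ⟨D, hD1, hD2⟩ := hder u
    obtain ⟨h1, h2⟩ := vert_zero (c := c) (g := g) (H := H) hD1
    refine ⟨D, h1, h2, ?_⟩
    rw [sum_der hD1, hu]
    exact Finset.sum_congr rfl fun j _ => by rw [hD2]

/-- **STEP 2**: the generic element of `NN g0` over a further extension -/
theorem step2 {g : Fin 3 → Matrix (Ix n) (Ix n) K} {H : Matrix (Fin p.m) (Fin p.m) K}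
    (hG : GI c p K g H) {F : Matrix (Ix n) c.δ K}
    (hV : ∀ w ∈ Om.Kiso (Jm n K) (c.N g) (VL (p.LH H)), VertH c g H F w)
    {r : ℕ} {π : Fin r → Matrix (Ix n) (Ix n) K × (Fin 3 → Matrix (Ix n) (Ix n) K)}
    (hπ : Submodule.span K (Set.range π) = Qt.NN c.arm (Jm n K) (c.N g) F) :
    ∃ (L : Type) (_ : Field L) (_ : Algebra K L) (_ : Algebra ℂ L) (_ : IsScalarTower ℂ K L)
      (_ : IsAlgClosed L) (_ : CharZero L) (u : Fin r → L), AlgebraicIndependent K u ∧
      (∑ i, u i • embP L (π i)) ∈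
        Qt.NN c.arm (Jm n L) (c.N (fun s => emb K L (g s))) (emb K L F) ∧
      -- V1
      (∀ w ∈ Om.Kiso (Jm n L) (c.N (fun s => emb K L (g s))) (VL (p.LH (emb K L H))),
        ∃ d : Derivation ℂ L L, (emb K L F).map d = w ∧
          FO.Realises c.arm (c.N (fun s => emb K L (g s))) (VL (p.LH (emb K L H)))
            (0 : Fin 3 → Matrix (Ix n) (Ix n) L) (0 : Matrix c.δ c.δ L) d) ∧
      -- V2
      (∀ p' ∈ Qt.NN c.arm (Jm n L) (c.N (fun s => emb K L (g s))) (emb K L F),
        ∃ d : Derivation ℂ L L, (∀ x, d (algebraMap K L x) = 0) ∧ (emb K L F).map d = 0 ∧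
          FO.Realises c.arm (c.N (fun s => emb K L (g s))) (VL (p.LH (emb K L H)))
            (0 : Fin 3 → Matrix (Ix n) (Ix n) L) (0 : Matrix c.δ c.δ L) d ∧
          (∑ i, u i • embP L (π i)).1.map d = p'.1 ∧
          ∀ s, ((∑ i, u i • embP L (π i)).2 s).map d = p'.2 s) := by
  classical
  obtain ⟨L, iL, iKL, iCL, ist, icl, icz, u, hu, hder⟩ := gen_tuple K r
  have hbc := bcKiso (L := L) p hG
  have hskL : (emb K L H)ᵀ = -(emb K L H) := FO3.emb_skew hG.skew
  refine ⟨L, iL, iKL, iCL, ist, icl, icz, u, hu, ?_, ?_, ?_⟩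
  · refine Submodule.sum_mem _ fun j _ => Submodule.smul_mem _ _ (nn_up ?_)
    rw [← hπ]
    exact Submodule.subset_span ⟨j, rfl⟩
  · intro w hw
    obtain ⟨D, h1, h2, h3⟩ := vert_bc_mat (c := c) (L := L) (g := g) (H := H) (F0 := F)
      (Y := Om.Kiso (Jm n K) (c.N g) (VL (p.LH H))) hV (w := w) (hbc.down w hw)
    exact ⟨D, h3, realises_of p hskL h1 h2⟩
  · intro p' hp'
    obtain ⟨v, hv⟩ := exists_coordP hπ (nn_down hG.orth hp')
    obtain ⟨D, hD1, hD2⟩ := hder v
    obtain ⟨h1, h2⟩ := vert_zero (c := c) (g := g) (H := H) hD1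
    refine ⟨D, hD1, ?_, realises_of p hskL h1 h2, ?_, fun s => ?_⟩
    · ext i j
      exact hD1 (F i j)
    · have e1 : (∑ i, u i • embP L (π i)).1 = ∑ i, u i • emb K L (π i).1 := by
        rw [Prod.fst_sum]; rfl
      have e2 : p'.1 = ∑ i, v i • emb K L (π i).1 := by
        rw [hv, Prod.fst_sum]; rfl
      rw [e1, e2, sum_der hD1]
      exact Finset.sum_congr rfl fun j _ => by rw [hD2]
    · have e1 : (∑ i, u i • embP L (π i)).2 s = ∑ i, u i • emb K L ((π i).2 s) := by
        rw [Prod.snd_sum, Finset.sum_apply]; rfl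
      have e2 : p'.2 s = ∑ i, v i • emb K L ((π i).2 s) := by
        rw [hv, Prod.snd_sum, Finset.sum_apply]; rfl
      rw [e1, e2, sum_der hD1]
      exact Finset.sum_congr rfl fun j _ => by rw [hD2]

end steps

/-- a finite basis of a subspace, as a family of vectors -/
theorem exists_family {K M : Type} [Field K] [AddCommGroup M] [Module K M] [Module.Finite K M]
    (Z : Submodule K M) : ∃ (r : ℕ) (κ : Fin r → M), LinearIndependent K κ ∧
      Submodule.span K (Set.range κ) = Z := by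
  let b := Module.finBasis K Z
  refine ⟨_, fun j => (b j : M), ?_, ?_⟩
  · exact b.linearIndependent.map' Z.subtype (Submodule.ker_subtype Z)
  · have h1 : (Set.range fun j => (b j : M)) = Z.subtype '' Set.range b := by
      rw [← Set.range_comp]; rfl
    rw [h1, Submodule.span_image, b.span_eq, Submodule.map_top, Submodule.range_subtype]

end Crest.Agent.R172.GenQ
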