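import Crest.Agent.R172.SpS9
import Crest.Agent.R172.GenQ
import Crest.Agent.R172.IndSt2

/-!
Row 172, G1.3: `Om.Scal` ("`T_f` is scalar") for every violating instance `Ind.Inst`, from the
exclusion `NoTameS` of the tame alternative for the symplectic cores.
-/

set_option autoImplicit false
set_option linter.unusedSectionVars false
set_option maxHeartbeats 800000

namespace Crest.Agent.R172.SpS

open Matrix Module Crest.AlgebraR.SpinSaturation Crest.Agent.R172.SoGrade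
open Crest.Agent.R172.FO Crest.Agent.R172.Qt
open Crest.Agent.R172.Gen (Jm Ix emb IsSo)
open Crest.Agent.R172.CF Crest.Agent.R172.HM8 Crest.Agent.R172.HM9
open Crest.Agent.R172.Ind (GI kk mu perp Bd Inst)
open Crest.Agent.R172.Ext Crest.Agent.R172.GenP Crest.Agent.R172.GenQ
open Crest.Agent.R172.Om (Kiso Scal)

variable {n : ℕ} {a : Fin 3 → Fin n → ℤ} {c : Cfg n a}

/-- specialisation in coordinates -/
theorem spec_of_coord {α β : Type} {K L : Type} [Field K] [Field L] [Algebra K L] {r : ℕ}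
    {κ : Fin r → Matrix α β K} {t : Fin r → L} (ht : AlgebraicIndependent K t)
    (q : MvPolynomial (α × β) K)
    (hq : MvPolynomial.aeval (fun y : α × β => (∑ j, t j • emb K L (κ j)) y.1 y.2) q = 0)
    {F0 : Matrix α β K} (hF0 : F0 ∈ Submodule.span K (Set.range κ)) :
    MvPolynomial.aeval (fun y : α × β => F0 y.1 y.2) q = 0 := by
  let s : α × β → MvPolynomial (Fin r) K := fun y =>
    ∑ j, MvPolynomial.C (κ j y.1 y.2) * MvPolynomial.X j
  have h1 : (fun y : α × β => (∑ j, t j • emb K L (κ j)) y.1 y.2) =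
      fun y => MvPolynomial.aeval t (s y) := by
    funext y
    rw [map_sum, Matrix.sum_apply]
    refine Finset.sum_congr rfl fun j _ => ?_
    rw [map_mul, MvPolynomial.aeval_C, MvPolynomial.aeval_X, Matrix.smul_apply, smul_eq_mul,
      FO3.emb_apply', mul_comm]
  rw [h1, ← MvPolynomial.aeval_bind₁] at hq
  have h2 := ht.eq_zero_of_aeval_eq_zero _ hq
  obtain ⟨b, hb⟩ := (Submodule.mem_span_range_iff_exists_fun K).1 hF0
  have h3 : (fun y : α × β => F0 y.1 y.2) = fun y => MvPolynomial.aeval b (s y) := by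
    funext y
    rw [← hb, map_sum, Matrix.sum_apply]
    refine Finset.sum_congr rfl fun j _ => ?_
    rw [map_mul, MvPolynomial.aeval_C, MvPolynomial.aeval_X, Matrix.smul_apply, smul_eq_mul,
      mul_comm]
    rfl
  rw [h3, ← MvPolynomial.aeval_bind₁, h2, map_zero]

section cfg

variable {K : Type} [Field K] [Algebra ℂ K]

theorem X_eq {g : Fin 3 → Matrix (Ix n) (Ix n) K} {F : Matrix (Ix n) c.δ K}
    (hFF : Fᵀ * Jm n K * F = 0)
    {P : Matrix (Ix n) (Ix n) K × (Fin 3 → Matrix (Ix n) (Ix n) K)}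
    (hP : P ∈ NN c.arm (Jm n K) (c.N g) F) :
    Fᵀ * Jm n K * (P.1 * F) = Fᵀ * Jm n K * act c.arm P.2 F := by
  obtain ⟨C, hC⟩ := Pg_InS hP
  have h1 : P.1 * F = act c.arm P.2 F + F * C := by
    rw [← hC]; unfold Pg; abel
  rw [h1, Matrix.mul_add, ← Matrix.mul_assoc _ F C, hFF, Matrix.zero_mul, add_zero]

/-- `NIL^sp` for the forms of `NN`. -/
theorem nilW_cfg (R : Ranked c) (p : Pol c) {g : Fin 3 → Matrix (Ix n) (Ix n) K}
    {H : Matrix (Fin p.m) (Fin p.m) K}
    (hg : ∀ s, (g s)ᵀ * Jm n K * g s = Jm n K) (hH : Hᵀ = -H)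
    (hgen : ∀ G : Matrix (Fin p.m) (Fin p.m) K, Gᵀ = -G → ∃ D : Derivation ℂ K K, H.map D = G)
    (hJ : (Jm n K)ᵀ = Jm n K) {F : Matrix (Ix n) c.δ K} (hF : F ∈ c.N g)
    (hFW : F ∈ VL (p.LH H)) (hFF : Fᵀ * Jm n K * F = 0) :
    NilW c.arm (Jm n K) (c.B K) (c.N g) F := by
  intro P hP m hm
  refine SN.nil_sp_X R p hH hgen _ (skew_gXg hJ hP.1 F) ?_ ?_ m hm
  · intro e
    have h3 : (Fᵀ * Jm n K * (P.1 * F)) e = ((Fᵀ * Jm n K * P.1) e) ᵥ* F := by
      rw [← Matrix.mul_assoc]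
      funext j
      rw [Matrix.mul_apply, vecMul, dotProduct]
    rw [h3]
    exact Om.vecMul_mem_L hFW _
  · intro x y hxy hrk
    rw [X_eq hFF hP]
    exact R.col_perp hg hF (hP.2.1.pres F hF) hxy hrk

/-- each `Φ_s` is nilpotent -/
theorem armNil_cfg (R : Ranked c) {g : Fin 3 → Matrix (Ix n) (Ix n) K}
    (hg : ∀ s, (g s)ᵀ * Jm n K * g s = Jm n K) {F : Matrix (Ix n) c.δ K} (hF : F ∈ c.N g)
    (hFF : Fᵀ * Jm n K * F = 0)
    {P : Matrix (Ix n) (Ix n) K × (Fin 3 → Matrix (Ix n) (Ix n) K)}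
    (hP : P ∈ NN c.arm (Jm n K) (c.N g) F) :
    ArmNil c.arm (Jm n K) (c.B K) F P.1 := by
  obtain ⟨k, hk⟩ := CSys.TT_nil R hg hF (hP.2.1.pres F hF)
  have hT : ∀ s, (FO.E K c.arm s * c.B K * (Fᵀ * Jm n K * (P.1 * F))) ^ k = 0 := by
    intro s
    apply (Matrix.toLin' (R := K) (m := c.δ) (n := c.δ)).injective
    rw [map_zero, ← hk s, X_eq hFF hP, Matrix.toLin'_pow, CSys.TT]
    congr 2
    simp only [Matrix.mul_assoc]
  refine ⟨k, fun s => ?_⟩
  have key : ∀ j, (M c.arm (c.B K) s F F * (Jm n K * P.1)) ^ j * F =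
      F * (FO.E K c.arm s * c.B K * (Fᵀ * Jm n K * (P.1 * F))) ^ j := by
    intro j
    induction j with
    | zero => rw [pow_zero, pow_zero, Matrix.one_mul, Matrix.mul_one]
    | succ j ih =>
      rw [pow_succ', Matrix.mul_assoc, ih, pow_succ']
      unfold M
      simp only [Matrix.mul_assoc]
  rw [key, hT, Matrix.mul_zero]

end cfg

/-- **No tame symplectic core** in any violating instance, at any pair `(F, P)` with vertical
derivations. -/
def NoTameS (c : Cfg n a) (q : SPol c) (R : Ranked c) : Prop :=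
  ∀ (L : Type) [Field L] [Algebra ℂ L] [IsAlgClosed L] (g : Fin 3 → Matrix (Ix n) (Ix n) L)
    (H : Matrix (Fin q.toPol.m) (Fin q.toPol.m) L), Inst c q R L g H →
    ∀ F ∈ Kiso (Jm n L) (c.N g) (VL (q.toPol.LH H)),
    ∀ P ∈ NN c.arm (Jm n L) (c.N g) F,
    Vert ℂ c.arm (Jm n L) (c.N g) (VL (q.toPol.LH H)) F P →
    ∀ G : Matrix c.δ (Ix n) L, F * G * F = F →
    ∀ f ∈ c.N g ⊓ VL (q.toPol.LH H),
      ¬ TameD (Mg c.arm (c.B L) F) (Ng c.arm (c.B L) F G f)
        (bil F G (Fᵀ * (Jm n L * P.1) * F))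

/-- **G1.3** (P2): `T_f` is scalar for every violating instance. -/
theorem scal_inst {q : SPol c} {R : Ranked c} (hNT : NoTameS c q R) {K : Type} [Field K]
    [Algebra ℂ K] {g : Fin 3 → Matrix (Ix n) (Ix n) K}
    {H : Matrix (Fin q.toPol.m) (Fin q.toPol.m) K} (h : Inst c q R K g H) :
    Scal ℂ c.arm (Jm n K) (c.B K) (c.N g) (VL (q.toPol.LH H)) := by
  classical
  obtain ⟨r, κ, -, hκ⟩ := exists_family (Kiso (Jm n K) (c.N g) (VL (q.toPol.LH H)))
  obtain ⟨L, iL, iKL, iCL, ist, icl, icz, t, ht, hF1, hV1⟩ := step1 q.toPol h.gi hκ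
  have hL : Inst c q R L (fun s => emb K L (g s)) (emb K L H) := h.bc L
  have hJ : (Jm n K).map (algebraMap K L) = Jm n L := Pol.Jm_map (algebraMap K L)
  have hB : (c.B K).map (algebraMap K L) = c.B L := c.B_map K L (algebraMap K L)
  have hbc := bcNW (L := L) q.toPol h.gi
  set F : Matrix (Ix n) c.δ L := ∑ j, t j • emb K L (κ j) with hF
  refine scal_of_generic (L := L) hbc.1 hbc.2 h.data ?_ (fun F hF => h.ctx hF) (g0 := F) ?_ ?_ ?_ ?_
  · rw [hJ, hB]; exact hL.data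
  · rw [hJ]; exact hF1
  · rw [hJ, hB]; exact hL.ctx hF1
  · intro P hP F0 hF0
    rw [hF] at hP
    exact spec_of_coord ht P hP (by rw [hκ]; exact hF0)
  · rw [hJ]
    intro f hf
    -- second extension
    obtain ⟨r', π, -, hπ⟩ := exists_family (NN c.arm (Jm n L) (c.N fun s => emb K L (g s)) F)
    obtain ⟨L', iL', iLL', iCL', ist', icl', icz', u, hu, hP1, hW1, hW2⟩ :=
      step2 q.toPol hL.gi hV1 hπ
    have hL' := hL.bc L'
    have hJ' : (Jm n L).map (algebraMap L L') = Jm n L' := Pol.Jm_map (algebraMap L L')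
    have hKi := bcKiso (L := L') q.toPol hL.gi
    have hFL' := hKi.up F hF1
    have hfL' := hKi.up f hf
    set P : Matrix (Ix n) (Ix n) L' × (Fin 3 → Matrix (Ix n) (Ix n) L') :=
      ∑ i, u i • embP L' (π i) with hP
    have hP1' : P.1 = ∑ i, u i • emb L L' (π i).1 := by
      rw [hP, Prod.fst_sum]; rfl
    obtain ⟨G, hG⟩ := exists_pinv (F.map (algebraMap L L'))
    have hctx := hL'.ctx hFL'
    have hV : Vert ℂ c.arm (Jm n L') (c.N fun s => emb L L' (emb K L (g s)))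
        (VL (q.toPol.LH (emb L L' (emb K L H)))) (F.map (algebraMap L L')) P := by
      refine ⟨fun w hw => hW1 w hw, fun p' hp' => ?_⟩
      obtain ⟨d, -, h1, h2, h3, -⟩ := hW2 p' hp'
      exact ⟨d, h1, h2, by rw [h3]⟩
    refine uniform_of_generic (L := L') (hL.ctx hF1) (f := f) hf.1 (p0 := P.1) ?_ ?_
    · intro Q hQ p hp
      rw [hP1'] at hQ
      refine spec_of_coord hu Q hQ ?_
      rw [← hπ] at hp
      obtain ⟨b, hb⟩ := (Submodule.mem_span_range_iff_exists_fun L).1 hp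
      rw [← hb, Prod.fst_sum]
      refine Submodule.sum_mem _ fun i _ => ?_
      exact Submodule.smul_mem _ _ (Submodule.subset_span ⟨i, rfl⟩)
    · rw [hJ']
      have hsc := scalar_at (k := ℂ) hctx hL'.two_ne hG
        (nilW_cfg R q.toPol hL'.gi.orth hL'.gi.skew hL'.hgen hL'.data.J_symm hFL'.1.1 hFL'.1.2
          (hFL'.2 _ hFL'.1)) hP1
        (armNil_cfg R hL'.gi.orth hFL'.1.1 (hFL'.2 _ hFL'.1) hP1) hV
        (f := f.map (algebraMap L L')) hfL'.1
      rcases hsc with hc | hT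
      · exact hc
      · exact absurd hT (hNT L' _ _ hL' _ hFL' P hP1 hV G hG _ hfL'.1)

end Crest.Agent.R172.SpS
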