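import Crest.Agent.R172.Fin2
import Crest.Agent.R172.SpS10
import Crest.Agent.R172.Qt10

/-!
Row 172 (S0260): the weak tame inputs `NoTameS2` (t2), `NoTameQ1` (t3), with all available
genericity, and `InS2`, `InQ1` from them.
-/

set_option autoImplicit false
set_option linter.unusedSectionVars false
set_option linter.unusedFintypeInType false
set_option linter.unusedDecidableInType false
set_option maxHeartbeats 400000

namespace Crest.Agent.R172.Fin4

open Matrix Module Crest.Agent.R172.FO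
open Crest.AlgebraR.SpinSaturation Crest.Agent.R172.SoGrade Crest.Agent.R172.Sp
open Crest.Agent.R172.CF Crest.Agent.R172.CSys
open Crest.Agent.R172.Gen (Jm Ix emb IsSo)
open Crest.Agent.R172.GenP
open Crest.Agent.R172.GenQ
open Crest.Agent.R172.SpS
open Crest.Agent.R172.Qt (NN Ctx TameMix)
open Crest.Agent.R172.Om (Kiso Scal)
open Crest.Agent.R172.Ind (GI Inst)

variable {n : ℕ} {a : Fin 3 → Fin n → ℤ} {c : Cfg n a} {q : SPol c}

/-- (V1) vertical derivations of `F` in all directions `w ∈ 𝒦iso`, with `f` constant -/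
def V1 (c : Cfg n a) (q : SPol c) {L : Type} [Field L] [Algebra ℂ L]
    (g : Fin 3 → Matrix (Ix n) (Ix n) L) (H : Matrix (Fin q.toPol.m) (Fin q.toPol.m) L)
    (F f : Matrix (Ix n) c.δ L) : Prop :=
  ∀ w ∈ Kiso (Jm n L) (c.N g) (VL (q.toPol.LH H)), ∃ d : Derivation ℂ L L,
    F.map d = w ∧ f.map d = 0 ∧
      Realises c.arm (c.N g) (VL (q.toPol.LH H)) (0 : Fin 3 → Matrix (Ix n) (Ix n) L)
        (0 : Matrix c.δ c.δ L) d

/-- (V2) vertical derivations of `P ∈ NN F` in all directions, with `F`, `f` constant -/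
def V2 (c : Cfg n a) (q : SPol c) {L : Type} [Field L] [Algebra ℂ L]
    (g : Fin 3 → Matrix (Ix n) (Ix n) L) (H : Matrix (Fin q.toPol.m) (Fin q.toPol.m) L)
    (F f : Matrix (Ix n) c.δ L) (P : Matrix (Ix n) (Ix n) L × (Fin 3 → Matrix (Ix n) (Ix n) L)) :
    Prop :=
  ∀ p' ∈ NN c.arm (Jm n L) (c.N g) F, ∃ d : Derivation ℂ L L,
    F.map d = 0 ∧ f.map d = 0 ∧
      Realises c.arm (c.N g) (VL (q.toPol.LH H)) (0 : Fin 3 → Matrix (Ix n) (Ix n) L)
        (0 : Matrix c.δ c.δ L) d ∧ P.1.map d = p'.1 ∧ ∀ s, (P.2 s).map d = p'.2 s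

/-- **(t2)** no tame symplectic core for a pair `F`, `f ∈ 𝒦iso` -/
def NoTameS2 (c : Cfg n a) (q : SPol c) (R : Ranked c) : Prop :=
  ∀ (L : Type) [Field L] [Algebra ℂ L] [IsAlgClosed L] (g : Fin 3 → Matrix (Ix n) (Ix n) L)
    (H : Matrix (Fin q.toPol.m) (Fin q.toPol.m) L), Inst c q R L g H →
    2 ≤ finrank L ↥(Kiso (Jm n L) (c.N g) (VL (q.toPol.LH H))) →
    ∀ F ∈ Kiso (Jm n L) (c.N g) (VL (q.toPol.LH H)),
    ∀ f ∈ Kiso (Jm n L) (c.N g) (VL (q.toPol.LH H)), V1 c q g H F f →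
    ∀ P ∈ NN c.arm (Jm n L) (c.N g) F, V2 c q g H F f P →
    ∀ G : Matrix c.δ (Ix n) L, F * G * F = F →
      ¬ TameD (Mg c.arm (c.B L) F) (Ng c.arm (c.B L) F G f)
        (bil F G (Fᵀ * (Jm n L * P.1) * F))

/-- base change keeps the dimension -/
theorem finrank_bc {K L : Type} [Field K] [Field L] [Algebra K L] {α β : Type} [Fintype α]
    [DecidableEq α] [Fintype β] [DecidableEq β]
    {Z : Submodule K (Matrix α β K)} {Y : Submodule L (Matrix α β L)} (h : Om.BC Z Y) :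
    finrank L Y = finrank K Z := by
  have h1 : Y = BC.bcM L Z := by
    rw [BC.bcM_eq_span, h.eq_span]
  rw [h1, BC.finrank_bcM]

/-- vertical derivations base change, with a second constant matrix -/
theorem vert_bc_pair {K L : Type} [Field K] [Field L] [Algebra K L] [Algebra ℂ K] [Algebra ℂ L]
    [IsScalarTower ℂ K L] {g : Fin 3 → Matrix (Ix n) (Ix n) K} {m : ℕ}
    {H : Matrix (Fin m) (Fin m) K}
    {α β : Type} [Fintype α] [DecidableEq α] [Fintype β] [DecidableEq β]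
    {F0 f0 : Matrix α β K} {Y : Submodule K (Matrix α β K)}
    (h : ∀ w ∈ Y, ∃ D : Derivation ℂ K K,
      (∀ F ∈ c.N g, F.map D - FO.act c.arm 0 F ∈ c.N g) ∧ H.map D = 0 ∧ F0.map D = w ∧
        f0.map D = 0)
    {w : Matrix α β L} (hw : ∀ φ : L →ₗ[K] K, w.map φ ∈ Y) :
    ∃ D : Derivation ℂ L L, (∀ F ∈ c.N (fun s => emb K L (g s)),
      F.map D - FO.act c.arm 0 F ∈ c.N (fun s => emb K L (g s))) ∧ (emb K L H).map D = 0 ∧
        (emb K L F0).map D = w ∧ (emb K L f0).map D = 0 := by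
  obtain ⟨D, hD1, hD2, hD3⟩ := vert_bc (c := c) (L := L) (g := g) (H := H)
    (v := fun y : (α × β) ⊕ (α × β) => Sum.elim (fun y => F0 y.1 y.2) (fun y => f0 y.1 y.2) y)
    (Y := (Y.comap (unc K α β).toLinearMap).comap
        (LinearMap.funLeft K K (Sum.inl : α × β → (α × β) ⊕ (α × β))) ⊓
      LinearMap.ker (LinearMap.funLeft K K (Sum.inr : α × β → (α × β) ⊕ (α × β)))) (by
      rintro w ⟨hw1, hw2⟩
      obtain ⟨D, hD1, hD2, hD3, hD4⟩ := h _ hw1
      refine ⟨D, hD1, hD2, fun i => ?_⟩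
      rcases i with i | i
      · exact congrFun (congrFun hD3 i.1) i.2
      · have h1 := congrFun (congrFun hD4 i.1) i.2
        have h2 := congrFun (LinearMap.mem_ker.1 hw2) i
        change D (f0 i.1 i.2) = w (Sum.inr i)
        rw [show D (f0 i.1 i.2) = 0 from h1]
        exact h2.symm)
    (w := fun y => Sum.elim (fun y : α × β => w y.1 y.2) (fun _ => 0) y) (fun φ => by
      refine ⟨hw φ, LinearMap.mem_ker.2 ?_⟩
      funext i
      exact map_zero φ)
  refine ⟨D, hD1, hD2, ?_, ?_⟩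
  · ext i j
    exact hD3 (Sum.inl (i, j))
  · ext i j
    exact hD3 (Sum.inr (i, j))

/-- **STEP 1 with constants**: the generic element of `𝒦_iso`; the vertical derivations kill the
small field -/
theorem step1c {K : Type} [Field K] [Algebra ℂ K] (p : Pol c)
    {g : Fin 3 → Matrix (Ix n) (Ix n) K} {H : Matrix (Fin p.m) (Fin p.m) K}
    (hG : GI c p K g H) {r : ℕ} {κ : Fin r → Matrix (Ix n) c.δ K}
    (hκ : Submodule.span K (Set.range κ) = Kiso (Jm n K) (c.N g) (VL (p.LH H))) :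
    ∃ (L : Type) (_ : Field L) (_ : Algebra K L) (_ : Algebra ℂ L) (_ : IsScalarTower ℂ K L)
      (_ : IsAlgClosed L) (_ : CharZero L) (t : Fin r → L), AlgebraicIndependent K t ∧
      (∑ j, t j • emb K L (κ j)) ∈
        Kiso (Jm n L) (c.N (fun s => emb K L (g s))) (VL (p.LH (emb K L H))) ∧
      (∀ w ∈ Kiso (Jm n L) (c.N (fun s => emb K L (g s))) (VL (p.LH (emb K L H))),
        ∃ D : Derivation ℂ L L, (∀ G ∈ c.N (fun s => emb K L (g s)),
          G.map D - FO.act c.arm 0 G ∈ c.N (fun s => emb K L (g s))) ∧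
          (emb K L H).map D = 0 ∧ (∑ j, t j • emb K L (κ j)).map D = w ∧
          ∀ x, D (algebraMap K L x) = 0) := by
  obtain ⟨L, iL, iKL, iCL, ist, icl, icz, t, ht, hder⟩ := gen_tuple K r
  have hbc := bcKiso (L := L) p hG
  refine ⟨L, iL, iKL, iCL, ist, icl, icz, t, ht, ?_, ?_⟩
  · refine Submodule.sum_mem _ fun j _ => Submodule.smul_mem _ _ (hbc.up _ ?_)
    rw [← hκ]
    exact Submodule.subset_span ⟨j, rfl⟩
  · intro w hw
    obtain ⟨u, hu⟩ := exists_coord hκ (hbc.down w hw)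
    obtain ⟨D, hD1, hD2⟩ := hder u
    obtain ⟨h1, h2⟩ := vert_zero (c := c) (g := g) (H := H) hD1
    refine ⟨D, h1, h2, ?_, hD1⟩
    rw [sum_der hD1, hu]
    exact Finset.sum_congr rfl fun j _ => by rw [hD2]

/-- the derivative of a matrix over the small field -/
theorem emb_map_zero {K L : Type} [Field K] [Field L] [Algebra K L] [Algebra ℂ L] {α β : Type}
    {D : Derivation ℂ L L} (hD : ∀ x, D (algebraMap K L x) = 0) (A : Matrix α β K) :
    (emb K L A).map D = 0 := by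
  ext i j
  exact hD (A i j)

/-- **`InS2`-input for one instance from (t2)** -/
theorem scal_inst2 {q : SPol c} {R : Ranked c} (hNT : NoTameS2 c q R) {K : Type} [Field K]
    [Algebra ℂ K] {g : Fin 3 → Matrix (Ix n) (Ix n) K}
    {H : Matrix (Fin q.toPol.m) (Fin q.toPol.m) K} (h : Inst c q R K g H)
    (h2 : 2 ≤ finrank K ↥(Kiso (Jm n K) (c.N g) (VL (q.toPol.LH H)))) :
    Scal ℂ c.arm (Jm n K) (c.B K) (c.N g) (VL (q.toPol.LH H)) := by
  classical
  obtain ⟨r, κ, -, hκ⟩ := exists_family (Kiso (Jm n K) (c.N g) (VL (q.toPol.LH H)))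
  obtain ⟨L, iL, iKL, iCL, ist, icl, icz, t, ht, hF1, hVc⟩ := step1c q.toPol h.gi hκ
  have hV1 : ∀ w ∈ Kiso (Jm n L) (c.N (fun s => emb K L (g s)))
      (VL (q.toPol.LH (emb K L H))), VertH c (fun s => emb K L (g s)) (emb K L H)
        (∑ j, t j • emb K L (κ j)) w := fun w hw => by
    obtain ⟨D, h1, h2, h3, -⟩ := hVc w hw
    exact ⟨D, h1, h2, h3⟩
  have hL : Inst c q R L (fun s => emb K L (g s)) (emb K L H) := h.bc L
  have hJ : (Jm n K).map (algebraMap K L) = Jm n L := Pol.Jm_map (algebraMap K L)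
  have hB : (c.B K).map (algebraMap K L) = c.B L := c.B_map K L (algebraMap K L)
  have hbc := bcNW (L := L) q.toPol h.gi
  have hKiL := bcKiso (L := L) q.toPol h.gi
  have h2L : 2 ≤ finrank L ↥(Kiso (Jm n L) (c.N (fun s => emb K L (g s)))
      (VL (q.toPol.LH (emb K L H)))) := by
    rw [finrank_bc hKiL]; exact h2
  set F : Matrix (Ix n) c.δ L := ∑ j, t j • emb K L (κ j) with hF
  refine scal_of_generic (L := L) hbc.1 hbc.2 h.data ?_ (fun F hF => h.ctx hF) (g0 := F) ?_ ?_ ?_ ?_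
  · rw [hJ, hB]; exact hL.data
  · rw [hJ]; exact hF1
  · rw [hJ, hB]; exact hL.ctx hF1
  · intro P hP F0 hF0
    rw [hF] at hP
    exact spec_of_coord ht P hP (by rw [hκ]; exact hF0)
  · rw [hJ]
    have hκm : ∀ j, κ j ∈ Kiso (Jm n K) (c.N g) (VL (q.toPol.LH H)) := fun j => by
      rw [← hκ]; exact Submodule.subset_span ⟨j, rfl⟩
    -- the claim for the constant elements
    have key : ∀ j, ∃ e : L, ∀ p ∈ NN c.arm (Jm n L) (c.N fun s => emb K L (g s)) F,
        Fᵀ * Jm n L * (p.1 * emb K L (κ j)) = e • (Fᵀ * Jm n L * (p.1 * F)) := by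
      intro j
      set f : Matrix (Ix n) c.δ L := emb K L (κ j) with hfdef
      have hf : f ∈ Kiso (Jm n L) (c.N fun s => emb K L (g s)) (VL (q.toPol.LH (emb K L H))) :=
        hKiL.up _ (hκm j)
      -- second extension
      obtain ⟨r', π, -, hπ⟩ := exists_family (NN c.arm (Jm n L) (c.N fun s => emb K L (g s)) F)
      obtain ⟨L', iL', iLL', iCL', ist', icl', icz', u, hu, hP1, hW1, hW2⟩ :=
        step2 q.toPol hL.gi hV1 hπ
      have hL' := hL.bc L'
      have hJ' : (Jm n L).map (algebraMap L L') = Jm n L' := Pol.Jm_map (algebraMap L L')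
      have hKi := bcKiso (L := L') q.toPol hL.gi
      have hFL' := hKi.up F hF1
      have hfL' := hKi.up f hf
      set P : Matrix (Ix n) (Ix n) L' × (Fin 3 → Matrix (Ix n) (Ix n) L') :=
        ∑ i, u i • embP L' (π i) with hP
      have hP1' : P.1 = ∑ i, u i • emb L L' (π i).1 := by
        rw [hP, Prod.fst_sum]; rfl
      obtain ⟨G, hG⟩ := Qt.exists_pinv (F.map (algebraMap L L'))
      have hctx := hL'.ctx hFL'
      have hV : Vert ℂ c.arm (Jm n L') (c.N fun s => emb L L' (emb K L (g s)))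
          (VL (q.toPol.LH (emb L L' (emb K L H)))) (F.map (algebraMap L L')) P := by
        refine ⟨fun w hw => hW1 w hw, fun p' hp' => ?_⟩
        obtain ⟨d, -, h1, h2, h3, -⟩ := hW2 p' hp'
        exact ⟨d, h1, h2, by rw [h3]⟩
      have hskL : (emb L L' (emb K L H))ᵀ = -(emb L L' (emb K L H)) :=
        FO3.emb_skew hL.gi.skew
      have hVV1 : V1 c q (fun s => emb L L' (emb K L (g s))) (emb L L' (emb K L H))
          (F.map (algebraMap L L')) (f.map (algebraMap L L')) := by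
        intro w hw
        obtain ⟨D, e1, e2, e3, e4⟩ := vert_bc_pair (c := c) (L := L')
          (g := fun s => emb K L (g s)) (H := emb K L H) (F0 := F) (f0 := f)
          (Y := Kiso (Jm n L) (c.N fun s => emb K L (g s)) (VL (q.toPol.LH (emb K L H))))
          (fun w hw => by
            obtain ⟨D, e1, e2, e3, e4⟩ := hVc w hw
            exact ⟨D, e1, e2, e3, emb_map_zero e4 (κ j)⟩) (w := w) (hKi.down w hw)
        exact ⟨D, e3, e4, realises_of q.toPol hskL e1 e2⟩
      have hVV2 : V2 c q (fun s => emb L L' (emb K L (g s))) (emb L L' (emb K L H))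
          (F.map (algebraMap L L')) (f.map (algebraMap L L')) P := by
        intro p' hp'
        obtain ⟨d, h0, h1, h2, h3, h4⟩ := hW2 p' hp'
        exact ⟨d, h1, emb_map_zero h0 f, h2, h3, h4⟩
      refine uniform_of_generic (L := L') (hL.ctx hF1) (f := f) hf.1 (p0 := P.1) ?_ ?_
      · intro Q hQ p hp
        rw [hP1'] at hQ
        refine spec_of_coord hu Q hQ ?_
        rw [← hπ] at hp
        obtain ⟨b, hb⟩ := (Submodule.mem_span_range_iff_exists_fun L).1 hp
        rw [← hb, Prod.fst_sum]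
        refine Submodule.sum_mem _ fun i _ => ?_
        exact Submodule.smul_mem _ _ (Submodule.subset_span ⟨i, rfl⟩)
      · rw [hJ']
        have hsc := scalar_at (k := ℂ) hctx hL'.two_ne hG
          (nilW_cfg R q.toPol hL'.gi.orth hL'.gi.skew hL'.hgen hL'.data.J_symm hFL'.1.1 hFL'.1.2
            (hFL'.2 _ hFL'.1)) hP1
          (armNil_cfg R hL'.gi.orth hFL'.1.1 (hFL'.2 _ hFL'.1) hP1) hV
          (f := f.map (algebraMap L L')) hfL'.1
        rcases hsc with hc | hT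
        · exact hc
        · exact absurd hT (hNT L' _ _ hL' (by rw [finrank_bc hKi]; exact h2L) _ hFL' _ hfL'
            hVV1 P hP1 hVV2 G hG)
    intro f hf
    choose e he using key
    obtain ⟨b, hb⟩ := exists_coord hκ (hKiL.down f hf)
    refine ⟨∑ j, b j * e j, fun p hp => ?_⟩
    rw [hb, Matrix.mul_sum, Matrix.mul_sum, Finset.sum_smul]
    refine Finset.sum_congr rfl fun j _ => ?_
    rw [Matrix.mul_smul, Matrix.mul_smul, he j p hp, smul_smul]

/-- **(S2) from (t2)** -/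
theorem inS2_of (hNT : ∀ (n : ℕ) (a : Fin 3 → Fin n → ℤ) (c : Cfg n a) (q : SPol c)
    (R : Ranked c), NoTameS2 c q R) : Ind.InS2 := by
  intro n a c q R K _ _ _ g H hI h2
  exact scal_inst2 (hNT n a c q R) hI h2

/-- **(t3)** no mixed tame pair, `dim 𝒦iso = 1`: `G` generic in `𝒦iso`, `f ∈ 𝒦` constant,
`p` generic in `NN G` -/
def NoTameQ1 (c : Cfg n a) (q : SPol c) (R : Ranked c) : Prop :=
  ∀ (L : Type) [Field L] [Algebra ℂ L] [IsAlgClosed L]
    (g : Fin 3 → Matrix (Ix n) (Ix n) L) (H : Matrix (Fin q.toPol.m) (Fin q.toPol.m) L),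
    Inst c q R L g H →
    finrank L ↥(Kiso (Jm n L) (c.N g) (VL (q.toPol.LH H))) = 1 →
    ∀ G ∈ Kiso (Jm n L) (c.N g) (VL (q.toPol.LH H)),
    ∀ f ∈ c.N g ⊓ VL (q.toPol.LH H), fᵀ * Jm n L * f ≠ 0 → V1 c q g H G f →
    ∀ p ∈ NN c.arm (Jm n L) (c.N g) G, V2 c q g H G f p →
      ¬ TameMix c G f p.1

/-- a linear condition on the generic `P ∈ NN F` holds on `NN F` -/
theorem lin_descent {K L : Type} [Field K] [Field L] [Algebra K L] {α β γ ε : Type} [Fintype β]
    [Fintype γ] {r : ℕ} {π : Fin r → Matrix β γ K} {u : Fin r → L}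
    (hu : AlgebraicIndependent K u) (A : Matrix α β K) (F : Matrix γ ε K)
    (h0 : (A.map (algebraMap K L)) * ((∑ i, u i • emb K L (π i)) * F.map (algebraMap K L)) = 0)
    {p : Matrix β γ K} (hp : p ∈ Submodule.span K (Set.range π)) : A * (p * F) = 0 := by
  ext x y
  let Q : MvPolynomial (β × γ) K :=
    ∑ i, ∑ j, MvPolynomial.C (A x i * F j y) * MvPolynomial.X (i, j)
  have hQ : MvPolynomial.aeval (fun z : β × γ => (∑ i, u i • emb K L (π i)) z.1 z.2) Q = 0 := by
    have h1 := congrFun (congrFun h0 x) y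
    rw [triple_apply, Matrix.zero_apply] at h1
    rw [← h1, map_sum]
    refine Finset.sum_congr rfl fun i _ => ?_
    rw [map_sum]
    refine Finset.sum_congr rfl fun j _ => ?_
    rw [map_mul, MvPolynomial.aeval_C, MvPolynomial.aeval_X, map_mul, map_apply, map_apply]
  have h2 := spec_of_coord hu Q hQ hp
  rw [Matrix.zero_apply, triple_apply, ← h2, map_sum]
  refine Finset.sum_congr rfl fun i _ => ?_
  rw [map_sum]
  refine Finset.sum_congr rfl fun j _ => ?_
  rw [map_mul, MvPolynomial.aeval_C, MvPolynomial.aeval_X]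
  rfl

/-- **(P3)** for one instance with `dim 𝒦iso = 1`. -/
theorem P3' {R : Ranked c} (hNT : NoTameQ1 c q R) {K : Type} [Field K] [Algebra ℂ K]
    {g : Fin 3 → Matrix (Ix n) (Ix n) K} {H : Matrix (Fin q.toPol.m) (Fin q.toPol.m) K}
    (hI : Inst c q R K g H)
    (h1K : finrank K ↥(Kiso (Jm n K) (c.N g) (VL (q.toPol.LH H))) = 1)
    (hne : Kiso (Jm n K) (c.N g) (VL (q.toPol.LH H)) ≠ c.N g ⊓ VL (q.toPol.LH H)) :
    Ext.ZI c q.toPol g H = Kiso (Jm n K) (c.N g) (VL (q.toPol.LH H)) := by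
  classical
  have hG := hI.gi
  -- a non-isotropic element
  obtain ⟨f, hf, hfn⟩ : ∃ f ∈ c.N g ⊓ VL (q.toPol.LH H),
      f ∉ Kiso (Jm n K) (c.N g) (VL (q.toPol.LH H)) := by
    by_contra hcon
    push Not at hcon
    exact hne (le_antisymm (fun F hF => hF.1) hcon)
  obtain ⟨r, κ, -, hκ⟩ := exists_family (Kiso (Jm n K) (c.N g) (VL (q.toPol.LH H)))
  obtain ⟨L, iL, iKL, iCL, ist, icl, icz, t, ht, hFL, hVc⟩ := step1c q.toPol hG hκ
  have hV : ∀ w ∈ Kiso (Jm n L) (c.N (fun s => emb K L (g s)))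
      (VL (q.toPol.LH (emb K L H))), VertH c (fun s => emb K L (g s)) (emb K L H)
        (∑ j, t j • emb K L (κ j)) w := fun w hw => by
    obtain ⟨D, h1, h2, h3, -⟩ := hVc w hw
    exact ⟨D, h1, h2, h3⟩
  have hIL := hI.bc L
  have hbc := bcNW (L := L) q.toPol hG
  have hbK := bcKiso (L := L) q.toPol hG
  have hfL : emb K L f ∈ c.N (fun s => emb K L (g s)) ⊓ VL (q.toPol.LH (emb K L H)) :=
    ⟨hbc.1.up f hf.1, hbc.2.up f hf.2⟩
  have h1L : finrank L ↥(Kiso (Jm n L) (c.N (fun s => emb K L (g s)))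
      (VL (q.toPol.LH (emb K L H)))) = 1 := by
    rw [finrank_bc hbK]; exact h1K
  have hfK : fᵀ * Jm n K * f ≠ 0 := fun h0 => hfn (hI.isoK hf h0)
  have hniso : ∀ {K' L' : Type} [Field K'] [Field L'] [Algebra K' L'] [Algebra ℂ K']
      [Algebra ℂ L'] [IsScalarTower ℂ K' L'] (f : Matrix (Ix n) c.δ K'),
      fᵀ * Jm n K' * f ≠ 0 → (emb K' L' f)ᵀ * Jm n L' * emb K' L' f ≠ 0 := by
    intro K' L' _ _ _ _ _ _ f hfn h0
    apply hfn
    have hJ : (Jm n K').map (algebraMap K' L') = Jm n L' := Pol.Jm_map (algebraMap K' L')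
    have h1 : (fᵀ * Jm n K' * f).map (algebraMap K' L') = 0 := by
      rw [Matrix.map_mul, Matrix.map_mul, Matrix.transpose_map, hJ]
      exact h0
    ext i j
    have h2 := congrFun (congrFun h1 i) j
    rw [map_apply, Matrix.zero_apply] at h2
    exact (FaithfulSMul.algebraMap_injective K' L') (by rw [h2, Matrix.zero_apply, map_zero])
  set G : Matrix (Ix n) c.δ L := ∑ j, t j • emb K L (κ j) with hGdef
  have hCL := hIL.ctx hFL
  -- second extension
  obtain ⟨r', π, -, hπ⟩ := exists_family (NN c.arm (Jm n L) (c.N fun s => emb K L (g s)) G)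
  obtain ⟨L', iL', iLL', iCL', ist', icl', icz', u, hu, hP1, hW1, hW2⟩ :=
    step2 q.toPol hIL.gi hV hπ
  have hL' := hIL.bc L'
  have hKi := bcKiso (L := L') q.toPol hIL.gi
  have hbc' := bcNW (L := L') q.toPol hIL.gi
  have hGL' : emb L L' G ∈ Kiso (Jm n L') (c.N fun s => emb L L' (emb K L (g s)))
      (VL (q.toPol.LH (emb L L' (emb K L H)))) := hKi.up G hFL
  have hfL' : emb L L' (emb K L f) ∈ c.N (fun s => emb L L' (emb K L (g s))) ⊓
      VL (q.toPol.LH (emb L L' (emb K L H))) := ⟨hbc'.1.up _ hfL.1, hbc'.2.up _ hfL.2⟩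
  have hskL : (emb L L' (emb K L H))ᵀ = -(emb L L' (emb K L H)) := FO3.emb_skew hIL.gi.skew
  have hV' : ∀ w ∈ Kiso (Jm n L') (c.N fun s => emb L L' (emb K L (g s)))
      (VL (q.toPol.LH (emb L L' (emb K L H)))),
      ∃ D : Derivation ℂ L' L', (∀ F ∈ c.N (fun s => emb L L' (emb K L (g s))),
        F.map D - FO.act c.arm 0 F ∈ c.N (fun s => emb L L' (emb K L (g s)))) ∧
        (emb L L' (emb K L H)).map D = 0 ∧ (emb L L' G).map D = w ∧
          (emb L L' (emb K L f)).map D = 0 := by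
    intro w hw
    exact vert_bc_pair (c := c) (L := L')
      (g := fun s => emb K L (g s)) (H := emb K L H) (F0 := G) (f0 := emb K L f)
      (Y := Kiso (Jm n L) (c.N fun s => emb K L (g s)) (VL (q.toPol.LH (emb K L H))))
      (fun w hw => by
        obtain ⟨D, e1, e2, e3, e4⟩ := hVc w hw
        exact ⟨D, e1, e2, e3, emb_map_zero e4 f⟩) (w := w) (hKi.down w hw)
  have hC' := hL'.ctx hGL'
  have hglue' := Qt.glue_of hL'.gi hC' (fun w hw hw0 => hL'.isoK hw hw0) (fun w hw => by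
    obtain ⟨D, e1, e2, e3, -⟩ := hV' w hw
    exact ⟨D, e1, e2, e3⟩)
  have hVV1 : V1 c q (fun s => emb L L' (emb K L (g s))) (emb L L' (emb K L H))
      (emb L L' G) (emb L L' (emb K L f)) := by
    intro w hw
    obtain ⟨D, e1, e2, e3, e4⟩ := hV' w hw
    exact ⟨D, e3, e4, realises_of q.toPol hskL e1 e2⟩
  have hVV2 : V2 c q (fun s => emb L L' (emb K L (g s))) (emb L L' (emb K L H))
      (emb L L' G) (emb L L' (emb K L f)) (∑ i, u i • embP L' (π i)) := by
    intro p' hp'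
    obtain ⟨d, h0, h1, h2, h3, h4⟩ := hW2 p' hp'
    exact ⟨d, h1, emb_map_zero h0 (emb K L f), h2, h3, h4⟩
  have hP0 : (emb L L' G)ᵀ * Jm n L' * ((∑ i, u i • embP L' (π i)).1 * emb L L' G) = 0 := by
    rcases Qt.mix_final R hI.posR hL'.gi hC' hglue' hfL' hP1 with h | h | h
    · exact absurd h (hniso _ (hniso _ hfK))
    · exact h
    · exact absurd h (hNT L' _ _ hL' (by rw [finrank_bc hKi]; exact h1L) _ hGL' _ hfL'
        (hniso _ (hniso _ hfK)) hVV1 _ hP1 hVV2)
  have hNN : ∀ p ∈ NN c.arm (Jm n L) (c.N (fun s => emb K L (g s))) G,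
      Gᵀ * Jm n L * (p.1 * G) = 0 := by
    intro p hp
    have hJ' : (Jm n L).map (algebraMap L L') = Jm n L' := Pol.Jm_map (algebraMap L L')
    refine lin_descent (L := L') (π := fun i => (π i).1) hu (Gᵀ * Jm n L) G ?_ ?_
    · have e1 : (∑ i, u i • embP L' (π i)).1 = ∑ i, u i • emb L L' (π i).1 := by
        rw [Prod.fst_sum]; rfl
      rw [← e1, Matrix.map_mul, hJ', Matrix.transpose_map]
      exact hP0
    · rw [← hπ] at hp
      obtain ⟨b, hb⟩ := (Submodule.mem_span_range_iff_exists_fun L).1 hp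
      rw [← hb, Prod.fst_sum]
      refine Submodule.sum_mem _ fun i _ => ?_
      exact Submodule.smul_mem _ _ (Submodule.subset_span ⟨i, rfl⟩)
  have hOm0 : ∀ d : Derivation ℂ L L,
      Om.IsY ℂ c.arm (c.B L) (c.N (fun s => emb K L (g s))) (VL (q.toPol.LH (emb K L H))) d →
      Om.Om (Jm n L) d G G = 0 := by
    intro d hd
    obtain ⟨p, hp, hpf⟩ := Om.exists_NN hCL hd
    rw [hpf _ hFL.1]
    exact hNN p hp
  -- descent
  refine le_antisymm Om.ZZ_le_Kiso fun F hF => ⟨hF, fun G' hG' d hd => ?_⟩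
  obtain ⟨p, hp, hpf⟩ := Om.exists_NN (hI.ctx hG') hd
  have h1 : Om.Om (Jm n K) d G' G' = 0 := Qt.om_zero_descent hG hκ ht hOm0 hd hG'
  rw [hpf G' hG'.1] at h1
  rw [hpf F hF.1]
  exact (hI.ctx hG').tf_zero hF.1 hp h1

/-- **(Q1) from (t3)** -/
theorem inQ1_of (hNT : ∀ (n : ℕ) (a : Fin 3 → Fin n → ℤ) (c : Cfg n a) (q : SPol c)
    (R : Ranked c), NoTameQ1 c q R) : Ind.InQ1 := by
  intro n a c q R K _ _ _ g H hI h1 hne h0
  have h2 := P3' (hNT n a c q R) hI h1 hne
  rw [← h2, h0, finrank_bot] at h1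
  omega

end Crest.Agent.R172.Fin4
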