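import Crest.Agent.R172.TInj
import Crest.Agent.R172.SpS10

/-!
Row 172 (S0260): the lemma (INJ) for the generic element `P` of `NN F` (`step2` of `GenQ`).
-/

set_option autoImplicit false
set_option linter.unusedSectionVars false
set_option maxHeartbeats 800000

namespace Crest.Agent.R172.TI

open Matrix Module Crest.AlgebraR.SpinSaturation Crest.Agent.R172.SoGrade
open Crest.Agent.R172.FO Crest.Agent.R172.Qt
open Crest.Agent.R172.Gen (Jm Ix emb IsSo)
open Crest.Agent.R172.CF Crest.Agent.R172.HM8 Crest.Agent.R172.HM9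
open Crest.Agent.R172.Ind (GI kk mu perp Bd Inst)
open Crest.Agent.R172.Ext Crest.Agent.R172.GenP Crest.Agent.R172.GenQ
open Crest.Agent.R172.Om (Kiso Scal)

section defs

variable {ι δ K : Type*} [Fintype ι] [DecidableEq ι] [Fintype δ] [DecidableEq δ] [Field K]

/-- **(INJ) at `(F, P)`**: an element of `NN F` whose form is trace-orthogonal to all long words in
the form of `P` has form `0`. -/
def InjP (arm : δ → Fin 3) (J : Matrix ι ι K) (B : Matrix δ δ K) (N : Submodule K (Matrix ι δ K))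
    (F : Matrix ι δ K) (P : Matrix ι ι K) : Prop :=
  ∀ p' ∈ NN arm J N F, (∃ m : ℕ, ∀ s, ∀ l : List (Fin 3), m ≤ l.length →
    Matrix.trace ((Fᵀ * J * (p'.1 * F)) * (E K arm s * B) *
      (l.map fun s => (Fᵀ * J * (P * F)) * (E K arm s * B)).prod) = 0) → Fᵀ * J * (p'.1 * F) = 0

/-- word identity: `X_s (φX)…(φX) = (Xφ)…(Xφ) X_t` -/
theorem word_shift (φ : Matrix δ δ K) (X : Fin 3 → Matrix δ δ K) (l : List (Fin 3)) :
    ∀ s, ∃ (w : List (Fin 3)) (t : Fin 3), w.length = l.length ∧
      X s * (l.map fun s => φ * X s).prod = (w.map fun s => X s * φ).prod * X t := by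
  induction l with
  | nil => intro s; exact ⟨[], s, rfl, by simp⟩
  | cons u l ih =>
    intro s
    obtain ⟨w, t, hw, h⟩ := ih u
    refine ⟨s :: w, t, by rw [List.length_cons, List.length_cons, hw], ?_⟩
    rw [List.map_cons, List.prod_cons, List.map_cons, List.prod_cons,
      Matrix.mul_assoc (X s * φ), ← h]
    simp only [Matrix.mul_assoc]

/-- (INJ), form with two words -/
theorem InjP.two {arm : δ → Fin 3} {J : Matrix ι ι K} {B : Matrix δ δ K}
    {N : Submodule K (Matrix ι δ K)} {F : Matrix ι δ K} {P : Matrix ι ι K}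
    (h : InjP arm J B N F P) {p' : Matrix ι ι K × (Fin 3 → Matrix ι ι K)}
    (hp' : p' ∈ NN arm J N F) {m : ℕ}
    (hm : ∀ l1 l2 : List (Fin 3), m ≤ l1.length → m ≤ l2.length →
      (l1.map fun s => (Fᵀ * J * (P * F)) * (E K arm s * B)).prod * (Fᵀ * J * (p'.1 * F)) *
        (l2.map fun s => (E K arm s * B) * (Fᵀ * J * (P * F))).prod = 0) :
    Fᵀ * J * (p'.1 * F) = 0 := by
  refine h p' hp' ⟨m + m, fun s l hl => ?_⟩
  obtain ⟨w, t, hw, e⟩ := word_shift (Fᵀ * J * (P * F)) (fun s => E K arm s * B) (l.take m) s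
  rw [List.length_take] at hw
  rw [← List.take_append_drop m l, List.map_append, List.prod_append, ← Matrix.mul_assoc,
    Matrix.mul_assoc _ (E K arm s * B), e, Matrix.trace_mul_comm, ← Matrix.mul_assoc,
    ← Matrix.mul_assoc, hm _ _ (by rw [List.length_drop]; omega) (by omega), Matrix.zero_mul,
    Matrix.trace_zero]

theorem word_transpose {φ : Matrix δ δ K} {X : Fin 3 → Matrix δ δ K} (hφ : φᵀ = -φ)
    (hX : ∀ s, (X s)ᵀ = -X s) (l : List (Fin 3)) :
    ((l.map fun s => X s * φ).prod)ᵀ = (l.reverse.map fun s => φ * X s).prod := by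
  induction l with
  | nil => simp
  | cons s l ih =>
    rw [List.map_cons, List.prod_cons, Matrix.transpose_mul, ih, List.reverse_cons,
      List.map_append, List.prod_append, List.map_singleton, List.prod_singleton,
      Matrix.transpose_mul, hφ, hX, neg_mul_neg]

/-- **(INJ), core form**: `ψ'` vanishes on `P × P`, `P` = the columns of `F *` (long words). -/
theorem InjP.core {arm : δ → Fin 3} {J : Matrix ι ι K} {B : Matrix δ δ K}
    {N : Submodule K (Matrix ι δ K)} {F : Matrix ι δ K} {P : Matrix ι ι K}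
    (h : InjP arm J B N F P) (hφ : (Fᵀ * J * (P * F))ᵀ = -(Fᵀ * J * (P * F)))
    (hX : ∀ s, (E K arm s * B)ᵀ = -(E K arm s * B))
    {p' : Matrix ι ι K × (Fin 3 → Matrix ι ι K)} (hp' : p' ∈ NN arm J N F) {m : ℕ}
    (hm : ∀ l1 l2 : List (Fin 3), m ≤ l1.length → m ≤ l2.length →
      (F * (l1.map fun s => (E K arm s * B) * (Fᵀ * J * (P * F))).prod)ᵀ * J *
        (p'.1 * (F * (l2.map fun s => (E K arm s * B) * (Fᵀ * J * (P * F))).prod)) = 0) :
    Fᵀ * J * (p'.1 * F) = 0 := by
  refine h.two hp' (m := m) fun l1 l2 h1 h2 => ?_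
  have e := hm l1.reverse l2 (by rw [List.length_reverse]; exact h1) h2
  rw [Matrix.transpose_mul, word_transpose hφ hX, List.reverse_reverse] at e
  rw [← e]
  simp only [Matrix.mul_assoc]

end defs

/-- a left inverse for a linearly independent family of matrices -/
theorem exists_coef {α β : Type*} [Fintype α] [Fintype β] [DecidableEq α] [DecidableEq β]
    {K : Type*} [Field K] {r : ℕ}
    {ψ : Fin r → Matrix α β K} (hψ : LinearIndependent K ψ) :
    ∃ Λ : Fin r → Matrix α β K, ∀ i j, ∑ x, ∑ y, Λ i x y * ψ j x y = if i = j then 1 else 0 := by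
  have hinj : LinearMap.ker (Fintype.linearCombination K ψ) = ⊥ := by
    rw [LinearMap.ker_eq_bot]
    exact hψ.fintypeLinearCombination_injective
  obtain ⟨S, hS⟩ := (Fintype.linearCombination K ψ).exists_leftInverse_of_injective hinj
  refine ⟨fun i x y => S (Matrix.single x y 1) i, fun i j => ?_⟩
  have h1 : S (ψ j) = Pi.single j 1 := by
    have := LinearMap.congr_fun hS (Pi.single j 1)
    rw [LinearMap.comp_apply, Fintype.linearCombination_apply_single, one_smul] at this
    exact this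
  have h2 : ψ j = ∑ x, ∑ y, ψ j x y • Matrix.single x y (1 : K) := by
    conv_lhs => rw [Matrix.matrix_eq_sum_single (ψ j)]
    simp only [Matrix.smul_single, smul_eq_mul, mul_one]
  have h3 : S (ψ j) i = ∑ x, ∑ y, S (Matrix.single x y 1) i * ψ j x y := by
    conv_lhs => rw [h2]
    simp only [map_sum, map_smul, Finset.sum_apply, Pi.smul_apply, smul_eq_mul, mul_comm]
  rw [← h3, h1, Pi.single_apply]

theorem indep_emb {α β : Type*} [Fintype α] [Fintype β] [DecidableEq α] [DecidableEq β]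
    {K κ : Type*} [Field K] [Field κ] (f : K →+* κ) {r : ℕ}
    {ψ : Fin r → Matrix α β K} (hψ : LinearIndependent K ψ) {c : Fin r → κ}
    (h : ∑ j, c j • (ψ j).map f = 0) : c = 0 := by
  obtain ⟨Λ, hΛ⟩ := exists_coef hψ
  funext i
  have h1 : ∑ x, ∑ y, f (Λ i x y) * (∑ j, c j • (ψ j).map f) x y = 0 := by
    rw [h]
    simp
  have h2 : ∑ x, ∑ y, f (Λ i x y) * (∑ j, c j • (ψ j).map f) x y =
      ∑ j, c j * f (∑ x, ∑ y, Λ i x y * ψ j x y) := by
    have h3 : ∀ x y, f (Λ i x y) * (∑ j, c j • (ψ j).map f) x y =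
        ∑ j, c j * f (Λ i x y * ψ j x y) := by
      intro x y
      rw [Matrix.sum_apply, Finset.mul_sum]
      refine Finset.sum_congr rfl fun j _ => ?_
      rw [Matrix.smul_apply, Matrix.map_apply, smul_eq_mul, map_mul]
      ring
    calc ∑ x, ∑ y, f (Λ i x y) * (∑ j, c j • (ψ j).map f) x y
        = ∑ x, ∑ y, ∑ j, c j * f (Λ i x y * ψ j x y) := by
          exact Finset.sum_congr rfl fun x _ => Finset.sum_congr rfl fun y _ => h3 x y
      _ = ∑ x, ∑ j, ∑ y, c j * f (Λ i x y * ψ j x y) := by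
          exact Finset.sum_congr rfl fun x _ => Finset.sum_comm
      _ = ∑ j, ∑ x, ∑ y, c j * f (Λ i x y * ψ j x y) := Finset.sum_comm
      _ = ∑ j, c j * f (∑ x, ∑ y, Λ i x y * ψ j x y) := by
          refine Finset.sum_congr rfl fun j _ => ?_
          rw [map_sum, Finset.mul_sum]
          refine Finset.sum_congr rfl fun x _ => ?_
          rw [map_sum, Finset.mul_sum]
  rw [h2] at h1
  simp only [hΛ] at h1
  simpa using h1

section cfg

variable {n : ℕ} {a : Fin 3 → Fin n → ℤ} {c : Cfg n a} {q : SPol c} {R : Ranked c}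
  {K : Type} [Field K] [Algebra ℂ K]

/-- the form of an element of `NN F`, as a linear map -/
def fm (F : Matrix (Ix n) c.δ K) :
    (Matrix (Ix n) (Ix n) K × (Fin 3 → Matrix (Ix n) (Ix n) K)) →ₗ[K] Matrix c.δ c.δ K where
  toFun p := Fᵀ * Jm n K * (p.1 * F)
  map_add' p q := by rw [Prod.fst_add, Matrix.add_mul, Matrix.mul_add]
  map_smul' t p := by rw [Prod.smul_fst, Matrix.smul_mul, Matrix.mul_smul, RingHom.id_apply]

theorem E_emb (L : Type) [Field L] [Algebra K L] (arm : c.δ → Fin 3) (s : Fin 3) :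
    emb K L (E K arm s) = E L arm s := by
  ext d e
  unfold E
  rw [FO3.emb_apply', Matrix.diagonal_apply, Matrix.diagonal_apply]
  split_ifs <;> simp

theorem lc_eq {κ : Type} [Field κ] [Algebra K κ] {b : ℕ} (ψ : Fin b → Matrix c.δ c.δ K)
    (x : Fin b → κ) (s : Fin 3) :
    lc (algebraMap K κ) (fun j s => ψ j * (E K c.arm s * c.B K)) x s =
      (∑ j, x j • (ψ j).map (algebraMap K κ)) * (E κ c.arm s * c.B κ) := by
  rw [lc, Finset.sum_mul]
  refine Finset.sum_congr rfl fun j _ => ?_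
  rw [Matrix.map_mul, Matrix.map_mul, Matrix.smul_mul, c.B_map K κ (algebraMap K κ)]
  congr 3
  exact E_emb κ c.arm s

/-- the trace invariants of `T_Q` have no common zero (over all extensions) -/
theorem nilZ_of {g : Fin 3 → Matrix (Ix n) (Ix n) K} {H : Matrix (Fin q.toPol.m) (Fin q.toPol.m) K}
    (h : Inst c q R K g H) {F : Matrix (Ix n) c.δ K}
    (hF : F ∈ Kiso (Jm n K) (c.N g) (VL (q.toPol.LH H))) {b : ℕ}
    {ψ : Fin b → Matrix c.δ c.δ K} (hψ : LinearIndependent K ψ)
    {π : Fin b → Matrix (Ix n) (Ix n) K × (Fin 3 → Matrix (Ix n) (Ix n) K)}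
    (hπ : ∀ j, π j ∈ NN c.arm (Jm n K) (c.N g) F) (hπψ : ∀ j, fm F (π j) = ψ j) :
    NilZ (fun j s => ψ j * (E K c.arm s * c.B K)) := by
  intro κ iκ f x hx
  obtain ⟨m, hm⟩ := hx
  let _ : Algebra K κ := f.toAlgebra
  let _ : Algebra ℂ κ := (f.comp (algebraMap ℂ K)).toAlgebra
  have _ : IsScalarTower ℂ K κ := IsScalarTower.of_algebraMap_eq' rfl
  have hκ := h.bc κ
  have hKi := bcKiso (L := κ) q.toPol h.gi
  have hFκ := hKi.up F hF
  have hP : (∑ j, x j • embP κ (π j)) ∈
      NN c.arm (Jm n κ) (c.N fun s => emb K κ (g s)) (emb K κ F) :=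
    Submodule.sum_mem _ fun j _ => Submodule.smul_mem _ _ (nn_up (hπ j))
  have hform : (emb K κ F)ᵀ * Jm n κ * ((∑ j, x j • embP κ (π j)).1 * emb K κ F) =
      ∑ j, x j • (ψ j).map f := by
    have h1 : (emb K κ F)ᵀ * Jm n κ * ((∑ j, x j • embP κ (π j)).1 * emb K κ F) =
        fm (emb K κ F) (∑ j, x j • embP κ (π j)) := rfl
    rw [h1, map_sum]
    refine Finset.sum_congr rfl fun j _ => ?_
    rw [map_smul, ← hπψ j]
    congr 1
    change (emb K κ F)ᵀ * Jm n κ * (emb K κ (π j).1 * emb K κ F) =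
      emb K κ (Fᵀ * Jm n K * ((π j).1 * F))
    rw [FO3.emb_mul', FO3.emb_mul', FO3.emb_mul',
      show emb K κ (Jm n K) = Jm n κ from Pol.Jm_map (algebraMap K κ)]
    rfl
  have hw := SpS.nilW_cfg R q.toPol hκ.gi.orth hκ.gi.skew hκ.hgen hκ.data.J_symm hFκ.1.1 hFκ.1.2
    (hFκ.2 _ hFκ.1) _ hP m (fun l hl => by
      rw [← hm l hl.ge]
      congr 1
      refine List.map_congr_left fun s _ => ?_
      change (emb K κ F)ᵀ * Jm n κ * ((∑ j, x j • embP κ (π j)).1 * emb K κ F) *
        (E κ c.arm s * c.B κ) = _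
      rw [hform]
      exact (lc_eq ψ x s).symm)
  rw [hform] at hw
  exact indep_emb f hψ hw

/-- **(INJ) at the generic element of `NN F`** (the output of `GenQ.step2`). -/
theorem injP_of {g : Fin 3 → Matrix (Ix n) (Ix n) K} {H : Matrix (Fin q.toPol.m) (Fin q.toPol.m) K}
    (h : Inst c q R K g H) {F : Matrix (Ix n) c.δ K}
    (hF : F ∈ Kiso (Jm n K) (c.N g) (VL (q.toPol.LH H))) {r : ℕ}
    {π : Fin r → Matrix (Ix n) (Ix n) K × (Fin 3 → Matrix (Ix n) (Ix n) K)}
    (hπ : Submodule.span K (Set.range π) = NN c.arm (Jm n K) (c.N g) F)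
    {L : Type} [Field L] [Algebra K L] [Algebra ℂ L] [IsScalarTower ℂ K L] (u : Fin r → L)
    (hV2 : ∀ p' ∈ NN c.arm (Jm n L) (c.N (fun s => emb K L (g s))) (emb K L F),
      ∃ d : Derivation ℂ L L, (∀ x, d (algebraMap K L x) = 0) ∧
        (∑ i, u i • embP L (π i)).1.map d = p'.1) :
    InjP c.arm (Jm n L) (c.B L) (c.N (fun s => emb K L (g s))) (emb K L F)
      (∑ i, u i • embP L (π i)).1 := by
  classical
  intro p' hp' hm
  obtain ⟨m, hm⟩ := hm
  obtain ⟨b, ψ, hψ, hψT⟩ := exists_family ((NN c.arm (Jm n K) (c.N g) F).map (fm F))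
  have h1 : ∀ j, ∃ p ∈ NN c.arm (Jm n K) (c.N g) F, fm F p = ψ j := by
    intro j
    have : ψ j ∈ (NN c.arm (Jm n K) (c.N g) F).map (fm F) := by
      rw [← hψT]; exact Submodule.subset_span ⟨j, rfl⟩
    exact Submodule.mem_map.1 this
  choose ρ hρ hρψ using h1
  have h2 : ∀ i, ∃ A : Fin b → K, ∑ j, A j • ψ j = fm F (π i) := by
    intro i
    have : fm F (π i) ∈ Submodule.span K (Set.range ψ) := by
      rw [hψT]
      refine Submodule.mem_map_of_mem ?_
      rw [← hπ]; exact Submodule.subset_span ⟨i, rfl⟩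
    exact (Submodule.mem_span_range_iff_exists_fun K).1 this
  choose A hA using h2
  set P := ∑ i, u i • embP L (π i) with hPdef
  set x : Fin b → L := fun j => ∑ i, u i * algebraMap K L (A i j) with hx
  have hfe : ∀ p : Matrix (Ix n) (Ix n) K × (Fin 3 → Matrix (Ix n) (Ix n) K),
      fm (emb K L F) (embP L p) = emb K L (fm F p) := by
    intro p
    change (emb K L F)ᵀ * Jm n L * (emb K L p.1 * emb K L F) =
      emb K L (Fᵀ * Jm n K * (p.1 * F))
    rw [FO3.emb_mul', FO3.emb_mul', FO3.emb_mul',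
      show emb K L (Jm n K) = Jm n L from Pol.Jm_map (algebraMap K L)]
    rfl
  have hform : fm (emb K L F) P = ∑ j, x j • (ψ j).map (algebraMap K L) := by
    rw [hPdef, map_sum]
    have h3 : ∀ i, fm (emb K L F) (u i • embP L (π i)) =
        ∑ j, (u i * algebraMap K L (A i j)) • (ψ j).map (algebraMap K L) := by
      intro i
      rw [map_smul, hfe, ← hA i, emb_sum2, Finset.smul_sum]
      refine Finset.sum_congr rfl fun j _ => ?_
      rw [emb_smul2, smul_smul]
    rw [Finset.sum_congr rfl fun i _ => h3 i, Finset.sum_comm]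
    refine Finset.sum_congr rfl fun j _ => ?_
    rw [hx, ← Finset.sum_smul]
  obtain ⟨d, hd0, hdP⟩ := hV2 p' hp'
  have hdF : (emb K L F).map d = 0 := by
    ext i j
    exact hd0 _
  have hdform : (fm (emb K L F) P).map d = fm (emb K L F) p' := by
    change ((emb K L F)ᵀ * Jm n L * (P.1 * emb K L F)).map d =
      (emb K L F)ᵀ * Jm n L * (p'.1 * emb K L F)
    rw [FO.map_mul_der, FO.map_mul_der, FO.map_mul_der, hdF, hdP, Matrix.mul_zero, add_zero,
      FO3.Jm_der, Matrix.mul_zero, add_zero, FO.map_transpose_der, hdF, Matrix.transpose_zero,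
      Matrix.zero_mul, Matrix.zero_mul, zero_add]
  have hdx : fm (emb K L F) p' = ∑ j, d (x j) • (ψ j).map (algebraMap K L) := by
    rw [← hdform, hform]
    ext y z
    simp only [Matrix.map_apply, Matrix.sum_apply, Matrix.smul_apply, map_sum, smul_eq_mul,
      d.leibniz, hd0, mul_zero, zero_add]
    exact Finset.sum_congr rfl fun j _ => mul_comm _ _
  have : CharZero K := charZero_of_injective_algebraMap (algebraMap ℂ K).injective
  have hinj := inj (nilZ_of h hF hψ hρ hρψ) (algebraMap K L) x (d.restrictScalars ℤ) hd0 (m := m)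
    (fun s l hl => by
      rw [← hm s l hl, lc_eq]
      change Matrix.trace ((∑ j, d (x j) • (ψ j).map (algebraMap K L)) * _ * _) =
        Matrix.trace (fm (emb K L F) p' * _ * (l.map fun s => fm (emb K L F) P * _).prod)
      rw [← hdx, hform]
      congr 3
      exact List.map_congr_left fun s _ => lc_eq ψ x s)
  change fm (emb K L F) p' = 0
  rw [hdx]
  refine Finset.sum_eq_zero fun j _ => ?_
  rw [show d (x j) = 0 from hinj j, zero_smul]

end cfg

end Crest.Agent.R172.TI
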