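import Crest.Agent.R172.Fin4
import Crest.Agent.R172.TGlue

/-!
Row 172 (S0260): the inputs (t2), (t3) with the additional hypothesis (INJ) (`TI.InjP`).
-/

set_option autoImplicit false
set_option linter.unusedSectionVars false
set_option linter.unusedFintypeInType false
set_option linter.unusedDecidableInType false
set_option maxHeartbeats 400000

namespace Crest.Agent.R172.Fin5

open Matrix Module Crest.Agent.R172.FO
open Crest.AlgebraR.SpinSaturation Crest.Agent.R172.SoGrade Crest.Agent.R172.Sp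
open Crest.Agent.R172.CF Crest.Agent.R172.CSys
open Crest.Agent.R172.Gen (Jm Ix emb IsSo)
open Crest.Agent.R172.GenP
open Crest.Agent.R172.GenQ
open Crest.Agent.R172.SpS
open Crest.Agent.R172.Qt (NN Ctx TameMix)
open Crest.Agent.R172.Om (Kiso Scal)
open Crest.Agent.R172.Ind (GI Inst)
open Crest.Agent.R172.Fin4

variable {n : ℕ} {a : Fin 3 → Fin n → ℤ} {c : Cfg n a} {q : SPol c}

/-- **(t2)** with (INJ) -/
def NoTameS2I (c : Cfg n a) (q : SPol c) (R : Ranked c) : Prop :=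
  ∀ (L : Type) [Field L] [Algebra ℂ L] [IsAlgClosed L] (g : Fin 3 → Matrix (Ix n) (Ix n) L)
    (H : Matrix (Fin q.toPol.m) (Fin q.toPol.m) L), Inst c q R L g H →
    2 ≤ finrank L ↥(Kiso (Jm n L) (c.N g) (VL (q.toPol.LH H))) →
    ∀ F ∈ Kiso (Jm n L) (c.N g) (VL (q.toPol.LH H)),
    ∀ f ∈ Kiso (Jm n L) (c.N g) (VL (q.toPol.LH H)), V1 c q g H F f →
    ∀ P ∈ NN c.arm (Jm n L) (c.N g) F, V2 c q g H F f P →
    TI.InjP c.arm (Jm n L) (c.B L) (c.N g) F P.1 →
    ∀ G : Matrix c.δ (Ix n) L, F * G * F = F →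
      ¬ TameD (Mg c.arm (c.B L) F) (Ng c.arm (c.B L) F G f)
        (bil F G (Fᵀ * (Jm n L * P.1) * F))

/-- **`InS2`-input for one instance from (t2)** -/
theorem scal_inst2I {q : SPol c} {R : Ranked c} (hNT : NoTameS2I c q R) {K : Type} [Field K]
    [Algebra ℂ K] {g : Fin 3 → Matrix (Ix n) (Ix n) K}
    {H : Matrix (Fin q.toPol.m) (Fin q.toPol.m) K} (h : Inst c q R K g H)
    (h2 : 2 ≤ finrank K ↥(Kiso (Jm n K) (c.N g) (VL (q.toPol.LH H)))) :
    Scal ℂ c.arm (Jm n K) (c.B K) (c.N g) (VL (q.toPol.LH H)) := by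
  classical
  obtain ⟨r, κ, -, hκ⟩ := exists_family (Kiso (Jm n K) (c.N g) (VL (q.toPol.LH H)))
  obtain ⟨L, iL, iKL, iCL, ist, icl, icz, t, ht, hF1, hVc⟩ := step1c q.toPol h.gi hκ
  have hV1 : ∀ w ∈ Kiso (Jm n L) (c.N (fun s => emb K L (g s)))
      (VL (q.toPol.LH (emb K L H))), VertH c (fun s => emb K L (g s)) (emb K L H)
        (∑ j, t j • emb K L (κ j)) w := fun w hw => by
    obtain ⟨D, h1, h2, h3, -⟩ := hVc w hw
    exact ⟨D, h1, h2, h3⟩
  have hL : Inst c q R L (fun s => emb K L (g s)) (emb K L H) := h.bc L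
  have hJ : (Jm n K).map (algebraMap K L) = Jm n L := Pol.Jm_map (algebraMap K L)
  have hB : (c.B K).map (algebraMap K L) = c.B L := c.B_map K L (algebraMap K L)
  have hbc := bcNW (L := L) q.toPol h.gi
  have hKiL := bcKiso (L := L) q.toPol h.gi
  have h2L : 2 ≤ finrank L ↥(Kiso (Jm n L) (c.N (fun s => emb K L (g s)))
      (VL (q.toPol.LH (emb K L H)))) := by
    rw [finrank_bc hKiL]; exact h2
  set F : Matrix (Ix n) c.δ L := ∑ j, t j • emb K L (κ j) with hF
  refine scal_of_generic (L := L) hbc.1 hbc.2 h.data ?_ (fun F hF => h.ctx hF) (g0 := F) ?_ ?_ ?_ ?_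
  · rw [hJ, hB]; exact hL.data
  · rw [hJ]; exact hF1
  · rw [hJ, hB]; exact hL.ctx hF1
  · intro P hP F0 hF0
    rw [hF] at hP
    exact spec_of_coord ht P hP (by rw [hκ]; exact hF0)
  · rw [hJ]
    have hκm : ∀ j, κ j ∈ Kiso (Jm n K) (c.N g) (VL (q.toPol.LH H)) := fun j => by
      rw [← hκ]; exact Submodule.subset_span ⟨j, rfl⟩
    -- the claim for the constant elements
    have key : ∀ j, ∃ e : L, ∀ p ∈ NN c.arm (Jm n L) (c.N fun s => emb K L (g s)) F,
        Fᵀ * Jm n L * (p.1 * emb K L (κ j)) = e • (Fᵀ * Jm n L * (p.1 * F)) := by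
      intro j
      set f : Matrix (Ix n) c.δ L := emb K L (κ j) with hfdef
      have hf : f ∈ Kiso (Jm n L) (c.N fun s => emb K L (g s)) (VL (q.toPol.LH (emb K L H))) :=
        hKiL.up _ (hκm j)
      -- second extension
      obtain ⟨r', π, -, hπ⟩ := exists_family (NN c.arm (Jm n L) (c.N fun s => emb K L (g s)) F)
      obtain ⟨L', iL', iLL', iCL', ist', icl', icz', u, hu, hP1, hW1, hW2⟩ :=
        step2 q.toPol hL.gi hV1 hπ
      have hL' := hL.bc L'
      have hJ' : (Jm n L).map (algebraMap L L') = Jm n L' := Pol.Jm_map (algebraMap L L')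
      have hKi := bcKiso (L := L') q.toPol hL.gi
      have hFL' := hKi.up F hF1
      have hfL' := hKi.up f hf
      set P : Matrix (Ix n) (Ix n) L' × (Fin 3 → Matrix (Ix n) (Ix n) L') :=
        ∑ i, u i • embP L' (π i) with hP
      have hP1' : P.1 = ∑ i, u i • emb L L' (π i).1 := by
        rw [hP, Prod.fst_sum]; rfl
      obtain ⟨G, hG⟩ := Qt.exists_pinv (F.map (algebraMap L L'))
      have hctx := hL'.ctx hFL'
      have hV : Vert ℂ c.arm (Jm n L') (c.N fun s => emb L L' (emb K L (g s)))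
          (VL (q.toPol.LH (emb L L' (emb K L H)))) (F.map (algebraMap L L')) P := by
        refine ⟨fun w hw => hW1 w hw, fun p' hp' => ?_⟩
        obtain ⟨d, -, h1, h2, h3, -⟩ := hW2 p' hp'
        exact ⟨d, h1, h2, by rw [h3]⟩
      have hskL : (emb L L' (emb K L H))ᵀ = -(emb L L' (emb K L H)) :=
        FO3.emb_skew hL.gi.skew
      have hVV1 : V1 c q (fun s => emb L L' (emb K L (g s))) (emb L L' (emb K L H))
          (F.map (algebraMap L L')) (f.map (algebraMap L L')) := by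
        intro w hw
        obtain ⟨D, e1, e2, e3, e4⟩ := vert_bc_pair (c := c) (L := L')
          (g := fun s => emb K L (g s)) (H := emb K L H) (F0 := F) (f0 := f)
          (Y := Kiso (Jm n L) (c.N fun s => emb K L (g s)) (VL (q.toPol.LH (emb K L H))))
          (fun w hw => by
            obtain ⟨D, e1, e2, e3, e4⟩ := hVc w hw
            exact ⟨D, e1, e2, e3, emb_map_zero e4 (κ j)⟩) (w := w) (hKi.down w hw)
        exact ⟨D, e3, e4, realises_of q.toPol hskL e1 e2⟩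
      have hVV2 : V2 c q (fun s => emb L L' (emb K L (g s))) (emb L L' (emb K L H))
          (F.map (algebraMap L L')) (f.map (algebraMap L L')) P := by
        intro p' hp'
        obtain ⟨d, h0, h1, h2, h3, h4⟩ := hW2 p' hp'
        exact ⟨d, h1, emb_map_zero h0 f, h2, h3, h4⟩
      refine uniform_of_generic (L := L') (hL.ctx hF1) (f := f) hf.1 (p0 := P.1) ?_ ?_
      · intro Q hQ p hp
        rw [hP1'] at hQ
        refine spec_of_coord hu Q hQ ?_
        rw [← hπ] at hp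
        obtain ⟨b, hb⟩ := (Submodule.mem_span_range_iff_exists_fun L).1 hp
        rw [← hb, Prod.fst_sum]
        refine Submodule.sum_mem _ fun i _ => ?_
        exact Submodule.smul_mem _ _ (Submodule.subset_span ⟨i, rfl⟩)
      · rw [hJ']
        have hsc := scalar_at (k := ℂ) hctx hL'.two_ne hG
          (nilW_cfg R q.toPol hL'.gi.orth hL'.gi.skew hL'.hgen hL'.data.J_symm hFL'.1.1 hFL'.1.2
            (hFL'.2 _ hFL'.1)) hP1
          (armNil_cfg R hL'.gi.orth hFL'.1.1 (hFL'.2 _ hFL'.1) hP1) hV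
          (f := f.map (algebraMap L L')) hfL'.1
        rcases hsc with hc | hT
        · exact hc
        · exact absurd hT (hNT L' _ _ hL' (by rw [finrank_bc hKi]; exact h2L) _ hFL' _ hfL'
            hVV1 P hP1 hVV2 (TI.injP_of hL hF1 hπ u (fun p' hp' => by
              obtain ⟨d, h0, -, -, h3, -⟩ := hW2 p' hp'
              exact ⟨d, h0, h3⟩)) G hG)
    intro f hf
    choose e he using key
    obtain ⟨b, hb⟩ := exists_coord hκ (hKiL.down f hf)
    refine ⟨∑ j, b j * e j, fun p hp => ?_⟩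
    rw [hb, Matrix.mul_sum, Matrix.mul_sum, Finset.sum_smul]
    refine Finset.sum_congr rfl fun j _ => ?_
    rw [Matrix.mul_smul, Matrix.mul_smul, he j p hp, smul_smul]

/-- **(S2) from (t2)** -/
theorem inS2_ofI (hNT : ∀ (n : ℕ) (a : Fin 3 → Fin n → ℤ) (c : Cfg n a) (q : SPol c)
    (R : Ranked c), NoTameS2I c q R) : Ind.InS2 := by
  intro n a c q R K _ _ _ g H hI h2
  exact scal_inst2I (hNT n a c q R) hI h2

/-- **(t3)** no mixed tame pair, `dim 𝒦iso = 1`: `G` generic in `𝒦iso`, `f ∈ 𝒦` constant,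
`p` generic in `NN G` -/
def NoTameQ1I (c : Cfg n a) (q : SPol c) (R : Ranked c) : Prop :=
  ∀ (L : Type) [Field L] [Algebra ℂ L] [IsAlgClosed L]
    (g : Fin 3 → Matrix (Ix n) (Ix n) L) (H : Matrix (Fin q.toPol.m) (Fin q.toPol.m) L),
    Inst c q R L g H →
    finrank L ↥(Kiso (Jm n L) (c.N g) (VL (q.toPol.LH H))) = 1 →
    ∀ G ∈ Kiso (Jm n L) (c.N g) (VL (q.toPol.LH H)),
    ∀ f ∈ c.N g ⊓ VL (q.toPol.LH H), fᵀ * Jm n L * f ≠ 0 → V1 c q g H G f →
    ∀ p ∈ NN c.arm (Jm n L) (c.N g) G, V2 c q g H G f p →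
      TI.InjP c.arm (Jm n L) (c.B L) (c.N g) G p.1 →
      ¬ TameMix c G f p.1

/-- **(P3)** for one instance with `dim 𝒦iso = 1`. -/
theorem P3I {R : Ranked c} (hNT : NoTameQ1I c q R) {K : Type} [Field K] [Algebra ℂ K]
    {g : Fin 3 → Matrix (Ix n) (Ix n) K} {H : Matrix (Fin q.toPol.m) (Fin q.toPol.m) K}
    (hI : Inst c q R K g H)
    (h1K : finrank K ↥(Kiso (Jm n K) (c.N g) (VL (q.toPol.LH H))) = 1)
    (hne : Kiso (Jm n K) (c.N g) (VL (q.toPol.LH H)) ≠ c.N g ⊓ VL (q.toPol.LH H)) :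
    Ext.ZI c q.toPol g H = Kiso (Jm n K) (c.N g) (VL (q.toPol.LH H)) := by
  classical
  have hG := hI.gi
  -- a non-isotropic element
  obtain ⟨f, hf, hfn⟩ : ∃ f ∈ c.N g ⊓ VL (q.toPol.LH H),
      f ∉ Kiso (Jm n K) (c.N g) (VL (q.toPol.LH H)) := by
    by_contra hcon
    push Not at hcon
    exact hne (le_antisymm (fun F hF => hF.1) hcon)
  obtain ⟨r, κ, -, hκ⟩ := exists_family (Kiso (Jm n K) (c.N g) (VL (q.toPol.LH H)))
  obtain ⟨L, iL, iKL, iCL, ist, icl, icz, t, ht, hFL, hVc⟩ := step1c q.toPol hG hκ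
  have hV : ∀ w ∈ Kiso (Jm n L) (c.N (fun s => emb K L (g s)))
      (VL (q.toPol.LH (emb K L H))), VertH c (fun s => emb K L (g s)) (emb K L H)
        (∑ j, t j • emb K L (κ j)) w := fun w hw => by
    obtain ⟨D, h1, h2, h3, -⟩ := hVc w hw
    exact ⟨D, h1, h2, h3⟩
  have hIL := hI.bc L
  have hbc := bcNW (L := L) q.toPol hG
  have hbK := bcKiso (L := L) q.toPol hG
  have hfL : emb K L f ∈ c.N (fun s => emb K L (g s)) ⊓ VL (q.toPol.LH (emb K L H)) :=
    ⟨hbc.1.up f hf.1, hbc.2.up f hf.2⟩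
  have h1L : finrank L ↥(Kiso (Jm n L) (c.N (fun s => emb K L (g s)))
      (VL (q.toPol.LH (emb K L H)))) = 1 := by
    rw [finrank_bc hbK]; exact h1K
  have hfK : fᵀ * Jm n K * f ≠ 0 := fun h0 => hfn (hI.isoK hf h0)
  have hniso : ∀ {K' L' : Type} [Field K'] [Field L'] [Algebra K' L'] [Algebra ℂ K']
      [Algebra ℂ L'] [IsScalarTower ℂ K' L'] (f : Matrix (Ix n) c.δ K'),
      fᵀ * Jm n K' * f ≠ 0 → (emb K' L' f)ᵀ * Jm n L' * emb K' L' f ≠ 0 := by
    intro K' L' _ _ _ _ _ _ f hfn h0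
    apply hfn
    have hJ : (Jm n K').map (algebraMap K' L') = Jm n L' := Pol.Jm_map (algebraMap K' L')
    have h1 : (fᵀ * Jm n K' * f).map (algebraMap K' L') = 0 := by
      rw [Matrix.map_mul, Matrix.map_mul, Matrix.transpose_map, hJ]
      exact h0
    ext i j
    have h2 := congrFun (congrFun h1 i) j
    rw [map_apply, Matrix.zero_apply] at h2
    exact (FaithfulSMul.algebraMap_injective K' L') (by rw [h2, Matrix.zero_apply, map_zero])
  set G : Matrix (Ix n) c.δ L := ∑ j, t j • emb K L (κ j) with hGdef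
  have hCL := hIL.ctx hFL
  -- second extension
  obtain ⟨r', π, -, hπ⟩ := exists_family (NN c.arm (Jm n L) (c.N fun s => emb K L (g s)) G)
  obtain ⟨L', iL', iLL', iCL', ist', icl', icz', u, hu, hP1, hW1, hW2⟩ :=
    step2 q.toPol hIL.gi hV hπ
  have hL' := hIL.bc L'
  have hKi := bcKiso (L := L') q.toPol hIL.gi
  have hbc' := bcNW (L := L') q.toPol hIL.gi
  have hGL' : emb L L' G ∈ Kiso (Jm n L') (c.N fun s => emb L L' (emb K L (g s)))
      (VL (q.toPol.LH (emb L L' (emb K L H)))) := hKi.up G hFL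
  have hfL' : emb L L' (emb K L f) ∈ c.N (fun s => emb L L' (emb K L (g s))) ⊓
      VL (q.toPol.LH (emb L L' (emb K L H))) := ⟨hbc'.1.up _ hfL.1, hbc'.2.up _ hfL.2⟩
  have hskL : (emb L L' (emb K L H))ᵀ = -(emb L L' (emb K L H)) := FO3.emb_skew hIL.gi.skew
  have hV' : ∀ w ∈ Kiso (Jm n L') (c.N fun s => emb L L' (emb K L (g s)))
      (VL (q.toPol.LH (emb L L' (emb K L H)))),
      ∃ D : Derivation ℂ L' L', (∀ F ∈ c.N (fun s => emb L L' (emb K L (g s))),
        F.map D - FO.act c.arm 0 F ∈ c.N (fun s => emb L L' (emb K L (g s)))) ∧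
        (emb L L' (emb K L H)).map D = 0 ∧ (emb L L' G).map D = w ∧
          (emb L L' (emb K L f)).map D = 0 := by
    intro w hw
    exact vert_bc_pair (c := c) (L := L')
      (g := fun s => emb K L (g s)) (H := emb K L H) (F0 := G) (f0 := emb K L f)
      (Y := Kiso (Jm n L) (c.N fun s => emb K L (g s)) (VL (q.toPol.LH (emb K L H))))
      (fun w hw => by
        obtain ⟨D, e1, e2, e3, e4⟩ := hVc w hw
        exact ⟨D, e1, e2, e3, emb_map_zero e4 f⟩) (w := w) (hKi.down w hw)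
  have hC' := hL'.ctx hGL'
  have hglue' := Qt.glue_of hL'.gi hC' (fun w hw hw0 => hL'.isoK hw hw0) (fun w hw => by
    obtain ⟨D, e1, e2, e3, -⟩ := hV' w hw
    exact ⟨D, e1, e2, e3⟩)
  have hVV1 : V1 c q (fun s => emb L L' (emb K L (g s))) (emb L L' (emb K L H))
      (emb L L' G) (emb L L' (emb K L f)) := by
    intro w hw
    obtain ⟨D, e1, e2, e3, e4⟩ := hV' w hw
    exact ⟨D, e3, e4, realises_of q.toPol hskL e1 e2⟩
  have hVV2 : V2 c q (fun s => emb L L' (emb K L (g s))) (emb L L' (emb K L H))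
      (emb L L' G) (emb L L' (emb K L f)) (∑ i, u i • embP L' (π i)) := by
    intro p' hp'
    obtain ⟨d, h0, h1, h2, h3, h4⟩ := hW2 p' hp'
    exact ⟨d, h1, emb_map_zero h0 (emb K L f), h2, h3, h4⟩
  have hP0 : (emb L L' G)ᵀ * Jm n L' * ((∑ i, u i • embP L' (π i)).1 * emb L L' G) = 0 := by
    rcases Qt.mix_final R hI.posR hL'.gi hC' hglue' hfL' hP1 with h | h | h
    · exact absurd h (hniso _ (hniso _ hfK))
    · exact h
    · exact absurd h (hNT L' _ _ hL' (by rw [finrank_bc hKi]; exact h1L) _ hGL' _ hfL'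
        (hniso _ (hniso _ hfK)) hVV1 _ hP1 hVV2 (TI.injP_of hIL hFL hπ u (fun p' hp' => by
          obtain ⟨d, h0, -, -, h3, -⟩ := hW2 p' hp'
          exact ⟨d, h0, h3⟩)))
  have hNN : ∀ p ∈ NN c.arm (Jm n L) (c.N (fun s => emb K L (g s))) G,
      Gᵀ * Jm n L * (p.1 * G) = 0 := by
    intro p hp
    have hJ' : (Jm n L).map (algebraMap L L') = Jm n L' := Pol.Jm_map (algebraMap L L')
    refine lin_descent (L := L') (π := fun i => (π i).1) hu (Gᵀ * Jm n L) G ?_ ?_
    · have e1 : (∑ i, u i • embP L' (π i)).1 = ∑ i, u i • emb L L' (π i).1 := by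
        rw [Prod.fst_sum]; rfl
      rw [← e1, Matrix.map_mul, hJ', Matrix.transpose_map]
      exact hP0
    · rw [← hπ] at hp
      obtain ⟨b, hb⟩ := (Submodule.mem_span_range_iff_exists_fun L).1 hp
      rw [← hb, Prod.fst_sum]
      refine Submodule.sum_mem _ fun i _ => ?_
      exact Submodule.smul_mem _ _ (Submodule.subset_span ⟨i, rfl⟩)
  have hOm0 : ∀ d : Derivation ℂ L L,
      Om.IsY ℂ c.arm (c.B L) (c.N (fun s => emb K L (g s))) (VL (q.toPol.LH (emb K L H))) d →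
      Om.Om (Jm n L) d G G = 0 := by
    intro d hd
    obtain ⟨p, hp, hpf⟩ := Om.exists_NN hCL hd
    rw [hpf _ hFL.1]
    exact hNN p hp
  -- descent
  refine le_antisymm Om.ZZ_le_Kiso fun F hF => ⟨hF, fun G' hG' d hd => ?_⟩
  obtain ⟨p, hp, hpf⟩ := Om.exists_NN (hI.ctx hG') hd
  have h1 : Om.Om (Jm n K) d G' G' = 0 := Qt.om_zero_descent hG hκ ht hOm0 hd hG'
  rw [hpf G' hG'.1] at h1
  rw [hpf F hF.1]
  exact (hI.ctx hG').tf_zero hF.1 hp h1

/-- **(Q1) from (t3)** -/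
theorem inQ1_ofI (hNT : ∀ (n : ℕ) (a : Fin 3 → Fin n → ℤ) (c : Cfg n a) (q : SPol c)
    (R : Ranked c), NoTameQ1I c q R) : Ind.InQ1 := by
  intro n a c q R K _ _ _ g H hI h1 hne h0
  have h2 := P3I (hNT n a c q R) hI h1 hne
  rw [← h2, h0, finrank_bot] at h1
  omega

end Crest.Agent.R172.Fin5
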