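import Crest.Agent.R172.Fin3
import Crest.Agent.R172.Fin5

/-!
Row 172 (S0260): the final statement from the three tame exclusions
`InT00` (t1), `NoTameS2` (t2), `NoTameQ1` (t3).
-/

set_option autoImplicit false

namespace Crest.Agent.R172.Fin6

open Crest.AlgebraR.SpinSaturation Crest.Agent.R172.SoGrade Crest.Agent.R172.Sp
open Crest.Agent.R172.CF Crest.Agent.R172.CSys

/-- **S0260 from the three tame exclusions** -/
theorem saturation_of6 (hT : Ind.InT00)
    (hS : ∀ (n : ℕ) (a : Fin 3 → Fin n → ℤ) (c : Cfg n a) (q : SPol c)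
      (R : Ranked c), Fin4.NoTameS2 c q R)
    (hQ : ∀ (n : ℕ) (a : Fin 3 → Fin n → ℤ) (c : Cfg n a) (q : SPol c)
      (R : Ranked c), Fin4.NoTameQ1 c q R) (n : ℕ) (hn : 2 ≤ n)
    (a b c : Fin n → ℤ) (ha : IsDominantIntegral n a) (hb : IsDominantIntegral n b)
    (hc : IsDominantIntegral n c) (habc : InRootLattice n (a + b + c)) (N : ℕ) (hN : 1 ≤ N)
    (U : Irrep n a) (V : Irrep n b) (W : Irrep n c)
    (U' : Irrep n (N • a)) (V' : Irrep n (N • b)) (W' : Irrep n (N • c)) :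
    HasInvariant U V W ↔ HasInvariant U' V' W' :=
  Ind.saturation_of3 hT (Fin4.inS2_of hS) (Fin4.inQ1_of hQ) n hn a b c ha hb hc habc N hN
    U V W U' V' W'

/-- **S0260 from the three tame exclusions**, version with (INJ) -/
theorem saturation_of6I (hT : Ind.InT00)
    (hS : ∀ (n : ℕ) (a : Fin 3 → Fin n → ℤ) (c : Cfg n a) (q : SPol c)
      (R : Ranked c), Fin5.NoTameS2I c q R)
    (hQ : ∀ (n : ℕ) (a : Fin 3 → Fin n → ℤ) (c : Cfg n a) (q : SPol c)
      (R : Ranked c), Fin5.NoTameQ1I c q R) (n : ℕ) (hn : 2 ≤ n)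
    (a b c : Fin n → ℤ) (ha : IsDominantIntegral n a) (hb : IsDominantIntegral n b)
    (hc : IsDominantIntegral n c) (habc : InRootLattice n (a + b + c)) (N : ℕ) (hN : 1 ≤ N)
    (U : Irrep n a) (V : Irrep n b) (W : Irrep n c)
    (U' : Irrep n (N • a)) (V' : Irrep n (N • b)) (W' : Irrep n (N • c)) :
    HasInvariant U V W ↔ HasInvariant U' V' W' :=
  Ind.saturation_of3 hT (Fin5.inS2_ofI hS) (Fin5.inQ1_ofI hQ) n hn a b c ha hb hc habc N hN
    U V W U' V' W'

end Crest.Agent.R172.Fin6
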