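import Crest.Agent.R172.Fin4

/-!
Row 172 (S0260): (t3) with `T_f φ = 0` (eigenvector of `T_f` on `T_Q`): `NoTameQ1'` and `InQ1`.
-/

set_option autoImplicit false
set_option linter.unusedSectionVars false
set_option linter.unusedFintypeInType false
set_option linter.unusedDecidableInType false
set_option maxHeartbeats 400000

namespace Crest.Agent.R172.Fin7

open Matrix Module Crest.Agent.R172.FO
open Crest.AlgebraR.SpinSaturation Crest.Agent.R172.SoGrade Crest.Agent.R172.Sp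
open Crest.Agent.R172.CF Crest.Agent.R172.CSys
open Crest.Agent.R172.Gen (Jm Ix emb IsSo)
open Crest.Agent.R172.GenP
open Crest.Agent.R172.GenQ
open Crest.Agent.R172.SpS
open Crest.Agent.R172.Qt (NN Ctx TameMix)
open Crest.Agent.R172.Om (Kiso Scal)
open Crest.Agent.R172.Ind (GI Inst)

section eig

variable {ι δ : Type*} [Fintype ι] [DecidableEq ι] [Fintype δ] [DecidableEq δ]
variable {k K : Type*} [Field k] [Field K] [Algebra k K]
variable {arm : δ → Fin 3} {J : Matrix ι ι K} {B : Matrix δ δ K}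
  {N W : Submodule K (Matrix ι δ K)} {g : Matrix ι δ K}

/-- the form of `p ∈ NN` against `f` -/
def formL (J : Matrix ι ι K) (g f : Matrix ι δ K) (S : Submodule K
    (Matrix ι ι K × (Fin 3 → Matrix ι ι K))) : S →ₗ[K] Matrix δ δ K where
  toFun p := gᵀ * J * (p.1.1 * f)
  map_add' p q := by
    simp only [Submodule.coe_add, Prod.fst_add, Matrix.add_mul, Matrix.mul_add]
  map_smul' t p := by
    simp only [SetLike.val_smul, Prod.smul_fst, Matrix.smul_mul, Matrix.mul_smul, RingHom.id_apply]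

/-- **an eigenvector of `T_f` on `T_Q`.** -/
theorem exists_eig [IsAlgClosed K] (h : Ctx k arm J B N W g) {f : Matrix ι δ K} (hf : f ∈ N ⊓ W)
    {p0 : Matrix ι ι K × (Fin 3 → Matrix ι ι K)} (hp0 : p0 ∈ NN arm J N g)
    (hne : gᵀ * J * (p0.1 * g) ≠ 0) :
    ∃ p ∈ NN arm J N g, ∃ lam : K, gᵀ * J * (p.1 * g) ≠ 0 ∧
      gᵀ * J * (p.1 * f) = lam • (gᵀ * J * (p.1 * g)) := by
  classical
  set Ω := formL J g g (NN arm J N g) with hΩ
  set Ωf := formL J g f (NN arm J N g) with hΩf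
  have hle : LinearMap.range Ωf ≤ LinearMap.range Ω := by
    rintro _ ⟨p, rfl⟩
    obtain ⟨p', hp', h1⟩ := h.tf hf p.2
    exact ⟨⟨p', hp'⟩, h1.symm⟩
  have hker : LinearMap.ker Ω ≤ LinearMap.ker Ωf := by
    intro p hp
    exact LinearMap.mem_ker.2 (h.tf_zero hf p.2 (LinearMap.mem_ker.1 hp))
  -- the operator on the quotient by the kernel
  let Qm := (NN arm J N g) ⧸ LinearMap.ker Ω
  let e : Qm ≃ₗ[K] LinearMap.range Ω := Ω.quotKerEquivRange
  let Tf0 : Qm →ₗ[K] Matrix δ δ K := (LinearMap.ker Ω).liftQ Ωf hker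
  have hT : ∀ x : Qm, Tf0 x ∈ LinearMap.range Ω := by
    intro x
    obtain ⟨p, rfl⟩ := Submodule.mkQ_surjective _ x
    exact hle ⟨p, rfl⟩
  let T : Module.End K Qm := e.symm.toLinearMap ∘ₗ (Tf0.codRestrict (LinearMap.range Ω) hT)
  have hnt : Nontrivial Qm := by
    refine ⟨⟨(LinearMap.ker Ω).mkQ ⟨p0, hp0⟩, 0, fun h0 => hne ?_⟩⟩
    rw [Submodule.mkQ_apply, Submodule.Quotient.mk_eq_zero] at h0
    exact LinearMap.mem_ker.1 h0
  obtain ⟨lam, hlam⟩ := Module.End.exists_eigenvalue T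
  obtain ⟨x, hx, hx0⟩ := hlam.exists_hasEigenvector
  obtain ⟨p, rfl⟩ := Submodule.mkQ_surjective _ x
  have h1 : Ω p ≠ 0 := by
    intro h0
    apply hx0
    rw [Submodule.mkQ_apply, Submodule.Quotient.mk_eq_zero]
    exact LinearMap.mem_ker.2 h0
  have h2 : T ((LinearMap.ker Ω).mkQ p) = lam • (LinearMap.ker Ω).mkQ p :=
    Module.End.mem_eigenspace_iff.1 hx
  have h3 : (Tf0.codRestrict (LinearMap.range Ω) hT) ((LinearMap.ker Ω).mkQ p)
      = e (lam • (LinearMap.ker Ω).mkQ p) := by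
    rw [← h2]
    exact (e.apply_symm_apply _).symm
  have h4 := congrArg Subtype.val h3
  rw [LinearMap.codRestrict_apply, map_smul] at h4
  exact ⟨p.1, p.2, lam, h1, h4⟩

end eig

variable {n : ℕ} {a : Fin 3 → Fin n → ℤ} {c : Cfg n a} {q : SPol c}

/-- **(t3)** no mixed tame pair, `dim 𝒦iso = 1`: `G` generic in `𝒦iso`, `f ∈ 𝒦` not isotropic,
`p ∈ NN G` with `T_f φ = 0`, `φ ≠ 0` -/
def NoTameQ1' (c : Cfg n a) (q : SPol c) (R : Ranked c) : Prop :=
  ∀ (L : Type) [Field L] [Algebra ℂ L] [IsAlgClosed L]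
    (g : Fin 3 → Matrix (Ix n) (Ix n) L) (H : Matrix (Fin q.toPol.m) (Fin q.toPol.m) L),
    Inst c q R L g H →
    finrank L ↥(Kiso (Jm n L) (c.N g) (VL (q.toPol.LH H))) = 1 →
    ∀ G ∈ Kiso (Jm n L) (c.N g) (VL (q.toPol.LH H)),
    (∀ w ∈ Kiso (Jm n L) (c.N g) (VL (q.toPol.LH H)), VertH c g H G w) →
    ∀ f ∈ c.N g ⊓ VL (q.toPol.LH H), fᵀ * Jm n L * f ≠ 0 →
    ∀ p ∈ NN c.arm (Jm n L) (c.N g) G, Gᵀ * Jm n L * (p.1 * f) = 0 →
      Gᵀ * Jm n L * (p.1 * G) ≠ 0 →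
      ¬ TameMix c G f p.1

/-- **(P3)** for one instance with `dim 𝒦iso = 1`. -/
theorem P3' {R : Ranked c} (hNT : NoTameQ1' c q R) {K : Type} [Field K] [Algebra ℂ K]
    {g : Fin 3 → Matrix (Ix n) (Ix n) K} {H : Matrix (Fin q.toPol.m) (Fin q.toPol.m) K}
    (hI : Inst c q R K g H)
    (h1K : finrank K ↥(Kiso (Jm n K) (c.N g) (VL (q.toPol.LH H))) = 1)
    (hne : Kiso (Jm n K) (c.N g) (VL (q.toPol.LH H)) ≠ c.N g ⊓ VL (q.toPol.LH H)) :
    Ext.ZI c q.toPol g H = Kiso (Jm n K) (c.N g) (VL (q.toPol.LH H)) := by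
  classical
  have hG := hI.gi
  -- a non-isotropic element
  obtain ⟨f, hf, hfn⟩ : ∃ f ∈ c.N g ⊓ VL (q.toPol.LH H),
      f ∉ Kiso (Jm n K) (c.N g) (VL (q.toPol.LH H)) := by
    by_contra hcon
    push Not at hcon
    exact hne (le_antisymm (fun F hF => hF.1) hcon)
  obtain ⟨r, κ, -, hκ⟩ := exists_family (Kiso (Jm n K) (c.N g) (VL (q.toPol.LH H)))
  obtain ⟨L, iL, iKL, iCL, ist, icl, icz, t, ht, hFL, hVc⟩ := Fin4.step1c q.toPol hG hκ
  have hV : ∀ w ∈ Kiso (Jm n L) (c.N (fun s => emb K L (g s)))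
      (VL (q.toPol.LH (emb K L H))), VertH c (fun s => emb K L (g s)) (emb K L H)
        (∑ j, t j • emb K L (κ j)) w := fun w hw => by
    obtain ⟨D, h1, h2, h3, -⟩ := hVc w hw
    exact ⟨D, h1, h2, h3⟩
  have hIL := hI.bc L
  have hbc := bcNW (L := L) q.toPol hG
  have hbK := bcKiso (L := L) q.toPol hG
  have hfL : emb K L f ∈ c.N (fun s => emb K L (g s)) ⊓ VL (q.toPol.LH (emb K L H)) :=
    ⟨hbc.1.up f hf.1, hbc.2.up f hf.2⟩
  have h1L : finrank L ↥(Kiso (Jm n L) (c.N (fun s => emb K L (g s)))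
      (VL (q.toPol.LH (emb K L H)))) = 1 := by
    rw [Fin4.finrank_bc hbK]; exact h1K
  -- `emb f` is not isotropic
  have hfniso : (emb K L f)ᵀ * Jm n L * emb K L f ≠ 0 := by
    intro h0
    apply hfn
    refine hI.isoK hf ?_
    have hJ : (Jm n K).map (algebraMap K L) = Jm n L := Pol.Jm_map (algebraMap K L)
    have h1 : (fᵀ * Jm n K * f).map (algebraMap K L) = 0 := by
      rw [Matrix.map_mul, Matrix.map_mul, Matrix.transpose_map, hJ]
      exact h0
    ext i j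
    have h2 := congrFun (congrFun h1 i) j
    rw [map_apply, Matrix.zero_apply] at h2
    exact (FaithfulSMul.algebraMap_injective K L) (by rw [h2, Matrix.zero_apply, map_zero])
  set G : Matrix (Ix n) c.δ L := ∑ j, t j • emb K L (κ j) with hGdef
  set f' : Matrix (Ix n) c.δ L := emb K L f with hf'def
  have hCL := hIL.ctx hFL
  have hglue := Qt.glue_of hIL.gi hCL (fun w hw hw0 => hIL.isoK hw hw0) hV
  have hNN : ∀ p ∈ NN c.arm (Jm n L) (c.N (fun s => emb K L (g s))) G,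
      Gᵀ * Jm n L * (p.1 * G) = 0 := by
    intro p hp
    by_contra hp0
    obtain ⟨p', hp', lam, h1, h2⟩ := exists_eig hCL hfL hp hp0
    -- the new `f`
    have hf0 : f' - lam • G ∈ c.N (fun s => emb K L (g s)) ⊓ VL (q.toPol.LH (emb K L H)) :=
      Submodule.sub_mem _ hfL (Submodule.smul_mem _ _ hFL.1)
    have hGf : Gᵀ * Jm n L * f' = 0 := hCL.perp f' hfL
    have hGG : Gᵀ * Jm n L * G = 0 := hCL.iso
    have hfG : f'ᵀ * Jm n L * G = 0 := by
      have h3 := congrArg Matrix.transpose hGf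
      rw [Matrix.transpose_mul, Matrix.transpose_mul, Matrix.transpose_transpose,
        hCL.data.J_symm, Matrix.transpose_zero, ← Matrix.mul_assoc] at h3
      exact h3
    have hiso0 : (f' - lam • G)ᵀ * Jm n L * (f' - lam • G) ≠ 0 := by
      have h3 : (f' - lam • G)ᵀ * Jm n L * (f' - lam • G) = f'ᵀ * Jm n L * f' := by
        rw [Matrix.transpose_sub, Matrix.transpose_smul, Matrix.sub_mul, Matrix.sub_mul,
          Matrix.mul_sub, Matrix.mul_sub, Matrix.mul_smul, Matrix.smul_mul, Matrix.smul_mul,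
          Matrix.smul_mul, Matrix.mul_smul, hGf, hGG, hfG]
        simp
      rw [h3]
      exact hfniso
    have hz : Gᵀ * Jm n L * (p'.1 * (f' - lam • G)) = 0 := by
      rw [Matrix.mul_sub, Matrix.mul_smul, Matrix.mul_sub, Matrix.mul_smul, h2, sub_self]
    rcases Qt.mix_final R hI.posR hIL.gi hCL hglue hf0 hp' with h | h | h
    · exact absurd h hiso0
    · exact absurd h h1
    · exact absurd h (hNT L _ _ hIL h1L _ hFL hV _ hf0 hiso0 p' hp' hz h1)
  have hOm0 : ∀ d : Derivation ℂ L L,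
      Om.IsY ℂ c.arm (c.B L) (c.N (fun s => emb K L (g s))) (VL (q.toPol.LH (emb K L H))) d →
      Om.Om (Jm n L) d G G = 0 := by
    intro d hd
    obtain ⟨p, hp, hpf⟩ := Om.exists_NN hCL hd
    rw [hpf _ hFL.1]
    exact hNN p hp
  -- descent
  refine le_antisymm Om.ZZ_le_Kiso fun F hF => ⟨hF, fun G' hG' d hd => ?_⟩
  obtain ⟨p, hp, hpf⟩ := Om.exists_NN (hI.ctx hG') hd
  have h1 : Om.Om (Jm n K) d G' G' = 0 := Qt.om_zero_descent hG hκ ht hOm0 hd hG'
  rw [hpf G' hG'.1] at h1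
  rw [hpf F hF.1]
  exact (hI.ctx hG').tf_zero hF.1 hp h1

/-- **(Q1) from (t3)** -/
theorem inQ1_of' (hNT : ∀ (n : ℕ) (a : Fin 3 → Fin n → ℤ) (c : Cfg n a) (q : SPol c)
    (R : Ranked c), NoTameQ1' c q R) : Ind.InQ1 := by
  intro n a c q R K _ _ _ g H hI h1 hne h0
  have h2 := P3' (hNT n a c q R) hI h1 hne
  rw [← h2, h0, finrank_bot] at h1
  omega


end Crest.Agent.R172.Fin7
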