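import Mathlib

/-! helper775: the finite bad set (Lev1 of 213): if `V2` is perfect for the `C r`, then only finitely many `s` have a
non-zero bilinear `b` with `b (A r u) q = s • b u (C r q)` for all `r`. -/

namespace Crest.Agent.R172.FinBad

open Module LinearMap

theorem pencil_finite {K W W' : Type*} [Field K] [AddCommGroup W] [Module K W] [AddCommGroup W'] [Module K W']
    [FiniteDimensional K W] (L R : W →ₗ[K] W') (hR : Function.Injective R) :
    {s : K | ∃ b : W, b ≠ 0 ∧ L b = s • R b}.Finite := by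
  obtain ⟨G, hG⟩ := LinearMap.exists_leftInverse_of_injective R (LinearMap.ker_eq_bot.2 hR)
  have hfin := Module.End.finite_hasEigenvalue (G ∘ₗ L)
  refine hfin.subset ?_
  rintro s ⟨b, hb, hs⟩
  refine Module.End.hasEigenvalue_of_hasEigenvector (x := b) ⟨?_, hb⟩
  rw [Module.End.mem_eigenspace_iff]
  change G (L b) = s • b
  rw [hs, map_smul]
  congr 1
  exact LinearMap.congr_fun hG b

theorem finite_bad {K V1 V2 ι : Type*} [Field K] [AddCommGroup V1] [Module K V1] [AddCommGroup V2] [Module K V2]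
    [FiniteDimensional K V1] [FiniteDimensional K V2]
    (A : ι → V1 →ₗ[K] V1) (C : ι → V2 →ₗ[K] V2) (hC : (⨆ r, LinearMap.range (C r)) = ⊤) :
    {s : K | ∃ b : V1 →ₗ[K] V2 →ₗ[K] K, b ≠ 0 ∧ ∀ r u q, b (A r u) q = s * b u (C r q)}.Finite := by
  classical
  -- the two linear maps
  let R : (V1 →ₗ[K] V2 →ₗ[K] K) →ₗ[K] (ι → (V1 →ₗ[K] V2 →ₗ[K] K)) :=
    { toFun := fun b r => b.compl₂ (C r)
      map_add' := by intro b b'; funext r; ext u q; simp
      map_smul' := by intro a b; funext r; ext u q; simp }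
  let L : (V1 →ₗ[K] V2 →ₗ[K] K) →ₗ[K] (ι → (V1 →ₗ[K] V2 →ₗ[K] K)) :=
    { toFun := fun b r => b.comp (A r)
      map_add' := by intro b b'; funext r; ext u q; simp
      map_smul' := by intro a b; funext r; ext u q; simp }
  have hR : Function.Injective R := by
    refine (injective_iff_map_eq_zero (G := (V1 →ₗ[K] V2 →ₗ[K] K)) (H := (ι → (V1 →ₗ[K] V2 →ₗ[K] K))) R).2 ?_
    intro b hb
    ext u q
    have hz : ∀ q ∈ (⊤ : Submodule K V2), b u q = 0 := by
      rw [← hC]
      intro q hq
      have : (⨆ r, LinearMap.range (C r)) ≤ LinearMap.ker (b u) := by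
        refine iSup_le fun r => ?_
        rintro _ ⟨y, rfl⟩
        rw [LinearMap.mem_ker]
        have := congrFun hb r
        have h2 := LinearMap.congr_fun (LinearMap.congr_fun this u) y
        simpa [R] using h2
      exact this hq
    simpa using hz q trivial
  refine (pencil_finite (W := (V1 →ₗ[K] V2 →ₗ[K] K)) (W' := (ι → (V1 →ₗ[K] V2 →ₗ[K] K))) L R hR).subset ?_
  rintro s ⟨b, hb, hs⟩
  refine ⟨b, hb, ?_⟩
  funext r
  ext u q
  exact hs r u q

/-- version with `ranges span`: only the inclusion of a spanning set is used. -/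
theorem finite_bad' {K V1 V2 ι : Type*} [Field K] [AddCommGroup V1] [Module K V1] [AddCommGroup V2] [Module K V2]
    [FiniteDimensional K V1] [FiniteDimensional K V2]
    (A : ι → V1 →ₗ[K] V1) (C : ι → V2 →ₗ[K] V2) (hC : Submodule.span K {x | ∃ r y, x = C r y} = ⊤) :
    {s : K | ∃ b : V1 →ₗ[K] V2 →ₗ[K] K, b ≠ 0 ∧ ∀ r u q, b (A r u) q = s * b u (C r q)}.Finite := by
  refine finite_bad A C ?_
  rw [eq_top_iff, ← hC, Submodule.span_le]
  rintro _ ⟨r, y, rfl⟩
  exact Submodule.mem_iSup_of_mem r ⟨y, rfl⟩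

/-- matrix version over an algebra `K` over `k`: `A r`, `C r` with entries in `K`, parameters in `k`. -/
theorem finite_bad_mat {K ι m n : Type*} [Field K] [Fintype m] [DecidableEq m] [Fintype n] [DecidableEq n]
    (A : ι → Matrix m m K) (C : ι → Matrix n n K)
    (hC : ∀ x : n → K, x ∈ Submodule.span K {x | ∃ r y, x = (C r).mulVec y}) :
    {s : K | ∃ b : Matrix m n K, b ≠ 0 ∧ ∀ r, (A r).transpose * b = s • (b * C r)}.Finite := by
  classical
  have h := finite_bad' (K := K) (V1 := m → K) (V2 := n → K) (fun r => Matrix.toLin' (A r)) (fun r => Matrix.toLin' (C r))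
    (by
      rw [eq_top_iff]
      intro x _
      simpa [Matrix.toLin'_apply] using hC x)
  refine h.subset ?_
  rintro s ⟨b, hb, hs⟩
  refine ⟨Matrix.toLinearMap₂' K b, ?_, ?_⟩
  · intro h0
    apply hb
    exact (Matrix.toLinearMap₂' K).injective (by rw [h0, map_zero])
  · intro r u q
    simp only [Matrix.toLinearMap₂'_apply', Matrix.toLin'_apply]
    have := congrArg (fun M => u ⬝ᵥ M.mulVec q) (hs r)
    simp only [Matrix.smul_mulVec, dotProduct_smul, smul_eq_mul, ← Matrix.mulVec_mulVec] at this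
    rw [← this]
    rw [Matrix.dotProduct_mulVec u, Matrix.vecMul_transpose, Matrix.dotProduct_mulVec]

end Crest.Agent.R172.FinBad
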