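import Crest.Agent.R172.QN1
import Crest.Agent.R172.DerG

/-!
Row 172, TAME (T0), arbitrary radical, node R-Pt.

`F ∈ 𝒦 = N ⊓ W` generic.  Words (of length `m`) in arbitrary elements of `𝒦` kill the nilpotent
part `T(F)` (`nil_all`), hence `T(F) ≤ T(H)` for every `H ∈ 𝒦`, and `T(F) = T(H)` if `H` is generic
too (`T_eq`).  The core transfers (`coreCongr`), and `P = Tᗮ` is the same.
-/

set_option autoImplicit false
set_option linter.unusedSectionVars false

namespace Crest.Agent.R172.Pt

open Matrix Crest.Agent.R172.FO Crest.Agent.R172.QN Crest.Agent.R172.St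

variable {ι : Type*} [Fintype ι] [DecidableEq ι] {δ : Type*} [Fintype δ] [DecidableEq δ]
variable {k K : Type*} [Field k] [Field K] [Algebra k K]
variable {arm : δ → Fin 3} {J : Matrix ι ι K} {B : Matrix δ δ K}
  {N W : Submodule K (Matrix ι δ K)}

/-- entrywise derivative of a vector -/
def dv (d : Derivation k K K) (v : ι → K) : ι → K := fun i => d (v i)

theorem dv_mulVec (d : Derivation k K K) (A : Matrix ι ι K) (v : ι → K) :
    dv d (A *ᵥ v) = A.map d *ᵥ v + A *ᵥ dv d v := by
  funext i
  simp only [dv, mulVec, dotProduct, Pi.add_apply, map_sum, Derivation.leibniz, smul_eq_mul,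
    map_apply, Finset.sum_add_distrib]
  rw [add_comm]
  congr 1
  exact Finset.sum_congr rfl fun j _ => mul_comm _ _

theorem dv_zero (d : Derivation k K K) : dv d (0 : ι → K) = 0 := by
  funext i; simp [dv]

theorem wd_toLin (F : Matrix ι δ K) (l : List (Fin 3)) (v : ι → K) :
    Core.wd (DerG.Ph arm J B F) l v = wd (Phi arm J B F) l *ᵥ v := by
  induction l generalizing v with
  | nil => simp [Core.wd, wd]
  | cons s l ih =>
    have h1 : Core.wd (DerG.Ph arm J B F) (s :: l) v =
        DerG.Ph arm J B F s (Core.wd (DerG.Ph arm J B F) l v) := by simp [Core.wd]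
    have h2 : wd (Phi arm J B F) (s :: l) = Phi arm J B F s * wd (Phi arm J B F) l := by
      simp [wd]
    rw [h1, ih, h2, ← mulVec_mulVec, DerG.Ph_apply]

theorem mem_Nk_iff (F : Matrix ι δ K) {m : ℕ} {v : ι → K} :
    v ∈ Nk (DerG.Ph arm J B F) m ↔
      ∀ l : List (Fin 3), l.length = m → wd (Phi arm J B F) l *ᵥ v = 0 := by
  rw [Core.mem_Nk_iff]
  constructor
  · intro h l hl; rw [← wd_toLin]; exact h l hl
  · intro h l hl; rw [wd_toLin]; exact h l hl

theorem wd_kill {F : Matrix ι δ K} {m : ℕ} {v : ι → K} (hv : v ∈ Nk (DerG.Ph arm J B F) m)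
    {l : List (Fin 3)} (hl : m ≤ l.length) : wd (Phi arm J B F) l *ᵥ v = 0 := by
  exact (mem_Nk_iff F).1 (Nk_mono _ hl hv) l rfl

/-- moving one different letter inside a word -/
theorem update_move (hD : Data k arm J B N W) {l : List (Fin 3)} {a : ℕ → Matrix ι δ K}
    {F G : Matrix ι δ K} {j : ℕ} (ha : ∀ n, a n ∈ N ⊓ W) (haj : ∀ n, j ≤ n → a n = F)
    (hG : G ∈ N ⊓ W) (q : ℕ) (hq : j + q < 2 * l.length) :
    Wd arm J B l (Function.update a (j + q) G) = Wd arm J B l (Function.update a j G) := by
  induction q with
  | zero => rfl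
  | succ q ihq =>
    rw [← ihq (by omega)]
    have hmem : ∀ n, Function.update a (j + q) G n ∈ N ⊓ W := by
      intro n
      by_cases hn : n = j + q
      · subst hn; rw [Function.update_self]; exact hG
      · rw [Function.update_of_ne hn]; exact ha n
    rw [← Wd_swap hD (l := l) hmem (i := j + q) (by omega)]
    congr 1
    funext n
    rw [Equiv.swap_apply_def]
    by_cases h1n : n = j + q
    · subst h1n
      rw [if_pos rfl, Function.update_of_ne (by omega), Function.update_of_ne (by omega),
        haj _ (by omega), haj _ (by omega)]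
    · rw [if_neg h1n]
      by_cases h2n : n = j + q + 1
      · subst h2n
        rw [if_pos rfl, Function.update_self]
        exact Function.update_self ..
      · rw [if_neg h2n, Function.update_of_ne h1n, Function.update_of_ne (by omega)]

/-- `T(F)` is stable under a derivation with `dF ∈ 𝒦`. -/
theorem T_dv (hD : Data k arm J B N W) {F G : Matrix ι δ K} (hF : F ∈ N ⊓ W) (hG : G ∈ N ⊓ W)
    {d : Derivation k K K} (hd : F.map d = G) {v : ι → K} (hv : v ∈ T (DerG.Ph arm J B F)) :
    dv d v ∈ T (DerG.Ph arm J B F) := by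
  obtain ⟨m, hm⟩ := mem_T.1 hv
  refine mem_T.2 ⟨m + 1, (mem_Nk_iff F).2 fun l hl => ?_⟩
  have h0 : wd (Phi arm J B F) l *ᵥ v = 0 := wd_kill hm (by omega)
  have h1 := congrArg (dv d) h0
  rw [dv_zero, dv_mulVec] at h1
  have h2 : (wd (Phi arm J B F) l).map d *ᵥ v = 0 := by
    rw [← Wd_const, Wd_map hD, Matrix.sum_mulVec]
    refine Finset.sum_eq_zero fun i hi => ?_
    have hi' := Finset.mem_range.1 hi
    rw [hd]
    have h3 := update_move hD (l := l) (a := fun _ => F) (F := F) (G := G) (j := 0)
      (fun _ => hF) (fun _ _ => rfl) hG i (by omega)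
    rw [Nat.zero_add] at h3
    rw [h3]
    match l, hl with
    | s :: l', hl =>
      rw [Wd, ← mulVec_mulVec]
      have h4 : (fun n => Function.update (fun _ : ℕ => F) 0 G (n + 2)) = fun _ => F := by
        funext n
        rw [Function.update_of_ne (by omega)]
      rw [h4, Wd_const, wd_kill hm (by simp at hl; omega), mulVec_zero]
  rw [h2, zero_add] at h1
  exact h1

/-- **NILALL, arbitrary radical**: words of length `m` in arbitrary elements of `𝒦` kill the
nilpotent part of `F`. -/
theorem nil_all [CharZero K] (hD : Data k arm J B N W) {F : Matrix ι δ K}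
    (hF : Generic k arm N W F) {m : ℕ} (hm : T (DerG.Ph arm J B F) ≤ Nk (DerG.Ph arm J B F) m)
    {l : List (Fin 3)} (hl : l.length = m) {a : ℕ → Matrix ι δ K} (ha : ∀ n, a n ∈ N ⊓ W)
    {v : ι → K} (hv : v ∈ T (DerG.Ph arm J B F)) : Wd arm J B l a *ᵥ v = 0 := by
  have key : ∀ j, j ≤ 2 * m → ∀ G : ℕ → Matrix ι δ K, (∀ n, G n ∈ N ⊓ W) →
      ∀ v ∈ T (DerG.Ph arm J B F), Wd arm J B l (fun n => if n < j then G n else F) *ᵥ v = 0 := by
    intro j
    induction j with
    | zero =>
      intro _ G _ v hv
      have : (fun n => if n < 0 then G n else F) = fun _ => F := by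
        funext n; simp
      rw [this, Wd_const]
      exact wd_kill (hm hv) hl.ge
    | succ j ih =>
      intro hj G hG v hv
      have ih' := ih (by omega)
      obtain ⟨d, hd, hr⟩ := hF.vert (G j) (hG j)
      have hstab : ∀ A : Matrix ι δ K, A ∈ N ⊓ W → A.map d ∈ N ⊓ W := by
        intro A hA
        refine ⟨?_, ?_⟩
        · have := hr.onN A hA.1
          rwa [act_zero, sub_zero] at this
        · have := hr.onW A hA.2
          rwa [transpose_zero, Matrix.mul_zero, sub_zero] at this
      set a : ℕ → Matrix ι δ K := fun n => if n < j then G n else F with hadef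
      have hamem : ∀ n, a n ∈ N ⊓ W := by
        intro n
        by_cases hn : n < j
        · simp only [hadef, hn, if_true]; exact hG n
        · simp only [hadef, hn, if_false]; exact hF.mem
      have haj : ∀ n, j ≤ n → a n = F := fun n hn => by
        simp only [hadef, not_lt.2 hn, if_false]
      have h1 := congrArg (dv d) (ih' G hG v hv)
      rw [dv_zero, dv_mulVec, ih' G hG _ (T_dv hD hF.mem (hG j) hd hv), add_zero,
        Wd_map hD, Matrix.sum_mulVec, hl] at h1
      have hlow : ∀ i, i < j → Wd arm J B l (Function.update a i ((a i).map d)) *ᵥ v = 0 := by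
        intro i hi
        have hai : a i = G i := by simp only [hadef, hi, if_true]
        have e1 : Function.update a i ((a i).map d) =
            fun n => if n < j then (Function.update G i ((G i).map d)) n else F := by
          funext n
          by_cases hn : n = i
          · subst hn
            simp [hi, hai]
          · rw [Function.update_of_ne hn, Function.update_of_ne hn]
        rw [e1]
        refine ih' _ (fun n => ?_) v hv
        by_cases hn : n = i
        · subst hn
          rw [Function.update_self]
          exact hstab _ (hG n)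
        · rw [Function.update_of_ne hn]; exact hG n
      have hhigh : ∀ q, j + q < 2 * m →
          Wd arm J B l (Function.update a (j + q) (G j)) =
            Wd arm J B l (Function.update a j (G j)) := fun q hq =>
        update_move hD hamem haj (hG j) q (by rw [hl]; exact hq)
      have hsum : ∑ i ∈ Finset.range (2 * m),
          Wd arm J B l (Function.update a i ((a i).map d)) *ᵥ v =
          ((2 * m - j : ℕ) : K) • (Wd arm J B l (Function.update a j (G j)) *ᵥ v) := by
        have e2 : 2 * m = j + (2 * m - j) := by omega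
        conv_lhs => rw [e2, Finset.sum_range_add]
        rw [Finset.sum_eq_zero (fun i hi => hlow i (Finset.mem_range.1 hi)), zero_add]
        rw [Finset.sum_congr rfl (g := fun _ => Wd arm J B l (Function.update a j (G j)) *ᵥ v)
          (fun q hq => by
            have hq' := Finset.mem_range.1 hq
            rw [haj (j + q) (by omega), hd, hhigh q (by omega)])]
        rw [Finset.sum_const, Finset.card_range, ← Nat.cast_smul_eq_nsmul K]
      rw [hsum] at h1
      have hne : ((2 * m - j : ℕ) : K) ≠ 0 := by
        rw [Nat.cast_ne_zero]; omega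
      have h2 := (smul_eq_zero.1 h1).resolve_left hne
      have e3 : Function.update a j (G j) = fun n => if n < j + 1 then G n else F := by
        funext n
        by_cases hn : n = j
        · subst hn; rw [Function.update_self]; simp
        · rw [Function.update_of_ne hn]
          by_cases hn2 : n < j
          · simp only [hadef, hn2, if_true, if_pos (show n < j + 1 by omega)]
          · simp only [hadef, hn2, if_false, if_neg (show ¬ n < j + 1 by omega)]
      rw [e3] at h2
      exact h2
  have h1 := key (2 * m) le_rfl a ha v hv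
  rw [Wd_congr (b := a) (fun n hn => by
    rw [hl] at hn
    simp only [hn, if_true])] at h1
  exact h1

/-- `T(F) ≤ T(H)` for `F` generic, `H ∈ 𝒦` arbitrary. -/
theorem T_le [CharZero K] (hD : Data k arm J B N W) {F H : Matrix ι δ K}
    (hF : Generic k arm N W F) (hH : H ∈ N ⊓ W) :
    T (DerG.Ph arm J B F) ≤ T (DerG.Ph arm J B H) := by
  obtain ⟨m, hm⟩ := T_eq_Nk (DerG.Ph arm J B F)
  intro v hv
  refine mem_T.2 ⟨m, (mem_Nk_iff H).2 fun l hl => ?_⟩
  rw [← Wd_const]
  exact nil_all hD hF hm.le hl (fun _ => hH) hv

/-- `T(F) = T(H)` for `F`, `H` generic. -/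
theorem T_eq [CharZero K] (hD : Data k arm J B N W) {F H : Matrix ι δ K}
    (hF : Generic k arm N W F) (hH : Generic k arm N W H) :
    T (DerG.Ph arm J B H) = T (DerG.Ph arm J B F) :=
  le_antisymm (T_le hD hH hF.mem) (T_le hD hF hH.mem)

theorem Tp_eq [CharZero K] (hD : Data k arm J B N W) {F H : Matrix ι δ K}
    (hF : Generic k arm N W F) (hH : Generic k arm N W H) (b : LinearMap.BilinForm K (ι → K)) :
    Tp b (DerG.Ph arm J B H) = Tp b (DerG.Ph arm J B F) := by
  ext v
  rw [mem_Tp, mem_Tp, T_eq hD hF hH]

/-- a core only depends on `T` -/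
def coreCongr {K V κ : Type*} [Field K] [AddCommGroup V] [Module K V]
    {b : LinearMap.BilinForm K V} {Φ Φ' : κ → Module.End K V} (h : T Φ' = T Φ)
    (C : Core b Φ) : Core b Φ' where
  M := C.M
  π := C.π
  le := fun m hm => by rw [mem_Tp, h]; exact mem_Tp.1 (C.le m hm)
  mem := C.mem
  fix := C.fix
  sa := C.sa
  killT := fun t ht => C.killT t (h ▸ ht)
  rem := fun v hv => by
    rw [mem_Tp, h] at hv
    rw [h]
    exact C.rem v (mem_Tp.2 hv)

end Crest.Agent.R172.Pt
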