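import Crest.Agent.R172.Cov2
import Crest.Agent.R172.CovI
import Crest.Agent.R172.CovF
import Crest.Agent.R172.FC2
import Crest.Agent.R172.FrmP
import Crest.Agent.R172.Pt
import Crest.Agent.R172.Fin3

/-!
Row 172, TAME (T0), any radical: the frame (coordinates on the cover) and the parameters `t`.
-/

set_option autoImplicit false
set_option linter.unusedSectionVars false
set_option maxHeartbeats 400000

namespace Crest.Agent.R172.FrI

open Module Matrix Crest.Agent.R172.FO Crest.Agent.R172.DerG Crest.Agent.R172.Cov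
open Crest.Agent.R172.CovF (fr fr_repr toMatrix_equivFun ext_mulVec)
open Crest.Agent.R172.CovI (st lo)

variable {ι : Type*} [Fintype ι] [DecidableEq ι] {δ : Type*} [Fintype δ] [DecidableEq δ]
variable {k K : Type*} [Field k] [Field K] [Algebra k K]
variable {arm : δ → Fin 3} {J : Matrix ι ι K} {B : Matrix δ δ K}
  {N W : Submodule K (Matrix ι δ K)} {F G : Matrix ι δ K}
variable {R : Submodule K (ι → K)} {U : Submodule K (ℕ → (ι → K))}

/-- `1 + t f` is invertible if `-1/t` is not an eigenvalue -/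
theorem exists_inv {V' : Type*} [AddCommGroup V'] [Module K V'] [FiniteDimensional K V']
    (f : Module.End K V') (t : K) (ht : ∀ ν, f.maxGenEigenspace ν ≠ ⊥ → 1 + t * ν ≠ 0) :
    ∃ σ : Module.End K V', (1 + t • f) * σ = 1 ∧ σ * (1 + t • f) = 1 := by
  have hinj : Function.Injective (1 + t • f : Module.End K V') := by
    rw [← LinearMap.ker_eq_bot, LinearMap.ker_eq_bot']
    intro v hv
    have hv' : v + t • f v = 0 := hv
    by_cases h0 : t = 0
    · subst h0
      simpa using hv'
    · by_contra hne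
      have h1 : f v = (-t⁻¹) • v := by
        have h2 : t • f v = -v := by
          rw [eq_neg_iff_add_eq_zero, add_comm]; exact hv'
        calc f v = t⁻¹ • (t • f v) := by rw [smul_smul, inv_mul_cancel₀ h0, one_smul]
          _ = _ := by rw [h2, smul_neg]; exact (neg_smul _ _).symm
      have h3 : v ∈ f.maxGenEigenspace (-t⁻¹) := by
        rw [Module.End.mem_maxGenEigenspace]
        refine ⟨1, ?_⟩
        rw [pow_one, LinearMap.sub_apply, h1]
        exact sub_self _
      refine ht (-t⁻¹) (fun h => hne ?_) ?_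
      · rw [h, Submodule.mem_bot] at h3
        exact h3
      · rw [mul_neg, mul_inv_cancel₀ h0]
        ring
  let E := LinearEquiv.ofInjectiveEndo (1 + t • f : Module.End K V') hinj
  refine ⟨E.symm, ?_, ?_⟩
  · apply LinearMap.ext
    intro v
    exact E.apply_symm_apply v
  · apply LinearMap.ext
    intro v
    exact E.symm_apply_apply v

/-- words map `V` into `Tp` -/
theorem wd_mem_Tp (hD : FO.Data k arm J B N W) {H : Matrix ι δ K} (hH : H ∈ N ⊓ W) {m : ℕ}
    (hm : St.T (DerG.Ph arm J B H) ≤ St.Nk (DerG.Ph arm J B H) m) {l : List (Fin 3)}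
    (hl : l.length = m) (v : ι → K) :
    QN.wd (Phi arm J B H) l *ᵥ v ∈ St.Tp (BJ J) (DerG.Ph arm J B H) := by
  have hsa := (CovI.pen (k := k) hD hH hH).Ph_sa
  rw [CovI.Ph_eq] at hsa
  intro t ht
  rw [← Pt.wd_toLin]
  have h1 := Core.wd_adj (B := BJ J) (Φ := DerG.Ph arm J B H) hsa l v t
  have h2 : Core.wd (DerG.Ph arm J B H) l.reverse t = 0 := by
    have h3 := hm ht
    rw [Core.mem_Nk_iff] at h3
    exact h3 _ (by rw [List.length_reverse, hl])
  rw [h2, map_zero] at h1
  exact h1

section frame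

variable (hc : IsCover (DerG.Ph arm J B F) (St.Tp (BJ J) (DerG.Ph arm J B F)) R (st J F) (st J G) U)
variable {a : ℕ} (b : Module.Basis (Fin a) K U)

/-- the frame -/
noncomputable abbrev pf : Matrix ι (Fin a) K := fr b hc.pi

/-- the matrix of `Φ_s` -/
noncomputable abbrev af (s : Fin 3) : Matrix (Fin a) (Fin a) K := LinearMap.toMatrix b b (hc.al s)

/-- the matrix of `D` -/
noncomputable abbrev tf : Matrix (Fin a) (Fin a) K := LinearMap.toMatrix b b hc.tau

theorem pf_repr (y : U) : pf hc b *ᵥ b.equivFun y = hc.pi y := fr_repr b hc.pi y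
theorem af_repr (s : Fin 3) (y : U) : af hc b s *ᵥ b.equivFun y = b.equivFun (hc.al s y) :=
  toMatrix_equivFun b _ y
theorem tf_repr (y : U) : tf hc b *ᵥ b.equivFun y = b.equivFun (hc.tau y) :=
  toMatrix_equivFun b _ y

/-- `FC.Ctx` from the cover -/
theorem ctx (hD : FO.Data k arm J B N W) (hF : F ∈ N ⊓ W) (hG : G ∈ N ⊓ W) :
    FC.Ctx k arm J B N W F G (pf hc b) (af hc b) (tf hc b) where
  data := hD
  memF := hF
  memG := hG
  hal s := by
    apply ext_mulVec b
    intro x
    rw [← mulVec_mulVec, pf_repr, ← mulVec_mulVec, af_repr, pf_repr]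
    rfl
  perf := by
    choose f hf using fun j => hc.perfect (b j)
    refine ⟨fun s => Matrix.of fun i j => b.equivFun (f j s) i, ?_⟩
    have h1 : ∀ (s : Fin 3) (j : Fin a),
        (Matrix.of fun i j => b.equivFun (f j s) i : Matrix (Fin a) (Fin a) K) *ᵥ
          Pi.single j 1 = b.equivFun (f j s) := by
      intro s j
      rw [mulVec_single_one]
      rfl
    apply Matrix.ext_of_mulVec_single
    intro j
    rw [Matrix.sum_mulVec]
    have h2 : ∀ s : Fin 3, (af hc b s * (Matrix.of fun i j => b.equivFun (f j s) i)) *ᵥ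
        Pi.single j 1 = b.equivFun (hc.al s (f j s)) := by
      intro s
      rw [← mulVec_mulVec, h1, af_repr]
    rw [Finset.sum_congr rfl fun s _ => h2 s, ← map_sum, ← hf j, one_mulVec]
    ext i
    simp [Pi.single_apply, eq_comm]
  hτ := by
    apply ext_mulVec b
    intro x
    rw [← mulVec_mulVec, pf_repr]
    have g2 : (Fᵀ * J * pf hc b * tf hc b) *ᵥ (b.equivFun x) =
        (Fᵀ * J) *ᵥ (pf hc b *ᵥ (tf hc b *ᵥ (b.equivFun x))) := by
      rw [mulVec_mulVec, mulVec_mulVec, Matrix.mul_assoc (Fᵀ * J)]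
    rw [g2, tf_repr, pf_repr]
    exact hc.rel_pi x
  comm s := by
    apply ext_mulVec b
    intro x
    rw [← mulVec_mulVec, ← mulVec_mulVec, af_repr, tf_repr, tf_repr, af_repr, hc.al_tau]

/-- `FC.Par` for a constant `t` such that `1 + t tau` is invertible and `F + t G` is generic -/
theorem par [CharZero K] (hD : FO.Data k arm J B N W) (hF : Generic k arm N W F) (t : k)
    (hH : Generic k arm N W (F + algebraMap k K t • G))
    {σ : Module.End K U} (hσ : (1 + algebraMap k K t • hc.tau) * σ = 1) :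
    FC.Par k arm J B N W F G (pf hc b) (tf hc b) (algebraMap k K t)
      (1 + algebraMap k K t • tf hc b) (LinearMap.toMatrix b b σ) where
  const := ⟨t, rfl⟩
  gen := hH
  kap_eq := rfl
  mul := by
    apply ext_mulVec b
    intro x
    rw [← mulVec_mulVec, toMatrix_equivFun, Matrix.add_mulVec, one_mulVec, Matrix.smul_mulVec,
      tf_repr, one_mulVec, ← map_smul, ← map_add]
    congr 1
    exact LinearMap.congr_fun hσ x
  nil := by
    obtain ⟨m, hm⟩ := St.T_eq_Nk (DerG.Ph arm J B (F + algebraMap k K t • G))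
    refine ⟨m, fun w hw => ?_⟩
    have h1 : ∀ v : ι → K, ∃ y : U, (w.map (Phi arm J B (F + algebraMap k K t • G))).prod *ᵥ v
        = hc.pi y := by
      intro v
      have h2 := wd_mem_Tp hD hH.mem hm.le hw v
      rw [Pt.Tp_eq hD hF hH (BJ J), ← hc.range_pi] at h2
      obtain ⟨y, hy⟩ := h2
      exact ⟨y, hy.symm⟩
    choose y hy using fun j : ι => h1 (Pi.single j 1)
    refine ⟨Matrix.of fun i j => b.equivFun (y j) i, ?_⟩
    apply Matrix.ext_of_mulVec_single
    intro j
    rw [hy, ← mulVec_mulVec]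
    have h3 : (Matrix.of fun i j => b.equivFun (y j) i : Matrix (Fin a) ι K) *ᵥ
          Pi.single j 1 = b.equivFun (y j) := by
      rw [mulVec_single_one]
      rfl
    rw [h3, pf_repr]

/-- `FC.Par` for every constant `t` with `1 + t ν ≠ 0` for all eigenvalues `ν` of `D` on the core -/
theorem exists_par [CharZero K] {M : Type*} [AddCommGroup M] [Module K M]
    (hD : FO.Data k arm J B N W) (hG : GenOver k arm N W F G)
    {ρ : (ι → K) →ₗ[K] M} {Ψ : Fin 3 → Module.End K M} {D : Module.End K M}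
    (c : Cov2.OnCore (DerG.Ph arm J B F) (St.Tp (BJ J) (DerG.Ph arm J B F)) R (st J F) (st J G)
      ρ Ψ D) {m : ℕ} (hN : R ≤ St.Nk (DerG.Ph arm J B F) m) (t : k)
    (ht : ∀ ν, D.maxGenEigenspace ν ≠ ⊥ → 1 + algebraMap k K t * ν ≠ 0) :
    ∃ kai : Matrix (Fin a) (Fin a) K,
      FC.Par k arm J B N W F G (pf hc b) (tf hc b) (algebraMap k K t)
        (1 + algebraMap k K t • tf hc b) kai := by
  have := hc.fin
  obtain ⟨σ, hσ, -⟩ := exists_inv hc.tau (algebraMap k K t) (fun ν hν => ht ν (fun h0 =>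
    hν (Cov2.Um_eq_bot hc c hN h0)))
  exact ⟨_, par hc b hD hG.generic t (hG.generic_add t) hσ⟩

/-- `FrmB.Vt` -/
theorem vt (hG : GenOver k arm N W F G) : FrmB.Vt k arm N W F G :=
  ⟨hG.mem, fun F' hF' => hG.vert F' hF'⟩

end frame

end Crest.Agent.R172.FrI
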