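import Crest.Agent.R172.FrI

/-!
Row 172, TAME (T0), any radical: the frame of ANY abstract cover `π : X → V` (in particular the
universal cover of `R172/Cov.lean`): `FC.Ctx` and `FC.Par`.
-/

set_option autoImplicit false
set_option linter.unusedSectionVars false
set_option maxHeartbeats 400000

namespace Crest.Agent.R172.FrU

open Module Matrix Crest.Agent.R172.FO Crest.Agent.R172.DerG
open Crest.Agent.R172.CovF (fr fr_repr toMatrix_equivFun ext_mulVec)

variable {ι : Type*} [Fintype ι] [DecidableEq ι] {δ : Type*} [Fintype δ] [DecidableEq δ]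
variable {k K : Type*} [Field k] [Field K] [Algebra k K]
variable {arm : δ → Fin 3} {J : Matrix ι ι K} {B : Matrix δ δ K}
  {N W : Submodule K (Matrix ι δ K)} {F G : Matrix ι δ K}
variable {X : Type*} [AddCommGroup X] [Module K X] {A : Fin 3 → End K X} {D : End K X}
  {π : X →ₗ[K] (ι → K)}

/-- an abstract cover of `P = Tp` -/
structure ACov (arm : δ → Fin 3) (J : Matrix ι ι K) (B : Matrix δ δ K) (F G : Matrix ι δ K)
    (A : Fin 3 → End K X) (D : End K X) (π : X →ₗ[K] (ι → K)) : Prop where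
  piA : ∀ s x, π (A s x) = Phi arm J B F s *ᵥ π x
  rel : ∀ x, (Gᵀ * J) *ᵥ π x = (Fᵀ * J) *ᵥ π (D x)
  comm : ∀ s x, A s (D x) = D (A s x)
  perf : ∀ x, ∃ f : Fin 3 → X, x = ∑ s, A s (f s)
  range : LinearMap.range π = St.Tp (BJ J) (DerG.Ph arm J B F)

variable (hc : ACov arm J B F G A D π)
variable {a : ℕ} (b : Module.Basis (Fin a) K X)

/-- the frame -/
noncomputable abbrev pf (π : X →ₗ[K] (ι → K)) : Matrix ι (Fin a) K := fr b π

/-- the matrix of an operator -/
noncomputable abbrev mf (T : End K X) : Matrix (Fin a) (Fin a) K := LinearMap.toMatrix b b T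

include hc in
/-- `FC.Ctx` from the cover -/
theorem ctx (hD : FO.Data k arm J B N W) (hF : F ∈ N ⊓ W) (hG : G ∈ N ⊓ W) :
    FC.Ctx k arm J B N W F G (pf b π) (fun s => mf b (A s)) (mf b D) where
  data := hD
  memF := hF
  memG := hG
  hal s := by
    apply ext_mulVec b
    intro x
    rw [← mulVec_mulVec, fr_repr, ← mulVec_mulVec, toMatrix_equivFun, fr_repr, hc.piA]
  perf := by
    choose f hf using fun j => hc.perf (b j)
    refine ⟨fun s => Matrix.of fun i j => b.equivFun (f j s) i, ?_⟩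
    have h1 : ∀ (s : Fin 3) (j : Fin a),
        (Matrix.of fun i j => b.equivFun (f j s) i : Matrix (Fin a) (Fin a) K) *ᵥ
          Pi.single j 1 = b.equivFun (f j s) := by
      intro s j
      rw [mulVec_single_one]
      rfl
    apply Matrix.ext_of_mulVec_single
    intro j
    rw [Matrix.sum_mulVec]
    have h2 : ∀ s : Fin 3, (mf b (A s) * (Matrix.of fun i j => b.equivFun (f j s) i)) *ᵥ
        Pi.single j 1 = b.equivFun (A s (f j s)) := by
      intro s
      rw [← mulVec_mulVec, h1, toMatrix_equivFun]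
    rw [Finset.sum_congr rfl fun s _ => h2 s, ← map_sum, ← hf j, one_mulVec]
    ext i
    simp [Pi.single_apply, eq_comm]
  hτ := by
    apply ext_mulVec b
    intro x
    rw [← mulVec_mulVec, fr_repr]
    have g2 : (Fᵀ * J * pf b π * mf b D) *ᵥ (b.equivFun x) =
        (Fᵀ * J) *ᵥ (pf b π *ᵥ (mf b D *ᵥ (b.equivFun x))) := by
      rw [mulVec_mulVec, mulVec_mulVec, Matrix.mul_assoc (Fᵀ * J)]
    rw [g2, toMatrix_equivFun, fr_repr]
    exact hc.rel x
  comm s := by
    apply ext_mulVec b
    intro x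
    rw [← mulVec_mulVec, ← mulVec_mulVec, toMatrix_equivFun, toMatrix_equivFun,
      toMatrix_equivFun, toMatrix_equivFun, hc.comm]

include hc in
/-- `FC.Par` for a constant `t` such that `1 + t D` is invertible -/
theorem par [CharZero K] (hD : FO.Data k arm J B N W) (hF : Generic k arm N W F) (t : k)
    (hH : Generic k arm N W (F + algebraMap k K t • G))
    {σ : Module.End K X} (hσ : (1 + algebraMap k K t • D) * σ = 1) :
    FC.Par k arm J B N W F G (pf b π) (mf b D) (algebraMap k K t)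
      (1 + algebraMap k K t • mf b D) (mf b σ) where
  const := ⟨t, rfl⟩
  gen := hH
  kap_eq := rfl
  mul := by
    apply ext_mulVec b
    intro x
    rw [← mulVec_mulVec, toMatrix_equivFun, Matrix.add_mulVec, one_mulVec, Matrix.smul_mulVec,
      toMatrix_equivFun, one_mulVec, ← map_smul, ← map_add]
    congr 1
    exact LinearMap.congr_fun hσ x
  nil := by
    obtain ⟨m, hm⟩ := St.T_eq_Nk (DerG.Ph arm J B (F + algebraMap k K t • G))
    refine ⟨m, fun w hw => ?_⟩
    have h1 : ∀ v : ι → K, ∃ y : X, (w.map (Phi arm J B (F + algebraMap k K t • G))).prod *ᵥ v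
        = π y := by
      intro v
      have h2 := FrI.wd_mem_Tp hD hH.mem hm.le hw v
      rw [Pt.Tp_eq hD hF hH (BJ J), ← hc.range] at h2
      obtain ⟨y, hy⟩ := h2
      exact ⟨y, hy.symm⟩
    choose y hy using fun j : ι => h1 (Pi.single j 1)
    refine ⟨Matrix.of fun i j => b.equivFun (y j) i, ?_⟩
    apply Matrix.ext_of_mulVec_single
    intro j
    rw [hy, ← mulVec_mulVec]
    have h3 : (Matrix.of fun i j => b.equivFun (y j) i : Matrix (Fin a) ι K) *ᵥ
          Pi.single j 1 = b.equivFun (y j) := by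
      rw [mulVec_single_one]
      rfl
    rw [h3, fr_repr]

/-- intertwining onto: eigenvalues of the cover -/
theorem eig_of_nil {M : Type*} [AddCommGroup M] [Module K M] {m : ℕ}
    {ρ : X →ₗ[K] M} {τ : End K M} (hρD : ∀ x, ρ (D x) = τ (ρ x))
    (hcomm : ∀ s x, A s (D x) = D (A s x))
    (hperf : ∀ x, ∃ f : Fin 3 → X, x = ∑ s, A s (f s)) [FiniteDimensional K X]
    (hnil : ∀ x, ρ x = 0 → x ∈ St.Nk A m) {μ : K} (hμ : τ.maxGenEigenspace μ = ⊥) :
    D.maxGenEigenspace μ = ⊥ := by
  have hst : ∀ s, ∀ x ∈ D.maxGenEigenspace μ, A s x ∈ D.maxGenEigenspace μ := fun s x hx =>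
    Cov2.E_of_comm (fun y => hcomm s y) hx
  have hker : ∀ x ∈ D.maxGenEigenspace μ, ρ x = 0 := by
    intro x hx
    have h1 := Cov2.map_E (f := D) (f' := τ) hρD hx
    rw [hμ] at h1
    exact (Submodule.mem_bot K).1 h1
  have hperf' : D.maxGenEigenspace μ ≤ ⨆ s, (D.maxGenEigenspace μ).map (A s) := by
    intro y hy
    obtain ⟨f, hf⟩ := hperf y
    choose c hc d hd hcd using fun t => Cov2.split D μ (f t)
    have e : y - ∑ t, A t (c t) = ∑ t, A t (d t) := by
      rw [hf, ← Finset.sum_sub_distrib]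
      refine Finset.sum_congr rfl fun t _ => ?_
      rw [← map_sub, ← hcd t, add_sub_cancel_left]
    have h1 : y - ∑ t, A t (c t) ∈ D.maxGenEigenspace μ :=
      Submodule.sub_mem _ hy (Submodule.sum_mem _ fun t _ => hst t _ (hc t))
    have h2 : y - ∑ t, A t (c t) ∈ Cov2.Rg D μ := by
      rw [e]
      exact Submodule.sum_mem _ fun t _ => Cov2.Rg_of_comm (fun y => hcomm t y) (hd t)
    rw [sub_eq_zero.1 (Cov2.disj h1 h2)]
    exact Submodule.sum_mem _ fun t _ => Submodule.mem_iSup_of_mem t ⟨c t, hc t, rfl⟩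
  have key : ∀ j ≤ m, D.maxGenEigenspace μ ≤ St.Nk A (m - j) := by
    intro j
    induction j with
    | zero => intro _ x hx; exact hnil x (hker x hx)
    | succ j ih =>
      intro hj
      refine hperf'.trans (iSup_le fun t => ?_)
      rintro _ ⟨v, hv, rfl⟩
      have h1 := ih (by omega) hv
      have e : m - j = (m - (j + 1)) + 1 := by omega
      rw [e, St.mem_Nk_succ] at h1
      exact h1 t
  have h3 := key m le_rfl
  rw [Nat.sub_self] at h3
  rw [eq_bot_iff]
  intro x hx
  exact (Submodule.mem_bot K).2 (St.mem_Nk_zero.1 (h3 hx))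

include hc in
/-- `FC.Par` for every constant `t` with `1 + t ν ≠ 0` for all eigenvalues `ν` of `τ` -/
theorem exists_par [CharZero K] {M : Type*} [AddCommGroup M] [Module K M]
    [FiniteDimensional K X] (hD : FO.Data k arm J B N W) (hG : GenOver k arm N W F G) {m : ℕ}
    {ρ : X →ₗ[K] M} {τ : End K M} (hρD : ∀ x, ρ (D x) = τ (ρ x))
    (hnil : ∀ x, ρ x = 0 → x ∈ St.Nk A m) (t : k)
    (ht : ∀ ν, τ.maxGenEigenspace ν ≠ ⊥ → 1 + algebraMap k K t * ν ≠ 0) :
    ∃ kai : Matrix (Fin a) (Fin a) K,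
      FC.Par k arm J B N W F G (pf b π) (mf b D) (algebraMap k K t)
        (1 + algebraMap k K t • mf b D) kai := by
  obtain ⟨σ, hσ, -⟩ := FrI.exists_inv D (algebraMap k K t) (fun ν hν => ht ν (fun h0 =>
    hν (eig_of_nil hρD hc.comm hc.perf hnil h0)))
  exact ⟨_, par hc b hD hG.generic t (hG.generic_add t) hσ⟩

end Crest.Agent.R172.FrU
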