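import Crest.Agent.R172.XiD
import Crest.Agent.R172.FrmP

/-!
Row 172 (S0260), T0 in a frame `p : ι × n` (note 16086 of helper455, (3)): the FIRST derivative in
the `FrmB.Q3` form, arbitrary radical and arbitrary `D`.
-/

set_option autoImplicit false
set_option linter.unusedSectionVars false

namespace Crest.Agent.R172.FrmA

open Matrix Crest.Agent.R172.FO Crest.Agent.R172.FrmB

variable {ι : Type*} [Fintype ι] [DecidableEq ι] {δ : Type*} [Fintype δ] [DecidableEq δ]
variable {n : Type*} [Fintype n] [DecidableEq n]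
variable {k K : Type*} [Field k] [Field K] [Algebra k K]
variable {arm : δ → Fin 3} {J : Matrix ι ι K} {B : Matrix δ δ K}
  {N W : Submodule K (Matrix ι δ K)} {F G : Matrix ι δ K} {p : Matrix ι n K}
  {al a : Fin 3 → Matrix n n K} {D : Matrix n n K}

theorem act_io (y : Fin 3 → Matrix n n K) :
    act arm (fun r => p * y r * pᵀ * J) F = io arm J F p y := rfl

/-- `pᵀ J (F E_r) (..)`: the arm `r` part of `io y` against the frame -/
theorem io_img (hal : ∀ r, Phi arm J B F r * p = p * al r)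
    (y : Fin 3 → Matrix n n K) (r : Fin 3) :
    io arm J F p y * E K arm r * B * (Fᵀ * J * p) = p * (y r * (pᵀ * J * p) * al r) := by
  have e1 : io arm J F p y * E K arm r = p * y r * pᵀ * J * F * E K arm r := by
    unfold io
    rw [act_mul_E]
  have e2 : F * E K arm r * B * (Fᵀ * J * p) = p * al r := by
    rw [← hal]
    unfold Phi M
    simp only [Matrix.mul_assoc]
  rw [e1]
  calc p * y r * pᵀ * J * F * E K arm r * B * (Fᵀ * J * p)
      = p * y r * pᵀ * J * (F * E K arm r * B * (Fᵀ * J * p)) := by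
        simp only [Matrix.mul_assoc]
    _ = _ := by
        rw [e2]
        simp only [Matrix.mul_assoc]

theorem io_img' (hD : Data k arm J B N W) (hal : ∀ r, Phi arm J B F r * p = p * al r)
    (y : Fin 3 → Matrix n n K) (r : Fin 3) :
    F * E K arm r * B * ((io arm J F p y)ᵀ * J * p) = p * (al r * ((y r)ᵀ * (pᵀ * J * p))) := by
  have e1 : E K arm r * (io arm J F p y)ᵀ = E K arm r * Fᵀ * J * p * (y r)ᵀ * pᵀ := by
    have h1 : io arm J F p y * E K arm r = p * y r * pᵀ * J * F * E K arm r := by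
      unfold io
      rw [act_mul_E]
    have h2 := congrArg transpose h1
    rw [transpose_mul, E_transpose] at h2
    rw [h2]
    simp only [transpose_mul, transpose_transpose, E_transpose, hD.J_symm, Matrix.mul_assoc]
  have e2 : F * E K arm r * B * (Fᵀ * J * p) = p * al r := by
    rw [← hal]
    unfold Phi M
    simp only [Matrix.mul_assoc]
  have e3 : F * E K arm r * B = F * B * E K arm r := by
    rw [Matrix.mul_assoc, hD.B_arm, Matrix.mul_assoc]
  calc F * E K arm r * B * ((io arm J F p y)ᵀ * J * p)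
      = F * B * (E K arm r * (io arm J F p y)ᵀ) * J * p := by
        rw [e3]; simp only [Matrix.mul_assoc]
    _ = (F * B * E K arm r) * (Fᵀ * J * p) * (y r)ᵀ * pᵀ * J * p := by
        rw [e1]; simp only [Matrix.mul_assoc]
    _ = _ := by
        rw [← e3, e2]
        simp only [Matrix.mul_assoc]

/-- **FIRST**: for every skew `Y` exact at `F + tG` there are the motion `(d, ξ)`, the matrix `π`
of `dp` and the correction `w`. -/
theorem first (hD : Data k arm J B N W) (h2 : (2 : K) ≠ 0) (hF : F ∈ N ⊓ W) (hG : G ∈ N ⊓ W)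
    (b : XiD.Blk arm J B F G p al a D) {t : K} (hdt : ∀ d : Derivation k K K, d t = 0)
    (hg : Generic k arm N W (F + t • G)) {ci : Matrix n n K}
    (hc1 : (1 + t • D) * ci = 1) (hc2 : ci * (1 + t • D) = 1) {m : ℕ}
    (hm : PL.Wk (fun r => Matrix.toLin' (Phi arm J B (F + t • G) r)) m ≤
      LinearMap.range (Matrix.toLin' p))
    {Y : Fin 3 → Matrix n n K} (hY : ∀ r, (Y r)ᵀ = -Y r)
    (hex : ∑ r, Y r * (al r * ((1 + t • D) * (1 + t • D)))ᵀ =
      ∑ r, al r * ((1 + t • D) * (1 + t • D)) * Y r) :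
    ∃ (d : Derivation k K K) (ξ : Matrix δ δ K) (π : Matrix n n K) (w : Matrix ι δ K),
      ξᵀ * B + B * ξ = 0 ∧ Realises arm N W (fun r => p * Y r * pᵀ * J) ξ d ∧
      (F + t • G).map d = act arm (fun r => p * Y r * pᵀ * J) (F + t • G) ∧
      (∀ r, (Phi arm J B (F + t • G) r).map d =
        p * Y r * pᵀ * J * Phi arm J B (F + t • G) r -
          Phi arm J B (F + t • G) r * (p * Y r * pᵀ * J)) ∧
      p.map d = p * π ∧ w = F.map d - F * ξᵀ ∧
      F * ξᵀ = io arm J F p (fun r => ci * Y r * (1 + t • D)ᵀ) ∧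
      (∀ F' : Matrix ι δ K, ∀ p' : Matrix ι n K, (∀ r, M arm B r F' F * J * p = p' * al r) →
        F' * ξᵀ = act arm (fun r => p' * ci * Y r * (1 + t • D)ᵀ * pᵀ * J) F) ∧
      Q3 arm J B N W F p (fun r => Y r - ci * Y r * (1 + t • D)ᵀ) w
        (t • ((D * π - π * D - D.map d) * ci)) := by
  have hhalf : ∀ Z : Matrix n n K, (2 : K)⁻¹ • Z + (2 : K)⁻¹ • Z = Z := by
    intro Z
    rw [← add_smul, ← two_mul, mul_inv_cancel₀ h2, one_smul]
  obtain ⟨ξ, q1, q5, -, q3, q6⟩ := XiD.exists_xi_HG hD hF hG b b hc1 hc2 hc1 hc2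
    (fun r => (2 : K)⁻¹ • Y r) (by
      simp only [Matrix.smul_mul, Matrix.mul_smul, ← Finset.smul_sum]
      rw [hex])
  have hX : XiD.X J p p (fun r => (2 : K)⁻¹ • Y r) = fun r => p * Y r * pᵀ * J := by
    funext r
    unfold XiD.X
    rw [transpose_smul, hY]
    have : p * ((2 : K)⁻¹ • Y r) * pᵀ * J - p * ((2 : K)⁻¹ • -Y r) * pᵀ * J =
        p * ((2 : K)⁻¹ • Y r + (2 : K)⁻¹ • Y r) * pᵀ * J := by
      rw [smul_neg, Matrix.mul_add, Matrix.add_mul, Matrix.add_mul, Matrix.mul_neg,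
        Matrix.neg_mul, Matrix.neg_mul, sub_neg_eq_add]
    rw [this, hhalf]
  rw [hX] at q3
  have hgen : ∀ p' : Matrix ι n K, (fun r => p' * ci * ((2 : K)⁻¹ • Y r) * (1 + t • D)ᵀ * pᵀ * J -
        p' * ci * ((2 : K)⁻¹ • Y r)ᵀ * (1 + t • D)ᵀ * pᵀ * J) =
        fun r => p' * ci * Y r * (1 + t • D)ᵀ * pᵀ * J := by
    intro p'
    funext r
    rw [transpose_smul, hY]
    have : p' * ci * ((2 : K)⁻¹ • Y r) * (1 + t • D)ᵀ * pᵀ * J -
        p' * ci * ((2 : K)⁻¹ • -Y r) * (1 + t • D)ᵀ * pᵀ * J =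
        p' * ci * ((2 : K)⁻¹ • Y r + (2 : K)⁻¹ • Y r) * (1 + t • D)ᵀ * pᵀ * J := by
      rw [smul_neg, Matrix.mul_neg, Matrix.neg_mul, Matrix.neg_mul, Matrix.neg_mul,
        sub_neg_eq_add, Matrix.mul_add, Matrix.add_mul, Matrix.add_mul, Matrix.add_mul]
    rw [this, hhalf]
  have hxi : F * ξᵀ = io arm J F p (fun r => ci * Y r * (1 + t • D)ᵀ) := by
    rw [q5, hgen p]
    unfold io
    congr 1
    funext r
    simp only [Matrix.mul_assoc]
  have hskew := fun r => skew_dir (p := p) hD (hY r)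
  obtain ⟨d0, hd0⟩ := hD.dir (fun r => p * Y r * pᵀ * J) ξ hskew q1
  have g1 : (F + t • G).map d0 - act arm (fun r => p * Y r * pᵀ * J) (F + t • G) ∈ N ⊓ W := by
    refine ⟨hd0.onN _ hg.mem.1, ?_⟩
    have := hd0.onW _ hg.mem.2
    rwa [q3] at this
  obtain ⟨d1, hd1, hr1⟩ := hg.vert _ g1
  have hdF : (F + t • G).map (d0 - d1) = act arm (fun r => p * Y r * pᵀ * J) (F + t • G) := by
    rw [map_dsub, hd1]
    abel
  have hreal : Realises arm N W (fun r => p * Y r * pᵀ * J) ξ (d0 - d1) := sub_zero' hd0 hr1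
  have q4 := fun r => hD.map_Phi (F + t • G) _ hskew _ hdF r
  obtain ⟨π, hπ⟩ := persist_X (Φ := fun r => Phi arm J B (F + t • G) r)
    (φ := fun r => al r * ((1 + t • D) * (1 + t • D))) (a := fun r => ci * ci * a r)
    (fun r => b.Phi_t hD hF hG t r) (by
      have hcc : ((1 + t • D) * (1 + t • D)) * (ci * ci) = 1 := by
        rw [Matrix.mul_assoc, ← Matrix.mul_assoc _ ci ci, hc1, Matrix.one_mul, hc1]
      have : ∀ r, al r * ((1 + t • D) * (1 + t • D)) * (ci * ci * a r) = al r * a r := by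
        intro r
        calc al r * ((1 + t • D) * (1 + t • D)) * (ci * ci * a r)
            = al r * (((1 + t • D) * (1 + t • D)) * (ci * ci)) * a r := by
              simp only [Matrix.mul_assoc]
          _ = _ := by rw [hcc, Matrix.mul_one]
      rw [Finset.sum_congr rfl fun r _ => this r, b.perf]) hm (Y := Y) q4
  have hcorr := XiD.corr hD b (hdt (d0 - d1)) (ξ := ξ) (hdF.trans q3.symm)
  rw [hπ] at hcorr
  set d := d0 - d1 with hd
  set w := F.map d - F * ξᵀ with hw
  have hval : wᵀ * J * p = Fᵀ * J * p * (t • ((D * π - π * D - D.map d) * ci)) := by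
    calc wᵀ * J * p = wᵀ * J * p * (1 + t • D) * ci := by
          rw [Matrix.mul_assoc _ _ ci, hc1, Matrix.mul_one]
      _ = _ := by
          rw [hcorr, ← Matrix.mul_assoc _ p π, b.B1]
          simp only [Matrix.mul_smul, Matrix.smul_mul, Matrix.mul_sub, Matrix.sub_mul,
            Matrix.mul_assoc]
  refine ⟨d, ξ, π, w, q1, hreal, hdF, q4, hπ, rfl, hxi, ?_, hreal.onW F hF.2, ?_, hval, ?_⟩
  · intro F' p' h'
    rw [q6 F' p' p' h' h', hgen p']
  · -- `io (Y - ci Y cᵀ) - w ∈ N`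
    have h6 := hreal.onN F hF.1
    rw [io_sub, ← hxi, ← act_io]
    have : act arm (fun r => p * Y r * pᵀ * J) F - F * ξᵀ - w =
        -(F.map d - act arm (fun r => p * Y r * pᵀ * J) F) := by rw [hw]; abel
    rw [this]
    exact N.neg_mem h6
  · intro r
    have e0 : F * E K arm r * B * (Fᵀ * J * p) = p * al r := by
      rw [← b.B2]
      unfold Phi M
      simp only [Matrix.mul_assoc]
    have h1 := congrArg (fun A : Matrix ι n K => A.map d) e0
    simp only [map_mul_der, map_transpose_der, hD.J_const, hD.B_const, E_map_der, hπ,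
      Matrix.mul_zero, add_zero] at h1
    have e1 : F.map d = w + io arm J F p (fun r => ci * Y r * (1 + t • D)ᵀ) := by
      rw [← hxi, hw]; abel
    have i1 := io_img b.B2 (fun r => ci * Y r * (1 + t • D)ᵀ) r
    have i2 := io_img' hD b.B2 (fun r => ci * Y r * (1 + t • D)ᵀ) r
    have i3 : F * E K arm r * B * (wᵀ * J * p) =
        p * (al r * (t • ((D * π - π * D - D.map d) * ci))) := by
      rw [hval, ← Matrix.mul_assoc _ (Fᵀ * J * p), e0, Matrix.mul_assoc]
    have i4 : F * E K arm r * B * (Fᵀ * J * (p * π)) = p * (al r * π) := by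
      rw [← Matrix.mul_assoc (Fᵀ * J), ← Matrix.mul_assoc _ (Fᵀ * J * p), e0, Matrix.mul_assoc]
    rw [e1] at h1
    have h3 : w * E K arm r * B * (Fᵀ * J * p) =
        p * π * al r + p * (al r).map d -
        io arm J F p (fun r => ci * Y r * (1 + t • D)ᵀ) * E K arm r * B * (Fᵀ * J * p) -
        F * E K arm r * B * (wᵀ * J * p) -
        F * E K arm r * B * ((io arm J F p (fun r => ci * Y r * (1 + t • D)ᵀ))ᵀ * J * p) -
        F * E K arm r * B * (Fᵀ * J * (p * π)) := by
      rw [← h1]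
      simp only [transpose_add, Matrix.add_mul, Matrix.mul_add]
      abel
    rw [i1, i2, i3, i4] at h3
    refine ⟨π * al r + (al r).map d - ci * Y r * (1 + t • D)ᵀ * (pᵀ * J * p) * al r -
      al r * (t • ((D * π - π * D - D.map d) * ci)) -
      al r * ((ci * Y r * (1 + t • D)ᵀ)ᵀ * (pᵀ * J * p)) - al r * π, ?_⟩
    rw [h3]
    simp only [Matrix.mul_add, Matrix.mul_sub, Matrix.mul_assoc]

end Crest.Agent.R172.FrmA
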