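import Mathlib

/-!
Row 172, translation T4 (forward direction), general part: exponentials of nilpotent elements acting on
modules of a complex Lie algebra, words of exponentials, and the power lemma.
-/

set_option autoImplicit false

namespace Crest.Agent.R172.Fwd

open TensorProduct

section Exp

variable {M N : Type*} [AddCommGroup M] [Module ℂ M] [AddCommGroup N] [Module ℂ N]

/-- exponential of a nilpotent endomorphism. -/
noncomputable def ex (A : Module.End ℂ M) : Module.End ℂ M :=
  letI : Module ℚ (Module.End ℂ M) := Module.compHom _ (algebraMap ℚ ℂ)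
  IsNilpotent.exp A

theorem ex_eq_sum {A : Module.End ℂ M} {m : ℕ} (h : A ^ m = 0) :
    ex A = ∑ k ∈ Finset.range m, ((k.factorial : ℂ)⁻¹) • A ^ k := by
  let i0 : Module ℚ (Module.End ℂ M) := Module.compHom _ (algebraMap ℚ ℂ)
  have h1 : ex A = ∑ i ∈ Finset.range m, ((i.factorial : ℚ)⁻¹) • (A ^ i) :=
    IsNilpotent.exp_eq_sum h
  rw [h1]
  refine Finset.sum_congr rfl fun k _ => ?_
  change (algebraMap ℚ ℂ ((k.factorial : ℚ)⁻¹)) • A ^ k = _
  simp

theorem ex_tensor {A : Module.End ℂ M} {B : Module.End ℂ N} (hA : IsNilpotent A)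
    (hB : IsNilpotent B) :
    ex (LinearMap.rTensor N A + LinearMap.lTensor M B : Module.End ℂ (M ⊗[ℂ] N)) =
      TensorProduct.map (ex A) (ex B) := by
  let i1 : Module ℚ (Module.End ℂ M) := Module.compHom _ (algebraMap ℚ ℂ)
  let i2 : Module ℚ (Module.End ℂ N) := Module.compHom _ (algebraMap ℚ ℂ)
  let i3 : Module ℚ (Module.End ℂ (M ⊗[ℂ] N)) := Module.compHom _ (algebraMap ℚ ℂ)
  have hA' : IsNilpotent (LinearMap.rTensor N A : Module.End ℂ (M ⊗[ℂ] N)) := by
    obtain ⟨k, hk⟩ := hA
    refine ⟨k, ?_⟩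
    rw [LinearMap.rTensor_pow, hk, LinearMap.rTensor_zero]
  have hB' : IsNilpotent (LinearMap.lTensor M B : Module.End ℂ (M ⊗[ℂ] N)) := by
    obtain ⟨k, hk⟩ := hB
    refine ⟨k, ?_⟩
    rw [LinearMap.lTensor_pow, hk, LinearMap.lTensor_zero]
  have hc : Commute (LinearMap.rTensor N A : Module.End ℂ (M ⊗[ℂ] N)) (LinearMap.lTensor M B) := by
    change _ * _ = _ * _
    ext m n
    simp
  have h1 : ex (LinearMap.rTensor N A + LinearMap.lTensor M B : Module.End ℂ (M ⊗[ℂ] N)) =
      ex (LinearMap.rTensor N A : Module.End ℂ (M ⊗[ℂ] N)) *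
        ex (LinearMap.lTensor M B : Module.End ℂ (M ⊗[ℂ] N)) := by
    exact IsNilpotent.exp_add_of_commute hc hA' hB'
  obtain ⟨a, ha⟩ := hA
  obtain ⟨b, hb⟩ := hB
  have ha' : (LinearMap.rTensor N A : Module.End ℂ (M ⊗[ℂ] N)) ^ a = 0 := by
    rw [LinearMap.rTensor_pow, ha, LinearMap.rTensor_zero]
  have hb' : (LinearMap.lTensor M B : Module.End ℂ (M ⊗[ℂ] N)) ^ b = 0 := by
    rw [LinearMap.lTensor_pow, hb, LinearMap.lTensor_zero]
  rw [h1, ex_eq_sum ha', ex_eq_sum hb', ex_eq_sum ha, ex_eq_sum hb]
  ext m n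
  simp only [LinearMap.rTensor_pow, LinearMap.lTensor_pow]
  simp only [TensorProduct.AlgebraTensorModule.curry_apply, LinearMap.restrictScalars_self,
    TensorProduct.curry_apply, Module.End.mul_apply, LinearMap.sum_apply, LinearMap.smul_apply,
    LinearMap.lTensor_tmul, LinearMap.rTensor_tmul, TensorProduct.map_tmul,
    TensorProduct.sum_tmul, TensorProduct.tmul_sum, map_sum, map_smul]
  refine Finset.sum_congr rfl fun i _ => ?_
  rw [Finset.smul_sum]
  refine Finset.sum_congr rfl fun j _ => ?_
  rw [TensorProduct.smul_tmul_smul, smul_smul, mul_comm]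

end Exp

/-- A vector-valued polynomial with values in a subspace has its coefficients there. -/
theorem coeff_mem {M : Type*} [AddCommGroup M] [Module ℂ M] (W : Submodule ℂ M) (m : ℕ)
    (p : ℕ → M) (h : ∀ t : ℂ, ∑ k ∈ Finset.range m, t ^ k • p k ∈ W) :
    ∀ k < m, p k ∈ W := by
  intro k hk
  rw [← Submodule.Quotient.mk_eq_zero, ← Module.forall_dual_apply_eq_zero_iff ℂ]
  intro φ
  let P : Polynomial ℂ := ∑ j ∈ Finset.range m,
    Polynomial.C (φ (Submodule.Quotient.mk (p j))) * Polynomial.X ^ j
  have hP : P = 0 := by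
    refine Polynomial.funext fun t => ?_
    have h1 := (Submodule.Quotient.mk_eq_zero W).2 (h t)
    have h2 : φ (Submodule.Quotient.mk (∑ k ∈ Finset.range m, t ^ k • p k)) = 0 := by
      rw [h1, map_zero]
    simp only [P, Polynomial.eval_finsetSum, Polynomial.eval_mul, Polynomial.eval_C,
      Polynomial.eval_pow, Polynomial.eval_X, Polynomial.eval_zero]
    rw [← h2, ← Submodule.mkQ_apply, map_sum, map_sum]
    refine Finset.sum_congr rfl fun j _ => ?_
    rw [map_smul, map_smul, smul_eq_mul, mul_comm]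
    rfl
  have h3 : P.coeff k = φ (Submodule.Quotient.mk (p k)) := by
    simp only [P, Polynomial.finsetSum_coeff, Polynomial.coeff_C_mul, Polynomial.coeff_X_pow]
    rw [Finset.sum_eq_single k]
    · simp
    · intro j _ hj
      simp [Ne.symm hj]
    · intro h
      exact absurd (Finset.mem_range.2 hk) h
  rw [← h3, hP, Polynomial.coeff_zero]

section Words

variable {L : Type*} [LieRing L] [LieAlgebra ℂ L]

/-- "root vectors": eigenvectors of some `ad h` for a nonzero eigenvalue. -/
def Rt (z : L) : Prop := ∃ (h : L) (c : ℂ), c ≠ 0 ∧ ⁅h, z⁆ = c • z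

theorem Rt.smul {z : L} (hz : Rt z) (t : ℂ) : Rt (t • z) := by
  obtain ⟨h, c, hc, e⟩ := hz
  refine ⟨h, c, hc, ?_⟩
  rw [lie_smul, e, smul_comm]

variable {M : Type*} [AddCommGroup M] [Module ℂ M]

theorem nilpotent_of_comm [FiniteDimensional ℂ M] {A B : Module.End ℂ M} {c : ℂ} (hc : c ≠ 0)
    (h : A * B - B * A = c • B) : IsNilpotent B := by
  have key : ∀ k : ℕ, A * B ^ k - B ^ k * A = ((k : ℂ) * c) • B ^ k := by
    intro k
    induction k with
    | zero => simp
    | succ k ih =>
      have e1 : A * B ^ (k + 1) - B ^ (k + 1) * A =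
          (A * B ^ k - B ^ k * A) * B + B ^ k * (A * B - B * A) := by
        rw [pow_succ]; noncomm_ring
      rw [e1, ih, h, smul_mul_assoc, mul_smul_comm, ← pow_succ, ← add_smul]
      congr 1
      push_cast
      ring
  by_contra hn
  have hne : ∀ k : ℕ, B ^ k ≠ 0 := fun k hk => hn ⟨k, hk⟩
  let T : Module.End ℂ (Module.End ℂ M) := LinearMap.mulLeft ℂ A - LinearMap.mulRight ℂ A
  have hfin : Set.Finite {μ | T.HasEigenvalue μ} := Module.End.finite_hasEigenvalue T
  have hinj : Function.Injective fun k : ℕ => ((k : ℂ) * c) := by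
    intro i j hij
    have := mul_right_cancel₀ hc hij
    exact_mod_cast this
  have hsub : Set.range (fun k : ℕ => ((k : ℂ) * c)) ⊆ {μ | T.HasEigenvalue μ} := by
    rintro _ ⟨k, rfl⟩
    refine Module.End.hasEigenvalue_of_hasEigenvector (x := B ^ k) ⟨?_, hne k⟩
    rw [Module.End.mem_eigenspace_iff]
    exact key k
  exact (Set.infinite_range_of_injective hinj) (hfin.subset hsub)

variable [LieRingModule L M] [LieModule ℂ L M]

theorem Rt.nilpotent [FiniteDimensional ℂ M] {z : L} (hz : Rt z) :
    IsNilpotent (LieModule.toEnd ℂ L M z) := by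
  obtain ⟨h, c, hc, e⟩ := hz
  refine nilpotent_of_comm (A := LieModule.toEnd ℂ L M h) hc ?_
  have h1 : LieModule.toEnd ℂ L M ⁅h, z⁆ = c • LieModule.toEnd ℂ L M z := by rw [e, map_smul]
  rw [← h1]
  refine LinearMap.ext fun v => ?_
  simp [Module.End.mul_apply]

/-- the action of a word `exp z₁ ⋯ exp z_k`. -/
noncomputable def act (M : Type*) [AddCommGroup M] [Module ℂ M] [LieRingModule L M]
    [LieModule ℂ L M] : List L → Module.End ℂ M
  | [] => 1
  | z :: w => ex (LieModule.toEnd ℂ L M z) * act M w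

@[simp] theorem act_nil : act M ([] : List L) = 1 := rfl

@[simp] theorem act_cons (z : L) (w : List L) :
    act M (z :: w) = ex (LieModule.toEnd ℂ L M z) * act M w := rfl

theorem act_append (w w' : List L) : act M (w ++ w') = act M w * act M w' := by
  induction w with
  | nil => simp
  | cons z w ih => rw [List.cons_append, act_cons, act_cons, ih, mul_assoc]

/-- words of root vectors -/
def Wd (w : List L) : Prop := ∀ z ∈ w, Rt z

theorem ex_mem [FiniteDimensional ℂ M] (N : LieSubmodule ℂ L M) {z : L} (hz : Rt z) {v : M}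
    (hv : v ∈ N) : ex (LieModule.toEnd ℂ L M z) v ∈ N := by
  obtain ⟨m, hm⟩ := hz.nilpotent (M := M)
  rw [ex_eq_sum hm, LinearMap.sum_apply]
  refine N.toSubmodule.sum_mem fun k _ => ?_
  rw [LinearMap.smul_apply]
  refine N.toSubmodule.smul_mem _ ?_
  have : ∀ k : ℕ, ((LieModule.toEnd ℂ L M z) ^ k) v ∈ N := by
    intro k
    induction k with
    | zero => simpa using hv
    | succ k ih =>
      rw [pow_succ', Module.End.mul_apply, LieModule.toEnd_apply_apply]
      exact N.lie_mem ih
  exact this k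

theorem act_mem [FiniteDimensional ℂ M] (N : LieSubmodule ℂ L M) {w : List L} (hw : Wd w) {v : M}
    (hv : v ∈ N) : act M w v ∈ N := by
  induction w with
  | nil => simpa using hv
  | cons z w ih =>
    rw [act_cons, Module.End.mul_apply]
    exact ex_mem N (hw z (by simp)) (ih fun z hz => hw z (by simp [hz]))

/-- The span of the orbit of `x` under the words contains the cyclic submodule. -/
theorem mem_span_words [FiniteDimensional ℂ M]
    (hL : LieSubalgebra.lieSpan ℂ L {z : L | Rt z} = ⊤) (x : M) {v : M}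
    (hv : v ∈ LieSubmodule.lieSpan ℂ L {x}) :
    v ∈ Submodule.span ℂ {u : M | ∃ w : List L, Wd w ∧ u = act M w x} := by
  set W := Submodule.span ℂ {u : M | ∃ w : List L, Wd w ∧ u = act M w x} with hW
  have h1 : ∀ z : L, Rt z → ∀ u ∈ W, ⁅z, u⁆ ∈ W := by
    intro z hz u hu
    refine Submodule.span_induction (p := fun u _ => ⁅z, u⁆ ∈ W) ?_ ?_ ?_ ?_ hu
    · rintro _ ⟨w, hw, rfl⟩
      obtain ⟨m, hm⟩ := hz.nilpotent (M := M)
      have hm' : (LieModule.toEnd ℂ L M z) ^ (m + 2) = 0 := by
        rw [pow_add, hm, zero_mul]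
      have h2 := coeff_mem W (m + 2)
        (fun k => ((k.factorial : ℂ)⁻¹) • ((LieModule.toEnd ℂ L M z) ^ k) (act M w x)) ?_ 1 (by omega)
      · simpa using h2
      · intro t
        have h3 : act M ((t • z) :: w) x ∈ W := by
          refine Submodule.subset_span ⟨(t • z) :: w, ?_, rfl⟩
          intro y hy
          rcases List.mem_cons.1 hy with rfl | hy
          · exact hz.smul t
          · exact hw y hy
        have h4 : (LieModule.toEnd ℂ L M (t • z)) ^ (m + 2) = 0 := by
          rw [map_smul, smul_pow, hm', smul_zero]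
        rw [act_cons, Module.End.mul_apply, ex_eq_sum h4, LinearMap.sum_apply] at h3
        convert h3 using 2 with k
        rw [map_smul, smul_pow, LinearMap.smul_apply, LinearMap.smul_apply, smul_comm]
    · simp
    · intro a b _ _ ha hb
      rw [lie_add]
      exact W.add_mem ha hb
    · intro c a _ ha
      rw [lie_smul]
      exact W.smul_mem c ha
  -- the stabiliser of `W`
  let K : LieSubalgebra ℂ L :=
    { carrier := {z | ∀ u ∈ W, ⁅z, u⁆ ∈ W}
      add_mem' := fun {a b} ha hb u hu => by
        rw [add_lie]; exact W.add_mem (ha u hu) (hb u hu)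
      zero_mem' := fun u _ => by rw [zero_lie]; exact W.zero_mem
      smul_mem' := fun c {a} ha u hu => by
        rw [smul_lie]; exact W.smul_mem c (ha u hu)
      lie_mem' := fun {a b} ha hb u hu => by
        rw [lie_lie]; exact W.sub_mem (ha _ (hb u hu)) (hb _ (ha u hu)) }
  have hK : K = ⊤ := by
    rw [eq_top_iff, ← hL, LieSubalgebra.lieSpan_le]
    intro z hz
    exact h1 z hz
  let WL : LieSubmodule ℂ L M :=
    { W with
      lie_mem := fun {z u} hu => by
        have : z ∈ K := by rw [hK]; exact LieSubalgebra.mem_top z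
        exact this u hu }
  have h5 : LieSubmodule.lieSpan ℂ L {x} ≤ WL := by
    rw [LieSubmodule.lieSpan_le]
    rintro _ rfl
    exact Submodule.subset_span ⟨[], fun _ h => absurd h (by simp), by simp⟩
  exact h5 hv

/-- act on tensor products -/
theorem act_tmul {N : Type*} [AddCommGroup N] [Module ℂ N] [LieRingModule L N] [LieModule ℂ L N]
    [FiniteDimensional ℂ M] [FiniteDimensional ℂ N] {w : List L} (hw : Wd w) (x : M) (y : N) :
    act (M ⊗[ℂ] N) w (x ⊗ₜ[ℂ] y) = (act M w x) ⊗ₜ[ℂ] (act N w y) := by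
  induction w with
  | nil => simp
  | cons z w ih =>
    have hz : Rt z := hw z (by simp)
    rw [act_cons, act_cons, act_cons, Module.End.mul_apply,
      ih (fun z hz => hw z (by simp [hz])), Module.End.mul_apply, Module.End.mul_apply]
    have e : LieModule.toEnd ℂ L (M ⊗[ℂ] N) z =
        LinearMap.rTensor N (LieModule.toEnd ℂ L M z) +
          LinearMap.lTensor M (LieModule.toEnd ℂ L N z) := by
      ext m n
      simp [TensorProduct.LieModule.lie_tmul_right]
    rw [e, ex_tensor hz.nilpotent hz.nilpotent, TensorProduct.map_tmul]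

end Words

end Crest.Agent.R172.Fwd
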