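import Crest.Agent.R172.Fwd1
import Crest.Prelude.Def_SpinSaturation

/-!
Row 172, translation T4: generation of `so(2n, ℂ)` by root vectors, invariant trilinear forms and the
power lemma.
-/

set_option autoImplicit false

namespace Crest.Agent.R172.Fwd

open TensorProduct Matrix Crest.AlgebraR.SpinSaturation

section SoD

variable {n : ℕ}

theorem mem_typeD_iff (X : Matrix (Fin n ⊕ Fin n) (Fin n ⊕ Fin n) ℂ) :
    X ∈ LieAlgebra.Orthogonal.typeD (Fin n) ℂ ↔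
      X.toBlocks₂₂ = -(X.toBlocks₁₁)ᵀ ∧ X.toBlocks₁₂ᵀ = -X.toBlocks₁₂ ∧
        X.toBlocks₂₁ᵀ = -X.toBlocks₂₁ := by
  rw [LieAlgebra.Orthogonal.typeD, mem_skewAdjointMatricesLieSubalgebra,
    mem_skewAdjointMatricesSubmodule, Matrix.IsSkewAdjoint, Matrix.IsAdjointPair]
  obtain ⟨A, B, C, D, rfl⟩ : ∃ A B C D, X = Matrix.fromBlocks A B C D :=
    ⟨_, _, _, _, (Matrix.fromBlocks_toBlocks X).symm⟩
  simp only [LieAlgebra.Orthogonal.JD, Matrix.fromBlocks_transpose, Matrix.fromBlocks_multiply,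
    Matrix.fromBlocks_neg, Matrix.fromBlocks_inj, Matrix.toBlocks_fromBlocks₁₁,
    Matrix.toBlocks_fromBlocks₁₂, Matrix.toBlocks_fromBlocks₂₁, Matrix.toBlocks_fromBlocks₂₂]
  simp only [Matrix.mul_zero, Matrix.mul_one, zero_add, add_zero, Matrix.zero_mul, Matrix.one_mul]
  constructor
  · rintro ⟨h1, h2, h3, h4⟩
    refine ⟨?_, h4, h1⟩
    rw [h2, neg_neg]
  · rintro ⟨h1, h2, h3⟩
    refine ⟨h3, ?_, ?_, h2⟩
    · rw [h1, neg_neg]
    · rw [h1, Matrix.transpose_neg, Matrix.transpose_transpose]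

theorem z0 : (0 : Matrix (Fin n) (Fin n) ℂ)ᵀ = -0 := by simp

/-- the element `[[A, B], [C, -Aᵀ]]`. -/
def mk (A B C : Matrix (Fin n) (Fin n) ℂ) (hB : Bᵀ = -B) (hC : Cᵀ = -C) : soD n :=
  ⟨Matrix.fromBlocks A B C (-Aᵀ), by
    rw [mem_typeD_iff]
    simp [hB, hC]⟩

theorem exists_mk (X : soD n) : ∃ (A B C : Matrix (Fin n) (Fin n) ℂ) (hB : Bᵀ = -B)
    (hC : Cᵀ = -C), X = mk A B C hB hC := by
  obtain ⟨X, hX⟩ := X
  have h := (mem_typeD_iff X).1 hX
  refine ⟨X.toBlocks₁₁, X.toBlocks₁₂, X.toBlocks₂₁, h.2.1, h.2.2, ?_⟩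
  apply Subtype.ext
  change X = Matrix.fromBlocks _ _ _ _
  rw [← h.1, Matrix.fromBlocks_toBlocks]

theorem lie_mk (A B C A' B' C' : Matrix (Fin n) (Fin n) ℂ) (hB : Bᵀ = -B) (hC : Cᵀ = -C)
    (hB' : B'ᵀ = -B') (hC' : C'ᵀ = -C') :
    ((⁅mk A B C hB hC, mk A' B' C' hB' hC'⁆ : soD n) : Matrix (Fin n ⊕ Fin n) (Fin n ⊕ Fin n) ℂ) =
      Matrix.fromBlocks (A * A' + B * C' - (A' * A + B' * C)) (A * B' - B * A'ᵀ - (A' * B - B' * Aᵀ))
        (C * A' - Aᵀ * C' - (C' * A - A'ᵀ * C)) (C * B' + Aᵀ * A'ᵀ - (C' * B + A'ᵀ * Aᵀ)) := by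
  change ⁅(Matrix.fromBlocks A B C (-Aᵀ)), (Matrix.fromBlocks A' B' C' (-A'ᵀ))⁆ = _
  rw [Ring.lie_def, Matrix.fromBlocks_multiply, Matrix.fromBlocks_multiply,
    sub_eq_add_neg, Matrix.fromBlocks_neg, Matrix.fromBlocks_add]
  congr 1 <;> simp [sub_eq_add_neg]

theorem mk_zero_B (B : Matrix (Fin n) (Fin n) ℂ) (hB : Bᵀ = -B) :
    Rt (mk 0 B 0 hB z0) := by
  refine ⟨mk 1 0 0 z0 z0, 2, two_ne_zero, ?_⟩
  apply Subtype.ext
  rw [lie_mk]
  change _ = (2 : ℂ) • (Matrix.fromBlocks 0 B 0 (-0ᵀ) : Matrix (Fin n ⊕ Fin n) (Fin n ⊕ Fin n) ℂ)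
  rw [Matrix.fromBlocks_smul]
  congr 1 <;> simp [two_smul]

theorem mk_zero_C (C : Matrix (Fin n) (Fin n) ℂ) (hC : Cᵀ = -C) :
    Rt (mk 0 0 C z0 hC) := by
  refine ⟨mk 1 0 0 z0 z0, -2, by norm_num, ?_⟩
  apply Subtype.ext
  rw [lie_mk]
  change _ = (-2 : ℂ) • (Matrix.fromBlocks 0 0 C (-0ᵀ) : Matrix (Fin n ⊕ Fin n) (Fin n ⊕ Fin n) ℂ)
  rw [Matrix.fromBlocks_smul]
  congr 1 <;> simp [two_smul, sub_eq_add_neg]

theorem mk_single (i j : Fin n) (hij : i ≠ j) :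
    Rt (mk (Matrix.single i j 1) 0 0 z0 z0) := by
  refine ⟨mk (Matrix.single i i 1) 0 0 z0 z0, 1, one_ne_zero, ?_⟩
  apply Subtype.ext
  rw [lie_mk, one_smul]
  change _ = (Matrix.fromBlocks (Matrix.single i j 1) 0 0 (-(Matrix.single i j 1)ᵀ) :
    Matrix (Fin n ⊕ Fin n) (Fin n ⊕ Fin n) ℂ)
  congr 1
  · simp [Matrix.single_mul_single_of_ne, hij, hij.symm]
  · simp
  · simp
  · simp [Matrix.transpose_single, hij, hij.symm]

theorem single_skew (i j : Fin n) :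
    (Matrix.single i j (1 : ℂ) - Matrix.single j i 1)ᵀ = -(Matrix.single i j 1 - Matrix.single j i 1) := by
  simp [Matrix.transpose_sub, Matrix.transpose_single]

/-- `so(2n)` is generated by root vectors. -/
theorem lieSpan_rt (hn : 2 ≤ n) : LieSubalgebra.lieSpan ℂ (soD n) {z : soD n | Rt z} = ⊤ := by
  set K := LieSubalgebra.lieSpan ℂ (soD n) {z : soD n | Rt z} with hK
  have hsub : ∀ z : soD n, Rt z → z ∈ K := fun z hz => LieSubalgebra.subset_lieSpan hz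
  -- diagonal units
  have hA : ∀ i j : Fin n, i ≠ j → mk (Matrix.single i j 1) 0 0 z0 z0 ∈ K :=
    fun i j hij => hsub _ (mk_single i j hij)
  have hd1 : ∀ i j : Fin n, i ≠ j →
      mk (Matrix.single i i 1 - Matrix.single j j 1) 0 0 z0 z0 ∈ K := by
    intro i j hij
    have h := K.lie_mem (hA i j hij) (hA j i hij.symm)
    convert h using 1
    apply Subtype.ext
    rw [lie_mk]
    change Matrix.fromBlocks _ _ _ _ = _
    congr 1
    · simp
    · simp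
    · simp
    · simp [Matrix.transpose_sub, Matrix.transpose_single]
  have hd2 : ∀ i j : Fin n, i ≠ j →
      mk (Matrix.single i i 1 + Matrix.single j j 1) 0 0 z0 z0 ∈ K := by
    intro i j hij
    have h := K.lie_mem (hsub _ (mk_zero_B _ (single_skew i j))) (hsub _ (mk_zero_C _ (single_skew j i)))
    convert h using 1
    apply Subtype.ext
    rw [lie_mk]
    change Matrix.fromBlocks _ _ _ _ = _
    congr 1
    · simp [Matrix.mul_sub, Matrix.sub_mul, Matrix.single_mul_single_of_ne, hij, hij.symm, add_comm]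
    · simp
    · simp
    · simp [Matrix.mul_sub, Matrix.sub_mul, Matrix.single_mul_single_of_ne, hij, hij.symm,
        Matrix.transpose_add, Matrix.transpose_single, add_comm]
  have hd : ∀ i : Fin n, mk (Matrix.single i i 1) 0 0 z0 z0 ∈ K := by
    intro i
    obtain ⟨j, hj⟩ : ∃ j : Fin n, i ≠ j := by
      haveI : Nontrivial (Fin n) := Fin.nontrivial_iff_two_le.2 hn
      obtain ⟨j, hj⟩ := exists_ne i
      exact ⟨j, hj.symm⟩
    have h := K.smul_mem (2⁻¹ : ℂ) (K.add_mem (hd1 i j hj) (hd2 i j hj))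
    convert h using 1
    apply Subtype.ext
    change Matrix.fromBlocks _ _ _ _ =
      (2⁻¹ : ℂ) • (Matrix.fromBlocks _ _ _ _ + Matrix.fromBlocks _ _ _ _)
    rw [Matrix.fromBlocks_add, Matrix.fromBlocks_smul]
    have e : (2⁻¹ : ℂ) • (Matrix.single i i (1 : ℂ) - Matrix.single j j 1 +
        (Matrix.single i i 1 + Matrix.single j j 1)) = Matrix.single i i 1 := by
      rw [sub_add_add_cancel, ← two_smul ℂ, smul_smul]; norm_num
    congr 1
    · exact e.symm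
    · simp
    · simp
    · have h6 : ∀ P Q : Matrix (Fin n) (Fin n) ℂ,
          -Pᵀ = (2⁻¹ : ℂ) • (-(P - Q)ᵀ + -(P + Q)ᵀ) := by
        intro P Q
        rw [Matrix.transpose_sub, Matrix.transpose_add]
        module
      exact h6 _ _
  have hall : ∀ A : Matrix (Fin n) (Fin n) ℂ, mk A 0 0 z0 z0 ∈ K := by
    intro A
    have e : mk A 0 0 z0 z0 = ∑ i, ∑ j, (A i j) • mk (Matrix.single i j 1) 0 0 z0 z0 := by
      apply Subtype.ext
      have e1 : ((∑ i, ∑ j, (A i j) • mk (Matrix.single i j 1) 0 0 z0 z0 : soD n) :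
          Matrix (Fin n ⊕ Fin n) (Fin n ⊕ Fin n) ℂ) =
          ∑ i, ∑ j, (A i j) • (Matrix.fromBlocks (Matrix.single i j 1) 0 0
            (-(Matrix.single i j 1)ᵀ) : Matrix (Fin n ⊕ Fin n) (Fin n ⊕ Fin n) ℂ) := by
        push_cast
        rfl
      rw [e1]
      change (Matrix.fromBlocks A 0 0 (-Aᵀ)) = _
      ext a b
      rcases a with a | a <;> rcases b with b | b <;>
        simp [Matrix.sum_apply, Matrix.fromBlocks_smul, Matrix.single_apply, Finset.sum_ite_eq,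
          ite_and]
    rw [e]
    refine K.toSubmodule.sum_mem fun i _ => K.toSubmodule.sum_mem fun j _ =>
      K.toSubmodule.smul_mem _ ?_
    by_cases hij : i = j
    · subst hij; exact hd i
    · exact hA i j hij
  rw [eq_top_iff]
  intro X _
  obtain ⟨A, B, C, hB, hC, rfl⟩ := exists_mk X
  have e : mk A B C hB hC = mk A 0 0 z0 z0 + (mk 0 B 0 hB z0 + mk 0 0 C z0 hC) := by
    apply Subtype.ext
    change Matrix.fromBlocks _ _ _ _ =
      Matrix.fromBlocks _ _ _ _ + (Matrix.fromBlocks _ _ _ _ + Matrix.fromBlocks _ _ _ _)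
    rw [Matrix.fromBlocks_add, Matrix.fromBlocks_add]
    congr 1 <;> simp
  rw [e]
  exact K.add_mem (hall A) (K.add_mem (hsub _ (mk_zero_B B hB)) (hsub _ (mk_zero_C C hC)))

end SoD

end Crest.Agent.R172.Fwd
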