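import Crest.Agent.R172.SoGrade

/-!
Row 172.  Star forms (positive definite contravariant Hermitian forms) on `soD n`-modules.
-/

set_option autoImplicit false
set_option linter.unusedSectionVars false

open Crest.AlgebraR.SpinSaturation
open scoped Matrix TensorProduct ComplexConjugate

namespace Crest.Agent.R172.Star

open Crest.Agent.R172.SoGrade

variable {n : ℕ}

/-- conjugate transpose on `soD n` -/
noncomputable def hc (A : soD n) : soD n :=
  ⟨A.1ᴴ, by
    rw [mem_soD]
    intro p q
    rw [Matrix.conjTranspose_apply, Matrix.conjTranspose_apply, mem_soD.1 A.2 q p]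
    simp⟩

theorem hc_apply (A : soD n) (p q : Fin n ⊕ Fin n) : (hc A).1 p q = conj (A.1 q p) := rfl

@[simp] theorem hc_hc (A : soD n) : hc (hc A) = A := by
  apply Subtype.ext
  ext p q
  rw [hc_apply, hc_apply, Complex.conj_conj]

/-- A positive definite Hermitian form (conjugate linear in the first variable) for which the
adjoint of the action of `A` is the action of the conjugate transpose of `A`. -/
structure StarForm (n : ℕ) (X : Type*) [AddCommGroup X] [Module ℂ X]
    [LieRingModule (soD n) X] where
  /-- the inner product -/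
  core : InnerProductSpace.Core ℂ X
  adj : ∀ (A : soD n) (x y : X), core.inner ⁅A, x⁆ y = core.inner x ⁅hc A, y⁆

section ofPi

variable {ι : Type*} [Fintype ι]

/-- the standard inner product on `ι → ℂ` -/
@[reducible] noncomputable def piCore (ι : Type*) [Fintype ι] : InnerProductSpace.Core ℂ (ι → ℂ) where
  inner x y := ∑ i, conj (x i) * y i
  conj_inner_symm x y := by
    simp only [map_sum, map_mul, Complex.conj_conj]
    exact Finset.sum_congr rfl fun i _ => mul_comm _ _
  re_inner_nonneg x := by
    simp only [map_sum]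
    refine Finset.sum_nonneg fun i _ => ?_
    have h : conj (x i) * x i = ((‖x i‖ ^ 2 : ℝ) : ℂ) := by
      rw [Complex.conj_mul']
      norm_cast
    rw [h]
    change (0 : ℝ) ≤ (((‖x i‖ ^ 2 : ℝ) : ℂ)).re
    rw [Complex.ofReal_re]
    positivity
  add_left x y z := by
    simp only [Pi.add_apply, map_add, add_mul, Finset.sum_add_distrib]
  smul_left x y r := by
    simp only [Pi.smul_apply, smul_eq_mul, map_mul, Finset.mul_sum, mul_assoc]
  definite x hx := by
    have h : ∑ i, ((‖x i‖ ^ 2 : ℝ) : ℂ) = 0 := by
      rw [← hx]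
      refine Finset.sum_congr rfl fun i _ => ?_
      rw [Complex.conj_mul']
      norm_cast
    rw [← Complex.ofReal_sum] at h
    have h2 : ∑ i, ‖x i‖ ^ 2 = 0 := by exact_mod_cast h
    rw [Finset.sum_eq_zero_iff_of_nonneg (fun i _ => by positivity)] at h2
    funext i
    have := h2 i (Finset.mem_univ _)
    simpa using this

theorem piCore_inner (x y : ι → ℂ) : (piCore ι).inner x y = ∑ i, conj (x i) * y i := rfl

/-- Star form on `ι → ℂ` from the adjoint property. -/
noncomputable def StarForm.ofPi [LieRingModule (soD n) (ι → ℂ)]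
    (h : ∀ (A : soD n) (x y : ι → ℂ),
      ∑ i, conj (⁅A, x⁆ i) * y i = ∑ i, conj (x i) * ⁅hc A, y⁆ i) :
    StarForm n (ι → ℂ) where
  core := piCore ι
  adj := h

end ofPi

section tensor

variable {X Y : Type*} [AddCommGroup X] [Module ℂ X] [LieRingModule (soD n) X]
  [LieModule ℂ (soD n) X]
  [AddCommGroup Y] [Module ℂ Y] [LieRingModule (soD n) Y] [LieModule ℂ (soD n) Y]

theorem core_add_right (c : InnerProductSpace.Core ℂ X) (x y z : X) :
    c.inner x (y + z) = c.inner x y + c.inner x z := by
  rw [← c.conj_inner_symm, c.add_left, map_add, c.conj_inner_symm, c.conj_inner_symm]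

theorem core_smul_right (c : InnerProductSpace.Core ℂ X) (x y : X) (r : ℂ) :
    c.inner x (r • y) = r * c.inner x y := by
  rw [← c.conj_inner_symm, c.smul_left, map_mul, c.conj_inner_symm, Complex.conj_conj]

theorem core_zero_left (c : InnerProductSpace.Core ℂ X) (x : X) : c.inner 0 x = 0 := by
  have := c.smul_left 0 x 0
  simpa using this

theorem core_zero_right (c : InnerProductSpace.Core ℂ X) (x : X) : c.inner x 0 = 0 := by
  have := core_smul_right c x 0 0
  simpa using this

theorem exists_tensor_core_aux {X Y : Type*} [NormedAddCommGroup X] [InnerProductSpace ℂ X]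
    [NormedAddCommGroup Y] [InnerProductSpace ℂ Y] :
    ∃ c : InnerProductSpace.Core ℂ (X ⊗[ℂ] Y), ∀ (x x' : X) (y y' : Y),
      c.inner (x ⊗ₜ[ℂ] y) (x' ⊗ₜ[ℂ] y') = inner ℂ x x' * inner ℂ y y' := by
  refine ⟨{ inner := fun s t => inner ℂ s t, conj_inner_symm := ?_, re_inner_nonneg := ?_, add_left := ?_, smul_left := ?_, definite := ?_ }, ?_⟩
  · intro x y; exact inner_conj_symm (𝕜 := ℂ) (E := X ⊗[ℂ] Y) _ _
  · intro x; exact inner_self_nonneg (𝕜 := ℂ) (E := X ⊗[ℂ] Y)
  · intro x y z; exact inner_add_left (𝕜 := ℂ) (E := X ⊗[ℂ] Y) _ _ _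
  · intro x y r; exact inner_smul_left (𝕜 := ℂ) (E := X ⊗[ℂ] Y) _ _ _
  · intro x hx; exact (inner_self_eq_zero (𝕜 := ℂ) (E := X ⊗[ℂ] Y)).1 hx
  · intro x x' y y'
    exact TensorProduct.inner_tmul ℂ x x' y y'

/-- tensor product of cores -/
theorem exists_tensor_core (cX : InnerProductSpace.Core ℂ X) (cY : InnerProductSpace.Core ℂ Y) :
    ∃ c : InnerProductSpace.Core ℂ (X ⊗[ℂ] Y), ∀ x x' y y',
      c.inner (x ⊗ₜ[ℂ] y) (x' ⊗ₜ[ℂ] y') = cX.inner x x' * cY.inner y y' := by
  let nX : NormedAddCommGroup X := cX.toNormedAddCommGroup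
  let iX : InnerProductSpace ℂ X := InnerProductSpace.ofCore cX.toCore
  let nY : NormedAddCommGroup Y := cY.toNormedAddCommGroup
  let iY : InnerProductSpace ℂ Y := InnerProductSpace.ofCore cY.toCore
  exact exists_tensor_core_aux (X := X) (Y := Y)

/-- Star form on a tensor product -/
noncomputable def StarForm.tensor (sX : StarForm n X) (sY : StarForm n Y) :
    StarForm n (X ⊗[ℂ] Y) where
  core := (exists_tensor_core sX.core sY.core).choose
  adj := by
    intro A s t
    set c := (exists_tensor_core sX.core sY.core).choose with hc'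
    have hcs := (exists_tensor_core sX.core sY.core).choose_spec
    rw [← hc'] at hcs
    induction s using TensorProduct.induction_on with
    | zero => rw [lie_zero, core_zero_left, core_zero_left]
    | add a b ha hb => rw [lie_add, c.add_left, c.add_left, ha, hb]
    | tmul x y =>
      induction t using TensorProduct.induction_on with
      | zero => rw [lie_zero, core_zero_right, core_zero_right]
      | add a b ha hb => rw [lie_add, core_add_right, core_add_right, ha, hb]
      | tmul x' y' =>
        rw [TensorProduct.LieModule.lie_tmul_right, TensorProduct.LieModule.lie_tmul_right,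
          c.add_left, core_add_right, hcs, hcs, hcs, hcs, sX.adj, sY.adj]

theorem StarForm.tensor_inner (sX : StarForm n X) (sY : StarForm n Y) (x x' : X) (y y' : Y) :
    (sX.tensor sY).core.inner (x ⊗ₜ[ℂ] y) (x' ⊗ₜ[ℂ] y') =
      sX.core.inner x x' * sY.core.inner y y' :=
  (exists_tensor_core sX.core sY.core).choose_spec x x' y y'

end tensor

end Crest.Agent.R172.Star
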