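import Crest.Agent.R172.Fwd2
import Crest.Agent.R172.StarDefs

/-!
Row 172, translation T4: invariant functionals on triple tensor products, products of invariant
functionals, tensor powers of highest weight vectors.
-/

set_option autoImplicit false

namespace Crest.Agent.R172.Fwd

open TensorProduct Crest.AlgebraR.SpinSaturation

section General

variable {L : Type*} [LieRing L] [LieAlgebra ℂ L]
variable {X Y Z X' Y' Z' : Type*}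
  [AddCommGroup X] [Module ℂ X] [LieRingModule L X] [LieModule ℂ L X]
  [AddCommGroup Y] [Module ℂ Y] [LieRingModule L Y] [LieModule ℂ L Y]
  [AddCommGroup Z] [Module ℂ Z] [LieRingModule L Z] [LieModule ℂ L Z]
  [AddCommGroup X'] [Module ℂ X'] [LieRingModule L X'] [LieModule ℂ L X']
  [AddCommGroup Y'] [Module ℂ Y'] [LieRingModule L Y'] [LieModule ℂ L Y']
  [AddCommGroup Z'] [Module ℂ Z'] [LieRingModule L Z'] [LieModule ℂ L Z']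

theorem exists_words [FiniteDimensional ℂ X] [FiniteDimensional ℂ Y] [FiniteDimensional ℂ Z]
    (hL : LieSubalgebra.lieSpan ℂ L {z : L | Rt z} = ⊤)
    (lam : X ⊗[ℂ] (Y ⊗[ℂ] Z) →ₗ[ℂ] ℂ) (x : X) (y : Y) (z : Z) {p : X} {q : Y} {r : Z}
    (hp : p ∈ LieSubmodule.lieSpan ℂ L {x}) (hq : q ∈ LieSubmodule.lieSpan ℂ L {y})
    (hr : r ∈ LieSubmodule.lieSpan ℂ L {z}) (h : lam (p ⊗ₜ[ℂ] (q ⊗ₜ[ℂ] r)) ≠ 0) :
    ∃ w₁ w₂ w₃ : List L, Wd w₁ ∧ Wd w₂ ∧ Wd w₃ ∧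
      lam ((act X w₁ x) ⊗ₜ[ℂ] ((act Y w₂ y) ⊗ₜ[ℂ] (act Z w₃ z))) ≠ 0 := by
  by_contra hcon
  push Not at hcon
  have h3 : ∀ w₁ w₂ : List L, Wd w₁ → Wd w₂ →
      lam ((act X w₁ x) ⊗ₜ[ℂ] ((act Y w₂ y) ⊗ₜ[ℂ] r)) = 0 := by
    intro w₁ w₂ hw₁ hw₂
    refine Submodule.span_induction
      (p := fun r _ => lam ((act X w₁ x) ⊗ₜ[ℂ] ((act Y w₂ y) ⊗ₜ[ℂ] r)) = 0) ?_ ?_ ?_ ?_
      (mem_span_words hL z hr)
    · rintro _ ⟨w₃, hw₃, rfl⟩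
      exact hcon w₁ w₂ w₃ hw₁ hw₂ hw₃
    · simp
    · intro a b _ _ ha hb
      rw [TensorProduct.tmul_add, TensorProduct.tmul_add, map_add, ha, hb, add_zero]
    · intro c a _ ha
      rw [TensorProduct.tmul_smul, TensorProduct.tmul_smul, map_smul, ha, smul_zero]
  have h2 : ∀ w₁ : List L, Wd w₁ → lam ((act X w₁ x) ⊗ₜ[ℂ] (q ⊗ₜ[ℂ] r)) = 0 := by
    intro w₁ hw₁
    refine Submodule.span_induction
      (p := fun q _ => lam ((act X w₁ x) ⊗ₜ[ℂ] (q ⊗ₜ[ℂ] r)) = 0) ?_ ?_ ?_ ?_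
      (mem_span_words hL y hq)
    · rintro _ ⟨w₂, hw₂, rfl⟩
      exact h3 w₁ w₂ hw₁ hw₂
    · simp
    · intro a b _ _ ha hb
      rw [TensorProduct.add_tmul, TensorProduct.tmul_add, map_add, ha, hb, add_zero]
    · intro c a _ ha
      rw [← TensorProduct.smul_tmul', TensorProduct.tmul_smul, map_smul, ha, smul_zero]
  refine h (Submodule.span_induction
      (p := fun p _ => lam (p ⊗ₜ[ℂ] (q ⊗ₜ[ℂ] r)) = 0) ?_ ?_ ?_ ?_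
      (mem_span_words hL x hp))
  · rintro _ ⟨w₁, hw₁, rfl⟩
    exact h2 w₁ hw₁
  · simp
  · intro a b _ _ ha hb
    rw [TensorProduct.add_tmul, map_add, ha, hb, add_zero]
  · intro c a _ ha
    rw [← TensorProduct.smul_tmul', map_smul, ha, smul_zero]

/-- words map the highest weight vector into its cyclic submodule -/
theorem act_mem_lieSpan [FiniteDimensional ℂ X] {w : List L} (hw : Wd w) (x : X) :
    act X w x ∈ LieSubmodule.lieSpan ℂ L {x} :=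
  act_mem _ hw (LieSubmodule.subset_lieSpan (Set.mem_singleton x))

/-- product of two functionals -/
noncomputable def prodF (lam : X ⊗[ℂ] (Y ⊗[ℂ] Z) →ₗ[ℂ] ℂ) (mu : X' ⊗[ℂ] (Y' ⊗[ℂ] Z') →ₗ[ℂ] ℂ) :
    (X ⊗[ℂ] X') ⊗[ℂ] ((Y ⊗[ℂ] Y') ⊗[ℂ] (Z ⊗[ℂ] Z')) →ₗ[ℂ] ℂ :=
  (TensorProduct.lid ℂ ℂ).toLinearMap ∘ₗ (TensorProduct.map lam mu) ∘ₗ
    (TensorProduct.tensorTensorTensorComm ℂ X X' (Y ⊗[ℂ] Z) (Y' ⊗[ℂ] Z')).toLinearMap ∘ₗ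
      (LinearMap.lTensor (X ⊗[ℂ] X')
        (TensorProduct.tensorTensorTensorComm ℂ Y Y' Z Z').toLinearMap)

theorem prodF_tmul (lam : X ⊗[ℂ] (Y ⊗[ℂ] Z) →ₗ[ℂ] ℂ) (mu : X' ⊗[ℂ] (Y' ⊗[ℂ] Z') →ₗ[ℂ] ℂ)
    (x : X) (x' : X') (y : Y) (y' : Y') (z : Z) (z' : Z') :
    prodF lam mu ((x ⊗ₜ[ℂ] x') ⊗ₜ[ℂ] ((y ⊗ₜ[ℂ] y') ⊗ₜ[ℂ] (z ⊗ₜ[ℂ] z'))) =
      lam (x ⊗ₜ[ℂ] (y ⊗ₜ[ℂ] z)) * mu (x' ⊗ₜ[ℂ] (y' ⊗ₜ[ℂ] z')) := by
  simp [prodF]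

theorem prodF_inv {lam : X ⊗[ℂ] (Y ⊗[ℂ] Z) →ₗ[ℂ] ℂ} {mu : X' ⊗[ℂ] (Y' ⊗[ℂ] Z') →ₗ[ℂ] ℂ}
    (h : ∀ (A : L) (t : X ⊗[ℂ] (Y ⊗[ℂ] Z)), lam ⁅A, t⁆ = 0)
    (h' : ∀ (A : L) (t : X' ⊗[ℂ] (Y' ⊗[ℂ] Z')), mu ⁅A, t⁆ = 0)
    (A : L) (t : (X ⊗[ℂ] X') ⊗[ℂ] ((Y ⊗[ℂ] Y') ⊗[ℂ] (Z ⊗[ℂ] Z'))) :
    prodF lam mu ⁅A, t⁆ = 0 := by
  have key : (prodF lam mu) ∘ₗ (LieModule.toEnd ℂ L
      ((X ⊗[ℂ] X') ⊗[ℂ] ((Y ⊗[ℂ] Y') ⊗[ℂ] (Z ⊗[ℂ] Z'))) A) = 0 := by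
    ext x x' y y' z z'
    simp only [TensorProduct.AlgebraTensorModule.curry_apply, TensorProduct.curry_apply,
      LinearMap.restrictScalars_self, LinearMap.coe_comp, Function.comp_apply,
      LieModule.toEnd_apply_apply, TensorProduct.LieModule.lie_tmul_right,
      TensorProduct.add_tmul, TensorProduct.tmul_add, map_add, prodF_tmul, LinearMap.zero_apply]
    have e1 := h A (x ⊗ₜ[ℂ] (y ⊗ₜ[ℂ] z))
    have e2 := h' A (x' ⊗ₜ[ℂ] (y' ⊗ₜ[ℂ] z'))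
    simp only [TensorProduct.LieModule.lie_tmul_right, TensorProduct.tmul_add, map_add] at e1 e2
    linear_combination (mu (x' ⊗ₜ[ℂ] (y' ⊗ₜ[ℂ] z'))) * e1 + (lam (x ⊗ₜ[ℂ] (y ⊗ₜ[ℂ] z))) * e2
  exact LinearMap.congr_fun key t

end General

section HW

variable {n : ℕ}

theorem hwv_tensor {a b : Fin n → ℤ} {X Y : Type*} [AddCommGroup X] [Module ℂ X]
    [LieRingModule (soD n) X] [LieModule ℂ (soD n) X]
    [AddCommGroup Y] [Module ℂ Y] [LieRingModule (soD n) Y] [LieModule ℂ (soD n) Y]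
    {x : X} {y : Y} (hx : IsHighestWeightVector n a x) (hy : IsHighestWeightVector n b y) :
    IsHighestWeightVector n (a + b) (x ⊗ₜ[ℂ] y) := by
  obtain ⟨hx0, hx1, hx2⟩ := hx
  obtain ⟨hy0, hy1, hy2⟩ := hy
  refine ⟨?_, ?_, ?_⟩
  · intro h
    obtain ⟨φ, hφ⟩ : ∃ φ : Module.Dual ℂ X, φ x ≠ 0 := by
      by_contra hc
      push Not at hc
      exact hx0 ((Module.forall_dual_apply_eq_zero_iff ℂ x).1 hc)
    obtain ⟨ψ, hψ⟩ : ∃ ψ : Module.Dual ℂ Y, ψ y ≠ 0 := by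
      by_contra hc
      push Not at hc
      exact hy0 ((Module.forall_dual_apply_eq_zero_iff ℂ y).1 hc)
    have h2 := congrArg (fun t => TensorProduct.lid ℂ ℂ (TensorProduct.map φ ψ t)) h
    simp only [TensorProduct.map_tmul, TensorProduct.lid_tmul, map_zero, smul_eq_mul] at h2
    exact mul_ne_zero hφ hψ h2
  · intro h A hA
    rw [TensorProduct.LieModule.lie_tmul_right, hx1 h A hA, hy1 h A hA,
      TensorProduct.tmul_smul, ← TensorProduct.smul_tmul', ← add_smul]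
    congr 1
    rw [← Finset.sum_add_distrib]
    refine Finset.sum_congr rfl fun i _ => ?_
    rw [Pi.add_apply]
    push_cast
    ring
  · intro A h1 h2
    rw [TensorProduct.LieModule.lie_tmul_right, hx2 A h1 h2, hy2 A h1 h2]
    simp

/-- A finite dimensional `soD n`-module with star form and highest weight vector of weight `a`. -/
structure HW (n : ℕ) (a : Fin n → ℤ) where
  /-- the space -/
  V : Type
  [i1 : AddCommGroup V]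
  [i2 : Module ℂ V]
  [i3 : LieRingModule (soD n) V]
  [i4 : LieModule ℂ (soD n) V]
  fd : FiniteDimensional ℂ V
  /-- the star form -/
  star : Star.StarForm n V
  /-- the highest weight vector -/
  x : V
  hx : IsHighestWeightVector n a x

attribute [instance] HW.i1 HW.i2 HW.i3 HW.i4 HW.fd

/-- tensor product -/
noncomputable def HW.tensor {a b : Fin n → ℤ} (M : HW n a) (N : HW n b) : HW n (a + b) where
  V := M.V ⊗[ℂ] N.V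
  fd := inferInstance
  star := M.star.tensor N.star
  x := M.x ⊗ₜ[ℂ] N.x
  hx := hwv_tensor M.hx N.hx

/-- The power lemma. -/
theorem power_lemma {a b c : Fin n → ℤ} (X : HW n a) (Y : HW n b) (Z : HW n c)
    (lam : X.V ⊗[ℂ] (Y.V ⊗[ℂ] Z.V) →ₗ[ℂ] ℂ)
    (hinv : ∀ (A : soD n) (t : X.V ⊗[ℂ] (Y.V ⊗[ℂ] Z.V)), lam ⁅A, t⁆ = 0)
    (w₁ w₂ w₃ : List (soD n)) (hw₁ : Wd w₁) (hw₂ : Wd w₂) (hw₃ : Wd w₃)
    (hne : lam ((act X.V w₁ X.x) ⊗ₜ[ℂ] ((act Y.V w₂ Y.x) ⊗ₜ[ℂ] (act Z.V w₃ Z.x))) ≠ 0) (k : ℕ) :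
    ∃ (X' : HW n ((k + 1) • a)) (Y' : HW n ((k + 1) • b)) (Z' : HW n ((k + 1) • c))
      (mu : X'.V ⊗[ℂ] (Y'.V ⊗[ℂ] Z'.V) →ₗ[ℂ] ℂ),
      (∀ (A : soD n) (t : X'.V ⊗[ℂ] (Y'.V ⊗[ℂ] Z'.V)), mu ⁅A, t⁆ = 0) ∧
      mu ((act X'.V w₁ X'.x) ⊗ₜ[ℂ] ((act Y'.V w₂ Y'.x) ⊗ₜ[ℂ] (act Z'.V w₃ Z'.x))) ≠ 0 := by
  induction k with
  | zero =>
    rw [zero_add, one_smul, one_smul, one_smul]
    exact ⟨X, Y, Z, lam, hinv, hne⟩
  | succ k ih =>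
    obtain ⟨X', Y', Z', mu, h1, h2⟩ := ih
    rw [add_smul (k + 1) 1 a, add_smul (k + 1) 1 b, add_smul (k + 1) 1 c, one_smul, one_smul,
      one_smul]
    refine ⟨X'.tensor X, Y'.tensor Y, Z'.tensor Z, prodF mu lam, ?_, ?_⟩
    · exact prodF_inv h1 hinv
    · have e := prodF_tmul mu lam (act X'.V w₁ X'.x) (act X.V w₁ X.x) (act Y'.V w₂ Y'.x)
        (act Y.V w₂ Y.x) (act Z'.V w₃ Z'.x) (act Z.V w₃ Z.x)
      rw [← act_tmul hw₁, ← act_tmul hw₂, ← act_tmul hw₃] at e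
      have e' : prodF mu lam ((act (X'.V ⊗[ℂ] X.V) w₁ (X'.x ⊗ₜ[ℂ] X.x)) ⊗ₜ[ℂ]
          ((act (Y'.V ⊗[ℂ] Y.V) w₂ (Y'.x ⊗ₜ[ℂ] Y.x)) ⊗ₜ[ℂ]
            (act (Z'.V ⊗[ℂ] Z.V) w₃ (Z'.x ⊗ₜ[ℂ] Z.x)))) ≠ 0 := by
        rw [e]
        exact mul_ne_zero h2 hne
      exact e'

end HW

end Crest.Agent.R172.Fwd
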