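import Crest.Agent.R172.HermSplit

/-!
Row 172.  Tensor powers of the standard module of `soD n` in coordinates.
-/

set_option autoImplicit false
set_option linter.unusedSectionVars false

open Crest.AlgebraR.SpinSaturation
open scoped Matrix TensorProduct ComplexConjugate

namespace Crest.Agent.R172.TPow

open Crest.Agent.R172.SoGrade Crest.Agent.R172.Star

/-- The tensor power of `ℂ^(Fin n ⊕ Fin n)` indexed by `ι`, in coordinates. -/
def TP (n : ℕ) (ι : Type*) : Type _ := (ι → Fin n ⊕ Fin n) → ℂ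

variable {n : ℕ} {ι : Type*}

noncomputable instance : AddCommGroup (TP n ι) :=
  inferInstanceAs (AddCommGroup ((ι → Fin n ⊕ Fin n) → ℂ))

noncomputable instance : Module ℂ (TP n ι) :=
  inferInstanceAs (Module ℂ ((ι → Fin n ⊕ Fin n) → ℂ))

noncomputable instance [Fintype ι] [DecidableEq ι] : FiniteDimensional ℂ (TP n ι) :=
  inferInstanceAs (FiniteDimensional ℂ ((ι → Fin n ⊕ Fin n) → ℂ))

theorem add_apply' (f g : TP n ι) (p : ι → Fin n ⊕ Fin n) : (f + g) p = f p + g p := rfl
theorem smul_apply' (c : ℂ) (f : TP n ι) (p : ι → Fin n ⊕ Fin n) : (c • f) p = c * f p := rfl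
theorem sub_apply' (f g : TP n ι) (p : ι → Fin n ⊕ Fin n) : (f - g) p = f p - g p := rfl
theorem zero_apply' (p : ι → Fin n ⊕ Fin n) : (0 : TP n ι) p = 0 := rfl
theorem sum_apply' {α : Type*} (s : Finset α) (f : α → TP n ι) (p : ι → Fin n ⊕ Fin n) :
    (∑ a ∈ s, f a) p = ∑ a ∈ s, f a p :=
  Finset.sum_apply p s f

@[ext] theorem TP.ext' {f g : TP n ι} (h : ∀ p, f p = g p) : f = g := funext h

variable [DecidableEq ι]

/-- the matrix `A` acting in slot `s` -/
noncomputable def slot (s : ι) (A : Matrix (Fin n ⊕ Fin n) (Fin n ⊕ Fin n) ℂ) :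
    TP n ι →ₗ[ℂ] TP n ι where
  toFun f := fun p => ∑ q, A (p s) q * f (Function.update p s q)
  map_add' f g := by
    ext p
    change ∑ q, A (p s) q * (f (Function.update p s q) + g (Function.update p s q)) =
      (∑ q, A (p s) q * f (Function.update p s q)) + ∑ q, A (p s) q * g (Function.update p s q)
    simp only [mul_add, Finset.sum_add_distrib]
  map_smul' c f := by
    ext p
    change ∑ q, A (p s) q * (c * f (Function.update p s q)) =
      c * ∑ q, A (p s) q * f (Function.update p s q)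
    rw [Finset.mul_sum]
    exact Finset.sum_congr rfl fun q _ => by ring

theorem slot_apply (s : ι) (A : Matrix (Fin n ⊕ Fin n) (Fin n ⊕ Fin n) ℂ) (f : TP n ι)
    (p : ι → Fin n ⊕ Fin n) :
    slot s A f p = ∑ q, A (p s) q * f (Function.update p s q) := rfl

theorem slot_add (s : ι) (A B : Matrix (Fin n ⊕ Fin n) (Fin n ⊕ Fin n) ℂ) :
    slot s (A + B) = slot s A + slot s B := by
  ext f p
  rw [LinearMap.add_apply, add_apply']
  simp only [slot_apply, Matrix.add_apply, add_mul, Finset.sum_add_distrib]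

theorem slot_smul (s : ι) (c : ℂ) (A : Matrix (Fin n ⊕ Fin n) (Fin n ⊕ Fin n) ℂ) :
    slot s (c • A) = c • slot s A := by
  ext f p
  rw [LinearMap.smul_apply, smul_apply']
  simp only [slot_apply, Matrix.smul_apply, smul_eq_mul, Finset.mul_sum, mul_assoc]

theorem slot_sub (s : ι) (A B : Matrix (Fin n ⊕ Fin n) (Fin n ⊕ Fin n) ℂ) :
    slot s (A - B) = slot s A - slot s B := by
  ext f p
  rw [LinearMap.sub_apply, sub_apply']
  simp only [slot_apply, Matrix.sub_apply, sub_mul, Finset.sum_sub_distrib]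

theorem slot_mul (s : ι) (A B : Matrix (Fin n ⊕ Fin n) (Fin n ⊕ Fin n) ℂ) :
    slot s (A * B) = slot s A ∘ₗ slot s B := by
  ext f p
  rw [LinearMap.comp_apply]
  simp only [slot_apply, Matrix.mul_apply, Function.update_self, Function.update_idem,
    Finset.mul_sum, Finset.sum_mul]
  rw [Finset.sum_comm]
  exact Finset.sum_congr rfl fun q _ => Finset.sum_congr rfl fun r _ => by ring

theorem slot_comm {s t : ι} (hst : s ≠ t) (A B : Matrix (Fin n ⊕ Fin n) (Fin n ⊕ Fin n) ℂ) :
    slot s A ∘ₗ slot t B = slot t B ∘ₗ slot s A := by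
  ext f p
  rw [LinearMap.comp_apply, LinearMap.comp_apply]
  simp only [slot_apply, Function.update_of_ne hst, Function.update_of_ne hst.symm,
    Finset.mul_sum]
  rw [Finset.sum_comm]
  refine Finset.sum_congr rfl fun q _ => Finset.sum_congr rfl fun r _ => ?_
  rw [Function.update_comm hst]
  ring

variable [Fintype ι]

/-- the action of matrices on the tensor power -/
noncomputable def rho (A : Matrix (Fin n ⊕ Fin n) (Fin n ⊕ Fin n) ℂ) :
    TP n ι →ₗ[ℂ] TP n ι := ∑ s, slot s A

theorem rho_apply (A : Matrix (Fin n ⊕ Fin n) (Fin n ⊕ Fin n) ℂ) (f : TP n ι)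
    (p : ι → Fin n ⊕ Fin n) :
    rho A f p = ∑ s, ∑ q, A (p s) q * f (Function.update p s q) := by
  unfold rho
  rw [LinearMap.sum_apply, sum_apply']
  rfl

theorem rho_lie (A B : Matrix (Fin n ⊕ Fin n) (Fin n ⊕ Fin n) ℂ) :
    rho (ι := ι) (A * B - B * A) = rho A ∘ₗ rho B - rho B ∘ₗ rho A := by
  unfold rho
  have h : ∀ A B : Matrix (Fin n ⊕ Fin n) (Fin n ⊕ Fin n) ℂ,
      (∑ s, slot (ι := ι) s A) ∘ₗ (∑ s, slot s B) = ∑ s, ∑ t, slot s A ∘ₗ slot t B := by
    intro A B
    ext f : 1
    simp only [LinearMap.comp_apply, LinearMap.sum_apply, map_sum]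
    exact Finset.sum_comm
  rw [h, h]
  have h2 : (∑ s, ∑ t, slot (ι := ι) s B ∘ₗ slot t A) =
      ∑ s, ∑ t, slot t B ∘ₗ slot s A := Finset.sum_comm
  rw [h2, ← Finset.sum_sub_distrib]
  refine Finset.sum_congr rfl fun s _ => ?_
  rw [← Finset.sum_sub_distrib, Finset.sum_eq_single s]
  · rw [slot_sub, slot_mul, slot_mul]
  · intro t _ hts
    rw [slot_comm (Ne.symm hts), sub_self]
  · intro h; exact absurd (Finset.mem_univ s) h

theorem rho_add (A B : Matrix (Fin n ⊕ Fin n) (Fin n ⊕ Fin n) ℂ) :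
    rho (ι := ι) (A + B) = rho A + rho B := by
  unfold rho
  simp only [slot_add, Finset.sum_add_distrib]

theorem rho_smul (c : ℂ) (A : Matrix (Fin n ⊕ Fin n) (Fin n ⊕ Fin n) ℂ) :
    rho (ι := ι) (c • A) = c • rho A := by
  unfold rho
  simp only [slot_smul, Finset.smul_sum]

noncomputable instance : LieRingModule (soD n) (TP n ι) where
  bracket A f := rho A.1 f
  add_lie A B f := by
    change rho (A.1 + B.1) f = rho A.1 f + rho B.1 f
    rw [rho_add]; rfl
  lie_add A f g := map_add _ _ _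
  leibniz_lie A B f := by
    change rho A.1 (rho B.1 f) = rho (A.1 * B.1 - B.1 * A.1) f + rho B.1 (rho A.1 f)
    rw [rho_lie, LinearMap.sub_apply, LinearMap.comp_apply, LinearMap.comp_apply]
    abel

theorem lie_def (A : soD n) (f : TP n ι) : ⁅A, f⁆ = rho A.1 f := rfl

theorem lie_apply (A : soD n) (f : TP n ι) (p : ι → Fin n ⊕ Fin n) :
    ⁅A, f⁆ p = ∑ s, ∑ q, A.1 (p s) q * f (Function.update p s q) := by
  rw [lie_def, rho_apply]

noncomputable instance : LieModule ℂ (soD n) (TP n ι) where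
  smul_lie c A f := by
    change rho (c • A.1) f = c • rho A.1 f
    rw [rho_smul]; rfl
  lie_smul c A f := map_smul _ _ _

/-- the tensor product of vectors -/
noncomputable def tp (v : ι → Fin n ⊕ Fin n → ℂ) : TP n ι := fun p => ∏ s, v s (p s)

theorem tp_apply (v : ι → Fin n ⊕ Fin n → ℂ) (p : ι → Fin n ⊕ Fin n) :
    tp v p = ∏ s, v s (p s) := rfl

theorem slot_tp (s : ι) (A : Matrix (Fin n ⊕ Fin n) (Fin n ⊕ Fin n) ℂ)
    (v : ι → Fin n ⊕ Fin n → ℂ) :
    slot s A (tp v) = tp (Function.update v s (A *ᵥ v s)) := by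
  ext p
  rw [slot_apply, tp_apply]
  have h1 : ∀ q, tp v (Function.update p s q) =
      v s q * ∏ t ∈ Finset.univ.erase s, v t (p t) := by
    intro q
    rw [tp_apply, ← Finset.mul_prod_erase _ _ (Finset.mem_univ s), Function.update_self]
    congr 1
    refine Finset.prod_congr rfl fun t ht => ?_
    rw [Function.update_of_ne (Finset.ne_of_mem_erase ht)]
  simp only [h1]
  rw [← Finset.mul_prod_erase _ _ (Finset.mem_univ s), Function.update_self]
  have h2 : ∏ t ∈ Finset.univ.erase s, Function.update v s (A *ᵥ v s) t (p t) =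
      ∏ t ∈ Finset.univ.erase s, v t (p t) := by
    refine Finset.prod_congr rfl fun t ht => ?_
    rw [Function.update_of_ne (Finset.ne_of_mem_erase ht)]
  rw [h2, Matrix.mulVec, dotProduct, Finset.sum_mul]
  exact Finset.sum_congr rfl fun q _ => by ring

theorem lie_tp (A : soD n) (v : ι → Fin n ⊕ Fin n → ℂ) :
    ⁅A, tp v⁆ = ∑ s, tp (Function.update v s (A.1 *ᵥ v s)) := by
  rw [lie_def]
  unfold rho
  rw [LinearMap.sum_apply]
  exact Finset.sum_congr rfl fun s _ => slot_tp s A.1 v

/-- `tp` as a multilinear map -/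
noncomputable def tpM (n : ℕ) (ι : Type*) [DecidableEq ι] [Fintype ι] :
    MultilinearMap ℂ (fun _ : ι => Fin n ⊕ Fin n → ℂ) (TP n ι) where
  toFun := tp
  map_update_add' := by
    intro inst v s x y
    ext p
    rw [add_apply', tp_apply, tp_apply, tp_apply]
    have h : ∀ z : Fin n ⊕ Fin n → ℂ, ∏ t, Function.update v s z t (p t) =
        z (p s) * ∏ t ∈ Finset.univ.erase s, v t (p t) := by
      intro z
      rw [← Finset.mul_prod_erase _ _ (Finset.mem_univ s), Function.update_self]
      congr 1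
      refine Finset.prod_congr rfl fun t ht => ?_
      rw [Function.update_of_ne (Finset.ne_of_mem_erase ht)]
    rw [h, h, h, Pi.add_apply, add_mul]
  map_update_smul' := by
    intro inst v s c x
    ext p
    rw [smul_apply', tp_apply, tp_apply]
    have h : ∀ z : Fin n ⊕ Fin n → ℂ, ∏ t, Function.update v s z t (p t) =
        z (p s) * ∏ t ∈ Finset.univ.erase s, v t (p t) := by
      intro z
      rw [← Finset.mul_prod_erase _ _ (Finset.mem_univ s), Function.update_self]
      congr 1
      refine Finset.prod_congr rfl fun t ht => ?_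
      rw [Function.update_of_ne (Finset.ne_of_mem_erase ht)]
    rw [h, h, Pi.smul_apply, smul_eq_mul, mul_assoc]

@[simp] theorem tpM_apply (v : ι → Fin n ⊕ Fin n → ℂ) : tpM n ι v = tp v := rfl

/-- every element is a combination of tensors of standard basis vectors -/
theorem eq_sum_tp (f : TP n ι) :
    f = ∑ p : ι → Fin n ⊕ Fin n, f p • tp (fun s => Pi.single (p s) 1) := by
  ext q
  rw [sum_apply', Finset.sum_eq_single q]
  · rw [smul_apply', tp_apply]
    simp
  · intro p _ hpq
    rw [smul_apply', tp_apply]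
    obtain ⟨s, hs⟩ := Function.ne_iff.1 hpq
    rw [Finset.prod_eq_zero (Finset.mem_univ s), mul_zero]
    rw [Pi.single_eq_of_ne (Ne.symm hs)]
  · intro h; exact absurd (Finset.mem_univ q) h

/-- two linear maps on `TP n ι` agreeing on pure tensors are equal -/
theorem hom_ext {W : Type*} [AddCommGroup W] [Module ℂ W] {φ ψ : TP n ι →ₗ[ℂ] W}
    (h : ∀ v, φ (tp v) = ψ (tp v)) : φ = ψ := by
  apply LinearMap.ext
  intro f
  rw [eq_sum_tp f, map_sum, map_sum]
  refine Finset.sum_congr rfl fun p _ => ?_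
  rw [map_smul, map_smul, h]

/-- a group-like matrix `g` acting on the tensor power: `g^{⊗ ι}` -/
noncomputable def gact (g : Matrix (Fin n ⊕ Fin n) (Fin n ⊕ Fin n) ℂ) :
    TP n ι →ₗ[ℂ] TP n ι where
  toFun f := fun p => ∑ q : ι → Fin n ⊕ Fin n, (∏ s, g (p s) (q s)) * f q
  map_add' f f' := by
    ext p
    change ∑ q : ι → Fin n ⊕ Fin n, (∏ s, g (p s) (q s)) * (f q + f' q) =
      (∑ q : ι → Fin n ⊕ Fin n, (∏ s, g (p s) (q s)) * f q) +
        ∑ q : ι → Fin n ⊕ Fin n, (∏ s, g (p s) (q s)) * f' q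
    simp only [mul_add, Finset.sum_add_distrib]
  map_smul' c f := by
    ext p
    change ∑ q : ι → Fin n ⊕ Fin n, (∏ s, g (p s) (q s)) * (c * f q) =
      c * ∑ q : ι → Fin n ⊕ Fin n, (∏ s, g (p s) (q s)) * f q
    rw [Finset.mul_sum]
    exact Finset.sum_congr rfl fun q _ => by ring

theorem gact_tp (g : Matrix (Fin n ⊕ Fin n) (Fin n ⊕ Fin n) ℂ)
    (v : ι → Fin n ⊕ Fin n → ℂ) : gact g (tp v) = tp (fun s => g *ᵥ v s) := by
  ext p
  change ∑ q : ι → Fin n ⊕ Fin n, (∏ s, g (p s) (q s)) * tp v q = _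
  rw [tp_apply]
  simp only [tp_apply, Matrix.mulVec, dotProduct, ← Finset.prod_mul_distrib]
  rw [Finset.prod_univ_sum]
  rw [Fintype.piFinset_univ]

theorem slot_adj (s : ι) (A : Matrix (Fin n ⊕ Fin n) (Fin n ⊕ Fin n) ℂ) (x y : TP n ι) :
    ∑ p, conj (slot s A x p) * y p = ∑ p, conj (x p) * slot s Aᴴ y p := by
  simp only [slot_apply, map_sum, map_mul, Finset.sum_mul, Finset.mul_sum,
    Matrix.conjTranspose_apply]
  rw [← Fintype.sum_prod_type', ← Fintype.sum_prod_type']
  let e : (ι → Fin n ⊕ Fin n) × (Fin n ⊕ Fin n) ≃ (ι → Fin n ⊕ Fin n) × (Fin n ⊕ Fin n) :=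
    { toFun := fun pq => (Function.update pq.1 s pq.2, pq.1 s)
      invFun := fun pq => (Function.update pq.1 s pq.2, pq.1 s)
      left_inv := by
        rintro ⟨p, q⟩
        simp
      right_inv := by
        rintro ⟨p, q⟩
        simp }
  refine Fintype.sum_equiv e _ _ ?_
  rintro ⟨p, q⟩
  change conj (A (p s) q) * conj (x (Function.update p s q)) * y p =
    conj (x (Function.update p s q)) * (star (A (p s) (Function.update p s q s)) *
      y (Function.update (Function.update p s q) s (p s)))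
  rw [Function.update_self, Function.update_idem, Function.update_eq_self]
  change _ = conj (x (Function.update p s q)) * (conj (A (p s) q) * y p)
  ring

/-- the standard star form on the tensor power -/
noncomputable def starTP (n : ℕ) (ι : Type*) [DecidableEq ι] [Fintype ι] :
    StarForm n (TP n ι) where
  core := piCore (ι → Fin n ⊕ Fin n)
  adj := by
    intro A x y
    change ∑ p, conj (⁅A, x⁆ p) * y p = ∑ p, conj (x p) * ⁅hc A, y⁆ p
    rw [lie_def, lie_def]
    unfold rho
    simp only [LinearMap.sum_apply, sum_apply', map_sum, Finset.sum_mul, Finset.mul_sum]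
    rw [Finset.sum_comm, Finset.sum_comm (s := Finset.univ (α := ι → Fin n ⊕ Fin n))]
    exact Finset.sum_congr rfl fun s _ => slot_adj s A.1 x y

end Crest.Agent.R172.TPow
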