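import Crest.Agent.R172.FO2

/-!
Row 172 (S0260), TAME node (T0), arbitrary radical: FIRST derivative along an exact family
`x_r ∈ P₂ ⊗ P₁` (block pair `F1, F2 ∈ 𝒦`).
-/

set_option linter.unusedSectionVars false
set_option autoImplicit false

namespace Crest.Agent.R172.GR

open Matrix FO

variable {ι : Type*} [Fintype ι] [DecidableEq ι] {δ : Type*} [Fintype δ] [DecidableEq δ]
variable {k K : Type*} [Field k] [Field K] [Algebra k K]
variable {arm : δ → Fin 3} {J : Matrix ι ι K} {B : Matrix δ δ K}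
  {N W : Submodule K (Matrix ι δ K)}

/-- family of tensors as operators: `x_r J F_r` -/
def xm (arm : δ → Fin 3) (J : Matrix ι ι K) (x : Fin 3 → Matrix ι ι K) (F : Matrix ι δ K) :
    Matrix ι δ K := act arm (fun r => x r * J) F

/-- the transposed family -/
def tr (x : Fin 3 → Matrix ι ι K) : Fin 3 → Matrix ι ι K := fun r => (x r)ᵀ

theorem act_congr0 {X : Fin 3 → Matrix ι ι K} {F : Matrix ι δ K} (h : ∀ r, X r * F = 0) :
    act arm X F = 0 := by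
  unfold act
  exact Finset.sum_eq_zero fun r _ => by rw [h r, Matrix.zero_mul]

theorem act_subl (X Y : Fin 3 → Matrix ι ι K) (F : Matrix ι δ K) :
    act arm (fun r => X r - Y r) F = act arm X F - act arm Y F := by
  unfold act
  rw [← Finset.sum_sub_distrib]
  exact Finset.sum_congr rfl fun r _ => by rw [Matrix.sub_mul, Matrix.sub_mul]

theorem act_addr (X : Fin 3 → Matrix ι ι K) (F G : Matrix ι δ K) :
    act arm X (F + G) = act arm X F + act arm X G := by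
  unfold act
  rw [← Finset.sum_add_distrib]
  exact Finset.sum_congr rfl fun r _ => by rw [Matrix.mul_add, Matrix.add_mul]

theorem act_smulr (X : Fin 3 → Matrix ι ι K) (a : K) (F : Matrix ι δ K) :
    act arm X (a • F) = a • act arm X F := by
  unfold act
  rw [Finset.smul_sum]
  exact Finset.sum_congr rfl fun r _ => by rw [Matrix.mul_smul, Matrix.smul_mul]

/-- **Block pair.** -/
structure BP (arm : δ → Fin 3) (J : Matrix ι ι K) (B : Matrix δ δ K)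
    (N W : Submodule K (Matrix ι δ K)) (F1 F2 : Matrix ι δ K)
    (P1 P2 : Submodule K (ι → K)) : Prop where
  m1 : F1 ∈ N ⊓ W
  m2 : F2 ∈ N ⊓ W
  k1 : ∀ p ∈ P2, (F1ᵀ * J) *ᵥ p = 0
  k2 : ∀ p ∈ P1, (F2ᵀ * J) *ᵥ p = 0
  pf1 : ∀ p ∈ P1, ∃ v : Fin 3 → ι → K, (∀ r, v r ∈ P1) ∧ p = ∑ r, (Phi arm J B F1 r) *ᵥ (v r)
  pf2 : ∀ p ∈ P2, ∃ v : Fin 3 → ι → K, (∀ r, v r ∈ P2) ∧ p = ∑ r, (Phi arm J B F2 r) *ᵥ (v r)
  st1 : ∀ r, ∀ p ∈ P1, (Phi arm J B F1 r) *ᵥ p ∈ P1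
  st2 : ∀ r, ∀ p ∈ P2, (Phi arm J B F2 r) *ᵥ p ∈ P2

/-- `x_r ∈ P₂ ⊗ P₁` -/
structure Fam (P1 P2 : Submodule K (ι → K)) (x : Fin 3 → Matrix ι ι K) : Prop where
  l : ∀ r v, (x r) *ᵥ v ∈ P2
  r : ∀ r v, (x r)ᵀ *ᵥ v ∈ P1

variable {F1 F2 : Matrix ι δ K} {P1 P2 : Submodule K (ι → K)}

theorem BP.swap (h : BP arm J B N W F1 F2 P1 P2) : BP arm J B N W F2 F1 P2 P1 :=
  ⟨h.m2, h.m1, h.k2, h.k1, h.pf2, h.pf1, h.st2, h.st1⟩

theorem Fam.swap {x : Fin 3 → Matrix ι ι K} (h : Fam P1 P2 x) : Fam P2 P1 (tr x) :=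
  ⟨fun r v => h.r r v, fun r v => by rw [tr, transpose_transpose]; exact h.l r v⟩

theorem mat_eq_zero {α β : Type*} [Fintype β] [DecidableEq β] (A : Matrix α β K)
    (h : ∀ v, A *ᵥ v = 0) : A = 0 := by
  ext i j
  have := congrFun (h (Pi.single j 1)) i
  rw [mulVec_single_one] at this
  exact this

theorem BP.F1x (h : BP arm J B N W F1 F2 P1 P2) {x : Fin 3 → Matrix ι ι K} (hx : Fam P1 P2 x)
    (r : Fin 3) : F1ᵀ * J * x r = 0 :=
  mat_eq_zero _ fun v => by rw [← mulVec_mulVec]; exact h.k1 _ (hx.l r v)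

theorem BP.F2x (h : BP arm J B N W F1 F2 P1 P2) {x : Fin 3 → Matrix ι ι K} (hx : Fam P1 P2 x)
    (r : Fin 3) : F2ᵀ * J * (x r)ᵀ = 0 :=
  mat_eq_zero _ fun v => by rw [← mulVec_mulVec]; exact h.k2 _ (hx.r r v)

theorem BP.xtF1 (hD : Data k arm J B N W) (h : BP arm J B N W F1 F2 P1 P2)
    {x : Fin 3 → Matrix ι ι K} (hx : Fam P1 P2 x) (r : Fin 3) : (x r)ᵀ * J * F1 = 0 := by
  have := congrArg transpose (h.F1x hx r)
  rwa [transpose_mul, transpose_mul, transpose_transpose, hD.J_symm, transpose_zero,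
    ← Matrix.mul_assoc] at this

theorem BP.xF2 (hD : Data k arm J B N W) (h : BP arm J B N W F1 F2 P1 P2)
    {x : Fin 3 → Matrix ι ι K} (hx : Fam P1 P2 x) (r : Fin 3) : x r * J * F2 = 0 := by
  have := congrArg transpose (h.F2x hx r)
  rwa [transpose_mul, transpose_mul, transpose_transpose, transpose_transpose, hD.J_symm,
    transpose_zero, ← Matrix.mul_assoc] at this

/-- every vector of `P₁` is `F₁ u` with `F₂ u = 0` -/
theorem BP.lift1 (hD : Data k arm J B N W) (h : BP arm J B N W F1 F2 P1 P2) {p : ι → K}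
    (hp : p ∈ P1) : ∃ u : δ → K, F1 *ᵥ u = p ∧ F2 *ᵥ u = 0 := by
  obtain ⟨v, hv, rfl⟩ := h.pf1 p hp
  refine ⟨∑ r, (E K arm r * B * F1ᵀ * J) *ᵥ v r, ?_, ?_⟩
  · rw [mulVec_sum]
    refine Finset.sum_congr rfl fun r _ => ?_
    rw [mulVec_mulVec, Phi, M]
    congr 1
    simp only [Matrix.mul_assoc]
  · rw [mulVec_sum]
    refine Finset.sum_eq_zero fun r _ => ?_
    rw [mulVec_mulVec]
    have e1 : F2 * (E K arm r * B * F1ᵀ * J) = M arm B r F2 F1 * J := by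
      rw [M]; simp only [Matrix.mul_assoc]
    rw [e1, hD.symm_arm h.m2 h.m1 r, M]
    have e2 : F1 * E K arm r * B * F2ᵀ * J = F1 * E K arm r * B * (F2ᵀ * J) := by
      simp only [Matrix.mul_assoc]
    rw [e2, ← mulVec_mulVec, h.k2 _ (hv r), mulVec_zero]

theorem BP.lift1m (hD : Data k arm J B N W) (h : BP arm J B N W F1 F2 P1 P2) {α : Type*}
    [Fintype α] [DecidableEq α] (Q : Matrix ι α K) (hQ : ∀ v, Q *ᵥ v ∈ P1) :
    ∃ U : Matrix δ α K, F1 * U = Q ∧ F2 * U = 0 := by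
  choose f hf1 hf2 using fun a : α => h.lift1 hD (hQ (Pi.single a 1))
  refine ⟨(Matrix.of f)ᵀ, ?_, ?_⟩
  · ext i a
    have := congrFun (hf1 a) i
    rw [mulVec_single_one] at this
    exact this
  · ext i a
    exact congrFun (hf2 a) i

/-- the columns of `act (y J) F` are in `P` if the columns of `y` are -/
theorem act_col {P : Submodule K (ι → K)} {y : Fin 3 → Matrix ι ι K} (hy : ∀ r v, y r *ᵥ v ∈ P)
    (F : Matrix ι δ K) (v : δ → K) : (xm arm J y F) *ᵥ v ∈ P := by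
  unfold xm act
  rw [Matrix.sum_mulVec]
  refine P.sum_mem fun r _ => ?_
  rw [Matrix.mul_assoc, Matrix.mul_assoc, ← mulVec_mulVec]
  exact hy r _

theorem xm_mul (hD : Data k arm J B N W) (y : Fin 3 → Matrix ι ι K) (F G : Matrix ι δ K) :
    xm arm J y F * B * Gᵀ = ∑ r, y r * J * M arm B r F G := by
  unfold xm act M
  rw [Matrix.sum_mul, Matrix.sum_mul]
  refine Finset.sum_congr rfl fun r _ => ?_
  simp only [Matrix.mul_assoc]

/-- the defect `D_r = x_r M_r(F₁) − c² M_r(F₂) x_r` -/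
def Def (arm : δ → Fin 3) (J : Matrix ι ι K) (B : Matrix δ δ K) (F1 F2 : Matrix ι δ K) (c2 : K)
    (x : Fin 3 → Matrix ι ι K) (r : Fin 3) : Matrix ι ι K :=
  x r * J * M arm B r F1 F1 - c2 • (M arm B r F2 F2 * J * x r)

/-- **the rotation of `L`** -/
theorem BP.exists_xi (hD : Data k arm J B N W) (h : BP arm J B N W F1 F2 P1 P2)
    {x : Fin 3 → Matrix ι ι K} (hx : Fam P1 P2 x) {c : K} (hc : c ≠ 0)
    (hex : ∑ r, Def arm J B F1 F2 (c ^ 2) x r = 0) :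
    ∃ ξ : Matrix δ δ K, ξᵀ * B + B * ξ = 0 ∧ F1 * ξᵀ = -(c • xm arm J (tr x) F2) ∧
      F2 * ξᵀ = c⁻¹ • xm arm J x F1 := by
  obtain ⟨R, hR⟩ := exists_gen_inv (ι := ι ⊕ ι) (Matrix.fromRows F1 F2)
  obtain ⟨U1, hU1, hU1'⟩ := h.lift1m hD (xm arm J (tr x) F2)
    (fun v => act_col (fun r v => hx.swap.l r v) F2 v)
  obtain ⟨U2, hU2, hU2'⟩ := h.swap.lift1m hD (xm arm J x F1)
    (fun v => act_col (fun r v => hx.l r v) F1 v)
  set Q : Matrix (ι ⊕ ι) δ K :=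
    Matrix.fromRows (-(c • xm arm J (tr x) F2)) (c⁻¹ • xm arm J x F1) with hQ
  have hPY : Q = Matrix.fromRows F1 F2 * (-(c • U1) + c⁻¹ • U2) := by
    rw [hQ, Matrix.fromRows_mul, Matrix.mul_add, Matrix.mul_add, Matrix.mul_neg, Matrix.mul_neg,
      Matrix.mul_smul, Matrix.mul_smul, Matrix.mul_smul, Matrix.mul_smul, hU1, hU1', hU2, hU2',
      smul_zero, smul_zero, add_zero, neg_zero, zero_add]
  have hP : Matrix.fromRows F1 F2 * R * Q = Q := by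
    rw [hPY, ← Matrix.mul_assoc, hR]
  have e11 : xm arm J (tr x) F2 * B * F1ᵀ = 0 := by
    rw [xm_mul hD]
    refine Finset.sum_eq_zero fun r _ => ?_
    rw [hD.symm_arm h.m2 h.m1 r, M, tr]
    have : (x r)ᵀ * J * (F1 * E K arm r * B * F2ᵀ) = (x r)ᵀ * J * F1 * (E K arm r * B * F2ᵀ) := by
      simp only [Matrix.mul_assoc]
    rw [this, h.xtF1 hD hx, Matrix.zero_mul]
  have e22 : xm arm J x F1 * B * F2ᵀ = 0 := by
    rw [xm_mul hD]
    refine Finset.sum_eq_zero fun r _ => ?_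
    rw [hD.symm_arm h.m1 h.m2 r, M]
    have : x r * J * (F2 * E K arm r * B * F1ᵀ) = x r * J * F2 * (E K arm r * B * F1ᵀ) := by
      simp only [Matrix.mul_assoc]
    rw [this, h.xF2 hD hx, Matrix.zero_mul]
  have eT : ∀ A C : Matrix ι δ K, (A * B * Cᵀ)ᵀ = C * B * Aᵀ := fun A C => by
    rw [transpose_mul, transpose_mul, transpose_transpose, hD.B_symm, Matrix.mul_assoc]
  have hMsymm : ∀ (F : Matrix ι δ K) (r : Fin 3), (M arm B r F F)ᵀ = M arm B r F F := by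
    intro F r
    unfold M
    rw [transpose_mul, transpose_mul, transpose_mul, transpose_transpose, E_transpose,
      hD.B_symm]
    simp only [Matrix.mul_assoc]
    rw [← Matrix.mul_assoc B, ← hD.B_arm, Matrix.mul_assoc]
  have e12 : xm arm J x F1 * B * F1ᵀ = (c ^ 2) • (xm arm J (tr x) F2 * B * F2ᵀ)ᵀ := by
    rw [xm_mul hD, xm_mul hD, transpose_sum, Finset.smul_sum, ← sub_eq_zero,
      ← Finset.sum_sub_distrib, ← hex]
    refine Finset.sum_congr rfl fun r _ => ?_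
    rw [Def, tr, transpose_mul, transpose_mul, transpose_transpose, hMsymm, hD.J_symm,
      ← Matrix.mul_assoc]
  have hiso : Q * B * (Matrix.fromRows F1 F2)ᵀ + Matrix.fromRows F1 F2 * B * Qᵀ = 0 := by
    have e0 : Q * B * (Matrix.fromRows F1 F2)ᵀ =
        fromBlocks 0 (-(c • (xm arm J (tr x) F2 * B * F2ᵀ)))
          (c⁻¹ • (xm arm J x F1 * B * F1ᵀ)) 0 := by
      rw [hQ, Matrix.fromRows_mul, Matrix.transpose_fromRows, Matrix.fromRows_mul_fromCols]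
      congr 1
      · rw [Matrix.neg_mul, Matrix.neg_mul, Matrix.smul_mul, Matrix.smul_mul, e11, smul_zero,
          neg_zero]
      · rw [Matrix.neg_mul, Matrix.neg_mul, Matrix.smul_mul, Matrix.smul_mul]
      · rw [Matrix.smul_mul, Matrix.smul_mul]
      · rw [Matrix.smul_mul, Matrix.smul_mul, e22, smul_zero]
    have e1 : Matrix.fromRows F1 F2 * B * Qᵀ = (Q * B * (Matrix.fromRows F1 F2)ᵀ)ᵀ := by
      rw [transpose_mul, transpose_mul, transpose_transpose, hD.B_symm, Matrix.mul_assoc]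
    rw [e1, e0, fromBlocks_transpose, fromBlocks_add]
    have e2 : -(c • (xm arm J (tr x) F2 * B * F2ᵀ)) + (c⁻¹ • (xm arm J x F1 * B * F1ᵀ))ᵀ = 0 := by
      rw [e12, transpose_smul, transpose_smul, transpose_transpose, smul_smul]
      have : c⁻¹ * c ^ 2 = c := by field_simp
      rw [this, neg_add_cancel]
    have e3 : c⁻¹ • (xm arm J x F1 * B * F1ᵀ) + (-(c • (xm arm J (tr x) F2 * B * F2ᵀ)))ᵀ = 0 := by
      have := congrArg transpose e2
      rw [transpose_add, transpose_transpose, transpose_zero, add_comm] at this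
      exact this
    rw [e2, e3, transpose_zero, add_zero]
    ext (i | i) (j | j) <;> simp
  obtain ⟨ξ, hξ, hξ'⟩ := FO.exists_xi hD.B_symm hD.B_unit (Matrix.fromRows F1 F2) Q R hP hR hiso
  rw [Matrix.fromRows_mul, hQ] at hξ'
  have h3 := Matrix.fromRows_inj hξ'
  exact ⟨ξ, hξ, h3.1, h3.2⟩

section blocks

variable {n : Type*} [Fintype n]

variable (k) in
/-- block data of arbitrary radical -/
structure Blk (arm : δ → Fin 3) (J : Matrix ι ι K) (B : Matrix δ δ K)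
    (N W : Submodule K (Matrix ι δ K)) (F G : Matrix ι δ K) (P : n → Submodule K (ι → K))
    (R : Submodule K (ι → K)) (lam : n → K) : Prop where
  data : Data k arm J B N W
  memF : F ∈ N ⊓ W
  memG : G ∈ N ⊓ W
  ne : ∀ i j, i ≠ j → lam i ≠ lam j
  eig : ∀ i, ∀ p ∈ P i, (Gᵀ * J) *ᵥ p = lam i • ((Fᵀ * J) *ᵥ p)
  st : ∀ i r, ∀ p ∈ P i, Phi arm J B F r *ᵥ p ∈ P i
  pf : ∀ i, ∀ p ∈ P i, ∃ v : Fin 3 → ι → K, (∀ r, v r ∈ P i) ∧ p = ∑ r, Phi arm J B F r *ᵥ v r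
  Rdec : ∀ ρ ∈ R, ∃ v : n → ι → K, (∀ i, v i ∈ P i ⊓ R) ∧ ρ = ∑ i, v i
  rad : ∀ ρ ∈ R, ∀ i, ∀ p ∈ P i, ρ ⬝ᵥ (J *ᵥ p) = 0
  Rmax : ∀ v : n → ι → K, (∀ i, v i ∈ P i) →
    (∀ i, ∀ p ∈ P i, (∑ l, v l) ⬝ᵥ (J *ᵥ p) = 0) → ∑ l, v l ∈ R

/-- every `Φ`-linear map `P → V / S` vanishes -/
def HomZ (Φ : Fin 3 → Matrix ι ι K) (P S : Submodule K (ι → K)) : Prop :=
  ∀ f : P →ₗ[K] ((ι → K) ⧸ S),
    (∀ r (p p' : P) (v : ι → K), (p' : ι → K) = Φ r *ᵥ (p : ι → K) → f p = S.mkQ v →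
      f p' = S.mkQ (Φ r *ᵥ v)) → f = 0

/-- the corrections: `z ∈ W` with `zᵀJp ∈ μ_m FᵀJp + FᵀJR` on the block `P m` -/
def ZW (J : Matrix ι ι K) (W : Submodule K (Matrix ι δ K)) (F : Matrix ι δ K)
    (P : n → Submodule K (ι → K)) (R : Submodule K (ι → K)) : Submodule K (Matrix ι δ K) where
  carrier := {z | z ∈ W ∧ ∃ μ : n → K, ∀ m, ∀ p ∈ P m, ∃ ρ ∈ R,
    (zᵀ * J) *ᵥ p = μ m • ((Fᵀ * J) *ᵥ p) + (Fᵀ * J) *ᵥ ρ}
  add_mem' := by
    rintro z z' ⟨h1, μ, h2⟩ ⟨h1', μ', h2'⟩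
    refine ⟨W.add_mem h1 h1', μ + μ', fun m p hp => ?_⟩
    obtain ⟨ρ, hρ, e⟩ := h2 m p hp
    obtain ⟨ρ', hρ', e'⟩ := h2' m p hp
    refine ⟨ρ + ρ', R.add_mem hρ hρ', ?_⟩
    rw [transpose_add, Matrix.add_mul, add_mulVec, e, e', Pi.add_apply, add_smul, mulVec_add]
    abel
  zero_mem' := ⟨W.zero_mem, 0, fun m p _ => ⟨0, R.zero_mem, by simp⟩⟩
  smul_mem' := by
    rintro c z ⟨h1, μ, h2⟩
    refine ⟨W.smul_mem c h1, c • μ, fun m p hp => ?_⟩
    obtain ⟨ρ, hρ, e⟩ := h2 m p hp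
    refine ⟨c • ρ, R.smul_mem c hρ, ?_⟩
    rw [transpose_smul, Matrix.smul_mul, smul_mulVec, e, smul_add, mulVec_smul, Pi.smul_apply,
      smul_eq_mul, mul_smul]

/-- the quotient space -/
def QR (J : Matrix ι ι K) (N W : Submodule K (Matrix ι δ K)) (F : Matrix ι δ K)
    (P : n → Submodule K (ι → K)) (R : Submodule K (ι → K)) : Submodule K (Matrix ι δ K) :=
  N ⊔ ZW J W F P R

variable (k) in
/-- a motion along `x` (`L` fixed), `F1 = G - λ_j F`, `F2 = G - λ_i F` -/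
structure Mot (arm : δ → Fin 3) (J : Matrix ι ι K) (B : Matrix δ δ K)
    (N W : Submodule K (Matrix ι δ K)) (F F1 F2 : Matrix ι δ K) (P : n → Submodule K (ι → K))
    (R : Submodule K (ι → K)) (i j : n) (c : K) (x : Fin 3 → Matrix ι ι K)
    (D : Derivation k K K) : Prop where
  real : Realises arm N W (fun r => (x r - (x r)ᵀ) * J) 0 D
  row : ∃ μ : K, ∀ p ∈ P i, ((F1.map D)ᵀ * J) *ᵥ p = μ • ((F1ᵀ * J) *ᵥ p)
  blk : ∀ m, ∀ p ∈ P m, (fun a => D (p a)) ∈ P m ⊔ R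
  bi : ∀ p ∈ P i, (fun a => D (p a)) ∈ P i ⊔ (P j ⊓ R)
  bj : ∀ p ∈ P j, (fun a => D (p a)) ∈ P j ⊔ (P i ⊓ R)
  dR : ∀ ρ ∈ R, (fun a => D (ρ a)) ∈ R
  zF : F.map D ∈ ZW J W F P R
  cor : ∀ r, ∀ p ∈ P j, ∀ b ∈ P i ⊓ R, (fun a => D (p a)) - b ∈ P j →
    c • (fun a => D ((Phi arm J B F2 r *ᵥ p) a)) -
      (Phi arm J B F1 r *ᵥ b + Phi arm J B F1 r *ᵥ (((x r)ᵀ * J) *ᵥ p) -
        c • (((x r)ᵀ * J) *ᵥ (Phi arm J B F2 r *ᵥ p))) ∈ P j

end blocks

end Crest.Agent.R172.GR
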