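import Crest.Agent.R172.GR1

/-!
Row 172 (S0260), TAME node (T0), arbitrary radical: existence of the motion `Mot`.
-/

set_option linter.unusedSectionVars false
set_option autoImplicit false

namespace Crest.Agent.R172.GR

open Matrix FO

variable {ι : Type*} [Fintype ι] [DecidableEq ι] {δ : Type*} [Fintype δ] [DecidableEq δ]
variable {k K : Type*} [Field k] [Field K] [Algebra k K]
variable {arm : δ → Fin 3} {J : Matrix ι ι K} {B : Matrix δ δ K}
  {N W : Submodule K (Matrix ι δ K)} {F G : Matrix ι δ K}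
variable {n : Type*} [Fintype n] {P : n → Submodule K (ι → K)} {R : Submodule K (ι → K)}
  {lam : n → K}

/-- `D ∘ p` -/
def dv (D : Derivation k K K) (p : ι → K) : ι → K := fun a => D (p a)

theorem dv_add (D : Derivation k K K) (p q : ι → K) : dv D (p + q) = dv D p + dv D q := by
  ext a; simp [dv]

theorem dv_smul (D : Derivation k K K) (c : K) (p : ι → K) :
    dv D (c • p) = D c • p + c • dv D p := by
  ext a
  simp only [dv, Pi.smul_apply, smul_eq_mul, Derivation.leibniz, Pi.add_apply]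
  ring

theorem dv_sum (D : Derivation k K K) {α : Type*} (s : Finset α) (f : α → ι → K) :
    dv D (∑ a ∈ s, f a) = ∑ a ∈ s, dv D (f a) := by
  ext a
  simp [dv, Finset.sum_apply]

theorem dv_mulVec {α : Type*} [Fintype α] (D : Derivation k K K) (A : Matrix ι α K) (p : α → K) :
    dv D (A *ᵥ p) = (A.map D) *ᵥ p + A *ᵥ (fun a => D (p a)) := by
  ext a
  simp only [dv, mulVec, dotProduct, map_sum, Derivation.leibniz, smul_eq_mul, Pi.add_apply,
    map_apply, Finset.sum_add_distrib]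
  rw [add_comm]
  congr 1
  exact Finset.sum_congr rfl fun x _ => mul_comm _ _

theorem d_dot (D : Derivation k K K) (p q : ι → K) :
    D (p ⬝ᵥ q) = dv D p ⬝ᵥ q + p ⬝ᵥ dv D q := by
  simp only [dv, dotProduct, map_sum, Derivation.leibniz, smul_eq_mul, Finset.sum_add_distrib]
  rw [add_comm]
  congr 1
  exact Finset.sum_congr rfl fun x _ => mul_comm _ _

theorem dv_J (hD : Data k arm J B N W) (D : Derivation k K K) (p : ι → K) :
    dv D (J *ᵥ p) = J *ᵥ dv D p := by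
  rw [dv_mulVec, hD.J_const, zero_mulVec, zero_add]
  rfl

namespace Blk

variable (h : Blk k arm J B N W F G P R lam)
include h

/-- the eigenvalue of `a F + b G` on `P m` -/
theorem eigc {U : Matrix ι δ K} {a b : K} (hU : U = a • F + b • G) (m : n) {p : ι → K}
    (hp : p ∈ P m) : (Uᵀ * J) *ᵥ p = (a + b * lam m) • ((Fᵀ * J) *ᵥ p) := by
  rw [hU, transpose_add, transpose_smul, transpose_smul, Matrix.add_mul, Matrix.smul_mul,
    Matrix.smul_mul, add_mulVec, smul_mulVec, smul_mulVec, h.eig m p hp, smul_smul, add_smul]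

theorem M_eig {U U' : Matrix ι δ K} (hU : U ∈ N ⊓ W) {u u' : K} {p : ι → K}
    (e : (Uᵀ * J) *ᵥ p = u • ((Fᵀ * J) *ᵥ p)) (e' : (U'ᵀ * J) *ᵥ p = u' • ((Fᵀ * J) *ᵥ p))
    (r : Fin 3) : (M arm B r U U' * J) *ᵥ p = (u * u') • (Phi arm J B F r *ᵥ p) := by
  have key : ∀ (A C : Matrix ι δ K) (c : K), (Cᵀ * J) *ᵥ p = c • ((Fᵀ * J) *ᵥ p) →
      (M arm B r A C * J) *ᵥ p = c • ((M arm B r A F * J) *ᵥ p) := by
    intro A C c hc
    have e1 : ∀ X : Matrix ι δ K, (M arm B r A X * J) *ᵥ p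
        = (A * E K arm r * B) *ᵥ ((Xᵀ * J) *ᵥ p) := by
      intro X
      rw [mulVec_mulVec, M]
      simp only [Matrix.mul_assoc]
    rw [e1, e1, hc, mulVec_smul]
  rw [key U U' u' e', h.data.symm_arm hU h.memF r, key F U u e, smul_smul, mul_comm u' u]
  rfl

/-- `p = F u` with `G u = λ p` -/
theorem lift (m : n) {p : ι → K} (hp : p ∈ P m) :
    ∃ u : δ → K, F *ᵥ u = p ∧ G *ᵥ u = lam m • p := by
  obtain ⟨v, hv, rfl⟩ := h.pf m p hp
  refine ⟨∑ r, (E K arm r * B * Fᵀ * J) *ᵥ v r, ?_, ?_⟩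
  · rw [mulVec_sum]
    refine Finset.sum_congr rfl fun r _ => ?_
    rw [mulVec_mulVec, Phi, M]
    congr 1
    simp only [Matrix.mul_assoc]
  · rw [mulVec_sum, Finset.smul_sum]
    refine Finset.sum_congr rfl fun r _ => ?_
    rw [mulVec_mulVec]
    have e1 : G * (E K arm r * B * Fᵀ * J) = M arm B r G F * J := by
      rw [M]; simp only [Matrix.mul_assoc]
    rw [e1, h.M_eig (u := lam m) (u' := 1) h.memG (h.eig m _ (hv r)) (by rw [one_smul]),
      mul_one]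

theorem orth {l m : n} (hlm : l ≠ m) {p q : ι → K} (hp : p ∈ P l) (hq : q ∈ P m) :
    p ⬝ᵥ (J *ᵥ q) = 0 := by
  obtain ⟨u, hu, hu'⟩ := h.lift l hp
  have e1 : ∀ U : Matrix ι δ K, (U *ᵥ u) ⬝ᵥ (J *ᵥ q) = u ⬝ᵥ ((Uᵀ * J) *ᵥ q) := by
    intro U
    rw [← mulVec_mulVec, dotProduct_mulVec u, vecMul_transpose]
  have e2 := e1 F
  have e3 := e1 G
  rw [hu] at e2
  rw [hu', h.eig m q hq, dotProduct_smul, ← e2, smul_dotProduct, smul_eq_mul, smul_eq_mul,
    ← sub_eq_zero, ← sub_mul] at e3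
  exact (mul_eq_zero.1 e3).resolve_left (sub_ne_zero.2 (h.ne l m hlm))

/-- elements of `R` are orthogonal to all blocks, from the right -/
theorem rad' {ρ p : ι → K} {m : n} (hρ : ρ ∈ R) (hp : p ∈ P m) : p ⬝ᵥ (J *ᵥ ρ) = 0 := by
  have := h.rad ρ hρ m p hp
  rwa [dotProduct_mulVec, ← mulVec_transpose, h.data.J_symm, dotProduct_comm] at this

end Blk

/-- a derivation realising `(X, ξ)` and moving the generic `H` by `X H = H ξᵀ` -/
theorem persist_xi (hD : Data k arm J B N W) {H : Matrix ι δ K} (hH : Generic k arm N W H)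
    (X : Fin 3 → Matrix ι ι K) (hX : ∀ s, (X s)ᵀ * J + J * X s = 0) (ξ : Matrix δ δ K)
    (hξ : ξᵀ * B + B * ξ = 0) (hξF : H * ξᵀ = act arm X H) :
    ∃ d : Derivation k K K, Realises arm N W X ξ d ∧ H.map d = act arm X H := by
  obtain ⟨d0, hd0⟩ := hD.dir X ξ hX hξ
  have h1 : H.map d0 - act arm X H ∈ N ⊓ W := by
    refine ⟨hd0.onN H hH.mem.1, ?_⟩
    have := hd0.onW H hH.mem.2
    rwa [hξF] at this
  obtain ⟨d1, hd1, hr⟩ := hH.vert _ h1
  have hsub : ∀ G : Matrix ι δ K, G.map (d0 - d1) = G.map d0 - G.map d1 := by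
    intro G; ext i j; simp
  refine ⟨d0 - d1, ⟨?_, ?_⟩, ?_⟩
  · intro G hG
    have h2 := hd0.onN G hG
    have h3 := hr.onN G hG
    rw [act_zero, sub_zero] at h3
    rw [hsub]
    have : G.map d0 - G.map d1 - act arm X G = (G.map d0 - act arm X G) - G.map d1 := by abel
    rw [this]
    exact N.sub_mem h2 h3
  · intro G hG
    have h2 := hd0.onW G hG
    have h3 := hr.onW G hG
    rw [transpose_zero, Matrix.mul_zero, sub_zero] at h3
    rw [hsub]
    have : G.map d0 - G.map d1 - G * ξᵀ = (G.map d0 - G * ξᵀ) - G.map d1 := by abel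
    rw [this]
    exact W.sub_mem h2 h3
  · rw [hsub, hd1]
    abel

theorem M_symm (hD : Data k arm J B N W) (U : Matrix ι δ K) (r : Fin 3) :
    (M arm B r U U)ᵀ = M arm B r U U := by
  unfold M
  rw [transpose_mul, transpose_mul, transpose_mul, transpose_transpose, E_transpose,
    hD.B_symm]
  simp only [Matrix.mul_assoc]
  rw [← Matrix.mul_assoc B, ← hD.B_arm, Matrix.mul_assoc]

theorem Phi_sa (hD : Data k arm J B N W) (U : Matrix ι δ K) (r : Fin 3) (p q : ι → K) :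
    (Phi arm J B U r *ᵥ p) ⬝ᵥ (J *ᵥ q) = p ⬝ᵥ (J *ᵥ (Phi arm J B U r *ᵥ q)) := by
  have e1 : (Phi arm J B U r)ᵀ * J = J * Phi arm J B U r := by
    unfold Phi
    rw [transpose_mul, hD.J_symm, M_symm hD, Matrix.mul_assoc]
  rw [mulVec_mulVec, ← e1, ← mulVec_mulVec, dotProduct_mulVec p, vecMul_transpose]

namespace Blk

variable (h : Blk k arm J B N W F G P R lam)
include h

theorem memR (m : n) {p : ι → K} (hp : p ∈ P m) (h0 : ∀ l, ∀ q ∈ P l, p ⬝ᵥ (J *ᵥ q) = 0) :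
    p ∈ R := by
  classical
  have e1 : ∑ l, (Pi.single m p : n → ι → K) l = p := by
    rw [Finset.sum_eq_single m]
    · simp
    · intro b _ hb
      rw [Pi.single_eq_of_ne hb]
    · intro hm
      exact absurd (Finset.mem_univ _) hm
  have e2 := h.Rmax (Pi.single m p) (fun i => by
    by_cases hi : i = m
    · subst hi; simpa using hp
    · rw [Pi.single_eq_of_ne hi]; exact (P i).zero_mem) (by rw [e1]; exact h0)
  rwa [e1] at e2

theorem stU {U : Matrix ι δ K} (hU : U ∈ N ⊓ W) {m : n} {u : K}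
    (e : ∀ p ∈ P m, (Uᵀ * J) *ᵥ p = u • ((Fᵀ * J) *ᵥ p)) (r : Fin 3) {p : ι → K} (hp : p ∈ P m) :
    Phi arm J B U r *ᵥ p = (u * u) • (Phi arm J B F r *ᵥ p) ∧ Phi arm J B U r *ᵥ p ∈ P m := by
  have e1 : Phi arm J B U r *ᵥ p = (u * u) • (Phi arm J B F r *ᵥ p) :=
    h.M_eig hU (e p hp) (e p hp) r
  exact ⟨e1, by rw [e1]; exact (P m).smul_mem _ (h.st m r p hp)⟩

theorem stR {U : Matrix ι δ K} (hU : U ∈ N ⊓ W) {m : n} {u : K}
    (e : ∀ p ∈ P m, (Uᵀ * J) *ᵥ p = u • ((Fᵀ * J) *ᵥ p)) (r : Fin 3) {p : ι → K}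
    (hp : p ∈ P m ⊓ R) : Phi arm J B U r *ᵥ p ∈ P m ⊓ R := by
  have h1 := h.stU hU e r hp.1
  refine ⟨h1.2, ?_⟩
  rw [h1.1]
  refine R.smul_mem _ (h.memR m (h.st m r p hp.1) fun l q hq => ?_)
  rw [Phi_sa h.data]
  exact h.rad p hp.2 l _ (h.st l r q hq)

theorem pfU {U : Matrix ι δ K} (hU : U ∈ N ⊓ W) {m : n} {u : K} (hu : u ≠ 0)
    (e : ∀ p ∈ P m, (Uᵀ * J) *ᵥ p = u • ((Fᵀ * J) *ᵥ p)) {p : ι → K} (hp : p ∈ P m) :
    ∃ v : Fin 3 → ι → K, (∀ r, v r ∈ P m) ∧ p = ∑ r, Phi arm J B U r *ᵥ v r := by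
  obtain ⟨v, hv, e1⟩ := h.pf m p hp
  refine ⟨fun r => (u * u)⁻¹ • v r, fun r => (P m).smul_mem _ (hv r), ?_⟩
  rw [e1]
  refine Finset.sum_congr rfl fun r _ => ?_
  rw [mulVec_smul, (h.stU hU e r (hv r)).1, smul_smul, inv_mul_cancel₀ (mul_ne_zero hu hu),
    one_smul]

/-- the eigenvalue of `F_j := G - λ_j F` -/
theorem eigF (j m : n) {p : ι → K} (hp : p ∈ P m) :
    ((G - lam j • F)ᵀ * J) *ᵥ p = (lam m - lam j) • ((Fᵀ * J) *ᵥ p) := by
  rw [h.eigc (U := G - lam j • F) (a := -lam j) (b := 1)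
    (by rw [neg_smul, one_smul]; abel) m hp]
  congr 1; ring

theorem memFj (j : n) : G - lam j • F ∈ N ⊓ W :=
  (N ⊓ W).sub_mem h.memG ((N ⊓ W).smul_mem _ h.memF)

theorem bp {i j : n} (hij : i ≠ j) :
    BP arm J B N W (G - lam j • F) (G - lam i • F) (P i) (P j) where
  m1 := h.memFj j
  m2 := h.memFj i
  k1 := fun p hp => by rw [h.eigF j j hp, sub_self, zero_smul]
  k2 := fun p hp => by rw [h.eigF i i hp, sub_self, zero_smul]
  pf1 := fun p hp => h.pfU (h.memFj j) (sub_ne_zero.2 (h.ne i j hij)) (fun q hq => h.eigF j i hq) hp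
  pf2 := fun p hp => h.pfU (h.memFj i) (sub_ne_zero.2 (h.ne j i hij.symm))
    (fun q hq => h.eigF i j hq) hp
  st1 := fun r p hp => (h.stU (h.memFj j) (fun q hq => h.eigF j i hq) r hp).2
  st2 := fun r p hp => (h.stU (h.memFj i) (fun q hq => h.eigF i j hq) r hp).2

theorem eigH (i j : n) (a g : K) (m : n) {p : ι → K} (hp : p ∈ P m) :
    ((a • (G - lam j • F) + g • (G - lam i • F))ᵀ * J) *ᵥ p =
      (a * (lam m - lam j) + g * (lam m - lam i)) • ((Fᵀ * J) *ᵥ p) := by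
  rw [transpose_add, transpose_smul, transpose_smul, Matrix.add_mul, Matrix.smul_mul,
    Matrix.smul_mul, add_mulVec, smul_mulVec, smul_mulVec, h.eigF j m hp, h.eigF i m hp,
    smul_smul, smul_smul, ← add_smul]

/-- rows / columns of the family -/
theorem xJ0 {i j : n} {x : Fin 3 → Matrix ι ι K} (hx : Fam (P i) (P j) x) {m : n} (hm : m ≠ i)
    (r : Fin 3) {p : ι → K} (hp : p ∈ P m) : (x r * J) *ᵥ p = 0 := by
  rw [← mulVec_mulVec]
  ext a
  have e1 : (Pi.single a 1 : ι → K) ⬝ᵥ (x r *ᵥ (J *ᵥ p)) = 0 := by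
    rw [dotProduct_mulVec, ← mulVec_transpose]
    exact h.orth hm.symm (hx.r r _) hp
  rwa [single_one_dotProduct] at e1

theorem xtJ0 {i j : n} {x : Fin 3 → Matrix ι ι K} (hx : Fam (P i) (P j) x) {m : n} (hm : m ≠ j)
    (r : Fin 3) {p : ι → K} (hp : p ∈ P m) : ((x r)ᵀ * J) *ᵥ p = 0 :=
  h.xJ0 hx.swap hm r hp

end Blk

theorem homz_apply {Φ : Fin 3 → Matrix ι ι K} {P S : Submodule K (ι → K)} (hPS : P ≤ S)
    (hS : ∀ r, ∀ v ∈ S, Φ r *ᵥ v ∈ S) (hz : HomZ Φ P S) (D : Derivation k K K)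
    (hlin : ∀ r, ∀ p ∈ P, dv D (Φ r *ᵥ p) - Φ r *ᵥ dv D p ∈ S) : ∀ p ∈ P, dv D p ∈ S := by
  let f : P →ₗ[K] ((ι → K) ⧸ S) :=
    { toFun := fun p => S.mkQ (dv D (p : ι → K))
      map_add' := fun p q => by
        rw [Submodule.coe_add, dv_add, map_add]
      map_smul' := fun c p => by
        have e1 : S.mkQ (D c • (p : ι → K)) = 0 := by
          rw [Submodule.mkQ_apply, Submodule.Quotient.mk_eq_zero]
          exact S.smul_mem _ (hPS p.2)
        rw [Submodule.coe_smul, dv_smul, map_add, e1, zero_add, map_smul]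
        rfl }
  have h0 : f = 0 := hz f (by
    intro r p p' v hp' hf
    show S.mkQ (dv D (p' : ι → K)) = S.mkQ (Φ r *ᵥ v)
    have hf' : S.mkQ (dv D (p : ι → K)) = S.mkQ v := hf
    rw [Submodule.mkQ_apply, Submodule.mkQ_apply, Submodule.Quotient.eq] at hf' ⊢
    rw [hp']
    have e1 : dv D (Φ r *ᵥ (p : ι → K)) - Φ r *ᵥ v
        = (dv D (Φ r *ᵥ (p : ι → K)) - Φ r *ᵥ dv D (p : ι → K))
          + Φ r *ᵥ (dv D (p : ι → K) - v) := by
      rw [mulVec_sub]; abel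
    rw [e1]
    exact S.add_mem (hlin r p p.2) (hS r _ hf'))
  intro p hp
  have h1 := LinearMap.congr_fun h0 ⟨p, hp⟩
  have h2 : S.mkQ (dv D p) = 0 := h1
  rwa [Submodule.mkQ_apply, Submodule.Quotient.mk_eq_zero] at h2

theorem dv_Phi (hD : Data k arm J B N W) {H : Matrix ι δ K} {X : Fin 3 → Matrix ι ι K}
    (hX : ∀ s, (X s)ᵀ * J + J * X s = 0) {D : Derivation k K K} (hd : H.map D = act arm X H)
    (r : Fin 3) (p : ι → K) : dv D (Phi arm J B H r *ᵥ p) - Phi arm J B H r *ᵥ dv D p =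
      X r *ᵥ (Phi arm J B H r *ᵥ p) - Phi arm J B H r *ᵥ (X r *ᵥ p) := by
  rw [dv_mulVec, hD.map_Phi H X hX D hd, sub_mulVec, mulVec_mulVec, mulVec_mulVec]
  show _ + Phi arm J B H r *ᵥ dv D p - _ = _
  abel

theorem skewX (hD : Data k arm J B N W) (x : Fin 3 → Matrix ι ι K) (r : Fin 3) :
    ((x r - (x r)ᵀ) * J)ᵀ * J + J * ((x r - (x r)ᵀ) * J) = 0 := by
  rw [transpose_mul, hD.J_symm, transpose_sub, transpose_transpose, ← neg_sub (x r) (x r)ᵀ]
  simp only [Matrix.mul_neg, Matrix.neg_mul, Matrix.mul_assoc, neg_add_cancel]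

end Crest.Agent.R172.GR
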