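import Crest.Agent.R172.GR1b

/-!
Row 172 (S0260), TAME node (T0), arbitrary radical: existence of the motion `Mot`.
-/

set_option linter.unusedSectionVars false
set_option autoImplicit false

namespace Crest.Agent.R172.GR

open Matrix FO

variable {ι : Type*} [Fintype ι] [DecidableEq ι] {δ : Type*} [Fintype δ] [DecidableEq δ]
variable {k K : Type*} [Field k] [Field K] [Algebra k K]
variable {arm : δ → Fin 3} {J : Matrix ι ι K} {B : Matrix δ δ K}
  {N W : Submodule K (Matrix ι δ K)} {F G : Matrix ι δ K}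
variable {n : Type*} [Fintype n] {P : n → Submodule K (ι → K)} {R : Submodule K (ι → K)}
  {lam : n → K} {i j : n}

variable (k) in
/-- the generic element `H = a F₁ + g F₂` -/
structure GH (arm : δ → Fin 3) (J : Matrix ι ι K) (B : Matrix δ δ K)
    (N W : Submodule K (Matrix ι δ K)) (F G : Matrix ι δ K) (P : n → Submodule K (ι → K))
    (R : Submodule K (ι → K)) (lam : n → K) (i j : n) (a g : K) : Prop where
  gen : Generic k arm N W (a • (G - lam j • F) + g • (G - lam i • F))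
  nz : ∀ m, a * (lam m - lam j) + g * (lam m - lam i) ≠ 0
  hz : ∀ m (S : Submodule K (ι → K)), P m ≤ S → S ≤ P m ⊔ R →
    (∀ r, ∀ v ∈ S, Phi arm J B (a • (G - lam j • F) + g • (G - lam i • F)) r *ᵥ v ∈ S) →
    HomZ (Phi arm J B (a • (G - lam j • F) + g • (G - lam i • F))) (P m) S

namespace Blk

variable (h : Blk k arm J B N W F G P R lam)
include h

theorem memH (i j : n) (a g : K) : a • (G - lam j • F) + g • (G - lam i • F) ∈ N ⊓ W :=
  (N ⊓ W).add_mem ((N ⊓ W).smul_mem _ (h.memFj j)) ((N ⊓ W).smul_mem _ (h.memFj i))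

theorem PhiHi (a g : K) (r : Fin 3) {p : ι → K} (hp : p ∈ P i) :
    Phi arm J B (a • (G - lam j • F) + g • (G - lam i • F)) r *ᵥ p =
      (a * a) • (Phi arm J B (G - lam j • F) r *ᵥ p) := by
  rw [(h.stU (h.memH i j a g) (fun q hq => h.eigH i j a g i hq) r hp).1,
    (h.stU (h.memFj j) (fun q hq => h.eigF j i hq) r hp).1, smul_smul]
  congr 1; ring

theorem PhiHj (a g : K) (r : Fin 3) {p : ι → K} (hp : p ∈ P j) :
    Phi arm J B (a • (G - lam j • F) + g • (G - lam i • F)) r *ᵥ p =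
      (g * g) • (Phi arm J B (G - lam i • F) r *ᵥ p) := by
  rw [(h.stU (h.memH i j a g) (fun q hq => h.eigH i j a g j hq) r hp).1,
    (h.stU (h.memFj i) (fun q hq => h.eigF i j hq) r hp).1, smul_smul]
  congr 1; ring

theorem DefJ (c : K) (x : Fin 3 → Matrix ι ι K) (r : Fin 3) (p : ι → K) :
    (Def arm J B (G - lam j • F) (G - lam i • F) c x r * J) *ᵥ p =
      (x r * J) *ᵥ (Phi arm J B (G - lam j • F) r *ᵥ p) -
        c • (Phi arm J B (G - lam i • F) r *ᵥ ((x r * J) *ᵥ p)) := by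
  rw [Def, Matrix.sub_mul, Matrix.smul_mul, sub_mulVec, smul_mulVec, mulVec_mulVec, mulVec_mulVec,
    Phi, Phi]
  simp only [Matrix.mul_assoc]

theorem DeftJ (c : K) (x : Fin 3 → Matrix ι ι K) (r : Fin 3) (p : ι → K) :
    ((Def arm J B (G - lam j • F) (G - lam i • F) c x r)ᵀ * J) *ᵥ p =
      Phi arm J B (G - lam j • F) r *ᵥ (((x r)ᵀ * J) *ᵥ p) -
        c • (((x r)ᵀ * J) *ᵥ (Phi arm J B (G - lam i • F) r *ᵥ p)) := by
  rw [Def, transpose_sub, transpose_smul, transpose_mul, transpose_mul, transpose_mul,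
    transpose_mul, M_symm h.data, M_symm h.data, h.data.J_symm, Matrix.sub_mul, Matrix.smul_mul,
    sub_mulVec, smul_mulVec, mulVec_mulVec, mulVec_mulVec, Phi, Phi]
  simp only [Matrix.mul_assoc]

theorem Xi (hij : i ≠ j) {x : Fin 3 → Matrix ι ι K} (hx : Fam (P i) (P j) x) (r : Fin 3)
    {p : ι → K} (hp : p ∈ P i) : ((x r - (x r)ᵀ) * J) *ᵥ p = (x r * J) *ᵥ p := by
  rw [Matrix.sub_mul, sub_mulVec, h.xtJ0 hx hij r hp, sub_zero]

theorem Xj (hij : i ≠ j) {x : Fin 3 → Matrix ι ι K} (hx : Fam (P i) (P j) x) (r : Fin 3)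
    {p : ι → K} (hp : p ∈ P j) : ((x r - (x r)ᵀ) * J) *ᵥ p = -(((x r)ᵀ * J) *ᵥ p) := by
  rw [Matrix.sub_mul, sub_mulVec, h.xJ0 hx hij.symm r hp, zero_sub]

theorem Xm {x : Fin 3 → Matrix ι ι K} (hx : Fam (P i) (P j) x) {m : n} (hi : m ≠ i) (hj : m ≠ j)
    (r : Fin 3) {p : ι → K} (hp : p ∈ P m) : ((x r - (x r)ᵀ) * J) *ᵥ p = 0 := by
  rw [Matrix.sub_mul, sub_mulVec, h.xJ0 hx hi r hp, h.xtJ0 hx hj r hp, sub_zero]

theorem xJmem {x : Fin 3 → Matrix ι ι K} (hx : Fam (P i) (P j) x) (r : Fin 3)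
    (p : ι → K) : (x r * J) *ᵥ p ∈ P j := by
  rw [← mulVec_mulVec]; exact hx.l r _

theorem xtJmem {x : Fin 3 → Matrix ι ι K} (hx : Fam (P i) (P j) x) (r : Fin 3)
    (p : ι → K) : ((x r)ᵀ * J) *ᵥ p ∈ P i := by
  rw [← mulVec_mulVec]; exact hx.r r _

theorem stsup {U : Matrix ι δ K} (hU : U ∈ N ⊓ W) {m l : n} {u u' : K}
    (e : ∀ p ∈ P m, (Uᵀ * J) *ᵥ p = u • ((Fᵀ * J) *ᵥ p))
    (e' : ∀ p ∈ P l, (Uᵀ * J) *ᵥ p = u' • ((Fᵀ * J) *ᵥ p)) (r : Fin 3) {v : ι → K}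
    (hv : v ∈ P m ⊔ (P l ⊓ R)) : Phi arm J B U r *ᵥ v ∈ P m ⊔ (P l ⊓ R) := by
  obtain ⟨p, hp, q, hq, rfl⟩ := Submodule.mem_sup.1 hv
  rw [mulVec_add]
  exact Submodule.add_mem_sup (h.stU hU e r hp).2 (h.stR hU e' r hq)

/-- the motion at one generic element -/
theorem one (hij : i ≠ j) {a g : K} (ha : a ≠ 0)
    (hH : GH k arm J B N W F G P R lam i j a g) {x : Fin 3 → Matrix ι ι K}
    (hx : Fam (P i) (P j) x)
    (hr1 : ∀ r, ∀ v ∈ P i,
      (Def arm J B (G - lam j • F) (G - lam i • F) ((g / a) ^ 2) x r * J) *ᵥ v ∈ R)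
    (hr2 : ∀ r, ∀ v ∈ P j,
      ((Def arm J B (G - lam j • F) (G - lam i • F) ((g / a) ^ 2) x r)ᵀ * J) *ᵥ v ∈ R)
    {ξ : Matrix δ δ K} (hξ : ξᵀ * B + B * ξ = 0)
    (hξH : (a • (G - lam j • F) + g • (G - lam i • F)) * ξᵀ =
      act arm (fun r => (x r - (x r)ᵀ) * J) (a • (G - lam j • F) + g • (G - lam i • F))) :
    ∃ D : Derivation k K K, Realises arm N W (fun r => (x r - (x r)ᵀ) * J) ξ D ∧
      (a • (G - lam j • F) + g • (G - lam i • F)).map D =
        act arm (fun r => (x r - (x r)ᵀ) * J) (a • (G - lam j • F) + g • (G - lam i • F)) ∧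
      (∀ m, m ≠ i → m ≠ j → ∀ p ∈ P m, dv D p ∈ P m) ∧
      (∀ p ∈ P i, dv D p ∈ P i ⊔ (P j ⊓ R)) ∧ (∀ p ∈ P j, dv D p ∈ P j ⊔ (P i ⊓ R)) := by
  obtain ⟨D, h1, h2⟩ := persist_xi h.data hH.gen _ (fun s => skewX h.data x s) ξ hξ hξH
  have hHm := h.memH i j a g
  have ea : a * a * (g / a) ^ 2 = g * g := by field_simp
  refine ⟨D, h1, h2, fun m hi hj => ?_, ?_, ?_⟩
  · have e := fun p (hp : p ∈ P m) => h.eigH i j a g m hp
    refine homz_apply le_rfl (fun r v hv => (h.stU hHm e r hv).2)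
      (hH.hz m (P m) le_rfl le_sup_left (fun r v hv => (h.stU hHm e r hv).2)) D ?_
    intro r p hp
    rw [dv_Phi h.data (fun s => skewX h.data x s) h2, h.Xm hx hi hj r hp, mulVec_zero,
      h.Xm hx hi hj r (h.stU hHm e r hp).2, sub_zero]
    exact (P m).zero_mem
  · have e := fun p (hp : p ∈ P i) => h.eigH i j a g i hp
    have e' := fun p (hp : p ∈ P j) => h.eigH i j a g j hp
    have hst : ∀ r, ∀ v ∈ P i ⊔ (P j ⊓ R),
        Phi arm J B (a • (G - lam j • F) + g • (G - lam i • F)) r *ᵥ v ∈ P i ⊔ (P j ⊓ R) :=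
      fun r v hv => h.stsup hHm e e' r hv
    refine homz_apply le_sup_left hst (hH.hz i _ le_sup_left
      (sup_le_sup_left inf_le_right _) hst) D ?_
    intro r p hp
    rw [dv_Phi h.data (fun s => skewX h.data x s) h2, h.Xi hij hx r hp,
      h.Xi hij hx r (h.stU hHm e r hp).2, h.PhiHi a g r hp, h.PhiHj a g r (h.xJmem hx r p),
      mulVec_smul]
    have e3 : (a * a) • ((x r * J) *ᵥ (Phi arm J B (G - lam j • F) r *ᵥ p)) -
        (g * g) • (Phi arm J B (G - lam i • F) r *ᵥ ((x r * J) *ᵥ p)) =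
        (a * a) • ((Def arm J B (G - lam j • F) (G - lam i • F) ((g / a) ^ 2) x r * J) *ᵥ p) := by
      rw [h.DefJ, smul_sub, smul_smul, ea]
    have e4 : (x r * J) *ᵥ (Phi arm J B (G - lam j • F) r *ᵥ p) -
        ((g / a) ^ 2) • (Phi arm J B (G - lam i • F) r *ᵥ ((x r * J) *ᵥ p)) ∈ P j :=
      (P j).sub_mem (h.xJmem hx r _) ((P j).smul_mem _
        (h.stU (h.memFj i) (fun q hq => h.eigF i j hq) r (h.xJmem hx r p)).2)
    rw [e3]
    refine Submodule.mem_sup_right (Submodule.smul_mem _ _ ⟨?_, hr1 r p hp⟩)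
    rw [h.DefJ]
    exact e4
  · have e := fun p (hp : p ∈ P i) => h.eigH i j a g i hp
    have e' := fun p (hp : p ∈ P j) => h.eigH i j a g j hp
    have hst : ∀ r, ∀ v ∈ P j ⊔ (P i ⊓ R),
        Phi arm J B (a • (G - lam j • F) + g • (G - lam i • F)) r *ᵥ v ∈ P j ⊔ (P i ⊓ R) :=
      fun r v hv => h.stsup hHm e' e r hv
    refine homz_apply le_sup_left hst (hH.hz j _ le_sup_left
      (sup_le_sup_left inf_le_right _) hst) D ?_
    intro r p hp
    rw [dv_Phi h.data (fun s => skewX h.data x s) h2, h.Xj hij hx r hp,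
      h.Xj hij hx r (h.stU hHm e' r hp).2, h.PhiHj a g r hp, mulVec_neg,
      h.PhiHi a g r (h.xtJmem hx r p), mulVec_smul]
    have e3 : -((g * g) • (((x r)ᵀ * J) *ᵥ (Phi arm J B (G - lam i • F) r *ᵥ p))) -
        -((a * a) • (Phi arm J B (G - lam j • F) r *ᵥ (((x r)ᵀ * J) *ᵥ p))) =
        (a * a) • (((Def arm J B (G - lam j • F) (G - lam i • F) ((g / a) ^ 2) x r)ᵀ * J) *ᵥ p) := by
      rw [h.DeftJ, smul_sub, smul_smul, ea]
      abel
    have e4 : Phi arm J B (G - lam j • F) r *ᵥ (((x r)ᵀ * J) *ᵥ p) -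
        ((g / a) ^ 2) • (((x r)ᵀ * J) *ᵥ (Phi arm J B (G - lam i • F) r *ᵥ p)) ∈ P i :=
      (P i).sub_mem (h.stU (h.memFj j) (fun q hq => h.eigF j i hq) r (h.xtJmem hx r p)).2
        ((P i).smul_mem _ (h.xtJmem hx r _))
    rw [e3]
    refine Submodule.mem_sup_right (Submodule.smul_mem _ _ ⟨?_, hr2 r p hp⟩)
    rw [h.DeftJ]
    exact e4

end Blk

end Crest.Agent.R172.GR
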