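import Crest.Agent.R172.GR1c

/-!
Row 172 (S0260), TAME node (T0), arbitrary radical: existence of the motion `Mot` (averaging over
the two signs).
-/

set_option linter.unusedSectionVars false
set_option autoImplicit false

namespace Crest.Agent.R172.GR

open Matrix FO

variable {ι : Type*} [Fintype ι] [DecidableEq ι] {δ : Type*} [Fintype δ] [DecidableEq δ]
variable {k K : Type*} [Field k] [Field K] [Algebra k K]
variable {arm : δ → Fin 3} {J : Matrix ι ι K} {B : Matrix δ δ K}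
  {N W : Submodule K (Matrix ι δ K)} {F G : Matrix ι δ K}
variable {n : Type*} [Fintype n] {P : n → Submodule K (ι → K)} {R : Submodule K (ι → K)}
  {lam : n → K} {i j : n}

theorem d_mulVec {α β : Type*} [Fintype β] (D : Derivation k K K) (A : Matrix α β K)
    (p : β → K) : (fun a => D ((A *ᵥ p) a)) = (A.map D) *ᵥ p + A *ᵥ (fun b => D (p b)) := by
  ext a
  simp only [mulVec, dotProduct, map_sum, Derivation.leibniz, smul_eq_mul, Pi.add_apply,
    map_apply, Finset.sum_add_distrib]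
  rw [add_comm]
  congr 1
  exact Finset.sum_congr rfl fun x _ => mul_comm _ _

theorem mapUJ (hD : Data k arm J B N W) (D : Derivation k K K) (U : Matrix ι δ K) :
    (Uᵀ * J).map D = (U.map D)ᵀ * J := by
  rw [map_mul_der, hD.J_const, Matrix.mul_zero, add_zero]
  rfl

/-- differentiate `Uᵀ J p = u • Fᵀ J p` -/
theorem rowd (hD : Data k arm J B N W) (D : Derivation k K K) {U V : Matrix ι δ K} {u : K}
    {p : ι → K} (e : (Uᵀ * J) *ᵥ p = u • ((Vᵀ * J) *ᵥ p)) :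
    ((U.map D)ᵀ * J) *ᵥ p + (Uᵀ * J) *ᵥ dv D p =
      D u • ((Vᵀ * J) *ᵥ p) + u • (((V.map D)ᵀ * J) *ᵥ p + (Vᵀ * J) *ᵥ dv D p) := by
  have e1 := d_mulVec D (Uᵀ * J) p
  have e2 := d_mulVec D (Vᵀ * J) p
  rw [e] at e1
  rw [mapUJ hD] at e1 e2
  have e3 : (fun a => D ((u • ((Vᵀ * J) *ᵥ p)) a)) =
      D u • ((Vᵀ * J) *ᵥ p) + u • (fun a => D (((Vᵀ * J) *ᵥ p) a)) := by
    ext a
    simp only [Pi.smul_apply, smul_eq_mul, Derivation.leibniz, Pi.add_apply]
    ring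
  rw [e3, e2] at e1
  exact e1.symm

theorem rowd0 (hD : Data k arm J B N W) (D : Derivation k K K) {U : Matrix ι δ K}
    {p : ι → K} (e : (Uᵀ * J) *ᵥ p = 0) :
    ((U.map D)ᵀ * J) *ᵥ p = -((Uᵀ * J) *ᵥ dv D p) := by
  have e1 := rowd hD D (U := U) (V := U) (u := 0) (p := p) (by rw [e, zero_smul])
  rw [map_zero, zero_smul, zero_smul, zero_add] at e1
  exact eq_neg_of_add_eq_zero_left e1

theorem xmT (hD : Data k arm J B N W) (y : Fin 3 → Matrix ι ι K) (U : Matrix ι δ K)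
    (p : ι → K) : ((xm arm J y U)ᵀ * J) *ᵥ p =
      ∑ r, (E K arm r * Uᵀ * J) *ᵥ (((y r)ᵀ * J) *ᵥ p) := by
  unfold xm act
  rw [transpose_sum, Matrix.sum_mul, Matrix.sum_mulVec]
  refine Finset.sum_congr rfl fun r _ => ?_
  rw [transpose_mul, transpose_mul, transpose_mul, hD.J_symm, E_transpose, mulVec_mulVec]
  simp only [Matrix.mul_assoc]

theorem xmT0 (hD : Data k arm J B N W) {y : Fin 3 → Matrix ι ι K} (U : Matrix ι δ K)
    {p : ι → K} (h0 : ∀ r, ((y r)ᵀ * J) *ᵥ p = 0) : ((xm arm J y U)ᵀ * J) *ᵥ p = 0 := by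
  rw [xmT hD]
  exact Finset.sum_eq_zero fun r _ => by rw [h0 r, mulVec_zero]

theorem act_sum (hD : Data k arm J B N W) (hbp : BP arm J B N W (G - lam j • F)
    (G - lam i • F) (P i) (P j)) {x : Fin 3 → Matrix ι ι K} (hx : Fam (P i) (P j) x) (a g : K) :
    act arm (fun r => (x r - (x r)ᵀ) * J) (a • (G - lam j • F) + g • (G - lam i • F)) =
      a • xm arm J x (G - lam j • F) - g • xm arm J (tr x) (G - lam i • F) := by
  have e1 : (fun r => (x r - (x r)ᵀ) * J) = fun r => x r * J - (tr x) r * J := by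
    funext r; rw [Matrix.sub_mul]; rfl
  have e2 : act arm (fun r => x r * J) (G - lam i • F) = 0 :=
    act_congr0 fun r => hbp.xF2 hD hx r
  have e3 : act arm (fun r => (tr x) r * J) (G - lam j • F) = 0 :=
    act_congr0 fun r => hbp.xtF1 hD hx r
  rw [e1, act_subl, act_addr, act_addr, act_smulr, act_smulr, act_smulr, act_smulr, e2, e3,
    smul_zero, smul_zero, add_zero, zero_add]
  rfl

theorem map_avg (c : K) (Dp Dm : Derivation k K K) {α β : Type*} (A : Matrix α β K) :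
    A.map (c • (Dp + Dm)) = c • (A.map Dp + A.map Dm) := by
  ext a b; simp; ring

theorem dv_avg (c : K) (Dp Dm : Derivation k K K) (p : ι → K) :
    dv (c • (Dp + Dm)) p = c • (dv Dp p + dv Dm p) := by
  ext a; simp [dv]; ring

theorem half_two {V : Type*} [AddCommGroup V] [Module K V] (h2 : (2 : K) ≠ 0) (v : V) :
    (2 : K)⁻¹ • (v + v) = v := by
  rw [← two_smul K, smul_smul, inv_mul_cancel₀ h2, one_smul]

/-- the average realises `(X, 0)` -/
theorem real_avg (h2 : (2 : K) ≠ 0) {X : Fin 3 → Matrix ι ι K} {ξ : Matrix δ δ K}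
    {Dp Dm : Derivation k K K} (hp : Realises arm N W X ξ Dp) (hm : Realises arm N W X (-ξ) Dm) :
    Realises arm N W X 0 ((2 : K)⁻¹ • (Dp + Dm)) := by
  refine ⟨fun U hU => ?_, fun U hU => ?_⟩
  · have e1 := N.smul_mem (2 : K)⁻¹ (N.add_mem (hp.onN U hU) (hm.onN U hU))
    have e2 : U.map ((2 : K)⁻¹ • (Dp + Dm)) - act arm X U =
        (2 : K)⁻¹ • ((U.map Dp - act arm X U) + (U.map Dm - act arm X U)) := by
      rw [map_avg]
      conv_lhs => rw [← half_two h2 (act arm X U)]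
      rw [← smul_sub]; congr 1; abel
    rw [e2]; exact e1
  · have e1 := W.smul_mem (2 : K)⁻¹ (W.add_mem (hp.onW U hU) (hm.onW U hU))
    have e2 : U.map ((2 : K)⁻¹ • (Dp + Dm)) - U * (0 : Matrix δ δ K)ᵀ =
        (2 : K)⁻¹ • ((U.map Dp - U * ξᵀ) + (U.map Dm - U * (-ξ)ᵀ)) := by
      rw [map_avg, transpose_zero, Matrix.mul_zero, sub_zero, transpose_neg, Matrix.mul_neg]
      congr 1; abel
    rw [e2]; exact e1

namespace Blk

variable (h : Blk k arm J B N W F G P R lam)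
include h

theorem radRR {ρ ρ' : ι → K} (hρ : ρ ∈ R) (hρ' : ρ' ∈ R) : ρ ⬝ᵥ (J *ᵥ ρ') = 0 := by
  obtain ⟨v, hv, rfl⟩ := h.Rdec ρ' hρ'
  rw [mulVec_sum, dotProduct_sum]
  exact Finset.sum_eq_zero fun l _ => h.rad ρ hρ l _ (hv l).1

theorem memR' {q : ι → K} (hq : q ∈ ⨆ m, P m) (h0 : ∀ l, ∀ p ∈ P l, q ⬝ᵥ (J *ᵥ p) = 0) :
    q ∈ R := by
  obtain ⟨f, hf, rfl⟩ := (Submodule.mem_iSup_iff_exists_finsupp P q).1 hq
  rw [Finsupp.sum_fintype _ _ (fun _ => rfl)] at h0 ⊢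
  exact h.Rmax f hf h0

theorem R_le : R ≤ ⨆ m, P m := by
  intro ρ hρ
  obtain ⟨v, hv, rfl⟩ := h.Rdec ρ hρ
  exact Submodule.sum_mem _ fun l _ => (le_iSup P l) (hv l).1

theorem dR {D : Derivation k K K} (hb : ∀ m, ∀ p ∈ P m, dv D p ∈ P m ⊔ R) :
    ∀ ρ ∈ R, dv D ρ ∈ R := by
  intro ρ hρ
  apply h.memR'
  · obtain ⟨v, hv, rfl⟩ := h.Rdec ρ hρ
    rw [dv_sum]
    exact Submodule.sum_mem _ fun l _ => (sup_le (le_iSup P l) h.R_le) (hb l _ (hv l).1)
  · intro l p hp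
    have e1 := d_dot D ρ (J *ᵥ p)
    rw [h.rad ρ hρ l p hp, map_zero, dv_J h.data] at e1
    obtain ⟨p', hp', ρ', hρ', e2⟩ := Submodule.mem_sup.1 (hb l p hp)
    rw [← e2, mulVec_add, dotProduct_add, h.rad ρ hρ l p' hp', h.radRR hρ hρ', add_zero,
      add_zero] at e1
    exact e1.symm

end Blk

end Crest.Agent.R172.GR
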