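import Crest.Agent.R172.GR1d

/-!
Row 172 (S0260), TAME node (T0), arbitrary radical: existence of the motion `Mot` (averaging over
the two signs), main theorem.
-/

set_option linter.unusedSectionVars false
set_option autoImplicit false

namespace Crest.Agent.R172.GR

open Matrix FO

variable {ι : Type*} [Fintype ι] [DecidableEq ι] {δ : Type*} [Fintype δ] [DecidableEq δ]
variable {k K : Type*} [Field k] [Field K] [Algebra k K]
variable {arm : δ → Fin 3} {J : Matrix ι ι K} {B : Matrix δ δ K}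
  {N W : Submodule K (Matrix ι δ K)} {F G : Matrix ι δ K}
variable {n : Type*} [Fintype n] {P : n → Submodule K (ι → K)} {R : Submodule K (ι → K)}
  {lam : n → K} {i j : n}

namespace Blk

variable (h : Blk k arm J B N W F G P R lam)
include h

/-- rows of `F₁.map D` on `P i`, one sign -/
theorem row_one (hij : i ≠ j) {a g : K} {x : Fin 3 → Matrix ι ι K}
    (hx : Fam (P i) (P j) x) {D : Derivation k K K}
    (hd : (a • (G - lam j • F) + g • (G - lam i • F)).map D =
      act arm (fun r => (x r - (x r)ᵀ) * J) (a • (G - lam j • F) + g • (G - lam i • F)))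
    {p : ι → K} (hp : p ∈ P i) :
    a • ((((G - lam j • F).map D)ᵀ * J) *ᵥ p) =
      -(g • (((xm arm J (tr x) (G - lam i • F))ᵀ * J) *ᵥ p)) -
        D a • (((G - lam j • F)ᵀ * J) *ᵥ p) + g • (((G - lam i • F)ᵀ * J) *ᵥ dv D p) := by
  have hbp := h.bp hij
  have e1 := rowd h.data D (U := a • (G - lam j • F) + g • (G - lam i • F))
    (V := G - lam j • F) (u := a) (p := p) (by
      rw [transpose_add, transpose_smul, transpose_smul, Matrix.add_mul, Matrix.smul_mul,
        Matrix.smul_mul, add_mulVec, smul_mulVec, smul_mulVec, hbp.k2 p hp, smul_zero, add_zero])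
  rw [hd, act_sum h.data hbp hx, transpose_sub, transpose_smul, transpose_smul, Matrix.sub_mul,
    Matrix.smul_mul, Matrix.smul_mul, sub_mulVec, smul_mulVec, smul_mulVec,
    xmT0 h.data (y := x) (G - lam j • F) (fun r => h.xtJ0 hx hij r hp), smul_zero, zero_sub,
    transpose_add, transpose_smul, transpose_smul, Matrix.add_mul, Matrix.smul_mul,
    Matrix.smul_mul, add_mulVec, smul_mulVec, smul_mulVec, smul_add] at e1
  have e2 : a • ((((G - lam j • F).map D)ᵀ * J) *ᵥ p) =
      (-(g • (((xm arm J (tr x) (G - lam i • F))ᵀ * J) *ᵥ p)) +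
        (a • (((G - lam j • F)ᵀ * J) *ᵥ dv D p) + g • (((G - lam i • F)ᵀ * J) *ᵥ dv D p))) -
        D a • (((G - lam j • F)ᵀ * J) *ᵥ p) - a • (((G - lam j • F)ᵀ * J) *ᵥ dv D p) := by
    rw [e1]; abel
  rw [e2]; abel

/-- rows of `F₂.map D` on `P j`, one sign -/
theorem row_two (hij : i ≠ j) {a g : K} {x : Fin 3 → Matrix ι ι K}
    (hx : Fam (P i) (P j) x) {D : Derivation k K K}
    (hd : (a • (G - lam j • F) + g • (G - lam i • F)).map D =
      act arm (fun r => (x r - (x r)ᵀ) * J) (a • (G - lam j • F) + g • (G - lam i • F)))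
    {p : ι → K} (hp : p ∈ P j) :
    g • ((((G - lam i • F).map D)ᵀ * J) *ᵥ p) =
      a • (((xm arm J x (G - lam j • F))ᵀ * J) *ᵥ p) -
        D g • (((G - lam i • F)ᵀ * J) *ᵥ p) + a • (((G - lam j • F)ᵀ * J) *ᵥ dv D p) := by
  have hbp := h.bp hij
  have e1 := rowd h.data D (U := a • (G - lam j • F) + g • (G - lam i • F))
    (V := G - lam i • F) (u := g) (p := p) (by
      rw [transpose_add, transpose_smul, transpose_smul, Matrix.add_mul, Matrix.smul_mul,
        Matrix.smul_mul, add_mulVec, smul_mulVec, smul_mulVec, hbp.k1 p hp, smul_zero, zero_add])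
  have e0 : ((xm arm J (tr x) (G - lam i • F))ᵀ * J) *ᵥ p = 0 :=
    xmT0 h.data (y := tr x) (G - lam i • F) (fun r => by
      rw [tr, transpose_transpose]; exact h.xJ0 hx hij.symm r hp)
  rw [hd, act_sum h.data hbp hx, transpose_sub, transpose_smul, transpose_smul, Matrix.sub_mul,
    Matrix.smul_mul, Matrix.smul_mul, sub_mulVec, smul_mulVec, smul_mulVec, e0, smul_zero, sub_zero,
    transpose_add, transpose_smul, transpose_smul, Matrix.add_mul, Matrix.smul_mul,
    Matrix.smul_mul, add_mulVec, smul_mulVec, smul_mulVec, smul_add] at e1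
  have e2 : g • ((((G - lam i • F).map D)ᵀ * J) *ᵥ p) =
      (a • (((xm arm J x (G - lam j • F))ᵀ * J) *ᵥ p) +
        (a • (((G - lam j • F)ᵀ * J) *ᵥ dv D p) + g • (((G - lam i • F)ᵀ * J) *ᵥ dv D p))) -
        D g • (((G - lam i • F)ᵀ * J) *ᵥ p) - g • (((G - lam i • F)ᵀ * J) *ᵥ dv D p) := by
    rw [e1]; abel
  rw [e2]; abel

/-- rows of `F.map D` on a third block -/
theorem row_three (hij : i ≠ j) {a g : K} {x : Fin 3 → Matrix ι ι K}
    (hx : Fam (P i) (P j) x) {D : Derivation k K K}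
    (hd : (a • (G - lam j • F) + g • (G - lam i • F)).map D =
      act arm (fun r => (x r - (x r)ᵀ) * J) (a • (G - lam j • F) + g • (G - lam i • F)))
    {m : n} (hi : m ≠ i) (hj : m ≠ j) (hm : ∀ p ∈ P m, dv D p ∈ P m) {p : ι → K}
    (hp : p ∈ P m) :
    (a * (lam m - lam j) + g * (lam m - lam i)) • (((F.map D)ᵀ * J) *ᵥ p) =
      -(D (a * (lam m - lam j) + g * (lam m - lam i)) • ((Fᵀ * J) *ᵥ p)) := by
  have e1 := rowd h.data D (h.eigH i j a g m hp)
  have e0 : ((xm arm J (tr x) (G - lam i • F))ᵀ * J) *ᵥ p = 0 :=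
    xmT0 h.data (y := tr x) (G - lam i • F) (fun r => by
      rw [tr, transpose_transpose]; exact h.xJ0 hx hi r hp)
  rw [hd, act_sum h.data (h.bp hij) hx, transpose_sub, transpose_smul, transpose_smul,
    Matrix.sub_mul, Matrix.smul_mul, Matrix.smul_mul, sub_mulVec, smul_mulVec, smul_mulVec, e0,
    xmT0 h.data (y := x) (G - lam j • F) (fun r => h.xtJ0 hx hj r hp), smul_zero, smul_zero,
    sub_zero, zero_add, h.eigH i j a g m (hm p hp), smul_add, ← add_assoc] at e1
  have e2 := add_right_cancel (e1.symm.trans (zero_add _).symm)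
  exact eq_neg_of_add_eq_zero_right e2

/-- the two signs agree on `P i + R_j` -/
theorem agree_i (a g : K) (r : Fin 3) {v : ι → K} (hv : v ∈ P i ⊔ (P j ⊓ R)) :
    Phi arm J B (a • (G - lam j • F) + (-g) • (G - lam i • F)) r *ᵥ v =
      Phi arm J B (a • (G - lam j • F) + g • (G - lam i • F)) r *ᵥ v := by
  obtain ⟨p, hp, q, hq, rfl⟩ := Submodule.mem_sup.1 hv
  rw [mulVec_add, mulVec_add, h.PhiHi a g r hp, h.PhiHi a (-g) r hp, h.PhiHj a g r hq.1,
    h.PhiHj a (-g) r hq.1, neg_mul_neg]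

theorem agree_j (a g : K) (r : Fin 3) {v : ι → K} (hv : v ∈ P j ⊔ (P i ⊓ R)) :
    Phi arm J B (a • (G - lam j • F) + (-g) • (G - lam i • F)) r *ᵥ v =
      Phi arm J B (a • (G - lam j • F) + g • (G - lam i • F)) r *ᵥ v := by
  obtain ⟨p, hp, q, hq, rfl⟩ := Submodule.mem_sup.1 hv
  rw [mulVec_add, mulVec_add, h.PhiHj a g r hp, h.PhiHj a (-g) r hp, h.PhiHi a g r hq.1,
    h.PhiHi a (-g) r hq.1, neg_mul_neg]

/-- the difference of the two motions is tangent to `P i` and `P j` -/
theorem diff_i (hij : i ≠ j) {a g : K} (hH : GH k arm J B N W F G P R lam i j a g)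
    {x : Fin 3 → Matrix ι ι K} (hx : Fam (P i) (P j) x) {Dp Dm : Derivation k K K}
    (hdp : (a • (G - lam j • F) + g • (G - lam i • F)).map Dp =
      act arm (fun r => (x r - (x r)ᵀ) * J) (a • (G - lam j • F) + g • (G - lam i • F)))
    (hdm : (a • (G - lam j • F) + (-g) • (G - lam i • F)).map Dm =
      act arm (fun r => (x r - (x r)ᵀ) * J) (a • (G - lam j • F) + (-g) • (G - lam i • F)))
    (hm : ∀ p ∈ P i, dv Dm p ∈ P i ⊔ (P j ⊓ R)) :
    ∀ p ∈ P i, dv Dp p - dv Dm p ∈ P i := by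
  have e := fun p (hp : p ∈ P i) => h.eigH i j a g i hp
  have hst : ∀ r, ∀ v ∈ P i,
      Phi arm J B (a • (G - lam j • F) + g • (G - lam i • F)) r *ᵥ v ∈ P i :=
    fun r v hv => (h.stU (h.memH i j a g) e r hv).2
  have hsub : ∀ p : ι → K, dv (Dp - Dm) p = dv Dp p - dv Dm p := fun p => by ext a; simp [dv]
  have key := homz_apply le_rfl hst (hH.hz i (P i) le_rfl le_sup_left hst) (Dp - Dm) (by
    intro r p hp
    have e1 := dv_Phi h.data (fun s => skewX h.data x s) hdp r p
    have e2 := dv_Phi h.data (fun s => skewX h.data x s) hdm r p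
    rw [h.agree_i a g r (Submodule.mem_sup_left hp), h.agree_i a g r (hm p hp),
      h.Xi hij hx r hp, h.PhiHj a (-g) r (h.xJmem hx r p), neg_mul_neg] at e2
    rw [h.Xi hij hx r hp, h.PhiHj a g r (h.xJmem hx r p)] at e1
    have e3 : dv (Dp - Dm) (Phi arm J B (a • (G - lam j • F) + g • (G - lam i • F)) r *ᵥ p) -
        Phi arm J B (a • (G - lam j • F) + g • (G - lam i • F)) r *ᵥ dv (Dp - Dm) p = 0 := by
      rw [hsub, hsub, mulVec_sub]
      rw [← sub_eq_zero.2 (e1.trans e2.symm)]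
      abel
    rw [e3]
    exact (P i).zero_mem)
  intro p hp
  rw [← hsub]
  exact key p hp

theorem diff_j (hij : i ≠ j) {a g : K} (hH : GH k arm J B N W F G P R lam i j a g)
    {x : Fin 3 → Matrix ι ι K} (hx : Fam (P i) (P j) x) {Dp Dm : Derivation k K K}
    (hdp : (a • (G - lam j • F) + g • (G - lam i • F)).map Dp =
      act arm (fun r => (x r - (x r)ᵀ) * J) (a • (G - lam j • F) + g • (G - lam i • F)))
    (hdm : (a • (G - lam j • F) + (-g) • (G - lam i • F)).map Dm =
      act arm (fun r => (x r - (x r)ᵀ) * J) (a • (G - lam j • F) + (-g) • (G - lam i • F)))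
    (hm : ∀ p ∈ P j, dv Dm p ∈ P j ⊔ (P i ⊓ R)) :
    ∀ p ∈ P j, dv Dp p - dv Dm p ∈ P j := by
  have e := fun p (hp : p ∈ P j) => h.eigH i j a g j hp
  have hst : ∀ r, ∀ v ∈ P j,
      Phi arm J B (a • (G - lam j • F) + g • (G - lam i • F)) r *ᵥ v ∈ P j :=
    fun r v hv => (h.stU (h.memH i j a g) e r hv).2
  have hsub : ∀ p : ι → K, dv (Dp - Dm) p = dv Dp p - dv Dm p := fun p => by ext a; simp [dv]
  have key := homz_apply le_rfl hst (hH.hz j (P j) le_rfl le_sup_left hst) (Dp - Dm) (by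
    intro r p hp
    have e1 := dv_Phi h.data (fun s => skewX h.data x s) hdp r p
    have e2 := dv_Phi h.data (fun s => skewX h.data x s) hdm r p
    rw [h.agree_j a g r (Submodule.mem_sup_left hp), h.agree_j a g r (hm p hp),
      h.Xj hij hx r hp, mulVec_neg, h.PhiHi a (-g) r (h.xtJmem hx r p)] at e2
    rw [h.Xj hij hx r hp, mulVec_neg, h.PhiHi a g r (h.xtJmem hx r p)] at e1
    have e3 : dv (Dp - Dm) (Phi arm J B (a • (G - lam j • F) + g • (G - lam i • F)) r *ᵥ p) -
        Phi arm J B (a • (G - lam j • F) + g • (G - lam i • F)) r *ᵥ dv (Dp - Dm) p = 0 := by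
      rw [hsub, hsub, mulVec_sub]
      rw [← sub_eq_zero.2 (e1.trans e2.symm)]
      abel
    rw [e3]
    exact (P j).zero_mem)
  intro p hp
  rw [← hsub]
  exact key p hp

end Blk

end Crest.Agent.R172.GR
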