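import Crest.Agent.R172.GR1e

/-!
Row 172 (S0260), TAME node (T0), arbitrary radical: existence of the motion `Mot`, final theorem.
-/

set_option linter.unusedSectionVars false
set_option autoImplicit false

namespace Crest.Agent.R172.GR

open Matrix FO

variable {ι : Type*} [Fintype ι] [DecidableEq ι] {δ : Type*} [Fintype δ] [DecidableEq δ]
variable {k K : Type*} [Field k] [Field K] [Algebra k K]
variable {arm : δ → Fin 3} {J : Matrix ι ι K} {B : Matrix δ δ K}
  {N W : Submodule K (Matrix ι δ K)} {F G : Matrix ι δ K}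
variable {n : Type*} [Fintype n] {P : n → Submodule K (ι → K)} {R : Submodule K (ι → K)}
  {lam : n → K} {i j : n}

theorem map_smul_d (d : Derivation k K K) (c : K) {α β : Type*} (F : Matrix α β K) :
    (c • F).map d = d c • F + c • F.map d := by
  ext i j
  simp only [map_apply, Matrix.smul_apply, smul_eq_mul, Derivation.leibniz, Matrix.add_apply]
  ring

/-- **GR1**: existence of the motion. -/
theorem Blk.exists_mot (h2 : (2 : K) ≠ 0) (h : Blk k arm J B N W F G P R lam) (hij : i ≠ j)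
    {a g : K} (ha : a ≠ 0) (hg : g ≠ 0)
    (hp : GH k arm J B N W F G P R lam i j a g) (hm : GH k arm J B N W F G P R lam i j a (-g))
    {x : Fin 3 → Matrix ι ι K} (hx : Fam (P i) (P j) x)
    (hex : ∑ r, Def arm J B (G - lam j • F) (G - lam i • F) ((g / a) ^ 2) x r = 0)
    (hr1 : ∀ r, ∀ v ∈ P i,
      (Def arm J B (G - lam j • F) (G - lam i • F) ((g / a) ^ 2) x r * J) *ᵥ v ∈ R)
    (hr2 : ∀ r, ∀ v ∈ P j,
      ((Def arm J B (G - lam j • F) (G - lam i • F) ((g / a) ^ 2) x r)ᵀ * J) *ᵥ v ∈ R) :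
    ∃ D : Derivation k K K, Mot k arm J B N W F (G - lam j • F) (G - lam i • F) P R i j
      ((g / a) ^ 2) x D := by
  have hD := h.data
  have hbp := h.bp hij
  obtain ⟨ξ, hξ, hξ1, hξ2⟩ := hbp.exists_xi hD hx (div_ne_zero hg ha) hex
  have ec1 : a * (g / a) = g := by field_simp
  have ec2 : g * (g / a)⁻¹ = a := by field_simp
  have hξp : (a • (G - lam j • F) + g • (G - lam i • F)) * ξᵀ =
      act arm (fun r => (x r - (x r)ᵀ) * J) (a • (G - lam j • F) + g • (G - lam i • F)) := by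
    rw [act_sum hD hbp hx, Matrix.add_mul, Matrix.smul_mul, Matrix.smul_mul, hξ1, hξ2, smul_neg,
      smul_smul, smul_smul, ec1, ec2]
    abel
  have hξm : (a • (G - lam j • F) + (-g) • (G - lam i • F)) * (-ξ)ᵀ =
      act arm (fun r => (x r - (x r)ᵀ) * J) (a • (G - lam j • F) + (-g) • (G - lam i • F)) := by
    rw [act_sum hD hbp hx, transpose_neg, Matrix.mul_neg, Matrix.add_mul, Matrix.smul_mul,
      Matrix.smul_mul, hξ1, hξ2, smul_neg, smul_smul, smul_smul, ec1, neg_mul, ec2, neg_smul,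
      neg_smul]
    abel
  have hξ' : (-ξ)ᵀ * B + B * (-ξ) = 0 := by
    rw [transpose_neg, Matrix.neg_mul, Matrix.mul_neg, ← neg_add, hξ, neg_zero]
  have esq : (-g / a) ^ 2 = (g / a) ^ 2 := by ring
  obtain ⟨Dp, rp, dp, mp, ip, jp⟩ := h.one hij ha hp hx hr1 hr2 hξ hξp
  obtain ⟨Dm, rm, dm, mm, im, jm⟩ := h.one hij ha hm hx (by rw [esq]; exact hr1)
    (by rw [esq]; exact hr2) hξ' hξm
  have di := h.diff_i hij hp hx dp dm im
  have dj := h.diff_j hij hp hx dp dm jm
  set D : Derivation k K K := (2 : K)⁻¹ • (Dp + Dm) with hDdef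
  have hreal : Realises arm N W (fun r => (x r - (x r)ᵀ) * J) 0 D := real_avg h2 rp rm
  have hbi : ∀ p ∈ P i, dv D p ∈ P i ⊔ (P j ⊓ R) := fun p hp => by
    rw [hDdef, dv_avg]
    exact Submodule.smul_mem _ _ (Submodule.add_mem _ (ip p hp) (im p hp))
  have hbj : ∀ p ∈ P j, dv D p ∈ P j ⊔ (P i ⊓ R) := fun p hp => by
    rw [hDdef, dv_avg]
    exact Submodule.smul_mem _ _ (Submodule.add_mem _ (jp p hp) (jm p hp))
  have hb3 : ∀ m, m ≠ i → m ≠ j → ∀ p ∈ P m, dv D p ∈ P m := fun m hi hj p hp => by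
    rw [hDdef, dv_avg]
    exact Submodule.smul_mem _ _ (Submodule.add_mem _ (mp m hi hj p hp) (mm m hi hj p hp))
  have hblk : ∀ m, ∀ p ∈ P m, dv D p ∈ P m ⊔ R := by
    intro m p hpm
    by_cases hi : m = i
    · subst hi
      exact (sup_le_sup_left inf_le_right _ : P m ⊔ (P j ⊓ R) ≤ P m ⊔ R) (hbi p hpm)
    · by_cases hj : m = j
      · subst hj
        exact (sup_le_sup_left inf_le_right _ : P m ⊔ (P i ⊓ R) ≤ P m ⊔ R) (hbj p hpm)
      · exact Submodule.mem_sup_left (hb3 m hi hj p hpm)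
  -- rows
  have hrow : ∃ μ : K, ∀ p ∈ P i, (((G - lam j • F).map D)ᵀ * J) *ᵥ p =
      μ • (((G - lam j • F)ᵀ * J) *ᵥ p) := by
    refine ⟨-(a⁻¹ * D a), fun p hpi => ?_⟩
    have e1 := h.row_one hij hx dp hpi
    have e2 := h.row_one hij hx dm hpi
    have e3 : ((G - lam i • F)ᵀ * J) *ᵥ (dv Dp p - dv Dm p) = 0 := hbp.k2 _ (di p hpi)
    rw [mulVec_sub] at e3
    have e4 : D a = (2 : K)⁻¹ * (Dp a + Dm a) := by rw [hDdef]; simp; ring
    have e5 : a • ((((G - lam j • F).map D)ᵀ * J) *ᵥ p) =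
        -(D a • (((G - lam j • F)ᵀ * J) *ᵥ p)) := by
      have e6 : a • ((((G - lam j • F).map D)ᵀ * J) *ᵥ p) = (2 : K)⁻¹ •
          (a • ((((G - lam j • F).map Dp)ᵀ * J) *ᵥ p) +
            a • ((((G - lam j • F).map Dm)ᵀ * J) *ᵥ p)) := by
        rw [hDdef, map_avg, transpose_smul, transpose_add, Matrix.smul_mul, Matrix.add_mul,
          smul_mulVec, add_mulVec, smul_comm, smul_add]
      rw [e6, e1, e2, e4, mul_smul, ← smul_neg (2 : K)⁻¹]
      congr 1
      simp only [neg_smul, neg_neg, add_smul, neg_add]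
      have e7 : g • (((G - lam i • F)ᵀ * J) *ᵥ dv Dp p) -
          g • (((G - lam i • F)ᵀ * J) *ᵥ dv Dm p) = 0 := by
        rw [← smul_sub, e3, smul_zero]
      rw [← sub_eq_zero, ← e7]
      abel
    have e8 := congrArg (fun v => a⁻¹ • v) e5
    simp only [smul_smul, inv_mul_cancel₀ ha, one_smul, smul_neg] at e8
    rw [e8, neg_smul]
  have hrow2 : ∃ μ : K, ∀ p ∈ P j, (((G - lam i • F).map D)ᵀ * J) *ᵥ p =
      μ • (((G - lam i • F)ᵀ * J) *ᵥ p) := by
    refine ⟨-(g⁻¹ * D g), fun p hpj => ?_⟩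
    have e1 := h.row_two hij hx dp hpj
    have e2 := h.row_two hij hx dm hpj
    have e3 : ((G - lam j • F)ᵀ * J) *ᵥ (dv Dp p - dv Dm p) = 0 := hbp.k1 _ (dj p hpj)
    rw [mulVec_sub] at e3
    have e4 : D g = (2 : K)⁻¹ * (Dp g + Dm g) := by rw [hDdef]; simp; ring
    have e5 : g • ((((G - lam i • F).map D)ᵀ * J) *ᵥ p) =
        -(D g • (((G - lam i • F)ᵀ * J) *ᵥ p)) := by
      have e6 : g • ((((G - lam i • F).map D)ᵀ * J) *ᵥ p) = (2 : K)⁻¹ •
          (g • ((((G - lam i • F).map Dp)ᵀ * J) *ᵥ p) -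
            (-g) • ((((G - lam i • F).map Dm)ᵀ * J) *ᵥ p)) := by
        rw [hDdef, map_avg, transpose_smul, transpose_add, Matrix.smul_mul, Matrix.add_mul,
          smul_mulVec, add_mulVec, smul_comm, smul_add, neg_smul, sub_neg_eq_add]
      rw [e6, e1, e2, e4, mul_smul, ← smul_neg (2 : K)⁻¹]
      congr 1
      simp only [map_neg, neg_smul, add_smul, neg_add]
      have e7 : a • (((G - lam j • F)ᵀ * J) *ᵥ dv Dp p) -
          a • (((G - lam j • F)ᵀ * J) *ᵥ dv Dm p) = 0 := by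
        rw [← smul_sub, e3, smul_zero]
      rw [← sub_eq_zero, ← e7]
      abel
    have e8 := congrArg (fun v => g⁻¹ • v) e5
    simp only [smul_smul, inv_mul_cancel₀ hg, one_smul, smul_neg] at e8
    rw [e8, neg_smul]
  have hlam : lam i - lam j ≠ 0 := sub_ne_zero.2 (h.ne i j hij)
  have hzF : F.map D ∈ ZW J W F P R := by
    refine ⟨by simpa using hreal.onW F h.memF.2, ?_⟩
    obtain ⟨μ1, hμ1⟩ := hrow
    obtain ⟨μ2, hμ2⟩ := hrow2
    -- `F = κ (F₁ - F₂)`
    have eF : F = (lam i - lam j)⁻¹ • ((G - lam j • F) - (G - lam i • F)) := by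
      have : (G - lam j • F) - (G - lam i • F) = (lam i - lam j) • F := by
        rw [sub_smul]; abel
      rw [this, smul_smul, inv_mul_cancel₀ hlam, one_smul]
    have eFD : F.map D = D ((lam i - lam j)⁻¹) • ((G - lam j • F) - (G - lam i • F)) +
        (lam i - lam j)⁻¹ • ((G - lam j • F).map D - (G - lam i • F).map D) := by
      conv_lhs => rw [eF]
      rw [map_smul_d, map_sub_der]
    have key : ∀ p, ((F.map D)ᵀ * J) *ᵥ p =
        D ((lam i - lam j)⁻¹) • ((((G - lam j • F)ᵀ * J) *ᵥ p) - (((G - lam i • F)ᵀ * J) *ᵥ p)) +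
        (lam i - lam j)⁻¹ • (((((G - lam j • F).map D)ᵀ * J) *ᵥ p) -
          ((((G - lam i • F).map D)ᵀ * J) *ᵥ p)) := by
      intro p
      rw [eFD]
      simp only [transpose_add, transpose_smul, transpose_sub, Matrix.add_mul, Matrix.smul_mul,
        Matrix.sub_mul, add_mulVec, smul_mulVec, sub_mulVec]
    have hall : ∀ m, ∃ μ : K, ∀ p ∈ P m, ∃ ρ ∈ R,
        ((F.map D)ᵀ * J) *ᵥ p = μ • ((Fᵀ * J) *ᵥ p) + (Fᵀ * J) *ᵥ ρ := by
      intro m
      by_cases hi : m = i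
      · subst hi
        refine ⟨D ((lam m - lam j)⁻¹) * (lam m - lam j) +
          (lam m - lam j)⁻¹ * (μ1 * (lam m - lam j)), fun p hpm => ?_⟩
        obtain ⟨p', hp', ρ, hρ, e1⟩ := Submodule.mem_sup.1 (hbi p hpm)
        refine ⟨((lam m - lam j)⁻¹ * (lam j - lam m)) • ρ, R.smul_mem _ hρ.2, ?_⟩
        rw [key p, hμ1 p hpm, rowd0 hD D (hbp.k2 p hpm), ← e1, mulVec_add, hbp.k2 p' hp',
          hbp.k2 p hpm, h.eigF m j hρ.1, h.eigF j m hpm, mulVec_smul]
        simp only [smul_smul, sub_zero, zero_add, sub_neg_eq_add, smul_add, add_smul]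
        abel
      · by_cases hj : m = j
        · subst hj
          refine ⟨-(D ((lam i - lam m)⁻¹) * (lam m - lam i) +
            (lam i - lam m)⁻¹ * (μ2 * (lam m - lam i))), fun p hpm => ?_⟩
          obtain ⟨p', hp', ρ, hρ, e1⟩ := Submodule.mem_sup.1 (hbj p hpm)
          refine ⟨-((lam i - lam m)⁻¹ * (lam i - lam m)) • ρ, R.smul_mem _ hρ.2, ?_⟩
          rw [key p, hμ2 p hpm, rowd0 hD D (hbp.k1 p hpm), ← e1, mulVec_add, hbp.k1 p' hp',
            hbp.k1 p hpm, h.eigF m i hρ.1, h.eigF i m hpm, mulVec_smul]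
          simp only [smul_smul, zero_sub, zero_add, smul_sub, neg_smul, add_smul, smul_neg]
          abel
        · have hcp := hp.nz m
          refine ⟨(2 : K)⁻¹ * (-((a * (lam m - lam j) + g * (lam m - lam i))⁻¹ *
            Dp (a * (lam m - lam j) + g * (lam m - lam i))) +
            -((a * (lam m - lam j) + (-g) * (lam m - lam i))⁻¹ *
            Dm (a * (lam m - lam j) + (-g) * (lam m - lam i)))), fun p hpm => ⟨0, R.zero_mem, ?_⟩⟩
          have e1 := congrArg (fun v => (a * (lam m - lam j) + g * (lam m - lam i))⁻¹ • v)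
            (h.row_three hij hx dp hi hj (mp m hi hj) hpm)
          have e2 := congrArg (fun v => (a * (lam m - lam j) + (-g) * (lam m - lam i))⁻¹ • v)
            (h.row_three hij hx dm hi hj (mm m hi hj) hpm)
          simp only [smul_smul, inv_mul_cancel₀ (hp.nz m), one_smul, smul_neg] at e1
          simp only [smul_smul, inv_mul_cancel₀ (hm.nz m), one_smul, smul_neg] at e2
          rw [hDdef, map_avg, transpose_smul, transpose_add, Matrix.smul_mul, Matrix.add_mul,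
            smul_mulVec, add_mulVec, e1, e2, mulVec_zero, add_zero]
          simp only [mul_smul, add_smul, neg_smul]
    choose μ hμ using hall
    exact ⟨μ, hμ⟩
  refine ⟨D, ⟨hreal, hrow, hblk, hbi, hbj, h.dR hblk, hzF, ?_⟩⟩
  intro r p hpj b hb hbD
  have hb' : dv D p - b ∈ P j := hbD
  have e2j := fun q (hq : q ∈ P j) => h.eigF i j hq
  have hq : Phi arm J B (G - lam i • F) r *ᵥ p ∈ P j := (h.stU (h.memFj i) e2j r hpj).2
  -- one sign
  have hone : ∀ (D0 : Derivation k K K) (g0 : K), g0 * g0 = g * g →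
      (a • (G - lam j • F) + g0 • (G - lam i • F)).map D0 =
        act arm (fun r => (x r - (x r)ᵀ) * J) (a • (G - lam j • F) + g0 • (G - lam i • F)) →
      (∀ v ∈ P j ⊔ (P i ⊓ R),
        Phi arm J B (a • (G - lam j • F) + g0 • (G - lam i • F)) r *ᵥ v =
        Phi arm J B (a • (G - lam j • F) + g • (G - lam i • F)) r *ᵥ v) →
      dv D0 p ∈ P j ⊔ (P i ⊓ R) →
      (g * g) • dv D0 (Phi arm J B (G - lam i • F) r *ᵥ p) -
        (Phi arm J B (a • (G - lam j • F) + g • (G - lam i • F)) r *ᵥ dv D0 p +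
          ((a * a) • (Phi arm J B (G - lam j • F) r *ᵥ (((x r)ᵀ * J) *ᵥ p)) -
          (g * g) • (((x r)ᵀ * J) *ᵥ (Phi arm J B (G - lam i • F) r *ᵥ p)))) ∈ P j := by
    intro D0 g0 hg0 hd0 hag hv
    have e1 := dv_Phi hD (fun s => skewX hD x s) hd0 r p
    rw [hag _ hv, h.PhiHj a g0 r hpj, h.Xj hij hx r hpj, hg0, dv_smul, mulVec_neg,
      h.PhiHi a g0 r (h.xtJmem hx r p), h.Xj hij hx r (Submodule.smul_mem _ _ hq),
      mulVec_smul] at e1
    have e3 : (g * g) • dv D0 (Phi arm J B (G - lam i • F) r *ᵥ p) -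
        (Phi arm J B (a • (G - lam j • F) + g • (G - lam i • F)) r *ᵥ dv D0 p +
          ((a * a) • (Phi arm J B (G - lam j • F) r *ᵥ (((x r)ᵀ * J) *ᵥ p)) -
          (g * g) • (((x r)ᵀ * J) *ᵥ (Phi arm J B (G - lam i • F) r *ᵥ p)))) =
        -(D0 (g * g) • (Phi arm J B (G - lam i • F) r *ᵥ p)) := by
      have e4 := sub_eq_zero.2 e1
      rw [← sub_eq_zero, ← e4]
      abel
    rw [e3]
    exact (P j).neg_mem ((P j).smul_mem _ hq)
  have o1 := hone Dp g rfl dp (fun v _ => rfl) (jp p hpj)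
  have o2 := hone Dm (-g) (neg_mul_neg g g) dm (fun v hv => h.agree_j a g r hv) (jm p hpj)
  have o3 := (P j).smul_mem (2 : K)⁻¹ ((P j).add_mem o1 o2)
  have o4 : (g * g) • dv D (Phi arm J B (G - lam i • F) r *ᵥ p) -
        (Phi arm J B (a • (G - lam j • F) + g • (G - lam i • F)) r *ᵥ dv D p +
          ((a * a) • (Phi arm J B (G - lam j • F) r *ᵥ (((x r)ᵀ * J) *ᵥ p)) -
          (g * g) • (((x r)ᵀ * J) *ᵥ (Phi arm J B (G - lam i • F) r *ᵥ p)))) ∈ P j := by
    have e1 : ∀ u1 u2 v1 v2 w : ι → K, (g * g) • ((2 : K)⁻¹ • (u1 + u2)) -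
        ((2 : K)⁻¹ • (v1 + v2) + w) =
        (2 : K)⁻¹ • (((g * g) • u1 - (v1 + w)) + ((g * g) • u2 - (v2 + w))) := by
      intro u1 u2 v1 v2 w
      conv_lhs => rw [← half_two h2 w]
      rw [smul_comm (g * g) (2 : K)⁻¹, ← smul_add, ← smul_sub, smul_add (g * g)]
      congr 1; abel
    rw [hDdef, dv_avg, dv_avg, mulVec_smul, mulVec_add, e1]
    exact o3
  have o5 : Phi arm J B (a • (G - lam j • F) + g • (G - lam i • F)) r *ᵥ dv D p -
      (a * a) • (Phi arm J B (G - lam j • F) r *ᵥ b) ∈ P j := by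
    rw [← h.PhiHi a g r hb.1, ← mulVec_sub]
    exact (h.stU (h.memH i j a g) (fun q hq => h.eigH i j a g j hq) r hb').2
  have o6 := (P j).smul_mem ((a * a)⁻¹) ((P j).add_mem o4 o5)
  have ea : (a * a)⁻¹ * (g * g) = (g / a) ^ 2 := by field_simp
  have ea1 : (a * a)⁻¹ * (a * a) = 1 := inv_mul_cancel₀ (mul_ne_zero ha ha)
  convert o6 using 1
  show ((g / a) ^ 2) • dv D (Phi arm J B (G - lam i • F) r *ᵥ p) - _ = _
  simp only [smul_add, smul_sub, smul_smul, ea, ea1, one_smul]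
  abel

end Crest.Agent.R172.GR
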