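import Crest.Agent.R172.Slack1

/-!
Row 172, node R-MvInst: the existence of the moves for (t1) (`η = J`, `C = ⊤`) in the form of
note 15924: every direction `(X, ξ)` with `H ξᵀ = X H` is realised with `dH = X H` EXACTLY.

* `exists_move` : one generic `H`.
* `Mv` : 26's structure (form matrix `η`, subspace `C`), `Mv.ofGeneric` : the instance for (t1).
-/

set_option autoImplicit false
set_option linter.unusedSectionVars false

namespace Crest.Agent.R172.MvT

open Matrix Crest.Agent.R172.FO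

variable {ι : Type*} [Fintype ι] [DecidableEq ι] {δ : Type*} [Fintype δ] [DecidableEq δ]
variable {k K : Type*} [Field k] [Field K] [Algebra k K]
variable {arm : δ → Fin 3} {J : Matrix ι ι K} {B : Matrix δ δ K}
  {N W : Submodule K (Matrix ι δ K)}

/-- **existence of the move**: `H ξᵀ = X H` ⇒ the direction `(X, ξ)` is realised with
`dH = X H`. -/
theorem exists_move (hD : Data k arm J B N W) {H : Matrix ι δ K} (hH : Generic k arm N W H)
    (X : Fin 3 → Matrix ι ι K) (hX : ∀ s, (X s)ᵀ * J + J * X s = 0) (ξ : Matrix δ δ K)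
    (hξ : ξᵀ * B + B * ξ = 0) (he : H * ξᵀ = act arm X H) :
    ∃ d : Derivation k K K, Realises arm N W X ξ d ∧ H.map d = act arm X H := by
  obtain ⟨d0, hd0⟩ := hD.dir X ξ hX hξ
  have h1 : H.map d0 - act arm X H ∈ N ⊓ W := by
    refine ⟨hd0.onN H hH.mem.1, ?_⟩
    rw [← he]
    exact hd0.onW H hH.mem.2
  obtain ⟨d1, hd1, hr⟩ := hH.vert _ h1
  have hsub : ∀ G : Matrix ι δ K, G.map (d0 - d1) = G.map d0 - G.map d1 := by
    intro G; ext i j; simp
  refine ⟨d0 - d1, ⟨?_, ?_⟩, ?_⟩
  · intro G hG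
    have h2 := hd0.onN G hG
    have h3 := hr.onN G hG
    rw [act_zero, sub_zero] at h3
    rw [hsub]
    have : G.map d0 - G.map d1 - act arm X G = (G.map d0 - act arm X G) - G.map d1 := by abel
    rw [this]
    exact N.sub_mem h2 h3
  · intro G hG
    have h2 := hd0.onW G hG
    have h3 := hr.onW G hG
    rw [transpose_zero, Matrix.mul_zero, sub_zero] at h3
    rw [hsub]
    have : G.map d0 - G.map d1 - G * ξᵀ = (G.map d0 - G * ξᵀ) - G.map d1 := by abel
    rw [this]
    exact W.sub_mem h2 h3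
  · rw [hsub, hd1]
    abel

/-- the skewness of `x J` for a skew tensor `x` -/
theorem skew_of (hJ : Jᵀ = J) {x : Matrix ι ι K} (hx : xᵀ = -x) :
    (x * J)ᵀ * J + J * (x * J) = 0 := by
  rw [transpose_mul, hJ, hx]
  simp only [Matrix.mul_neg, Matrix.neg_mul, Matrix.mul_assoc]
  exact neg_add_cancel _

variable (k) in
/-- 26's structure `Mv` (note 15924): the moves of the machine with the form matrix `η`
(`ηᵀ = ε η`), the subspace `C`, the point `H`. -/
structure Mv (arm : δ → Fin 3) (B : Matrix δ δ K) (N W : Submodule K (Matrix ι δ K))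
    (ε : K) (η : Matrix ι ι K) (C : Submodule K (Matrix ι δ K)) (H : Matrix ι δ K) : Prop where
  eps : ε * ε = 1
  eta_t : ηᵀ = ε • η
  mem : H ∈ N ⊓ W
  memC : H ∈ C
  move : ∀ (x : Fin 3 → Matrix ι ι K) (ξ : Matrix δ δ K), (∀ s, (x s)ᵀ = -(ε • x s)) →
    ξᵀ * B + B * ξ = 0 → H * ξᵀ = act arm (fun s => x s * η) H →
    ∃ d : Derivation k K K,
      (∀ F ∈ N ⊓ C, F.map d - act arm (fun s => x s * η) F ∈ N) ∧
      (∀ F ∈ W, F.map d - F * ξᵀ ∈ W) ∧
      (∀ F ∈ C, F.map d ∈ C) ∧ η.map d = 0 ∧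
      H.map d = act arm (fun s => x s * η) H

/-- the instance for (t1): `ε = 1`, `η = J`, `C = ⊤` -/
theorem Mv.ofGeneric (hD : Data k arm J B N W) {H : Matrix ι δ K} (hH : Generic k arm N W H) :
    Mv k arm B N W (1 : K) J ⊤ H where
  eps := one_mul 1
  eta_t := by rw [hD.J_symm, one_smul]
  mem := hH.mem
  memC := Submodule.mem_top
  move := by
    intro x ξ hx hξ he
    obtain ⟨d, hd, hdH⟩ := exists_move hD hH (fun s => x s * J)
      (fun s => skew_of hD.J_symm (by rw [hx s, one_smul])) ξ hξ he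
    exact ⟨d, fun F hF => hd.onN F hF.1, fun F hF => hd.onW F hF, fun _ _ => Submodule.mem_top,
      hD.J_const d, hdH⟩

end Crest.Agent.R172.MvT
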