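import Crest.Agent.R172.GR1
import Crest.Agent.R172.MvT

/-!
Row 172, TAME (T0), arbitrary radical: existence of the motion `Mot` (with `L` fixed) along an
arm-exact family (interface of note 16237).  (helper418)
-/

set_option autoImplicit false
set_option linter.unusedSectionVars false

namespace Crest.Agent.R172.GRm

open Matrix Crest.Agent.R172.FO Crest.Agent.R172.GR

variable {ι : Type*} [Fintype ι] [DecidableEq ι] {δ : Type*} [Fintype δ] [DecidableEq δ]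
variable {k K : Type*} [Field k] [Field K] [Algebra k K]
variable {arm : δ → Fin 3} {J : Matrix ι ι K} {B : Matrix δ δ K}
  {N W : Submodule K (Matrix ι δ K)}

/-- derivative of a vector -/
def dv {α : Type*} (D : Derivation k K K) (v : α → K) : α → K := fun a => D (v a)

section dv

variable {α β : Type*} (D : Derivation k K K)

theorem dv_add (v w : α → K) : dv D (v + w) = dv D v + dv D w := by
  funext a; simp [dv]

theorem dv_sub (v w : α → K) : dv D (v - w) = dv D v - dv D w := by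
  funext a; simp [dv]

theorem dv_zero : dv D (0 : α → K) = 0 := by
  funext a; simp [dv]

theorem dv_smul (c : K) (v : α → K) : dv D (c • v) = D c • v + c • dv D v := by
  funext a
  simp only [dv, Pi.smul_apply, smul_eq_mul, Derivation.leibniz, Pi.add_apply]
  ring

theorem dv_mulVec [Fintype β] (A : Matrix α β K) (v : β → K) :
    dv D (A *ᵥ v) = A.map D *ᵥ v + A *ᵥ dv D v := by
  funext i
  simp only [dv, mulVec, dotProduct, map_sum, Derivation.leibniz, smul_eq_mul, Pi.add_apply,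
    map_apply]
  rw [Finset.sum_add_distrib, add_comm]
  congr 1
  exact Finset.sum_congr rfl fun x _ => mul_comm _ _

theorem dv_dot [Fintype α] (v w : α → K) :
    D (v ⬝ᵥ w) = dv D v ⬝ᵥ w + v ⬝ᵥ dv D w := by
  simp only [dv, dotProduct, map_sum, Derivation.leibniz, smul_eq_mul]
  rw [Finset.sum_add_distrib, add_comm]
  congr 1
  exact Finset.sum_congr rfl fun x _ => mul_comm _ _

theorem dv_sum {γ : Type*} (s : Finset γ) (f : γ → α → K) :
    dv D (∑ i ∈ s, f i) = ∑ i ∈ s, dv D (f i) := by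
  classical
  induction s using Finset.induction_on with
  | empty => simp [dv_zero]
  | insert a s ha ih => rw [Finset.sum_insert ha, Finset.sum_insert ha, dv_add, ih]

end dv

section blk

variable {n : Type*} [Fintype n] {F G : Matrix ι δ K} {P : n → Submodule K (ι → K)}
  {R : Submodule K (ι → K)} {lam : n → K}

theorem memH (h : Blk k arm J B N W F G P R lam) (α β : K) : α • G + β • F ∈ N ⊓ W :=
  (N ⊓ W).add_mem ((N ⊓ W).smul_mem _ h.memG) ((N ⊓ W).smul_mem _ h.memF)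

theorem eigH (h : Blk k arm J B N W F G P R lam) (α β : K) {m : n} {p : ι → K} (hp : p ∈ P m) :
    ((α • G + β • F)ᵀ * J) *ᵥ p = (α * lam m + β) • ((Fᵀ * J) *ᵥ p) := by
  rw [transpose_add, transpose_smul, transpose_smul, Matrix.add_mul, Matrix.smul_mul,
    Matrix.smul_mul, add_mulVec, smul_mulVec, smul_mulVec, h.eig m p hp, smul_smul, add_smul]

theorem Phi_mulVec (F : Matrix ι δ K) (r : Fin 3) (p : ι → K) :
    Phi arm J B F r *ᵥ p = (F * E K arm r * B) *ᵥ ((Fᵀ * J) *ᵥ p) := by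
  rw [mulVec_mulVec, Phi, M]
  simp only [Matrix.mul_assoc]

theorem PhiH (h : Blk k arm J B N W F G P R lam) (α β : K) {m : n} {p : ι → K} (hp : p ∈ P m)
    (r : Fin 3) :
    Phi arm J B (α • G + β • F) r *ᵥ p = (α * lam m + β) ^ 2 • (Phi arm J B F r *ᵥ p) := by
  set H := α • G + β • F with hH
  have hmem : H ∈ N ⊓ W := memH h α β
  have e1 : H * E K arm r * B * Fᵀ = F * E K arm r * B * Hᵀ := h.data.symm_arm hmem h.memF r
  calc Phi arm J B H r *ᵥ p = (H * E K arm r * B) *ᵥ ((Hᵀ * J) *ᵥ p) := Phi_mulVec H r p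
    _ = (α * lam m + β) • ((H * E K arm r * B) *ᵥ ((Fᵀ * J) *ᵥ p)) := by
        rw [hH, eigH h α β hp, mulVec_smul]
    _ = (α * lam m + β) • ((H * E K arm r * B * Fᵀ * J) *ᵥ p) := by
        rw [mulVec_mulVec]; simp only [Matrix.mul_assoc]
    _ = (α * lam m + β) • ((F * E K arm r * B) *ᵥ ((Hᵀ * J) *ᵥ p)) := by
        rw [e1, mulVec_mulVec]; simp only [Matrix.mul_assoc]
    _ = _ := by
        rw [hH, eigH h α β hp, mulVec_smul, smul_smul, ← Phi_mulVec, pow_two]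

theorem dot_mulJ (hJ : Jᵀ = J) (A : Matrix ι δ K) (p : ι → K) (w : δ → K) :
    p ⬝ᵥ (J *ᵥ (A *ᵥ w)) = ((Aᵀ * J) *ᵥ p) ⬝ᵥ w := by
  rw [mulVec_mulVec, dotProduct_mulVec, ← mulVec_transpose, transpose_mul, hJ]

theorem Phi_adj (hD : Data k arm J B N W) (F : Matrix ι δ K) (r : Fin 3) (p q : ι → K) :
    (Phi arm J B F r *ᵥ p) ⬝ᵥ (J *ᵥ q) = p ⬝ᵥ (J *ᵥ (Phi arm J B F r *ᵥ q)) := by
  have hM : (M arm B r F F)ᵀ = M arm B r F F := by
    unfold M
    rw [transpose_mul, transpose_mul, transpose_mul, transpose_transpose, E_transpose,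
      hD.B_symm]
    simp only [Matrix.mul_assoc]
    rw [← Matrix.mul_assoc B, ← hD.B_arm, Matrix.mul_assoc]
  rw [← vecMul_transpose, ← dotProduct_mulVec, mulVec_mulVec, mulVec_mulVec]
  congr 2
  unfold Phi
  rw [transpose_mul, hM, hD.J_symm, Matrix.mul_assoc]

theorem orth (h : Blk k arm J B N W F G P R lam) {i m : n} (him : i ≠ m) {p p' : ι → K}
    (hp : p ∈ P i) (hp' : p' ∈ P m) : p ⬝ᵥ (J *ᵥ p') = 0 := by
  obtain ⟨v, hv, rfl⟩ := h.pf m p' hp'
  rw [mulVec_sum, dotProduct_sum]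
  refine Finset.sum_eq_zero fun r _ => ?_
  have e1 : G * E K arm r * B * Fᵀ = F * E K arm r * B * Gᵀ := h.data.symm_arm h.memG h.memF r
  have e2 : lam m • (Phi arm J B F r *ᵥ v r) = G *ᵥ ((E K arm r * B * Fᵀ * J) *ᵥ v r) := by
    calc lam m • (Phi arm J B F r *ᵥ v r)
        = (F * E K arm r * B) *ᵥ ((Gᵀ * J) *ᵥ v r) := by
          rw [h.eig m _ (hv r), mulVec_smul, Phi_mulVec]
      _ = (F * E K arm r * B * Gᵀ * J) *ᵥ v r := by
          rw [mulVec_mulVec]; simp only [Matrix.mul_assoc]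
      _ = _ := by rw [← e1, mulVec_mulVec]; simp only [Matrix.mul_assoc]
  have e3 : Phi arm J B F r *ᵥ v r = F *ᵥ ((E K arm r * B * Fᵀ * J) *ᵥ v r) := by
    rw [mulVec_mulVec, Phi, M]; simp only [Matrix.mul_assoc]
  have e4 : lam m * (p ⬝ᵥ (J *ᵥ (Phi arm J B F r *ᵥ v r))) =
      lam i * (p ⬝ᵥ (J *ᵥ (Phi arm J B F r *ᵥ v r))) := by
    calc lam m * (p ⬝ᵥ (J *ᵥ (Phi arm J B F r *ᵥ v r)))
        = p ⬝ᵥ (J *ᵥ (lam m • (Phi arm J B F r *ᵥ v r))) := by
          rw [mulVec_smul, dotProduct_smul, smul_eq_mul]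
      _ = ((Gᵀ * J) *ᵥ p) ⬝ᵥ ((E K arm r * B * Fᵀ * J) *ᵥ v r) := by
          rw [e2, dot_mulJ h.data.J_symm]
      _ = lam i * (((Fᵀ * J) *ᵥ p) ⬝ᵥ ((E K arm r * B * Fᵀ * J) *ᵥ v r)) := by
          rw [h.eig i p hp, smul_dotProduct, smul_eq_mul]
      _ = _ := by rw [e3, dot_mulJ h.data.J_symm]
  have e5 : (lam m - lam i) * (p ⬝ᵥ (J *ᵥ (Phi arm J B F r *ᵥ v r))) = 0 := by
    rw [sub_mul, e4, sub_self]
  exact (mul_eq_zero.1 e5).resolve_left (sub_ne_zero.2 (h.ne m i him.symm))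

theorem R_st (h : Blk k arm J B N W F G P R lam) {ρ : ι → K} (hρ : ρ ∈ R) (r : Fin 3) :
    Phi arm J B F r *ᵥ ρ ∈ R := by
  obtain ⟨v, hv, e⟩ := h.Rdec ρ hρ
  have e1 : Phi arm J B F r *ᵥ ρ = ∑ l, Phi arm J B F r *ᵥ v l := by rw [e, mulVec_sum]
  rw [e1]
  refine h.Rmax _ (fun l => h.st l r _ (hv l).1) ?_
  intro i p hp
  rw [← e1, Phi_adj h.data]
  exact h.rad ρ hρ i _ (h.st i r p hp)

theorem PR_st (h : Blk k arm J B N W F G P R lam) {m : n} {v : ι → K} (hv : v ∈ P m ⊓ R)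
    (r : Fin 3) : Phi arm J B F r *ᵥ v ∈ P m ⊓ R :=
  ⟨h.st m r v hv.1, R_st h hv.2 r⟩

theorem P_stH (h : Blk k arm J B N W F G P R lam) (α β : K) {m : n} {v : ι → K} (hv : v ∈ P m)
    (r : Fin 3) : Phi arm J B (α • G + β • F) r *ᵥ v ∈ P m := by
  rw [PhiH h α β hv]
  exact (P m).smul_mem _ (h.st m r v hv)

theorem PR_stH (h : Blk k arm J B N W F G P R lam) (α β : K) {m : n} {v : ι → K}
    (hv : v ∈ P m ⊓ R) (r : Fin 3) : Phi arm J B (α • G + β • F) r *ᵥ v ∈ P m ⊓ R := by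
  rw [PhiH h α β hv.1]
  exact (P m ⊓ R).smul_mem _ (PR_st h hv r)

theorem R_stH (h : Blk k arm J B N W F G P R lam) (α β : K) {ρ : ι → K} (hρ : ρ ∈ R)
    (r : Fin 3) : Phi arm J B (α • G + β • F) r *ᵥ ρ ∈ R := by
  obtain ⟨v, hv, e⟩ := h.Rdec ρ hρ
  rw [e, mulVec_sum]
  exact R.sum_mem fun l _ => (PR_stH h α β (hv l) r).2


theorem FJR (h : Blk k arm J B N W F G P R lam) (α β : K) {ρ : ι → K} (hρ : ρ ∈ R) :
    ∃ ρ' ∈ R, ((α • G + β • F)ᵀ * J) *ᵥ ρ = (Fᵀ * J) *ᵥ ρ' := by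
  obtain ⟨v, hv, e⟩ := h.Rdec ρ hρ
  refine ⟨∑ l, (α * lam l + β) • v l, R.sum_mem fun l _ => R.smul_mem _ (hv l).2, ?_⟩
  rw [e, mulVec_sum, mulVec_sum]
  exact Finset.sum_congr rfl fun l _ => by rw [eigH h α β (hv l).1, mulVec_smul]

theorem comm_mulVec (A C : Matrix ι ι K) (p : ι → K) :
    (A * C - C * A) *ᵥ p = A *ᵥ (C *ᵥ p) - C *ᵥ (A *ᵥ p) := by
  rw [sub_mulVec, mulVec_mulVec, mulVec_mulVec]

theorem F1eq (b : K) : G - b • F = (1 : K) • G + (-b) • F := by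
  rw [one_smul, neg_smul, sub_eq_add_neg]

theorem k1 (h : Blk k arm J B N W F G P R lam) {j : n} {p : ι → K} (hp : p ∈ P j) :
    ((G - lam j • F)ᵀ * J) *ᵥ p = 0 := by
  rw [F1eq, eigH h _ _ hp, one_mul, add_neg_cancel, zero_smul]

theorem bp (h : Blk k arm J B N W F G P R lam) {i j : n} (hij : i ≠ j) :
    BP arm J B N W (G - lam j • F) (G - lam i • F) (P i) (P j) := by
  have hpf : ∀ {i j : n}, i ≠ j → ∀ p ∈ P i, ∃ v : Fin 3 → ι → K, (∀ r, v r ∈ P i) ∧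
      p = ∑ r, (Phi arm J B (G - lam j • F) r) *ᵥ (v r) := by
    intro i j hij p hp
    obtain ⟨v, hv, e⟩ := h.pf i p hp
    have hne : (1 * lam i + -lam j) ^ 2 ≠ 0 := by
      rw [one_mul, ← sub_eq_add_neg]
      exact pow_ne_zero 2 (sub_ne_zero.2 (h.ne i j hij))
    refine ⟨fun r => ((1 * lam i + -lam j) ^ 2)⁻¹ • v r, fun r => (P i).smul_mem _ (hv r), ?_⟩
    rw [e]
    refine Finset.sum_congr rfl fun r _ => ?_
    rw [F1eq, mulVec_smul, PhiH h _ _ (hv r), smul_smul, inv_mul_cancel₀ hne, one_smul]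
  refine ⟨?_, ?_, fun p hp => k1 h hp, fun p hp => k1 h hp, hpf hij, hpf hij.symm, ?_, ?_⟩
  · rw [F1eq]; exact memH h _ _
  · rw [F1eq]; exact memH h _ _
  · intro r p hp
    rw [F1eq]; exact P_stH h _ _ hp r
  · intro r p hp
    rw [F1eq]; exact P_stH h _ _ hp r

/-- rows in `P i`: kills what is orthogonal -/
theorem mulVec_zero_of {A : Matrix ι ι K} {Q : Submodule K (ι → K)} (hA : ∀ v, Aᵀ *ᵥ v ∈ Q)
    {w : ι → K} (hw : ∀ p ∈ Q, p ⬝ᵥ w = 0) : A *ᵥ w = 0 := by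
  funext a
  have h1 := hw _ (hA (Pi.single a 1))
  rw [mulVec_single_one] at h1
  exact h1

section fam

variable {i j : n} {x : Fin 3 → Matrix ι ι K}

theorem xJ_zero (h : Blk k arm J B N W F G P R lam) (hx : Fam (P i) (P j) x) {m : n}
    (him : i ≠ m) {p : ι → K} (hp : p ∈ P m) (r : Fin 3) : (x r * J) *ᵥ p = 0 := by
  rw [← mulVec_mulVec]
  exact mulVec_zero_of (hx.r r) fun q hq => orth h him hq hp

theorem xtJ_zero (h : Blk k arm J B N W F G P R lam) (hx : Fam (P i) (P j) x) {m : n}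
    (hjm : j ≠ m) {p : ι → K} (hp : p ∈ P m) (r : Fin 3) : ((x r)ᵀ * J) *ᵥ p = 0 := by
  rw [← mulVec_mulVec]
  exact mulVec_zero_of (fun v => by rw [transpose_transpose]; exact hx.l r v)
    fun q hq => orth h hjm hq hp

theorem Xskew (hD : Data k arm J B N W) (x : Fin 3 → Matrix ι ι K) (s : Fin 3) :
    ((x s - (x s)ᵀ) * J)ᵀ * J + J * ((x s - (x s)ᵀ) * J) = 0 := by
  apply MvT.skew_of hD.J_symm
  rw [transpose_sub, transpose_transpose, neg_sub]

/-- the commutator on `P i` -/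
theorem comm_i (h : Blk k arm J B N W F G P R lam) (hx : Fam (P i) (P j) x) (hij : i ≠ j)
    {α β a g : K} (ha : a ≠ 0) (ei : α * lam i + β = a * (lam i - lam j))
    (ej : α * lam j + β = g * (lam j - lam i)) {p : ι → K} (hp : p ∈ P i) (r : Fin 3) :
    (((x r - (x r)ᵀ) * J) * Phi arm J B (α • G + β • F) r -
      Phi arm J B (α • G + β • F) r * ((x r - (x r)ᵀ) * J)) *ᵥ p =
    a ^ 2 • ((Def arm J B (G - lam j • F) (G - lam i • F) ((g / a) ^ 2) x r * J) *ᵥ p) := by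
  have q1 : ((x r - (x r)ᵀ) * J) *ᵥ p = (x r * J) *ᵥ p := by
    rw [Matrix.sub_mul, sub_mulVec, xtJ_zero h hx hij.symm hp, sub_zero]
  have hpj : (x r * J) *ᵥ p ∈ P j := by rw [← mulVec_mulVec]; exact hx.l r _
  have hPp : Phi arm J B F r *ᵥ p ∈ P i := h.st i r p hp
  have q2 : ((x r - (x r)ᵀ) * J) *ᵥ (Phi arm J B F r *ᵥ p) = (x r * J) *ᵥ (Phi arm J B F r *ᵥ p) := by
    rw [Matrix.sub_mul, sub_mulVec, xtJ_zero h hx hij.symm hPp, sub_zero]
  have q3 : (Def arm J B (G - lam j • F) (G - lam i • F) ((g / a) ^ 2) x r * J) *ᵥ p =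
      (x r * J) *ᵥ (Phi arm J B (G - lam j • F) r *ᵥ p) -
        ((g / a) ^ 2) • (Phi arm J B (G - lam i • F) r *ᵥ ((x r * J) *ᵥ p)) := by
    rw [Def, Matrix.sub_mul, sub_mulVec, Matrix.smul_mul, smul_mulVec, mulVec_mulVec,
      mulVec_mulVec, Phi, Phi]
    simp only [Matrix.mul_assoc]
  rw [q3, comm_mulVec, q1, PhiH h _ _ hp, PhiH h _ _ hpj,
    mulVec_smul, q2, F1eq (F := F) (lam j), F1eq (F := F) (lam i), PhiH h _ _ hp, PhiH h _ _ hpj,
    mulVec_smul, smul_sub, smul_smul, smul_smul, smul_smul, ei, ej]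
  congr 2
  · ring
  · field_simp
    ring

/-- the commutator on `P j` -/
theorem comm_j (h : Blk k arm J B N W F G P R lam) (hx : Fam (P i) (P j) x) (hij : i ≠ j)
    {α β a g : K} (ha : a ≠ 0) (ei : α * lam i + β = a * (lam i - lam j))
    (ej : α * lam j + β = g * (lam j - lam i)) {p : ι → K} (hp : p ∈ P j) (r : Fin 3) :
    (((x r - (x r)ᵀ) * J) * Phi arm J B (α • G + β • F) r -
      Phi arm J B (α • G + β • F) r * ((x r - (x r)ᵀ) * J)) *ᵥ p =
    a ^ 2 • (((Def arm J B (G - lam j • F) (G - lam i • F) ((g / a) ^ 2) x r)ᵀ * J) *ᵥ p) ∧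
    ((Def arm J B (G - lam j • F) (G - lam i • F) ((g / a) ^ 2) x r)ᵀ * J) *ᵥ p =
      Phi arm J B (G - lam j • F) r *ᵥ (((x r)ᵀ * J) *ᵥ p) -
        ((g / a) ^ 2) • (((x r)ᵀ * J) *ᵥ (Phi arm J B (G - lam i • F) r *ᵥ p)) := by
  have hM : ∀ F : Matrix ι δ K, (M arm B r F F)ᵀ = M arm B r F F := by
    intro F
    unfold M
    rw [transpose_mul, transpose_mul, transpose_mul, transpose_transpose, E_transpose,
      h.data.B_symm]
    simp only [Matrix.mul_assoc]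
    rw [← Matrix.mul_assoc B, ← h.data.B_arm, Matrix.mul_assoc]
  have q1 : ((x r - (x r)ᵀ) * J) *ᵥ p = -(((x r)ᵀ * J) *ᵥ p) := by
    rw [Matrix.sub_mul, sub_mulVec, xJ_zero h hx hij hp, zero_sub]
  have hpi : ((x r)ᵀ * J) *ᵥ p ∈ P i := by rw [← mulVec_mulVec]; exact hx.r r _
  have hPp : Phi arm J B F r *ᵥ p ∈ P j := h.st j r p hp
  have q2 : ((x r - (x r)ᵀ) * J) *ᵥ (Phi arm J B F r *ᵥ p) =
      -(((x r)ᵀ * J) *ᵥ (Phi arm J B F r *ᵥ p)) := by
    rw [Matrix.sub_mul, sub_mulVec, xJ_zero h hx hij hPp, zero_sub]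
  have q3 : ((Def arm J B (G - lam j • F) (G - lam i • F) ((g / a) ^ 2) x r)ᵀ * J) *ᵥ p =
      Phi arm J B (G - lam j • F) r *ᵥ (((x r)ᵀ * J) *ᵥ p) -
        ((g / a) ^ 2) • (((x r)ᵀ * J) *ᵥ (Phi arm J B (G - lam i • F) r *ᵥ p)) := by
    rw [Def, transpose_sub, transpose_smul, transpose_mul, transpose_mul, transpose_mul,
      transpose_mul, hM, hM, h.data.J_symm, Matrix.sub_mul, sub_mulVec, Matrix.smul_mul,
      smul_mulVec, mulVec_mulVec, mulVec_mulVec, Phi, Phi]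
    simp only [Matrix.mul_assoc]
  refine ⟨?_, q3⟩
  rw [q3, comm_mulVec, q1, mulVec_neg, PhiH h _ _ hp,
    PhiH h _ _ hpi, mulVec_smul, q2, F1eq (F := F) (lam j), F1eq (F := F) (lam i), PhiH h _ _ hp,
    PhiH h _ _ hpi, mulVec_smul, smul_sub, smul_smul, smul_smul, smul_smul, ei, ej, smul_neg,
    sub_neg_eq_add, neg_add_eq_sub]
  congr 2
  · ring
  · field_simp
    ring

/-- the commutator on the other blocks -/
theorem comm_m (h : Blk k arm J B N W F G P R lam) (hx : Fam (P i) (P j) x) {m : n}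
    (him : i ≠ m) (hjm : j ≠ m) (α β : K) {p : ι → K} (hp : p ∈ P m) (r : Fin 3) :
    (((x r - (x r)ᵀ) * J) * Phi arm J B (α • G + β • F) r -
      Phi arm J B (α • G + β • F) r * ((x r - (x r)ᵀ) * J)) *ᵥ p = 0 := by
  have q : ∀ q ∈ P m, ((x r - (x r)ᵀ) * J) *ᵥ q = 0 := by
    intro q hq
    rw [Matrix.sub_mul, sub_mulVec, xJ_zero h hx him hq, xtJ_zero h hx hjm hq, sub_zero]
  rw [comm_mulVec, q p hp, q _ (P_stH h _ _ hp r), mulVec_zero,
    sub_zero]

end fam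

theorem mem_of_HomZ {Φ : Fin 3 → Matrix ι ι K} {Pm S : Submodule K (ι → K)}
    (hz : HomZ Φ Pm S) (hS : ∀ r, ∀ v ∈ S, Φ r *ᵥ v ∈ S) (φ : (ι → K) → (ι → K))
    (hadd : ∀ p ∈ Pm, ∀ q ∈ Pm, φ (p + q) - (φ p + φ q) ∈ S)
    (hsm : ∀ (c : K), ∀ p ∈ Pm, φ (c • p) - c • φ p ∈ S)
    (hΦ : ∀ r, ∀ p ∈ Pm, φ (Φ r *ᵥ p) - Φ r *ᵥ φ p ∈ S) : ∀ p ∈ Pm, φ p ∈ S := by
  have hq : ∀ {u v : ι → K}, u - v ∈ S → S.mkQ u = S.mkQ v := by
    intro u v huv
    exact (Submodule.Quotient.eq S).2 huv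
  let f : Pm →ₗ[K] ((ι → K) ⧸ S) :=
    { toFun := fun p => S.mkQ (φ (p : ι → K))
      map_add' := fun p q => by
        rw [Submodule.coe_add, hq (hadd p p.2 q q.2), map_add]
      map_smul' := fun c p => by
        rw [Submodule.coe_smul, hq (hsm c p p.2), map_smul, RingHom.id_apply] }
  have hf : f = 0 := by
    apply hz f
    intro r p p' v e hv
    have h1 : φ (p : ι → K) - v ∈ S := (Submodule.Quotient.eq S).1 hv
    have h2 := hS r _ h1
    rw [mulVec_sub] at h2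
    show S.mkQ (φ (p' : ι → K)) = _
    rw [e]
    apply hq
    have h3 := S.add_mem (hΦ r p p.2) h2
    rwa [sub_add_sub_cancel] at h3
  intro p hp
  have h1 : f ⟨p, hp⟩ = 0 := by rw [hf]; rfl
  exact (Submodule.Quotient.mk_eq_zero S).1 h1

section one

variable {i j : n} {x : Fin 3 → Matrix ι ι K}

theorem comm_mem (h : Blk k arm J B N W F G P R lam) (hx : Fam (P i) (P j) x) (hij : i ≠ j)
    {α β a g : K} (ha : a ≠ 0) (ei : α * lam i + β = a * (lam i - lam j))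
    (ej : α * lam j + β = g * (lam j - lam i))
    (hA : ∀ r, ∀ v ∈ P i,
      (Def arm J B (G - lam j • F) (G - lam i • F) ((g / a) ^ 2) x r * J) *ᵥ v ∈ R)
    (hA' : ∀ r, ∀ v ∈ P j,
      ((Def arm J B (G - lam j • F) (G - lam i • F) ((g / a) ^ 2) x r)ᵀ * J) *ᵥ v ∈ R)
    {m : n} {p : ι → K} (hp : p ∈ P m) (r : Fin 3) :
    ((((x r - (x r)ᵀ) * J) * Phi arm J B (α • G + β • F) r -
      Phi arm J B (α • G + β • F) r * ((x r - (x r)ᵀ) * J)) *ᵥ p ∈ R) ∧
    (m = i → (((x r - (x r)ᵀ) * J) * Phi arm J B (α • G + β • F) r -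
      Phi arm J B (α • G + β • F) r * ((x r - (x r)ᵀ) * J)) *ᵥ p ∈ P j) ∧
    (m = j → (((x r - (x r)ᵀ) * J) * Phi arm J B (α • G + β • F) r -
      Phi arm J B (α • G + β • F) r * ((x r - (x r)ᵀ) * J)) *ᵥ p ∈ P i) := by
  refine ⟨?_, ?_, ?_⟩
  · by_cases him : i = m
    · subst him
      rw [comm_i h hx hij ha ei ej hp]
      exact R.smul_mem _ (hA r p hp)
    · by_cases hjm : j = m
      · subst hjm
        rw [(comm_j h hx hij ha ei ej hp r).1]
        exact R.smul_mem _ (hA' r p hp)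
      · rw [comm_m h hx him hjm α β hp]
        exact R.zero_mem
  · intro e
    rw [e] at hp
    rw [comm_mulVec]
    have q1 : ∀ q ∈ P i, ((x r - (x r)ᵀ) * J) *ᵥ q ∈ P j := by
      intro q hq
      rw [Matrix.sub_mul, sub_mulVec, xtJ_zero h hx hij.symm hq, sub_zero, ← mulVec_mulVec]
      exact hx.l r _
    exact (P j).sub_mem (q1 _ (P_stH h _ _ hp r)) (P_stH h _ _ (q1 _ hp) r)
  · intro e
    rw [e] at hp
    rw [comm_mulVec]
    have q1 : ∀ q ∈ P j, ((x r - (x r)ᵀ) * J) *ᵥ q ∈ P i := by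
      intro q hq
      rw [Matrix.sub_mul, sub_mulVec, xJ_zero h hx hij hq, zero_sub, ← mulVec_mulVec]
      exact (P i).neg_mem (hx.r r _)
    exact (P i).sub_mem (q1 _ (P_stH h _ _ hp r)) (P_stH h _ _ (q1 _ hp) r)

variable {D : Derivation k K K}

theorem dv_Phi (h : Blk k arm J B N W F G P R lam) (x : Fin 3 → Matrix ι ι K)
    {H : Matrix ι δ K} (hHD : H.map D = act arm (fun r => (x r - (x r)ᵀ) * J) H) (r : Fin 3)
    (p : ι → K) : dv D (Phi arm J B H r *ᵥ p) =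
      (((x r - (x r)ᵀ) * J) * Phi arm J B H r - Phi arm J B H r * ((x r - (x r)ᵀ) * J)) *ᵥ p +
        Phi arm J B H r *ᵥ dv D p := by
  rw [dv_mulVec, h.data.map_Phi H _ (Xskew h.data x) D hHD r]

/-- all three stability statements: `S = P m ⊔ T` where `T ≤ R` absorbs the commutators -/
theorem dv_mem (h : Blk k arm J B N W F G P R lam) {H : Matrix ι δ K}
    (hHD : H.map D = act arm (fun r => (x r - (x r)ᵀ) * J) H) {m : n}
    {S : Submodule K (ι → K)} (hPS : P m ≤ S)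
    (hS : ∀ r, ∀ v ∈ S, Phi arm J B H r *ᵥ v ∈ S) (hz : HomZ (Phi arm J B H) (P m) S)
    (hc : ∀ r, ∀ p ∈ P m, (((x r - (x r)ᵀ) * J) * Phi arm J B H r -
      Phi arm J B H r * ((x r - (x r)ᵀ) * J)) *ᵥ p ∈ S) :
    ∀ p ∈ P m, dv D p ∈ S := by
  refine mem_of_HomZ hz hS (dv D) (fun p _ q _ => ?_) (fun c p hp => ?_) (fun r p hp => ?_)
  · rw [dv_add, sub_self]; exact S.zero_mem
  · rw [dv_smul, add_sub_cancel_right]
    exact S.smul_mem _ (hPS hp)
  · rw [dv_Phi h x hHD, add_sub_cancel_right]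
    exact hc r p hp

/-- the hypotheses for one sign -/
structure One (arm : δ → Fin 3) (J : Matrix ι ι K) (B : Matrix δ δ K)
    (F G : Matrix ι δ K) (P : n → Submodule K (ι → K)) (R : Submodule K (ι → K)) (lam : n → K)
    (i j : n) (x : Fin 3 → Matrix ι ι K) (α β a g : K) : Prop where
  ha : a ≠ 0
  hg : g ≠ 0
  ei : α * lam i + β = a * (lam i - lam j)
  ej : α * lam j + β = g * (lam j - lam i)
  hh : ∀ m, α * lam m + β ≠ 0
  hom : ∀ m S, P m ≤ S → S ≤ P m ⊔ R → (∀ r, ∀ v ∈ S, Phi arm J B (α • G + β • F) r *ᵥ v ∈ S) →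
    HomZ (Phi arm J B (α • G + β • F)) (P m) S
  hA : ∀ r, ∀ v ∈ P i,
      (Def arm J B (G - lam j • F) (G - lam i • F) ((g / a) ^ 2) x r * J) *ᵥ v ∈ R
  hA' : ∀ r, ∀ v ∈ P j,
      ((Def arm J B (G - lam j • F) (G - lam i • F) ((g / a) ^ 2) x r)ᵀ * J) *ᵥ v ∈ R

variable {α β a g : K}

theorem One.blk (o : One arm J B F G P R lam i j x α β a g)
    (h : Blk k arm J B N W F G P R lam) (hx : Fam (P i) (P j) x) (hij : i ≠ j)
    (hHD : (α • G + β • F).map D = act arm (fun r => (x r - (x r)ᵀ) * J) (α • G + β • F))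
    (m : n) : ∀ p ∈ P m, dv D p ∈ P m ⊔ R := by
  have hS : ∀ r, ∀ v ∈ P m ⊔ R, Phi arm J B (α • G + β • F) r *ᵥ v ∈ P m ⊔ R := by
    intro r v hv
    obtain ⟨p, hp, ρ, hρ, rfl⟩ := Submodule.mem_sup.1 hv
    rw [mulVec_add]
    exact Submodule.add_mem_sup (P_stH h _ _ hp r) (R_stH h _ _ hρ r)
  exact dv_mem h hHD le_sup_left hS (o.hom m _ le_sup_left le_rfl hS) fun r p hp =>
    Submodule.mem_sup_right (comm_mem h hx hij o.ha o.ei o.ej o.hA o.hA' hp r).1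

theorem One.bi (o : One arm J B F G P R lam i j x α β a g)
    (h : Blk k arm J B N W F G P R lam) (hx : Fam (P i) (P j) x) (hij : i ≠ j)
    (hHD : (α • G + β • F).map D = act arm (fun r => (x r - (x r)ᵀ) * J) (α • G + β • F)) :
    ∀ p ∈ P i, dv D p ∈ P i ⊔ (P j ⊓ R) := by
  have hS : ∀ r, ∀ v ∈ P i ⊔ (P j ⊓ R), Phi arm J B (α • G + β • F) r *ᵥ v ∈ P i ⊔ (P j ⊓ R) := by
    intro r v hv
    obtain ⟨p, hp, ρ, hρ, rfl⟩ := Submodule.mem_sup.1 hv
    rw [mulVec_add]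
    exact Submodule.add_mem_sup (P_stH h _ _ hp r) (PR_stH h _ _ hρ r)
  exact dv_mem h hHD le_sup_left hS
    (o.hom i _ le_sup_left (sup_le_sup_left inf_le_right _) hS) fun r p hp =>
    Submodule.mem_sup_right ⟨(comm_mem h hx hij o.ha o.ei o.ej o.hA o.hA' hp r).2.1 rfl,
      (comm_mem h hx hij o.ha o.ei o.ej o.hA o.hA' hp r).1⟩

theorem One.bj (o : One arm J B F G P R lam i j x α β a g)
    (h : Blk k arm J B N W F G P R lam) (hx : Fam (P i) (P j) x) (hij : i ≠ j)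
    (hHD : (α • G + β • F).map D = act arm (fun r => (x r - (x r)ᵀ) * J) (α • G + β • F)) :
    ∀ p ∈ P j, dv D p ∈ P j ⊔ (P i ⊓ R) := by
  have hS : ∀ r, ∀ v ∈ P j ⊔ (P i ⊓ R), Phi arm J B (α • G + β • F) r *ᵥ v ∈ P j ⊔ (P i ⊓ R) := by
    intro r v hv
    obtain ⟨p, hp, ρ, hρ, rfl⟩ := Submodule.mem_sup.1 hv
    rw [mulVec_add]
    exact Submodule.add_mem_sup (P_stH h _ _ hp r) (PR_stH h _ _ hρ r)
  exact dv_mem h hHD le_sup_left hS
    (o.hom j _ le_sup_left (sup_le_sup_left inf_le_right _) hS) fun r p hp =>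
    Submodule.mem_sup_right ⟨(comm_mem h hx hij o.ha o.ei o.ej o.hA o.hA' hp r).2.2 rfl,
      (comm_mem h hx hij o.ha o.ei o.ej o.hA o.hA' hp r).1⟩

/-- the `cor` relation for one sign -/
theorem One.cor (o : One arm J B F G P R lam i j x α β a g)
    (h : Blk k arm J B N W F G P R lam) (hx : Fam (P i) (P j) x) (hij : i ≠ j)
    (hHD : (α • G + β • F).map D = act arm (fun r => (x r - (x r)ᵀ) * J) (α • G + β • F))
    (r : Fin 3) {p : ι → K} (hp : p ∈ P j) {b : ι → K} (hb : b ∈ P i ⊓ R)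
    (hpb : dv D p - b ∈ P j) :
    ((g / a) ^ 2) • dv D (Phi arm J B (G - lam i • F) r *ᵥ p) -
      (Phi arm J B (G - lam j • F) r *ᵥ b +
        Phi arm J B (G - lam j • F) r *ᵥ (((x r)ᵀ * J) *ᵥ p) -
        ((g / a) ^ 2) • (((x r)ᵀ * J) *ᵥ (Phi arm J B (G - lam i • F) r *ᵥ p))) ∈ P j := by
  have ha := o.ha
  set F1 := G - lam j • F with hF1
  set F2 := G - lam i • F with hF2
  have e1 : Phi arm J B (α • G + β • F) r *ᵥ p = g ^ 2 • (Phi arm J B F2 r *ᵥ p) := by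
    rw [hF2, F1eq, PhiH h _ _ hp, PhiH h _ _ hp, o.ej, smul_smul]
    congr 1
    ring
  have e2 : Phi arm J B (α • G + β • F) r *ᵥ b = a ^ 2 • (Phi arm J B F1 r *ᵥ b) := by
    rw [hF1, F1eq, PhiH h _ _ hb.1, PhiH h _ _ hb.1, o.ei, smul_smul]
    congr 1
    ring
  have e3 := dv_Phi h x hHD r p
  rw [(comm_j h hx hij o.ha o.ei o.ej hp r).1, (comm_j h hx hij o.ha o.ei o.ej hp r).2, e1,
    dv_smul] at e3
  have e4 : Phi arm J B (α • G + β • F) r *ᵥ dv D p =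
      a ^ 2 • (Phi arm J B F1 r *ᵥ b) + Phi arm J B (α • G + β • F) r *ᵥ (dv D p - b) := by
    rw [mulVec_sub, e2, add_sub_cancel]
  rw [e4] at e3
  have m1 : Phi arm J B (α • G + β • F) r *ᵥ (dv D p - b) ∈ P j := P_stH h _ _ hpb r
  have m2 : Phi arm J B F2 r *ᵥ p ∈ P j := by rw [hF2, F1eq]; exact P_stH h _ _ hp r
  have e5 : ((g / a) ^ 2) • dv D (Phi arm J B F2 r *ᵥ p) -
      (Phi arm J B F1 r *ᵥ b + Phi arm J B F1 r *ᵥ (((x r)ᵀ * J) *ᵥ p) -
        ((g / a) ^ 2) • (((x r)ᵀ * J) *ᵥ (Phi arm J B F2 r *ᵥ p))) =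
      (a ^ 2)⁻¹ • (Phi arm J B (α • G + β • F) r *ᵥ (dv D p - b) -
        D (g ^ 2) • (Phi arm J B F2 r *ᵥ p)) := by
    have e6 : Phi arm J B (α • G + β • F) r *ᵥ (dv D p - b) -
        D (g ^ 2) • (Phi arm J B F2 r *ᵥ p) = g ^ 2 • dv D (Phi arm J B F2 r *ᵥ p) -
        (a ^ 2 • (Phi arm J B F1 r *ᵥ (((x r)ᵀ * J) *ᵥ p) -
          ((g / a) ^ 2) • (((x r)ᵀ * J) *ᵥ (Phi arm J B F2 r *ᵥ p))) +
          a ^ 2 • (Phi arm J B F1 r *ᵥ b)) := by
      rw [sub_eq_sub_iff_add_eq_add, add_comm (g ^ 2 • _), e3]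
      abel
    rw [e6, smul_sub, smul_smul, smul_add, smul_smul, smul_smul,
      inv_mul_cancel₀ (pow_ne_zero 2 ha), one_smul, one_smul]
    have e7 : (a ^ 2)⁻¹ * g ^ 2 = (g / a) ^ 2 := by
      field_simp
    rw [e7]
    abel
  rw [e5]
  exact (P j).smul_mem _ ((P j).sub_mem m1 ((P j).smul_mem _ m2))

theorem actT (h : Blk k arm J B N W F G P R lam) (x : Fin 3 → Matrix ι ι K) (H : Matrix ι δ K)
    (p : ι → K) : ((act arm (fun r => (x r - (x r)ᵀ) * J) H)ᵀ * J) *ᵥ p =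
      -∑ r, E K arm r *ᵥ ((Hᵀ * J) *ᵥ (((x r - (x r)ᵀ) * J) *ᵥ p)) := by
  unfold act
  rw [transpose_sum, Matrix.sum_mul, Matrix.sum_mulVec, ← Finset.sum_neg_distrib]
  refine Finset.sum_congr rfl fun r _ => ?_
  have e : ((x r - (x r)ᵀ) * J)ᵀ * J = -(J * ((x r - (x r)ᵀ) * J)) :=
    eq_neg_of_add_eq_zero_left (Xskew h.data x r)
  rw [mulVec_mulVec, mulVec_mulVec, ← neg_mulVec]
  congr 1
  rw [transpose_mul, transpose_mul, E_transpose, Matrix.mul_assoc, Matrix.mul_assoc, e]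
  simp only [Matrix.mul_neg, Matrix.mul_assoc]

/-- the correction vector, sign free -/
def YY (arm : δ → Fin 3) (J : Matrix ι ι K) (F : Matrix ι δ K) (x : Fin 3 → Matrix ι ι K)
    (p : ι → K) : δ → K :=
  -∑ r, E K arm r *ᵥ ((Fᵀ * J) *ᵥ (((x r - (x r)ᵀ) * J) *ᵥ p))

theorem One.T (o : One arm J B F G P R lam i j x α β a g)
    (h : Blk k arm J B N W F G P R lam) (hx : Fam (P i) (P j) x) (hij : i ≠ j) :
    (∀ p ∈ P i, ((act arm (fun r => (x r - (x r)ᵀ) * J) (α • G + β • F))ᵀ * J) *ᵥ p =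
      (g * (lam j - lam i)) • YY arm J F x p) ∧
    (∀ p ∈ P j, ((act arm (fun r => (x r - (x r)ᵀ) * J) (α • G + β • F))ᵀ * J) *ᵥ p =
      (a * (lam i - lam j)) • YY arm J F x p) ∧
    (∀ m, i ≠ m → j ≠ m → ∀ p ∈ P m,
      ((act arm (fun r => (x r - (x r)ᵀ) * J) (α • G + β • F))ᵀ * J) *ᵥ p = 0) := by
  refine ⟨fun p hp => ?_, fun p hp => ?_, fun m him hjm p hp => ?_⟩
  · rw [actT h, YY, smul_neg, Finset.smul_sum]
    congr 1
    refine Finset.sum_congr rfl fun r _ => ?_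
    have hq : ((x r - (x r)ᵀ) * J) *ᵥ p ∈ P j := by
      rw [Matrix.sub_mul, sub_mulVec, xtJ_zero h hx hij.symm hp, sub_zero, ← mulVec_mulVec]
      exact hx.l r _
    rw [eigH h _ _ hq, o.ej, mulVec_smul]
  · rw [actT h, YY, smul_neg, Finset.smul_sum]
    congr 1
    refine Finset.sum_congr rfl fun r _ => ?_
    have hq : ((x r - (x r)ᵀ) * J) *ᵥ p ∈ P i := by
      rw [Matrix.sub_mul, sub_mulVec, xJ_zero h hx hij hp, zero_sub, ← mulVec_mulVec]
      exact (P i).neg_mem (hx.r r _)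
    rw [eigH h _ _ hq, o.ei, mulVec_smul]
  · rw [actT h, neg_eq_zero]
    refine Finset.sum_eq_zero fun r _ => ?_
    rw [Matrix.sub_mul, sub_mulVec, xJ_zero h hx him hp, xtJ_zero h hx hjm hp, sub_zero,
      mulVec_zero, mulVec_zero]

theorem map_FJ (hD : Data k arm J B N W) (A : Matrix ι δ K) (D : Derivation k K K) :
    (Aᵀ * J).map D = (A.map D)ᵀ * J := by
  rw [map_mul_der, hD.J_const, Matrix.mul_zero, add_zero, map_transpose_der]

theorem One.zrow (o : One arm J B F G P R lam i j x α β a g)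
    (h : Blk k arm J B N W F G P R lam) (hx : Fam (P i) (P j) x) (hij : i ≠ j)
    (hHD : (α • G + β • F).map D = act arm (fun r => (x r - (x r)ᵀ) * J) (α • G + β • F))
    (m : n) {p : ι → K} (hp : p ∈ P m) : ∃ ρ ∈ R, ((F.map D)ᵀ * J) *ᵥ p =
      (α * lam m + β)⁻¹ •
        (((act arm (fun r => (x r - (x r)ᵀ) * J) (α • G + β • F))ᵀ * J) *ᵥ p) +
      (-((α * lam m + β)⁻¹ * D (α * lam m + β))) • ((Fᵀ * J) *ᵥ p) + (Fᵀ * J) *ᵥ ρ := by
  set hm : K := α * lam m + β with hhm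
  have hne : hm ≠ 0 := o.hh m
  obtain ⟨p', hp', ρ', hρ', e⟩ := Submodule.mem_sup.1 (o.blk h hx hij hHD m p hp)
  obtain ⟨ρ'', hρ'', e''⟩ := FJR h α β hρ'
  refine ⟨hm⁻¹ • (ρ'' - hm • ρ'), R.smul_mem _ (R.sub_mem hρ'' (R.smul_mem _ hρ')), ?_⟩
  have h1 : dv D (((α • G + β • F)ᵀ * J) *ᵥ p) = dv D (hm • ((Fᵀ * J) *ᵥ p)) := by
    rw [eigH h α β hp]
  rw [dv_mulVec, map_FJ h.data, hHD, dv_smul, dv_mulVec, map_FJ h.data, ← e, mulVec_add,
    mulVec_add, eigH h α β hp', e''] at h1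
  have h2 : hm • (((F.map D)ᵀ * J) *ᵥ p) =
      (((act arm (fun r => (x r - (x r)ᵀ) * J) (α • G + β • F))ᵀ * J) *ᵥ p) -
        D hm • ((Fᵀ * J) *ᵥ p) + (Fᵀ * J) *ᵥ (ρ'' - hm • ρ') := by
    rw [mulVec_sub, mulVec_smul]
    simp only [smul_add] at h1
    have h3 := congrArg (fun v => v - D hm • ((Fᵀ * J) *ᵥ p) - hm • ((Fᵀ * J) *ᵥ p') -
      hm • ((Fᵀ * J) *ᵥ ρ')) h1
    have h4 : D hm • (Fᵀ * J) *ᵥ p + (hm • (((F.map D)ᵀ * J) *ᵥ p) + (hm • (Fᵀ * J) *ᵥ p' +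
        hm • (Fᵀ * J) *ᵥ ρ')) - D hm • ((Fᵀ * J) *ᵥ p) - hm • ((Fᵀ * J) *ᵥ p') -
        hm • ((Fᵀ * J) *ᵥ ρ') = hm • (((F.map D)ᵀ * J) *ᵥ p) := by abel
    rw [h4] at h3
    rw [← h3]
    abel
  have h5 : ((F.map D)ᵀ * J) *ᵥ p = hm⁻¹ • (hm • (((F.map D)ᵀ * J) *ᵥ p)) := by
    rw [smul_smul, inv_mul_cancel₀ hne, one_smul]
  rw [h5, h2, smul_add, smul_sub, smul_smul, mulVec_smul, neg_smul, ← sub_eq_add_neg]

theorem One.Heq (o : One arm J B F G P R lam i j x α β a g)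
    (h : Blk k arm J B N W F G P R lam) (hij : i ≠ j) :
    α • G + β • F = a • (G - lam j • F) + g • (G - lam i • F) := by
  have hne : lam i - lam j ≠ 0 := sub_ne_zero.2 (h.ne i j hij)
  have e1 : α = a + g := by
    apply mul_right_cancel₀ hne
    linear_combination o.ei - o.ej
  have e2 : β = -(a * lam j + g * lam i) := by
    have := o.ei
    rw [e1] at this
    linear_combination this
  rw [e1, e2]
  simp only [smul_sub, smul_smul, add_smul, neg_smul]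
  abel

theorem One.row1 (o : One arm J B F G P R lam i j x α β a g)
    (h : Blk k arm J B N W F G P R lam) (hx : Fam (P i) (P j) x) (hij : i ≠ j)
    (hHD : (α • G + β • F).map D = act arm (fun r => (x r - (x r)ᵀ) * J) (α • G + β • F))
    {p : ι → K} (hp : p ∈ P i) :
    a • ((((G - lam j • F).map D)ᵀ * J) *ᵥ p) = (g * (lam j - lam i)) • YY arm J F x p +
      g • (((G - lam i • F)ᵀ * J) *ᵥ dv D p) - D a • (((G - lam j • F)ᵀ * J) *ᵥ p) := by
  have hH := o.Heq h hij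
  set F1 := G - lam j • F with hF1
  set F2 := G - lam i • F with hF2
  have e0 : ∀ v, ((α • G + β • F)ᵀ * J) *ᵥ v = a • ((F1ᵀ * J) *ᵥ v) + g • ((F2ᵀ * J) *ᵥ v) := by
    intro v
    rw [hH, transpose_add, transpose_smul, transpose_smul, Matrix.add_mul, Matrix.smul_mul,
      Matrix.smul_mul, add_mulVec, smul_mulVec, smul_mulVec]
  have e1 : ((α • G + β • F)ᵀ * J) *ᵥ p = a • ((F1ᵀ * J) *ᵥ p) := by
    rw [e0, hF2, k1 h hp, smul_zero, add_zero]
  have h1 : dv D (((α • G + β • F)ᵀ * J) *ᵥ p) = dv D (a • ((F1ᵀ * J) *ᵥ p)) := by rw [e1]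
  rw [dv_mulVec, map_FJ h.data, hHD, (o.T h hx hij).1 p hp, dv_smul, dv_mulVec, map_FJ h.data,
    e0, smul_add] at h1
  have h3 := congrArg (fun v => v - D a • ((F1ᵀ * J) *ᵥ p) - a • ((F1ᵀ * J) *ᵥ dv D p)) h1
  have h4 : D a • (F1ᵀ * J) *ᵥ p + (a • ((F1.map D)ᵀ * J) *ᵥ p + a • (F1ᵀ * J) *ᵥ dv D p) -
      D a • ((F1ᵀ * J) *ᵥ p) - a • ((F1ᵀ * J) *ᵥ dv D p) = a • ((F1.map D)ᵀ * J) *ᵥ p := by abel
  rw [h4] at h3
  rw [← h3]
  abel

end one

section two

variable {i j : n} {x : Fin 3 → Matrix ι ι K} {α β α' β' a g : K} {D1 D2 : Derivation k K K}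

theorem Phi_eq (o1 : One arm J B F G P R lam i j x α β a g)
    (o2 : One arm J B F G P R lam i j x α' β' a (-g))
    (h : Blk k arm J B N W F G P R lam) (r : Fin 3) {v : ι → K} (hv : v ∈ P i ⊔ P j) :
    Phi arm J B (α • G + β • F) r *ᵥ v = Phi arm J B (α' • G + β' • F) r *ᵥ v := by
  obtain ⟨p, hp, q, hq, rfl⟩ := Submodule.mem_sup.1 hv
  rw [mulVec_add, mulVec_add, PhiH h _ _ hp, PhiH h _ _ hp, PhiH h _ _ hq, PhiH h _ _ hq, o1.ei,
    o2.ei, o1.ej, o2.ej]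
  congr 2
  ring

theorem sub_mem_i (o1 : One arm J B F G P R lam i j x α β a g)
    (o2 : One arm J B F G P R lam i j x α' β' a (-g))
    (h : Blk k arm J B N W F G P R lam) (hx : Fam (P i) (P j) x) (hij : i ≠ j)
    (hD1 : (α • G + β • F).map D1 = act arm (fun r => (x r - (x r)ᵀ) * J) (α • G + β • F))
    (hD2 : (α' • G + β' • F).map D2 = act arm (fun r => (x r - (x r)ᵀ) * J) (α' • G + β' • F)) :
    ∀ p ∈ P i, dv D1 p - dv D2 p ∈ P i := by
  have hS : ∀ r, ∀ v ∈ P i, Phi arm J B (α • G + β • F) r *ᵥ v ∈ P i :=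
    fun r v hv => P_stH h _ _ hv r
  refine mem_of_HomZ (o1.hom i _ le_rfl le_sup_left hS) hS (fun v => dv D1 v - dv D2 v)
    (fun p _ q _ => ?_) (fun c p hp => ?_) (fun r p hp => ?_)
  · have : dv D1 (p + q) - dv D2 (p + q) - (dv D1 p - dv D2 p + (dv D1 q - dv D2 q)) = 0 := by
      rw [dv_add, dv_add]; abel
    rw [this]; exact (P i).zero_mem
  · have : dv D1 (c • p) - dv D2 (c • p) - c • (dv D1 p - dv D2 p) = (D1 c - D2 c) • p := by
      rw [dv_smul, dv_smul, smul_sub, sub_smul]; abel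
    rw [this]; exact (P i).smul_mem _ hp
  · have e1 : Phi arm J B (α • G + β • F) r *ᵥ p = Phi arm J B (α' • G + β' • F) r *ᵥ p :=
      Phi_eq o1 o2 h r (Submodule.mem_sup_left hp)
    have e2 := dv_Phi h x hD1 r p
    have e3 := dv_Phi h x hD2 r p
    rw [comm_i h hx hij o1.ha o1.ei o1.ej hp] at e2
    rw [comm_i h hx hij o2.ha o2.ei o2.ej hp, neg_div, neg_pow_two] at e3
    have e4 : Phi arm J B (α • G + β • F) r *ᵥ dv D2 p =
        Phi arm J B (α' • G + β' • F) r *ᵥ dv D2 p := by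
      have hle : P i ⊔ (P j ⊓ R) ≤ P i ⊔ P j := sup_le_sup_left inf_le_left _
      exact Phi_eq o1 o2 h r (hle (o2.bi h hx hij hD2 p hp))
    have : dv D1 (Phi arm J B (α • G + β • F) r *ᵥ p) - dv D2 (Phi arm J B (α • G + β • F) r *ᵥ p)
        - Phi arm J B (α • G + β • F) r *ᵥ (dv D1 p - dv D2 p) = 0 := by
      rw [e2, e1, e3, mulVec_sub, e4]
      abel
    rw [this]; exact (P i).zero_mem

theorem radR (h : Blk k arm J B N W F G P R lam) {ρ ρ' : ι → K} (hρ : ρ ∈ R) (hρ' : ρ' ∈ R) :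
    ρ ⬝ᵥ (J *ᵥ ρ') = 0 := by
  obtain ⟨v, hv, rfl⟩ := h.Rdec ρ' hρ'
  rw [mulVec_sum, dotProduct_sum]
  exact Finset.sum_eq_zero fun l _ => h.rad ρ hρ l _ (hv l).1

theorem dR_of (h : Blk k arm J B N W F G P R lam) {D : Derivation k K K}
    (hblk : ∀ m, ∀ p ∈ P m, dv D p ∈ P m ⊔ R) : ∀ ρ ∈ R, dv D ρ ∈ R := by
  intro ρ hρ
  have hRP : R ≤ ⨆ l, P l := by
    intro ρ hρ
    obtain ⟨v, hv, rfl⟩ := h.Rdec ρ hρ
    exact Submodule.sum_mem _ fun l _ => Submodule.mem_iSup_of_mem l (hv l).1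
  have h1 : dv D ρ ∈ ⨆ l, P l := by
    obtain ⟨v, hv, rfl⟩ := h.Rdec ρ hρ
    rw [dv_sum]
    refine Submodule.sum_mem _ fun l _ => ?_
    exact (sup_le (le_iSup P l) hRP) (hblk l _ (hv l).1)
  rw [Submodule.mem_iSup_iff_exists_finsupp] at h1
  obtain ⟨f, hf, hsum⟩ := h1
  have h2 : ∑ l, f l = dv D ρ := by
    rw [← hsum, Finsupp.sum_fintype f _ (fun _ => rfl)]
  rw [← h2]
  refine h.Rmax _ hf fun m p hp => ?_
  rw [h2]
  have h3 : D (ρ ⬝ᵥ (J *ᵥ p)) = 0 := by rw [h.rad ρ hρ m p hp, map_zero]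
  rw [dv_dot, dv_mulVec, h.data.J_const, zero_mulVec, zero_add] at h3
  obtain ⟨p', hp', ρ', hρ', e⟩ := Submodule.mem_sup.1 (hblk m p hp)
  rw [← e, mulVec_add, dotProduct_add, h.rad ρ hρ m p' hp', radR h hρ hρ', add_zero,
    add_zero] at h3
  exact h3

/-- **Existence of the `L`-fixed motion, from the two signs.** -/
theorem mot_of_two (h2 : (2 : K) ≠ 0) (o1 : One arm J B F G P R lam i j x α β a g)
    (o2 : One arm J B F G P R lam i j x α' β' a (-g))
    (h : Blk k arm J B N W F G P R lam) (hx : Fam (P i) (P j) x) (hij : i ≠ j)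
    {ξ : Matrix δ δ K}
    (hr1 : Realises arm N W (fun r => (x r - (x r)ᵀ) * J) ξ D1)
    (hr2 : Realises arm N W (fun r => (x r - (x r)ᵀ) * J) (-ξ) D2)
    (hD1 : (α • G + β • F).map D1 = act arm (fun r => (x r - (x r)ᵀ) * J) (α • G + β • F))
    (hD2 : (α' • G + β' • F).map D2 = act arm (fun r => (x r - (x r)ᵀ) * J) (α' • G + β' • F)) :
    Mot k arm J B N W F (G - lam j • F) (G - lam i • F) P R i j ((g / a) ^ 2) x
      ((2 : K)⁻¹ • (D1 + D2)) := by
  set D : Derivation k K K := (2 : K)⁻¹ • (D1 + D2) with hD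
  have hmap : ∀ A : Matrix ι δ K, A.map D = (2 : K)⁻¹ • (A.map D1 + A.map D2) := by
    intro A; ext a b; simp [hD, mul_add]
  have hdv : ∀ v : ι → K, dv D v = (2 : K)⁻¹ • (dv D1 v + dv D2 v) := by
    intro v; funext a; simp [hD, dv, mul_add]
  have hhalf : ∀ S : Submodule K (ι → K), ∀ v, dv D1 v ∈ S → dv D2 v ∈ S → dv D v ∈ S := by
    intro S v h1 h2
    rw [hdv]
    exact S.smul_mem _ (S.add_mem h1 h2)
  have hblk : ∀ m, ∀ p ∈ P m, dv D p ∈ P m ⊔ R := fun m p hp =>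
    hhalf _ p (o1.blk h hx hij hD1 m p hp) (o2.blk h hx hij hD2 m p hp)
  have ha := o1.ha
  have hg := o1.hg
  have hreal : Realises arm N W (fun r => (x r - (x r)ᵀ) * J) 0 D := by
    refine ⟨fun A hA => ?_, fun A hA => ?_⟩
    · have e : A.map D - act arm (fun r => (x r - (x r)ᵀ) * J) A = (2 : K)⁻¹ •
          ((A.map D1 - act arm (fun r => (x r - (x r)ᵀ) * J) A) +
            (A.map D2 - act arm (fun r => (x r - (x r)ᵀ) * J) A)) := by
        rw [hmap]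
        generalize act arm (fun r => (x r - (x r)ᵀ) * J) A = Z
        have e2 : Z = (2 : K)⁻¹ • (Z + Z) := by
          rw [← two_smul K Z, smul_smul, inv_mul_cancel₀ h2, one_smul]
        conv_lhs => rw [e2]
        rw [← smul_sub]
        congr 1
        abel
      rw [e]
      exact N.smul_mem _ (N.add_mem (hr1.onN A hA) (hr2.onN A hA))
    · have e : A.map D - A * (0 : Matrix δ δ K)ᵀ = (2 : K)⁻¹ •
          ((A.map D1 - A * ξᵀ) + (A.map D2 - A * (-ξ)ᵀ)) := by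
        rw [hmap, transpose_zero, Matrix.mul_zero, sub_zero, transpose_neg, Matrix.mul_neg]
        congr 1
        abel
      rw [e]
      exact W.smul_mem _ (W.add_mem (hr1.onW A hA) (hr2.onW A hA))
  refine ⟨hreal, ?_, hblk, ?_, ?_, dR_of h hblk, ?_, ?_⟩
  · -- row
    refine ⟨-((2 : K)⁻¹ * (a⁻¹ * (D1 a + D2 a))), fun p hp => ?_⟩
    have e1 := o1.row1 h hx hij hD1 hp
    have e2 := o2.row1 h hx hij hD2 hp
    have e3 : ((G - lam i • F)ᵀ * J) *ᵥ (dv D1 p - dv D2 p) = 0 :=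
      k1 h (sub_mem_i o1 o2 h hx hij hD1 hD2 p hp)
    rw [mulVec_sub, sub_eq_zero] at e3
    have e4 : a • (((((G - lam j • F).map D1)ᵀ * J) *ᵥ p) +
        ((((G - lam j • F).map D2)ᵀ * J) *ᵥ p)) =
        -((D1 a + D2 a) • (((G - lam j • F)ᵀ * J) *ᵥ p)) := by
      rw [smul_add, e1, e2, e3, add_smul, neg_smul, neg_mul, neg_smul]
      abel
    have e5 : (((G - lam j • F).map D)ᵀ * J) *ᵥ p = (2 : K)⁻¹ • (a⁻¹ • (a •
        (((((G - lam j • F).map D1)ᵀ * J) *ᵥ p) + ((((G - lam j • F).map D2)ᵀ * J) *ᵥ p)))) := by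
      rw [smul_smul a⁻¹ a, inv_mul_cancel₀ ha, one_smul, hmap, transpose_smul, transpose_add,
        Matrix.smul_mul, Matrix.add_mul, smul_mulVec, add_mulVec]
    rw [e5, e4, smul_neg, smul_neg, smul_smul, smul_smul, neg_smul, mul_assoc]
  · exact fun p hp => hhalf _ p (o1.bi h hx hij hD1 p hp) (o2.bi h hx hij hD2 p hp)
  · exact fun p hp => hhalf _ p (o1.bj h hx hij hD1 p hp) (o2.bj h hx hij hD2 p hp)
  · -- zF
    refine ⟨?_, fun m => -((2 : K)⁻¹ * ((α * lam m + β)⁻¹ * D1 (α * lam m + β) +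
      (α' * lam m + β')⁻¹ * D2 (α' * lam m + β'))), fun m p hp => ?_⟩
    · have := hreal.onW F h.memF.2
      rwa [transpose_zero, Matrix.mul_zero, sub_zero] at this
    · obtain ⟨ρ1, hρ1, e1⟩ := o1.zrow h hx hij hD1 m hp
      obtain ⟨ρ2, hρ2, e2⟩ := o2.zrow h hx hij hD2 m hp
      have e3 : (α * lam m + β)⁻¹ •
          (((act arm (fun r => (x r - (x r)ᵀ) * J) (α • G + β • F))ᵀ * J) *ᵥ p) +
          (α' * lam m + β')⁻¹ •
          (((act arm (fun r => (x r - (x r)ᵀ) * J) (α' • G + β' • F))ᵀ * J) *ᵥ p) = 0 := by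
        have hl : lam i - lam j ≠ 0 := sub_ne_zero.2 (h.ne i j hij)
        have hl' : lam j - lam i ≠ 0 := sub_ne_zero.2 (h.ne j i hij.symm)
        by_cases him : i = m
        · subst him
          rw [(o1.T h hx hij).1 p hp, (o2.T h hx hij).1 p hp, o1.ei, o2.ei, smul_smul, smul_smul,
            ← add_smul]
          have : (a * (lam i - lam j))⁻¹ * (g * (lam j - lam i)) +
              (a * (lam i - lam j))⁻¹ * (-g * (lam j - lam i)) = 0 := by ring
          rw [this, zero_smul]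
        · by_cases hjm : j = m
          · subst hjm
            rw [(o1.T h hx hij).2.1 p hp, (o2.T h hx hij).2.1 p hp, o1.ej, o2.ej, smul_smul,
              smul_smul, ← add_smul]
            have : (g * (lam j - lam i))⁻¹ * (a * (lam i - lam j)) +
                (-g * (lam j - lam i))⁻¹ * (a * (lam i - lam j)) = 0 := by
              rw [neg_mul, inv_neg]; ring
            rw [this, zero_smul]
          · rw [(o1.T h hx hij).2.2 m him hjm p hp, (o2.T h hx hij).2.2 m him hjm p hp, smul_zero,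
              smul_zero, add_zero]
      refine ⟨(2 : K)⁻¹ • (ρ1 + ρ2), R.smul_mem _ (R.add_mem hρ1 hρ2), ?_⟩
      rw [hmap, transpose_smul, transpose_add, Matrix.smul_mul, Matrix.add_mul, smul_mulVec,
        add_mulVec, e1, e2, mulVec_smul, mulVec_add]
      have e4 : ∀ u1 u2 w1 w2 z1 z2 : δ → K, u1 + u2 = 0 →
          (u1 + w1 + z1 + (u2 + w2 + z2)) = (w1 + w2) + (z1 + z2) := by
        intro u1 u2 w1 w2 z1 z2 hu
        have : u1 + w1 + z1 + (u2 + w2 + z2) = (u1 + u2) + ((w1 + w2) + (z1 + z2)) := by abel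
        rw [this, hu, zero_add]
      rw [e4 _ _ _ _ _ _ e3, smul_add, ← add_smul, smul_smul]
      congr 2
      ring
  · -- cor
    intro r p hp b hb hpb
    obtain ⟨p1, hp1, b1, hb1, e1⟩ := Submodule.mem_sup.1 (o1.bj h hx hij hD1 p hp)
    obtain ⟨p2, hp2, b2, hb2, e2⟩ := Submodule.mem_sup.1 (o2.bj h hx hij hD2 p hp)
    have c1 := o1.cor h hx hij hD1 r hp hb1 (by rw [← e1, add_sub_cancel_right]; exact hp1)
    have c2 := o2.cor h hx hij hD2 r hp hb2 (by rw [← e2, add_sub_cancel_right]; exact hp2)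
    rw [neg_div, neg_pow_two] at c2
    have hbb : b - (2 : K)⁻¹ • (b1 + b2) ∈ P j := by
      have q1 : dv D p - (2 : K)⁻¹ • (b1 + b2) ∈ P j := by
        rw [hdv, ← smul_sub, ← e1, ← e2]
        have : p1 + b1 + (p2 + b2) - (b1 + b2) = p1 + p2 := by abel
        rw [this]
        exact (P j).smul_mem _ ((P j).add_mem hp1 hp2)
      have q2 := (P j).sub_mem q1 hpb
      have : dv D p - (2 : K)⁻¹ • (b1 + b2) - ((fun a => D (p a)) - b) =
          b - (2 : K)⁻¹ • (b1 + b2) := by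
        show dv D p - (2 : K)⁻¹ • (b1 + b2) - (dv D p - b) = _
        abel
      rwa [this] at q2
    have hPb : Phi arm J B (G - lam j • F) r *ᵥ b =
        (2 : K)⁻¹ • (Phi arm J B (G - lam j • F) r *ᵥ b1 + Phi arm J B (G - lam j • F) r *ᵥ b2) := by
      have q3 : Phi arm J B (G - lam j • F) r *ᵥ (b - (2 : K)⁻¹ • (b1 + b2)) = 0 := by
        rw [Phi_mulVec, k1 h hbb, mulVec_zero]
      rw [mulVec_sub, sub_eq_zero, mulVec_smul, mulVec_add] at q3
      exact q3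
    have q4 := (P j).smul_mem (2 : K)⁻¹ ((P j).add_mem c1 c2)
    have q5 : ((g / a) ^ 2) • (fun a => D ((Phi arm J B (G - lam i • F) r *ᵥ p) a)) -
        (Phi arm J B (G - lam j • F) r *ᵥ b +
          Phi arm J B (G - lam j • F) r *ᵥ (((x r)ᵀ * J) *ᵥ p) -
          ((g / a) ^ 2) • (((x r)ᵀ * J) *ᵥ (Phi arm J B (G - lam i • F) r *ᵥ p))) =
        (2 : K)⁻¹ • ((((g / a) ^ 2) • dv D1 (Phi arm J B (G - lam i • F) r *ᵥ p) -
          (Phi arm J B (G - lam j • F) r *ᵥ b1 +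
            Phi arm J B (G - lam j • F) r *ᵥ (((x r)ᵀ * J) *ᵥ p) -
            ((g / a) ^ 2) • (((x r)ᵀ * J) *ᵥ (Phi arm J B (G - lam i • F) r *ᵥ p)))) +
          (((g / a) ^ 2) • dv D2 (Phi arm J B (G - lam i • F) r *ᵥ p) -
          (Phi arm J B (G - lam j • F) r *ᵥ b2 +
            Phi arm J B (G - lam j • F) r *ᵥ (((x r)ᵀ * J) *ᵥ p) -
            ((g / a) ^ 2) • (((x r)ᵀ * J) *ᵥ (Phi arm J B (G - lam i • F) r *ᵥ p))))) := by
      show ((g / a) ^ 2) • dv D (Phi arm J B (G - lam i • F) r *ᵥ p) - _ = _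
      rw [hdv, hPb]
      generalize dv D1 (Phi arm J B (G - lam i • F) r *ᵥ p) = u1
      generalize dv D2 (Phi arm J B (G - lam i • F) r *ᵥ p) = u2
      generalize Phi arm J B (G - lam j • F) r *ᵥ b1 = w1
      generalize Phi arm J B (G - lam j • F) r *ᵥ b2 = w2
      generalize Phi arm J B (G - lam j • F) r *ᵥ (((x r)ᵀ * J) *ᵥ p) = z1
      generalize ((x r)ᵀ * J) *ᵥ (Phi arm J B (G - lam i • F) r *ᵥ p) = z2
      funext t
      simp only [Pi.sub_apply, Pi.add_apply, Pi.smul_apply, smul_eq_mul]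
      field_simp
      ring
    rw [q5]
    exact q4

/-- **`exists_mot`** in the form of note 16237. -/
theorem exists_mot (h2 : (2 : K) ≠ 0) (h : Blk k arm J B N W F G P R lam) (hij : i ≠ j)
    (ha : a ≠ 0) (hg : g ≠ 0)
    (gen1 : Generic k arm N W (a • (G - lam j • F) + g • (G - lam i • F)))
    (gen2 : Generic k arm N W (a • (G - lam j • F) - g • (G - lam i • F)))
    (hh1 : ∀ m, a * (lam m - lam j) + g * (lam m - lam i) ≠ 0)
    (hh2 : ∀ m, a * (lam m - lam j) - g * (lam m - lam i) ≠ 0)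
    (hom1 : ∀ m S, P m ≤ S → S ≤ P m ⊔ R →
      (∀ r, ∀ v ∈ S, Phi arm J B (a • (G - lam j • F) + g • (G - lam i • F)) r *ᵥ v ∈ S) →
      HomZ (Phi arm J B (a • (G - lam j • F) + g • (G - lam i • F))) (P m) S)
    (hom2 : ∀ m S, P m ≤ S → S ≤ P m ⊔ R →
      (∀ r, ∀ v ∈ S, Phi arm J B (a • (G - lam j • F) - g • (G - lam i • F)) r *ᵥ v ∈ S) →
      HomZ (Phi arm J B (a • (G - lam j • F) - g • (G - lam i • F))) (P m) S)
    (hx : Fam (P i) (P j) x)
    (hsum : ∑ r, Def arm J B (G - lam j • F) (G - lam i • F) ((g / a) ^ 2) x r = 0)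
    (hA : ∀ r, ∀ v ∈ P i,
      (Def arm J B (G - lam j • F) (G - lam i • F) ((g / a) ^ 2) x r * J) *ᵥ v ∈ R)
    (hA' : ∀ r, ∀ v ∈ P j,
      ((Def arm J B (G - lam j • F) (G - lam i • F) ((g / a) ^ 2) x r)ᵀ * J) *ᵥ v ∈ R) :
    ∃ D : Derivation k K K,
      Mot k arm J B N W F (G - lam j • F) (G - lam i • F) P R i j ((g / a) ^ 2) x D := by
  have hH1 : a • (G - lam j • F) + g • (G - lam i • F) =
      (a + g) • G + (-(a * lam j + g * lam i)) • F := by
    simp only [smul_sub, smul_smul, add_smul, neg_smul]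
    abel
  have hH2 : a • (G - lam j • F) - g • (G - lam i • F) =
      (a + -g) • G + (-(a * lam j + -g * lam i)) • F := by
    simp only [smul_sub, smul_smul, add_smul, neg_smul, neg_mul]
    abel
  have hb := bp h hij
  have hc : g / a ≠ 0 := div_ne_zero hg ha
  obtain ⟨ξ, hξ, e1, e2⟩ := hb.exists_xi h.data hx hc hsum
  have hXH : ∀ g' : K, act arm (fun r => (x r - (x r)ᵀ) * J)
      (a • (G - lam j • F) + g' • (G - lam i • F)) =
      a • xm arm J x (G - lam j • F) - g' • xm arm J (tr x) (G - lam i • F) := by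
    intro g'
    have e3 : act arm (fun r => (x r - (x r)ᵀ) * J)
        (a • (G - lam j • F) + g' • (G - lam i • F)) =
        act arm (fun r => x r * J) (a • (G - lam j • F) + g' • (G - lam i • F)) -
        act arm (fun r => tr x r * J) (a • (G - lam j • F) + g' • (G - lam i • F)) := by
      rw [← act_subl]
      congr 1
      funext r
      rw [Matrix.sub_mul, tr]
    rw [e3, act_addr, act_addr, act_smulr, act_smulr, act_smulr, act_smulr,
      act_congr0 (fun r => hb.xF2 h.data hx r), act_congr0 (F := G - lam j • F)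
        (X := fun r => tr x r * J) (fun r => hb.xtF1 h.data hx r), smul_zero, smul_zero, add_zero,
      zero_add]
    rfl
  have hm1 : (a • (G - lam j • F) + g • (G - lam i • F)) * ξᵀ =
      act arm (fun r => (x r - (x r)ᵀ) * J) (a • (G - lam j • F) + g • (G - lam i • F)) := by
    rw [hXH, Matrix.add_mul, Matrix.smul_mul, Matrix.smul_mul, e1, e2, smul_neg, smul_smul,
      smul_smul, mul_div_cancel₀ g ha, inv_div, mul_div_cancel₀ a hg]
    abel
  have hm2 : (a • (G - lam j • F) - g • (G - lam i • F)) * (-ξ)ᵀ =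
      act arm (fun r => (x r - (x r)ᵀ) * J) (a • (G - lam j • F) - g • (G - lam i • F)) := by
    have := hXH (-g)
    rw [neg_smul, ← sub_eq_add_neg] at this
    rw [this, transpose_neg, Matrix.mul_neg, Matrix.sub_mul, Matrix.smul_mul, Matrix.smul_mul, e1,
      e2, smul_neg, smul_smul, smul_smul, mul_div_cancel₀ g ha, inv_div, mul_div_cancel₀ a hg,
      neg_smul]
    abel
  obtain ⟨D1, hr1, hD1⟩ := MvT.exists_move h.data gen1 _ (Xskew h.data x) ξ hξ hm1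
  have hξ' : (-ξ)ᵀ * B + B * (-ξ) = 0 := by
    rw [transpose_neg, Matrix.neg_mul, Matrix.mul_neg, ← neg_add, hξ, neg_zero]
  obtain ⟨D2, hr2, hD2⟩ := MvT.exists_move h.data gen2 _ (Xskew h.data x) (-ξ) hξ' hm2
  rw [hH1] at hD1 hom1
  rw [hH2] at hD2 hom2
  refine ⟨_, mot_of_two h2 (D1 := D1) (D2 := D2) (α := a + g) (β := -(a * lam j + g * lam i))
    (α' := a + -g) (β' := -(a * lam j + -g * lam i)) ?_ ?_ h hx hij hr1 hr2 hD1 hD2⟩
  · refine ⟨ha, hg, by ring, by ring, fun m => ?_, hom1, hA, hA'⟩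
    have : (a + g) * lam m + -(a * lam j + g * lam i) =
        a * (lam m - lam j) + g * (lam m - lam i) := by ring
    rw [this]; exact hh1 m
  · refine ⟨ha, neg_ne_zero.2 hg, by ring, by ring, fun m => ?_, hom2, ?_, ?_⟩
    · have : (a + -g) * lam m + -(a * lam j + -g * lam i) =
          a * (lam m - lam j) - g * (lam m - lam i) := by ring
      rw [this]; exact hh2 m
    · rw [neg_div, neg_pow_two]; exact hA
    · rw [neg_div, neg_pow_two]; exact hA'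

end two

end blk

end Crest.Agent.R172.GRm
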