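import Crest.Agent.R172.FO2

/-!
Row 172 (S0260), node GR2: the second derivative for an arbitrary radical, from the motion
structure `Mot` (note 16237 of helper880).
-/

set_option linter.unusedSectionVars false

namespace Crest.Agent.R172.GR2

open Matrix Crest.Agent.R172.FO

variable {ι : Type*} [Fintype ι] [DecidableEq ι] {δ : Type*} [Fintype δ] [DecidableEq δ]
variable {n : Type*} [Fintype n] [DecidableEq n]
variable {k K : Type*} [Field k] [Field K] [Algebra k K]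
variable {arm : δ → Fin 3} {J : Matrix ι ι K} {B : Matrix δ δ K}
  {N W : Submodule K (Matrix ι δ K)}

/-! ### Lemmas on vectors -/

/-- entrywise derivative of a vector -/
def dv {α : Type*} (d : Derivation k K K) (p : α → K) : α → K := fun a => d (p a)

theorem dv_mulVec {α β : Type*} [Fintype β] (d : Derivation k K K) (A : Matrix α β K)
    (p : β → K) : dv d (A *ᵥ p) = A.map d *ᵥ p + A *ᵥ (dv d p) := by
  funext a
  simp only [dv, mulVec, dotProduct, map_sum, Derivation.leibniz, smul_eq_mul, Pi.add_apply,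
    Matrix.map_apply]
  rw [← Finset.sum_add_distrib]
  refine Finset.sum_congr rfl fun b _ => ?_
  ring

theorem dv_add {α : Type*} (d : Derivation k K K) (p q : α → K) :
    dv d (p + q) = dv d p + dv d q := by
  funext a; simp [dv]

theorem dv_smul {α : Type*} (d : Derivation k K K) (c : K) (p : α → K) :
    dv d (c • p) = d c • p + c • dv d p := by
  funext a
  simp only [dv, Pi.smul_apply, Derivation.leibniz, smul_eq_mul, Pi.add_apply]
  ring

theorem dv_zero {α : Type*} (d : Derivation k K K) : dv d (0 : α → K) = 0 := by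
  funext a; simp [dv]

/-- if `yᵀ` has values in `P` and `Aᵀ J = C` on `P` then `y J A = y Cᵀ` -/
theorem row_eq {y : Matrix ι ι K} {P : Submodule K (ι → K)} (hJ : Jᵀ = J)
    (hy : ∀ v, yᵀ *ᵥ v ∈ P) {A : Matrix ι δ K} {C : Matrix δ ι K}
    (h : ∀ p ∈ P, (Aᵀ * J) *ᵥ p = C *ᵥ p) : y * J * A = y * Cᵀ := by
  have h1 : (Aᵀ * J) * yᵀ = C * yᵀ := by
    apply Matrix.toLin'.injective
    apply LinearMap.ext
    intro v
    simp only [toLin'_apply, ← mulVec_mulVec]
    rw [mulVec_mulVec, h _ (hy v)]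
  have h2 := congrArg transpose h1
  simp only [transpose_mul, transpose_transpose, hJ] at h2
  rw [Matrix.mul_assoc]
  exact h2

/-- a matrix is a sum of rank one matrices from its row and column spaces -/
theorem mem_span_of {y : Matrix ι ι K} {P1 P2 : Submodule K (ι → K)}
    (hc : ∀ v, y *ᵥ v ∈ P2) (hr : ∀ v, yᵀ *ᵥ v ∈ P1) :
    y ∈ Submodule.span K {z : Matrix ι ι K | ∃ p2 ∈ P2, ∃ p1 ∈ P1, z = vecMulVec p2 p1} := by
  obtain ⟨g2, hg2⟩ := LinearMap.exists_leftInverse_of_injective P2.subtype (by simp)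
  obtain ⟨g1, hg1⟩ := LinearMap.exists_leftInverse_of_injective P1.subtype (by simp)
  set A2 : Matrix ι ι K := LinearMap.toMatrix' (P2.subtype ∘ₗ g2) with hA2
  set A1 : Matrix ι ι K := LinearMap.toMatrix' (P1.subtype ∘ₗ g1) with hA1
  have m2 : ∀ v, A2 *ᵥ v ∈ P2 := by
    intro v
    rw [hA2, ← toLin'_apply, toLin'_toMatrix']
    exact (g2 v).2
  have m1 : ∀ v, A1 *ᵥ v ∈ P1 := by
    intro v
    rw [hA1, ← toLin'_apply, toLin'_toMatrix']
    exact (g1 v).2
  have i2 : ∀ v ∈ P2, A2 *ᵥ v = v := by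
    intro v hv
    rw [hA2, ← toLin'_apply, toLin'_toMatrix']
    have := LinearMap.congr_fun hg2 ⟨v, hv⟩
    simp only [LinearMap.comp_apply, Submodule.subtype_apply, LinearMap.id_apply] at this
    rw [LinearMap.comp_apply, Submodule.subtype_apply, this]
  have i1 : ∀ v ∈ P1, A1 *ᵥ v = v := by
    intro v hv
    rw [hA1, ← toLin'_apply, toLin'_toMatrix']
    have := LinearMap.congr_fun hg1 ⟨v, hv⟩
    simp only [LinearMap.comp_apply, Submodule.subtype_apply, LinearMap.id_apply] at this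
    rw [LinearMap.comp_apply, Submodule.subtype_apply, this]
  have e2 : A2 * y = y := by
    apply Matrix.toLin'.injective
    apply LinearMap.ext
    intro v
    simp only [toLin'_apply, ← mulVec_mulVec]
    exact i2 _ (hc v)
  have e1 : A1 * yᵀ = yᵀ := by
    apply Matrix.toLin'.injective
    apply LinearMap.ext
    intro v
    simp only [toLin'_apply, ← mulVec_mulVec]
    exact i1 _ (hr v)
  have e3 : y * A1ᵀ = y := by
    have := congrArg transpose e1
    rwa [transpose_mul, transpose_transpose] at this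
  have e4 : y = ∑ a, ∑ b, y a b • vecMulVec (A2 *ᵥ Pi.single a 1) (A1 *ᵥ Pi.single b 1) := by
    conv_lhs => rw [← e2, ← e3, ← Matrix.mul_assoc]
    ext u v
    simp only [Matrix.sum_apply, Matrix.smul_apply, vecMulVec_apply, mulVec_single_one,
      Matrix.col_apply, smul_eq_mul, Matrix.mul_apply, transpose_apply]
    simp only [Finset.sum_mul]
    rw [Finset.sum_comm]
    refine Finset.sum_congr rfl fun a _ => ?_
    refine Finset.sum_congr rfl fun b _ => ?_
    ring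
  rw [e4]
  refine Submodule.sum_mem _ fun a _ => Submodule.sum_mem _ fun b _ => Submodule.smul_mem _ _ ?_
  exact Submodule.subset_span ⟨_, m2 _, _, m1 _, rfl⟩


/-! ### The data -/

structure Blk (k : Type*) [Field k] [Algebra k K] (arm : δ → Fin 3) (J : Matrix ι ι K)
    (B : Matrix δ δ K) (N W : Submodule K (Matrix ι δ K)) (F G : Matrix ι δ K)
    (P : n → Submodule K (ι → K)) (R : Submodule K (ι → K)) (lam : n → K) : Prop where
  data : Data k arm J B N W
  memF : F ∈ N ⊓ W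
  memG : G ∈ N ⊓ W
  ne : ∀ i j, i ≠ j → lam i ≠ lam j
  eig : ∀ i, ∀ p ∈ P i, (Gᵀ * J) *ᵥ p = lam i • ((Fᵀ * J) *ᵥ p)
  st : ∀ i r, ∀ p ∈ P i, Phi arm J B F r *ᵥ p ∈ P i
  pf : ∀ i, ∀ p ∈ P i, ∃ v : Fin 3 → ι → K, (∀ r, v r ∈ P i) ∧ p = ∑ r, Phi arm J B F r *ᵥ v r
  Rdec : ∀ ρ ∈ R, ∃ v : n → ι → K, (∀ i, v i ∈ P i ⊓ R) ∧ ρ = ∑ i, v i
  rad : ∀ ρ ∈ R, ∀ i, ∀ p ∈ P i, ρ ⬝ᵥ (J *ᵥ p) = 0
  Rmax : ∀ v : n → ι → K, (∀ i, v i ∈ P i) →
    (∀ i, ∀ p ∈ P i, (∑ l, v l) ⬝ᵥ (J *ᵥ p) = 0) → ∑ l, v l ∈ R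

/-- rows in `P1`, columns in `P2` -/
structure Fam (P1 P2 : Submodule K (ι → K)) (x : Fin 3 → Matrix ι ι K) : Prop where
  col : ∀ r v, x r *ᵥ v ∈ P2
  row : ∀ r v, (x r)ᵀ *ᵥ v ∈ P1

def xm (arm : δ → Fin 3) (J : Matrix ι ι K) (x : Fin 3 → Matrix ι ι K) (F : Matrix ι δ K) :
    Matrix ι δ K := act arm (fun r => x r * J) F

/-- the correction space -/
def ZW (J : Matrix ι ι K) (W : Submodule K (Matrix ι δ K)) (F : Matrix ι δ K)
    (P : n → Submodule K (ι → K)) (R : Submodule K (ι → K)) : Submodule K (Matrix ι δ K) where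
  carrier := {z | z ∈ W ∧ ∃ μ : n → K, ∀ m, ∀ p ∈ P m, ∃ ρ ∈ R,
    (zᵀ * J) *ᵥ p = μ m • ((Fᵀ * J) *ᵥ p) + (Fᵀ * J) *ᵥ ρ}
  zero_mem' := ⟨W.zero_mem, 0, fun m p _ => ⟨0, R.zero_mem, by simp⟩⟩
  add_mem' := by
    rintro z z' ⟨hz, μ, h⟩ ⟨hz', μ', h'⟩
    refine ⟨W.add_mem hz hz', μ + μ', fun m p hp => ?_⟩
    obtain ⟨ρ, hρ, e⟩ := h m p hp
    obtain ⟨ρ', hρ', e'⟩ := h' m p hp
    refine ⟨ρ + ρ', R.add_mem hρ hρ', ?_⟩
    rw [transpose_add, Matrix.add_mul, Matrix.add_mulVec, e, e', Matrix.mulVec_add, Pi.add_apply,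
      add_smul]
    abel
  smul_mem' := by
    rintro c z ⟨hz, μ, h⟩
    refine ⟨W.smul_mem c hz, c • μ, fun m p hp => ?_⟩
    obtain ⟨ρ, hρ, e⟩ := h m p hp
    refine ⟨c • ρ, R.smul_mem c hρ, ?_⟩
    rw [transpose_smul, Matrix.smul_mul, Matrix.smul_mulVec, e, Matrix.mulVec_smul, smul_add,
      Pi.smul_apply, smul_eq_mul, mul_smul]

def QR (J : Matrix ι ι K) (N W : Submodule K (Matrix ι δ K)) (F : Matrix ι δ K)
    (P : n → Submodule K (ι → K)) (R : Submodule K (ι → K)) : Submodule K (Matrix ι δ K) :=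
  N ⊔ ZW J W F P R

/-- the motion -/
structure Mot (arm : δ → Fin 3) (J : Matrix ι ι K) (B : Matrix δ δ K)
    (N W : Submodule K (Matrix ι δ K)) (F F1 : Matrix ι δ K)
    (P : n → Submodule K (ι → K)) (R : Submodule K (ι → K)) (i j : n)
    (x : Fin 3 → Matrix ι ι K) (D : Derivation k K K) : Prop where
  real : Realises arm N W (fun r => (x r - (x r)ᵀ) * J) 0 D
  row : ∃ μ : K, ∀ p ∈ P i, ((F1.map D)ᵀ * J) *ᵥ p = μ • ((F1ᵀ * J) *ᵥ p)
  blk : ∀ m, ∀ p ∈ P m, dv D p ∈ P m ⊔ R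
  dR : ∀ ρ ∈ R, dv D ρ ∈ R
  zF : F.map D ∈ ZW J W F P R

/-! ### Derivatives of corrections -/

section
variable {F G : Matrix ι δ K} {P : n → Submodule K (ι → K)} {R : Submodule K (ι → K)}
  {lam : n → K}

def FR (J : Matrix ι ι K) (F : Matrix ι δ K) (R : Submodule K (ι → K)) : Submodule K (δ → K) :=
  R.map (Matrix.toLin' (Fᵀ * J))

theorem FR_mem {ρ : ι → K} (hρ : ρ ∈ R) : (Fᵀ * J) *ᵥ ρ ∈ FR J F R :=
  ⟨ρ, hρ, by rw [toLin'_apply]⟩

theorem ZW_iff {z : Matrix ι δ K} : z ∈ ZW J W F P R ↔ z ∈ W ∧ ∃ μ : n → K, ∀ m, ∀ p ∈ P m,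
    (zᵀ * J) *ᵥ p - μ m • ((Fᵀ * J) *ᵥ p) ∈ FR J F R := by
  constructor
  · rintro ⟨hz, μ, h⟩
    refine ⟨hz, μ, fun m p hp => ?_⟩
    obtain ⟨ρ, hρ, e⟩ := h m p hp
    rw [e, add_sub_cancel_left]
    exact FR_mem hρ
  · rintro ⟨hz, μ, h⟩
    refine ⟨hz, μ, fun m p hp => ?_⟩
    obtain ⟨ρ, hρ, e⟩ := h m p hp
    refine ⟨ρ, hρ, ?_⟩
    rw [toLin'_apply] at e
    rw [e]
    abel

theorem ZW_R (hRd : ∀ ρ ∈ R, ∃ v : n → ι → K, (∀ i, v i ∈ P i ⊓ R) ∧ ρ = ∑ i, v i)
    {z : Matrix ι δ K} (hz : z ∈ ZW J W F P R) {ρ : ι → K} (hρ : ρ ∈ R) :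
    (zᵀ * J) *ᵥ ρ ∈ FR J F R := by
  obtain ⟨_, μ, h⟩ := ZW_iff.1 hz
  obtain ⟨v, hv, e⟩ := hRd ρ hρ
  rw [e, Matrix.mulVec_sum]
  refine Submodule.sum_mem _ fun i _ => ?_
  have h1 := h i (v i) (hv i).1
  have h2 : μ i • ((Fᵀ * J) *ᵥ v i) ∈ FR J F R := Submodule.smul_mem _ _ (FR_mem (hv i).2)
  have h3 := Submodule.add_mem _ h1 h2
  rwa [sub_add_cancel] at h3

theorem tJ_map (hJ : ∀ d : Derivation k K K, J.map d = 0) (d : Derivation k K K)
    (A : Matrix ι δ K) : (Aᵀ * J).map d = (A.map d)ᵀ * J := by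
  rw [map_mul_der, hJ, Matrix.mul_zero, add_zero, map_transpose_der]

theorem ZW_der (hB : Blk k arm J B N W F G P R lam) {D : Derivation k K K}
    {X : Fin 3 → Matrix ι ι K} (real : Realises arm N W X 0 D)
    (blk : ∀ m, ∀ p ∈ P m, dv D p ∈ P m ⊔ R) (dR : ∀ ρ ∈ R, dv D ρ ∈ R)
    (zF : F.map D ∈ ZW J W F P R) {z : Matrix ι δ K} (hz : z ∈ ZW J W F P R) :
    z.map D ∈ ZW J W F P R := by
  obtain ⟨hW, μ, h⟩ := ZW_iff.1 hz
  obtain ⟨_, μ', h'⟩ := ZW_iff.1 zF
  refine ZW_iff.2 ⟨?_, fun m => D (μ m) + μ m * μ' m, fun m p hp => ?_⟩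
  · have := real.onW z hW
    rwa [transpose_zero, Matrix.mul_zero, sub_zero] at this
  obtain ⟨ρ, hρ, e⟩ := h m p hp
  rw [toLin'_apply] at e
  have e1 : (zᵀ * J) *ᵥ p = μ m • ((Fᵀ * J) *ᵥ p) + (Fᵀ * J) *ᵥ ρ := by rw [e]; abel
  have e2 := congrArg (dv D) e1
  rw [dv_mulVec, dv_add, dv_smul, dv_mulVec, dv_mulVec, tJ_map hB.data.J_const,
    tJ_map hB.data.J_const] at e2
  obtain ⟨p', hp', r', hr', e3⟩ := Submodule.mem_sup.1 (blk m p hp)
  have h1 := h m p' hp'
  have h2 := ZW_R hB.Rdec hz hr'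
  have h3 := h' m p hp
  have h4 := ZW_R hB.Rdec zF hρ
  have h5 : (Fᵀ * J) *ᵥ (dv D ρ) ∈ FR J F R := FR_mem (dR ρ hρ)
  have h6 : (Fᵀ * J) *ᵥ r' ∈ FR J F R := FR_mem hr'
  have key : ((z.map D)ᵀ * J) *ᵥ p - (D (μ m) + μ m * μ' m) • ((Fᵀ * J) *ᵥ p)
      = μ m • (((F.map D)ᵀ * J) *ᵥ p - μ' m • ((Fᵀ * J) *ᵥ p))
        + μ m • ((Fᵀ * J) *ᵥ r') + ((F.map D)ᵀ * J) *ᵥ ρ + (Fᵀ * J) *ᵥ (dv D ρ)
        - (((zᵀ * J) *ᵥ p' - μ m • ((Fᵀ * J) *ᵥ p')) + (zᵀ * J) *ᵥ r') := by
    have e4 : ((z.map D)ᵀ * J) *ᵥ p = D (μ m) • ((Fᵀ * J) *ᵥ p)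
        + μ m • (((F.map D)ᵀ * J) *ᵥ p + (Fᵀ * J) *ᵥ (p' + r'))
        + (((F.map D)ᵀ * J) *ᵥ ρ + (Fᵀ * J) *ᵥ dv D ρ) - (zᵀ * J) *ᵥ (p' + r') := by
      rw [e3, ← e2]
      abel
    rw [e4, Matrix.mulVec_add, Matrix.mulVec_add, add_smul, mul_smul, smul_add, smul_add,
      smul_sub]
    abel
  rw [key]
  refine Submodule.sub_mem _ (Submodule.add_mem _ (Submodule.add_mem _ (Submodule.add_mem _
    (Submodule.smul_mem _ _ h3) (Submodule.smul_mem _ _ h6)) h4) h5) (Submodule.add_mem _ h1 h2)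

theorem F1_ZW (hB : Blk k arm J B N W F G P R lam) (j : n) :
    G - lam j • F ∈ ZW J W F P R := by
  refine ⟨W.sub_mem hB.memG.2 (W.smul_mem _ hB.memF.2), fun m => lam m - lam j,
    fun m p hp => ⟨0, R.zero_mem, ?_⟩⟩
  rw [transpose_sub, transpose_smul, Matrix.sub_mul, Matrix.smul_mul, Matrix.sub_mulVec,
    Matrix.smul_mulVec, hB.eig m p hp, Matrix.mulVec_zero, add_zero, sub_smul]

theorem F1_j (hB : Blk k arm J B N W F G P R lam) (j : n) {p : ι → K} (hp : p ∈ P j) :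
    ((G - lam j • F)ᵀ * J) *ᵥ p = 0 := by
  rw [transpose_sub, transpose_smul, Matrix.sub_mul, Matrix.smul_mul, Matrix.sub_mulVec,
    Matrix.smul_mulVec, hB.eig j p hp, sub_self]

/-- different blocks are orthogonal -/
theorem orth (hB : Blk k arm J B N W F G P R lam) {i j : n} (hij : i ≠ j) {p q : ι → K}
    (hp : p ∈ P i) (hq : q ∈ P j) : p ⬝ᵥ (J *ᵥ q) = 0 := by
  obtain ⟨v, hv, rfl⟩ := hB.pf j q hq
  rw [Matrix.mulVec_sum, dotProduct_sum]
  refine Finset.sum_eq_zero fun r _ => ?_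
  have hJ := hB.data.J_symm
  have a1 : ∀ A A' : Matrix ι δ K, p ⬝ᵥ (J *ᵥ ((M arm B r A A' * J) *ᵥ v r))
      = ((Aᵀ * J) *ᵥ p) ⬝ᵥ ((E K arm r * B) *ᵥ ((A'ᵀ * J) *ᵥ v r)) := by
    intro A A'
    unfold M
    simp only [mulVec_mulVec, dotProduct_mulVec]
    congr 1
    rw [← mulVec_transpose, ← mulVec_transpose]
    simp only [mulVec_mulVec, transpose_mul, transpose_transpose, hJ, Matrix.mul_assoc]
  have h1 := a1 F G
  have h2 := a1 G F
  have h3 := a1 F F
  rw [hB.data.symm_arm hB.memF hB.memG r, hB.eig j _ (hv r), Matrix.mulVec_smul,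
    dotProduct_smul] at h1
  rw [hB.eig i p hp, smul_dotProduct] at h2
  rw [h1] at h2
  have h4 : (lam j - lam i) * (p ⬝ᵥ (J *ᵥ ((M arm B r F F * J) *ᵥ v r))) = 0 := by
    rw [h3, sub_mul, sub_eq_zero]
    simpa [smul_eq_mul] using h2
  rcases mul_eq_zero.1 h4 with h | h
  · exact absurd (sub_eq_zero.1 h) (hB.ne j i (Ne.symm hij))
  · exact h

/-! ### Linearity of `xm` -/

theorem xm_add (x y : Fin 3 → Matrix ι ι K) (A : Matrix ι δ K) :
    xm arm J (fun r => x r + y r) A = xm arm J x A + xm arm J y A := by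
  unfold xm act
  rw [← Finset.sum_add_distrib]
  refine Finset.sum_congr rfl fun r _ => ?_
  simp only [Matrix.add_mul]

theorem xm_sub (x y : Fin 3 → Matrix ι ι K) (A : Matrix ι δ K) :
    xm arm J (fun r => x r - y r) A = xm arm J x A - xm arm J y A := by
  unfold xm act
  rw [← Finset.sum_sub_distrib]
  refine Finset.sum_congr rfl fun r _ => ?_
  simp only [Matrix.sub_mul]

theorem xm_sub_right (x : Fin 3 → Matrix ι ι K) (A A' : Matrix ι δ K) :
    xm arm J x (A - A') = xm arm J x A - xm arm J x A' := by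
  unfold xm act
  rw [← Finset.sum_sub_distrib]
  refine Finset.sum_congr rfl fun r _ => ?_
  simp only [Matrix.mul_sub, Matrix.sub_mul]

theorem xm_congr {x y : Fin 3 → Matrix ι ι K} {A A' : Matrix ι δ K}
    (h : ∀ r, x r * J * A = y r * J * A') : xm arm J x A = xm arm J y A' := by
  unfold xm act
  exact Finset.sum_congr rfl fun r _ => by rw [h r]

theorem xm_smul_congr {x : Fin 3 → Matrix ι ι K} {A A' : Matrix ι δ K} {c : K}
    (h : ∀ r, x r * J * A = c • (x r * J * A')) : xm arm J x A = c • xm arm J x A' := by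
  unfold xm act
  rw [Finset.smul_sum]
  exact Finset.sum_congr rfl fun r _ => by rw [h r, Matrix.smul_mul]

theorem xm_zero_of {x : Fin 3 → Matrix ι ι K} {A : Matrix ι δ K}
    (h : ∀ r, x r * J * A = 0) : xm arm J x A = 0 := by
  unfold xm act
  exact Finset.sum_eq_zero fun r _ => by rw [h r, Matrix.zero_mul]

theorem xm_map (hJ : ∀ d : Derivation k K K, J.map d = 0) (d : Derivation k K K)
    (x : Fin 3 → Matrix ι ι K) (A : Matrix ι δ K) :
    (xm arm J x A).map d = xm arm J (fun r => (x r).map d) A + xm arm J x (A.map d) := by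
  have hs : (xm arm J x A).map d = ∑ r, (x r * J * A * E K arm r).map d := by
    ext a b
    simp [xm, act, Matrix.sum_apply]
  rw [hs]
  unfold xm act
  rw [← Finset.sum_add_distrib]
  refine Finset.sum_congr rfl fun r _ => ?_
  rw [map_mul_der, map_mul_der, map_mul_der, hJ, E_map_der, Matrix.mul_zero, Matrix.mul_zero,
    add_zero, add_zero, Matrix.add_mul]

theorem xm_xm (x y : Fin 3 → Matrix ι ι K) (A : Matrix ι δ K) :
    xm arm J x (xm arm J y A) = xm arm J (fun r => x r * J * y r) A := by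
  change ∑ r, (x r * J) * (act arm (fun r => y r * J) A) * E K arm r
    = ∑ r, (x r * J * y r * J) * A * E K arm r
  refine Finset.sum_congr rfl fun r _ => ?_
  rw [Matrix.mul_assoc, act_mul_E]
  simp only [Matrix.mul_assoc]

/-- the family `y''` -/
theorem fam_der {i j : n} {y : Fin 3 → Matrix ι ι K} (hy : Fam (P i) (P j) y)
    {D : Derivation k K K} {b b1 : Matrix ι ι K}
    (hb : ∀ p ∈ P j, dv D p - b *ᵥ p ∈ P j) (hb1 : ∀ p ∈ P i, dv D p - b1 *ᵥ p ∈ P i) :
    Fam (P i) (P j) (fun r => (y r).map D - b * y r - y r * b1ᵀ) := by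
  have key : ∀ r, ((∀ v, y r *ᵥ v ∈ P j) ∧ (∀ v, (y r)ᵀ *ᵥ v ∈ P i)) ∧
      (∀ v, ((y r).map D - b * y r - y r * b1ᵀ) *ᵥ v ∈ P j) ∧
      (∀ v, ((y r).map D - b * y r - y r * b1ᵀ)ᵀ *ᵥ v ∈ P i) := by
    intro r
    refine Submodule.span_induction (p := fun z _ => ((∀ v, z *ᵥ v ∈ P j) ∧ (∀ v, zᵀ *ᵥ v ∈ P i)) ∧
      (∀ v, (z.map D - b * z - z * b1ᵀ) *ᵥ v ∈ P j) ∧
      (∀ v, (z.map D - b * z - z * b1ᵀ)ᵀ *ᵥ v ∈ P i)) ?_ ?_ ?_ ?_
      (mem_span_of (hy.col r) (hy.row r))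
    · rintro z ⟨p2, h2, p1, h1, rfl⟩
      have e : (vecMulVec p2 p1).map D - b * vecMulVec p2 p1 - vecMulVec p2 p1 * b1ᵀ
          = vecMulVec (dv D p2 - b *ᵥ p2) p1 + vecMulVec p2 (dv D p1 - b1 *ᵥ p1) := by
        rw [mul_vecMulVec, vecMulVec_mul, vecMul_transpose]
        ext a c
        simp only [Matrix.sub_apply, Matrix.map_apply, vecMulVec_apply, Derivation.leibniz,
          smul_eq_mul, Matrix.add_apply, Pi.sub_apply, dv]
        ring
      have c1 : ∀ (a c v : ι → K) (S : Submodule K (ι → K)), a ∈ S → vecMulVec a c *ᵥ v ∈ S := by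
        intro a c v S ha
        rw [vecMulVec_mulVec]
        have : MulOpposite.op (c ⬝ᵥ v) • a = (c ⬝ᵥ v) • a := by
          ext u; simp [mul_comm]
        rw [this]
        exact S.smul_mem _ ha
      refine ⟨⟨fun v => c1 _ _ _ _ h2, fun v => by rw [transpose_vecMulVec]; exact c1 _ _ _ _ h1⟩,
        fun v => ?_, fun v => ?_⟩
      · rw [e, Matrix.add_mulVec]
        exact Submodule.add_mem _ (c1 _ _ _ _ (hb _ h2)) (c1 _ _ _ _ h2)
      · rw [e, transpose_add, transpose_vecMulVec, transpose_vecMulVec, Matrix.add_mulVec]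
        exact Submodule.add_mem _ (c1 _ _ _ _ h1) (c1 _ _ _ _ (hb1 _ h1))
    · have : (0 : Matrix ι ι K).map D = 0 := by ext; simp
      rw [this]
      simp
    · rintro z z' _ _ ⟨⟨h1, h2⟩, h3, h4⟩ ⟨⟨h1', h2'⟩, h3', h4'⟩
      have e : (z + z').map D - b * (z + z') - (z + z') * b1ᵀ
          = (z.map D - b * z - z * b1ᵀ) + (z'.map D - b * z' - z' * b1ᵀ) := by
        rw [map_add_der, Matrix.mul_add, Matrix.add_mul]
        abel
      refine ⟨⟨fun v => ?_, fun v => ?_⟩, fun v => ?_, fun v => ?_⟩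
      · rw [Matrix.add_mulVec]; exact Submodule.add_mem _ (h1 v) (h1' v)
      · rw [transpose_add, Matrix.add_mulVec]; exact Submodule.add_mem _ (h2 v) (h2' v)
      · rw [e, Matrix.add_mulVec]; exact Submodule.add_mem _ (h3 v) (h3' v)
      · rw [e, transpose_add, Matrix.add_mulVec]; exact Submodule.add_mem _ (h4 v) (h4' v)
    · rintro c z _ ⟨⟨h1, h2⟩, h3, h4⟩
      have e : (c • z).map D - b * (c • z) - (c • z) * b1ᵀ
          = c • (z.map D - b * z - z * b1ᵀ) + D c • z := by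
        have : (c • z).map D = c • z.map D + D c • z := by
          ext a u
          simp only [Matrix.map_apply, Matrix.smul_apply, smul_eq_mul, Derivation.leibniz,
            Matrix.add_apply]
          ring
        rw [this, Matrix.mul_smul, Matrix.smul_mul, smul_sub, smul_sub]
        abel
      refine ⟨⟨fun v => ?_, fun v => ?_⟩, fun v => ?_, fun v => ?_⟩
      · rw [Matrix.smul_mulVec]; exact Submodule.smul_mem _ _ (h1 v)
      · rw [transpose_smul, Matrix.smul_mulVec]; exact Submodule.smul_mem _ _ (h2 v)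
      · rw [e, Matrix.add_mulVec, Matrix.smul_mulVec, Matrix.smul_mulVec]
        exact Submodule.add_mem _ (Submodule.smul_mem _ _ (h3 v)) (Submodule.smul_mem _ _ (h1 v))
      · rw [e, transpose_add, transpose_smul, transpose_smul, Matrix.add_mulVec,
          Matrix.smul_mulVec, Matrix.smul_mulVec]
        exact Submodule.add_mem _ (Submodule.smul_mem _ _ (h4 v)) (Submodule.smul_mem _ _ (h2 v))
  exact ⟨fun r => (key r).2.1, fun r => (key r).2.2⟩

/-! ### First derivative -/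

theorem Mot.F1_mem (hB : Blk k arm J B N W F G P R lam) {i j : n}
    {x : Fin 3 → Matrix ι ι K} {D : Derivation k K K}
    (mx : Mot arm J B N W F (G - lam j • F) P R i j x D) :
    (G - lam j • F).map D ∈ ZW J W F P R :=
  ZW_der hB mx.real mx.blk mx.dR mx.zF (F1_ZW hB j)

theorem F1_memNW (hB : Blk k arm J B N W F G P R lam) (j : n) : G - lam j • F ∈ N ⊓ W :=
  (N ⊓ W).sub_mem hB.memG ((N ⊓ W).smul_mem _ hB.memF)

/-- `act X F1 = x F1` -/
theorem act_F1 (hB : Blk k arm J B N W F G P R lam) {i j : n}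
    {x : Fin 3 → Matrix ι ι K} (hx : Fam (P i) (P j) x) :
    act arm (fun r => (x r - (x r)ᵀ) * J) (G - lam j • F) = xm arm J x (G - lam j • F) := by
  have h := xm_sub (arm := arm) (J := J) x (fun r => (x r)ᵀ) (G - lam j • F)
  have h0 : xm arm J (fun r => (x r)ᵀ) (G - lam j • F) = 0 := by
    refine xm_zero_of fun r => ?_
    rw [row_eq (P := P j) (C := 0) hB.data.J_symm (by
      intro v; rw [transpose_transpose]; exact hx.col r v) (by
      intro p hp; rw [F1_j hB j hp, Matrix.zero_mulVec]), transpose_zero, Matrix.mul_zero]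
  rw [h0, sub_zero] at h
  exact h

theorem Mot.first (hB : Blk k arm J B N W F G P R lam) {i j : n}
    {x : Fin 3 → Matrix ι ι K} (hx : Fam (P i) (P j) x) {D : Derivation k K K}
    (mx : Mot arm J B N W F (G - lam j • F) P R i j x D) :
    (G - lam j • F).map D - xm arm J x (G - lam j • F) ∈ N ∧
      xm arm J x (G - lam j • F) ∈ QR J N W F P R := by
  have h1 := mx.real.onN _ (F1_memNW hB j).1
  rw [act_F1 hB hx] at h1
  refine ⟨h1, ?_⟩
  have h2 : xm arm J x (G - lam j • F) = -((G - lam j • F).map D - xm arm J x (G - lam j • F))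
      + (G - lam j • F).map D := by abel
  rw [h2]
  exact Submodule.add_mem_sup (N.neg_mem h1) (mx.F1_mem hB)

/-! ### Second derivative -/

theorem second (hB : Blk k arm J B N W F G P R lam) {i j : n} (hij : i ≠ j)
    {x y : Fin 3 → Matrix ι ι K} (hx : Fam (P i) (P j) x) (hy : Fam (P i) (P j) y)
    {Dx Dy : Derivation k K K}
    (mx : Mot arm J B N W F (G - lam j • F) P R i j x Dx)
    (my : Mot arm J B N W F (G - lam j • F) P R i j y Dy)
    {bx by' b1 : Matrix ι ι K}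
    (hbx : ∀ p ∈ P j, dv Dx p - bx *ᵥ p ∈ P j)
    (hby : ∀ p ∈ P j, dv Dy p - by' *ᵥ p ∈ P j)
    (hb1 : ∀ p ∈ P i, b1 *ᵥ p ∈ P j ∧ dv Dx p - b1 *ᵥ p ∈ P i) :
    Fam (P i) (P j) (fun r => (y r).map Dx - bx * y r - y r * b1ᵀ) ∧
    xm arm J (fun r => bx * y r + (x r)ᵀ * J * y r + (by' * x r)ᵀ) (G - lam j • F)
      + xm arm J (fun r => (y r).map Dx - bx * y r - y r * b1ᵀ) (G - lam j • F)
      ∈ QR J N W F P R := by
  refine ⟨fam_der hy hbx fun p hp => (hb1 p hp).2, ?_⟩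
  set F1 : Matrix ι δ K := G - lam j • F with hF1
  have hJ := hB.data.J_symm
  obtain ⟨hnx, hqx⟩ := mx.first hB hx
  obtain ⟨hny, hqy⟩ := my.first hB hy
  obtain ⟨μx, hμx⟩ := mx.row
  obtain ⟨μy, hμy⟩ := my.row
  have h1 := mx.real.onN _ hny
  rw [map_sub_der, xm_map hB.data.J_const] at h1
  -- `y (F1.map Dx) = μx y F1`
  have e1 : xm arm J y (F1.map Dx) = μx • xm arm J y F1 := by
    refine xm_smul_congr fun r => ?_
    rw [row_eq (P := P i) (C := μx • (F1ᵀ * J)) hJ (hy.row r) (by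
      intro p hp; rw [hμx p hp, Matrix.smul_mulVec]), transpose_smul, Matrix.mul_smul,
      transpose_mul, transpose_transpose, hJ, ← Matrix.mul_assoc]
  -- `x (F1.map Dy) = μy x F1`
  have e2 : xm arm J x (F1.map Dy) = μy • xm arm J x F1 := by
    refine xm_smul_congr fun r => ?_
    rw [row_eq (P := P i) (C := μy • (F1ᵀ * J)) hJ (hx.row r) (by
      intro p hp; rw [hμy p hp, Matrix.smul_mulVec]), transpose_smul, Matrix.mul_smul,
      transpose_mul, transpose_transpose, hJ, ← Matrix.mul_assoc]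
  -- `xᵀ (F1.map Dy) = - (by x)ᵀ F1`
  have e3 : xm arm J (fun r => (x r)ᵀ) (F1.map Dy) = - xm arm J (fun r => (by' * x r)ᵀ) F1 := by
    have : ∀ r, (x r)ᵀ * J * F1.map Dy = (-1 : K) • ((by' * x r)ᵀ * J * F1) := by
      intro r
      rw [row_eq (P := P j) (C := -(F1ᵀ * J * by')) hJ (by
        intro v; rw [transpose_transpose]; exact hx.col r v) (by
        intro p hp
        have a1 := congrArg (dv Dy) (F1_j hB j hp)
        rw [← hF1, dv_zero, dv_mulVec, tJ_map hB.data.J_const] at a1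
        have a2 := F1_j hB j (hby p hp)
        rw [← hF1, Matrix.mulVec_sub, sub_eq_zero] at a2
        rw [a2] at a1
        have a3 : (F1ᵀ * J * by') *ᵥ p = (F1ᵀ * J) *ᵥ (by' *ᵥ p) := (mulVec_mulVec _ _ _).symm
        rw [Matrix.neg_mulVec, a3]
        exact eq_neg_of_add_eq_zero_left a1), transpose_neg, transpose_mul, transpose_mul,
        transpose_transpose, hJ, transpose_mul, Matrix.mul_neg, neg_one_smul]
      simp only [Matrix.mul_assoc]
    unfold xm act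
    rw [← Finset.sum_neg_distrib]
    refine Finset.sum_congr rfl fun r _ => ?_
    have h := this r
    rw [neg_one_smul] at h
    rw [h, Matrix.neg_mul]
  -- `y b1ᵀ F1 = 0`
  have e4 : xm arm J (fun r => y r * b1ᵀ) F1 = 0 := by
    refine xm_zero_of fun r => ?_
    rw [row_eq (P := P j) (C := 0) hJ (by
      intro v
      rw [transpose_mul, transpose_transpose, ← mulVec_mulVec]
      exact (hb1 _ (hy.row r v)).1) (by
      intro p hp; rw [hF1, F1_j hB j hp, Matrix.zero_mulVec]), transpose_zero, Matrix.mul_zero]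
  -- `x J y = 0`
  have e5 : ∀ r, x r * J * y r = 0 := by
    intro r
    apply Matrix.toLin'.injective
    apply LinearMap.ext
    intro v
    simp only [toLin'_apply, Matrix.zero_mulVec]
    apply dotProduct_eq
    intro w
    rw [zero_dotProduct, dotProduct_comm]
    have := orth hB hij (hx.row r w) (hy.col r v)
    rw [mulVec_transpose, ← dotProduct_mulVec] at this
    simpa only [mulVec_mulVec, Matrix.mul_assoc] using this
  -- action of X on `y F1`
  have e6 : act arm (fun r => (x r - (x r)ᵀ) * J) (xm arm J y F1)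
      = - xm arm J (fun r => (x r)ᵀ * J * y r) F1 := by
    have a1 := xm_sub (arm := arm) (J := J) x (fun r => (x r)ᵀ) (xm arm J y F1)
    have a2 : xm arm J x (xm arm J y F1) = 0 := by
      rw [xm_xm]
      exact xm_zero_of fun r => by rw [e5 r, Matrix.zero_mul, Matrix.zero_mul]
    have a3 := xm_xm (arm := arm) (J := J) (fun r => (x r)ᵀ) y F1
    rw [a2, a3, zero_sub] at a1
    exact a1
  have e7 : act arm (fun r => (x r - (x r)ᵀ) * J) (F1.map Dy)
      = μy • xm arm J x F1 + xm arm J (fun r => (by' * x r)ᵀ) F1 := by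
    have a1 := xm_sub (arm := arm) (J := J) x (fun r => (x r)ᵀ) (F1.map Dy)
    rw [e2, e3, sub_neg_eq_add] at a1
    exact a1
  have e8 : act arm (fun r => (x r - (x r)ᵀ) * J) (F1.map Dy - xm arm J y F1)
      = act arm (fun r => (x r - (x r)ᵀ) * J) (F1.map Dy)
        - act arm (fun r => (x r - (x r)ᵀ) * J) (xm arm J y F1) :=
    xm_sub_right (fun r => x r - (x r)ᵀ) _ _
  rw [e8, e6, e7, e1] at h1
  have e9 : (F1.map Dy).map Dx ∈ ZW J W F P R := ZW_der hB mx.real mx.blk mx.dR mx.zF (my.F1_mem hB)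
  have e10 : xm arm J (fun r => (y r).map Dx) F1
      = xm arm J (fun r => (y r).map Dx - bx * y r - y r * b1ᵀ) F1
        + xm arm J (fun r => bx * y r) F1 := by
    have a1 := xm_sub (arm := arm) (J := J) (fun r => (y r).map Dx - bx * y r)
      (fun r => y r * b1ᵀ) F1
    have a2 := xm_sub (arm := arm) (J := J) (fun r => (y r).map Dx) (fun r => bx * y r) F1
    rw [e4, sub_zero, a2] at a1
    rw [a1]
    abel
  have e11 : xm arm J (fun r => bx * y r + (x r)ᵀ * J * y r + (by' * x r)ᵀ) F1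
      = xm arm J (fun r => bx * y r) F1 + xm arm J (fun r => (x r)ᵀ * J * y r) F1
        + xm arm J (fun r => (by' * x r)ᵀ) F1 := by
    rw [xm_add (fun r => bx * y r + (x r)ᵀ * J * y r), xm_add (fun r => bx * y r)]
  have e12 : xm arm J (fun r => bx * y r + (x r)ᵀ * J * y r + (by' * x r)ᵀ) F1
      + xm arm J (fun r => (y r).map Dx - bx * y r - y r * b1ᵀ) F1
      = -((F1.map Dy).map Dx - (xm arm J (fun r => (y r).map Dx) F1 + μx • xm arm J y F1)
          - (μy • xm arm J x F1 + xm arm J (fun r => (by' * x r)ᵀ) F1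
            - -xm arm J (fun r => (x r)ᵀ * J * y r) F1))
        + (F1.map Dy).map Dx - μx • xm arm J y F1 - μy • xm arm J x F1 := by
    rw [e11, e10]
    abel
  rw [e12]
  have hN : ∀ z ∈ N, z ∈ QR J N W F P R := fun z hz => Submodule.mem_sup_left hz
  have hZ : ∀ z ∈ ZW J W F P R, z ∈ QR J N W F P R := fun z hz => Submodule.mem_sup_right hz
  refine Submodule.sub_mem _ (Submodule.sub_mem _ (Submodule.add_mem _ (hN _ (N.neg_mem h1))
    (hZ _ e9)) (Submodule.smul_mem _ _ hqy)) (Submodule.smul_mem _ _ hqx)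

end

end Crest.Agent.R172.GR2
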