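import Crest.Agent.R172.GR1

/-!
Row 172 (S0260), TAME node (T0), arbitrary radical: SECOND derivative along two exact motions
(interface of helper880, note 16237).
-/

set_option linter.unusedSectionVars false
set_option autoImplicit false

namespace Crest.Agent.R172.GR2b

open Matrix FO GR

variable {ι : Type*} [Fintype ι] [DecidableEq ι] {δ : Type*} [Fintype δ] [DecidableEq δ]
variable {k K : Type*} [Field k] [Field K] [Algebra k K]
variable {arm : δ → Fin 3} {J : Matrix ι ι K} {B : Matrix δ δ K}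
  {N W : Submodule K (Matrix ι δ K)}

theorem map_mulVec_der {α β : Type*} [Fintype β] (d : Derivation k K K) (A : Matrix α β K)
    (v : β → K) :
    (fun a => d ((A *ᵥ v) a)) = (A.map d) *ᵥ v + A *ᵥ (fun b => d (v b)) := by
  ext a
  simp only [mulVec, dotProduct, map_sum, Derivation.leibniz, smul_eq_mul, Pi.add_apply,
    map_apply]
  rw [← Finset.sum_add_distrib]
  refine Finset.sum_congr rfl fun b _ => by ring

variable {n : Type*} [Fintype n] {F G : Matrix ι δ K} {P : n → Submodule K (ι → K)}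
  {R : Submodule K (ι → K)} {lam : n → K}

theorem F1J (hB : Blk k arm J B N W F G P R lam) (i j : n) {p : ι → K} (hp : p ∈ P i) :
    ((G - lam j • F)ᵀ * J) *ᵥ p = (lam i - lam j) • ((Fᵀ * J) *ᵥ p) := by
  rw [transpose_sub, transpose_smul, Matrix.sub_mul, Matrix.smul_mul, sub_mulVec, smul_mulVec,
    hB.eig i p hp, sub_smul]

theorem mem1 (hB : Blk k arm J B N W F G P R lam) (j : n) : G - lam j • F ∈ N ⊓ W :=
  (N ⊓ W).sub_mem hB.memG ((N ⊓ W).smul_mem _ hB.memF)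

theorem Phi1 (hB : Blk k arm J B N W F G P R lam) (i j : n) (r : Fin 3) {p : ι → K}
    (hp : p ∈ P i) : Phi arm J B (G - lam j • F) r *ᵥ p =
      (lam i - lam j) ^ 2 • (Phi arm J B F r *ᵥ p) := by
  have e : ∀ A C : Matrix ι δ K, (M arm B r A C * J) *ᵥ p =
      (A * E K arm r * B) *ᵥ ((Cᵀ * J) *ᵥ p) := fun A C => by
    rw [mulVec_mulVec, M]; simp only [Matrix.mul_assoc]
  have e1 : Phi arm J B (G - lam j • F) r *ᵥ p =
      (M arm B r (G - lam j • F) (G - lam j • F) * J) *ᵥ p := rfl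
  have e2 : Phi arm J B F r *ᵥ p = (M arm B r F F * J) *ᵥ p := rfl
  rw [e1, e2, e, F1J hB i j hp, mulVec_smul, ← e, hB.data.symm_arm (mem1 hB j) hB.memF r, e,
    F1J hB i j hp, mulVec_smul, ← e, smul_smul, pow_two]

/-- the block pair -/
theorem bp (hB : Blk k arm J B N W F G P R lam) {i j : n} (hij : i ≠ j) :
    BP arm J B N W (G - lam j • F) (G - lam i • F) (P i) (P j) := by
  have h1 : lam i - lam j ≠ 0 := sub_ne_zero.2 (hB.ne i j hij)
  have h2 : lam j - lam i ≠ 0 := sub_ne_zero.2 (hB.ne j i hij.symm)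
  refine ⟨mem1 hB j, mem1 hB i, fun p hp => ?_, fun p hp => ?_, fun p hp => ?_, fun p hp => ?_,
    fun r p hp => ?_, fun r p hp => ?_⟩
  · rw [F1J hB j j hp, sub_self, zero_smul]
  · rw [F1J hB i i hp, sub_self, zero_smul]
  · obtain ⟨v, hv, e⟩ := hB.pf i p hp
    refine ⟨fun r => ((lam i - lam j) ^ 2)⁻¹ • v r, fun r => (P i).smul_mem _ (hv r), ?_⟩
    refine e.trans (Finset.sum_congr rfl fun r _ => ?_)
    rw [mulVec_smul, Phi1 hB i j r (hv r), smul_smul, inv_mul_cancel₀ (pow_ne_zero _ h1),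
      one_smul]
  · obtain ⟨v, hv, e⟩ := hB.pf j p hp
    refine ⟨fun r => ((lam j - lam i) ^ 2)⁻¹ • v r, fun r => (P j).smul_mem _ (hv r), ?_⟩
    refine e.trans (Finset.sum_congr rfl fun r _ => ?_)
    rw [mulVec_smul, Phi1 hB j i r (hv r), smul_smul, inv_mul_cancel₀ (pow_ne_zero _ h2),
      one_smul]
  · rw [Phi1 hB i j r hp]; exact (P i).smul_mem _ (hB.st i r p hp)
  · rw [Phi1 hB j i r hp]; exact (P j).smul_mem _ (hB.st j r p hp)

/-- `P i ⊥ P j` -/
theorem orth (hB : Blk k arm J B N W F G P R lam) {i j : n} (hij : i ≠ j) {p q : ι → K}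
    (hp : p ∈ P i) (hq : q ∈ P j) : p ⬝ᵥ (J *ᵥ q) = 0 := by
  obtain ⟨u, hu, -⟩ := (bp hB hij).lift1 hB.data hp
  have h := (bp hB hij).k1 q hq
  rw [← mulVec_mulVec] at h
  rw [← hu, dotProduct_comm, dotProduct_mulVec, ← mulVec_transpose, h, zero_dotProduct]

theorem orth_mat (hB : Blk k arm J B N W F G P R lam) {i j : n} (hij : i ≠ j)
    {x y : Fin 3 → Matrix ι ι K} (hx : Fam (P i) (P j) x) (hy : Fam (P i) (P j) y) (r : Fin 3) :
    x r * J * y r = 0 := by
  refine mat_eq_zero _ fun v => ?_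
  ext a
  have h := orth hB hij (hx.r r (Pi.single a 1)) (hy.l r v)
  rw [Matrix.mul_assoc, ← mulVec_mulVec, ← mulVec_mulVec, Pi.zero_apply, ← h, mulVec_single_one]
  rfl

/-- decomposition of `A *ᵥ ρ` for `ρ ∈ R` -/
theorem memR_of (hB : Blk k arm J B N W F G P R lam) {z : Matrix ι δ K}
    (hz : z ∈ ZW J W F P R) {ρ : ι → K} (hρ : ρ ∈ R) :
    ∃ ρ' ∈ R, (zᵀ * J) *ᵥ ρ = (Fᵀ * J) *ᵥ ρ' := by
  obtain ⟨hzW, μ, hμ⟩ := hz
  obtain ⟨v, hv, rfl⟩ := hB.Rdec ρ hρ
  choose w hw hw' using fun l => hμ l (v l) (hv l).1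
  refine ⟨∑ l, (μ l • v l + w l), R.sum_mem fun l _ => R.add_mem (R.smul_mem _ (hv l).2) (hw l),
    ?_⟩
  rw [mulVec_sum, mulVec_sum]
  refine Finset.sum_congr rfl fun l _ => ?_
  rw [hw' l, mulVec_add, mulVec_smul]

theorem memR_G (hB : Blk k arm J B N W F G P R lam) {ρ : ι → K} (hρ : ρ ∈ R) :
    ∃ ρ' ∈ R, (Gᵀ * J) *ᵥ ρ = (Fᵀ * J) *ᵥ ρ' := by
  obtain ⟨v, hv, rfl⟩ := hB.Rdec ρ hρ
  refine ⟨∑ l, lam l • v l, R.sum_mem fun l _ => R.smul_mem _ (hv l).2, ?_⟩
  rw [mulVec_sum, mulVec_sum]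
  refine Finset.sum_congr rfl fun l _ => ?_
  rw [hB.eig l _ (hv l).1, mulVec_smul]

/-- derivative of `zᵀ J p` -/
theorem der_zJp (hB : Blk k arm J B N W F G P R lam) (D : Derivation k K K) (z : Matrix ι δ K)
    (p : ι → K) : (fun a => D (((zᵀ * J) *ᵥ p) a)) =
      ((z.map D)ᵀ * J) *ᵥ p + (zᵀ * J) *ᵥ (fun a => D (p a)) := by
  rw [map_mulVec_der, map_mul_der, hB.data.J_const D, Matrix.mul_zero, add_zero,
    map_transpose_der]

theorem map_smul_vec (D : Derivation k K K) (c : K) {α : Type*} (v : α → K) :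
    (fun a => D ((c • v) a)) = D c • v + c • (fun a => D (v a)) := by
  ext a
  simp only [Pi.smul_apply, smul_eq_mul, Derivation.leibniz, Pi.add_apply]
  ring

theorem map_add_vec (D : Derivation k K K) {α : Type*} (v w : α → K) :
    (fun a => D ((v + w) a)) = (fun a => D (v a)) + (fun a => D (w a)) := by
  ext a
  simp only [Pi.add_apply, map_add]

/-- motion properties used here -/
structure Mv (arm : δ → Fin 3) (J : Matrix ι ι K)
    (N W : Submodule K (Matrix ι δ K)) (F : Matrix ι δ K) (P : n → Submodule K (ι → K))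
    (R : Submodule K (ι → K)) (X : Fin 3 → Matrix ι ι K) (D : Derivation k K K) : Prop where
  real : Realises arm N W X 0 D
  blk : ∀ m, ∀ p ∈ P m, (fun a => D (p a)) ∈ P m ⊔ R
  dR : ∀ ρ ∈ R, (fun a => D (ρ a)) ∈ R
  zF : F.map D ∈ ZW J W F P R

theorem memW_der {X : Fin 3 → Matrix ι ι K} {D : Derivation k K K}
    (h : Realises arm N W X 0 D) {z : Matrix ι δ K} (hz : z ∈ W) : z.map D ∈ W := by
  have := h.onW z hz
  rwa [transpose_zero, Matrix.mul_zero, sub_zero] at this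

/-- `ZW` is stable -/
theorem ZW_der (hB : Blk k arm J B N W F G P R lam) {X : Fin 3 → Matrix ι ι K}
    {D : Derivation k K K} (hM : Mv arm J N W F P R X D) {z : Matrix ι δ K}
    (hz : z ∈ ZW J W F P R) : z.map D ∈ ZW J W F P R := by
  have hz0 := hz
  obtain ⟨hzW, μ, hμ⟩ := hz
  obtain ⟨hfW, ν, hν⟩ := hM.zF
  refine ⟨memW_der hM.real hzW, fun m => D (μ m) + μ m * ν m, fun m p hp => ?_⟩
  obtain ⟨ρ, hρ, e⟩ := hμ m p hp
  obtain ⟨p', hp', ρ', hρ', e'⟩ := Submodule.mem_sup.1 (hM.blk m p hp)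
  obtain ⟨σ, hσ, es⟩ := hμ m p' hp'
  obtain ⟨σ', hσ', es'⟩ := memR_of hB hz0 hρ'
  obtain ⟨τ, hτ, et⟩ := hν m p hp
  obtain ⟨τ', hτ', et'⟩ := memR_of hB hM.zF hρ
  have h1 := der_zJp hB D z p
  have h2 : (fun a => D (((zᵀ * J) *ᵥ p) a)) =
      (fun a => D ((μ m • ((Fᵀ * J) *ᵥ p) + (Fᵀ * J) *ᵥ ρ) a)) := by rw [e]
  rw [map_add_vec, map_smul_vec, der_zJp hB D F p, der_zJp hB D F ρ, ← e', et, et',
    mulVec_add] at h2
  rw [← e', mulVec_add, es, es'] at h1
  rw [h1] at h2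
  refine ⟨μ m • τ + μ m • ρ' + τ' + (fun a => D (ρ a)) - σ - σ', ?_, ?_⟩
  · refine R.sub_mem (R.sub_mem (R.add_mem (R.add_mem (R.add_mem (R.smul_mem _ hτ)
      (R.smul_mem _ hρ')) hτ') (hM.dR ρ hρ)) hσ) hσ'
  · have h3 : ((z.map D)ᵀ * J) *ᵥ p = (D (μ m) • (Fᵀ * J) *ᵥ p +
        μ m • ((ν m • (Fᵀ * J) *ᵥ p + (Fᵀ * J) *ᵥ τ) +
          ((Fᵀ * J) *ᵥ p' + (Fᵀ * J) *ᵥ ρ')) +
        ((Fᵀ * J) *ᵥ τ' + (Fᵀ * J) *ᵥ (fun a => D (ρ a)))) -
        (μ m • (Fᵀ * J) *ᵥ p' + (Fᵀ * J) *ᵥ σ + (Fᵀ * J) *ᵥ σ') := by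
      rw [← h2]; abel
    rw [h3]
    simp only [mulVec_add, mulVec_sub, mulVec_smul, smul_add, add_smul, smul_smul]
    abel

theorem F_mem (hB : Blk k arm J B N W F G P R lam) : F ∈ ZW J W F P R :=
  ⟨hB.memF.2, fun _ => 1, fun m p _ => ⟨0, R.zero_mem, by rw [mulVec_zero, add_zero, one_smul]⟩⟩

theorem G_mem (hB : Blk k arm J B N W F G P R lam) : G ∈ ZW J W F P R :=
  ⟨hB.memG.2, lam, fun m p hp => ⟨0, R.zero_mem, by rw [mulVec_zero, add_zero, hB.eig m p hp]⟩⟩

theorem F1_mem (hB : Blk k arm J B N W F G P R lam) (j : n) :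
    G - lam j • F ∈ ZW J W F P R :=
  (ZW J W F P R).sub_mem (G_mem hB) ((ZW J W F P R).smul_mem _ (F_mem hB))

variable {i j : n} {c c' : K} {x' y : Fin 3 → Matrix ι ι K} {D' Dy : Derivation k K K}

theorem _root_.Crest.Agent.R172.GR.Mot.mv {x : Fin 3 → Matrix ι ι K} {D : Derivation k K K}
    (h : Mot k arm J B N W F (G - lam j • F) (G - lam i • F) P R i j c x D) :
    Mv arm J N W F P R (fun r => (x r - (x r)ᵀ) * J) D := ⟨h.real, h.blk, h.dR, h.zF⟩

/-- `F₁ D ∈ ZW` -/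
theorem F1D_mem (hB : Blk k arm J B N W F G P R lam) {X : Fin 3 → Matrix ι ι K}
    {D : Derivation k K K} (hM : Mv arm J N W F P R X D) (j : n) :
    (G - lam j • F).map D ∈ ZW J W F P R := ZW_der hB hM (F1_mem hB j)

/-- `x F₁ - dF₁ ∈ N` -/
theorem nmem (hB : Blk k arm J B N W F G P R lam) (hij : i ≠ j) {x : Fin 3 → Matrix ι ι K}
    {D : Derivation k K K} (hx : Fam (P i) (P j) x)
    (hM : Mv arm J N W F P R (fun r => (x r - (x r)ᵀ) * J) D) :
    xm arm J x (G - lam j • F) - (G - lam j • F).map D ∈ N := by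
  have h := hM.real.onN _ (mem1 hB j).1
  have e : act arm (fun r => (x r - (x r)ᵀ) * J) (G - lam j • F) = xm arm J x (G - lam j • F) := by
    have e1 : (fun r => (x r - (x r)ᵀ) * J) = fun r => x r * J - (x r)ᵀ * J := by
      funext r; rw [Matrix.sub_mul]
    rw [e1, act_subl]
    have e2 : act arm (fun r => (x r)ᵀ * J) (G - lam j • F) = 0 :=
      act_congr0 fun r => (bp hB hij).xtF1 hB.data hx r
    rw [e2, sub_zero]
    rfl
  rw [e] at h
  have := N.neg_mem h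
  rwa [neg_sub] at this

/-- first derivative -/
theorem first (hB : Blk k arm J B N W F G P R lam) (hij : i ≠ j) {x : Fin 3 → Matrix ι ι K}
    {D : Derivation k K K} (hx : Fam (P i) (P j) x)
    (hM : Mv arm J N W F P R (fun r => (x r - (x r)ᵀ) * J) D) :
    xm arm J x (G - lam j • F) ∈ QR J N W F P R := by
  have h := nmem hB hij hx hM
  have h2 := F1D_mem hB hM j
  rw [← sub_add_cancel (xm arm J x (G - lam j • F)) ((G - lam j • F).map D)]
  exact Submodule.add_mem_sup h h2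

/-- `x_r J (F₁ D) = μ x_r J F₁` -/
theorem row_mat (hB : Blk k arm J B N W F G P R lam) {x : Fin 3 → Matrix ι ι K}
    (hx : Fam (P i) (P j) x) {Z : Matrix ι δ K} {μ : K}
    (hZ : ∀ p ∈ P i, (Zᵀ * J) *ᵥ p = μ • (((G - lam j • F)ᵀ * J) *ᵥ p)) (r : Fin 3) :
    x r * J * Z = μ • (x r * J * (G - lam j • F)) := by
  have h : Zᵀ * J * (x r)ᵀ = μ • ((G - lam j • F)ᵀ * J * (x r)ᵀ) := by
    rw [← sub_eq_zero]
    refine mat_eq_zero _ fun v => ?_
    rw [sub_mulVec, smul_mulVec, ← mulVec_mulVec v (Zᵀ * J),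
      ← mulVec_mulVec v ((G - lam j • F)ᵀ * J), hZ _ (hx.r r v), sub_self]
  have h2 := congrArg transpose h
  rw [transpose_smul, transpose_mul, transpose_mul, transpose_mul, transpose_mul,
    transpose_transpose, transpose_transpose, transpose_transpose, hB.data.J_symm,
    ← Matrix.mul_assoc, ← Matrix.mul_assoc] at h2
  exact h2

/-- the new family -/
def y2 (D' : Derivation k K K) (b' b1 : Matrix ι ι K) (y : Fin 3 → Matrix ι ι K) :
    Fin 3 → Matrix ι ι K := fun r => (y r).map D' - b' * y r - y r * b1ᵀ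

theorem map_mulVec' (D : Derivation k K K) (A : Matrix ι ι K) (v : ι → K) :
    (A.map D) *ᵥ v = (fun a => D ((A *ᵥ v) a)) - A *ᵥ (fun b => D (v b)) := by
  rw [map_mulVec_der, add_sub_cancel_right]

theorem fam2 (hy : Fam (P i) (P j) y) {b' b1 : Matrix ι ι K}
    (hb' : ∀ p ∈ P j, b' *ᵥ p ∈ P i ⊓ R ∧ (fun a => D' (p a)) - b' *ᵥ p ∈ P j)
    (hb1 : ∀ p ∈ P i, b1 *ᵥ p ∈ P j ⊓ R ∧ (fun a => D' (p a)) - b1 *ᵥ p ∈ P i) :
    Fam (P i) (P j) (y2 D' b' b1 y) := by
  refine ⟨fun r v => ?_, fun r v => ?_⟩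
  · have h := (hb' _ (hy.l r v)).2
    have e : y2 D' b' b1 y r *ᵥ v = ((fun a => D' ((y r *ᵥ v) a)) - b' *ᵥ (y r *ᵥ v)) -
        y r *ᵥ (fun b => D' (v b)) - y r *ᵥ (b1ᵀ *ᵥ v) := by
      rw [y2, sub_mulVec, sub_mulVec, map_mulVec', mulVec_mulVec, mulVec_mulVec]
      abel
    rw [e]
    exact (P j).sub_mem ((P j).sub_mem h (hy.l r _)) (hy.l r _)
  · have h := (hb1 _ (hy.r r v)).2
    have e : (y2 D' b' b1 y r)ᵀ *ᵥ v =
        ((fun a => D' (((y r)ᵀ *ᵥ v) a)) - b1 *ᵥ ((y r)ᵀ *ᵥ v)) -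
        (y r)ᵀ *ᵥ (fun b => D' (v b)) - (y r)ᵀ *ᵥ (b'ᵀ *ᵥ v) := by
      rw [y2, transpose_sub, transpose_sub, ← map_transpose_der, transpose_mul, transpose_mul,
        transpose_transpose, sub_mulVec, sub_mulVec, map_mulVec', mulVec_mulVec, mulVec_mulVec]
      abel
    rw [e]
    exact (P i).sub_mem ((P i).sub_mem h (hy.r r _)) (hy.r r _)

theorem xm_addl (x y : Fin 3 → Matrix ι ι K) (F : Matrix ι δ K) :
    xm arm J (fun r => x r + y r) F = xm arm J x F + xm arm J y F := by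
  unfold xm act
  rw [← Finset.sum_add_distrib]
  refine Finset.sum_congr rfl fun r _ => ?_
  beta_reduce
  rw [Matrix.add_mul, Matrix.add_mul, Matrix.add_mul]

theorem xm_smulr' (x : Fin 3 → Matrix ι ι K) {Z F : Matrix ι δ K} {μ : K}
    (h : ∀ r, x r * J * Z = μ • (x r * J * F)) : xm arm J x Z = μ • xm arm J x F := by
  unfold xm act
  rw [Finset.smul_sum]
  exact Finset.sum_congr rfl fun r _ => by rw [h r, Matrix.smul_mul]

theorem xm_der (hD : Data k arm J B N W) (D : Derivation k K K) (x : Fin 3 → Matrix ι ι K)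
    (F : Matrix ι δ K) : (xm arm J x F).map D =
      xm arm J (fun r => (x r).map D) F + xm arm J x (F.map D) := by
  unfold xm act
  rw [← Finset.sum_add_distrib]
  have : ((∑ s, x s * J * F * E K arm s).map D) = ∑ s, (x s * J * F * E K arm s).map D := by
    ext a b
    simp only [map_apply, Matrix.sum_apply, map_sum]
  rw [this]
  refine Finset.sum_congr rfl fun r _ => ?_
  rw [map_mul_der, map_mul_der, map_mul_der, E_map_der, hD.J_const D]
  simp only [Matrix.mul_zero, add_zero, Matrix.add_mul]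

theorem act_xm (X y : Fin 3 → Matrix ι ι K) (F : Matrix ι δ K) :
    act arm X (xm arm J y F) = act arm (fun r => X r * y r * J) F := by
  unfold act
  refine Finset.sum_congr rfl fun r _ => ?_
  have h := act_mul_E arm (fun r => y r * J) F r
  unfold xm
  rw [Matrix.mul_assoc (X r), h]
  simp only [Matrix.mul_assoc]

/-- **Second derivative.** -/
theorem second (hB : Blk k arm J B N W F G P R lam) (hij : i ≠ j)
    (hx : Fam (P i) (P j) x') (hy : Fam (P i) (P j) y)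
    (hMx : Mv arm J N W F P R (fun r => (x' r - (x' r)ᵀ) * J) D')
    (hMy : Mv arm J N W F P R (fun r => (y r - (y r)ᵀ) * J) Dy)
    (rowx : ∃ μ : K, ∀ p ∈ P i,
      (((G - lam j • F).map D')ᵀ * J) *ᵥ p = μ • (((G - lam j • F)ᵀ * J) *ᵥ p))
    (rowy : ∃ μ : K, ∀ p ∈ P i,
      (((G - lam j • F).map Dy)ᵀ * J) *ᵥ p = μ • (((G - lam j • F)ᵀ * J) *ᵥ p))
    {b' b b1 : Matrix ι ι K}
    (hb : ∀ p ∈ P j, b *ᵥ p ∈ P i ⊓ R ∧ (fun a => Dy (p a)) - b *ᵥ p ∈ P j)
    (hb1 : ∀ p ∈ P i, b1 *ᵥ p ∈ P j ⊓ R ∧ (fun a => D' (p a)) - b1 *ᵥ p ∈ P i) :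
    act arm (fun r => (b' * y r + (x' r)ᵀ * J * y r + (b * x' r)ᵀ) * J) (G - lam j • F) +
      xm arm J (y2 D' b' b1 y) (G - lam j • F) ∈ QR J N W F P R := by
  set F1 := G - lam j • F with hF1
  obtain ⟨μx, hμx⟩ := rowx
  obtain ⟨μy, hμy⟩ := rowy
  have hn := nmem hB hij hy hMy
  have hn' := hMx.real.onN _ hn
  have hfx := first hB hij hx hMx
  have hfy := first hB hij hy hMy
  have hzz := ZW_der hB hMx (F1D_mem hB hMy j)
  rw [← hF1] at hn hn' hfx hfy hzz
  -- the derivative of `y F₁`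
  have e1 : (xm arm J y F1).map D' = xm arm J (y2 D' b' b1 y) F1 +
      xm arm J (fun r => b' * y r) F1 + μx • xm arm J y F1 := by
    rw [xm_der hB.data, xm_smulr' y (row_mat hB hy hμx)]
    congr 1
    have e : (fun r => (y r).map D') = fun r => (y2 D' b' b1 y r + b' * y r) + y r * b1ᵀ := by
      funext r
      rw [y2]; abel
    rw [e, xm_addl, xm_addl]
    have e0 : xm arm J (fun r => y r * b1ᵀ) F1 = 0 := by
      refine act_congr0 fun r => ?_
      have h : F1ᵀ * J * (b1 * (y r)ᵀ) = 0 := by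
        refine mat_eq_zero _ fun v => ?_
        rw [← mulVec_mulVec v (F1ᵀ * J), ← mulVec_mulVec v b1]
        exact (bp hB hij).k1 _ (hb1 _ (hy.r r v)).1.1
      have h2 := congrArg transpose h
      rw [transpose_mul, transpose_mul, transpose_mul, transpose_transpose, transpose_transpose,
        transpose_zero, hB.data.J_symm, ← Matrix.mul_assoc] at h2
      exact h2
    rw [e0, add_zero]
  have e2 : act arm (fun r => (x' r - (x' r)ᵀ) * J) (xm arm J y F1) =
      -(xm arm J (fun r => (x' r)ᵀ * J * y r) F1) := by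
    rw [act_xm, ← zero_sub]
    have : (fun r => (x' r - (x' r)ᵀ) * J * y r * J) =
        fun r => 0 - ((x' r)ᵀ * J * y r) * J := by
      funext r
      rw [Matrix.sub_mul, Matrix.sub_mul, orth_mat hB hij hx hy r, Matrix.sub_mul,
        Matrix.zero_mul]
    rw [this, act_subl]
    congr 1
    exact act_zero arm F1
  have e3 : act arm (fun r => (x' r - (x' r)ᵀ) * J) (F1.map Dy) =
      μy • xm arm J x' F1 + xm arm J (fun r => (b * x' r)ᵀ) F1 := by
    have h1 : (fun r => (x' r - (x' r)ᵀ) * J) = fun r => x' r * J - (x' r)ᵀ * J := by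
      funext r; rw [Matrix.sub_mul]
    rw [h1, act_subl, sub_eq_add_neg]
    congr 1
    · exact xm_smulr' x' (row_mat hB hx hμy)
    · unfold xm act
      rw [← Finset.sum_neg_distrib]
      refine Finset.sum_congr rfl fun r _ => ?_
      rw [← Matrix.neg_mul]
      congr 1
      have h : (F1.map Dy)ᵀ * J * x' r = -(F1ᵀ * J * (b * x' r)) := by
        rw [eq_neg_iff_add_eq_zero]
        refine mat_eq_zero _ fun v => ?_
        rw [add_mulVec, ← mulVec_mulVec v ((F1.map Dy)ᵀ * J), ← mulVec_mulVec v (F1ᵀ * J),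
          ← mulVec_mulVec v b]
        set p := x' r *ᵥ v with hp
        have hpj : p ∈ P j := hx.l r v
        have h0 : (F1ᵀ * J) *ᵥ p = 0 := (bp hB hij).k1 p hpj
        have h1 := der_zJp hB Dy F1 p
        rw [h0] at h1
        have h2 : (fun a => Dy ((0 : δ → K) a)) = 0 := by
          funext a; exact map_zero Dy
        rw [h2] at h1
        have h3 : (F1ᵀ * J) *ᵥ (fun a => Dy (p a)) = (F1ᵀ * J) *ᵥ (b *ᵥ p) := by
          rw [← sub_eq_zero, ← mulVec_sub]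
          exact (bp hB hij).k1 _ (hb p hpj).2
        rw [h3] at h1
        exact h1.symm
      have h2 := congrArg transpose h
      rw [transpose_neg, transpose_mul, transpose_mul, transpose_transpose, hB.data.J_symm,
        transpose_mul (F1ᵀ * J) (b * x' r), transpose_mul F1ᵀ J, transpose_transpose,
        hB.data.J_symm, ← Matrix.mul_assoc, ← Matrix.mul_assoc] at h2
      beta_reduce
      rw [h2, neg_neg]
  have e4 : (xm arm J y F1 - F1.map Dy).map D' -
      act arm (fun r => (x' r - (x' r)ᵀ) * J) (xm arm J y F1 - F1.map Dy) =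
      (act arm (fun r => (b' * y r + (x' r)ᵀ * J * y r + (b * x' r)ᵀ) * J) F1 +
        xm arm J (y2 D' b' b1 y) F1) +
      (μx • xm arm J y F1 + μy • xm arm J x' F1 - (F1.map Dy).map D') := by
    have h5 : act arm (fun r => (x' r - (x' r)ᵀ) * J) (xm arm J y F1 - F1.map Dy) =
        act arm (fun r => (x' r - (x' r)ᵀ) * J) (xm arm J y F1) -
        act arm (fun r => (x' r - (x' r)ᵀ) * J) (F1.map Dy) := by
      unfold act
      rw [← Finset.sum_sub_distrib]
      exact Finset.sum_congr rfl fun r _ => by rw [Matrix.mul_sub, Matrix.sub_mul]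
    have h6 : act arm (fun r => (b' * y r + (x' r)ᵀ * J * y r + (b * x' r)ᵀ) * J) F1 =
        xm arm J (fun r => b' * y r) F1 + xm arm J (fun r => (x' r)ᵀ * J * y r) F1 +
          xm arm J (fun r => (b * x' r)ᵀ) F1 := by
      rw [← xm_addl, ← xm_addl]; rfl
    rw [h5, map_sub_der, e1, e2, e3, h6]
    abel
  rw [e4] at hn'
  have h7 : (μx • xm arm J y F1 + μy • xm arm J x' F1 - (F1.map Dy).map D') ∈
      QR J N W F P R :=
    (QR J N W F P R).sub_mem ((QR J N W F P R).add_mem ((QR J N W F P R).smul_mem _ hfy)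
      ((QR J N W F P R).smul_mem _ hfx)) (Submodule.mem_sup_right hzz)
  have h8 := (QR J N W F P R).sub_mem (Submodule.mem_sup_left (T := ZW J W F P R) hn') h7
  rwa [add_sub_cancel_right] at h8

/-- **GR2** in the form of note 16237 -/
theorem GR2 (hB : Blk k arm J B N W F G P R lam) (hij : i ≠ j)
    (hx : Fam (P i) (P j) x') (hy : Fam (P i) (P j) y)
    (hMx : Mot k arm J B N W F (G - lam j • F) (G - lam i • F) P R i j c' x' D')
    (hMy : Mot k arm J B N W F (G - lam j • F) (G - lam i • F) P R i j c y Dy)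
    {b' b b1 : Matrix ι ι K}
    (hb' : ∀ p ∈ P j, b' *ᵥ p ∈ P i ⊓ R ∧ (fun a => D' (p a)) - b' *ᵥ p ∈ P j)
    (hb : ∀ p ∈ P j, b *ᵥ p ∈ P i ⊓ R ∧ (fun a => Dy (p a)) - b *ᵥ p ∈ P j)
    (hb1 : ∀ p ∈ P i, b1 *ᵥ p ∈ P j ⊓ R ∧ (fun a => D' (p a)) - b1 *ᵥ p ∈ P i) :
    Fam (P i) (P j) (y2 D' b' b1 y) ∧
      act arm (fun r => (b' * y r + (x' r)ᵀ * J * y r + (b * x' r)ᵀ) * J) (G - lam j • F) +
        xm arm J (y2 D' b' b1 y) (G - lam j • F) ∈ QR J N W F P R :=
  ⟨fam2 hy hb' hb1, second hB hij hx hy hMx.mv hMy.mv hMx.row hMy.row hb hb1⟩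

/-- first derivative, from `Mot` -/
theorem first' (hB : Blk k arm J B N W F G P R lam) (hij : i ≠ j)
    (hx : Fam (P i) (P j) x')
    (hMx : Mot k arm J B N W F (G - lam j • F) (G - lam i • F) P R i j c' x' D') :
    xm arm J x' (G - lam j • F) ∈ QR J N W F P R := first hB hij hx hMx.mv

end Crest.Agent.R172.GR2b
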