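import Crest.Agent.R172.GR1
import Crest.Agent.R172.GR2

/-!
Row 172 (S0260), node GR2: the second derivative, in the notation of `GR1.lean`.
-/

set_option linter.unusedSectionVars false

namespace Crest.Agent.R172.GR

open Matrix Crest.Agent.R172.FO

variable {ι : Type*} [Fintype ι] [DecidableEq ι] {δ : Type*} [Fintype δ] [DecidableEq δ]
variable {n : Type*} [Fintype n]
variable {k K : Type*} [Field k] [Field K] [Algebra k K]
variable {arm : δ → Fin 3} {J : Matrix ι ι K} {B : Matrix δ δ K}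
  {N W : Submodule K (Matrix ι δ K)}
variable {F G F1 F2 : Matrix ι δ K} {P : n → Submodule K (ι → K)} {R : Submodule K (ι → K)}
  {lam : n → K} {P1 P2 : Submodule K (ι → K)} {c c' : K}

theorem Blk.to2 (h : Blk k arm J B N W F G P R lam) : GR2.Blk k arm J B N W F G P R lam :=
  ⟨h.data, h.memF, h.memG, h.ne, h.eig, h.st, h.pf, h.Rdec, h.rad, h.Rmax⟩

theorem Fam.to2 {x : Fin 3 → Matrix ι ι K} (h : Fam P1 P2 x) : GR2.Fam P1 P2 x := ⟨h.l, h.r⟩

theorem Fam.of2 {x : Fin 3 → Matrix ι ι K} (h : GR2.Fam P1 P2 x) : Fam P1 P2 x :=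
  ⟨h.col, h.row⟩

theorem Mot.to2 {i j : n} {x : Fin 3 → Matrix ι ι K} {D : Derivation k K K}
    (m : Mot k arm J B N W F F1 F2 P R i j c x D) :
    GR2.Mot arm J B N W F F1 P R i j x D :=
  ⟨m.real, m.row, m.blk, m.dR, m.zF⟩

theorem Mot.ZW_der (hB : Blk k arm J B N W F G P R lam) {i j : n} {x : Fin 3 → Matrix ι ι K}
    {D : Derivation k K K} (m : Mot k arm J B N W F F1 F2 P R i j c x D)
    {z : Matrix ι δ K} (hz : z ∈ ZW J W F P R) : z.map D ∈ ZW J W F P R := by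
  classical
  exact GR2.ZW_der hB.to2 m.real m.blk m.dR m.zF hz

theorem Mot.F1_mem (hB : Blk k arm J B N W F G P R lam) {i j : n} {x : Fin 3 → Matrix ι ι K}
    {D : Derivation k K K} (m : Mot k arm J B N W F (G - lam j • F) F2 P R i j c x D) :
    (G - lam j • F).map D ∈ ZW J W F P R := by
  classical
  exact m.to2.F1_mem hB.to2

/-- **first derivative** -/
theorem Mot.first (hB : Blk k arm J B N W F G P R lam) {i j : n} {x : Fin 3 → Matrix ι ι K}
    (hx : Fam (P i) (P j) x)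
    {D : Derivation k K K} (m : Mot k arm J B N W F (G - lam j • F) F2 P R i j c x D) :
    xm arm J x (G - lam j • F) ∈ QR J N W F P R := by
  classical
  exact (m.to2.first hB.to2 hx.to2).2

theorem fam_der {i j : n} {y : Fin 3 → Matrix ι ι K} (hy : Fam (P i) (P j) y)
    {D : Derivation k K K} {b b1 : Matrix ι ι K}
    (hb : ∀ p ∈ P j, (fun a => D (p a)) - b *ᵥ p ∈ P j)
    (hb1 : ∀ p ∈ P i, (fun a => D (p a)) - b1 *ᵥ p ∈ P i) :
    Fam (P i) (P j) (fun r => (y r).map D - b * y r - y r * b1ᵀ) := by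
  classical
  exact Fam.of2 (GR2.fam_der hy.to2 hb hb1)

/-- **second derivative**: `y'' r = (y r).map Dx - bx * y r - y r * b1ᵀ` -/
theorem Mot.second (hB : Blk k arm J B N W F G P R lam) {i j : n} (hij : i ≠ j)
    {x y : Fin 3 → Matrix ι ι K} (hx : Fam (P i) (P j) x) (hy : Fam (P i) (P j) y)
    {Dx Dy : Derivation k K K} {F2' : Matrix ι δ K}
    (mx : Mot k arm J B N W F (G - lam j • F) F2 P R i j c x Dx)
    (my : Mot k arm J B N W F (G - lam j • F) F2' P R i j c' y Dy)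
    {bx by' b1 : Matrix ι ι K}
    (hbx : ∀ p ∈ P j, (fun a => Dx (p a)) - bx *ᵥ p ∈ P j)
    (hby : ∀ p ∈ P j, (fun a => Dy (p a)) - by' *ᵥ p ∈ P j)
    (hb1 : ∀ p ∈ P i, b1 *ᵥ p ∈ P j ∧ (fun a => Dx (p a)) - b1 *ᵥ p ∈ P i) :
    xm arm J (fun r => bx * y r + (x r)ᵀ * J * y r + (by' * x r)ᵀ) (G - lam j • F)
      + xm arm J (fun r => (y r).map Dx - bx * y r - y r * b1ᵀ) (G - lam j • F)
      ∈ QR J N W F P R := by
  classical
  exact (GR2.second hB.to2 hij hx.to2 hy.to2 mx.to2 my.to2 hbx hby hb1).2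

end Crest.Agent.R172.GR
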