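import Crest.Agent.R172.GR1

/-!
Row 172 (S0260), TAME node (T0), arbitrary radical: the space `𝓕 r` of filtered and radical tensors is
stable under `y ↦ y'' = D y - b' y - y b1ᵀ` for a motion `D` (880's GR3, note 16237).
-/

set_option linter.unusedSectionVars false
set_option autoImplicit false

namespace Crest.Agent.R172.GR3

open Matrix FO GR

variable {ι : Type*} [Fintype ι] [DecidableEq ι] {δ : Type*} [Fintype δ] [DecidableEq δ]
variable {k K : Type*} [Field k] [Field K] [Algebra k K]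
variable {arm : δ → Fin 3} {J : Matrix ι ι K} {B : Matrix δ δ K}
  {N W : Submodule K (Matrix ι δ K)} {n : Type*} [Fintype n] {F G : Matrix ι δ K}
  {P : n → Submodule K (ι → K)} {R : Submodule K (ι → K)} {lam : n → K}

theorem der_mulVec {α β : Type*} [Fintype β] (d : Derivation k K K) (A : Matrix α β K)
    (v : β → K) : (fun i => d ((A *ᵥ v) i)) = A.map d *ᵥ v + A *ᵥ (fun j => d (v j)) := by
  funext i
  simp only [mulVec, dotProduct, map_sum, Derivation.leibniz, smul_eq_mul, Pi.add_apply,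
    map_apply]
  rw [Finset.sum_add_distrib, add_comm]
  congr 1
  exact Finset.sum_congr rfl fun x _ => mul_comm _ _

theorem adj (A : Matrix ι δ K) (u : δ → K) (v : ι → K) :
    (A *ᵥ u) ⬝ᵥ v = u ⬝ᵥ (Aᵀ *ᵥ v) := by
  rw [dotProduct_mulVec, vecMul_transpose]

theorem adjs (A : Matrix ι ι K) (u v : ι → K) :
    (A *ᵥ u) ⬝ᵥ v = u ⬝ᵥ (Aᵀ *ᵥ v) := by
  rw [dotProduct_mulVec, vecMul_transpose]

theorem Jsymm (hD : Data k arm J B N W) (u v : ι → K) : u ⬝ᵥ (J *ᵥ v) = v ⬝ᵥ (J *ᵥ u) := by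
  have := adjs J v u
  rw [hD.J_symm] at this
  rw [← this, dotProduct_comm]

/-- `F B E_r Fᵀ = F E_r B Fᵀ` -/
theorem Mt (hD : Data k arm J B N W) (F G : Matrix ι δ K) (r : Fin 3) :
    (M arm B r F G)ᵀ = M arm B r G F := by
  unfold M
  rw [transpose_mul, transpose_mul, transpose_mul, transpose_transpose, E_transpose, hD.B_symm]
  simp only [Matrix.mul_assoc]
  rw [← Matrix.mul_assoc B, ← hD.B_arm, Matrix.mul_assoc]

theorem M_sa (hD : Data k arm J B N W) (F G : Matrix ι δ K) (r : Fin 3) (u v : ι → K) :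
    ((M arm B r F G * J) *ᵥ u) ⬝ᵥ (J *ᵥ v) = u ⬝ᵥ (J *ᵥ ((M arm B r G F * J) *ᵥ v)) := by
  rw [adjs, transpose_mul, Mt hD, hD.J_symm, mulVec_mulVec, mulVec_mulVec]
  simp only [Matrix.mul_assoc]

theorem Phi_sa (hD : Data k arm J B N W) (F : Matrix ι δ K) (r : Fin 3) (u v : ι → K) :
    (Phi arm J B F r *ᵥ u) ⬝ᵥ (J *ᵥ v) = u ⬝ᵥ (J *ᵥ (Phi arm J B F r *ᵥ v)) :=
  M_sa hD F F r u v

section blk

variable (h : Blk k arm J B N W F G P R lam)
include h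

/-- the vector `u` with `F u = p`, `G u = lam p` -/
theorem exists_u (i : n) {p : ι → K} (hp : p ∈ P i) :
    ∃ u : δ → K, F *ᵥ u = p ∧ G *ᵥ u = lam i • p := by
  have hD := h.data
  obtain ⟨q, hq, hpq⟩ := h.pf i p hp
  refine ⟨∑ r, (E K arm r * B * (Fᵀ * J)) *ᵥ q r, ?_, ?_⟩
  · rw [mulVec_sum, hpq]
    refine Finset.sum_congr rfl fun r _ => ?_
    rw [mulVec_mulVec]
    unfold Phi M
    simp only [Matrix.mul_assoc]
  · rw [mulVec_sum, hpq, Finset.smul_sum]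
    refine Finset.sum_congr rfl fun r _ => ?_
    have h1 := hD.symm_arm h.memG h.memF r
    unfold M at h1
    have h2 : G * (E K arm r * B * (Fᵀ * J)) = F * E K arm r * B * (Gᵀ * J) := by
      calc G * (E K arm r * B * (Fᵀ * J)) = (G * E K arm r * B * Fᵀ) * J := by
            simp only [Matrix.mul_assoc]
        _ = (F * E K arm r * B * Gᵀ) * J := by rw [h1]
        _ = _ := by simp only [Matrix.mul_assoc]
    rw [mulVec_mulVec, h2, ← mulVec_mulVec, h.eig i _ (hq r), mulVec_smul, mulVec_mulVec]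
    unfold Phi M
    simp only [Matrix.mul_assoc]

/-- different blocks are orthogonal -/
theorem perp {i j : n} (hij : i ≠ j) {p q : ι → K} (hp : p ∈ P i) (hq : q ∈ P j) :
    p ⬝ᵥ (J *ᵥ q) = 0 := by
  obtain ⟨u, hu, hu'⟩ := exists_u h i hp
  have h1 : lam i * (p ⬝ᵥ (J *ᵥ q)) = lam j * (p ⬝ᵥ (J *ᵥ q)) := by
    calc lam i * (p ⬝ᵥ (J *ᵥ q)) = (G *ᵥ u) ⬝ᵥ (J *ᵥ q) := by
          rw [hu', smul_dotProduct, smul_eq_mul]
      _ = u ⬝ᵥ ((Gᵀ * J) *ᵥ q) := by rw [adj, mulVec_mulVec]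
      _ = lam j * (u ⬝ᵥ ((Fᵀ * J) *ᵥ q)) := by
          rw [h.eig j q hq, dotProduct_smul, smul_eq_mul]
      _ = lam j * ((F *ᵥ u) ⬝ᵥ (J *ᵥ q)) := by rw [adj, mulVec_mulVec]
      _ = _ := by rw [hu]
  have h2 : (lam i - lam j) * (p ⬝ᵥ (J *ᵥ q)) = 0 := by rw [sub_mul, h1, sub_self]
  exact (mul_eq_zero.1 h2).resolve_left (sub_ne_zero.2 (h.ne i j hij))

theorem PhiR (r : Fin 3) {ρ : ι → K} (hρ : ρ ∈ R) : Phi arm J B F r *ᵥ ρ ∈ R := by
  have hD := h.data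
  obtain ⟨v, hv, rfl⟩ := h.Rdec ρ hρ
  rw [mulVec_sum]
  refine h.Rmax (fun l => Phi arm J B F r *ᵥ v l) (fun l => h.st l r _ (hv l).1) fun m p hp => ?_
  rw [sum_dotProduct]
  refine Finset.sum_eq_zero fun l _ => ?_
  rw [Phi_sa hD]
  exact h.rad _ (hv l).2 m _ (h.st m r p hp)

/-- an element of `P j ⊔ R` orthogonal to all blocks is in `R` -/
theorem mem_R {j : n} {w : ι → K} (hw : w ∈ P j ⊔ R)
    (h0 : ∀ m, ∀ p ∈ P m, w ⬝ᵥ (J *ᵥ p) = 0) : w ∈ R := by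
  classical
  obtain ⟨a, ha, ρ, hρ, rfl⟩ := Submodule.mem_sup.1 hw
  obtain ⟨v, hv, hv'⟩ := h.Rdec ρ hρ
  have e : a + ρ = ∑ l, (v l + if l = j then a else 0) := by
    rw [Finset.sum_add_distrib, ← hv', Finset.sum_ite_eq' Finset.univ j, if_pos (Finset.mem_univ j),
      add_comm]
  rw [e] at h0 ⊢
  refine h.Rmax _ (fun l => (P l).add_mem (hv l).1 ?_) h0
  split_ifs with hl
  · rw [hl]; exact ha
  · exact (P l).zero_mem

/-- **`D ∘ (Φ_r p) ∈ Φ_r (D ∘ p) + 2 μ Φ_r p + Φ_r ρ + R`** -/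
theorem key {D : Derivation k K K} (hz : F.map D ∈ ZW J W F P R)
    (hblk : ∀ m, ∀ p ∈ P m, (fun a => D (p a)) ∈ P m ⊔ R) (j : n) (r : Fin 3) :
    ∃ μ : K, ∀ p ∈ P j, ∃ ρ ∈ R,
      (fun a => D ((Phi arm J B F r *ᵥ p) a)) =
        Phi arm J B F r *ᵥ (fun a => D (p a)) + μ • (Phi arm J B F r *ᵥ p) + ρ := by
  have hD := h.data
  obtain ⟨hzW, μ, hμ⟩ := hz
  refine ⟨2 * μ j, fun p hp => ?_⟩
  obtain ⟨ρ, hρ, e⟩ := hμ j p hp
  -- the derivative of `Φ_r`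
  have hΦ : (Phi arm J B F r).map D = M arm B r (F.map D) F * J + M arm B r F (F.map D) * J := by
    unfold Phi M
    rw [map_mulJ hD, map_mul_der, map_mul_der, map_mul_der, hD.B_const, E_map_der, map_transpose_der,
      Matrix.mul_zero, Matrix.mul_zero, add_zero, add_zero, Matrix.add_mul]
  have e2 : (M arm B r F (F.map D) * J) *ᵥ p = μ j • (Phi arm J B F r *ᵥ p)
      + Phi arm J B F r *ᵥ ρ := by
    have e3 : M arm B r F (F.map D) * J = (F * E K arm r * B) * ((F.map D)ᵀ * J) := by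
      unfold M; simp only [Matrix.mul_assoc]
    have e4 : Phi arm J B F r = (F * E K arm r * B) * (Fᵀ * J) := by
      unfold Phi M; simp only [Matrix.mul_assoc]
    rw [e3, ← mulVec_mulVec, e, mulVec_add, mulVec_smul, mulVec_mulVec, mulVec_mulVec, ← e4]
  have e1 := der_mulVec D (Phi arm J B F r) p
  rw [hΦ, add_mulVec, e2] at e1
  -- `w = z E_r B Fᵀ J p`
  set w : ι → K := (M arm B r (F.map D) F * J) *ᵥ p with hw
  have hΦpR : ∀ q ∈ P j ⊔ R, Phi arm J B F r *ᵥ q ∈ P j ⊔ R := by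
    intro q hq
    obtain ⟨a, ha, ρ', hρ', rfl⟩ := Submodule.mem_sup.1 hq
    rw [mulVec_add]
    exact (P j ⊔ R).add_mem (Submodule.mem_sup_left (h.st j r a ha))
      (Submodule.mem_sup_right (PhiR h r hρ'))
  have hwmem : w - μ j • (Phi arm J B F r *ᵥ p) ∈ P j ⊔ R := by
    have e5 : w - μ j • (Phi arm J B F r *ᵥ p) =
        (fun a => D ((Phi arm J B F r *ᵥ p) a)) - Phi arm J B F r *ᵥ (fun a => D (p a))
          - (2 * μ j) • (Phi arm J B F r *ᵥ p) - Phi arm J B F r *ᵥ ρ := by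
      rw [e1, two_mul, add_smul]; abel
    rw [e5]
    refine (P j ⊔ R).sub_mem ((P j ⊔ R).sub_mem ((P j ⊔ R).sub_mem (hblk j _ (h.st j r p hp))
      (hΦpR _ (hblk j p hp))) ((P j ⊔ R).smul_mem _ (Submodule.mem_sup_left (h.st j r p hp))))
      (Submodule.mem_sup_right (PhiR h r hρ))
  have hwR : w - μ j • (Phi arm J B F r *ᵥ p) ∈ R := by
    refine mem_R h hwmem fun m p' hp' => ?_
    obtain ⟨ρ', hρ', e'⟩ := hμ m p' hp'
    have e6 : w ⬝ᵥ (J *ᵥ p') = μ m * ((Phi arm J B F r *ᵥ p) ⬝ᵥ (J *ᵥ p')) := by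
      have e3 : M arm B r F (F.map D) * J = (F * E K arm r * B) * ((F.map D)ᵀ * J) := by
        unfold M; simp only [Matrix.mul_assoc]
      have e4 : Phi arm J B F r = (F * E K arm r * B) * (Fᵀ * J) := by
        unfold Phi M; simp only [Matrix.mul_assoc]
      rw [hw, M_sa hD, e3, ← mulVec_mulVec, e', mulVec_add, mulVec_smul, mulVec_mulVec,
        mulVec_mulVec, ← e4, mulVec_add, mulVec_smul, dotProduct_add, dotProduct_smul,
        smul_eq_mul, Phi_sa hD]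
      have : p ⬝ᵥ (J *ᵥ (Phi arm J B F r *ᵥ ρ')) = 0 := by
        rw [Jsymm hD]
        exact h.rad _ (PhiR h r hρ') j p hp
      rw [this, add_zero]
    rw [sub_dotProduct, smul_dotProduct, smul_eq_mul, e6]
    by_cases hm : m = j
    · rw [hm, sub_self]
    · rw [perp h (Ne.symm hm) (h.st j r p hp) hp', mul_zero, mul_zero, sub_self]
  refine ⟨Phi arm J B F r *ᵥ ρ + (w - μ j • (Phi arm J B F r *ᵥ p)),
    R.add_mem (PhiR h r hρ) hwR, ?_⟩
  rw [e1, two_mul, add_smul]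
  abel

/-- **powers** -/
theorem key_pow {D : Derivation k K K} (hz : F.map D ∈ ZW J W F P R)
    (hblk : ∀ m, ∀ p ∈ P m, (fun a => D (p a)) ∈ P m ⊔ R) (j : n) (r : Fin 3) (b : ℕ) :
    ∀ p ∈ P j, (Phi arm J B F r ^ b) *ᵥ p ∈ P j ∧ ∃ q ∈ P j, ∃ ρ ∈ R,
      (fun a => D (((Phi arm J B F r ^ b) *ᵥ p) a)) = (Phi arm J B F r ^ b) *ᵥ q + ρ := by
  induction b with
  | zero =>
    intro p hp
    simp only [pow_zero, one_mulVec]
    obtain ⟨q, hq, ρ, hρ, e⟩ := Submodule.mem_sup.1 (hblk j p hp)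
    exact ⟨hp, q, hq, ρ, hρ, e.symm⟩
  | succ b ih =>
    intro p hp
    obtain ⟨μ, hμ⟩ := key h hz hblk j r
    obtain ⟨hm, q, hq, ρ, hρ, e⟩ := ih p hp
    obtain ⟨ρ', hρ', e'⟩ := hμ _ hm
    have e0 : ∀ v : ι → K, (Phi arm J B F r ^ (b + 1)) *ᵥ v =
        Phi arm J B F r *ᵥ ((Phi arm J B F r ^ b) *ᵥ v) := fun v => by
      rw [mulVec_mulVec, pow_succ']
    rw [e0]
    refine ⟨h.st j r _ hm, q + μ • p, (P j).add_mem hq ((P j).smul_mem _ hp),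
      Phi arm J B F r *ᵥ ρ + ρ', R.add_mem (PhiR h r hρ) hρ', ?_⟩
    rw [e', e, e0, mulVec_add, mulVec_add, mulVec_add, mulVec_smul, mulVec_smul]
    abel

theorem flag {D : Derivation k K K} (hz : F.map D ∈ ZW J W F P R)
    (hblk : ∀ m, ∀ p ∈ P m, (fun a => D (p a)) ∈ P m ⊔ R) (j : n) (r : Fin 3) (b : ℕ)
    {c : Matrix ι ι K} (hc : ∀ p ∈ P j, c *ᵥ p ∈ R ∧ (fun a => D (p a)) - c *ᵥ p ∈ P j) :
    ∀ p ∈ P j, ∃ q ∈ P j, ∃ ρ ∈ P j ⊓ R,
      (fun a => D (((Phi arm J B F r ^ b) *ᵥ p) a)) - c *ᵥ ((Phi arm J B F r ^ b) *ᵥ p) =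
        (Phi arm J B F r ^ b) *ᵥ q + ρ := by
  intro p hp
  obtain ⟨hm, q, hq, ρ, hρ, e⟩ := key_pow h hz hblk j r b p hp
  obtain ⟨h1, h2⟩ := hc _ hm
  refine ⟨q, hq, ρ - c *ᵥ ((Phi arm J B F r ^ b) *ᵥ p), ⟨?_, R.sub_mem hρ h1⟩, ?_⟩
  · have h3 := (key_pow h hz hblk j r b q hq).1
    have h4 := (P j).sub_mem h2 h3
    rw [e] at h4
    have h5 : (Phi arm J B F r ^ b) *ᵥ q + ρ - c *ᵥ ((Phi arm J B F r ^ b) *ᵥ p) -
        (Phi arm J B F r ^ b) *ᵥ q = ρ - c *ᵥ ((Phi arm J B F r ^ b) *ᵥ p) := by abel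
    rwa [h5] at h4
  · rw [e]; abel

end blk

/-- the filtered and radical tensors: `𝓕 r` for `Φ = Φ_r(F)`, `l = l r`
(`Pi = P i` rows, `Pj = P j` columns) -/
def Fl (Φ : Matrix ι ι K) (l : ℕ) (Pi Pj R : Submodule K (ι → K)) :
    Submodule K (Matrix ι ι K) :=
  Submodule.span K ({y | ∃ a b, a + b + 1 = l ∧ ∃ p ∈ Pi, ∃ q ∈ Pj,
      y = vecMulVec ((Φ ^ b) *ᵥ q) ((Φ ^ a) *ᵥ p)} ∪
    {y | ∃ ρ ∈ Pj ⊓ R, ∃ p ∈ Pi, y = vecMulVec ρ p} ∪
    {y | ∃ q ∈ Pj, ∃ ρ ∈ Pi ⊓ R, y = vecMulVec q ρ})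

theorem Fl_core {Φ : Matrix ι ι K} {l : ℕ} {Pi Pj R : Submodule K (ι → K)} {a b : ℕ}
    (hl : a + b + 1 = l) {p q : ι → K} (hp : p ∈ Pi) (hq : q ∈ Pj) :
    vecMulVec ((Φ ^ b) *ᵥ q) ((Φ ^ a) *ᵥ p) ∈ Fl Φ l Pi Pj R :=
  Submodule.subset_span (Or.inl (Or.inl ⟨a, b, hl, p, hp, q, hq, rfl⟩))

theorem Fl_left {Φ : Matrix ι ι K} {l : ℕ} {Pi Pj R : Submodule K (ι → K)}
    {p q : ι → K} (hp : p ∈ Pi) (hq : q ∈ Pj ⊓ R) :
    vecMulVec q p ∈ Fl Φ l Pi Pj R :=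
  Submodule.subset_span (Or.inl (Or.inr ⟨q, hq, p, hp, rfl⟩))

theorem Fl_right {Φ : Matrix ι ι K} {l : ℕ} {Pi Pj R : Submodule K (ι → K)}
    {p q : ι → K} (hp : p ∈ Pi ⊓ R) (hq : q ∈ Pj) :
    vecMulVec q p ∈ Fl Φ l Pi Pj R :=
  Submodule.subset_span (Or.inr ⟨q, hq, p, hp, rfl⟩)

theorem map_vecMulVec (D : Derivation k K K) (u v : ι → K) :
    (vecMulVec u v).map D = vecMulVec (fun a => D (u a)) v + vecMulVec u (fun a => D (v a)) := by
  ext i j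
  simp only [map_apply, vecMulVec_apply, Derivation.leibniz, smul_eq_mul, Matrix.add_apply]
  ring

/-- `y'' = D y - b' y - y b1ᵀ` on a rank one tensor -/
theorem op_vecMulVec (D : Derivation k K K) (b' b1 : Matrix ι ι K) (u v : ι → K) :
    (vecMulVec u v).map D - b' * vecMulVec u v - vecMulVec u v * b1ᵀ =
      vecMulVec ((fun a => D (u a)) - b' *ᵥ u) v + vecMulVec u ((fun a => D (v a)) - b1 *ᵥ v) := by
  rw [map_vecMulVec, mul_vecMulVec, vecMulVec_mul, vecMul_transpose]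
  ext i j
  simp only [Matrix.sub_apply, Matrix.add_apply, vecMulVec_apply, Pi.sub_apply]
  ring

theorem add_vecMulVec' (u u' v : ι → K) :
    vecMulVec (u + u') v = vecMulVec u v + vecMulVec u' v := by
  ext i j; simp [vecMulVec_apply, add_mul]

theorem vecMulVec_add' (u v v' : ι → K) :
    vecMulVec u (v + v') = vecMulVec u v + vecMulVec u v' := by
  ext i j; simp [vecMulVec_apply, mul_add]

/-- **GR3, general form** -/
theorem fl_stable (h : Blk k arm J B N W F G P R lam) {D : Derivation k K K}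
    (hz : F.map D ∈ ZW J W F P R)
    (hblk : ∀ m, ∀ p ∈ P m, (fun a => D (p a)) ∈ P m ⊔ R)
    (hdR : ∀ ρ ∈ R, (fun a => D (ρ a)) ∈ R) {i j : n} (r : Fin 3) (l : ℕ)
    {b' b1 : Matrix ι ι K}
    (hb' : ∀ p ∈ P j, b' *ᵥ p ∈ R ∧ (fun a => D (p a)) - b' *ᵥ p ∈ P j)
    (hb1 : ∀ p ∈ P i, b1 *ᵥ p ∈ R ∧ (fun a => D (p a)) - b1 *ᵥ p ∈ P i)
    {y : Matrix ι ι K} (hy : y ∈ Fl (Phi arm J B F r) l (P i) (P j) R) :
    y.map D - b' * y - y * b1ᵀ ∈ Fl (Phi arm J B F r) l (P i) (P j) R := by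
  have hy' := hy
  unfold Fl at hy
  induction hy using Submodule.span_induction with
  | mem y hy0 =>
    rcases hy0 with (⟨a, b, hl, p, hp, q, hq, rfl⟩ | ⟨ρ, hρ, p, hp, rfl⟩) | ⟨q, hq, ρ, hρ, rfl⟩
    · rw [op_vecMulVec]
      obtain ⟨q', hq', ρ, hρ, e⟩ := flag h hz hblk j r b hb' q hq
      obtain ⟨p', hp', ρ', hρ', e'⟩ := flag h hz hblk i r a hb1 p hp
      rw [e, e', add_vecMulVec', vecMulVec_add']
      exact Submodule.add_mem _
        (Submodule.add_mem _ (Fl_core hl hp hq')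
          (Fl_left (key_pow h hz hblk i r a p hp).1 hρ))
        (Submodule.add_mem _ (Fl_core hl hp' hq)
          (Fl_right hρ' (key_pow h hz hblk j r b q hq).1))
    · rw [op_vecMulVec]
      exact Submodule.add_mem _
        (Fl_left hp ⟨(hb' ρ hρ.1).2, R.sub_mem (hdR ρ hρ.2) (hb' ρ hρ.1).1⟩)
        (Fl_left (hb1 p hp).2 hρ)
    · rw [op_vecMulVec]
      exact Submodule.add_mem _
        (Fl_right hρ (hb' q hq).2)
        (Fl_right ⟨(hb1 ρ hρ.1).2, R.sub_mem (hdR ρ hρ.2) (hb1 ρ hρ.1).1⟩ hq)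
  | zero =>
    have : (0 : Matrix ι ι K).map D = 0 := by ext i j; simp
    rw [this, Matrix.mul_zero, Matrix.zero_mul, sub_zero, sub_zero]
    exact Submodule.zero_mem _
  | add y z hy hz' ihy ihz =>
    have e : (y + z).map D - b' * (y + z) - (y + z) * b1ᵀ =
        (y.map D - b' * y - y * b1ᵀ) + (z.map D - b' * z - z * b1ᵀ) := by
      rw [map_add_der, Matrix.mul_add, Matrix.add_mul]; abel
    rw [e]
    exact Submodule.add_mem _ (ihy hy) (ihz hz')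
  | smul c y hy ih =>
    have e : (c • y).map D - b' * (c • y) - (c • y) * b1ᵀ =
        c • (y.map D - b' * y - y * b1ᵀ) + D c • y := by
      ext i j
      simp only [Matrix.sub_apply, Matrix.add_apply, map_apply, Matrix.smul_apply, smul_eq_mul,
        Derivation.leibniz, Matrix.mul_smul, Matrix.smul_mul]
      ring
    rw [e]
    exact Submodule.add_mem _ (Submodule.smul_mem _ _ (ih hy)) (Submodule.smul_mem _ _ hy)

/-- **GR3** (880's note 16237): `y r ∈ 𝓕 r ⇒ y'' r ∈ 𝓕 r` for a motion `Mot x D`. -/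
theorem fl_mot (h : Blk k arm J B N W F G P R lam) {F1 F2 : Matrix ι δ K} {i j : n} {c : K}
    {x : Fin 3 → Matrix ι ι K} {D : Derivation k K K}
    (hm : Mot k arm J B N W F F1 F2 P R i j c x D) (r : Fin 3) (l : ℕ)
    {b' b1 : Matrix ι ι K}
    (hb' : ∀ p ∈ P j, b' *ᵥ p ∈ P i ⊓ R ∧ (fun a => D (p a)) - b' *ᵥ p ∈ P j)
    (hb1 : ∀ p ∈ P i, b1 *ᵥ p ∈ P j ⊓ R ∧ (fun a => D (p a)) - b1 *ᵥ p ∈ P i)
    {y : Matrix ι ι K} (hy : y ∈ Fl (Phi arm J B F r) l (P i) (P j) R) :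
    y.map D - b' * y - y * b1ᵀ ∈ Fl (Phi arm J B F r) l (P i) (P j) R :=
  fl_stable h hm.zF hm.blk hm.dR r l (fun p hp => ⟨(hb' p hp).1.2, (hb' p hp).2⟩)
    (fun p hp => ⟨(hb1 p hp).1.2, (hb1 p hp).2⟩) hy

end Crest.Agent.R172.GR3
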