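import Crest.Agent.R172.FO2

/-!
Row 172, TAME (t1), arbitrary radical `R` and arbitrary `D`: the derivative text on the `U`-side.
-/

set_option autoImplicit false
set_option linter.unusedSectionVars false
set_option linter.unusedFintypeInType false
set_option linter.unusedDecidableInType false

namespace Crest.Agent.R172.RD

open Matrix Crest.Agent.R172.FO

variable {ι : Type*} [Fintype ι] [DecidableEq ι] {δ : Type*} [Fintype δ] [DecidableEq δ]
variable {k K : Type*} [Field k] [Field K] [Algebra k K]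
variable {arm : δ → Fin 3} {J : Matrix ι ι K} {B : Matrix δ δ K}
  {N W : Submodule K (Matrix ι δ K)} {H F w : Matrix ι δ K} {P : Submodule K (ι → K)}
  {T : Fin 3 → Matrix δ δ K} {d : Derivation k K K}

/-! ### derivation of vectors -/

/-- entrywise derivative of a vector -/
def dv {α : Type*} (d : Derivation k K K) (v : α → K) : α → K := fun i => d (v i)

theorem dv_add {α : Type*} (v v' : α → K) : dv d (v + v') = dv d v + dv d v' := by
  ext i; simp [dv]

theorem dv_sub {α : Type*} (v v' : α → K) : dv d (v - v') = dv d v - dv d v' := by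
  ext i; simp [dv]

theorem dv_sum {α β : Type*} (s : Finset β) (f : β → α → K) :
    dv d (∑ i ∈ s, f i) = ∑ i ∈ s, dv d (f i) := by
  ext i; simp [dv]

theorem dv_mulVec {α β : Type*} [Fintype β] (A : Matrix α β K) (v : β → K) :
    dv d (A *ᵥ v) = A.map d *ᵥ v + A *ᵥ dv d v := by
  ext i
  simp only [dv, mulVec, dotProduct, map_sum, Derivation.leibniz, smul_eq_mul, map_apply,
    Pi.add_apply, ← Finset.sum_add_distrib]
  exact Finset.sum_congr rfl fun x _ => by ring

theorem map_sub_smul {α β : Type*} (A C : Matrix α β K) :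
    (A - C).map d = A.map d - C.map d := map_sub_der d A C

theorem map_sum_der {α β γ : Type*} (s : Finset γ)
    (A : γ → Matrix α β K) : (∑ i ∈ s, A i).map d = ∑ i ∈ s, (A i).map d := by
  ext i j
  simp [Matrix.sum_apply]

/-! ### the setting -/

/-- `P = A^∞ V` for the operators `Φ_r(H)`. -/
structure Px (arm : δ → Fin 3) (J : Matrix ι ι K) (B : Matrix δ δ K) (H : Matrix ι δ K)
    (P : Submodule K (ι → K)) : Prop where
  stab : ∀ r, ∀ p ∈ P, Phi arm J B H r *ᵥ p ∈ P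
  perf : ∀ p ∈ P, ∃ f : Fin 3 → ι → K, (∀ r, f r ∈ P) ∧ p = ∑ r, Phi arm J B H r *ᵥ f r
  nil : ∃ m : ℕ, ∀ l : List (Fin 3), l.length = m →
    ∀ v, (l.map (Phi arm J B H)).prod *ᵥ v ∈ P

/-- `UP = H^T J P` -/
def UP (J : Matrix ι ι K) (H : Matrix ι δ K) (P : Submodule K (ι → K)) : Submodule K (δ → K) :=
  P.map (Hᵀ * J).mulVecLin

theorem mem_UP {u : δ → K} : u ∈ UP J H P ↔ ∃ p ∈ P, (Hᵀ * J) *ᵥ p = u := by
  unfold UP
  simp only [Submodule.mem_map, Matrix.mulVecLin_apply]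

/-- `UU = Σ_r E_r B H^T J P` -/
def UU (arm : δ → Fin 3) (J : Matrix ι ι K) (B : Matrix δ δ K) (H : Matrix ι δ K)
    (P : Submodule K (ι → K)) : Submodule K (δ → K) where
  carrier := {v | ∃ f : Fin 3 → ι → K, (∀ r, f r ∈ P) ∧
    v = ∑ r, (E K arm r * B * Hᵀ * J) *ᵥ f r}
  add_mem' := by
    rintro v v' ⟨f, hf, rfl⟩ ⟨f', hf', rfl⟩
    refine ⟨f + f', fun r => P.add_mem (hf r) (hf' r), ?_⟩
    simp only [Pi.add_apply, mulVec_add, Finset.sum_add_distrib]
  zero_mem' := ⟨0, fun r => P.zero_mem, by simp⟩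
  smul_mem' := by
    rintro c v ⟨f, hf, rfl⟩
    refine ⟨c • f, fun r => P.smul_mem c (hf r), ?_⟩
    simp only [Pi.smul_apply, mulVec_smul, Finset.smul_sum]

theorem mem_UU {v : δ → K} : v ∈ UU arm J B H P ↔ ∃ f : Fin 3 → ι → K, (∀ r, f r ∈ P) ∧
    v = ∑ r, (E K arm r * B * Hᵀ * J) *ᵥ f r := Iff.rfl

theorem single_mem_UU (r : Fin 3) {p : ι → K} (hp : p ∈ P) :
    (E K arm r * B * Hᵀ * J) *ᵥ p ∈ UU arm J B H P := by
  refine ⟨fun s => if s = r then p else 0, fun s => ?_, ?_⟩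
  · dsimp only
    split_ifs
    · exact hp
    · exact P.zero_mem
  · rw [Finset.sum_eq_single r]
    · simp
    · intro s _ hs
      simp [hs]
    · intro h
      exact absurd (Finset.mem_univ r) h

theorem H_E_B (r : Fin 3) (p : ι → K) :
    H *ᵥ ((E K arm r * B * Hᵀ * J) *ᵥ p) = Phi arm J B H r *ᵥ p := by
  rw [mulVec_mulVec]
  unfold Phi M
  simp only [Matrix.mul_assoc]

theorem Px.H_UU (hP : Px arm J B H P) {v : δ → K} (hv : v ∈ UU arm J B H P) : H *ᵥ v ∈ P := by
  obtain ⟨f, hf, rfl⟩ := hv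
  rw [mulVec_sum]
  exact P.sum_mem fun r _ => by rw [H_E_B]; exact hP.stab r _ (hf r)

theorem Px.exists_UU (hP : Px arm J B H P) {p : ι → K} (hp : p ∈ P) :
    ∃ v ∈ UU arm J B H P, H *ᵥ v = p := by
  obtain ⟨f, hf, rfl⟩ := hP.perf p hp
  refine ⟨_, ⟨f, hf, rfl⟩, ?_⟩
  rw [mulVec_sum]
  exact Finset.sum_congr rfl fun r _ => H_E_B r _

/-- matrices with columns and rows in `UU` -/
def TU (S : Submodule K (δ → K)) : Submodule K (Matrix δ δ K) where
  carrier := {T | (∀ v, T *ᵥ v ∈ S) ∧ ∀ v, Tᵀ *ᵥ v ∈ S}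
  add_mem' := by
    rintro a b ⟨h1, h2⟩ ⟨h1', h2'⟩
    refine ⟨fun v => ?_, fun v => ?_⟩
    · rw [add_mulVec]; exact S.add_mem (h1 v) (h1' v)
    · rw [transpose_add, add_mulVec]; exact S.add_mem (h2 v) (h2' v)
  zero_mem' := ⟨fun v => by simp, fun v => by simp⟩
  smul_mem' := by
    rintro c a ⟨h1, h2⟩
    refine ⟨fun v => ?_, fun v => ?_⟩
    · rw [smul_mulVec]; exact S.smul_mem c (h1 v)
    · rw [transpose_smul, smul_mulVec]; exact S.smul_mem c (h2 v)

theorem mem_TU {S : Submodule K (δ → K)} {A : Matrix δ δ K} :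
    A ∈ TU S ↔ (∀ v, A *ᵥ v ∈ S) ∧ ∀ v, Aᵀ *ᵥ v ∈ S := Iff.rfl

theorem vecMulVec_mem_TU {S : Submodule K (δ → K)} {v v' : δ → K} (hv : v ∈ S) (hv' : v' ∈ S) :
    vecMulVec v v' ∈ TU S := by
  refine ⟨fun x => ?_, fun x => ?_⟩
  · have : vecMulVec v v' *ᵥ x = (v' ⬝ᵥ x) • v := by
      ext i
      simp only [mulVec, dotProduct, vecMulVec_apply, Pi.smul_apply, smul_eq_mul, Finset.sum_mul]
      exact Finset.sum_congr rfl fun j _ => by ring
    rw [this]; exact S.smul_mem _ hv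
  · have : (vecMulVec v v')ᵀ *ᵥ x = (v ⬝ᵥ x) • v' := by
      ext i
      simp only [mulVec, dotProduct, vecMulVec_apply, transpose_apply, Pi.smul_apply,
        smul_eq_mul, Finset.sum_mul]
      exact Finset.sum_congr rfl fun j _ => by ring
    rw [this]; exact S.smul_mem _ hv'

/-! ### directions -/

/-- direction on `V` -/
def XX (J : Matrix ι ι K) (H : Matrix ι δ K) (T : Fin 3 → Matrix δ δ K) : Fin 3 → Matrix ι ι K :=
  fun r => H * T r * Hᵀ * J

/-- transposed direction on `U` -/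
def xt (arm : δ → Fin 3) (J : Matrix ι ι K) (H : Matrix ι δ K) (T : Fin 3 → Matrix δ δ K) :
    Matrix δ δ K := ∑ r, T r * (Hᵀ * J * H) * E K arm r

theorem act_XX_gen (F : Matrix ι δ K) :
    act arm (XX J H T) F = ∑ r, H * T r * Hᵀ * J * F * E K arm r := rfl

theorem act_XX : act arm (XX J H T) H = H * xt arm J H T := by
  unfold act XX xt
  rw [Matrix.mul_sum]
  exact Finset.sum_congr rfl fun r _ => by simp only [Matrix.mul_assoc]

theorem Q_symm (hD : Data k arm J B N W) : (Hᵀ * J * H)ᵀ = Hᵀ * J * H := by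
  rw [transpose_mul, transpose_mul, transpose_transpose, hD.J_symm, Matrix.mul_assoc]

theorem xt_transpose (hD : Data k arm J B N W) (hsk : ∀ r, (T r)ᵀ = - T r) :
    (xt arm J H T)ᵀ = - ∑ r, E K arm r * (Hᵀ * J * H) * T r := by
  unfold xt
  rw [transpose_sum, ← Finset.sum_neg_distrib]
  refine Finset.sum_congr rfl fun r _ => ?_
  rw [transpose_mul, transpose_mul, E_transpose, Q_symm hD, hsk, Matrix.mul_neg, Matrix.mul_neg]
  simp only [Matrix.mul_assoc]

theorem XX_so (hD : Data k arm J B N W) (hsk : ∀ r, (T r)ᵀ = - T r) (r : Fin 3) :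
    (XX J H T r)ᵀ * J + J * XX J H T r = 0 := by
  unfold XX
  simp only [transpose_mul, transpose_transpose, hD.J_symm, hsk, Matrix.mul_neg, Matrix.neg_mul,
    Matrix.mul_assoc]
  rw [neg_add_cancel]

/-- the exactness condition -/
def Exact (arm : δ → Fin 3) (J : Matrix ι ι K) (B : Matrix δ δ K) (H : Matrix ι δ K)
    (T : Fin 3 → Matrix δ δ K) : Prop :=
  ∑ r, (T r * (Hᵀ * J * H) * E K arm r * B - B * E K arm r * (Hᵀ * J * H) * T r) = 0

theorem xt_so (hD : Data k arm J B N W) (hsk : ∀ r, (T r)ᵀ = - T r)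
    (hex : Exact arm J B H T) : xt arm J H T * B + B * (xt arm J H T)ᵀ = 0 := by
  rw [xt_transpose hD hsk, Matrix.mul_neg, ← sub_eq_add_neg, ← hex]
  unfold xt
  rw [Matrix.sum_mul, Matrix.mul_sum, ← Finset.sum_sub_distrib]
  exact Finset.sum_congr rfl fun r _ => by simp only [Matrix.mul_assoc]

/-- `d` moves along the direction `T` -/
structure Mv (arm : δ → Fin 3) (J : Matrix ι ι K) (N W : Submodule K (Matrix ι δ K))
    (H : Matrix ι δ K) (T : Fin 3 → Matrix δ δ K) (d : Derivation k K K) : Prop where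
  real : Realises arm N W (XX J H T) (xt arm J H T)ᵀ d
  hd : H.map d = H * xt arm J H T

/-- (0) every skew exact family is realised -/
theorem exists_mv (hD : Data k arm J B N W) (hH : Generic k arm N W H)
    (hsk : ∀ r, (T r)ᵀ = - T r) (hex : Exact arm J B H T) :
    ∃ d : Derivation k K K, Mv arm J N W H T d := by
  obtain ⟨d0, hd0⟩ := hD.dir (XX J H T) (xt arm J H T)ᵀ (XX_so hD hsk)
    (by rw [transpose_transpose]; exact xt_so hD hsk hex)
  have h1 : H.map d0 - act arm (XX J H T) H ∈ N ⊓ W := by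
    refine ⟨hd0.onN H hH.mem.1, ?_⟩
    have := hd0.onW H hH.mem.2
    rwa [transpose_transpose, ← act_XX] at this
  obtain ⟨d1, hd1, hr⟩ := hH.vert _ h1
  have hsub : ∀ G : Matrix ι δ K, G.map (d0 - d1) = G.map d0 - G.map d1 := by
    intro G; ext i j; simp
  refine ⟨d0 - d1, ⟨?_, ?_⟩, ?_⟩
  · intro G hG
    have h2 := hd0.onN G hG
    have h3 := hr.onN G hG
    rw [act_zero, sub_zero] at h3
    rw [hsub]
    have : G.map d0 - G.map d1 - act arm (XX J H T) G
        = (G.map d0 - act arm (XX J H T) G) - G.map d1 := by abel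
    rw [this]
    exact N.sub_mem h2 h3
  · intro G hG
    have h2 := hd0.onW G hG
    have h3 := hr.onW G hG
    rw [transpose_zero, Matrix.mul_zero, sub_zero] at h3
    rw [hsub]
    have : G.map d0 - G.map d1 - G * ((xt arm J H T)ᵀ)ᵀ
        = (G.map d0 - G * ((xt arm J H T)ᵀ)ᵀ) - G.map d1 := by abel
    rw [this]
    exact W.sub_mem h2 h3
  · rw [hsub, hd1, act_XX]
    abel

theorem Mv.act_eq (hm : Mv arm J N W H T d) : H.map d = act arm (XX J H T) H := by
  rw [act_XX]; exact hm.hd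

/-! ### (1) stability -/

/-- images of words of length `n` -/
def It (Φ : Fin 3 → Matrix ι ι K) : ℕ → Submodule K (ι → K)
  | 0 => ⊤
  | n + 1 => ⨆ r, (It Φ n).map (Φ r).mulVecLin

theorem It_le_span (Φ : Fin 3 → Matrix ι ι K) (n : ℕ) :
    It Φ n ≤ Submodule.span K {x | ∃ l : List (Fin 3), l.length = n ∧
      ∃ v, x = (l.map Φ).prod *ᵥ v} := by
  induction n with
  | zero =>
    intro x _
    exact Submodule.subset_span ⟨[], rfl, x, by simp⟩
  | succ n ih =>
    refine iSup_le fun r => ?_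
    rw [Submodule.map_le_iff_le_comap]
    refine ih.trans (Submodule.span_le.2 ?_)
    rintro x ⟨l, hl, v, rfl⟩
    refine Submodule.subset_span ⟨r :: l, by simp [hl], v, ?_⟩
    simp [mulVec_mulVec]

theorem It_le {Φ : Fin 3 → Matrix ι ι K} {m : ℕ}
    (h : ∀ l : List (Fin 3), l.length = m → ∀ v, (l.map Φ).prod *ᵥ v ∈ P) : It Φ m ≤ P := by
  refine (It_le_span Φ m).trans (Submodule.span_le.2 ?_)
  rintro x ⟨l, hl, v, rfl⟩
  exact h l hl v

theorem Px.XX_mem (hP : Px arm J B H P) (hT : ∀ r, T r ∈ TU (UU arm J B H P)) (r : Fin 3)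
    (v : ι → K) : XX J H T r *ᵥ v ∈ P := by
  have : XX J H T r *ᵥ v = H *ᵥ (T r *ᵥ ((Hᵀ * J) *ᵥ v)) := by
    unfold XX
    simp only [mulVec_mulVec, Matrix.mul_assoc]
  rw [this]
  exact hP.H_UU ((hT r).1 _)

theorem Mv.dP (hm : Mv arm J N W H T d) (hD : Data k arm J B N W) (hP : Px arm J B H P)
    (hT : ∀ r, T r ∈ TU (UU arm J B H P)) (hsk : ∀ r, (T r)ᵀ = - T r) {p : ι → K}
    (hp : p ∈ P) : dv d p ∈ P := by
  obtain ⟨m, hm'⟩ := hP.nil
  have key : ∀ n : ℕ, ∀ p ∈ P, dv d p ∈ P ⊔ It (Phi arm J B H) n := by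
    intro n
    induction n with
    | zero => intro p _; simp [It]
    | succ n ih =>
      intro p hp
      obtain ⟨f, hf, rfl⟩ := hP.perf p hp
      rw [dv_sum]
      refine Submodule.sum_mem _ fun r _ => ?_
      rw [dv_mulVec, hD.map_Phi H _ (XX_so hD hsk) d hm.act_eq r, sub_mulVec]
      refine Submodule.add_mem _ (Submodule.sub_mem _ ?_ ?_) ?_
      · refine Submodule.mem_sup_left ?_
        rw [← mulVec_mulVec]
        exact hP.XX_mem hT r _
      · refine Submodule.mem_sup_left ?_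
        rw [← mulVec_mulVec]
        exact hP.stab r _ (hP.XX_mem hT r _)
      · obtain ⟨a, ha, b, hb, hab⟩ := Submodule.mem_sup.1 (ih (f r) (hf r))
        rw [← hab, mulVec_add]
        refine Submodule.add_mem _ (Submodule.mem_sup_left (hP.stab r _ ha))
          (Submodule.mem_sup_right ?_)
        exact Submodule.mem_iSup_of_mem r ⟨b, hb, rfl⟩
  have h := key m p hp
  rwa [sup_eq_left.2 (It_le hm')] at h

theorem xt_mem_UU (hT : ∀ r, T r ∈ TU (UU arm J B H P)) (v : δ → K) :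
    xt arm J H T *ᵥ v ∈ UU arm J B H P := by
  unfold xt
  rw [sum_mulVec]
  refine Submodule.sum_mem _ fun r _ => ?_
  rw [Matrix.mul_assoc, ← mulVec_mulVec]
  exact (hT r).1 _

theorem map_HtJ (hD : Data k arm J B N W) (hm : Mv arm J N W H T d) :
    (Hᵀ * J).map d = (xt arm J H T)ᵀ * (Hᵀ * J) := by
  rw [map_mul_der, hD.J_const, Matrix.mul_zero, add_zero, map_transpose_der, hm.hd,
    transpose_mul, Matrix.mul_assoc]

theorem E_B_xt (hD : Data k arm J B N W) (hsk : ∀ r, (T r)ᵀ = - T r) (r : Fin 3) :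
    E K arm r * B * (xt arm J H T)ᵀ = - (E K arm r * B * (Hᵀ * J * H) * T r) := by
  rw [xt_transpose hD hsk, Matrix.mul_neg, Matrix.mul_sum, Finset.sum_eq_single r]
  · rw [hD.B_arm, Matrix.mul_assoc B, ← Matrix.mul_assoc (E K arm r),
      ← Matrix.mul_assoc (E K arm r) (E K arm r), E_mul_self]
    simp only [Matrix.mul_assoc]
  · intro s _ hs
    rw [hD.B_arm, Matrix.mul_assoc B, ← Matrix.mul_assoc (E K arm r),
      ← Matrix.mul_assoc (E K arm r) (E K arm s), E_mul_ne arm (Ne.symm hs), Matrix.zero_mul,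
      Matrix.zero_mul, Matrix.mul_zero]
  · intro h
    exact absurd (Finset.mem_univ r) h

theorem Mv.dUU (hm : Mv arm J N W H T d) (hD : Data k arm J B N W) (hP : Px arm J B H P)
    (hT : ∀ r, T r ∈ TU (UU arm J B H P)) (hsk : ∀ r, (T r)ᵀ = - T r) {v : δ → K}
    (hv : v ∈ UU arm J B H P) : dv d v ∈ UU arm J B H P := by
  obtain ⟨f, hf, rfl⟩ := hv
  rw [dv_sum]
  refine Submodule.sum_mem _ fun r _ => ?_
  rw [dv_mulVec]
  refine Submodule.add_mem _ ?_ (single_mem_UU r (hm.dP hD hP hT hsk (hf r)))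
  have e1 : (E K arm r * B * Hᵀ * J).map d
      = - (E K arm r * B * Hᵀ * J * H * T r * (Hᵀ * J)) := by
    have e2 : E K arm r * B * Hᵀ * J = E K arm r * B * (Hᵀ * J) := by
      simp only [Matrix.mul_assoc]
    rw [e2, map_mul_der, map_mul_der, E_map_der, hD.B_const, Matrix.zero_mul, Matrix.mul_zero,
      add_zero, Matrix.zero_mul, zero_add, map_HtJ hD hm, ← Matrix.mul_assoc, E_B_xt hD hsk,
      Matrix.neg_mul]
    simp only [Matrix.mul_assoc]
  rw [e1, neg_mulVec]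
  refine Submodule.neg_mem _ ?_
  have e3 : (E K arm r * B * Hᵀ * J * H * T r * (Hᵀ * J)) *ᵥ f r
      = (E K arm r * B * Hᵀ * J) *ᵥ (H *ᵥ (T r *ᵥ ((Hᵀ * J) *ᵥ f r))) := by
    simp only [mulVec_mulVec, Matrix.mul_assoc]
  rw [e3]
  exact single_mem_UU r (hP.H_UU ((hT r).1 _))

theorem Mv.dUP (hm : Mv arm J N W H T d) (hD : Data k arm J B N W) (hP : Px arm J B H P)
    (hT : ∀ r, T r ∈ TU (UU arm J B H P)) (hsk : ∀ r, (T r)ᵀ = - T r) {u : δ → K}
    (hu : u ∈ UP J H P) : dv d u - (xt arm J H T)ᵀ *ᵥ u ∈ UP J H P := by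
  obtain ⟨p, hp, rfl⟩ := mem_UP.1 hu
  rw [dv_mulVec, map_HtJ hD hm, ← mulVec_mulVec, add_sub_cancel_left]
  exact mem_UP.2 ⟨_, hm.dP hD hP hT hsk hp, rfl⟩

/-! ### (2) corrections and the first derivative -/

/-- the correction space -/
def CORR (arm : δ → Fin 3) (J : Matrix ι ι K) (B : Matrix δ δ K) (W : Submodule K (Matrix ι δ K))
    (H : Matrix ι δ K) (P : Submodule K (ι → K)) : Submodule K (Matrix ι δ K) where
  carrier := {w | w ∈ W ∧ (∀ v ∈ UU arm J B H P, w *ᵥ v ∈ P) ∧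
    ∀ p ∈ P, (wᵀ * J) *ᵥ p ∈ UP J H P}
  add_mem' := by
    rintro a b ⟨h1, h2, h3⟩ ⟨h1', h2', h3'⟩
    refine ⟨W.add_mem h1 h1', fun v hv => ?_, fun p hp => ?_⟩
    · rw [add_mulVec]; exact P.add_mem (h2 v hv) (h2' v hv)
    · rw [transpose_add, Matrix.add_mul, add_mulVec]
      exact Submodule.add_mem _ (h3 p hp) (h3' p hp)
  zero_mem' := ⟨W.zero_mem, fun v _ => by simp, fun p _ => by simp⟩
  smul_mem' := by
    rintro c a ⟨h1, h2, h3⟩
    refine ⟨W.smul_mem c h1, fun v hv => ?_, fun p hp => ?_⟩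
    · rw [smul_mulVec]; exact P.smul_mem c (h2 v hv)
    · rw [transpose_smul, Matrix.smul_mul, smul_mulVec]
      exact Submodule.smul_mem _ c (h3 p hp)

theorem mem_CORR : w ∈ CORR arm J B W H P ↔ w ∈ W ∧ (∀ v ∈ UU arm J B H P, w *ᵥ v ∈ P) ∧
    ∀ p ∈ P, (wᵀ * J) *ᵥ p ∈ UP J H P := Iff.rfl

/-- the tame relation `F^T J P ⊆ H^T J P` gives `F UU ⊆ P` -/
theorem F_UU (hD : Data k arm J B N W) (hF : F ∈ N ⊓ W) (hH : H ∈ N ⊓ W)
    (hP : Px arm J B H P) (hFP : ∀ p ∈ P, (Fᵀ * J) *ᵥ p ∈ UP J H P) {v : δ → K}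
    (hv : v ∈ UU arm J B H P) : F *ᵥ v ∈ P := by
  obtain ⟨f, hf, rfl⟩ := hv
  rw [mulVec_sum]
  refine P.sum_mem fun r _ => ?_
  obtain ⟨p', hp', e⟩ := mem_UP.1 (hFP (f r) (hf r))
  have e1 : F *ᵥ ((E K arm r * B * Hᵀ * J) *ᵥ f r) = (H * E K arm r * B) *ᵥ ((Fᵀ * J) *ᵥ f r) := by
    have h := hD.symm_arm hF hH r
    unfold M at h
    rw [mulVec_mulVec, mulVec_mulVec]
    have h' := congrArg (· * J) h
    simp only [Matrix.mul_assoc] at h' ⊢
    rw [h']
  have e2 : (H * E K arm r * B) *ᵥ ((Fᵀ * J) *ᵥ f r) = Phi arm J B H r *ᵥ p' := by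
    rw [← e, mulVec_mulVec]
    unfold Phi M
    simp only [Matrix.mul_assoc]
  rw [e1, e2]
  exact hP.stab r _ hp'

/-- `a = dF - F ξ^T` -/
def aa (arm : δ → Fin 3) (J : Matrix ι ι K) (H : Matrix ι δ K) (T : Fin 3 → Matrix δ δ K)
    (d : Derivation k K K) (F : Matrix ι δ K) : Matrix ι δ K := F.map d - F * xt arm J H T

theorem Mv.symm_a (hm : Mv arm J N W H T d) (hD : Data k arm J B N W) (hF : F ∈ N ⊓ W)
    (hH : H ∈ N ⊓ W) : (aa arm J H T d F)ᵀ * J * H = Hᵀ * J * aa arm J H T d F := by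
  have h := hD.symm_U hH hF
  -- h : Fᵀ * J * H = Hᵀ * J * F
  have h1 := congrArg (fun A : Matrix δ δ K => A.map d) h
  simp only [map_mul_der, hD.J_const, Matrix.mul_zero, add_zero, map_transpose_der, hm.hd] at h1
  unfold aa
  rw [transpose_sub, Matrix.sub_mul, Matrix.sub_mul, Matrix.mul_sub, transpose_mul]
  rw [transpose_mul] at h1
  have e1 : (xt arm J H T)ᵀ * Fᵀ * J * H = (xt arm J H T)ᵀ * Hᵀ * J * F := by
    have := congrArg (fun A : Matrix δ δ K => (xt arm J H T)ᵀ * A) h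
    simpa only [Matrix.mul_assoc] using this
  have e2 : Fᵀ * J * (H * xt arm J H T) = Hᵀ * J * (F * xt arm J H T) := by
    have := congrArg (fun A : Matrix δ δ K => A * xt arm J H T) h
    simpa only [Matrix.mul_assoc] using this
  rw [e1]
  rw [e2] at h1
  have h2 := h1
  rw [sub_eq_sub_iff_add_eq_add]
  rw [add_comm (Hᵀ * J * F.map ⇑d) _]
  exact h2

theorem Mv.corr_first (hm : Mv arm J N W H T d) (hD : Data k arm J B N W) (hF : F ∈ N ⊓ W)
    (hH : H ∈ N ⊓ W) (hP : Px arm J B H P) (hFP : ∀ p ∈ P, (Fᵀ * J) *ᵥ p ∈ UP J H P)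
    (hT : ∀ r, T r ∈ TU (UU arm J B H P)) (hsk : ∀ r, (T r)ᵀ = - T r) :
    aa arm J H T d F ∈ CORR arm J B W H P := by
  have h2 : ∀ v ∈ UU arm J B H P, aa arm J H T d F *ᵥ v ∈ P := by
    intro v hv
    unfold aa
    rw [sub_mulVec, ← mulVec_mulVec]
    refine P.sub_mem ?_ (F_UU hD hF hH hP hFP (xt_mem_UU hT v))
    have e : F.map d *ᵥ v = dv d (F *ᵥ v) - F *ᵥ dv d v := by rw [dv_mulVec, add_sub_cancel_right]
    rw [e]
    exact P.sub_mem (hm.dP hD hP hT hsk (F_UU hD hF hH hP hFP hv))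
      (F_UU hD hF hH hP hFP (hm.dUU hD hP hT hsk hv))
  refine ⟨?_, h2, fun p hp => ?_⟩
  · have := hm.real.onW F hF.2
    rwa [transpose_transpose] at this
  · obtain ⟨v, hv, rfl⟩ := hP.exists_UU hp
    rw [mulVec_mulVec, hm.symm_a hD hF hH, ← mulVec_mulVec]
    exact mem_UP.2 ⟨_, h2 v hv, rfl⟩

/-- (2) the first derivative -/
theorem Mv.first (hm : Mv arm J N W H T d) (hF : F ∈ N ⊓ W) :
    ∑ r, (H * T r * Hᵀ * J * F - F * T r * (Hᵀ * J * H)) * E K arm r
      - aa arm J H T d F ∈ N := by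
  have h := N.neg_mem (hm.real.onN F hF.1)
  rw [act_XX_gen] at h
  have e : ∑ r, (H * T r * Hᵀ * J * F - F * T r * (Hᵀ * J * H)) * E K arm r
      - aa arm J H T d F = -(F.map d - ∑ r, H * T r * Hᵀ * J * F * E K arm r) := by
    unfold aa xt
    rw [Matrix.mul_sum]
    have e1 : ∀ r, (H * T r * Hᵀ * J * F - F * T r * (Hᵀ * J * H)) * E K arm r
        = H * T r * Hᵀ * J * F * E K arm r - F * (T r * (Hᵀ * J * H) * E K arm r) := by
      intro r
      rw [Matrix.sub_mul]
      simp only [Matrix.mul_assoc]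
    simp only [e1, Finset.sum_sub_distrib]
    abel
  rw [e]
  exact h

/-! ### (3) stability of the corrections -/

theorem Mv.corr_stab (hm : Mv arm J N W H T d) (hD : Data k arm J B N W)
    (hP : Px arm J B H P) (hT : ∀ r, T r ∈ TU (UU arm J B H P))
    (hsk : ∀ r, (T r)ᵀ = - T r) (hw : w ∈ CORR arm J B W H P) :
    aa arm J H T d w ∈ CORR arm J B W H P := by
  refine ⟨?_, fun v hv => ?_, fun p hp => ?_⟩
  · have := hm.real.onW w hw.1
    rwa [transpose_transpose] at this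
  · unfold aa
    rw [sub_mulVec, ← mulVec_mulVec]
    refine P.sub_mem ?_ (hw.2.1 _ (xt_mem_UU hT v))
    have e : w.map d *ᵥ v = dv d (w *ᵥ v) - w *ᵥ dv d v := by rw [dv_mulVec, add_sub_cancel_right]
    rw [e]
    exact P.sub_mem (hm.dP hD hP hT hsk (hw.2.1 v hv)) (hw.2.1 _ (hm.dUU hD hP hT hsk hv))
  · have e : ((aa arm J H T d w)ᵀ * J) *ᵥ p
        = (dv d ((wᵀ * J) *ᵥ p) - (xt arm J H T)ᵀ *ᵥ ((wᵀ * J) *ᵥ p))
          - (wᵀ * J) *ᵥ dv d p := by
      rw [dv_mulVec, map_mul_der, hD.J_const, Matrix.mul_zero, add_zero, map_transpose_der]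
      unfold aa
      rw [transpose_sub, Matrix.sub_mul, sub_mulVec, transpose_mul, mulVec_mulVec,
        Matrix.mul_assoc (xt arm J H T)ᵀ]
      abel
    rw [e]
    exact Submodule.sub_mem _ (hm.dUP hD hP hT hsk (hw.2.2 p hp))
      (hw.2.2 _ (hm.dP hD hP hT hsk hp))

/-! ### (4) the second derivative -/

/-- covariant derivative of a tensor on the `U`-side -/
def nab (arm : δ → Fin 3) (J : Matrix ι ι K) (H : Matrix ι δ K) (T : Fin 3 → Matrix δ δ K)
    (d : Derivation k K K) (S : Matrix δ δ K) : Matrix δ δ K :=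
  S.map d + xt arm J H T * S + S * (xt arm J H T)ᵀ

/-- `θ(S) = Σ_s F S_s F^T J F E_s` -/
def th (arm : δ → Fin 3) (J : Matrix ι ι K) (F : Matrix ι δ K) (S : Fin 3 → Matrix δ δ K) :
    Matrix ι δ K := ∑ s, F * S s * (Fᵀ * J * F) * E K arm s

theorem map_Q0 (hD : Data k arm J B N W) :
    (Fᵀ * J * F).map d = (aa arm J H T d F)ᵀ * J * F + (xt arm J H T)ᵀ * (Fᵀ * J * F)
      + Fᵀ * J * aa arm J H T d F + Fᵀ * J * F * xt arm J H T := by
  have e : F.map d = aa arm J H T d F + F * xt arm J H T := by unfold aa; abel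
  rw [map_mul_der, map_mul_der, hD.J_const, Matrix.mul_zero, add_zero, map_transpose_der, e,
    transpose_add, Matrix.add_mul, Matrix.add_mul, Matrix.mul_add, transpose_mul]
  simp only [Matrix.mul_assoc]
  abel

theorem xt_E (arm : δ → Fin 3) (s : Fin 3) :
    xt arm J H T * E K arm s = T s * (Hᵀ * J * H) * E K arm s := by
  unfold xt
  rw [Matrix.sum_mul, Finset.sum_eq_single s]
  · rw [Matrix.mul_assoc, E_mul_self]
  · intro r _ hr
    rw [Matrix.mul_assoc, E_mul_ne arm hr, Matrix.mul_zero]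
  · intro h
    exact absurd (Finset.mem_univ s) h

/-- (4) the second derivative: if `θ(S) - w ∈ N` then the derived element is in `N + w''`. -/
theorem Mv.second (hm : Mv arm J N W H T d) (hD : Data k arm J B N W)
    {S : Fin 3 → Matrix δ δ K} (hS : th arm J F S - w ∈ N) :
    ∑ s, (F * nab arm J H T d (S s) * (Fᵀ * J * F)
        + aa arm J H T d F * S s * (Fᵀ * J * F)
        + F * S s * ((aa arm J H T d F)ᵀ * J * F + Fᵀ * J * aa arm J H T d F)
        + F * S s * (Fᵀ * J * F) * T s * (Hᵀ * J * H)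
        - H * T s * Hᵀ * J * F * S s * (Fᵀ * J * F)
        - w * T s * (Hᵀ * J * H)
        + H * T s * Hᵀ * J * w) * E K arm s
      - aa arm J H T d w ∈ N := by
  have h := hm.real.onN _ hS
  have e1 : (th arm J F S).map d = ∑ s, (F * nab arm J H T d (S s) * (Fᵀ * J * F)
        + aa arm J H T d F * S s * (Fᵀ * J * F)
        + F * S s * ((aa arm J H T d F)ᵀ * J * F + Fᵀ * J * aa arm J H T d F)
        + F * S s * (Fᵀ * J * F) * T s * (Hᵀ * J * H)) * E K arm s := by
    unfold th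
    rw [map_sum_der]
    refine Finset.sum_congr rfl fun s _ => ?_
    have e : F.map d = aa arm J H T d F + F * xt arm J H T := by unfold aa; abel
    rw [map_mul_der, E_map_der, Matrix.mul_zero, add_zero, map_mul_der, map_mul_der,
      map_Q0 (F := F) (H := H) (T := T) (d := d) hD]
    have e2 : F * S s * (Fᵀ * J * F) * T s * (Hᵀ * J * H) * E K arm s
        = F * S s * (Fᵀ * J * F) * xt arm J H T * E K arm s := by
      rw [Matrix.mul_assoc _ (xt arm J H T), xt_E]
      simp only [Matrix.mul_assoc]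
    simp only [Matrix.add_mul, Matrix.mul_add] at e2 ⊢
    rw [e2]
    nth_rewrite 1 [e]
    unfold nab
    simp only [Matrix.add_mul, Matrix.mul_add, Matrix.mul_assoc]
    abel
  have e3 : act arm (XX J H T) (th arm J F S)
      = ∑ s, H * T s * Hᵀ * J * F * S s * (Fᵀ * J * F) * E K arm s := by
    rw [act_XX_gen]
    refine Finset.sum_congr rfl fun s _ => ?_
    unfold th
    rw [Matrix.mul_sum, Matrix.sum_mul, Finset.sum_eq_single s]
    · rw [← Matrix.mul_assoc, Matrix.mul_assoc _ (E K arm s) (E K arm s), E_mul_self]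
      simp only [Matrix.mul_assoc]
    · intro r _ hr
      rw [Matrix.mul_assoc, Matrix.mul_assoc _ (E K arm r), E_mul_ne arm hr, Matrix.mul_zero,
        Matrix.mul_zero]
    · intro h
      exact absurd (Finset.mem_univ s) h
  have e4 : w * xt arm J H T = ∑ s, w * T s * (Hᵀ * J * H) * E K arm s := by
    unfold xt
    rw [Matrix.mul_sum]
    exact Finset.sum_congr rfl fun s _ => by simp only [Matrix.mul_assoc]
  have e5 : act arm (XX J H T) (th arm J F S - w)
      = act arm (XX J H T) (th arm J F S) - act arm (XX J H T) w := by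
    unfold act
    rw [← Finset.sum_sub_distrib]
    exact Finset.sum_congr rfl fun s _ => by rw [Matrix.mul_sub, Matrix.sub_mul]
  rw [map_sub_der, e5, e3, e1, act_XX_gen] at h
  have e6 : w.map d = aa arm J H T d w + ∑ s, w * T s * (Hᵀ * J * H) * E K arm s := by
    rw [← e4]; unfold aa; abel
  rw [e6] at h
  refine (Submodule.add_mem_iff_left N (N.zero_mem)).1 ?_
  rw [add_zero]
  convert h using 1
  simp only [Matrix.add_mul, Matrix.sub_mul, Finset.sum_add_distrib, Finset.sum_sub_distrib]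
  abel

end Crest.Agent.R172.RD
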