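import Crest.Agent.R172.GR1
import Crest.Agent.R172.RD1

/-!
Row 172, TAME (T0), arbitrary radical: the filtered families are stable under the corrected
derivative of a motion (`GR3`).
-/

set_option autoImplicit false
set_option linter.unusedSectionVars false

namespace Crest.Agent.R172.GR

open Matrix FO RD

variable {ι : Type*} [Fintype ι] [DecidableEq ι] {δ : Type*} [Fintype δ] [DecidableEq δ]
variable {k K : Type*} [Field k] [Field K] [Algebra k K]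
variable {arm : δ → Fin 3} {J : Matrix ι ι K} {B : Matrix δ δ K}
  {N W : Submodule K (Matrix ι δ K)} {F G F1 F2 : Matrix ι δ K}
variable {n : Type*} [Fintype n] {P : n → Submodule K (ι → K)} {R : Submodule K (ι → K)}
  {lam : n → K}

/-! ### the linear choice of `b` -/

theorem exists_b (D : Derivation k K K) (P0 S : Submodule K (ι → K))
    (h : ∀ p ∈ P0, dv D p ∈ P0 ⊔ S) :
    ∃ b : Matrix ι ι K, ∀ p ∈ P0, b *ᵥ p ∈ S ∧ dv D p - b *ᵥ p ∈ P0 := by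
  classical
  set e := Module.finBasis K P0 with he
  have h1 : ∀ a, ∃ s ∈ S, dv D (e a : ι → K) - s ∈ P0 := by
    intro a
    obtain ⟨p, hp, s, hs, hps⟩ := Submodule.mem_sup.1 (h _ (e a).2)
    exact ⟨s, hs, by rw [← hps, add_sub_cancel_right]; exact hp⟩
  choose s hs hs' using h1
  set β : P0 →ₗ[K] (ι → K) := e.constr K s with hβ
  obtain ⟨g, hg⟩ := LinearMap.exists_extend β
  refine ⟨LinearMap.toMatrix' g, fun p hp => ?_⟩
  have e1 : LinearMap.toMatrix' g *ᵥ p = β ⟨p, hp⟩ := by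
    rw [← Matrix.toLin'_apply, Matrix.toLin'_toMatrix']
    exact LinearMap.congr_fun hg ⟨p, hp⟩
  have e2 : β ⟨p, hp⟩ = ∑ a, e.repr ⟨p, hp⟩ a • s a := by
    rw [hβ, Module.Basis.constr_apply_fintype]
    rfl
  have e3 : p = ∑ a, e.repr ⟨p, hp⟩ a • (e a : ι → K) := by
    have := congrArg Subtype.val (e.sum_repr ⟨p, hp⟩)
    rw [Submodule.coe_sum] at this
    exact this.symm
  have e4 : dv D p = ∑ a, (D (e.repr ⟨p, hp⟩ a) • (e a : ι → K)
      + e.repr ⟨p, hp⟩ a • dv D (e a : ι → K)) := by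
    nth_rewrite 1 [e3]
    rw [dv_sum]
    refine Finset.sum_congr rfl fun a _ => ?_
    ext i
    simp only [dv, Pi.smul_apply, smul_eq_mul, Derivation.leibniz, Pi.add_apply]
    ring
  rw [e1, e2]
  refine ⟨S.sum_mem fun a _ => S.smul_mem _ (hs a), ?_⟩
  rw [e4, ← Finset.sum_sub_distrib]
  refine P0.sum_mem fun a _ => ?_
  have e5 : D (e.repr ⟨p, hp⟩ a) • (e a : ι → K) + e.repr ⟨p, hp⟩ a • dv D (e a : ι → K)
      - e.repr ⟨p, hp⟩ a • s a = D (e.repr ⟨p, hp⟩ a) • (e a : ι → K)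
      + e.repr ⟨p, hp⟩ a • (dv D (e a : ι → K) - s a) := by
    rw [smul_sub]; abel
  rw [e5]
  exact P0.add_mem (P0.smul_mem _ (e a).2) (P0.smul_mem _ (hs' a))

/-! ### consequences of `Blk` -/

private theorem M_symm (hD : Data k arm J B N W) (F : Matrix ι δ K) (r : Fin 3) :
    (M arm B r F F)ᵀ = M arm B r F F := by
  unfold M
  rw [transpose_mul, transpose_mul, transpose_mul, transpose_transpose, E_transpose,
    hD.B_symm]
  simp only [Matrix.mul_assoc]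
  rw [← Matrix.mul_assoc B, ← hD.B_arm, Matrix.mul_assoc]

private theorem Phi_sa (hD : Data k arm J B N W) (F : Matrix ι δ K) (r : Fin 3) (v w : ι → K) :
    (Phi arm J B F r *ᵥ v) ⬝ᵥ (J *ᵥ w) = v ⬝ᵥ (J *ᵥ (Phi arm J B F r *ᵥ w)) := by
  have e1 : (Phi arm J B F r)ᵀ * J = J * Phi arm J B F r := by
    unfold Phi
    rw [transpose_mul, hD.J_symm, M_symm hD, Matrix.mul_assoc]
  have e2 : (Phi arm J B F r *ᵥ v) ⬝ᵥ (J *ᵥ w) = v ⬝ᵥ ((Phi arm J B F r)ᵀ *ᵥ (J *ᵥ w)) := by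
    rw [dotProduct_mulVec v, vecMul_transpose]
  rw [e2, mulVec_mulVec, e1, mulVec_mulVec]

private theorem J_sa (hD : Data k arm J B N W) (v w : ι → K) :
    v ⬝ᵥ (J *ᵥ w) = w ⬝ᵥ (J *ᵥ v) := by
  rw [dotProduct_comm v, dotProduct_mulVec w, ← mulVec_transpose, hD.J_symm]

/-- `(F u) · J p = u · (Fᵀ J) p` -/
private theorem F_adj (F : Matrix ι δ K) (u : δ → K) (p : ι → K) :
    (F *ᵥ u) ⬝ᵥ (J *ᵥ p) = u ⬝ᵥ ((Fᵀ * J) *ᵥ p) := by
  rw [← mulVec_mulVec, dotProduct_mulVec u, vecMul_transpose]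

theorem Blk.perp (h : Blk k arm J B N W F G P R lam) {i j : n} (hij : i ≠ j) {p q : ι → K}
    (hp : p ∈ P i) (hq : q ∈ P j) : p ⬝ᵥ (J *ᵥ q) = 0 := by
  obtain ⟨v, hv, hpv⟩ := h.pf i p hp
  set u : δ → K := ∑ r, (E K arm r * B * (Fᵀ * J)) *ᵥ v r with hu
  have h1 : F *ᵥ u = p := by
    rw [hu, mulVec_sum, hpv]
    refine Finset.sum_congr rfl fun r _ => ?_
    rw [mulVec_mulVec]
    unfold Phi M
    simp only [Matrix.mul_assoc]
  have h2 : G *ᵥ u = lam i • p := by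
    rw [hu, mulVec_sum, hpv, Finset.smul_sum]
    refine Finset.sum_congr rfl fun r _ => ?_
    have h3 := h.data.symm_arm h.memG h.memF r
    unfold M at h3
    have h4 : G * (E K arm r * B * (Fᵀ * J)) = F * E K arm r * B * (Gᵀ * J) := by
      calc G * (E K arm r * B * (Fᵀ * J)) = (G * E K arm r * B * Fᵀ) * J := by
            simp only [Matrix.mul_assoc]
        _ = (F * E K arm r * B * Gᵀ) * J := by rw [h3]
        _ = _ := by simp only [Matrix.mul_assoc]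
    rw [mulVec_mulVec, h4, ← mulVec_mulVec, h.eig i _ (hv r), mulVec_smul, mulVec_mulVec]
    unfold Phi M
    simp only [Matrix.mul_assoc]
  have h5 : lam i * (p ⬝ᵥ (J *ᵥ q)) = lam j * (p ⬝ᵥ (J *ᵥ q)) := by
    have e1 : (G *ᵥ u) ⬝ᵥ (J *ᵥ q) = lam j * (p ⬝ᵥ (J *ᵥ q)) := by
      rw [F_adj, h.eig j q hq, dotProduct_smul, ← F_adj, h1, smul_eq_mul]
    rw [h2, smul_dotProduct, smul_eq_mul] at e1
    exact e1
  have h6 : (lam i - lam j) * (p ⬝ᵥ (J *ᵥ q)) = 0 := by rw [sub_mul, h5, sub_self]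
  exact (mul_eq_zero.1 h6).resolve_left (sub_ne_zero.2 (h.ne i j hij))

theorem Blk.mem_R (h : Blk k arm J B N W F G P R lam) {j : n} {p : ι → K} (hp : p ∈ P j)
    (h0 : ∀ q ∈ P j, p ⬝ᵥ (J *ᵥ q) = 0) : p ∈ R := by
  classical
  have hs : ∑ l, (if l = j then p else 0) = p := by
    rw [Finset.sum_ite_eq' Finset.univ j, if_pos (Finset.mem_univ j)]
  have := h.Rmax (fun l => if l = j then p else 0) (fun l => by
    split_ifs with hl
    · rw [hl]; exact hp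
    · exact (P l).zero_mem) (fun m q hq => by
    rw [hs]
    by_cases hm : m = j
    · subst hm; exact h0 q hq
    · exact h.perp (Ne.symm hm) hp hq)
  rwa [hs] at this

theorem Blk.Phi_R (h : Blk k arm J B N W F G P R lam) (r : Fin 3) {ρ : ι → K} (hρ : ρ ∈ R) :
    Phi arm J B F r *ᵥ ρ ∈ R := by
  obtain ⟨v, hv, e⟩ := h.Rdec ρ hρ
  have e1 : Phi arm J B F r *ᵥ ρ = ∑ l, Phi arm J B F r *ᵥ v l := by rw [e, mulVec_sum]
  rw [e1]
  refine h.Rmax _ (fun l => h.st l r _ (hv l).1) fun m q hq => ?_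
  rw [← e1, Phi_sa h.data]
  exact h.rad ρ hρ m _ (h.st m r _ hq)

/-- the corrected derivative commutes with `Φ_r` up to a scalar modulo `R` -/
theorem Blk.nab_Phi (h : Blk k arm J B N W F G P R lam) {j : n} {D : Derivation k K K}
    (hz : F.map D ∈ ZW J W F P R) {b : Matrix ι ι K}
    (hb : ∀ p ∈ P j, b *ᵥ p ∈ R ∧ dv D p - b *ᵥ p ∈ P j) :
    ∃ μ : K, ∀ r, ∀ p ∈ P j, dv D (Phi arm J B F r *ᵥ p) - b *ᵥ (Phi arm J B F r *ᵥ p)
      - Phi arm J B F r *ᵥ (dv D p - b *ᵥ p) - μ • (Phi arm J B F r *ᵥ p) ∈ P j ⊓ R := by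
  obtain ⟨_, μ, hμ⟩ := hz
  refine ⟨2 * μ j, fun r p hp => ?_⟩
  have hΦp := h.st j r p hp
  have hmem : dv D (Phi arm J B F r *ᵥ p) - b *ᵥ (Phi arm J B F r *ᵥ p)
      - Phi arm J B F r *ᵥ (dv D p - b *ᵥ p) - (2 * μ j) • (Phi arm J B F r *ᵥ p) ∈ P j :=
    (P j).sub_mem ((P j).sub_mem (hb _ hΦp).2 (h.st j r _ (hb p hp).2)) ((P j).smul_mem _ hΦp)
  refine ⟨hmem, h.mem_R hmem fun q hq => ?_⟩
  obtain ⟨ρ, hρ, e1⟩ := hμ j p hp
  obtain ⟨ρ', hρ', e1'⟩ := hμ j q hq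
  -- derivative of `Φ_r p`
  have e2 : dv D (Phi arm J B F r *ᵥ p) = (F.map D * E K arm r * B) *ᵥ ((Fᵀ * J) *ᵥ p)
      + (F * E K arm r * B) *ᵥ (((F.map D)ᵀ * J) *ᵥ p) + Phi arm J B F r *ᵥ dv D p := by
    rw [dv_mulVec]
    congr 1
    unfold Phi M
    rw [map_mul_der, map_mul_der, map_mul_der, map_mul_der, h.data.B_const, E_map_der,
      map_transpose_der, h.data.J_const, mulVec_mulVec, mulVec_mulVec, ← add_mulVec]
    congr 1
    simp only [Matrix.mul_zero, add_zero, Matrix.add_mul, Matrix.mul_assoc]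
  have e3 : ((F.map D * E K arm r * B) *ᵥ ((Fᵀ * J) *ᵥ p)) ⬝ᵥ (J *ᵥ q)
      = μ j * ((Phi arm J B F r *ᵥ p) ⬝ᵥ (J *ᵥ q)) := by
    have e4 : ((F.map D * E K arm r * B) *ᵥ ((Fᵀ * J) *ᵥ p)) ⬝ᵥ (J *ᵥ q)
        = ((E K arm r * B) *ᵥ ((Fᵀ * J) *ᵥ p)) ⬝ᵥ (((F.map D)ᵀ * J) *ᵥ q) := by
      rw [← F_adj, Matrix.mul_assoc (F.map D), ← mulVec_mulVec]
    have e5 : (Phi arm J B F r *ᵥ p) = F *ᵥ ((E K arm r * B) *ᵥ ((Fᵀ * J) *ᵥ p)) := by
      rw [mulVec_mulVec, mulVec_mulVec]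
      unfold Phi M
      simp only [Matrix.mul_assoc]
    rw [e4, e1', dotProduct_add, dotProduct_smul, ← F_adj, ← F_adj, ← e5, smul_eq_mul,
      J_sa h.data (Phi arm J B F r *ᵥ p) ρ', h.rad ρ' hρ' j _ hΦp, add_zero]
  have e6 : (F * E K arm r * B) *ᵥ (((F.map D)ᵀ * J) *ᵥ p)
      = μ j • (Phi arm J B F r *ᵥ p) + Phi arm J B F r *ᵥ ρ := by
    rw [e1, mulVec_add, mulVec_smul, mulVec_mulVec, mulVec_mulVec]
    unfold Phi M
    simp only [Matrix.mul_assoc]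
  rw [e2, e6]
  have e7 : (F.map D * E K arm r * B) *ᵥ ((Fᵀ * J) *ᵥ p)
      + (μ j • (Phi arm J B F r *ᵥ p) + Phi arm J B F r *ᵥ ρ) + Phi arm J B F r *ᵥ dv D p
      - b *ᵥ (Phi arm J B F r *ᵥ p) - Phi arm J B F r *ᵥ (dv D p - b *ᵥ p)
      - (2 * μ j) • (Phi arm J B F r *ᵥ p)
      = (F.map D * E K arm r * B) *ᵥ ((Fᵀ * J) *ᵥ p) - μ j • (Phi arm J B F r *ᵥ p)
        + Phi arm J B F r *ᵥ ρ - b *ᵥ (Phi arm J B F r *ᵥ p)
        + Phi arm J B F r *ᵥ (b *ᵥ p) := by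
    rw [mulVec_sub, two_mul, add_smul]
    abel
  rw [e7, add_dotProduct, sub_dotProduct, add_dotProduct, sub_dotProduct, e3, smul_dotProduct,
    smul_eq_mul, sub_self, zero_add, h.rad _ (h.Phi_R r hρ) j q hq,
    h.rad _ (hb _ hΦp).1 j q hq, h.rad _ (h.Phi_R r (hb p hp).1) j q hq]
  simp

theorem Blk.nab_pow (h : Blk k arm J B N W F G P R lam) {j : n} {D : Derivation k K K}
    (hz : F.map D ∈ ZW J W F P R) {b : Matrix ι ι K}
    (hb : ∀ p ∈ P j, b *ᵥ p ∈ R ∧ dv D p - b *ᵥ p ∈ P j) (r : Fin 3) (m : ℕ) :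
    ∃ μ : K, ∀ p ∈ P j, dv D ((Phi arm J B F r ^ m) *ᵥ p) - b *ᵥ ((Phi arm J B F r ^ m) *ᵥ p)
      - (Phi arm J B F r ^ m) *ᵥ (dv D p - b *ᵥ p) - μ • ((Phi arm J B F r ^ m) *ᵥ p)
        ∈ P j ⊓ R := by
  obtain ⟨μ, hμ⟩ := h.nab_Phi hz hb
  induction m with
  | zero =>
    refine ⟨0, fun p _ => ?_⟩
    simp only [pow_zero, one_mulVec, zero_smul, sub_self]
    exact Submodule.zero_mem _
  | succ m ih =>
    obtain ⟨μ', hμ'⟩ := ih
    refine ⟨μ' + μ, fun p hp => ?_⟩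
    have hpow : ∀ m : ℕ, ∀ p ∈ P j, (Phi arm J B F r ^ m) *ᵥ p ∈ P j := by
      intro m
      induction m with
      | zero => intro p hp; simpa using hp
      | succ m ih =>
        intro p hp
        rw [pow_succ', ← mulVec_mulVec]
        exact h.st j r _ (ih p hp)
    have h1 := hμ r _ (hpow m p hp)
    have h2 := hμ' p hp
    have h3 : Phi arm J B F r *ᵥ (dv D ((Phi arm J B F r ^ m) *ᵥ p)
        - b *ᵥ ((Phi arm J B F r ^ m) *ᵥ p)
        - (Phi arm J B F r ^ m) *ᵥ (dv D p - b *ᵥ p)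
        - μ' • ((Phi arm J B F r ^ m) *ᵥ p)) ∈ P j ⊓ R :=
      ⟨h.st j r _ h2.1, h.Phi_R r h2.2⟩
    have h4 := Submodule.add_mem _ h1 h3
    convert h4 using 1
    simp only [pow_succ', ← mulVec_mulVec, mulVec_sub, mulVec_smul, add_smul]
    abel

/-! ### the filtered families -/

/-- `F_r = span {Φ^b p₂ ⊗ Φ^a p₁ : a+b+1 = l} + R_j ⊗ P_i + P_j ⊗ R_i` -/
def FF (arm : δ → Fin 3) (J : Matrix ι ι K) (B : Matrix δ δ K) (F : Matrix ι δ K)
    (Pi Pj R : Submodule K (ι → K)) (l : ℕ) (r : Fin 3) : Submodule K (Matrix ι ι K) :=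
  Submodule.span K ({y | ∃ a b : ℕ, a + b + 1 = l ∧ ∃ p1 ∈ Pi, ∃ p2 ∈ Pj,
      y = vecMulVec ((Phi arm J B F r ^ b) *ᵥ p2) ((Phi arm J B F r ^ a) *ᵥ p1)}
    ∪ {y | ∃ ρ ∈ Pj ⊓ R, ∃ p1 ∈ Pi, y = vecMulVec ρ p1}
    ∪ {y | ∃ p2 ∈ Pj, ∃ ρ ∈ Pi ⊓ R, y = vecMulVec p2 ρ})

section

variable {Pi Pj : Submodule K (ι → K)} {l : ℕ} {r : Fin 3}

theorem FF_core {a b : ℕ} (hab : a + b + 1 = l) {p1 p2 : ι → K} (h1 : p1 ∈ Pi) (h2 : p2 ∈ Pj) :
    vecMulVec ((Phi arm J B F r ^ b) *ᵥ p2) ((Phi arm J B F r ^ a) *ᵥ p1)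
      ∈ FF arm J B F Pi Pj R l r :=
  Submodule.subset_span (Or.inl (Or.inl ⟨a, b, hab, p1, h1, p2, h2, rfl⟩))

theorem FF_left {ρ p1 : ι → K} (h2 : ρ ∈ Pj ⊓ R) (h1 : p1 ∈ Pi) :
    vecMulVec ρ p1 ∈ FF arm J B F Pi Pj R l r :=
  Submodule.subset_span (Or.inl (Or.inr ⟨ρ, h2, p1, h1, rfl⟩))

theorem FF_right {ρ p2 : ι → K} (h2 : p2 ∈ Pj) (h1 : ρ ∈ Pi ⊓ R) :
    vecMulVec p2 ρ ∈ FF arm J B F Pi Pj R l r :=
  Submodule.subset_span (Or.inr ⟨p2, h2, ρ, h1, rfl⟩)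

end

private theorem map_vecMulVec (D : Derivation k K K) (v w : ι → K) :
    (vecMulVec v w).map D = vecMulVec (dv D v) w + vecMulVec v (dv D w) := by
  ext a c
  simp only [map_apply, vecMulVec_apply, Matrix.add_apply, Derivation.leibniz, smul_eq_mul, dv]
  ring

theorem nab_vecMulVec (D : Derivation k K K) (b b1 : Matrix ι ι K) (v w : ι → K) :
    (vecMulVec v w).map D - b * vecMulVec v w - vecMulVec v w * b1ᵀ
      = vecMulVec (dv D v - b *ᵥ v) w + vecMulVec v (dv D w - b1 *ᵥ w) := by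
  rw [map_vecMulVec]
  have e1 : b * vecMulVec v w = vecMulVec (b *ᵥ v) w := by
    ext a c
    simp only [Matrix.mul_apply, vecMulVec_apply, mulVec, dotProduct, Finset.sum_mul]
    exact Finset.sum_congr rfl fun x _ => by ring
  have e2 : vecMulVec v w * b1ᵀ = vecMulVec v (b1 *ᵥ w) := by
    ext a c
    simp only [Matrix.mul_apply, vecMulVec_apply, mulVec, dotProduct, transpose_apply,
      Finset.mul_sum]
    exact Finset.sum_congr rfl fun x _ => by ring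
  rw [e1, e2, sub_vecMulVec, vecMulVec_sub]
  abel

/-- **GR3**: the filtered families are stable under the corrected derivative. -/
theorem Blk.fil (h : Blk k arm J B N W F G P R lam) {i j : n} {D : Derivation k K K}
    (hz : F.map D ∈ ZW J W F P R) (hdR : ∀ ρ ∈ R, dv D ρ ∈ R) {b b1 : Matrix ι ι K}
    (hb : ∀ p ∈ P j, b *ᵥ p ∈ R ∧ dv D p - b *ᵥ p ∈ P j)
    (hb1 : ∀ p ∈ P i, b1 *ᵥ p ∈ R ∧ dv D p - b1 *ᵥ p ∈ P i) {l : ℕ} {r : Fin 3}
    {y : Matrix ι ι K} (hy : y ∈ FF arm J B F (P i) (P j) R l r) :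
    y.map D - b * y - y * b1ᵀ ∈ FF arm J B F (P i) (P j) R l r := by
  have hpow : ∀ m : n, ∀ c : ℕ, ∀ p ∈ P m, (Phi arm J B F r ^ c) *ᵥ p ∈ P m := by
    intro m c
    induction c with
    | zero => intro p hp; simpa using hp
    | succ c ih =>
      intro p hp
      rw [pow_succ', ← mulVec_mulVec]
      exact h.st m r _ (ih p hp)
  refine Submodule.span_induction (p := fun y _ => y.map D - b * y - y * b1ᵀ
    ∈ FF arm J B F (P i) (P j) R l r) ?_ ?_ ?_ ?_ hy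
  · rintro y ((⟨a, c, hac, p1, hp1, p2, hp2, rfl⟩ | ⟨ρ, hρ, p1, hp1, rfl⟩) |
      ⟨p2, hp2, ρ, hρ, rfl⟩)
    · rw [nab_vecMulVec]
      obtain ⟨μ, hμ⟩ := h.nab_pow hz hb r c
      obtain ⟨μ', hμ'⟩ := h.nab_pow hz hb1 r a
      have h1 := hμ p2 hp2
      have h2 := hμ' p1 hp1
      set x := dv D ((Phi arm J B F r ^ c) *ᵥ p2) - b *ᵥ ((Phi arm J B F r ^ c) *ᵥ p2) with hx
      set x' := dv D ((Phi arm J B F r ^ a) *ᵥ p1) - b1 *ᵥ ((Phi arm J B F r ^ a) *ᵥ p1) with hx'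
      have e1 : x = (Phi arm J B F r ^ c) *ᵥ (dv D p2 - b *ᵥ p2)
          + μ • ((Phi arm J B F r ^ c) *ᵥ p2)
          + (x - (Phi arm J B F r ^ c) *ᵥ (dv D p2 - b *ᵥ p2)
            - μ • ((Phi arm J B F r ^ c) *ᵥ p2)) := by abel
      have e2 : x' = (Phi arm J B F r ^ a) *ᵥ (dv D p1 - b1 *ᵥ p1)
          + μ' • ((Phi arm J B F r ^ a) *ᵥ p1)
          + (x' - (Phi arm J B F r ^ a) *ᵥ (dv D p1 - b1 *ᵥ p1)
            - μ' • ((Phi arm J B F r ^ a) *ᵥ p1)) := by abel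
      refine Submodule.add_mem _ ?_ ?_
      · rw [e1, add_vecMulVec, add_vecMulVec]
        refine Submodule.add_mem _ (Submodule.add_mem _ ?_ ?_) ?_
        · exact FF_core hac hp1 (hb p2 hp2).2
        · rw [smul_vecMulVec]
          exact Submodule.smul_mem _ _ (FF_core hac hp1 hp2)
        · exact FF_left h1 (hpow i a p1 hp1)
      · rw [e2, vecMulVec_add, vecMulVec_add]
        refine Submodule.add_mem _ (Submodule.add_mem _ ?_ ?_) ?_
        · exact FF_core hac (hb1 p1 hp1).2 hp2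
        · rw [vecMulVec_smul]
          exact Submodule.smul_mem _ _ (FF_core hac hp1 hp2)
        · exact FF_right (hpow j c p2 hp2) h2
    · rw [nab_vecMulVec]
      refine Submodule.add_mem _ ?_ ?_
      · exact FF_left ⟨(hb ρ hρ.1).2, R.sub_mem (hdR ρ hρ.2) (hb ρ hρ.1).1⟩ hp1
      · exact FF_left hρ (hb1 p1 hp1).2
    · rw [nab_vecMulVec]
      refine Submodule.add_mem _ ?_ ?_
      · exact FF_right (hb p2 hp2).2 hρ
      · exact FF_right hp2 ⟨(hb1 ρ hρ.1).2, R.sub_mem (hdR ρ hρ.2) (hb1 ρ hρ.1).1⟩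
  · simp only [Matrix.mul_zero, Matrix.zero_mul, sub_zero]
    have : (0 : Matrix ι ι K).map D = 0 := by ext; simp
    rw [this]
    exact Submodule.zero_mem _
  · intro y y' _ _ hy hy'
    have e : (y + y').map D - b * (y + y') - (y + y') * b1ᵀ
        = (y.map D - b * y - y * b1ᵀ) + (y'.map D - b * y' - y' * b1ᵀ) := by
      rw [map_add_der, Matrix.mul_add, Matrix.add_mul]; abel
    rw [e]
    exact Submodule.add_mem _ hy hy'
  · intro c y hy hy'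
    have e : (c • y).map D - b * (c • y) - (c • y) * b1ᵀ
        = D c • y + c • (y.map D - b * y - y * b1ᵀ) := by
      ext a a'
      simp only [Matrix.sub_apply, map_apply, Matrix.smul_apply, smul_eq_mul, Derivation.leibniz,
        Matrix.mul_smul, Matrix.smul_mul, Matrix.add_apply]
      ring
    rw [e]
    exact Submodule.add_mem _ (Submodule.smul_mem _ _ hy) (Submodule.smul_mem _ _ hy')

/-- **GR3** for a motion. -/
theorem Mot.fil (hB : Blk k arm J B N W F G P R lam) {i j : n} {c : K}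
    {x' : Fin 3 → Matrix ι ι K} {D' : Derivation k K K}
    (hm : Mot k arm J B N W F F1 F2 P R i j c x' D') {b b1 : Matrix ι ι K}
    (hb : ∀ p ∈ P j, b *ᵥ p ∈ P i ⊓ R ∧ (fun a => D' (p a)) - b *ᵥ p ∈ P j)
    (hb1 : ∀ p ∈ P i, b1 *ᵥ p ∈ P j ⊓ R ∧ (fun a => D' (p a)) - b1 *ᵥ p ∈ P i)
    {l : Fin 3 → ℕ} {y : Fin 3 → Matrix ι ι K}
    (hy : ∀ r, y r ∈ FF arm J B F (P i) (P j) R (l r) r) (r : Fin 3) :
    (y r).map D' - b * y r - y r * b1ᵀ ∈ FF arm J B F (P i) (P j) R (l r) r :=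
  hB.fil hm.zF hm.dR (fun p hp => ⟨(hb p hp).1.2, (hb p hp).2⟩)
    (fun p hp => ⟨(hb1 p hp).1.2, (hb1 p hp).2⟩) (hy r)

/-- the choice of `b` (on `P_j`) for a motion -/
theorem Mot.exists_b {i j : n} {c : K} {x' : Fin 3 → Matrix ι ι K} {D' : Derivation k K K}
    (hm : Mot k arm J B N W F F1 F2 P R i j c x' D') :
    ∃ b : Matrix ι ι K, ∀ p ∈ P j, b *ᵥ p ∈ P i ⊓ R ∧ (fun a => D' (p a)) - b *ᵥ p ∈ P j :=
  GR.exists_b D' (P j) (P i ⊓ R) hm.bj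

/-- the choice of `b₁` (on `P_i`) for a motion -/
theorem Mot.exists_b1 {i j : n} {c : K} {x' : Fin 3 → Matrix ι ι K} {D' : Derivation k K K}
    (hm : Mot k arm J B N W F F1 F2 P R i j c x' D') :
    ∃ b : Matrix ι ι K, ∀ p ∈ P i, b *ᵥ p ∈ P j ⊓ R ∧ (fun a => D' (p a)) - b *ᵥ p ∈ P i :=
  GR.exists_b D' (P i) (P j ⊓ R) hm.bi

end Crest.Agent.R172.GR
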