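import Crest.Agent.R172.Pt3
import Crest.Agent.R172.GR1c

/-!
Row 172 (S0260), TAME node (T0), arbitrary radical: `HomZ` of `GR1` at a generic `H = α F + β G`.

* `homZ_abs`: abstract (any `V`, `Φ`, `DerR`, `T Φ = T Φ₀`).
* `homZ`: for `H = α • F + β • G` generic.
* `gh`: the structure `GR.GH`.
-/

set_option autoImplicit false
set_option linter.unusedSectionVars false

namespace Crest.Agent.R172.Pt

open Matrix Module Crest.Agent.R172.FO Crest.Agent.R172.St Crest.Agent.R172.QN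
open Crest.Agent.R172.Core (NS BM cp Pres cp_coe)

section abs

variable {K : Type*} [Field K] {V : Type*} [AddCommGroup V] [Module K V] {κ : Type*}
variable {b : LinearMap.BilinForm K V} {Φ Φ0 : κ → End K V}

theorem homZ_abs [FiniteDimensional K V] [IsAlgClosed K] [CharZero K] [Fintype κ] (hB : NS b)
    (hΦ : ∀ s, Sa b (Φ s)) (hnil : ∃ m, ∀ s, Φ s ^ m = 0) (hsum : ∀ v, ∑ s, Φ s v = 0)
    (hDer : Core.DerR b Φ) (hT : T Φ = T Φ0) (C : St.Core b Φ0) {D : End K C.M}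
    (hDB : ∀ v w, BM C (D v) w = BM C v (D w))
    (hDΦ : ∀ s v, D (cp C (Φ s) v) = cp C (Φ s) (D v)) {nu : K}
    {P R S : Submodule K V} (hP : P ≤ Tp b Φ0) (hst : ∀ r, ∀ p ∈ P, Φ r p ∈ P)
    (hpf : ∀ p ∈ P, ∃ q : κ → V, (∀ r, q r ∈ P) ∧ p = ∑ r, Φ r (q r))
    (hsurj : ∀ m ∈ D.maxGenEigenspace nu, ∃ p ∈ P, CP.pM C p = m)
    (hπ : ∀ p ∈ P, CP.pM C p ∈ D.maxGenEigenspace nu)
    (hRT : R ≤ T Φ0) (hRp : R ≤ Tp b Φ0) (hTR : Tp b Φ0 ⊓ T Φ0 ≤ R)
    (hPS : P ≤ S) (hSP : S ≤ P ⊔ R)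
    (f : P →ₗ[K] V ⧸ S)
    (hf : ∀ r (p p' : P) (v : V), (p' : V) = Φ r p → f p = S.mkQ v → f p' = S.mkQ (Φ r v)) :
    f = 0 := by
  -- the perfectness step
  have step : ∀ (X Y : Submodule K V), (∀ r, ∀ v ∈ X, Φ r v ∈ Y) →
      (∀ p : P, ∃ v ∈ X, f p = S.mkQ v) → ∀ p : P, ∃ v ∈ Y, f p = S.mkQ v := by
    intro X Y hXY hX p
    obtain ⟨q, hq, hpq⟩ := hpf p p.2
    choose g hg1 hg2 using fun r => hX ⟨q r, hq r⟩
    refine ⟨∑ r, Φ r (g r), Y.sum_mem fun r _ => hXY r _ (hg1 r), ?_⟩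
    have e : p = ∑ r, (⟨Φ r (q r), hst r _ (hq r)⟩ : P) := by
      apply Subtype.ext
      rw [AddSubmonoidClass.coe_finsetSum, hpq]
    conv_lhs => rw [e]
    rw [map_sum, map_sum]
    exact Finset.sum_congr rfl fun r _ => hf r ⟨q r, hq r⟩ _ _ rfl (hg2 r)
  -- (1) the values are in `Tp`
  have h1 : ∀ m, ∀ p : P, ∃ v ∈ PL.Wk Φ m, f p = S.mkQ v := by
    intro m
    induction m with
    | zero =>
      intro p
      obtain ⟨v, hv⟩ := S.mkQ_surjective (f p)
      exact ⟨v, Submodule.mem_top, hv.symm⟩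
    | succ m ih => exact step _ _ (fun r v hv => PL.Wk_succ_mem hv r) ih
  obtain ⟨m0, hm0⟩ := T_eq_Nk Φ
  have h2 : ∀ p : P, ∃ v ∈ Tp b Φ0, f p = S.mkQ v := by
    intro p
    obtain ⟨v, hv, hfv⟩ := h1 m0 p
    refine ⟨v, ?_, hfv⟩
    rw [mem_Tp]
    intro u hu
    rw [← hT, hm0] at hu
    exact Wk_orth hΦ m0 v hv u hu
  -- (2) the map into the core
  obtain ⟨n0, hn0⟩ : ∃ n0 : ℕ, D.maxGenEigenspace nu = LinearMap.ker ((D - nu • 1) ^ n0) := by
    refine ⟨D.maxGenEigenspaceIndex nu, ?_⟩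
    rw [Module.End.maxGenEigenspace_eq, Module.End.genEigenspace_nat]
  set L : End K C.M := (D - nu • 1) ^ n0 with hL
  have hLΦ : ∀ r v, L (cp C (Φ r) v) = cp C (Φ r) (L v) := by
    intro r v
    have hc : Commute (D - nu • 1) (cp C (Φ r)) := by
      apply LinearMap.ext
      intro w
      change D (cp C (Φ r) w) - nu • (cp C (Φ r) w) = cp C (Φ r) (D w - nu • w)
      rw [hDΦ, map_sub, map_smul]
    exact LinearMap.congr_fun (hc.pow_left n0) v
  have hSk : S ≤ LinearMap.ker (L ∘ₗ CP.pM C) := by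
    intro s hs
    obtain ⟨p, hp, ρ, hρ, rfl⟩ := Submodule.mem_sup.1 (hSP hs)
    rw [LinearMap.mem_ker, LinearMap.comp_apply, map_add,
      (CP.pM_eq_zero C (hRp hρ)).2 (hRT hρ), add_zero]
    have := hπ p hp
    rw [hn0] at this
    exact this
  set z : P →ₗ[K] C.M := (S.liftQ (L ∘ₗ CP.pM C) hSk) ∘ₗ f with hz
  have hzv : ∀ (p : P) (v : V), f p = S.mkQ v → z p = L (CP.pM C v) := by
    intro p v h
    rw [hz, LinearMap.comp_apply, h, Submodule.mkQ_apply, Submodule.liftQ_apply,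
      LinearMap.comp_apply]
  have hpM : ∀ r v, v ∈ Tp b Φ0 → CP.pM C (Φ r v) = cp C (Φ r) (CP.pM C v) := by
    intro r v hv
    apply Subtype.ext
    rw [CP.pM_coe, cp_coe, CP.pM_coe]
    exact (Core.pi_pres C (pres_of_T hΦ hT r) hv).symm
  have h3 : ∀ p : P, z p ∈ D.maxGenEigenspace nu := by
    refine hom_abs hB hΦ hnil hsum hDer hT C hDB hDΦ hP hst hsurj hπ z ?_
    intro r p p' hp
    obtain ⟨v, hv, hfv⟩ := h2 p
    rw [hzv p v hfv, hzv p' _ (hf r p p' v hp hfv), hpM r v hv, hLΦ]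
  have hn1 : ∀ x : C.M, L (L x) = 0 → L x = 0 := by
    intro x hx
    have : x ∈ D.maxGenEigenspace nu := by
      rw [Module.End.mem_maxGenEigenspace]
      refine ⟨n0 + n0, ?_⟩
      rw [pow_add]
      exact hx
    rw [hn0] at this
    exact this
  -- (3) the values are in `R`
  have h4 : ∀ p : P, ∃ v ∈ R, f p = S.mkQ v := by
    intro p
    obtain ⟨v, hv, hfv⟩ := h2 p
    have h5 := h3 p
    rw [hn0, hzv p v hfv] at h5
    have h6 : CP.pM C v ∈ D.maxGenEigenspace nu := by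
      rw [hn0]
      exact hn1 _ h5
    obtain ⟨q, hq, hqv⟩ := hsurj _ h6
    have h7 : v - q ∈ R := by
      apply hTR
      have h8 : v - q ∈ Tp b Φ0 := Submodule.sub_mem _ hv (hP hq)
      refine ⟨h8, (CP.pM_eq_zero C h8).1 ?_⟩
      rw [map_sub, hqv, sub_self]
    refine ⟨v - q, h7, ?_⟩
    rw [hfv, map_sub, show S.mkQ q = 0 from (Submodule.Quotient.mk_eq_zero S).2 (hPS hq), sub_zero]
  -- (4) nilpotency
  have h5 : ∀ j, j ≤ m0 → ∀ p : P, ∃ v ∈ Nk Φ (m0 - j), f p = S.mkQ v := by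
    intro j
    induction j with
    | zero =>
      intro _ p
      obtain ⟨v, hv, hfv⟩ := h4 p
      refine ⟨v, ?_, hfv⟩
      rw [Nat.sub_zero, ← hm0, hT]
      exact hRT hv
    | succ j ih =>
      intro hj
      refine step (Nk Φ (m0 - j)) _ (fun r v hv => ?_) (ih (by omega))
      have e : m0 - j = (m0 - (j + 1)) + 1 := by omega
      rw [e] at hv
      exact mem_Nk_succ.1 hv r
  apply LinearMap.ext
  intro p
  obtain ⟨v, hv, hfv⟩ := h5 m0 le_rfl p
  rw [Nat.sub_self, mem_Nk_zero] at hv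
  rw [hfv, hv, map_zero, LinearMap.zero_apply]

end abs

section core

variable {ι : Type*} [Fintype ι] [DecidableEq ι] {δ : Type*} [Fintype δ] [DecidableEq δ]
variable {k K : Type*} [Field k] [Field K] [Algebra k K]
variable {arm : δ → Fin 3} {J : Matrix ι ι K} {B : Matrix δ δ K}
  {N W : Submodule K (Matrix ι δ K)} {F G : Matrix ι δ K}

theorem Ph_ab (hD : Data k arm J B N W) (hF : F ∈ N ⊓ W) (hG : G ∈ N ⊓ W) (α β : K)
    (r : Fin 3) : DerG.Ph arm J B (α • F + β • G) r = (α * α) • DerG.Ph arm J B F r +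
      (2 * (α * β)) • toLin' (Psi arm J B F G r) + (β * β) • DerG.Ph arm J B G r := by
  have h1 : Phi arm J B (α • F + β • G) r = (α * α) • Phi arm J B F r +
      (2 * (α * β)) • Psi arm J B F G r + (β * β) • Phi arm J B G r := by
    have h2 := Psi_comm (J := J) hD hF hG r
    have e : Phi arm J B (α • F + β • G) r = (α * α) • Phi arm J B F r +
        (α * β) • Psi arm J B F G r + (α * β) • Psi arm J B G F r +
        (β * β) • Phi arm J B G r := by
      unfold Phi Psi M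
      rw [transpose_add, transpose_smul, transpose_smul, Matrix.mul_add, Matrix.mul_smul,
        Matrix.mul_smul]
      simp only [Matrix.add_mul, Matrix.smul_mul, smul_add, smul_smul, mul_comm β α]
      abel
    rw [e, ← h2, two_mul, add_smul]
    abel
  unfold DerG.Ph
  rw [h1, map_add, map_add, map_smul, map_smul, map_smul]

variable (C : St.Core (DerG.BJ J) (DerG.Ph arm J B F)) {D : End K C.M}

theorem cp_ab_comm [CharZero K] (hD : Data k arm J B N W) (hF : Generic k arm N W F)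
    (hG : G ∈ N ⊓ W)
    (hDΦ : ∀ r v, D (cp C (DerG.Ph arm J B F r) v) = cp C (DerG.Ph arm J B F r) (D v))
    (hrel : ∀ r v, cp C (toLin' (Psi arm J B F G r)) v = cp C (DerG.Ph arm J B F r) (D v))
    (α β : K) (r : Fin 3) (v : C.M) :
    D (cp C (DerG.Ph arm J B (α • F + β • G) r) v) =
      cp C (DerG.Ph arm J B (α • F + β • G) r) (D v) := by
  rw [Ph_ab hD hF.mem hG, cp_add, cp_add, cp_smul, cp_smul, cp_smul]
  simp only [LinearMap.add_apply, LinearMap.smul_apply, hrel,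
    cp_GG C hD hF hG hDΦ hrel, map_add, map_smul, hDΦ]

/-- **`HomZ`** at the generic element `H = α F + β G`. -/
theorem homZ [IsAlgClosed K] [CharZero K] (hD : Data k arm J B N W)
    (hF : Generic k arm N W F) (hG : G ∈ N ⊓ W) {H : Matrix ι δ K} {α β : K}
    (hHe : H = α • F + β • G) (hH : Generic k arm N W H)
    (hnil : ∃ m, ∀ r, DerG.Ph arm J B H r ^ m = 0)
    (C : St.Core (DerG.BJ J) (DerG.Ph arm J B F)) {D : End K C.M}
    (hDB : ∀ v w, BM C (D v) w = BM C v (D w))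
    (hDΦ : ∀ r v, D (cp C (DerG.Ph arm J B F r) v) = cp C (DerG.Ph arm J B F r) (D v))
    (hrel : ∀ r v, cp C (toLin' (Psi arm J B F G r)) v = cp C (DerG.Ph arm J B F r) (D v))
    {nu : K} {P R S : Submodule K (ι → K)} (hP : P ≤ Tp (DerG.BJ J) (DerG.Ph arm J B F))
    (hst : ∀ r, ∀ p ∈ P, Phi arm J B H r *ᵥ p ∈ P)
    (hpf : ∀ p ∈ P, ∃ q : Fin 3 → ι → K, (∀ r, q r ∈ P) ∧ p = ∑ r, Phi arm J B H r *ᵥ q r)
    (hsurj : ∀ m ∈ D.maxGenEigenspace nu, ∃ p ∈ P, CP.pM C p = m)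
    (hπ : ∀ p ∈ P, CP.pM C p ∈ D.maxGenEigenspace nu)
    (hR : R = Tp (DerG.BJ J) (DerG.Ph arm J B F) ⊓ T (DerG.Ph arm J B F))
    (hPS : P ≤ S) (hSP : S ≤ P ⊔ R) : GR.HomZ (Phi arm J B H) P S := by
  intro f hf
  refine homZ_abs (Φ := DerG.Ph arm J B H) (ns_BJ hD.J_symm hD.J_unit) (sa_Ph hD hH.mem) hnil
    (sum_Ph hD hH.mem) (DerG.derR hD hH) (T_eq hD hF hH) C hDB ?_ hP ?_ ?_ hsurj hπ ?_ ?_ ?_
    hPS hSP f ?_
  · intro r v
    rw [hHe]
    exact cp_ab_comm C hD hF hG hDΦ hrel α β r v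
  · intro r p hp
    rw [DerG.Ph_apply]
    exact hst r p hp
  · intro p hp
    obtain ⟨q, hq, e⟩ := hpf p hp
    refine ⟨q, hq, ?_⟩
    simp only [DerG.Ph_apply]
    exact e
  · rw [hR]; exact inf_le_right
  · rw [hR]; exact inf_le_left
  · rw [hR]
  · intro r p p' v hp hfv
    rw [DerG.Ph_apply] at hp
    rw [DerG.Ph_apply]
    exact hf r p p' v hp hfv

end core

section gh

variable {ι : Type*} [Fintype ι] [DecidableEq ι] {δ : Type*} [Fintype δ] [DecidableEq δ]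
variable {k K : Type*} [Field k] [Field K] [Algebra k K]
variable {arm : δ → Fin 3} {J : Matrix ι ι K} {B : Matrix δ δ K}
  {N W : Submodule K (Matrix ι δ K)} {F G : Matrix ι δ K}
variable {n : Type*} [Fintype n] {P : n → Submodule K (ι → K)} {R : Submodule K (ι → K)}
  {lam : n → K} {i j : n}

/-- **the structure `GR.GH`** from genericity of `H = a F₁ + g F₂` -/
theorem gh [IsAlgClosed K] [CharZero K] (h : GR.Blk k arm J B N W F G P R lam)
    (hF : Generic k arm N W F)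
    (C : St.Core (DerG.BJ J) (DerG.Ph arm J B F)) {D : End K C.M}
    (hDB : ∀ v w, BM C (D v) w = BM C v (D w))
    (hDΦ : ∀ r v, D (cp C (DerG.Ph arm J B F r) v) = cp C (DerG.Ph arm J B F r) (D v))
    (hrel : ∀ r v, cp C (toLin' (Psi arm J B F G r)) v = cp C (DerG.Ph arm J B F r) (D v))
    (hP : ∀ m, P m ≤ Tp (DerG.BJ J) (DerG.Ph arm J B F))
    (hsurj : ∀ m, ∀ x ∈ D.maxGenEigenspace (lam m), ∃ p ∈ P m, CP.pM C p = x)
    (hπ : ∀ m, ∀ p ∈ P m, CP.pM C p ∈ D.maxGenEigenspace (lam m))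
    (hR : R = Tp (DerG.BJ J) (DerG.Ph arm J B F) ⊓ T (DerG.Ph arm J B F))
    {a g : K} (gen : Generic k arm N W (a • (G - lam j • F) + g • (G - lam i • F)))
    (nz : ∀ m, a * (lam m - lam j) + g * (lam m - lam i) ≠ 0)
    (hnil : ∃ m, ∀ r,
      DerG.Ph arm J B (a • (G - lam j • F) + g • (G - lam i • F)) r ^ m = 0) :
    GR.GH k arm J B N W F G P R lam i j a g where
  gen := gen
  nz := nz
  hz := by
    intro m S hPS hSP _
    refine homZ h.data hF h.memG (α := -(a * lam j + g * lam i)) (β := a + g) ?_ gen hnil C hDB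
      hDΦ hrel (hP m) ?_ ?_ (hsurj m) (hπ m) hR hPS hSP
    · rw [smul_sub, smul_sub, smul_smul, smul_smul, neg_smul, add_smul, add_smul]
      abel
    · intro r p hp
      exact (h.stU (h.memH i j a g) (fun q hq => h.eigH i j a g m hq) r hp).2
    · intro p hp
      exact h.pfU (h.memH i j a g) (nz m) (fun q hq => h.eigH i j a g m hq) hp

end gh

end Crest.Agent.R172.Pt
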