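import Crest.Agent.R172.EndP
import Crest.Agent.R172.Fin3

/-!
Row 172, TAME (T0), arbitrary radical: the passage `(F, G) ↦ (F1, F2)` and the SIGN TRICK.

* `Bl`: one block `P` (perfect, `Gᵀ J p = lam Fᵀ J p`).
* `Bl.der_lam`: a vertical derivation with `dF = G`, `dG = 0` has `d lam = - lam²`.
* `generic_twist`: `F + s G`, `s = -(2+t(l1+l2))/(l1+l2+2 t l1 l2)`, is generic; its parameter is `-c(t)`.
-/

set_option autoImplicit false
set_option linter.unusedSectionVars false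

namespace Crest.Agent.R172.GRP

open Matrix Module Crest.Agent.R172.FO

variable {ι : Type*} [Fintype ι] [DecidableEq ι] {δ : Type*} [Fintype δ] [DecidableEq δ]
variable {k K : Type*} [Field k] [Field K] [Algebra k K]
variable {arm : δ → Fin 3} {J : Matrix ι ι K} {B : Matrix δ δ K}
  {N W : Submodule K (Matrix ι δ K)} {F G : Matrix ι δ K}

/-- one block: `P` stable, perfect, `Gᵀ J p = lam Fᵀ J p` on `P`, the form is not zero on `P`. -/
structure Bl (arm : δ → Fin 3) (J : Matrix ι ι K) (B : Matrix δ δ K) (F G : Matrix ι δ K)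
    (P : Submodule K (ι → K)) (lam : K) : Prop where
  stab : ∀ r, ∀ p ∈ P, Phi arm J B F r *ᵥ p ∈ P
  perf : ∀ p ∈ P, ∃ q : Fin 3 → ι → K, (∀ r, q r ∈ P) ∧ p = ∑ r, Phi arm J B F r *ᵥ q r
  lin : ∀ p ∈ P, (Gᵀ * J) *ᵥ p = lam • ((Fᵀ * J) *ᵥ p)
  nz : ∃ p ∈ P, ∃ p' ∈ P, p' ⬝ᵥ (J *ᵥ p) ≠ 0

theorem der_mulVec {α β : Type*} [Fintype β] (d : Derivation k K K) (A : Matrix α β K)
    (v : β → K) : (fun i => d ((A *ᵥ v) i)) = A.map d *ᵥ v + A *ᵥ (fun j => d (v j)) := by
  funext i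
  simp only [mulVec, dotProduct, map_sum, Derivation.leibniz, smul_eq_mul, Pi.add_apply,
    map_apply]
  rw [Finset.sum_add_distrib, add_comm]
  congr 1
  exact Finset.sum_congr rfl fun x _ => mul_comm _ _

namespace Bl

variable {P : Submodule K (ι → K)} {lam : K}

/-- the vector `u` with `F u = p`, `G u = lam p` -/
theorem exists_u (hD : Data k arm J B N W) (hF : F ∈ N ⊓ W) (hG : G ∈ N ⊓ W)
    (h : Bl arm J B F G P lam) {p : ι → K} (hp : p ∈ P) :
    ∃ u : δ → K, F *ᵥ u = p ∧ G *ᵥ u = lam • p := by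
  obtain ⟨q, hq, hpq⟩ := h.perf p hp
  refine ⟨∑ r, (E K arm r * B * (Fᵀ * J)) *ᵥ q r, ?_, ?_⟩
  · rw [mulVec_sum, hpq]
    refine Finset.sum_congr rfl fun r _ => ?_
    rw [mulVec_mulVec]
    unfold Phi M
    simp only [Matrix.mul_assoc]
  · rw [mulVec_sum, hpq, Finset.smul_sum]
    refine Finset.sum_congr rfl fun r _ => ?_
    have h1 := hD.symm_arm hG hF r
    unfold M at h1
    have h2 : G * (E K arm r * B * (Fᵀ * J)) = F * E K arm r * B * (Gᵀ * J) := by
      calc G * (E K arm r * B * (Fᵀ * J)) = (G * E K arm r * B * Fᵀ) * J := by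
            simp only [Matrix.mul_assoc]
        _ = (F * E K arm r * B * Gᵀ) * J := by rw [h1]
        _ = _ := by simp only [Matrix.mul_assoc]
    rw [mulVec_mulVec, h2, ← mulVec_mulVec, h.lin _ (hq r), mulVec_smul, mulVec_mulVec]
    unfold Phi M
    simp only [Matrix.mul_assoc]

/-- **`d lam = - lam²`** -/
theorem der_lam (hD : Data k arm J B N W) (hF : F ∈ N ⊓ W) (hG : G ∈ N ⊓ W)
    (h : Bl arm J B F G P lam) (d : Derivation k K K) (hdF : F.map d = G) (hdG : G.map d = 0) :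
    d lam = - lam ^ 2 := by
  obtain ⟨p, hp, p', hp', hne⟩ := h.nz
  obtain ⟨u, hu, hu'⟩ := exists_u hD hF hG h hp'
  have h1 := h.lin p hp
  have h2 : (fun i => d (((Gᵀ * J) *ᵥ p) i)) = fun i => d ((lam • ((Fᵀ * J) *ᵥ p)) i) := by
    rw [h1]
  rw [der_mulVec, map_mul_der, hD.J_const, map_transpose_der, hdG, transpose_zero,
    Matrix.zero_mul, Matrix.mul_zero, zero_add, zero_mulVec, zero_add] at h2
  have h3 : (fun i => d ((lam • ((Fᵀ * J) *ᵥ p)) i)) = d lam • ((Fᵀ * J) *ᵥ p)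
      + lam • ((Gᵀ * J) *ᵥ p + (Fᵀ * J) *ᵥ fun j => d (p j)) := by
    have h4 := der_mulVec d (Fᵀ * J) p
    rw [map_mul_der, hD.J_const, map_transpose_der, hdF, Matrix.mul_zero, add_zero] at h4
    rw [← h4]
    funext i
    simp only [Pi.smul_apply, smul_eq_mul, Derivation.leibniz, Pi.add_apply]
    ring
  rw [h3] at h2
  have h5 := congrArg (fun v => u ⬝ᵥ v) h2
  simp only [dotProduct_add, dotProduct_smul, EndP.adjv, hu, hu', smul_dotProduct,
    smul_eq_mul] at h5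
  have h6 : (d lam + lam ^ 2) * (p' ⬝ᵥ (J *ᵥ p)) = 0 := by linear_combination -h5
  have h7 := (mul_eq_zero.1 h6).resolve_right hne
  exact eq_neg_of_add_eq_zero_left h7

end Bl

/-- sums and multiples of vertical derivations -/
theorem Realises.addv {d d' : Derivation k K K}
    (h : Realises arm N W (0 : Fin 3 → Matrix ι ι K) (0 : Matrix δ δ K) d)
    (h' : Realises arm N W (0 : Fin 3 → Matrix ι ι K) (0 : Matrix δ δ K) d') (x : K) :
    Realises arm N W (0 : Fin 3 → Matrix ι ι K) (0 : Matrix δ δ K) (d + x • d') := by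
  have e : ∀ A : Matrix ι δ K, A.map (d + x • d') = A.map d + x • A.map d' := by
    intro A; ext i j; simp
  refine ⟨fun A hA => ?_, fun A hA => ?_⟩
  · have h1 := h.onN A hA
    have h2 := h'.onN A hA
    rw [act_zero, sub_zero] at h1 h2 ⊢
    rw [e]
    exact N.add_mem h1 (N.smul_mem x h2)
  · have h1 := h.onW A hA
    have h2 := h'.onW A hA
    rw [transpose_zero, Matrix.mul_zero, sub_zero] at h1 h2 ⊢
    rw [e]
    exact W.add_mem h1 (W.smul_mem x h2)

/-- `F + s G` is generic as soon as `1 + d_G s ≠ 0`. -/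
theorem generic_of_der (h : GenOver k arm N W F G) {s : K}
    (hs : ∀ d : Derivation k K K, F.map d = G → G.map d = 0 → 1 + d s ≠ 0) :
    Generic k arm N W (F + s • G) where
  mem := (N ⊓ W).add_mem h.mem ((N ⊓ W).smul_mem _ h.memG)
  vert := by
    intro κ hκ
    obtain ⟨dG, hG1, hG2, hG3⟩ := h.vert G h.memG
    obtain ⟨dκ, hκ1, hκ2, hκ3⟩ := h.vert κ hκ
    have hne := hs dG hG1 hG2
    refine ⟨dκ + (-(dκ s) / (1 + dG s)) • dG, ?_, Realises.addv hκ3 hG3 _⟩
    set x : K := -(dκ s) / (1 + dG s) with hx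
    have hx1 : x * (1 + dG s) = -(dκ s) := by rw [hx]; field_simp
    ext i j
    have e1 : dκ (F i j) = κ i j := congrFun (congrFun hκ1 i) j
    have e2 : dG (F i j) = G i j := congrFun (congrFun hG1 i) j
    have e3 : dκ (G i j) = 0 := congrFun (congrFun hκ2 i) j
    have e4 : dG (G i j) = 0 := congrFun (congrFun hG2 i) j
    simp only [map_apply, Matrix.add_apply, Matrix.smul_apply, smul_eq_mul, Derivation.add_apply,
      Derivation.smul_apply, map_add, Derivation.leibniz, e1, e2, e3, e4, mul_zero, zero_add]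
    linear_combination (G i j) * hx1

theorem twist_alg {l1 l2 τ s ds : K} (hsE : s * (l1 + l2 + 2 * τ * l1 * l2) = -(2 + τ * (l1 + l2)))
    (h3 : s * (-l1 ^ 2 + -l2 ^ 2 + (2 * τ * l1 * -l2 ^ 2 + l2 * (2 * τ * -l1 ^ 2))) +
      (l1 + l2 + 2 * τ * l1 * l2) * ds = -(τ * (-l1 ^ 2 + -l2 ^ 2))) :
    (1 + ds) * (l1 + l2 + 2 * τ * l1 * l2) ^ 2 = -(l1 - l2) ^ 2 := by
  linear_combination (l1 + l2 + 2 * τ * l1 * l2) * h3 +
    (l1 ^ 2 + l2 ^ 2 + 2 * τ * l1 * l2 ^ 2 + 2 * τ * l2 * l1 ^ 2) * hsE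

/-- **SIGN TRICK, genericity.** -/
theorem generic_twist [CharZero K] (h : GenOver k arm N W F G) {l1 l2 : K} (hne : l1 ≠ l2)
    (h1 : ∀ d : Derivation k K K, F.map d = G → G.map d = 0 → d l1 = - l1 ^ 2)
    (h2 : ∀ d : Derivation k K K, F.map d = G → G.map d = 0 → d l2 = - l2 ^ 2)
    (t : k) (hE : l1 + l2 + 2 * algebraMap k K t * l1 * l2 ≠ 0) :
    Generic k arm N W (F + (-(2 + algebraMap k K t * (l1 + l2)) /
      (l1 + l2 + 2 * algebraMap k K t * l1 * l2)) • G) := by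
  apply generic_of_der h
  intro d hF hG
  set τ : K := algebraMap k K t with hτ
  have ht : d τ = 0 := d.map_algebraMap t
  set E0 : K := l1 + l2 + 2 * τ * l1 * l2 with hE0
  set s : K := -(2 + τ * (l1 + l2)) / E0 with hs
  have hsE : s * E0 = -(2 + τ * (l1 + l2)) := by rw [hs]; field_simp
  have h3 := congrArg d hsE
  have e2 : d (2 : K) = 0 := by
    have := d.map_natCast 2
    simpa using this
  rw [hE0] at h3
  simp only [Derivation.leibniz, smul_eq_mul, map_add, map_neg, h1 d hF hG, h2 d hF hG, ht, e2] at h3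
  intro h4
  have h5 : (1 + d s) * (l1 + l2 + 2 * τ * l1 * l2) ^ 2 = -(l1 - l2) ^ 2 :=
    twist_alg hsE (by linear_combination h3)
  rw [h4, zero_mul] at h5
  have h6 : (l1 - l2) ^ 2 = 0 := by linear_combination h5
  exact hne (sub_eq_zero.1 (pow_eq_zero_iff two_ne_zero |>.1 h6))

end Crest.Agent.R172.GRP
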