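import Mathlib

/-!
Row 172, node GEN (helper896): generic points and derivations.
Part 1: extension of derivations along field extensions of characteristic 0.
-/

set_option autoImplicit false

namespace Crest.Agent.R172.Gen

open MvPolynomial

/-- Dual numbers over `L`, as a bare commutative ring. -/
def DN (L : Type*) [Field L] : Type _ := TrivSqZeroExt L L

noncomputable instance instCommRingDN (L : Type*) [Field L] : CommRing (DN L) :=
  inferInstanceAs (CommRing (TrivSqZeroExt L L))

/-- First component as a ring hom. -/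
noncomputable def DN.fst (L : Type*) [Field L] : DN L →+* L :=
  (TrivSqZeroExt.fstHom L L L : TrivSqZeroExt L L →ₐ[L] L).toRingHom

/-- Second component. -/
def DN.snd {L : Type*} [Field L] (x : DN L) : L := TrivSqZeroExt.snd (x : TrivSqZeroExt L L)

/-- Constructor. -/
def DN.mk {L : Type*} [Field L] (a b : L) : DN L := (a, b)

section basics
variable {L : Type*} [Field L]

@[simp] lemma DN.fst_mk (a b : L) : DN.fst L (DN.mk a b) = a := rfl
@[simp] lemma DN.snd_mk (a b : L) : DN.snd (DN.mk a b) = b := rfl

lemma DN.ext' {x y : DN L} (h1 : DN.fst L x = DN.fst L y) (h2 : DN.snd x = DN.snd y) : x = y :=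
  TrivSqZeroExt.ext h1 h2

@[simp] lemma DN.snd_add (x y : DN L) : DN.snd (x + y) = DN.snd x + DN.snd y := rfl
@[simp] lemma DN.snd_zero : DN.snd (0 : DN L) = 0 := rfl
@[simp] lemma DN.snd_one : DN.snd (1 : DN L) = 0 := rfl

lemma DN.snd_mul (x y : DN L) :
    DN.snd (x * y) = DN.fst L x * DN.snd y + DN.fst L y * DN.snd x := by
  have h := TrivSqZeroExt.snd_mul (x : TrivSqZeroExt L L) (y : TrivSqZeroExt L L)
  refine Eq.trans h ?_
  rw [smul_eq_mul, MulOpposite.smul_eq_mul_unop, MulOpposite.unop_op]
  exact congrArg₂ (· + ·) rfl (mul_comm _ _)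

lemma DN.fst_surjective : Function.Surjective (DN.fst L) := fun a => ⟨DN.mk a 0, rfl⟩

lemma DN.ker_nilpotent : IsNilpotent (RingHom.ker (DN.fst L)) := by
  refine ⟨2, ?_⟩
  rw [pow_two, Ideal.zero_eq_bot, eq_bot_iff, Ideal.mul_le]
  intro r hr s hs
  rw [RingHom.mem_ker] at hr hs
  have : r * s = 0 := by
    apply DN.ext'
    · rw [map_mul, hr, hs]; simp
    · rw [DN.snd_mul, hr, hs]; simp
  simp [this]

end basics

/-- Extension of a ring hom to the dual numbers along a formally smooth extension. -/
theorem exists_lift {A L : Type*} [CommRing A] [Field L] [Algebra A L]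
    [Algebra.FormallySmooth A L] (ψ : A →+* DN L)
    (hψ : ∀ a, DN.fst L (ψ a) = algebraMap A L a) :
    ∃ Ψ : L →+* DN L, (∀ a, Ψ (algebraMap A L a) = ψ a) ∧ ∀ x, DN.fst L (Ψ x) = x := by
  let _ : Algebra A (DN L) := ψ.toAlgebra
  let g : DN L →ₐ[A] L :=
    { DN.fst L with
      commutes' := fun a => hψ a }
  have hg : Function.Surjective g := DN.fst_surjective
  have hk : IsNilpotent (RingHom.ker (g : DN L →+* L)) := by
    have : RingHom.ker (g : DN L →+* L) = RingHom.ker (DN.fst L) := rfl
    rw [this]; exact DN.ker_nilpotent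
  let Φ : L →ₐ[A] DN L := Algebra.FormallySmooth.liftOfSurjective (AlgHom.id A L) g hg hk
  refine ⟨Φ.toRingHom, fun a => Φ.commutes a, fun x => ?_⟩
  exact Algebra.FormallySmooth.liftOfSurjective_apply (AlgHom.id A L) g hg hk x

open scoped IntermediateField.algebraAdjoinAdjoin in
/-- A derivation `δ : K → L` over `k` extends to `L`, with arbitrary values on a family which is
algebraically independent over `K` (characteristic 0). -/
theorem exists_derivation {k K L : Type*} [Field k] [Field K] [Field L] [CharZero K]
    [Algebra k K] [Algebra K L] [Algebra k L] [IsScalarTower k K L]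
    {ι : Type*} {v : ι → L} (hv : AlgebraicIndependent K v)
    (δ : Derivation k K L) (w : ι → L) :
    ∃ D : Derivation k L L, (∀ a : K, D (algebraMap K L a) = δ a) ∧ ∀ i, D (v i) = w i := by
  classical
  -- a transcendence basis containing the range of `v`
  have hvr := hv.to_subtype_range
  obtain ⟨s, hs, hsb⟩ := exists_isTranscendenceBasis_superset hvr
  let e := hsb.1.aevalEquiv
  have i1 : Algebra.FormallySmooth (Algebra.adjoin K (Set.range ((↑) : s → L)))
      (IntermediateField.adjoin K (Set.range ((↑) : s → L))) :=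
    .of_isLocalization (nonZeroDivisors _)
  have i2 : Algebra.IsAlgebraic (IntermediateField.adjoin K (Set.range ((↑) : s → L))) L :=
    hsb.isAlgebraic_field
  have i3 : Algebra.IsSeparable (IntermediateField.adjoin K (Set.range ((↑) : s → L))) L :=
    inferInstance
  have i4 : Algebra.FormallyEtale (IntermediateField.adjoin K (Set.range ((↑) : s → L))) L :=
    Algebra.FormallyEtale.of_isSeparable _ L
  have i5 : Algebra.FormallySmooth (Algebra.adjoin K (Set.range ((↑) : s → L))) L :=
    .comp _ (IntermediateField.adjoin K (Set.range ((↑) : s → L))) _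
  -- the ring hom on `K`
  let φ : K →+* DN L :=
    { toFun := fun c => DN.mk (algebraMap K L c) (δ c)
      map_one' := by
        apply DN.ext'
        · simp
        · simp
      map_mul' := fun a b => by
        apply DN.ext'
        · simp
        · rw [DN.snd_mul]
          simp [Algebra.smul_def]
      map_zero' := by
        apply DN.ext'
        · simp
        · simp
      map_add' := fun a b => by
        apply DN.ext'
        · simp
        · simp }
  have hφ1 : ∀ c, DN.fst L (φ c) = algebraMap K L c := fun c => rfl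
  have hφ2 : ∀ c, DN.snd (φ c) = δ c := fun c => rfl
  let wt : s → L := fun x => if h : ∃ i, v i = x then w h.choose else 0
  let ψ0 : MvPolynomial s K →+* DN L := eval₂Hom φ (fun x => DN.mk (x : L) (wt x))
  let ψ : Algebra.adjoin K (Set.range ((↑) : s → L)) →+* DN L :=
    ψ0.comp (e.symm : _ →+* MvPolynomial s K)
  have hψ0 : ∀ p : MvPolynomial s K, DN.fst L (ψ0 p) = aeval ((↑) : s → L) p := by
    intro p
    induction p using MvPolynomial.induction_on with
    | C a => simp [ψ0, hφ1]
    | add p q hp hq => simp [map_add, hp, hq]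
    | mul_X p i hp => rw [map_mul, map_mul, hp, map_mul]; simp [ψ0]
  have hψ : ∀ a, DN.fst L (ψ a) = algebraMap _ L a := by
    intro a
    obtain ⟨p, rfl⟩ := e.surjective a
    have : ψ (e p) = ψ0 p := by simp [ψ]
    rw [this, hψ0, ← hsb.1.algebraMap_aevalEquiv]
  obtain ⟨Ψ, hΨ1, hΨ2⟩ := exists_lift ψ hψ
  have hK : ∀ c : K, Ψ (algebraMap K L c) = φ c := by
    intro c
    have h1 : algebraMap K L c = algebraMap (Algebra.adjoin K (Set.range ((↑) : s → L))) L
        (e (C c)) := by
      rw [hsb.1.algebraMap_aevalEquiv]; simp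
    rw [h1, hΨ1]
    simp [ψ, ψ0]
  have hs' : ∀ x : s, Ψ (x : L) = DN.mk (x : L) (wt x) := by
    intro x
    have h1 : (x : L) = algebraMap (Algebra.adjoin K (Set.range ((↑) : s → L))) L
        (e (X x)) := by
      rw [hsb.1.algebraMap_aevalEquiv]; simp
    conv_lhs => rw [h1]
    rw [hΨ1]
    simp [ψ, ψ0]
  let D : Derivation k L L := Derivation.mk'
    { toFun := fun x => DN.snd (Ψ x)
      map_add' := fun x y => by simp
      map_smul' := fun c x => by
        rw [Algebra.smul_def, map_mul, DN.snd_mul, IsScalarTower.algebraMap_apply k K L, hK, hφ1,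
          hφ2, Derivation.map_algebraMap, mul_zero, add_zero, RingHom.id_apply, Algebra.smul_def,
          IsScalarTower.algebraMap_apply k K L] } (fun a b => by
        show DN.snd (Ψ (a * b)) = a • DN.snd (Ψ b) + b • DN.snd (Ψ a)
        rw [map_mul, DN.snd_mul, hΨ2, hΨ2]; rfl)
  refine ⟨D, fun a => ?_, fun i => ?_⟩
  · show DN.snd (Ψ (algebraMap K L a)) = δ a
    rw [hK, hφ2]
  · show DN.snd (Ψ (v i)) = w i
    have hi : v i ∈ s := hs ⟨i, rfl⟩
    have := hs' ⟨v i, hi⟩
    rw [show (((⟨v i, hi⟩ : s) : L)) = v i from rfl] at this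
    rw [this, DN.snd_mk]
    have hex : ∃ j, v j = v i := ⟨i, rfl⟩
    have h2 : wt ⟨v i, hi⟩ = w hex.choose := by
      simp only [wt]
      rw [dif_pos hex]
    rw [h2]
    exact congrArg w (hv.injective hex.choose_spec)

end Crest.Agent.R172.Gen
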