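import Crest.Agent.R172.Gen1

/-!
Row 172, node GEN (helper896), part 2: generic parameters (G1) and the generic kernel vector (G2).
-/

set_option autoImplicit false

namespace Crest.Agent.R172.Gen

open MvPolynomial Matrix

/-- (G1) generic parameters over a field of characteristic 0: an algebraically closed extension with
an algebraically independent family `t`; every polynomial identity at `t` is generic. -/
theorem exists_generic (k : Type) [Field k] [CharZero k] (σ : Type) :
    ∃ (K : Type) (_ : Field K) (_ : Algebra k K) (_ : IsAlgClosed K) (_ : CharZero K) (t : σ → K),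
      AlgebraicIndependent k t := by
  let K := AlgebraicClosure (FractionRing (MvPolynomial σ k))
  let _ : Algebra k K := inferInstance
  have hinj : Function.Injective (algebraMap (MvPolynomial σ k) K) := by
    rw [IsScalarTower.algebraMap_eq (MvPolynomial σ k) (FractionRing (MvPolynomial σ k)) K]
    exact (algebraMap (FractionRing (MvPolynomial σ k)) K).injective.comp
      (IsFractionRing.injective (MvPolynomial σ k) (FractionRing (MvPolynomial σ k)))
  refine ⟨K, inferInstance, inferInstance, inferInstance,
    charZero_of_injective_algebraMap (algebraMap k K).injective,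
    fun i => algebraMap (MvPolynomial σ k) K (X i), ?_⟩
  have h : (aeval (fun i => algebraMap (MvPolynomial σ k) K (X i)) : MvPolynomial σ k →ₐ[k] K)
      = IsScalarTower.toAlgHom k (MvPolynomial σ k) K := by
    apply MvPolynomial.algHom_ext
    intro i; simp
  rw [AlgebraicIndependent, h]
  exact hinj

/-- The derivative of a matrix of polynomials along a derivation is computed entrywise; this is just
a name for the entrywise application of a derivation. -/
def dmat {k K L : Type*} [Field k] [Field K] [Field L] [Algebra k K] [Algebra K L] [Algebra k L]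
    {m n : Type*} (δ : Derivation k K L) (A : Matrix m n K) : Matrix m n L :=
  fun i j => δ (A i j)

/-- Entrywise embedding. -/
abbrev emb (K L : Type*) [Field K] [Field L] [Algebra K L] {m n : Type*} (A : Matrix m n K) :
    Matrix m n L := A.map (algebraMap K L)

lemma dmat_mul {k K L : Type*} [Field k] [Field K] [Field L] [Algebra k K] [Algebra K L]
    [Algebra k L] {m n p : Type*} [Fintype n] (δ : Derivation k K L)
    (A : Matrix m n K) (B : Matrix n p K) :
    dmat δ (A * B) = dmat δ A * emb K L B + emb K L A * dmat δ B := by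
  ext i j
  simp only [dmat, Matrix.mul_apply, Matrix.add_apply, map_sum, Derivation.leibniz,
    Matrix.map_apply, Finset.sum_add_distrib, Algebra.smul_def]
  rw [add_comm]
  congr 1
  exact Finset.sum_congr rfl fun x _ => mul_comm _ _

lemma dmat_zero {k K L : Type*} [Field k] [Field K] [Field L] [Algebra k K] [Algebra K L]
    [Algebra k L] {m n : Type*} (δ : Derivation k K L) :
    dmat δ (0 : Matrix m n K) = 0 := by
  ext i j; simp [dmat]

/-- A projector onto the kernel of a matrix, in matrix form: `A * P = 0` and `1 - P = G * A`. -/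
theorem exists_kernel_projector {K : Type*} [Field K] {m n : Type*} [Fintype m] [Fintype n]
    [DecidableEq m] [DecidableEq n] (A : Matrix m n K) :
    ∃ (P : Matrix n n K) (G : Matrix n m K), A * P = 0 ∧ 1 - P = G * A := by
  classical
  set f : (n → K) →ₗ[K] (m → K) := Matrix.toLin' A with hf
  -- a generalized inverse: a left inverse of the range-embedding composed...
  obtain ⟨q, hq⟩ := (LinearMap.ker f).exists_isCompl
  let f' : q →ₗ[K] (m → K) := f.comp q.subtype
  have hf' : LinearMap.ker f' = ⊥ := by
    rw [LinearMap.ker_eq_bot']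
    intro x hx
    have hx1 : (x : n → K) ∈ LinearMap.ker f := hx
    have : (x : n → K) ∈ LinearMap.ker f ⊓ q := ⟨hx1, x.2⟩
    rw [hq.inf_eq_bot] at this
    exact Subtype.ext (by simpa using this)
  obtain ⟨g, hg⟩ := LinearMap.exists_leftInverse_of_injective f' hf'
  let g' : (m → K) →ₗ[K] (n → K) := q.subtype.comp g
  -- `f (x - g' (f x)) = 0`
  have hgf : ∀ x, f (x - g' (f x)) = 0 := by
    intro x
    have hx : x ∈ LinearMap.ker f ⊔ q := by rw [hq.sup_eq_top]; trivial
    obtain ⟨a, ha, b, hb, rfl⟩ := Submodule.mem_sup.1 hx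
    have h1 : f (a + b) = f' ⟨b, hb⟩ := by
      rw [map_add, LinearMap.mem_ker.1 ha, zero_add]; rfl
    have h2 : g (f (a + b)) = ⟨b, hb⟩ := by
      rw [h1]; exact LinearMap.congr_fun hg ⟨b, hb⟩
    have h3 : g' (f (a + b)) = b := by
      show ((g (f (a + b)) : q) : n → K) = b
      rw [h2]
    rw [h3, add_sub_cancel_right]
    exact ha
  refine ⟨1 - LinearMap.toMatrix' g' * A, LinearMap.toMatrix' g', ?_, by abel⟩
  apply Matrix.toLin'.injective
  rw [Matrix.toLin'_mul, map_sub, Matrix.toLin'_one, Matrix.toLin'_mul, Matrix.toLin'_toMatrix',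
    map_zero]
  apply LinearMap.ext
  intro x
  exact hgf x

/-- (G2) generic kernel vector of a matrix over an algebraically closed (or any) field, and lifting
of derivations: every solution of the linearised equation is realised by a derivation. -/
theorem exists_generic_kernel (k : Type) (K : Type) [Field k] [Field K] [CharZero K] [Algebra k K]
    {m n : Type} [Fintype m] [Fintype n] [DecidableEq m] [DecidableEq n] (A : Matrix m n K) :
    ∃ (L : Type) (_ : Field L) (_ : Algebra K L) (_ : Algebra k L) (_ : IsScalarTower k K L)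
      (_ : IsAlgClosed L) (_ : CharZero L) (F : n → L),
      emb K L A *ᵥ F = 0 ∧
      (∀ p : MvPolynomial n K, aeval F p = 0 → ∀ x : n → K, A *ᵥ x = 0 → aeval x p = 0) ∧
      (∀ (δ : Derivation k K L) (w : n → L), emb K L A *ᵥ w + dmat δ A *ᵥ F = 0 →
        ∃ D : Derivation k L L, (∀ a, D (algebraMap K L a) = δ a) ∧ ∀ j, D (F j) = w j) := by
  classical
  obtain ⟨L, _, _, _, _, τ, hτ⟩ := exists_generic K n
  let _ : Algebra k L := ((algebraMap K L).comp (algebraMap k K)).toAlgebra
  have htower : IsScalarTower k K L := IsScalarTower.of_algebraMap_eq fun _ => rfl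
  obtain ⟨P, G, hAP, hG⟩ := exists_kernel_projector A
  have hAPL : emb K L A * emb K L P = 0 := by
    rw [← Matrix.map_mul, hAP]; ext i j; simp
  have hGL : 1 - emb K L P = emb K L G * emb K L A := by
    rw [← Matrix.map_mul, ← hG]
    ext i j
    simp [Matrix.one_apply, apply_ite (algebraMap K L)]
  have hker : ∀ x : n → L, emb K L A *ᵥ x = 0 → emb K L P *ᵥ x = x := by
    intro x hx
    have : (1 - emb K L P) *ᵥ x = 0 := by
      rw [hGL, ← Matrix.mulVec_mulVec, hx, Matrix.mulVec_zero]
    rw [Matrix.sub_mulVec, Matrix.one_mulVec, sub_eq_zero] at this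
    exact this.symm
  have hkerK : ∀ x : n → K, A *ᵥ x = 0 → P *ᵥ x = x := by
    intro x hx
    have : (1 - P) *ᵥ x = 0 := by
      rw [hG, ← Matrix.mulVec_mulVec, hx, Matrix.mulVec_zero]
    rw [Matrix.sub_mulVec, Matrix.one_mulVec, sub_eq_zero] at this
    exact this.symm
  refine ⟨L, inferInstance, inferInstance, inferInstance, htower, inferInstance, inferInstance,
    emb K L P *ᵥ τ, ?_, ?_, ?_⟩
  · rw [Matrix.mulVec_mulVec, hAPL, Matrix.zero_mulVec]
  · intro p hp x hx
    -- pull back the polynomial to the parameters
    let Q : MvPolynomial n K := aeval (fun j => ∑ i, C (P j i) * X i) p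
    have hQ : aeval τ Q = 0 := by
      have : aeval τ Q = aeval (emb K L P *ᵥ τ) p := by
        simp only [Q]
        rw [← AlgHom.comp_apply, MvPolynomial.comp_aeval]
        congr 2
        ext j
        simp [Matrix.mulVec, dotProduct, map_sum]
      rw [this, hp]
    have hQ0 : Q = 0 := by
      apply hτ
      rw [hQ, map_zero]
    have : aeval x Q = aeval x p := by
      simp only [Q]
      rw [← AlgHom.comp_apply, MvPolynomial.comp_aeval]
      congr 2
      ext j
      have h1 := congrFun (hkerK x hx) j
      conv_rhs => rw [← h1]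
      simp [Matrix.mulVec, dotProduct, map_sum]
    rw [← this, hQ0, map_zero]
  · intro δ w hw
    set w' : n → L := w - dmat δ P *ᵥ τ with hw'
    have hd : dmat δ A * emb K L P + emb K L A * dmat δ P = 0 := by
      rw [← dmat_mul, hAP, dmat_zero]
    have hw'0 : emb K L A *ᵥ w' = 0 := by
      rw [hw', Matrix.mulVec_sub]
      have h1 : emb K L A *ᵥ (dmat δ P *ᵥ τ) = - (dmat δ A *ᵥ (emb K L P *ᵥ τ)) := by
        rw [Matrix.mulVec_mulVec, Matrix.mulVec_mulVec, ← Matrix.neg_mulVec]
        congr 1
        rw [eq_neg_iff_add_eq_zero, add_comm]; exact hd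
      rw [h1, sub_neg_eq_add]; exact hw
    obtain ⟨D, hD1, hD2⟩ := exists_derivation (k := k) hτ δ w'
    refine ⟨D, hD1, fun j => ?_⟩
    have h2 : D ((emb K L P *ᵥ τ) j) = (dmat δ P *ᵥ τ) j + (emb K L P *ᵥ w') j := by
      simp only [Matrix.mulVec, dotProduct, map_sum, Derivation.leibniz, Matrix.map_apply, hD1, hD2,
        dmat, ← Finset.sum_add_distrib, smul_eq_mul]
      exact Finset.sum_congr rfl fun i _ => by ring
    rw [h2, hker w' hw'0, hw']
    simp

end Crest.Agent.R172.Gen
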