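import Crest.Agent.R172.Gen3

/-!
Row 172, node GEN (helper896), part 4: specialisation principle for the big cell parametrisation and
the final package.
-/

set_option autoImplicit false

namespace Crest.Agent.R172.Gen

open MvPolynomial Matrix

/-- index type of all matrix entries of `(g_1,g_2,g_3,H)` -/
abbrev Ent (n : ℕ) (M : Type) : Type := (Fin 3 × Ix n × Ix n) ⊕ (M × M)

/-- the tuple of all entries -/
def ent {n : ℕ} {M : Type} {L : Type*} (g : Fin 3 → Matrix (Ix n) (Ix n) L) (H : Matrix M M L) :
    Ent n M → L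
  | Sum.inl (s, p, q) => g s p q
  | Sum.inr (x, y) => H x y

section natural

variable {n : ℕ} {M : Type} {R R' : Type*} [CommRing R] [CommRing R']

lemma Cz_map (f : R →+* R') (z : Par n M → R) (s : Fin 3) :
    (Cz z s).map f = Cz (fun i => f (z i)) s := by
  ext i j; simp [Cz, blk]

lemma Bz_map (f : R →+* R') (z : Par n M → R) (s : Fin 3) :
    (Bz z s).map f = Bz (fun i => f (z i)) s := by
  ext i j; simp [Bz, blk]

lemma Az_map (f : R →+* R') (z : Par n M → R) (s : Fin 3) :
    (Az z s).map f = Az (fun i => f (z i)) s := by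
  ext i j; simp [Az, blk]

lemma Az_det_map (f : R →+* R') (z : Par n M → R) (s : Fin 3) :
    f (Az z s).det = (Az (fun i => f (z i)) s).det := by
  rw [← Az_map, RingHom.map_det]; rfl

lemma dz_map (f : R →+* R') (z : Par n M → R) : f (dz z) = dz (fun i => f (z i)) := by
  simp only [dz, map_prod, Az_det_map]

lemma lo_map (f : R →+* R') (C : Matrix (Fin n) (Fin n) R) : (lo C).map f = lo (C.map f) := by
  rw [lo, lo, fromBlocks_map]
  congr 1 <;> ext i j <;> by_cases h : i = j <;> simp [Matrix.one_apply, h]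

lemma up_map (f : R →+* R') (B : Matrix (Fin n) (Fin n) R) : (up B).map f = up (B.map f) := by
  rw [up, up, fromBlocks_map]
  congr 1 <;> ext i j <;> by_cases h : i = j <;> simp [Matrix.one_apply, h]

lemma gt_map (f : R →+* R') (g0 : Fin 3 → Matrix (Ix n) (Ix n) R) (z : Par n M → R) (s : Fin 3) :
    (gt g0 z s).map f = gt (fun s => (g0 s).map f) (fun i => f (z i)) s := by
  simp only [gt, Matrix.map_mul, lo_map, up_map, Cz_map, Bz_map, fromBlocks_map]
  congr 3
  have h1 : ((Az z s).det • Az z s).map f =
      (Az (fun i => f (z i)) s).det • Az (fun i => f (z i)) s := by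
    ext i j
    simp only [Matrix.map_apply, Matrix.smul_apply, smul_eq_mul, map_mul, Az_det_map]
    rw [← Az_map, Matrix.map_apply]
  have h2 : ((Az z s).adjugateᵀ).map f = ((Az (fun i => f (z i)) s).adjugate)ᵀ := by
    rw [transpose_map]
    congr 1
    have := RingHom.map_adjugate f (Az z s)
    rw [← Az_map]
    exact this
  rw [h1, h2]
  congr 1 <;> ext i j <;> simp

end natural

section rep

variable {k : Type} [Field k] {n : ℕ} {M : Type}

/-- Every polynomial in the entries of `(g, H)` is, up to a power of the determinant, a polynomial in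
the parameters. -/
theorem rep (g0 : Fin 3 → Matrix (Ix n) (Ix n) k) (P : MvPolynomial (Ent n M) k) :
    ∃ (Q : MvPolynomial (Par n M) k) (m : ℕ), ∀ (L : Type) [Field L] [Algebra k L]
      (z : Par n M → L), dz z ≠ 0 →
      aeval (ent (gz (fun s => emb k L (g0 s)) z) (Hz z)) P * (dz z) ^ m = aeval z Q := by
  classical
  induction P using MvPolynomial.induction_on with
  | C a => exact ⟨C a, 0, fun L _ _ z _ => by simp⟩
  | add P1 P2 h1 h2 =>
    obtain ⟨Q1, m1, h1⟩ := h1
    obtain ⟨Q2, m2, h2⟩ := h2
    let d : MvPolynomial (Par n M) k := dz X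
    have hd : ∀ (L : Type) [Field L] [Algebra k L] (z : Par n M → L), aeval z d = dz z := by
      intro L _ _ z
      have := dz_map (aeval z : MvPolynomial (Par n M) k →ₐ[k] L).toRingHom
        (X : Par n M → MvPolynomial (Par n M) k)
      simp only [AlgHom.toRingHom_eq_coe, RingHom.coe_coe, aeval_X] at this
      exact this
    refine ⟨Q1 * d ^ m2 + Q2 * d ^ m1, m1 + m2, fun L _ _ z hz => ?_⟩
    rw [map_add, map_add, map_mul, map_mul, map_pow, map_pow, hd, ← h1 L z hz, ← h2 L z hz]
    ring
  | mul_X P e h =>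
    obtain ⟨Q, m, h⟩ := h
    -- the entry
    have he : ∃ (Q' : MvPolynomial (Par n M) k), ∀ (L : Type) [Field L] [Algebra k L]
        (z : Par n M → L), dz z ≠ 0 →
        ent (gz (fun s => emb k L (g0 s)) z) (Hz z) e * dz z = aeval z Q' := by
      rcases e with ⟨s, p, q⟩ | ⟨x, y⟩
      · let zX : Par n M → MvPolynomial (Par n M) k := X
        refine ⟨(∏ s' ∈ Finset.univ.erase s, (Az zX s').det) *
          gt (fun s => (g0 s).map C) zX s p q, fun L _ _ z hz => ?_⟩
        have hfz : ∀ i, (aeval z : MvPolynomial (Par n M) k →ₐ[k] L) (zX i) = z i := by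
          intro i; simp [zX]
        have e1 : aeval z (∏ s' ∈ Finset.univ.erase s, (Az zX s').det) =
            ∏ s' ∈ Finset.univ.erase s, (Az z s').det := by
          rw [map_prod]
          refine Finset.prod_congr rfl fun s' _ => ?_
          have := Az_det_map (aeval z : MvPolynomial (Par n M) k →ₐ[k] L).toRingHom zX s'
          simp only [AlgHom.toRingHom_eq_coe, RingHom.coe_coe, hfz] at this
          exact this
        have e2 : aeval z (gt (fun s => (g0 s).map C) zX s p q) =
            gt (fun s => emb k L (g0 s)) z s p q := by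
          have := congrFun (congrFun (gt_map (aeval z : MvPolynomial (Par n M) k →ₐ[k] L).toRingHom
            (fun s => (g0 s).map C) zX s) p) q
          simp only [AlgHom.toRingHom_eq_coe, RingHom.coe_coe, hfz, Matrix.map_apply] at this
          rw [this]
          congr 1
          have : (fun s => ((g0 s).map (C : k → MvPolynomial (Par n M) k)).map
              (aeval z : MvPolynomial (Par n M) k →ₐ[k] L)) = fun s => emb k L (g0 s) := by
            funext s; ext i j; simp
          rw [this]
        have hsd : (Az z s).det ≠ 0 := by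
          intro h0
          exact hz (Finset.prod_eq_zero (Finset.mem_univ s) h0)
        rw [map_mul, e1, e2, ← det_smul_gz (fun s => emb k L (g0 s)) z s hsd, dz,
          ← Finset.mul_prod_erase Finset.univ (fun s => (Az z s).det) (Finset.mem_univ s)]
        simp only [ent, Matrix.smul_apply, smul_eq_mul]
        ring
      · refine ⟨(X (Sum.inr (x, y)) - X (Sum.inr (y, x))) * dz X, fun L _ _ z _ => ?_⟩
        have hd : aeval z (dz X : MvPolynomial (Par n M) k) = dz z := by
          have := dz_map (aeval z : MvPolynomial (Par n M) k →ₐ[k] L).toRingHom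
            (X : Par n M → MvPolynomial (Par n M) k)
          simp only [AlgHom.toRingHom_eq_coe, RingHom.coe_coe, aeval_X] at this
          exact this
        rw [map_mul, hd]
        simp [ent, Hz]
    obtain ⟨Q', h'⟩ := he
    refine ⟨Q * Q', m + 1, fun L _ _ z hz => ?_⟩
    rw [map_mul, map_mul, aeval_X, ← h L z hz, ← h' L z hz]
    ring

/-- The base point parameters: `g = g0` and `H = H0`. -/
noncomputable def zbase [DecidableEq (Fin n)] (H0 : Matrix M M k) : Par n M → k
  | Sum.inl (_, b, i, j) => if b = 1 then (if i = j then 1 else 0) else 0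
  | Sum.inr (x, y) => H0 x y / 2

lemma zbase_A (H0 : Matrix M M k) (s : Fin 3) : Az (zbase (n := n) H0) s = 1 := by
  ext i j; simp [Az, blk, zbase, Matrix.one_apply]

lemma zbase_C (H0 : Matrix M M k) (s : Fin 3) : Cz (zbase (n := n) H0) s = 0 := by
  ext i j; simp [Cz, blk, zbase]

lemma zbase_B (H0 : Matrix M M k) (s : Fin 3) : Bz (zbase (n := n) H0) s = 0 := by
  ext i j; simp [Bz, blk, zbase]

lemma zbase_g (g0 : Fin 3 → Matrix (Ix n) (Ix n) k) (H0 : Matrix M M k) (s : Fin 3) :
    gz g0 (zbase H0) s = g0 s := by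
  rw [gz, zbase_A, zbase_B, zbase_C]
  simp [lo, up, mid, fromBlocks_one]

lemma zbase_d (H0 : Matrix M M k) : dz (zbase (n := n) H0) = 1 := by
  simp [dz, zbase_A]

lemma zbase_H [CharZero k] {H0 : Matrix M M k} (hH : H0ᵀ = -H0) :
    Hz (zbase (n := n) H0) = H0 := by
  ext x y
  have h3 : H0 y x = - H0 x y := by
    have := congrFun (congrFun hH x) y
    simpa using this
  simp only [Hz, zbase, Matrix.of_apply]
  rw [h3]; field_simp; ring

/-- (b) a polynomial which does not vanish at the base point does not vanish at the generic point. -/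
theorem generic_ne_zero [CharZero k] (g0 : Fin 3 → Matrix (Ix n) (Ix n) k) {K : Type} [Field K]
    [Algebra k K] {t : Par n M → K} (ht : AlgebraicIndependent k t) (hd : dz t ≠ 0)
    (P : MvPolynomial (Ent n M) k) {H0 : Matrix M M k} (hH : H0ᵀ = -H0)
    (hP : aeval (ent g0 H0) P ≠ 0) :
    aeval (ent (gz (fun s => emb k K (g0 s)) t) (Hz t)) P ≠ 0 := by
  intro h0
  obtain ⟨Q, m, hQ⟩ := rep g0 P
  have h1 := hQ K t hd
  rw [h0, zero_mul] at h1
  have h2 : Q = 0 := by
    apply ht
    rw [← h1, map_zero]
  have h3 := hQ k (zbase H0) (by rw [zbase_d]; exact one_ne_zero)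
  rw [h2, map_zero, zbase_d, one_pow, mul_one, zbase_H hH] at h3
  have h4 : gz (fun s => emb k k (g0 s)) (zbase H0) = g0 := by
    funext s
    rw [zbase_g]
    ext i j; simp
  rw [h4] at h3
  exact hP h3

lemma dz_ne_zero_of_indep [CharZero k] {K : Type} [Field K] [Algebra k K] {t : Par n M → K}
    (ht : AlgebraicIndependent k t) : dz t ≠ 0 := by
  intro h
  have h1 : aeval t (dz X : MvPolynomial (Par n M) k) = dz t := by
    have := dz_map (aeval t : MvPolynomial (Par n M) k →ₐ[k] K).toRingHom
      (X : Par n M → MvPolynomial (Par n M) k)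
    simp only [AlgHom.toRingHom_eq_coe, RingHom.coe_coe, aeval_X] at this
    exact this
  have h2 : (dz X : MvPolynomial (Par n M) k) = 0 := by
    apply ht
    rw [h1, h, map_zero]
  have h3 : aeval (zbase (n := n) (0 : Matrix M M k)) (dz X : MvPolynomial (Par n M) k) =
      dz (zbase (n := n) (0 : Matrix M M k)) := by
    have := dz_map (aeval (zbase (n := n) (0 : Matrix M M k)) :
      MvPolynomial (Par n M) k →ₐ[k] k).toRingHom (X : Par n M → MvPolynomial (Par n M) k)
    simp only [AlgHom.toRingHom_eq_coe, RingHom.coe_coe, aeval_X] at this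
    exact this
  rw [h2, map_zero, zbase_d] at h3
  exact zero_ne_one h3

/-- (c) a polynomial which does not vanish at the generic point does not vanish at some point over
the base field, in the big cell through `g0`. -/
theorem exists_special [Infinite k] (g0 : Fin 3 → Matrix (Ix n) (Ix n) k) {K : Type}
    [Field K] [Algebra k K] {t : Par n M → K} (hd : dz t ≠ 0)
    (P : MvPolynomial (Ent n M) k)
    (hP : aeval (ent (gz (fun s => emb k K (g0 s)) t) (Hz t)) P ≠ 0) :
    ∃ z : Par n M → k, dz z ≠ 0 ∧ aeval (ent (gz g0 z) (Hz z)) P ≠ 0 := by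
  obtain ⟨Q, m, hQ⟩ := rep g0 P
  have hdX : aeval t (dz X : MvPolynomial (Par n M) k) = dz t := by
    have := dz_map (aeval t : MvPolynomial (Par n M) k →ₐ[k] K).toRingHom
      (X : Par n M → MvPolynomial (Par n M) k)
    simp only [AlgHom.toRingHom_eq_coe, RingHom.coe_coe, aeval_X] at this
    exact this
  have hQ0 : Q * dz X ≠ 0 := by
    intro h
    have h1 : aeval t (Q * dz X) = 0 := by rw [h, map_zero]
    rw [map_mul, hdX, ← hQ K t hd] at h1
    exact (mul_ne_zero (mul_ne_zero hP (pow_ne_zero _ hd)) hd) h1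
  obtain ⟨z, hz⟩ : ∃ z : Par n M → k, eval z (Q * dz X) ≠ 0 := by
    by_contra hcon
    push Not at hcon
    exact hQ0 (MvPolynomial.funext (fun z => by rw [hcon z, map_zero]))
  have hdz : aeval z (dz X : MvPolynomial (Par n M) k) = dz z := by
    have := dz_map (aeval z : MvPolynomial (Par n M) k →ₐ[k] k).toRingHom
      (X : Par n M → MvPolynomial (Par n M) k)
    simp only [AlgHom.toRingHom_eq_coe, RingHom.coe_coe, aeval_X] at this
    exact this
  have hz' : aeval z (Q * dz X) ≠ 0 := by
    rw [MvPolynomial.aeval_eq_eval]; exact hz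
  rw [map_mul, hdz] at hz'
  have hz1 : dz z ≠ 0 := right_ne_zero_of_mul hz'
  refine ⟨z, hz1, ?_⟩
  have h2 := hQ k z hz1
  have h3 : aeval z Q ≠ 0 := left_ne_zero_of_mul hz'
  rw [← h2] at h3
  have h4 := left_ne_zero_of_mul h3
  have : (fun s => emb k k (g0 s)) = g0 := by funext s; ext i j; simp
  rw [this] at h4
  exact h4

/-- (c') matrix version: a polynomial linear system in the entries of `(g, H)` which has only the
zero solution at the generic point has only the zero solution at some point over the base field. -/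
theorem exists_special_kernel [Infinite k] (g0 : Fin 3 → Matrix (Ix n) (Ix n) k) {K : Type}
    [Field K] [Algebra k K] {t : Par n M → K} (hd : dz t ≠ 0)
    {a b : Type} [Fintype a] [Fintype b] [DecidableEq a] [DecidableEq b]
    (Λ : Matrix a b (MvPolynomial (Ent n M) k))
    (hΛ : ∀ x : b → K,
      (Λ.map (aeval (ent (gz (fun s => emb k K (g0 s)) t) (Hz t)))) *ᵥ x = 0 → x = 0) :
    ∃ z : Par n M → k, dz z ≠ 0 ∧
      ∀ x : b → k, (Λ.map (aeval (ent (gz g0 z) (Hz z)))) *ᵥ x = 0 → x = 0 := by
  classical
  set θ : Ent n M → K := ent (gz (fun s => emb k K (g0 s)) t) (Hz t) with hθ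
  set ΛK : Matrix a b K := Λ.map (aeval θ) with hΛK
  -- a left inverse over `K`
  obtain ⟨g, hg⟩ := LinearMap.exists_leftInverse_of_injective (Matrix.toLin' ΛK) (by
    rw [LinearMap.ker_eq_bot']
    intro x hx
    exact hΛ x (by simpa using hx))
  have hleft : LinearMap.toMatrix' g * ΛK = 1 := by
    apply Matrix.toLin'.injective
    rw [Matrix.toLin'_mul, Matrix.toLin'_toMatrix', Matrix.toLin'_one]
    exact hg
  -- the determinant of `B * Λ` as a polynomial in `B` with coefficients polynomials
  let T := MvPolynomial (b × a) (MvPolynomial (Ent n M) k)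
  let BX : Matrix b a T := Matrix.of fun i j => X (i, j)
  let PT : T := (BX * Λ.map (C : MvPolynomial (Ent n M) k →+* T)).det
  -- map to `MvPolynomial (b × a) K`
  let fθ : MvPolynomial (Ent n M) k →+* K := (aeval θ : MvPolynomial (Ent n M) k →ₐ[k] K).toRingHom
  let PK : MvPolynomial (b × a) K := MvPolynomial.map fθ PT
  have hPK : ∀ B : Matrix b a K, eval (fun p => B p.1 p.2) PK = (B * ΛK).det := by
    intro B
    simp only [PK, PT]
    rw [MvPolynomial.eval_map]
    let ev : T →+* K := eval₂Hom fθ (fun p => B p.1 p.2)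
    show ev _ = _
    rw [RingHom.map_det]
    congr 1
    ext i j
    simp only [RingHom.mapMatrix_apply, Matrix.map_apply, Matrix.mul_apply, map_sum, map_mul]
    refine Finset.sum_congr rfl fun l _ => ?_
    have e1 : ev (BX i l) = B i l := eval₂Hom_X' _ _ _
    have e2 : ev (C (Λ l j)) = fθ (Λ l j) := eval₂Hom_C _ _ _
    rw [e1, e2]; rfl
  have hPK0 : PK ≠ 0 := by
    intro h
    have h1 := hPK (LinearMap.toMatrix' g)
    rw [h, map_zero, hleft, det_one] at h1
    exact zero_ne_one h1
  -- find `B` over `k`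
  obtain ⟨B, hB⟩ : ∃ B : b × a → k, eval (fun p => algebraMap k K (B p)) PK ≠ 0 := by
    have hinf : (Set.range (algebraMap k K)).Infinite :=
      Set.infinite_range_of_injective (algebraMap k K).injective
    by_contra hcon
    push Not at hcon
    apply hPK0
    have h0 : ∀ x ∈ Set.pi Set.univ (fun _ : b × a => Set.range (algebraMap k K)),
        eval x PK = 0 := by
      intro x hx
      choose B hB using fun p => hx p (Set.mem_univ p)
      have : x = fun p => algebraMap k K (B p) := by funext p; exact (hB p).symm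
      rw [this]; exact hcon B
    exact MvPolynomial.funext_set (fun _ => Set.range (algebraMap k K)) (fun _ => hinf)
      (fun x hx => by rw [h0 x hx, map_zero])
  -- the polynomial `P = det (B Λ)`
  let Bk : Matrix b a k := Matrix.of fun i j => B (i, j)
  let P : MvPolynomial (Ent n M) k := ((Bk.map (C : k → MvPolynomial (Ent n M) k)) * Λ).det
  have hPgen : ∀ (L : Type) [Field L] [Algebra k L] (ψ : Ent n M → L),
      aeval ψ P = ((emb k L Bk) * Λ.map (aeval ψ)).det := by
    intro L _ _ ψ
    simp only [P]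
    have h1 : aeval ψ (((Bk.map (C : k → MvPolynomial (Ent n M) k)) * Λ).det) =
        (((Bk.map (C : k → MvPolynomial (Ent n M) k)) * Λ).map (aeval ψ)).det := by
      have := RingHom.map_det (aeval ψ : MvPolynomial (Ent n M) k →ₐ[k] L).toRingHom
        ((Bk.map (C : k → MvPolynomial (Ent n M) k)) * Λ)
      exact this
    rw [h1]
    congr 1
    ext i j
    simp [Matrix.mul_apply]
  have hPθ : aeval θ P ≠ 0 := by
    rw [hPgen K θ]
    have := hPK (emb k K Bk)
    rw [show (fun p : b × a => (emb k K Bk) p.1 p.2) = fun p => algebraMap k K (B p) from by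
      funext p; simp [Bk]] at this
    rw [← this]
    exact hB
  obtain ⟨z, hz1, hz2⟩ := exists_special g0 hd P hPθ
  refine ⟨z, hz1, fun x hx => ?_⟩
  rw [hPgen k] at hz2
  have h1 : ((emb k k Bk) * Λ.map (aeval (ent (gz g0 z) (Hz z)))) *ᵥ x = 0 := by
    rw [← Matrix.mulVec_mulVec, hx, Matrix.mulVec_zero]
  exact Matrix.eq_zero_of_mulVec_eq_zero hz2 h1

end rep

/-- **The generic package.** Over a field `k` of characteristic 0 (in practice `ℂ`): generic point of
`SO(2n)³ × Λ²` through `g0`, specialisation in both directions, and for every linear system over the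
generic field a generic solution `F` such that every solution of the linearised equations is realised
by a derivation of an algebraically closed field. -/
theorem package (k : Type) [Field k] [CharZero k] {n : ℕ} {M : Type}
    (g0 : Fin 3 → Matrix (Ix n) (Ix n) k) (h0 : ∀ s, (g0 s)ᵀ * Jm n k * g0 s = Jm n k) :
    ∃ (K : Type) (_ : Field K) (_ : Algebra k K) (_ : IsAlgClosed K) (_ : CharZero K)
      (g : Fin 3 → Matrix (Ix n) (Ix n) K) (H : Matrix M M K),
      (∀ s, (g s)ᵀ * Jm n K * g s = Jm n K) ∧ Hᵀ = -H ∧ (∀ x, H x x = 0) ∧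
      -- (b)
      (∀ (P : MvPolynomial (Ent n M) k) (H0 : Matrix M M k), H0ᵀ = -H0 →
        aeval (ent g0 H0) P ≠ 0 → aeval (ent g H) P ≠ 0) ∧
      -- (c)
      (∀ (a b : Type) [Fintype a] [Fintype b] [DecidableEq a] [DecidableEq b]
        (Λ : Matrix a b (MvPolynomial (Ent n M) k)),
        (∀ x : b → K, (Λ.map (aeval (ent g H))) *ᵥ x = 0 → x = 0) →
        ∃ (h : Fin 3 → Matrix (Ix n) (Ix n) k) (H' : Matrix M M k),
          (∀ s, (h s)ᵀ * Jm n k * h s = Jm n k ∧ (h s).det = (g0 s).det) ∧ H'ᵀ = -H' ∧
          (∀ x, H' x x = 0) ∧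
          ∀ x : b → k, (Λ.map (aeval (ent h H'))) *ᵥ x = 0 → x = 0) ∧
      -- (d)
      (∀ (L : Type) [Field L] [Algebra K L] [Algebra k L] [IsScalarTower k K L]
        (X : Fin 3 → Matrix (Ix n) (Ix n) L), (∀ s, IsSo (X s)) →
        ∀ (G : Matrix M M L), Gᵀ = -G →
        ∃ D : Derivation k L L, (∀ s, (emb K L (g s)).map D = X s * emb K L (g s)) ∧
          (emb K L H).map D = G) ∧
      -- (e)
      (∀ (a b : Type) [Fintype a] [Fintype b] [DecidableEq a] [DecidableEq b] (A : Matrix a b K),
        ∃ (L : Type) (_ : Field L) (_ : Algebra K L) (_ : Algebra k L) (_ : IsScalarTower k K L)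
          (_ : IsAlgClosed L) (_ : CharZero L) (F : b → L),
          emb K L A *ᵥ F = 0 ∧
          (∀ p : MvPolynomial b K, aeval F p = 0 → ∀ x : b → K, A *ᵥ x = 0 → aeval x p = 0) ∧
          (∀ (X : Fin 3 → Matrix (Ix n) (Ix n) L), (∀ s, IsSo (X s)) →
            ∀ (G : Matrix M M L), Gᵀ = -G →
            ∃ δ : Derivation k L L,
              (∀ s, (emb K L (g s)).map δ = X s * emb K L (g s)) ∧ (emb K L H).map δ = G ∧
              ∀ w : b → L, emb K L A *ᵥ w + (emb K L A).map δ *ᵥ F = 0 →
                ∃ D : Derivation k L L, (∀ a : K, D (algebraMap K L a) = δ (algebraMap K L a)) ∧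
                  (∀ s, (emb K L (g s)).map D = X s * emb K L (g s)) ∧ (emb K L H).map D = G ∧
                  ∀ j, D (F j) = w j)) := by
  classical
  obtain ⟨K, _, _, _, _, t, ht⟩ := exists_generic k (Par n M)
  have hdz := dz_ne_zero_of_indep ht
  have hd : ∀ s, (Az t s).det ≠ 0 := fun s h =>
    hdz (Finset.prod_eq_zero (Finset.mem_univ s) h)
  have hJ : ∀ (L : Type) [Field L] [Algebra k L], (Jm n k).map (algebraMap k L) = Jm n L := by
    intro L _ _
    simp only [LieAlgebra.Orthogonal.JD, fromBlocks_map]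
    congr 1 <;> ext i j <;> by_cases h : i = j <;> simp [Matrix.one_apply, h]
  have h0K : ∀ s, (emb k K (g0 s))ᵀ * Jm n K * emb k K (g0 s) = Jm n K := by
    intro s
    have h := congrArg (fun A : Matrix (Ix n) (Ix n) k => A.map (algebraMap k K)) (h0 s)
    simp only [Matrix.map_mul, transpose_map, hJ] at h
    exact h
  have hdir : ∀ (L : Type) [Field L] [Algebra K L] [Algebra k L] [IsScalarTower k K L]
        (X : Fin 3 → Matrix (Ix n) (Ix n) L), (∀ s, IsSo (X s)) →
        ∀ (G : Matrix M M L), Gᵀ = -G →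
        ∃ D : Derivation k L L, (∀ s, (emb K L (gz (fun s => emb k K (g0 s)) t s)).map D =
          X s * emb K L (gz (fun s => emb k K (g0 s)) t s)) ∧
          (emb K L (Hz t)).map D = G := by
    intro L _ _ _ _ X hX G hG
    exact exists_direction g0 h0 ht hd X hX G hG
  refine ⟨K, inferInstance, inferInstance, inferInstance, inferInstance,
    gz (fun s => emb k K (g0 s)) t, Hz t, fun s => gz_orth t s (h0K s) (hd s), Hz_skew t,
    Hz_diag t, ?_, ?_, hdir, ?_⟩
  · intro P H0 hH hP
    exact generic_ne_zero g0 ht hdz P hH hP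
  · intro a b _ _ _ _ Λ hΛ
    have : Infinite k := inferInstance
    obtain ⟨z, hz1, hz2⟩ := exists_special_kernel g0 hdz Λ hΛ
    have hzs : ∀ s, (Az z s).det ≠ 0 := fun s h =>
      hz1 (Finset.prod_eq_zero (Finset.mem_univ s) h)
    refine ⟨gz g0 z, Hz z, fun s => ⟨gz_orth z s (h0 s) (hzs s), ?_⟩, Hz_skew z, Hz_diag z, hz2⟩
    have hm : (mid (Az z s) (Az z s)⁻¹).det = 1 := by
      rw [mid, det_fromBlocks_zero₂₁, det_transpose, ← det_mul,
        Matrix.mul_nonsing_inv _ (isUnit_iff_ne_zero.2 (hzs s)), det_one]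
    rw [gz, det_mul, det_mul, det_mul, hm, lo, up, det_fromBlocks_zero₁₂, det_fromBlocks_zero₂₁]
    simp
  · intro a b _ _ _ _ A
    obtain ⟨L, _, _, _, _, _, _, F, hF1, hF2, hF3⟩ := exists_generic_kernel k K A
    refine ⟨L, inferInstance, inferInstance, inferInstance, inferInstance, inferInstance,
      inferInstance, F, hF1, hF2, ?_⟩
    intro X hX G hG
    obtain ⟨δ, hδ1, hδ2⟩ := hdir L X hX G hG
    refine ⟨δ, hδ1, hδ2, fun w hw => ?_⟩
    obtain ⟨D, hD1, hD2⟩ := hF3 (δ.compAlgebraMap K) w (by
      have : dmat (δ.compAlgebraMap K) A = (emb K L A).map δ := rfl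
      rw [this]; exact hw)
    have hD1' : ∀ a : K, D (algebraMap K L a) = δ (algebraMap K L a) := hD1
    refine ⟨D, hD1', fun s => ?_, ?_, hD2⟩
    · rw [← hδ1 s]
      ext i j
      simp [hD1']
    · rw [← hδ2]
      ext i j
      simp [hD1']

end Crest.Agent.R172.Gen
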