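import Crest.Agent.R172.IndExt
import Mathlib.LinearAlgebra.Dual.Lemmas

/-!
Row 172, node IND: generic elements of subspaces, towers, base change of realised directions.
-/

set_option autoImplicit false
set_option linter.unusedSectionVars false
set_option maxHeartbeats 400000

namespace Crest.Agent.R172.GenP

open Matrix Crest.AlgebraR.SpinSaturation Crest.Agent.R172.SoGrade Crest.Agent.R172.Sp
open Crest.Agent.R172.Gen (Jm Ix emb IsSo)
open Crest.Agent.R172.CF Crest.Agent.R172.HM8 Crest.Agent.R172.HM9 Module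
open Crest.Agent.R172.Ind (GI kk mu perp Bd)
open Crest.Agent.R172.Ext

section bc

variable {K L : Type} [Field K] [Field L] [Algebra K L] {β : Type}

/-- membership in the base change of a subspace of `K^β` -/
def InBC (Z : Submodule K (β → K)) (v : β → L) : Prop :=
  ∀ φ : L →ₗ[K] K, (fun i => φ (v i)) ∈ Z

variable [Fintype β] [DecidableEq β]

/-- a projector onto a subspace -/
theorem exists_proj (Z : Submodule K (β → K)) :
    ∃ P : Matrix β β K, (∀ j, (fun i => P i j) ∈ Z) ∧ ∀ x ∈ Z, P *ᵥ x = x := by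
  obtain ⟨Q, hQ⟩ := Z.exists_isCompl
  let f : (β → K) →ₗ[K] (β → K) := Z.subtype.comp (Submodule.projectionOnto Z Q hQ)
  have hf1 : ∀ x, f x ∈ Z := fun x => (Submodule.projectionOnto Z Q hQ x).2
  have hf2 : ∀ x ∈ Z, f x = x := by
    intro x hx
    have := Submodule.projectionOnto_apply_left hQ ⟨x, hx⟩
    change ((Submodule.projectionOnto Z Q hQ x : Z) : β → K) = x
    rw [this]
  have hm : ∀ x, (LinearMap.toMatrix' f) *ᵥ x = f x := by
    intro x
    rw [← Matrix.toLin'_apply, Matrix.toLin'_toMatrix']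
  refine ⟨LinearMap.toMatrix' f, fun j => ?_, fun x hx => ?_⟩
  · have h1 : (fun i => LinearMap.toMatrix' f i j) = f (Pi.single j 1) := by
      rw [← hm]
      funext i
      rw [Matrix.mulVec_single_one]
      rfl
    rw [h1]
    exact hf1 _
  · rw [hm, hf2 x hx]

omit [DecidableEq β] in
theorem map_mulVec {γ : Type} (A : Matrix γ β K) (v : β → L) (φ : L →ₗ[K] K) :
    (fun i => φ ((emb K L A *ᵥ v) i)) = A *ᵥ (fun i => φ (v i)) := by
  funext i
  rw [mulVec, dotProduct, map_sum, mulVec, dotProduct]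
  refine Finset.sum_congr rfl fun j _ => ?_
  rw [FO3.emb_apply', ← Algebra.smul_def, map_smul, smul_eq_mul]

theorem eq_zero_of_dual {x : L} (h : ∀ φ : L →ₗ[K] K, φ x = 0) : x = 0 :=
  (Module.forall_dual_apply_eq_zero_iff K x).1 h

/-- membership by a projector -/
theorem inBC_iff {Z : Submodule K (β → K)} {P : Matrix β β K} (h1 : ∀ j, (fun i => P i j) ∈ Z)
    (h2 : ∀ x ∈ Z, P *ᵥ x = x) (v : β → L) : InBC Z v ↔ emb K L P *ᵥ v = v := by
  constructor
  · intro h
    funext i
    rw [← sub_eq_zero]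
    apply eq_zero_of_dual (K := K)
    intro φ
    have h3 := congrFun (map_mulVec P v φ) i
    rw [h2 _ (h φ)] at h3
    rw [map_sub, sub_eq_zero]
    exact h3
  · intro h φ
    have h3 := map_mulVec P v φ
    rw [h] at h3
    rw [h3]
    have h4 : P *ᵥ (fun i => φ (v i)) = ∑ j, φ (v j) • (fun i => P i j) := by
      funext i
      rw [mulVec, dotProduct, Finset.sum_apply]
      exact Finset.sum_congr rfl fun j _ => mul_comm _ _
    rw [h4]
    exact Z.sum_mem fun j _ => Z.smul_mem _ (h1 j)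

/-- expansion of an element of the base change -/
theorem InBC.expand {Z : Submodule K (β → K)} {P : Matrix β β K}
    (h1 : ∀ j, (fun i => P i j) ∈ Z) (h2 : ∀ x ∈ Z, P *ᵥ x = x) {v : β → L} (h : InBC Z v) :
    v = ∑ j, v j • (fun i => algebraMap K L (P i j)) := by
  have h3 := (inBC_iff h1 h2 v).1 h
  conv_lhs => rw [← h3]
  funext i
  rw [mulVec, dotProduct, Finset.sum_apply]
  exact Finset.sum_congr rfl fun j _ => mul_comm _ _

omit [Fintype β] [DecidableEq β] in
theorem inBC_emb {Z : Submodule K (β → K)} {v : β → K} (h : v ∈ Z) :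
    InBC (L := L) Z (fun i => algebraMap K L (v i)) := by
  intro φ
  have : (fun i => φ (algebraMap K L (v i))) = φ 1 • v := by
    funext i
    rw [Algebra.algebraMap_eq_smul_one, map_smul, Pi.smul_apply, smul_eq_mul, smul_eq_mul,
      mul_comm]
  rw [this]
  exact Z.smul_mem _ h

variable (L) in
/-- the base change as a subspace -/
def bc {β : Type} (Z : Submodule K (β → K)) : Submodule L (β → L) where
  carrier := {v | InBC Z v}
  add_mem' := by
    intro v w hv hw φ
    have : (fun i => φ ((v + w) i)) = (fun i => φ (v i)) + fun i => φ (w i) := by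
      funext i
      rw [Pi.add_apply, map_add]; rfl
    rw [this]
    exact Z.add_mem (hv φ) (hw φ)
  zero_mem' := by
    intro φ
    have : (fun i => φ ((0 : β → L) i)) = 0 := by
      funext i
      rw [Pi.zero_apply, map_zero]; rfl
    rw [this]
    exact Z.zero_mem
  smul_mem' := by
    intro t v hv φ
    exact hv (φ.comp (LinearMap.mulLeft K t))

omit [Fintype β] [DecidableEq β] in
theorem mem_bc {Z : Submodule K (β → K)} {v : β → L} : v ∈ bc L Z ↔ InBC Z v := Iff.rfl

/-- transitivity of base change -/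
theorem bc_trans {L' : Type} [Field L'] [Algebra K L'] [Algebra L L'] [IsScalarTower K L L']
    (Z : Submodule K (β → K)) (v : β → L') : InBC (bc L Z) v ↔ InBC Z v := by
  obtain ⟨P, h1, h2⟩ := exists_proj Z
  have h3 : ∀ j, (fun i => emb K L P i j) ∈ bc L Z := fun j => inBC_emb (h1 j)
  have h4 : ∀ x ∈ bc L Z, emb K L P *ᵥ x = x := fun x hx => (inBC_iff h1 h2 x).1 hx
  rw [inBC_iff h3 h4, inBC_iff h1 h2]
  have h5 : emb L L' (emb K L P) = emb K L' P := by
    ext i j
    rw [FO3.emb_apply', FO3.emb_apply', FO3.emb_apply', ← IsScalarTower.algebraMap_apply]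
  rw [h5]

end bc

/-- **generic elements of a subspace** -/
theorem gen_sub {K : Type} [Field K] [Algebra ℂ K] {β : Type} [Fintype β] [DecidableEq β]
    (Z : Submodule K (β → K)) :
    ∃ (L : Type) (_ : Field L) (_ : Algebra K L) (_ : Algebra ℂ L) (_ : IsScalarTower ℂ K L)
      (_ : IsAlgClosed L) (_ : CharZero L) (F : β → L), InBC Z F ∧
      (∀ q : MvPolynomial β K, MvPolynomial.aeval F q = 0 →
        ∀ F0 ∈ Z, MvPolynomial.aeval F0 q = 0) ∧
      ∀ w : β → L, InBC Z w → ∃ D : Derivation ℂ L L, (∀ x, D (algebraMap K L x) = 0) ∧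
        ∀ i, D (F i) = w i := by
  have hc : CharZero K := charZero_of_injective_algebraMap (algebraMap ℂ K).injective
  obtain ⟨P, h1, h2⟩ := exists_proj Z
  obtain ⟨L, iL, iKL, iCL, ist, icl, icz, F, hF, hspec, hder⟩ :=
    Gen.exists_generic_kernel ℂ K (1 - P)
  have key : ∀ v : β → L, InBC Z v ↔ emb K L (1 - P) *ᵥ v = 0 := by
    intro v
    have h3 : emb K L (1 - P) = 1 - emb K L P := by
      ext i j
      rw [FO3.emb_apply', Matrix.sub_apply, Matrix.sub_apply, map_sub, Matrix.one_apply,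
        Matrix.one_apply]
      split_ifs <;> simp
    rw [inBC_iff h1 h2, h3, Matrix.sub_mulVec, Matrix.one_mulVec, sub_eq_zero]
    exact eq_comm
  refine ⟨L, iL, iKL, iCL, ist, icl, icz, F, (key F).2 hF, ?_, ?_⟩
  · intro q hq F0 hF0
    refine hspec q hq F0 ?_
    rw [Matrix.sub_mulVec, Matrix.one_mulVec, h2 F0 hF0, sub_self]
  · intro w hw
    obtain ⟨D, hD1, hD2⟩ := hder 0 w (by
      rw [(key w).1 hw]
      have : Gen.dmat (0 : Derivation ℂ K L) (1 - P) = 0 := by ext i j; rfl
      rw [this, Matrix.zero_mulVec, add_zero])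
    exact ⟨D, fun x => hD1 x, hD2⟩

section real

variable {n : ℕ} {a : Fin 3 → Fin n → ℤ} (c : Cfg n a) {K L : Type} [Field K]
  [Field L] [Algebra K L] [Algebra ℂ K] [Algebra ℂ L] [IsScalarTower ℂ K L]

/-- directions `(X, G, w)` realised by a derivation: `X` on `N(g)`, `G` on `H`, `w` on `v` -/
def RealG (g : Fin 3 → Matrix (Ix n) (Ix n) L) {m : ℕ} (H : Matrix (Fin m) (Fin m) L)
    {γ : Type} (v : γ → L) :
    Submodule L ((Fin 3 → Matrix (Ix n) (Ix n) L) × Matrix (Fin m) (Fin m) L × (γ → L)) where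
  carrier := {x | ∃ D : Derivation ℂ L L,
    (∀ F ∈ c.N g, F.map D - FO.act c.arm x.1 F ∈ c.N g) ∧ H.map D = x.2.1 ∧
      ∀ i, D (v i) = x.2.2 i}
  zero_mem' := by
    refine ⟨0, fun F hF => ?_, ?_, fun i => rfl⟩
    · have h1 : F.map (0 : Derivation ℂ L L) = 0 := by ext i j; rfl
      have h2 : FO.act c.arm (0 : Fin 3 → Matrix (Ix n) (Ix n) L) F = 0 := FO.act_zero c.arm F
      rw [h1, Prod.fst_zero, h2, sub_zero]
      exact Submodule.zero_mem _
    · ext i j; rfl
  add_mem' := by
    rintro x y ⟨D1, h2, h3, h4⟩ ⟨D2, k2, k3, k4⟩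
    refine ⟨D1 + D2, fun F hF => ?_, ?_, fun i => ?_⟩
    · have e1 : F.map (D1 + D2) = F.map D1 + F.map D2 := by ext i j; rfl
      have e2 : FO.act c.arm (x + y).1 F = FO.act c.arm x.1 F + FO.act c.arm y.1 F := by
        rw [← act_add_left]; rfl
      rw [e1, e2, add_sub_add_comm]
      exact Submodule.add_mem _ (h2 F hF) (k2 F hF)
    · rw [Prod.snd_add, Prod.fst_add, ← h3, ← k3]; ext i j; rfl
    · rw [Prod.snd_add, Prod.snd_add, Pi.add_apply, ← h4, ← k4]; rfl
  smul_mem' := by
    rintro t x ⟨D1, h2, h3, h4⟩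
    refine ⟨t • D1, fun F hF => ?_, ?_, fun i => ?_⟩
    · have e1 : F.map (t • D1) = t • F.map D1 := by ext i j; rfl
      have e2 : FO.act c.arm (t • x).1 F = t • FO.act c.arm x.1 F := by
        rw [← act_smul_left]; rfl
      rw [e1, e2, ← smul_sub]
      exact Submodule.smul_mem _ _ (h2 F hF)
    · rw [Prod.smul_snd, Prod.smul_fst, ← h3]; ext i j; rfl
    · rw [Prod.smul_snd, Prod.smul_snd, Pi.smul_apply, ← h4]; rfl

variable {c}

theorem mem_RealG {g : Fin 3 → Matrix (Ix n) (Ix n) L} {m : ℕ} {H : Matrix (Fin m) (Fin m) L}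
    {γ : Type} {v : γ → L}
    {x : (Fin 3 → Matrix (Ix n) (Ix n) L) × Matrix (Fin m) (Fin m) L × (γ → L)} :
    x ∈ RealG c g H v ↔ ∃ D : Derivation ℂ L L,
      (∀ F ∈ c.N g, F.map D - FO.act c.arm x.1 F ∈ c.N g) ∧ H.map D = x.2.1 ∧
        ∀ i, D (v i) = x.2.2 i := Iff.rfl

/-- a derivation of the big field which extends a derivation of the small field realises the same
direction -/
theorem real_of_ext {g : Fin 3 → Matrix (Ix n) (Ix n) K} {X : Fin 3 → Matrix (Ix n) (Ix n) K}
    {D0 : Derivation ℂ K K} (h1 : ∀ F ∈ c.N g, F.map D0 - FO.act c.arm X F ∈ c.N g)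
    {D : Derivation ℂ L L} (hD : ∀ x, D (algebraMap K L x) = algebraMap K L (D0 x)) :
    ∀ F ∈ c.N (fun s => emb K L (g s)),
      F.map D - FO.act c.arm (fun s => emb K L (X s)) F ∈ c.N (fun s => emb K L (g s)) := by
  have hP : c.N (fun s => emb K L (g s)) ≤ GoodF (c.N (fun s => emb K L (g s))) D
      (fun s => emb K L (X s)) := by
    refine N_induction _ ?_
    intro F hF t
    refine Submodule.smul_mem _ t ⟨emb_mem_N' hF, ?_⟩
    have e1 : (emb K L F).map D = emb K L (F.map D0) := by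
      ext i j
      exact hD (F i j)
    have e3 : emb K L (F.map D0) - emb K L (FO.act c.arm X F) =
        emb K L (F.map D0 - FO.act c.arm X F) := by
      ext i j
      rw [Matrix.sub_apply, FO3.emb_apply', FO3.emb_apply', FO3.emb_apply', Matrix.sub_apply,
        map_sub]
    rw [e1, ← emb_act, e3]
    exact emb_mem_N' (h1 F hF)
  exact fun F hF => (hP hF).2

/-- realised directions base change -/
theorem real_bc {g : Fin 3 → Matrix (Ix n) (Ix n) K} {m : ℕ} {H : Matrix (Fin m) (Fin m) K}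
    {γ : Type} {v : γ → K} {X : Fin 3 → Matrix (Ix n) (Ix n) K} {G : Matrix (Fin m) (Fin m) K}
    {w : γ → K} (h : (X, G, w) ∈ RealG c g H v) :
    ((fun s => emb K L (X s)), emb K L G, (fun i => algebraMap K L (w i))) ∈
      RealG c (fun s => emb K L (g s)) (emb K L H) (fun i => algebraMap K L (v i)) := by
  obtain ⟨D0, h1, h2, h3⟩ := h
  obtain ⟨D, hD⟩ := extend_der (L := L) D0
  refine ⟨D, real_of_ext h1 hD, ?_, fun i => ?_⟩
  · change (emb K L H).map D = emb K L G
    rw [← show H.map D0 = G from h2]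
    ext i j
    exact hD (H i j)
  · change D (algebraMap K L (v i)) = algebraMap K L (w i)
    rw [hD, h3]

/-- vertical derivations base change: if all `w` of the subspace `Y` (over `K`) are realised
vertically, so are all `w` of its base change -/
theorem vert_bc {g : Fin 3 → Matrix (Ix n) (Ix n) K} {m : ℕ} {H : Matrix (Fin m) (Fin m) K}
    {γ : Type} [Fintype γ] [DecidableEq γ] {v : γ → K} {Y : Submodule K (γ → K)}
    (h : ∀ w ∈ Y, ∃ D : Derivation ℂ K K,
      (∀ F ∈ c.N g, F.map D - FO.act c.arm 0 F ∈ c.N g) ∧ H.map D = 0 ∧ ∀ i, D (v i) = w i)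
    {w : γ → L} (hw : InBC Y w) :
    ∃ D : Derivation ℂ L L, (∀ F ∈ c.N (fun s => emb K L (g s)),
      F.map D - FO.act c.arm 0 F ∈ c.N (fun s => emb K L (g s))) ∧ (emb K L H).map D = 0 ∧
        ∀ i, D (algebraMap K L (v i)) = w i := by
  obtain ⟨P, h1, h2⟩ := exists_proj Y
  have key : ∀ j, ((0 : Fin 3 → Matrix (Ix n) (Ix n) L), (0 : Matrix (Fin m) (Fin m) L),
      (fun i => algebraMap K L (P i j))) ∈
      RealG c (fun s => emb K L (g s)) (emb K L H) (fun i => algebraMap K L (v i)) := by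
    intro j
    obtain ⟨D, hD1, hD2, hD3⟩ := h _ (h1 j)
    have h5 := real_bc (c := c) (L := L) (g := g) (H := H) (v := v) (X := 0) (G := 0)
      (w := fun i => P i j) ⟨D, hD1, hD2, hD3⟩
    have e1 : (fun s => emb K L ((0 : Fin 3 → Matrix (Ix n) (Ix n) K) s)) = 0 := by
      funext s
      ext x y
      rw [FO3.emb_apply', Pi.zero_apply, Pi.zero_apply, Matrix.zero_apply, Matrix.zero_apply,
        map_zero]
    have e2 : emb K L (0 : Matrix (Fin m) (Fin m) K) = 0 := by
      ext x y
      rw [FO3.emb_apply', Matrix.zero_apply, Matrix.zero_apply, map_zero]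
    rw [e1, e2] at h5
    exact h5
  have h6 : ((0 : Fin 3 → Matrix (Ix n) (Ix n) L), (0 : Matrix (Fin m) (Fin m) L), w) =
      ∑ j, w j • ((0 : Fin 3 → Matrix (Ix n) (Ix n) L), (0 : Matrix (Fin m) (Fin m) L),
        (fun i => algebraMap K L (P i j))) := by
    refine Prod.ext ?_ (Prod.ext ?_ ?_)
    · simp only [Prod.fst_sum, Prod.smul_fst, smul_zero, Finset.sum_const_zero]
    · simp only [Prod.fst_sum, Prod.snd_sum, Prod.smul_fst, Prod.smul_snd, smul_zero,
        Finset.sum_const_zero]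
    · simp only [Prod.snd_sum, Prod.smul_snd]
      exact hw.expand h1 h2
  have h7 : ((0 : Fin 3 → Matrix (Ix n) (Ix n) L), (0 : Matrix (Fin m) (Fin m) L), w) ∈
      RealG c (fun s => emb K L (g s)) (emb K L H) (fun i => algebraMap K L (v i)) := by
    rw [h6]
    exact Submodule.sum_mem _ fun j _ => Submodule.smul_mem _ _ (key j)
  exact h7

/-- a derivation which kills the small field realises `(0, 0)` -/
theorem vert_zero {g : Fin 3 → Matrix (Ix n) (Ix n) K} {m : ℕ} {H : Matrix (Fin m) (Fin m) K}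
    {D : Derivation ℂ L L} (hD : ∀ x, D (algebraMap K L x) = 0) :
    (∀ F ∈ c.N (fun s => emb K L (g s)),
      F.map D - FO.act c.arm 0 F ∈ c.N (fun s => emb K L (g s))) ∧ (emb K L H).map D = 0 := by
  constructor
  · have h1 := real_of_ext (c := c) (L := L) (g := g) (X := 0) (D0 := 0) (by
      intro F hF
      have e1 : F.map (0 : Derivation ℂ K K) = 0 := by ext i j; rfl
      rw [e1, FO.act_zero, sub_zero]
      exact Submodule.zero_mem _) (D := D) (by
      intro x
      rw [hD]
      exact (map_zero _).symm)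
    have e1 : (fun s => emb K L ((0 : Fin 3 → Matrix (Ix n) (Ix n) K) s)) = 0 := by
      funext s
      ext x y
      rw [FO3.emb_apply', Pi.zero_apply, Pi.zero_apply, Matrix.zero_apply, Matrix.zero_apply,
        map_zero]
    rw [e1] at h1
    exact h1
  · ext i j
    exact hD (H i j)

end real

/-! ### Matrix forms -/

section mat

/-- currying -/
def unc (K : Type) [Field K] (α β : Type) : (α × β → K) ≃ₗ[K] Matrix α β K where
  toFun f := Matrix.of fun i j => f (i, j)
  invFun F := fun y => F y.1 y.2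
  map_add' _ _ := rfl
  map_smul' _ _ := rfl
  left_inv _ := rfl
  right_inv _ := rfl

/-- **generic elements of a subspace of matrices** -/
theorem gen_mat {K : Type} [Field K] [Algebra ℂ K] {α β : Type} [Fintype α] [DecidableEq α]
    [Fintype β] [DecidableEq β] (Z : Submodule K (Matrix α β K)) :
    ∃ (L : Type) (_ : Field L) (_ : Algebra K L) (_ : Algebra ℂ L) (_ : IsScalarTower ℂ K L)
      (_ : IsAlgClosed L) (_ : CharZero L) (F : Matrix α β L), (∀ φ : L →ₗ[K] K, F.map φ ∈ Z) ∧
      (∀ q : MvPolynomial (α × β) K, MvPolynomial.aeval (fun y => F y.1 y.2) q = 0 →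
        ∀ F0 ∈ Z, MvPolynomial.aeval (fun y => F0 y.1 y.2) q = 0) ∧
      ∀ w : Matrix α β L, (∀ φ : L →ₗ[K] K, w.map φ ∈ Z) →
        ∃ D : Derivation ℂ L L, (∀ x, D (algebraMap K L x) = 0) ∧ F.map D = w := by
  obtain ⟨L, iL, iKL, iCL, ist, icl, icz, F, hF, hspec, hder⟩ :=
    gen_sub (Z.comap (unc K α β).toLinearMap)
  refine ⟨L, iL, iKL, iCL, ist, icl, icz, Matrix.of fun i j => F (i, j), fun φ => hF φ, ?_, ?_⟩
  · intro q hq F0 hF0
    exact hspec q hq (fun y => F0 y.1 y.2) hF0
  · intro w hw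
    obtain ⟨D, hD1, hD2⟩ := hder (fun y => w y.1 y.2) (fun φ => hw φ)
    exact ⟨D, hD1, by ext i j; exact hD2 (i, j)⟩

variable {n : ℕ} {a : Fin 3 → Fin n → ℤ} {c : Cfg n a} {K L : Type} [Field K]
  [Field L] [Algebra K L] [Algebra ℂ K] [Algebra ℂ L] [IsScalarTower ℂ K L]

/-- vertical derivations base change, matrix form -/
theorem vert_bc_mat {g : Fin 3 → Matrix (Ix n) (Ix n) K} {m : ℕ} {H : Matrix (Fin m) (Fin m) K}
    {α β : Type} [Fintype α] [DecidableEq α] [Fintype β] [DecidableEq β] {F0 : Matrix α β K}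
    {Y : Submodule K (Matrix α β K)}
    (h : ∀ w ∈ Y, ∃ D : Derivation ℂ K K,
      (∀ F ∈ c.N g, F.map D - FO.act c.arm 0 F ∈ c.N g) ∧ H.map D = 0 ∧ F0.map D = w)
    {w : Matrix α β L} (hw : ∀ φ : L →ₗ[K] K, w.map φ ∈ Y) :
    ∃ D : Derivation ℂ L L, (∀ F ∈ c.N (fun s => emb K L (g s)),
      F.map D - FO.act c.arm 0 F ∈ c.N (fun s => emb K L (g s))) ∧ (emb K L H).map D = 0 ∧
        (emb K L F0).map D = w := by
  obtain ⟨D, hD1, hD2, hD3⟩ := vert_bc (c := c) (L := L) (g := g) (H := H)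
    (v := fun y : α × β => F0 y.1 y.2)
    (Y := Y.comap (unc K α β).toLinearMap) (by
      intro w hw
      obtain ⟨D, hD1, hD2, hD3⟩ := h _ hw
      exact ⟨D, hD1, hD2, fun i => congrFun (congrFun hD3 i.1) i.2⟩)
    (w := fun y => w y.1 y.2) (fun φ => hw φ)
  exact ⟨D, hD1, hD2, by ext i j; exact hD3 (i, j)⟩

/-- correction: some `D` extending `D0` with `F.map D = w`, if `w` differs from the value for one
extension by an element of the base change -/
theorem exists_corr {α β : Type} {Z : Submodule K (Matrix α β K)} {F : Matrix α β L}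
    (hv : ∀ w : Matrix α β L, (∀ φ : L →ₗ[K] K, w.map φ ∈ Z) →
        ∃ D : Derivation ℂ L L, (∀ x, D (algebraMap K L x) = 0) ∧ F.map D = w)
    (D1 : Derivation ℂ L L) {w : Matrix α β L}
    (hw : ∀ φ : L →ₗ[K] K, (w - F.map D1).map φ ∈ Z) :
    ∃ D : Derivation ℂ L L, (∀ x, D (algebraMap K L x) = D1 (algebraMap K L x)) ∧
      F.map D = w := by
  obtain ⟨D, hD1, hD2⟩ := hv _ hw
  refine ⟨D1 + D, fun x => ?_, ?_⟩
  · rw [Derivation.add_apply, hD1, add_zero]
  · have : F.map (D1 + D) = F.map D1 + F.map D := by ext i j; rfl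
    rw [this, hD2]
    abel

end mat

end Crest.Agent.R172.GenP
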