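import Crest.Agent.R172.Fwd4

/-!
Row 172: every element of `SO(V)(ℂ)` (dimension `2n`, `n ≥ 2`) is the matrix of a word of exponentials of
root vectors.
-/

set_option autoImplicit false

namespace Crest.Agent.R172.GenSO

open Crest.AlgebraR.SpinSaturation Crest.Agent.R172.Fwd Matrix

variable {n : ℕ}

abbrev MM (n : ℕ) := Matrix (Fin n ⊕ Fin n) (Fin n ⊕ Fin n) ℂ

/-- the form -/
def J (n : ℕ) : MM n := Matrix.fromBlocks 0 1 1 0

/-- the orthogonal group -/
def IsO (g : MM n) : Prop := gᵀ * J n * g = J n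

/-- products of exponentials of root vectors -/
def E (g : MM n) : Prop := ∃ w : List (soD n), Wd w ∧ gm w = g

theorem gm_nil : gm ([] : List (soD n)) = 1 := by
  apply Matrix.toLin'.injective
  apply LinearMap.ext
  intro v
  rw [Matrix.toLin'_apply, gm_mulVec, act_nil, Matrix.toLin'_one]
  rfl

theorem gm_append (w w' : List (soD n)) : gm (w ++ w') = gm w * gm w' := by
  apply Matrix.toLin'.injective
  apply LinearMap.ext
  intro v
  rw [Matrix.toLin'_apply, Matrix.toLin'_apply, gm_mulVec, act_append, ← Matrix.mulVec_mulVec,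
    gm_mulVec, gm_mulVec]
  rfl

theorem E.one : E (1 : MM n) := ⟨[], fun _ h => absurd h (by simp), gm_nil⟩

theorem E.mul {g h : MM n} (hg : E g) (hh : E h) : E (g * h) := by
  obtain ⟨w, hw, rfl⟩ := hg
  obtain ⟨w', hw', rfl⟩ := hh
  refine ⟨w ++ w', ?_, gm_append _ _⟩
  intro z hz
  rcases List.mem_append.1 hz with h | h
  · exact hw z h
  · exact hw' z h

theorem E.of_sq {z : soD n} (hz : Rt z) (h2 : z.1 * z.1 = 0) : E (1 + z.1) := by
  refine ⟨[z], by simpa [Wd] using hz, ?_⟩
  apply Matrix.toLin'.injective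
  apply LinearMap.ext
  intro v
  rw [Matrix.toLin'_apply, Matrix.toLin'_apply, gm_mulVec, act_cons, act_nil, mul_one]
  have h3 : (LieModule.toEnd ℂ (soD n) (SV n) z) ^ 2 = 0 := by
    apply LinearMap.ext
    intro v
    rw [pow_two, Module.End.mul_apply, LieModule.toEnd_apply_apply, LieModule.toEnd_apply_apply]
    have h4 : ∀ v : Fin n ⊕ Fin n → ℂ, z.1.mulVec (z.1.mulVec v) = 0 := by
      intro v
      rw [Matrix.mulVec_mulVec, h2, Matrix.zero_mulVec]
    exact h4 v
  rw [ex_eq_sum h3, Finset.sum_range_succ, Finset.sum_range_one]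
  simp only [Nat.factorial_zero, Nat.factorial_one, Nat.cast_one, inv_one, pow_zero, pow_one,
    one_smul]
  rw [Matrix.add_mulVec, Matrix.one_mulVec]
  rfl

/-- upper unipotent -/
def u (B : Matrix (Fin n) (Fin n) ℂ) : MM n := Matrix.fromBlocks 1 B 0 1
/-- lower unipotent -/
def l (C : Matrix (Fin n) (Fin n) ℂ) : MM n := Matrix.fromBlocks 1 0 C 1
/-- Levi -/
noncomputable def m (P : Matrix (Fin n) (Fin n) ℂ) : MM n := Matrix.fromBlocks P 0 0 (P⁻¹)ᵀ

theorem E.u {B : Matrix (Fin n) (Fin n) ℂ} (hB : Bᵀ = -B) : E (u B) := by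
  have h := E.of_sq (mk_zero_B B hB) (by
    change (Matrix.fromBlocks 0 B 0 (-0ᵀ) : MM n) * (Matrix.fromBlocks 0 B 0 (-0ᵀ) : MM n) = 0
    rw [Matrix.fromBlocks_multiply]
    simp)
  convert h using 1
  change Matrix.fromBlocks 1 B 0 1 = (1 : MM n) + Matrix.fromBlocks 0 B 0 (-0ᵀ)
  rw [← Matrix.fromBlocks_one, Matrix.fromBlocks_add]
  congr 1 <;> simp

theorem E.l {C : Matrix (Fin n) (Fin n) ℂ} (hC : Cᵀ = -C) : E (l C) := by
  have h := E.of_sq (mk_zero_C C hC) (by
    change (Matrix.fromBlocks 0 0 C (-0ᵀ) : MM n) * (Matrix.fromBlocks 0 0 C (-0ᵀ) : MM n) = 0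
    rw [Matrix.fromBlocks_multiply]
    simp)
  convert h using 1
  change Matrix.fromBlocks 1 0 C 1 = (1 : MM n) + Matrix.fromBlocks 0 0 C (-0ᵀ)
  rw [← Matrix.fromBlocks_one, Matrix.fromBlocks_add]
  congr 1 <;> simp

theorem m_mul {P Q : Matrix (Fin n) (Fin n) ℂ} : m (P * Q) = m P * m Q := by
  rw [m, m, m, Matrix.fromBlocks_multiply]
  congr 1
  · simp
  · simp
  · simp
  · rw [Matrix.mul_inv_rev, Matrix.transpose_mul]; simp

theorem m_one : m (1 : Matrix (Fin n) (Fin n) ℂ) = 1 := by
  rw [m]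
  simp

/-- transvections -/
theorem E.m_transvection {i j : Fin n} (hij : i ≠ j) (t : ℂ) :
    E (m (1 + Matrix.single i j t)) := by
  have hsq : Matrix.single i j t * Matrix.single i j t = 0 :=
    Matrix.single_mul_single_of_ne _ _ _ _ hij.symm _
  have hinv : (1 + Matrix.single i j t)⁻¹ = 1 - Matrix.single i j t := by
    apply Matrix.inv_eq_right_inv
    rw [add_mul, one_mul, mul_sub, mul_one, hsq, sub_zero, sub_add_cancel]
  have hr := (mk_single i j hij).smul t
  have h := E.of_sq hr (by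
    have e : ((t • mk (Matrix.single i j 1) 0 0 z0 z0 : soD n) : MM n) =
        t • (Matrix.fromBlocks (Matrix.single i j 1) 0 0 (-(Matrix.single i j 1)ᵀ) : MM n) := rfl
    rw [e, smul_mul_smul_comm, Matrix.fromBlocks_multiply]
    simp [Matrix.single_mul_single_of_ne, hij, hij.symm, Matrix.transpose_single])
  convert h using 1
  have e : ((t • mk (Matrix.single i j 1) 0 0 z0 z0 : soD n) : MM n) =
        t • (Matrix.fromBlocks (Matrix.single i j 1) 0 0 (-(Matrix.single i j 1)ᵀ) : MM n) := rfl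
  rw [e, m, hinv, ← Matrix.fromBlocks_one, Matrix.fromBlocks_smul, Matrix.fromBlocks_add]
  congr 1
  · simp
  · simp
  · simp
  · simp [Matrix.transpose_sub, Matrix.transpose_single, sub_eq_add_neg]

theorem m_det {P : Matrix (Fin n) (Fin n) ℂ} (hP : P.det ≠ 0) : (m P).det = 1 := by
  rw [m, Matrix.det_fromBlocks_zero₂₁, Matrix.det_transpose, Matrix.det_nonsing_inv,
    Ring.inverse_eq_inv', mul_inv_cancel₀ hP]

theorem u_det (B : Matrix (Fin n) (Fin n) ℂ) : (u B).det = 1 := by
  rw [u, Matrix.det_fromBlocks_zero₂₁]; simp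

theorem l_det (C : Matrix (Fin n) (Fin n) ℂ) : (l C).det = 1 := by
  rw [l, Matrix.det_fromBlocks_zero₁₂]; simp

theorem u_mul (B B' : Matrix (Fin n) (Fin n) ℂ) : u B * u B' = u (B + B') := by
  rw [u, u, u, Matrix.fromBlocks_multiply]
  congr 1 <;> simp [add_comm]

theorem l_mul (B B' : Matrix (Fin n) (Fin n) ℂ) : l B * l B' = l (B + B') := by
  rw [l, l, l, Matrix.fromBlocks_multiply]
  congr 1 <;> simp [add_comm]

theorem isO_iff (P Q R S : Matrix (Fin n) (Fin n) ℂ) : IsO (Matrix.fromBlocks P Q R S) ↔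
    (Rᵀ * P + Pᵀ * R = 0 ∧ Rᵀ * Q + Pᵀ * S = 1 ∧ Sᵀ * P + Qᵀ * R = 1 ∧ Sᵀ * Q + Qᵀ * S = 0) := by
  rw [IsO, J, Matrix.fromBlocks_transpose, Matrix.fromBlocks_multiply, Matrix.fromBlocks_multiply,
    Matrix.fromBlocks_inj]
  simp only [Matrix.mul_zero, Matrix.mul_one, zero_add, add_zero]

theorem IsO.mul {g h : MM n} (hg : IsO g) (hh : IsO h) : IsO (g * h) := by
  rw [IsO] at *
  rw [Matrix.transpose_mul]
  calc hᵀ * gᵀ * J n * (g * h) = hᵀ * (gᵀ * J n * g) * h := by simp only [Matrix.mul_assoc]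
    _ = J n := by rw [hg, hh]

/-- big cell -/
theorem bigcell {P Q R S : Matrix (Fin n) (Fin n) ℂ} (h : IsO (Matrix.fromBlocks P Q R S))
    (hP : P.det ≠ 0) :
    (R * P⁻¹)ᵀ = -(R * P⁻¹) ∧ (P⁻¹ * Q)ᵀ = -(P⁻¹ * Q) ∧
      Matrix.fromBlocks P Q R S = l (R * P⁻¹) * m P * u (P⁻¹ * Q) := by
  obtain ⟨h1, h2, h3, h4⟩ := (isO_iff P Q R S).1 h
  have hu : IsUnit P.det := isUnit_iff_ne_zero.2 hP
  have e1 : P * P⁻¹ = 1 := Matrix.mul_nonsing_inv P hu
  have e2 : P⁻¹ * P = 1 := Matrix.nonsing_inv_mul P hu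
  have e1' : P⁻¹ᵀ * Pᵀ = 1 := by rw [← Matrix.transpose_mul, e1, Matrix.transpose_one]
  have e2' : Pᵀ * P⁻¹ᵀ = 1 := by rw [← Matrix.transpose_mul, e2, Matrix.transpose_one]
  have c1 : (R * P⁻¹)ᵀ = -(R * P⁻¹) := by
    rw [Matrix.transpose_mul]
    calc P⁻¹ᵀ * Rᵀ = P⁻¹ᵀ * (Rᵀ * P) * P⁻¹ := by
          rw [Matrix.mul_assoc, Matrix.mul_assoc, e1, Matrix.mul_one]
      _ = P⁻¹ᵀ * (-(Pᵀ * R)) * P⁻¹ := by rw [eq_neg_of_add_eq_zero_left h1]
      _ = -(P⁻¹ᵀ * Pᵀ * R * P⁻¹) := by
          rw [Matrix.mul_neg, Matrix.neg_mul, Matrix.mul_assoc P⁻¹ᵀ Pᵀ R]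
      _ = -(R * P⁻¹) := by rw [e1', Matrix.one_mul]
  -- S = P⁻ᵀ + (R P⁻¹) Q
  have hS : S = P⁻¹ᵀ + R * P⁻¹ * Q := by
    have h5 : Pᵀ * S = 1 - Rᵀ * Q := by rw [← h2]; abel
    calc S = P⁻¹ᵀ * (Pᵀ * S) := by rw [← Matrix.mul_assoc, e1', Matrix.one_mul]
      _ = P⁻¹ᵀ - P⁻¹ᵀ * Rᵀ * Q := by rw [h5, Matrix.mul_sub, Matrix.mul_one, Matrix.mul_assoc]
      _ = P⁻¹ᵀ - (R * P⁻¹)ᵀ * Q := by rw [Matrix.transpose_mul]
      _ = P⁻¹ᵀ + R * P⁻¹ * Q := by rw [c1, Matrix.neg_mul, sub_neg_eq_add]
  have c2 : (P⁻¹ * Q)ᵀ = -(P⁻¹ * Q) := by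
    have h6 : Qᵀ * P⁻¹ᵀ + P⁻¹ * Q + (Qᵀ * (R * P⁻¹) * Q + Qᵀ * (R * P⁻¹)ᵀ * Q) = 0 := by
      have e3 : Sᵀ = P⁻¹ + Qᵀ * (R * P⁻¹)ᵀ := by
        rw [hS, Matrix.transpose_add, Matrix.transpose_transpose, Matrix.transpose_mul]
      calc _ = Sᵀ * Q + Qᵀ * S := by
            rw [e3, hS]
            simp only [Matrix.add_mul, Matrix.mul_add, Matrix.mul_assoc]
            abel
        _ = 0 := h4
    rw [c1, Matrix.mul_neg, Matrix.neg_mul, add_neg_cancel, add_zero] at h6
    rw [Matrix.transpose_mul]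
    exact eq_neg_of_add_eq_zero_left h6
  refine ⟨c1, c2, ?_⟩
  rw [l, m, u, Matrix.fromBlocks_multiply, Matrix.fromBlocks_multiply]
  have e4 : P * (P⁻¹ * Q) = Q := by rw [← Matrix.mul_assoc, e1, Matrix.one_mul]
  have e5 : R * P⁻¹ * P = R := by rw [Matrix.mul_assoc, e2, Matrix.mul_one]
  congr 1
  · simp
  · simp [e4]
  · simp [e5]
  · simp only [Matrix.one_mul, Matrix.mul_zero, zero_add, add_zero, Matrix.zero_mul,
      Matrix.mul_one, e5]
    rw [hS, ← Matrix.mul_assoc, add_comm]

theorem isO_u {B : Matrix (Fin n) (Fin n) ℂ} (hB : Bᵀ = -B) : IsO (u B) := by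
  rw [u, isO_iff]
  simp [hB]

theorem isO_l {B : Matrix (Fin n) (Fin n) ℂ} (hB : Bᵀ = -B) : IsO (l B) := by
  rw [l, isO_iff]
  simp [hB]

theorem E.m_of_cell {B C : Matrix (Fin n) (Fin n) ℂ} (hB : Bᵀ = -B) (hC : Cᵀ = -C)
    (h : (1 + B * C).det ≠ 0) : E (m (1 + B * C)) := by
  have e : GenSO.u B * GenSO.l C = Matrix.fromBlocks (1 + B * C) B C 1 := by
    rw [GenSO.u, GenSO.l, Matrix.fromBlocks_multiply]
    congr 1 <;> simp
  have hO : IsO (Matrix.fromBlocks (1 + B * C) B C 1) := by
    rw [← e]; exact (isO_u hB).mul (isO_l hC)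
  obtain ⟨h1, h2, h3⟩ := bigcell hO h
  rw [← e] at h3
  set C' := C * (1 + B * C)⁻¹
  set B' := (1 + B * C)⁻¹ * B
  have h4 : m (1 + B * C) = GenSO.l (-C') * (GenSO.u B * GenSO.l C) * GenSO.u (-B') := by
    rw [h3]
    calc m (1 + B * C) = (GenSO.l (-C') * GenSO.l C') * m (1 + B * C) *
          (GenSO.u B' * GenSO.u (-B')) := by
          rw [l_mul, u_mul, neg_add_cancel, add_neg_cancel]
          simp [GenSO.l, GenSO.u]
      _ = _ := by simp only [Matrix.mul_assoc]
  rw [h4]
  refine ((E.l ?_).mul ((E.u hB).mul (E.l hC))).mul (E.u ?_)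
  · rw [Matrix.transpose_neg, h1]
  · rw [Matrix.transpose_neg, h2]

/-- one diagonal entry changed -/
def dg (i : Fin n) (t : ℂ) : Matrix (Fin n) (Fin n) ℂ :=
  Matrix.diagonal (fun k => if k = i then t else 1)

theorem dg_mul_dg (i : Fin n) (s t : ℂ) : dg i s * dg i t = dg i (s * t) := by
  rw [dg, dg, dg, Matrix.diagonal_mul_diagonal]
  congr 1
  ext k
  split_ifs <;> simp

theorem dg_comm (i j : Fin n) (s t : ℂ) : dg i s * dg j t = dg j t * dg i s := by
  rw [dg, dg, Matrix.diagonal_mul_diagonal, Matrix.diagonal_mul_diagonal]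
  congr 1
  ext k
  exact mul_comm _ _

/-- `diag(s, s)` at `i, j`. -/
theorem E.dg_same {i j : Fin n} (hij : i ≠ j) {s : ℂ} (hs : s ≠ 0) : E (m (dg i s * dg j s)) := by
  have hB : (Matrix.single i j (1 : ℂ) - Matrix.single j i 1)ᵀ =
      -(Matrix.single i j 1 - Matrix.single j i 1) := single_skew i j
  have hC : ((1 - s) • (Matrix.single i j (1 : ℂ) - Matrix.single j i 1))ᵀ =
      -((1 - s) • (Matrix.single i j 1 - Matrix.single j i 1)) := by
    rw [Matrix.transpose_smul, hB, smul_neg]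
  have e : dg i s * dg j s = 1 + (Matrix.single i j (1 : ℂ) - Matrix.single j i 1) *
      ((1 - s) • (Matrix.single i j (1 : ℂ) - Matrix.single j i 1)) := by
    rw [Matrix.mul_smul, mul_sub, sub_mul, sub_mul, Matrix.single_mul_single_same,
      Matrix.single_mul_single_same, Matrix.single_mul_single_of_ne _ _ _ _ hij,
      Matrix.single_mul_single_of_ne _ _ _ _ hij.symm, dg, dg, Matrix.diagonal_mul_diagonal]
    ext a b
    by_cases hab : a = b
    · subst hab
      by_cases hai : a = i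
      · subst hai
        simp [Matrix.single_apply, hij, hij.symm]
      · by_cases haj : a = j
        · subst haj
          simp [Matrix.single_apply, hij, hij.symm]
        · simp [Matrix.single_apply, hai, haj, Ne.symm hai, Ne.symm haj]
    · have h1 : ¬(i = a ∧ i = b) := fun h => hab (h.1.symm.trans h.2)
      have h2 : ¬(j = a ∧ j = b) := fun h => hab (h.1.symm.trans h.2)
      simp [Matrix.single_apply, hab, h1, h2]
  have hdet : (dg i s * dg j s).det ≠ 0 := by
    rw [dg, dg, Matrix.diagonal_mul_diagonal, Matrix.det_diagonal, Finset.prod_ne_zero_iff]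
    intro k _
    split_ifs <;> simp [hs]
  rw [e] at hdet ⊢
  exact E.m_of_cell hB hC hdet

/-- `diag(s, s⁻¹)` at `i, j`. -/
theorem E.dg_inv {i j : Fin n} (hij : i ≠ j) {s : ℂ} (hs : s ≠ 0) :
    E (m (dg i s * dg j s⁻¹)) := by
  have hw : ∀ r : ℂ, r ≠ 0 → (1 + Matrix.single i j r) * (1 + Matrix.single j i (-r⁻¹)) *
      (1 + Matrix.single i j r) = 1 - Matrix.single i i 1 - Matrix.single j j 1 +
        (Matrix.single i j r - Matrix.single j i r⁻¹) := by
    intro r hr
    simp only [mul_add, add_mul, mul_one, one_mul, Matrix.single_mul_single_same,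
      Matrix.single_mul_single_of_ne _ _ _ _ hij, Matrix.single_mul_single_of_ne _ _ _ _ hij.symm,
      add_zero]
    have h1 : r * -r⁻¹ = -1 := by field_simp
    have h2 : -r⁻¹ * r = -1 := by field_simp
    rw [h1, h2]
    have h3 : Matrix.single i i (-1 : ℂ) = -Matrix.single i i 1 := by
      rw [← Matrix.single_neg]
    have h4 : Matrix.single j j (-1 : ℂ) = -Matrix.single j j 1 := by
      rw [← Matrix.single_neg]
    have h5 : Matrix.single j i (-r⁻¹ : ℂ) = -Matrix.single j i r⁻¹ := by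
      rw [← Matrix.single_neg]
    have h6 : Matrix.single i j (-1 * r) = -Matrix.single i j r := by
      rw [neg_one_mul, ← Matrix.single_neg]
    rw [h3, h4, h5, h6]
    abel
  have e : dg i s * dg j s⁻¹ = ((1 + Matrix.single i j s) * (1 + Matrix.single j i (-s⁻¹)) *
      (1 + Matrix.single i j s)) * ((1 + Matrix.single i j (-1)) *
        (1 + Matrix.single j i (-(-1)⁻¹)) * (1 + Matrix.single i j (-1))) := by
    rw [hw s hs, hw (-1) (by norm_num)]
    simp only [mul_add, add_mul, mul_sub, sub_mul, mul_one, one_mul, Matrix.single_mul_single_same,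
      Matrix.single_mul_single_of_ne _ _ _ _ hij, Matrix.single_mul_single_of_ne _ _ _ _ hij.symm,
      add_zero, sub_zero, zero_sub]
    rw [dg, dg, Matrix.diagonal_mul_diagonal]
    ext a b
    by_cases hab : a = b
    · subst hab
      by_cases hai : a = i
      · subst hai
        simp [Matrix.single_apply, hij, hij.symm]
      · by_cases haj : a = j
        · subst haj
          simp [Matrix.single_apply, hij, hij.symm]
        · simp [Matrix.single_apply, hai, haj, Ne.symm hai, Ne.symm haj]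
    · have h1 : ¬(i = a ∧ i = b) := fun h => hab (h.1.symm.trans h.2)
      have h2 : ¬(j = a ∧ j = b) := fun h => hab (h.1.symm.trans h.2)
      simp [Matrix.single_apply, hab, h1, h2, inv_neg]
  rw [e, m_mul, m_mul, m_mul, m_mul, m_mul]
  exact (((E.m_transvection hij _).mul (E.m_transvection hij.symm _)).mul
    (E.m_transvection hij _)).mul (((E.m_transvection hij _).mul
      (E.m_transvection hij.symm _)).mul (E.m_transvection hij _))

theorem E.dg (hn : 2 ≤ n) (i : Fin n) {t : ℂ} (ht : t ≠ 0) : E (m (dg i t)) := by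
  obtain ⟨j, hj⟩ : ∃ j : Fin n, i ≠ j := by
    have : Nontrivial (Fin n) := Fin.nontrivial_iff_two_le.2 hn
    obtain ⟨j, hj⟩ := exists_ne i
    exact ⟨j, hj.symm⟩
  obtain ⟨s, hs⟩ := IsAlgClosed.exists_pow_nat_eq t (n := 2) (by norm_num)
  have hs0 : s ≠ 0 := by
    rintro rfl
    exact ht (by rw [← hs]; simp)
  have e : GenSO.dg i t = (GenSO.dg i s * GenSO.dg j s) * (GenSO.dg i s * GenSO.dg j s⁻¹) := by
    have h1 : GenSO.dg j (1 : ℂ) = 1 := by
      rw [GenSO.dg]
      simp
    calc GenSO.dg i t = GenSO.dg i (s * s) * GenSO.dg j (s * s⁻¹) := by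
          rw [mul_inv_cancel₀ hs0, h1, mul_one, ← hs, pow_two]
      _ = (GenSO.dg i s * GenSO.dg i s) * (GenSO.dg j s * GenSO.dg j s⁻¹) := by
          rw [dg_mul_dg, dg_mul_dg]
      _ = GenSO.dg i s * (GenSO.dg i s * GenSO.dg j s) * GenSO.dg j s⁻¹ := by
          simp only [Matrix.mul_assoc]
      _ = GenSO.dg i s * (GenSO.dg j s * GenSO.dg i s) * GenSO.dg j s⁻¹ := by
          rw [dg_comm i j s s]
      _ = _ := by simp only [Matrix.mul_assoc]
  rw [e, m_mul]
  exact (E.dg_same hj hs0).mul (E.dg_inv hj hs0)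

theorem E.diagonal (hn : 2 ≤ n) (D : Fin n → ℂ) (hD : ∀ i, D i ≠ 0) :
    E (m (Matrix.diagonal D)) := by
  have h : ∀ s : Finset (Fin n), E (m (Matrix.diagonal (fun i => if i ∈ s then D i else 1))) := by
    intro s
    induction s using Finset.induction_on with
    | empty =>
      simp only [Finset.notMem_empty, if_false, Matrix.diagonal_one]
      rw [m_one]
      exact E.one
    | insert a s has ih =>
      have e : Matrix.diagonal (fun i => if i ∈ insert a s then D i else 1) =
          GenSO.dg a (D a) * Matrix.diagonal (fun i => if i ∈ s then D i else 1) := by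
        rw [GenSO.dg, Matrix.diagonal_mul_diagonal]
        congr 1
        ext k
        by_cases hk : k = a
        · subst hk
          simp [has]
        · simp [hk]
      rw [e, m_mul]
      exact (E.dg hn a (hD a)).mul ih
  have h1 := h Finset.univ
  simpa using h1

/-- The Levi part. -/
theorem E.levi (hn : 2 ≤ n) (P : Matrix (Fin n) (Fin n) ℂ) (hP : P.det ≠ 0) : E (m P) := by
  refine Matrix.diagonal_transvection_induction_of_det_ne_zero (fun P => E (m P)) P hP ?_ ?_ ?_
  · intro D hD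
    rw [Matrix.det_diagonal, Finset.prod_ne_zero_iff] at hD
    exact E.diagonal hn D fun i => hD i (Finset.mem_univ i)
  · intro t
    exact E.m_transvection t.hij t.c
  · intro A B _ _ hA hB
    change E (m (A * B))
    rw [m_mul]
    exact hA.mul hB

theorem E.cell (hn : 2 ≤ n) {P Q R S : Matrix (Fin n) (Fin n) ℂ}
    (h : IsO (Matrix.fromBlocks P Q R S)) (hP : P.det ≠ 0) :
    E (Matrix.fromBlocks P Q R S) ∧ (Matrix.fromBlocks P Q R S).det = 1 := by
  obtain ⟨h1, h2, h3⟩ := bigcell h hP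
  constructor
  · rw [h3]
    exact ((E.l h1).mul (E.levi hn P hP)).mul (E.u h2)
  · rw [h3, Matrix.det_mul, Matrix.det_mul, l_det, m_det hP, u_det, one_mul, one_mul]

/-- the swap of `e_i` and `e_i^*` for `i ∈ I` -/
def sg (I : Finset (Fin n)) : MM n :=
  Matrix.fromBlocks (Matrix.diagonal fun i => if i ∈ I then 0 else 1)
    (Matrix.diagonal fun i => if i ∈ I then 1 else 0)
    (Matrix.diagonal fun i => if i ∈ I then 1 else 0)
    (Matrix.diagonal fun i => if i ∈ I then 0 else 1)

theorem sg_isO (I : Finset (Fin n)) : IsO (sg I) := by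
  rw [sg, isO_iff]
  simp only [Matrix.diagonal_transpose, Matrix.diagonal_mul_diagonal, Matrix.diagonal_add]
  refine ⟨?_, ?_, ?_, ?_⟩
  · rw [← Matrix.diagonal_zero]; congr 1; ext k; split_ifs <;> simp
  · rw [← Matrix.diagonal_one]; congr 1; ext k; split_ifs <;> simp
  · rw [← Matrix.diagonal_one]; congr 1; ext k; split_ifs <;> simp
  · rw [← Matrix.diagonal_zero]; congr 1; ext k; split_ifs <;> simp

theorem sg_sq (I : Finset (Fin n)) : sg I * sg I = 1 := by
  rw [sg, Matrix.fromBlocks_multiply, ← Matrix.fromBlocks_one]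
  simp only [Matrix.diagonal_mul_diagonal, Matrix.diagonal_add]
  congr 1
  · rw [← Matrix.diagonal_one]; congr 1; ext k; split_ifs <;> simp
  · rw [← Matrix.diagonal_zero]; congr 1; ext k; split_ifs <;> simp
  · rw [← Matrix.diagonal_zero]; congr 1; ext k; split_ifs <;> simp
  · rw [← Matrix.diagonal_one]; congr 1; ext k; split_ifs <;> simp

theorem sg_union {I K : Finset (Fin n)} (h : Disjoint I K) : sg (I ∪ K) = sg I * sg K := by
  have hd : ∀ k, k ∈ I → k ∉ K := fun k hk hk' => (Finset.disjoint_left.1 h) hk hk'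
  rw [sg, sg, sg, Matrix.fromBlocks_multiply]
  simp only [Matrix.diagonal_mul_diagonal, Matrix.diagonal_add]
  congr 1 <;> · congr 1; ext k; by_cases h1 : k ∈ I <;> by_cases h2 : k ∈ K <;> simp_all

theorem sg_det (I : Finset (Fin n)) : (sg I).det = (-1) ^ I.card := by
  have e : u 1 * sg I = Matrix.fromBlocks 1 1
      (Matrix.diagonal fun i => if i ∈ I then 1 else 0)
      (Matrix.diagonal fun i => if i ∈ I then 0 else 1) := by
    rw [sg, u, Matrix.fromBlocks_multiply]
    simp only [Matrix.one_mul, Matrix.zero_mul, zero_add, Matrix.diagonal_add]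
    congr 1
    · rw [← Matrix.diagonal_one]; congr 1; ext k; split_ifs <;> simp
    · rw [← Matrix.diagonal_one]; congr 1; ext k; split_ifs <;> simp
  have h1 : (u 1 * sg I).det = (sg I).det := by rw [Matrix.det_mul, u_det, one_mul]
  rw [← h1, e, Matrix.det_fromBlocks_one₁₁, Matrix.mul_one, Matrix.diagonal_sub,
    Matrix.det_diagonal]
  have h2 : ∀ i : Fin n, ((if i ∈ I then (0 : ℂ) else 1) - if i ∈ I then 1 else 0) =
      if i ∈ I then -1 else 1 := by
    intro i; split_ifs <;> simp
  simp only [h2]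
  rw [Finset.prod_ite]
  simp

theorem E.sg_pair (hn : 2 ≤ n) {i j : Fin n} (hij : i ≠ j) : E (sg {i, j}) := by
  have hB : (Matrix.single i j (1 : ℂ) - Matrix.single j i 1)ᵀ =
      -(Matrix.single i j 1 - Matrix.single j i 1) := single_skew i j
  set B := Matrix.single i j (1 : ℂ) - Matrix.single j i 1 with hBdef
  set D1 : Matrix (Fin n) (Fin n) ℂ := Matrix.diagonal fun k => if k ∈ ({i, j} : Finset (Fin n)) then 1 else 0
    with hD1
  set D0 : Matrix (Fin n) (Fin n) ℂ := Matrix.diagonal fun k => if k ∈ ({i, j} : Finset (Fin n)) then 0 else 1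
    with hD0
  have e : GenSO.u B * sg {i, j} = Matrix.fromBlocks (D0 + B * D1) (D1 + B * D0) D1 D0 := by
    rw [sg, GenSO.u, Matrix.fromBlocks_multiply]
    congr 1 <;> simp [hD0, hD1]
  have hO : IsO (Matrix.fromBlocks (D0 + B * D1) (D1 + B * D0) D1 D0) := by
    rw [← e]
    exact (isO_u hB).mul (sg_isO _)
  have hBD : B * D1 = B := by
    ext a b
    rw [hD1, Matrix.mul_diagonal]
    by_cases hb : b = i ∨ b = j
    · have : b ∈ ({i, j} : Finset (Fin n)) := by simpa using hb
      simp [this]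
    · push Not at hb
      have h1 : ¬(i = a ∧ j = b) := fun h => hb.2 h.2.symm
      have h2 : ¬(j = a ∧ i = b) := fun h => hb.1 h.2.symm
      simp [hBdef, Matrix.single_apply, h1, h2]
  have hdet : (D0 + B * D1).det ≠ 0 := by
    have h1 : (D0 + B * D1) * (D0 - B) = 1 := by
      have hDB : D0 * B = 0 := by
        ext a b
        rw [hD0, Matrix.diagonal_mul]
        by_cases ha : a = i ∨ a = j
        · have : a ∈ ({i, j} : Finset (Fin n)) := by simpa using ha
          simp [this]
        · push Not at ha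
          have h1 : ¬(i = a ∧ j = b) := fun h => ha.1 h.1.symm
          have h2 : ¬(j = a ∧ i = b) := fun h => ha.2 h.1.symm
          simp [hBdef, Matrix.single_apply, h1, h2]
      have hBD0 : B * D0 = 0 := by
        have h3 : D1 + D0 = 1 := by
          rw [hD1, hD0, Matrix.diagonal_add, ← Matrix.diagonal_one]
          congr 1; ext k; split_ifs <;> simp
        have h4 : B * (D1 + D0) = B := by rw [h3, Matrix.mul_one]
        rw [Matrix.mul_add, hBD] at h4
        exact left_eq_add.1 h4.symm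
      have hDD : D0 * D0 = D0 := by
        rw [hD0, Matrix.diagonal_mul_diagonal]
        congr 1; ext k; split_ifs <;> simp
      have hBB : B * B = -D1 := by
        rw [hBdef, mul_sub, sub_mul, sub_mul, Matrix.single_mul_single_same,
          Matrix.single_mul_single_same, Matrix.single_mul_single_of_ne _ _ _ _ hij,
          Matrix.single_mul_single_of_ne _ _ _ _ hij.symm, hD1]
        ext a b
        by_cases hab : a = b
        · subst hab
          by_cases hai : a = i
          · subst hai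
            simp [hij, hij.symm]
          · by_cases haj : a = j
            · subst haj
              simp [hij, hij.symm]
            · simp [hai, haj, Ne.symm hai, Ne.symm haj]
        · have h1 : ¬(i = a ∧ i = b) := fun h => hab (h.1.symm.trans h.2)
          have h2 : ¬(j = a ∧ j = b) := fun h => hab (h.1.symm.trans h.2)
          simp [Matrix.single_apply, hab, h1, h2]
      rw [hBD]
      have h9 : ∀ A C : Matrix (Fin n) (Fin n) ℂ,
          (A + C) * (A - C) = A * A - A * C + C * A - C * C := by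
        intro A C
        noncomm_ring
      rw [h9, hDD, hDB, hBD0, hBB, sub_zero, add_zero, sub_neg_eq_add, hD1, hD0,
        Matrix.diagonal_add, ← Matrix.diagonal_one]
      congr 1; ext k; split_ifs <;> simp
    intro h0
    have h2 := congrArg Matrix.det h1
    rw [Matrix.det_mul, h0, zero_mul, Matrix.det_one] at h2
    exact zero_ne_one h2
  have h1 := (E.cell hn hO hdet).1
  rw [← e] at h1
  have h2 : sg {i, j} = GenSO.u (-B) * (GenSO.u B * sg {i, j}) := by
    rw [← Matrix.mul_assoc, u_mul, neg_add_cancel]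
    simp [GenSO.u]
  rw [h2]
  refine (E.u ?_).mul h1
  rw [Matrix.transpose_neg, hB]

theorem E.sg_even (hn : 2 ≤ n) : ∀ (k : ℕ) (I : Finset (Fin n)), I.card = 2 * k → E (sg I) := by
  intro k
  induction k with
  | zero =>
    intro I hI
    have : I = ∅ := Finset.card_eq_zero.1 (by simpa using hI)
    subst this
    have e : sg (∅ : Finset (Fin n)) = 1 := by
      rw [sg]
      simp
    rw [e]
    exact E.one
  | succ k ih =>
    intro I hI
    have h1 : 1 < I.card := by omega
    obtain ⟨i, hi, j, hj, hij⟩ := Finset.one_lt_card.1 h1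
    have hsub : ({i, j} : Finset (Fin n)) ⊆ I := by
      intro x hx
      rcases Finset.mem_insert.1 hx with rfl | hx
      · exact hi
      · rw [Finset.mem_singleton] at hx; subst hx; exact hj
    have e : I = (I \ {i, j}) ∪ {i, j} := (Finset.sdiff_union_of_subset hsub).symm
    have hc : (I \ {i, j}).card = 2 * k := by
      rw [Finset.card_sdiff_of_subset hsub, Finset.card_pair hij, hI]
      omega
    rw [e, sg_union Finset.sdiff_disjoint]
    exact (ih _ hc).mul (E.sg_pair hn hij)

/-- selecting rows -/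
theorem exists_rows {P R : Matrix (Fin n) (Fin n) ℂ} (h1 : Rᵀ * P + Pᵀ * R = 0)
    (h2 : ∀ v, P.mulVec v = 0 → R.mulVec v = 0 → v = 0) :
    ∃ I : Finset (Fin n), (Matrix.diagonal (fun i => if i ∈ I then (0 : ℂ) else 1) * P +
      Matrix.diagonal (fun i => if i ∈ I then (1 : ℂ) else 0) * R).det ≠ 0 := by
  classical
  obtain ⟨κ, a, ha, hsp, hli⟩ := exists_linearIndependent' ℂ (fun i => P i)
  refine ⟨Finset.univ.filter (fun i => i ∉ Set.range a), ?_⟩
  set I := Finset.univ.filter (fun i => i ∉ Set.range a) with hI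
  intro hdet
  obtain ⟨v, hv0, hv⟩ := Matrix.exists_mulVec_eq_zero_iff.2 hdet
  have hrow : ∀ i, (if i ∈ I then (0 : ℂ) else 1) * (P.mulVec v i) +
      (if i ∈ I then (1 : ℂ) else 0) * (R.mulVec v i) = 0 := by
    intro i
    have := congrFun hv i
    rw [Matrix.add_mulVec, ← Matrix.mulVec_mulVec, ← Matrix.mulVec_mulVec, Pi.add_apply,
      Matrix.mulVec_diagonal, Matrix.mulVec_diagonal] at this
    exact this
  have hP : ∀ i, i ∉ I → P.mulVec v i = 0 := by
    intro i hi
    have := hrow i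
    simpa [hi] using this
  have hR : ∀ i, i ∈ I → R.mulVec v i = 0 := by
    intro i hi
    have := hrow i
    simpa [hi] using this
  have hPv : P.mulVec v = 0 := by
    ext i
    have hmem : P i ∈ Submodule.span ℂ (Set.range ((fun i => P i) ∘ a)) := by
      rw [hsp]
      exact Submodule.subset_span ⟨i, rfl⟩
    change (P i) ⬝ᵥ v = 0
    refine Submodule.span_induction (p := fun r _ => r ⬝ᵥ v = 0) ?_ ?_ ?_ ?_ hmem
    · rintro _ ⟨k, rfl⟩
      refine hP (a k) ?_
      rw [hI]
      simp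
    · simp
    · intro x y _ _ hx hy
      rw [add_dotProduct, hx, hy, add_zero]
    · intro c x _ hx
      rw [smul_dotProduct, hx, smul_zero]
  have hRv : R.mulVec v = 0 := by
    have h3 : Pᵀ.mulVec (R.mulVec v) = 0 := by
      have h4 := congrArg (fun M => M.mulVec v) h1
      simp only [Matrix.add_mulVec, ← Matrix.mulVec_mulVec, Matrix.zero_mulVec] at h4
      rw [hPv, Matrix.mulVec_zero, zero_add] at h4
      exact h4
    have h5 : ∑ k : Fin n, (R.mulVec v k) • P k = 0 := by
      ext b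
      have := congrFun h3 b
      rw [Finset.sum_apply]
      simp only [Pi.smul_apply, smul_eq_mul]
      rw [Matrix.mulVec, dotProduct] at this
      simp only [Matrix.transpose_apply] at this
      rw [← this]
      exact Finset.sum_congr rfl fun k _ => mul_comm _ _
    haveI : Finite κ := Finite.of_injective a ha
    haveI : Fintype κ := Fintype.ofFinite κ
    have h6 : ∑ k : κ, (R.mulVec v (a k)) • P (a k) = 0 := by
      rw [← h5]
      rw [← Finset.sum_image (s := Finset.univ) (g := a)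
        (f := fun i => (R.mulVec v i) • P i) (fun x _ y _ h => ha h)]
      refine Finset.sum_subset (Finset.subset_univ _) ?_
      intro x _ hx
      have : x ∈ I := by
        rw [hI]
        simp only [Finset.mem_filter, Finset.mem_univ, true_and]
        rintro ⟨k, rfl⟩
        exact hx (Finset.mem_image_of_mem a (Finset.mem_univ k))
      rw [hR x this, zero_smul]
    rw [Fintype.linearIndependent_iff] at hli
    have h7 := hli (fun k => R.mulVec v (a k)) h6
    ext i
    by_cases hi : i ∈ I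
    · exact hR i hi
    · have : i ∈ Set.range a := by
        by_contra hc
        exact hi (by rw [hI]; simpa using hc)
      obtain ⟨k, rfl⟩ := this
      exact h7 k
  exact hv0 (h2 v hPv hRv)

/-- **Generation of `SO(2n)` by exponentials of root vectors.** -/
theorem exists_word (hn : 2 ≤ n) (g : MM n) (hg : gᵀ * Matrix.fromBlocks 0 1 1 0 * g =
    Matrix.fromBlocks 0 1 1 0) (hdet : g.det = 1) : ∃ w : List (soD n), Wd w ∧ gm w = g := by
  obtain ⟨P, Q, R, S, rfl⟩ : ∃ P Q R S, g = Matrix.fromBlocks P Q R S :=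
    ⟨_, _, _, _, (Matrix.fromBlocks_toBlocks g).symm⟩
  have hO : IsO (Matrix.fromBlocks P Q R S) := hg
  have h1 := ((isO_iff P Q R S).1 hO).1
  have h2 : ∀ v, P.mulVec v = 0 → R.mulVec v = 0 → v = 0 := by
    intro v hv hv'
    have h3 : (Matrix.fromBlocks P Q R S).mulVec (Sum.elim v 0) = 0 := by
      rw [Matrix.fromBlocks_mulVec]
      simp [hv, hv']
    by_contra hne
    have h4 : (Matrix.fromBlocks P Q R S).det = 0 := by
      refine Matrix.exists_mulVec_eq_zero_iff.1 ⟨Sum.elim v 0, ?_, h3⟩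
      intro h0
      apply hne
      ext i
      exact congrFun h0 (Sum.inl i)
    rw [hdet] at h4
    exact one_ne_zero h4
  obtain ⟨I, hI⟩ := exists_rows h1 h2
  set D0 : Matrix (Fin n) (Fin n) ℂ := Matrix.diagonal (fun i => if i ∈ I then (0 : ℂ) else 1)
    with hD0
  set D1 : Matrix (Fin n) (Fin n) ℂ := Matrix.diagonal (fun i => if i ∈ I then (1 : ℂ) else 0)
    with hD1
  have e : sg I * Matrix.fromBlocks P Q R S = Matrix.fromBlocks (D0 * P + D1 * R)
      (D0 * Q + D1 * S) (D1 * P + D0 * R) (D1 * Q + D0 * S) := by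
    rw [sg, Matrix.fromBlocks_multiply]
  have hO' : IsO (Matrix.fromBlocks (D0 * P + D1 * R)
      (D0 * Q + D1 * S) (D1 * P + D0 * R) (D1 * Q + D0 * S)) := by
    rw [← e]
    exact (sg_isO I).mul hO
  obtain ⟨hE, hd⟩ := E.cell hn hO' hI
  rw [← e] at hE hd
  rw [Matrix.det_mul, hdet, mul_one, sg_det] at hd
  have heven : Even I.card := by
    rcases Nat.even_or_odd I.card with h | h
    · exact h
    · rw [h.neg_one_pow] at hd
      norm_num at hd
  obtain ⟨k, hk⟩ := heven
  have hs := E.sg_even hn k I (by omega)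
  have h5 : E (Matrix.fromBlocks P Q R S) := by
    have : Matrix.fromBlocks P Q R S = sg I * (sg I * Matrix.fromBlocks P Q R S) := by
      rw [← Matrix.mul_assoc, sg_sq, Matrix.one_mul]
    rw [this]
    exact hs.mul hE
  exact h5

end Crest.Agent.R172.GenSO
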