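import Crest.Agent.R172.HwUnique

/-!
Row 172.  The `ρ`-grading of `soD n`, and uniqueness of `Irrep n a`.
-/

set_option autoImplicit false
set_option linter.unusedSectionVars false

open Crest.AlgebraR.SpinSaturation
open scoped Matrix

namespace Crest.Agent.R172.SoGrade

open Crest.Agent.R172.HwUnique

variable {n : ℕ}

/-- swap of the two halves -/
def sw : Fin n ⊕ Fin n → Fin n ⊕ Fin n := Sum.swap

@[simp] theorem sw_inl (i : Fin n) : sw (Sum.inl i) = (Sum.inr i : Fin n ⊕ Fin n) := rfl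
@[simp] theorem sw_inr (i : Fin n) : sw (Sum.inr i) = (Sum.inl i : Fin n ⊕ Fin n) := rfl
@[simp] theorem sw_sw (p : Fin n ⊕ Fin n) : sw (sw p) = p := by cases p <;> rfl

theorem JD_apply (p q : Fin n ⊕ Fin n) :
    LieAlgebra.Orthogonal.JD (Fin n) ℂ p q = if p = sw q then 1 else 0 := by
  unfold LieAlgebra.Orthogonal.JD
  rcases p with i | i <;> rcases q with j | j
  · simp
  · simp [Matrix.one_apply]
  · simp [Matrix.one_apply]
  · simp

theorem mem_soD {A : Matrix (Fin n ⊕ Fin n) (Fin n ⊕ Fin n) ℂ} :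
    A ∈ LieAlgebra.Orthogonal.typeD (Fin n) ℂ ↔ ∀ p q, A p q = - A (sw q) (sw p) := by
  unfold LieAlgebra.Orthogonal.typeD
  rw [mem_skewAdjointMatricesLieSubalgebra, mem_skewAdjointMatricesSubmodule]
  unfold Matrix.IsSkewAdjoint Matrix.IsAdjointPair
  rw [← Matrix.ext_iff]
  have h1 : ∀ p q, (Aᵀ * LieAlgebra.Orthogonal.JD (Fin n) ℂ) p q = A (sw q) p := by
    intro p q
    rw [Matrix.mul_apply]
    simp [JD_apply]
  have h2 : ∀ p q, (LieAlgebra.Orthogonal.JD (Fin n) ℂ * (-A)) p q = - A (sw p) q := by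
    intro p q
    rw [Matrix.mul_apply]
    rw [Finset.sum_eq_single (sw p)]
    · simp [JD_apply]
    · intro b _ hb
      rw [JD_apply, if_neg, zero_mul]
      intro h
      apply hb
      rw [h, sw_sw]
    · simp
  constructor
  · intro h p q
    have := h q (sw p)
    rw [h1, h2, sw_sw] at this
    exact this
  · intro h p q
    rw [h1, h2, h (sw q) p, sw_sw]

/-- degree of the basis vectors: `n - i` on the first half, `-(n - i)` on the second -/
def dg : Fin n ⊕ Fin n → ℤ
  | Sum.inl i => (n : ℤ) - i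
  | Sum.inr i => -((n : ℤ) - i)

@[simp] theorem dg_sw (p : Fin n ⊕ Fin n) : dg (sw p) = - dg p := by
  cases p <;> simp [dg, sw]

theorem dg_inj {p q : Fin n ⊕ Fin n} (h : dg p = dg q) : p = q := by
  rcases p with i | i <;> rcases q with j | j <;> simp only [dg] at h
  · congr 1; apply Fin.ext; omega
  · omega
  · omega
  · congr 1; apply Fin.ext; omega

/-- the Cartan element with diagonal `h, -h` -/
def car (h : Fin n → ℂ) : soD n :=
  ⟨Matrix.fromBlocks (Matrix.diagonal h) 0 0 (-Matrix.diagonal h), by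
    rw [mem_soD]
    intro p q
    rcases p with i | i <;> rcases q with j | j
    · simp only [Matrix.fromBlocks_apply₁₁, sw_inl, Matrix.fromBlocks_apply₂₂, Matrix.neg_apply,
        neg_neg, Matrix.diagonal_apply]
      by_cases hij : i = j
      · subst hij; simp
      · rw [if_neg hij, if_neg (Ne.symm hij)]
    · simp
    · simp
    · simp only [Matrix.fromBlocks_apply₁₁, sw_inr, Matrix.fromBlocks_apply₂₂, Matrix.neg_apply,
        Matrix.diagonal_apply]
      by_cases hij : i = j
      · subst hij; simp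
      · rw [if_neg hij, if_neg (Ne.symm hij)]⟩

theorem car_coe (h : Fin n → ℂ) : ((car h : soD n) : Matrix (Fin n ⊕ Fin n) (Fin n ⊕ Fin n) ℂ) =
    Matrix.fromBlocks (Matrix.diagonal h) 0 0 (-Matrix.diagonal h) := rfl

/-- the grading element -/
def DD (n : ℕ) : soD n := car (fun i => ((n : ℂ) - (i : ℕ)))

theorem DD_coe : ((DD n : soD n) : Matrix (Fin n ⊕ Fin n) (Fin n ⊕ Fin n) ℂ) =
    Matrix.diagonal (fun p => ((dg p : ℤ) : ℂ)) := by
  unfold DD
  rw [car_coe]
  ext p q
  rcases p with i | i <;> rcases q with j | j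
  · simp [Matrix.diagonal_apply, dg]
  · simp
  · simp
  · by_cases hij : i = j
    · subst hij; simp [dg]
    · simp [hij]

theorem DD_lie (X : soD n) (p q : Fin n ⊕ Fin n) :
    (⁅DD n, X⁆ : soD n).1 p q = ((dg p : ℂ) - dg q) * X.1 p q := by
  change ((DD n).1 * X.1 - X.1 * (DD n).1) p q = _
  have h := DD_coe (n := n)
  change (DD n).1 = _ at h
  rw [h, Matrix.sub_apply, Matrix.diagonal_mul, Matrix.mul_diagonal]
  ring

theorem mem_Gr_iff (k : ℤ) (X : soD n) :
    X ∈ Gr (DD n) k ↔ ∀ p q, X.1 p q ≠ 0 → dg p - dg q = k := by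
  rw [mem_Gr]
  constructor
  · intro h p q hpq
    have := congrArg (fun Y : soD n => Y.1 p q) h
    simp only [DD_lie] at this
    have h2 : ((k : ℂ) • X : soD n).1 p q = k * X.1 p q := rfl
    rw [h2] at this
    have h3 := mul_right_cancel₀ hpq this
    exact_mod_cast h3
  · intro h
    apply Subtype.ext
    ext p q
    rw [DD_lie]
    have h2 : ((k : ℂ) • X : soD n).1 p q = k * X.1 p q := rfl
    rw [h2]
    by_cases hpq : X.1 p q = 0
    · rw [hpq]; ring
    · rw [← h p q hpq]; push_cast; ring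

/-- homogeneous component -/
def comp (X : soD n) (k : ℤ) : soD n :=
  ⟨Matrix.of fun p q => if dg p - dg q = k then X.1 p q else 0, by
    rw [mem_soD]
    intro p q
    simp only [dg_sw, Matrix.of_apply]
    have hX := mem_soD.1 X.2 p q
    by_cases h : dg p - dg q = k
    · rw [if_pos h, if_pos (by omega), hX]
    · rw [if_neg h, if_neg (by omega), neg_zero]⟩

theorem comp_mem (X : soD n) (k : ℤ) : comp X k ∈ Gr (DD n) k := by
  rw [mem_Gr_iff]
  intro p q h
  by_contra h'
  exact h (if_neg h')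

theorem dg_bound (p : Fin n ⊕ Fin n) : -(n : ℤ) ≤ dg p ∧ dg p ≤ n := by
  rcases p with i | i <;> simp only [dg] <;> have := i.2 <;> omega

theorem sum_comp (X : soD n) : X = ∑ k ∈ Finset.Icc (-(2 * n : ℤ)) (2 * n), comp X k := by
  apply Subtype.ext
  rw [AddSubmonoidClass.coe_finsetSum]
  ext p q
  rw [Matrix.sum_apply]
  have : ∀ k, (comp X k).1 p q = if dg p - dg q = k then X.1 p q else 0 := fun k => rfl
  simp only [this]
  rw [Finset.sum_ite_eq, if_pos]
  rw [Finset.mem_Icc]
  have h1 := dg_bound p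
  have h2 := dg_bound q
  constructor <;> omega

theorem iSup_Gr : (⨆ k, Gr (DD n) k) = (⊤ : Submodule ℂ (soD n)) := by
  rw [eq_top_iff]
  intro X _
  rw [sum_comp X]
  apply Submodule.sum_mem
  intro k _
  exact Submodule.mem_iSup_of_mem k (comp_mem X k)

theorem Gr_zero {X : soD n} (hX : X ∈ Gr (DD n) 0) :
    X = car (fun i => X.1 (Sum.inl i) (Sum.inl i)) := by
  rw [mem_Gr_iff] at hX
  have hz : ∀ p q, p ≠ q → X.1 p q = 0 := by
    intro p q hpq
    by_contra h
    exact hpq (dg_inj (by have := hX p q h; omega))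
  apply Subtype.ext
  rw [car_coe]
  ext p q
  rcases p with i | i <;> rcases q with j | j
  · by_cases hij : i = j
    · subst hij; simp
    · rw [hz _ _ (by simpa using hij)]
      simp [hij]
  · rw [hz _ _ (by simp)]; simp
  · rw [hz _ _ (by simp)]; simp
  · by_cases hij : i = j
    · subst hij
      have := mem_soD.1 X.2 (Sum.inr i) (Sum.inr i)
      rw [this]; simp
    · rw [hz _ _ (by simpa using hij)]
      simp [hij]

theorem Gr_pos {X : soD n} {k : ℤ} (hk : 0 < k) (hX : X ∈ Gr (DD n) k) :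
    (∀ i j : Fin n, X.1 (Sum.inr i) (Sum.inl j) = 0) ∧
    (∀ i j : Fin n, j ≤ i → X.1 (Sum.inl i) (Sum.inl j) = 0) := by
  rw [mem_Gr_iff] at hX
  constructor
  · intro i j
    by_contra h
    have := hX _ _ h
    simp only [dg] at this
    have h1 := i.2
    have h2 := j.2
    omega
  · intro i j hij
    by_contra h
    have := hX _ _ h
    simp only [dg] at this
    have : (j : ℕ) ≤ i := hij
    omega

section hw

variable {M : Type*} [AddCommGroup M] [Module ℂ M] [LieRingModule (soD n) M]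
  [LieModule ℂ (soD n) M] {a : Fin n → ℤ} {v : M}

/-- the eigenvalue of the grading element -/
noncomputable def topEig (a : Fin n → ℤ) : ℂ := ∑ i, (a i : ℂ) / 2 * ((n : ℂ) - (i : ℕ))

theorem hw_DD (hv : IsHighestWeightVector n a v) : ⁅DD n, v⁆ = topEig a • v :=
  hv.2.1 _ _ rfl

/-- the character of the Cartan -/
noncomputable def chi (a : Fin n → ℤ) (X : soD n) : ℂ := ∑ i, (a i : ℂ) / 2 * X.1 (Sum.inl i) (Sum.inl i)

theorem hw_zero (hv : IsHighestWeightVector n a v) (X : soD n) (hX : X ∈ Gr (DD n) 0) :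
    ⁅X, v⁆ = chi a X • v := by
  have := hv.2.1 (fun i => X.1 (Sum.inl i) (Sum.inl i)) (car _) rfl
  have h2 := Gr_zero hX
  have h3 : ⁅X, v⁆ = ⁅(car (fun i => X.1 (Sum.inl i) (Sum.inl i)) : soD n), v⁆ :=
    congrArg (fun Y : soD n => ⁅Y, v⁆) h2
  rw [h3]
  exact this

theorem hw_pos (hv : IsHighestWeightVector n a v) (k : ℤ) (hk : 0 < k) (X : soD n)
    (hX : X ∈ Gr (DD n) k) : ⁅X, v⁆ = 0 := by
  obtain ⟨h1, h2⟩ := Gr_pos hk hX
  exact hv.2.2 X h1 h2

/-- The eigenspace of the grading element in the module generated by a highest weight vector for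
the top eigenvalue is a line. -/
theorem hw_top_line (hv : IsHighestWeightVector n a v) {u : M}
    (hu : u ∈ LieSubmodule.lieSpan ℂ (soD n) ({v} : Set M))
    (hu' : ⁅DD n, u⁆ = topEig a • u) : ∃ t : ℂ, u = t • v :=
  lieSpan_top_line iSup_Gr (hw_DD hv) (fun x hx => ⟨_, hw_zero hv x hx⟩) (hw_pos hv) hu hu'

end hw

/-- Two irreducible modules with highest weight vectors of the same weight are isomorphic. -/
theorem irrep_unique {a : Fin n → ℤ} {M M' : Type*} [AddCommGroup M] [Module ℂ M]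
    [LieRingModule (soD n) M] [LieModule ℂ (soD n) M] [AddCommGroup M'] [Module ℂ M']
    [LieRingModule (soD n) M'] [LieModule ℂ (soD n) M']
    [LieModule.IsIrreducible ℂ (soD n) M] [LieModule.IsIrreducible ℂ (soD n) M']
    {v : M} {v' : M'} (hv : IsHighestWeightVector n a v) (hv' : IsHighestWeightVector n a v') :
    ∃ e : M ≃ₗ⁅ℂ, soD n⁆ M', e v = v' :=
  unique_irrep (DD n) iSup_Gr (topEig a) (chi a) v v' hv.1 hv'.1 (hw_DD hv) (hw_DD hv')
    (hw_zero hv) (hw_zero hv') (hw_pos hv) (hw_pos hv')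

end Crest.Agent.R172.SoGrade
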