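import Crest.Agent.R172.GenSO
import Crest.Agent.R172.SoGrade

/-!
R172: the matrix `gm w` of a word of root vectors is in `SO(V)`.
-/

set_option autoImplicit false

namespace Crest.Agent.R172.GmSO

open Matrix Crest.AlgebraR.SpinSaturation Crest.Agent.R172.Fwd Crest.Agent.R172.SoGrade

variable {n : ℕ}

/-- exponential of a nilpotent matrix in `so(V)` is in `SO(V)` -/
theorem exp_so {ι : Type} [Fintype ι] [DecidableEq ι] {A J : Matrix ι ι ℂ} (hA : IsNilpotent A)
    (h : Aᵀ * J = -(J * A)) :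
    (IsNilpotent.exp A)ᵀ * J * IsNilpotent.exp A = J ∧ (IsNilpotent.exp A).det = 1 := by
  constructor
  · obtain ⟨m, hm⟩ := hA
    have h1 : ∀ k : ℕ, (A ^ k)ᵀ * J = J * (-A) ^ k := by
      intro k
      induction k with
      | zero => simp
      | succ k ih =>
        rw [pow_succ, transpose_mul, Matrix.mul_assoc, ih, ← Matrix.mul_assoc, h, pow_succ',
          ← Matrix.mul_assoc, Matrix.mul_neg]
    have h2 : (IsNilpotent.exp A)ᵀ * J = J * IsNilpotent.exp (-A) := by
      have hm' : (-A) ^ m = 0 := by rw [neg_pow, hm, mul_zero]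
      rw [IsNilpotent.exp_eq_sum hm, IsNilpotent.exp_eq_sum hm', transpose_sum, Matrix.sum_mul,
        Matrix.mul_sum]
      refine Finset.sum_congr rfl fun k _ => ?_
      rw [transpose_smul, Matrix.smul_mul, h1 k, Matrix.mul_smul]
    rw [h2, Matrix.mul_assoc, IsNilpotent.exp_neg_mul_exp_self ⟨m, hm⟩, Matrix.mul_one]
  · have h1 := (IsNilpotent.isNilpotent_exp_sub_one hA).neg
    have h2 := Matrix.isNilpotent_charpoly_sub_pow_of_isNilpotent h1
    have h3 := sub_eq_zero.1 h2.eq_zero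
    have h4 := congrArg (Polynomial.eval 1) h3
    rw [Matrix.eval_charpoly, Polynomial.eval_pow, Polynomial.eval_X, one_pow] at h4
    rw [← h4]
    congr 1
    simp

theorem toEnd_pow (z : soD n) (k : ℕ) (v : Fin n ⊕ Fin n → ℂ) :
    (((LieModule.toEnd ℂ (soD n) (SV n) z) ^ k) (v : SV n) : SV n) = (z.1 ^ k).mulVec v := by
  induction k generalizing v with
  | zero =>
    have h : (1 : Matrix (Fin n ⊕ Fin n) (Fin n ⊕ Fin n) ℂ).mulVec v = v := Matrix.one_mulVec v
    rw [pow_zero, pow_zero]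
    exact h.symm
  | succ k ih =>
    rw [pow_succ]
    have h1 : (LieModule.toEnd ℂ (soD n) (SV n) z) (v : SV n) =
        (z.1.mulVec v : Fin n ⊕ Fin n → ℂ) := rfl
    refine (Module.End.mul_apply _ _ _).trans ?_
    refine (congrArg _ h1).trans ?_
    refine (ih (z.1.mulVec v)).trans ?_
    rw [pow_succ]
    exact Matrix.mulVec_mulVec _ _ _

theorem gm_single {z : soD n} (hz : Rt z) :
    IsNilpotent z.1 ∧ gm [z] = IsNilpotent.exp z.1 := by
  obtain ⟨m, hm⟩ := hz.nilpotent (M := SV n)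
  have hm' : z.1 ^ m = 0 := by
    apply Matrix.toLin'.injective
    apply LinearMap.ext
    intro v
    rw [Matrix.toLin'_apply, map_zero, LinearMap.zero_apply]
    exact (toEnd_pow z m v).symm.trans (by rw [hm]; rfl)
  refine ⟨⟨m, hm'⟩, ?_⟩
  apply Matrix.toLin'.injective
  apply LinearMap.ext
  intro v
  rw [Matrix.toLin'_apply, Matrix.toLin'_apply, gm_mulVec, act_cons, act_nil, mul_one,
    ex_eq_sum hm, IsNilpotent.exp_eq_sum hm']
  have h1 : (∑ k ∈ Finset.range m, ((k.factorial : ℂ)⁻¹) •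
      (LieModule.toEnd ℂ (soD n) (SV n) z) ^ k) (v : SV n) =
      ∑ k ∈ Finset.range m, (((k.factorial : ℂ)⁻¹) •
        ((z.1 ^ k).mulVec v : Fin n ⊕ Fin n → ℂ) : Fin n ⊕ Fin n → ℂ) := by
    refine (LinearMap.sum_apply _ _ _).trans ?_
    refine Finset.sum_congr rfl fun k _ => ?_
    refine (LinearMap.smul_apply _ _ _).trans ?_
    exact congrArg (fun x : SV n => ((k.factorial : ℂ)⁻¹) • x) (toEnd_pow z k v)
  refine h1.trans ?_
  rw [Matrix.sum_mulVec]
  refine Finset.sum_congr rfl fun k _ => ?_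
  rw [← Matrix.smul_mulVec]
  congr 1
  ext a b
  simp [Rat.smul_def]

theorem gm_orth {w : List (soD n)} (hw : Wd w) :
    (gm w)ᵀ * LieAlgebra.Orthogonal.JD (Fin n) ℂ * gm w = LieAlgebra.Orthogonal.JD (Fin n) ℂ ∧
      (gm w).det = 1 := by
  induction w with
  | nil => rw [GenSO.gm_nil]; simp
  | cons z w ih =>
    obtain ⟨h1, h2⟩ := ih (fun z hz => hw z (by simp [hz]))
    have hz : Rt z := hw z (by simp)
    obtain ⟨h3, h4⟩ := gm_single hz
    have h5 : z.1ᵀ * LieAlgebra.Orthogonal.JD (Fin n) ℂ =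
        -(LieAlgebra.Orthogonal.JD (Fin n) ℂ * z.1) := by
      have h := z.2
      unfold LieAlgebra.Orthogonal.typeD at h
      rw [mem_skewAdjointMatricesLieSubalgebra, mem_skewAdjointMatricesSubmodule] at h
      unfold Matrix.IsSkewAdjoint Matrix.IsAdjointPair at h
      rw [h, Matrix.mul_neg]
    obtain ⟨h6, h7⟩ := exp_so h3 h5
    rw [← h4] at h6 h7
    have h8 : gm (z :: w) = gm [z] * gm w := GenSO.gm_append [z] w
    rw [h8]
    refine ⟨?_, by rw [Matrix.det_mul, h7, h2, one_mul]⟩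
    rw [transpose_mul]
    calc (gm w)ᵀ * (gm [z])ᵀ * LieAlgebra.Orthogonal.JD (Fin n) ℂ * (gm [z] * gm w)
        = (gm w)ᵀ * ((gm [z])ᵀ * LieAlgebra.Orthogonal.JD (Fin n) ℂ * gm [z]) * gm w := by
          simp only [Matrix.mul_assoc]
      _ = LieAlgebra.Orthogonal.JD (Fin n) ℂ := by rw [h6, h1]

end Crest.Agent.R172.GmSO
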