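import Mathlib

/-!
# Row 172: a derivation killing a graded system of parameters kills the point

helper580.  `Crest.Agent.R172.GN.der_eq_zero` is step (2) (INJ) of helper745's note 15562: if the homogeneous
polynomials `tau j` (positive degrees, coefficients in `k`) have no common zero but `0` over the algebraically
closed field `L`, and a `k`-derivation `D` of `L` kills all `tau j (t)`, then it kills all the coordinates `t i`.
-/

namespace Crest.Agent.R172.GN

open MvPolynomial

/-- Constants of a derivation are algebraically closed in characteristic zero. -/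
theorem der_algebraic {R L : Type*} [CommRing R] [Field L] [CharZero L] [Algebra R L]
    (D : Derivation R L L) (C : Subfield L) (hC : ∀ x ∈ C, D x = 0) {x : L} (hx : IsIntegral C x) :
    D x = 0 := by
  let D' : Derivation C L L :=
    Derivation.mk'
      { toFun := D
        map_add' := D.map_add
        map_smul' := by
          intro c y
          show D ((c : L) * y) = c • D y
          rw [D.leibniz, hC _ c.2]
          simp [Subfield.smul_def] }
      (by
        intro a y
        show D (a * y) = a • D y + y • D a
        exact D.leibniz a y)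
  have hD' : ∀ y, D' y = D y := fun y => rfl
  have h1 := D'.map_aeval (minpoly C x) x
  rw [minpoly.aeval, map_zero] at h1
  have h2 : Polynomial.aeval x (Polynomial.derivative (minpoly C x)) ≠ 0 :=
    Polynomial.Separable.aeval_derivative_ne_zero (minpoly.irreducible hx).separable
      (minpoly.aeval C x)
  rw [← hD']
  have h3 := h1.symm
  rw [smul_eq_mul] at h3
  exact (mul_eq_zero.1 h3).resolve_left h2

variable {k : Type*} [Field k] {σ : Type*} [Fintype σ] {J : Type*}

/-- Large monomials lie in an ideal that contains powers of the variables. -/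
theorem monomial_mem (I : Ideal (MvPolynomial σ k)) (m : σ → ℕ) (hm : ∀ i, X i ^ m i ∈ I)
    (s : σ →₀ ℕ) (hs : ∑ i, m i < s.sum fun _ e => e) (c : k) : monomial s c ∈ I := by
  classical
  have hex : ∃ i, m i ≤ s i := by
    by_contra hcon
    push Not at hcon
    rw [Finsupp.sum_fintype _ _ (fun _ => rfl)] at hs
    exact absurd hs (not_lt.2 (Finset.sum_le_sum fun i _ => (hcon i).le))
  obtain ⟨i, hi⟩ := hex
  have h1 : monomial s c = monomial (s - Finsupp.single i (m i)) c * X i ^ m i := by
    rw [X_pow_eq_monomial, monomial_mul, mul_one]
    congr 2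
    ext j
    by_cases hj : j = i
    · subst hj
      simp only [Finsupp.coe_add, Finsupp.coe_tsub, Pi.add_apply, Pi.sub_apply,
        Finsupp.single_eq_same]
      omega
    · simp [Ne.symm hj]
  rw [h1]
  exact I.mul_mem_left _ (hm i)

/-- Graded Nakayama: if the homogeneous `tau j` of positive degree generate an ideal that contains powers of
all the variables then the polynomial ring is finite over the algebra generated by the `tau j`. -/
theorem finite_adjoin (tau : J → MvPolynomial σ k) (deg : J → ℕ) (hdeg : ∀ j, 0 < deg j)
    (hhom : ∀ j, (tau j).IsHomogeneous (deg j)) (m : σ → ℕ)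
    (hm : ∀ i, X i ^ m i ∈ Ideal.span (Set.range tau)) :
    Module.Finite (Algebra.adjoin k (Set.range tau)) (MvPolynomial σ k) := by
  classical
  set A := Algebra.adjoin k (Set.range tau) with hA
  set N : ℕ := ∑ i, m i with hN
  -- the finite set of small exponents
  have hfin : {s : σ →₀ ℕ | (s.sum fun _ e => e) ≤ N}.Finite := by
    have hsub : {s : σ →₀ ℕ | (s.sum fun _ e => e) ≤ N} ⊆
        Set.Iic (Finsupp.equivFunOnFinite.symm fun _ => N) := by
      intro s hs i
      have h1 : (s.sum fun _ e => e) ≤ N := hs
      rw [Finsupp.sum_fintype _ _ (fun _ => rfl)] at h1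
      exact (Finset.single_le_sum (fun j _ => Nat.zero_le _) (Finset.mem_univ i)).trans h1
    exact (Set.finite_Iic _).subset hsub
  set T : Set (MvPolynomial σ k) := (fun s => monomial s (1 : k)) ''
    {s : σ →₀ ℕ | (s.sum fun _ e => e) ≤ N} with hT
  have hTfin : T.Finite := hfin.image _
  set M : Submodule A (MvPolynomial σ k) := Submodule.span A T with hM
  have hk : ∀ (c : k) (p : MvPolynomial σ k), p ∈ M → C c * p ∈ M := by
    intro c p hp
    have := M.smul_mem (algebraMap k A c) hp
    rwa [Algebra.smul_def] at this
  have hA' : ∀ (a : MvPolynomial σ k) (p : MvPolynomial σ k), a ∈ A → p ∈ M → a * p ∈ M := by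
    intro a p ha hp
    exact M.smul_mem (⟨a, ha⟩ : A) hp
  have key : ∀ d : ℕ, ∀ p : MvPolynomial σ k, p.IsHomogeneous d → p ∈ M := by
    intro d
    induction d using Nat.strong_induction_on with
    | _ d ih =>
      intro p hp
      by_cases hd : d ≤ N
      · rw [p.as_sum]
        refine M.sum_mem fun s hs => ?_
        have h1 : monomial s (coeff s p) = C (coeff s p) * monomial s (1 : k) := by
          rw [C_mul_monomial, mul_one]
        rw [h1]
        refine hk _ _ (Submodule.subset_span ⟨s, ?_, rfl⟩)
        have h2 := hp (mem_support_iff.1 hs)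
        show (s.sum fun _ e => e) ≤ N
        rw [Finsupp.weight_apply] at h2
        have h6 : (s.sum fun _ e => e) = d := by
          rw [← h2]; simp [Finsupp.sum]
        omega
      · have hpI : p ∈ Ideal.span (Set.range tau) := by
          rw [p.as_sum]
          refine Ideal.sum_mem _ fun s hs => ?_
          refine monomial_mem _ m hm s ?_ _
          have h2 := hp (mem_support_iff.1 hs)
          rw [Finsupp.weight_apply] at h2
          have h6 : (s.sum fun _ e => e) = d := by
            rw [← h2]; simp [Finsupp.sum]
          omega
        obtain ⟨q, hq⟩ := Finsupp.mem_ideal_span_range_iff_exists_finsupp.1 hpI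
        have h3 : homogeneousComponent d p = p := by
          rw [homogeneousComponent_of_mem (n := d) hp, if_pos rfl]
        rw [← h3, ← hq, Finsupp.sum, map_sum]
        refine M.sum_mem fun j _ => ?_
        rw [← sum_homogeneousComponent (q j), Finset.sum_mul, map_sum]
        refine M.sum_mem fun e _ => ?_
        have h4 : (homogeneousComponent e (q j) * tau j).IsHomogeneous (e + deg j) :=
          (homogeneousComponent_isHomogeneous e (q j)).mul (hhom j)
        rw [homogeneousComponent_of_mem (n := e + deg j) h4]
        split_ifs with h5
        · rw [mul_comm]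
          refine hA' _ _ (Algebra.subset_adjoin ⟨j, rfl⟩) ?_
          refine ih e ?_ _ (homogeneousComponent_isHomogeneous e (q j))
          have := hdeg j
          omega
        · exact M.zero_mem
  refine ⟨⟨hTfin.toFinset, ?_⟩⟩
  rw [Set.Finite.coe_toFinset, eq_top_iff]
  intro p _
  rw [← sum_homogeneousComponent p]
  exact M.sum_mem fun d _ => key d _ (homogeneousComponent_isHomogeneous d p)

/-- **(INJ).** -/
theorem der_eq_zero {L : Type*} [Field L] [IsAlgClosed L] [CharZero L] [Algebra k L]
    (tau : J → MvPolynomial σ k) (deg : J → ℕ) (hdeg : ∀ j, 0 < deg j)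
    (hhom : ∀ j, (tau j).IsHomogeneous (deg j))
    (hz : ∀ x : σ → L, (∀ j, aeval x (tau j) = 0) → x = 0)
    (t : σ → L) (D : Derivation k L L) (hD : ∀ j, D (aeval t (tau j)) = 0) (i : σ) :
    D (t i) = 0 := by
  classical
  -- powers of the variables
  have hrad : ∀ i : σ, ∃ n : ℕ, (X i : MvPolynomial σ k) ^ n ∈ Ideal.span (Set.range tau) := by
    intro i
    have h1 : (X i : MvPolynomial σ k) ∈
        vanishingIdeal k (zeroLocus L (Ideal.span (Set.range tau))) := by
      rw [mem_vanishingIdeal_iff]
      intro x hx
      have h2 : x = 0 := hz x fun j => hx _ (Ideal.subset_span ⟨j, rfl⟩)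
      rw [h2, aeval_X]
      rfl
    rw [vanishingIdeal_zeroLocus_eq_radical] at h1
    exact h1
  choose m hm using hrad
  have := finite_adjoin tau deg hdeg hhom m hm
  have hint : IsIntegral (Algebra.adjoin k (Set.range tau)) (X i : MvPolynomial σ k) :=
    IsIntegral.of_finite _ _
  -- the field of constants
  let C : Subfield L :=
    { carrier := {x | D x = 0}
      mul_mem' := by
        intro a b ha hb
        show D (a * b) = 0
        rw [D.leibniz, show D a = 0 from ha, show D b = 0 from hb]; simp
      one_mem' := D.map_one_eq_zero
      add_mem' := by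
        intro a b ha hb
        show D (a + b) = 0
        rw [map_add, show D a = 0 from ha, show D b = 0 from hb, add_zero]
      zero_mem' := map_zero D
      neg_mem' := by
        intro a ha
        show D (-a) = 0
        rw [map_neg, show D a = 0 from ha, neg_zero]
      inv_mem' := by
        intro a ha
        show D a⁻¹ = 0
        rw [D.leibniz_inv, show D a = 0 from ha]; simp }
  have hmem : ∀ a : Algebra.adjoin k (Set.range tau), aeval t (a : MvPolynomial σ k) ∈ C := by
    rintro ⟨a, ha⟩
    show D (aeval t a) = 0
    induction ha using Algebra.adjoin_induction with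
    | mem x hx => obtain ⟨j, rfl⟩ := hx; exact hD j
    | algebraMap r => rw [AlgHom.commutes]; exact D.map_algebraMap r
    | add x y _ _ hx hy => rw [map_add, map_add, hx, hy, add_zero]
    | mul x y _ _ hx hy => rw [map_mul, D.leibniz, hx, hy]; simp
  let φ : Algebra.adjoin k (Set.range tau) →+* C :=
    { toFun := fun a => ⟨aeval t (a : MvPolynomial σ k), hmem a⟩
      map_one' := by ext; simp
      map_mul' := by intro a b; ext; simp
      map_zero' := by ext; simp
      map_add' := by intro a b; ext; simp }
  have hint2 : IsIntegral C (aeval t (X i : MvPolynomial σ k)) :=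
    hint.map_of_comp_eq φ (aeval t : MvPolynomial σ k →ₐ[k] L).toRingHom (by ext a; rfl)
  rw [aeval_X] at hint2
  exact der_algebraic D C (fun x hx => hx) hint2

/-! ### The version with traces of words -/

section words

variable {R L : Type*} [CommRing R] [Field L] [IsAlgClosed L] [CharZero L] [Algebra R L]
variable {τ ι : Type*} [Fintype ι] [DecidableEq ι]

/-- The word `w` in the matrices `B s`. -/
def word {E : Type*} [CommRing E] (B : τ → Matrix ι ι E) (w : List τ) : Matrix ι ι E :=
  (w.map B).prod

theorem word_cons {E : Type*} [CommRing E] (B : τ → Matrix ι ι E) (s : τ) (w : List τ) :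
    word B (s :: w) = B s * word B w := by simp [word]

theorem word_nil {E : Type*} [CommRing E] (B : τ → Matrix ι ι E) : word B [] = 1 := by simp [word]

theorem word_append {E : Type*} [CommRing E] (B : τ → Matrix ι ι E) (w w' : List τ) :
    word B (w ++ w') = word B w * word B w' := by simp [word]

theorem word_map {E E' : Type*} [CommRing E] [CommRing E'] (f : E →+* E') (B : τ → Matrix ι ι E)
    (w : List τ) : (word B w).map f = word (fun s => (B s).map f) w := by
  induction w with
  | nil => rw [word_nil, word_nil, Matrix.map_one f (map_zero f) (map_one f)]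
  | cons s w ih => rw [word_cons, word_cons, Matrix.map_mul, ih]

/-- The generic linear combination of matrices over `C`. -/
noncomputable def gen {C : Type*} [CommRing C] (A : σ → Matrix ι ι C) :
    Matrix ι ι (MvPolynomial σ C) :=
  ∑ i, (X i : MvPolynomial σ C) • (A i).map (MvPolynomial.C)

omit [Fintype ι] [DecidableEq ι] in
theorem gen_homogeneous {C : Type*} [CommRing C] (A : σ → Matrix ι ι C) (a b : ι) :
    (gen A a b).IsHomogeneous 1 := by
  rw [gen, Matrix.sum_apply]
  refine IsHomogeneous.sum _ _ _ fun i _ => ?_
  rw [Matrix.smul_apply, Matrix.map_apply, smul_eq_mul]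
  exact (isHomogeneous_X C i).mul (isHomogeneous_C σ _)

theorem word_homogeneous {C : Type*} [CommRing C] (A : τ → σ → Matrix ι ι C) (w : List τ)
    (a b : ι) : (word (fun s => gen (A s)) w a b).IsHomogeneous w.length := by
  induction w generalizing a b with
  | nil =>
    rw [word_nil, Matrix.one_apply]
    split_ifs
    · exact isHomogeneous_one σ C
    · exact isHomogeneous_zero σ C _
  | cons s w ih =>
    rw [word_cons, Matrix.mul_apply]
    refine IsHomogeneous.sum _ _ _ fun c _ => ?_
    have h := (gen_homogeneous (A s) a c).mul (ih c b)
    rwa [List.length_cons, add_comm w.length 1]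

omit [IsAlgClosed L] [CharZero L] [Fintype ι] [DecidableEq ι] in
theorem gen_aeval {C : Type*} [CommRing C] [Algebra C L] (A : σ → Matrix ι ι C) (t : σ → L) :
    (gen A).map (aeval t : MvPolynomial σ C →ₐ[C] L).toRingHom =
      ∑ i, t i • (A i).map (algebraMap C L) := by
  ext a b
  simp [gen, Matrix.sum_apply]

/-- **(INJ), traces of words of length `≥ N`.**  `A s i` have constant entries, `t` is the generic point. -/
theorem inj_of_words (D : Derivation R L L) (A : τ → σ → Matrix ι ι L)
    (hA : ∀ s i a b, D (A s i a b) = 0) (N : ℕ) (hN : 0 < N)
    (hnil : ∀ x : σ → L, (∀ w : List τ, N ≤ w.length →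
      (word (fun s => ∑ i, x i • A s i) w).trace = 0) → x = 0)
    (t : σ → L) (h : ∀ w : List τ, N ≤ w.length →
      D (word (fun s => ∑ i, t i • A s i) w).trace = 0) (i : σ) : D (t i) = 0 := by
  classical
  -- the field of constants
  let C : Subfield L :=
    { carrier := {x | D x = 0}
      mul_mem' := by
        intro a b ha hb
        show D (a * b) = 0
        rw [D.leibniz, show D a = 0 from ha, show D b = 0 from hb]; simp
      one_mem' := D.map_one_eq_zero
      add_mem' := by
        intro a b ha hb
        show D (a + b) = 0
        rw [map_add, show D a = 0 from ha, show D b = 0 from hb, add_zero]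
      zero_mem' := map_zero D
      neg_mem' := by
        intro a ha
        show D (-a) = 0
        rw [map_neg, show D a = 0 from ha, neg_zero]
      inv_mem' := by
        intro a ha
        show D a⁻¹ = 0
        rw [D.leibniz_inv, show D a = 0 from ha]; simp }
  let D' : Derivation C L L :=
    Derivation.mk'
      { toFun := D
        map_add' := D.map_add
        map_smul' := by
          intro c y
          show D ((c : L) * y) = c • D y
          rw [D.leibniz, show D (c : L) = 0 from c.2]
          simp [Subfield.smul_def] }
      (by
        intro a y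
        show D (a * y) = a • D y + y • D a
        exact D.leibniz a y)
  let A' : τ → σ → Matrix ι ι C := fun s i => Matrix.of fun a b => ⟨A s i a b, hA s i a b⟩
  have hA' : ∀ s i, (A' s i).map (algebraMap C L) = A s i := by
    intro s i; ext a b; rfl
  let tau : {w : List τ // N ≤ w.length} → MvPolynomial σ C :=
    fun w => (word (fun s => gen (A' s)) w.1).trace
  have htau : ∀ (x : σ → L) w, aeval x (tau w) = (word (fun s => ∑ i, x i • A s i) w.1).trace := by
    intro x w
    have h1 : aeval x (tau w) =
        ((word (fun s => gen (A' s)) w.1).map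
          (aeval x : MvPolynomial σ C →ₐ[C] L).toRingHom).trace := by
      simp only [tau, Matrix.trace, map_sum]
      rfl
    rw [h1, word_map]
    congr 2
    funext s
    rw [gen_aeval]
    simp only [hA']
  refine der_eq_zero (L := L) tau (fun w => w.1.length) (fun w => lt_of_lt_of_le hN w.2)
    (fun w => ?_) (fun x hx => hnil x fun w hw => ?_) t D' (fun w => ?_) i
  · refine IsHomogeneous.sum _ _ _ fun a _ => ?_
    exact word_homogeneous A' w.1 a a
  · rw [← htau x ⟨w, hw⟩]; exact hx _
  · rw [htau]; exact h w.1 w.2

end words

end Crest.Agent.R172.GN
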