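import Mathlib

/-!
Row 172 (S0260), step T5: the easy half of the Hilbert--Mumford criterion in multilinear form.

`V` is a finite dimensional orthogonal space over a field of characteristic zero.
`F` is multilinear in the vectors of all columns, alternating inside each column and infinitesimally
`so(V)`-invariant.  If `F Y ≠ 0` then for every isotropic subspace `S`
`∑_x (dim (S ∩ E_x) + dim (S^⊥ ∩ E_x) - dim E_x) ≤ 0`, `E_x` the span of column `x` of `Y`.
-/

set_option autoImplicit false

namespace Crest.Agent.R172.HM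

open Module

variable {K : Type*} [Field K]
variable {V : Type*} [AddCommGroup V] [Module K V]

/-- `A` is infinitesimally orthogonal for `B`. -/
def Skew (B : LinearMap.BilinForm K V) (A : V →ₗ[K] V) : Prop :=
  ∀ u v, B (A u) v + B u (A v) = 0

/-- the grading operator of an isotropic subspace -/
theorem exists_grading [FiniteDimensional K V] (B : LinearMap.BilinForm K V)
    (hsym : ∀ u v, B u v = B v u)
    (hnd : B.Nondegenerate) (S : Submodule K V) (hS : ∀ u ∈ S, ∀ v ∈ S, B u v = 0) :
    ∃ A : V →ₗ[K] V, Skew B A ∧ (∀ s ∈ S, A s = s) ∧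
      (∀ u, (∀ s ∈ S, B u s = 0) → A u ∈ S) ∧
      (∀ v, ∀ s ∈ S, B (A v + v) s = 0) := by
  classical
  obtain ⟨C, hC⟩ := Submodule.exists_isCompl S
  set π : V →ₗ[K] V := S.subtype ∘ₗ (Submodule.projectionOnto S C hC) with hπ
  have hπS : ∀ s ∈ S, π s = s := by
    intro s hs
    have := Submodule.projectionOnto_apply_left hC ⟨s, hs⟩
    simp only [hπ, LinearMap.comp_apply, Submodule.subtype_apply]
    exact congrArg Subtype.val this
  have hπmem : ∀ v, π v ∈ S := by
    intro v
    simp only [hπ, LinearMap.comp_apply, Submodule.subtype_apply]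
    exact Subtype.mem _
  set π' : V →ₗ[K] V := B.leftAdjointOfNondegenerate hnd π with hπ'
  have hadj : ∀ u v, B (π' u) v = B u (π v) := by
    intro u v
    exact B.isAdjointPairLeftAdjointOfNondegenerate hnd π u v
  refine ⟨π - π', ?_, ?_, ?_, ?_⟩
  · intro u v
    have e1 : B u (π' v) = B (π u) v := by
      rw [hsym u (π' v), hadj v u, hsym]
    simp only [LinearMap.sub_apply, map_sub]
    rw [hadj u v, e1]
    ring
  · intro s hs
    have h0 : π' s = 0 := by
      refine hnd.1 _ ?_
      intro v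
      rw [hadj]
      exact hS s hs _ (hπmem v)
    simp [hπS s hs, h0]
  · intro u hu
    have h0 : π' u = 0 := by
      refine hnd.1 _ ?_
      intro v
      rw [hadj]
      exact hu _ (hπmem v)
    simp only [LinearMap.sub_apply, h0, sub_zero]
    exact hπmem u
  · intro v s hs
    simp only [LinearMap.sub_apply, map_sub, map_add, LinearMap.add_apply]
    rw [hadj v s, hπS s hs, hS _ (hπmem v) s hs]
    ring

/-- weights `1, 0, -1` -/
def wt : Fin 3 → ℤ := ![1, 0, -1]

theorem wt_anti {a b : Fin 3} (h : a ≤ b) : wt b ≤ wt a := by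
  revert a b; decide

/-- spectral projections of an operator with `A ^ 3 = A` -/
noncomputable def proj (A : V →ₗ[K] V) : Fin 3 → V →ₗ[K] V :=
  ![(2⁻¹ : K) • (A ∘ₗ A + A), LinearMap.id - A ∘ₗ A, (2⁻¹ : K) • (A ∘ₗ A - A)]

theorem proj_sum [CharZero K] (A : V →ₗ[K] V) (v : V) : ∑ a, proj A a v = v := by
  have h2 : (2 : K) ≠ 0 := two_ne_zero
  simp only [Fin.sum_univ_three, proj, Matrix.cons_val_zero, Matrix.cons_val_one,
    Matrix.cons_val_two, Matrix.head_cons, Matrix.tail_cons, LinearMap.smul_apply,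
    LinearMap.add_apply, LinearMap.sub_apply, LinearMap.comp_apply, LinearMap.id_apply,
    Matrix.cons_val]
  have h1 : (2⁻¹ : K) • (A (A v) + A v) + (2⁻¹ : K) • (A (A v) - A v) = A (A v) := by
    rw [← smul_add]
    have : A (A v) + A v + (A (A v) - A v) = (2 : K) • A (A v) := by
      rw [two_smul]; abel
    rw [this, smul_smul, inv_mul_cancel₀ h2, one_smul]
  calc _ = ((2⁻¹ : K) • (A (A v) + A v) + (2⁻¹ : K) • (A (A v) - A v)) + (v - A (A v)) := by abel
    _ = v := by rw [h1]; abel

theorem proj_eig (A : V →ₗ[K] V) (hA : ∀ v, A (A (A v)) = A v) (a : Fin 3) (v : V) :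
    A (proj A a v) = (wt a : K) • proj A a v := by
  fin_cases a
  · simp [proj, wt, hA, add_comm]
  · simp [proj, wt, hA]
  · simp only [proj, wt, Fin.reduceFinMk, Matrix.cons_val, LinearMap.smul_apply,
      LinearMap.sub_apply, LinearMap.comp_apply, map_smul, map_sub, hA, Int.reduceNeg,
      Int.cast_neg, Int.cast_one, neg_smul, one_smul]
    rw [← smul_neg, neg_sub]

/-- the filtration levels attached to `S` -/
def InLevel (B : LinearMap.BilinForm K V) (S : Submodule K V) (a : Fin 3) (v : V) : Prop :=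
  (a = 0 → v ∈ S) ∧ (a = 1 → ∀ s ∈ S, B v s = 0)

theorem proj_zero (B : LinearMap.BilinForm K V) (S : Submodule K V)
    (A : V →ₗ[K] V) (h1 : ∀ s ∈ S, A s = s)
    (h2 : ∀ u, (∀ s ∈ S, B u s = 0) → A u ∈ S) {a b : Fin 3} {v : V} (hv : InLevel B S b v)
    (hne : proj A a v ≠ 0) : a ≤ b := by
  by_contra hab
  have hab' : b < a := not_le.mp hab
  apply hne
  fin_cases b
  · have hvS : v ∈ S := hv.1 rfl
    have := h1 v hvS
    fin_cases a
    · exact absurd hab' (by decide)
    · simp [proj, this]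
    · simp [proj, this]
  · have hvS : ∀ s ∈ S, B v s = 0 := hv.2 rfl
    have hA := h2 v hvS
    have := h1 _ hA
    fin_cases a
    · exact absurd hab' (by decide)
    · exact absurd hab' (by decide)
    · simp [proj, this]
  · fin_cases a <;> exact absurd hab' (by decide)

/-- the weight argument -/
theorem sum_wt_le [CharZero K] [FiniteDimensional K V] (B : LinearMap.BilinForm K V)
    (hsym : ∀ u v, B u v = B v u)
    (hnd : B.Nondegenerate) (S : Submodule K V) (hS : ∀ u ∈ S, ∀ v ∈ S, B u v = 0)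
    {ι : Type*} [Fintype ι] [DecidableEq ι] (F : MultilinearMap K (fun _ : ι => V) K)
    (hF : ∀ A : V →ₗ[K] V, Skew B A → ∀ Y : ι → V,
      ∑ p, F (Function.update Y p (A (Y p))) = 0)
    (z : ι → V) (lev : ι → Fin 3) (hz : ∀ p, InLevel B S (lev p) (z p)) (hne : F z ≠ 0) :
    ∑ p, wt (lev p) ≤ 0 := by
  obtain ⟨A, hA, h1, h2, h3⟩ := exists_grading B hsym hnd S hS
  have hA3 : ∀ v, A (A (A v)) = A v := by
    intro v
    have hm : A (A v + v) ∈ S := h2 _ (fun s hs => h3 v s hs)
    have := h1 _ hm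
    simp only [map_add] at this
    have h4 : A (A (A v)) + A (A v) = A v + A (A v) := by rw [this]; abel
    exact add_right_cancel h4
  have hexp : F z = ∑ r : ι → Fin 3, F (fun p => proj A (r p) (z p)) := by
    have e := F.map_sum (fun p (a : Fin 3) => proj A a (z p))
    rw [← e]
    congr 1
    funext p
    rw [proj_sum]
  rw [hexp] at hne
  obtain ⟨r, -, hr⟩ := Finset.exists_ne_zero_of_sum_ne_zero hne
  have hcomp : ∀ p, proj A (r p) (z p) ≠ 0 := by
    intro p hp
    exact hr (F.map_coord_zero p hp)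
  have hle : ∀ p, wt (lev p) ≤ wt (r p) := fun p =>
    wt_anti (proj_zero B S A h1 h2 (hz p) (hcomp p))
  have hinv := hF A hA (fun p => proj A (r p) (z p))
  have hinv' : ((∑ p, wt (r p) : ℤ) : K) * F (fun p => proj A (r p) (z p)) = 0 := by
    rw [← hinv, Int.cast_sum, Finset.sum_mul]
    refine Finset.sum_congr rfl fun p _ => ?_
    rw [proj_eig A hA3, F.map_update_smul, Function.update_eq_self, smul_eq_mul]
  have h0 : (∑ p, wt (r p) : ℤ) = 0 := by
    rcases mul_eq_zero.mp hinv' with h | h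
    · exact_mod_cast h
    · exact absurd h hr
  calc ∑ p, wt (lev p) ≤ ∑ p, wt (r p) := Finset.sum_le_sum fun p _ => hle p
    _ = 0 := h0

/-- complement inside a bigger subspace -/
theorem exists_rel_compl [FiniteDimensional K V] (P Q : Submodule K V) (h : P ≤ Q) :
    ∃ C : Submodule K V, C ≤ Q ∧ P ⊔ C = Q ∧ finrank K P + finrank K C = finrank K Q := by
  obtain ⟨D, hD⟩ := Submodule.exists_isCompl P
  refine ⟨D ⊓ Q, inf_le_right, ?_, ?_⟩
  · rw [← sup_inf_assoc_of_le D h, hD.sup_eq_top, top_inf_eq]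
  · have h1 : P ⊔ (D ⊓ Q) = Q := by
      rw [← sup_inf_assoc_of_le D h, hD.sup_eq_top, top_inf_eq]
    have h2 : P ⊓ (D ⊓ Q) = ⊥ := by
      rw [← inf_assoc, hD.inf_eq_bot, bot_inf_eq]
    have := Submodule.finrank_sup_add_finrank_inf_eq P (D ⊓ Q)
    rw [h1, h2, finrank_bot, add_zero] at this
    exact this.symm

/-- adapted spanning families -/
theorem exists_adapted [FiniteDimensional K V] (B : LinearMap.BilinForm K V)
    (S E T : Submodule K V) (hT : ∀ v, v ∈ T ↔ ∀ s ∈ S, B v s = 0) (hST : S ≤ T) :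
    ∃ (J : Type) (_ : Fintype J) (e : J → V) (lev : J → Fin 3),
      Submodule.span K (Set.range e) = E ∧ Fintype.card J = finrank K E ∧
      (∀ j, InLevel B S (lev j) (e j)) ∧
      ∑ j, wt (lev j) = (finrank K ↥(S ⊓ E) : ℤ) + finrank K ↥(T ⊓ E) - finrank K E := by
  obtain ⟨C2, hC2, hs2, hf2⟩ := exists_rel_compl (S ⊓ E) (T ⊓ E) (inf_le_inf_right E hST)
  obtain ⟨C3, hC3, hs3, hf3⟩ := exists_rel_compl (T ⊓ E) E inf_le_right
  refine ⟨Fin (finrank K ↥(S ⊓ E)) ⊕ (Fin (finrank K C2) ⊕ Fin (finrank K C3)), inferInstance,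
    Sum.elim (fun i => (finBasis K ↥(S ⊓ E) i : V))
      (Sum.elim (fun i => (finBasis K C2 i : V)) (fun i => (finBasis K C3 i : V))),
    Sum.elim (fun _ => 0) (Sum.elim (fun _ => 1) (fun _ => 2)), ?_, ?_, ?_, ?_⟩
  · have hspan : ∀ (W : Submodule K V),
        Submodule.span K (Set.range fun i => ((finBasis K W i : W) : V)) = W := by
      intro W
      have : (Set.range fun i => ((finBasis K W i : W) : V)) =
          W.subtype '' (Set.range (finBasis K W)) := by
        rw [← Set.range_comp]; rfl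
      rw [this, ← Submodule.map_span, (finBasis K W).span_eq, Submodule.map_top,
        Submodule.range_subtype]
    rw [Set.Sum.elim_range, Set.Sum.elim_range, Submodule.span_union, Submodule.span_union,
      hspan, hspan, hspan, ← sup_assoc, hs2, hs3]
  · simp only [Fintype.card_sum, Fintype.card_fin]
    omega
  · rintro (i | i | i)
    · refine ⟨fun _ => ?_, fun h => absurd h (show (0 : Fin 3) ≠ 1 by decide)⟩
      exact (Submodule.mem_inf.mp (finBasis K ↥(S ⊓ E) i).2).1
    · refine ⟨fun h => absurd h (show (1 : Fin 3) ≠ 0 by decide), fun _ => ?_⟩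
      have := hC2 (finBasis K C2 i).2
      exact (hT _).mp (Submodule.mem_inf.mp this).1
    · exact ⟨fun h => absurd h (show (2 : Fin 3) ≠ 0 by decide),
        fun h => absurd h (show (2 : Fin 3) ≠ 1 by decide)⟩
  · simp only [Fintype.sum_sum_type, Sum.elim_inl, Sum.elim_inr, Finset.sum_const,
      Finset.card_univ, Fintype.card_fin, wt, Matrix.cons_val_zero, Matrix.cons_val_one,
      Matrix.cons_val, nsmul_eq_mul, mul_one, mul_zero, zero_add, Int.reduceNeg, mul_neg]
    push_cast [← hf3, ← hf2]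
    ring

/-- **T5'**: easy half of Hilbert--Mumford in multilinear form. -/
theorem hm_le [CharZero K] [FiniteDimensional K V] (B : LinearMap.BilinForm K V)
    (hsym : ∀ u v, B u v = B v u) (hnd : B.Nondegenerate)
    {X : Type*} [Fintype X] [DecidableEq X] (h : X → ℕ)
    (F : MultilinearMap K (fun _ : (Σ x, Fin (h x)) => V) K)
    (halt : ∀ (Y : (Σ x, Fin (h x)) → V) (x : X) (i j : Fin (h x)), i ≠ j →
      Y ⟨x, i⟩ = Y ⟨x, j⟩ → F Y = 0)
    (hF : ∀ A : V →ₗ[K] V, Skew B A → ∀ Y : (Σ x, Fin (h x)) → V,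
      ∑ p, F (Function.update Y p (A (Y p))) = 0)
    (Y : (Σ x, Fin (h x)) → V) (hY : F Y ≠ 0)
    (S T : Submodule K V) (hS : ∀ u ∈ S, ∀ v ∈ S, B u v = 0)
    (hT : ∀ v, v ∈ T ↔ ∀ s ∈ S, B v s = 0)
    (E : X → Submodule K V)
    (hE : ∀ x, E x = Submodule.span K (Set.range fun i : Fin (h x) => Y ⟨x, i⟩)) :
    ∑ x, ((finrank K ↥(S ⊓ E x) : ℤ) + finrank K ↥(T ⊓ E x) - finrank K (E x)) ≤ 0 := by
  classical
  have hST : S ≤ T := fun s hs => (hT s).mpr fun t ht => hS s hs t ht
  choose J hJ e lev hspan hcard hlev hsum using fun x => exists_adapted B S (E x) T hT hST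
  have hmem : ∀ p : (Σ x, Fin (h x)), ∃ c : J p.1 → K, ∑ j, c j • e p.1 j = Y p := by
    rintro ⟨x, i⟩
    have : Y ⟨x, i⟩ ∈ Submodule.span K (Set.range (e x)) := by
      rw [hspan x, hE x]
      exact Submodule.subset_span ⟨i, rfl⟩
    exact (Submodule.mem_span_range_iff_exists_fun K).mp this
  choose c hc using hmem
  have hexp : F Y = ∑ r : (p : (Σ x, Fin (h x))) → J p.1,
      F (fun p => c p (r p) • e p.1 (r p)) := by
    have e1 := F.map_sum (fun p (j : J p.1) => c p j • e p.1 j)
    rw [← e1]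
    congr 1
    funext p
    exact (hc p).symm
  rw [hexp] at hY
  obtain ⟨r, -, hr⟩ := Finset.exists_ne_zero_of_sum_ne_zero hY
  rw [MultilinearMap.map_smul_univ] at hr
  have hr' : F (fun p => e p.1 (r p)) ≠ 0 := by
    intro h0
    exact hr (by rw [h0, smul_zero])
  have hinj : ∀ x, Function.Injective fun i : Fin (h x) => r ⟨x, i⟩ := by
    intro x i j hij
    by_contra hne
    refine hr' (halt _ x i j hne ?_)
    have : r ⟨x, i⟩ = r ⟨x, j⟩ := hij
    simp only [this]
  have hcardle : ∀ x, Fintype.card (J x) ≤ h x := by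
    intro x
    rw [hcard x, hE x]
    exact (finrank_range_le_card _).trans_eq (Fintype.card_fin _)
  have hbij : ∀ x, Function.Bijective fun i : Fin (h x) => r ⟨x, i⟩ := by
    intro x
    refine (Fintype.bijective_iff_injective_and_card _).mpr ⟨hinj x, ?_⟩
    refine le_antisymm (Fintype.card_le_of_injective _ (hinj x)) ?_
    rw [Fintype.card_fin]
    exact hcardle x
  have key := sum_wt_le B hsym hnd S hS F hF (fun p => e p.1 (r p)) (fun p => lev p.1 (r p))
    (fun p => hlev p.1 (r p)) hr'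
  rw [Fintype.sum_sigma] at key
  have h2 : ∀ x, ∑ i : Fin (h x), wt (lev x (r ⟨x, i⟩)) =
      (finrank K ↥(S ⊓ E x) : ℤ) + finrank K ↥(T ⊓ E x) - finrank K (E x) := by
    intro x
    rw [← hsum x]
    exact Fintype.sum_bijective _ (hbij x) _ _ fun i => rfl
  calc _ = ∑ x, ∑ i : Fin (h x), wt (lev x (r ⟨x, i⟩)) :=
        Finset.sum_congr rfl fun x _ => (h2 x).symm
    _ ≤ 0 := key

end Crest.Agent.R172.HM
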