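import Crest.Agent.R172.SpLink

/-!
R172: star-form models of all dominant integral weights; the forward direction of S0260; existence of
the concrete data for a triple in the root lattice.
-/

set_option autoImplicit false
set_option linter.unusedSectionVars false

namespace Crest.Agent.R172.SpHW2

open Matrix Crest.AlgebraR.SpinSaturation Crest.Agent.R172.Sp
open Crest.Agent.R172.Fwd Crest.Agent.R172.CF

variable {n : ℕ}

/-- the largest coordinate as a natural number -/
def top (hn : 2 ≤ n) (a : Fin n → ℤ) : ℕ := (a ⟨0, by omega⟩).toNat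

theorem top_nonneg (hn : 2 ≤ n) {a : Fin n → ℤ} (ha : IsDominantIntegral n a) :
    0 ≤ a ⟨0, by omega⟩ := by
  have h := dom_neg hn ha ⟨1, by omega⟩ ⟨0, by omega⟩ (by simp [Fin.ext_iff])
  have h1 := dom_mono hn ha ⟨0, by omega⟩ ⟨1, by omega⟩ (by simp [Fin.lt_def])
  omega

theorem top_coe (hn : 2 ≤ n) {a : Fin n → ℤ} (ha : IsDominantIntegral n a) :
    ((top hn a : ℕ) : ℤ) = a ⟨0, by omega⟩ := Int.toNat_of_nonneg (top_nonneg hn ha)

theorem le_top (hn : 2 ≤ n) {a : Fin n → ℤ} (ha : IsDominantIntegral n a) (i : Fin n) :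
    a i ≤ top hn a := by
  rw [top_coe hn ha]
  by_cases h : i = ⟨0, by omega⟩
  · rw [h]
  · apply dom_mono hn ha
    rw [Fin.lt_def]
    have : (i : ℕ) ≠ 0 := fun h' => h (Fin.ext h')
    simp
    omega

theorem par_top (hn : 2 ≤ n) {a : Fin n → ℤ} (ha : IsDominantIntegral n a) (i : Fin n) :
    Even ((top hn a : ℤ) - a i) := by
  rw [top_coe hn ha]
  exact ha.1 _ _

/-- star-form models exist for all dominant integral weights -/
theorem exists_HW (hn : 2 ≤ n) {a : Fin n → ℤ} (ha : IsDominantIntegral n a) :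
    Nonempty (HW n a) := by
  obtain ⟨R⟩ := exists_arm hn ha (top hn a) (le_top hn ha) (par_top hn ha)
  obtain ⟨C⟩ := CAR.exists_car (Fin n × Fin (top hn a))
  obtain ⟨x, hx0, hxk⟩ := exists_killed C (revInv (top hn a)) R.lag R.isot
  exact ⟨{ V := Spn C (revInv (top hn a)), fd := inferInstance, star := starSpn C _,
           x := x, hx := R.hwv C hx0 hxk }⟩

/-- **Forward direction of S0260.** -/
theorem forward (hn : 2 ≤ n) {a b c : Fin n → ℤ}
    (ha : IsDominantIntegral n a) (hb : IsDominantIntegral n b) (hc : IsDominantIntegral n c)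
    (N : ℕ) (hN : 1 ≤ N) (U : Irrep n a) (V : Irrep n b) (W : Irrep n c)
    (U' : Irrep n (N • a)) (V' : Irrep n (N • b)) (W' : Irrep n (N • c))
    (h : HasInvariant U V W) : HasInvariant U' V' W' := by
  obtain ⟨X⟩ := exists_HW hn ha
  obtain ⟨Y⟩ := exists_HW hn hb
  obtain ⟨Z⟩ := exists_HW hn hc
  obtain ⟨k, rfl⟩ : ∃ k, N = k + 1 := ⟨N - 1, by omega⟩
  exact hasInvariant_mul hn X Y Z U V W h k U' V' W'

/-- multiples of dominant integral weights -/
theorem dom_smul {a : Fin n → ℤ} (ha : IsDominantIntegral n a) (N : ℕ) :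
    IsDominantIntegral n (N • a) := by
  obtain ⟨h1, h2, h3⟩ := ha
  refine ⟨?_, ?_, ?_⟩
  · intro i j
    obtain ⟨k, hk⟩ := h1 i j
    refine ⟨N * k, ?_⟩
    simp only [Pi.smul_apply, nsmul_eq_mul]
    rw [← mul_sub, hk]
    ring
  · intro i j hij hj
    simp only [Pi.smul_apply, nsmul_eq_mul]
    exact mul_le_mul_of_nonneg_left (h2 i j hij hj) (by positivity)
  · intro i j hi hj
    simp only [Pi.smul_apply, nsmul_eq_mul]
    rw [abs_mul, Nat.abs_cast]
    exact mul_le_mul_of_nonneg_left (h3 i j hi hj) (by positivity)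

/-- the concrete data for a triple of dominant weights whose sum is in the root lattice -/
theorem exists_cfg_root (hn : 2 ≤ n) (a : Fin 3 → Fin n → ℤ)
    (ha : ∀ s, IsDominantIntegral n (a s)) (hr : InRootLattice n (a 0 + a 1 + a 2)) :
    ∃ c : Cfg n a, Even (Fintype.card c.δ) ∧ c.δ = SpLink.Dst (fun s => top hn (a s)) := by
  obtain ⟨c, h1, h2⟩ := SpLink.exists_cfg hn a ha (fun s => top hn (a s))
    (fun s => le_top hn (ha s)) (fun s => par_top hn (ha s))
  refine ⟨c, ?_, h1⟩
  rw [h2, Fin.sum_univ_three]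
  obtain ⟨k, hk⟩ := hr.1 ⟨0, by omega⟩
  simp only [Pi.add_apply] at hk
  have e0 := top_coe hn (ha 0)
  have e1 := top_coe hn (ha 1)
  have e2 := top_coe hn (ha 2)
  have h3 : ((top hn (a 0) + top hn (a 1) + top hn (a 2) : ℕ) : ℤ) = k + k := by
    push_cast
    rw [e0, e1, e2, hk]
  rw [← Int.even_coe_nat]
  exact ⟨k, h3⟩

end Crest.Agent.R172.SpHW2
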