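import Crest.Agent.R172.HM9
import Crest.Agent.R172.SpHW2

/-!
Row 172 (S0260), T5 in the language of `Cfg`: if the irreducible representations of weights
`N • a` have an invariant then, at the generic point, every isotropic subspace `S` satisfies
`2 dim (N g ∩ S ⊗ U) ≤ |δ| dim S`.
-/

set_option autoImplicit false
set_option maxHeartbeats 400000
set_option linter.unusedSectionVars false

namespace Crest.Agent.R172.HM10

open Module Matrix Crest.AlgebraR.SpinSaturation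
open Crest.Agent.R172.HM2 Crest.Agent.R172.HM4 Crest.Agent.R172.HM8
open Crest.Agent.R172.HM9 Crest.Agent.R172.Fwd
open Crest.Agent.R172.Gen (Jm Ix)
open Crest.Agent.R172.CF

universe u

variable {n : ℕ}

/-- `S` is isotropic -/
def Iso {K : Type*} [Field K] (S : Submodule K (Ix n → K)) : Prop :=
  ∀ x ∈ S, ∀ y ∈ S, form n K x y = 0

/-- semistability of `N g`. -/
def Semi {a : Fin 3 → Fin n → ℤ} {K : Type*} [Field K] (c : Cfg n a)
    (g : Fin 3 → Matrix (Ix n) (Ix n) K) : Prop :=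
  ∀ S : Submodule K (Ix n → K), Iso S →
    2 * finrank K ↥(c.N g ⊓ SU S) ≤ Fintype.card c.δ * finrank K S

theorem semi_of {a : Fin 3 → Fin n → ℤ} {K : Type*} [Field K] [CharZero K] (c : Cfg n a)
    {g : Fin 3 → Matrix (Ix n) (Ix n) K} (hg : ∀ s, Orth (g s))
    (h : ∀ S T : Submodule K (Fin n ⊕ Fin n → K),
          (∀ x ∈ S, ∀ y ∈ S, HM2.form n K x y = 0) →
          (∀ v, v ∈ T ↔ ∀ s ∈ S, HM2.form n K v s = 0) →
          ∑ s, ∑ i : Fin n, (bb (a s) i - bb (a s) ((i : ℕ) + 1)) *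
            ((finrank K ↥(S ⊓ Efl (a s) (g s) i) : ℤ) + finrank K ↥(T ⊓ Efl (a s) (g s) i) -
              finrank K (Efl (a s) (g s) i)) ≤ 0) : Semi c g := by
  intro S hS
  have hT : ∀ v, v ∈ (form n K).orthogonal S ↔ ∀ s ∈ S, form n K v s = 0 := by
    intro v
    rw [LinearMap.BilinForm.mem_orthogonal_iff]
    constructor
    · intro h s hs
      rw [form_symm]; exact h s hs
    · intro h s hs
      change form n K s v = 0
      rw [form_symm]; exact h s hs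
  have h1 := h S _ hS hT
  rw [hm_cfg_eq c hg hS hT] at h1
  have h2 : (2 * finrank K ↥(c.N g ⊓ SU S) : ℤ) ≤ Fintype.card c.δ * finrank K S := by
    linarith
  exact_mod_cast h2

/-- **T5**, final form. -/
theorem hm_cfg {N : ℕ} {a : Fin 3 → Fin n → ℤ} (hn : 2 ≤ n)
    (ha : ∀ s, IsDominantIntegral n (a s)) (hN : 1 ≤ N)
    (U : Irrep n (N • a 0)) (V : Irrep n (N • a 1)) (W : Irrep n (N • a 2))
    (h : HasInvariant U V W) (c : Cfg n a) :
    ∃ P : MvPolynomial (Fin 3 × (Fin n ⊕ Fin n) × (Fin n ⊕ Fin n)) ℂ,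
      (∃ w : Fin 3 → List (soD n), (∀ s, Wd (w s)) ∧
        MvPolynomial.eval (fun x : Fin 3 × (Fin n ⊕ Fin n) × (Fin n ⊕ Fin n) =>
          gm (w x.1) x.2.1 x.2.2) P ≠ 0) ∧
      ∀ (K : Type u) [Field K] [CharZero K] [Algebra ℂ K]
        (g : Fin 3 → Matrix (Fin n ⊕ Fin n) (Fin n ⊕ Fin n) K), (∀ s, Orth (g s)) →
        MvPolynomial.aeval (fun x : Fin 3 × (Fin n ⊕ Fin n) × (Fin n ⊕ Fin n) =>
          g x.1 x.2.1 x.2.2) P ≠ 0 → Semi c g := by
  obtain ⟨X⟩ := SpHW2.exists_HW hn (SpHW2.dom_smul (ha 0) N)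
  obtain ⟨Y⟩ := SpHW2.exists_HW hn (SpHW2.dom_smul (ha 1) N)
  obtain ⟨Z⟩ := SpHW2.exists_HW hn (SpHW2.dom_smul (ha 2) N)
  obtain ⟨P, hP, hmain⟩ := HM7.hm_final hn (fun s => HM7.dom_of_integral (ha s)) hN X Y Z U V W h
  exact ⟨P, hP, fun K _ _ _ g hg hg' => semi_of c hg (hmain K g hg')⟩

end Crest.Agent.R172.HM10
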