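import Crest.Agent.R172.HM10

/-!
Row 172 (S0260): the two forms of semistability:
`2 dim (N ∩ S ⊗ U) ≤ |δ| dim S` and `dim (N ∩ S ⊗ U) + dim (N ∩ S^⊥ ⊗ U) ≤ dim N`.
-/

set_option autoImplicit false
set_option maxHeartbeats 400000
set_option linter.unusedSectionVars false

namespace Crest.Agent.R172.HM11

open Module Matrix Crest.AlgebraR.SpinSaturation
open Crest.Agent.R172.HM2 Crest.Agent.R172.HM4 Crest.Agent.R172.HM8
open Crest.Agent.R172.HM9 Crest.Agent.R172.HM10
open Crest.Agent.R172.Gen (Jm Ix)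
open Crest.Agent.R172.CF

variable {n : ℕ} {a : Fin 3 → Fin n → ℤ} {K : Type*} [Field K]

/-- the dimension of the part of `N g` with values in `S^⊥` -/
theorem finrank_N_perp (c : Cfg n a) {g : Fin 3 → Matrix (Ix n) (Ix n) K}
    (hg : ∀ s, Orth (g s)) {S T : Submodule K (Ix n → K)}
    (hT : ∀ v, v ∈ T ↔ ∀ s ∈ S, form n K v s = 0) :
    (finrank K ↥(c.N g ⊓ SU T) : ℤ) =
      finrank K ↥(c.N g) - Fintype.card c.δ * finrank K S + finrank K ↥(c.N g ⊓ SU S) := by
  classical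
  have h1 : ∀ d : c.δ, (finrank K ↥(T ⊓ Co (g (c.arm d)) (Gd c d)) : ℤ) =
      finrank K ↥(Co (g (c.arm d)) (Gd c d)) - finrank K S +
        finrank K ↥(S ⊓ Co (g (c.arm (c.σ d))) (Gd c (c.σ d))) := by
    intro d
    rw [c.arm_σ, ← Gd_hat]
    exact dim_inf_orth S T _ _ hT (Co_orth (hg _) _)
  have h2 : (c.N g) = c.N g ⊓ SU ⊤ := by
    apply le_antisymm
    · exact le_inf le_rfl fun F _ d => Submodule.mem_top
    · exact inf_le_left
  have h3 : (finrank K ↥(c.N g) : ℤ) = ∑ d : c.δ, (finrank K ↥(Co (g (c.arm d)) (Gd c d)) : ℤ) := by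
    conv_lhs => rw [h2]
    rw [finrank_N_inf]
    push_cast
    exact Finset.sum_congr rfl fun d _ => by rw [top_inf_eq]
  have h4 : ∑ d : c.δ, (finrank K ↥(S ⊓ Co (g (c.arm (c.σ d))) (Gd c (c.σ d))) : ℤ) =
      ∑ d : c.δ, (finrank K ↥(S ⊓ Co (g (c.arm d)) (Gd c d)) : ℤ) :=
    Equiv.sum_comp c.perm (fun d => (finrank K ↥(S ⊓ Co (g (c.arm d)) (Gd c d)) : ℤ))
  rw [finrank_N_inf, finrank_N_inf, h3]
  push_cast
  rw [Finset.sum_congr rfl fun d _ => h1 d, Finset.sum_add_distrib, Finset.sum_sub_distrib, h4,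
    Finset.sum_const, Finset.card_univ, nsmul_eq_mul]

/-- semistability in the second form -/
theorem semi_iff (c : Cfg n a) {g : Fin 3 → Matrix (Ix n) (Ix n) K} (hg : ∀ s, Orth (g s)) :
    Semi c g ↔ ∀ S T : Submodule K (Ix n → K), Iso S →
      (∀ v, v ∈ T ↔ ∀ s ∈ S, form n K v s = 0) →
      finrank K ↥(c.N g ⊓ SU S) + finrank K ↥(c.N g ⊓ SU T) ≤ finrank K ↥(c.N g) := by
  constructor
  · intro h S T hS hT
    have h1 := finrank_N_perp c hg hT
    have h2 : (2 * finrank K ↥(c.N g ⊓ SU S) : ℤ) ≤ Fintype.card c.δ * finrank K S := by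
      exact_mod_cast h S hS
    zify
    linarith
  · intro h S hS
    have hT : ∀ v, v ∈ (form n K).orthogonal S ↔ ∀ s ∈ S, form n K v s = 0 := by
      intro v
      rw [LinearMap.BilinForm.mem_orthogonal_iff]
      constructor
      · intro h s hs
        rw [form_symm]; exact h s hs
      · intro h s hs
        change form n K s v = 0
        rw [form_symm]; exact h s hs
    have h1 := finrank_N_perp c hg hT
    have h2 := h S _ hS hT
    zify at h2 ⊢
    linarith

end Crest.Agent.R172.HM11
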