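import Crest.Agent.R172.HM

/-!
Row 172 (S0260), T5: the multilinear Hilbert--Mumford inequality for the scalar extension of an
invariant form given by its coefficients `c : (slots → index) → ℂ`.
-/

set_option autoImplicit false

namespace Crest.Agent.R172.HM2

open Module Crest.Agent.R172.HM

variable {n : ℕ}

/-- swap of the two halves of the index set -/
def sw : Fin n ⊕ Fin n → Fin n ⊕ Fin n := Sum.swap

@[simp] theorem sw_sw (p : Fin n ⊕ Fin n) : sw (sw p) = p := by cases p <;> rfl

theorem sw_inj {p q : Fin n ⊕ Fin n} (h : sw p = sw q) : p = q := by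
  rw [← sw_sw p, h, sw_sw]

theorem sw_bij : Function.Bijective (sw : Fin n ⊕ Fin n → Fin n ⊕ Fin n) :=
  ⟨fun _ _ h => sw_inj h, fun p => ⟨sw p, sw_sw p⟩⟩

variable {K : Type*} [Field K]

/-- the standard symmetric form on `K^{2n}` -/
noncomputable def form (n : ℕ) (K : Type*) [Field K] : LinearMap.BilinForm K (Fin n ⊕ Fin n → K) :=
  LinearMap.mk₂ K (fun x y => ∑ p, x p * y (sw p))
    (fun x x' y => by simp [add_mul, Finset.sum_add_distrib])
    (fun a x y => by
      simp only [Pi.smul_apply, smul_eq_mul, Finset.mul_sum]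
      exact Finset.sum_congr rfl fun p _ => by ring)
    (fun x y y' => by simp [mul_add, Finset.sum_add_distrib])
    (fun a x y => by
      simp only [Pi.smul_apply, smul_eq_mul, Finset.mul_sum]
      exact Finset.sum_congr rfl fun p _ => by ring)

theorem form_apply (x y : Fin n ⊕ Fin n → K) : form n K x y = ∑ p, x p * y (sw p) := rfl

theorem form_symm (x y : Fin n ⊕ Fin n → K) : form n K x y = form n K y x := by
  rw [form_apply, form_apply]
  refine Fintype.sum_bijective sw sw_bij _ _ fun p => ?_
  rw [sw_sw, mul_comm]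

theorem form_single (x : Fin n ⊕ Fin n → K) (q : Fin n ⊕ Fin n) :
    form n K x (Pi.single q 1) = x (sw q) := by
  rw [form_apply, Finset.sum_eq_single (sw q)]
  · simp
  · intro p _ hp
    rw [Pi.single_eq_of_ne, mul_zero]
    intro h
    exact hp (by rw [← h, sw_sw])
  · simp

theorem form_nondeg : (form n K).Nondegenerate := by
  have hl : ∀ x, (∀ y, form n K x y = 0) → x = 0 := by
    intro x hx
    funext p
    have := hx (Pi.single (sw p) 1)
    rwa [form_single, sw_sw] at this
  refine ⟨hl, ?_⟩
  intro x hx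
  exact hl x fun y => by rw [form_symm]; exact hx y

/-- matrix entries of a skew operator -/
theorem skew_entry {A : (Fin n ⊕ Fin n → K) →ₗ[K] (Fin n ⊕ Fin n → K)}
    (hA : Skew (form n K) A) (p q : Fin n ⊕ Fin n) :
    A (Pi.single q 1) p = - A (Pi.single (sw p) 1) (sw q) := by
  have h := hA (Pi.single q 1) (Pi.single (sw p) 1)
  rw [form_single, sw_sw, form_symm, form_single] at h
  exact eq_neg_of_add_eq_zero_left h

variable {ι : Type*} [Fintype ι] [DecidableEq ι] [Algebra ℂ K]

/-- scalar extension of the multilinear form with coefficients `c` -/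
noncomputable def FK (K : Type*) [Field K] [Algebra ℂ K] (c : (ι → Fin n ⊕ Fin n) → ℂ) :
    MultilinearMap K (fun _ : ι => (Fin n ⊕ Fin n → K)) K :=
  ∑ β : ι → Fin n ⊕ Fin n, (algebraMap ℂ K (c β)) •
    ((MultilinearMap.mkPiAlgebra K ι K).compLinearMap fun p => LinearMap.proj (β p))

theorem FK_apply (c : (ι → Fin n ⊕ Fin n) → ℂ) (Y : ι → (Fin n ⊕ Fin n → K)) :
    FK K c Y = ∑ β : ι → Fin n ⊕ Fin n, algebraMap ℂ K (c β) * ∏ p, Y p (β p) := by
  simp [FK]

theorem FK_basis (c : (ι → Fin n ⊕ Fin n) → ℂ) (β : ι → Fin n ⊕ Fin n) :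
    FK K c (fun p => Pi.single (β p) 1) = algebraMap ℂ K (c β) := by
  classical
  rw [FK_apply, Finset.sum_eq_single β]
  · simp
  · intro γ _ hγ
    obtain ⟨p, hp⟩ := Function.ne_iff.mp hγ
    rw [Finset.prod_eq_zero (Finset.mem_univ p), mul_zero]
    exact Pi.single_eq_of_ne hp _
  · simp

/-- antisymmetry of the coefficients gives alternation over `K` -/
theorem FK_alt [CharZero K] (c : (ι → Fin n ⊕ Fin n) → ℂ) {a b : ι}
    (hc : ∀ β : ι → Fin n ⊕ Fin n, c (β ∘ Equiv.swap a b) = - c β)
    (Y : ι → (Fin n ⊕ Fin n → K)) (hY : Y a = Y b) : FK K c Y = 0 := by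
  have h1 : FK K c Y = - FK K c Y := by
    conv_lhs => rw [FK_apply]
    rw [FK_apply, ← Finset.sum_neg_distrib]
    refine Fintype.sum_equiv ((Equiv.swap a b).arrowCongr (Equiv.refl _)) _ _ fun β => ?_
    have e1 : ((Equiv.swap a b).arrowCongr (Equiv.refl (Fin n ⊕ Fin n))) β =
        β ∘ Equiv.swap a b := by
      funext p
      simp [Equiv.arrowCongr]
    rw [e1, hc β, map_neg, neg_mul, neg_neg]
    congr 1
    refine Fintype.prod_equiv (Equiv.swap a b) _ _ fun p => ?_
    simp only [Function.comp_apply, Equiv.swap_apply_self]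
    have hYs : Y (Equiv.swap a b p) = Y p := by
      by_cases hpa : p = a
      · subst hpa; rw [Equiv.swap_apply_left, hY]
      · by_cases hpb : p = b
        · subst hpb; rw [Equiv.swap_apply_right, hY]
        · rw [Equiv.swap_apply_of_ne_of_ne hpa hpb]
    rw [hYs]
  have h2 : (2 : K) * FK K c Y = 0 := by
    rw [two_mul]
    nth_rewrite 1 [h1]
    ring
  exact (mul_eq_zero.mp h2).resolve_left two_ne_zero

/-- infinitesimal invariance of the coefficients, elementary skew matrices -/
def InvCoeff (c : (ι → Fin n ⊕ Fin n) → ℂ) : Prop :=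
  ∀ (r t : Fin n ⊕ Fin n) (β : ι → Fin n ⊕ Fin n),
    ∑ p, ((if β p = t then c (Function.update β p r) else 0) -
      (if β p = sw r then c (Function.update β p (sw t)) else 0)) = 0

theorem FK_inv [CharZero K] (c : (ι → Fin n ⊕ Fin n) → ℂ) (hc : InvCoeff c)
    (A : (Fin n ⊕ Fin n → K) →ₗ[K] (Fin n ⊕ Fin n → K)) (hA : Skew (form n K) A)
    (Y : ι → (Fin n ⊕ Fin n → K)) :
    ∑ p, FK K c (Function.update Y p (A (Y p))) = 0 := by
  classical
  set G : MultilinearMap K (fun _ : ι => (Fin n ⊕ Fin n → K)) K :=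
    ∑ p, (FK K c).compLinearMap (Function.update (fun _ => LinearMap.id) p A) with hG
  have hGa : ∀ Y, G Y = ∑ p, FK K c (Function.update Y p (A (Y p))) := by
    intro Y
    rw [hG, sum_apply]
    refine Finset.sum_congr rfl fun p _ => ?_
    rw [MultilinearMap.compLinearMap_apply]
    congr 1
    funext q
    by_cases hq : q = p
    · subst hq; simp
    · simp [Function.update_of_ne hq]
  rw [← hGa]
  have hG0 : G = 0 := by
    refine Basis.ext_multilinear (e := fun _ => Pi.basisFun K (Fin n ⊕ Fin n)) ?_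
    intro β
    rw [hGa]
    simp only [Pi.basisFun_apply, zero_apply]
    have hW : ∀ r t, ∑ p, (if β p = t then c (Function.update β p r) else 0) =
        ∑ p, (if β p = sw r then c (Function.update β p (sw t)) else 0) := by
      intro r t
      have := hc r t β
      rw [Finset.sum_sub_distrib] at this
      exact sub_eq_zero.mp this
    set W : Fin n ⊕ Fin n → Fin n ⊕ Fin n → ℂ := fun r t =>
      ∑ p, (if β p = t then c (Function.update β p r) else 0) with hWdef
    have hWs : ∀ r t, W r t = W (sw t) (sw r) := fun r t => hW r t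
    have hexp : ∀ p, FK K c (Function.update (fun p => Pi.single (β p) (1 : K)) p
        (A (Pi.single (β p) 1))) =
        ∑ q, A (Pi.single (β p) 1) q * algebraMap ℂ K (c (Function.update β p q)) := by
      intro p
      have hA1 : A (Pi.single (β p) (1 : K)) =
          ∑ q, A (Pi.single (β p) (1 : K)) q • (Pi.single q (1 : K) : Fin n ⊕ Fin n → K) := by
        funext r
        simp [Finset.sum_apply, Pi.single_apply]
      conv_lhs => rw [hA1]
      rw [MultilinearMap.map_update_sum]
      refine Finset.sum_congr rfl fun q _ => ?_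
      rw [MultilinearMap.map_update_smul, smul_eq_mul]
      congr 1
      rw [← FK_basis (K := K) c (Function.update β p q)]
      congr 1
      funext r
      by_cases hr : r = p
      · subst hr; simp
      · simp [Function.update_of_ne hr]
    have htot : ∑ p, FK K c (Function.update (fun p => Pi.single (β p) (1 : K)) p
        (A (Pi.single (β p) 1))) =
        ∑ r, ∑ t, A (Pi.single t 1) r * algebraMap ℂ K (W r t) := by
      simp_rw [hexp]
      rw [Finset.sum_comm]
      refine Finset.sum_congr rfl fun r _ => ?_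
      simp only [hWdef, map_sum, Finset.mul_sum]
      rw [Finset.sum_comm]
      refine Finset.sum_congr rfl fun p _ => ?_
      rw [Finset.sum_eq_single (β p)]
      · simp
      · intro t _ ht
        rw [if_neg (Ne.symm ht)]; simp
      · simp
    rw [htot]
    have hneg : ∑ r, ∑ t, A (Pi.single t 1) r * algebraMap ℂ K (W r t) =
        - ∑ r, ∑ t, A (Pi.single t 1) r * algebraMap ℂ K (W r t) := by
      conv_lhs => rw [Finset.sum_comm]
      rw [← Finset.sum_neg_distrib]
      refine Fintype.sum_bijective sw sw_bij _ _ fun t => ?_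
      rw [← Finset.sum_neg_distrib]
      refine Fintype.sum_bijective sw sw_bij _ _ fun r => ?_
      rw [skew_entry hA r t, hWs r t, neg_mul]
    have h2 : (2 : K) * ∑ r, ∑ t, A (Pi.single t 1) r * algebraMap ℂ K (W r t) = 0 := by
      rw [two_mul]
      nth_rewrite 1 [hneg]
      ring
    exact (mul_eq_zero.mp h2).resolve_left two_ne_zero
  rw [hG0, zero_apply]

/-- Hilbert--Mumford for the scalar extension of an invariant alternating form. -/
theorem hm_coeff [CharZero K] {X : Type*} [Fintype X] [DecidableEq X] (h : X → ℕ)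
    (c : ((Σ x, Fin (h x)) → Fin n ⊕ Fin n) → ℂ)
    (hcalt : ∀ (x : X) (i j : Fin (h x)), i ≠ j → ∀ β,
      c (β ∘ Equiv.swap (⟨x, i⟩ : Σ x, Fin (h x)) ⟨x, j⟩) = - c β)
    (hcinv : InvCoeff c)
    (Y : (Σ x, Fin (h x)) → (Fin n ⊕ Fin n → K)) (hY : FK K c Y ≠ 0)
    (S T : Submodule K (Fin n ⊕ Fin n → K)) (hS : ∀ u ∈ S, ∀ v ∈ S, form n K u v = 0)
    (hT : ∀ v, v ∈ T ↔ ∀ s ∈ S, form n K v s = 0)
    (E : X → Submodule K (Fin n ⊕ Fin n → K))
    (hE : ∀ x, E x = Submodule.span K (Set.range fun i : Fin (h x) => Y ⟨x, i⟩)) :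
    ∑ x, ((finrank K ↥(S ⊓ E x) : ℤ) + finrank K ↥(T ⊓ E x) - finrank K (E x)) ≤ 0 := by
  classical
  refine hm_le (form n K) form_symm form_nondeg h (FK K c) ?_ ?_ Y hY S T hS hT E hE
  · intro Y x i j hij hYij
    exact FK_alt c (hcalt x i j hij) Y hYij
  · intro A hA Y
    exact FK_inv c hcinv A hA Y

end Crest.Agent.R172.HM2
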