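import Crest.Agent.R172.HM2

/-!
Row 172 (S0260), T5: column antisymmetrisation in coordinates.
-/

set_option autoImplicit false

namespace Crest.Agent.R172.HM3

open Equiv

variable {κ : Type*}

/-- decomposable tensors in coordinates, as a multilinear map -/
noncomputable def tpM (ι κ : Type*) [Fintype ι] :
    MultilinearMap ℂ (fun _ : ι => (κ → ℂ)) ((ι → κ) → ℂ) :=
  MultilinearMap.pi fun q : ι → κ =>
    (MultilinearMap.mkPiAlgebra ℂ ι ℂ).compLinearMap fun p => LinearMap.proj (q p)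

theorem tpM_apply {ι : Type*} [Fintype ι] (v : ι → κ → ℂ) (q : ι → κ) :
    tpM ι κ v q = ∏ p, v p (q p) := by
  simp [tpM]

variable {X : Type*} [Fintype X] [DecidableEq X] {h : X → ℕ}

/-- column permutations -/
abbrev CP (h : X → ℕ) := ∀ x, Perm (Fin (h x))

/-- sign of a column permutation -/
noncomputable def sg (σ : CP h) : ℂ := ∏ x, ((Perm.sign (σ x) : ℤ) : ℂ)

theorem sg_mul (σ τ : CP h) : sg (σ * τ) = sg σ * sg τ := by
  unfold sg
  rw [← Finset.prod_mul_distrib]
  refine Finset.prod_congr rfl fun x _ => ?_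
  rw [Pi.mul_apply, Perm.sign_mul]
  push_cast
  ring

/-- permutation of the slots -/
def slot (σ : CP h) : Perm (Σ x, Fin (h x)) := Equiv.sigmaCongrRight σ

theorem slot_apply (σ : CP h) (p : Σ x, Fin (h x)) : slot σ p = ⟨p.1, σ p.1 p.2⟩ := by
  cases p; rfl

/-- column antisymmetrisation -/
noncomputable def altM (κ : Type*) (h : X → ℕ) :
    MultilinearMap ℂ (fun _ : (Σ x, Fin (h x)) => (κ → ℂ)) (((Σ x, Fin (h x)) → κ) → ℂ) :=
  ∑ σ : CP h, sg σ • (tpM (Σ x, Fin (h x)) κ).domDomCongr (slot σ)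

theorem altM_apply (Y : (Σ x, Fin (h x)) → κ → ℂ) :
    altM κ h Y = ∑ σ : CP h, sg σ • tpM _ κ (fun p => Y (slot σ p)) := by
  simp [altM]

theorem altM_swap (Y : (Σ x, Fin (h x)) → κ → ℂ) (x : X) {i j : Fin (h x)} (hij : i ≠ j) :
    altM κ h (Y ∘ Equiv.swap (⟨x, i⟩ : Σ x, Fin (h x)) ⟨x, j⟩) = - altM κ h Y := by
  classical
  set τ : CP h := Pi.mulSingle x (Equiv.swap i j) with hτ
  have hsg : sg τ = -1 := by
    unfold sg
    rw [Finset.prod_eq_single x]
    · rw [hτ, Pi.mulSingle_eq_same, Perm.sign_swap hij]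
      simp
    · intro y _ hy
      rw [hτ, Pi.mulSingle_eq_of_ne hy]
      simp
    · simp
  have hslot : ∀ p, Equiv.swap (⟨x, i⟩ : Σ x, Fin (h x)) ⟨x, j⟩ p = slot τ p := by
    rintro ⟨y, k⟩
    rw [slot_apply]
    by_cases hy : y = x
    · subst hy
      simp only [hτ, Pi.mulSingle_eq_same]
      by_cases hki : k = i
      · subst hki; rw [Equiv.swap_apply_left, Equiv.swap_apply_left]
      · by_cases hkj : k = j
        · subst hkj; rw [Equiv.swap_apply_right, Equiv.swap_apply_right]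
        · rw [Equiv.swap_apply_of_ne_of_ne hki hkj, Equiv.swap_apply_of_ne_of_ne]
          · intro e; apply hki; simpa using e
          · intro e; apply hkj; simpa using e
    · simp only [hτ, Pi.mulSingle_eq_of_ne hy, Perm.one_apply]
      rw [Equiv.swap_apply_of_ne_of_ne]
      · intro e; exact hy (congrArg Sigma.fst e)
      · intro e; exact hy (congrArg Sigma.fst e)
  have hmul : ∀ (σ : CP h) p, slot τ (slot σ p) = slot (τ * σ) p := by
    intro σ p
    rw [slot_apply, slot_apply, slot_apply]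
    rfl
  rw [altM_apply, altM_apply, ← Finset.sum_neg_distrib]
  refine Fintype.sum_equiv (Equiv.mulLeft τ) _ _ fun σ => ?_
  rw [Equiv.coe_mulLeft, sg_mul, hsg, neg_one_mul, neg_smul, neg_neg]
  congr 2
  funext p
  rw [Function.comp_apply, hslot, hmul]

theorem altM_eq_zero (Y : (Σ x, Fin (h x)) → κ → ℂ) (x : X) {i j : Fin (h x)} (hij : i ≠ j)
    (hY : Y ⟨x, i⟩ = Y ⟨x, j⟩) : altM κ h Y = 0 := by
  have h1 := altM_swap Y x hij
  have h2 : Y ∘ Equiv.swap (⟨x, i⟩ : Σ x, Fin (h x)) ⟨x, j⟩ = Y := by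
    funext p
    by_cases hpa : p = ⟨x, i⟩
    · subst hpa; rw [Function.comp_apply, Equiv.swap_apply_left, hY]
    · by_cases hpb : p = ⟨x, j⟩
      · subst hpb; rw [Function.comp_apply, Equiv.swap_apply_right, hY]
      · rw [Function.comp_apply, Equiv.swap_apply_of_ne_of_ne hpa hpb]
  rw [h2] at h1
  have h3 : (2 : ℂ) • altM κ h Y = 0 := by
    rw [two_smul]
    nth_rewrite 1 [h1]
    exact neg_add_cancel _
  exact (smul_eq_zero.mp h3).resolve_left two_ne_zero

/-- expansion of a multilinear map over coordinate vectors -/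
theorem multilinear_expand {ι : Type*} [Fintype ι] [DecidableEq ι] [Fintype κ] [DecidableEq κ]
    {M : Type*} [AddCommGroup M] [Module ℂ M]
    (F : MultilinearMap ℂ (fun _ : ι => (κ → ℂ)) M) (Y : ι → κ → ℂ) :
    F Y = ∑ β : ι → κ, (∏ p, Y p (β p)) • F (fun p => Pi.single (β p) 1) := by
  classical
  have h1 : Y = fun p => ∑ k, Y p k • (Pi.single k (1 : ℂ) : κ → ℂ) := by
    funext p r
    simp [Finset.sum_apply, Pi.single_apply]
  conv_lhs => rw [h1]
  rw [F.map_sum]
  refine Finset.sum_congr rfl fun β _ => ?_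
  rw [F.map_smul_univ]

/-- nonvanishing at coordinate vectors with distinct indices in each column -/
theorem altM_single_ne_zero [DecidableEq κ] (idx : (Σ x, Fin (h x)) → κ)
    (hinj : ∀ x, Function.Injective fun i : Fin (h x) => idx ⟨x, i⟩) :
    altM κ h (fun p => Pi.single (idx p) 1) ≠ 0 := by
  classical
  intro h0
  have h1 := congrFun h0 idx
  rw [altM_apply, Finset.sum_apply, Finset.sum_eq_single (1 : CP h)] at h1
  · simp only [Pi.smul_apply, tpM_apply, Pi.zero_apply, smul_eq_mul] at h1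
    have h2 : sg (1 : CP h) = 1 := by simp [sg]
    rw [h2, one_mul, Finset.prod_eq_one] at h1
    · exact one_ne_zero h1
    · rintro ⟨x, i⟩ _
      rw [slot_apply]
      simp
  · intro σ _ hσ
    obtain ⟨x, hx⟩ := Function.ne_iff.mp hσ
    have : ∃ i, σ x i ≠ i := by
      by_contra hcon
      push Not at hcon
      exact hx (Equiv.ext hcon)
    obtain ⟨i, hi⟩ := this
    rw [Pi.smul_apply, tpM_apply, Finset.prod_eq_zero (Finset.mem_univ ⟨x, i⟩), smul_zero]
    rw [slot_apply]
    refine Pi.single_eq_of_ne ?_ _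
    intro e
    exact hi (hinj x e).symm
  · simp

/-- derivation formula for the antisymmetrised tensors, from the one for decomposable tensors -/
theorem altM_deriv (D : (((Σ x, Fin (h x)) → κ) → ℂ) →ₗ[ℂ] (((Σ x, Fin (h x)) → κ) → ℂ))
    (A : (κ → ℂ) → (κ → ℂ))
    (hD : ∀ v : (Σ x, Fin (h x)) → κ → ℂ,
      D (tpM _ κ v) = ∑ p, tpM _ κ (Function.update v p (A (v p))))
    (Y : (Σ x, Fin (h x)) → κ → ℂ) :
    D (altM κ h Y) = ∑ p, altM κ h (Function.update Y p (A (Y p))) := by
  classical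
  rw [altM_apply, map_sum]
  simp only [altM_apply, map_smul]
  rw [Finset.sum_comm]
  refine Finset.sum_congr rfl fun σ _ => ?_
  rw [← Finset.smul_sum, hD]
  congr 1
  refine Fintype.sum_equiv (slot σ) _ _ fun p => ?_
  congr 1
  funext q
  by_cases hq : q = p
  · subst hq; simp
  · rw [Function.update_of_ne hq, Function.update_of_ne]
    intro e
    exact hq ((slot σ).injective e)

/-- group-like formula -/
theorem altM_map (G : (((Σ x, Fin (h x)) → κ) → ℂ) →ₗ[ℂ] (((Σ x, Fin (h x)) → κ) → ℂ))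
    (g : (κ → ℂ) → (κ → ℂ))
    (hG : ∀ v : (Σ x, Fin (h x)) → κ → ℂ, G (tpM _ κ v) = tpM _ κ (fun p => g (v p)))
    (Y : (Σ x, Fin (h x)) → κ → ℂ) :
    G (altM κ h Y) = altM κ h (fun p => g (Y p)) := by
  rw [altM_apply, altM_apply, map_sum]
  refine Finset.sum_congr rfl fun σ _ => ?_
  rw [map_smul, hG]

end Crest.Agent.R172.HM3
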