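import Crest.Agent.R172.HM3
import Crest.Prelude.Def_SpinSaturation

/-!
Row 172 (S0260), T5/T2: columns attached to a dominant weight.
`a` is an integral vector (actual weight, not doubled) or a doubled weight: only dominance is used.
-/

set_option autoImplicit false

namespace Crest.Agent.R172.HM4

open Module Crest.Agent.R172.HM2

variable {n : ℕ}

/-- the partition attached to `a`: the last entry is replaced by its absolute value, `0` after -/
def bb (a : Fin n → ℤ) (i : ℕ) : ℤ :=
  if h : i + 1 < n then a ⟨i, by omega⟩ else if h : i < n then |a ⟨i, h⟩| else 0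

theorem bb_lt (a : Fin n → ℤ) {i : ℕ} (h : i + 1 < n) : bb a i = a ⟨i, by omega⟩ := by
  unfold bb; rw [dif_pos h]

theorem bb_last (a : Fin n → ℤ) {i : ℕ} (h : i + 1 = n) : bb a i = |a ⟨i, by omega⟩| := by
  unfold bb; rw [dif_neg (by omega), dif_pos (by omega)]

theorem bb_ge (a : Fin n → ℤ) {i : ℕ} (h : n ≤ i) : bb a i = 0 := by
  unfold bb; rw [dif_neg (by omega), dif_neg (by omega)]

/-- dominance (of the doubled or the actual weight) -/
def Dom (a : Fin n → ℤ) : Prop :=
  (∀ i j : Fin n, i ≤ j → (j : ℕ) + 2 ≤ n → a j ≤ a i) ∧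
    (∀ i j : Fin n, (i : ℕ) + 2 = n → (j : ℕ) + 1 = n → |a j| ≤ a i)

theorem bb_step {a : Fin n → ℤ} (ha : Dom a) (i : ℕ) : bb a (i + 1) ≤ bb a i := by
  rcases lt_trichotomy (i + 2) n with h | h | h
  · rw [bb_lt a (by omega), bb_lt a (by omega)]
    exact ha.1 ⟨i, by omega⟩ ⟨i + 1, by omega⟩ (by simp) (by simp; omega)
  · rw [bb_last a (by omega), bb_lt a (by omega)]
    exact ha.2 ⟨i, by omega⟩ ⟨i + 1, by omega⟩ (by simp; omega) (by simp; omega)
  · rw [bb_ge a (by omega)]
    rcases Nat.lt_or_ge i n with h2 | h2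
    · rw [bb_last a (by omega)]; exact abs_nonneg _
    · rw [bb_ge a h2]

/-- multiplicity of the columns of height `i + 1` -/
def mult (a : Fin n → ℤ) (i : Fin n) : ℕ := (bb a i - bb a ((i : ℕ) + 1)).toNat

theorem mult_eq {a : Fin n → ℤ} (ha : Dom a) (i : Fin n) :
    (mult a i : ℤ) = bb a i - bb a ((i : ℕ) + 1) := by
  unfold mult
  exact Int.toNat_of_nonneg (sub_nonneg.mpr (bb_step ha i))

/-- columns -/
abbrev Col (a : Fin n → ℤ) : Type := Σ i : Fin n, Fin (mult a i)

/-- heights -/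
abbrev ht (a : Fin n → ℤ) (x : Col a) : ℕ := (x.1 : ℕ) + 1

/-- last entry negative -/
def Neg (a : Fin n → ℤ) : Prop := ∃ i : Fin n, (i : ℕ) + 1 = n ∧ a i < 0

instance (a : Fin n → ℤ) : Decidable (Neg a) := by unfold Neg; infer_instance

/-- index of the `j`-th vector of the standard column of height `i + 1` -/
def ix (a : Fin n → ℤ) (i : Fin n) (j : Fin ((i : ℕ) + 1)) : Fin n ⊕ Fin n :=
  if Neg a ∧ (j : ℕ) + 1 = n then Sum.inr ⟨j, by omega⟩ else Sum.inl ⟨j, by omega⟩

theorem ix_inj (a : Fin n → ℤ) (i : Fin n) : Function.Injective (ix a i) := by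
  intro j k hjk
  unfold ix at hjk
  split_ifs at hjk with h1 h2 h2
  · simpa [Fin.ext_iff] using hjk
  · simpa [Fin.ext_iff] using hjk

/-- index of a slot -/
def idx (a : Fin n → ℤ) (p : Σ x : Col a, Fin (ht a x)) : Fin n ⊕ Fin n := ix a p.1.1 p.2

theorem idx_inj (a : Fin n → ℤ) (x : Col a) :
    Function.Injective fun i : Fin (ht a x) => idx a ⟨x, i⟩ := by
  intro j k h
  exact ix_inj a x.1 h

/-- the space spanned by the first `i + 1` columns of the frame `g` -/
def Efl {K : Type*} [Field K] (a : Fin n → ℤ) (g : Matrix (Fin n ⊕ Fin n) (Fin n ⊕ Fin n) K)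
    (i : Fin n) : Submodule K (Fin n ⊕ Fin n → K) :=
  Submodule.span K (Set.range fun j : Fin ((i : ℕ) + 1) => fun q => g q (ix a i j))

/-- value of the diagonal element `h, -h` at an index -/
def dval {R : Type*} [Ring R] (h : Fin n → R) : Fin n ⊕ Fin n → R
  | Sum.inl i => h i
  | Sum.inr i => - h i

theorem sum_tail (b : ℕ → ℤ) (m n : ℕ) (hmn : m ≤ n) :
    ∑ i ∈ Finset.Ico m n, (b i - b (i + 1)) = b m - b n := by
  induction n, hmn using Nat.le_induction with
  | base => simp
  | succ n hn ih => rw [Finset.sum_Ico_succ_top hn, ih]; ring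

/-- total weight of the standard columns -/
theorem sum_dval {a : Fin n → ℤ} (ha : Dom a) (h : Fin n → ℂ) :
    ∑ p : (Σ x : Col a, Fin (ht a x)), dval h (idx a p) = ∑ i, (a i : ℂ) * h i := by
  classical
  rw [Fintype.sum_sigma, Fintype.sum_sigma]
  have h1 : ∀ i : Fin n, ∑ k : Fin (mult a i), ∑ j : Fin (ht a ⟨i, k⟩),
      dval h (idx a ⟨⟨i, k⟩, j⟩) = ∑ j : Fin n,
        (if j ≤ i then ((bb a i - bb a ((i : ℕ) + 1) : ℤ) : ℂ) *
          (if Neg a ∧ (j : ℕ) + 1 = n then -h j else h j) else 0) := by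
    intro i
    have h2 : ∀ k : Fin (mult a i), ∑ j : Fin (ht a ⟨i, k⟩), dval h (idx a ⟨⟨i, k⟩, j⟩) =
        ∑ j : Fin n, (if j ≤ i then (if Neg a ∧ (j : ℕ) + 1 = n then -h j else h j) else 0) := by
      intro k
      rw [← Finset.sum_filter]
      refine Finset.sum_bij (fun j _ => (⟨j, by have := j.2; have := i.2; simp only [ht] at *; omega⟩ : Fin n))
        ?_ ?_ ?_ ?_
      · intro j _
        simp only [Finset.mem_filter, Finset.mem_univ, true_and, Fin.le_def]
        have := j.2
        simp only [ht] at this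
        omega
      · intro j _ k _ hjk
        simpa [Fin.ext_iff] using hjk
      · intro j hj
        simp only [Finset.mem_filter, Finset.mem_univ, true_and, Fin.le_def] at hj
        exact ⟨⟨j, by simp only [ht]; omega⟩, Finset.mem_univ _, by simp⟩
      · intro j _
        simp only [idx, ix]
        split_ifs <;> rfl
    rw [Finset.sum_congr rfl fun k _ => h2 k, Finset.sum_const, Finset.card_univ,
      Fintype.card_fin, nsmul_eq_mul, Finset.mul_sum]
    refine Finset.sum_congr rfl fun j _ => ?_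
    have h3 : ((mult a i : ℕ) : ℂ) = ((bb a i - bb a ((i : ℕ) + 1) : ℤ) : ℂ) := by
      rw [← mult_eq ha i]; simp
    rw [h3]
    split_ifs <;> simp
  rw [Finset.sum_congr rfl fun i _ => h1 i, Finset.sum_comm]
  refine Finset.sum_congr rfl fun j _ => ?_
  have h4 : ∑ i : Fin n, (if j ≤ i then ((bb a i - bb a ((i : ℕ) + 1) : ℤ) : ℂ) *
      (if Neg a ∧ (j : ℕ) + 1 = n then -h j else h j) else 0) =
      ((bb a j : ℤ) : ℂ) * (if Neg a ∧ (j : ℕ) + 1 = n then -h j else h j) := by
    rw [← Finset.sum_filter, ← Finset.sum_mul]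
    congr 1
    have h5 : ∑ i ∈ Finset.univ.filter (fun i : Fin n => j ≤ i),
        (bb a i - bb a ((i : ℕ) + 1)) = bb a j := by
      have h6 : ∑ i ∈ Finset.univ.filter (fun i : Fin n => j ≤ i),
          (bb a i - bb a ((i : ℕ) + 1)) =
          ∑ i ∈ Finset.Ico (j : ℕ) n, (bb a i - bb a (i + 1)) := by
        refine Finset.sum_bij (fun i _ => (i : ℕ)) ?_ ?_ ?_ ?_
        · intro i hi
          simp only [Finset.mem_filter, Finset.mem_univ, true_and, Fin.le_def] at hi
          exact Finset.mem_Ico.mpr ⟨hi, i.2⟩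
        · intro i _ k _ hik
          exact Fin.ext hik
        · intro i hi
          have := Finset.mem_Ico.mp hi
          exact ⟨⟨i, this.2⟩, Finset.mem_filter.mpr ⟨Finset.mem_univ _, Fin.le_def.mpr this.1⟩, rfl⟩
        · intro i _; rfl
      rw [h6, sum_tail _ _ _ j.2.le, bb_ge a le_rfl, sub_zero]
    rw [← h5]
    push_cast
    rfl
  rw [h4]
  rcases Nat.lt_or_ge ((j : ℕ) + 1) n with hj | hj
  · rw [bb_lt a hj, if_neg (by rintro ⟨-, h⟩; omega)]
  · have hj' : (j : ℕ) + 1 = n := by have := j.2; omega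
    rw [bb_last a hj']
    by_cases hneg : Neg a
    · rw [if_pos ⟨hneg, hj'⟩]
      obtain ⟨i, hi, hi2⟩ := hneg
      have hij : i = j := Fin.ext (by omega)
      subst hij
      rw [Fin.eta, abs_of_neg hi2]
      push_cast
      ring
    · rw [if_neg (by rintro ⟨h, -⟩; exact hneg h)]
      have : 0 ≤ a j := by
        by_contra hcon
        exact hneg ⟨j, hj', not_le.mp hcon⟩
      rw [Fin.eta, abs_of_nonneg this]

end Crest.Agent.R172.HM4
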