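import Crest.Agent.R172.HM4
import Crest.Agent.R172.TPow
import Crest.Agent.R172.Fwd3

/-!
Row 172 (S0260), T2 (integral weights): the column vector is a highest weight vector in the tensor
power; words of exponentials act on it through the matrices `gm w`.
-/

set_option autoImplicit false
set_option linter.unusedSectionVars false

open Crest.AlgebraR.SpinSaturation
open scoped Matrix TensorProduct

namespace Crest.Agent.R172.HM5

open Crest.Agent.R172.SoGrade Crest.Agent.R172.TPow Crest.Agent.R172.HM4
open Crest.Agent.R172.Fwd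

variable {n : ℕ}

section alt

variable {X : Type*} [Fintype X] [DecidableEq X] {h : X → ℕ}

/-- column antisymmetrisation, with values in the tensor power -/
noncomputable def altT (n : ℕ) (h : X → ℕ) :
    MultilinearMap ℂ (fun _ : (Σ x, Fin (h x)) => (Fin n ⊕ Fin n → ℂ)) (TP n (Σ x, Fin (h x))) :=
  ∑ σ : HM3.CP h, HM3.sg σ • (TPow.tpM n (Σ x, Fin (h x))).domDomCongr (HM3.slot σ)

theorem altT_apply (Y : (Σ x, Fin (h x)) → Fin n ⊕ Fin n → ℂ) :
    altT n h Y = ∑ σ : HM3.CP h, HM3.sg σ • tp (fun p => Y (HM3.slot σ p)) := by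
  simp [altT]

theorem altT_eq (Y : (Σ x, Fin (h x)) → Fin n ⊕ Fin n → ℂ) :
    (altT n h Y : ((Σ x, Fin (h x)) → Fin n ⊕ Fin n) → ℂ) = HM3.altM (Fin n ⊕ Fin n) h Y := by
  funext q
  rw [altT_apply, HM3.altM_apply, sum_apply', Finset.sum_apply]
  refine Finset.sum_congr rfl fun σ _ => ?_
  rw [smul_apply', Pi.smul_apply, HM3.tpM_apply, tp_apply, smul_eq_mul]

theorem altT_eq_zero (Y : (Σ x, Fin (h x)) → Fin n ⊕ Fin n → ℂ) (x : X) {i j : Fin (h x)}
    (hij : i ≠ j) (hY : Y ⟨x, i⟩ = Y ⟨x, j⟩) : altT n h Y = 0 := by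
  have := HM3.altM_eq_zero (κ := Fin n ⊕ Fin n) Y x hij hY
  rw [← altT_eq] at this
  exact this

theorem altT_swap (Y : (Σ x, Fin (h x)) → Fin n ⊕ Fin n → ℂ) (x : X) {i j : Fin (h x)}
    (hij : i ≠ j) :
    altT n h (Y ∘ Equiv.swap (⟨x, i⟩ : Σ x, Fin (h x)) ⟨x, j⟩) = - altT n h Y := by
  have := HM3.altM_swap (κ := Fin n ⊕ Fin n) Y x hij
  rw [← altT_eq, ← altT_eq] at this
  exact this

theorem lie_altT (A : soD n) (Y : (Σ x, Fin (h x)) → Fin n ⊕ Fin n → ℂ) :
    ⁅A, altT n h Y⁆ = ∑ p, altT n h (Function.update Y p (A.1 *ᵥ Y p)) := by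
  classical
  have e : ⁅A, altT n h Y⁆ = ∑ σ : HM3.CP h, HM3.sg σ • ⁅A, tp (fun p => Y (HM3.slot σ p))⁆ := by
    rw [altT_apply, lie_sum]
    exact Finset.sum_congr rfl fun σ _ => lie_smul _ _ _
  rw [e]
  simp only [altT_apply]
  rw [Finset.sum_comm]
  refine Finset.sum_congr rfl fun σ _ => ?_
  rw [← Finset.smul_sum, lie_tp]
  congr 1
  refine Fintype.sum_equiv (HM3.slot σ) _ _ fun p => ?_
  congr 1
  funext q
  by_cases hq : q = p
  · subst hq; simp
  · rw [Function.update_of_ne hq, Function.update_of_ne]
    intro e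
    exact hq ((HM3.slot σ).injective e)

end alt

/-- the standard frame vectors of the columns of `a` -/
noncomputable def fr (a : Fin n → ℤ) (p : Σ x : Col a, Fin (ht a x)) : Fin n ⊕ Fin n → ℂ :=
  Pi.single (idx a p) 1

/-- the column vector of the integral weight `a` -/
noncomputable def colv (a : Fin n → ℤ) : TP n (Σ x : Col a, Fin (ht a x)) := altT n (ht a) (fr a)

theorem mulVec_single_one' (A : Matrix (Fin n ⊕ Fin n) (Fin n ⊕ Fin n) ℂ) (r : Fin n ⊕ Fin n) :
    A *ᵥ (Pi.single r (1 : ℂ)) = fun q => A q r := by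
  funext q
  rw [Matrix.mulVec, dotProduct, Finset.sum_eq_single r]
  · rw [Pi.single_eq_same, mul_one]
  · intro k _ hk
    rw [Pi.single_eq_of_ne hk, mul_zero]
  · intro h
    exact absurd (Finset.mem_univ r) h

theorem cartan_col (h : Fin n → ℂ) (r : Fin n ⊕ Fin n) :
    (Matrix.fromBlocks (Matrix.diagonal h) 0 0 (-Matrix.diagonal h) :
      Matrix (Fin n ⊕ Fin n) (Fin n ⊕ Fin n) ℂ) *ᵥ (Pi.single r (1 : ℂ)) =
      dval h r • Pi.single r (1 : ℂ) := by
  rw [mulVec_single_one']
  funext q
  rcases q with i | i <;> rcases r with j | j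
  · by_cases hij : i = j
    · subst hij; simp [dval]
    · simp [hij, Ne.symm hij]
  · simp
  · simp
  · by_cases hij : i = j
    · subst hij; simp [dval]
    · simp [hij, Ne.symm hij]

theorem colv_hw {a : Fin n → ℤ} (ha : Dom a) :
    IsHighestWeightVector n (fun i => 2 * a i) (colv a) := by
  classical
  refine ⟨?_, ?_, ?_⟩
  · intro h0
    have := HM3.altM_single_ne_zero (h := ht a) (idx a) (idx_inj a)
    apply this
    rw [← altT_eq]
    exact h0
  · intro h A hA
    rw [colv, lie_altT]
    have h1 : ∀ p, altT n (ht a) (Function.update (fr a) p (A.1 *ᵥ fr a p)) =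
        dval h (idx a p) • altT n (ht a) (fr a) := by
      intro p
      rw [hA, fr, cartan_col, MultilinearMap.map_update_smul]
      congr 1
      congr 1
      exact Function.update_eq_self p (fr a)
    rw [Finset.sum_congr rfl fun p _ => h1 p, ← Finset.sum_smul, sum_dval ha h]
    congr 1
    refine Finset.sum_congr rfl fun i _ => ?_
    push_cast
    ring
  · intro A h1 h2
    rw [colv, lie_altT]
    refine Finset.sum_eq_zero fun p _ => ?_
    have hA := mem_soD.1 A.2
    have hcol : A.1 *ᵥ fr a p = ∑ q, A.1 q (idx a p) • (Pi.single q (1 : ℂ) : Fin n ⊕ Fin n → ℂ) := by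
      rw [fr, mulVec_single_one']
      funext r
      simp [Finset.sum_apply, Pi.single_apply]
    rw [hcol, MultilinearMap.map_update_sum]
    refine Finset.sum_eq_zero fun q _ => ?_
    rw [MultilinearMap.map_update_smul]
    by_cases hz : A.1 q (idx a p) = 0
    · rw [hz, zero_smul]
    · -- `q` is the index of an earlier slot of the same column
      obtain ⟨⟨i0, k⟩, j⟩ := p
      have hlt : ∃ i : Fin n, q = Sum.inl i ∧ (i : ℕ) < (j : ℕ) := by
        simp only [idx, ix] at hz
        split_ifs at hz with hsp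
        · rcases q with i | i
          · refine ⟨i, rfl, ?_⟩
            have hjn : (j : ℕ) + 1 = n := hsp.2
            by_contra hcon
            have hij : (i : ℕ) = j := by have := i.2; omega
            apply hz
            have h3 := hA (Sum.inl i) (Sum.inr ⟨j, by omega⟩)
            simp only [sw_inl, sw_inr] at h3
            have hij' : (⟨(j : ℕ), by omega⟩ : Fin n) = i := Fin.ext hij.symm
            rw [hij'] at h3 ⊢
            exact self_eq_neg.mp h3
          · exfalso
            apply hz
            rw [hA, sw_inr, sw_inr, neg_eq_zero]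
            apply h2
            have := i.2
            rw [Fin.le_def]
            change (i : ℕ) ≤ (j : ℕ)
            omega
        · rcases q with i | i
          · refine ⟨i, rfl, ?_⟩
            by_contra hcon
            apply hz
            apply h2
            rw [Fin.le_def]
            change (j : ℕ) ≤ (i : ℕ)
            omega
          · exact absurd (h1 i _) hz
      obtain ⟨i, rfl, hij⟩ := hlt
      have hjb : (j : ℕ) < (i0 : ℕ) + 1 := j.2
      have hj' : (i : ℕ) < ht a ⟨i0, k⟩ := by change (i : ℕ) < (i0 : ℕ) + 1; omega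
      rw [altT_eq_zero _ (⟨i0, k⟩ : Col a) (i := j) (j := ⟨i, hj'⟩), smul_zero]
      · intro e
        have := congrArg Fin.val e
        simp only at this
        omega
      · rw [Function.update_self, Function.update_of_ne]
        · rw [fr, idx, ix, if_neg]
          rintro ⟨-, h⟩
          have := i0.2
          change (i : ℕ) + 1 = n at h
          omega
        · intro e
          rw [Sigma.mk.injEq] at e
          have := congrArg Fin.val (eq_of_heq e.2)
          simp only at this
          omega

end Crest.Agent.R172.HM5
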