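import Crest.Agent.R172.HM5
import Crest.Agent.R172.Fwd4

/-!
Row 172 (S0260), **T5**: an invariant of an integral triple gives a polynomial `P` in the entries of
three frames, nonzero at three words of exponentials, whose nonvanishing over any field `K` of
characteristic zero implies all the numerical inequalities `μ(S) ≤ 0`.
-/

set_option autoImplicit false
set_option linter.unusedSectionVars false

open Crest.AlgebraR.SpinSaturation
open scoped Matrix TensorProduct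

namespace Crest.Agent.R172.HM6

open Module Crest.Agent.R172.SoGrade Crest.Agent.R172.TPow Crest.Agent.R172.HM4
open Crest.Agent.R172.Fwd Crest.Agent.R172.HM5

universe u

variable {n : ℕ} (a : Fin 3 → Fin n → ℤ)

/-- all columns -/
abbrev AX : Type := Σ s : Fin 3, Col (a s)

/-- their heights -/
abbrev hh (x : AX a) : ℕ := ht (a x.1) x.2

/-- all slots -/
abbrev Sl : Type := Σ x : AX a, Fin (hh a x)

variable {a}

/-- restriction to an arm -/
def Yr {R : Type*} (Y : Sl a → R) (s : Fin 3) (p : Σ x : Col (a s), Fin (ht (a s) x)) : R :=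
  Y ⟨⟨s, p.1⟩, p.2⟩

theorem Yr_update_same {R : Type*} [DecidableEq (Sl a)] (Y : Sl a → R) (s : Fin 3) (c : Col (a s))
    (i : Fin (ht (a s) c)) (v : R) :
    Yr (Function.update Y ⟨⟨s, c⟩, i⟩ v) s = Function.update (Yr Y s) ⟨c, i⟩ v := by
  funext p
  by_cases hp : p = ⟨c, i⟩
  · subst hp
    rw [Function.update_self, Yr, Function.update_self]
  · rw [Function.update_of_ne hp, Yr, Function.update_of_ne, Yr]
    intro e
    apply hp
    obtain ⟨c', i'⟩ := p
    rw [Sigma.mk.injEq] at e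
    obtain ⟨e1, e2⟩ := e
    rw [Sigma.mk.injEq] at e1
    have e3 := eq_of_heq e1.2
    subst e3
    have e4 := eq_of_heq e2
    subst e4
    rfl

theorem Yr_update_ne {R : Type*} [DecidableEq (Sl a)] (Y : Sl a → R) (s s' : Fin 3) (h : s' ≠ s) (c : Col (a s))
    (i : Fin (ht (a s) c)) (v : R) :
    Yr (Function.update Y ⟨⟨s, c⟩, i⟩ v) s' = Yr Y s' := by
  funext p
  rw [Yr, Function.update_of_ne, Yr]
  intro e
  rw [Sigma.mk.injEq] at e
  obtain ⟨e1, -⟩ := e
  rw [Sigma.mk.injEq] at e1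
  exact h e1.1

section functional

variable (lam : TP n (Σ x : Col (a 0), Fin (ht (a 0) x)) ⊗[ℂ]
  (TP n (Σ x : Col (a 1), Fin (ht (a 1) x)) ⊗[ℂ] TP n (Σ x : Col (a 2), Fin (ht (a 2) x))) →ₗ[ℂ] ℂ)

/-- the multilinear function of all frame vectors -/
noncomputable def Fm (Y : Sl a → Fin n ⊕ Fin n → ℂ) : ℂ :=
  lam (altT n (ht (a 0)) (Yr Y 0) ⊗ₜ[ℂ] (altT n (ht (a 1)) (Yr Y 1) ⊗ₜ[ℂ]
    altT n (ht (a 2)) (Yr Y 2)))

/-- `Fm` as a multilinear map -/
noncomputable def FM : MultilinearMap ℂ (fun _ : Sl a => (Fin n ⊕ Fin n → ℂ)) ℂ where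
  toFun := Fm lam
  map_update_add' := by
    intro inst Y p x y
    obtain ⟨⟨s, c⟩, i⟩ := p
    obtain rfl | rfl | rfl : s = 0 ∨ s = 1 ∨ s = 2 := by fin_cases s <;> simp
    · simp only [Fm, Yr_update_same, Yr_update_ne _ 0 1 (by decide),
        Yr_update_ne _ 0 2 (by decide), MultilinearMap.map_update_add, TensorProduct.add_tmul,
        map_add]
    · simp only [Fm, Yr_update_same, Yr_update_ne _ 1 0 (by decide),
        Yr_update_ne _ 1 2 (by decide), MultilinearMap.map_update_add, TensorProduct.add_tmul,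
        TensorProduct.tmul_add, map_add]
    · simp only [Fm, Yr_update_same, Yr_update_ne _ 2 0 (by decide),
        Yr_update_ne _ 2 1 (by decide), MultilinearMap.map_update_add,
        TensorProduct.tmul_add, map_add]
  map_update_smul' := by
    intro inst Y p r x
    obtain ⟨⟨s, c⟩, i⟩ := p
    obtain rfl | rfl | rfl : s = 0 ∨ s = 1 ∨ s = 2 := by fin_cases s <;> simp
    · simp only [Fm, Yr_update_same, Yr_update_ne _ 0 1 (by decide),
        Yr_update_ne _ 0 2 (by decide), MultilinearMap.map_update_smul,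
        ← TensorProduct.smul_tmul', map_smul]
    · simp only [Fm, Yr_update_same, Yr_update_ne _ 1 0 (by decide),
        Yr_update_ne _ 1 2 (by decide), MultilinearMap.map_update_smul,
        ← TensorProduct.smul_tmul', TensorProduct.tmul_smul, map_smul]
    · simp only [Fm, Yr_update_same, Yr_update_ne _ 2 0 (by decide),
        Yr_update_ne _ 2 1 (by decide), MultilinearMap.map_update_smul,
        TensorProduct.tmul_smul, map_smul]

theorem FM_apply (Y : Sl a → Fin n ⊕ Fin n → ℂ) : FM lam Y = Fm lam Y := rfl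

/-- coefficients -/
noncomputable def cf (β : Sl a → Fin n ⊕ Fin n) : ℂ := FM lam (fun p => Pi.single (β p) 1)

theorem cf_alt (x : AX a) (i j : Fin (hh a x)) (hij : i ≠ j) (β : Sl a → Fin n ⊕ Fin n) :
    cf lam (β ∘ Equiv.swap (⟨x, i⟩ : Sl a) ⟨x, j⟩) = - cf lam β := by
  classical
  obtain ⟨s, c⟩ := x
  set Y : Sl a → Fin n ⊕ Fin n → ℂ := fun p => Pi.single (β p) 1 with hY
  have h1 : (fun p => (Pi.single ((β ∘ Equiv.swap (⟨⟨s, c⟩, i⟩ : Sl a) ⟨⟨s, c⟩, j⟩) p) (1 : ℂ) :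
      Fin n ⊕ Fin n → ℂ)) = Y ∘ Equiv.swap (⟨⟨s, c⟩, i⟩ : Sl a) ⟨⟨s, c⟩, j⟩ := rfl
  have hs : Yr (Y ∘ Equiv.swap (⟨⟨s, c⟩, i⟩ : Sl a) ⟨⟨s, c⟩, j⟩) s =
      (Yr Y s) ∘ Equiv.swap (⟨c, i⟩ : Σ x : Col (a s), Fin (ht (a s) x)) ⟨c, j⟩ := by
    funext p
    by_cases hpi : p = ⟨c, i⟩
    · subst hpi
      rw [Function.comp_apply, Equiv.swap_apply_left]
      change Y (Equiv.swap (⟨⟨s, c⟩, i⟩ : Sl a) ⟨⟨s, c⟩, j⟩ ⟨⟨s, c⟩, i⟩) = Y ⟨⟨s, c⟩, j⟩
      rw [Equiv.swap_apply_left]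
    · by_cases hpj : p = ⟨c, j⟩
      · subst hpj
        rw [Function.comp_apply, Equiv.swap_apply_right]
        change Y (Equiv.swap (⟨⟨s, c⟩, i⟩ : Sl a) ⟨⟨s, c⟩, j⟩ ⟨⟨s, c⟩, j⟩) = Y ⟨⟨s, c⟩, i⟩
        rw [Equiv.swap_apply_right]
      · rw [Function.comp_apply, Equiv.swap_apply_of_ne_of_ne hpi hpj]
        change Y (Equiv.swap (⟨⟨s, c⟩, i⟩ : Sl a) ⟨⟨s, c⟩, j⟩ ⟨⟨s, p.1⟩, p.2⟩) =
          Y ⟨⟨s, p.1⟩, p.2⟩
        rw [Equiv.swap_apply_of_ne_of_ne]
        · intro e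
          apply hpi
          obtain ⟨c', i'⟩ := p
          rw [Sigma.mk.injEq] at e
          obtain ⟨e1, e2⟩ := e
          rw [Sigma.mk.injEq] at e1
          have e3 := eq_of_heq e1.2
          subst e3
          have e4 : i' = i := eq_of_heq e2
          subst e4
          rfl
        · intro e
          apply hpj
          obtain ⟨c', i'⟩ := p
          rw [Sigma.mk.injEq] at e
          obtain ⟨e1, e2⟩ := e
          rw [Sigma.mk.injEq] at e1
          have e3 := eq_of_heq e1.2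
          subst e3
          have e4 : i' = j := eq_of_heq e2
          subst e4
          rfl
  have hs' : ∀ s', s' ≠ s → Yr (Y ∘ Equiv.swap (⟨⟨s, c⟩, i⟩ : Sl a) ⟨⟨s, c⟩, j⟩) s' =
      Yr Y s' := by
    intro s' hne
    funext p
    change Y (Equiv.swap (⟨⟨s, c⟩, i⟩ : Sl a) ⟨⟨s, c⟩, j⟩ ⟨⟨s', p.1⟩, p.2⟩) =
      Y ⟨⟨s', p.1⟩, p.2⟩
    rw [Equiv.swap_apply_of_ne_of_ne]
    · intro e
      rw [Sigma.mk.injEq] at e
      obtain ⟨e1, -⟩ := e
      rw [Sigma.mk.injEq] at e1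
      exact hne e1.1
    · intro e
      rw [Sigma.mk.injEq] at e
      obtain ⟨e1, -⟩ := e
      rw [Sigma.mk.injEq] at e1
      exact hne e1.1
  unfold cf
  rw [h1, FM_apply, FM_apply, Fm, Fm]
  obtain rfl | rfl | rfl : s = 0 ∨ s = 1 ∨ s = 2 := by fin_cases s <;> simp
  · rw [hs, hs' 1 (by decide), hs' 2 (by decide), altT_swap _ c hij, TensorProduct.neg_tmul,
      map_neg]
  · rw [hs, hs' 0 (by decide), hs' 2 (by decide), altT_swap _ c hij, TensorProduct.neg_tmul,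
      TensorProduct.tmul_neg, map_neg]
  · rw [hs, hs' 0 (by decide), hs' 1 (by decide), altT_swap _ c hij, TensorProduct.tmul_neg,
      TensorProduct.tmul_neg, map_neg]

variable {lam}

theorem FM_inv (hinv : ∀ (A : soD n) t, lam ⁅A, t⁆ = 0) (A : soD n)
    (Y : Sl a → Fin n ⊕ Fin n → ℂ) :
    ∑ p, FM lam (Function.update Y p (A.1 *ᵥ Y p)) = 0 := by
  classical
  have h := hinv A (altT n (ht (a 0)) (Yr Y 0) ⊗ₜ[ℂ] (altT n (ht (a 1)) (Yr Y 1) ⊗ₜ[ℂ]
    altT n (ht (a 2)) (Yr Y 2)))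
  rw [TensorProduct.LieModule.lie_tmul_right, TensorProduct.LieModule.lie_tmul_right,
    lie_altT, lie_altT, lie_altT, TensorProduct.tmul_add, map_add, map_add] at h
  rw [← h, Fintype.sum_sigma, Fintype.sum_sigma, Fin.sum_univ_three]
  rw [← add_assoc]
  congr 1
  · congr 1
    · rw [TensorProduct.sum_tmul, map_sum]
      refine Eq.trans ?_ (Fintype.sum_sigma _).symm
      refine Finset.sum_congr rfl fun c _ => Finset.sum_congr rfl fun i _ => ?_
      rw [FM_apply, Fm, Yr_update_same, Yr_update_ne _ 0 1 (by decide),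
        Yr_update_ne _ 0 2 (by decide)]
      rfl
    · rw [TensorProduct.sum_tmul, TensorProduct.tmul_sum, map_sum]
      refine Eq.trans ?_ (Fintype.sum_sigma _).symm
      refine Finset.sum_congr rfl fun c _ => Finset.sum_congr rfl fun i _ => ?_
      rw [FM_apply, Fm, Yr_update_same, Yr_update_ne _ 1 0 (by decide),
        Yr_update_ne _ 1 2 (by decide)]
      rfl
  · rw [TensorProduct.tmul_sum, TensorProduct.tmul_sum, map_sum]
    refine Eq.trans ?_ (Fintype.sum_sigma _).symm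
    refine Finset.sum_congr rfl fun c _ => Finset.sum_congr rfl fun i _ => ?_
    rw [FM_apply, Fm, Yr_update_same, Yr_update_ne _ 2 0 (by decide),
      Yr_update_ne _ 2 1 (by decide)]
    rfl

/-- elementary skew matrices -/
noncomputable def el (r t : Fin n ⊕ Fin n) : soD n :=
  ⟨fun p q => (if p = r ∧ q = t then 1 else 0) -
    (if p = HM2.sw t ∧ q = HM2.sw r then 1 else 0), by
    rw [mem_soD]
    intro p q
    have h1 : (SoGrade.sw q = r ∧ SoGrade.sw p = t) ↔ (p = HM2.sw t ∧ q = HM2.sw r) := by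
      constructor
      · rintro ⟨rfl, rfl⟩
        exact ⟨(SoGrade.sw_sw p).symm, (SoGrade.sw_sw q).symm⟩
      · rintro ⟨rfl, rfl⟩
        exact ⟨HM2.sw_sw r, HM2.sw_sw t⟩
    have h2 : (SoGrade.sw q = HM2.sw t ∧ SoGrade.sw p = HM2.sw r) ↔ (p = r ∧ q = t) := by
      constructor
      · rintro ⟨h, h'⟩
        exact ⟨HM2.sw_inj h', HM2.sw_inj h⟩
      · rintro ⟨rfl, rfl⟩
        exact ⟨rfl, rfl⟩
    simp only [h1, h2]
    ring⟩

theorem ite_and_mul (P Q : Prop) [Decidable P] [Decidable Q] :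
    (if P ∧ Q then (1 : ℂ) else 0) = (if Q then 1 else 0) * (if P then 1 else 0) := by
  by_cases hP : P <;> by_cases hQ : Q <;> simp [hP, hQ]

theorem cf_inv (hinv : ∀ (A : soD n) t, lam ⁅A, t⁆ = 0) : HM2.InvCoeff (cf lam) := by
  classical
  intro r t β
  have h := FM_inv hinv (el r t) (fun p => Pi.single (β p) 1)
  refine (Finset.sum_congr rfl fun p _ => ?_).trans h
  have h1 : (el r t).1 *ᵥ (Pi.single (β p) (1 : ℂ) : Fin n ⊕ Fin n → ℂ) =
      (if β p = t then (1 : ℂ) else 0) • (Pi.single r (1 : ℂ) : Fin n ⊕ Fin n → ℂ) -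
      (if β p = HM2.sw r then (1 : ℂ) else 0) •
        (Pi.single (HM2.sw t) (1 : ℂ) : Fin n ⊕ Fin n → ℂ) := by
    rw [mulVec_single_one']
    funext q
    change (if q = r ∧ β p = t then (1 : ℂ) else 0) -
      (if q = HM2.sw t ∧ β p = HM2.sw r then 1 else 0) = _
    simp only [Pi.sub_apply, Pi.smul_apply, Pi.single_apply, smul_eq_mul]
    rw [ite_and_mul, ite_and_mul]
  rw [h1, MultilinearMap.map_update_sub, MultilinearMap.map_update_smul,
    MultilinearMap.map_update_smul]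
  have h2 : ∀ q : Fin n ⊕ Fin n, FM lam (Function.update
      (fun p => (Pi.single (β p) (1 : ℂ) : Fin n ⊕ Fin n → ℂ)) p (Pi.single q 1)) =
      cf lam (Function.update β p q) := by
    intro q
    unfold cf
    congr 1
    funext p'
    by_cases hp : p' = p
    · subst hp; simp
    · simp [Function.update_of_ne hp]
  rw [h2, h2]
  simp only [smul_eq_mul, ite_mul, one_mul, zero_mul]

/-- words act on antisymmetrised tensors through matrices -/
theorem act_altT {X : Type} [Fintype X] [DecidableEq X] {h : X → ℕ} {w : List (soD n)}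
    (hw : Wd w) (Y : (Σ x, Fin (h x)) → Fin n ⊕ Fin n → ℂ) :
    act (TP n (Σ x, Fin (h x))) w (altT n h Y) = altT n h (fun p => gm w *ᵥ Y p) := by
  rw [altT_apply, altT_apply, map_sum]
  refine Finset.sum_congr rfl fun σ _ => ?_
  rw [map_smul, act_tp hw]

end functional

/-- index of a slot among all arms -/
def ixp (p : Sl a) : Fin n ⊕ Fin n := ix (a p.1.1) p.1.2.1 p.2

/-- the polynomial -/
noncomputable def PP (c : (Sl a → Fin n ⊕ Fin n) → ℂ) :
    MvPolynomial (Fin 3 × (Fin n ⊕ Fin n) × (Fin n ⊕ Fin n)) ℂ :=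
  ∑ β : Sl a → Fin n ⊕ Fin n, MvPolynomial.C (c β) *
    ∏ p : Sl a, MvPolynomial.X (p.1.1, β p, ixp p)

theorem aeval_PP {K : Type*} [Field K] [Algebra ℂ K] (c : (Sl a → Fin n ⊕ Fin n) → ℂ)
    (g : Fin 3 → Matrix (Fin n ⊕ Fin n) (Fin n ⊕ Fin n) K) :
    MvPolynomial.aeval (fun x : Fin 3 × (Fin n ⊕ Fin n) × (Fin n ⊕ Fin n) =>
      g x.1 x.2.1 x.2.2) (PP c) = HM2.FK K c (fun p q => g p.1.1 q (ixp p)) := by
  rw [HM2.FK_apply, PP, map_sum]
  refine Finset.sum_congr rfl fun β _ => ?_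
  rw [map_mul, MvPolynomial.aeval_C, map_prod]
  congr 1
  refine Finset.prod_congr rfl fun p _ => ?_
  rw [MvPolynomial.aeval_X]

theorem hm_poly (hn : 2 ≤ n) (ha : ∀ s, Dom (a s))
    (U : Irrep n (fun i => 2 * a 0 i)) (V : Irrep n (fun i => 2 * a 1 i))
    (W : Irrep n (fun i => 2 * a 2 i)) (h : HasInvariant U V W) :
    ∃ P : MvPolynomial (Fin 3 × (Fin n ⊕ Fin n) × (Fin n ⊕ Fin n)) ℂ,
      (∃ w : Fin 3 → List (soD n), (∀ s, Wd (w s)) ∧
        MvPolynomial.eval (fun x : Fin 3 × (Fin n ⊕ Fin n) × (Fin n ⊕ Fin n) =>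
          gm (w x.1) x.2.1 x.2.2) P ≠ 0) ∧
      ∀ (K : Type u) [Field K] [CharZero K] [Algebra ℂ K]
        (g : Fin 3 → Matrix (Fin n ⊕ Fin n) (Fin n ⊕ Fin n) K),
        MvPolynomial.aeval (fun x : Fin 3 × (Fin n ⊕ Fin n) × (Fin n ⊕ Fin n) =>
          g x.1 x.2.1 x.2.2) P ≠ 0 →
        ∀ S T : Submodule K (Fin n ⊕ Fin n → K),
          (∀ x ∈ S, ∀ y ∈ S, HM2.form n K x y = 0) →
          (∀ v, v ∈ T ↔ ∀ s ∈ S, HM2.form n K v s = 0) →
          ∑ s, ∑ i : Fin n, (bb (a s) i - bb (a s) ((i : ℕ) + 1)) *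
            ((finrank K ↥(S ⊓ Efl (a s) (g s) i) : ℤ) + finrank K ↥(T ⊓ Efl (a s) (g s) i) -
              finrank K (Efl (a s) (g s) i)) ≤ 0 := by
  classical
  obtain ⟨lam, hinv, p, hp, q, hq, r, hr, hne⟩ :=
    (Star.hasInvariant_iff (starTP n _) (starTP n _) (starTP n _) (colv_hw (ha 0))
      (colv_hw (ha 1)) (colv_hw (ha 2)) U V W).1 h
  obtain ⟨w₁, w₂, w₃, hw₁, hw₂, hw₃, hne'⟩ :=
    exists_words (lieSpan_rt hn) lam _ _ _ hp hq hr hne
  have hfr : ∀ (s : Fin 3) (w : List (soD n)),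
      (fun p : (Σ x : Col (a s), Fin (ht (a s) x)) => gm w *ᵥ fr (a s) p) =
      fun p q => gm w q (idx (a s) p) := by
    intro s w
    funext p
    rw [fr, mulVec_single_one']
  refine ⟨PP (cf lam), ⟨![w₁, w₂, w₃], ?_, ?_⟩, ?_⟩
  · intro s
    fin_cases s
    · exact hw₁
    · exact hw₂
    · exact hw₃
  · have h1 := aeval_PP (K := ℂ) (cf lam) (fun s => gm ((![w₁, w₂, w₃] : Fin 3 → List (soD n)) s))
    have h2 : MvPolynomial.eval (fun x : Fin 3 × (Fin n ⊕ Fin n) × (Fin n ⊕ Fin n) =>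
          gm ((![w₁, w₂, w₃] : Fin 3 → List (soD n)) x.1) x.2.1 x.2.2) (PP (cf lam)) =
        FM lam (fun p q => gm ((![w₁, w₂, w₃] : Fin 3 → List (soD n)) p.1.1) q (ixp p)) := by
      rw [HM3.multilinear_expand]
      rw [HM2.FK_apply] at h1
      rw [MvPolynomial.aeval_eq_eval] at h1
      refine h1.trans (Finset.sum_congr rfl fun β _ => ?_)
      rw [smul_eq_mul, mul_comm]
      rfl
    rw [h2, FM_apply, Fm]
    rw [colv, colv, colv, act_altT hw₁, act_altT hw₂, act_altT hw₃, hfr, hfr, hfr] at hne'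
    exact hne'
  · intro K _ _ _ g hg S T hS hT
    rw [aeval_PP] at hg
    have key := HM2.hm_coeff (K := K) (hh a) (cf lam) (fun x i j hij β => cf_alt lam x i j hij β)
      (cf_inv hinv) _ hg S T hS hT
      (fun x => Efl (a x.1) (g x.1) x.2.1) (fun x => rfl)
    refine le_trans (le_of_eq ?_) key
    rw [Fintype.sum_sigma]
    refine Finset.sum_congr rfl fun s _ => ?_
    rw [Fintype.sum_sigma]
    refine Finset.sum_congr rfl fun i _ => ?_
    change _ = ∑ _y : Fin (mult (a s) i), ((finrank K ↥(S ⊓ Efl (a s) (g s) i) : ℤ) +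
      finrank K ↥(T ⊓ Efl (a s) (g s) i) - finrank K (Efl (a s) (g s) i))
    rw [Finset.sum_const, Finset.card_univ, Fintype.card_fin, nsmul_eq_mul, mult_eq (ha s)]

end Crest.Agent.R172.HM6
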