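import Crest.Agent.R172.HM6

/-!
Row 172 (S0260), T5 final: the necessary inequalities for any dominant integral weights
(doubled coordinates) and any multiple `N ≥ 1`.
-/

set_option autoImplicit false
set_option maxHeartbeats 400000

namespace Crest.Agent.R172.HM7

open Module Crest.AlgebraR.SpinSaturation
open Crest.Agent.R172 Crest.Agent.R172.TPow Crest.Agent.R172.HM4 Crest.Agent.R172.HM5 Crest.Agent.R172.Fwd
open Crest.Agent.R172.HM6

universe u

variable {n : ℕ}

theorem dom_of_integral {a : Fin n → ℤ} (ha : IsDominantIntegral n a) : Dom a := ⟨ha.2.1, ha.2.2⟩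

theorem bb_smul (N : ℕ) (a : Fin n → ℤ) (i : ℕ) : bb (N • a) i = N * bb a i := by
  unfold bb
  split_ifs with h1 h2
  · simp
  · simp [abs_mul]
  · simp

theorem neg_smul {N : ℕ} (hN : 1 ≤ N) (a : Fin n → ℤ) : HM4.Neg (N • a) ↔ HM4.Neg a := by
  unfold HM4.Neg
  refine exists_congr fun i => and_congr_right fun _ => ?_
  have : (0 : ℤ) < N := by exact_mod_cast hN
  rw [Pi.smul_apply, nsmul_eq_mul]
  constructor
  · intro h
    by_contra h'
    have := mul_nonneg this.le (not_lt.mp h')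
    omega
  · intro h
    exact mul_neg_of_pos_of_neg this h

theorem ix_smul {N : ℕ} (hN : 1 ≤ N) (a : Fin n → ℤ) (i : Fin n) (j : Fin ((i : ℕ) + 1)) :
    ix (N • a) i j = ix a i j := by
  unfold ix
  simp only [neg_smul hN]

theorem Efl_smul {K : Type*} [Field K] {N : ℕ} (hN : 1 ≤ N) (a : Fin n → ℤ)
    (g : Matrix (Fin n ⊕ Fin n) (Fin n ⊕ Fin n) K) (i : Fin n) :
    Efl (N • a) g i = Efl a g i := by
  unfold Efl
  simp only [ix_smul hN]

theorem dom_smul {N : ℕ} {a : Fin n → ℤ} (ha : Dom a) : Dom (N • a) := by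
  have h0 : (0 : ℤ) ≤ N := by positivity
  refine ⟨fun i j h1 h2 => ?_, fun i j h1 h2 => ?_⟩
  · simp only [Pi.smul_apply, nsmul_eq_mul]
    exact mul_le_mul_of_nonneg_left (ha.1 i j h1 h2) h0
  · simp only [Pi.smul_apply, nsmul_eq_mul, abs_mul]
    rw [abs_of_nonneg h0]
    exact mul_le_mul_of_nonneg_left (ha.2 i j h1 h2) h0

/-- the standard model of an integral weight -/
noncomputable def hwInt {a : Fin n → ℤ} (ha : Dom a) : HW n (fun i => 2 * a i) where
  V := TP n (Σ x : Col a, Fin (ht a x))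
  fd := inferInstance
  star := starTP n _
  x := colv a
  hx := colv_hw ha

/-- an irreducible representation out of a model -/
noncomputable def irr {a : Fin n → ℤ} (M : HW n a) : Irrep n a where
  V := Star.gen n M.x
  finiteDimensional := inferInstance
  irreducible := M.star.gen_irreducible M.hx
  highestWeight := ⟨_, Star.hw_gen M.hx⟩

/-- The necessary inequalities: `a` in doubled coordinates, for some multiple `N`. -/
theorem hm_final {N : ℕ} {a : Fin 3 → Fin n → ℤ} (hn : 2 ≤ n) (ha : ∀ s, Dom (a s)) (hN : 1 ≤ N)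
    (X : HW n (N • a 0)) (Y : HW n (N • a 1)) (Z : HW n (N • a 2))
    (U : Irrep n (N • a 0)) (V : Irrep n (N • a 1)) (W : Irrep n (N • a 2))
    (h : HasInvariant U V W) :
    ∃ P : MvPolynomial (Fin 3 × (Fin n ⊕ Fin n) × (Fin n ⊕ Fin n)) ℂ,
      (∃ w : Fin 3 → List (soD n), (∀ s, Wd (w s)) ∧
        MvPolynomial.eval (fun x : Fin 3 × (Fin n ⊕ Fin n) × (Fin n ⊕ Fin n) =>
          gm (w x.1) x.2.1 x.2.2) P ≠ 0) ∧
      ∀ (K : Type u) [Field K] [CharZero K] [Algebra ℂ K]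
        (g : Fin 3 → Matrix (Fin n ⊕ Fin n) (Fin n ⊕ Fin n) K),
        MvPolynomial.aeval (fun x : Fin 3 × (Fin n ⊕ Fin n) × (Fin n ⊕ Fin n) =>
          g x.1 x.2.1 x.2.2) P ≠ 0 →
        ∀ S T : Submodule K (Fin n ⊕ Fin n → K),
          (∀ x ∈ S, ∀ y ∈ S, HM2.form n K x y = 0) →
          (∀ v, v ∈ T ↔ ∀ s ∈ S, HM2.form n K v s = 0) →
          ∑ s, ∑ i : Fin n, (bb (a s) i - bb (a s) ((i : ℕ) + 1)) *
            ((finrank K ↥(S ⊓ Efl (a s) (g s) i) : ℤ) + finrank K ↥(T ⊓ Efl (a s) (g s) i) -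
              finrank K (Efl (a s) (g s) i)) ≤ 0 := by
  have e2 : ∀ s, (fun i => 2 * (N • a s) i : Fin n → ℤ) = (1 + 1) • (N • a s) := by
    intro s
    funext i
    change 2 * (N • a s) i = (1 + 1) • ((N • a s) i)
    rw [nsmul_eq_mul]
    norm_num
  have hd : ∀ s, Dom (N • a s) := fun s => dom_smul (ha s)
  have h2 : ∀ (A B C : Fin n → ℤ) (_ : A = (1 + 1) • (N • a 0)) (_ : B = (1 + 1) • (N • a 1))
      (_ : C = (1 + 1) • (N • a 2)) (U' : Irrep n A) (V' : Irrep n B)
      (W' : Irrep n C), HasInvariant U' V' W' := by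
    rintro A B C rfl rfl rfl U' V' W'
    exact hasInvariant_mul hn X Y Z U V W h 1 U' V' W'
  obtain ⟨P, hP, hmain⟩ := hm_poly hn (a := fun s => N • a s) hd (irr (hwInt (hd 0)))
    (irr (hwInt (hd 1))) (irr (hwInt (hd 2))) (h2 _ _ _ (e2 0) (e2 1) (e2 2) _ _ _)
  refine ⟨P, hP, ?_⟩
  intro K _ _ _ g hg S T hS hT
  have key := hmain K g hg S T hS hT
  have h0 : (0 : ℤ) < N := by exact_mod_cast hN
  refine nonpos_of_mul_nonpos_right (le_trans (le_of_eq ?_) key) h0
  rw [Finset.mul_sum]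
  refine Finset.sum_congr rfl fun s _ => ?_
  rw [Finset.mul_sum]
  refine Finset.sum_congr rfl fun i _ => ?_
  rw [bb_smul, bb_smul, Efl_smul hN, ← mul_sub, mul_assoc]

end Crest.Agent.R172.HM7
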