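import Crest.Agent.R172.HM7
import Crest.Agent.R172.Cfg

/-!
Row 172 (S0260): coordinate subspaces in an orthogonal frame and the numerical function of an
isotropic subspace.
-/

set_option autoImplicit false
set_option maxHeartbeats 400000
set_option linter.unusedSectionVars false

namespace Crest.Agent.R172.HM8

open Module Matrix Crest.Agent.R172.HM2 Crest.Agent.R172.HM4
open Crest.Agent.R172.Gen (Jm Ix)

variable {n : ℕ} {K : Type*} [Field K]

theorem Jm_mulVec (y : Ix n → K) : Jm n K *ᵥ y = fun p => y (sw p) := by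
  funext p
  rcases p with i | i
  · simp [LieAlgebra.Orthogonal.JD, fromBlocks_mulVec, HM2.sw]
  · simp [LieAlgebra.Orthogonal.JD, fromBlocks_mulVec, HM2.sw]

theorem form_eq (x y : Ix n → K) : form n K x y = x ⬝ᵥ (Jm n K *ᵥ y) := by
  rw [Jm_mulVec, form_apply]
  rfl

/-- `g` preserves the form -/
def Orth (g : Matrix (Ix n) (Ix n) K) : Prop := gᵀ * Jm n K * g = Jm n K

theorem form_mulVec {g : Matrix (Ix n) (Ix n) K} (hg : Orth g) (x y : Ix n → K) :
    form n K (g *ᵥ x) (g *ᵥ y) = form n K x y := by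
  have h : form n K x y = x ⬝ᵥ ((gᵀ * Jm n K * g) *ᵥ y) := by
    rw [form_eq, show gᵀ * Jm n K * g = Jm n K from hg]
  rw [h, form_eq, ← mulVec_mulVec, ← mulVec_mulVec, dotProduct_mulVec x gᵀ, vecMul_transpose]

theorem sw_inl (i : Fin n) : sw (Sum.inl i) = Sum.inr i := rfl
theorem sw_inr (i : Fin n) : sw (Sum.inr i) = Sum.inl i := rfl

/-- vectors supported in `X` -/
def Cs (K : Type*) [Field K] (X : Ix n → Prop) : Submodule K (Ix n → K) where
  carrier := {x | ∀ p, ¬ X p → x p = 0}
  add_mem' := by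
    intro x y hx hy p hp
    rw [Pi.add_apply, hx p hp, hy p hp, add_zero]
  zero_mem' := fun _ _ => rfl
  smul_mem' := by
    intro t x hx p hp
    rw [Pi.smul_apply, hx p hp, smul_zero]

theorem mem_Cs {X : Ix n → Prop} {x : Ix n → K} : x ∈ Cs K X ↔ ∀ p, ¬ X p → x p = 0 := Iff.rfl

/-- coordinate subspace in the frame `g` -/
def Co (g : Matrix (Ix n) (Ix n) K) (X : Ix n → Prop) : Submodule K (Ix n → K) :=
  (Cs K X).map (mulVecLin g)

theorem mem_Co {g : Matrix (Ix n) (Ix n) K} {X : Ix n → Prop} {v : Ix n → K} :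
    v ∈ Co g X ↔ ∃ x, (∀ p, ¬ X p → x p = 0) ∧ g *ᵥ x = v := Iff.rfl

theorem Orth.inj {g : Matrix (Ix n) (Ix n) K} (hg : Orth g) {x y : Ix n → K}
    (h : g *ᵥ x = g *ᵥ y) : x = y := by
  have h1 := congrArg (fun v => (Jm n K * gᵀ * Jm n K) *ᵥ v) h
  simp only [mulVec_mulVec, Gen.orth_left_inv hg, one_mulVec] at h1
  exact h1

theorem Orth.surj {g : Matrix (Ix n) (Ix n) K} (hg : Orth g) (v : Ix n → K) :
    ∃ x, g *ᵥ x = v :=
  ⟨(Jm n K * gᵀ * Jm n K) *ᵥ v, by rw [mulVec_mulVec, Gen.orth_right_inv hg, one_mulVec]⟩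

theorem mem_Co' {g : Matrix (Ix n) (Ix n) K} (hg : Orth g) {X : Ix n → Prop} {x : Ix n → K} :
    g *ᵥ x ∈ Co g X ↔ ∀ p, ¬ X p → x p = 0 := by
  constructor
  · rintro ⟨y, hy, h⟩
    have := hg.inj h
    subst this
    exact hy
  · intro h
    exact ⟨x, h, rfl⟩

theorem Co_mono (g : Matrix (Ix n) (Ix n) K) {X Y : Ix n → Prop} (h : ∀ p, X p → Y p) :
    Co g X ≤ Co g Y :=
  Submodule.map_mono fun _ hx p hp => hx p fun h' => hp (h p h')

theorem Co_false (g : Matrix (Ix n) (Ix n) K) : Co g (fun _ => False) = ⊥ := by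
  rw [eq_bot_iff]
  rintro v ⟨x, hx, rfl⟩
  have : x = 0 := funext fun p => hx p not_false
  rw [this, map_zero]
  exact Submodule.zero_mem _

theorem Co_true {g : Matrix (Ix n) (Ix n) K} (hg : Orth g) : Co g (fun _ => True) = ⊤ := by
  rw [eq_top_iff]
  intro v _
  obtain ⟨x, rfl⟩ := hg.surj v
  exact (mem_Co' hg).2 fun p hp => absurd trivial hp

theorem Co_inf {g : Matrix (Ix n) (Ix n) K} (hg : Orth g) (X Y : Ix n → Prop) :
    Co g X ⊓ Co g Y = Co g (fun p => X p ∧ Y p) := by
  apply le_antisymm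
  · rintro v ⟨h1, h2⟩
    obtain ⟨x, rfl⟩ := hg.surj v
    have h1' := (mem_Co' hg).1 h1
    have h2' := (mem_Co' hg).1 h2
    refine (mem_Co' hg).2 fun p hp => ?_
    by_cases hX : X p
    · exact h2' p fun hY => hp ⟨hX, hY⟩
    · exact h1' p hX
  · exact le_inf (Co_mono g fun p h => h.1) (Co_mono g fun p h => h.2)

/-- the orthogonal of a coordinate subspace -/
theorem Co_orth {g : Matrix (Ix n) (Ix n) K} (hg : Orth g) (X : Ix n → Prop) (v : Ix n → K) :
    v ∈ Co g (fun p => ¬ X (sw p)) ↔ ∀ s ∈ Co g X, form n K v s = 0 := by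
  classical
  obtain ⟨x, rfl⟩ := hg.surj v
  rw [mem_Co' hg]
  constructor
  · rintro h s ⟨z, hz, rfl⟩
    rw [mulVecLin_apply, form_mulVec hg, form_apply]
    refine Finset.sum_eq_zero fun p _ => ?_
    by_cases hp : X (sw p)
    · rw [h p (not_not.mpr hp), zero_mul]
    · rw [hz _ hp, mul_zero]
  · intro h p hp
    rw [not_not] at hp
    have h1 := h (g *ᵥ Pi.single (sw p) 1) ((mem_Co' hg).2 fun q hq => by
      rw [Pi.single_eq_of_ne]
      rintro rfl
      exact hq hp)
    rwa [form_mulVec hg, form_single, sw_sw] at h1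

theorem dim_inf_orth (S T E E' : Submodule K (Ix n → K))
    (hT : ∀ v, v ∈ T ↔ ∀ s ∈ S, form n K v s = 0)
    (hE : ∀ v, v ∈ E' ↔ ∀ s ∈ E, form n K v s = 0) :
    (finrank K ↥(T ⊓ E) : ℤ) = finrank K E - finrank K S + finrank K ↥(S ⊓ E') := by
  have hr : (form n K).IsRefl := fun x y h => by rw [form_symm]; exact h
  have hnd : (form n K).Nondegenerate := form_nondeg
  have hT' : T = (form n K).orthogonal S := by
    ext v
    rw [hT, LinearMap.BilinForm.mem_orthogonal_iff]
    constructor
    · intro h s hs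
      change form n K s v = 0
      rw [form_symm]; exact h s hs
    · intro h s hs
      rw [form_symm]; exact h s hs
  have hE' : E' = (form n K).orthogonal E := by
    ext v
    rw [hE, LinearMap.BilinForm.mem_orthogonal_iff]
    constructor
    · intro h s hs
      change form n K s v = 0
      rw [form_symm]; exact h s hs
    · intro h s hs
      rw [form_symm]; exact h s hs
  have hEE : E = (form n K).orthogonal E' := by
    rw [hE', LinearMap.BilinForm.orthogonal_orthogonal hnd hr]
  have h1 : T ⊓ E = (form n K).orthogonal (S ⊔ E') := by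
    ext v
    rw [Submodule.mem_inf, hT']
    conv_lhs => rw [hEE]
    simp only [LinearMap.BilinForm.mem_orthogonal_iff]
    constructor
    · rintro ⟨ha, hb⟩ s hs
      obtain ⟨s1, h1, s2, h2, rfl⟩ := Submodule.mem_sup.1 hs
      change form n K (s1 + s2) v = 0
      rw [map_add, LinearMap.add_apply]
      rw [show form n K s1 v = 0 from ha s1 h1, show form n K s2 v = 0 from hb s2 h2, add_zero]
    · intro h
      exact ⟨fun s hs => h s (Submodule.mem_sup_left hs),
        fun s hs => h s (Submodule.mem_sup_right hs)⟩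
  have e1 : finrank K ↥(T ⊓ E) = finrank K (Ix n → K) - finrank K ↥(S ⊔ E') := by
    rw [h1]; exact LinearMap.BilinForm.finrank_orthogonal hnd (S ⊔ E')
  have e2 : finrank K E' = finrank K (Ix n → K) - finrank K E := by
    rw [hE']; exact LinearMap.BilinForm.finrank_orthogonal hnd E
  have e3 := Submodule.finrank_sup_add_finrank_inf_eq S E'
  have e4 : finrank K ↥(S ⊔ E') ≤ finrank K (Ix n → K) := Submodule.finrank_le (S ⊔ E')
  have e5 : finrank K E ≤ finrank K (Ix n → K) := Submodule.finrank_le E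
  omega

/-- the numerical function -/
noncomputable def val (S : Submodule K (Ix n → K)) (g : Matrix (Ix n) (Ix n) K)
    (X : Ix n → Prop) : ℤ :=
  finrank K ↥(S ⊓ Co g X) + finrank K ↥(S ⊓ Co g (fun p => ¬ X (sw p))) - finrank K S

theorem val_eq {g : Matrix (Ix n) (Ix n) K} (hg : Orth g) (S T : Submodule K (Ix n → K))
    (hT : ∀ v, v ∈ T ↔ ∀ s ∈ S, form n K v s = 0) (X : Ix n → Prop) :
    (finrank K ↥(S ⊓ Co g X) : ℤ) + finrank K ↥(T ⊓ Co g X) - finrank K (Co g X) =
      val S g X := by
  rw [dim_inf_orth S T (Co g X) _ hT (Co_orth hg X), val]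
  ring

theorem val_hat (S : Submodule K (Ix n → K)) (g : Matrix (Ix n) (Ix n) K) (X : Ix n → Prop) :
    val S g (fun p => ¬ X (sw p)) = val S g X := by
  have e : (fun p : Ix n => ¬ ¬ X (sw (sw p))) = X := by
    funext p
    rw [sw_sw]
    exact propext not_not
  have h : val S g (fun p => ¬ X (sw p)) =
      finrank K ↥(S ⊓ Co g (fun p => ¬ X (sw p))) +
        finrank K ↥(S ⊓ Co g (fun p => ¬ ¬ X (sw (sw p)))) - finrank K S := rfl
  rw [h, e, val]
  ring

theorem val_false (S : Submodule K (Ix n → K)) {g : Matrix (Ix n) (Ix n) K} (hg : Orth g) :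
    val S g (fun _ => False) = 0 := by
  have e : (fun _ : Ix n => ¬ False) = fun _ => True := by
    funext p
    simp
  rw [val, e, Co_false, Co_true hg, inf_bot_eq, inf_top_eq, finrank_bot]
  simp

/-- `{e_i : i < h}` -/
def Xh (h : ℕ) : Ix n → Prop
  | Sum.inl i => (i : ℕ) < h
  | Sum.inr _ => False

/-- `{e_i : i < n - 1}` and the last `e_i^*` -/
def Xp : Ix n → Prop
  | Sum.inl i => (i : ℕ) + 1 < n
  | Sum.inr i => (i : ℕ) + 1 = n

/-- values on the standard flag -/
noncomputable def FF (S : Submodule K (Ix n → K)) (g : Matrix (Ix n) (Ix n) K) (h : ℕ) : ℤ :=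
  val S g (Xh h)

theorem FF_zero (S : Submodule K (Ix n → K)) {g : Matrix (Ix n) (Ix n) K} (hg : Orth g) :
    FF S g 0 = 0 := by
  rw [FF, ← val_false S hg]
  congr 1
  funext p
  rcases p with i | i <;> simp [Xh]

theorem le_or_le_of_union {V : Type*} [AddCommGroup V] [Module K V] (W P Q : Submodule K V)
    (h : ∀ v ∈ W, v ∈ P ∨ v ∈ Q) : W ≤ P ∨ W ≤ Q := by
  by_contra hc
  rw [not_or, SetLike.not_le_iff_exists, SetLike.not_le_iff_exists] at hc
  obtain ⟨⟨v, hv, hvP⟩, ⟨w, hw, hwQ⟩⟩ := hc
  have hvQ : v ∈ Q := (h v hv).resolve_left hvP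
  have hwP : w ∈ P := (h w hw).resolve_right hwQ
  rcases h (v + w) (W.add_mem hv hw) with h1 | h1
  · exact hvP ((P.add_mem_iff_left hwP).1 h1)
  · exact hwQ ((Q.add_mem_iff_right hvQ).1 h1)

/-- the relation between the two families of maximal isotropic subspaces -/
theorem val_Xp [CharZero K] {S : Submodule K (Ix n → K)} {g : Matrix (Ix n) (Ix n) K}
    (hg : Orth g) (hS : ∀ x ∈ S, ∀ y ∈ S, form n K x y = 0) {m : ℕ} (hm : m + 1 = n) :
    val S g Xp + FF S g (m + 1) = 2 * FF S g m := by
  classical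
  -- the three index sets
  have e1 : (fun p : Ix n => ¬ Xh (m + 1) (sw p)) = Xh (m + 1) := by
    funext p
    rcases p with i | i
    · exact propext ⟨fun _ => (show (i : ℕ) < m + 1 by have := i.2; omega), fun _ h => h⟩
    · exact propext ⟨fun h => h (show (i : ℕ) < m + 1 by have := i.2; omega), fun h => h.elim⟩
  have e2 : (fun p : Ix n => ¬ Xp (sw p)) = Xp := by
    funext p
    rcases p with i | i
    · simp only [Xp, sw_inl, eq_iff_iff]; omega
    · simp only [Xp, sw_inr, eq_iff_iff]; omega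
  set P : Submodule K (Ix n → K) := Co g (Xh (m + 1)) with hP
  set Q : Submodule K (Ix n → K) := Co g Xp with hQ
  set A : Submodule K (Ix n → K) := Co g (Xh m) with hA
  set Z : Submodule K (Ix n → K) := Co g (fun p : Ix n => ¬ Xh m (sw p)) with hZ
  have hPQ : P ⊓ Q = A := by
    rw [hP, hQ, hA, Co_inf hg]
    congr 1
    funext p
    rcases p with i | i
    · simp only [Xh, Xp, eq_iff_iff]; omega
    · simp [Xh]
  have hPZ : P ≤ Z := by
    refine Co_mono g fun p hp => ?_
    rcases p with i | i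
    · simp [Xh, sw_inl]
    · exact absurd hp (by simp [Xh])
  have hQZ : Q ≤ Z := by
    refine Co_mono g fun p hp => ?_
    rcases p with i | i
    · simp [Xh, sw_inl]
    · have hp' : (i : ℕ) + 1 = n := hp
      simp only [Xh, sw_inr]
      omega
  have hdich : ∀ v ∈ S ⊓ Z, v ∈ P ∨ v ∈ Q := by
    rintro v ⟨hv, hvZ⟩
    obtain ⟨x, rfl⟩ := hg.surj v
    have hx := (mem_Co' hg).1 hvZ
    have hx0 : ∀ i : Fin n, (i : ℕ) < m → x (Sum.inr i) = 0 := by
      intro i hi
      refine hx _ ?_
      simp only [Xh, sw_inr, not_not]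
      exact hi
    have h1 := hS _ hv _ hv
    rw [form_mulVec hg, form_apply, Fintype.sum_sum_type] at h1
    have hl : m < n := by omega
    have h2 : ∑ i : Fin n, x (Sum.inl i) * x (sw (Sum.inl i)) =
        x (Sum.inl ⟨m, hl⟩) * x (Sum.inr ⟨m, hl⟩) := by
      rw [Finset.sum_eq_single ⟨m, hl⟩]
      · rfl
      · intro i _ hi
        change x (Sum.inl i) * x (Sum.inr i) = 0
        rw [hx0 i, mul_zero]
        have := i.2
        have h3 : (i : ℕ) ≠ m := fun h => hi (Fin.ext h)
        omega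
      · simp
    have h3 : ∑ i : Fin n, x (Sum.inr i) * x (sw (Sum.inr i)) =
        x (Sum.inl ⟨m, hl⟩) * x (Sum.inr ⟨m, hl⟩) := by
      rw [← h2]
      exact Finset.sum_congr rfl fun i _ => mul_comm _ _
    rw [h2, h3, ← two_mul] at h1
    have h4 := (mul_eq_zero.1 h1).resolve_left two_ne_zero
    rcases mul_eq_zero.1 h4 with h5 | h5
    · right
      refine (mem_Co' hg).2 fun p hp => ?_
      rcases p with i | i
      · have : i = ⟨m, hl⟩ := by
          apply Fin.ext
          simp only [Xp] at hp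
          have := i.2
          simp only
          omega
        rw [this]; exact h5
      · apply hx0
        simp only [Xp] at hp
        have := i.2
        omega
    · left
      refine (mem_Co' hg).2 fun p hp => ?_
      rcases p with i | i
      · exfalso
        apply hp
        simp only [Xh]
        have := i.2
        omega
      · by_cases hi : (i : ℕ) < m
        · exact hx0 i hi
        · have : i = ⟨m, hl⟩ := by
            apply Fin.ext
            have := i.2
            simp only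
            omega
          rw [this]; exact h5
  have key : (finrank K ↥(S ⊓ P) : ℤ) + finrank K ↥(S ⊓ Q) =
      finrank K ↥(S ⊓ A) + finrank K ↥(S ⊓ Z) := by
    rcases le_or_le_of_union (S ⊓ Z) P Q hdich with h | h
    · have h1 : S ⊓ Z = S ⊓ P :=
        le_antisymm (le_inf inf_le_left h) (inf_le_inf_left S hPZ)
      have h2 : S ⊓ Q = S ⊓ A := by
        apply le_antisymm
        · refine le_inf inf_le_left ?_
          rw [← hPQ]
          exact le_inf ((inf_le_inf_left S hQZ).trans h) inf_le_right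
        · rw [← hPQ]; exact inf_le_inf_left S inf_le_right
      rw [h1, h2, add_comm]
    · have h1 : S ⊓ Z = S ⊓ Q :=
        le_antisymm (le_inf inf_le_left h) (inf_le_inf_left S hQZ)
      have h2 : S ⊓ P = S ⊓ A := by
        apply le_antisymm
        · refine le_inf inf_le_left ?_
          rw [← hPQ]
          exact le_inf inf_le_right ((inf_le_inf_left S hPZ).trans h)
        · rw [← hPQ]; exact inf_le_inf_left S inf_le_left
      rw [h1, h2]
  have v1 : val S g Xp = 2 * finrank K ↥(S ⊓ Q) - finrank K S := by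
    rw [val, e2]; ring
  have v2 : FF S g (m + 1) = 2 * finrank K ↥(S ⊓ P) - finrank K S := by
    rw [FF, val, e1]; ring
  have v3 : FF S g m = finrank K ↥(S ⊓ A) + finrank K ↥(S ⊓ Z) - finrank K S := rfl
  rw [v1, v2, v3]
  linarith

end Crest.Agent.R172.HM8
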