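import Crest.Agent.R172.HM8

/-!
Row 172 (S0260): the necessary inequalities in the language of `Cfg`.
-/

set_option autoImplicit false
set_option maxHeartbeats 400000
set_option linter.unusedSectionVars false

namespace Crest.Agent.R172.HM9

open Module Matrix Crest.Agent.R172.HM2 Crest.Agent.R172.HM4 Crest.Agent.R172.HM8
open Crest.Agent.R172.Gen (Jm Ix)
open Crest.Agent.R172.CF

variable {n : ℕ} {K : Type*} [Field K]

/-! ### sums -/

theorem abel_sum (b G : ℕ → ℤ) (h0 : G 0 = 0) (m : ℕ) :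
    ∑ i ∈ Finset.range m, (b i - b (i + 1)) * G (i + 1) =
      ∑ i ∈ Finset.range m, b i * (G (i + 1) - G i) - b m * G m := by
  induction m with
  | zero => simp [h0]
  | succ m ih => rw [Finset.sum_range_succ, Finset.sum_range_succ, ih]; ring

theorem tele (F : ℕ → ℤ) (h0 : F 0 = 0) {h : ℕ} (hh : h ≤ n) :
    ∑ i : Fin n, (if (i : ℕ) < h then (1 : ℤ) else 0) * (F (i + 1) - F i) = F h := by
  rw [Fin.sum_univ_eq_sum_range (fun i => (if i < h then (1 : ℤ) else 0) * (F (i + 1) - F i)) n]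
  have h1 : ∀ m, ∑ i ∈ Finset.range m, (if i < h then (1 : ℤ) else 0) * (F (i + 1) - F i) =
      F (min m h) := by
    intro m
    induction m with
    | zero => simp [h0]
    | succ m ih =>
      rw [Finset.sum_range_succ, ih]
      by_cases hm : m < h
      · rw [if_pos hm, min_eq_left hm.le, min_eq_left (show m + 1 ≤ h from hm)]; ring
      · rw [if_neg hm, min_eq_right (not_lt.mp hm), min_eq_right (by omega)]; ring
  rw [h1, min_eq_right hh]

/-! ### the standard flag of a weight -/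

/-- index set of `Efl a g i` -/
def Xa (a : Fin n → ℤ) (i : Fin n) : Ix n → Prop := fun p => ∃ j, ix a i j = p

theorem Efl_eq {g : Matrix (Ix n) (Ix n) K} (a : Fin n → ℤ) (i : Fin n) :
    Efl a g i = Co g (Xa a i) := by
  classical
  apply le_antisymm
  · rw [Efl, Submodule.span_le]
    rintro _ ⟨j, rfl⟩
    refine ⟨Pi.single (ix a i j) 1, ?_, ?_⟩
    · intro p hp
      rw [Pi.single_eq_of_ne]
      rintro rfl
      exact hp ⟨j, rfl⟩
    · rw [mulVecLin_apply, mulVec_single_one]
      rfl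
  · rintro _ ⟨x, hx, rfl⟩
    rw [mulVecLin_apply]
    have h1 : g *ᵥ x = ∑ p, x p • (fun q => g q p) := by
      funext q
      rw [mulVec, dotProduct, Finset.sum_apply]
      exact Finset.sum_congr rfl fun p _ => mul_comm _ _
    rw [h1]
    refine Submodule.sum_mem _ fun p _ => ?_
    by_cases hp : Xa a i p
    · obtain ⟨j, rfl⟩ := hp
      exact Submodule.smul_mem _ _ (Submodule.subset_span ⟨j, rfl⟩)
    · rw [hx p hp, zero_smul]
      exact Submodule.zero_mem _

theorem Xa_eq (a : Fin n → ℤ) (i : Fin n) (h : ¬ (HM4.Neg a ∧ (i : ℕ) + 1 = n)) :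
    Xa a i = Xh ((i : ℕ) + 1) := by
  funext p
  apply propext
  have hix : ∀ j : Fin ((i : ℕ) + 1), ix a i j = Sum.inl ⟨j, by omega⟩ := by
    intro j
    unfold ix
    rw [if_neg]
    rintro ⟨h1, h2⟩
    exact h ⟨h1, by have := j.2; have := i.2; omega⟩
  rcases p with q | q
  · constructor
    · rintro ⟨j, hj⟩
      rw [hix, Sum.inl.injEq] at hj
      subst hj
      exact j.2
    · intro hq
      have hq' : (q : ℕ) < (i : ℕ) + 1 := hq
      exact ⟨⟨q, hq'⟩, by rw [hix]⟩
  · constructor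
    · rintro ⟨j, hj⟩
      rw [hix] at hj
      exact absurd hj (by simp)
    · intro h; exact h.elim

theorem Xa_neg (a : Fin n → ℤ) (i : Fin n) (h : HM4.Neg a) (hi : (i : ℕ) + 1 = n) :
    Xa a i = Xp := by
  funext p
  apply propext
  rcases p with q | q
  · constructor
    · rintro ⟨j, hj⟩
      unfold ix at hj
      split_ifs at hj with h1
      rw [Sum.inl.injEq] at hj
      subst hj
      have h2 : ¬ (j : ℕ) + 1 = n := fun h2 => h1 ⟨h, h2⟩
      have := j.2
      show (j : ℕ) + 1 < n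
      omega
    · intro hq
      have hq' : (q : ℕ) + 1 < n := hq
      refine ⟨⟨q, by omega⟩, ?_⟩
      unfold ix
      rw [if_neg]
      rintro ⟨-, h2⟩
      simp only at h2
      omega
  · constructor
    · rintro ⟨j, hj⟩
      unfold ix at hj
      split_ifs at hj with h1
      rw [Sum.inr.injEq] at hj
      subst hj
      exact h1.2
    · intro hq
      have hq' : (q : ℕ) + 1 = n := hq
      refine ⟨⟨q, by omega⟩, ?_⟩
      unfold ix
      rw [if_pos ⟨h, hq'⟩]

/-- increments -/
noncomputable def xx (S : Submodule K (Ix n → K)) (g : Matrix (Ix n) (Ix n) K) (i : ℕ) : ℤ :=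
  FF S g (i + 1) - FF S g i

/-- the inequality of one arm in terms of increments -/
theorem arm_sum [CharZero K] {S : Submodule K (Ix n → K)} {g : Matrix (Ix n) (Ix n) K}
    (hg : Orth g) (hS : ∀ x ∈ S, ∀ y ∈ S, form n K x y = 0) (a : Fin n → ℤ) :
    ∑ i : Fin n, (bb a i - bb a ((i : ℕ) + 1)) * val S g (Xa a i) =
      ∑ i : Fin n, a i * xx S g i := by
  classical
  rcases Nat.eq_zero_or_pos n with hn0 | hn
  · subst hn0
    simp
  by_cases hN : HM4.Neg a
  · -- last entry negative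
    set G : ℕ → ℤ := fun k => if k = n then val S g Xp else FF S g k with hG
    have hG0 : G 0 = 0 := by
      rw [hG]
      simp only
      rw [if_neg (by omega), FF_zero S hg]
    have h1 : ∀ i : Fin n, val S g (Xa a i) = G ((i : ℕ) + 1) := by
      intro i
      by_cases hi : (i : ℕ) + 1 = n
      · rw [Xa_neg a i hN hi, hG]
        simp only
        rw [if_pos hi]
      · rw [Xa_eq a i (fun h => hi h.2), hG]
        simp only
        rw [if_neg hi]
        rfl
    rw [Finset.sum_congr rfl fun i _ => by rw [h1 i],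
      Fin.sum_univ_eq_sum_range (fun i => (bb a i - bb a (i + 1)) * G (i + 1)) n,
      abel_sum _ _ hG0, bb_ge a le_rfl, zero_mul, sub_zero,
      ← Fin.sum_univ_eq_sum_range (fun i => bb a i * (G (i + 1) - G i)) n]
    refine Finset.sum_congr rfl fun i _ => ?_
    obtain ⟨i0, hi0, hneg⟩ := hN
    by_cases hi : (i : ℕ) + 1 = n
    · have hii : i0 = i := Fin.ext (by omega)
      subst hii
      have hv := val_Xp hg hS hi
      rw [bb_last a hi, hG]
      simp only
      rw [if_pos hi, if_neg (by omega), abs_of_neg hneg, xx]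
      have : val S g Xp = 2 * FF S g i0 - FF S g ((i0 : ℕ) + 1) := by linarith
      rw [this]
      ring
    · rw [bb_lt a (by have := i.2; omega), hG]
      simp only
      rw [if_neg hi, if_neg (by have := i.2; omega), xx]
  · have h1 : ∀ i : Fin n, val S g (Xa a i) = FF S g ((i : ℕ) + 1) := by
      intro i
      rw [Xa_eq a i (fun h => hN h.1)]
      rfl
    rw [Finset.sum_congr rfl fun i _ => by rw [h1 i],
      Fin.sum_univ_eq_sum_range (fun i => (bb a i - bb a (i + 1)) * FF S g (i + 1)) n,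
      abel_sum _ _ (FF_zero S hg), bb_ge a le_rfl, zero_mul, sub_zero,
      ← Fin.sum_univ_eq_sum_range (fun i => bb a i * (FF S g (i + 1) - FF S g i)) n]
    refine Finset.sum_congr rfl fun i _ => ?_
    by_cases hi : (i : ℕ) + 1 = n
    · rw [bb_last a hi, xx, abs_of_nonneg]
      by_contra hc
      exact hN ⟨i, hi, not_le.mp hc⟩
    · rw [bb_lt a (by have := i.2; omega), xx]

/-! ### configurations -/

variable {a : Fin 3 → Fin n → ℤ}

/-- index set of the column `d` -/
def Gd (c : Cfg n a) (d : c.δ) : Ix n → Prop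
  | Sum.inl i => c.A i d
  | Sum.inr i => ¬ c.A i (c.σ d)

theorem Gd_hat (c : Cfg n a) (d : c.δ) : (fun p : Ix n => ¬ Gd c d (sw p)) = Gd c (c.σ d) := by
  funext p
  apply propext
  rcases p with i | i
  · change ¬ ¬ c.A i (c.σ d) ↔ c.A i (c.σ d)
    exact not_not
  · change ¬ c.A i d ↔ ¬ c.A i (c.σ (c.σ d))
    rw [c.inv]

theorem val_Gd_σ (c : Cfg n a) (S : Submodule K (Ix n → K)) (g : Matrix (Ix n) (Ix n) K)
    (d : c.δ) : val S g (Gd c (c.σ d)) = val S g (Gd c d) := by
  rw [← Gd_hat, val_hat]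

/-- an antitone predicate on `Fin n` is an initial segment -/
theorem exists_height (A : Fin n → Prop) (hA : ∀ i j, i < j → A j → A i) :
    ∃ h ≤ n, ∀ i : Fin n, A i ↔ (i : ℕ) < h := by
  classical
  have hex : ∃ k, ∀ i : Fin n, A i → (i : ℕ) < k := ⟨n, fun i _ => i.2⟩
  refine ⟨Nat.find hex, Nat.find_min' hex fun i _ => i.2, fun i => ⟨Nat.find_spec hex i, ?_⟩⟩
  intro hi
  have h1 := Nat.find_min hex hi
  push Not at h1
  obtain ⟨j, hj, hij⟩ := h1
  rcases hij.lt_or_eq with h2 | h2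
  · exact hA i j h2 hj
  · have : i = j := Fin.ext h2
    rw [this]; exact hj

theorem val_top (c : Cfg n a) (S : Submodule K (Ix n → K)) {g : Matrix (Ix n) (Ix n) K}
    (hg : Orth g) (d : c.δ) (hd : ∀ i, c.A i d) :
    val S g (Gd c d) = ∑ i : Fin n,
      ((if c.A i d then (1 : ℤ) else 0) + (if c.A i (c.σ d) then 1 else 0) - 1) * xx S g i := by
  classical
  obtain ⟨h, hh, hA⟩ := exists_height (fun i => c.A i (c.σ d)) (fun i j hij => c.mono i j hij _)
  have h1 : Gd c (c.σ d) = Xh h := by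
    funext p
    apply propext
    rcases p with i | i
    · exact hA i
    · change ¬ c.A i (c.σ (c.σ d)) ↔ False
      rw [c.inv]
      exact ⟨fun h => h (hd i), fun h => h.elim⟩
  rw [← val_Gd_σ, h1]
  change FF S g h = _
  rw [← tele (FF S g) (FF_zero S hg) hh]
  refine Finset.sum_congr rfl fun i _ => ?_
  rw [if_pos (hd i), xx]
  have h2 : (if c.A i (c.σ d) then (1 : ℤ) else 0) = if (i : ℕ) < h then 1 else 0 := by
    by_cases h3 : c.A i (c.σ d)
    · rw [if_pos h3, if_pos ((hA i).1 h3)]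
    · rw [if_neg h3, if_neg (fun h4 => h3 ((hA i).2 h4))]
  rw [h2]
  ring

theorem val_Gd [CharZero K] (c : Cfg n a) {S : Submodule K (Ix n → K)}
    {g : Matrix (Ix n) (Ix n) K} (hg : Orth g) (hS : ∀ x ∈ S, ∀ y ∈ S, form n K x y = 0)
    (d : c.δ) :
    val S g (Gd c d) = ∑ i : Fin n,
      ((if c.A i d then (1 : ℤ) else 0) + (if c.A i (c.σ d) then 1 else 0) - 1) * xx S g i := by
  classical
  by_cases h1 : ∀ i, c.A i d
  · exact val_top c S hg d h1
  by_cases h2 : ∀ i, c.A i (c.σ d)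
  · rw [← val_Gd_σ, val_top c S hg (c.σ d) h2]
    refine Finset.sum_congr rfl fun i _ => ?_
    rw [c.inv]
    ring
  push Not at h1 h2
  obtain ⟨i0, h0⟩ := h1
  obtain ⟨i1, h1⟩ := h2
  have h01 : i0 = i1 := by
    by_contra hne
    exact h0 (c.perp i0 i1 hne d h1)
  subst h01
  have hA : ∀ i, i ≠ i0 → c.A i d := fun i hi => c.perp i i0 hi d h1
  have hB : ∀ i, i ≠ i0 → c.A i (c.σ d) := fun i hi => c.perp i i0 hi (c.σ d) (by rw [c.inv]; exact h0)
  have hlast : (i0 : ℕ) + 1 = n := by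
    by_contra hne
    have hlt : (i0 : ℕ) + 1 < n := by have := i0.2; omega
    have hj : (⟨(i0 : ℕ) + 1, hlt⟩ : Fin n) ≠ i0 := by
      intro h
      have := congrArg Fin.val h
      simp only at this
      omega
    exact h0 (c.mono i0 ⟨(i0 : ℕ) + 1, hlt⟩ (by rw [Fin.lt_def]; simp) d (hA _ hj))
  have hA' : ∀ i, c.A i d ↔ (i : ℕ) + 1 < n := by
    intro i
    constructor
    · intro h
      have : i ≠ i0 := by rintro rfl; exact h0 h
      have h3 : (i : ℕ) ≠ i0 := fun h4 => this (Fin.ext h4)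
      have := i.2
      omega
    · intro h
      exact hA i (by rintro rfl; omega)
  have hB' : ∀ i, c.A i (c.σ d) ↔ (i : ℕ) + 1 < n := by
    intro i
    constructor
    · intro h
      have : i ≠ i0 := by rintro rfl; exact h1 h
      have h3 : (i : ℕ) ≠ i0 := fun h4 => this (Fin.ext h4)
      have := i.2
      omega
    · intro h
      exact hB i (by rintro rfl; omega)
  have hX : Gd c d = Xp := by
    funext p
    apply propext
    rcases p with i | i
    · exact hA' i
    · change ¬ c.A i (c.σ d) ↔ (i : ℕ) + 1 = n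
      rw [hB']
      have := i.2
      omega
  rw [hX]
  have hv := val_Xp hg hS hlast
  have e1 := tele (n := n) (FF S g) (FF_zero S hg) (h := i0) (by omega)
  have e2 := tele (n := n) (FF S g) (FF_zero S hg) (h := (i0 : ℕ) + 1) (by omega)
  have e3 : ∑ i : Fin n,
      ((if c.A i d then (1 : ℤ) else 0) + (if c.A i (c.σ d) then 1 else 0) - 1) * xx S g i =
      2 * ∑ i : Fin n, (if (i : ℕ) < i0 then (1 : ℤ) else 0) * (FF S g (i + 1) - FF S g i) -
      ∑ i : Fin n, (if (i : ℕ) < (i0 : ℕ) + 1 then (1 : ℤ) else 0) *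
        (FF S g (i + 1) - FF S g i) := by
    rw [Finset.mul_sum, ← Finset.sum_sub_distrib]
    refine Finset.sum_congr rfl fun i _ => ?_
    have hi := i.2
    rw [if_pos (show (i : ℕ) < (i0 : ℕ) + 1 by omega), xx]
    by_cases h : (i : ℕ) < i0
    · rw [if_pos h, if_pos ((hA' i).2 (by omega)), if_pos ((hB' i).2 (by omega))]
      ring
    · rw [if_neg h, if_neg (fun h' => h (by have := (hA' i).1 h'; omega)),
        if_neg (fun h' => h (by have := (hB' i).1 h'; omega))]
      ring
  rw [e3, e1, e2]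
  linarith

/-- sum over an arm -/
theorem cfg_sum [CharZero K] (c : Cfg n a) {S : Submodule K (Ix n → K)}
    {g : Matrix (Ix n) (Ix n) K} (hg : Orth g) (hS : ∀ x ∈ S, ∀ y ∈ S, form n K x y = 0)
    (s : Fin 3) :
    ∑ d ∈ Finset.univ.filter (fun d => c.arm d = s),
      (2 * (finrank K ↥(S ⊓ Co g (Gd c d)) : ℤ) - finrank K S) = ∑ i : Fin n, a s i * xx S g i := by
  classical
  have h1 : ∑ d ∈ Finset.univ.filter (fun d => c.arm d = s),
      (finrank K ↥(S ⊓ Co g (Gd c (c.σ d))) : ℤ) =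
      ∑ d ∈ Finset.univ.filter (fun d => c.arm d = s), (finrank K ↥(S ⊓ Co g (Gd c d)) : ℤ) := by
    refine Finset.sum_bij' (fun d _ => c.σ d) (fun d _ => c.σ d) ?_ ?_ ?_ ?_ ?_
    · intro d hd
      rw [Finset.mem_filter] at hd ⊢
      exact ⟨Finset.mem_univ _, by rw [c.arm_σ]; exact hd.2⟩
    · intro d hd
      rw [Finset.mem_filter] at hd ⊢
      exact ⟨Finset.mem_univ _, by rw [c.arm_σ]; exact hd.2⟩
    · intro d _; exact c.inv d
    · intro d _; exact c.inv d
    · intro d _; rfl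
  have h2 : ∑ d ∈ Finset.univ.filter (fun d => c.arm d = s),
      (2 * (finrank K ↥(S ⊓ Co g (Gd c d)) : ℤ) - finrank K S) =
      ∑ d ∈ Finset.univ.filter (fun d => c.arm d = s), val S g (Gd c d) := by
    have h3 : ∀ d : c.δ, val S g (Gd c d) = (finrank K ↥(S ⊓ Co g (Gd c d)) : ℤ) +
        finrank K ↥(S ⊓ Co g (Gd c (c.σ d))) - finrank K S := by
      intro d
      rw [val, Gd_hat]
    simp only [h3, Finset.sum_sub_distrib, Finset.sum_add_distrib, h1, ← Finset.mul_sum]
    ring
  rw [h2, Finset.sum_congr rfl fun d _ => val_Gd c hg hS d, Finset.sum_comm]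
  refine Finset.sum_congr rfl fun i _ => ?_
  rw [← Finset.sum_mul]
  congr 1
  have h4 : ∑ d ∈ Finset.univ.filter (fun d => c.arm d = s),
      (if c.A i (c.σ d) then (1 : ℤ) else 0) =
      ∑ d ∈ Finset.univ.filter (fun d => c.arm d = s), (if c.A i d then (1 : ℤ) else 0) := by
    refine Finset.sum_bij' (fun d _ => c.σ d) (fun d _ => c.σ d) ?_ ?_ ?_ ?_ ?_
    · intro d hd
      rw [Finset.mem_filter] at hd ⊢
      exact ⟨Finset.mem_univ _, by rw [c.arm_σ]; exact hd.2⟩
    · intro d hd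
      rw [Finset.mem_filter] at hd ⊢
      exact ⟨Finset.mem_univ _, by rw [c.arm_σ]; exact hd.2⟩
    · intro d _; exact c.inv d
    · intro d _; exact c.inv d
    · intro d _; rfl
  rw [Finset.sum_sub_distrib, Finset.sum_add_distrib, h4, c.count s i, Finset.sum_boole,
    Finset.filter_filter, Finset.sum_const, nsmul_eq_mul, mul_one]
  ring

/-- matrices with all columns in `S` -/
def SU {δ : Type*} (S : Submodule K (Ix n → K)) : Submodule K (Matrix (Ix n) δ K) where
  carrier := {F | ∀ d, (fun p => F p d) ∈ S}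
  add_mem' := fun {_ _} ha hb d => S.add_mem (ha d) (hb d)
  zero_mem' := fun _ => S.zero_mem
  smul_mem' := fun t {_} ha d => S.smul_mem t (ha d)

theorem mem_SU {δ : Type*} {S : Submodule K (Ix n → K)} {F : Matrix (Ix n) δ K} :
    F ∈ SU S ↔ ∀ d, (fun p => F p d) ∈ S := Iff.rfl

theorem mem_N' (c : Cfg n a) {g : Fin 3 → Matrix (Ix n) (Ix n) K} {F : Matrix (Ix n) c.δ K} :
    F ∈ c.N g ↔ ∀ d, (fun p => F p d) ∈ Co (g (c.arm d)) (Gd c d) := by
  constructor
  · rintro ⟨G, hG, rfl⟩ d
    refine ⟨fun p => G p d, ?_, ?_⟩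
    · rintro (i | i) hp
      · exact (hG i d).1 hp
      · exact (hG i d).2 (not_not.mp hp)
    · funext p
      change _ = FO.act c.arm g G p d
      rw [act_apply]
      rfl
  · intro h
    choose x hx hx' using h
    refine ⟨Matrix.of fun p d => x d p, ?_, ?_⟩
    · intro i d
      refine ⟨fun h => hx d (Sum.inl i) h, fun h => hx d (Sum.inr i) ?_⟩
      exact not_not.mpr h
    · ext p d
      change FO.act c.arm g (Matrix.of fun p d => x d p) p d = F p d
      rw [act_apply]
      have := congrFun (hx' d) p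
      exact this

/-- dimension of the part of `N g` with values in `S` -/
theorem finrank_N_inf (c : Cfg n a) (g : Fin 3 → Matrix (Ix n) (Ix n) K)
    (S : Submodule K (Ix n → K)) :
    finrank K ↥(c.N g ⊓ SU S) = ∑ d : c.δ, finrank K ↥(S ⊓ Co (g (c.arm d)) (Gd c d)) := by
  classical
  let e : ↥(c.N g ⊓ SU S) ≃ₗ[K] ((d : c.δ) → ↥(S ⊓ Co (g (c.arm d)) (Gd c d))) :=
    { toFun := fun F d => ⟨fun p => F.1 p d, F.2.2 d, (mem_N' c).1 F.2.1 d⟩
      invFun := fun f => ⟨Matrix.of fun p d => (f d).1 p,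
        (mem_N' c).2 fun d => (f d).2.2, fun d => (f d).2.1⟩
      map_add' := fun F G => rfl
      map_smul' := fun t F => rfl
      left_inv := fun F => rfl
      right_inv := fun f => rfl }
  rw [e.finrank_eq, finrank_pi_fintype]

/-- **the comparison** -/
theorem hm_cfg_eq [CharZero K] (c : Cfg n a) {g : Fin 3 → Matrix (Ix n) (Ix n) K}
    (hg : ∀ s, Orth (g s)) {S T : Submodule K (Ix n → K)}
    (hS : ∀ x ∈ S, ∀ y ∈ S, form n K x y = 0)
    (hT : ∀ v, v ∈ T ↔ ∀ s ∈ S, form n K v s = 0) :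
    ∑ s, ∑ i : Fin n, (bb (a s) i - bb (a s) ((i : ℕ) + 1)) *
      ((finrank K ↥(S ⊓ Efl (a s) (g s) i) : ℤ) + finrank K ↥(T ⊓ Efl (a s) (g s) i) -
        finrank K (Efl (a s) (g s) i)) =
    2 * finrank K ↥(c.N g ⊓ SU S) - Fintype.card c.δ * finrank K S := by
  classical
  have h1 : ∀ s, ∑ i : Fin n, (bb (a s) i - bb (a s) ((i : ℕ) + 1)) *
      ((finrank K ↥(S ⊓ Efl (a s) (g s) i) : ℤ) + finrank K ↥(T ⊓ Efl (a s) (g s) i) -
        finrank K (Efl (a s) (g s) i)) =
      ∑ d ∈ Finset.univ.filter (fun d => c.arm d = s),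
      (2 * (finrank K ↥(S ⊓ Co (g (c.arm d)) (Gd c d)) : ℤ) - finrank K S) := by
    intro s
    have h2 : ∑ d ∈ Finset.univ.filter (fun d => c.arm d = s),
        (2 * (finrank K ↥(S ⊓ Co (g (c.arm d)) (Gd c d)) : ℤ) - finrank K S) =
        ∑ d ∈ Finset.univ.filter (fun d => c.arm d = s),
        (2 * (finrank K ↥(S ⊓ Co (g s) (Gd c d)) : ℤ) - finrank K S) := by
      refine Finset.sum_congr rfl fun d hd => ?_
      rw [(Finset.mem_filter.1 hd).2]
    rw [h2, cfg_sum c (hg s) hS s, ← arm_sum (hg s) hS (a s)]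
    refine Finset.sum_congr rfl fun i _ => ?_
    rw [Efl_eq, val_eq (hg s) S T hT]
  rw [Finset.sum_congr rfl fun s _ => h1 s]
  have h3 := Finset.sum_fiberwise (s := (Finset.univ : Finset c.δ)) (g := c.arm)
    (f := fun d => (2 * (finrank K ↥(S ⊓ Co (g (c.arm d)) (Gd c d)) : ℤ) - finrank K S))
  rw [h3, Finset.sum_sub_distrib, ← Finset.mul_sum, finrank_N_inf, Finset.sum_const,
    Finset.card_univ, nsmul_eq_mul]
  push_cast
  rfl

end Crest.Agent.R172.HM9
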