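import Crest.Agent.R172.StarDefs

/-!
Row 172.  Consequences of a star form: complements, irreducibility of the module generated by a
highest weight vector, invariant vectors versus invariant functionals, `HasInvariant` in terms of
invariant functionals on a model.
-/

set_option autoImplicit false
set_option linter.unusedSectionVars false

open Crest.AlgebraR.SpinSaturation
open scoped Matrix TensorProduct ComplexConjugate

namespace Crest.Agent.R172.Star

open Crest.Agent.R172.SoGrade Crest.Agent.R172.HwUnique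

variable {n : ℕ}

section one

variable {X : Type*} [AddCommGroup X] [Module ℂ X] [LieRingModule (soD n) X]
  [LieModule ℂ (soD n) X]

theorem core_swap_zero (c : InnerProductSpace.Core ℂ X) {x y : X} (h : c.inner x y = 0) :
    c.inner y x = 0 := by
  rw [← c.conj_inner_symm, h, map_zero]

theorem StarForm.adj' (s : StarForm n X) (A : soD n) (x y : X) :
    s.core.inner x ⁅A, y⁆ = s.core.inner ⁅hc A, x⁆ y := by
  rw [s.adj, hc_hc]

/-- the orthogonal complement -/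
def StarForm.perp (s : StarForm n X) (N : LieSubmodule ℂ (soD n) X) :
    LieSubmodule ℂ (soD n) X where
  carrier := {y | ∀ x ∈ N, s.core.inner x y = 0}
  add_mem' := by
    intro a b ha hb x hx
    rw [core_add_right, ha x hx, hb x hx, add_zero]
  zero_mem' := by
    intro x _
    exact core_zero_right _ _
  smul_mem' := by
    intro t a ha x hx
    rw [core_smul_right, ha x hx, mul_zero]
  lie_mem := by
    intro A y hy x hx
    rw [s.adj']
    exact hy _ (N.lie_mem hx)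

theorem StarForm.mem_perp (s : StarForm n X) (N : LieSubmodule ℂ (soD n) X) {y : X} :
    y ∈ s.perp N ↔ ∀ x ∈ N, s.core.inner x y = 0 := Iff.rfl

theorem StarForm.disj (s : StarForm n X) (N : LieSubmodule ℂ (soD n) X) {y : X} (h : y ∈ N)
    (h' : y ∈ s.perp N) : y = 0 :=
  s.core.definite y (h' y h)

theorem StarForm.decomp [FiniteDimensional ℂ X] (s : StarForm n X)
    (N : LieSubmodule ℂ (soD n) X) (v : X) :
    ∃ a ∈ N, ∃ b ∈ s.perp N, v = a + b := by
  let nX : NormedAddCommGroup X := s.core.toNormedAddCommGroup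
  let iX : InnerProductSpace ℂ X := InnerProductSpace.ofCore s.core.toCore
  let K : Submodule ℂ X := N.toSubmodule
  have : FiniteDimensional ℂ K := inferInstance
  obtain ⟨y, hy, z, hz, h⟩ := K.exists_add_mem_mem_orthogonal v
  refine ⟨y, hy, z, ?_, h⟩
  intro x hx
  exact (Submodule.mem_orthogonal K z).1 hz x hx

/-- restriction of a star form to a submodule -/
def StarForm.restrict (s : StarForm n X) (N : LieSubmodule ℂ (soD n) X) : StarForm n N where
  core :=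
    { inner := fun x y => s.core.inner x.1 y.1
      conj_inner_symm := fun x y => s.core.conj_inner_symm x.1 y.1
      re_inner_nonneg := fun x => s.core.re_inner_nonneg x.1
      add_left := fun x y z => s.core.add_left x.1 y.1 z.1
      smul_left := fun x y r => s.core.smul_left x.1 y.1 r
      definite := fun x hx => Subtype.ext (s.core.definite x.1 hx) }
  adj := fun A x y => s.adj A x.1 y.1

/-- the equivariant projection to a submodule -/
theorem StarForm.exists_proj [FiniteDimensional ℂ X] (s : StarForm n X)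
    (N : LieSubmodule ℂ (soD n) X) :
    ∃ p : X →ₗ⁅ℂ, soD n⁆ N, ∀ x : N, p x = x := by
  classical
  choose a ha b hb hab using s.decomp N
  have key : ∀ v a' b', a' ∈ N → b' ∈ s.perp N → v = a' + b' → a v = a' := by
    intro v a' b' ha' hb' h
    have h1 : a v - a' = b' - b v := by
      have h2 : a v + b v = a' + b' := (hab v).symm.trans h
      have h3 : a v = a' + b' - b v := eq_sub_of_add_eq h2
      rw [h3]; abel
    have h4 : a v - a' ∈ s.perp N := by rw [h1]; exact (s.perp N).sub_mem hb' (hb v)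
    have h5 := s.disj N (N.sub_mem (ha v) ha') h4
    exact sub_eq_zero.1 h5
  refine ⟨{ toFun := fun v => ⟨a v, ha v⟩, map_add' := ?_, map_smul' := ?_, map_lie' := ?_ }, ?_⟩
  · intro v w
    apply Subtype.ext
    refine key _ (a v + a w) (b v + b w) (N.add_mem (ha v) (ha w))
      ((s.perp N).add_mem (hb v) (hb w)) ?_
    nth_rewrite 1 [hab v, hab w]
    abel
  · intro t v
    apply Subtype.ext
    refine key _ (t • a v) (t • b v) (N.smul_mem t (ha v))
      ((s.perp N).smul_mem t (hb v)) ?_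
    nth_rewrite 1 [hab v]
    rw [smul_add]
  · intro A v
    apply Subtype.ext
    refine key _ (⁅A, a v⁆) (⁅A, b v⁆) (N.lie_mem (ha v)) ((s.perp N).lie_mem (hb v)) ?_
    nth_rewrite 1 [hab v]
    rw [lie_add]
  · intro x
    apply Subtype.ext
    exact key x.1 x.1 0 x.2 (s.perp N).zero_mem (by rw [add_zero])

/-- nonzero invariant functional gives a nonzero invariant vector -/
theorem StarForm.inv_of_functional [FiniteDimensional ℂ X] (s : StarForm n X) (l : X →ₗ[ℂ] ℂ)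
    (hl : l ≠ 0) (hinv : ∀ (A : soD n) (x : X), l ⁅A, x⁆ = 0) :
    ∃ t : X, l t ≠ 0 ∧ ∀ A : soD n, ⁅A, t⁆ = 0 := by
  let K : LieSubmodule ℂ (soD n) X :=
    { LinearMap.ker l with
      lie_mem := by
        intro A x _
        exact LinearMap.mem_ker.2 (hinv A x) }
  have hK : ∀ x, x ∈ K ↔ l x = 0 := fun x => LinearMap.mem_ker
  obtain ⟨v, hv⟩ : ∃ v, l v ≠ 0 := by
    by_contra h
    push Not at h
    exact hl (LinearMap.ext h)
  obtain ⟨a, ha, b, hb, h⟩ := s.decomp K v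
  have hlb : l b ≠ 0 := by
    intro h0
    apply hv
    rw [h, map_add, (hK a).1 ha, h0, add_zero]
  refine ⟨b, hlb, fun A => ?_⟩
  exact s.disj K ((hK _).2 (hinv A b)) ((s.perp K).lie_mem hb)

/-- a nonzero invariant vector gives an invariant functional not vanishing on it -/
theorem StarForm.functional_of_inv (s : StarForm n X) (t : X) (ht : t ≠ 0)
    (hinv : ∀ A : soD n, ⁅A, t⁆ = 0) :
    ∃ l : X →ₗ[ℂ] ℂ, l t ≠ 0 ∧ ∀ (A : soD n) (x : X), l ⁅A, x⁆ = 0 := by
  refine ⟨{ toFun := fun y => s.core.inner t y, map_add' := ?_, map_smul' := ?_ }, ?_, ?_⟩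
  · intro x y; exact core_add_right _ _ _ _
  · intro r x; exact core_smul_right _ _ _ _
  · exact fun h => ht (s.core.definite t h)
  · intro A x
    change s.core.inner t ⁅A, x⁆ = 0
    rw [s.adj', hinv, core_zero_left]

variable {a : Fin n → ℤ}

/-- the module generated by a vector -/
abbrev gen (n : ℕ) {X : Type*} [AddCommGroup X] [Module ℂ X] [LieRingModule (soD n) X]
    [LieModule ℂ (soD n) X] (x : X) : LieSubmodule ℂ (soD n) X :=
  LieSubmodule.lieSpan ℂ (soD n) ({x} : Set X)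

theorem mem_gen (x : X) : x ∈ gen n x := LieSubmodule.subset_lieSpan (Set.mem_singleton x)

theorem gen_le {x : X} {N : LieSubmodule ℂ (soD n) X} (h : x ∈ N) : gen n x ≤ N := by
  rw [LieSubmodule.lieSpan_le]
  rintro _ rfl
  exact h

/-- the submodule generated by a highest weight vector is irreducible -/
theorem StarForm.gen_minimal [FiniteDimensional ℂ X] (s : StarForm n X) {x : X}
    (hx : IsHighestWeightVector n a x) (N : LieSubmodule ℂ (soD n) X) (hN : N ≤ gen n x) :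
    N = ⊥ ∨ N = gen n x := by
  obtain ⟨u, hu, v, hv, h⟩ := s.decomp N x
  have hvg : v ∈ gen n x := by
    have : v = x - u := by rw [h]; abel
    rw [this]
    exact (gen n x).sub_mem (mem_gen x) (hN hu)
  have hD := hw_DD hx
  -- both components are eigenvectors
  have h1 : ⁅DD n, u⁆ - topEig a • u = topEig a • v - ⁅DD n, v⁆ := by
    have : ⁅DD n, u⁆ + ⁅DD n, v⁆ = topEig a • u + topEig a • v := by
      rw [← lie_add, ← smul_add, ← h]; exact hD
    have h3 : ⁅DD n, u⁆ = topEig a • u + topEig a • v - ⁅DD n, v⁆ := eq_sub_of_add_eq this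
    rw [h3]; abel
  have h2 : ⁅DD n, u⁆ - topEig a • u = 0 := by
    refine s.disj N (N.sub_mem (N.lie_mem hu) (N.smul_mem _ hu)) ?_
    rw [h1]
    exact (s.perp N).sub_mem ((s.perp N).smul_mem _ hv) ((s.perp N).lie_mem hv)
  have h4 : ⁅DD n, v⁆ = topEig a • v := by
    rw [h2] at h1
    exact (sub_eq_zero.1 h1.symm).symm
  obtain ⟨t, ht⟩ := hw_top_line hx hvg h4
  by_cases ht0 : t = 0
  · right
    rw [ht0, zero_smul] at ht
    rw [ht, add_zero] at h
    apply le_antisymm hN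
    apply gen_le
    rw [h]; exact hu
  · left
    have hxp : x ∈ s.perp N := by
      have : x = t⁻¹ • v := by rw [ht, smul_smul, inv_mul_cancel₀ ht0, one_smul]
      rw [this]
      exact (s.perp N).smul_mem _ hv
    have hle := gen_le hxp
    rw [eq_bot_iff]
    intro y hy
    rw [LieSubmodule.mem_bot]
    exact s.disj N hy (hle (hN hy))

theorem StarForm.gen_irreducible [FiniteDimensional ℂ X] (s : StarForm n X) {x : X}
    (hx : IsHighestWeightVector n a x) : LieModule.IsIrreducible ℂ (soD n) (gen n x) := by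
  have : Nontrivial (gen n x) := by
    refine ⟨⟨⟨x, mem_gen x⟩, 0, ?_⟩⟩
    intro h
    exact hx.1 (congrArg Subtype.val h)
  apply LieModule.IsIrreducible.mk
  intro N hN
  rcases s.gen_minimal hx (N.map (gen n x).incl) (by
    intro y hy
    rw [LieSubmodule.mem_map] at hy
    obtain ⟨m, _, rfl⟩ := hy
    exact m.2) with h | h
  · exfalso
    apply hN
    rw [eq_bot_iff]
    intro y hy
    rw [LieSubmodule.mem_bot]
    have : (y : X) ∈ N.map (gen n x).incl := by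
      rw [LieSubmodule.mem_map]; exact ⟨y, hy, rfl⟩
    rw [h, LieSubmodule.mem_bot] at this
    exact Subtype.ext this
  · rw [eq_top_iff]
    intro y _
    have : (y : X) ∈ N.map (gen n x).incl := by rw [h]; exact y.2
    rw [LieSubmodule.mem_map] at this
    obtain ⟨m, hm, hmy⟩ := this
    have : m = y := Subtype.ext hmy
    rw [← this]; exact hm

theorem hw_gen {x : X} (hx : IsHighestWeightVector n a x) :
    IsHighestWeightVector n a (⟨x, mem_gen x⟩ : gen n x) := by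
  refine ⟨fun h => hx.1 (congrArg Subtype.val h), ?_, ?_⟩
  · intro h A hA
    apply Subtype.ext
    exact hx.2.1 h A hA
  · intro A h1 h2
    apply Subtype.ext
    exact hx.2.2 A h1 h2

/-- every irreducible representation of highest weight `a` is the module generated by the
highest weight vector of the model -/
theorem StarForm.exists_equiv [FiniteDimensional ℂ X] (s : StarForm n X) {x : X}
    (hx : IsHighestWeightVector n a x) (U : Irrep n a) :
    Nonempty (U.V ≃ₗ⁅ℂ, soD n⁆ gen n x) := by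
  obtain ⟨v, hv⟩ := U.highestWeight
  have := U.irreducible
  have := s.gen_irreducible hx
  obtain ⟨e, _⟩ := irrep_unique hv (hw_gen hx)
  exact ⟨e⟩

end one

section equiv

variable {X Y : Type*} [AddCommGroup X] [Module ℂ X] [LieRingModule (soD n) X]
  [LieModule ℂ (soD n) X]
  [AddCommGroup Y] [Module ℂ Y] [LieRingModule (soD n) Y] [LieModule ℂ (soD n) Y]

/-- existence of a nonzero invariant vector -/
def HasInvVec (n : ℕ) (X : Type*) [AddCommGroup X] [Module ℂ X] [LieRingModule (soD n) X] :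
    Prop :=
  ∃ t : X, t ≠ 0 ∧ ∀ A : soD n, ⁅A, t⁆ = 0

theorem HasInvVec.of_inj (f : X →ₗ⁅ℂ, soD n⁆ Y) (hf : Function.Injective f)
    (h : HasInvVec n X) : HasInvVec n Y := by
  obtain ⟨t, ht, hA⟩ := h
  refine ⟨f t, fun h0 => ht (hf (by rw [h0, map_zero])), fun A => ?_⟩
  rw [← LieModuleHom.map_lie, hA, map_zero]

end equiv

section three

variable {X Y Z : Type*} [AddCommGroup X] [Module ℂ X] [LieRingModule (soD n) X]
  [LieModule ℂ (soD n) X]
  [AddCommGroup Y] [Module ℂ Y] [LieRingModule (soD n) Y] [LieModule ℂ (soD n) Y]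
  [AddCommGroup Z] [Module ℂ Z] [LieRingModule (soD n) Z] [LieModule ℂ (soD n) Z]
  {X' Y' Z' : Type*} [AddCommGroup X'] [Module ℂ X'] [LieRingModule (soD n) X']
  [LieModule ℂ (soD n) X']
  [AddCommGroup Y'] [Module ℂ Y'] [LieRingModule (soD n) Y'] [LieModule ℂ (soD n) Y']
  [AddCommGroup Z'] [Module ℂ Z'] [LieRingModule (soD n) Z'] [LieModule ℂ (soD n) Z']

theorem hasInvVec_congr3 (e : X ≃ₗ⁅ℂ, soD n⁆ X') (f : Y ≃ₗ⁅ℂ, soD n⁆ Y')
    (g : Z ≃ₗ⁅ℂ, soD n⁆ Z') :
    HasInvVec n (X ⊗[ℂ] (Y ⊗[ℂ] Z)) → HasInvVec n (X' ⊗[ℂ] (Y' ⊗[ℂ] Z')) := by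
  intro h
  let F : (X ⊗[ℂ] (Y ⊗[ℂ] Z)) →ₗ⁅ℂ, soD n⁆ (X' ⊗[ℂ] (Y' ⊗[ℂ] Z')) :=
    TensorProduct.LieModule.map e.toLieModuleHom
      (TensorProduct.LieModule.map f.toLieModuleHom g.toLieModuleHom)
  let G : (X' ⊗[ℂ] (Y' ⊗[ℂ] Z')) →ₗ⁅ℂ, soD n⁆ (X ⊗[ℂ] (Y ⊗[ℂ] Z)) :=
    TensorProduct.LieModule.map e.symm.toLieModuleHom
      (TensorProduct.LieModule.map f.symm.toLieModuleHom g.symm.toLieModuleHom)
  refine h.of_inj F ?_
  have hGF : ∀ t, G (F t) = t := by
    intro t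
    have hlin : (G : (X' ⊗[ℂ] (Y' ⊗[ℂ] Z')) →ₗ[ℂ] (X ⊗[ℂ] (Y ⊗[ℂ] Z))) ∘ₗ
        (F : (X ⊗[ℂ] (Y ⊗[ℂ] Z)) →ₗ[ℂ] (X' ⊗[ℂ] (Y' ⊗[ℂ] Z'))) = LinearMap.id := by
      apply TensorProduct.ext'
      intro x yz
      induction yz using TensorProduct.induction_on with
      | zero => simp
      | add a b ha hb => rw [TensorProduct.tmul_add, map_add, map_add, ha, hb]
      | tmul y z =>
        change G (F (x ⊗ₜ[ℂ] (y ⊗ₜ[ℂ] z))) = x ⊗ₜ[ℂ] (y ⊗ₜ[ℂ] z)
        have h1 : F (x ⊗ₜ[ℂ] (y ⊗ₜ[ℂ] z)) = e x ⊗ₜ[ℂ] (f y ⊗ₜ[ℂ] g z) := rfl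
        have h2 : G (e x ⊗ₜ[ℂ] (f y ⊗ₜ[ℂ] g z)) =
          e.symm (e x) ⊗ₜ[ℂ] (f.symm (f y) ⊗ₜ[ℂ] g.symm (g z)) := rfl
        rw [h1, h2, e.symm_apply_apply, f.symm_apply_apply, g.symm_apply_apply]
    exact LinearMap.congr_fun hlin t
  intro a b hab
  rw [← hGF a, ← hGF b, hab]

/-- **Invariant vectors versus invariant functionals on a model.** -/
theorem hasInvVec_gen_iff [FiniteDimensional ℂ X] [FiniteDimensional ℂ Y] [FiniteDimensional ℂ Z]
    (sX : StarForm n X) (sY : StarForm n Y) (sZ : StarForm n Z)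
    (M : LieSubmodule ℂ (soD n) X) (M' : LieSubmodule ℂ (soD n) Y)
    (M'' : LieSubmodule ℂ (soD n) Z) :
    HasInvVec n (M ⊗[ℂ] (M' ⊗[ℂ] M'')) ↔
      ∃ l : X ⊗[ℂ] (Y ⊗[ℂ] Z) →ₗ[ℂ] ℂ, (∀ (A : soD n) (t : X ⊗[ℂ] (Y ⊗[ℂ] Z)), l ⁅A, t⁆ = 0) ∧
        ∃ p ∈ M, ∃ q ∈ M', ∃ r ∈ M'', l (p ⊗ₜ[ℂ] (q ⊗ₜ[ℂ] r)) ≠ 0 := by
  let s : StarForm n (M ⊗[ℂ] (M' ⊗[ℂ] M'')) :=
    (sX.restrict M).tensor ((sY.restrict M').tensor (sZ.restrict M''))
  constructor
  · rintro ⟨t, ht, hA⟩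
    obtain ⟨l, hlt, hl⟩ := s.functional_of_inv t ht hA
    obtain ⟨pX, hpX⟩ := sX.exists_proj M
    obtain ⟨pY, hpY⟩ := sY.exists_proj M'
    obtain ⟨pZ, hpZ⟩ := sZ.exists_proj M''
    let Pr : (X ⊗[ℂ] (Y ⊗[ℂ] Z)) →ₗ⁅ℂ, soD n⁆ (M ⊗[ℂ] (M' ⊗[ℂ] M'')) :=
      TensorProduct.LieModule.map pX (TensorProduct.LieModule.map pY pZ)
    refine ⟨l ∘ₗ (Pr : (X ⊗[ℂ] (Y ⊗[ℂ] Z)) →ₗ[ℂ] (M ⊗[ℂ] (M' ⊗[ℂ] M''))), ?_, ?_⟩
    · intro A u
      change l (Pr ⁅A, u⁆) = 0
      rw [LieModuleHom.map_lie]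
      exact hl A _
    · by_contra hcon
      push Not at hcon
      apply hlt
      have hz : l = 0 := by
        apply TensorProduct.ext'
        intro x yz
        induction yz using TensorProduct.induction_on with
        | zero => simp
        | add a b ha hb => rw [TensorProduct.tmul_add, map_add, map_add, ha, hb]
        | tmul y z =>
          have := hcon x x.2 y y.2 z z.2
          have h1 : (l ∘ₗ (Pr : (X ⊗[ℂ] (Y ⊗[ℂ] Z)) →ₗ[ℂ] (M ⊗[ℂ] (M' ⊗[ℂ] M''))))
              ((x : X) ⊗ₜ[ℂ] ((y : Y) ⊗ₜ[ℂ] (z : Z))) = l (pX x ⊗ₜ[ℂ] (pY y ⊗ₜ[ℂ] pZ z)) := rfl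
          rw [h1, hpX, hpY, hpZ] at this
          rw [this]; rfl
      rw [hz]; rfl
  · rintro ⟨l, hl, p, hp, q, hq, r, hr, hne⟩
    let I : (M ⊗[ℂ] (M' ⊗[ℂ] M'')) →ₗ⁅ℂ, soD n⁆ (X ⊗[ℂ] (Y ⊗[ℂ] Z)) :=
      TensorProduct.LieModule.map M.incl (TensorProduct.LieModule.map M'.incl M''.incl)
    let l' : (M ⊗[ℂ] (M' ⊗[ℂ] M'')) →ₗ[ℂ] ℂ :=
      l ∘ₗ (I : (M ⊗[ℂ] (M' ⊗[ℂ] M'')) →ₗ[ℂ] (X ⊗[ℂ] (Y ⊗[ℂ] Z)))
    have hl' : ∀ (A : soD n) (t : M ⊗[ℂ] (M' ⊗[ℂ] M'')), l' ⁅A, t⁆ = 0 := by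
      intro A t
      change l (I ⁅A, t⁆) = 0
      rw [LieModuleHom.map_lie]
      exact hl A _
    have hne' : l' ≠ 0 := by
      intro h0
      apply hne
      have : l' ((⟨p, hp⟩ : M) ⊗ₜ[ℂ] ((⟨q, hq⟩ : M') ⊗ₜ[ℂ] (⟨r, hr⟩ : M''))) = 0 := by
        rw [h0]; rfl
      exact this
    obtain ⟨t, ht, hA⟩ := s.inv_of_functional l' hne' hl'
    exact ⟨t, fun h0 => ht (by rw [h0, map_zero]), hA⟩

/-- **`HasInvariant` through models.** -/
theorem hasInvariant_iff [FiniteDimensional ℂ X] [FiniteDimensional ℂ Y] [FiniteDimensional ℂ Z]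
    (sX : StarForm n X) (sY : StarForm n Y) (sZ : StarForm n Z) {a b c : Fin n → ℤ}
    {x : X} {y : Y} {z : Z} (hx : IsHighestWeightVector n a x)
    (hy : IsHighestWeightVector n b y) (hz : IsHighestWeightVector n c z)
    (U : Irrep n a) (V : Irrep n b) (W : Irrep n c) :
    HasInvariant U V W ↔
      ∃ l : X ⊗[ℂ] (Y ⊗[ℂ] Z) →ₗ[ℂ] ℂ, (∀ (A : soD n) (t : X ⊗[ℂ] (Y ⊗[ℂ] Z)), l ⁅A, t⁆ = 0) ∧
        ∃ p ∈ gen n x, ∃ q ∈ gen n y, ∃ r ∈ gen n z, l (p ⊗ₜ[ℂ] (q ⊗ₜ[ℂ] r)) ≠ 0 := by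
  rw [← hasInvVec_gen_iff sX sY sZ]
  obtain ⟨e⟩ := sX.exists_equiv hx U
  obtain ⟨f⟩ := sY.exists_equiv hy V
  obtain ⟨g⟩ := sZ.exists_equiv hz W
  constructor
  · intro h
    exact hasInvVec_congr3 e f g h
  · intro h
    exact hasInvVec_congr3 e.symm f.symm g.symm h

end three

end Crest.Agent.R172.Star
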