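import Crest.Agent.R172.Cov

/-!
Row 172 (S0260), T0: the universal cover with the property that every cochain is a coboundary.
-/

set_option autoImplicit false
set_option linter.unusedSectionVars false

namespace Crest.Agent.R172.HexC

open Module LinearMap Crest.Agent.R172.CovT

universe u

variable {K : Type*} [Field K]

/-- values of words of length `j` -/
def Im {Z : Type*} [AddCommGroup Z] [Module K Z] (Bz : Fin 3 → End K Z) : ℕ → Submodule K Z
  | 0 => ⊤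
  | j + 1 => ⨆ s, (Im Bz j).map (Bz s)

section step

variable {X0 X : Type u} [AddCommGroup X0] [Module K X0] [AddCommGroup X] [Module K X]
  {A : Fin 3 → End K X} {pr : X →ₗ[K] X0}

/-- every cochain on `X0` is a coboundary on `X` up to words of length `n` -/
def Co (A : Fin 3 → End K X) (pr : X →ₗ[K] X0) (n : ℕ) : Prop :=
  ∀ (Z : Type u) [AddCommGroup Z] [Module K Z] (Bz : Fin 3 → End K Z)
    (κ : Fin 3 → (X0 →ₗ[K] Z)), (∀ z, Bz 0 z + Bz 1 z + Bz 2 z = 0) →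
    (∀ x, κ 0 x + κ 1 x + κ 2 x = 0) →
    ∃ θ : X →ₗ[K] Z, ∀ s x, θ (A s x) - Bz s (θ x) - κ s (pr x) ∈ Im Bz n

theorem Co.base (A : Fin 3 → End K X) (pr : X →ₗ[K] X0) : Co A pr 0 :=
  fun _ _ _ _ _ _ _ => ⟨0, fun _ _ => Submodule.mem_top⟩

theorem Co.step {n : ℕ} (hs : ∀ x, A 0 x + A 1 x + A 2 x = 0) (h : Co A pr n) :
    Co (A' A) (pr ∘ₗ pi' A) (n + 1) := by
  intro Z _ _ Bz κ hB hκ
  obtain ⟨θ, hθ⟩ := h Z Bz κ hB hκ
  let f : Fin 3 → (X →ₗ[K] Z) := fun t => Bz t ∘ₗ θ + κ t ∘ₗ pr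
  let θ' : X × X →ₗ[K] Z := (f 0).coprod (f 1)
  have hf0 : ∀ x, f 0 x + f 1 x + f 2 x = 0 := by
    intro x
    have h1 := hB (θ x)
    have h2 := hκ (pr x)
    calc f 0 x + f 1 x + f 2 x = (Bz 0 (θ x) + Bz 1 (θ x) + Bz 2 (θ x)) +
          (κ 0 (pr x) + κ 1 (pr x) + κ 2 (pr x)) := by
          simp only [f, LinearMap.add_apply, LinearMap.comp_apply]; abel
      _ = 0 := by rw [h1, h2, add_zero]
  have hem : ∀ t x, θ' (CovT.em K X t x) = f t x := by
    intro t x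
    fin_cases t
    · simp [θ', CovT.em]
    · simp [θ', CovT.em]
    · have h2 : f 2 x = -(f 0 x + f 1 x) := by
        rw [eq_neg_iff_add_eq_zero, add_comm]; exact hf0 x
      change θ' (CovT.em K X 2 x) = f 2 x
      rw [h2]
      simp [θ', CovT.em]
      abel
  refine ⟨θ', fun s z => ?_⟩
  have h1 : ∀ w x, θ' (A' A s (CovT.em K X w x)) - Bz s (θ' (CovT.em K X w x)) -
      κ s ((pr ∘ₗ pi' A) (CovT.em K X w x)) ∈ Im Bz (n + 1) := by
    intro w x
    have e1 : A' A s (CovT.em K X w x) = CovT.em K X s (A w x) := by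
      change CovT.em K X s (pi' A (CovT.em K X w x)) = _
      rw [pi'_em hs]
    rw [e1, hem, hem, LinearMap.comp_apply, pi'_em hs]
    have e2 : f s (A w x) - Bz s (f w x) - κ s (pr (A w x)) =
        Bz s (θ (A w x) - Bz w (θ x) - κ w (pr x)) := by
      simp only [f, LinearMap.add_apply, LinearMap.comp_apply, map_sub, map_add]
      abel
    rw [e2]
    exact Submodule.mem_iSup_of_mem s (Submodule.mem_map_of_mem (hθ w x))
  have h2 : z = CovT.em K X 0 z.1 + CovT.em K X 1 z.2 := by simp [CovT.em]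
  have h3 := Submodule.add_mem _ (h1 0 z.1) (h1 1 z.2)
  rw [h2]
  simp only [map_add] at h3 ⊢
  convert h3 using 1
  abel

end step

section main

variable {V U' M : Type*} {X0 : Type u} [AddCommGroup V] [Module K V] [AddCommGroup U']
  [Module K U'] [AddCommGroup M] [Module K M] [AddCommGroup X0] [Module K X0]
  {Φ Ψ : Fin 3 → End K V} {f g : V →ₗ[K] U'} {F' : Fin 3 → U' →ₗ[K] V} {Tp : Submodule K V}
  {pM : V →ₗ[K] M} {A0 : Fin 3 → End K X0} {D0 : End K X0} {p0 : X0 →ₗ[K] M}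

/-- **The cover, with cochains.** -/
theorem exists_covCo (hΦ : ∀ s v, Φ s v = F' s (f v)) (hΨ : ∀ s v, Ψ s v = F' s (g v))
    (hgf : ∀ s v, g (Φ s v) = f (Ψ s v)) (hsum : ∀ v, Φ 0 v + Φ 1 v + Φ 2 v = 0)
    (hTp : ∀ s, ∀ v ∈ Tp, Φ s v ∈ Tp) (hTp' : ∀ s, ∀ v ∈ Tp, Ψ s v ∈ Tp)
    {φ : Fin 3 → End K M} {τ : End K M}
    (hpM : ∀ s, ∀ v ∈ Tp, pM (Φ s v) = φ s (pM v))
    (hpM' : ∀ s, ∀ v ∈ Tp, pM (Ψ s v) = φ s (τ (pM v)))
    {k : ℕ} (hk : ∀ v ∈ Tp, pM v = 0 → v ∈ Nil Φ k) {sec : M →ₗ[K] V}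
    (hsec : ∀ m, sec m ∈ Tp) (hsec' : ∀ m, pM (sec m) = m)
    (hA0 : ∀ x, A0 0 x + A0 1 x + A0 2 x = 0) (hAD : ∀ s x, D0 (A0 s x) = A0 s (D0 x))
    (hperf : ∀ x, ∃ y : Fin 3 → X0, x = ∑ s, A0 s (y s))
    (hp0 : ∀ s x, p0 (A0 s x) = φ s (p0 x)) (hpD : ∀ x, p0 (D0 x) = τ (p0 x)) :
    ∃ (X : Type u) (_ : AddCommGroup X) (_ : Module K X) (A : Fin 3 → End K X) (D : End K X)
      (pr : X →ₗ[K] X0) (l : X →ₗ[K] V) (n : ℕ),
      Stage Φ f g Tp pM A0 D0 p0 True 0 0 n A D pr l ∧ Co A pr n := by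
  have h0 := Stage.base (Φ := Φ) (f := f) (g := g) (D0 := D0) hA0 hAD hperf hTp hpM hp0 hk hsec hsec'
  have h1 := Stage.step (e' := k) (F' := F') hΦ hΨ hgf hsum hTp hpM hp0 h0
  have h2 : Stage Φ f g Tp pM A0 D0 p0 True (k - 1) k (0 + 1) (A' A0) (LinearMap.prodMap D0 D0)
      (LinearMap.id ∘ₗ pi' A0) (l' Φ (sec ∘ₗ p0)) :=
    { sumA := h1.sumA
      comm := h1.comm
      prA := h1.prA
      prD := h1.prD
      surj := h1.surj
      perf := h1.perf
      nil := h1.nil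
      lTp := h1.lTp
      lpM := h1.lpM
      errA := h1.errA
      nilD := h1.nilD
      fin := h1.fin
      errG := by
        intro _ z
        refine ⟨(Ψ 0 (sec (p0 z.1)) - Φ 0 (sec (p0 (D0 z.1)))) +
          (Ψ 1 (sec (p0 z.2)) - Φ 1 (sec (p0 (D0 z.2)))), ?_, ?_⟩
        · refine hk _ (Tp.add_mem (Tp.sub_mem (hTp' 0 _ (hsec _)) (hTp 0 _ (hsec _)))
            (Tp.sub_mem (hTp' 1 _ (hsec _)) (hTp 1 _ (hsec _)))) ?_
          rw [map_add, map_sub, map_sub, hpM' 0 _ (hsec _), hpM' 1 _ (hsec _), hpM 0 _ (hsec _),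
            hpM 1 _ (hsec _), hsec', hsec', hsec', hsec', hpD, hpD, sub_self, sub_self, add_zero]
        · simp only [l', LinearMap.coprod_apply, LinearMap.comp_apply, LinearMap.prodMap_apply]
          rw [map_add, hgf, hgf]
          simp only [map_add, map_sub]
          abel }
  have hc2 : Co (A' A0) (LinearMap.id ∘ₗ pi' A0) (0 + 1) :=
    Co.step h0.sumA (Co.base A0 LinearMap.id)
  clear h1
  -- iterate
  have key : ∀ j : ℕ, ∃ (X : Type u) (_ : AddCommGroup X) (_ : Module K X) (A : Fin 3 → End K X)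
      (D : End K X) (pr : X →ₗ[K] X0) (l : X →ₗ[K] V) (n : ℕ),
      Stage Φ f g Tp pM A0 D0 p0 True (k - 1 - j) (k - j) n A D pr l ∧ Co A pr n := by
    intro j
    induction j with
    | zero => exact ⟨_, _, _, _, _, _, _, _, h2, hc2⟩
    | succ j ih =>
      obtain ⟨X, i1, i2, A, D, pr, l, n, h, hc⟩ := ih
      exact ⟨_, _, _, _, _, _, _, _,
        Stage.step (F' := F') hΦ hΨ hgf hsum hTp hpM hp0 h, Co.step h.sumA hc⟩
  obtain ⟨X, i1, i2, A, D, pr, l, n, h, hc⟩ := key k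
  refine ⟨X, i1, i2, A, D, pr, l, n, ?_, hc⟩
  have e1 : k - 1 - k = 0 := by omega
  have e2 : k - k = 0 := by omega
  rw [e1, e2] at h
  exact h

variable {P : Prop} {e e' n : ℕ} {X : Type u} [AddCommGroup X] [Module K X]
  {A : Fin 3 → End K X} {D : End K X} {pr : X →ₗ[K] X0} {l : X →ₗ[K] V}

/-- **COCH**: cochains with values in the radical are coboundaries -/
theorem coch (h : Stage Φ f g Tp pM A0 D0 p0 P e e' n A D pr l) (hc : Co A pr n)
    (c : K) (κ : Fin 3 → (X →ₗ[K] X)) (hκ : ∀ x, κ 0 x + κ 1 x + κ 2 x = 0)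
    (hκ0 : ∀ r x, pr x = 0 → κ r x = 0) (hκR : ∀ r x, pr (κ r x) = 0) :
    ∃ θ : X →ₗ[K] X, (∀ x, pr (θ x) = 0) ∧ ∀ r x, θ (A r x) = c • A r (θ x) + κ r x := by
  obtain ⟨σ, hσ⟩ := pr.exists_rightInverse_of_surjective (LinearMap.range_eq_top.2 h.surj)
  have hstab : ∀ s, ∀ x ∈ LinearMap.ker pr, (c • A s) x ∈ LinearMap.ker pr := by
    intro s x hx
    rw [LinearMap.mem_ker] at hx ⊢
    rw [LinearMap.smul_apply, map_smul, h.prA, hx, map_zero, smul_zero]
  let Bz : Fin 3 → End K (LinearMap.ker pr) := fun s => (c • A s).restrict (hstab s)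
  have hBz : ∀ s (z : LinearMap.ker pr), ((Bz s z : LinearMap.ker pr) : X) = c • A s z :=
    fun s z => rfl
  let κ0 : Fin 3 → (X0 →ₗ[K] LinearMap.ker pr) := fun r =>
    ((κ r).codRestrict (LinearMap.ker pr) (fun x => hκR r x)) ∘ₗ σ
  have hκ0' : ∀ r x, ((κ0 r (pr x) : LinearMap.ker pr) : X) = κ r x := by
    intro r x
    change κ r (σ (pr x)) = κ r x
    have h1 : κ r (σ (pr x) - x) = 0 := by
      apply hκ0
      rw [map_sub, sub_eq_zero]
      exact LinearMap.congr_fun hσ (pr x)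
    rw [map_sub, sub_eq_zero] at h1
    exact h1
  obtain ⟨θ, hθ⟩ := hc (LinearMap.ker pr) Bz κ0
    (by
      intro z
      apply Subtype.ext
      change c • A 0 (z : X) + c • A 1 (z : X) + c • A 2 (z : X) = 0
      rw [← smul_add, ← smul_add, h.sumA, smul_zero])
    (by
      intro x
      apply Subtype.ext
      exact hκ (σ x))
  have hIm : ∀ j : ℕ, ∀ z ∈ Im Bz j, ∀ i : ℕ, (∀ y ∈ LinearMap.ker pr, y ∈ Nil A (i + j)) →
      ((z : LinearMap.ker pr) : X) ∈ Nil A i := by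
    intro j
    induction j with
    | zero =>
      intro z _ i hi
      exact hi _ z.2
    | succ j ih =>
      intro z hz i hi
      have hz' : z ∈ ⨆ s, (Im Bz j).map (Bz s) := hz
      have hle : (⨆ s, (Im Bz j).map (Bz s)) ≤ (Nil A i).comap (LinearMap.ker pr).subtype := by
        refine iSup_le fun s => ?_
        rintro _ ⟨y, hy, rfl⟩
        change c • A s (y : X) ∈ Nil A i
        refine Submodule.smul_mem _ _ ?_
        have h3 := ih y hy (i + 1) (fun v hv => by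
          have h4 := hi v hv
          have e5 : i + 1 + j = i + (j + 1) := by omega
          rw [e5]; exact h4)
        exact mem_Nil_succ.1 h3 s
      exact hle hz'
  refine ⟨(LinearMap.ker pr).subtype ∘ₗ θ, fun x => (θ x).2, fun r x => ?_⟩
  have h5 := hIm n _ (hθ r x) 0 (fun y hy => by rw [zero_add]; exact h.nil y hy)
  rw [mem_Nil_zero] at h5
  have h6 : ((θ (A r x) : LinearMap.ker pr) : X) - c • A r ((θ x : LinearMap.ker pr) : X) -
      κ r x = 0 := by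
    rw [← hκ0' r x]
    exact h5
  rw [sub_sub, sub_eq_zero] at h6
  exact h6

end main

end Crest.Agent.R172.HexC
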