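import Mathlib

/-!
Row 172 (S0260), (o2) with `R ≠ 0` and `D` not semisimple (note 16729 (2)): on the sequence cover
the decoration `b : X2 → R1` exists exactly.

`ev n = p_1 ∘ D1^n`, jointly injective; `bh n : X2 → V` are the solutions given by the first
derivative applied to `(1 ⊗ D1^n) x`.
-/

set_option autoImplicit false

namespace Crest.Agent.R172.HexD

open Module

variable {K : Type*} [Field K] {X1 X2 V τ : Type*} [AddCommGroup X1] [Module K X1]
  [AddCommGroup X2] [Module K X2] [AddCommGroup V] [Module K V]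

theorem words_mem {B : τ → End K X2} (hB : ⨆ t, LinearMap.range (B t) = ⊤)
    (S : Submodule K X2) {m : ℕ}
    (h : ∀ w : List τ, w.length = m → ∀ v, (w.map B).prod v ∈ S) (v : X2) : v ∈ S := by
  have key : ∀ j k : ℕ, k + j = m → ∀ w : List τ, w.length = k → ∀ v, (w.map B).prod v ∈ S := by
    intro j
    induction j with
    | zero => intro k hk w hw; exact h w (by omega)
    | succ j ih =>
      intro k hk w hw
      have hT : (⊤ : Submodule K X2) ≤ S.comap ((w.map B).prod) := by
        rw [← hB, iSup_le_iff]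
        rintro t _ ⟨u, rfl⟩
        have := ih (k + 1) (by omega) (w ++ [t]) (by simp [hw]) u
        rw [List.map_append, List.prod_append, List.map_singleton, List.prod_singleton] at this
        exact this
      intro v
      exact hT (Submodule.mem_top (x := v))
  have := key m 0 (by omega) [] rfl v
  simpa using this

theorem exists_dec {A : τ → End K X1} {B : τ → End K X2} {Φ : τ → End K V}
    (hB : ⨆ t, LinearMap.range (B t) = ⊤) {R1 : Submodule K X1}
    (hR1 : ∀ t, ∀ x ∈ R1, A t x ∈ R1) {δ : τ → X2 →ₗ[K] X1} (hδ : ∀ t v, δ t v ∈ R1)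
    {N : Type*} {ev : N → X1 →ₗ[K] V} (hinj : ∀ x, (∀ n, ev n x = 0) → x = 0)
    (hev : ∀ n t x, ev n (A t x) = Φ t (ev n x))
    {bh : N → X2 →ₗ[K] V} {m : ℕ}
    (hnil : ∀ w : List τ, w.length = m → ∀ n v, (w.map Φ).prod (bh n v) = 0)
    (hbh : ∀ n t v, bh n (B t v) = Φ t (bh n v) + ev n (δ t v)) :
    ∃ b : X2 →ₗ[K] X1, (∀ v, b v ∈ R1) ∧ (∀ t v, b (B t v) = A t (b v) + δ t v) ∧
      ∀ n v, ev n (b v) = bh n v := by
  have huniq : ∀ x y : X1, (∀ n, ev n x = ev n y) → x = y := by
    intro x y h
    have := hinj (x - y) (fun n => by rw [map_sub, h n, sub_self])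
    exact sub_eq_zero.1 this
  have hword : ∀ (w : List τ) (v : X2), ∃ x ∈ R1, ∀ n,
      bh n ((w.map B).prod v) = ev n x + (w.map Φ).prod (bh n v) := by
    intro w v
    induction w with
    | nil => exact ⟨0, R1.zero_mem, fun n => by simp⟩
    | cons t w ih =>
      obtain ⟨x, hx, h⟩ := ih
      refine ⟨A t x + δ t ((w.map B).prod v), R1.add_mem (hR1 t x hx) (hδ _ _), fun n => ?_⟩
      rw [List.map_cons, List.prod_cons, Module.End.mul_apply, hbh, h n, map_add, map_add, hev,
        List.map_cons, List.prod_cons, Module.End.mul_apply]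
      abel
  let S : Submodule K X2 :=
    { carrier := {v | ∃ x ∈ R1, ∀ n, ev n x = bh n v}
      add_mem' := by
        rintro a b ⟨x, hx, h⟩ ⟨y, hy, h'⟩
        exact ⟨x + y, R1.add_mem hx hy, fun n => by rw [map_add, map_add, h, h']⟩
      zero_mem' := ⟨0, R1.zero_mem, fun n => by simp⟩
      smul_mem' := by
        rintro c a ⟨x, hx, h⟩
        exact ⟨c • x, R1.smul_mem c hx, fun n => by rw [map_smul, map_smul, h]⟩ }
  have hS : ∀ v, ∃ x ∈ R1, ∀ n, ev n x = bh n v := by
    intro v
    refine words_mem hB S (m := m) (fun w hw u => ?_) v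
    obtain ⟨x, hx, h⟩ := hword w u
    exact ⟨x, hx, fun n => by rw [h n, hnil w hw, add_zero]⟩
  choose f hf hfe using hS
  refine ⟨{ toFun := f, map_add' := ?_, map_smul' := ?_ }, hf, ?_, fun n v => hfe v n⟩
  · intro u v
    exact huniq _ _ fun n => by rw [hfe, map_add, map_add, hfe, hfe]
  · intro c v
    exact huniq _ _ fun n => by rw [hfe, RingHom.id_apply, map_smul, map_smul, hfe]
  · intro t v
    change f (B t v) = A t (f v) + δ t v
    exact huniq _ _ fun n => by rw [hfe, hbh, map_add, hev, hfe]

/-- uniqueness of the decoration: two solutions with values killed by long words agree -/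
theorem dec_unique {B : τ → End K X2} {Φ : τ → End K V}
    (hB : ⨆ t, LinearMap.range (B t) = ⊤) {e : X2 →ₗ[K] V} {m : ℕ}
    (hnil : ∀ w : List τ, w.length = m → ∀ v, (w.map Φ).prod (e v) = 0)
    (he : ∀ t v, e (B t v) = Φ t (e v)) (v : X2) : e v = 0 := by
  have hword : ∀ (w : List τ) (v : X2), e ((w.map B).prod v) = (w.map Φ).prod (e v) := by
    intro w v
    induction w with
    | nil => simp
    | cons t w ih =>
      rw [List.map_cons, List.prod_cons, Module.End.mul_apply, he, ih, List.map_cons,
        List.prod_cons, Module.End.mul_apply]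
  refine words_mem hB (LinearMap.ker e) (m := m) (fun w hw u => ?_) v
  rw [LinearMap.mem_ker, hword, hnil w hw]

end Crest.Agent.R172.HexD
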