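import Crest.Agent.R172.RJ1

/-!
Row 172, T0 with ARBITRARY RADICAL, coefficient form of `RJ.main` (note 612 (6.5), (6.6)): the
bilinear relation is assumed for the COEFFICIENTS of decorated Laurent families.  No parameter `c`.
-/

set_option autoImplicit false
set_option linter.unusedSectionVars false

namespace Crest.Agent.R172.RJ2

open Module TensorProduct
open Crest.Agent.R172.RJ

variable {K : Type*} [Field K] {τ : Type*} [Fintype τ] [DecidableEq τ]
variable {P1 P2 E : Type*} [AddCommGroup P1] [Module K P1] [AddCommGroup P2] [Module K P2]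
  [AddCommGroup E] [Module K E]

/-- `β` decorates the Laurent family `x` -/
structure Lf (A : τ → End K P1) (B : τ → End K P2) (R1 : Submodule K P1)
    (g : P2 →ₗ[K] P2 →ₗ[K] K) (eps : K) (x : ℤ →₀ (τ → P2 ⊗[K] P1))
    (β : ℤ →₀ (P2 →ₗ[K] P1)) : Prop where
  mem : ∀ i p, β i p ∈ R1
  eq : ∀ i t p, A t (β i p) - eps • β (i - 1) (B t p)
    = A t (ev g (x i t) p) - eps • ev g (x (i - 1) t) (B t p)

variable {A : τ → End K P1} {B : τ → End K P2} {R1 : Submodule K P1} {R2 : Submodule K P2}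
  {l : τ → ℕ} {g : P2 →ₗ[K] P2 →ₗ[K] K} {eps : K}

theorem Lf.zero (hB : ⨆ t, LinearMap.range (B t) = ⊤) (heps : eps ≠ 0)
    {x : ℤ →₀ (τ → P2 ⊗[K] P1)} {β : ℤ →₀ (P2 →ₗ[K] P1)} (h : Lf A B R1 g eps x β) (n : ℤ)
    (hn : ∀ i, n < i → ∀ t p, A t (ev g (x i t) p) - eps • ev g (x (i - 1) t) (B t p) = 0) :
    ∀ i, n ≤ i → β i = 0 := by
  classical
  obtain ⟨N, hN⟩ : ∃ N : ℤ, ∀ i, N ≤ i → β i = 0 := by
    refine ⟨∑ j ∈ β.support, |j| + 1, fun i hi => ?_⟩
    by_contra hne
    have h1 : i ∈ β.support := Finsupp.mem_support_iff.2 hne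
    have h2 : |i| ≤ ∑ j ∈ β.support, |j| :=
      Finset.single_le_sum (f := fun j : ℤ => |j|) (fun _ _ => abs_nonneg _) h1
    have h3 := le_abs_self i
    omega
  have key : ∀ k : ℕ, ∀ i, n ≤ i → N - k ≤ i → β i = 0 := by
    intro k
    induction k with
    | zero => intro i _ hi; exact hN i (by simpa using hi)
    | succ k ih =>
      intro i hi1 hi2
      have h1 : β (i + 1) = 0 := ih (i + 1) (by omega) (by push_cast at hi2; omega)
      have h2 : (⊤ : Submodule K P2) ≤ LinearMap.ker (β i) := by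
        rw [← hB]
        refine iSup_le fun t => ?_
        rintro _ ⟨w, rfl⟩
        have h3 := h.eq (i + 1) t w
        rw [hn (i + 1) (by omega) t w, h1, LinearMap.zero_apply, map_zero, zero_sub,
          neg_eq_zero, add_sub_cancel_right] at h3
        exact (smul_eq_zero.1 h3).resolve_left heps
      ext p
      exact h2 (Submodule.mem_top : p ∈ ⊤)
  intro i hi
  exact key (N - i).toNat i hi (by omega)

/-- **The coefficient form of the abstract end with arbitrary radical.** -/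
theorem main_coeff (hA : ⨆ t, LinearMap.range (A t) = ⊤) (hB : ⨆ t, LinearMap.range (B t) = ⊤)
    (hR1 : ∀ t, ∀ r ∈ R1, A t r ∈ R1) (hR2 : ∀ t, ∀ r ∈ R2, B t r ∈ R2) {m : ℕ}
    (hN1 : ∀ w : List τ, w.length = m → ∀ r ∈ R1, (w.map A).prod r = 0)
    (hN2 : ∀ w : List τ, w.length = m → ∀ r ∈ R2, (w.map B).prod r = 0)
    (hl : ∀ s, 1 ≤ l s)
    (hl1 : ∀ s p, (A s ^ l s) p ∈ R1) (hl2 : ∀ s p, (B s ^ l s) p ∈ R2)
    (gen1 : ∀ S : Submodule K P1, (∀ t, ∀ v ∈ S, A t v ∈ S) → (∀ s p, (A s ^ l s) p ∈ S) → R1 ≤ S)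
    (gen2 : ∀ S : Submodule K P2, (∀ t, ∀ v ∈ S, B t v ∈ S) → (∀ s p, (B s ^ l s) p ∈ S) → R2 ≤ S)
    (heps : eps ≠ 0) (gR1 : ∀ r ∈ R2, ∀ p, g r p = 0) (gR2 : ∀ r ∈ R2, ∀ p, g p r = 0)
    (gB : ∀ t p p', g (B t p) p' = eps * g p (B t p'))
    (gtop : ∀ s, ∃ p p', g ((B s ^ (l s - 1)) p) p' ≠ 0)
    (q : τ → P1 →ₗ[K] P1 →ₗ[K] E) (Q : Submodule K E) {a1 a2 a3 : K}
    (ha1 : a1 ≠ 0) (ha2 : a2 ≠ 0) (ha3 : a3 ≠ 0)
    (hexL : ∀ x : ℤ →₀ (τ → P2 ⊗[K] P1), dfc A B x = 0 → x ∈ ArmS A B R1 R2 →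
      ∃ β, Lf A B R1 g eps x β)
    (hrelL : ∀ x β x' β', dfc A B x = 0 → x ∈ ArmS A B R1 R2 → Lf A B R1 g eps x β →
      dfc A B x' = 0 → x' ∈ ArmS A B R1 R2 → Lf A B R1 g eps x' β' → ∀ i j : ℤ,
      ∑ t, (a1 • TensorProduct.lift ((q t) ∘ₗ (β' j)) (x i t)
        + a2 • TensorProduct.lift ((q t).flip ∘ₗ (β i)) (x' j t)
        + a3 • TensorProduct.lift ((q t) ∘ₗ (ev g (x' j t))) (x i t)) ∈ Q) :
    (∀ t, ∀ r ∈ R1, ∀ p, q t r p ∈ Q ∧ q t p r ∈ Q) ∧
      (∀ s i j, i + j + 1 = l s → ∀ p p', q s ((A s ^ i) p) ((A s ^ j) p') ∈ Q) := by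
  classical
  -- the relations `Dx` vanish in the ascending part
  have hDx : ∀ x : ℤ →₀ (τ → P2 ⊗[K] P1), (∀ i, 0 ≤ i → ∀ t, x i t ∈ RT (P1 := P1) R2) →
      ∀ i : ℤ, 0 < i → ∀ t p, A t (ev g (x i t) p) - eps • ev g (x (i - 1) t) (B t p) = 0 := by
    intro x hx i hi t p
    rw [ev_RT gR1 (hx i hi.le t), ev_RT gR1 (hx (i - 1) (by omega) t)]
    simp
  have hall : R2 ≤ ⨆ k, Rk B l k := by
    refine gen2 _ ?_ ?_
    · intro t v hv
      have h1 : (⨆ k, Rk B l k) ≤ (⨆ k, Rk B l k).comap (B t) := by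
        refine iSup_le fun k => ?_
        intro w hw
        exact le_iSup (Rk B l) (k + 1) (le_iSup (fun t => (Rk B l k).map (B t)) t ⟨w, hw, rfl⟩)
      exact h1 hv
    · intro s p
      exact le_iSup (Rk B l) 0 (le_iSup (fun s => LinearMap.range (B s ^ l s)) s ⟨p, rfl⟩)
  have hl0 : ∀ z : P2 ⊗[K] P1, TensorProduct.lift (0 : P2 →ₗ[K] P1 →ₗ[K] E) z = 0 := by
    intro z
    induction z using TensorProduct.induction_on with
    | zero => simp
    | tmul a b => simp
    | add a b ha hb => rw [map_add, ha, hb, add_zero]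
  -- the two radical relations
  have hI : ∀ x' β', dfc A B x' = 0 → x' ∈ ArmS A B R1 R2 → Lf A B R1 g eps x' β' →
      ∀ (j : ℤ) t, ∀ r ∈ R2, ∀ p, q t (β' j r) p ∈ Q := by
    intro x' β' hx1 hx2 hx3 j t r hr p
    have hk : ∀ k : ℕ, Rk B l k ≤ Q.comap ((q t).flip p ∘ₗ (β' j)) := by
      intro k r hr
      obtain ⟨X, hX1, hX2, hX3, hX4⟩ := famR hA hB hR1 hR2 hN1 hN2 hl1 hl2 k
        (Pi.single t (r ⊗ₜ[K] p)) (mem_pis.1 (single_pis (tmul_RT hr p) t))
      obtain ⟨β, hβ⟩ := hexL X hX1 hX2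
      have hβk : β (k : ℤ) = 0 := hβ.zero hB heps 0 (hDx X hX3) _ (by positivity)
      have h2 := hrelL X β x' β' hX1 hX2 hβ hx1 hx2 hx3 (k : ℤ) j
      rw [hβk, hX4, Finset.sum_eq_single t] at h2
      · rw [Pi.single_eq_same, TensorProduct.lift.tmul, TensorProduct.lift.tmul,
          LinearMap.comp_apply, LinearMap.comp_apply, ev_R2 gR2 _ (Rk_le hR2 hl2 k hr), map_zero,
          LinearMap.zero_apply, smul_zero, add_zero, LinearMap.comp_zero, hl0, smul_zero,
          add_zero] at h2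
        have h3 := Q.smul_mem a1⁻¹ h2
        rwa [smul_smul, inv_mul_cancel₀ ha1, one_smul] at h3
      · intro u _ hu
        rw [Pi.single_eq_of_ne hu, map_zero, map_zero, smul_zero, smul_zero, add_zero,
          LinearMap.comp_zero, hl0, smul_zero, add_zero]
      · intro h
        exact absurd (Finset.mem_univ t) h
    exact (hall.trans (iSup_le hk)) hr
  have hII : ∀ x β, dfc A B x = 0 → x ∈ ArmS A B R1 R2 → Lf A B R1 g eps x β →
      ∀ (i : ℤ) t, ∀ r ∈ R2, ∀ p, q t p (β i r) ∈ Q := by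
    intro x β hx1 hx2 hx3 i t r hr p
    have hk : ∀ k : ℕ, Rk B l k ≤ Q.comap (q t p ∘ₗ (β i)) := by
      intro k r hr
      obtain ⟨X, hX1, hX2, hX3, hX4⟩ := famR hA hB hR1 hR2 hN1 hN2 hl1 hl2 k
        (Pi.single t (r ⊗ₜ[K] p)) (mem_pis.1 (single_pis (tmul_RT hr p) t))
      obtain ⟨β', hβ⟩ := hexL X hX1 hX2
      have hβk : β' (k : ℤ) = 0 := hβ.zero hB heps 0 (hDx X hX3) _ (by positivity)
      have h2 := hrelL x β X β' hx1 hx2 hx3 hX1 hX2 hβ i (k : ℤ)
      rw [hβk, hX4, Finset.sum_eq_single t] at h2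
      · rw [Pi.single_eq_same, TensorProduct.lift.tmul, LinearMap.comp_apply,
          ev_RT gR1 (tmul_RT (Rk_le hR2 hl2 k hr) p), LinearMap.comp_zero,
          hl0, smul_zero, smul_zero, add_zero, zero_add, LinearMap.flip_apply] at h2
        have h3 := Q.smul_mem a2⁻¹ h2
        rwa [smul_smul, inv_mul_cancel₀ ha2, one_smul] at h3
      · intro u _ hu
        rw [Pi.single_eq_of_ne hu]
        simp only [map_zero, LinearMap.comp_zero, hl0, smul_zero, add_zero]
      · intro h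
        exact absurd (Finset.mem_univ t) h
    exact (hall.trans (iSup_le hk)) hr
  -- the span of the corrections is `R1`
  let S1 : Submodule K P1 := Submodule.span K {v | ∃ x β, dfc A B x = 0 ∧ x ∈ ArmS A B R1 R2 ∧
    Lf A B R1 g eps x β ∧ ∃ (i : ℤ), ∃ r ∈ R2, v = β i r}
  have hS : R1 ≤ S1 := by
    refine gen1 S1 ?_ ?_
    · intro t v hv
      have h1 : S1 ≤ S1.comap (A t) := by
        refine Submodule.span_le.2 ?_
        rintro v ⟨x, β, hx1, hx2, hx3, i, r, hr, rfl⟩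
        have h2 := hx3.eq i t r
        rw [ev_R2 gR2 _ hr, ev_R2 gR2 _ (hR2 t r hr), map_zero, smul_zero, sub_zero,
          sub_eq_zero] at h2
        change A t (β i r) ∈ S1
        rw [h2]
        exact S1.smul_mem _ (Submodule.subset_span
          ⟨x, β, hx1, hx2, hx3, _, _, hR2 t r hr, rfl⟩)
      exact h1 hv
    · intro s p
      obtain ⟨u0, v0, hv⟩ := gtop s
      have hl' := hl s
      rw [g_pow gB] at hv
      have hv' : g u0 ((B s ^ (l s - 1)) v0) ≠ 0 := right_ne_zero_of_mul hv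
      have h1 : ∃ t w, g (B t w) ((B s ^ (l s - 1)) v0) ≠ 0 := by
        by_contra hcon
        have hcon' : ∀ t w, g (B t w) ((B s ^ (l s - 1)) v0) = 0 := fun t w => by
          by_contra h
          exact hcon ⟨t, w, h⟩
        have h2 : (⊤ : Submodule K P2) ≤ LinearMap.ker (g.flip ((B s ^ (l s - 1)) v0)) := by
          rw [← hB]
          refine iSup_le fun t => ?_
          rintro _ ⟨w, rfl⟩
          exact hcon' t w
        exact hv' (h2 (Submodule.mem_top : u0 ∈ ⊤))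
      obtain ⟨t0, w, hw⟩ := h1
      have hBl : B s ((B s ^ (l s - 1)) v0) = (B s ^ l s) v0 := by
        rw [← Module.End.mul_apply, ← pow_succ', show l s - 1 + 1 = l s by omega]
      have hts : t0 ≠ s := by
        rintro rfl
        apply hw
        rw [gB, hBl, gR2 _ (hl2 _ _), mul_zero]
      have hsum : ∑ t, B t ((Pi.single t0 w : τ → P2) t) = B t0 w := by
        rw [Finset.sum_eq_single t0]
        · rw [Pi.single_eq_same]
        · intro u _ hu
          rw [Pi.single_eq_of_ne hu, map_zero]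
        · intro h
          exact absurd (Finset.mem_univ t0) h
      obtain ⟨X, hX1, hX2, hX3, hX4, hX5⟩ := famA hA hB hR1 hR2 hN1 hN2 s (l s)
        (Pi.single t0 w) p (hl1 s p) (hl2 s _)
      rw [hsum] at hX4
      obtain ⟨β, hβ⟩ := hexL X hX1 hX2
      have hD : ∀ i : ℤ, -(l s : ℤ) < i → ∀ t p',
          A t (ev g (X i t) p') - eps • ev g (X (i - 1) t) (B t p') = 0 := by
        intro i hi t p'
        have hj : ∀ j : ℕ, j < l s → ∀ p', ev g (X ((j : ℤ) - l s) t) p' =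
            if t = s then g ((B s ^ j) (B t0 w)) p' • (A s ^ (l s - 1 - j)) p else 0 := by
          intro j hj p'
          rw [hX4 j hj]
          split_ifs with hts
          · subst hts
            rw [Pi.single_eq_same, ev_tmul]
          · rw [Pi.single_eq_of_ne hts, map_zero, LinearMap.zero_apply]
        rcases lt_trichotomy 0 i with h | h | h
        · exact hDx X hX3 i h t p'
        · subst h
          rw [ev_RT gR1 (hX3 0 le_rfl t), LinearMap.zero_apply, map_zero, zero_sub, neg_eq_zero]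
          have h2 := hj (l s - 1) (by omega) (B t p')
          rw [show ((l s - 1 : ℕ) : ℤ) - l s = 0 - 1 by omega] at h2
          rw [h2]
          split_ifs with hts
          · subst hts
            have h3 : eps * g ((B t ^ (l t - 1)) (B t0 w)) (B t p') = 0 := by
              rw [← gB, ← Module.End.mul_apply, ← pow_succ',
                show l t - 1 + 1 = l t by omega, gR1 _ (hl2 _ _)]
            rw [(mul_eq_zero.1 h3).resolve_left heps, zero_smul, smul_zero]
          · rw [smul_zero]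
        · obtain ⟨j, hj1⟩ : ∃ j : ℕ, i = ((j + 1 : ℕ) : ℤ) - l s :=
            ⟨(i + l s - 1).toNat, by push_cast; omega⟩
          subst hj1
          rw [hj (j + 1) (by push_cast at h; omega),
            show ((j + 1 : ℕ) : ℤ) - l s - 1 = (j : ℤ) - l s by push_cast; ring,
            hj j (by push_cast at h; omega)]
          split_ifs with hts
          · subst hts
            have e1 : (B t) ((B t ^ j) ((B t0) w)) = (B t ^ (j + 1)) ((B t0) w) := by
              rw [pow_succ']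
              rfl
            have e2 : (A t) ((A t ^ (l t - 1 - (j + 1))) p) = (A t ^ (l t - 1 - j)) p := by
              rw [show l t - 1 - j = (l t - 1 - (j + 1)) + 1 by push_cast at h; omega, pow_succ']
              rfl
            rw [map_smul, smul_smul, ← gB, e1, e2, sub_self]
          · rw [map_zero, smul_zero, sub_zero]
      have hβ0 : β (-(l s : ℤ)) = 0 := hβ.zero hB heps _ hD _ le_rfl
      have h2 := hβ.eq (-(l s : ℤ)) s ((B s ^ (l s - 1)) v0)
      have h3 : X (-(l s : ℤ)) = Pi.single s ((B t0 w) ⊗ₜ ((A s ^ (l s - 1)) p)) := by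
        have := hX4 0 (by omega)
        rw [Nat.cast_zero, zero_sub, pow_zero, Nat.sub_zero] at this
        exact this
      rw [hβ0, LinearMap.zero_apply, map_zero, zero_sub, h3, hX5, Pi.single_eq_same, ev_tmul,
        map_smul] at h2
      beta_reduce at h2
      rw [ev_tmul, Pi.single_eq_of_ne hts.symm, map_zero, LinearMap.zero_apply, zero_smul,
        smul_zero, sub_zero, hBl, ← Module.End.mul_apply, ← pow_succ',
        show l s - 1 + 1 = l s by omega] at h2
      have h4 : β (-(l s : ℤ) - 1) ((B s ^ l s) v0) ∈ S1 :=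
        Submodule.subset_span ⟨X, β, hX1, hX2, hβ, _, _, hl2 s v0, rfl⟩
      have h5 := S1.smul_mem (-eps) h4
      rw [neg_smul, h2] at h5
      have h6 := S1.smul_mem (g (B t0 w) ((B s ^ (l s - 1)) v0))⁻¹ h5
      rwa [smul_smul, inv_mul_cancel₀ hw, one_smul] at h6
  have hR : ∀ t, ∀ r ∈ R1, ∀ p, q t r p ∈ Q ∧ q t p r ∈ Q := by
    intro t r hr p
    have h1 : S1 ≤ Q.comap ((q t).flip p) := by
      refine Submodule.span_le.2 ?_
      rintro v ⟨x, β, hx1, hx2, hx3, i, r, hr, rfl⟩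
      exact hI x β hx1 hx2 hx3 i t r hr p
    have h2 : S1 ≤ Q.comap (q t p) := by
      refine Submodule.span_le.2 ?_
      rintro v ⟨x, β, hx1, hx2, hx3, i, r, hr, rfl⟩
      exact hII x β hx1 hx2 hx3 i t r hr p
    exact ⟨h1 (hS hr), h2 (hS hr)⟩
  refine ⟨hR, ?_⟩
  intro s i j hij p p'
  obtain ⟨u0, v0, hv⟩ := gtop s
  obtain ⟨σ, hσ⟩ := exists_section hB
  obtain ⟨X', hX1', hX2', -, hX4', -⟩ := famA hA hB hR1 hR2 hN1 hN2 s (l s)
    (fun t => σ t u0) p (hl1 s p) (hl2 s _)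
  obtain ⟨X, hX1, hX2, -, hX4, -⟩ := famA hA hB hR1 hR2 hN1 hN2 s (l s)
    (fun t => σ t v0) p' (hl1 s p') (hl2 s _)
  rw [hσ] at hX4 hX4'
  obtain ⟨β, hβ⟩ := hexL X hX1 hX2
  obtain ⟨β', hβ'⟩ := hexL X' hX1' hX2'
  have h1 := hrelL X β X' β' hX1 hX2 hβ hX1' hX2' hβ' ((i : ℤ) - l s) ((j : ℤ) - l s)
  have h2 : ∑ t, (a1 • TensorProduct.lift ((q t) ∘ₗ (β' ((j : ℤ) - l s))) (X ((i : ℤ) - l s) t)
      + a2 • TensorProduct.lift ((q t).flip ∘ₗ (β ((i : ℤ) - l s))) (X' ((j : ℤ) - l s) t)) ∈ Q := by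
    refine Q.sum_mem fun t _ => Q.add_mem (Q.smul_mem _ ?_) (Q.smul_mem _ ?_)
    · exact lift_mem _ _ Q (fun p v => (hR t _ (hβ'.mem _ p) v).1) _
    · exact lift_mem _ _ Q (fun p v => (hR t _ (hβ.mem _ p) v).2) _
  have h3 := Q.sub_mem h1 h2
  rw [← Finset.sum_sub_distrib, hX4 i (by omega), hX4' j (by omega)] at h3
  rw [Finset.sum_eq_single s] at h3
  · rw [add_sub_cancel_left, Pi.single_eq_same, Pi.single_eq_same, TensorProduct.lift.tmul,
      LinearMap.comp_apply, ev_tmul, map_smul, LinearMap.smul_apply,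
      show l s - 1 - j = i by omega, show l s - 1 - i = j by omega, smul_smul] at h3
    have h4 : g ((B s ^ j) u0) ((B s ^ i) v0) ≠ 0 := by
      rw [show l s - 1 = i + j by omega, pow_add, Module.End.mul_apply, g_pow gB] at hv
      exact right_ne_zero_of_mul hv
    have h5 := Q.smul_mem (a3 * g ((B s ^ j) u0) ((B s ^ i) v0))⁻¹ h3
    rwa [smul_smul, inv_mul_cancel₀ (mul_ne_zero ha3 h4), one_smul] at h5
  · intro u _ hu
    rw [add_sub_cancel_left, Pi.single_eq_of_ne hu, Pi.single_eq_of_ne hu, map_zero, smul_zero]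
  · intro h
    exact absurd (Finset.mem_univ s) h

end Crest.Agent.R172.RJ2
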