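import Crest.Agent.R172.HexOp
import Crest.Agent.R172.RJ2

/-!
Row 172, node o2-HexOp, instance for `RJ2.main_coeff`.

`hexL_gen`: if at infinitely many parameters `t` every family exact for `A s * u t`, `B s * v t`
(operators) has a correction, then every exact Laurent family has a decoration (`hexL` of
`RJ2.main_coeff`).  `main_hyb`: the conclusion of `RJ.main` from `hexL` and the bilinear relation
for the scalar exact decorated families.
-/

set_option autoImplicit false
set_option linter.unusedSectionVars false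

namespace Crest.Agent.R172.HexL

open Finset Module TensorProduct
open Crest.Agent.R172.SepC Crest.Agent.R172.HexOp Crest.Agent.R172.RJ Crest.Agent.R172.RJ2

variable {K : Type*} [Field K]

section inv

variable {P : Type*} [AddCommGroup P] [Module K P]

/-- the inverse of `a + N` -/
theorem exists_inv {N : End K P} (hN : IsNilpotent N) {a : K} (ha : a ≠ 0) :
    ∃ c' : End K P, c' * (algebraMap K (End K P) a + N) = 1 ∧
      (algebraMap K (End K P) a + N) * c' = 1 ∧
      (∀ S : Submodule K P, (∀ v ∈ S, N v ∈ S) → ∀ v ∈ S, c' v ∈ S) ∧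
      (∀ f : End K P, Commute f N → Commute f c') ∧
      (∀ g : P →ₗ[K] P →ₗ[K] K, (∀ p p', g (N p) p' = g p (N p')) →
        ∀ p p', g (c' p) p' = g p (c' p')) := by
  obtain ⟨n, hn⟩ := hN
  let z : End K P := (-a⁻¹) • N
  have hz : z ^ n = 0 := by
    simp only [z, smul_pow, hn, smul_zero]
  have hz1 : (1 - z) * ∑ i ∈ range n, z ^ i = 1 := by
    rw [mul_neg_geom_sum, hz, sub_zero]
  have hz2 : (∑ i ∈ range n, z ^ i) * (1 - z) = 1 := by
    rw [geom_sum_mul_neg, hz, sub_zero]
  have ez : algebraMap K (End K P) a + N = a • (1 - z) := by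
    simp only [z, neg_smul, Algebra.algebraMap_eq_smul_one, sub_neg_eq_add]
    rw [smul_add, smul_smul, mul_inv_cancel₀ ha, one_smul]
  refine ⟨a⁻¹ • ∑ i ∈ range n, z ^ i, ?_, ?_, ?_, ?_, ?_⟩
  · rw [ez, smul_mul_smul_comm, hz2, inv_mul_cancel₀ ha, one_smul]
  · rw [ez, smul_mul_smul_comm, hz1, mul_inv_cancel₀ ha, one_smul]
  · intro S hS v hv
    have h1 : ∀ i, ∀ v ∈ S, (z ^ i) v ∈ S := by
      intro i
      induction i with
      | zero => intro v hv; simpa using hv
      | succ i ih =>
        intro v hv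
        rw [pow_succ, Module.End.mul_apply]
        exact ih _ (S.smul_mem _ (hS v hv))
    rw [LinearMap.smul_apply, LinearMap.sum_apply]
    exact S.smul_mem _ (S.sum_mem fun i _ => h1 i v hv)
  · intro f hf
    refine Commute.smul_right (Commute.sum_right _ _ _ fun i _ => ?_) _
    exact (Commute.smul_right hf _).pow_right i
  · intro g hg
    have h1 : ∀ p p', g (z p) p' = g p (z p') := by
      intro p p'
      simp only [z, LinearMap.smul_apply, map_smul, hg]
    have h2 : ∀ i, ∀ p p', g ((z ^ i) p) p' = g p ((z ^ i) p') := by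
      intro i
      induction i with
      | zero => intro p p'; simp
      | succ i ih =>
        intro p p'
        rw [pow_succ, Module.End.mul_apply, ih, h1, ← Module.End.mul_apply, ← pow_succ', pow_succ]
    intro p p'
    simp only [LinearMap.smul_apply, LinearMap.sum_apply, map_smul, map_sum, h2]

end inv

variable {τ : Type*} [Fintype τ] [DecidableEq τ]
variable {P1 P2 E : Type*} [AddCommGroup P1] [Module K P1] [AddCommGroup P2] [Module K P2]
  [AddCommGroup E] [Module K E]

/-- maps with values in `R1` -/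
def HR (P2 : Type*) [AddCommGroup P2] [Module K P2] (R1 : Submodule K P1) :
    Submodule K (P2 →ₗ[K] P1) where
  carrier := {b | ∀ p, b p ∈ R1}
  add_mem' := by
    intro b b' hb hb' p
    exact R1.add_mem (hb p) (hb' p)
  zero_mem' := fun p => R1.zero_mem
  smul_mem' := by
    intro c b hb p
    exact R1.smul_mem c (hb p)

theorem mem_HR {R1 : Submodule K P1} {b : P2 →ₗ[K] P1} : b ∈ HR P2 R1 ↔ ∀ p, b p ∈ R1 := Iff.rfl

/-- a graded scalar operator minus the scalar is nilpotent -/
theorem nil_of_gr {M : Type*} [AddCommGroup M] [Module K M] {F : ℕ → Submodule K M} {r : ℕ}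
    (hF0 : F 0 = ⊤) (hFr : F r = ⊥) {x : K} {A : End K M} (h : Gr F x A) :
    IsNilpotent (A - algebraMap K (End K M) x) := by
  refine ⟨r, ?_⟩
  have h1 : ∀ i, ∀ m, ((A - algebraMap K (End K M) x) ^ i) m ∈ F i := by
    intro i
    induction i with
    | zero => intro m; rw [hF0]; trivial
    | succ i ih =>
      intro m
      rw [pow_succ', Module.End.mul_apply, LinearMap.sub_apply, Module.algebraMap_end_apply]
      exact h i _ (ih m)
  ext m
  have := h1 r m
  rw [hFr] at this
  exact (Submodule.mem_bot K).1 this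

variable {A : τ → End K P1} {B : τ → End K P2} {R1 : Submodule K P1} {R2 : Submodule K P2}
  {g : P2 →ₗ[K] P2 →ₗ[K] K} {eps : K}

theorem ev_map {u : End K P1} {v' : End K P2} (gv' : ∀ p p', g (v' p) p' = g p (v' p'))
    (z : P2 ⊗[K] P1) : ev g (TensorProduct.map v' u z) = sw u v' (ev g z) := by
  induction z using TensorProduct.induction_on with
  | zero => simp
  | tmul a b =>
    ext p
    rw [TensorProduct.map_tmul, ev_tmul, sw_apply, ev_tmul, gv', map_smul]
  | add a b ha hb => rw [map_add, map_add, ha, hb, map_add, map_add]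

theorem map_rad {u : End K P1} {v : End K P2} (hu : ∀ r ∈ R1, u r ∈ R1) (hv : ∀ r ∈ R2, v r ∈ R2)
    {z : P2 ⊗[K] P1} (hz : z ∈ (RT R2 ⊔ TR R1 : Submodule K (P2 ⊗[K] P1))) :
    TensorProduct.map v u z ∈ (RT R2 ⊔ TR R1 : Submodule K (P2 ⊗[K] P1)) := by
  have e : TensorProduct.map v u z = v.rTensor P1 (u.lTensor P2 z) := by
    rw [← LinearMap.comp_apply, LinearMap.rTensor_comp_lTensor]
  rw [e]
  obtain ⟨a, ha, b, hb, rfl⟩ := Submodule.mem_sup.1 hz
  rw [map_add, map_add]
  exact Submodule.add_mem_sup (rT_RT _ hv (lT_RT _ ha)) (rT_TR _ (lT_TR _ hu hb))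

/-- **`hexL` from the operator corrections.** -/
theorem hexL_gen {I : Type*} (hB : ⨆ t, LinearMap.range (B t) = ⊤)
    (hR1 : ∀ t, ∀ r ∈ R1, A t r ∈ R1) {m : ℕ}
    (hN1 : ∀ w : List τ, w.length = m → ∀ r ∈ R1, (w.map A).prod r = 0) (heps : eps ≠ 0)
    (T : Set I) (u : I → End K P1) (v v' : I → End K P2) (κ : I → K) (hκ : (κ '' T).Infinite)
    (hvv : ∀ t ∈ T, v t * v' t = 1)
    (huA : ∀ t ∈ T, ∀ s, Commute (A s) (u t)) (hvB : ∀ t ∈ T, ∀ s, Commute (B s) (v t))
    (hvB' : ∀ t ∈ T, ∀ s, Commute (B s) (v' t))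
    (huu : ∀ t ∈ T, ∀ t' ∈ T, Commute (u t) (u t'))
    (hvv' : ∀ t ∈ T, ∀ t' ∈ T, Commute (v' t) (v' t'))
    (huR : ∀ t ∈ T, ∀ r ∈ R1, u t r ∈ R1) (hvR : ∀ t ∈ T, ∀ r ∈ R2, v t r ∈ R2)
    (hvR' : ∀ t ∈ T, ∀ r ∈ R2, v' t r ∈ R2)
    (gv' : ∀ t ∈ T, ∀ p p', g (v' t p) p' = g p (v' t p'))
    (F : ℕ → Submodule K (P2 →ₗ[K] P1)) (r : ℕ) (hF0 : F 0 = ⊤) (hFr : F r = ⊥)
    (hF : ∀ t ∈ T, Gr F (κ t) (sw (u t) (v' t)))
    (hop : ∀ t ∈ T, ∀ x, Ex (fun s => A s * u t) (fun s => B s * v t) R1 R2 1 x →
      ∃ b, Cor (fun s => A s * u t) (fun s => B s * v t) R1 g eps 1 x b)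
    (x : ℤ →₀ (τ → P2 ⊗[K] P1)) (hx : dfc A B x = 0) (hx' : x ∈ ArmS A B R1 R2) :
    ∃ β, Lf A B R1 g eps x β := by
  classical
  obtain ⟨σ, hσ⟩ := exists_section hB
  -- the left inverse
  let S : (P2 →ₗ[K] P1) →ₗ[K] (P2 →ₗ[K] P1) := ∑ t, sw (A t) (σ t)
  have hSa : ∀ b p, S b p = ∑ t, A t (b (σ t p)) := by
    intro b p
    simp only [S, LinearMap.sum_apply, sw_apply]
  have hSn : ∀ j : ℕ, ∀ b : P2 →ₗ[K] P1, (∀ p, b p ∈ Nk A R1 j) → (S ^ j) b = 0 := by
    intro j
    induction j with
    | zero =>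
      intro b hb
      rw [pow_zero]
      ext p
      have := hb p
      rw [Nk_zero, Submodule.mem_bot] at this
      exact this
    | succ j ih =>
      intro b hb
      rw [pow_succ]
      refine ih (S b) fun p => ?_
      rw [hSa]
      exact Submodule.sum_mem _ fun t _ => Nk_step hR1 t _ (hb _)
  let Y : (τ → (P2 →ₗ[K] P1)) →ₗ[K] (P2 →ₗ[K] P1) := ∑ t, sw LinearMap.id (σ t) ∘ₗ LinearMap.proj t
  have hY : ∀ z p, Y z p = ∑ t, z t (σ t p) := by
    intro z p
    simp only [Y, LinearMap.sum_apply, LinearMap.comp_apply, sw_apply, LinearMap.proj_apply,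
      LinearMap.id_apply]
  let Λ : ℕ → (τ → (P2 →ₗ[K] P1)) →ₗ[K] (P2 →ₗ[K] P1) :=
    fun k => (-(eps⁻¹ ^ (k + 1))) • ((S ^ k) ∘ₗ Y)
  let Q0 : (P2 →ₗ[K] P1) →ₗ[K] (τ → (P2 →ₗ[K] P1)) :=
    LinearMap.pi fun s => (-eps) • sw LinearMap.id (B s)
  let Q1 : (P2 →ₗ[K] P1) →ₗ[K] (τ → (P2 →ₗ[K] P1)) := LinearMap.pi fun s => sw (A s) LinearMap.id
  have hQ0 : ∀ b s p, Q0 b s p = -(eps • b (B s p)) := by
    intro b s p
    change ((-eps) • sw LinearMap.id (B s)) b p = _
    rw [LinearMap.smul_apply, LinearMap.smul_apply, neg_smul]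
    rfl
  have hQ1 : ∀ b s p, Q1 b s p = A s (b p) := by
    intro b s p
    simp only [Q1, LinearMap.pi_apply, sw_apply, LinearMap.id_apply]
  have hΛ : ∀ s : K, ∀ b ∈ HR P2 R1, ∑ k ∈ range m, s ^ k • Λ k (Q0 b + s • Q1 b) = b := by
    intro s b hb
    have e1 : Y (Q0 b + s • Q1 b) = s • S b - eps • b := by
      ext p
      rw [hY, LinearMap.sub_apply, LinearMap.smul_apply, LinearMap.smul_apply, hSa]
      have h2 : b p = ∑ t, b (B t (σ t p)) := by
        rw [← map_sum, hσ]
      rw [h2, Finset.smul_sum, Finset.smul_sum, ← Finset.sum_sub_distrib]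
      refine Finset.sum_congr rfl fun t _ => ?_
      rw [Pi.add_apply, Pi.smul_apply, LinearMap.add_apply, LinearMap.smul_apply, hQ0, hQ1]
      abel
    have e2 : ∀ n : ℕ, ∑ k ∈ range n, s ^ k • Λ k (Q0 b + s • Q1 b)
        = b - (eps⁻¹ ^ n * s ^ n) • (S ^ n) b := by
      intro n
      induction n with
      | zero => simp
      | succ n ih =>
        rw [Finset.sum_range_succ, ih]
        have e3 : s ^ n • Λ n (Q0 b + s • Q1 b)
            = (eps⁻¹ ^ n * s ^ n) • (S ^ n) b - (eps⁻¹ ^ (n + 1) * s ^ (n + 1)) • (S ^ (n + 1)) b := by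
          simp only [Λ, LinearMap.smul_apply, LinearMap.comp_apply, e1, map_sub, map_smul]
          rw [pow_succ S, Module.End.mul_apply, smul_sub, smul_sub, smul_smul, smul_smul, smul_smul,
            smul_smul]
          have h3 : s ^ n * -eps⁻¹ ^ (n + 1) * eps = -(eps⁻¹ ^ n * s ^ n) := by
            have h5 : eps⁻¹ * eps = 1 := inv_mul_cancel₀ heps
            rw [pow_succ]
            linear_combination (-(s ^ n * eps⁻¹ ^ n)) * h5
          have h4 : s ^ n * -eps⁻¹ ^ (n + 1) * s = -(eps⁻¹ ^ (n + 1) * s ^ (n + 1)) := by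
            ring
          rw [h3, h4, neg_smul, neg_smul]
          abel
        rw [e3]
        abel
    rw [e2, hSn m b (fun p => Nk_top hN1 (hb p)), smul_zero, sub_zero]
  -- the operators
  let oH : I → End K (P2 →ₗ[K] P1) := fun t => sw (u t) (v' t)
  let oZ : I → End K (τ → (P2 →ₗ[K] P1)) := fun t => LinearMap.pi fun s => oH t ∘ₗ LinearMap.proj s
  have hoZ : ∀ t z s, oZ t z s = oH t (z s) := fun _ _ _ => rfl
  have hoH : ∀ t b p, oH t b p = u t (b (v' t p)) := fun _ _ _ => rfl
  have hoZp : ∀ t k z s, (oZ t ^ k) z s = (oH t ^ k) (z s) := by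
    intro t k z s
    exact map_pow (P := (LinearMap.proj s : (τ → (P2 →ₗ[K] P1)) →ₗ[K] (P2 →ₗ[K] P1)))
      (oB := oZ t) (oZ := oH t) (fun z => hoZ t z s) k z
  -- the bound
  obtain ⟨n, hn⟩ : ∃ n : ℕ, ∀ i : ℤ, (n : ℤ) < i ∨ i < -(n : ℤ) → x i = 0 := by
    refine ⟨∑ j ∈ x.support, j.natAbs, fun i hi => ?_⟩
    by_contra hne
    have h1 : i ∈ x.support := Finsupp.mem_support_iff.2 hne
    have h2 : i.natAbs ≤ ∑ j ∈ x.support, j.natAbs :=
      Finset.single_le_sum (f := fun j : ℤ => j.natAbs) (fun _ _ => Nat.zero_le _) h1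
    omega
  let f : ℕ → τ → (P2 →ₗ[K] P1) := fun k s =>
    sw (A s) LinearMap.id (ev g (x ((n : ℤ) + 1 - k) s))
      - eps • sw LinearMap.id (B s) (ev g (x ((n : ℤ) - k) s))
  have hfa : ∀ k s p, f k s p
      = A s (ev g (x ((n : ℤ) + 1 - k) s) p) - eps • ev g (x ((n : ℤ) - k) s) (B s p) :=
    fun _ _ _ => rfl
  have hf0 : ∀ k, 2 * n + 2 ≤ k → f k = 0 := by
    intro k hk
    funext s
    ext p
    rw [hfa, hn _ (Or.inr (by omega)), hn _ (Or.inr (by omega))]
    simp
  -- solvability at `t`
  have hsol : ∀ t ∈ T, ∃ b ∈ HR P2 R1, ∑ k ∈ range (2 * n + 2), (oZ t ^ k) (f k)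
      = Q0 b + Q1 (oH t b) := by
    intro t ht
    let w : End K (P2 ⊗[K] P1) := TensorProduct.map (v' t) (u t)
    have hwa : ∀ a b, w (a ⊗ₜ[K] b) = v' t a ⊗ₜ[K] u t b := fun _ _ => rfl
    let X : τ → P2 ⊗[K] P1 := fun s => ∑ k ∈ range (2 * n + 1), (w ^ k) (x ((n : ℤ) - k) s)
    -- commutation
    have cA : ∀ s z, (A s).lTensor P2 (w z) = w ((A s).lTensor P2 z) := by
      intro s z
      induction z using TensorProduct.induction_on with
      | zero => simp
      | tmul a b =>
        rw [LinearMap.lTensor_tmul, hwa, hwa, LinearMap.lTensor_tmul]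
        have : A s (u t b) = u t (A s b) := congrArg (fun h : End K P1 => h b) (huA t ht s).eq
        rw [this]
      | add a b ha hb => simp only [map_add, ha, hb]
    have cB : ∀ s z, (B s).rTensor P1 (w z) = w ((B s).rTensor P1 z) := by
      intro s z
      induction z using TensorProduct.induction_on with
      | zero => simp
      | tmul a b =>
        rw [LinearMap.rTensor_tmul, hwa, hwa, LinearMap.rTensor_tmul]
        have : B s (v' t a) = v' t (B s a) := congrArg (fun h : End K P2 => h a) (hvB' t ht s).eq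
        rw [this]
      | add a b ha hb => simp only [map_add, ha, hb]
    -- the defects
    let e : ℕ → τ → P2 ⊗[K] P1 := fun k s =>
      (A s).lTensor P2 (x ((n : ℤ) - k + 1) s) - (B s).rTensor P1 (x ((n : ℤ) - k) s)
    have heR : ∀ k s, e k s ∈ (RT R2 ⊔ TR R1 : Submodule K (P2 ⊗[K] P1)) := by
      intro k s
      have h1 := Submodule.neg_mem _ (hx' s ((n : ℤ) - k))
      rw [neg_sub] at h1
      exact h1
    have heS : ∀ k, ∑ s, e k s = 0 := by
      intro k
      have h1 := congrArg (fun z => z ((n : ℤ) - k)) hx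
      simp only [dfc, LinearMap.sub_apply, LinearMap.comp_apply, Finsupp.sub_apply, sh_apply,
        Finsupp.mapRange.linearMap_apply, Finsupp.mapRange_apply, SA_apply, SB_apply,
        Finsupp.zero_apply] at h1
      simp only [e]
      rw [Finset.sum_sub_distrib, ← neg_sub, h1, neg_zero]
    have hDD : ∀ s, DD (fun s => A s * u t) (fun s => B s * v t) 1 s (X s)
        = (v t).rTensor P1 (∑ k ∈ range (2 * n + 2), (w ^ k) (e k s)) := by
      intro s
      have h1 : ∀ z, ((A s * u t)).lTensor P2 z = (v t).rTensor P1 (w ((A s).lTensor P2 z)) := by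
        intro z
        rw [← cA]
        induction z using TensorProduct.induction_on with
        | zero => simp
        | tmul a b =>
          rw [LinearMap.lTensor_tmul, hwa, LinearMap.lTensor_tmul, LinearMap.rTensor_tmul]
          have : v t (v' t a) = a := congrArg (fun h : End K P2 => h a) (hvv t ht)
          rw [this, Module.End.mul_apply]
        | add a b ha hb => simp only [map_add, ha, hb]
      have h2 : ∀ z, ((B s * v t)).rTensor P1 z = (v t).rTensor P1 ((B s).rTensor P1 z) := by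
        intro z
        induction z using TensorProduct.induction_on with
        | zero => simp
        | tmul a b =>
          rw [LinearMap.rTensor_tmul, LinearMap.rTensor_tmul, LinearMap.rTensor_tmul, (hvB t ht s).eq,
            Module.End.mul_apply]
        | add a b ha hb => simp only [map_add, ha, hb]
      rw [DD, LinearMap.sub_apply, LinearMap.smul_apply, one_smul, h1, h2, ← map_sub]
      congr 1
      have h3 : ∑ k ∈ range (2 * n + 2), (w ^ k) (e k s)
          = ∑ k ∈ range (2 * n + 2), (w ^ k) ((A s).lTensor P2 (x ((n : ℤ) - k + 1) s))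
            - ∑ k ∈ range (2 * n + 2), (w ^ k) ((B s).rTensor P1 (x ((n : ℤ) - k) s)) := by
        rw [← Finset.sum_sub_distrib]
        exact Finset.sum_congr rfl fun k _ => by rw [map_sub]
      have h4 : ∑ k ∈ range (2 * n + 2), (w ^ k) ((B s).rTensor P1 (x ((n : ℤ) - k) s))
          = (B s).rTensor P1 (X s) := by
        rw [Finset.sum_range_succ, hn _ (Or.inr (by push_cast; omega))]
        simp only [X, map_sum, Pi.zero_apply, map_zero, add_zero]
        refine Finset.sum_congr rfl fun k _ => ?_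
        exact (map_pow (P := (B s).rTensor P1) (oB := w) (oZ := w) (cB s) k _).symm
      have h5 : ∑ k ∈ range (2 * n + 2), (w ^ k) ((A s).lTensor P2 (x ((n : ℤ) - k + 1) s))
          = w ((A s).lTensor P2 (X s)) := by
        rw [Finset.sum_range_succ', Nat.cast_zero, sub_zero, hn _ (Or.inl (by omega))]
        simp only [X, map_sum, Pi.zero_apply, map_zero, add_zero]
        refine Finset.sum_congr rfl fun k _ => ?_
        rw [map_pow (P := (A s).lTensor P2) (oB := w) (oZ := w) (cA s) k, pow_succ',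
          Module.End.mul_apply]
        congr 4
        push_cast
        ring_nf
      rw [h3, h4, h5]
    have hEx : Ex (fun s => A s * u t) (fun s => B s * v t) R1 R2 1 X := by
      constructor
      · simp only [hDD]
        rw [← map_sum, Finset.sum_comm]
        have : ∀ k ∈ range (2 * n + 2), ∑ s, (w ^ k) (e k s) = 0 := by
          intro k _
          rw [← map_sum, heS, map_zero]
        rw [Finset.sum_congr rfl this, Finset.sum_const_zero, map_zero]
      · intro s
        rw [hDD]
        have hw : ∀ k z, z ∈ (RT R2 ⊔ TR R1 : Submodule K (P2 ⊗[K] P1)) →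
            (w ^ k) z ∈ (RT R2 ⊔ TR R1 : Submodule K (P2 ⊗[K] P1)) := fun k z hz =>
          pow_mem (B' := (RT R2 ⊔ TR R1 : Submodule K (P2 ⊗[K] P1))) (o := w)
            (fun b hb => map_rad (huR t ht) (hvR' t ht) hb) k z hz
        have h1 : ∑ k ∈ range (2 * n + 2), (w ^ k) (e k s)
            ∈ (RT R2 ⊔ TR R1 : Submodule K (P2 ⊗[K] P1)) :=
          Submodule.sum_mem _ fun k _ => hw k _ (heR k s)
        obtain ⟨a, ha, b, hb, hab⟩ := Submodule.mem_sup.1 h1
        rw [← hab, map_add]
        exact Submodule.add_mem_sup (rT_RT _ (hvR t ht) ha) (rT_TR _ hb)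
    obtain ⟨b, hb⟩ := hop t ht X hEx
    refine ⟨b, hb.mem, ?_⟩
    have hevw : ∀ z, ev g (w z) = oH t (ev g z) := fun z => ev_map (gv' t ht) z
    have hevX : ∀ s, ev g (X s) = ∑ k ∈ range (2 * n + 1), (oH t ^ k) (ev g (x ((n : ℤ) - k) s)) := by
      intro s
      simp only [X, map_sum]
      refine Finset.sum_congr rfl fun k _ => ?_
      exact map_pow (P := ev g) (oB := w) (oZ := oH t) hevw k _
    have cA' : ∀ s b, sw (A s) LinearMap.id (oH t b) = oH t (sw (A s) LinearMap.id b) := by
      intro s b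
      ext p
      rw [sw_apply, hoH, hoH, sw_apply]
      exact congrArg (fun h : End K P1 => h (b (v' t p))) (huA t ht s).eq
    have cB' : ∀ s b, sw LinearMap.id (B s) (oH t b) = oH t (sw LinearMap.id (B s) b) := by
      intro s b
      ext p
      rw [sw_apply, hoH, hoH, sw_apply]
      have : B s (v' t p) = v' t (B s p) := congrArg (fun h : End K P2 => h p) (hvB' t ht s).eq
      rw [this]
      rfl
    funext s
    rw [Finset.sum_apply]
    simp only [hoZp]
    have h1 : ∑ k ∈ range (2 * n + 2), (oH t ^ k) (f k s)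
        = sw (A s) LinearMap.id (oH t (ev g (X s))) - eps • sw LinearMap.id (B s) (ev g (X s)) := by
      have h3 : ∑ k ∈ range (2 * n + 2), (oH t ^ k) (f k s)
          = ∑ k ∈ range (2 * n + 2), (oH t ^ k) (sw (A s) LinearMap.id (ev g (x ((n : ℤ) + 1 - k) s)))
            - eps • ∑ k ∈ range (2 * n + 2),
              (oH t ^ k) (sw LinearMap.id (B s) (ev g (x ((n : ℤ) - k) s))) := by
        rw [Finset.smul_sum, ← Finset.sum_sub_distrib]
        exact Finset.sum_congr rfl fun k _ => by simp only [f]; rw [map_sub, map_smul]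
      rw [h3]
      congr 1
      · rw [Finset.sum_range_succ', Nat.cast_zero, sub_zero, hn _ (Or.inl (by omega)), hevX]
        simp only [map_sum, Pi.zero_apply, map_zero, add_zero]
        refine Finset.sum_congr rfl fun k _ => ?_
        rw [cA', map_pow (P := sw (A s) (LinearMap.id : P2 →ₗ[K] P2)) (oB := oH t) (oZ := oH t)
          (cA' s) k, pow_succ', Module.End.mul_apply]
        congr 5
        push_cast
        ring_nf
      · congr 1
        rw [Finset.sum_range_succ, hn _ (Or.inr (by push_cast; omega)), hevX]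
        simp only [map_sum, Pi.zero_apply, map_zero, add_zero]
        refine Finset.sum_congr rfl fun k _ => ?_
        exact (map_pow (P := sw (LinearMap.id : P1 →ₗ[K] P1) (B s)) (oB := oH t) (oZ := oH t)
          (cB' s) k _).symm
    rw [h1]
    ext p
    have h2 := hb.eq s (v' t p)
    simp only [Module.End.mul_apply, mul_one] at h2
    have h3 : v t (v' t p) = p := congrArg (fun h : End K P2 => h p) (hvv t ht)
    rw [h3] at h2
    rw [Pi.add_apply, LinearMap.add_apply, hQ0, hQ1]
    change A s (u t (ev g (X s) (v' t p))) - eps • ev g (X s) (B s p)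
      = -(eps • b (B s p)) + A s (u t (b (v' t p)))
    rw [← h2]
    abel
  -- conclusion
  obtain ⟨γ, N, hγ⟩ := sol_of_op Q0 Q1 (HR P2 R1) Λ m hΛ T oH oZ κ hκ
    (by
      intro t ht b
      funext s
      ext p
      rw [hQ0, hoH, hoZ, hoH, hQ0]
      have : B s (v' t p) = v' t (B s p) := congrArg (fun h : End K P2 => h p) (hvB' t ht s).eq
      rw [this, map_neg, map_smul])
    (by
      intro t ht b
      funext s
      ext p
      rw [hQ1, hoH, hoZ, hoH, hQ1]
      exact congrArg (fun h : End K P1 => h (b (v' t p))) (huA t ht s).eq)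
    (by
      intro t ht b hb p
      rw [hoH]
      exact huR t ht _ (hb _))
    (by
      intro t ht t' ht'
      refine LinearMap.ext fun b => LinearMap.ext fun p => ?_
      rw [Module.End.mul_apply, Module.End.mul_apply, hoH, hoH, hoH, hoH]
      have e1 : v' t' (v' t p) = v' t (v' t' p) :=
        congrArg (fun h : End K P2 => h p) (hvv' t' ht' t ht).eq
      rw [e1]
      exact congrArg (fun h : End K P1 => h _) (huu t ht t' ht').eq)
    (by
      intro t ht t' ht'
      refine LinearMap.ext fun z => funext fun s => LinearMap.ext fun p => ?_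
      rw [Module.End.mul_apply, Module.End.mul_apply, hoZ, hoZ, hoZ, hoZ, hoH, hoH, hoH, hoH]
      have e1 : v' t' (v' t p) = v' t (v' t' p) :=
        congrArg (fun h : End K P2 => h p) (hvv' t' ht' t ht).eq
      rw [e1]
      exact congrArg (fun h : End K P1 => h _) (huu t ht t' ht').eq)
    (fun t ht => nil_of_gr hF0 hFr (hF t ht))
    (fun i => Submodule.pi Set.univ fun _ => F i) r
    (by
      rw [eq_top_iff]
      intro z _ s _
      rw [hF0]
      trivial)
    (by
      rw [eq_bot_iff]
      intro z hz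
      rw [Submodule.mem_bot]
      funext s
      have := hz s trivial
      rw [hFr] at this
      exact (Submodule.mem_bot K).1 this)
    (by
      intro t ht i z hz s hs
      exact hF t ht i (z s) (hz s hs))
    f (2 * n + 2) hf0 hsol
  have hγ1 : ∀ k : ℕ, (∑ j ∈ range N, Finsupp.single ((n : ℤ) - j) (γ j)) ((n : ℤ) - k) = γ k := by
    intro k
    rw [Finsupp.finsetSum_apply]
    by_cases hk : k < N
    · rw [Finset.sum_eq_single k]
      · simp
      · intro j _ hj
        rw [Finsupp.single_apply, if_neg]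
        intro h
        exact hj (by omega)
      · intro h
        exact absurd (mem_range.2 hk) h
    · rw [hγ.fin k (by omega)]
      refine Finset.sum_eq_zero fun j hj => ?_
      rw [Finsupp.single_apply, if_neg]
      intro h
      have := mem_range.1 hj
      omega
  have hγ2 : ∀ i : ℤ, (n : ℤ) < i →
      (∑ j ∈ range N, Finsupp.single ((n : ℤ) - j) (γ j)) i = 0 := by
    intro i hi
    rw [Finsupp.finsetSum_apply]
    refine Finset.sum_eq_zero fun j hj => ?_
    rw [Finsupp.single_apply, if_neg]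
    omega
  refine ⟨∑ j ∈ range N, Finsupp.single ((n : ℤ) - j) (γ j), ?_, ?_⟩
  · intro i p
    by_cases hi : (n : ℤ) < i
    · rw [hγ2 i hi]
      exact R1.zero_mem
    · obtain ⟨k, rfl⟩ : ∃ k : ℕ, i = (n : ℤ) - k := ⟨((n : ℤ) - i).toNat, by omega⟩
      rw [hγ1]
      exact hγ.mem k p
  · intro i s p
    rcases lt_trichotomy i ((n : ℤ) + 1) with hi | hi | hi
    · obtain ⟨k, rfl⟩ : ∃ k : ℕ, i = (n : ℤ) - k := ⟨((n : ℤ) - i).toNat, by omega⟩
      have h1 := LinearMap.congr_fun (congrFun (hγ.succ k) s) p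
      rw [Pi.add_apply, LinearMap.add_apply, hQ0, hQ1, hfa] at h1
      have e1 : (n : ℤ) + 1 - ((k + 1 : ℕ) : ℤ) = (n : ℤ) - k := by push_cast; ring
      have e2 : (n : ℤ) - ((k + 1 : ℕ) : ℤ) = (n : ℤ) - k - 1 := by push_cast; ring
      rw [e1] at h1
      have h2 := hγ1 (k + 1)
      rw [e2] at h1 h2
      rw [hγ1, h2, h1]
      abel
    · subst hi
      have h1 := LinearMap.congr_fun (congrFun hγ.zero s) p
      rw [hQ0, hfa] at h1
      have h2 := hγ1 0
      rw [Nat.cast_zero, sub_zero] at h1 h2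
      rw [hγ2 _ (by omega), add_sub_cancel_right, h2, LinearMap.zero_apply, map_zero, zero_sub, ← h1]
      simp only [Nat.cast_zero, sub_zero]
    · rw [hγ2 _ (by omega), hγ2 _ (by omega), hn i (Or.inl (by omega)), hn (i - 1) (Or.inl (by omega))]
      simp

end Crest.Agent.R172.HexL
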