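import Crest.Agent.R172.HexL

/-!
Row 172, node o2-HexOp: `hexL_of_op` (the operators `1 + t (la + N)`), `main_hyb` (conclusion of
`RJ.main` from `hexL` and the scalar bilinear relation), `main_op` (both).
-/

set_option autoImplicit false
set_option linter.unusedSectionVars false

namespace Crest.Agent.R172.HexL

open Finset Module TensorProduct
open Crest.Agent.R172.SepC Crest.Agent.R172.HexOp Crest.Agent.R172.RJ Crest.Agent.R172.RJ2

variable {K : Type*} [Field K]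

/-- `1 + t (la + N)` -/
noncomputable def cc {P : Type*} [AddCommGroup P] [Module K P] (la : K) (N : End K P) (t : K) :
    End K P :=
  1 + t • (algebraMap K (End K P) la + N)

theorem cc_eq {P : Type*} [AddCommGroup P] [Module K P] (la : K) (N : End K P) (t : K) :
    cc la N t = algebraMap K (End K P) (1 + t * la) + t • N := by
  rw [cc, smul_add, map_add, map_one, map_mul, ← add_assoc]
  congr 2

theorem cc_comm {P : Type*} [AddCommGroup P] [Module K P] {la : K} {N : End K P} {t : K}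
    {f : End K P} (h : Commute f N) : Commute f (cc la N t) := by
  rw [cc_eq]
  exact (Algebra.commute_algebraMap_right _ f).add_right (h.smul_right t)

theorem cc_mem {P : Type*} [AddCommGroup P] [Module K P] {la : K} {N : End K P} {t : K}
    {S : Submodule K P} (h : ∀ v ∈ S, N v ∈ S) : ∀ v ∈ S, cc la N t v ∈ S := by
  intro v hv
  rw [cc_eq, LinearMap.add_apply, LinearMap.smul_apply, Module.algebraMap_end_apply]
  exact S.add_mem (S.smul_mem _ hv) (S.smul_mem _ (h v hv))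

variable {τ : Type*} [Fintype τ] [DecidableEq τ]
variable {P1 P2 E : Type*} [AddCommGroup P1] [Module K P1] [AddCommGroup P2] [Module K P2]
  [AddCommGroup E] [Module K E]
variable {A : τ → End K P1} {B : τ → End K P2} {R1 : Submodule K P1} {R2 : Submodule K P2}
  {g : P2 →ₗ[K] P2 →ₗ[K] K} {eps : K}

/-- **`hexL` for the operators `c1 = 1 + t (la1 + N1)`, `c2 = 1 + t (la2 + N2)`.** -/
theorem hexL_of_op [CharZero K] (hB : ⨆ t, LinearMap.range (B t) = ⊤)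
    (hR1 : ∀ t, ∀ r ∈ R1, A t r ∈ R1) {m : ℕ}
    (hN1 : ∀ w : List τ, w.length = m → ∀ r ∈ R1, (w.map A).prod r = 0) (heps : eps ≠ 0)
    {N1 : End K P1} {N2 : End K P2} (n1 : IsNilpotent N1) (n2 : IsNilpotent N2)
    (cA : ∀ s, Commute (A s) N1) (cB : ∀ s, Commute (B s) N2)
    (N1R : ∀ r ∈ R1, N1 r ∈ R1) (N2R : ∀ r ∈ R2, N2 r ∈ R2)
    (gN : ∀ p p', g (N2 p) p' = g p (N2 p')) {la1 la2 : K} (hla : la1 ≠ la2)
    (T : Set K) (hT : T.Infinite) (hT2 : ∀ t ∈ T, 1 + t * la2 ≠ 0)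
    (hop : ∀ t ∈ T, ∀ x, Ex (fun s => A s * cc la1 N1 t ^ 2) (fun s => B s * cc la2 N2 t ^ 2) R1 R2 1 x →
      ∃ b, Cor (fun s => A s * cc la1 N1 t ^ 2) (fun s => B s * cc la2 N2 t ^ 2) R1 g eps 1 x b)
    (x : ℤ →₀ (τ → P2 ⊗[K] P1)) (hx : dfc A B x = 0) (hx' : x ∈ ArmS A B R1 R2) :
    ∃ β, Lf A B R1 g eps x β := by
  classical
  have hinv : ∀ t ∈ T, ∃ c' : End K P2, c' * cc la2 N2 t = 1 ∧ cc la2 N2 t * c' = 1 ∧
      (∀ S : Submodule K P2, (∀ v ∈ S, N2 v ∈ S) → ∀ v ∈ S, c' v ∈ S) ∧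
      (∀ f : End K P2, Commute f N2 → Commute f c') ∧
      (∀ p p', g (c' p) p' = g p (c' p')) := by
    intro t ht
    have hn : IsNilpotent (t • N2) := by
      obtain ⟨n, hn⟩ := n2
      exact ⟨n, by rw [smul_pow, hn, smul_zero]⟩
    obtain ⟨c', h1, h2, h3, h4, h5⟩ := exists_inv hn (hT2 t ht)
    refine ⟨c', by rw [cc_eq]; exact h1, by rw [cc_eq]; exact h2, ?_, ?_, ?_⟩
    · intro S hS
      exact h3 S fun v hv => S.smul_mem _ (hS v hv)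
    · intro f hf
      exact h4 f (hf.smul_right t)
    · refine h5 g fun p p' => ?_
      simp only [LinearMap.smul_apply, map_smul, gN]
  choose! c' hc1 hc2 hc3 hc4 hc5 using hinv
  -- the filtration
  let L : End K (P2 →ₗ[K] P1) := sw N1 LinearMap.id
  let R : End K (P2 →ₗ[K] P1) := sw LinearMap.id N2
  have hLR : Commute L R := by
    refine LinearMap.ext fun b => LinearMap.ext fun p => ?_
    rfl
  have hLp : ∀ k b p, (L ^ k) b p = (N1 ^ k) (b p) := by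
    intro k
    induction k with
    | zero => intro b p; rfl
    | succ k ih =>
      intro b p
      rw [pow_succ, pow_succ, Module.End.mul_apply, Module.End.mul_apply, ih]
      rfl
  have hRp : ∀ k b p, (R ^ k) b p = b ((N2 ^ k) p) := by
    intro k
    induction k with
    | zero => intro b p; rfl
    | succ k ih =>
      intro b p
      rw [pow_succ, pow_succ', Module.End.mul_apply, Module.End.mul_apply, ih]
      rfl
  obtain ⟨k1, hk1⟩ := n1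
  obtain ⟨k2, hk2⟩ := n2
  have hL : L ^ k1 = 0 := by
    refine LinearMap.ext fun b => LinearMap.ext fun p => ?_
    rw [hLp, hk1]
    rfl
  have hR : R ^ k2 = 0 := by
    refine LinearMap.ext fun b => LinearMap.ext fun p => ?_
    rw [hRp, hk2]
    simp
  have hFd : ∀ i, Fl L R (i + 1) ≤ Fl L R i := fun i => Fl_anti _ _ (Nat.le_succ i)
  have hFr : ∀ i, k1 + k2 ≤ i → Fl L R i = ⊥ := by
    intro i hi
    rw [eq_bot_iff, ← Fl_bot hL hR]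
    exact Fl_anti _ _ hi
  refine hexL_gen hB hR1 hN1 heps T (fun t => cc la1 N1 t ^ 2) (fun t => cc la2 N2 t ^ 2)
    (fun t => c' t ^ 2) (fun t => ((1 + t * la1) * (1 + t * la2)⁻¹) ^ 2)
    (infinite_sq hla.symm T hT hT2) ?_ ?_ ?_ ?_ ?_ ?_ ?_ ?_ ?_ ?_ (Fl L R) (k1 + k2)
    (Fl_zero _ _) (hFr _ le_rfl) ?_ hop x hx hx'
  · intro t ht
    have : cc la2 N2 t ^ 2 * c' t ^ 2 = cc la2 N2 t * (cc la2 N2 t * c' t) * c' t := by
      rw [pow_two, pow_two]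
      simp only [mul_assoc]
    rw [this, hc2 t ht, mul_one, hc2 t ht]
  · intro t _ s
    exact (cc_comm (cA s)).pow_right 2
  · intro t _ s
    exact (cc_comm (cB s)).pow_right 2
  · intro t ht s
    exact (hc4 t ht _ (cB s)).pow_right 2
  · intro t _ t' _
    refine Commute.pow_pow ?_ 2 2
    exact cc_comm (Commute.symm (cc_comm (Commute.refl N1)))
  · intro t ht t' ht'
    refine Commute.pow_pow ?_ 2 2
    exact hc4 t' ht' _ (Commute.symm (hc4 t ht _ (Commute.refl N2)))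
  · intro t _ r hr
    exact pow_mem (B' := R1) (o := cc la1 N1 t) (cc_mem N1R) 2 r hr
  · intro t _ r hr
    exact pow_mem (B' := R2) (o := cc la2 N2 t) (cc_mem N2R) 2 r hr
  · intro t ht r hr
    exact pow_mem (B' := R2) (o := c' t) (hc3 t ht R2 N2R) 2 r hr
  · intro t ht p p'
    rw [pow_two, Module.End.mul_apply, Module.End.mul_apply, hc5 t ht, hc5 t ht]
  · intro t ht
    have h1 : Gr (Fl L R) (1 + t * la1) (sw (cc la1 N1 t) LinearMap.id : End K (P2 →ₗ[K] P1)) := by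
      have e : (sw (cc la1 N1 t) LinearMap.id : End K (P2 →ₗ[K] P1))
          = 1 + t • (algebraMap K (End K (P2 →ₗ[K] P1)) la1 + L) := by
        refine LinearMap.ext fun b => LinearMap.ext fun p => ?_
        rfl
      rw [e]
      exact Gr.fst L R la1 t
    have h2 : Gr (Fl L R) (1 + t * la2) (sw LinearMap.id (cc la2 N2 t) : End K (P2 →ₗ[K] P1)) := by
      have e : (sw LinearMap.id (cc la2 N2 t) : End K (P2 →ₗ[K] P1))
          = 1 + t • (algebraMap K (End K (P2 →ₗ[K] P1)) la2 + R) := by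
        refine LinearMap.ext fun b => LinearMap.ext fun p => ?_
        change b (cc la2 N2 t p) = b p + t • (la2 • b p + b (N2 p))
        rw [cc]
        simp only [LinearMap.add_apply, LinearMap.smul_apply, Module.End.one_apply,
          Module.algebraMap_end_apply, map_add, map_smul]
      rw [e]
      exact Gr.snd hLR la2 t
    have h3 : Gr (Fl L R) (1 + t * la2)⁻¹ (sw LinearMap.id (c' t) : End K (P2 →ₗ[K] P1)) := by
      refine Gr.inv (r := k1 + k2) hFd hFr (hT2 t ht) h2 ?_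
      refine LinearMap.ext fun b => LinearMap.ext fun p => ?_
      change b (cc la2 N2 t (c' t p)) = b p
      have : cc la2 N2 t (c' t p) = p := congrArg (fun h : End K P2 => h p) (hc2 t ht)
      rw [this]
    have h4 := (h1.mul hFd h1).mul hFd (h3.mul hFd h3)
    have e1 : (1 + t * la1) * (1 + t * la1) * ((1 + t * la2)⁻¹ * (1 + t * la2)⁻¹)
        = ((1 + t * la1) * (1 + t * la2)⁻¹) ^ 2 := by ring
    rw [e1] at h4
    have e2 : (sw (cc la1 N1 t) LinearMap.id : End K (P2 →ₗ[K] P1)) * sw (cc la1 N1 t) LinearMap.id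
        * (sw LinearMap.id (c' t) * sw LinearMap.id (c' t))
        = sw (cc la1 N1 t ^ 2) (c' t ^ 2) := by
      refine LinearMap.ext fun b => LinearMap.ext fun p => ?_
      rw [pow_two, pow_two]
      rfl
    rw [e2] at h4
    exact h4

/-! ### the hybrid form of the main theorem -/

/-- `b ↦ lift (q ∘ b)` -/
noncomputable def lq (q : P1 →ₗ[K] P1 →ₗ[K] E) :
    (P2 →ₗ[K] P1) →ₗ[K] (P2 ⊗[K] P1 →ₗ[K] E) where
  toFun b := TensorProduct.lift (q ∘ₗ b)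
  map_add' := by
    intro b b'
    refine TensorProduct.ext' fun x y => ?_
    simp
  map_smul' := by
    intro c b
    refine TensorProduct.ext' fun x y => ?_
    simp

theorem lq_apply (q : P1 →ₗ[K] P1 →ₗ[K] E) (b : P2 →ₗ[K] P1) :
    lq q b = TensorProduct.lift (q ∘ₗ b) := rfl

/-- the bilinear relation -/
noncomputable def Phi (g : P2 →ₗ[K] P2 →ₗ[K] K) (q : τ → P1 →ₗ[K] P1 →ₗ[K] E) (a1 a2 a3 : K)
    (y : τ → P2 ⊗[K] P1) (b : P2 →ₗ[K] P1) (y' : τ → P2 ⊗[K] P1) (b' : P2 →ₗ[K] P1) : E :=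
  ∑ t, (a1 • TensorProduct.lift ((q t) ∘ₗ b') (y t)
    + a2 • TensorProduct.lift ((q t).flip ∘ₗ b) (y' t)
    + a3 • TensorProduct.lift ((q t) ∘ₗ (ev g (y' t))) (y t))

/-- `Phi` as a linear map of the first pair -/
noncomputable def Phi1 (g : P2 →ₗ[K] P2 →ₗ[K] K) (q : τ → P1 →ₗ[K] P1 →ₗ[K] E) (a1 a2 a3 : K)
    (y' : τ → P2 ⊗[K] P1) (b' : P2 →ₗ[K] P1) :
    ((τ → P2 ⊗[K] P1) →ₗ[K] E) × ((P2 →ₗ[K] P1) →ₗ[K] E) :=
  (∑ t, (a1 • lq (q t) b' + a3 • lq (q t) (ev g (y' t))) ∘ₗ LinearMap.proj t,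
    ∑ t, a2 • (LinearMap.applyₗ (y' t) ∘ₗ lq (q t).flip))

theorem Phi1_eq (g : P2 →ₗ[K] P2 →ₗ[K] K) (q : τ → P1 →ₗ[K] P1 →ₗ[K] E) (a1 a2 a3 : K)
    (y : τ → P2 ⊗[K] P1) (b : P2 →ₗ[K] P1) (y' : τ → P2 ⊗[K] P1) (b' : P2 →ₗ[K] P1) :
    (Phi1 g q a1 a2 a3 y' b').1 y + (Phi1 g q a1 a2 a3 y' b').2 b = Phi g q a1 a2 a3 y b y' b' := by
  simp only [Phi1, Phi, LinearMap.sum_apply, LinearMap.comp_apply, LinearMap.add_apply,
    LinearMap.smul_apply, LinearMap.proj_apply, LinearMap.applyₗ_apply_apply, lq_apply]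
  rw [← Finset.sum_add_distrib]
  refine Finset.sum_congr rfl fun t _ => ?_
  abel

/-- `Phi` as a linear map of the second pair -/
noncomputable def Phi2 (g : P2 →ₗ[K] P2 →ₗ[K] K) (q : τ → P1 →ₗ[K] P1 →ₗ[K] E) (a1 a2 a3 : K)
    (y : τ → P2 ⊗[K] P1) (b : P2 →ₗ[K] P1) :
    ((τ → P2 ⊗[K] P1) →ₗ[K] E) × ((P2 →ₗ[K] P1) →ₗ[K] E) :=
  (∑ t, (a2 • lq (q t).flip b + a3 • (LinearMap.applyₗ (y t) ∘ₗ lq (q t) ∘ₗ ev g))
      ∘ₗ LinearMap.proj t,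
    ∑ t, a1 • (LinearMap.applyₗ (y t) ∘ₗ lq (q t)))

theorem Phi2_eq (g : P2 →ₗ[K] P2 →ₗ[K] K) (q : τ → P1 →ₗ[K] P1 →ₗ[K] E) (a1 a2 a3 : K)
    (y : τ → P2 ⊗[K] P1) (b : P2 →ₗ[K] P1) (y' : τ → P2 ⊗[K] P1) (b' : P2 →ₗ[K] P1) :
    (Phi2 g q a1 a2 a3 y b).1 y' + (Phi2 g q a1 a2 a3 y b).2 b' = Phi g q a1 a2 a3 y b y' b' := by
  simp only [Phi2, Phi, LinearMap.sum_apply, LinearMap.comp_apply, LinearMap.add_apply,
    LinearMap.smul_apply, LinearMap.proj_apply, LinearMap.applyₗ_apply_apply, lq_apply]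
  rw [← Finset.sum_add_distrib]
  refine Finset.sum_congr rfl fun t _ => ?_
  abel

/-- evaluation of a decorated Laurent family -/
theorem cor_of {x : ℤ →₀ (τ → P2 ⊗[K] P1)} {β : ℤ →₀ (P2 →ₗ[K] P1)} (h : Lf A B R1 g eps x β)
    {c : K} (hc : c ≠ 0) : Cor A B R1 g eps c (evl c x) (evl c β) := by
  constructor
  · have h1 : evl c β ∈ HR P2 R1 := evl_mem _ c β fun i p => h.mem i p
    exact h1
  · intro t p
    let L1 : (P2 →ₗ[K] P1) →ₗ[K] P1 := (A t) ∘ₗ LinearMap.applyₗ p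
    let L2 : (P2 →ₗ[K] P1) →ₗ[K] P1 := LinearMap.applyₗ (B t p)
    let E' : (τ → P2 ⊗[K] P1) →ₗ[K] (P2 →ₗ[K] P1) := ev g ∘ₗ LinearMap.proj t
    have key : Finsupp.mapRange.linearMap L1 β - eps • sh' (K := K) (Finsupp.mapRange.linearMap L2 β)
        = Finsupp.mapRange.linearMap (L1 ∘ₗ E') x
          - eps • sh' (K := K) (Finsupp.mapRange.linearMap (L2 ∘ₗ E') x) := by
      ext i
      simp only [Finsupp.sub_apply, Finsupp.smul_apply, sh'_apply,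
        Finsupp.mapRange.linearMap_apply, Finsupp.mapRange_apply]
      exact h.eq i t p
    have h2 := congrArg (evl c) key
    simp only [map_sub, map_smul] at h2
    rw [evl_map, evl_map, evl_sh' hc, evl_sh' hc, evl_map, evl_map, smul_smul, smul_smul] at h2
    exact h2

/-- the coefficients of the bilinear relation -/
theorem rel_coeff {Λ : Set K} (hΛ : Λ.Infinite) (h0 : (0 : K) ∉ Λ)
    (q : τ → P1 →ₗ[K] P1 →ₗ[K] E) (Q : Submodule K E) (a1 a2 a3 : K)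
    (hrel : ∀ c ∈ Λ, ∀ c' ∈ Λ, ∀ x b x' b', Ex A B R1 R2 c x → Cor A B R1 g eps c x b →
      Ex A B R1 R2 c' x' → Cor A B R1 g eps c' x' b' →
      ∑ t, (a1 • TensorProduct.lift ((q t) ∘ₗ b') (x t)
        + a2 • TensorProduct.lift ((q t).flip ∘ₗ b) (x' t)
        + a3 • TensorProduct.lift ((q t) ∘ₗ (ev g (x' t))) (x t)) ∈ Q)
    (x : ℤ →₀ (τ → P2 ⊗[K] P1)) (β : ℤ →₀ (P2 →ₗ[K] P1)) (x' : ℤ →₀ (τ → P2 ⊗[K] P1))
    (β' : ℤ →₀ (P2 →ₗ[K] P1)) (h1 : dfc A B x = 0) (h2 : x ∈ ArmS A B R1 R2)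
    (h3 : Lf A B R1 g eps x β) (h1' : dfc A B x' = 0) (h2' : x' ∈ ArmS A B R1 R2)
    (h3' : Lf A B R1 g eps x' β') (i j : ℤ) :
    ∑ t, (a1 • TensorProduct.lift ((q t) ∘ₗ (β' j)) (x i t)
        + a2 • TensorProduct.lift ((q t).flip ∘ₗ (β i)) (x' j t)
        + a3 • TensorProduct.lift ((q t) ∘ₗ (ev g (x' j t))) (x i t)) ∈ Q := by
  have hs : ∀ c' ∈ Λ, ∀ i : ℤ,
      Phi g q a1 a2 a3 (x i) (β i) (evl c' x') (evl c' β') ∈ Q := by
    intro c' hc' i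
    have hc0' : c' ≠ 0 := fun h => h0 (h ▸ hc')
    let Z : ℤ →₀ E := Finsupp.mapRange.linearMap (Phi1 g q a1 a2 a3 (evl c' x') (evl c' β')).1 x
      + Finsupp.mapRange.linearMap (Phi1 g q a1 a2 a3 (evl c' x') (evl c' β')).2 β
    have hZ : ∀ c ∈ Λ, evl c Z ∈ Q := by
      intro c hc
      have hc0 : c ≠ 0 := fun h => h0 (h ▸ hc)
      simp only [Z, map_add]
      rw [evl_map, evl_map, Phi1_eq]
      exact hrel c hc c' hc' _ _ _ _ (ex_of hc0 h1 h2) (cor_of h3 hc0) (ex_of hc0' h1' h2')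
        (cor_of h3' hc0')
    have h5 := evl_coeff hΛ h0 Q Z hZ i
    simp only [Z, Finsupp.add_apply, Finsupp.mapRange.linearMap_apply,
      Finsupp.mapRange_apply] at h5
    rwa [Phi1_eq] at h5
  let Z : ℤ →₀ E := Finsupp.mapRange.linearMap (Phi2 g q a1 a2 a3 (x i) (β i)).1 x'
    + Finsupp.mapRange.linearMap (Phi2 g q a1 a2 a3 (x i) (β i)).2 β'
  have hZ : ∀ c ∈ Λ, evl c Z ∈ Q := by
    intro c hc
    simp only [Z, map_add]
    rw [evl_map, evl_map, Phi2_eq]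
    exact hs c hc i
  have h5 := evl_coeff hΛ h0 Q Z hZ j
  simp only [Z, Finsupp.add_apply, Finsupp.mapRange.linearMap_apply,
    Finsupp.mapRange_apply] at h5
  rwa [Phi2_eq] at h5

/-- **The hybrid form**: `hexL` for Laurent families, the bilinear relation for scalars. -/
theorem main_hyb {l : τ → ℕ} (hA : ⨆ t, LinearMap.range (A t) = ⊤)
    (hB : ⨆ t, LinearMap.range (B t) = ⊤)
    (hR1 : ∀ t, ∀ r ∈ R1, A t r ∈ R1) (hR2 : ∀ t, ∀ r ∈ R2, B t r ∈ R2) {m : ℕ}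
    (hN1 : ∀ w : List τ, w.length = m → ∀ r ∈ R1, (w.map A).prod r = 0)
    (hN2 : ∀ w : List τ, w.length = m → ∀ r ∈ R2, (w.map B).prod r = 0)
    (hl : ∀ s, 1 ≤ l s)
    (hl1 : ∀ s p, (A s ^ l s) p ∈ R1) (hl2 : ∀ s p, (B s ^ l s) p ∈ R2)
    (gen1 : ∀ S : Submodule K P1, (∀ t, ∀ v ∈ S, A t v ∈ S) → (∀ s p, (A s ^ l s) p ∈ S) → R1 ≤ S)
    (gen2 : ∀ S : Submodule K P2, (∀ t, ∀ v ∈ S, B t v ∈ S) → (∀ s p, (B s ^ l s) p ∈ S) → R2 ≤ S)
    (heps : eps ≠ 0) (gR1 : ∀ r ∈ R2, ∀ p, g r p = 0) (gR2 : ∀ r ∈ R2, ∀ p, g p r = 0)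
    (gB : ∀ t p p', g (B t p) p' = eps * g p (B t p'))
    (gtop : ∀ s, ∃ p p', g ((B s ^ (l s - 1)) p) p' ≠ 0)
    {Λ : Set K} (hΛ : Λ.Infinite) (h0 : (0 : K) ∉ Λ)
    (q : τ → P1 →ₗ[K] P1 →ₗ[K] E) (Q : Submodule K E) {a1 a2 a3 : K}
    (ha1 : a1 ≠ 0) (ha2 : a2 ≠ 0) (ha3 : a3 ≠ 0)
    (hexL : ∀ x : ℤ →₀ (τ → P2 ⊗[K] P1), dfc A B x = 0 → x ∈ ArmS A B R1 R2 →
      ∃ β, Lf A B R1 g eps x β)
    (hrel : ∀ c ∈ Λ, ∀ c' ∈ Λ, ∀ x b x' b', Ex A B R1 R2 c x → Cor A B R1 g eps c x b →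
      Ex A B R1 R2 c' x' → Cor A B R1 g eps c' x' b' →
      ∑ t, (a1 • TensorProduct.lift ((q t) ∘ₗ b') (x t)
        + a2 • TensorProduct.lift ((q t).flip ∘ₗ b) (x' t)
        + a3 • TensorProduct.lift ((q t) ∘ₗ (ev g (x' t))) (x t)) ∈ Q) :
    (∀ t, ∀ r ∈ R1, ∀ p, q t r p ∈ Q ∧ q t p r ∈ Q) ∧
      (∀ s i j, i + j + 1 = l s → ∀ p p', q s ((A s ^ i) p) ((A s ^ j) p') ∈ Q) :=
  main_coeff hA hB hR1 hR2 hN1 hN2 hl hl1 hl2 gen1 gen2 heps gR1 gR2 gB gtop q Q ha1 ha2 ha3 hexL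
    (fun x β x' β' h1 h2 h3 h1' h2' h3' i j =>
      rel_coeff hΛ h0 q Q a1 a2 a3 hrel x β x' β' h1 h2 h3 h1' h2' h3' i j)

/-- **The form with operator corrections and scalar relations.** -/
theorem main_op [CharZero K] {l : τ → ℕ} (hA : ⨆ t, LinearMap.range (A t) = ⊤)
    (hB : ⨆ t, LinearMap.range (B t) = ⊤)
    (hR1 : ∀ t, ∀ r ∈ R1, A t r ∈ R1) (hR2 : ∀ t, ∀ r ∈ R2, B t r ∈ R2) {m : ℕ}
    (hN1 : ∀ w : List τ, w.length = m → ∀ r ∈ R1, (w.map A).prod r = 0)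
    (hN2 : ∀ w : List τ, w.length = m → ∀ r ∈ R2, (w.map B).prod r = 0)
    (hl : ∀ s, 1 ≤ l s)
    (hl1 : ∀ s p, (A s ^ l s) p ∈ R1) (hl2 : ∀ s p, (B s ^ l s) p ∈ R2)
    (gen1 : ∀ S : Submodule K P1, (∀ t, ∀ v ∈ S, A t v ∈ S) → (∀ s p, (A s ^ l s) p ∈ S) → R1 ≤ S)
    (gen2 : ∀ S : Submodule K P2, (∀ t, ∀ v ∈ S, B t v ∈ S) → (∀ s p, (B s ^ l s) p ∈ S) → R2 ≤ S)
    (heps : eps ≠ 0) (gR1 : ∀ r ∈ R2, ∀ p, g r p = 0) (gR2 : ∀ r ∈ R2, ∀ p, g p r = 0)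
    (gB : ∀ t p p', g (B t p) p' = eps * g p (B t p'))
    (gtop : ∀ s, ∃ p p', g ((B s ^ (l s - 1)) p) p' ≠ 0)
    {N1 : End K P1} {N2 : End K P2} (n1 : IsNilpotent N1) (n2 : IsNilpotent N2)
    (cA : ∀ s, Commute (A s) N1) (cB : ∀ s, Commute (B s) N2)
    (N1R : ∀ r ∈ R1, N1 r ∈ R1) (N2R : ∀ r ∈ R2, N2 r ∈ R2)
    (gN : ∀ p p', g (N2 p) p' = g p (N2 p')) {la1 la2 : K} (hla : la1 ≠ la2)
    (T : Set K) (hT : T.Infinite) (hT2 : ∀ t ∈ T, 1 + t * la2 ≠ 0)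
    (hop : ∀ t ∈ T, ∀ x, Ex (fun s => A s * cc la1 N1 t ^ 2) (fun s => B s * cc la2 N2 t ^ 2) R1 R2 1 x →
      ∃ b, Cor (fun s => A s * cc la1 N1 t ^ 2) (fun s => B s * cc la2 N2 t ^ 2) R1 g eps 1 x b)
    {Λ : Set K} (hΛ : Λ.Infinite) (h0 : (0 : K) ∉ Λ)
    (q : τ → P1 →ₗ[K] P1 →ₗ[K] E) (Q : Submodule K E) {a1 a2 a3 : K}
    (ha1 : a1 ≠ 0) (ha2 : a2 ≠ 0) (ha3 : a3 ≠ 0)
    (hrel : ∀ c ∈ Λ, ∀ c' ∈ Λ, ∀ x b x' b', Ex A B R1 R2 c x → Cor A B R1 g eps c x b →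
      Ex A B R1 R2 c' x' → Cor A B R1 g eps c' x' b' →
      ∑ t, (a1 • TensorProduct.lift ((q t) ∘ₗ b') (x t)
        + a2 • TensorProduct.lift ((q t).flip ∘ₗ b) (x' t)
        + a3 • TensorProduct.lift ((q t) ∘ₗ (ev g (x' t))) (x t)) ∈ Q) :
    (∀ t, ∀ r ∈ R1, ∀ p, q t r p ∈ Q ∧ q t p r ∈ Q) ∧
      (∀ s i j, i + j + 1 = l s → ∀ p p', q s ((A s ^ i) p) ((A s ^ j) p') ∈ Q) :=
  main_hyb hA hB hR1 hR2 hN1 hN2 hl hl1 hl2 gen1 gen2 heps gR1 gR2 gB gtop hΛ h0 q Q ha1 ha2 ha3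
    (hexL_of_op hB hR1 hN1 heps n1 n2 cA cB N1R N2R gN hla T hT hT2 hop) hrel

end Crest.Agent.R172.HexL
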