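import Crest.Agent.R172.HexU
import Crest.Agent.R172.CovM

/-!
Row 172 (S0260), T0 with arbitrary radical and arbitrary `D`: the field `hexS` of `RD.Fr`
(corrections of scalar exact families, matrix form) from `HexU.HEX` (tensor form).
-/

set_option autoImplicit false
set_option linter.unusedSectionVars false

namespace Crest.Agent.R172.HexM

open Module TensorProduct Matrix Crest.Agent.R172.CovM
open Crest.Agent.R172.RJM (RT TR DD Ex ev Cor ev_tmul)
open Crest.Agent.R172.HexU (HEX)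

variable {K : Type*} [Field K]

section ker

variable {P2 P1 Q2 Q1 : Type*} [AddCommGroup P2] [Module K P2] [AddCommGroup P1] [Module K P1]
  [AddCommGroup Q2] [Module K Q2] [AddCommGroup Q1] [Module K Q1]

theorem ev_injective [FiniteDimensional K Q2] (g : Q2 →ₗ[K] Q2 →ₗ[K] K)
    (hg : ∀ q, (∀ q', g q q' = 0) → q = 0) :
    Function.Injective (ev g : Q2 ⊗[K] Q1 →ₗ[K] (Q2 →ₗ[K] Q1)) := by
  have e : ∀ z, ev g z = dualTensorHom K Q2 Q1 (LinearMap.rTensor Q1 g z) := by
    intro z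
    induction z using TensorProduct.induction_on with
    | zero => simp
    | tmul a b =>
      ext q
      rw [ev_tmul, LinearMap.rTensor_tmul]
      rfl
    | add a b ha hb => rw [map_add, ha, hb, map_add, map_add]
  have h1 : Function.Injective g := by
    rw [← LinearMap.ker_eq_bot, LinearMap.ker_eq_bot']
    intro q hq
    exact hg q fun q' => by rw [hq]; rfl
  intro z z' h
  rw [e, e] at h
  exact Module.Flat.rTensor_preserves_injective_linearMap g h1 (dualTensorHom_bijective.1 h)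

theorem mem_RT_TR (pr2 : P2 →ₗ[K] Q2) (pr1 : P1 →ₗ[K] Q1) (h2 : Function.Surjective pr2)
    (h1 : Function.Surjective pr1) (w : P2 ⊗[K] P1) (hw : TensorProduct.map pr2 pr1 w = 0) :
    w ∈ (RT (LinearMap.ker pr2) ⊔ TR (LinearMap.ker pr1) : Submodule K (P2 ⊗[K] P1)) := by
  have e2 : Function.Exact (LinearMap.ker pr2).subtype pr2 := by
    intro y
    simp
  have e1 : Function.Exact (LinearMap.ker pr1).subtype pr1 := by
    intro y
    simp
  have h := TensorProduct.map_ker e2 h2 e1 h1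
  have hw' : w ∈ LinearMap.ker (TensorProduct.map pr2 pr1) := hw
  rw [h] at hw'
  obtain ⟨a, ha, b, hb, rfl⟩ := Submodule.mem_sup.1 hw'
  refine Submodule.add_mem _ (Submodule.mem_sup_right ?_) (Submodule.mem_sup_left ?_)
  · obtain ⟨z, rfl⟩ := ha
    clear hw hw' h
    induction z using TensorProduct.induction_on with
    | zero => rw [map_zero]; exact Submodule.zero_mem _
    | tmul x y =>
      rw [LinearMap.lTensor_tmul]
      exact Submodule.subset_span ⟨x, _, y.2, rfl⟩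
    | add x y hx hy => rw [map_add]; exact Submodule.add_mem _ hx hy
  · obtain ⟨z, rfl⟩ := hb
    clear hw hw' h
    induction z using TensorProduct.induction_on with
    | zero => rw [map_zero]; exact Submodule.zero_mem _
    | tmul x y =>
      rw [LinearMap.rTensor_tmul]
      exact Submodule.subset_span ⟨_, x.2, y, rfl⟩
    | add x y hx hy => rw [map_add]; exact Submodule.add_mem _ hx hy

theorem ev_map (g : Q2 →ₗ[K] Q2 →ₗ[K] K) (pr2 : P2 →ₗ[K] Q2) (pr1 : P1 →ₗ[K] Q1)
    (w : P2 ⊗[K] P1) (u : P2) :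
    ev g (TensorProduct.map pr2 pr1 w) (pr2 u) = pr1 (ev (g.compl₁₂ pr2 pr2) w u) := by
  induction w using TensorProduct.induction_on with
  | zero => simp
  | tmul a b => rw [TensorProduct.map_tmul, ev_tmul, ev_tmul, map_smul]; rfl
  | add a b ha hb => simp only [map_add, LinearMap.add_apply, ha, hb]

theorem mem_RT_TR' [FiniteDimensional K Q2] (g : Q2 →ₗ[K] Q2 →ₗ[K] K)
    (hg : ∀ q, (∀ q', g q q' = 0) → q = 0)
    (pr2 : P2 →ₗ[K] Q2) (pr1 : P1 →ₗ[K] Q1) (h2 : Function.Surjective pr2)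
    (h1 : Function.Surjective pr1) (w : P2 ⊗[K] P1)
    (hw : ∀ u, pr1 (ev (g.compl₁₂ pr2 pr2) w u) = 0) :
    w ∈ (RT (LinearMap.ker pr2) ⊔ TR (LinearMap.ker pr1) : Submodule K (P2 ⊗[K] P1)) := by
  refine mem_RT_TR pr2 pr1 h2 h1 w ?_
  apply ev_injective g hg
  rw [map_zero]
  ext q
  obtain ⟨u, rfl⟩ := h2 q
  rw [ev_map, hw, LinearMap.zero_apply]

end ker

variable {X : Type*} [AddCommGroup X] [Module K X] {m : Type*} [DecidableEq m]
  {Xi : m → Type*} [∀ i, AddCommGroup (Xi i)] [∀ i, Module K (Xi i)]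
  {X0 : m → Type*} [∀ i, AddCommGroup (X0 i)] [∀ i, Module K (X0 i)]
  {M : Type*} [AddCommGroup M] [Module K M]

/-- the block structure of a total cover, with its form -/
structure Blk (AA : Fin 3 → End K X) (A : ∀ i, Fin 3 → End K (Xi i))
    (inn : ∀ i, Xi i →ₗ[K] X) (pj : ∀ i, X →ₗ[K] Xi i)
    (pr : ∀ i, Xi i →ₗ[K] X0 i) (g0 : ∀ i, X0 i →ₗ[K] X0 i →ₗ[K] K)
    (gX : X →ₗ[K] X →ₗ[K] K) (q : X →ₗ[K] M) : Prop where
  pi : ∀ i x, pj i (inn i x) = x
  pA : ∀ i s x, pj i (AA s x) = A i s (pj i x)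
  Ai : ∀ i s x, AA s (inn i x) = inn i (A i s x)
  surj : ∀ i, Function.Surjective (pr i)
  ns : ∀ i x, (∀ y, g0 i x y = 0) → x = 0
  ns' : ∀ i x, (∀ y, g0 i y x = 0) → x = 0
  gl : ∀ i x y, gX (inn i x) y = g0 i (pr i x) (pr i (pj i y))
  gr : ∀ i x y, gX y (inn i x) = g0 i (pr i (pj i y)) (pr i x)
  adj : ∀ i s x y, g0 i (pr i (A i s x)) (pr i y) = g0 i (pr i x) (pr i (A i s y))
  qr : ∀ i x, pr i x = 0 → q (inn i x) = 0

variable {AA : Fin 3 → End K X} {A : ∀ i, Fin 3 → End K (Xi i)}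
    {inn : ∀ i, Xi i →ₗ[K] X} {pj : ∀ i, X →ₗ[K] Xi i}
    {pr : ∀ i, Xi i →ₗ[K] X0 i} {g0 : ∀ i, X0 i →ₗ[K] X0 i →ₗ[K] K}
    {gX : X →ₗ[K] X →ₗ[K] K} {q : X →ₗ[K] M}

/-- the operator of a tensor -/
theorem ev_total (h : Blk AA A inn pj pr g0 gX q) (i j : m) (z : X ⊗[K] X) (v : X) :
    ev gX (TensorProduct.map (inn j ∘ₗ pj j) (inn i ∘ₗ pj i) z) v =
      inn i (ev ((g0 j).compl₁₂ (pr j) (pr j)) (TensorProduct.map (pj j) (pj i) z) (pj j v)) := by
  induction z using TensorProduct.induction_on with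
  | zero => simp
  | tmul a b =>
    rw [TensorProduct.map_tmul, TensorProduct.map_tmul, ev_tmul, ev_tmul, map_smul]
    congr 1
    exact h.gl j (pj j a) v
  | add a b ha hb => simp only [map_add, LinearMap.add_apply, ha, hb]

theorem ev_blk (h : Blk AA A inn pj pr g0 gX q) (i j : m) (z : X ⊗[K] X) (u : Xi j) :
    pj i (ev gX z (inn j u)) =
      ev ((g0 j).compl₁₂ (pr j) (pr j)) (TensorProduct.map (pj j) (pj i) z) u := by
  induction z using TensorProduct.induction_on with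
  | zero => simp
  | tmul a b =>
    rw [TensorProduct.map_tmul, ev_tmul, ev_tmul, map_smul]
    congr 1
    exact h.gr j u a
  | add a b ha hb => simp only [map_add, LinearMap.add_apply, ha, hb]

theorem map_def (h : Blk AA A inn pj pr g0 gX q) (i j : m) (c : K) (t : Fin 3) (z : X ⊗[K] X) :
    DD (A i) (A j) c t (TensorProduct.map (pj j) (pj i) z) =
      TensorProduct.map (pj j) (pj i)
        (LinearMap.lTensor X (AA t) z - c • LinearMap.rTensor X (AA t) z) := by
  induction z using TensorProduct.induction_on with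
  | zero => simp
  | tmul a b =>
    simp only [DD, LinearMap.sub_apply, LinearMap.smul_apply, LinearMap.lTensor_tmul,
      LinearMap.rTensor_tmul, map_sub, map_smul, TensorProduct.map_tmul, h.pA]
  | add a b ha hb =>
    rw [map_add, map_add, ha, hb, ← map_add]
    congr 1
    simp only [map_add, smul_add]
    abel

theorem mulVec_ev {a : ℕ} (b : Module.Basis (Fin a) K X) {g : Matrix (Fin a) (Fin a) K}
    (hg : ∀ x y, b.equivFun x ⬝ᵥ (g *ᵥ b.equivFun y) = gX x y) (z : X ⊗[K] X) (v : X) :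
    ((mt b b z)ᵀ * g) *ᵥ b.equivFun v = b.equivFun (ev gX z v) := by
  induction z using TensorProduct.induction_on with
  | zero => simp
  | tmul x y =>
    rw [mt_tmul, ev_tmul, ← Matrix.mulVec_mulVec, transpose_vecMulVec, map_smul]
    rw [Matrix.vecMulVec_mulVec, hg]
    ext k
    simp [mul_comm]
  | add x y hx hy =>
    rw [map_add, transpose_add, Matrix.add_mul, Matrix.add_mulVec, hx, hy, map_add,
      LinearMap.add_apply, map_add]

theorem mulVec_toMatrix {a : ℕ} (b : Module.Basis (Fin a) K X) (S : End K X) (v : X) :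
    LinearMap.toMatrix b b S *ᵥ b.equivFun v = b.equivFun (S v) :=
  LinearMap.toMatrix_mulVec_repr b b S v

theorem ext_eq {a : ℕ} (b : Module.Basis (Fin a) K X) {S S' : Matrix (Fin a) (Fin a) K}
    (h : ∀ v, S *ᵥ b.equivFun v = S' *ᵥ b.equivFun v) : S = S' := by
  apply Matrix.ext_of_mulVec_single
  intro i
  have := h (b.equivFun.symm (Pi.single i 1))
  rwa [LinearEquiv.apply_symm_apply] at this

/-- **the correction `b`** -/
theorem hexB (h : Blk AA A inn pj pr g0 gX q) [∀ i, FiniteDimensional K (X0 i)]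
    {i j : m} {c : K} (_hc : c ≠ 0)
    (hex : HEX (A i) (A j) (LinearMap.ker (pr i)) (LinearMap.ker (pr j))
      ((g0 j).compl₁₂ (pr j) (pr j)) 1 c)
    {a : ℕ} (b : Module.Basis (Fin a) K X) {g : Matrix (Fin a) (Fin a) K}
    (hg : ∀ x y, b.equivFun x ⬝ᵥ (g *ᵥ b.equivFun y) = gX x y) (hgs : gᵀ = g)
    {al : Fin 3 → Matrix (Fin a) (Fin a) K} (hal : ∀ s, al s = LinearMap.toMatrix b b (AA s))
    {e : m → Matrix (Fin a) (Fin a) K}
    (he : ∀ i, e i = LinearMap.toMatrix b b (inn i ∘ₗ pj i))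
    {π : (Fin a → K) →ₗ[K] M} (hπ : ∀ x, π (b.equivFun x) = q x)
    (x : Fin 3 → Matrix (Fin a) (Fin a) K)
    (hx : ∀ r, e j * x r * (e i)ᵀ = x r) (hsum : ∑ r, (x r * (al r)ᵀ - c • (al r * x r)) = 0)
    (harm : ∀ r, g * (x r * (al r)ᵀ - c • (al r * x r)) * g = 0) :
    ∃ bb : Matrix (Fin a) (Fin a) K, e i * bb * e j = bb ∧ (∀ u, π (bb *ᵥ u) = 0) ∧
      (∀ r, al r * (bb + (x r)ᵀ * g) = c • ((bb + (x r)ᵀ * g) * al r)) := by
  choose z hz using fun r => mt_surjective b b (x r)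
  set y : Fin 3 → X ⊗[K] X := fun t =>
    LinearMap.lTensor X (AA t) (z t) - c • LinearMap.rTensor X (AA t) (z t) with hy
  have hmy : ∀ t, mt b b (y t) = x t * (al t)ᵀ - c • (al t * x t) := by
    intro t
    rw [hy]
    dsimp only
    rw [map_sub, map_smul, mt_lTensor, mt_rTensor, hz, hal]
  have hzE : ∀ r, TensorProduct.map (inn j ∘ₗ pj j) (inn i ∘ₗ pj i) (z r) = z r := by
    intro r
    apply mt_injective b b
    rw [mt_map, hz, ← he, ← he, hx]
  set zz : Fin 3 → Xi j ⊗[K] Xi i := fun t => TensorProduct.map (pj j) (pj i) (z t) with hzz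
  have hexz : Ex (A i) (A j) (LinearMap.ker (pr i)) (LinearMap.ker (pr j)) c zz := by
    refine ⟨?_, fun t => ?_⟩
    · have h0 : ∑ t, y t = 0 := by
        apply mt_injective b b
        rw [map_sum, map_zero, ← hsum]
        exact Finset.sum_congr rfl fun t _ => hmy t
      have h1 : ∀ t, DD (A i) (A j) c t (zz t) = TensorProduct.map (pj j) (pj i) (y t) :=
        fun t => map_def h i j c t (z t)
      simp only [h1]
      rw [← map_sum, h0, map_zero]
    · have h1 : DD (A i) (A j) c t (zz t) = TensorProduct.map (pj j) (pj i) (y t) :=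
        map_def h i j c t (z t)
      rw [h1]
      refine mem_RT_TR' (g0 j) (h.ns j) (pr j) (pr i) (h.surj j) (h.surj i) _ ?_
      intro u
      apply h.ns' i
      intro w0
      obtain ⟨w, rfl⟩ := h.surj i w0
      rw [← ev_blk h, ← h.gl, ← hg, ← mulVec_ev b hg, hmy, Matrix.mulVec_mulVec,
        ← Matrix.mul_assoc]
      have h3 : g * (x t * (al t)ᵀ - c • (al t * x t))ᵀ * g = 0 := by
        have h4 := congrArg Matrix.transpose (harm t)
        rw [transpose_mul, transpose_mul, hgs, transpose_zero, ← Matrix.mul_assoc] at h4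
        exact h4
      rw [h3, Matrix.zero_mulVec, dotProduct_zero]
  obtain ⟨β, hβ⟩ := hex zz hexz
  have hev : ∀ r v, ev gX (z r) v =
      inn i (ev ((g0 j).compl₁₂ (pr j) (pr j)) (zz r) (pj j v)) := by
    intro r v
    rw [← ev_total h, hzE]
  refine ⟨-LinearMap.toMatrix b b (inn i ∘ₗ β ∘ₗ pj j), ?_, ?_, ?_⟩
  · rw [he, he, Matrix.mul_neg, Matrix.neg_mul, ← LinearMap.toMatrix_mul, ← LinearMap.toMatrix_mul]
    congr 2
    ext v
    simp [h.pi]
  · intro u
    obtain ⟨u', rfl⟩ := b.equivFun.surjective u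
    rw [Matrix.neg_mulVec, mulVec_toMatrix, map_neg, hπ, neg_eq_zero]
    exact h.qr i _ (hβ.mem _)
  · intro r
    apply ext_eq b
    intro v
    have e1 : ∀ v : X, (-LinearMap.toMatrix b b (inn i ∘ₗ β ∘ₗ pj j) + (x r)ᵀ * g) *ᵥ
        b.equivFun v = b.equivFun (inn i (ev ((g0 j).compl₁₂ (pr j) (pr j)) (zz r) (pj j v) -
          β (pj j v))) := by
      intro v
      rw [Matrix.add_mulVec, Matrix.neg_mulVec, mulVec_toMatrix, ← hz r, mulVec_ev b hg, hev,
        ← map_neg, ← map_add]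
      congr 1
      rw [map_sub]
      simp only [LinearMap.comp_apply]
      abel
    rw [← Matrix.mulVec_mulVec, e1, hal, mulVec_toMatrix, Matrix.smul_mulVec,
      ← Matrix.mulVec_mulVec, mulVec_toMatrix, e1, h.Ai, ← map_smul, ← map_smul]
    congr 2
    rw [h.pA, map_sub]
    have h5 := hβ.eq r (pj j v)
    rw [one_mul] at h5
    rw [smul_sub]
    rw [sub_eq_sub_iff_add_eq_add] at h5 ⊢
    rw [← h5, add_comm]

/-- **the field `hexS`** -/
theorem hexS (h : Blk AA A inn pj pr g0 gX q) [∀ i, FiniteDimensional K (X0 i)]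
    (hex : ∀ i j, ∀ c : K, c ≠ 0 → HEX (A i) (A j) (LinearMap.ker (pr i)) (LinearMap.ker (pr j))
      ((g0 j).compl₁₂ (pr j) (pr j)) 1 c)
    {a : ℕ} (b : Module.Basis (Fin a) K X) {g : Matrix (Fin a) (Fin a) K}
    (hg : ∀ x y, b.equivFun x ⬝ᵥ (g *ᵥ b.equivFun y) = gX x y) (hgs : gᵀ = g)
    {al : Fin 3 → Matrix (Fin a) (Fin a) K} (hal : ∀ s, al s = LinearMap.toMatrix b b (AA s))
    {e : m → Matrix (Fin a) (Fin a) K}
    (he : ∀ i, e i = LinearMap.toMatrix b b (inn i ∘ₗ pj i))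
    {π : (Fin a → K) →ₗ[K] M} (hπ : ∀ x, π (b.equivFun x) = q x)
    (i j : m) (c : K) (hc : c ≠ 0)
    (x : Fin 3 → Matrix (Fin a) (Fin a) K)
    (hx : ∀ r, e j * x r * (e i)ᵀ = x r) (hsum : ∑ r, (x r * (al r)ᵀ - c • (al r * x r)) = 0)
    (harm : ∀ r, g * (x r * (al r)ᵀ - c • (al r * x r)) * g = 0) :
    ∃ bb kk : Matrix (Fin a) (Fin a) K, e i * bb * e j = bb ∧ e j * kk * e i = kk ∧
      (∀ u, π (bb *ᵥ u) = 0) ∧ (∀ u, π (kk *ᵥ u) = 0) ∧
      (∀ r, al r * (bb + (x r)ᵀ * g) = c • ((bb + (x r)ᵀ * g) * al r)) ∧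
      (∀ r, (kk - x r * g) * al r = c • (al r * (kk - x r * g))) := by
  obtain ⟨bb, h1, h2, h3⟩ := hexB h hc (hex i j c hc) b hg hgs hal he hπ x hx hsum harm
  have hc' : c⁻¹ ≠ 0 := inv_ne_zero hc
  have ht : ∀ r, (x r)ᵀ * (al r)ᵀ - c⁻¹ • (al r * (x r)ᵀ) =
      -(c⁻¹ • (x r * (al r)ᵀ - c • (al r * x r))ᵀ) := by
    intro r
    rw [transpose_sub, transpose_smul, transpose_mul, transpose_mul, transpose_transpose,
      smul_sub, smul_smul, inv_mul_cancel₀ hc, one_smul]
    abel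
  obtain ⟨b2, k1, k2, k3⟩ := hexB h hc' (hex j i c⁻¹ hc') b hg hgs hal he hπ (fun r => (x r)ᵀ)
    (fun r => by
      have := congrArg Matrix.transpose (hx r)
      rw [transpose_mul, transpose_mul, transpose_transpose, ← Matrix.mul_assoc] at this
      exact this)
    (by
      simp only [ht]
      rw [Finset.sum_neg_distrib, ← Finset.smul_sum, ← transpose_sum, hsum, transpose_zero,
        smul_zero, neg_zero])
    (fun r => by
      rw [ht]
      have h4 := congrArg Matrix.transpose (harm r)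
      rw [transpose_mul, transpose_mul, hgs, transpose_zero, ← Matrix.mul_assoc] at h4
      rw [Matrix.mul_neg, Matrix.neg_mul, Matrix.mul_smul, Matrix.smul_mul, h4, smul_zero,
        neg_zero])
  refine ⟨bb, -b2, h1, ?_, h2, ?_, h3, ?_⟩
  · rw [Matrix.mul_neg, Matrix.neg_mul, k1]
  · intro u
    rw [Matrix.neg_mulVec, map_neg, k2, neg_zero]
  · intro r
    have h5 := k3 r
    rw [transpose_transpose] at h5
    have h6 : -b2 - x r * g = -(b2 + x r * g) := by abel
    rw [h6, Matrix.neg_mul, Matrix.mul_neg, h5, smul_neg, smul_smul, mul_inv_cancel₀ hc, one_smul]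

end Crest.Agent.R172.HexM
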