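import Crest.Agent.R172.HexU

/-!
Row 172 (S0260), field `hexS` of `RD.Fr`: the correction of an exact family in matrix form, for any
frame `φ : (n → K) → X`, `ψ : X → (n → K)` of the cover (`HexU.HEX`).
-/

set_option autoImplicit false
set_option linter.unusedSectionVars false

namespace Crest.Agent.R172.HexM266

open TensorProduct Module LinearMap Matrix
open Crest.Agent.R172.RJM (RT TR DD Ex ev Cor)
open Crest.Agent.R172.HexU (HEX)

universe u v

variable {K : Type*} [Field K] {X : Type u} {Y : Type v} [AddCommGroup X] [Module K X]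
  [AddCommGroup Y] [Module K Y] {n : Type*} [Fintype n] [DecidableEq n]

/-- pseudo-inverse -/
theorem exists_pinv (g : Matrix n n K) : ∃ H : Matrix n n K, g * H * g = g := by
  obtain ⟨s, hs⟩ := (Matrix.toLin' g).rangeRestrict.exists_rightInverse_of_surjective
    (LinearMap.range_rangeRestrict _)
  obtain ⟨q, hq⟩ := (LinearMap.range (Matrix.toLin' g)).exists_isCompl
  let P : (n → K) →ₗ[K] LinearMap.range (Matrix.toLin' g) :=
    (LinearMap.range (Matrix.toLin' g)).projectionOnto q hq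
  refine ⟨LinearMap.toMatrix' (s ∘ₗ P), ?_⟩
  apply Matrix.toLin'.injective
  refine LinearMap.ext fun u => ?_
  rw [Matrix.toLin'_mul, Matrix.toLin'_mul, Matrix.toLin'_toMatrix']
  simp only [LinearMap.comp_apply]
  have h1 : P (Matrix.toLin' g u) = ⟨Matrix.toLin' g u, LinearMap.mem_range_self _ _⟩ :=
    Submodule.projectionOnto_apply_left hq ⟨Matrix.toLin' g u, LinearMap.mem_range_self _ _⟩
  rw [h1]
  have h2 := congrArg (fun f => ((f ⟨Matrix.toLin' g u, LinearMap.mem_range_self _ _⟩ :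
    LinearMap.range (Matrix.toLin' g)) : n → K)) hs
  simpa using h2

/-- the tensor of a matrix -/
noncomputable def ten (φ2 : (n → K) →ₗ[K] Y) (φ1 : (n → K) →ₗ[K] X) (w : Matrix n n K) :
    Y ⊗[K] X := ∑ b, φ2 (fun a => w a b) ⊗ₜ[K] φ1 (Pi.single b 1)

variable {φ1 : (n → K) →ₗ[K] X} {φ2 : (n → K) →ₗ[K] Y}

theorem sum_single (f : (n → K) →ₗ[K] X) (u : n → K) :
    f u = ∑ b, u b • f (Pi.single b 1) := by
  conv_lhs => rw [← Finset.univ_sum_single u]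
  rw [map_sum]
  refine Finset.sum_congr rfl fun b _ => ?_
  rw [← map_smul, ← Pi.single_smul, smul_eq_mul, mul_one]

theorem ten_eq (w : Matrix n n K) :
    ten φ2 φ1 w = ∑ a, φ2 (Pi.single a 1) ⊗ₜ[K] φ1 (fun b => w a b) := by
  unfold ten
  have h1 : ∀ b, φ2 (fun a => w a b) ⊗ₜ[K] φ1 (Pi.single b 1) =
      ∑ a, w a b • (φ2 (Pi.single a 1) ⊗ₜ[K] φ1 (Pi.single b 1)) := by
    intro b
    rw [sum_single φ2, TensorProduct.sum_tmul]
    exact Finset.sum_congr rfl fun a _ => by rw [TensorProduct.smul_tmul']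
  have h2 : ∀ a, φ2 (Pi.single a 1) ⊗ₜ[K] φ1 (fun b => w a b) =
      ∑ b, w a b • (φ2 (Pi.single a 1) ⊗ₜ[K] φ1 (Pi.single b 1)) := by
    intro a
    rw [sum_single φ1, TensorProduct.tmul_sum]
    exact Finset.sum_congr rfl fun b _ => by rw [TensorProduct.tmul_smul]
  simp only [h1, h2]
  exact Finset.sum_comm

theorem ten_sub (w w' : Matrix n n K) : ten φ2 φ1 (w - w') = ten φ2 φ1 w - ten φ2 φ1 w' := by
  unfold ten
  rw [← Finset.sum_sub_distrib]
  refine Finset.sum_congr rfl fun b _ => ?_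
  rw [← TensorProduct.sub_tmul, ← map_sub]
  rfl

theorem ten_add (w w' : Matrix n n K) : ten φ2 φ1 (w + w') = ten φ2 φ1 w + ten φ2 φ1 w' := by
  unfold ten
  rw [← Finset.sum_add_distrib]
  refine Finset.sum_congr rfl fun b _ => ?_
  rw [← TensorProduct.add_tmul, ← map_add]
  rfl

theorem ten_smul (c : K) (w : Matrix n n K) : ten φ2 φ1 (c • w) = c • ten φ2 φ1 w := by
  unfold ten
  rw [Finset.smul_sum]
  refine Finset.sum_congr rfl fun b _ => ?_
  rw [TensorProduct.smul_tmul', ← map_smul]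
  rfl

theorem ten_zero : ten φ2 φ1 (0 : Matrix n n K) = 0 := by
  have := ten_smul (φ1 := φ1) (φ2 := φ2) (0 : K) (0 : Matrix n n K)
  rwa [zero_smul, zero_smul] at this

theorem ten_sum {τ : Type*} (s : Finset τ) (w : τ → Matrix n n K) :
    ten φ2 φ1 (∑ t ∈ s, w t) = ∑ t ∈ s, ten φ2 φ1 (w t) := by
  classical
  induction s using Finset.induction_on with
  | empty => simp [ten_zero]
  | insert a s ha ih => rw [Finset.sum_insert ha, Finset.sum_insert ha, ten_add, ih]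

theorem ten_RT {R2 : Submodule K Y} {w : Matrix n n K} (h : ∀ b, φ2 (fun a => w a b) ∈ R2) :
    ten φ2 φ1 w ∈ RT (P1 := X) R2 :=
  Submodule.sum_mem _ fun b _ => Submodule.subset_span ⟨_, h b, _, rfl⟩

theorem ten_TR {R1 : Submodule K X} {w : Matrix n n K} (h : ∀ a, φ1 (fun b => w a b) ∈ R1) :
    ten φ2 φ1 w ∈ TR (P2 := Y) R1 := by
  rw [ten_eq]
  exact Submodule.sum_mem _ fun a _ => Submodule.subset_span ⟨_, _, h a, rfl⟩

variable {al : Fin 3 → Matrix n n K} {A : Fin 3 → End K X} {B : Fin 3 → End K Y}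

theorem DD_ten (hA : ∀ s u, φ1 (al s *ᵥ u) = A s (φ1 u)) (hB : ∀ s u, φ2 (al s *ᵥ u) = B s (φ2 u))
    (c : K) (t : Fin 3) (w : Matrix n n K) :
    DD A B c t (ten φ2 φ1 w) = ten φ2 φ1 (w * (al t)ᵀ - c • (al t * w)) := by
  rw [ten_sub, ten_smul, DD, LinearMap.sub_apply, LinearMap.smul_apply]
  congr 1
  · rw [ten_eq, ten_eq, map_sum]
    refine Finset.sum_congr rfl fun a _ => ?_
    rw [LinearMap.lTensor_tmul, ← hA]
    congr 2
    ext b
    simp only [Matrix.mul_apply, Matrix.mulVec, dotProduct, Matrix.transpose_apply]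
    exact Finset.sum_congr rfl fun _ _ => mul_comm _ _
  · congr 1
    unfold ten
    rw [map_sum]
    refine Finset.sum_congr rfl fun b _ => ?_
    rw [LinearMap.rTensor_tmul, ← hB]
    rfl

theorem ev_ten (gY : Y →ₗ[K] Y →ₗ[K] K) (w : Matrix n n K) (p : Y) :
    ev gY (ten φ2 φ1 w) p = φ1 (fun b => gY (φ2 (fun a => w a b)) p) := by
  unfold ten
  rw [map_sum, LinearMap.sum_apply, sum_single φ1]
  exact Finset.sum_congr rfl fun b _ => RJM.ev_tmul _ _ _ _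

/-- **The correction, one side.** -/
theorem exists_cor {g : Matrix n n K} (hgt : gᵀ = g)
    (hsa : ∀ s, g * al s = (al s)ᵀ * g)
    {e1 e2 : Matrix n n K} (hi1 : e1 * e1 = e1) (hi2 : e2 * e2 = e2)
    (he1 : ∀ s, e1 * al s = al s * e1) (he2 : ∀ s, e2 * al s = al s * e2)
    (hg2 : e2ᵀ * g = g * e2)
    {ψ1 : X →ₗ[K] (n → K)}
    (h1 : ∀ u, ψ1 (φ1 u) = e1 *ᵥ u) (h1' : ∀ x, φ1 (ψ1 x) = x)
    (hφ2 : ∀ u, φ2 (e2 *ᵥ u) = φ2 u)
    (hA : ∀ s u, φ1 (al s *ᵥ u) = A s (φ1 u)) (hB : ∀ s u, φ2 (al s *ᵥ u) = B s (φ2 u))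
    {R1 : Submodule K X} {R2 : Submodule K Y}
    (hR1 : ∀ u, g *ᵥ u = 0 → φ1 u ∈ R1) (hR2 : ∀ u, g *ᵥ u = 0 → φ2 u ∈ R2)
    {gY : Y →ₗ[K] Y →ₗ[K] K}
    (hgY : ∀ u u', gY (φ2 u) (φ2 u') = (e2 *ᵥ u) ⬝ᵥ (g *ᵥ (e2 *ᵥ u')))
    {c : K} (hex : HEX A B R1 R2 gY 1 c) (x : Fin 3 → Matrix n n K)
    (hx : ∀ r, e2 * x r * e1ᵀ = x r) (hsum : ∑ r, (x r * (al r)ᵀ - c • (al r * x r)) = 0)
    (harm : ∀ r, g * (x r * (al r)ᵀ - c • (al r * x r)) * g = 0) :
    ∃ b : Matrix n n K, e1 * b * e2 = b ∧ (∀ u, ∃ r ∈ R1, b *ᵥ u = ψ1 r) ∧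
      ∀ r, al r * (b + (x r)ᵀ * g) = c • ((b + (x r)ᵀ * g) * al r) := by
  have hExx : Ex A B R1 R2 c (fun r => ten φ2 φ1 (x r)) := by
    refine ⟨?_, fun t => ?_⟩
    · simp only [DD_ten hA hB]
      rw [← ten_sum, hsum, ten_zero]
    · change DD A B c t (ten φ2 φ1 (x t)) ∈ _
      rw [DD_ten hA hB]
      have hz0 := harm t
      generalize x t * (al t)ᵀ - c • (al t * x t) = z at hz0 ⊢
      obtain ⟨H, hH⟩ := exists_pinv g
      set S := H * g with hS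
      have hgS : g * (1 - S) = 0 := by
        rw [Matrix.mul_sub, Matrix.mul_one, hS, ← Matrix.mul_assoc, hH, sub_self]
      have hzz : z = (1 - S) * z + S * z * (1 - S)ᵀ := by
        have h0 : S * z * Sᵀ = 0 := by
          rw [hS, Matrix.transpose_mul, hgt]
          calc H * g * z * (g * Hᵀ) = H * (g * z * g) * Hᵀ := by simp only [Matrix.mul_assoc]
            _ = 0 := by rw [hz0, Matrix.mul_zero, Matrix.zero_mul]
        have h9 : S * z * (1 - S)ᵀ = S * z := by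
          rw [Matrix.transpose_sub, Matrix.transpose_one, Matrix.mul_sub, h0, sub_zero,
            Matrix.mul_one]
        rw [h9, Matrix.sub_mul, Matrix.one_mul, sub_add_cancel]
      rw [hzz, ten_add]
      refine Submodule.add_mem _ (Submodule.mem_sup_left (ten_RT fun b => ?_))
        (Submodule.mem_sup_right (ten_TR fun a => ?_))
      · refine hR2 _ ?_
        change g *ᵥ (((1 - S) * z).col b) = 0
        have h3 : ((1 - S) * z).col b = (1 - S) *ᵥ z.col b := rfl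
        rw [h3, Matrix.mulVec_mulVec, hgS, Matrix.zero_mulVec]
      · refine hR1 _ ?_
        have h3 : (fun b => (S * z * (1 - S)ᵀ : Matrix n n K) a b) =
            (1 - S) *ᵥ (fun b => (S * z : Matrix n n K) a b) := by
          generalize (S * z : Matrix n n K) = y
          ext b
          simp only [Matrix.mul_apply, Matrix.mulVec, dotProduct, Matrix.transpose_apply]
          exact Finset.sum_congr rfl fun _ _ => mul_comm _ _
        rw [h3, Matrix.mulVec_mulVec, hgS, Matrix.zero_mulVec]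
  obtain ⟨β, hβ⟩ := hex _ hExx
  let b : Matrix n n K := -LinearMap.toMatrix' (ψ1 ∘ₗ β ∘ₗ φ2)
  have hbu : ∀ u, b *ᵥ u = -ψ1 (β (φ2 u)) := by
    intro u
    rw [show b = -LinearMap.toMatrix' (ψ1 ∘ₗ β ∘ₗ φ2) from rfl, Matrix.neg_mulVec,
      LinearMap.toMatrix'_mulVec]
    rfl
  have hψe : ∀ y, e1 *ᵥ ψ1 y = ψ1 y := fun y => by rw [← h1, h1']
  have hψA : ∀ s y, al s *ᵥ ψ1 y = ψ1 (A s y) := by
    intro s y
    conv_rhs => rw [← h1' y]
    rw [← hA, h1, Matrix.mulVec_mulVec, he1, ← Matrix.mulVec_mulVec, hψe]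
  have hxe2 : ∀ r, e2 * x r = x r := fun r => by
    conv_lhs => rw [← hx r]
    rw [← Matrix.mul_assoc, ← Matrix.mul_assoc, hi2]
    exact hx r
  have hxe1 : ∀ r, e1 * (x r)ᵀ = (x r)ᵀ := fun r => by
    have h3 : x r * e1ᵀ = x r := by
      conv_lhs => rw [← hx r]
      rw [Matrix.mul_assoc, ← Matrix.transpose_mul, hi1]
      exact hx r
    have h4 := congrArg Matrix.transpose h3
    rwa [Matrix.transpose_mul, Matrix.transpose_transpose] at h4
  have hE : ∀ r u, ((x r)ᵀ * g) *ᵥ u = ψ1 (ev gY (ten φ2 φ1 (x r)) (φ2 u)) := by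
    intro r u
    rw [ev_ten]
    have h3 : (fun b => gY (φ2 (fun a => x r a b)) (φ2 u)) = ((x r)ᵀ * g) *ᵥ u := by
      ext b
      rw [hgY]
      have h4 : e2 *ᵥ (fun a => x r a b) = fun a => x r a b := by
        have h5 := congrFun (congrArg Matrix.transpose (hxe2 r)) b
        exact h5
      rw [h4]
      have h6 : (x r)ᵀ * g = (x r)ᵀ * (g * e2) := by
        rw [← hg2, ← Matrix.mul_assoc, ← Matrix.transpose_mul, hxe2]
      rw [h6, ← Matrix.mulVec_mulVec, ← Matrix.mulVec_mulVec]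
      rfl
    rw [h3, h1, Matrix.mulVec_mulVec, ← Matrix.mul_assoc, hxe1]
  refine ⟨b, ?_, fun u => ⟨-β (φ2 u), Submodule.neg_mem _ (hβ.mem _), by rw [hbu, map_neg]⟩,
    fun r => ?_⟩
  · apply Matrix.toLin'.injective
    refine LinearMap.ext fun u => ?_
    rw [Matrix.toLin'_apply, Matrix.toLin'_apply, ← Matrix.mulVec_mulVec, ← Matrix.mulVec_mulVec,
      hbu, hbu, hφ2, Matrix.mulVec_neg, hψe]
  · apply Matrix.toLin'.injective
    refine LinearMap.ext fun u => ?_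
    rw [Matrix.toLin'_apply, Matrix.toLin'_apply, ← Matrix.mulVec_mulVec, Matrix.smul_mulVec,
      ← Matrix.mulVec_mulVec, Matrix.add_mulVec, Matrix.add_mulVec, hbu, hbu, hE, hE, hB]
    have h3 := hβ.eq r (φ2 u)
    rw [one_mul] at h3
    rw [← map_neg ψ1, ← map_neg ψ1, ← map_add ψ1, ← map_add ψ1, hψA, ← map_smul ψ1, map_add,
      map_neg]
    refine congrArg ψ1 ?_
    have h4 : A r (ev gY (ten φ2 φ1 (x r)) (φ2 u)) - A r (β (φ2 u)) =
        c • (ev gY (ten φ2 φ1 (x r)) (B r (φ2 u)) - β (B r (φ2 u))) := by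
      rw [smul_sub, sub_eq_sub_iff_add_eq_add]
      rw [sub_eq_sub_iff_add_eq_add] at h3
      rw [add_comm, add_comm (c • _)]
      rw [add_comm] at h3
      first
        | exact h3.symm
        | (rw [h3]; abel)
        | (rw [← h3]; abel)
    rw [neg_add_eq_sub, h4, neg_add_eq_sub]

/-- **hexS**: both corrections, from `HEX` for the two ordered pairs -/
theorem hexS {M : Type*} [AddCommGroup M] [Module K M] {g : Matrix n n K} (hgt : gᵀ = g)
    (hsa : ∀ s, g * al s = (al s)ᵀ * g)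
    {e1 e2 : Matrix n n K} (hi1 : e1 * e1 = e1) (hi2 : e2 * e2 = e2)
    (he1 : ∀ s, e1 * al s = al s * e1) (he2 : ∀ s, e2 * al s = al s * e2)
    (hg1 : e1ᵀ * g = g * e1) (hg2 : e2ᵀ * g = g * e2) {π : (n → K) →ₗ[K] M}
    (hπ : ∀ u, g *ᵥ u = 0 → π u = 0)
    {ψ1 : X →ₗ[K] (n → K)} {ψ2 : Y →ₗ[K] (n → K)}
    (h1 : ∀ u, ψ1 (φ1 u) = e1 *ᵥ u) (h1' : ∀ x, φ1 (ψ1 x) = x)
    (h2 : ∀ u, ψ2 (φ2 u) = e2 *ᵥ u) (h2' : ∀ x, φ2 (ψ2 x) = x)
    (hA : ∀ s u, φ1 (al s *ᵥ u) = A s (φ1 u)) (hB : ∀ s u, φ2 (al s *ᵥ u) = B s (φ2 u))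
    {R1 : Submodule K X} {R2 : Submodule K Y}
    (hR1 : ∀ u, g *ᵥ u = 0 → φ1 u ∈ R1) (hR2 : ∀ u, g *ᵥ u = 0 → φ2 u ∈ R2)
    (hR1' : ∀ y ∈ R1, π (ψ1 y) = 0) (hR2' : ∀ y ∈ R2, π (ψ2 y) = 0)
    {gX : X →ₗ[K] X →ₗ[K] K} {gY : Y →ₗ[K] Y →ₗ[K] K}
    (hgX : ∀ u u', gX (φ1 u) (φ1 u') = (e1 *ᵥ u) ⬝ᵥ (g *ᵥ (e1 *ᵥ u')))
    (hgY : ∀ u u', gY (φ2 u) (φ2 u') = (e2 *ᵥ u) ⬝ᵥ (g *ᵥ (e2 *ᵥ u')))
    {c : K} (hc : c ≠ 0) (hex : HEX A B R1 R2 gY 1 c) (hex' : HEX B A R2 R1 gX 1 c⁻¹)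
    (x : Fin 3 → Matrix n n K)
    (hx : ∀ r, e2 * x r * e1ᵀ = x r) (hsum : ∑ r, (x r * (al r)ᵀ - c • (al r * x r)) = 0)
    (harm : ∀ r, g * (x r * (al r)ᵀ - c • (al r * x r)) * g = 0) :
    ∃ b kk : Matrix n n K, e1 * b * e2 = b ∧ e2 * kk * e1 = kk ∧ (∀ u, π (b *ᵥ u) = 0) ∧
      (∀ u, π (kk *ᵥ u) = 0) ∧
      (∀ r, al r * (b + (x r)ᵀ * g) = c • ((b + (x r)ᵀ * g) * al r)) ∧
      (∀ r, (kk - x r * g) * al r = c • (al r * (kk - x r * g))) := by
  have hφ1 : ∀ u, φ1 (e1 *ᵥ u) = φ1 u := fun u => by rw [← h1, h1']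
  have hφ2 : ∀ u, φ2 (e2 *ᵥ u) = φ2 u := fun u => by rw [← h2, h2']
  obtain ⟨b, hb1, hb2, hb3⟩ := exists_cor hgt hsa hi1 hi2 he1 he2 hg2 h1 h1' hφ2 hA hB hR1 hR2
    hgY hex x hx hsum harm
  have hT : ∀ r, (x r)ᵀ * (al r)ᵀ - c⁻¹ • (al r * (x r)ᵀ) =
      -(c⁻¹ • (x r * (al r)ᵀ - c • (al r * x r))ᵀ) := by
    intro r
    rw [Matrix.transpose_sub, Matrix.transpose_smul, Matrix.transpose_mul, Matrix.transpose_mul,
      Matrix.transpose_transpose, smul_sub, smul_smul, inv_mul_cancel₀ hc, one_smul, neg_sub]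
  obtain ⟨κ, hk1, hk2, hk3⟩ := exists_cor (φ1 := φ2) (φ2 := φ1) (A := B) (B := A) hgt hsa hi2 hi1
    he2 he1 hg1 h2 h2' hφ1 hB hA hR2 hR1 hgX hex' (fun r => (x r)ᵀ)
    (fun r => by
      have h3 := congrArg Matrix.transpose (hx r)
      rwa [Matrix.transpose_mul, Matrix.transpose_mul, Matrix.transpose_transpose,
        ← Matrix.mul_assoc] at h3)
    (by
      simp only [hT]
      rw [Finset.sum_neg_distrib, ← Finset.smul_sum, ← Matrix.transpose_sum, hsum,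
        Matrix.transpose_zero, smul_zero, neg_zero])
    (fun r => by
      rw [hT]
      have h3 := congrArg Matrix.transpose (harm r)
      rw [Matrix.transpose_mul, Matrix.transpose_mul, hgt, Matrix.transpose_zero,
        ← Matrix.mul_assoc] at h3
      rw [Matrix.mul_neg, Matrix.neg_mul, Matrix.mul_smul, Matrix.smul_mul, h3, smul_zero,
        neg_zero])
  refine ⟨b, -κ, hb1, by rw [Matrix.mul_neg, Matrix.neg_mul, hk1], fun u => ?_, fun u => ?_, hb3,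
    fun r => ?_⟩
  · obtain ⟨r, hr, h3⟩ := hb2 u
    rw [h3, hR1' r hr]
  · obtain ⟨r, hr, h3⟩ := hk2 u
    rw [Matrix.neg_mulVec, h3, map_neg, hR2' r hr, neg_zero]
  · have h3 := hk3 r
    rw [Matrix.transpose_transpose] at h3
    have h4 : c • (al r * (κ + x r * g)) = (κ + x r * g) * al r := by
      rw [h3, smul_smul, mul_inv_cancel₀ hc, one_smul]
    rw [show -κ - x r * g = -(κ + x r * g) by abel, Matrix.neg_mul, ← h4, Matrix.mul_neg,
      smul_neg]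

end Crest.Agent.R172.HexM266
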