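import Mathlib

/-!
Row 172, node o2-RD, 455's note (5): separation of Laurent families for a non-scalar `c`.

`M` = the space of the tuples, `B t k` = the operator `cc_t ^ k` on `M`, `F` = the filtration of
`M` by the commuting nilpotent operators, `s t` = the scalar part of `cc_t`.
-/

set_option autoImplicit false

namespace Crest.Agent.R172.SepC

open Finset Module

variable {K E M I : Type*} [Field K] [AddCommGroup E] [Module K E] [AddCommGroup M] [Module K M]

/-- Vandermonde: a polynomial with coefficients in `E` and values in `Q` at infinitely many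
scalars has all its coefficients in `Q`. -/
theorem vander (Q : Submodule K E) (n : ℕ) (e : ℕ → E) (S : Set K) (hS : S.Infinite)
    (h : ∀ x ∈ S, ∑ k ∈ range n, x ^ k • e k ∈ Q) : ∀ k < n, e k ∈ Q := by
  classical
  intro k hk
  rw [← Submodule.Quotient.mk_eq_zero Q]
  rw [← Module.forall_dual_apply_eq_zero_iff K]
  intro φ
  let p : Polynomial K := ∑ j ∈ range n, Polynomial.monomial j (φ (Submodule.Quotient.mk (e j)))
  have hp : p = 0 := by
    apply Polynomial.eq_zero_of_infinite_isRoot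
    refine hS.mono ?_
    intro x hx
    have h1 := h x hx
    rw [← Submodule.Quotient.mk_eq_zero Q] at h1
    have h2 := congrArg φ h1
    rw [map_zero] at h2
    change Polynomial.eval x p = 0
    simp only [p, Polynomial.eval_finsetSum, Polynomial.eval_monomial]
    rw [← h2]
    have : (Submodule.Quotient.mk (∑ j ∈ range n, x ^ j • e j) : E ⧸ Q)
        = ∑ j ∈ range n, x ^ j • (Submodule.Quotient.mk (e j) : E ⧸ Q) := by
      change Q.mkQ _ = ∑ j ∈ range n, x ^ j • Q.mkQ (e j)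
      rw [map_sum]
      refine sum_congr rfl fun j _ => ?_
      rw [map_smul]
    rw [this, map_sum]
    refine sum_congr rfl fun j _ => ?_
    rw [map_smul, smul_eq_mul, mul_comm]
  have h3 := congrArg (fun q => Polynomial.coeff q k) hp
  simp only [p, Polynomial.finsetSum_coeff, Polynomial.coeff_monomial, Polynomial.coeff_zero] at h3
  rw [Finset.sum_ite_eq' (range n) k] at h3
  rwa [if_pos (mem_range.2 hk)] at h3

/-- Separation for an operator valued `c`. -/
theorem sep (Q : Submodule K E) (F : ℕ → Submodule K M) (r : ℕ) (hF0 : F 0 = ⊤) (hFr : F r = ⊥)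
    (n : ℕ) (f : ℕ → M →ₗ[K] E) (B : I → ℕ → M →ₗ[K] M) (s : I → K) (T : Set I)
    (hT : (s '' T).Infinite)
    (hB : ∀ t ∈ T, ∀ k < n, ∀ i, ∀ m ∈ F i, B t k m - s t ^ k • m ∈ F (i + 1))
    (h : ∀ t ∈ T, ∀ m, ∑ k ∈ range n, f k (B t k m) ∈ Q) :
    ∀ k < n, ∀ m, f k m ∈ Q := by
  have key : ∀ j i, i + j = r → ∀ m ∈ F i, ∀ k < n, f k m ∈ Q := by
    intro j
    induction j with
    | zero =>
      intro i hi m hm k _
      have : i = r := by omega
      subst this
      rw [hFr] at hm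
      rw [(Submodule.mem_bot K).1 hm, map_zero]
      exact Q.zero_mem
    | succ j ih =>
      intro i hi m hm
      have ih' := ih (i + 1) (by omega)
      refine vander Q n (fun k => f k m) (s '' T) hT ?_
      rintro _ ⟨t, ht, rfl⟩
      have h1 := h t ht m
      have h2 : ∑ k ∈ range n, f k (B t k m - s t ^ k • m) ∈ Q :=
        Q.sum_mem fun k hk => ih' _ (hB t ht k (mem_range.1 hk) i m hm) k (mem_range.1 hk)
      have h3 := Q.sub_mem h1 h2
      rw [← sum_sub_distrib] at h3
      refine (congrArg (fun z => z ∈ Q) (sum_congr rfl fun k _ => ?_)).mp h3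
      rw [map_sub, map_smul, sub_sub_cancel]
  intro k hk m
  exact key r 0 (by omega) m (by rw [hF0]; trivial) k hk

/-- The filtration of `M` by two commuting nilpotent operators: `F i` is spanned by the images of
the monomials `N₁ ^ a * N₂ ^ b`, `a + b ≥ i`. -/
def Fl (N₁ N₂ : End K M) (i : ℕ) : Submodule K M :=
  ⨆ (a : ℕ) (b : ℕ) (_ : i ≤ a + b), LinearMap.range (N₁ ^ a * N₂ ^ b)

theorem Fl_zero (N₁ N₂ : End K M) : Fl N₁ N₂ 0 = ⊤ := by
  rw [eq_top_iff]
  intro m _
  refine Submodule.mem_iSup_of_mem 0 (Submodule.mem_iSup_of_mem 0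
    (Submodule.mem_iSup_of_mem (le_refl _) ?_))
  exact ⟨m, by simp⟩

theorem Fl_anti (N₁ N₂ : End K M) {i j : ℕ} (h : i ≤ j) : Fl N₁ N₂ j ≤ Fl N₁ N₂ i := by
  refine iSup_le fun a => iSup_le fun b => iSup_le fun hab => ?_
  exact le_iSup_of_le a (le_iSup_of_le b (le_iSup_of_le (h.trans hab) le_rfl))

theorem Fl_bot {N₁ N₂ : End K M} {n₁ n₂ : ℕ} (h1 : N₁ ^ n₁ = 0) (h2 : N₂ ^ n₂ = 0) :
    Fl N₁ N₂ (n₁ + n₂) = ⊥ := by
  rw [eq_bot_iff]
  refine iSup_le fun a => iSup_le fun b => iSup_le fun hab => ?_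
  rintro _ ⟨m, rfl⟩
  rw [Submodule.mem_bot]
  by_cases ha : n₁ ≤ a
  · have : N₁ ^ a = 0 := pow_eq_zero_of_le ha h1
    rw [this, zero_mul, LinearMap.zero_apply]
  · have : N₂ ^ b = 0 := pow_eq_zero_of_le (by omega) h2
    rw [this, mul_zero, LinearMap.zero_apply]

theorem Fl_fst {N₁ N₂ : End K M} {i : ℕ} {m : M} (hm : m ∈ Fl N₁ N₂ i) :
    N₁ m ∈ Fl N₁ N₂ (i + 1) := by
  have h : Fl N₁ N₂ i ≤ (Fl N₁ N₂ (i + 1)).comap N₁ := by
    refine iSup_le fun a => iSup_le fun b => iSup_le fun hab => ?_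
    rintro _ ⟨x, rfl⟩
    rw [Submodule.mem_comap]
    refine Submodule.mem_iSup_of_mem (a + 1) (Submodule.mem_iSup_of_mem b
      (Submodule.mem_iSup_of_mem (by omega) ⟨x, ?_⟩))
    rw [pow_succ', mul_assoc]
    rfl
  exact h hm

theorem Fl_snd {N₁ N₂ : End K M} (hc : Commute N₁ N₂) {i : ℕ} {m : M} (hm : m ∈ Fl N₁ N₂ i) :
    N₂ m ∈ Fl N₁ N₂ (i + 1) := by
  have h : Fl N₁ N₂ i ≤ (Fl N₁ N₂ (i + 1)).comap N₂ := by
    refine iSup_le fun a => iSup_le fun b => iSup_le fun hab => ?_
    rintro _ ⟨x, rfl⟩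
    rw [Submodule.mem_comap]
    refine Submodule.mem_iSup_of_mem a (Submodule.mem_iSup_of_mem (b + 1)
      (Submodule.mem_iSup_of_mem (by omega) ⟨x, ?_⟩))
    have : N₁ ^ a * N₂ ^ (b + 1) = N₂ * (N₁ ^ a * N₂ ^ b) := by
      rw [pow_succ', ← mul_assoc, ← mul_assoc, ((hc.pow_left a).eq)]
    rw [this]
    rfl
  exact h hm

/-- Commuting operators preserve the filtration. -/
theorem Fl_comm {N₁ N₂ A : End K M} (h1 : Commute A N₁) (h2 : Commute A N₂) {i : ℕ} {m : M}
    (hm : m ∈ Fl N₁ N₂ i) : A m ∈ Fl N₁ N₂ i := by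
  have h : Fl N₁ N₂ i ≤ (Fl N₁ N₂ i).comap A := by
    refine iSup_le fun a => iSup_le fun b => iSup_le fun hab => ?_
    rintro _ ⟨x, rfl⟩
    rw [Submodule.mem_comap]
    refine Submodule.mem_iSup_of_mem a (Submodule.mem_iSup_of_mem b
      (Submodule.mem_iSup_of_mem hab ⟨A x, ?_⟩))
    have : (N₁ ^ a * N₂ ^ b) * A = A * (N₁ ^ a * N₂ ^ b) :=
      (((h1.pow_right a).mul_right (h2.pow_right b)).eq).symm
    exact congrArg (fun g : End K M => g x) this
  exact h hm

/-- The algebra of operators that preserve the filtration and act on its graded pieces by the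
scalar `x`. -/
def Gr (F : ℕ → Submodule K M) (x : K) (A : End K M) : Prop :=
  ∀ i, ∀ m ∈ F i, A m - x • m ∈ F (i + 1)

theorem Gr.one (F : ℕ → Submodule K M) : Gr F (1 : K) (1 : End K M) := by
  intro i m _
  rw [one_smul, Module.End.one_apply, sub_self]
  exact Submodule.zero_mem _

theorem Gr.mul {F : ℕ → Submodule K M} (hF : ∀ i, F (i + 1) ≤ F i) {x y : K} {A B : End K M}
    (hA : Gr F x A) (hB : Gr F y B) : Gr F (x * y) (A * B) := by
  intro i m hm
  have h1 := hB i m hm
  have h3 : B m ∈ F i := by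
    have := (F i).add_mem (hF i h1) ((F i).smul_mem y hm)
    rwa [sub_add_cancel] at this
  have h4 := hA i (B m) h3
  have h5 := (F (i + 1)).add_mem h4 ((F (i + 1)).smul_mem x h1)
  have : A (B m) - x • B m + x • (B m - y • m) = (A * B) m - (x * y) • m := by
    rw [Module.End.mul_apply, smul_sub, mul_smul]
    abel
  rwa [this] at h5

theorem Gr.pow {F : ℕ → Submodule K M} (hF : ∀ i, F (i + 1) ≤ F i) {x : K} {A : End K M}
    (hA : Gr F x A) (k : ℕ) : Gr F (x ^ k) (A ^ k) := by
  induction k with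
  | zero => rw [pow_zero, pow_zero]; exact Gr.one F
  | succ k ih => rw [pow_succ, pow_succ]; exact ih.mul hF hA

/-- The inverse of an operator with graded scalar `x ≠ 0`. -/
theorem Gr.inv {F : ℕ → Submodule K M} {r : ℕ} (hF : ∀ i, F (i + 1) ≤ F i) (hFr : ∀ i, r ≤ i → F i = ⊥)
    {x : K} (hx : x ≠ 0) {A B : End K M} (hA : Gr F x A) (hBA : B * A = 1) :
    Gr F x⁻¹ B := by
  -- `B` preserves the filtration
  have key : ∀ j i, r ≤ i + j → ∀ m ∈ F i, B m ∈ F i := by
    intro j
    induction j with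
    | zero =>
      intro i hi m hm
      rw [hFr i (by omega)] at hm
      rw [(Submodule.mem_bot K).1 hm, map_zero]
      exact Submodule.zero_mem _
    | succ j ih =>
      intro i hi m hm
      -- m = x⁻¹ • (A m - (A m - x • m))
      have h1 := hA i m hm
      have h2 := ih (i + 1) (by omega) _ h1
      rw [map_sub, map_smul] at h2
      have h3 : B (A m) = m := congrArg (fun g : End K M => g m) hBA
      rw [h3] at h2
      have h4 : x • B m ∈ F i := by
        have := (F i).sub_mem hm (hF i h2)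
        rwa [sub_sub_cancel] at this
      have h5 := (F i).smul_mem x⁻¹ h4
      rwa [smul_smul, inv_mul_cancel₀ hx, one_smul] at h5
  have key' : ∀ i, ∀ m ∈ F i, B m ∈ F i := fun i => key r i (by omega)
  intro i m hm
  have h1 := key' (i + 1) _ (hA i m hm)
  rw [map_sub, map_smul] at h1
  have h3 : B (A m) = m := congrArg (fun g : End K M => g m) hBA
  rw [h3] at h1
  have h5 := (F (i + 1)).smul_mem (-x⁻¹) h1
  rw [smul_sub, smul_smul, neg_mul, inv_mul_cancel₀ hx] at h5
  have h6 : -x⁻¹ • m - (-1 : K) • B m = B m - x⁻¹ • m := by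
    rw [neg_smul, neg_smul, one_smul]
    abel
  rwa [h6] at h5

/-- `la • 1 + N₁` has graded scalar `la`. -/
theorem Gr.fst (N₁ N₂ : End K M) (la : K) (t : K) :
    Gr (Fl N₁ N₂) (1 + t * la) (1 + t • (algebraMap K (End K M) la + N₁)) := by
  intro i m hm
  have : (1 + t • (algebraMap K (End K M) la + N₁)) m - (1 + t * la) • m = t • N₁ m := by
    rw [LinearMap.add_apply, LinearMap.smul_apply, LinearMap.add_apply, Module.End.one_apply,
      Module.algebraMap_end_apply, add_smul, one_smul, mul_smul, smul_add]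
    abel
  rw [this]
  exact Submodule.smul_mem _ _ (Fl_fst hm)

theorem Gr.snd {N₁ N₂ : End K M} (hc : Commute N₁ N₂) (la : K) (t : K) :
    Gr (Fl N₁ N₂) (1 + t * la) (1 + t • (algebraMap K (End K M) la + N₂)) := by
  intro i m hm
  have : (1 + t • (algebraMap K (End K M) la + N₂)) m - (1 + t * la) • m = t • N₂ m := by
    rw [LinearMap.add_apply, LinearMap.smul_apply, LinearMap.add_apply, Module.End.one_apply,
      Module.algebraMap_end_apply, add_smul, one_smul, mul_smul, smul_add]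
    abel
  rw [this]
  exact Submodule.smul_mem _ _ (Fl_snd hc hm)

/-- Separation, operator form: `C t` acts on the graded pieces of the filtration by
`s t` (e.g. `C t = (1 + t D₂)² (1 + t D₁)⁻²`), and `Σ_k f_k (C t ^ k m) ∈ Q` for all `m`. -/
theorem sepOp (Q : Submodule K E) {N₁ N₂ : End K M} {n₁ n₂ : ℕ} (h1 : N₁ ^ n₁ = 0)
    (h2 : N₂ ^ n₂ = 0) (n : ℕ) (f : ℕ → M →ₗ[K] E) (C : I → End K M) (s : I → K) (T : Set I)
    (hT : (s '' T).Infinite) (hC : ∀ t ∈ T, Gr (Fl N₁ N₂) (s t) (C t))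
    (h : ∀ t ∈ T, ∀ m, ∑ k ∈ range n, f k ((C t ^ k) m) ∈ Q) :
    ∀ k < n, ∀ m, f k m ∈ Q :=
  sep Q (Fl N₁ N₂) (n₁ + n₂) (Fl_zero _ _) (Fl_bot h1 h2) n f (fun t k => C t ^ k) s T hT
    (fun t ht k _ => (hC t ht).pow (fun i => Fl_anti _ _ (Nat.le_succ i)) k) h

/-- Laurent form: `Σ_{k<n} f_k (C^k C'^N m) ∈ Q`, `C' = C⁻¹`. -/
theorem sepLaurent (Q : Submodule K E) {N₁ N₂ : End K M} {n₁ n₂ : ℕ} (h1 : N₁ ^ n₁ = 0)
    (h2 : N₂ ^ n₂ = 0) (n N : ℕ) (f : ℕ → M →ₗ[K] E) (C C' : I → End K M) (s : I → K) (T : Set I)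
    (hT : (s '' T).Infinite) (hC : ∀ t ∈ T, Gr (Fl N₁ N₂) (s t) (C t))
    (hCC : ∀ t ∈ T, C' t * C t = 1)
    (h : ∀ t ∈ T, ∀ m, ∑ k ∈ range n, f k ((C t ^ k) ((C' t ^ N) m)) ∈ Q) :
    ∀ k < n, ∀ m, f k m ∈ Q := by
  refine sepOp Q h1 h2 n f C s T hT hC ?_
  intro t ht m
  have := h t ht ((C t ^ N) m)
  have h3 : (C' t ^ N) ((C t ^ N) m) = m := by
    have : ∀ N : ℕ, C' t ^ N * C t ^ N = 1 := by
      intro N
      induction N with
      | zero => simp
      | succ N ih =>
        rw [pow_succ, pow_succ', mul_assoc, ← mul_assoc (C' t) (C t), hCC t ht, one_mul, ih]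
    exact congrArg (fun g : End K M => g m) (this N)
  rwa [h3] at this

/-- `t ↦ ((1 + t la₂) / (1 + t la₁))²` takes infinitely many values on an infinite set. -/
theorem infinite_sq [CharZero K] {la₁ la₂ : K} (hla : la₁ ≠ la₂) (T : Set K) (hT : T.Infinite)
    (h1 : ∀ t ∈ T, 1 + t * la₁ ≠ 0) :
    ((fun t : K => ((1 + t * la₂) * (1 + t * la₁)⁻¹) ^ 2) '' T).Infinite := by
  intro hfin
  refine hT ?_
  refine Set.Finite.subset (hfin.biUnion (t := fun y => {t : K | t ∈ T ∧
    ((1 + t * la₂) * (1 + t * la₁)⁻¹) ^ 2 = y}) ?_) ?_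
  · intro y _
    let p : Polynomial K := (1 + Polynomial.X * Polynomial.C la₂) ^ 2
      - Polynomial.C y * (1 + Polynomial.X * Polynomial.C la₁) ^ 2
    have hp : p ≠ 0 := by
      intro h0
      have e0 := congrArg (Polynomial.eval 0) h0
      have e1 := congrArg (Polynomial.eval 1) h0
      have e2 := congrArg (Polynomial.eval (-1)) h0
      simp only [p, Polynomial.eval_sub, Polynomial.eval_mul, Polynomial.eval_pow,
        Polynomial.eval_add, Polynomial.eval_one, Polynomial.eval_X, Polynomial.eval_C,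
        Polynomial.eval_zero] at e0 e1 e2
      have hy : y = 1 := by
        have : (1 : K) - y = 0 := by simpa using e0
        exact (sub_eq_zero.1 this).symm
      subst hy
      have h4 : (4 : K) * (la₂ - la₁) = 0 := by linear_combination e1 - e2
      have : la₂ - la₁ = 0 := by
        rcases mul_eq_zero.1 h4 with h | h
        · exact absurd h (by norm_num)
        · exact h
      exact hla (sub_eq_zero.1 this).symm
    refine Set.Finite.subset (Polynomial.finite_setOfPred_isRoot hp) ?_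
    rintro t ⟨ht, hty⟩
    change Polynomial.eval t p = 0
    have hne := h1 t ht
    simp only [p, Polynomial.eval_sub, Polynomial.eval_mul, Polynomial.eval_pow,
      Polynomial.eval_add, Polynomial.eval_one, Polynomial.eval_X, Polynomial.eval_C]
    rw [← hty]
    field_simp
    ring
  · intro t ht
    simp only [Set.mem_iUnion]
    exact ⟨_, ⟨t, ht, rfl⟩, ht, rfl⟩

end Crest.Agent.R172.SepC
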