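import Mathlib
import Crest.Agent.R172.SepC

/-!
Row 172, node o2-HexOp: operator `c` ⟹ polynomial families, for decorations.

Variable `s = c⁻¹`.  Pencil `P_s b = P0 b + s P1 b`; at the parameter `t` the scalar `s` is replaced
by an operator `o_t` with scalar part `κ_t`.  `sol_of_op`: if a polynomial family `f = Σ s^k f_k`
is in the range of the operator pencil at every `t`, then it is identically in the range of the
pencil: there is a polynomial family `g` with `f 0 = P0 (g 0)`, `f (k+1) = P0 (g (k+1)) + P1 (g k)`.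
-/

set_option autoImplicit false

namespace Crest.Agent.R172.HexOp

open Finset Module
open Crest.Agent.R172.SepC

variable {K : Type*} [Field K]
variable {B Z : Type*} [AddCommGroup B] [Module K B] [AddCommGroup Z] [Module K Z]

/-- the polynomial family `g` (with values in `B'`) solves the polynomial family `f` -/
structure Sol (P0 P1 : B →ₗ[K] Z) (B' : Submodule K B) (f : ℕ → Z) (g : ℕ → B) (N : ℕ) :
    Prop where
  mem : ∀ k, g k ∈ B'
  fin : ∀ k, N ≤ k → g k = 0
  zero : f 0 = P0 (g 0)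
  succ : ∀ k, f (k + 1) = P0 (g (k + 1)) + P1 (g k)

/-- **Lemma B.** -/
theorem sol_of_scalar (P0 P1 : B →ₗ[K] Z) (B' : Submodule K B) (Λ : ℕ → Z →ₗ[K] B) (m : ℕ)
    (hΛ : ∀ s : K, ∀ b ∈ B', ∑ k ∈ range m, s ^ k • Λ k (P0 b + s • P1 b) = b)
    (f : ℕ → Z) (n : ℕ) (hf : ∀ k, n ≤ k → f k = 0) (S : Set K) (hS : S.Infinite)
    (h : ∀ s ∈ S, ∃ b ∈ B', ∑ k ∈ range n, s ^ k • f k = P0 b + s • P1 b) :
    ∃ g, Sol P0 P1 B' f g (m + n) := by
  classical
  let g : ℕ → B := fun k => ∑ p ∈ (range m ×ˢ range n) with p.1 + p.2 = k, Λ p.1 (f p.2)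
  have gfin : ∀ k, m + n ≤ k → g k = 0 := by
    intro k hk
    refine Finset.sum_eq_zero ?_
    rintro ⟨i, j⟩ hij
    simp only [mem_filter, mem_product, mem_range] at hij
    omega
  have gev : ∀ s : K, ∑ k ∈ range (m + n), s ^ k • g k
      = ∑ i ∈ range m, s ^ i • Λ i (∑ j ∈ range n, s ^ j • f j) := by
    intro s
    have e1 : ∀ k, s ^ k • g k
        = ∑ p ∈ (range m ×ˢ range n) with p.1 + p.2 = k, s ^ (p.1 + p.2) • Λ p.1 (f p.2) := by
      intro k
      simp only [g, Finset.smul_sum]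
      refine Finset.sum_congr rfl ?_
      rintro ⟨i, j⟩ hij
      simp only [mem_filter] at hij
      rw [hij.2]
    simp only [e1]
    rw [Finset.sum_fiberwise_of_maps_to (g := fun p : ℕ × ℕ => p.1 + p.2)]
    · rw [Finset.sum_product]
      refine Finset.sum_congr rfl fun i _ => ?_
      rw [map_sum, Finset.smul_sum]
      refine Finset.sum_congr rfl fun j _ => ?_
      rw [map_smul, smul_smul, pow_add]
    · rintro ⟨i, j⟩ hij
      simp only [mem_product, mem_range] at hij ⊢
      omega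
  have gs : ∀ s ∈ S, ∃ b ∈ B', ∑ k ∈ range (m + n), s ^ k • g k = b ∧
      ∑ k ∈ range n, s ^ k • f k = P0 b + s • P1 b := by
    intro s hs
    obtain ⟨b, hb, hb2⟩ := h s hs
    refine ⟨b, hb, ?_, hb2⟩
    rw [gev, hb2, hΛ s b hb]
  have gmem : ∀ k, g k ∈ B' := by
    intro k
    by_cases hk : k < m + n
    · refine vander B' (m + n) g S hS ?_ k hk
      intro s hs
      obtain ⟨b, hb, hb2, -⟩ := gs s hs
      rw [hb2]
      exact hb
    · rw [gfin k (by omega)]
      exact B'.zero_mem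
  let e : ℕ → Z := fun k => match k with
    | 0 => f 0 - P0 (g 0)
    | (k + 1) => f (k + 1) - P0 (g (k + 1)) - P1 (g k)
  have he : ∀ k < m + n + 1, e k ∈ (⊥ : Submodule K Z) := by
    refine vander ⊥ (m + n + 1) e S hS ?_
    intro s hs
    obtain ⟨b, hb, hb2, hb3⟩ := gs s hs
    rw [Submodule.mem_bot]
    have e1 : ∑ k ∈ range (m + n + 1), s ^ k • e k
        = ∑ k ∈ range (m + n + 1), s ^ k • f k - ∑ k ∈ range (m + n + 1), s ^ k • P0 (g k)
          - s • ∑ k ∈ range (m + n), s ^ k • P1 (g k) := by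
      rw [Finset.sum_range_succ' (fun k => s ^ k • e k), Finset.sum_range_succ' (fun k => s ^ k • f k),
        Finset.sum_range_succ' (fun k => s ^ k • P0 (g k)), Finset.smul_sum]
      simp only [e, smul_sub, Finset.sum_sub_distrib, smul_smul, pow_succ']
      abel
    have e2 : ∑ k ∈ range (m + n + 1), s ^ k • f k = ∑ k ∈ range n, s ^ k • f k := by
      symm
      refine Finset.sum_subset (by intro x; simp only [mem_range]; omega) ?_
      intro x _ hx
      rw [hf x (by simpa using hx), smul_zero]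
    have e3 : ∑ k ∈ range (m + n + 1), s ^ k • P0 (g k) = P0 b := by
      rw [Finset.sum_range_succ, gfin (m + n) le_rfl, map_zero, smul_zero, add_zero, ← hb2, map_sum]
      simp only [map_smul]
    have e4 : ∑ k ∈ range (m + n), s ^ k • P1 (g k) = P1 b := by
      rw [← hb2, map_sum]
      simp only [map_smul]
    rw [e1, e2, e3, e4, hb3]
    abel
  refine ⟨g, gmem, gfin, ?_, ?_⟩
  · have := he 0 (by omega)
    rw [Submodule.mem_bot] at this
    exact sub_eq_zero.1 this
  · intro k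
    by_cases hk : k + 1 < m + n + 1
    · have := he (k + 1) hk
      rw [Submodule.mem_bot] at this
      have h2 : f (k + 1) - P0 (g (k + 1)) - P1 (g k) = 0 := this
      rw [sub_sub] at h2
      exact sub_eq_zero.1 h2
    · rw [hf (k + 1) (by omega), gfin (k + 1) (by omega), gfin k (by omega), map_zero, map_zero,
        add_zero]

/-- the divided differences -/
def dd (ρ : K) (o : End K B) : ℕ → End K B
  | 0 => 0
  | (k + 1) => ρ • dd ρ o k + o ^ k

theorem dd_apply (ρ : K) (o : End K B) (k : ℕ) (z : B) :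
    ρ ^ k • z = (o ^ k) z - dd ρ o k (o z - ρ • z) := by
  induction k with
  | zero => simp [dd]
  | succ k ih =>
    have e1 : dd ρ o (k + 1) (o z - ρ • z)
        = ρ • dd ρ o k (o z - ρ • z) + ((o ^ (k + 1)) z - ρ • (o ^ k) z) := by
      rw [dd, LinearMap.add_apply, LinearMap.smul_apply, map_sub (o ^ k), map_smul (o ^ k),
        pow_succ, Module.End.mul_apply]
    have e2 : dd ρ o k (o z - ρ • z) = (o ^ k) z - ρ ^ k • z := by
      rw [ih]
      abel
    rw [e1, e2, smul_sub, smul_smul, ← pow_succ']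
    abel

theorem map_pow {P : B →ₗ[K] Z} {oB : End K B} {oZ : End K Z} (h : ∀ b, P (oB b) = oZ (P b))
    (k : ℕ) (b : B) : P ((oB ^ k) b) = (oZ ^ k) (P b) := by
  induction k generalizing b with
  | zero => simp
  | succ k ih => rw [pow_succ, pow_succ, Module.End.mul_apply, Module.End.mul_apply, ih, h]

theorem map_dd {P : B →ₗ[K] Z} {oB : End K B} {oZ : End K Z} (h : ∀ b, P (oB b) = oZ (P b))
    (ρ : K) (k : ℕ) (b : B) : P (dd ρ oB k b) = dd ρ oZ k (P b) := by
  induction k with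
  | zero => simp [dd]
  | succ k ih =>
    rw [dd, dd, LinearMap.add_apply, LinearMap.add_apply, LinearMap.smul_apply,
      LinearMap.smul_apply, map_add, map_smul, ih, map_pow h]

theorem pow_mem {B' : Submodule K B} {o : End K B} (h : ∀ b ∈ B', o b ∈ B') (k : ℕ) :
    ∀ b ∈ B', (o ^ k) b ∈ B' := by
  induction k with
  | zero => intro b hb; simpa using hb
  | succ k ih => intro b hb; rw [pow_succ, Module.End.mul_apply]; exact ih _ (h b hb)

theorem dd_mem {B' : Submodule K B} {o : End K B} (h : ∀ b ∈ B', o b ∈ B') (ρ : K) (k : ℕ) :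
    ∀ b ∈ B', dd ρ o k b ∈ B' := by
  induction k with
  | zero => intro b _; simp [dd]
  | succ k ih =>
    intro b hb
    rw [dd, LinearMap.add_apply, LinearMap.smul_apply]
    exact B'.add_mem (B'.smul_mem _ (ih b hb)) (pow_mem h k b hb)

/-- **Lemma A.** -/
theorem lemA {P0 P1 : B →ₗ[K] Z} {B' : Submodule K B} {oB : End K B} {oZ : End K Z} {ρ : K}
    (h0 : ∀ b, P0 (oB b) = oZ (P0 b)) (h1 : ∀ b, P1 (oB b) = oZ (P1 b))
    (hB' : ∀ b ∈ B', oB b ∈ B') (hinj : ∀ b ∈ B', P0 b + P1 (oB b) = 0 → b = 0)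
    (f : ℕ → Z) (n : ℕ) (hf : ∀ k, n ≤ k → f k = 0) (g : ℕ → B) (N : ℕ)
    (hg : Sol P0 P1 B' (fun k => oZ (f k) - ρ • f k) g N)
    (b : B) (hb : b ∈ B') (h : ∑ k ∈ range n, (oZ ^ k) (f k) = P0 b + P1 (oB b)) :
    ∃ b' ∈ B', ∑ k ∈ range n, ρ ^ k • f k = P0 b' + ρ • P1 b' := by
  classical
  -- sums over `range (M + 1)`
  let M := n + N
  have hgM : g M = 0 := hg.fin M (by simp [M])
  have hfM : ∑ k ∈ range (M + 1), (oZ ^ k) (f k) = P0 b + P1 (oB b) := by
    rw [← h]
    symm
    refine Finset.sum_subset (by intro x; simp only [mem_range, M]; omega) ?_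
    intro x _ hx
    rw [hf x (by simpa using hx), map_zero]
  have hfρ : ∑ k ∈ range (M + 1), ρ ^ k • f k = ∑ k ∈ range n, ρ ^ k • f k := by
    symm
    refine Finset.sum_subset (by intro x; simp only [mem_range, M]; omega) ?_
    intro x _ hx
    rw [hf x (by simpa using hx), smul_zero]
  have hg0 : oZ (f 0) - ρ • f 0 = P0 (g 0) := hg.zero
  have hgs : ∀ k, oZ (f (k + 1)) - ρ • f (k + 1) = P0 (g (k + 1)) + P1 (g k) := hg.succ
  -- (1) `w b = g(o)`
  let go : B := ∑ k ∈ range (M + 1), (oB ^ k) (g k)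
  have hgo : go = ∑ k ∈ range M, (oB ^ k) (g k) := by
    simp only [go]
    rw [Finset.sum_range_succ, hgM, map_zero, add_zero]
  have hgo' : go ∈ B' := Submodule.sum_mem _ fun k _ => pow_mem hB' k _ (hg.mem k)
  have hwf : ∑ k ∈ range (M + 1), (oZ ^ k) (oZ (f k) - ρ • f k) = P0 go + P1 (oB go) := by
    rw [Finset.sum_range_succ' (fun k => (oZ ^ k) (oZ (f k) - ρ • f k)), hg0]
    simp only [hgs, map_add, Finset.sum_add_distrib]
    have e1 : P1 (oB go) = ∑ k ∈ range M, (oZ ^ (k + 1)) (P1 (g k)) := by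
      rw [hgo, map_sum, map_sum]
      refine Finset.sum_congr rfl fun k _ => ?_
      rw [← map_pow h1, pow_succ', Module.End.mul_apply]
    have e2 : P0 go = ∑ k ∈ range M, (oZ ^ (k + 1)) (P0 (g (k + 1))) + (oZ ^ 0) (P0 (g 0)) := by
      simp only [go]
      rw [Finset.sum_range_succ', map_add, map_sum]
      simp only [map_pow h0]
    rw [e1, e2]
    abel
  have hwb : oB b - ρ • b = go := by
    rw [← sub_eq_zero]
    refine hinj _ (B'.sub_mem (B'.sub_mem (hB' b hb) (B'.smul_mem _ hb)) hgo') ?_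
    have e1 : ∑ k ∈ range (M + 1), (oZ ^ k) (oZ (f k) - ρ • f k)
        = oZ (P0 b + P1 (oB b)) - ρ • (P0 b + P1 (oB b)) := by
      rw [← hfM, map_sum, Finset.smul_sum, ← Finset.sum_sub_distrib]
      refine Finset.sum_congr rfl fun k _ => ?_
      rw [map_sub, map_smul, ← Module.End.mul_apply, ← Module.End.mul_apply, ← pow_succ, ← pow_succ']
    rw [hwf] at e1
    simp only [map_sub, map_smul, h0, h1] at e1 ⊢
    rw [map_add, smul_add] at e1
    have e2 : P0 go + oZ (P1 go)
        = oZ (P0 b) + oZ (oZ (P1 b)) - (ρ • P0 b + ρ • oZ (P1 b)) := e1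
    have e3 : oZ (P0 b) - ρ • P0 b - P0 go + (oZ (oZ (P1 b)) - ρ • oZ (P1 b) - oZ (P1 go))
        = (oZ (P0 b) + oZ (oZ (P1 b)) - (ρ • P0 b + ρ • oZ (P1 b))) - (P0 go + oZ (P1 go)) := by
      abel
    rw [e3, e2, sub_self]
  -- (2)
  let G : B := ∑ k ∈ range (M + 1), dd ρ oB k (g k)
  have hG : G = ∑ k ∈ range M, dd ρ oB k (g k) := by
    simp only [G]
    rw [Finset.sum_range_succ, hgM, map_zero, add_zero]
  have hG' : G ∈ B' := Submodule.sum_mem _ fun k _ => dd_mem hB' ρ k _ (hg.mem k)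
  refine ⟨b - G, B'.sub_mem hb hG', ?_⟩
  rw [← hfρ]
  have e1 : ∑ k ∈ range (M + 1), ρ ^ k • f k = ∑ k ∈ range (M + 1), (oZ ^ k) (f k)
      - ∑ k ∈ range (M + 1), dd ρ oZ k (oZ (f k) - ρ • f k) := by
    rw [← Finset.sum_sub_distrib]
    exact Finset.sum_congr rfl fun k _ => dd_apply ρ oZ k (f k)
  have e2 : ∑ k ∈ range (M + 1), dd ρ oZ k (oZ (f k) - ρ • f k) = P0 G + ρ • P1 G + P1 go := by
    rw [Finset.sum_range_succ' (fun k => dd ρ oZ k (oZ (f k) - ρ • f k)), hg0]
    simp only [hgs, map_add, Finset.sum_add_distrib]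
    have e3 : P0 G = ∑ k ∈ range M, dd ρ oZ (k + 1) (P0 (g (k + 1))) + dd ρ oZ 0 (P0 (g 0)) := by
      simp only [G]
      rw [Finset.sum_range_succ', map_add, map_sum]
      simp only [map_dd h0]
    have e4 : ρ • P1 G + P1 go = ∑ k ∈ range M, dd ρ oZ (k + 1) (P1 (g k)) := by
      rw [hG, hgo, map_sum, map_sum, Finset.smul_sum, ← Finset.sum_add_distrib]
      refine Finset.sum_congr rfl fun k _ => ?_
      rw [dd, LinearMap.add_apply, LinearMap.smul_apply, map_dd h1, map_pow h1]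
    rw [e3, ← e4]
    abel
  rw [e1, hfM, e2, ← hwb]
  simp only [map_sub, map_smul, smul_sub]
  abel

/-- injectivity of the operator pencil -/
theorem op_inj {P0 P1 : B →ₗ[K] Z} {B' : Submodule K B} {oB : End K B} {oZ : End K Z} {ρ : K}
    (h0 : ∀ b, P0 (oB b) = oZ (P0 b)) (h1 : ∀ b, P1 (oB b) = oZ (P1 b))
    (hB' : ∀ b ∈ B', oB b ∈ B') (hinj : ∀ b ∈ B', P0 b + ρ • P1 b = 0 → b = 0)
    (hn : IsNilpotent (oB - algebraMap K (End K B) ρ)) :
    ∀ b ∈ B', P0 b + P1 (oB b) = 0 → b = 0 := by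
  obtain ⟨M, hM⟩ := hn
  intro b hb h
  let w : End K B := oB - algebraMap K (End K B) ρ
  have hw : ∀ y, w y = oB y - ρ • y := fun y => by
    simp only [w, LinearMap.sub_apply, Module.algebraMap_end_apply]
  have hwB : ∀ y ∈ B', w y ∈ B' := fun y hy => by
    rw [hw]; exact B'.sub_mem (hB' y hy) (B'.smul_mem _ hy)
  -- `w ^ j b` is killed by the operator pencil
  have hk : ∀ j, P0 ((w ^ j) b) + P1 (oB ((w ^ j) b)) = 0 := by
    intro j
    induction j with
    | zero => simpa using h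
    | succ j ih =>
      rw [pow_succ', Module.End.mul_apply, hw]
      generalize (w ^ j) b = y at ih
      have e : P0 (oB y - ρ • y) + P1 (oB (oB y - ρ • y))
          = oZ (P0 y + P1 (oB y)) - ρ • (P0 y + P1 (oB y)) := by
        simp only [map_sub, map_smul, map_add, h0, h1, smul_add]
        abel
      rw [e, ih, map_zero, smul_zero, sub_zero]
  have key : ∀ i j, i + j = M → (w ^ j) b = 0 := by
    intro i
    induction i with
    | zero =>
      intro j hj
      have : j = M := by omega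
      subst this
      exact congrArg (fun g : End K B => g b) hM
    | succ i ih =>
      intro j hj
      have h2 := ih (j + 1) (by omega)
      rw [pow_succ', Module.End.mul_apply, hw, sub_eq_zero] at h2
      have h3 := hk j
      rw [h2, map_smul] at h3
      exact hinj _ (pow_mem hwB j b hb) h3
  simpa using key M 0 (by omega)

/-- **Lemma C: operator solvability for infinitely many parameters gives a polynomial solution.** -/
theorem sol_of_op {I : Type*} (P0 P1 : B →ₗ[K] Z) (B' : Submodule K B) (Λ : ℕ → Z →ₗ[K] B) (m : ℕ)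
    (hΛ : ∀ s : K, ∀ b ∈ B', ∑ k ∈ range m, s ^ k • Λ k (P0 b + s • P1 b) = b)
    (T : Set I) (oB : I → End K B) (oZ : I → End K Z) (κ : I → K) (hκ : (κ '' T).Infinite)
    (h0 : ∀ t ∈ T, ∀ b, P0 (oB t b) = oZ t (P0 b)) (h1 : ∀ t ∈ T, ∀ b, P1 (oB t b) = oZ t (P1 b))
    (hB' : ∀ t ∈ T, ∀ b ∈ B', oB t b ∈ B')
    (hBc : ∀ t ∈ T, ∀ t' ∈ T, Commute (oB t) (oB t'))
    (hZc : ∀ t ∈ T, ∀ t' ∈ T, Commute (oZ t) (oZ t'))
    (hBn : ∀ t ∈ T, IsNilpotent (oB t - algebraMap K (End K B) (κ t)))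
    (F : ℕ → Submodule K Z) (r : ℕ) (hF0 : F 0 = ⊤) (hFr : F r = ⊥)
    (hF : ∀ t ∈ T, Gr F (κ t) (oZ t))
    (f : ℕ → Z) (n : ℕ) (hf : ∀ k, n ≤ k → f k = 0)
    (h : ∀ t ∈ T, ∃ b ∈ B', ∑ k ∈ range n, (oZ t ^ k) (f k) = P0 b + P1 (oB t b)) :
    ∃ g N, Sol P0 P1 B' f g N := by
  have hinj : ∀ ρ : K, ∀ b ∈ B', P0 b + ρ • P1 b = 0 → b = 0 := by
    intro ρ b hb h2
    have h3 := hΛ ρ b hb
    rw [h2] at h3
    simp only [map_zero, smul_zero, Finset.sum_const_zero] at h3
    exact h3.symm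
  have key : ∀ j i, i + j = r → ∀ f : ℕ → Z, (∀ k, n ≤ k → f k = 0) → (∀ k, f k ∈ F i) →
      (∀ t ∈ T, ∃ b ∈ B', ∑ k ∈ range n, (oZ t ^ k) (f k) = P0 b + P1 (oB t b)) →
      ∃ g N, Sol P0 P1 B' f g N := by
    intro j
    induction j with
    | zero =>
      intro i hi f _ hfF _
      have : i = r := by omega
      subst this
      have hz : ∀ k, f k = 0 := fun k => by
        have := hfF k
        rw [hFr] at this
        exact (Submodule.mem_bot K).1 this
      exact ⟨fun _ => 0, 0, fun _ => B'.zero_mem, fun _ _ => rfl, by rw [hz, map_zero],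
        fun k => by rw [hz, map_zero, map_zero, add_zero]⟩
    | succ j ih =>
      intro i hi f hf hfF hs
      obtain ⟨g, hg⟩ := sol_of_scalar P0 P1 B' Λ m hΛ f n hf (κ '' T) hκ (by
        rintro _ ⟨t, ht, rfl⟩
        obtain ⟨g, N, hg⟩ := ih (i + 1) (by omega) (fun k => oZ t (f k) - κ t • f k)
          (fun k hk => by rw [hf k hk, map_zero, smul_zero, sub_zero])
          (fun k => hF t ht i (f k) (hfF k)) (by
            intro t' ht'
            obtain ⟨b, hb, hb2⟩ := hs t' ht'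
            refine ⟨oB t b - κ t • b, B'.sub_mem (hB' t ht b hb) (B'.smul_mem _ hb), ?_⟩
            have e1 : ∑ k ∈ range n, (oZ t' ^ k) (oZ t (f k) - κ t • f k)
                = oZ t (∑ k ∈ range n, (oZ t' ^ k) (f k))
                  - κ t • ∑ k ∈ range n, (oZ t' ^ k) (f k) := by
              rw [map_sum, Finset.smul_sum, ← Finset.sum_sub_distrib]
              refine Finset.sum_congr rfl fun k _ => ?_
              rw [map_sub, map_smul]
              congr 1
              exact congrArg (fun g : End K Z => g (f k)) ((hZc t' ht' t ht).pow_left k).eq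
            have e2 : oB t' (oB t b) = oB t (oB t' b) :=
              congrArg (fun g : End K B => g b) (hBc t' ht' t ht).eq
            rw [e1, hb2]
            simp only [map_sub, map_smul, map_add, e2, h0 t ht, h1 t ht, smul_add]
            abel)
        obtain ⟨b, hb, hb2⟩ := hs t ht
        exact lemA (h0 t ht) (h1 t ht) (hB' t ht)
          (op_inj (h0 t ht) (h1 t ht) (hB' t ht) (hinj (κ t)) (hBn t ht)) f n hf g N hg b hb hb2)
      exact ⟨g, m + n, hg⟩
  exact key r 0 (by omega) f hf (fun k => by rw [hF0]; trivial) h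

end Crest.Agent.R172.HexOp
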