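import Mathlib

/-!
Row 172 (S0260), T0: the field `hexS` of `RD.Fr` from the universal property of the word cover
(255's `RDL.Univ.matrix`): exact corrections `b`, `kk` of every scalar exact family.
-/

set_option autoImplicit false
set_option linter.unusedSectionVars false

namespace Crest.Agent.R172.HexS

open Matrix

variable {K : Type*} [Field K] {n : Type*} [Fintype n] [DecidableEq n]
variable {M : Type*} [AddCommGroup M] [Module K M]

/-- words in the letters `0, 1` -/
def w2 (al : Fin 3 → Matrix n n K) (w : List (Fin 2)) : Matrix n n K :=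
  ((w.map Fin.castSucc).map al).prod

/-- the value of the solution on words -/
def Fw (al κ : Fin 3 → Matrix n n K) (s : K) : List (Fin 2) → Matrix n n K
  | [] => 0
  | r :: w => κ r.castSucc * w2 al w + s • (al r.castSucc * Fw al κ s w)

variable {al κ : Fin 3 → Matrix n n K} {s : K}

theorem w2_nil : w2 al [] = 1 := rfl

theorem w2_cons (r : Fin 2) (w : List (Fin 2)) :
    w2 al (r :: w) = al r.castSucc * w2 al w := by
  simp [w2]

theorem w2_append (w w' : List (Fin 2)) : w2 al (w ++ w') = w2 al w * w2 al w' := by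
  simp [w2]

theorem w2_snoc (w : List (Fin 2)) (a : Fin 2) :
    w2 al (w ++ [a]) = w2 al w * al a.castSucc := by
  rw [w2_append, w2_cons, w2_nil, Matrix.mul_one]

theorem Fw_snoc (w : List (Fin 2)) (a : Fin 2) :
    Fw al κ s (w ++ [a]) = Fw al κ s w * al a.castSucc +
      s ^ w.length • (w2 al w * κ a.castSucc) := by
  induction w with
  | nil =>
    simp [Fw, w2_nil]
  | cons r w ih =>
    rw [List.cons_append, Fw, Fw, ih, w2_snoc, w2_cons, List.length_cons]
    simp only [Matrix.add_mul, Matrix.mul_add, smul_add, Matrix.smul_mul, Matrix.mul_smul,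
      Matrix.mul_assoc, smul_smul, pow_succ']
    abel

/-- two letters suffice -/
theorem two_letters {ρ : Fin 3 → Matrix n n K} (hsum : ∑ r, al r = 0)
    (hρ : ∑ r, al r * ρ r = 1) : ∃ ρ' : Fin 2 → Matrix n n K,
    ∑ r : Fin 2, al r.castSucc * ρ' r = 1 := by
  refine ⟨fun r => ρ r.castSucc - ρ 2, ?_⟩
  rw [Fin.sum_univ_three] at hsum hρ
  have h2 : al 2 = -(al 0 + al 1) := by
    rw [eq_neg_iff_add_eq_zero, add_comm]; exact hsum
  rw [Fin.sum_univ_two]
  change al 0 * (ρ 0 - ρ 2) + al 1 * (ρ 1 - ρ 2) = 1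
  rw [← hρ, h2]
  simp only [Matrix.mul_sub, Matrix.neg_mul, Matrix.add_mul]
  abel

theorem zero_of_words {ρ' : Fin 2 → Matrix n n K}
    (hρ : ∑ r : Fin 2, al r.castSucc * ρ' r = 1) {N : ℕ} {Z : Matrix n n K}
    (hZ : ∀ w : List (Fin 2), w.length = N → Z * w2 al w = 0) : Z = 0 := by
  have key : ∀ j, j ≤ N → ∀ w : List (Fin 2), w.length = N - j → Z * w2 al w = 0 := by
    intro j
    induction j with
    | zero => intro _ w hw; exact hZ w (by simpa using hw)
    | succ j ih =>
      intro hj w hw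
      calc Z * w2 al w = Z * w2 al w * ∑ r : Fin 2, al r.castSucc * ρ' r := by
            rw [hρ, Matrix.mul_one]
        _ = ∑ r : Fin 2, Z * w2 al (w ++ [r]) * ρ' r := by
            rw [Matrix.mul_sum]
            refine Finset.sum_congr rfl fun r _ => ?_
            rw [w2_snoc]
            simp only [Matrix.mul_assoc]
        _ = 0 := by
            refine Finset.sum_eq_zero fun r _ => ?_
            rw [ih (by omega) (w ++ [r]) (by
              rw [List.length_append, hw, List.length_singleton]; omega), Matrix.zero_mul]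
  have := key N le_rfl [] (by simp)
  rwa [w2_nil, Matrix.mul_one] at this

theorem mem_of_words {ρ' : Fin 2 → Matrix n n K} {π : (n → K) →ₗ[K] M}
    (hρ : ∑ r : Fin 2, al r.castSucc * ρ' r = 1) {N : ℕ} {Z : Matrix n n K}
    (hZ : ∀ w : List (Fin 2), w.length = N → ∀ v, π ((Z * w2 al w) *ᵥ v) = 0) :
    ∀ v, π (Z *ᵥ v) = 0 := by
  have key : ∀ j, j ≤ N → ∀ w : List (Fin 2), w.length = N - j →
      ∀ v, π ((Z * w2 al w) *ᵥ v) = 0 := by
    intro j
    induction j with
    | zero => intro _ w hw; exact hZ w (by simpa using hw)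
    | succ j ih =>
      intro hj w hw v
      have h1 : Z * w2 al w = ∑ r : Fin 2, Z * w2 al (w ++ [r]) * ρ' r := by
        calc Z * w2 al w = Z * w2 al w * ∑ r : Fin 2, al r.castSucc * ρ' r := by
              rw [hρ, Matrix.mul_one]
          _ = _ := by
              rw [Matrix.mul_sum]
              refine Finset.sum_congr rfl fun r _ => ?_
              rw [w2_snoc]
              simp only [Matrix.mul_assoc]
      rw [h1, Matrix.sum_mulVec, map_sum]
      refine Finset.sum_eq_zero fun r _ => ?_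
      rw [← mulVec_mulVec]
      exact ih (by omega) (w ++ [r]) (by
        rw [List.length_append, hw, List.length_singleton]; omega) _
  intro v
  have := key N le_rfl [] (by simp) v
  rwa [w2_nil, Matrix.mul_one] at this

/-- **solving `u al_r = s al_r u + κ_r`** on the universal cover -/
theorem solve {π : (n → K) →ₗ[K] M} {ρ : Fin 3 → Matrix n n K} {N : ℕ}
    (hU : ∀ f : (Fin N → Fin 2) → Matrix n n K, (∀ w v, π v = 0 → f w *ᵥ v = 0) →
      ∃ δ : Matrix n n K, ∀ w : Fin N → Fin 2,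
        δ * ((List.ofFn (Fin.castSucc ∘ w)).map al).prod = f w)
    (hsum : ∑ r, al r = 0) (hρ : ∑ r, al r * ρ r = 1)
    (hst : ∀ r u, π u = 0 → π (al r *ᵥ u) = 0)
    (hkill : ∀ w : List (Fin 3), w.length = N → ∀ u, π u = 0 → (w.map al).prod *ᵥ u = 0)
    (s : K) {κ : Fin 3 → Matrix n n K} (hκ0 : ∑ r, κ r = 0)
    (hκ1 : ∀ r u, π u = 0 → κ r *ᵥ u = 0) (hκ2 : ∀ r u, π (κ r *ᵥ u) = 0) :
    ∃ u : Matrix n n K, (∀ r, u * al r = s • (al r * u) + κ r) ∧ ∀ v, π (u *ᵥ v) = 0 := by
  obtain ⟨ρ', hρ'⟩ := two_letters hsum hρ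
  have hstw : ∀ (w : List (Fin 2)) v, π v = 0 → π (w2 al w *ᵥ v) = 0 := by
    intro w
    induction w with
    | nil => intro v hv; rwa [w2_nil, one_mulVec]
    | cons r w ih =>
      intro v hv
      rw [w2_cons, ← mulVec_mulVec]
      exact hst _ _ (ih v hv)
  have hkill2 : ∀ (w : List (Fin 2)), w.length = N → ∀ r, w2 al w * κ r = 0 := by
    intro w hw r
    apply Matrix.ext_of_mulVec_single
    intro i
    rw [← mulVec_mulVec, zero_mulVec]
    exact hkill _ (by simpa using hw) _ (hκ2 r _)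
  have hF1 : ∀ (w : List (Fin 2)) v, π v = 0 → Fw al κ s w *ᵥ v = 0 := by
    intro w
    induction w with
    | nil => intro v _; simp [Fw]
    | cons r w ih =>
      intro v hv
      rw [Fw, Matrix.add_mulVec, ← mulVec_mulVec, hκ1 _ _ (hstw w v hv), Matrix.smul_mulVec,
        ← mulVec_mulVec, ih v hv, mulVec_zero, smul_zero, add_zero]
  have hF2 : ∀ (w : List (Fin 2)) v, π (Fw al κ s w *ᵥ v) = 0 := by
    intro w
    induction w with
    | nil => intro v; simp [Fw]
    | cons r w ih =>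
      intro v
      rw [Fw, Matrix.add_mulVec, map_add, ← mulVec_mulVec, hκ2, Matrix.smul_mulVec, map_smul,
        ← mulVec_mulVec, hst _ _ (ih v), smul_zero, add_zero]
  obtain ⟨δ, hδ⟩ := hU (fun w => Fw al κ s (List.ofFn w)) (fun w v hv => hF1 _ v hv)
  have hδ' : ∀ w : List (Fin 2), w.length = N → δ * w2 al w = Fw al κ s w := by
    intro w hw
    subst hw
    have h1 := hδ (fun i => w.get i)
    have h2 : List.ofFn (fun i => w.get i) = w := List.ofFn_get w
    have h3 : List.ofFn (Fin.castSucc ∘ fun i => w.get i) = w.map Fin.castSucc := by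
      rw [← List.map_ofFn, h2]
    rw [h2, h3] at h1
    exact h1
  have hval : ∀ v, π (δ *ᵥ v) = 0 :=
    mem_of_words hρ' (N := N) fun w hw v => by rw [hδ' w hw]; exact hF2 w v
  have h01 : ∀ r : Fin 2, δ * al r.castSucc - (s • (al r.castSucc * δ) + κ r.castSucc) = 0 := by
    intro r
    refine zero_of_words hρ' (N := N) fun w hw => ?_
    rw [Matrix.sub_mul, Matrix.add_mul, Matrix.smul_mul, Matrix.mul_assoc (al _) δ, hδ' w hw,
      Matrix.mul_assoc δ, ← w2_cons]
    have h1 : s • (al r.castSucc * Fw al κ s w) + κ r.castSucc * w2 al w = Fw al κ s (r :: w) := by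
      rw [Fw, add_comm]
    rw [h1]
    rcases w.eq_nil_or_concat with h0 | ⟨w', a, ha⟩
    · -- `N = 0`
      subst h0
      have hN : N = 0 := by simpa using hw.symm
      subst hN
      have h2 : ∀ Z : Matrix n n K, (∀ v, π (Z *ᵥ v) = 0) → Z = 0 := by
        intro Z hZ
        apply Matrix.ext_of_mulVec_single
        intro i
        have h3 := hkill [] rfl _ (hZ (Pi.single i 1))
        rw [List.map_nil, List.prod_nil, one_mulVec] at h3
        rw [h3, zero_mulVec]
      rw [h2 δ hval, h2 (Fw al κ s [r]) (hF2 _)]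
      simp
    · rw [ha]
      have hl : (r :: w').length = N := by
        rw [← hw, ha]; simp
      have e1 : r :: (w'.concat a) = (r :: w') ++ [a] := by simp
      rw [e1, w2_snoc, Fw_snoc, ← Matrix.mul_assoc, hδ' _ hl, hkill2 _ hl, smul_zero, add_zero,
        sub_self]
  refine ⟨δ, fun r => ?_, hval⟩
  have h0 := sub_eq_zero.1 (h01 0)
  have h1 := sub_eq_zero.1 (h01 1)
  have e0 : (Fin.castSucc (0 : Fin 2) : Fin 3) = 0 := rfl
  have e1 : (Fin.castSucc (1 : Fin 2) : Fin 3) = 1 := rfl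
  rw [e0] at h0
  rw [e1] at h1
  rw [Fin.sum_univ_three] at hsum hκ0
  fin_cases r
  · exact h0
  · exact h1
  · have h2 : al 2 = -(al 0 + al 1) := by
      rw [eq_neg_iff_add_eq_zero, add_comm]; exact hsum
    have h3 : κ 2 = -(κ 0 + κ 1) := by
      rw [eq_neg_iff_add_eq_zero, add_comm]; exact hκ0
    change δ * al 2 = s • (al 2 * δ) + κ 2
    rw [h2, h3, Matrix.mul_neg, Matrix.mul_add, h0, h1, Matrix.neg_mul, Matrix.add_mul, smul_neg,
      smul_add]
    abel

/-- **the field `hexS` of `RD.Fr`**, `g = pᵀ J p` -/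
theorem hexS {π : (n → K) →ₗ[K] M} {ρ : Fin 3 → Matrix n n K} {N : ℕ} {g : Matrix n n K}
    (hgs : gᵀ = g) (hgal : ∀ r, g * al r = (al r)ᵀ * g) (hgπ : ∀ u, π u = 0 ↔ g *ᵥ u = 0)
    (hU : ∀ f : (Fin N → Fin 2) → Matrix n n K, (∀ w v, π v = 0 → f w *ᵥ v = 0) →
      ∃ δ : Matrix n n K, ∀ w : Fin N → Fin 2,
        δ * ((List.ofFn (Fin.castSucc ∘ w)).map al).prod = f w)
    (hsum : ∑ r, al r = 0) (hρ : ∑ r, al r * ρ r = 1)
    (hkill : ∀ w : List (Fin 3), w.length = N → ∀ u, π u = 0 → (w.map al).prod *ᵥ u = 0)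
    {ei ej : Matrix n n K} (hi : ei * ei = ei) (hj : ej * ej = ej)
    (hia : ∀ r, ei * al r = al r * ei) (hja : ∀ r, ej * al r = al r * ej)
    (hig : eiᵀ * g = g * ei) (hjg : ejᵀ * g = g * ej)
    {c : K} (hc : c ≠ 0) {x : Fin 3 → Matrix n n K} (hx : ∀ r, ej * x r * eiᵀ = x r)
    (h0 : ∑ r, (x r * (al r)ᵀ - c • (al r * x r)) = 0)
    (h1 : ∀ r, g * (x r * (al r)ᵀ - c • (al r * x r)) * g = 0) :
    ∃ b kk : Matrix n n K, ei * b * ej = b ∧ ej * kk * ei = kk ∧ (∀ u, π (b *ᵥ u) = 0) ∧
      (∀ u, π (kk *ᵥ u) = 0) ∧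
      (∀ r, al r * (b + (x r)ᵀ * g) = c • ((b + (x r)ᵀ * g) * al r)) ∧
      (∀ r, (kk - x r * g) * al r = c • (al r * (kk - x r * g))) := by
  have hst : ∀ r u, π u = 0 → π (al r *ᵥ u) = 0 := by
    intro r u hu
    rw [hgπ] at hu ⊢
    rw [mulVec_mulVec, hgal, ← mulVec_mulVec, hu, mulVec_zero]
  have hR : ∀ Z : Matrix n n K, g * Z = 0 → ∀ u, π (Z *ᵥ u) = 0 := by
    intro Z hZ u
    rw [hgπ, mulVec_mulVec, hZ, zero_mulVec]
  have he : ∀ {e : Matrix n n K}, eᵀ * g = g * e → ∀ v, π v = 0 → π (e *ᵥ v) = 0 := by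
    intro e heg v hv
    rw [hgπ] at hv ⊢
    rw [mulVec_mulVec, ← heg, ← mulVec_mulVec, hv, mulVec_zero]
  have hxt : ∀ r, ei * ((x r)ᵀ * g) * ej = (x r)ᵀ * g := by
    intro r
    have h2 : (x r)ᵀ = ei * ((x r)ᵀ * ejᵀ) := by
      conv_lhs => rw [← hx r]
      simp only [transpose_mul, transpose_transpose]
    calc ei * ((x r)ᵀ * g) * ej = ei * ((x r)ᵀ * (g * ej)) := by simp only [Matrix.mul_assoc]
      _ = ei * ((x r)ᵀ * ejᵀ) * g := by rw [← hjg]; simp only [Matrix.mul_assoc]
      _ = _ := by rw [← h2]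
  have hxg : ∀ r, ej * (x r * g) * ei = x r * g := by
    intro r
    calc ej * (x r * g) * ei = ej * (x r * (g * ei)) := by simp only [Matrix.mul_assoc]
      _ = ej * x r * eiᵀ * g := by rw [← hig]; simp only [Matrix.mul_assoc]
      _ = _ := by rw [hx]
  set E : Fin 3 → Matrix n n K := fun r => x r * (al r)ᵀ - c • (al r * x r) with hE
  have hEt : ∀ r, (E r)ᵀ * g = al r * ((x r)ᵀ * g) - c • ((x r)ᵀ * g * al r) := by
    intro r
    rw [hE]
    simp only [transpose_sub, transpose_mul, transpose_smul, transpose_transpose, Matrix.sub_mul,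
      Matrix.smul_mul, Matrix.mul_assoc]
    rw [hgal]
  have hEg : ∀ r, E r * g = x r * g * al r - c • (al r * (x r * g)) := by
    intro r
    rw [hE]
    simp only [Matrix.sub_mul, Matrix.smul_mul, Matrix.mul_assoc]
    rw [hgal]
  -- `b`
  obtain ⟨b0, hb1, hb2⟩ := solve (π := π) hU hsum hρ hst hkill c⁻¹ (κ := fun r => c⁻¹ • ((E r)ᵀ * g))
    (by
      rw [← Finset.smul_sum, ← Matrix.sum_mul, ← transpose_sum]
      rw [hE]
      simp only
      rw [h0]
      simp)
    (fun r u hu => by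
      rw [hgπ] at hu
      rw [Matrix.smul_mulVec, ← mulVec_mulVec, hu, mulVec_zero, smul_zero])
    (fun r u => by
      refine hR _ ?_ u
      have h2 := congrArg transpose (h1 r)
      simp only [transpose_mul, hgs, transpose_zero] at h2
      rw [Matrix.mul_smul]
      have h3 : g * ((E r)ᵀ * g) = 0 := h2
      rw [h3, smul_zero])
  -- `kk`
  obtain ⟨k0, hk1, hk2⟩ := solve (π := π) hU hsum hρ hst hkill c (κ := fun r => E r * g)
    (by
      rw [← Matrix.sum_mul]
      rw [hE]
      simp only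
      rw [h0]
      simp)
    (fun r u hu => by
      rw [hgπ] at hu
      rw [← mulVec_mulVec, hu, mulVec_zero])
    (fun r u => by
      refine hR _ ?_ u
      have h2 := h1 r
      rw [Matrix.mul_assoc] at h2
      exact h2)
  refine ⟨ei * b0 * ej, ej * k0 * ei, ?_, ?_, ?_, ?_, ?_, ?_⟩
  · calc ei * (ei * b0 * ej) * ej = (ei * ei) * b0 * (ej * ej) := by simp only [Matrix.mul_assoc]
      _ = _ := by rw [hi, hj]
  · calc ej * (ej * k0 * ei) * ei = (ej * ej) * k0 * (ei * ei) := by simp only [Matrix.mul_assoc]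
      _ = _ := by rw [hi, hj]
  · intro u
    rw [Matrix.mul_assoc, ← mulVec_mulVec, ← mulVec_mulVec]
    exact he hig _ (hb2 _)
  · intro u
    rw [Matrix.mul_assoc, ← mulVec_mulVec, ← mulVec_mulVec]
    exact he hjg _ (hk2 _)
  · intro r
    have h2 : al r * b0 = c • (b0 * al r) - (E r)ᵀ * g := by
      rw [hb1, smul_add, smul_smul, smul_smul, mul_inv_cancel₀ hc, one_smul, one_smul]
      abel
    have h3 : al r * (ei * b0 * ej) = ei * (al r * b0) * ej := by
      rw [← Matrix.mul_assoc, ← Matrix.mul_assoc, ← hia]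
      simp only [Matrix.mul_assoc]
    have h4 : ei * b0 * ej * al r = ei * (b0 * al r) * ej := by
      rw [Matrix.mul_assoc (ei * b0), hja]
      simp only [Matrix.mul_assoc]
    have h5 : ei * ((E r)ᵀ * g) * ej = al r * ((x r)ᵀ * g) - c • ((x r)ᵀ * g * al r) := by
      rw [hEt, Matrix.mul_sub, Matrix.sub_mul, Matrix.mul_smul, Matrix.smul_mul]
      congr 1
      · rw [← Matrix.mul_assoc ei, hia, Matrix.mul_assoc (al r), Matrix.mul_assoc (al r), hxt]
      · congr 1
        rw [Matrix.mul_assoc ei, Matrix.mul_assoc _ (al r) ej, ← hja, ← Matrix.mul_assoc _ ej,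
          ← Matrix.mul_assoc ei, ← Matrix.mul_assoc ei, hxt]
    rw [Matrix.mul_add, h3, h2, Matrix.mul_sub, Matrix.sub_mul, h5, Matrix.add_mul, h4,
      Matrix.mul_smul, Matrix.smul_mul, smul_add]
    abel
  · intro r
    have h2 : k0 * al r = c • (al r * k0) + E r * g := hk1 r
    have h3 : al r * (ej * k0 * ei) = ej * (al r * k0) * ei := by
      rw [← Matrix.mul_assoc, ← Matrix.mul_assoc, ← hja]
      simp only [Matrix.mul_assoc]
    have h4 : ej * k0 * ei * al r = ej * (k0 * al r) * ei := by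
      rw [Matrix.mul_assoc (ej * k0), hia]
      simp only [Matrix.mul_assoc]
    have h5 : ej * (E r * g) * ei = x r * g * al r - c • (al r * (x r * g)) := by
      rw [hEg, Matrix.mul_sub, Matrix.sub_mul, Matrix.mul_smul, Matrix.smul_mul]
      congr 1
      · rw [Matrix.mul_assoc ej, Matrix.mul_assoc _ (al r) ei, ← hia, ← Matrix.mul_assoc _ ei,
          ← Matrix.mul_assoc ej, ← Matrix.mul_assoc ej, hxg]
      · congr 1
        rw [← Matrix.mul_assoc ej, hja, Matrix.mul_assoc (al r), Matrix.mul_assoc (al r), hxg]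
    rw [Matrix.sub_mul, h4, h2, Matrix.mul_add, Matrix.add_mul, h5, Matrix.mul_sub, h3,
      Matrix.mul_smul, Matrix.smul_mul, smul_sub]
    abel

end Crest.Agent.R172.HexS
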