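import Mathlib

/-!
Row 172: kernel of a linear pencil.  For linear maps `al be : Y → G` (`Y` finite dimensional) and
all `c` outside a finite set, every solution of `al y = c • be y` is the value at `c` of a
polynomial solution `∑ X^k Z_k`, i.e. of a chain `al Z_0 = 0`, `al Z_(k+1) = be Z_k`.
-/

set_option autoImplicit false
set_option linter.unusedSectionVars false

namespace Crest.Agent.R172.Pencil

open Module Polynomial Finset

variable {K Y G : Type*} [Field K] [AddCommGroup Y] [Module K Y] [AddCommGroup G] [Module K G]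

/-- shifted polynomial values: `P_k = (p / X^k)(T)` -/
noncomputable def PP (p : K[X]) (T : End K G) (k : ℕ) : End K G := aeval T (divX^[k] p)

theorem coeff_iter (p : K[X]) (k j : ℕ) : (divX^[k] p).coeff j = p.coeff (j + k) := by
  induction k generalizing j with
  | zero => rfl
  | succ k ih => rw [Function.iterate_succ_apply', coeff_divX, ih]; congr 1; omega

theorem PP_zero (p : K[X]) (T : End K G) : PP p T 0 = aeval T p := rfl

theorem PP_step (p : K[X]) (T : End K G) (k : ℕ) :
    PP p T k = T * PP p T (k + 1) + p.coeff k • (1 : End K G) := by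
  have h := (divX_mul_X_add (divX^[k] p)).symm
  have h2 := congrArg (aeval T) h
  rw [mul_comm, map_add, map_mul, aeval_X, aeval_C, coeff_iter, Nat.zero_add,
    Algebra.algebraMap_eq_smul_one] at h2
  rw [PP, h2, PP, Function.iterate_succ_apply']

theorem PP_comm (p : K[X]) (T : End K G) (k : ℕ) : PP p T k * T = T * PP p T k := by
  have h : (divX^[k] p) * X = X * (divX^[k] p) := mul_comm _ _
  have h2 := congrArg (aeval T) h
  rwa [map_mul, map_mul, aeval_X] at h2

theorem PP_large (p : K[X]) (T : End K G) {k : ℕ} (hk : p.natDegree < k) : PP p T k = 0 := by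
  have : divX^[k] p = 0 := by
    ext j
    rw [coeff_iter, coeff_zero]
    exact coeff_eq_zero_of_natDegree_lt (by omega)
  rw [PP, this, map_zero]

/-- `∑_{k<n} c^k P_(k+1) (c - T) = p(c)` if `P_0 = 0 = P_n` -/
theorem sum_PP (p : K[X]) (T : End K G) (c : K) (g : G) (n : ℕ) :
    ∑ k ∈ range n, c ^ k • PP p T (k + 1) (c • g - T g) =
      c ^ n • PP p T n g - PP p T 0 g + (∑ k ∈ range n, c ^ k * p.coeff k) • g := by
  induction n with
  | zero => simp
  | succ n ih =>
    rw [sum_range_succ, ih, sum_range_succ, add_smul]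
    have h1 : PP p T (n + 1) (T g) = PP p T n g - p.coeff n • g := by
      have h2 := congrArg (fun A : End K G => A g) (PP_step p T n)
      have h3 := congrArg (fun A : End K G => A g) (PP_comm p T (n + 1))
      simp only [LinearMap.add_apply, Module.End.mul_apply, LinearMap.smul_apply,
        Module.End.one_apply] at h2 h3
      rw [h3, h2, add_sub_cancel_right]
    rw [map_sub, map_smul, h1, smul_sub, smul_sub, smul_smul, smul_smul, ← pow_succ]
    abel

/-- **pencil, surjective case** -/
theorem pencil_surj [FiniteDimensional K G] (al be : Y →ₗ[K] G) (hbe : Function.Surjective be) :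
    ∃ S : Set K, S.Finite ∧ ∃ n : ℕ, ∀ c ∉ S, ∀ y, al y = c • be y →
      ∃ Z : ℕ → Y, al (Z 0) = 0 ∧ (∀ k, al (Z (k + 1)) = be (Z k)) ∧ (∀ k, n ≤ k → Z k = 0) ∧
        y = ∑ k ∈ range n, c ^ k • Z k := by
  obtain ⟨b, hb⟩ := be.exists_rightInverse_of_surjective (LinearMap.range_eq_top.2 hbe)
  have hb' : ∀ g, be (b g) = g := fun g => by
    have := congrArg (fun A : G →ₗ[K] G => A g) hb
    exact this
  set T : End K G := al ∘ₗ b with hT
  set p := T.charpoly with hp
  have hp0 : PP p T 0 = 0 := by rw [PP_zero]; exact T.aeval_self_charpoly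
  have hpne : p ≠ 0 := T.charpoly_monic.ne_zero
  refine ⟨{c | p.IsRoot c}, p.finite_setOfPred_isRoot hpne, p.natDegree + 1, ?_⟩
  intro c hc y hy
  have hc' : p.eval c ≠ 0 := hc
  set g := be y with hg
  set z := y - b g with hz
  have hbz : be z = 0 := by rw [hz, map_sub, hb', sub_self]
  have hTg : c • g - T g = al z := by
    rw [hz, map_sub, hy]; rfl
  let q := (p.eval c)⁻¹
  let Z : ℕ → Y := fun k => q • (p.coeff k • z + b (PP p T (k + 1) (al z)))
  have hal : ∀ k, al (Z k) = q • PP p T k (al z) := by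
    intro k
    change al (q • (p.coeff k • z + b (PP p T (k + 1) (al z)))) = _
    rw [map_smul, map_add, map_smul, PP_step p T k, add_comm]
    rfl
  have hbek : ∀ k, be (Z k) = q • PP p T (k + 1) (al z) := by
    intro k
    change be (q • (p.coeff k • z + b (PP p T (k + 1) (al z)))) = _
    rw [map_smul, map_add, map_smul, hbz, smul_zero, zero_add, hb']
  refine ⟨Z, ?_, ?_, ?_, ?_⟩
  · rw [hal, hp0, LinearMap.zero_apply, smul_zero]
  · intro k; rw [hal, hbek]
  · intro k hk
    change q • (p.coeff k • z + b (PP p T (k + 1) (al z))) = 0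
    rw [coeff_eq_zero_of_natDegree_lt (by omega), PP_large p T (by omega), zero_smul,
      LinearMap.zero_apply, map_zero, add_zero, smul_zero]
  · have hsum : ∑ k ∈ range (p.natDegree + 1), c ^ k * p.coeff k = p.eval c := by
      rw [eval_eq_sum_range]
      exact sum_congr rfl fun k _ => mul_comm _ _
    have h1 := sum_PP p T c g (p.natDegree + 1)
    rw [hTg, hp0, PP_large p T (Nat.lt_succ_self _), hsum] at h1
    simp only [LinearMap.zero_apply, smul_zero, sub_zero, zero_add] at h1
    have h2 : ∑ k ∈ range (p.natDegree + 1), c ^ k • Z k =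
        q • ((∑ k ∈ range (p.natDegree + 1), c ^ k * p.coeff k) • z +
          b (∑ k ∈ range (p.natDegree + 1), c ^ k • PP p T (k + 1) (al z))) := by
      rw [map_sum, sum_smul, ← sum_add_distrib, smul_sum]
      refine sum_congr rfl fun k _ => ?_
      change c ^ k • (q • (p.coeff k • z + b (PP p T (k + 1) (al z)))) = _
      rw [smul_comm, map_smul, smul_add, smul_smul (c ^ k)]
    rw [h2, hsum, h1, map_smul, ← smul_add, smul_smul, inv_mul_cancel₀ hc', one_smul, hz,
      sub_add_cancel]

/-- **pencil lemma** -/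
theorem pencil [FiniteDimensional K Y] (al be : Y →ₗ[K] G) :
    ∃ S : Set K, S.Finite ∧ ∃ n : ℕ, ∀ c ∉ S, ∀ y, al y = c • be y →
      ∃ Z : ℕ → Y, al (Z 0) = 0 ∧ (∀ k, al (Z (k + 1)) = be (Z k)) ∧ (∀ k, n ≤ k → Z k = 0) ∧
        y = ∑ k ∈ range n, c ^ k • Z k := by
  classical
  -- span of all kernels
  let V : Submodule K Y := ⨆ c : {c : K // c ≠ 0}, LinearMap.ker (al - (c : K) • be)
  have hle : V ≤ (V.map be).comap al := by
    refine iSup_le fun c y hy => ?_
    rw [LinearMap.mem_ker, LinearMap.sub_apply, LinearMap.smul_apply, sub_eq_zero] at hy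
    rw [Submodule.mem_comap, hy]
    refine Submodule.smul_mem _ _ (Submodule.mem_map_of_mem ?_)
    refine Submodule.mem_iSup_of_mem c ?_
    rw [LinearMap.mem_ker, LinearMap.sub_apply, LinearMap.smul_apply, sub_eq_zero, hy]
  let al' : V →ₗ[K] V.map be := al.restrict (fun y hy => hle hy)
  let be' : V →ₗ[K] V.map be := be.restrict (fun y hy => Submodule.mem_map_of_mem hy)
  have hsurj : Function.Surjective be' := by
    rintro ⟨g, hg⟩
    obtain ⟨y, hy, rfl⟩ := hg
    exact ⟨⟨y, hy⟩, rfl⟩
  obtain ⟨S, hS, n, h⟩ := pencil_surj al' be' hsurj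
  refine ⟨S ∪ {0}, hS.union (Set.finite_singleton 0), n, ?_⟩
  intro c hc y hy
  have hcS : c ∉ S := fun h => hc (Or.inl h)
  have hc0 : c ≠ 0 := fun h => hc (Or.inr h)
  have hyV : y ∈ V := by
    refine Submodule.mem_iSup_of_mem ⟨c, hc0⟩ ?_
    rw [LinearMap.mem_ker, LinearMap.sub_apply, LinearMap.smul_apply, sub_eq_zero, hy]
  obtain ⟨Z, h1, h2, h3, h4⟩ := h c hcS ⟨y, hyV⟩ (Subtype.ext hy)
  refine ⟨fun k => (Z k : Y), congrArg Subtype.val h1, fun k => congrArg Subtype.val (h2 k),
    fun k hk => congrArg Subtype.val (h3 k hk), ?_⟩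
  have h5 := congrArg Subtype.val h4
  simpa using h5

/-- **pencil lemma**, parameter `c = r ^ 2`: chains `al Z_(k+2) = be Z_k` -/
theorem pencil_sq [FiniteDimensional K Y] (al be : Y →ₗ[K] G) :
    ∃ S : Set K, S.Finite ∧ ∃ n : ℕ, ∀ r : K, r ^ 2 ∉ S → ∀ y, al y = r ^ 2 • be y →
      ∃ Z : ℕ → Y, al (Z 0) = 0 ∧ al (Z 1) = 0 ∧ (∀ k, al (Z (k + 2)) = be (Z k)) ∧
        (∀ k, n ≤ k → Z k = 0) ∧ y = ∑ k ∈ range n, r ^ k • Z k := by
  obtain ⟨S, hS, n, h⟩ := pencil al be
  refine ⟨S, hS, 2 * n, fun r hr y hy => ?_⟩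
  obtain ⟨Z, h1, h2, h3, h4⟩ := h _ hr y hy
  refine ⟨fun k => if k % 2 = 0 then Z (k / 2) else 0, ?_, ?_, ?_, ?_, ?_⟩
  · simpa using h1
  · simp
  · intro k
    by_cases hk : k % 2 = 0
    · have e1 : (k + 2) % 2 = 0 := by omega
      have e2 : (k + 2) / 2 = k / 2 + 1 := by omega
      simp only [hk, e1, e2, if_true]
      exact h2 _
    · have e1 : ¬ (k + 2) % 2 = 0 := by omega
      simp only [hk, e1, if_false, map_zero]
  · intro k hk
    by_cases hk2 : k % 2 = 0
    · simp only [hk2, if_true]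
      exact h3 _ (by omega)
    · simp only [hk2, if_false]
  · rw [h4]
    have key : ∀ m : ℕ, ∑ k ∈ range (2 * m), r ^ k • (if k % 2 = 0 then Z (k / 2) else 0) =
        ∑ k ∈ range m, (r ^ 2) ^ k • Z k := by
      intro m
      induction m with
      | zero => simp
      | succ m ih =>
        rw [show 2 * (m + 1) = 2 * m + 1 + 1 by ring, sum_range_succ, sum_range_succ, ih,
          sum_range_succ]
        have e1 : (2 * m) % 2 = 0 := by omega
        have e2 : ¬ (2 * m + 1) % 2 = 0 := by omega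
        have e3 : (2 * m) / 2 = m := by omega
        rw [if_pos e1, if_neg e2, e3, smul_zero, add_zero, pow_mul]
    exact (key n).symm

end Crest.Agent.R172.Pencil
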