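import Crest.Agent.R172.NV
import Crest.Agent.R172.Pencil

/-!
Row 172, TAME (T0), arbitrary radical and non-semisimple `D`: transfer of the EXISTENCE of the
decorations (the corrections `b`) from the operator level to scalar `c`.
-/

set_option maxHeartbeats 400000
set_option autoImplicit false

namespace Crest.Agent.R172.HexT

open Finset Module

variable {K : Type*} [Field K] {X T B H : Type*} [AddCommGroup X] [Module K X]
  [AddCommGroup T] [Module K T] [AddCommGroup B] [Module K B] [AddCommGroup H] [Module K H]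

/-- operators compatible with the relation `L0 Y = L1 Z` -/
def RC (L0 L1 : X →ₗ[K] T) (p : End K X) : Prop := ∀ Y Z, L0 Y = L1 Z → L0 (p Y) = L1 (p Z)

theorem RC.one (L0 L1 : X →ₗ[K] T) : RC L0 L1 1 := fun _ _ h => h

theorem RC.mul {L0 L1 : X →ₗ[K] T} {p q : End K X} (hp : RC L0 L1 p) (hq : RC L0 L1 q) :
    RC L0 L1 (p * q) := fun Y Z h => hp _ _ (hq _ _ h)

theorem RC.pow {L0 L1 : X →ₗ[K] T} {p : End K X} (hp : RC L0 L1 p) (n : ℕ) :
    RC L0 L1 (p ^ n) := by
  induction n with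
  | zero => rw [pow_zero]; exact RC.one _ _
  | succ n ih => rw [pow_succ]; exact ih.mul hp

theorem RC.add {L0 L1 : X →ₗ[K] T} {p q : End K X} (hp : RC L0 L1 p) (hq : RC L0 L1 q) :
    RC L0 L1 (p + q) := by
  intro Y Z h
  rw [LinearMap.add_apply, LinearMap.add_apply, map_add, map_add, hp _ _ h, hq _ _ h]

theorem RC.smul {L0 L1 : X →ₗ[K] T} {p : End K X} (hp : RC L0 L1 p) (c : K) :
    RC L0 L1 (c • p) := by
  intro Y Z h
  rw [LinearMap.smul_apply, LinearMap.smul_apply, map_smul, map_smul, hp _ _ h]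

/-- equivariance -/
def EQ (M : B →ₗ[K] H) (pB : End K B) (pH : End K H) : Prop := ∀ b, M (pB b) = pH (M b)

theorem EQ.one (M : B →ₗ[K] H) : EQ M 1 1 := fun _ => rfl

theorem EQ.mul {M : B →ₗ[K] H} {pB qB : End K B} {pH qH : End K H} (h : EQ M pB pH)
    (h' : EQ M qB qH) : EQ M (pB * qB) (pH * qH) := by
  intro b
  rw [End.mul_apply, End.mul_apply, h, h']

theorem EQ.pow {M : B →ₗ[K] H} {pB : End K B} {pH : End K H} (h : EQ M pB pH) (n : ℕ) :
    EQ M (pB ^ n) (pH ^ n) := by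
  induction n with
  | zero => rw [pow_zero, pow_zero]; exact EQ.one _
  | succ n ih => rw [pow_succ, pow_succ]; exact ih.mul h

theorem EQ.add {M : B →ₗ[K] H} {pB qB : End K B} {pH qH : End K H} (h : EQ M pB pH)
    (h' : EQ M qB qH) : EQ M (pB + qB) (pH + qH) := by
  intro b
  rw [LinearMap.add_apply, LinearMap.add_apply, map_add, h, h']

theorem EQ.smul {M : B →ₗ[K] H} {pB : End K B} {pH : End K H} (h : EQ M pB pH) (c : K) :
    EQ M (c • pB) (c • pH) := by
  intro b
  rw [LinearMap.smul_apply, LinearMap.smul_apply, map_smul, h]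

theorem qp {p q : End K X} (h : Commute p q) (a b c d : ℕ) :
    q ^ a * p ^ b * (q ^ c * p ^ d) = q ^ (a + c) * p ^ (b + d) := by
  rw [mul_assoc, ← mul_assoc (p ^ b), (h.pow_pow b c).eq, mul_assoc, ← pow_add, ← mul_assoc,
    ← pow_add]

theorem qp1 {p q : End K X} (h : Commute p q) (a b : ℕ) :
    q ^ a * p ^ b * p = q ^ a * p ^ (b + 1) := by
  rw [mul_assoc, ← pow_succ]

theorem qp2 {p q : End K X} (h : Commute p q) (a b : ℕ) :
    q ^ a * p ^ b * q = q ^ (a + 1) * p ^ b := by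
  rw [mul_assoc, (h.pow_left b).eq, ← mul_assoc, ← pow_succ]

/-- **fixed `t`** -/
theorem lemA {L0 L1 : X →ₗ[K] T} {M0 M1 : B →ₗ[K] H} {N0 N1 : X →ₗ[K] H}
    {p q : End K X} {pB qB : End K B} {pH qH : End K H}
    (hc : Commute p q) (hcB : Commute pB qB) (hpL : RC L0 L1 p) (hqL : RC L0 L1 q)
    (hM0p : EQ M0 pB pH) (hM0q : EQ M0 qB qH) (hM1p : EQ M1 pB pH) (hM1q : EQ M1 qB qH)
    (hN0p : EQ N0 p pH) (hN0q : EQ N0 q qH) (hN1p : EQ N1 p pH) (hN1q : EQ N1 q qH)
    (hex : ∀ x, L0 (p x) = L1 (q x) → ∃ b, M0 (pB b) - M1 (qB b) = N0 (p x) - N1 (q x))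
    {Y : ℕ → X} {n : ℕ} (hY0 : L0 (Y 0) = 0) (hY : ∀ k, L0 (Y (k + 1)) = L1 (Y k))
    (hYn : ∀ k, n ≤ k → Y k = 0)
    {φ : ℕ → Dual K H} {m : ℕ} (hφ0 : ∀ b, φ 0 (M0 b) = 0)
    (hφ : ∀ j b, φ (j + 1) (M0 b) = φ j (M1 b)) (hφm : ∀ j, m ≤ j → φ j = 0) :
    ∑ j ∈ range m, ∑ k ∈ range n,
      (φ j (N0 ((q ^ (j + k) * p ^ (m + n + 1 - (j + k))) (Y k))) -
        φ j (N1 ((q ^ (j + k + 1) * p ^ (m + n + 1 - (j + k + 1))) (Y k)))) = 0 := by
  obtain ⟨x, hx⟩ : ∃ x, x = ∑ k ∈ range n, (q ^ k * p ^ (n - k)) (Y k) := ⟨_, rfl⟩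
  have hx1 : L0 (p x) = L1 (q x) := by
    rw [← sub_eq_zero, hx, map_sum, map_sum, map_sum, map_sum, ← sum_sub_distrib]
    have h1 : ∀ k ∈ range n, L0 (p ((q ^ k * p ^ (n - k)) (Y k))) -
        L1 (q ((q ^ k * p ^ (n - k)) (Y k))) =
        L0 ((q ^ k * p ^ (n + 1 - k)) (Y k)) -
          L0 ((q ^ (k + 1) * p ^ (n + 1 - (k + 1))) (Y (k + 1))) := by
      intro k hk
      have hk' := mem_range.1 hk
      have e1 : p ((q ^ k * p ^ (n - k)) (Y k)) = (q ^ k * p ^ (n + 1 - k)) (Y k) := by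
        rw [← End.mul_apply, ← mul_assoc, (hc.pow_right k).eq, mul_assoc, ← pow_succ',
          show n - k + 1 = n + 1 - k by omega]
      have e2 : q ((q ^ k * p ^ (n - k)) (Y k)) = (q ^ (k + 1) * p ^ (n + 1 - (k + 1))) (Y k) := by
        rw [← End.mul_apply, ← mul_assoc, ← pow_succ', show n + 1 - (k + 1) = n - k by omega]
      rw [e1, e2, ((hqL.pow (k + 1)).mul (hpL.pow (n + 1 - (k + 1)))) _ _ (hY k)]
    rw [sum_congr rfl h1, sum_range_sub' (fun k => L0 ((q ^ k * p ^ (n + 1 - k)) (Y k))) n,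
      hYn n le_rfl, map_zero, map_zero, sub_zero]
    have h2 := ((hqL.pow 0).mul (hpL.pow (n + 1 - 0))) (Y 0) 0 (by rw [hY0, map_zero])
    rw [h2, map_zero, map_zero]
  obtain ⟨b, hb⟩ := hex x hx1
  have hL : ∑ j ∈ range m, φ j ((qH ^ j * pH ^ (m - j)) (M0 (pB b) - M1 (qB b))) = 0 := by
    have h1 : ∀ j ∈ range m, φ j ((qH ^ j * pH ^ (m - j)) (M0 (pB b) - M1 (qB b))) =
        φ j (M0 ((qB ^ j * pB ^ (m + 1 - j)) b)) -
          φ (j + 1) (M0 ((qB ^ (j + 1) * pB ^ (m + 1 - (j + 1))) b)) := by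
      intro j hj
      have hj' := mem_range.1 hj
      rw [map_sub, map_sub, hφ, ← ((hM0q.pow j).mul (hM0p.pow (m - j))) (pB b),
        ← ((hM1q.pow j).mul (hM1p.pow (m - j))) (qB b), ← End.mul_apply, qp1 hcB,
        ← End.mul_apply, qp2 hcB, show m - j + 1 = m + 1 - j by omega,
        show m + 1 - (j + 1) = m - j by omega]
    rw [sum_congr rfl h1,
      sum_range_sub' (fun j => φ j (M0 ((qB ^ j * pB ^ (m + 1 - j)) b))) m, hφ0,
      hφm m le_rfl, LinearMap.zero_apply, sub_zero]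
  rw [← hL, hb]
  refine sum_congr rfl fun j hj => ?_
  have hj' := mem_range.1 hj
  rw [map_sub, map_sub, ← ((hN0q.pow j).mul (hN0p.pow (m - j))) (p x),
    ← ((hN1q.pow j).mul (hN1p.pow (m - j))) (q x), ← End.mul_apply, qp1 hc, ← End.mul_apply,
    qp2 hc, hx, map_sum, map_sum, map_sum, map_sum, map_sum, map_sum, ← sum_sub_distrib]
  refine sum_congr rfl fun k hk => ?_
  have hk' := mem_range.1 hk
  rw [← End.mul_apply, qp hc, ← End.mul_apply, qp hc,
    show m - j + 1 + (n - k) = m + n + 1 - (j + k) by omega,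
    show j + 1 + k = j + k + 1 by omega,
    show m - j + (n - k) = m + n + 1 - (j + k + 1) by omega]

/-- pointwise action on sequences -/
def pw : End K X →ₐ[K] End K (ℕ → X) where
  toFun a :=
    { toFun := fun Y k => a (Y k)
      map_add' := fun Y Z => by funext k; simp
      map_smul' := fun c Y => by funext k; simp }
  map_one' := rfl
  map_mul' _ _ := rfl
  map_zero' := rfl
  map_add' _ _ := rfl
  commutes' r := by
    ext Y k
    simp [Module.algebraMap_end_apply]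

theorem pw_apply (a : End K X) (Y : ℕ → X) (k : ℕ) : pw a Y k = a (Y k) := rfl

/-- the operator `1 + t (la + N)` -/
def cc (t la : K) (N : End K X) : End K X := (1 + t * la) • (1 : End K X) + t • N

theorem cc_commute {N N' : End K X} (h : Commute N N') (t la la' : K) :
    Commute (cc t la N) (cc t la' N') := by
  unfold cc
  refine Commute.add_left (Commute.smul_left (Commute.one_left _) _) (Commute.smul_left ?_ _)
  exact Commute.add_right (Commute.smul_right (Commute.one_right _) _) (Commute.smul_right h _)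

theorem RC.cc {L0 L1 : X →ₗ[K] T} {N : End K X} (h : RC L0 L1 N) (t la : K) :
    RC L0 L1 (cc t la N) := ((RC.one L0 L1).smul _).add (h.smul t)

theorem EQ.cc {M : B →ₗ[K] H} {N : End K B} {N' : End K H} (h : EQ M N N') (t la : K) :
    EQ M (cc t la N) (cc t la N') := ((EQ.one M).smul _).add (h.smul t)

section Main

variable [FiniteDimensional K X] [FiniteDimensional K H]

/-- `F_N` -/
def FN (N0 N1 : X →ₗ[K] H) (φ : ℕ → Dual K H) (m n N : ℕ) : (ℕ → X) →ₗ[K] K :=
  ∑ j ∈ range m, ∑ k ∈ range n,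
    ((if j + k = N then φ j ∘ₗ N0 else 0) - (if j + k + 1 = N then φ j ∘ₗ N1 else 0)) ∘ₗ
      LinearMap.proj k

theorem sum_FN (N0 N1 : X →ₗ[K] H) (φ : ℕ → Dual K H) (m n : ℕ) (a : ℕ → End K X) (Y : ℕ → X) :
    ∑ N : Fin (m + n + 2), FN N0 N1 φ m n N (pw (a N) Y) =
      ∑ j ∈ range m, ∑ k ∈ range n,
        (φ j (N0 (a (j + k) (Y k))) - φ j (N1 (a (j + k + 1) (Y k)))) := by
  rw [Fin.sum_univ_eq_sum_range (fun N => FN N0 N1 φ m n N (pw (a N) Y)) (m + n + 2)]
  unfold FN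
  simp only [LinearMap.sum_apply]
  rw [sum_comm]
  refine sum_congr rfl fun j hj => ?_
  rw [sum_comm]
  refine sum_congr rfl fun k hk => ?_
  have hj' := mem_range.1 hj
  have hk' := mem_range.1 hk
  have h1 : ∀ N ∈ range (m + n + 2),
      (((if j + k = N then φ j ∘ₗ N0 else 0) - (if j + k + 1 = N then φ j ∘ₗ N1 else 0)) ∘ₗ
        (LinearMap.proj k : (ℕ → X) →ₗ[K] X)) (pw (a N) Y) =
      (if j + k = N then φ j (N0 (a N (Y k))) else 0) -
        (if j + k + 1 = N then φ j (N1 (a N (Y k))) else 0) := by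
    intro N _
    rw [LinearMap.comp_apply, LinearMap.proj_apply, pw_apply, LinearMap.sub_apply]
    congr 1
    · split_ifs <;> rfl
    · split_ifs <;> rfl
  rw [sum_congr rfl h1, sum_sub_distrib, sum_ite_eq, sum_ite_eq,
    if_pos (mem_range.2 (by omega)), if_pos (mem_range.2 (by omega))]

/-- **Transfer of the existence of decorations.** -/
theorem hex_transfer (L0 L1 : X →ₗ[K] T) (M0 M1 : B →ₗ[K] H) (N0 N1 : X →ₗ[K] H)
    (aX bX : End K X) (aB bB : End K B) (aH bH : End K H)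
    (hX : Commute aX bX) (hB : Commute aB bB) (haX : IsNilpotent aX) (hbX : IsNilpotent bX)
    (hLa : ∀ Y Z, L0 Y = L1 Z → L0 (aX Y) = L1 (aX Z))
    (hLb : ∀ Y Z, L0 Y = L1 Z → L0 (bX Y) = L1 (bX Z))
    (hM0a : ∀ b, M0 (aB b) = aH (M0 b)) (hM0b : ∀ b, M0 (bB b) = bH (M0 b))
    (hM1a : ∀ b, M1 (aB b) = aH (M1 b)) (hM1b : ∀ b, M1 (bB b) = bH (M1 b))
    (hN0a : ∀ x, N0 (aX x) = aH (N0 x)) (hN0b : ∀ x, N0 (bX x) = bH (N0 x))
    (hN1a : ∀ x, N1 (aX x) = aH (N1 x)) (hN1b : ∀ x, N1 (bX x) = bH (N1 x))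
    {la1 la2 : K} (hla : la1 ≠ la2) (𝒯 : Set K) (h𝒯 : 𝒯.Infinite)
    (h1 : ∀ t ∈ 𝒯, 1 + t * la1 ≠ 0)
    (hex : ∀ t ∈ 𝒯, ∀ x, L0 (cc t la1 bX (cc t la1 bX x)) = L1 (cc t la2 aX (cc t la2 aX x)) →
      ∃ b, M0 (cc t la1 bB (cc t la1 bB b)) - M1 (cc t la2 aB (cc t la2 aB b)) =
        N0 (cc t la1 bX (cc t la1 bX x)) - N1 (cc t la2 aX (cc t la2 aX x))) :
    ∃ S : Set K, S.Finite ∧ ∀ c ∉ S, ∀ x, L0 x = c • L1 x →
      ∃ b, M0 b - c • M1 b = N0 x - c • N1 x := by
  classical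
  obtain ⟨S1, hS1, n, hp1⟩ := Pencil.pencil L0 L1
  obtain ⟨S2, hS2, m, hp2⟩ := Pencil.pencil M0.dualMap M1.dualMap
  refine ⟨S1 ∪ S2, hS1.union hS2, fun c hc x hx => ?_⟩
  obtain ⟨Y, hY0, hY, hYn, hYx⟩ := hp1 c (fun h => hc (Or.inl h)) x hx
  suffices hmem : N0 x - c • N1 x ∈ LinearMap.range (M0 - c • M1) by
    obtain ⟨b, hb⟩ := hmem
    exact ⟨b, by rw [← hb]; rfl⟩
  rw [← Submodule.Quotient.mk_eq_zero, ← Module.forall_dual_apply_eq_zero_iff K]
  intro ψ
  obtain ⟨φ', hφ'⟩ : ∃ φ' : Dual K H, φ' = ψ ∘ₗ (LinearMap.range (M0 - c • M1)).mkQ := ⟨_, rfl⟩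
  have hψ : ψ (Submodule.Quotient.mk (N0 x - c • N1 x)) = φ' (N0 x - c • N1 x) := by
    rw [hφ']; rfl
  have hφc : M0.dualMap φ' = c • M1.dualMap φ' := by
    ext b
    have : φ' ((M0 - c • M1) b) = 0 := by
      rw [hφ', LinearMap.comp_apply, Submodule.mkQ_apply,
        (Submodule.Quotient.mk_eq_zero _).2 (LinearMap.mem_range_self _ b), map_zero]
    rw [LinearMap.sub_apply, LinearMap.smul_apply, map_sub, map_smul, sub_eq_zero] at this
    rw [LinearMap.smul_apply, LinearMap.dualMap_apply, LinearMap.dualMap_apply, this]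
  obtain ⟨φ, hφ0, hφ, hφm, hφx⟩ := hp2 c (fun h => hc (Or.inr h)) φ' hφc
  have hφ0' : ∀ b, φ 0 (M0 b) = 0 := fun b => by
    have := LinearMap.congr_fun hφ0 b
    simpa using this
  have hφ1' : ∀ j b, φ (j + 1) (M0 b) = φ j (M1 b) := fun j b => by
    have := LinearMap.congr_fun (hφ j) b
    simpa using this
  -- the coefficients
  have hcoef : ∀ N : Fin (m + n + 2), FN N0 N1 φ m n N Y = 0 := by
    let Ch : Submodule K (ℕ → X) :=
      { carrier := {Y | L0 (Y 0) = 0 ∧ (∀ k, L0 (Y (k + 1)) = L1 (Y k)) ∧ ∀ k, n ≤ k → Y k = 0}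
        add_mem' := by
          rintro Y Z ⟨a1, a2, a3⟩ ⟨b1, b2, b3⟩
          refine ⟨?_, fun k => ?_, fun k hk => ?_⟩
          · rw [Pi.add_apply, map_add, a1, b1, add_zero]
          · rw [Pi.add_apply, map_add, a2, b2, Pi.add_apply, map_add]
          · rw [Pi.add_apply, a3 k hk, b3 k hk, add_zero]
        zero_mem' := ⟨by simp, fun k => by simp, fun k _ => rfl⟩
        smul_mem' := by
          rintro c Y ⟨a1, a2, a3⟩
          refine ⟨?_, fun k => ?_, fun k hk => ?_⟩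
          · rw [Pi.smul_apply, map_smul, a1, smul_zero]
          · rw [Pi.smul_apply, map_smul, a2, Pi.smul_apply, map_smul]
          · rw [Pi.smul_apply, a3 k hk, smul_zero] }
    have hChop : ∀ a : End K X, RC L0 L1 a → ∀ Y ∈ Ch, pw a Y ∈ Ch := by
      rintro a ha Y ⟨a1, a2, a3⟩
      refine ⟨?_, fun k => ?_, fun k hk => ?_⟩
      · have := ha (Y 0) 0 (by rw [a1, map_zero])
        rw [pw_apply, this, map_zero, map_zero]
      · exact ha _ _ (a2 k)
      · rw [pw_apply, a3 k hk, map_zero]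
    let SS : Submodule K (Fin (m + n + 2) → (ℕ → X)) :=
      { carrier := {w | ∃ Y ∈ Ch, ∀ N, w N = Y}
        add_mem' := by
          rintro w w' ⟨Y, hY, h⟩ ⟨Y', hY', h'⟩
          exact ⟨Y + Y', Ch.add_mem hY hY', fun N => by rw [Pi.add_apply, h, h']⟩
        zero_mem' := ⟨0, Ch.zero_mem, fun _ => rfl⟩
        smul_mem' := by
          rintro c w ⟨Y, hY, h⟩
          exact ⟨c • Y, Ch.smul_mem c hY, fun N => by rw [Pi.smul_apply, h]⟩ }
    have hsep := NV.sep (K := K) (κ := Fin (m + n + 2)) (al := pw aX) (be := pw bX)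
      (by rw [Commute, SemiconjBy, ← map_mul, ← map_mul, hX.eq]) (haX.map _) (hbX.map _) SS
      (by
        rintro w ⟨Y, hY, h⟩
        exact ⟨pw aX Y, hChop aX hLa Y hY, fun N => by simp only [h]⟩)
      (by
        rintro w ⟨Y, hY, h⟩
        exact ⟨pw bX Y, hChop bX hLb Y hY, fun N => by simp only [h]⟩)
      (fun N => FN N0 N1 φ m n N) (⊥ : Submodule K K) 𝒯
      (fun t N => pw ((cc t la2 aX * cc t la2 aX) ^ (N : ℕ) *
        (cc t la1 bX * cc t la1 bX) ^ (m + n + 1 - (N : ℕ))))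
      (fun t N => ((1 + t * la2) * (1 + t * la2)) ^ (N : ℕ) *
        ((1 + t * la1) * (1 + t * la1)) ^ (m + n + 1 - (N : ℕ)))
    have hcomm : Commute (pw aX) (pw bX) := by
      rw [Commute, SemiconjBy, ← map_mul, ← map_mul, hX.eq]
    have hres := hsep ?_ ?_ ?_ (fun _ => Y) ⟨Y, ⟨hY0, hY, hYn⟩, fun _ => rfl⟩
    · intro N
      have := hres N
      rwa [Submodule.mem_bot] at this
    · -- scalar part
      intro t _ N
      have e1 : pw (cc t la1 bX) - (1 + t * la1) • (1 : End K (ℕ → X)) ∈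
          NV.Mon (pw aX) (pw bX) 1 := by
        have : pw (cc t la1 bX) - (1 + t * la1) • (1 : End K (ℕ → X)) =
            t • ((pw aX) ^ 0 * (pw bX) ^ 1) := by
          unfold cc
          rw [map_add, map_smul, map_smul, map_one, pow_zero, pow_one, one_mul,
            add_sub_cancel_left]
        rw [this]
        exact Submodule.smul_mem _ _ (NV.mon_mem _ _ (by omega))
      have e2 : pw (cc t la2 aX) - (1 + t * la2) • (1 : End K (ℕ → X)) ∈
          NV.Mon (pw aX) (pw bX) 1 := by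
        have : pw (cc t la2 aX) - (1 + t * la2) • (1 : End K (ℕ → X)) =
            t • ((pw aX) ^ 1 * (pw bX) ^ 0) := by
          unfold cc
          rw [map_add, map_smul, map_smul, map_one, pow_zero, pow_one, mul_one,
            add_sub_cancel_left]
        rw [this]
        exact Submodule.smul_mem _ _ (NV.mon_mem _ _ (by omega))
      rw [map_mul, map_pow, map_pow, map_mul, map_mul]
      exact NV.mul_sub_mem hcomm (NV.pow_sub_mem hcomm (NV.mul_sub_mem hcomm e2 e2) _)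
        (NV.pow_sub_mem hcomm (NV.mul_sub_mem hcomm e1 e1) _)
    · -- Vandermonde
      intro v hv
      have hinj : Set.InjOn (fun t => (1 + t * la2) / (1 + t * la1)) 𝒯 := by
        intro s hs t ht hst
        simp only at hst
        rw [div_eq_div_iff (h1 s hs) (h1 t ht)] at hst
        have h2 : (s - t) * (la2 - la1) = 0 := by linear_combination hst
        rcases mul_eq_zero.1 h2 with h3 | h3
        · exact sub_eq_zero.1 h3
        · exact absurd (sub_eq_zero.1 h3).symm hla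
      refine NV.vand_nat (e := fun N : Fin (m + n + 2) => 2 * (N : ℕ)) (⊥ : Submodule K K)
        (h𝒯.image hinj) (fun a b hab => Fin.ext (by simp only at hab; omega)) v ?_
      rintro _ ⟨t, ht, rfl⟩
      have h2 := hv t ht
      rw [Submodule.mem_bot] at h2 ⊢
      have h3 : ∑ N : Fin (m + n + 2), ((1 + t * la2) / (1 + t * la1)) ^ (2 * (N : ℕ)) • v N =
          (((1 + t * la1) * (1 + t * la1)) ^ (m + n + 1))⁻¹ •
            ∑ N : Fin (m + n + 2), (((1 + t * la2) * (1 + t * la2)) ^ (N : ℕ) *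
              ((1 + t * la1) * (1 + t * la1)) ^ (m + n + 1 - (N : ℕ))) • v N := by
        rw [smul_sum]
        refine sum_congr rfl fun N _ => ?_
        rw [smul_smul]
        congr 1
        have hN : (N : ℕ) ≤ m + n + 1 := by have := N.2; omega
        have hne := h1 t ht
        obtain ⟨r, hr⟩ := Nat.exists_eq_add_of_le hN
        have hr' : m + n + 1 - (N : ℕ) = r := by omega
        rw [hr', hr, div_pow, pow_mul, pow_mul, pow_add]
        field_simp
      rw [h3, h2, smul_zero]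
    · -- the operator relation
      rintro t ht w ⟨Z, ⟨hZ0, hZ, hZn⟩, hw⟩
      rw [Submodule.mem_bot]
      simp only [hw]
      have h2 := sum_FN N0 N1 φ m n (fun N => (cc t la2 aX * cc t la2 aX) ^ N *
        (cc t la1 bX * cc t la1 bX) ^ (m + n + 1 - N)) Z
      rw [h2]
      exact lemA (p := cc t la1 bX * cc t la1 bX) (q := cc t la2 aX * cc t la2 aX)
        (pB := cc t la1 bB * cc t la1 bB) (qB := cc t la2 aB * cc t la2 aB)
        (pH := cc t la1 bH * cc t la1 bH) (qH := cc t la2 aH * cc t la2 aH)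
        (L0 := L0) (L1 := L1) (M0 := M0) (M1 := M1)
        (by
          have := cc_commute hX.symm t la1 la2
          exact (this.mul_left this).mul_right (this.mul_left this))
        (by
          have := cc_commute hB.symm t la1 la2
          exact (this.mul_left this).mul_right (this.mul_left this))
        ((RC.cc hLb t la1).mul (RC.cc hLb t la1)) ((RC.cc hLa t la2).mul (RC.cc hLa t la2))
        ((EQ.cc hM0b t la1).mul (EQ.cc hM0b t la1)) ((EQ.cc hM0a t la2).mul (EQ.cc hM0a t la2))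
        ((EQ.cc hM1b t la1).mul (EQ.cc hM1b t la1)) ((EQ.cc hM1a t la2).mul (EQ.cc hM1a t la2))
        ((EQ.cc hN0b t la1).mul (EQ.cc hN0b t la1)) ((EQ.cc hN0a t la2).mul (EQ.cc hN0a t la2))
        ((EQ.cc hN1b t la1).mul (EQ.cc hN1b t la1)) ((EQ.cc hN1a t la2).mul (EQ.cc hN1a t la2))
        (hex t ht) hZ0 hZ hZn hφ0' hφ1' hφm
  -- conclusion
  rw [hψ, hφx]
  have h2 : ∀ N : Fin (m + n + 2), FN N0 N1 φ m n N (pw (c ^ (N : ℕ) • (1 : End K X)) Y) = 0 := by
    intro N
    rw [map_smul, map_one, LinearMap.smul_apply, End.one_apply, map_smul, hcoef, smul_zero]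
  have h3 := sum_FN N0 N1 φ m n (fun N => c ^ N • (1 : End K X)) Y
  rw [sum_eq_zero fun N _ => h2 N] at h3
  rw [h3, LinearMap.sum_apply]
  refine sum_congr rfl fun j _ => ?_
  rw [LinearMap.smul_apply, map_sub, smul_sub]
  have e0 : φ j (N0 x) = ∑ k ∈ range n, c ^ k * φ j (N0 (Y k)) := by
    rw [hYx, map_sum, map_sum]
    refine sum_congr rfl fun k _ => ?_
    rw [map_smul, map_smul, smul_eq_mul]
  have e1 : φ j (c • N1 x) = ∑ k ∈ range n, c ^ (k + 1) * φ j (N1 (Y k)) := by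
    rw [hYx, map_sum, smul_sum, map_sum]
    refine sum_congr rfl fun k _ => ?_
    rw [map_smul, map_smul, map_smul, smul_eq_mul, smul_eq_mul]
    ring
  rw [e0, e1, smul_sum, smul_sum, ← sum_sub_distrib]
  refine sum_congr rfl fun k _ => ?_
  rw [LinearMap.smul_apply, LinearMap.smul_apply, End.one_apply, map_smul, map_smul, map_smul,
    map_smul, smul_eq_mul, smul_eq_mul, smul_eq_mul, smul_eq_mul, pow_add, pow_add, pow_add,
    pow_add]
  ring

end Main

end Crest.Agent.R172.HexT
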