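import Crest.Agent.R172.RJM
import Crest.Agent.R172.RGen
import Crest.Agent.R172.Cov

/-!
Row 172 (S0260), T0 with arbitrary radical and arbitrary `D`: on the universal cover
`X ↦ X × X ≅ W ⊗ X` (`W = K³/(1,1,1)`) the correction `b` of an exact family exists formally
(hypothesis `hex` of `RJM.main`), for every `c` with `eps * c ≠ 0`.
-/

set_option autoImplicit false
set_option linter.unusedSectionVars false

namespace Crest.Agent.R172.HexU

open TensorProduct Module LinearMap Crest.Agent.R172.CovT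
open Crest.Agent.R172.RJM (RT TR DD Ex ev Cor)

universe u v

variable {K : Type*} [Field K] {X : Type u} {Y : Type v} [AddCommGroup X] [Module K X]
  [AddCommGroup Y] [Module K Y]
  {A : Fin 3 → End K X} {B : Fin 3 → End K Y} {R1 : Submodule K X} {R2 : Submodule K Y}
  {g : Y →ₗ[K] Y →ₗ[K] K} {eps c : K}

/-- hypothesis `hex` of `RJM.main` at `c` -/
def HEX (A : Fin 3 → End K X) (B : Fin 3 → End K Y) (R1 : Submodule K X) (R2 : Submodule K Y)
    (g : Y →ₗ[K] Y →ₗ[K] K) (eps c : K) : Prop :=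
  ∀ x, Ex A B R1 R2 c x → ∃ b, Cor A B R1 g eps c x b

theorem pi'_A' (hs : ∀ x, A 0 x + A 1 x + A 2 x = 0) (t : Fin 3) (z : X × X) :
    pi' A (A' A t z) = A t (pi' A z) := pi'_em hs t _

theorem A'_apply (t : Fin 3) (z : X × X) : A' A t z = em K X t (pi' A z) := rfl

theorem map_DD (hsA : ∀ x, A 0 x + A 1 x + A 2 x = 0) (hsB : ∀ x, B 0 x + B 1 x + B 2 x = 0)
    (t : Fin 3) (z : (Y × Y) ⊗[K] (X × X)) :
    TensorProduct.map (pi' B) (pi' A) (DD (A' A) (A' B) c t z) =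
      DD A B c t (TensorProduct.map (pi' B) (pi' A) z) := by
  induction z using TensorProduct.induction_on with
  | zero => simp
  | tmul a b =>
    simp only [DD, LinearMap.sub_apply, LinearMap.smul_apply, LinearMap.lTensor_tmul,
      LinearMap.rTensor_tmul, map_sub, map_smul, TensorProduct.map_tmul, pi'_A' hsA, pi'_A' hsB]
  | add a b ha hb => simp only [map_add, ha, hb]

/-- the pulled back form -/
def g' (B : Fin 3 → End K Y) (g : Y →ₗ[K] Y →ₗ[K] K) : (Y × Y) →ₗ[K] (Y × Y) →ₗ[K] K :=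
  g.compl₁₂ (pi' B) (pi' B)

theorem g'_apply (z w : Y × Y) : g' B g z w = g (pi' B z) (pi' B w) := rfl

theorem ev_map (z : (Y × Y) ⊗[K] (X × X)) (w : Y × Y) :
    ev g (TensorProduct.map (pi' B) (pi' A) z) (pi' B w) = pi' A (ev (g' B g) z w) := by
  induction z using TensorProduct.induction_on with
  | zero => simp
  | tmul a b => simp [g'_apply]
  | add a b ha hb => simp only [map_add, LinearMap.add_apply, ha, hb]

theorem ev_DD' (hg : ∀ t p p', g (B t p) p' = eps * g p (B t p')) (t : Fin 3)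
    (z : Y ⊗[K] X) (p : Y) :
    ev g (DD A B c t z) p = A t (ev g z p) - (eps * c) • ev g z (B t p) := by
  exact RJM.ev_DD A B hg c t z p

theorem hg' (hsB : ∀ x, B 0 x + B 1 x + B 2 x = 0)
    (hg : ∀ t p p', g (B t p) p' = eps * g p (B t p')) (t : Fin 3) (p p' : Y × Y) :
    g' B g (A' B t p) p' = eps * g' B g p (A' B t p') := by
  rw [g'_apply, g'_apply, pi'_A' hsB, pi'_A' hsB, hg]

theorem map_RT {z : (Y × Y) ⊗[K] (X × X)} (hz : z ∈ RT (P1 := X × X) (R2.comap (pi' B))) :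
    TensorProduct.map (pi' B) (pi' A) z ∈ RT (P1 := X) R2 := by
  unfold RT at hz
  induction hz using Submodule.span_induction with
  | mem z hz =>
    obtain ⟨r, hr, p, rfl⟩ := hz
    rw [TensorProduct.map_tmul]
    exact Submodule.subset_span ⟨_, hr, _, rfl⟩
  | zero => rw [map_zero]; exact Submodule.zero_mem _
  | add a b _ _ ha hb => rw [map_add]; exact Submodule.add_mem _ ha hb
  | smul c a _ ha => rw [map_smul]; exact Submodule.smul_mem _ _ ha

theorem map_TR {z : (Y × Y) ⊗[K] (X × X)} (hz : z ∈ TR (P2 := Y × Y) (R1.comap (pi' A))) :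
    TensorProduct.map (pi' B) (pi' A) z ∈ TR (P2 := Y) R1 := by
  unfold TR at hz
  induction hz using Submodule.span_induction with
  | mem z hz =>
    obtain ⟨p, r, hr, rfl⟩ := hz
    rw [TensorProduct.map_tmul]
    exact Submodule.subset_span ⟨_, _, hr, rfl⟩
  | zero => rw [map_zero]; exact Submodule.zero_mem _
  | add a b _ _ ha hb => rw [map_add]; exact Submodule.add_mem _ ha hb
  | smul c a _ ha => rw [map_smul]; exact Submodule.smul_mem _ _ ha

/-- **the step of the tower** -/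
theorem step (hsA : ∀ x, A 0 x + A 1 x + A 2 x = 0) (hsB : ∀ x, B 0 x + B 1 x + B 2 x = 0)
    (hpB : ∀ y : Y, ∃ w, pi' B w = y)
    (hg : ∀ t p p', g (B t p) p' = eps * g p (B t p')) (hk : eps * c ≠ 0)
    (H : HEX A B R1 R2 g eps c) :
    HEX (A' A) (A' B) (R1.comap (pi' A)) (R2.comap (pi' B)) (g' B g) eps c := by
  intro x' hx'
  set x : Fin 3 → Y ⊗[K] X := fun t => TensorProduct.map (pi' B) (pi' A) (x' t) with hx
  have hex : Ex A B R1 R2 c x := by
    refine ⟨?_, fun t => ?_⟩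
    · have h1 := congrArg (TensorProduct.map (pi' B) (pi' A)) hx'.sum
      rw [map_sum, map_zero] at h1
      rw [← h1]
      exact Finset.sum_congr rfl fun t _ => (map_DD hsA hsB t _).symm
    · have h1 := hx'.arm t
      obtain ⟨a, ha, b, hb, hab⟩ := Submodule.mem_sup.1 h1
      change DD A B c t (TensorProduct.map (pi' B) (pi' A) (x' t)) ∈ _
      rw [← map_DD hsA hsB t, ← hab, map_add]
      exact Submodule.add_mem _ (Submodule.mem_sup_left (map_RT ha))
        (Submodule.mem_sup_right (map_TR hb))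
  obtain ⟨b, hb⟩ := H x hex
  let β : Fin 3 → (Y →ₗ[K] X × X) := fun t =>
    (eps * c)⁻¹ • (em K X t ∘ₗ (b - ev g (x t))) + (ev (g' B g) (x' t)) ∘ₗ em K Y t
  have hβ : ∀ t q, β t q = (eps * c)⁻¹ • em K X t (b q - ev g (x t) q) +
      ev (g' B g) (x' t) (em K Y t q) := fun t q => rfl
  have hevx : ∀ t z, ev g (x t) (pi' B z) = pi' A (ev (g' B g) (x' t) z) := fun t z =>
    ev_map (x' t) z
  have hβ0 : ∀ q, β 0 q + β 1 q + β 2 q = 0 := by
    intro q
    obtain ⟨q', rfl⟩ := hpB q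
    have h1 : ∀ t, β t (pi' B q') = (eps * c)⁻¹ • em K X t (b (pi' B q')) -
        (eps * c)⁻¹ • ev (g' B g) (DD (A' A) (A' B) c t (x' t)) q' := by
      intro t
      rw [hβ, ev_DD' (hg' hsB hg), hevx, map_sub, smul_sub, smul_sub, smul_smul,
        inv_mul_cancel₀ hk, one_smul, A'_apply, A'_apply]
      abel
    have h2 := congrArg (fun z => ev (g' B g) z q') hx'.sum
    simp only [Fin.sum_univ_three, map_add, LinearMap.add_apply, map_zero,
      LinearMap.zero_apply] at h2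
    rw [h1, h1, h1]
    have h3 := em_sum (K := K) (b (pi' B q'))
    calc _ = (eps * c)⁻¹ • (em K X 0 (b (pi' B q')) + em K X 1 (b (pi' B q')) +
          em K X 2 (b (pi' B q'))) - (eps * c)⁻¹ •
          (ev (g' B g) (DD (A' A) (A' B) c 0 (x' 0)) q' +
            ev (g' B g) (DD (A' A) (A' B) c 1 (x' 1)) q' +
            ev (g' B g) (DD (A' A) (A' B) c 2 (x' 2)) q') := by
          simp only [smul_add]; abel
      _ = 0 := by rw [h3, h2]; simp
  let b' : Y × Y →ₗ[K] X × X := (β 0).coprod (β 1)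
  have hb'em : ∀ t q, b' (em K Y t q) = β t q := by
    intro t q
    fin_cases t
    · simp [b', CovT.em]
    · simp [b', CovT.em]
    · have h2 : β 2 q = -(β 0 q + β 1 q) := by
        rw [eq_neg_iff_add_eq_zero, add_comm]; exact hβ0 q
      change b' (em K Y 2 q) = β 2 q
      rw [h2]
      simp [b', CovT.em]
      abel
  have hpiβ : ∀ t q, pi' A (β t q) = b (B t q) := by
    intro t q
    have h1 := hb.eq t q
    rw [hβ, map_add, map_smul, pi'_em hsA, ← hevx, pi'_em hsB, map_sub]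
    have h2 : A t (b q) - A t (ev g (x t) q) =
        (eps * c) • (b (B t q) - ev g (x t) (B t q)) := by
      rw [smul_sub, sub_eq_sub_iff_add_eq_add]
      rw [sub_eq_sub_iff_add_eq_add] at h1
      rw [h1]; abel
    rw [h2, smul_smul, inv_mul_cancel₀ hk, one_smul]
    abel
  have hpib' : ∀ z, pi' A (b' z) = b (pi' B z) := by
    intro z
    have h1 : b' z = β 0 z.1 + β 1 z.2 := by simp [b']
    rw [h1, map_add, hpiβ, hpiβ]
    simp [pi']
  refine ⟨b', ⟨fun z => ?_, fun t z => ?_⟩⟩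
  · change pi' A (b' z) ∈ R1
    rw [hpib']
    exact hb.mem _
  · rw [A'_apply, hpib', A'_apply (A := B), hb'em, hβ, smul_add, smul_smul, mul_inv_cancel₀ hk,
      one_smul, map_sub, hevx, A'_apply]
    abel

theorem RT_bot : RT (P1 := X) (⊥ : Submodule K Y) = ⊥ := by
  rw [eq_bot_iff, RT, Submodule.span_le]
  rintro _ ⟨r, hr, p, rfl⟩
  rw [(Submodule.mem_bot K).1 hr, TensorProduct.zero_tmul]
  exact Submodule.zero_mem _

theorem TR_bot : TR (P2 := Y) (⊥ : Submodule K X) = ⊥ := by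
  rw [eq_bot_iff, TR, Submodule.span_le]
  rintro _ ⟨p, r, hr, rfl⟩
  rw [(Submodule.mem_bot K).1 hr, TensorProduct.tmul_zero]
  exact Submodule.zero_mem _

/-- the base -/
theorem base (hg : ∀ t p p', g (B t p) p' = eps * g p (B t p')) :
    HEX A B ⊥ ⊥ g eps c := by
  intro x hx
  refine ⟨0, ⟨fun p => by simp, fun t p => ?_⟩⟩
  have h1 := hx.arm t
  rw [RT_bot, TR_bot, sup_bot_eq, Submodule.mem_bot] at h1
  rw [← ev_DD' hg, h1]
  simp

theorem pi'_surj (hs : ∀ x, A 0 x + A 1 x + A 2 x = 0)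
    (hp : ∀ x, ∃ y : Fin 3 → X, x = ∑ s, A s (y s)) (x : X) : ∃ w, pi' A w = x := by
  obtain ⟨y, hy⟩ := hp x
  refine ⟨(y 0 - y 2, y 1 - y 2), ?_⟩
  rw [hy, Fin.sum_univ_three]
  simp only [pi', LinearMap.coprod_apply, map_sub]
  have h2 : A 2 (y 2) = -(A 0 (y 2) + A 1 (y 2)) := by
    rw [eq_neg_iff_add_eq_zero, add_comm]; exact hs (y 2)
  rw [h2]; abel

section family

variable {V U' M : Type*} [AddCommGroup V] [Module K V] [AddCommGroup U']
  [Module K U'] [AddCommGroup M] [Module K M]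
  {Φ Ψ : Fin 3 → End K V} {f gg : V →ₗ[K] U'} {F' : Fin 3 → U' →ₗ[K] V} {Tp : Submodule K V}
  {pM : V →ₗ[K] M}

/-- a family of covers (one for each block), all of the same height, with the formal `hex` -/
structure Fam (Φ : Fin 3 → End K V) (f gg : V →ₗ[K] U') (Tp : Submodule K V) (pM : V →ₗ[K] M)
    {μ : Type*} {X0 : μ → Type u} [∀ i, AddCommGroup (X0 i)] [∀ i, Module K (X0 i)]
    (A0 : ∀ i, Fin 3 → End K (X0 i)) (D0 : ∀ i, End K (X0 i)) (p0 : ∀ i, X0 i →ₗ[K] M)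
    (P : Prop) (e e' n : ℕ) {X : μ → Type u} [∀ i, AddCommGroup (X i)] [∀ i, Module K (X i)]
    (A : ∀ i, Fin 3 → End K (X i)) (D : ∀ i, End K (X i)) (pr : ∀ i, X i →ₗ[K] X0 i)
    (l : ∀ i, X i →ₗ[K] V) : Prop where
  st : ∀ i, Stage Φ f gg Tp pM (A0 i) (D0 i) (p0 i) P e e' n (A i) (D i) (pr i) (l i)
  hex : ∀ (i j) (g0 : X0 j →ₗ[K] X0 j →ₗ[K] K) (eps c : K),
    (∀ t p p', g0 (A0 j t p) p' = eps * g0 p (A0 j t p')) → eps * c ≠ 0 →
    HEX (A i) (A j) (LinearMap.ker (pr i)) (LinearMap.ker (pr j))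
      (g0.compl₁₂ (pr j) (pr j)) eps c

variable {μ : Type*} {X0 : μ → Type u} [∀ i, AddCommGroup (X0 i)] [∀ i, Module K (X0 i)]
    {A0 : ∀ i, Fin 3 → End K (X0 i)} {D0 : ∀ i, End K (X0 i)} {p0 : ∀ i, X0 i →ₗ[K] M}

theorem Fam.step {P : Prop} {e e' n : ℕ} {X : μ → Type u} [∀ i, AddCommGroup (X i)]
    [∀ i, Module K (X i)]
    {A : ∀ i, Fin 3 → End K (X i)} {D : ∀ i, End K (X i)} {pr : ∀ i, X i →ₗ[K] X0 i}
    {l : ∀ i, X i →ₗ[K] V}
    (hΦ : ∀ s v, Φ s v = F' s (f v)) (hΨ : ∀ s v, Ψ s v = F' s (gg v))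
    (hgf : ∀ s v, gg (Φ s v) = f (Ψ s v)) (hsum : ∀ v, Φ 0 v + Φ 1 v + Φ 2 v = 0)
    (hTp : ∀ s, ∀ v ∈ Tp, Φ s v ∈ Tp) {φ : Fin 3 → End K M}
    (hpM : ∀ s, ∀ v ∈ Tp, pM (Φ s v) = φ s (pM v))
    (hp0 : ∀ i s x, p0 i (A0 i s x) = φ s (p0 i x))
    (h : Fam Φ f gg Tp pM A0 D0 p0 P e e' n A D pr l) :
    Fam Φ f gg Tp pM A0 D0 p0 P (e - 1) (e' - 1) (n + 1) (X := fun i => X i × X i)
      (fun i => A' (A i)) (fun i => LinearMap.prodMap (D i) (D i))
      (fun i => pr i ∘ₗ pi' (A i)) (fun i => l' Φ (l i)) where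
  st i := Stage.step (F' := F') hΦ hΨ hgf hsum hTp hpM (hp0 i) (h.st i)
  hex i j g0 eps c hg hc := by
    have h1 := h.hex i j g0 eps c hg hc
    have h2 : ∀ t p p', (g0.compl₁₂ (pr j) (pr j)) (A j t p) p' =
        eps * (g0.compl₁₂ (pr j) (pr j)) p (A j t p') := by
      intro t p p'
      rw [LinearMap.compl₁₂_apply, LinearMap.compl₁₂_apply, (h.st j).prA, (h.st j).prA, hg]
    have h3 := HexU.step (h.st i).sumA (h.st j).sumA
      (pi'_surj (h.st j).sumA (h.st j).perf) h2 hc h1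
    rw [LinearMap.ker_comp, LinearMap.ker_comp]
    exact h3

/-- **The family of covers.** -/
theorem exists_fam (hΦ : ∀ s v, Φ s v = F' s (f v)) (hΨ : ∀ s v, Ψ s v = F' s (gg v))
    (hgf : ∀ s v, gg (Φ s v) = f (Ψ s v)) (hsum : ∀ v, Φ 0 v + Φ 1 v + Φ 2 v = 0)
    (hTp : ∀ s, ∀ v ∈ Tp, Φ s v ∈ Tp) (hTp' : ∀ s, ∀ v ∈ Tp, Ψ s v ∈ Tp)
    {φ : Fin 3 → End K M} {τ : End K M}
    (hpM : ∀ s, ∀ v ∈ Tp, pM (Φ s v) = φ s (pM v))
    (hpM' : ∀ s, ∀ v ∈ Tp, pM (Ψ s v) = φ s (τ (pM v)))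
    {k : ℕ} (hk : ∀ v ∈ Tp, pM v = 0 → v ∈ Nil Φ k) {sec : M →ₗ[K] V}
    (hsec : ∀ m, sec m ∈ Tp) (hsec' : ∀ m, pM (sec m) = m)
    (hA0 : ∀ i x, A0 i 0 x + A0 i 1 x + A0 i 2 x = 0)
    (hAD : ∀ i s x, D0 i (A0 i s x) = A0 i s (D0 i x))
    (hperf : ∀ i x, ∃ y : Fin 3 → X0 i, x = ∑ s, A0 i s (y s))
    (hp0 : ∀ i s x, p0 i (A0 i s x) = φ s (p0 i x)) (hpD : ∀ i x, p0 i (D0 i x) = τ (p0 i x)) :
    ∃ (X : μ → Type u) (_ : ∀ i, AddCommGroup (X i)) (_ : ∀ i, Module K (X i))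
      (A : ∀ i, Fin 3 → End K (X i)) (D : ∀ i, End K (X i))
      (pr : ∀ i, X i →ₗ[K] X0 i) (l : ∀ i, X i →ₗ[K] V) (n : ℕ),
      Fam Φ f gg Tp pM A0 D0 p0 True 0 0 n A D pr l := by
  have h0 : Fam Φ f gg Tp pM A0 D0 p0 False k k 0 A0 D0 (fun i => LinearMap.id)
      (fun i => sec ∘ₗ p0 i) :=
    { st := fun i => Stage.base (hA0 i) (hAD i) (hperf i) hTp hpM (hp0 i) hk hsec hsec'
      hex := by
        intro i j g0 eps c hg _
        rw [LinearMap.ker_id, LinearMap.ker_id]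
        exact base hg }
  have h1 := Fam.step (F' := F') (Ψ := Ψ) hΦ hΨ hgf hsum hTp hpM hp0 h0
  have h2 : Fam Φ f gg Tp pM A0 D0 p0 True (k - 1) k (0 + 1) (X := fun i => X0 i × X0 i)
      (fun i => A' (A0 i)) (fun i => LinearMap.prodMap (D0 i) (D0 i))
      (fun i => LinearMap.id ∘ₗ pi' (A0 i)) (fun i => l' Φ (sec ∘ₗ p0 i)) :=
    { hex := h1.hex
      st := fun i =>
        { sumA := (h1.st i).sumA
          comm := (h1.st i).comm
          prA := (h1.st i).prA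
          prD := (h1.st i).prD
          surj := (h1.st i).surj
          perf := (h1.st i).perf
          nil := (h1.st i).nil
          lTp := (h1.st i).lTp
          lpM := (h1.st i).lpM
          errA := (h1.st i).errA
          nilD := (h1.st i).nilD
          fin := (h1.st i).fin
          errG := by
            intro _ z
            refine ⟨(Ψ 0 (sec (p0 i z.1)) - Φ 0 (sec (p0 i (D0 i z.1)))) +
              (Ψ 1 (sec (p0 i z.2)) - Φ 1 (sec (p0 i (D0 i z.2)))), ?_, ?_⟩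
            · refine hk _ (Tp.add_mem (Tp.sub_mem (hTp' 0 _ (hsec _)) (hTp 0 _ (hsec _)))
                (Tp.sub_mem (hTp' 1 _ (hsec _)) (hTp 1 _ (hsec _)))) ?_
              rw [map_add, map_sub, map_sub, hpM' 0 _ (hsec _), hpM' 1 _ (hsec _),
                hpM 0 _ (hsec _), hpM 1 _ (hsec _), hsec', hsec', hsec', hsec', hpD, hpD,
                sub_self, sub_self, add_zero]
            · simp only [l', LinearMap.coprod_apply, LinearMap.comp_apply,
                LinearMap.prodMap_apply]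
              rw [map_add, hgf, hgf]
              simp only [map_add, map_sub]
              abel } }
  clear h0 h1
  have key : ∀ j : ℕ, ∃ (X : μ → Type u) (_ : ∀ i, AddCommGroup (X i)) (_ : ∀ i, Module K (X i))
      (A : ∀ i, Fin 3 → End K (X i)) (D : ∀ i, End K (X i))
      (pr : ∀ i, X i →ₗ[K] X0 i) (l : ∀ i, X i →ₗ[K] V) (n : ℕ),
      Fam Φ f gg Tp pM A0 D0 p0 True (k - 1 - j) (k - j) n A D pr l := by
    intro j
    induction j with
    | zero => exact ⟨_, _, _, _, _, _, _, _, h2⟩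
    | succ j ih =>
      obtain ⟨X, i1, i2, A, D, pr, l, n, h⟩ := ih
      exact ⟨_, _, _, _, _, _, _, _,
        Fam.step (F' := F') (Ψ := Ψ) hΦ hΨ hgf hsum hTp hpM hp0 h⟩
  obtain ⟨X, i1, i2, A, D, pr, l, n, h⟩ := key k
  refine ⟨X, i1, i2, A, D, pr, l, n, ?_⟩
  have e1 : k - 1 - k = 0 := by omega
  have e2 : k - k = 0 := by omega
  rw [e1, e2] at h
  exact h

end family

/-! ## the hypotheses of `RJM.main` for one cover -/

theorem word_Nil : ∀ (n : ℕ) {v : X}, v ∈ Nil A n → ∀ w : List (Fin 3), w.length = n →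
    (w.map A).prod v = 0 := by
  intro n
  induction n with
  | zero =>
    intro v hv w hw
    rw [mem_Nil_zero] at hv
    rw [hv, map_zero]
  | succ n ih =>
    intro v hv w hw
    obtain ⟨w', s, rfl⟩ : ∃ w' s, w = w' ++ [s] := by
      refine ⟨w.dropLast, w.getLast (by intro h; rw [h] at hw; simp at hw), ?_⟩
      exact (List.dropLast_append_getLast _).symm
    have hl : w'.length = n := by
      rw [List.length_append] at hw
      simpa using hw
    rw [List.map_append, List.prod_append]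
    simp only [List.map_cons, List.map_nil, List.prod_cons, List.prod_nil, mul_one]
    exact ih (mem_Nil_succ.1 hv s) w' hl

theorem Nil_eq_Nk (k : ℕ) : Nil A k = St.Nk A k := by
  induction k with
  | zero => rfl
  | succ k ih =>
    change (⨅ s, (Nil A k).comap (A s)) = ⨅ s, (St.Nk A k).comap (A s)
    rw [ih]

section rj

variable {V U' M X0 : Type*} [AddCommGroup V] [Module K V] [AddCommGroup U'] [Module K U']
  [AddCommGroup M] [Module K M] [AddCommGroup X0] [Module K X0]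
  {Φ : Fin 3 → End K V} {f gg : V →ₗ[K] U'} {Tp : Submodule K V} {pM : V →ₗ[K] M}
  {A0 : Fin 3 → End K X0} {D0 : End K X0} {p0 : X0 →ₗ[K] M} {P : Prop} {e e' n : ℕ}
  {D : End K X} {pr : X →ₗ[K] X0} {l : X →ₗ[K] V}

theorem pr_pow (h : Stage Φ f gg Tp pM A0 D0 p0 P e e' n A D pr l) (s : Fin 3) (k : ℕ) (x : X) :
    pr ((A s ^ k) x) = (A0 s ^ k) (pr x) := by
  induction k with
  | zero => rfl
  | succ k ih => rw [pow_succ', pow_succ', Module.End.mul_apply, Module.End.mul_apply, h.prA, ih]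

/-- all the hypotheses of `RJM.main` on one side, for the cover `X` of `X0` -/
theorem rj [FiniteDimensional K X0] (h : Stage Φ f gg Tp pM A0 D0 p0 P e e' n A D pr l)
    (hker : ∀ m : X0, (∀ s, A0 s m = 0) → m = 0) {len : Fin 3 → ℕ} (hl1 : ∀ s, 1 ≤ len s)
    (hl : ∀ s, A0 s ^ len s = 0)
    (hfree : ∀ s, len s * finrank K (LinearMap.ker (A0 s)) = finrank K X0)
    (hq : ∑ s, (1 - 1 / (len s : ℚ)) = 2) :
    (⨆ t, LinearMap.range (A t) = ⊤) ∧
    (∀ t, ∀ r ∈ LinearMap.ker pr, A t r ∈ LinearMap.ker pr) ∧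
    (∀ w : List (Fin 3), w.length = n → ∀ r ∈ LinearMap.ker pr, (w.map A).prod r = 0) ∧
    (∀ s p, (A s ^ len s) p ∈ LinearMap.ker pr) ∧
    (∀ S : Submodule K X, (∀ t, ∀ v ∈ S, A t v ∈ S) → (∀ s p, (A s ^ len s) p ∈ S) →
      LinearMap.ker pr ≤ S) := by
  have htop : ⨆ t, LinearMap.range (A t) = ⊤ := by
    rw [eq_top_iff]
    intro x _
    obtain ⟨y, hy⟩ := h.perf x
    rw [hy]
    exact Submodule.sum_mem _ fun s _ =>
      Submodule.mem_iSup_of_mem s (LinearMap.mem_range_self (A s) (y s))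
  refine ⟨htop, ?_, ?_, ?_, ?_⟩
  · intro t r hr
    rw [LinearMap.mem_ker] at hr ⊢
    rw [h.prA, hr, map_zero]
  · intro w hw r hr
    exact word_Nil n (h.nil r hr) w hw
  · intro s p
    rw [LinearMap.mem_ker, pr_pow h, hl, LinearMap.zero_apply]
  · intro S hS hSl
    refine RG.gen A A0 pr h.prA (LinearMap.range_eq_top.2 h.surj) ?_ htop (k := n) ?_ hker len hl1
      hl hfree hq S hS hSl
    · ext x
      rw [Fin.sum_univ_three]
      exact h.sumA x
    · intro x hx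
      rw [← Nil_eq_Nk]
      exact h.nil x hx

/-- the pulled back form: hypotheses `gR1 gR2 gB` of `RJM.main` -/
theorem form (h : Stage Φ f gg Tp pM A0 D0 p0 P e e' n A D pr l)
    {g0 : X0 →ₗ[K] X0 →ₗ[K] K} {eps : K} (hg : ∀ t p p', g0 (A0 t p) p' = eps * g0 p (A0 t p')) :
    (∀ r ∈ LinearMap.ker pr, ∀ p, (g0.compl₁₂ pr pr) r p = 0) ∧
    (∀ r ∈ LinearMap.ker pr, ∀ p, (g0.compl₁₂ pr pr) p r = 0) ∧
    (∀ t p p', (g0.compl₁₂ pr pr) (A t p) p' = eps * (g0.compl₁₂ pr pr) p (A t p')) := by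
  refine ⟨?_, ?_, ?_⟩
  · intro r hr p
    rw [LinearMap.compl₁₂_apply, LinearMap.mem_ker.1 hr, map_zero, LinearMap.zero_apply]
  · intro r hr p
    rw [LinearMap.compl₁₂_apply, LinearMap.mem_ker.1 hr, map_zero]
  · intro t p p'
    rw [LinearMap.compl₁₂_apply, LinearMap.compl₁₂_apply, h.prA, h.prA, hg]

theorem gtop (h : Stage Φ f gg Tp pM A0 D0 p0 P e e' n A D pr l)
    {g0 : X0 →ₗ[K] X0 →ₗ[K] K} (hnd : ∀ x, (∀ y, g0 x y = 0) → x = 0) {s : Fin 3} {k : ℕ}
    (hk : A0 s ^ k ≠ 0) : ∃ p p', (g0.compl₁₂ pr pr) ((A s ^ k) p) p' ≠ 0 := by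
  by_contra hcon
  push Not at hcon
  apply hk
  ext x
  obtain ⟨p, rfl⟩ := h.surj x
  refine hnd _ fun y => ?_
  obtain ⟨p', rfl⟩ := h.surj y
  have := hcon p p'
  rwa [LinearMap.compl₁₂_apply, pr_pow h] at this

end rj

end Crest.Agent.R172.HexU
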