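import Mathlib.Algebra.Lie.Engel
import Mathlib.RingTheory.Valuation.LocalSubring
import Mathlib.RingTheory.Valuation.ValuationSubring
import Mathlib.RingTheory.Derivation.Basic
import Mathlib.LinearAlgebra.Trace
import Mathlib.LinearAlgebra.Matrix.ToLin
import Mathlib.FieldTheory.Separable
import Mathlib.FieldTheory.Perfect
import Mathlib.Data.Matrix.Basic
import Mathlib.Algebra.CharP.Algebra

/-!
Row 172 (S0260): finiteness of the trace invariants (lemma (INJ)).

`Φ i s` (`i ∈ β`, `s ∈ σ`) are matrices over `k`, `lc Φ x s = ∑ x_i Φ_i^s`.  Assume that over every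
field extension `κ` of `k` a point `c ∈ κ^β` whose long words vanish is `0`.  Then a `k`-derivation
`D` of an extension `L` with `tr(Ψ_s w) = 0` (`Ψ = lc Φ (D x)`, all long words `w` in `lc Φ x`)
kills `x`.
-/

set_option autoImplicit false
set_option linter.unusedSectionVars false

namespace Crest.Agent.R172.TI

open Module Polynomial

section Nil

variable {K : Type*} [Field K] [CharZero K] {V : Type*} [AddCommGroup V] [Module K V]
  [FiniteDimensional K V]

/-- an endomorphism with `tr a^m = 0` for all large `m` is nilpotent -/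
theorem isNilpotent_of_trace {a : End K V} {m0 : ℕ}
    (h : ∀ m, m0 ≤ m → LinearMap.trace K V (a ^ m) = 0) : IsNilpotent a := by
  have hp : minpoly K a ≠ 0 := minpoly.ne_zero (Algebra.IsIntegral.isIntegral a)
  obtain ⟨q, hq, hq0⟩ :=
    Polynomial.exists_eq_pow_rootMultiplicity_mul_and_not_dvd (minpoly K a) hp 0
  rw [C_0, sub_zero] at hq hq0
  generalize rootMultiplicity 0 (minpoly K a) = r at hq
  have hcop : IsCoprime ((X : K[X]) ^ (r + m0)) q :=
    IsCoprime.pow_left ((irreducible_X.coprime_iff_not_dvd).2 hq0)
  obtain ⟨u, v, huv⟩ := hcop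
  have hz : aeval a (X ^ (r + m0) * q) = 0 := by
    have : (X : K[X]) ^ (r + m0) * q = X ^ m0 * minpoly K a := by
      conv_rhs => rw [hq]
      ring
    rw [this, map_mul, minpoly.aeval, mul_zero]
  have h1 : aeval a (u * X ^ (r + m0)) + aeval a (v * q) = 1 := by
    rw [← map_add, huv, map_one]
  have hidem : IsIdempotentElem (aeval a (u * X ^ (r + m0))) := by
    have h2 : aeval a (u * X ^ (r + m0)) * aeval a (v * q) = 0 := by
      rw [← map_mul, show u * X ^ (r + m0) * (v * q) = u * v * (X ^ (r + m0) * q) by ring,
        map_mul, hz, mul_zero]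
    have h3 : aeval a (v * q) = 1 - aeval a (u * X ^ (r + m0)) := by
      rw [← h1]; abel
    rw [h3, mul_sub, mul_one, sub_eq_zero] at h2
    exact h2.symm
  have htr : LinearMap.trace K V (aeval a (u * X ^ (r + m0))) = 0 := by
    rw [map_mul, map_pow, aeval_X]
    clear huv hidem h1
    induction u using Polynomial.induction_on' with
    | add p q hp hq =>
      rw [map_add, add_mul, map_add, hp, hq, add_zero]
    | monomial n c =>
      rw [aeval_monomial, mul_assoc, ← pow_add, ← Algebra.smul_def, map_smul,
        h _ (by omega), smul_zero]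
  have he : aeval a (u * X ^ (r + m0)) = 0 :=
    (LinearMap.IsIdempotentElem.trace_eq_zero_iff hidem).1 htr
  refine ⟨r + m0, ?_⟩
  have h4 : a ^ (r + m0) = aeval a ((X : K[X]) ^ (r + m0)) := by rw [map_pow, aeval_X]
  rw [he, zero_add] at h1
  rw [h4, ← mul_one (aeval a (X ^ (r + m0))), ← h1, ← map_mul,
    show (X : K[X]) ^ (r + m0) * (v * q) = v * (X ^ (r + m0) * q) by ring, map_mul, hz, mul_zero]

variable {σ : Type*}

/-- the span of the words of length `≥ m` -/
def wspan (A : σ → End K V) (m : ℕ) : Submodule K (End K V) :=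
  Submodule.span K {w | ∃ l : List σ, m ≤ l.length ∧ w = (l.map A).prod}

theorem mul_mem_wspan {A : σ → End K V} {m : ℕ} {a b : End K V} (ha : a ∈ wspan A m)
    (hb : b ∈ wspan A m) : a * b ∈ wspan A m := by
  induction ha using Submodule.span_induction with
  | mem x hx =>
    obtain ⟨l, hl, rfl⟩ := hx
    induction hb using Submodule.span_induction with
    | mem y hy =>
      obtain ⟨l', hl', rfl⟩ := hy
      refine Submodule.subset_span ⟨l ++ l', ?_, ?_⟩
      · rw [List.length_append]; omega
      · rw [List.map_append, List.prod_append]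
    | zero => rw [mul_zero]; exact Submodule.zero_mem _
    | add y z _ _ hy hz => rw [mul_add]; exact Submodule.add_mem _ hy hz
    | smul c y _ hy => rw [mul_smul_comm]; exact Submodule.smul_mem _ _ hy
  | zero => rw [zero_mul]; exact Submodule.zero_mem _
  | add y z _ _ hy hz => rw [add_mul]; exact Submodule.add_mem _ hy hz
  | smul c y _ hy => rw [smul_mul_assoc]; exact Submodule.smul_mem _ _ hy

theorem trace_wspan {A : σ → End K V} {m : ℕ}
    (h : ∀ l : List σ, m ≤ l.length → LinearMap.trace K V (l.map A).prod = 0) {a : End K V}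
    (ha : a ∈ wspan A m) : LinearMap.trace K V a = 0 := by
  induction ha using Submodule.span_induction with
  | mem x hx =>
    obtain ⟨l, hl, rfl⟩ := hx
    exact h l hl
  | zero => rw [map_zero]
  | add y z _ _ hy hz => rw [map_add, hy, hz, add_zero]
  | smul c y _ hy => rw [map_smul, hy, smul_zero]

theorem isNilpotent_wspan {A : σ → End K V} {m : ℕ}
    (h : ∀ l : List σ, m ≤ l.length → LinearMap.trace K V (l.map A).prod = 0) {a : End K V}
    (ha : a ∈ wspan A m) : IsNilpotent a := by
  have hpow : ∀ j, a ^ (j + 1) ∈ wspan A m := by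
    intro j
    induction j with
    | zero => simpa using ha
    | succ j ih => rw [pow_succ]; exact mul_mem_wspan ih ha
  refine isNilpotent_of_trace (m0 := 1) fun j hj => ?_
  obtain ⟨i, rfl⟩ := Nat.exists_eq_add_of_le' hj
  exact trace_wspan h (hpow i)

attribute [local instance] LieRing.ofAssociativeRing LieAlgebra.ofAssociativeAlgebra

/-- the Lie algebra spanned by the words of length `≥ m` -/
def wlie (A : σ → End K V) (m : ℕ) : LieSubalgebra K (End K V) :=
  { wspan A m with
    lie_mem' := by
      intro x y hx hy
      rw [Ring.lie_def]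
      exact Submodule.sub_mem _ (mul_mem_wspan hx hy) (mul_mem_wspan hy hx) }

/-- **nil implies nilpotent**: if all traces of long words vanish then all long words vanish -/
theorem words_zero {A : σ → End K V} {m : ℕ}
    (h : ∀ l : List σ, m ≤ l.length → LinearMap.trace K V (l.map A).prod = 0) :
    ∃ M, ∀ l : List σ, M ≤ l.length → (l.map A).prod = 0 := by
  have hnil : LieModule.IsNilpotent (wlie A (m + 1)) V := by
    rw [LieModule.isNilpotent_iff_forall' (R := K)]
    rintro ⟨x, hx⟩
    have h1 : LieModule.toEnd K (wlie A (m + 1)) V ⟨x, hx⟩ = x := by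
      ext v; rfl
    rw [h1]
    exact isNilpotent_wspan (fun l hl => h l (by omega)) hx
  obtain ⟨k, hk⟩ := (LieModule.isNilpotent_iff K (wlie A (m + 1)) V).1 hnil
  have key : ∀ j : ℕ, ∀ l : List σ, j * (m + 1) ≤ l.length → ∀ v : V,
      (l.map A).prod v ∈ LieModule.lowerCentralSeries K (wlie A (m + 1)) V j := by
    intro j
    induction j with
    | zero =>
      intro l _ v
      rw [LieModule.lowerCentralSeries_zero]
      exact LieSubmodule.mem_top _
    | succ j ih =>
      intro l hl v
      rw [LieModule.lowerCentralSeries_succ]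
      have h2 : (l.map A).prod v =
          ⁅(⟨((l.take (m + 1)).map A).prod, Submodule.subset_span ⟨l.take (m + 1), by
            rw [List.length_take, Nat.succ_mul] at *
            omega, rfl⟩⟩ : wlie A (m + 1)), ((l.drop (m + 1)).map A).prod v⁆ := by
        change _ = ((l.take (m + 1)).map A).prod (((l.drop (m + 1)).map A).prod v)
        rw [← Module.End.mul_apply, ← List.prod_append, ← List.map_append, List.take_append_drop]
      rw [h2]
      refine LieSubmodule.lie_mem_lie (LieSubmodule.mem_top _) (ih _ ?_ _)
      rw [List.length_drop]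
      rw [Nat.succ_mul] at hl
      omega
  refine ⟨k * (m + 1), fun l hl => ?_⟩
  ext v
  have h3 := key k l hl v
  rw [hk] at h3
  simpa using h3

end Nil

section Mat

open Matrix

variable {ι : Type*} [Fintype ι] [DecidableEq ι] {σ β : Type*} [Fintype β]

/-- matrix form of `words_zero` -/
theorem words_zero_mat {K : Type*} [Field K] [CharZero K] {A : σ → Matrix ι ι K} {m : ℕ}
    (h : ∀ l : List σ, m ≤ l.length → Matrix.trace (l.map A).prod = 0) :
    ∃ M, ∀ l : List σ, M ≤ l.length → (l.map A).prod = 0 := by
  have e : ∀ l : List σ, (l.map fun s => Matrix.toLin' (A s)).prod =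
      Matrix.toLin' (l.map A).prod := by
    intro l
    induction l with
    | nil => simp [Module.End.one_eq_id]
    | cons s l ih => rw [List.map_cons, List.prod_cons, ih, List.map_cons, List.prod_cons,
        Matrix.toLin'_mul]; rfl
  obtain ⟨M, hM⟩ := words_zero (A := fun s => Matrix.toLin' (A s)) (m := m) (fun l hl => by
    rw [e, Matrix.trace_toLin'_eq]
    exact h l hl)
  refine ⟨M, fun l hl => ?_⟩
  have h1 := hM l hl
  rw [e] at h1
  exact (LinearEquiv.map_eq_zero_iff _).1 h1

variable {k : Type*} [Field k]

/-- the linear combination `∑ x_i Φ_i^s`, transported by `f : k →+* R` -/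
def lc {R : Type*} [CommRing R] (f : k →+* R) (Φ : β → σ → Matrix ι ι k) (x : β → R) (s : σ) :
    Matrix ι ι R := ∑ i, x i • (Φ i s).map f

/-- traces of words -/
def tw {R : Type*} [CommRing R] (f : k →+* R) (Φ : β → σ → Matrix ι ι k) (x : β → R)
    (l : List σ) : R := Matrix.trace (l.map (lc f Φ x)).prod

theorem lc_map {R S : Type*} [CommRing R] [CommRing S] (f : k →+* R) (g : R →+* S)
    (Φ : β → σ → Matrix ι ι k) (x : β → R) (s : σ) :
    (lc f Φ x s).map g = lc (g.comp f) Φ (fun i => g (x i)) s := by
  ext a b
  simp only [lc, Matrix.map_apply, Matrix.sum_apply, Matrix.smul_apply, smul_eq_mul, map_sum,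
    map_mul, RingHom.comp_apply]

theorem prod_map {R S : Type*} [CommRing R] [CommRing S] (g : R →+* S) (A : σ → Matrix ι ι R)
    (l : List σ) : ((l.map A).prod).map g = (l.map fun s => (A s).map g).prod := by
  induction l with
  | nil => simp
  | cons s l ih => 
    rw [List.map_cons, List.prod_cons, Matrix.map_mul, ih, List.map_cons, List.prod_cons]

theorem tw_map {R S : Type*} [CommRing R] [CommRing S] (f : k →+* R) (g : R →+* S)
    (Φ : β → σ → Matrix ι ι k) (x : β → R) (l : List σ) :
    g (tw f Φ x l) = tw (g.comp f) Φ (fun i => g (x i)) l := by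
  have h1 : (fun s => (lc f Φ x s).map g) = lc (g.comp f) Φ (fun i => g (x i)) := by
    funext s
    exact lc_map f g Φ x s
  rw [tw, tw, ← h1, ← prod_map, Matrix.trace, Matrix.trace, map_sum]
  rfl

theorem lc_smul {R : Type*} [CommRing R] (f : k →+* R) (Φ : β → σ → Matrix ι ι k) (t : R)
    (x : β → R) (s : σ) : lc f Φ (fun i => t * x i) s = t • lc f Φ x s := by
  simp only [lc, Finset.smul_sum, smul_smul]

theorem prod_smul {R : Type*} [CommRing R] (t : R) (A : σ → Matrix ι ι R) (l : List σ) :
    (l.map fun s => t • A s).prod = t ^ l.length • (l.map A).prod := by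
  induction l with
  | nil => simp
  | cons s l ih =>
    rw [List.map_cons, List.prod_cons, ih, List.map_cons, List.prod_cons, List.length_cons,
      smul_mul_smul_comm, pow_succ']

theorem tw_smul {R : Type*} [CommRing R] (f : k →+* R) (Φ : β → σ → Matrix ι ι k) (t : R)
    (x : β → R) (l : List σ) : tw f Φ (fun i => t * x i) l = t ^ l.length * tw f Φ x l := by
  have h1 : (lc f Φ fun i => t * x i) = fun s => t • lc f Φ x s := by
    funext s
    exact lc_smul f Φ t x s
  rw [tw, tw, h1, prod_smul, Matrix.trace_smul, smul_eq_mul]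

/-- `c = 0` if all long words in `∑ c_i Φ_i` vanish, over all extensions `κ` of `k` -/
def NilZ (Φ : β → σ → Matrix ι ι k) : Prop :=
  ∀ (κ : Type) [Field κ] (f : k →+* κ) (c : β → κ),
    (∃ m, ∀ l : List σ, m ≤ l.length → (l.map (lc f Φ c)).prod = 0) → c = 0

/-- **properness**: the coordinates lie in every valuation ring containing the trace invariants -/
theorem mem_valuation [CharZero k] {Φ : β → σ → Matrix ι ι k} (hΦ : NilZ Φ)
    {L : Type} [Field L] (f : k →+* L) (x : β → L) {m : ℕ} (V : ValuationSubring L)
    (hf : ∀ a, f a ∈ V) (ht : ∀ l : List σ, m ≤ l.length → tw f Φ x l ∈ V) (i : β) : x i ∈ V := by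
  by_contra hi
  have : Nonempty β := ⟨i⟩
  obtain ⟨i0, hi0⟩ := Finite.exists_max fun i => V.valuation (x i)
  have h1 : 1 < V.valuation (x i0) := by
    refine lt_of_lt_of_le ?_ (hi0 i)
    rw [← not_le]
    intro h
    exact hi ((V.valuation_le_one_iff _).1 h)
  have hx0 : x i0 ≠ 0 := by
    intro h
    rw [h, map_zero] at h1
    exact not_lt_zero h1
  have hv : ∀ j, (x i0)⁻¹ * x j ∈ V := by
    intro j
    rw [← V.valuation_le_one_iff, map_mul, map_inv₀, mul_comm, ← div_eq_mul_inv]
    exact div_le_one_of_le₀ (hi0 j) zero_le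
  let f' : k →+* V := f.codRestrict V.toSubring hf
  let y : β → V := fun j => ⟨(x i0)⁻¹ * x j, hv j⟩
  have hy : ∀ l : List σ, ((tw f' Φ y l : V) : L) = (x i0)⁻¹ ^ l.length * tw f Φ x l := by
    intro l
    rw [← tw_smul]
    exact tw_map f' V.subtype Φ y l
  have hinv : V.valuation (x i0)⁻¹ < 1 := by
    rw [map_inv₀]
    exact inv_lt_one_of_one_lt₀ h1
  have hres : ∀ l : List σ, m + 1 ≤ l.length → IsLocalRing.residue V (tw f' Φ y l) = 0 := by
    intro l hl
    rw [IsLocalRing.residue_eq_zero_iff, V.valuation_lt_one_iff, hy, map_mul, map_pow]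
    have h2 : V.valuation (tw f Φ x l) ≤ 1 := (V.valuation_le_one_iff _).2 (ht l (by omega))
    have h3 : V.valuation (x i0)⁻¹ ^ l.length < 1 := pow_lt_one₀ zero_le hinv (by omega)
    calc _ ≤ V.valuation (x i0)⁻¹ ^ l.length * 1 := by gcongr
      _ < 1 := by rwa [mul_one]
  have hc : CharZero (IsLocalRing.ResidueField V) :=
    charZero_of_injective_ringHom ((IsLocalRing.residue V).comp f').injective
  have h5 := hΦ (IsLocalRing.ResidueField V) ((IsLocalRing.residue V).comp f')
    (fun j => IsLocalRing.residue V (y j)) (words_zero_mat (m := m + 1) fun l hl => by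
      have := hres l hl
      rw [tw_map] at this
      exact this)
  have h6 := congrFun h5 i0
  have h7 : y i0 = 1 := by
    apply Subtype.ext
    exact inv_mul_cancel₀ hx0
  rw [h7, map_one] at h6
  exact one_ne_zero h6

/-- a derivation of a field of characteristic zero kills the elements integral over a subring
which it kills -/
theorem der_integral {L : Type*} [Field L] [CharZero L] (D : Derivation ℤ L L) (A : Subring L)
    (hA : ∀ a ∈ A, D a = 0) {y : L} (hy : IsIntegral A y) : D y = 0 := by
  let C : Subfield L :=
    { carrier := {z | D z = 0}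
      mul_mem' := by
        intro a b ha hb
        change D (a * b) = 0
        rw [D.leibniz, show D a = 0 from ha, show D b = 0 from hb, smul_zero, smul_zero, add_zero]
      one_mem' := D.map_one_eq_zero
      add_mem' := by
        intro a b ha hb
        change D (a + b) = 0
        rw [map_add, show D a = 0 from ha, show D b = 0 from hb, add_zero]
      zero_mem' := map_zero D
      neg_mem' := by
        intro a ha
        change D (-a) = 0
        rw [map_neg, show D a = 0 from ha, neg_zero]
      inv_mem' := by
        intro a ha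
        change D (a⁻¹) = 0
        rw [Derivation.leibniz_inv, show D a = 0 from ha, smul_zero] }
  have hint : IsIntegral C y := by
    obtain ⟨p, hp, hp0⟩ := hy
    refine ⟨p.map (Subring.inclusion (S := A) (T := C.toSubring) hA), hp.map _, ?_⟩
    rw [Polynomial.eval₂_map]
    exact hp0
  let D' : Derivation C L L := 
    { toFun := D
      map_add' := map_add D
      map_smul' := by
        intro c z
        rw [Subfield.smul_def, smul_eq_mul, D.leibniz, show D (c : L) = 0 from c.2, smul_zero,
          add_zero]
        rfl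
      map_one_eq_zero' := D.map_one_eq_zero
      leibniz' := D.leibniz }
  have h1 := D'.map_aeval (minpoly C y) y
  rw [minpoly.aeval, map_zero] at h1
  have h2 : aeval y (derivative (minpoly C y)) ≠ 0 :=
    (minpoly.irreducible hint).separable.aeval_derivative_ne_zero (minpoly.aeval _ _)
  exact (smul_eq_zero.1 h1.symm).resolve_left h2

theorem map_mul_der {L : Type*} [CommRing L] (D : Derivation ℤ L L) (A B : Matrix ι ι L) :
    (A * B).map D = A * B.map D + A.map D * B := by
  ext a b
  simp only [Matrix.map_apply, Matrix.mul_apply, Matrix.add_apply, map_sum, D.leibniz,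
    smul_eq_mul, Finset.sum_add_distrib]
  congr 1
  exact Finset.sum_congr rfl fun j _ => mul_comm _ _

/-- the derivative of the trace of a word -/
theorem der_tw {L : Type*} [CommRing L] (D : Derivation ℤ L L) {A P : σ → Matrix ι ι L}
    (hP : ∀ s, (A s).map D = P s) {m : ℕ}
    (h : ∀ s, ∀ l : List σ, m ≤ l.length → Matrix.trace (P s * (l.map A).prod) = 0)
    (l : List σ) (hl : m + 1 ≤ l.length) : D (Matrix.trace (l.map A).prod) = 0 := by
  have key : ∀ l2 l1 : List σ, m + 1 ≤ l1.length + l2.length →
      Matrix.trace ((l1.map A).prod * ((l2.map A).prod).map D) = 0 := by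
    intro l2
    induction l2 with
    | nil =>
      intro l1 _
      have : ((1 : Matrix ι ι L)).map D = 0 := by
        ext a b
        rw [Matrix.map_apply, Matrix.one_apply]
        split_ifs
        · rw [D.map_one_eq_zero]; rfl
        · rw [map_zero]; rfl
      rw [List.map_nil, List.prod_nil, this, Matrix.mul_zero, Matrix.trace_zero]
    | cons s l2 ih =>
      intro l1 hl1
      rw [List.length_cons] at hl1
      rw [List.map_cons, List.prod_cons, map_mul_der, hP, Matrix.mul_add, Matrix.trace_add]
      have h1 : Matrix.trace ((l1.map A).prod * (A s * ((l2.map A).prod).map D)) = 0 := by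
        have := ih (l1 ++ [s]) (by rw [List.length_append, List.length_singleton]; omega)
        rw [List.map_append, List.prod_append, List.map_singleton, List.prod_singleton,
          Matrix.mul_assoc] at this
        exact this
      have h2 : Matrix.trace ((l1.map A).prod * (P s * (l2.map A).prod)) = 0 := by
        rw [Matrix.trace_mul_comm, Matrix.mul_assoc, ← List.prod_append, ← List.map_append]
        exact h s _ (by rw [List.length_append]; omega)
      rw [h1, h2, add_zero]
  have h3 := key l [] (by rw [List.length_nil]; omega)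
  rw [List.map_nil, List.prod_nil, Matrix.one_mul, Matrix.trace] at h3
  rw [Matrix.trace, map_sum]
  exact h3

/-- **(INJ)** finiteness of the trace invariants: if `NilZ Φ` then a derivation `D` (trivial on
`k`) of an extension `L` with `tr(Ψ_s w) = 0` for all long words `w` kills the coordinates. -/
theorem inj [CharZero k] {Φ : β → σ → Matrix ι ι k} (hΦ : NilZ Φ)
    {L : Type} [Field L] (f : k →+* L) (x : β → L) (D : Derivation ℤ L L)
    (hD : ∀ a, D (f a) = 0) {m : ℕ}
    (h : ∀ s, ∀ l : List σ, m ≤ l.length →
      Matrix.trace (lc f Φ (fun i => D (x i)) s * (l.map (lc f Φ x)).prod) = 0) (i : β) :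
    D (x i) = 0 := by
  have : CharZero L := charZero_of_injective_ringHom f.injective
  have hP : ∀ s, (lc f Φ x s).map D = lc f Φ (fun i => D (x i)) s := by
    intro s
    ext a b
    simp only [lc, Matrix.map_apply, Matrix.sum_apply, Matrix.smul_apply, map_sum, smul_eq_mul,
      D.leibniz, hD, mul_zero, zero_add]
    exact Finset.sum_congr rfl fun j _ => mul_comm _ _
  let s : Set L := Set.range f ∪ {t | ∃ l : List σ, m + 1 ≤ l.length ∧ t = tw f Φ x l}
  have h1 : x i ∈ (⨅ V : {V : ValuationSubring L // s ⊆ V.toSubring}, V.1.toSubring) := by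
    rw [Subring.mem_iInf]
    rintro ⟨V, hV⟩
    exact mem_valuation hΦ f x (m := m + 1) V (fun a => hV (Or.inl ⟨a, rfl⟩))
      (fun l hl => hV (Or.inr ⟨l, hl, rfl⟩)) i
  rw [iInf_valuationSubring_superset] at h1
  refine der_integral D (Subring.closure s) (fun a ha => ?_) h1
  induction ha using Subring.closure_induction with
  | mem z hz =>
    rcases hz with ⟨a, rfl⟩ | ⟨l, hl, rfl⟩
    · exact hD a
    · exact der_tw D hP h l hl
  | zero => exact map_zero D
  | one => exact D.map_one_eq_zero
  | add a b _ _ ha hb => rw [map_add, ha, hb, add_zero]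
  | neg a _ ha => rw [map_neg, ha, neg_zero]
  | mul a b _ _ ha hb => rw [D.leibniz, ha, hb, smul_zero, smul_zero, add_zero]

end Mat

end Crest.Agent.R172.TI
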