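import Mathlib
import Crest.Agent.R172.TInj

/-!
# `Hom_A(P_l, P_l') = 0` at ratio `1`, from one vertical derivation

`nab : V →+ V` with `nab (a • v) = del a • v + a • nab v` and `nab (A s v) = A s (nab v) + kap • A s v`.
* `eig_weight` : an eigenvalue `θ` of an operator `w` with `nab (w v) = w (nab v) + kap • w v`
  satisfies `del θ = kap * θ`.
* `hom_zero_of_eig` : `V1` perfect, the words of `V1` and `V2` have no common non-zero eigenvalue
  `⟹` every intertwiner `V1 → V2` is zero.
* `hom_zero` : weights `kap1 ≠ kap2`.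
* `eig_of_surj`, `no_eig_iSup`, `hom_zero_target` : quotients, sums, general target.
-/

set_option linter.unusedSectionVars false

namespace Crest.Agent.R172.HomD

open Module

variable {K : Type*} [Field K] [CharZero K]
variable {V : Type*} [AddCommGroup V] [Module K V] [FiniteDimensional K V]

/-- **Lemma E** -/
theorem eig_weight (del : K → K) (nab : V →+ V)
    (hL : ∀ (a : K) (v : V), nab (a • v) = del a • v + a • nab v)
    (w : End K V) (kap : K) (hw : ∀ v, nab (w v) = w (nab v) + kap • w v)
    {θ : K} {v0 : V} (hv0 : v0 ≠ 0) (hθ : w v0 = θ • v0) : del θ = kap * θ := by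
  by_contra hne
  set β : K := del θ - kap * θ with hβ
  have hβ0 : β ≠ 0 := sub_ne_zero.2 hne
  set n : End K V := w - θ • (1 : End K V) with hn
  have hn1 : ∀ u, nab (n u) = n (nab u) + kap • n u - β • u := by
    intro u
    simp only [hn, hβ, LinearMap.sub_apply, LinearMap.smul_apply, Module.End.one_apply, map_sub,
      hw, hL]
    module
  have hnr : ∀ (r : ℕ) (u : V), nab ((n ^ (r + 1)) u) =
      (n ^ (r + 1)) (nab u) + (((r : K) + 1) * kap) • (n ^ (r + 1)) u
        - (((r : K) + 1) * β) • (n ^ r) u := by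
    intro r
    induction r with
    | zero => intro u; simpa using hn1 u
    | succ r ih =>
      intro u
      rw [pow_succ' n (r + 1), Module.End.mul_apply, hn1, ih u, Module.End.mul_apply]
      rw [map_sub, map_add, map_smul, map_smul, ← Module.End.mul_apply n (n ^ r) u,
        ← pow_succ' n r]
      push_cast
      module
  have hmem : ∀ r : ℕ, v0 ∈ LinearMap.range (n ^ r) := by
    intro r
    induction r with
    | zero => exact ⟨v0, by simp⟩
    | succ r ih =>
      obtain ⟨u, hu⟩ := ih
      have h0 : (n ^ (r + 1)) u = 0 := by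
        rw [pow_succ', Module.End.mul_apply, hu, hn]
        simp [hθ]
      have h1 := hnr r u
      rw [h0, map_zero, smul_zero, add_zero, hu] at h1
      have h2 : (((r : K) + 1) * β) • v0 = (n ^ (r + 1)) (nab u) := (sub_eq_zero.1 h1.symm).symm
      have h3 : ((r : K) + 1) * β ≠ 0 := mul_ne_zero (by exact_mod_cast r.succ_ne_zero) hβ0
      refine ⟨(((r : K) + 1) * β)⁻¹ • nab u, ?_⟩
      rw [map_smul, ← h2, smul_smul, inv_mul_cancel₀ h3, one_smul]
  have hc := LinearMap.isCompl_iSup_ker_pow_iInf_range_pow n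
  have h1 : v0 ∈ ⨅ r, LinearMap.range (n ^ r) := by
    rw [Submodule.mem_iInf]; exact hmem
  have h2 : v0 ∈ ⨆ r, LinearMap.ker (n ^ r) := by
    refine Submodule.mem_iSup_of_mem 1 ?_
    rw [pow_one, LinearMap.mem_ker, hn]
    simp [hθ]
  have h3 := hc.disjoint.le_bot ⟨h2, h1⟩
  exact hv0 ((Submodule.mem_bot K).1 h3)

variable {σ : Type*}

/-- weight of a word -/
theorem word_weight (nab : V →+ V) {A : σ → End K V} {kap : K}
    (hA : ∀ s v, nab (A s v) = A s (nab v) + kap • A s v) (l : List σ) (v : V) :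
    nab ((l.map A).prod v) = (l.map A).prod (nab v) + ((l.length : K) * kap) • (l.map A).prod v := by
  induction l with
  | nil => simp
  | cons s l ih =>
    rw [List.map_cons, List.prod_cons, Module.End.mul_apply, hA, ih, Module.End.mul_apply, map_add,
      map_smul, List.length_cons]
    push_cast
    module

/-- weight of a word on a stable subspace -/
theorem word_weight_on (nab : V →+ V) {A : σ → End K V} {kap : K} {P : Submodule K V}
    (hP : ∀ s, ∀ v ∈ P, A s v ∈ P)
    (hA : ∀ s, ∀ v ∈ P, nab (A s v) = A s (nab v) + kap • A s v) (l : List σ) :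
    ∀ v ∈ P, (l.map A).prod v ∈ P ∧
    nab ((l.map A).prod v) = (l.map A).prod (nab v) + ((l.length : K) * kap) • (l.map A).prod v := by
  induction l with
  | nil => intro v hv; simpa using hv
  | cons s l ih =>
    intro v hv
    obtain ⟨h1, h2⟩ := ih v hv
    refine ⟨?_, ?_⟩
    · rw [List.map_cons, List.prod_cons, Module.End.mul_apply]; exact hP s _ h1
    · rw [List.map_cons, List.prod_cons, Module.End.mul_apply, hA s _ h1, h2,
        Module.End.mul_apply, map_add, map_smul, List.length_cons]
      push_cast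
      module

variable {V1 V2 : Type*} [AddCommGroup V1] [Module K V1] [FiniteDimensional K V1]
  [AddCommGroup V2] [Module K V2] [FiniteDimensional K V2]

/-- eigenvalues of a quotient are eigenvalues -/
theorem eig_of_surj {w : End K V1} {w' : End K V2} {π : V1 →ₗ[K] V2}
    (hπ : Function.Surjective π) (hw : ∀ v, π (w v) = w' (π v)) {θ : K} {v' : V2} (hv' : v' ≠ 0)
    (h : w' v' = θ • v') : ∃ v, v ≠ 0 ∧ w v = θ • v := by
  by_contra hcon
  push Not at hcon
  set n : End K V1 := w - θ • (1 : End K V1) with hn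
  have hinj : Function.Injective n := by
    rw [injective_iff_map_eq_zero]
    intro v hv
    by_contra hv0
    refine hcon v hv0 ?_
    rw [hn] at hv
    simpa [sub_eq_zero] using hv
  have hsurj : Function.Surjective n := LinearMap.injective_iff_surjective.1 hinj
  have hsurj' : Function.Surjective (w' - θ • (1 : End K V2)) := by
    intro y
    obtain ⟨x, rfl⟩ := hπ y
    obtain ⟨u, rfl⟩ := hsurj x
    refine ⟨π u, ?_⟩
    simp [hn, hw]
  have hinj' := LinearMap.injective_iff_surjective.2 hsurj'
  refine hv' (hinj' ?_)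
  simp [h]

/-- no eigenvector in each of the stable subspaces `P j` `⟹` no eigenvector in their sum -/
theorem no_eig_iSup {J : Type*} {w : End K V} {θ : K} {P : J → Submodule K V}
    (hP : ∀ j, ∀ v ∈ P j, w v ∈ P j) (h : ∀ j, ∀ v ∈ P j, w v = θ • v → v = 0) {v : V}
    (hv : v ∈ ⨆ j, P j) (hθ : w v = θ • v) : v = 0 := by
  set n : End K V := w - θ • (1 : End K V) with hn
  have hstab : ∀ j, ∀ v ∈ P j, n v ∈ P j := fun j v hv => by
    rw [hn]
    exact (P j).sub_mem (hP j v hv) (by simpa using (P j).smul_mem θ hv)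
  have hle : ∀ j, P j ≤ (P j).map n := by
    intro j
    set m : End K (P j) := n.restrict (hstab j) with hm
    have hinj : Function.Injective m := by
      rw [injective_iff_map_eq_zero]
      intro x hx
      have h1 : n x = 0 := by
        have := congrArg Subtype.val hx
        simpa [hm] using this
      apply Subtype.ext
      refine h j x x.2 ?_
      rw [hn] at h1
      simpa [sub_eq_zero] using h1
    have hsurj := LinearMap.injective_iff_surjective.1 hinj
    intro x hx
    obtain ⟨y, hy⟩ := hsurj ⟨x, hx⟩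
    refine ⟨y, y.2, ?_⟩
    have := congrArg Subtype.val hy
    simpa [hm] using this
  have hS : ∀ v ∈ ⨆ j, P j, n v ∈ ⨆ j, P j := by
    intro v hv
    have : (⨆ j, P j) ≤ (⨆ j, P j).comap n := iSup_le fun j x hx =>
      Submodule.mem_iSup_of_mem j (hstab j x hx)
    exact this hv
  set S := ⨆ j, P j with hSdef
  set m : End K S := n.restrict hS with hm
  have hsurj : Function.Surjective m := by
    intro y
    have h1 : S ≤ S.map n := by
      rw [hSdef, Submodule.map_iSup]
      exact iSup_mono hle
    obtain ⟨x, hx, hxy⟩ := h1 y.2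
    exact ⟨⟨x, hx⟩, Subtype.ext (by simpa [hm] using hxy)⟩
  have hinj := LinearMap.injective_iff_surjective.2 hsurj
  have h2 : m ⟨v, hv⟩ = m 0 := by
    apply Subtype.ext
    simp [hm, hn, hθ]
  exact congrArg Subtype.val (hinj h2)

/-- words commute with an intertwiner -/
theorem word_inter {A1 : σ → End K V1} {A2 : σ → End K V2} {z : V1 →ₗ[K] V2}
    (hz : ∀ s v, z (A1 s v) = A2 s (z v)) (l : List σ) (v : V1) :
    z ((l.map A1).prod v) = (l.map A2).prod (z v) := by
  induction l generalizing v with
  | nil => simp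
  | cons s l ih =>
    rw [List.map_cons, List.prod_cons, Module.End.mul_apply, hz, ih, List.map_cons,
      List.prod_cons, Module.End.mul_apply]

/-- the long words of a perfect module span it -/
theorem perfect_words {A : σ → End K V} {P : Submodule K V}
    (hP : P ≤ ⨆ s, P.map (A s)) (m : ℕ) :
    P ≤ Submodule.span K {x | ∃ l : List σ, l.length = m ∧ ∃ v ∈ P, x = (l.map A).prod v} := by
  induction m with
  | zero =>
    intro x hx
    exact Submodule.subset_span ⟨[], rfl, x, hx, by simp⟩
  | succ m ih =>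
    refine hP.trans (iSup_le fun s => ?_)
    rw [Submodule.map_le_iff_le_comap]
    refine ih.trans (Submodule.span_le.2 ?_)
    rintro x ⟨l, hl, v, hv, rfl⟩
    refine Submodule.subset_span ⟨s :: l, by simp [hl], v, hv, ?_⟩
    rw [List.map_cons, List.prod_cons, Module.End.mul_apply]

/-- an operator with non-zero trace has a non-zero eigenvalue -/
theorem exists_eig [IsAlgClosed K] {w : End K V} (h : LinearMap.trace K V w ≠ 0) :
    ∃ θ : K, θ ≠ 0 ∧ ∃ v, v ≠ 0 ∧ w v = θ • v := by
  have h1 : LinearMap.trace K V w = (w.charpoly).roots.sum :=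
    Module.End.trace_eq_sum_roots_charpoly_of_splits (IsAlgClosed.splits _)
  have h2 : ∃ θ ∈ w.charpoly.roots, θ ≠ 0 := by
    by_contra hcon
    push Not at hcon
    exact h (h1.trans (Multiset.sum_eq_zero hcon))
  obtain ⟨θ, hθ, hθ0⟩ := h2
  have h3 : Module.End.HasEigenvalue w θ :=
    (Module.End.hasEigenvalue_iff_isRoot_charpoly w θ).2
      ((Polynomial.mem_roots w.charpoly_monic.ne_zero).1 hθ)
  obtain ⟨v, hv⟩ := h3.exists_hasEigenvector
  exact ⟨θ, hθ0, v, hv.2, Module.End.mem_eigenspace_iff.1 hv.1⟩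

/-- **No common non-zero eigenvalue `⟹` no intertwiner** from a perfect module. -/
theorem hom_zero_of_eig [IsAlgClosed K] {A1 : σ → End K V1} {A2 : σ → End K V2}
    {z : V1 →ₗ[K] V2} (hperf : ⨆ s, LinearMap.range (A1 s) = ⊤)
    (hz : ∀ s v, z (A1 s v) = A2 s (z v))
    (heig : ∀ l : List σ, l ≠ [] → ∀ θ : K, θ ≠ 0 → ∀ v1, v1 ≠ 0 →
      (l.map A1).prod v1 = θ • v1 → ∀ v2, v2 ≠ 0 → (l.map A2).prod v2 = θ • v2 → False) :
    z = 0 := by
  classical
  have hI : ∀ s, ∀ y ∈ LinearMap.range z, A2 s y ∈ LinearMap.range z := by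
    rintro s _ ⟨x, rfl⟩
    exact ⟨A1 s x, hz s x⟩
  set AI : σ → End K (LinearMap.range z) := fun s => (A2 s).restrict (hI s) with hAI
  set zI : V1 →ₗ[K] LinearMap.range z := z.rangeRestrict with hzI
  have hzIs : Function.Surjective zI := LinearMap.surjective_rangeRestrict z
  have hzz : ∀ s v, zI (A1 s v) = AI s (zI v) := fun s v => Subtype.ext (by
    simpa [hzI, hAI] using hz s v)
  have hincl : ∀ s (y : LinearMap.range z), (LinearMap.range z).subtype (AI s y)
      = A2 s ((LinearMap.range z).subtype y) := fun s y => by simp [hAI]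
  have htr : ∀ l : List σ, 1 ≤ l.length → LinearMap.trace K _ (l.map AI).prod = 0 := by
    intro l hl
    by_contra hne
    obtain ⟨θ, hθ, y, hy, hyθ⟩ := exists_eig hne
    obtain ⟨v1, hv1, hv1θ⟩ := eig_of_surj (w := (l.map A1).prod) (w' := (l.map AI).prod) hzIs
      (fun v => word_inter hzz l v) hy hyθ
    refine heig l (by rintro rfl; simp at hl) θ hθ v1 hv1 hv1θ (y : V2)
      (fun h => hy (Subtype.ext h)) ?_
    have h1 := word_inter hincl l y
    rw [hyθ] at h1
    simpa using h1.symm
  obtain ⟨M, hM⟩ := TI.words_zero htr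
  have hpf : (⊤ : Submodule K V1) ≤ ⨆ s, (⊤ : Submodule K V1).map (A1 s) :=
    hperf.ge.trans (le_of_eq (by simp only [LinearMap.range_eq_map]))
  have h1 : (⊤ : Submodule K V1) ≤ LinearMap.ker z := by
    refine (perfect_words hpf M).trans (Submodule.span_le.2 ?_)
    rintro x ⟨l, hl, v, -, rfl⟩
    have h2 : zI ((l.map A1).prod v) = 0 := by
      rw [word_inter hzz, hM l hl.ge, LinearMap.zero_apply]
    exact congrArg Subtype.val h2
  exact LinearMap.ker_eq_top.1 (top_le_iff.1 h1)

/-- **`Hom = 0` for different weights**. -/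
theorem hom_zero [IsAlgClosed K] {del : K → K} {A1 : σ → End K V1} {A2 : σ → End K V2}
    {z : V1 →ₗ[K] V2} (hperf : ⨆ s, LinearMap.range (A1 s) = ⊤)
    (hz : ∀ s v, z (A1 s v) = A2 s (z v))
    (n1 : V1 →+ V1) (hL1 : ∀ (a : K) (v : V1), n1 (a • v) = del a • v + a • n1 v)
    (n2 : V2 →+ V2) (hL2 : ∀ (a : K) (v : V2), n2 (a • v) = del a • v + a • n2 v)
    {k1 k2 : K} (hA1 : ∀ s v, n1 (A1 s v) = A1 s (n1 v) + k1 • A1 s v)
    (hA2 : ∀ s v, n2 (A2 s v) = A2 s (n2 v) + k2 • A2 s v) (hk : k1 ≠ k2) : z = 0 := by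
  refine hom_zero_of_eig hperf hz fun l hl θ hθ v1 hv1 h1 v2 hv2 h2 => hk ?_
  have e1 := eig_weight del n1 hL1 _ _ (word_weight n1 hA1 l) hv1 h1
  have e2 := eig_weight del n2 hL2 _ _ (word_weight n2 hA2 l) hv2 h2
  have h3 : (l.length : K) ≠ 0 := by
    rw [Nat.cast_ne_zero]
    simpa using hl
  rw [e1] at e2
  exact mul_left_cancel₀ h3 (mul_right_cancel₀ hθ e2)

/-- **General target**: `P i ⊆ V` perfect; `z : P i → V'` intertwines `A` and `A'`; the long words
of `V'` have values in the sum of the images of the `P j`, `j ≠ i` (weights `kap j ≠ kap i`). -/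
theorem hom_zero_target [IsAlgClosed K] {del : K → K} {J : Type*} {A : σ → End K V}
    {P : J → Submodule K V} {kap : J → K} (nab : V →+ V)
    (hL : ∀ (a : K) (v : V), nab (a • v) = del a • v + a • nab v)
    (hP : ∀ j s, ∀ v ∈ P j, A s v ∈ P j) (hnP : ∀ j, ∀ v ∈ P j, nab v ∈ P j)
    (hA : ∀ j s, ∀ v ∈ P j, nab (A s v) = A s (nab v) + kap j • A s v)
    {i : J} (hperf : P i ≤ ⨆ s, (P i).map (A s)) (hk : ∀ j, j ≠ i → kap j ≠ kap i)
    {V' : Type*} [AddCommGroup V'] [Module K V'] [FiniteDimensional K V'] {A' : σ → End K V'}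
    {π : V →ₗ[K] V'} (hπ : ∀ s v, π (A s v) = A' s (π v)) {m : ℕ}
    (hm : ∀ l : List σ, l.length = m → ∀ v, (l.map A').prod v ∈ ⨆ j : {j // j ≠ i}, (P j).map π)
    (z : P i →ₗ[K] V') (hz : ∀ s (v : P i), z ⟨A s v, hP i s v v.2⟩ = A' s (z v)) : z = 0 := by
  classical
  set T : Submodule K V' := ⨆ j : {j // j ≠ i}, (P j).map π with hT
  set A1 : σ → End K (P i) := fun s => (A s).restrict (hP i s) with hA1
  have hz' : ∀ s v, z (A1 s v) = A' s (z v) := fun s v => hz s v
  have hpf : (⊤ : Submodule K (P i)) ≤ ⨆ s, (⊤ : Submodule K (P i)).map (A1 s) := by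
    intro x _
    have h1 := hperf x.2
    have h2 : (⨆ s, (⊤ : Submodule K (P i)).map (A1 s)).map (P i).subtype
        = ⨆ s, (P i).map (A s) := by
      rw [Submodule.map_iSup]
      congr 1
      funext s
      ext y
      constructor
      · rintro ⟨_, ⟨u, -, rfl⟩, rfl⟩
        exact ⟨u, u.2, rfl⟩
      · rintro ⟨u, hu, rfl⟩
        exact ⟨A1 s ⟨u, hu⟩, ⟨⟨u, hu⟩, trivial, rfl⟩, rfl⟩
    rw [← h2] at h1
    obtain ⟨y, hy, hyx⟩ := h1
    rwa [← (P i).injective_subtype hyx]
  have hperf1 : ⨆ s, LinearMap.range (A1 s) = ⊤ := by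
    rw [eq_top_iff]
    refine hpf.trans (le_of_eq ?_)
    simp only [LinearMap.range_eq_map]
  -- the image is in `T`
  have hzT : ∀ v, z v ∈ T := by
    intro v
    have h1 := (perfect_words hpf m) (Submodule.mem_top (x := v))
    have h2 : Submodule.span K {x | ∃ l : List σ, l.length = m ∧ ∃ v ∈ (⊤ : Submodule K (P i)),
        x = (l.map A1).prod v} ≤ T.comap z := by
      refine Submodule.span_le.2 ?_
      rintro x ⟨l, hl, v, -, rfl⟩
      change z _ ∈ T
      rw [word_inter hz']
      exact hm l hl _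
    exact h2 h1
  have hTs : ∀ s, ∀ y ∈ T, A' s y ∈ T := by
    intro s
    have : T ≤ T.comap (A' s) := by
      rw [hT]
      refine iSup_le fun j => ?_
      rintro _ ⟨u, hu, rfl⟩
      refine Submodule.mem_iSup_of_mem j ⟨A s u, hP j s u hu, hπ s u⟩
    exact this
  set A2 : σ → End K T := fun s => (A' s).restrict (hTs s) with hA2
  set z2 : P i →ₗ[K] T := z.codRestrict T hzT with hz2
  have hz2z : z2 = 0 := by
    refine hom_zero_of_eig (A2 := A2) hperf1 (fun s v => Subtype.ext (hz' s v)) ?_
    intro l hl θ hθ v1 hv1 h1 v2 hv2 h2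
    -- eigenvector in `P i`
    have hwi : ∀ l : List σ, ∀ v : P i, (((l.map A1).prod v : P i) : V) = (l.map A).prod v :=
      fun l v => word_inter (z := (P i).subtype) (A1 := A1) (A2 := A) (fun s v => rfl) l v
    have hwT : ∀ l : List σ, ∀ v : T, (((l.map A2).prod v : T) : V') = (l.map A').prod v :=
      fun l v => word_inter (z := T.subtype) (A1 := A2) (A2 := A') (fun s v => rfl) l v
    -- weights on every `P j`
    have hwt : ∀ j, ∀ v ∈ P j, v ≠ 0 → (l.map A).prod v = θ • v →
        del θ = ((l.length : K) * kap j) * θ := by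
      intro j v hv hv0 hvθ
      set nj : P j →+ P j :=
        { toFun := fun v => ⟨nab v, hnP j v v.2⟩
          map_zero' := Subtype.ext (by simp)
          map_add' := fun a b => Subtype.ext (by simp) } with hnj
      have hws := word_weight_on nab (fun s v hv => hP j s v hv) (hA j) l
      refine eig_weight (V := P j) del nj (fun a v => Subtype.ext (by
        simp [hnj, hL])) (((l.map A).prod).restrict (fun v hv => (hws v hv).1)) _ (fun v => ?_)
        (v0 := ⟨v, hv⟩) (fun h => hv0 (congrArg Subtype.val h)) (Subtype.ext (by simpa using hvθ))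
      apply Subtype.ext
      simpa [hnj] using (hws v v.2).2
    have e1 := hwt i v1 v1.2 (fun h => hv1 (Subtype.ext h)) (by
      have := congrArg Subtype.val h1
      rw [hwi] at this
      simpa using this)
    -- `θ` is not an eigenvalue on the `P j`, `j ≠ i`
    have hno : ∀ j : {j // j ≠ i}, ∀ v ∈ P j, (l.map A).prod v = θ • v → v = 0 := by
      intro j v hv hvθ
      by_contra hv0
      have e2 := hwt j v hv hv0 hvθ
      rw [e1] at e2
      have h3 : (l.length : K) ≠ 0 := by
        rw [Nat.cast_ne_zero]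
        simpa using hl
      exact hk j j.2 (mul_left_cancel₀ h3 (mul_right_cancel₀ hθ e2)).symm
    set S : Submodule K V := ⨆ j : {j // j ≠ i}, P j with hS
    have hSs : ∀ v ∈ S, (l.map A).prod v ∈ S := by
      have : S ≤ S.comap (l.map A).prod := by
        rw [hS]
        refine iSup_le fun j v hv => Submodule.mem_iSup_of_mem j ?_
        exact (word_weight_on nab (fun s v hv => hP j s v hv) (hA j) l v hv).1
      exact this
    have hST : ∀ v ∈ S, π v ∈ T := by
      have : S ≤ T.comap π := by
        rw [hS]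
        exact iSup_le fun j v hv => Submodule.mem_iSup_of_mem j ⟨v, hv, rfl⟩
      exact this
    set πS : S →ₗ[K] T := π.restrict hST with hπS
    have hπs : Function.Surjective πS := by
      intro y
      have h4 : T ≤ S.map π := by
        rw [hT, hS, Submodule.map_iSup]
      obtain ⟨x, hx, hxy⟩ := h4 y.2
      exact ⟨⟨x, hx⟩, Subtype.ext hxy⟩
    obtain ⟨x, hx, hxθ⟩ := eig_of_surj (w := ((l.map A).prod).restrict hSs)
      (w' := (l.map A2).prod) hπs (fun v => Subtype.ext (by
        have h5 := word_inter (z := π) (A1 := A) (A2 := A') hπ l v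
        rw [hwT]
        simpa [hπS] using h5)) hv2 h2
    refine hx (Subtype.ext ?_)
    refine no_eig_iSup (P := fun j : {j // j ≠ i} => P j) (w := (l.map A).prod) (θ := θ)
      (fun j v hv => (word_weight_on nab (fun s v hv => hP j s v hv) (hA j) l v hv).1) hno x.2 ?_
    have := congrArg Subtype.val hxθ
    simpa using this
  ext v
  exact congrArg Subtype.val (LinearMap.congr_fun hz2z v)

end Crest.Agent.R172.HomD
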