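import Crest.Prelude.Def_SpinSaturation

/-!
Row 172.  Highest weight theory of `soD n` without complete reducibility:
the submodule generated by a highest weight vector, its top eigenspace is a line,
uniqueness of irreducible modules with a given highest weight.
-/

set_option autoImplicit false
set_option linter.unusedSectionVars false

open Crest.AlgebraR.SpinSaturation
open scoped Matrix

namespace Crest.Agent.R172.HwUnique

section abstractGrading

variable {L M : Type*} [LieRing L] [LieAlgebra ℂ L] [AddCommGroup M] [Module ℂ M]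
  [LieRingModule L M] [LieModule ℂ L M]

/-- the `k`-eigenspace of `ad D` -/
def Gr (D : L) (k : ℤ) : Submodule ℂ L where
  carrier := {x | ⁅D, x⁆ = (k : ℂ) • x}
  add_mem' := by
    intro x y hx hy
    simp only [Set.mem_ofPred_eq] at *
    rw [lie_add, hx, hy, smul_add]
  zero_mem' := by simp
  smul_mem' := by
    intro c x hx
    simp only [Set.mem_ofPred_eq] at *
    rw [lie_smul, hx, smul_comm]

theorem mem_Gr {D : L} {k : ℤ} {x : L} : x ∈ Gr D k ↔ ⁅D, x⁆ = (k : ℂ) • x := Iff.rfl

theorem Gr_lie {D : L} {j k : ℤ} {x y : L} (hx : x ∈ Gr D j) (hy : y ∈ Gr D k) :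
    ⁅x, y⁆ ∈ Gr D (j + k) := by
  rw [mem_Gr] at *
  rw [leibniz_lie, hx, hy, smul_lie, lie_smul, ← add_smul]
  push_cast
  rfl

/-- The `ℂ`-span of the iterated products `Y₁ ⋯ Y_k w` with `Y_i` homogeneous of negative
degree. -/
inductive IsMono (D : L) (w : M) : M → Prop
  | base : IsMono D w w
  | step (k : ℤ) (hk : k < 0) (y : L) (hy : y ∈ Gr D k) (v : M) (hv : IsMono D w v) :
      IsMono D w ⁅y, v⁆

/-- span of monomials -/
def P (D : L) (w : M) : Submodule ℂ M := Submodule.span ℂ {v | IsMono D w v}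

theorem P_neg {D : L} {w : M} {k : ℤ} (hk : k < 0) {y : L} (hy : y ∈ Gr D k) {v : M}
    (hv : v ∈ P D w) : ⁅y, v⁆ ∈ P D w := by
  unfold P at *
  induction hv using Submodule.span_induction with
  | mem x hx => exact Submodule.subset_span (IsMono.step k hk y hy x hx)
  | zero => rw [lie_zero]; exact Submodule.zero_mem _
  | add x y' _ _ h1 h2 => rw [lie_add]; exact Submodule.add_mem _ h1 h2
  | smul c x _ h => rw [lie_smul]; exact Submodule.smul_mem _ _ h

theorem P_hom {D : L} {w : M} (h0 : ∀ x ∈ Gr D 0, ∃ t : ℂ, ⁅x, w⁆ = t • w)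
    (hpos : ∀ k : ℤ, 0 < k → ∀ x ∈ Gr D k, ⁅x, w⁆ = 0) {v : M} (hv : IsMono D w v) :
    ∀ (k : ℤ) (x : L), x ∈ Gr D k → ⁅x, v⁆ ∈ P D w := by
  induction hv with
  | base =>
    intro k x hx
    rcases lt_trichotomy k 0 with hk | hk | hk
    · exact P_neg hk hx (Submodule.subset_span IsMono.base)
    · subst hk
      obtain ⟨t, ht⟩ := h0 x hx
      rw [ht]
      exact Submodule.smul_mem _ _ (Submodule.subset_span IsMono.base)
    · rw [hpos k hk x hx]
      exact Submodule.zero_mem _
  | step m hm y hy v hv ih =>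
    intro k x hx
    rw [leibniz_lie]
    refine Submodule.add_mem _ (ih _ _ (Gr_lie hx hy)) ?_
    exact P_neg hm hy (ih k x hx)

theorem P_stable {D : L} {w : M} (hG : (⨆ k, Gr D k) = ⊤)
    (h0 : ∀ x ∈ Gr D 0, ∃ t : ℂ, ⁅x, w⁆ = t • w)
    (hpos : ∀ k : ℤ, 0 < k → ∀ x ∈ Gr D k, ⁅x, w⁆ = 0) (x : L) {v : M} (hv : v ∈ P D w) :
    ⁅x, v⁆ ∈ P D w := by
  have hx : x ∈ (⨆ k, Gr D k) := by rw [hG]; trivial
  induction hx using Submodule.iSup_induction' with
  | mem k x hx =>
    unfold P at hv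
    induction hv using Submodule.span_induction with
    | mem u hu => exact P_hom h0 hpos hu k x hx
    | zero => rw [lie_zero]; exact Submodule.zero_mem _
    | add x y' _ _ h1 h2 => rw [lie_add]; exact Submodule.add_mem _ h1 h2
    | smul c x _ h => rw [lie_smul]; exact Submodule.smul_mem _ _ h
  | zero => rw [zero_lie]; exact Submodule.zero_mem _
  | add x y _ _ h1 h2 => rw [add_lie]; exact Submodule.add_mem _ h1 h2

/-- the submodule generated by `w` as a Lie submodule -/
def PLie (D : L) (w : M) (hG : (⨆ k, Gr D k) = ⊤)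
    (h0 : ∀ x ∈ Gr D 0, ∃ t : ℂ, ⁅x, w⁆ = t • w)
    (hpos : ∀ k : ℤ, 0 < k → ∀ x ∈ Gr D k, ⁅x, w⁆ = 0) : LieSubmodule ℂ L M :=
  { P D w with
    lie_mem := by
      intro x m hm
      exact P_stable hG h0 hpos x hm }

theorem lieSpan_le_P (D : L) (w : M) (hG : (⨆ k, Gr D k) = ⊤)
    (h0 : ∀ x ∈ Gr D 0, ∃ t : ℂ, ⁅x, w⁆ = t • w)
    (hpos : ∀ k : ℤ, 0 < k → ∀ x ∈ Gr D k, ⁅x, w⁆ = 0) {v : M}
    (hv : v ∈ LieSubmodule.lieSpan ℂ L ({w} : Set M)) : v ∈ P D w := by
  have : LieSubmodule.lieSpan ℂ L ({w} : Set M) ≤ PLie D w hG h0 hpos := by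
    rw [LieSubmodule.lieSpan_le]
    rintro _ rfl
    exact Submodule.subset_span IsMono.base
  exact this hv

/-- eigenspaces of `D` on `M` -/
def E (D : L) (c : ℂ) : Submodule ℂ M := Module.End.eigenspace (LieModule.toEnd ℂ L M D) c

theorem mem_E {D : L} {c : ℂ} {v : M} : v ∈ E (M := M) D c ↔ ⁅D, v⁆ = c • v := by
  unfold E
  rw [Module.End.mem_eigenspace_iff]
  rfl

theorem mono_E {D : L} {w : M} {c : ℂ} (hD : ⁅D, w⁆ = c • w) {v : M} (hv : IsMono D w v) :
    v = w ∨ ∃ m : ℤ, m < 0 ∧ v ∈ E D (c + m) := by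
  induction hv with
  | base => exact Or.inl rfl
  | step k hk y hy v hv ih =>
    right
    rcases ih with rfl | ⟨m, hm, hv⟩
    · refine ⟨k, hk, ?_⟩
      rw [mem_E, leibniz_lie, mem_Gr.1 hy, hD, smul_lie, lie_smul, ← add_smul, add_comm]
    · refine ⟨k + m, by omega, ?_⟩
      rw [mem_E] at *
      rw [leibniz_lie, mem_Gr.1 hy, hv, smul_lie, lie_smul, ← add_smul]
      push_cast
      congr 1
      ring

theorem P_le {D : L} {w : M} {c : ℂ} (hD : ⁅D, w⁆ = c • w) {v : M} (hv : v ∈ P D w) :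
    ∃ (t : ℂ) (u : M), u ∈ (⨆ z : {z : ℂ // z ≠ c}, E (M := M) D z.1) ∧ v = t • w + u := by
  unfold P at hv
  induction hv using Submodule.span_induction with
  | mem x hx =>
    rcases mono_E hD hx with rfl | ⟨m, hm, hv⟩
    · exact ⟨1, 0, Submodule.zero_mem _, by simp⟩
    · refine ⟨0, x, ?_, by simp⟩
      refine Submodule.mem_iSup_of_mem ⟨c + m, ?_⟩ hv
      intro h
      have : (m : ℂ) = 0 := by simpa using h
      have : m = 0 := by exact_mod_cast this
      omega
  | zero => exact ⟨0, 0, Submodule.zero_mem _, by simp⟩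
  | add x y _ _ h1 h2 =>
    obtain ⟨t, u, hu, rfl⟩ := h1
    obtain ⟨t', u', hu', rfl⟩ := h2
    refine ⟨t + t', u + u', Submodule.add_mem _ hu hu', ?_⟩
    rw [add_smul]; abel
  | smul a x _ h =>
    obtain ⟨t, u, hu, rfl⟩ := h
    refine ⟨a * t, a • u, Submodule.smul_mem _ _ hu, ?_⟩
    rw [smul_add, mul_smul]

/-- The top eigenspace of the module generated by a highest weight vector is a line. -/
theorem top_line {D : L} {w : M} {c : ℂ} (hD : ⁅D, w⁆ = c • w) {v : M} (hv : v ∈ P D w)
    (hv' : ⁅D, v⁆ = c • v) : ∃ t : ℂ, v = t • w := by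
  obtain ⟨t, u, hu, rfl⟩ := P_le hD hv
  refine ⟨t, ?_⟩
  have hu' : u ∈ E (M := M) D c := by
    rw [mem_E]
    rw [lie_add, lie_smul, hD, smul_add, smul_comm] at hv'
    exact add_left_cancel hv'
  have hind := Module.End.eigenspaces_iSupIndep (LieModule.toEnd ℂ L M D)
  have hdis := hind c
  have h0 : u ∈ (⊥ : Submodule ℂ M) := by
    rw [Submodule.disjoint_def] at hdis
    rw [Submodule.mem_bot]
    refine hdis u hu' ?_
    rw [iSup_subtype'] 
    exact hu
  rw [Submodule.mem_bot] at h0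
  rw [h0, add_zero]


theorem gen_mem_P (D : L) (w : M) : w ∈ P D w := Submodule.subset_span IsMono.base

theorem lieSpan_top_line {D : L} {w : M} {c : ℂ} (hG : (⨆ k, Gr D k) = ⊤)
    (hD : ⁅D, w⁆ = c • w)
    (h0 : ∀ x ∈ Gr D 0, ∃ t : ℂ, ⁅x, w⁆ = t • w)
    (hpos : ∀ k : ℤ, 0 < k → ∀ x ∈ Gr D k, ⁅x, w⁆ = 0) {v : M}
    (hv : v ∈ LieSubmodule.lieSpan ℂ L ({w} : Set M))
    (hv' : ⁅D, v⁆ = c • v) : ∃ t : ℂ, v = t • w :=
  top_line hD (lieSpan_le_P D w hG h0 hpos hv) hv'

end abstractGrading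

section product

variable {L M M' : Type*} [LieRing L] [LieAlgebra ℂ L] [AddCommGroup M] [Module ℂ M]
  [LieRingModule L M] [LieModule ℂ L M] [AddCommGroup M'] [Module ℂ M']
  [LieRingModule L M'] [LieModule ℂ L M']

/-- the product Lie module -/
@[reducible] def prodLRM : LieRingModule L (M × M') where
  bracket x m := (⁅x, m.1⁆, ⁅x, m.2⁆)
  add_lie x y m := by
    change (_, _) = _
    simp only [add_lie]
    rfl
  lie_add x m m' := by
    change (_, _) = _
    simp only [Prod.fst_add, Prod.snd_add, lie_add]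
    rfl
  leibniz_lie x y m := by
    change (_, _) = (_, _)
    simp only
    congr 1 <;> exact leibniz_lie _ _ _

attribute [local instance] prodLRM

theorem prod_lie (x : L) (m : M × M') : ⁅x, m⁆ = (⁅x, m.1⁆, ⁅x, m.2⁆) := rfl

/-- the product Lie module -/
theorem prodLM : LieModule ℂ L (M × M') where
  smul_lie t x m := by
    rw [prod_lie, prod_lie, smul_lie, smul_lie]; rfl
  lie_smul t x m := by
    rw [prod_lie, prod_lie, Prod.smul_fst, Prod.smul_snd, lie_smul, lie_smul]; rfl

attribute [local instance] prodLM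

/-- first projection -/
def fstHom : (M × M') →ₗ⁅ℂ, L⁆ M :=
  { LinearMap.fst ℂ M M' with map_lie' := by intro x m; rfl }

/-- second projection -/
def sndHom : (M × M') →ₗ⁅ℂ, L⁆ M' :=
  { LinearMap.snd ℂ M M' with map_lie' := by intro x m; rfl }

theorem unique_irrep [LieModule.IsIrreducible ℂ L M] [LieModule.IsIrreducible ℂ L M']
    (D : L) (hG : (⨆ k, Gr D k) = ⊤) (c : ℂ) (χ : L → ℂ) (w : M) (w' : M')
    (hw : w ≠ 0) (hw' : w' ≠ 0)
    (hD : ⁅D, w⁆ = c • w) (hD' : ⁅D, w'⁆ = c • w')
    (h0 : ∀ x ∈ Gr D 0, ⁅x, w⁆ = χ x • w)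
    (h0' : ∀ x ∈ Gr D 0, ⁅x, w'⁆ = χ x • w')
    (hpos : ∀ k : ℤ, 0 < k → ∀ x ∈ Gr D k, ⁅x, w⁆ = 0)
    (hpos' : ∀ k : ℤ, 0 < k → ∀ x ∈ Gr D k, ⁅x, w'⁆ = 0) :
    ∃ e : M ≃ₗ⁅ℂ, L⁆ M', e w = w' := by
  set ww : M × M' := (w, w') with hww
  set S := LieSubmodule.lieSpan ℂ L ({ww} : Set (M × M')) with hS
  have hwwS : ww ∈ S := LieSubmodule.subset_lieSpan (Set.mem_singleton _)
  have hline : ∀ v ∈ S, ⁅D, v⁆ = c • v → ∃ t : ℂ, v = t • ww := by
    intro v hv hv'
    refine lieSpan_top_line (D := D) (w := ww) (c := c) hG ?_ ?_ ?_ hv hv'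
    · rw [prod_lie, hww, hD, hD']; rfl
    · intro x hx
      refine ⟨χ x, ?_⟩
      rw [prod_lie, hww, h0 x hx, h0' x hx]; rfl
    · intro k hk x hx
      rw [prod_lie, hww, hpos k hk x hx, hpos' k hk x hx]; rfl
  let p1 : S →ₗ⁅ℂ, L⁆ M := fstHom.comp S.incl
  let p2 : S →ₗ⁅ℂ, L⁆ M' := sndHom.comp S.incl
  have p1a : ∀ s : S, p1 s = (s : M × M').1 := fun s => rfl
  have p2a : ∀ s : S, p2 s = (s : M × M').2 := fun s => rfl
  -- injectivity of the first projection
  have hsurj1 : Function.Surjective p1 := by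
    have : p1.range = ⊤ := by
      rcases eq_bot_or_eq_top p1.range with h | h
      swap
      · exact h
      exfalso
      have : p1 ⟨ww, hwwS⟩ ∈ p1.range := LieModuleHom.mem_range _ _ |>.2 ⟨_, rfl⟩
      rw [h, LieSubmodule.mem_bot] at this
      exact hw this
    intro m
    have hm : m ∈ p1.range := by rw [this]; trivial
    exact (LieModuleHom.mem_range _ _).1 hm
  have hsurj2 : Function.Surjective p2 := by
    have : p2.range = ⊤ := by
      rcases eq_bot_or_eq_top p2.range with h | h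
      swap
      · exact h
      exfalso
      have : p2 ⟨ww, hwwS⟩ ∈ p2.range := LieModuleHom.mem_range _ _ |>.2 ⟨_, rfl⟩
      rw [h, LieSubmodule.mem_bot] at this
      exact hw' this
    intro m
    have hm : m ∈ p2.range := by rw [this]; trivial
    exact (LieModuleHom.mem_range _ _).1 hm
  have hinj1 : Function.Injective p1 := by
    -- the kernel, projected to `M'`, is a submodule not containing w'
    let K : LieSubmodule ℂ L M' :=
      { carrier := {m | ((0 : M), m) ∈ S}
        add_mem' := by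
          intro a b ha hb
          have := S.add_mem ha hb
          simpa using this
        zero_mem' := S.zero_mem
        smul_mem' := by
          intro t a ha
          have := S.smul_mem t ha
          simpa using this
        lie_mem := by
          intro x m hm
          have := S.lie_mem (x := x) hm
          rw [prod_lie] at this
          simpa using this }
    have hK : K = ⊥ := by
      by_contra hne
      have htop := (eq_bot_or_eq_top K).resolve_left hne
      have hmem : w' ∈ K := by rw [htop]; trivial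
      have hmem' : ((0 : M), w') ∈ S := hmem
      obtain ⟨t, ht⟩ := hline _ hmem' (by rw [prod_lie, hD', lie_zero]; simp)
      rw [hww, Prod.smul_mk, Prod.mk.injEq] at ht
      have ht0 : t = 0 := by
        rcases smul_eq_zero.1 ht.1.symm with h | h
        · exact h
        · exact absurd h hw
      rw [ht0, zero_smul, zero_smul] at ht
      exact hw' ht.2
    rw [injective_iff_map_eq_zero]
    intro s hs
    rw [p1a] at hs
    have h2 : (s : M × M').2 ∈ K := by
      change ((0 : M), (s : M × M').2) ∈ S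
      rw [← hs]
      exact s.2
    rw [hK, LieSubmodule.mem_bot] at h2
    apply Subtype.ext
    exact Prod.ext hs h2
  have hinj2 : Function.Injective p2 := by
    let K : LieSubmodule ℂ L M :=
      { carrier := {m | (m, (0 : M')) ∈ S}
        add_mem' := by
          intro a b ha hb
          have := S.add_mem ha hb
          simpa using this
        zero_mem' := S.zero_mem
        smul_mem' := by
          intro t a ha
          have := S.smul_mem t ha
          simpa using this
        lie_mem := by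
          intro x m hm
          have := S.lie_mem (x := x) hm
          rw [prod_lie] at this
          simpa using this }
    have hK : K = ⊥ := by
      by_contra hne
      have htop := (eq_bot_or_eq_top K).resolve_left hne
      have hmem : w ∈ K := by rw [htop]; trivial
      have hmem' : (w, (0 : M')) ∈ S := hmem
      obtain ⟨t, ht⟩ := hline _ hmem' (by rw [prod_lie, hD, lie_zero]; simp)
      rw [hww, Prod.smul_mk, Prod.mk.injEq] at ht
      have ht0 : t = 0 := by
        rcases smul_eq_zero.1 ht.2.symm with h | h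
        · exact h
        · exact absurd h hw'
      rw [ht0, zero_smul, zero_smul] at ht
      exact hw ht.1
    rw [injective_iff_map_eq_zero]
    intro s hs
    rw [p2a] at hs
    have h2 : (s : M × M').1 ∈ K := by
      change ((s : M × M').1, (0 : M')) ∈ S
      rw [← hs]
      exact s.2
    rw [hK, LieSubmodule.mem_bot] at h2
    apply Subtype.ext
    exact Prod.ext h2 hs
  let e1 : S ≃ₗ⁅ℂ, L⁆ M :=
    { p1 with
      invFun := (LinearEquiv.ofBijective (p1 : S →ₗ[ℂ] M) ⟨hinj1, hsurj1⟩).symm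
      left_inv := (LinearEquiv.ofBijective (p1 : S →ₗ[ℂ] M) ⟨hinj1, hsurj1⟩).left_inv
      right_inv := (LinearEquiv.ofBijective (p1 : S →ₗ[ℂ] M) ⟨hinj1, hsurj1⟩).right_inv }
  let e2 : S ≃ₗ⁅ℂ, L⁆ M' :=
    { p2 with
      invFun := (LinearEquiv.ofBijective (p2 : S →ₗ[ℂ] M') ⟨hinj2, hsurj2⟩).symm
      left_inv := (LinearEquiv.ofBijective (p2 : S →ₗ[ℂ] M') ⟨hinj2, hsurj2⟩).left_inv
      right_inv := (LinearEquiv.ofBijective (p2 : S →ₗ[ℂ] M') ⟨hinj2, hsurj2⟩).right_inv }
  refine ⟨e1.symm.trans e2, ?_⟩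
  have h1 : e1 ⟨ww, hwwS⟩ = w := rfl
  have h2 : e2 ⟨ww, hwwS⟩ = w' := rfl
  have h3 : e1.symm w = ⟨ww, hwwS⟩ := by
    rw [← h1]; exact e1.symm_apply_apply _
  change e2 (e1.symm w) = w'
  rw [h3, h2]

end product

end Crest.Agent.R172.HwUnique
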