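import Crest.Agent.R172.NilPat2

/-!
Row 172, node NILC: (P5) a chain of isotropic subspaces as a self-dual weighted flag.
-/

set_option autoImplicit false
set_option linter.unusedSectionVars false
set_option linter.unusedSimpArgs false

namespace Crest.Agent.R172.NilPat

open Module Crest.Agent.R172.Kempf

variable {K V ι κ : Type*} [Field K] [AddCommGroup V] [Module K V] [Fintype ι] [DecidableEq ι]

/-- Adapted basis of a chain of subspaces. -/
theorem exists_adapted_chain (e : Basis ι K V) (C : ℕ → Submodule K V) (hmono : Monotone C)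
    (h0 : C 0 = ⊥) (p : ℕ) (hp : C p = ⊤) :
    ∃ (g : Basis ι K V) (lev : ι → ℕ), (∀ i, 1 ≤ lev i) ∧ (∀ i, lev i ≤ p) ∧
      ∀ j, C j = Submodule.span K (g '' {i | lev i ≤ j}) := by
  classical
  -- increasing sequence of linearly independent sets
  let P : ℕ → Set V → Prop := fun j s => LinearIndepOn K id s ∧ Submodule.span K s = C j
  have hstep : ∀ j s, P j s → ∃ t, P (j + 1) t ∧ s ⊆ t := by
    rintro j s ⟨hs1, hs2⟩
    have hst : s ⊆ (C (j + 1) : Set V) := by
      intro x hx
      exact hmono (Nat.le_succ j) (by rw [← hs2]; exact Submodule.subset_span hx)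
    obtain ⟨t, ht1, ht2, ht3, ht4⟩ := exists_linearIndepOn_id_extension hs1 hst
    refine ⟨t, ⟨ht4, le_antisymm ?_ ?_⟩, ht2⟩
    · rw [Submodule.span_le]; exact ht1
    · exact ht3
  let T : (j : ℕ) → {s : Set V // P j s} := fun j => Nat.rec
    ⟨∅, ⟨linearIndepOn_empty K _, by rw [Submodule.span_empty, h0]⟩⟩
    (fun j s => ⟨(hstep j s.1 s.2).choose, (hstep j s.1 s.2).choose_spec.1⟩) j
  have hT : ∀ j, (T j).1 ⊆ (T (j + 1)).1 := fun j =>
    (hstep j (T j).1 (T j).2).choose_spec.2
  have hTm : Monotone fun j => (T j).1 := monotone_nat_of_le_succ hT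
  have hT0 : (T 0).1 = ∅ := rfl
  -- the basis
  have hli : LinearIndependent K (fun x : (T p).1 => (x : V)) := (T p).2.1
  have hsp : ⊤ ≤ Submodule.span K (Set.range (fun x : (T p).1 => (x : V))) := by
    rw [Subtype.range_coe, (T p).2.2, hp]
  let g0 : Basis (T p).1 K V := Basis.mk hli hsp
  have hg0 : ∀ x, g0 x = (x : V) := fun x => by
    rw [show g0 x = (Basis.mk hli hsp) x from rfl, Basis.mk_apply]
  let φ : (T p).1 ≃ ι := g0.indexEquiv e
  let g : Basis ι K V := g0.reindex φ
  have hg : ∀ i, g i = ((φ.symm i : (T p).1) : V) := fun i => by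
    rw [Basis.reindex_apply, hg0]
  have hex : ∀ i, ∃ j, ((φ.symm i : (T p).1) : V) ∈ (T j).1 := fun i => ⟨p, (φ.symm i).2⟩
  let lev : ι → ℕ := fun i => Nat.find (hex i)
  have hlev : ∀ i j, lev i ≤ j ↔ ((φ.symm i : (T p).1) : V) ∈ (T j).1 := by
    intro i j
    constructor
    · intro h
      exact hTm h (Nat.find_spec (hex i))
    · intro h
      exact Nat.find_min' (hex i) h
  refine ⟨g, lev, ?_, ?_, ?_⟩
  · intro i
    by_contra h
    have h0' : lev i ≤ 0 := by omega
    rw [hlev, hT0] at h0'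
    exact absurd h0' (Set.notMem_empty _)
  · intro i
    rw [hlev]; exact (φ.symm i).2
  · intro j
    -- reduce to `j ≤ p`
    have key : ∀ j, j ≤ p → C j = Submodule.span K (g '' {i | lev i ≤ j}) := by
      intro j hj
      rw [← (T j).2.2]
      congr 1
      ext x
      constructor
      · intro hx
        have hxp : x ∈ (T p).1 := hTm hj hx
        refine ⟨φ ⟨x, hxp⟩, ?_, ?_⟩
        · rw [Set.mem_ofPred_eq, hlev, Equiv.symm_apply_apply]; exact hx
        · rw [hg, Equiv.symm_apply_apply]
      · rintro ⟨i, hi, rfl⟩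
        rw [hg]; exact (hlev i j).1 hi
    by_cases hj : j ≤ p
    · exact key j hj
    · have h1 : C j = ⊤ := by
        rw [eq_top_iff, ← hp]; exact hmono (by omega)
      have h2 : {i | lev i ≤ j} = {i | lev i ≤ p} := by
        ext i
        have : lev i ≤ p := by rw [hlev]; exact (φ.symm i).2
        simp only [Set.mem_ofPred_eq]
        omega
      rw [h1, h2, ← key p le_rfl, hp]

/-- (P5) A chain `⊥ = R 0 ≤ R 1 ≤ ... ≤ R m` of isotropic subspaces as a self-dual weighted
flag. -/
theorem exists_isotropic_flag (B : LinearMap.BilinForm K V) (hB : B.Nondegenerate)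
    (hs : B.IsSymm) (e : Basis ι K V) (m : ℕ) (R : ℕ → Submodule K V) (hmono : Monotone R)
    (h0 : R 0 = ⊥) (hiso : ∀ x ∈ R m, ∀ y ∈ R m, B x y = 0) :
    ∃ (g : Basis ι K V) (om : ι → ℝ), SD B g om ∧
      (∀ i, ∃ z : ℤ, om i = z) ∧ (∀ i, |om i| ≤ m) ∧
      (∀ i ≤ m, Fil g om ((m : ℝ) + 1 - i) = R i) ∧
      (∀ i ≤ m, ∀ x, x ∈ Fil g om (-((m : ℝ) - i)) ↔ ∀ y ∈ R i, B y x = 0) := by
  classical
  have hfd : FiniteDimensional K V := Module.Finite.of_basis e
  have href : B.IsRefl := hs.isRefl
  let C : ℕ → Submodule K V := fun j => if j ≤ m then R j else B.orthogonal (R (2 * m + 1 - j))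
  have hC1 : ∀ j, j ≤ m → C j = R j := fun j hj => if_pos hj
  have hC2 : ∀ j, m < j → C j = B.orthogonal (R (2 * m + 1 - j)) := fun j hj =>
    if_neg (not_le.mpr hj)
  have hRm : ∀ i j, i ≤ m → j ≤ m → R i ≤ B.orthogonal (R j) := by
    intro i j hi hj x hx y hy
    exact hiso y (hmono hj hy) x (hmono hi hx)
  have horth_anti : ∀ {W W' : Submodule K V}, W ≤ W' → B.orthogonal W' ≤ B.orthogonal W :=
    fun h x hx y hy => hx y (h hy)
  have hCmono : Monotone C := by
    intro i j hij
    by_cases hi : i ≤ m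
    · by_cases hj : j ≤ m
      · rw [hC1 i hi, hC1 j hj]; exact hmono hij
      · rw [hC1 i hi, hC2 j (not_le.mp hj)]
        exact hRm i _ hi (by omega)
    · have hj : m < j := by omega
      rw [hC2 i (not_le.mp hi), hC2 j hj]
      exact horth_anti (hmono (by omega))
  have hC0 : C 0 = ⊥ := by rw [hC1 0 (Nat.zero_le _), h0]
  have horth_bot : B.orthogonal (⊥ : Submodule K V) = ⊤ := by
    rw [eq_top_iff]
    intro x _ y hy
    rw [Submodule.mem_bot] at hy
    rw [hy]; simp
  have hCp : C (2 * m + 1) = ⊤ := by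
    rw [hC2 _ (by omega), Nat.sub_self, h0, horth_bot]
  have horthtop : B.orthogonal (⊤ : Submodule K V) = ⊥ := by
    rw [← horth_bot, LinearMap.BilinForm.orthogonal_orthogonal hB href]
  -- duality of the chain
  have hCdual : ∀ j, B.orthogonal (C j) = C (2 * m + 1 - j) := by
    intro j
    by_cases hj : j ≤ m
    · rw [hC1 j hj, hC2 _ (by omega)]
      congr 2
      omega
    · rw [hC2 j (not_le.mp hj), LinearMap.BilinForm.orthogonal_orthogonal hB href,
        hC1 _ (by omega)]
  obtain ⟨g, lev, hlev1, hlev2, hspan⟩ := exists_adapted_chain e C hCmono hC0 _ hCp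
  let om : ι → ℝ := fun i => (m : ℝ) + 1 - lev i
  -- steps of the filtration
  have hFil : ∀ (a : ℝ) (j : ℕ), (∀ i, a ≤ om i ↔ lev i ≤ j) → Fil g om a = C j := by
    intro a j h
    rw [Fil_eq_span, hspan]
    congr 2
    ext i
    exact h i
  have hFilj : ∀ (j : ℕ), Fil g om ((m : ℝ) + 1 - j) = C j := by
    intro j
    apply hFil
    intro i
    simp only [om]
    constructor
    · intro h
      have : (lev i : ℝ) ≤ j := by linarith
      exact_mod_cast this
    · intro h
      have : (lev i : ℝ) ≤ j := by exact_mod_cast h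
      linarith
  -- the chain as orthogonality conditions
  have hperp : ∀ (j : ℕ) (x : V), (∀ i, lev i ≤ j → B (g i) x = 0) ↔ x ∈ C (2 * m + 1 - j) := by
    intro j x
    rw [← hCdual, hspan j]
    constructor
    · intro h y hy
      have : Submodule.span K (g '' {i | lev i ≤ j}) ≤ LinearMap.ker (B.flip x) := by
        rw [Submodule.span_le]
        rintro _ ⟨i, hi, rfl⟩
        exact h i hi
      exact this hy
    · intro h i hi
      exact h (g i) (Submodule.subset_span ⟨i, hi, rfl⟩)
  have hSD : SD B g om := by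
    intro a x
    -- replace `a` by its ceiling
    have ha1 : ∀ i, a ≤ om i ↔ (⌈a⌉ : ℤ) ≤ (m : ℤ) + 1 - lev i := by
      intro i
      rw [Int.ceil_le]
      simp [om]
    have ha2 : ∀ i, -a < om i ↔ (lev i : ℤ) ≤ (m : ℤ) + ⌈a⌉ := by
      intro i
      have : -a < om i ↔ ((lev i : ℤ) - (m : ℤ) - 1 : ℤ) < ⌈a⌉ := by
        rw [Int.lt_ceil]
        simp only [om]
        push_cast
        constructor <;> intro h <;> linarith
      rw [this]
      constructor <;> intro h <;> omega
    have hFil' : ∀ j : ℕ, (∀ i, (⌈a⌉ : ℤ) ≤ (m : ℤ) + 1 - lev i ↔ lev i ≤ j) →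
        Fil g om a = C j := fun j h => hFil a j fun i => (ha1 i).trans (h i)
    simp_rw [ha2]
    rcases lt_or_ge ((m : ℤ) + ⌈a⌉) 0 with hneg | hnn
    · -- no condition on the right
      rw [hFil' (2 * m + 1) (fun i => by
        have := hlev2 i
        constructor
        · intro _; exact this
        · intro _; omega), hCp]
      constructor
      · intro _ i hi
        exfalso; omega
      · intro _; exact Submodule.mem_top
    · obtain ⟨j', hj'⟩ := Int.eq_ofNat_of_zero_le hnn
      have h1 : ∀ i, (lev i : ℤ) ≤ (m : ℤ) + ⌈a⌉ ↔ lev i ≤ j' := by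
        intro i; rw [hj']; exact Int.ofNat_le
      simp_rw [h1]
      rw [hperp]
      rw [hFil' (2 * m + 1 - j') (fun i => by
        have := hlev1 i
        constructor
        · intro h; omega
        · intro h; omega)]
  refine ⟨g, om, hSD, ?_, ?_, ?_, ?_⟩
  · intro i
    exact ⟨(m : ℤ) + 1 - lev i, by simp [om]⟩
  · intro i
    have h1 : (1 : ℝ) ≤ lev i := by exact_mod_cast hlev1 i
    have h2 : (lev i : ℝ) ≤ 2 * m + 1 := by exact_mod_cast hlev2 i
    rw [abs_le]
    constructor
    · simp only [om]; linarith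
    · simp only [om]; linarith
  · intro i hi
    rw [hFilj, hC1 i hi]
  · intro i hi x
    have : -((m : ℝ) - i) = (m : ℝ) + 1 - ((2 * m + 1 - i : ℕ) : ℝ) := by
      rw [Nat.cast_sub (by omega)]
      push_cast; ring
    rw [this, hFilj, hC2 _ (by omega)]
    have h2 : 2 * m + 1 - (2 * m + 1 - i) = i := by omega
    rw [h2]
    rfl

end Crest.Agent.R172.NilPat
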