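import Crest.Agent.R172.HM9
import Crest.Agent.R172.Adapt
import Crest.Agent.R172.NilPat3

/-!
Row 172, node IND, part 1: a chain of isotropic subspaces is standard in a suitable orthogonal frame.
-/

set_option autoImplicit false
set_option maxHeartbeats 400000
set_option linter.unusedSectionVars false

namespace Crest.Agent.R172.Ind

open Module Matrix Crest.Agent.R172.HM2 Crest.Agent.R172.HM8
open Crest.Agent.R172.Gen (Jm Ix)

variable {n : ℕ} {K : Type*} [Field K]

/-- isotropic subspace -/
def Iso (S : Submodule K (Ix n → K)) : Prop := ∀ x ∈ S, ∀ y ∈ S, form n K x y = 0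

theorem form_isSymm : (form n K).IsSymm := ⟨fun x y => form_symm x y⟩

/-- a matrix whose columns form a hyperbolic family is orthogonal -/
theorem orth_of_cols {g : Matrix (Ix n) (Ix n) K}
    (h : ∀ p q, form n K (fun x => g x p) (fun x => g x q) = if q = sw p then 1 else 0) :
    Orth g := by
  unfold Orth
  ext p q
  have h1 := h p q
  rw [form_eq] at h1
  have h2 : (gᵀ * Jm n K * g) p q = (fun x => g x p) ⬝ᵥ (Jm n K *ᵥ fun x => g x q) := by
    rw [Matrix.mul_assoc, Matrix.mul_apply]
    rfl
  have h3 : Jm n K p q = if q = sw p then 1 else 0 := by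
    rcases p with i | i <;> rcases q with j | j
    · simp [LieAlgebra.Orthogonal.JD, sw_inl]
    · simp [LieAlgebra.Orthogonal.JD, sw_inl, Matrix.one_apply, eq_comm]
    · simp [LieAlgebra.Orthogonal.JD, sw_inr, Matrix.one_apply, eq_comm]
    · simp [LieAlgebra.Orthogonal.JD, sw_inr]
  rw [h2, h1, h3]

theorem orth_one : Orth (1 : Matrix (Ix n) (Ix n) K) := by
  unfold Orth
  rw [transpose_one, Matrix.one_mul, Matrix.mul_one]

/-- coordinate subspace as a span of columns -/
theorem Co_eq_span (g : Matrix (Ix n) (Ix n) K) (X : Ix n → Prop) :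
    Co g X = Submodule.span K ((fun p => fun q => g q p) '' {p | X p}) := by
  classical
  apply le_antisymm
  · rintro _ ⟨x, hx, rfl⟩
    rw [mulVecLin_apply]
    have h1 : g *ᵥ x = ∑ p, x p • (fun q => g q p) := by
      funext q
      rw [mulVec, dotProduct, Finset.sum_apply]
      exact Finset.sum_congr rfl fun p _ => mul_comm _ _
    rw [h1]
    refine Submodule.sum_mem _ fun p _ => ?_
    by_cases hp : X p
    · exact Submodule.smul_mem _ _ (Submodule.subset_span ⟨p, hp, rfl⟩)
    · rw [hx p hp, zero_smul]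
      exact Submodule.zero_mem _
  · rw [Submodule.span_le]
    rintro _ ⟨p, hp, rfl⟩
    refine ⟨Pi.single p 1, ?_, ?_⟩
    · intro q hq
      rw [Pi.single_eq_of_ne]
      rintro rfl
      exact hq hp
    · rw [mulVecLin_apply, mulVec_single_one]
      rfl

/-- extend a partial injection to an enumeration of a transversal of the pairs `{p, sw p}` -/
theorem exists_perm (r : ℕ) (j : ℕ → Ix n) (h1 : ∀ a < r, ∀ c < r, j a ≠ sw (j c))
    (h2 : ∀ a < r, ∀ c < r, j a = j c → a = c) :
    r ≤ n ∧ ∃ π : Ix n → Ix n, Function.Injective π ∧ (∀ p, π (sw p) = sw (π p)) ∧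
      ∀ i : Fin n, (i : ℕ) < r → π (Sum.inl i) = j i := by
  classical
  let A : Finset (Ix n) := (Finset.range r).image j
  have hA : ∀ p, p ∈ A ↔ ∃ a < r, j a = p := by
    intro p; simp [A]
  have hAs : ∀ p ∈ A, sw p ∉ A := by
    intro p hp hq
    obtain ⟨a, ha, rfl⟩ := (hA p).1 hp
    obtain ⟨b, hb, hb'⟩ := (hA _).1 hq
    exact h1 b hb a ha hb'
  let T : Finset (Ix n) := Finset.univ.filter fun p => p ∈ A ∨ (sw p ∉ A ∧ ∃ i, p = Sum.inl i)
  have hT : ∀ p, p ∈ T ↔ (p ∈ A ∨ (sw p ∉ A ∧ ∃ i, p = Sum.inl i)) := by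
    intro p; simp [T]
  have hT1 : ∀ p, p ∈ T → sw p ∉ T := by
    intro p hp hq
    rw [hT] at hp hq
    rw [sw_sw] at hq
    rcases hp with hp | ⟨hp, i, rfl⟩
    · rcases hq with hq | ⟨hq, _⟩
      · exact hAs p hp hq
      · exact hq hp
    · rcases hq with hq | ⟨_, i', hi'⟩
      · exact hp hq
      · rw [sw_inl] at hi'
        exact absurd hi' (by simp)
  have hT2 : ∀ p, p ∉ T → sw p ∈ T := by
    intro p hp
    rw [hT] at hp ⊢
    rw [sw_sw]
    push Not at hp
    obtain ⟨hp1, hp2⟩ := hp
    by_cases h : sw p ∈ A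
    · exact Or.inl h
    · right
      refine ⟨hp1, ?_⟩
      rcases p with i | i
      · exact absurd rfl (hp2 h i)
      · exact ⟨i, rfl⟩
  have hcard : T.card = n := by
    have h3 : Finset.univ = T ∪ T.image sw := by
      ext p
      simp only [Finset.mem_univ, true_iff, Finset.mem_union, Finset.mem_image]
      by_cases h : p ∈ T
      · exact Or.inl h
      · exact Or.inr ⟨sw p, hT2 p h, sw_sw p⟩
    have h4 : Disjoint T (T.image sw) := by
      rw [Finset.disjoint_left]
      intro p hp hq
      obtain ⟨q, hq1, rfl⟩ := Finset.mem_image.1 hq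
      exact hT1 q hq1 hp
    have h5 : (T.image sw).card = T.card :=
      Finset.card_image_of_injective _ (fun x y h => sw_inj h)
    have h6 : (Finset.univ : Finset (Ix n)).card = T.card + T.card := by
      conv_lhs => rw [h3]
      rw [Finset.card_union_of_disjoint h4, h5]
    rw [Finset.card_univ, Fintype.card_sum, Fintype.card_fin] at h6
    omega
  have hcardA : A.card = r := by
    rw [Finset.card_image_of_injOn, Finset.card_range]
    intro a ha c hc h
    exact h2 a (by simpa using ha) c (by simpa using hc) h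
  have hAT : A ⊆ T := fun p hp => (hT p).2 (Or.inl hp)
  have hr : r ≤ n := by
    have := Finset.card_le_card hAT
    omega
  refine ⟨hr, ?_⟩
  obtain ⟨g, hg⟩ := Finset.exists_equiv_extend_of_card_eq (α := Fin n) (t := T)
    (by rw [Fintype.card_fin, hcard]) (s := Finset.univ.filter fun i : Fin n => (i : ℕ) < r)
    (f := fun i => j i) (by
      intro p hp
      obtain ⟨i, hi, rfl⟩ := Finset.mem_image.1 hp
      exact hAT ((hA _).2 ⟨i, (Finset.mem_filter.1 hi).2, rfl⟩)) (by
      intro a ha c hc h
      have ha' : a ∈ Finset.univ.filter fun i : Fin n => (i : ℕ) < r := ha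
      have hc' : c ∈ Finset.univ.filter fun i : Fin n => (i : ℕ) < r := hc
      exact Fin.ext (h2 a (Finset.mem_filter.1 ha').2 c (Finset.mem_filter.1 hc').2 h))
  refine ⟨fun p => match p with
    | Sum.inl i => (g i : Ix n)
    | Sum.inr i => sw (g i : Ix n), ?_, ?_, ?_⟩
  · intro p q hpq
    rcases p with i | i <;> rcases q with i' | i'
    · have : g i = g i' := Subtype.ext hpq
      rw [g.injective this]
    · exact absurd (g i).2 (by
        have h : ((g i : T) : Ix n) = sw (g i' : Ix n) := hpq
        rw [h]; exact hT1 _ (g i').2)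
    · exact absurd (g i').2 (by
        have h : sw ((g i : T) : Ix n) = (g i' : Ix n) := hpq
        rw [← h]; exact hT1 _ (g i).2)
    · have h : sw ((g i : T) : Ix n) = sw (g i' : Ix n) := hpq
      have : g i = g i' := Subtype.ext (sw_inj h)
      rw [g.injective this]
  · intro p
    rcases p with i | i
    · rfl
    · change (g i : Ix n) = sw (sw (g i : Ix n))
      rw [sw_sw]
  · intro i hi
    exact hg i (Finset.mem_filter.2 ⟨Finset.mem_univ _, hi⟩)

/-- a frame adapted to an isotropic flag given by vectors -/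
theorem frame_of_vectors (v : ℕ → Ix n → K) (r : ℕ)
    (hli : ∀ a < r, v a ∉ Submodule.span K (v '' Set.Iio a))
    (hiso : ∀ a < r, ∀ c < r, form n K (v a) (v c) = 0) :
    r ≤ n ∧ ∃ g : Matrix (Ix n) (Ix n) K, Orth g ∧
      ∀ a ≤ r, Submodule.span K (v '' Set.Iio a) = Co g (Xh a) := by
  classical
  rcases Nat.eq_zero_or_pos n with hn | hn
  · subst hn
    have hr : r = 0 := by
      by_contra h
      have h1 := hli 0 (Nat.pos_of_ne_zero h)
      apply h1
      have h2 : v 0 = 0 := Subsingleton.elim _ _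
      rw [h2]
      exact Submodule.zero_mem _
    subst hr
    refine ⟨le_rfl, 1, orth_one, ?_⟩
    intro a ha
    exact Subsingleton.elim _ _
  have : Nonempty (Ix n) := ⟨Sum.inl ⟨0, hn⟩⟩
  have he : Adapt.Hyp (form n K) sw (Pi.basisFun K (Ix n)) := by
    intro i j
    rw [Pi.basisFun_apply, Pi.basisFun_apply, form_single, Pi.single_apply]
    by_cases h : j = sw i
    · rw [if_pos h, h, sw_sw, if_pos rfl]
    · rw [if_neg h, if_neg]
      intro h'
      exact h (by rw [← h', sw_sw])
  obtain ⟨b, hb, -, j, hj1, hj2, hspan⟩ := Adapt.exists_adapted (form_isSymm (n := n) (K := K))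
    (inv := sw) (fun p => sw_sw p) (Pi.basisFun K (Ix n)) he (fun _ => 0) (by simp) (by
      intro i j hi _
      exfalso
      rcases i with i | i
      · rw [sw_inl] at hi; exact absurd hi (by simp)
      · rw [sw_inr] at hi; exact absurd hi (by simp)) v r hli hiso
  obtain ⟨hr, π, hπ1, hπ2, hπ3⟩ := exists_perm r j hj1 hj2
  refine ⟨hr, Matrix.of fun q p => b (π p) q, ?_, ?_⟩
  · apply orth_of_cols
    intro p q
    have h := hb (π p) (π q)
    refine Eq.trans h ?_
    by_cases hq : q = sw p
    · rw [if_pos hq, if_pos (by rw [hq, hπ2])]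
    · rw [if_neg hq, if_neg]
      intro h'
      rw [← hπ2] at h'
      exact hq (hπ1 h')
  · intro a ha
    rw [hspan a ha, Co_eq_span]
    congr 1
    ext x
    constructor
    · rintro ⟨i, hi, rfl⟩
      have hi' : i < a := hi
      refine ⟨Sum.inl ⟨i, by omega⟩, hi', ?_⟩
      change (fun q => b (π (Sum.inl ⟨i, _⟩)) q) = b (j i)
      rw [hπ3 ⟨i, by omega⟩ (by simp; omega)]
    · rintro ⟨p, hp, rfl⟩
      rcases p with i | i
      · have hi : (i : ℕ) < a := hp
        refine ⟨i, hi, ?_⟩
        change b (j i) = (fun q => b (π (Sum.inl i)) q)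
        rw [hπ3 i (by omega)]
      · exact absurd hp id

/-- a frame adapted to a finite chain of isotropic subspaces -/
theorem frame_of_chain {δ : Type*} [Fintype δ] (C : δ → Submodule K (Ix n → K))
    (hc : ∀ d e, C d ≤ C e ∨ C e ≤ C d) (hiso : ∀ d, Iso (C d)) :
    ∃ g : Matrix (Ix n) (Ix n) K, Orth g ∧ ∀ d, finrank K (C d) ≤ n ∧
      C d = Co g (Xh (finrank K (C d))) := by
  classical
  -- `R k` = the largest member of dimension at most `k`
  let R : ℕ → Submodule K (Ix n → K) := fun k => ⨆ d, ⨆ (_ : finrank K (C d) ≤ k), C d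
  have hRmem : ∀ k, R k = ⊥ ∨ ∃ d, finrank K (C d) ≤ k ∧ R k = C d := by
    intro k
    by_cases hex : ∃ d, finrank K (C d) ≤ k
    · right
      obtain ⟨d, hd, hmax⟩ := Finset.exists_max_image
        (Finset.univ.filter fun d => finrank K (C d) ≤ k) (fun d => finrank K (C d)) (by
          obtain ⟨d, hd⟩ := hex
          exact ⟨d, Finset.mem_filter.2 ⟨Finset.mem_univ _, hd⟩⟩)
      have hd' := (Finset.mem_filter.1 hd).2
      refine ⟨d, hd', le_antisymm ?_ ?_⟩
      · refine iSup_le fun e => iSup_le fun he => ?_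
        rcases hc e d with h | h
        · exact h
        · have h1 := hmax e (Finset.mem_filter.2 ⟨Finset.mem_univ _, he⟩)
          exact le_of_eq (Submodule.eq_of_le_of_finrank_le h h1).symm
      · exact le_iSup_of_le d (le_iSup_of_le hd' le_rfl)
    · left
      push Not at hex
      refine le_antisymm (iSup_le fun e => iSup_le fun he => ?_) bot_le
      exact absurd he (not_le.mpr (hex e))
  have hRmono : Monotone R := fun a b hab => iSup_le fun d => iSup_le fun hd =>
    le_iSup_of_le d (le_iSup_of_le (hd.trans hab) le_rfl)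
  have hRC : ∀ d, R (finrank K (C d)) = C d := by
    intro d
    apply le_antisymm
    · refine iSup_le fun e => iSup_le fun he => ?_
      rcases hc e d with h | h
      · exact h
      · exact le_of_eq (Submodule.eq_of_le_of_finrank_le h he).symm
    · exact le_iSup_of_le d (le_iSup_of_le le_rfl le_rfl)
  have hR0 : R 0 = ⊥ := by
    rcases hRmem 0 with h | ⟨d, hd, h⟩
    · exact h
    · rw [h]
      exact Submodule.finrank_eq_zero.1 (Nat.le_zero.1 hd)
  have hRiso : ∀ k, Iso (R k) := by
    intro k
    rcases hRmem k with h | ⟨d, _, h⟩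
    · rw [h]
      intro x hx y _
      rw [Submodule.mem_bot] at hx
      rw [hx, map_zero, LinearMap.zero_apply]
    · rw [h]; exact hiso d
  -- dimension bound through the whole chain
  set p : ℕ := ∑ d, finrank K (C d) with hp
  have hdp : ∀ d, finrank K (C d) ≤ p := fun d =>
    Finset.single_le_sum (f := fun d => finrank K (C d)) (fun _ _ => Nat.zero_le _)
      (Finset.mem_univ d)
  obtain ⟨g0, lev, hlev1, hlev2, hspan⟩ := NilPat.exists_adapted_chain (Pi.basisFun K (Ix n))
    (fun j => if j ≤ p then R j else ⊤) (by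
      intro a b hab
      simp only
      by_cases hb : b ≤ p
      · rw [if_pos hb, if_pos (hab.trans hb)]; exact hRmono hab
      · rw [if_neg hb]; exact le_top) (by simp [hR0]) (p + 1) (by simp)
  have hspan' : ∀ j ≤ p, R j = Submodule.span K (g0 '' {i | lev i ≤ j}) := by
    intro j hj
    have := hspan j
    rwa [if_pos hj] at this
  -- sorted enumeration of the indices of level `≤ p`
  let I : Finset (Ix n) := Finset.univ.filter fun i => lev i ≤ p
  let r := I.card
  let e : Fin r ≃ I := I.equivFin.symm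
  let τ := Tuple.sort (fun k => lev (e k))
  have hmono : Monotone ((fun k => lev (e k)) ∘ τ) := Tuple.monotone_sort _
  have hlevI : ∀ k : Fin r, lev (e (τ k)) ≤ p := fun k => (Finset.mem_filter.1 (e (τ k)).2).2
  let v : ℕ → Ix n → K := fun a => if h : a < r then g0 (e (τ ⟨a, h⟩) : Ix n) else 0
  have hv : ∀ k : Fin r, v k = g0 (e (τ k) : Ix n) := fun k => dif_pos k.2
  have hinj : ∀ k l : Fin r, ((e (τ k) : I) : Ix n) = e (τ l) → k = l := by
    intro k l h
    exact τ.injective (e.injective (Subtype.ext h))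
  have himg : ∀ a ≤ r, v '' Set.Iio a =
      g0 '' ((fun k : Fin r => ((e (τ k) : I) : Ix n)) '' {k | (k : ℕ) < a}) := by
    intro a ha
    ext x
    constructor
    · rintro ⟨b, hb, rfl⟩
      have hb' : b < a := hb
      exact ⟨_, ⟨⟨b, by omega⟩, hb', rfl⟩, (hv ⟨b, by omega⟩).symm⟩
    · rintro ⟨_, ⟨k, hk, rfl⟩, rfl⟩
      exact ⟨k, hk, hv k⟩
  have hli : ∀ a < r, v a ∉ Submodule.span K (v '' Set.Iio a) := by
    intro a ha
    rw [himg a ha.le, hv ⟨a, ha⟩]
    apply g0.linearIndependent.notMem_span_image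
    rintro ⟨k, hk, h⟩
    have h1 := hinj _ _ h
    rw [h1] at hk
    exact lt_irrefl a hk
  have hviso : ∀ a < r, ∀ c < r, form n K (v a) (v c) = 0 := by
    have hmem : ∀ a < r, v a ∈ R p := by
      intro a ha
      rw [hspan' p le_rfl, hv ⟨a, ha⟩]
      exact Submodule.subset_span ⟨_, hlevI _, rfl⟩
    intro a ha c hc
    exact hRiso p _ (hmem a ha) _ (hmem c hc)
  obtain ⟨hrn, g, hg, hspan2⟩ := frame_of_vectors v r hli hviso
  refine ⟨g, hg, fun d => ?_⟩
  set h := finrank K (C d) with hh
  have hS : Submodule.span K (g0 '' {i | lev i ≤ h}) = C d := by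
    rw [← hspan' h (hdp d)]; exact hRC d
  have hcardS : (Finset.univ.filter fun i => lev i ≤ h).card = h := by
    have h1 : finrank K (Submodule.span K (g0 '' {i | lev i ≤ h})) =
        (Finset.univ.filter fun i => lev i ≤ h).card := by
      have h2 : g0 '' {i | lev i ≤ h} =
          Set.range (fun i : {i // i ∈ Finset.univ.filter fun i => lev i ≤ h} => g0 i) := by
        ext x
        constructor
        · rintro ⟨i, hi, rfl⟩
          exact ⟨⟨i, Finset.mem_filter.2 ⟨Finset.mem_univ _, hi⟩⟩, rfl⟩
        · rintro ⟨i, rfl⟩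
          exact ⟨i, (Finset.mem_filter.1 i.2).2, rfl⟩
      have h3 := finrank_span_eq_card (g0.linearIndependent.comp (Subtype.val :
        {i // i ∈ Finset.univ.filter fun i => lev i ≤ h} → Ix n) Subtype.val_injective)
      rw [Fintype.card_coe] at h3
      rw [h2]
      exact h3
    rw [← h1, hS]
  have hcount : (Finset.univ.filter fun k : Fin r => lev (e (τ k)) ≤ h).card = h := by
    refine Eq.trans ?_ hcardS
    refine Finset.card_bij (fun k _ => ((e (τ k) : I) : Ix n)) ?_ ?_ ?_
    · intro k hk
      exact Finset.mem_filter.2 ⟨Finset.mem_univ _, (Finset.mem_filter.1 hk).2⟩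
    · intro k _ l _ hkl
      exact hinj k l hkl
    · intro i hi
      have hi' := (Finset.mem_filter.1 hi).2
      have hiI : i ∈ I := Finset.mem_filter.2 ⟨Finset.mem_univ _, hi'.trans (hdp d)⟩
      refine ⟨τ.symm (e.symm ⟨i, hiI⟩), ?_, ?_⟩
      · refine Finset.mem_filter.2 ⟨Finset.mem_univ _, ?_⟩
        rw [Equiv.apply_symm_apply, Equiv.apply_symm_apply]
        exact hi'
      · rw [Equiv.apply_symm_apply, Equiv.apply_symm_apply]
  have key : ∀ k : Fin r, lev (e (τ k)) ≤ h ↔ (k : ℕ) < h := by
    intro k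
    constructor
    · intro hk
      have h1 : Finset.Iic k ⊆ Finset.univ.filter fun k : Fin r => lev (e (τ k)) ≤ h := by
        intro l hl
        exact Finset.mem_filter.2 ⟨Finset.mem_univ _,
          (hmono (Finset.mem_Iic.1 hl)).trans hk⟩
      have h2 := Finset.card_le_card h1
      rw [hcount, Fin.card_Iic] at h2
      omega
    · intro hk
      by_contra hc'
      have h1 : (Finset.univ.filter fun k : Fin r => lev (e (τ k)) ≤ h) ⊆ Finset.Iio k := by
        intro l hl
        rw [Finset.mem_Iio]
        by_contra hl'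
        exact hc' ((hmono (not_lt.1 hl')).trans (Finset.mem_filter.1 hl).2)
      have h2 := Finset.card_le_card h1
      rw [hcount, Fin.card_Iio] at h2
      omega
  have hhr : h ≤ r := by
    have h1 := Finset.card_le_univ (Finset.univ.filter fun k : Fin r => lev (e (τ k)) ≤ h)
    rwa [hcount, Fintype.card_fin] at h1
  refine ⟨hhr.trans hrn, ?_⟩
  rw [← hspan2 h hhr, himg h hhr, ← hS]
  congr 2
  ext i
  constructor
  · intro hi
    have hiI : i ∈ I := Finset.mem_filter.2 ⟨Finset.mem_univ _, (show lev i ≤ h from hi).trans (hdp d)⟩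
    refine ⟨τ.symm (e.symm ⟨i, hiI⟩), ?_, ?_⟩
    · rw [Set.mem_ofPred_eq, ← key, Equiv.apply_symm_apply, Equiv.apply_symm_apply]
      exact hi
    · simp only [Equiv.apply_symm_apply]
  · rintro ⟨k, hk, rfl⟩
    exact (key k).2 hk

end Crest.Agent.R172.Ind
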