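import Crest.Agent.R172.SPol2
import Crest.Agent.R172.FO3

/-!
R172: rank functions on the columns of a configuration.
-/

set_option autoImplicit false
set_option linter.unusedSectionVars false

namespace Crest.Agent.R172.CF

open Matrix Crest.AlgebraR.SpinSaturation Crest.Agent.R172.SoGrade Crest.Agent.R172.Sp
open Crest.Agent.R172.Gen (Jm Ix emb Ent ent)

variable {n : ℕ} {a : Fin 3 → Fin n → ℤ}

/-- A rank function on the columns: in each arm the conditions are nested. -/
structure Ranked (c : Cfg n a) where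
  rk : c.δ → ℤ
  rk_σ : ∀ d, rk (c.σ d) = - rk d
  anti : ∀ d e, c.arm d = c.arm e → rk e ≤ rk d → ∀ i, c.A i d → c.A i e

/-- the rank function of the standard configuration -/
noncomputable def Std.ranked {c : Cfg n a} {m : Fin 3 → ℕ} (h : Std c m) : Ranked c where
  rk d := 2 * (((h.e d).2 : ℕ) : ℤ) + 1 - m (h.e d).1
  rk_σ := by
    intro d
    rw [h.σ]
    have h1 : ((Fin.rev (h.e d).2 : Fin (m (h.e d).1)) : ℕ) = m (h.e d).1 - ((h.e d).2 + 1) :=
      Fin.val_rev _
    simp only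
    rw [h1]
    have := (h.e d).2.2
    omega
  anti := by
    intro d e h1 h2 i h3
    rw [h.A] at h3 ⊢
    rw [h.arm, h.arm] at h1
    have h4 : m (h.e e).1 = m (h.e d).1 := by rw [h1]
    have h5 : a (h.e e).1 i = a (h.e d).1 i := by rw [h1]
    omega

/-- **columns of the elements of `N(g)`** -/
theorem Ranked.col_perp {c : Cfg n a} (R : Ranked c) {K : Type*} [Field K]
    {g : Fin 3 → Matrix (Ix n) (Ix n) K} (hg : ∀ s, (g s)ᵀ * Jm n K * g s = Jm n K)
    {F G : Matrix (Ix n) c.δ K} (hF : F ∈ c.N g) (hG : G ∈ c.N g) {d e : c.δ}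
    (harm : c.arm d = c.arm e) (hrk : 0 ≤ R.rk d + R.rk e) : (Fᵀ * Jm n K * G) d e = 0 := by
  obtain ⟨F0, hF0, rfl⟩ := c.mem_N.1 hF
  obtain ⟨G0, hG0, rfl⟩ := c.mem_N.1 hG
  have h1 : ((FO.act c.arm g F0)ᵀ * Jm n K * FO.act c.arm g G0) d e =
      ((g (c.arm d) * F0)ᵀ * Jm n K * (g (c.arm d) * G0)) d e := by
    rw [Matrix.mul_apply, Matrix.mul_apply]
    refine Finset.sum_congr rfl fun q _ => ?_
    have h2 : ((FO.act c.arm g F0)ᵀ * Jm n K) d q = ((g (c.arm d) * F0)ᵀ * Jm n K) d q := by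
      rw [Matrix.mul_apply, Matrix.mul_apply]
      refine Finset.sum_congr rfl fun r _ => ?_
      rw [transpose_apply, transpose_apply, act_apply]
    rw [h2, act_apply, harm]
  have h2 : F0ᵀ * (g (c.arm d))ᵀ * Jm n K * (g (c.arm d) * G0) = F0ᵀ * Jm n K * G0 := by
    calc F0ᵀ * (g (c.arm d))ᵀ * Jm n K * (g (c.arm d) * G0)
        = F0ᵀ * ((g (c.arm d))ᵀ * Jm n K * g (c.arm d)) * G0 := by simp only [Matrix.mul_assoc]
      _ = F0ᵀ * Jm n K * G0 := by rw [hg]
  rw [h1, transpose_mul, h2, Matrix.mul_apply]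
  refine Finset.sum_eq_zero fun q _ => ?_
  have h3 : (F0ᵀ * Jm n K) d q = F0 (sw q) d := by
    rw [Matrix.mul_apply, Finset.sum_eq_single (sw q)]
    · rcases q with i | i <;> simp [LieAlgebra.Orthogonal.JD, sw]
    · intro x _ hx
      have : Jm n K x q = 0 := by
        rcases x with x | x <;> rcases q with q | q
        · simp [LieAlgebra.Orthogonal.JD]
        · simp only [LieAlgebra.Orthogonal.JD, fromBlocks_apply₁₂]
          rw [Matrix.one_apply, if_neg]
          intro h
          exact hx (by rw [h]; rfl)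
        · simp only [LieAlgebra.Orthogonal.JD, fromBlocks_apply₂₁]
          rw [Matrix.one_apply, if_neg]
          intro h
          exact hx (by rw [h]; rfl)
        · simp [LieAlgebra.Orthogonal.JD]
      rw [this, mul_zero]
    · simp
  rw [h3]
  have e1 : R.rk (c.σ e) ≤ R.rk d := by rw [R.rk_σ]; omega
  have e2 : R.rk (c.σ d) ≤ R.rk e := by rw [R.rk_σ]; omega
  have e3 : c.arm d = c.arm (c.σ e) := by rw [c.arm_σ, harm]
  have e4 : c.arm e = c.arm (c.σ d) := by rw [c.arm_σ, harm]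
  rcases q with i | i
  · -- `F0 (inr i) d * G0 (inl i) e`
    by_cases h : c.A i e
    · have h4 := (hF0 i d).2 (R.anti e (c.σ d) e4 e2 i h)
      rw [show (sw (Sum.inl i) : Ix n) = Sum.inr i from rfl, h4, zero_mul]
    · rw [(hG0 i e).1 h, mul_zero]
  · by_cases h : c.A i d
    · rw [(hG0 i e).2 (R.anti d (c.σ e) e3 e1 i h), mul_zero]
    · have h4 := (hF0 i d).1 h
      rw [show (sw (Sum.inr i) : Ix n) = Sum.inl i from rfl, h4, zero_mul]

end Crest.Agent.R172.CF
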