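import Crest.Agent.R172.Ind1
import Crest.Agent.R172.Rk1

/-!
Row 172, node IND, part 2: reduction `V_S = S^⊥ / S` of a configuration along an isotropic subspace.
-/

set_option autoImplicit false
set_option maxHeartbeats 400000
set_option linter.unusedSectionVars false

namespace Crest.Agent.R172.Ind

open Module Matrix Crest.Agent.R172.HM2 Crest.Agent.R172.HM8 Crest.Agent.R172.HM9
open Crest.Agent.R172.Gen (Jm Ix)
open Crest.Agent.R172.CF

variable {n : ℕ} {K : Type*} [Field K]

/-! ### orthogonal complements -/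

/-- `S^⊥` -/
def perp (S : Submodule K (Ix n → K)) : Submodule K (Ix n → K) where
  carrier := {v | ∀ s ∈ S, form n K v s = 0}
  add_mem' := by
    intro v w hv hw s hs
    rw [map_add, LinearMap.add_apply, hv s hs, hw s hs, add_zero]
  zero_mem' := by
    intro s _
    rw [map_zero, LinearMap.zero_apply]
  smul_mem' := by
    intro t v hv s hs
    rw [map_smul, LinearMap.smul_apply, hv s hs, smul_zero]

theorem mem_perp {S : Submodule K (Ix n → K)} {v : Ix n → K} :
    v ∈ perp S ↔ ∀ s ∈ S, form n K v s = 0 := Iff.rfl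

theorem perp_eq (S : Submodule K (Ix n → K)) : perp S = (form n K).orthogonal S := by
  ext v
  rw [mem_perp, LinearMap.BilinForm.mem_orthogonal_iff]
  constructor
  · intro h s hs
    change form n K s v = 0
    rw [form_symm]; exact h s hs
  · intro h s hs
    rw [form_symm]; exact h s hs

theorem perp_perp (S : Submodule K (Ix n → K)) : perp (perp S) = S := by
  have hr : (form n K).IsRefl := fun x y h => by rw [form_symm]; exact h
  have hnd : (form n K).Nondegenerate := form_nondeg
  rw [perp_eq, perp_eq]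
  exact LinearMap.BilinForm.orthogonal_orthogonal hnd hr S

theorem finrank_Ix : finrank K (Ix n → K) = 2 * n := by
  rw [finrank_fintype_fun_eq_card, Fintype.card_sum, Fintype.card_fin]
  ring

theorem finrank_perp (S : Submodule K (Ix n → K)) :
    finrank K (perp S) + finrank K S = 2 * n := by
  have hnd : (form n K).Nondegenerate := form_nondeg
  have h1 : finrank K (perp S) = finrank K (Ix n → K) - finrank K S := by
    rw [perp_eq]; exact LinearMap.BilinForm.finrank_orthogonal hnd S
  have h2 : finrank K S ≤ finrank K (Ix n → K) := Submodule.finrank_le S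
  rw [finrank_Ix] at h1 h2
  omega

theorem perp_sup (A B : Submodule K (Ix n → K)) : perp (A ⊔ B) = perp A ⊓ perp B := by
  ext v
  rw [Submodule.mem_inf, mem_perp, mem_perp, mem_perp]
  constructor
  · intro h
    exact ⟨fun s hs => h s (Submodule.mem_sup_left hs), fun s hs => h s (Submodule.mem_sup_right hs)⟩
  · rintro ⟨ha, hb⟩ s hs
    obtain ⟨s1, h1, s2, h2, rfl⟩ := Submodule.mem_sup.1 hs
    rw [map_add, ha s1 h1, hb s2 h2, add_zero]

theorem perp_inf (A B : Submodule K (Ix n → K)) : perp (A ⊓ B) = perp A ⊔ perp B := by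
  have h : A ⊓ B = perp (perp A ⊔ perp B) := by rw [perp_sup, perp_perp, perp_perp]
  rw [h, perp_perp]

theorem perp_anti {A B : Submodule K (Ix n → K)} (h : A ≤ B) : perp B ≤ perp A :=
  fun _ hv s hs => hv s (h hs)

theorem Iso.le_perp {S : Submodule K (Ix n → K)} (h : Iso S) : S ≤ perp S :=
  fun x hx y hy => h x hx y hy

theorem Iso.of_le_perp {S : Submodule K (Ix n → K)} (h : S ≤ perp S) : Iso S :=
  fun _ hx y hy => h hx y hy

theorem Co_perp {g : Matrix (Ix n) (Ix n) K} (hg : Orth g) (X : Ix n → Prop) :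
    Co g (fun p => ¬ X (sw p)) = perp (Co g X) := by
  ext v
  rw [Co_orth hg, mem_perp]

/-! ### frames adapted to a self-dual chain -/

/-- standard index set -/
def Xd (k l : ℕ) : Ix n → Prop
  | Sum.inl i => (i : ℕ) < k
  | Sum.inr i => ¬ (i : ℕ) < l

theorem frame_of_dual_chain {δ : Type*} [Fintype δ] (σ : δ → δ) (hσ : ∀ d, σ (σ d) = d)
    (C : δ → Submodule K (Ix n → K)) (hc : ∀ d e, C d ≤ C e ∨ C e ≤ C d)
    (hd : ∀ d, C (σ d) = perp (C d)) :
    ∃ g : Matrix (Ix n) (Ix n) K, Orth g ∧
      ∀ d, C d = Co g (Xd (finrank K (C d)) (finrank K (C (σ d)))) := by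
  classical
  obtain ⟨g, hg, h⟩ := frame_of_chain (δ := {d : δ // Iso (C d)}) (fun d => C d)
    (fun d e => hc d e) (fun d => d.2)
  have hsum : ∀ d, finrank K (C (σ d)) + finrank K (C d) = 2 * n := by
    intro d; rw [hd d]; exact finrank_perp _
  have hiso : ∀ d, Iso (C d) → finrank K (C d) ≤ n ∧
      C d = Co g (Xd (finrank K (C d)) (finrank K (C (σ d)))) := by
    intro d hdi
    obtain ⟨h1, h2⟩ := h ⟨d, hdi⟩
    refine ⟨h1, ?_⟩
    have h1' : finrank K (C d) ≤ n := h1
    have hs := hsum d
    have e : (Xd (finrank K (C d)) (finrank K (C (σ d))) : Ix n → Prop) =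
        Xh (finrank K (C d)) := by
      funext p
      apply propext
      rcases p with i | i
      · exact Iff.rfl
      · change ¬ (i : ℕ) < finrank K (C (σ d)) ↔ False
        have := i.2
        rw [not_lt, iff_false, not_le]
        omega
    rw [e]
    exact h2
  refine ⟨g, hg, fun d => ?_⟩
  by_cases hdi : Iso (C d)
  · exact (hiso d hdi).2
  · have hdi' : Iso (C (σ d)) := by
      rcases hc d (σ d) with h1 | h1
      · exact absurd (Iso.of_le_perp (by rw [← hd]; exact h1)) hdi
      · apply Iso.of_le_perp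
        rw [← hd, hσ]
        exact h1
    obtain ⟨h3, h4⟩ := hiso _ hdi'
    have e : C d = perp (C (σ d)) := by rw [← hd, hσ]
    have hs := hsum d
    rw [hσ] at h4
    conv_lhs => rw [e, h4]
    rw [← Co_perp hg]
    congr 1
    funext p
    apply propext
    rcases p with i | i
    · change ¬ ¬ (i : ℕ) < finrank K (C d) ↔ (i : ℕ) < finrank K (C d)
      exact not_not
    · exact Iff.rfl

/-! ### sections -/

/-- `β : V_S → V`, `τ : V → V_S`. -/
structure Sec (S : Submodule K (Ix n → K)) (n' : ℕ) (β : Matrix (Ix n) (Ix n') K)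
    (τ : Matrix (Ix n') (Ix n) K) : Prop where
  iso : Iso S
  dim : n' + finrank K S = n
  adj : ∀ (x : Ix n' → K) (v : Ix n → K), form n K (β *ᵥ x) v = form n' K x (τ *ᵥ v)
  tb : τ * β = 1
  kill : ∀ s ∈ S, τ *ᵥ s = 0
  dec : ∀ v ∈ perp S, v - β *ᵥ (τ *ᵥ v) ∈ S

theorem exists_sec {S : Submodule K (Ix n → K)} (hS : Iso S) :
    ∃ (n' : ℕ) (β : Matrix (Ix n) (Ix n') K) (τ : Matrix (Ix n') (Ix n) K), Sec S n' β τ := by
  classical
  obtain ⟨g, hg, h⟩ := frame_of_chain (δ := Unit) (fun _ => S) (fun _ _ => Or.inl le_rfl)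
    (fun _ => hS)
  obtain ⟨hs, hSg⟩ := h ()
  set s := finrank K S with hsd
  have hn : n - s + s = n := by omega
  let ι : Ix (n - s) → Ix n := fun p => match p with
    | Sum.inl i => Sum.inl ⟨s + i, by omega⟩
    | Sum.inr i => Sum.inr ⟨s + i, by omega⟩
  have hι : ∀ p, ι (sw p) = sw (ι p) := by
    intro p; rcases p with i | i <;> rfl
  have hιinj : Function.Injective ι := by
    intro p q h
    rcases p with i | i <;> rcases q with j | j
    · have h1 : (⟨s + i, by omega⟩ : Fin n) = ⟨s + j, by omega⟩ := Sum.inl_injective h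
      rw [Fin.mk.injEq] at h1
      rw [Fin.ext (show (i : ℕ) = j by omega)]
    · exact absurd h (by simp [ι])
    · exact absurd h (by simp [ι])
    · have h1 : (⟨s + i, by omega⟩ : Fin n) = ⟨s + j, by omega⟩ := Sum.inr_injective h
      rw [Fin.mk.injEq] at h1
      rw [Fin.ext (show (i : ℕ) = j by omega)]
  -- extension by zero
  let ex : (Ix (n - s) → K) → Ix n → K := fun x q => ∑ p, if ι p = q then x p else 0
  have hexι : ∀ x p, ex x (ι p) = x p := by
    intro x p
    change (∑ p', if ι p' = ι p then x p' else 0) = x p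
    rw [Finset.sum_eq_single p]
    · rw [if_pos rfl]
    · intro p' _ hp
      rw [if_neg fun h => hp (hιinj h)]
    · simp
  have hex0 : ∀ x q, (∀ p, ι p ≠ q) → ex x q = 0 := by
    intro x q hq
    exact Finset.sum_eq_zero fun p _ => if_neg (hq p)
  let β : Matrix (Ix n) (Ix (n - s)) K := g.submatrix id ι
  let gi : Matrix (Ix n) (Ix n) K := Jm n K * gᵀ * Jm n K
  have hgi1 : gi * g = 1 := Gen.orth_left_inv hg
  let τ : Matrix (Ix (n - s)) (Ix n) K := gi.submatrix ι id
  have hβ : ∀ x, β *ᵥ x = g *ᵥ ex x := by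
    intro x
    funext q
    change ∑ p, g q (ι p) * x p = ∑ r, g q r * ex x r
    have h1 : ∀ r, g q r * ex x r = ∑ p, if ι p = r then g q r * x p else 0 := by
      intro r
      change g q r * (∑ p, if ι p = r then x p else 0) = _
      rw [Finset.mul_sum]
      refine Finset.sum_congr rfl fun p _ => ?_
      split_ifs <;> simp
    rw [Finset.sum_congr rfl fun r _ => h1 r, Finset.sum_comm]
    refine Finset.sum_congr rfl fun p _ => ?_
    rw [Finset.sum_eq_single (ι p)]
    · rw [if_pos rfl]
    · intro r _ hr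
      rw [if_neg (Ne.symm hr)]
    · simp
  have hτ : ∀ y, τ *ᵥ (g *ᵥ y) = fun p => y (ι p) := by
    intro y
    funext p
    have h1 : (gi *ᵥ (g *ᵥ y)) (ι p) = y (ι p) := by
      rw [mulVec_mulVec, hgi1, one_mulVec]
    rw [← h1]
    rfl
  refine ⟨n - s, β, τ, hS, hn, ?_, ?_, ?_, ?_⟩
  · intro x v
    obtain ⟨y, rfl⟩ := hg.surj v
    rw [hβ, form_mulVec hg, hτ, form_apply, form_apply]
    have h1 : ∀ q, ex x q * y (sw q) = ∑ p, if ι p = q then x p * y (sw q) else 0 := by
      intro q
      change (∑ p, if ι p = q then x p else 0) * y (sw q) = _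
      rw [Finset.sum_mul]
      refine Finset.sum_congr rfl fun p _ => ?_
      split_ifs <;> simp
    rw [Finset.sum_congr rfl fun q _ => h1 q, Finset.sum_comm]
    refine Finset.sum_congr rfl fun p _ => ?_
    rw [Finset.sum_eq_single (ι p)]
    · rw [if_pos rfl, hι]
    · intro q _ hq
      rw [if_neg (Ne.symm hq)]
    · simp
  · ext p q
    have h1 := congrFun (hτ (Pi.single (ι q) 1)) p
    have h2 : g *ᵥ Pi.single (ι q) 1 = fun r => g r (ι q) := by
      rw [mulVec_single_one]; rfl
    rw [h2] at h1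
    have h3 : (τ * β) p q = (τ *ᵥ fun r => g r (ι q)) p := rfl
    rw [h3, h1, Matrix.one_apply, Pi.single_apply]
    by_cases hpq : p = q
    · rw [if_pos (by rw [hpq]), if_pos hpq]
    · rw [if_neg (fun h => hpq (hιinj h)), if_neg hpq]
  · intro v hv
    rw [hSg] at hv
    obtain ⟨x, hx, rfl⟩ := hv
    rw [mulVecLin_apply, hτ]
    funext p
    apply hx
    rcases p with i | i
    · change ¬ s + (i : ℕ) < s
      omega
    · exact id
  · intro v hv
    have hv' : v ∈ Co g (fun p => ¬ Xh s (sw p)) := by
      rw [Co_perp hg, ← hSg]; exact hv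
    obtain ⟨y, rfl⟩ := hg.surj v
    rw [mem_Co' hg] at hv'
    rw [hτ, hβ, ← mulVec_sub]
    have hS2 : S = Co g (Xh s) := hSg
    rw [hS2, mem_Co' hg]
    intro p hp
    rw [Pi.sub_apply]
    rcases p with i | i
    · have hi : ¬ (i : ℕ) < s := hp
      have h1 : ι (Sum.inl ⟨(i : ℕ) - s, by have := i.2; omega⟩) = Sum.inl i := by
        change (Sum.inl ⟨s + ((i : ℕ) - s), _⟩ : Ix n) = Sum.inl i
        congr 1
        exact Fin.ext (by simp only; omega)
      have h3 := hexι (fun p => y (ι p)) (Sum.inl ⟨(i : ℕ) - s, by have := i.2; omega⟩)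
      simp only [h1] at h3
      rw [h3, sub_self]
    · by_cases hi : (i : ℕ) < s
      · have h2 : y (Sum.inr i) = 0 := by
          apply hv'
          rw [not_not]
          exact hi
        rw [h2, hex0, sub_zero]
        intro p h
        rcases p with j | j
        · exact absurd h (by simp [ι])
        · have h1 : (⟨s + j, by omega⟩ : Fin n) = i := Sum.inr_injective h
          rw [← h1] at hi
          simp only at hi
          omega
      · have h1 : ι (Sum.inr ⟨(i : ℕ) - s, by have := i.2; omega⟩) = Sum.inr i := by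
          change (Sum.inr ⟨s + ((i : ℕ) - s), _⟩ : Ix n) = Sum.inr i
          congr 1
          exact Fin.ext (by simp only; omega)
        have h3 := hexι (fun p => y (ι p)) (Sum.inr ⟨(i : ℕ) - s, by have := i.2; omega⟩)
        simp only [h1] at h3
        rw [h3, sub_self]

end Crest.Agent.R172.Ind
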