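import Crest.Agent.R172.Ind2
import Crest.Agent.R172.HM10

/-!
Row 172 (S0260), node IND: the induction class `GI` ("generic instance") and the numbers.
-/

set_option autoImplicit false
set_option linter.unusedSectionVars false
set_option maxHeartbeats 400000

namespace Crest.Agent.R172.Ind

open Matrix Crest.AlgebraR.SpinSaturation Crest.Agent.R172.SoGrade Crest.Agent.R172.Sp
open Crest.Agent.R172.Gen (Jm Ix emb IsSo)
open Crest.Agent.R172.CF Crest.Agent.R172.HM8 Crest.Agent.R172.HM9 Module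

variable {n : ℕ} {a : Fin 3 → Fin n → ℤ}

/-- **Generic instance**: `g_s ∈ O(V)`, `H` skew, and every direction of `so(V)³ × Λ²` is realised on
`N(g)` by a derivation of `K`. -/
structure GI (c : Cfg n a) (p : Pol c) (K : Type) [Field K] [Algebra ℂ K]
    (g : Fin 3 → Matrix (Ix n) (Ix n) K) (H : Matrix (Fin p.m) (Fin p.m) K) : Prop where
  orth : ∀ s, (g s)ᵀ * Jm n K * g s = Jm n K
  skew : Hᵀ = -H
  dir : ∀ X : Fin 3 → Matrix (Ix n) (Ix n) K, (∀ s, IsSo (X s)) →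
    ∀ G : Matrix (Fin p.m) (Fin p.m) K, Gᵀ = -G →
      ∃ D : Derivation ℂ K K, (∀ F ∈ c.N g, F.map D - FO.act c.arm X F ∈ c.N g) ∧ H.map D = G

/-- `k(V) = dim K(V)` -/
noncomputable def kk (c : Cfg n a) (p : Pol c) {K : Type} [Field K] [Algebra ℂ K]
    (g : Fin 3 → Matrix (Ix n) (Ix n) K) (H : Matrix (Fin p.m) (Fin p.m) K) : ℕ :=
  finrank K ↥(VL (p.LH H) ⊓ c.N g : Submodule K (Matrix (Ix n) c.δ K))

/-- `μ(S)` -/
noncomputable def mu (c : Cfg n a) (p : Pol c) {K : Type} [Field K]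
    (g : Fin 3 → Matrix (Ix n) (Ix n) K) (S : Submodule K (Ix n → K)) : ℤ :=
  (finrank K ↥(c.N g ⊓ SU S : Submodule K (Matrix (Ix n) c.δ K)) : ℤ) - p.m * finrank K S

/-- all isotropic subspaces over all extensions have `μ ≤ b` -/
def Bd (c : Cfg n a) (p : Pol c) (K : Type) [Field K] (g : Fin 3 → Matrix (Ix n) (Ix n) K)
    (b : ℤ) : Prop :=
  ∀ (L : Type) [Field L] [Algebra K L] (S : Submodule L (Ix n → L)), Iso S →
    mu c p (fun s => emb K L (g s)) S ≤ b

/-- **Good subspace at an instance**: over an algebraically closed extension `L` a non-zero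
isotropic `S` with
(b) `N ∩ (W + S ⊗ U) ⊂ S^⊥ ⊗ U` (this contains (a) `K ⊂ S^⊥ ⊗ U`), and
(c) every direction `(X, 0)` with `X S = 0` is realised by a derivation which preserves `S`. -/
def GoodSub (c : Cfg n a) (p : Pol c) (L : Type) [Field L] [Algebra ℂ L]
    (g : Fin 3 → Matrix (Ix n) (Ix n) L) (H : Matrix (Fin p.m) (Fin p.m) L)
    (S : Submodule L (Ix n → L)) : Prop :=
  Iso S ∧ S ≠ ⊥ ∧ c.N g ⊓ (VL (p.LH H) ⊔ SU S) ≤ SU (perp S) ∧
  ∀ X : Fin 3 → Matrix (Ix n) (Ix n) L, (∀ s, IsSo (X s)) → (∀ s, ∀ v ∈ S, X s *ᵥ v = 0) →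
    ∃ D : Derivation ℂ L L, (∀ F ∈ c.N g, F.map D - FO.act c.arm X F ∈ c.N g) ∧
      H.map D = 0 ∧ ∀ v ∈ S, (fun i => D (v i)) ∈ S

/-- **STEP** (to be supplied by G1 + tame exclusion): an instance which violates `k ≤ 1 + b` has a
good subspace over some extension. -/
def Step : Prop :=
  ∀ (n : ℕ) (a : Fin 3 → Fin n → ℤ) (c : Cfg n a) (q : SPol c) (R : Ranked c),
    (∀ i, q.z ≠ some i → 0 < R.rk (q.dd (Sum.inr i))) →
    ∀ (K : Type) [Field K] [Algebra ℂ K] [IsAlgClosed K] (g : Fin 3 → Matrix (Ix n) (Ix n) K)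
      (H : Matrix (Fin q.toPol.m) (Fin q.toPol.m) K), GI c q.toPol K g H →
      ∀ b : ℤ, 0 ≤ b → Bd c q.toPol K g b → b + 2 ≤ kk c q.toPol g H →
      ∃ (L : Type) (_ : Field L) (_ : Algebra K L) (_ : Algebra ℂ L) (_ : IsScalarTower ℂ K L)
        (_ : IsAlgClosed L) (S : Submodule L (Ix n → L)),
        GoodSub c q.toPol L (fun s => emb K L (g s)) (emb K L H) S

end Crest.Agent.R172.Ind
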