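import Crest.Agent.R172.Ind3

/-!
Row 172, node IND, part 4: the configuration of `V_S`.
-/

set_option autoImplicit false
set_option maxHeartbeats 400000
set_option linter.unusedSectionVars false

namespace Crest.Agent.R172.Ind

open Module Matrix Crest.Agent.R172.HM2 Crest.Agent.R172.HM8 Crest.Agent.R172.HM9
open Crest.Agent.R172.Gen (Jm Ix emb IsSo)
open Crest.Agent.R172.CF

variable {n n' : ℕ} {a : Fin 3 → Fin n → ℤ}

/-! ### the new configuration -/

/-- the new weights -/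
def redA (c : Cfg n a) (f : c.δ → ℕ) (s : Fin 3) (i : Fin n') : ℤ :=
  2 * ((Finset.univ.filter (fun d => c.arm d = s ∧ (i : ℕ) < f d)).card : ℤ) -
    ((Finset.univ.filter (fun d => c.arm d = s)).card : ℤ)

/-- the new configuration -/
@[reducible] def redCfg (c : Cfg n a) (f : c.δ → ℕ) (hf : ∀ d, f (c.σ d) + f d = 2 * n') :
    Cfg n' (redA (n' := n') c f) where
  δ := c.δ
  arm := c.arm
  σ := c.σ
  inv := c.inv
  arm_σ := c.arm_σ
  A := fun i d => (i : ℕ) < f d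
  mono := by
    intro i j hij d h
    have h1 : (i : ℕ) < j := hij
    exact h1.trans h
  perp := by
    intro i j hij d h
    have h1 := hf d
    have h2 := i.2
    have h3 := j.2
    have h4 : (i : ℕ) ≠ j := fun h => hij (Fin.ext h)
    have h5 : ¬ (j : ℕ) < f (c.σ d) := h
    change (i : ℕ) < f d
    omega
  count := fun s i => rfl

/-- polarisation -/
@[reducible] noncomputable def redPol {c : Cfg n a} (p : Pol c) (f : c.δ → ℕ)
    (hf : ∀ d, f (c.σ d) + f d = 2 * n') : Pol (redCfg c f hf) where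
  m := p.m
  card := p.card
  T := p.T
  hT := p.hT

/-- standard polarisation -/
@[reducible] def redSPol {c : Cfg n a} (q : SPol c) (f : c.δ → ℕ)
    (hf : ∀ d, f (c.σ d) + f d = 2 * n') : SPol (redCfg c f hf) where
  m := q.m
  dd := q.dd
  z := q.z
  reg := q.reg
  fix := q.fix

theorem redSPol_toPol {c : Cfg n a} (q : SPol c) (f : c.δ → ℕ)
    (hf : ∀ d, f (c.σ d) + f d = 2 * n') : (redSPol q f hf).toPol = redPol q.toPol f hf := rfl

/-- ranks -/
@[reducible] def redRk {c : Cfg n a} (R : Ranked c) (f : c.δ → ℕ)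
    (hf : ∀ d, f (c.σ d) + f d = 2 * n')
    (hm : ∀ d e, c.arm d = c.arm e → R.rk e ≤ R.rk d → f d ≤ f e) : Ranked (redCfg c f hf) where
  rk := R.rk
  rk_σ := R.rk_σ
  anti := by
    intro d e h1 h2 i h3
    have h4 := hm d e h1 h2
    change (i : ℕ) < f e
    have h5 : (i : ℕ) < f d := h3
    omega

theorem redCfg_LH {c : Cfg n a} (p : Pol c) (f : c.δ → ℕ) (hf : ∀ d, f (c.σ d) + f d = 2 * n')
    {K : Type} [Field K] [Algebra ℂ K] (H : Matrix (Fin p.m) (Fin p.m) K) :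
    (redPol p f hf).LH H = p.LH H := rfl

theorem Gd_red (c : Cfg n a) (f : c.δ → ℕ) (hf : ∀ d, f (c.σ d) + f d = 2 * n') (d : c.δ) :
    Gd (redCfg c f hf) d = Xd (f d) (f (c.σ d)) := by
  funext p
  rcases p with i | i <;> rfl

section

variable {K : Type*} [Field K]

/-- the column subspaces -/
def CC (c : Cfg n a) (g : Fin 3 → Matrix (Ix n) (Ix n) K) (d : c.δ) : Submodule K (Ix n → K) :=
  Co (g (c.arm d)) (Gd c d)

theorem CC_σ (c : Cfg n a) {g : Fin 3 → Matrix (Ix n) (Ix n) K} (hg : ∀ s, Orth (g s)) (d : c.δ) :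
    CC c g (c.σ d) = perp (CC c g d) := by
  rw [CC, CC, c.arm_σ, ← Gd_hat, Co_perp (hg _)]

theorem CC_anti {c : Cfg n a} (R : Ranked c) (g : Fin 3 → Matrix (Ix n) (Ix n) K) {d e : c.δ}
    (h1 : c.arm d = c.arm e) (h2 : R.rk e ≤ R.rk d) : CC c g d ≤ CC c g e := by
  rw [CC, CC, h1]
  apply Co_mono
  rintro (i | i) h
  · exact R.anti d e h1 h2 i h
  · intro h'
    refine h (R.anti (c.σ e) (c.σ d) (by rw [c.arm_σ, c.arm_σ, h1]) ?_ i h')
    rw [R.rk_σ, R.rk_σ]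
    omega

/-- the new column subspaces -/
def CR (c : Cfg n a) (g : Fin 3 → Matrix (Ix n) (Ix n) K) (S : Submodule K (Ix n → K))
    (τ : Matrix (Ix n') (Ix n) K) (d : c.δ) : Submodule K (Ix n' → K) :=
  (CC c g d ⊓ perp S).map (mulVecLin τ)

theorem mem_CR {c : Cfg n a} {g : Fin 3 → Matrix (Ix n) (Ix n) K} {S : Submodule K (Ix n → K)}
    {τ : Matrix (Ix n') (Ix n) K} {d : c.δ} {x : Ix n' → K} :
    x ∈ CR c g S τ d ↔ ∃ v, v ∈ CC c g d ∧ v ∈ perp S ∧ τ *ᵥ v = x := by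
  constructor
  · rintro ⟨v, ⟨h1, h2⟩, h3⟩
    exact ⟨v, h1, h2, h3⟩
  · rintro ⟨v, h1, h2, h3⟩
    exact ⟨v, ⟨h1, h2⟩, h3⟩

theorem Sec.beta_mem {S : Submodule K (Ix n → K)} {β : Matrix (Ix n) (Ix n') K}
    {τ : Matrix (Ix n') (Ix n) K} (h : Sec S n' β τ) (x : Ix n' → K) : β *ᵥ x ∈ perp S := by
  intro s hs
  rw [h.adj, h.kill s hs, map_zero]

theorem Sec.tau_beta {S : Submodule K (Ix n → K)} {β : Matrix (Ix n) (Ix n') K}
    {τ : Matrix (Ix n') (Ix n) K} (h : Sec S n' β τ) (x : Ix n' → K) : τ *ᵥ (β *ᵥ x) = x := by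
  rw [mulVec_mulVec, h.tb, one_mulVec]

theorem Sec.form_tau {S : Submodule K (Ix n → K)} {β : Matrix (Ix n) (Ix n') K}
    {τ : Matrix (Ix n') (Ix n) K} (h : Sec S n' β τ) {v w : Ix n → K} (hv : v ∈ perp S)
    (hw : w ∈ perp S) : form n' K (τ *ᵥ v) (τ *ᵥ w) = form n K v w := by
  rw [← h.adj]
  have h1 := h.dec v hv
  have h2 : form n K (v - β *ᵥ (τ *ᵥ v)) w = 0 := by
    rw [form_symm]; exact hw _ h1
  rw [map_sub, LinearMap.sub_apply, sub_eq_zero] at h2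
  exact h2.symm

theorem CR_σ {c : Cfg n a} {g : Fin 3 → Matrix (Ix n) (Ix n) K} (hg : ∀ s, Orth (g s))
    {S : Submodule K (Ix n → K)} {β : Matrix (Ix n) (Ix n') K} {τ : Matrix (Ix n') (Ix n) K}
    (hs : Sec S n' β τ) (d : c.δ) : CR c g S τ (c.σ d) = perp (CR c g S τ d) := by
  ext x
  rw [mem_CR]
  constructor
  · rintro ⟨v, h1, h2, rfl⟩ y hy
    obtain ⟨w, h3, h4, rfl⟩ := mem_CR.1 hy
    rw [hs.form_tau h2 h4]
    rw [CC_σ c hg] at h1
    exact h1 w h3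
  · intro hx
    have h1 : β *ᵥ x ∈ perp (CC c g d ⊓ perp S) := by
      rintro v ⟨h2, h3⟩
      rw [hs.adj]
      exact hx _ (mem_CR.2 ⟨v, h2, h3, rfl⟩)
    rw [perp_inf, perp_perp] at h1
    obtain ⟨u, hu, s, hsS, h4⟩ := Submodule.mem_sup.1 h1
    refine ⟨u, ?_, ?_, ?_⟩
    · rw [CC_σ c hg]; exact hu
    · have h5 : u = β *ᵥ x - s := by rw [← h4]; abel
      rw [h5]
      exact Submodule.sub_mem _ (hs.beta_mem x) (hs.iso.le_perp hsS)
    · have h5 : u = β *ᵥ x - s := by rw [← h4]; abel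
      rw [h5, mulVec_sub, hs.tau_beta, hs.kill s hsS, sub_zero]

theorem CR_anti {c : Cfg n a} (R : Ranked c) (g : Fin 3 → Matrix (Ix n) (Ix n) K)
    (S : Submodule K (Ix n → K)) (τ : Matrix (Ix n') (Ix n) K) {d e : c.δ}
    (h1 : c.arm d = c.arm e) (h2 : R.rk e ≤ R.rk d) : CR c g S τ d ≤ CR c g S τ e :=
  Submodule.map_mono (inf_le_inf_right _ (CC_anti R g h1 h2))

/-- **frames of `V_S`** -/
theorem exists_red {c : Cfg n a} (R : Ranked c) {g : Fin 3 → Matrix (Ix n) (Ix n) K}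
    (hg : ∀ s, Orth (g s)) {S : Submodule K (Ix n → K)} {β : Matrix (Ix n) (Ix n') K}
    {τ : Matrix (Ix n') (Ix n) K} (hs : Sec S n' β τ) :
    ∃ (f : c.δ → ℕ) (hf : ∀ d, f (c.σ d) + f d = 2 * n')
      (_ : ∀ d e, c.arm d = c.arm e → R.rk e ≤ R.rk d → f d ≤ f e)
      (g' : Fin 3 → Matrix (Ix n') (Ix n') K), (∀ s, Orth (g' s)) ∧
      ∀ d, CC (redCfg c f hf) g' d = CR c g S τ d := by
  classical
  have hf : ∀ d, finrank K (CR c g S τ (c.σ d)) + finrank K (CR c g S τ d) = 2 * n' := by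
    intro d
    rw [CR_σ hg hs]
    exact finrank_perp _
  refine ⟨fun d => finrank K (CR c g S τ d), hf, fun d e h1 h2 =>
    Submodule.finrank_mono (CR_anti R g S τ h1 h2), ?_⟩
  have key : ∀ s : Fin 3, ∃ g' : Matrix (Ix n') (Ix n') K, Orth g' ∧
      ∀ d, c.arm d = s → CR c g S τ d =
        Co g' (Xd (finrank K (CR c g S τ d)) (finrank K (CR c g S τ (c.σ d)))) := by
    intro s
    let σ' : {d : c.δ // c.arm d = s} → {d : c.δ // c.arm d = s} :=
      fun d => ⟨c.σ d.1, by rw [c.arm_σ]; exact d.2⟩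
    let C : {d : c.δ // c.arm d = s} → Submodule K (Ix n' → K) := fun d => CR c g S τ d.1
    have hσ' : ∀ d, σ' (σ' d) = d := fun d => Subtype.ext (c.inv d.1)
    have hC1 : ∀ d e, C d ≤ C e ∨ C e ≤ C d := by
      intro d e
      rcases le_total (R.rk e.1) (R.rk d.1) with h | h
      · exact Or.inl (CR_anti R g S τ (by rw [d.2, e.2]) h)
      · exact Or.inr (CR_anti R g S τ (by rw [d.2, e.2]) h)
    have hC2 : ∀ d, C (σ' d) = perp (C d) := fun d => CR_σ hg hs d.1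
    obtain ⟨g', h1, h2⟩ := frame_of_dual_chain σ' hσ' C hC1 hC2
    exact ⟨g', h1, fun d hd => h2 ⟨d, hd⟩⟩
  choose g' h1 h2 using key
  refine ⟨g', h1, fun d => ?_⟩
  rw [CC, Gd_red]
  exact (h2 (c.arm d) d rfl).symm

end

end Crest.Agent.R172.Ind
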