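import Crest.Agent.R172.Ind4

/-!
Row 172, node IND, part 5: `N(V_S)`, the dimension count and the additivity of `μ`.
-/

set_option autoImplicit false
set_option maxHeartbeats 400000
set_option linter.unusedSectionVars false

namespace Crest.Agent.R172.Ind

open Module Matrix Crest.Agent.R172.HM2 Crest.Agent.R172.HM8 Crest.Agent.R172.HM9
open Crest.Agent.R172.Gen (Jm Ix emb IsSo)
open Crest.Agent.R172.CF

variable {n n' : ℕ} {a : Fin 3 → Fin n → ℤ}

theorem finrank_map_ker {K V V' : Type*} [Field K] [AddCommGroup V] [Module K V]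
    [AddCommGroup V'] [Module K V'] [FiniteDimensional K V] (P : Submodule K V) (T : V →ₗ[K] V') :
    finrank K (P.map T) + finrank K ↥(P ⊓ LinearMap.ker T) = finrank K P := by
  have h1 := LinearMap.finrank_range_add_finrank_ker (T.domRestrict P)
  have h2 : LinearMap.range (T.domRestrict P) = P.map T := LinearMap.range_domRestrict P T
  rw [h2] at h1
  rw [← h1]
  congr 1
  let e : ↥(P ⊓ LinearMap.ker T) ≃ₗ[K] ↥(LinearMap.ker (T.domRestrict P)) :=
    { toFun := fun v => ⟨⟨v.1, v.2.1⟩, v.2.2⟩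
      invFun := fun v => ⟨v.1.1, v.1.2, v.2⟩
      map_add' := fun _ _ => rfl
      map_smul' := fun _ _ => rfl
      left_inv := fun _ => rfl
      right_inv := fun _ => rfl }
  exact e.finrank_eq

section

variable {K : Type*} [Field K]

/-- left multiplication -/
def tauL {ι κ δ : Type*} [Fintype ι] (τ : Matrix κ ι K) : Matrix ι δ K →ₗ[K] Matrix κ δ K where
  toFun F := τ * F
  map_add' F G := Matrix.mul_add _ _ _
  map_smul' t F := by rw [RingHom.id_apply, Matrix.mul_smul]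

theorem tauL_apply {ι κ δ : Type*} [Fintype ι] (τ : Matrix κ ι K) (F : Matrix ι δ K) :
    tauL τ F = τ * F := rfl

theorem mul_col {ι κ δ : Type*} [Fintype ι] (τ : Matrix κ ι K) (F : Matrix ι δ K) (d : δ) :
    (fun q => (τ * F) q d) = τ *ᵥ (fun p => F p d) := rfl

/-- the data of a reduction -/
structure RedAt (c : Cfg n a) (f : c.δ → ℕ) (hf : ∀ d, f (c.σ d) + f d = 2 * n')
    (g : Fin 3 → Matrix (Ix n) (Ix n) K) (S : Submodule K (Ix n → K))
    (β : Matrix (Ix n) (Ix n') K) (τ : Matrix (Ix n') (Ix n) K)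
    (g' : Fin 3 → Matrix (Ix n') (Ix n') K) : Prop where
  orth : ∀ s, Orth (g s)
  sec : Sec S n' β τ
  orth' : ∀ s, Orth (g' s)
  cols : ∀ d, CC (redCfg c f hf) g' d = CR c g S τ d

variable {c : Cfg n a} {f : c.δ → ℕ} {hf : ∀ d, f (c.σ d) + f d = 2 * n'}
  {g : Fin 3 → Matrix (Ix n) (Ix n) K} {S : Submodule K (Ix n → K)}
  {β : Matrix (Ix n) (Ix n') K} {τ : Matrix (Ix n') (Ix n) K}
  {g' : Fin 3 → Matrix (Ix n') (Ix n') K}

theorem mem_N'' (c : Cfg n a) {g : Fin 3 → Matrix (Ix n) (Ix n) K} {F : Matrix (Ix n) c.δ K} :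
    F ∈ c.N g ↔ ∀ d, (fun p => F p d) ∈ CC c g d := mem_N' c

theorem RedAt.mem_N (h : RedAt c f hf g S β τ g') {F' : Matrix (Ix n') c.δ K} :
    F' ∈ (redCfg c f hf).N g' ↔ ∃ F ∈ c.N g, F ∈ SU (perp S) ∧ τ * F = F' := by
  rw [mem_N'']
  constructor
  · intro h1
    have h2 : ∀ d : c.δ, ∃ v, v ∈ CC c g d ∧ v ∈ perp S ∧ τ *ᵥ v = fun p => F' p d := by
      intro d
      have := h1 d
      rw [h.cols] at this
      exact mem_CR.1 this
    choose v hv1 hv2 hv3 using h2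
    refine ⟨Matrix.of fun p d => v d p, ?_, fun d => hv2 d, ?_⟩
    · rw [mem_N'']
      exact fun d => hv1 d
    · ext q d
      exact congrFun (hv3 d) q
  · rintro ⟨F, hF, hF2, rfl⟩ d
    rw [h.cols]
    exact mem_CR.2 ⟨_, (mem_N'' c).1 hF d, hF2 d, rfl⟩

theorem Sec.ker_tau (h : Sec S n' β τ) {v : Ix n → K} (hv : v ∈ perp S) :
    τ *ᵥ v = 0 ↔ v ∈ S := by
  constructor
  · intro h1
    have h2 := h.dec v hv
    rw [h1, mulVec_zero, sub_zero] at h2
    exact h2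
  · exact h.kill v

/-- the preimage of a subspace -/
def pull (S : Submodule K (Ix n → K)) (τ : Matrix (Ix n') (Ix n) K)
    (T : Submodule K (Ix n' → K)) : Submodule K (Ix n → K) :=
  perp S ⊓ T.comap (mulVecLin τ)

theorem pull_iso (h : Sec S n' β τ) {T : Submodule K (Ix n' → K)} (hT : Iso T) :
    Iso (pull S τ T) := by
  intro v hv w hw
  rw [← h.form_tau hv.1 hw.1]
  exact hT _ hv.2 _ hw.2

theorem S_le_pull (h : Sec S n' β τ) (T : Submodule K (Ix n' → K)) : S ≤ pull S τ T := by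
  intro v hv
  refine ⟨h.iso.le_perp hv, ?_⟩
  change τ *ᵥ v ∈ T
  rw [h.kill v hv]
  exact T.zero_mem

theorem beta_mem_pull (h : Sec S n' β τ) {T : Submodule K (Ix n' → K)} {x : Ix n' → K}
    (hx : x ∈ T) : β *ᵥ x ∈ pull S τ T := by
  refine ⟨h.beta_mem x, ?_⟩
  change τ *ᵥ (β *ᵥ x) ∈ T
  rw [h.tau_beta]
  exact hx

theorem finrank_pull (h : Sec S n' β τ) (T : Submodule K (Ix n' → K)) :
    finrank K (pull S τ T) = finrank K T + finrank K S := by
  rw [← finrank_map_ker (pull S τ T) (mulVecLin τ)]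
  have e1 : (pull S τ T).map (mulVecLin τ) = T := by
    ext x
    constructor
    · rintro ⟨v, hv, rfl⟩
      exact hv.2
    · intro hx
      exact ⟨β *ᵥ x, beta_mem_pull h hx, h.tau_beta x⟩
  have e2 : pull S τ T ⊓ LinearMap.ker (mulVecLin τ) = S := by
    ext v
    constructor
    · rintro ⟨hv, h0⟩
      exact (h.ker_tau hv.1).1 h0
    · intro hv
      exact ⟨S_le_pull h T hv, h.kill v hv⟩
  rw [e1, e2]

theorem RedAt.finrank_pull_N (h : RedAt c f hf g S β τ g') (T : Submodule K (Ix n' → K)) :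
    finrank K ↥(c.N g ⊓ SU (pull S τ T) : Submodule K (Matrix (Ix n) c.δ K)) =
      finrank K ↥((redCfg c f hf).N g' ⊓ SU T : Submodule K (Matrix (Ix n') c.δ K)) +
      finrank K ↥(c.N g ⊓ SU S : Submodule K (Matrix (Ix n) c.δ K)) := by
  rw [← finrank_map_ker (c.N g ⊓ SU (pull S τ T) : Submodule K (Matrix (Ix n) c.δ K)) (tauL τ)]
  have e1 : (c.N g ⊓ SU (pull S τ T) : Submodule K (Matrix (Ix n) c.δ K)).map (tauL τ) =
      ((redCfg c f hf).N g' ⊓ SU T : Submodule K (Matrix (Ix n') c.δ K)) := by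
    ext F'
    constructor
    · rintro ⟨F, ⟨hF1, hF2⟩, rfl⟩
      exact ⟨h.mem_N.2 ⟨F, hF1, fun d => (hF2 d).1, rfl⟩, fun d => (hF2 d).2⟩
    · rintro ⟨h1, h2⟩
      obtain ⟨F, hF1, hF2, rfl⟩ := h.mem_N.1 h1
      exact ⟨F, ⟨hF1, fun d => ⟨hF2 d, h2 d⟩⟩, rfl⟩
  have e2 : (c.N g ⊓ SU (pull S τ T) : Submodule K (Matrix (Ix n) c.δ K)) ⊓
      LinearMap.ker (tauL τ) = c.N g ⊓ SU S := by
    ext F
    constructor
    · rintro ⟨⟨hF1, hF2⟩, h0⟩
      refine ⟨hF1, fun d => (h.sec.ker_tau (hF2 d).1).1 ?_⟩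
      have h1 : τ * F = 0 := h0
      rw [← mul_col, h1]
      rfl
    · rintro ⟨hF1, hF2⟩
      refine ⟨⟨hF1, fun d => S_le_pull h.sec T (hF2 d)⟩, ?_⟩
      change τ * F = 0
      ext q d
      exact congrFun (h.sec.kill _ (hF2 d)) q
  rw [e1, e2]

end

section

variable {K : Type} [Field K]
variable {c : Cfg n a} {f : c.δ → ℕ} {hf : ∀ d, f (c.σ d) + f d = 2 * n'}
  {g : Fin 3 → Matrix (Ix n) (Ix n) K} {S : Submodule K (Ix n → K)}
  {β : Matrix (Ix n) (Ix n') K} {τ : Matrix (Ix n') (Ix n) K}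
  {g' : Fin 3 → Matrix (Ix n') (Ix n') K}

/-- **additivity of `μ`** -/
theorem RedAt.mu_add (h : RedAt c f hf g S β τ g') (p : Pol c) (T : Submodule K (Ix n' → K)) :
    mu (redCfg c f hf) (redPol p f hf) g' T = mu c p g (pull S τ T) - mu c p g S := by
  have h1 := h.finrank_pull_N T
  have h2 := finrank_pull h.sec T
  have e : mu (redCfg c f hf) (redPol p f hf) g' T =
    (finrank K ↥((redCfg c f hf).N g' ⊓ SU T : Submodule K (Matrix (Ix n') c.δ K)) : ℤ) -
      p.m * finrank K T := rfl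
  rw [e, mu, mu, h1, h2]
  push_cast
  ring

theorem mu_bot (c : Cfg n a) (p : Pol c) (g : Fin 3 → Matrix (Ix n) (Ix n) K) :
    mu c p g (⊥ : Submodule K (Ix n → K)) = 0 := by
  have h1 : (c.N g ⊓ SU ⊥ : Submodule K (Matrix (Ix n) c.δ K)) = ⊥ := by
    rw [eq_bot_iff]
    rintro F ⟨-, hF⟩
    rw [Submodule.mem_bot]
    ext q d
    exact congrFun ((Submodule.mem_bot K).1 (hF d)) q
  rw [mu, h1, finrank_bot, finrank_bot]
  simp

variable [Algebra ℂ K]

/-- **the count, part 2** -/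
theorem RedAt.count (h : RedAt c f hf g S β τ g') (p : Pol c) (H : Matrix (Fin p.m) (Fin p.m) K)
    (hb : c.N g ⊓ (VL (p.LH H) ⊔ SU S) ≤ SU (perp S)) :
    finrank K ↥(c.N g ⊓ (VL (p.LH H) ⊔ SU S) : Submodule K (Matrix (Ix n) c.δ K)) =
      kk (redCfg c f hf) (redPol p f hf) g' H +
      finrank K ↥(c.N g ⊓ SU S : Submodule K (Matrix (Ix n) c.δ K)) := by
  rw [← finrank_map_ker (c.N g ⊓ (VL (p.LH H) ⊔ SU S) : Submodule K (Matrix (Ix n) c.δ K))
    (tauL τ)]
  have hVL : ∀ {k l : ℕ} (A : Matrix (Ix k) (Ix l) K) (F : Matrix (Ix l) c.δ K),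
      F ∈ VL (p.LH H) → A * F ∈ VL (p.LH H) := by
    intro k l A F hF q
    have h1 : (fun d => (A * F) q d) = ∑ r, A q r • (fun d => F r d) := by
      funext d
      rw [Matrix.mul_apply, Finset.sum_apply]
      rfl
    rw [h1]
    exact Submodule.sum_mem _ fun r _ => Submodule.smul_mem _ _ (hF r)
  have e1 : (c.N g ⊓ (VL (p.LH H) ⊔ SU S) : Submodule K (Matrix (Ix n) c.δ K)).map (tauL τ) =
      (VL (p.LH H) ⊓ (redCfg c f hf).N g' : Submodule K (Matrix (Ix n') c.δ K)) := by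
    ext F'
    constructor
    · rintro ⟨F, hF, rfl⟩
      have hFp := hb hF
      obtain ⟨hF1, hF2⟩ := hF
      refine ⟨?_, h.mem_N.2 ⟨F, hF1, hFp, rfl⟩⟩
      obtain ⟨w, hw, s, hs, rfl⟩ := Submodule.mem_sup.1 hF2
      have h0 : τ * s = 0 := by
        ext q d
        exact congrFun (h.sec.kill _ (hs d)) q
      rw [tauL_apply, Matrix.mul_add, h0, add_zero]
      exact hVL τ w hw
    · rintro ⟨h1, h2⟩
      obtain ⟨F, hF1, hF2, rfl⟩ := h.mem_N.1 h2
      refine ⟨F, ⟨hF1, ?_⟩, rfl⟩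
      rw [SetLike.mem_coe, Submodule.mem_sup]
      refine ⟨β * (τ * F), hVL β _ h1, F - β * (τ * F), ?_, by abel⟩
      intro d
      exact h.sec.dec _ (hF2 d)
  have e2 : (c.N g ⊓ (VL (p.LH H) ⊔ SU S) : Submodule K (Matrix (Ix n) c.δ K)) ⊓
      LinearMap.ker (tauL τ) = c.N g ⊓ SU S := by
    ext F
    constructor
    · rintro ⟨hF, h0⟩
      have hFp := hb hF
      refine ⟨hF.1, fun d => (h.sec.ker_tau (hFp d)).1 ?_⟩
      have h1 : τ * F = 0 := h0
      rw [← mul_col, h1]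
      rfl
    · rintro ⟨hF1, hF2⟩
      refine ⟨⟨hF1, Submodule.mem_sup_right hF2⟩, ?_⟩
      change τ * F = 0
      ext q d
      exact congrFun (h.sec.kill _ (hF2 d)) q
  rw [e1, e2]
  rfl

end

end Crest.Agent.R172.Ind
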