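import Crest.Agent.R172.Ind5

/-!
Row 172, node IND, part 6: the directions realised on `V_S`.
-/

set_option autoImplicit false
set_option maxHeartbeats 400000
set_option linter.unusedSectionVars false

namespace Crest.Agent.R172.Ind

open Module Matrix Crest.Agent.R172.HM2 Crest.Agent.R172.HM8 Crest.Agent.R172.HM9
open Crest.Agent.R172.Gen (Jm Ix emb IsSo)
open Crest.Agent.R172.CF

variable {n n' : ℕ} {a : Fin 3 → Fin n → ℤ} {K : Type} [Field K] [Algebra ℂ K]

theorem map_mul_D {α β γ : Type*} [Fintype β] (D : Derivation ℂ K K) (A : Matrix α β K)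
    (B : Matrix β γ K) : (A * B).map D = A.map D * B + A * B.map D := FO3.map_der_mul D A B

theorem mulVec_D {α β : Type*} [Fintype β] (D : Derivation ℂ K K) (A : Matrix α β K)
    (v : β → K) : (fun i => D ((A *ᵥ v) i)) = A.map D *ᵥ v + A *ᵥ (fun i => D (v i)) := by
  funext i
  rw [Pi.add_apply, mulVec, dotProduct, map_sum, mulVec, mulVec, dotProduct, dotProduct,
    ← Finset.sum_add_distrib]
  refine Finset.sum_congr rfl fun j _ => ?_
  rw [Derivation.leibniz, smul_eq_mul, smul_eq_mul, map_apply]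
  ring

theorem Jm_D (m : ℕ) (D : Derivation ℂ K K) : (Jm m K).map D = 0 := FO3.Jm_der m D

theorem form_D (D : Derivation ℂ K K) (v w : Ix n → K) :
    D (form n K v w) = form n K (fun i => D (v i)) w + form n K v (fun i => D (w i)) := by
  rw [form_apply, form_apply, form_apply, map_sum, ← Finset.sum_add_distrib]
  refine Finset.sum_congr rfl fun p _ => ?_
  rw [Derivation.leibniz, smul_eq_mul, smul_eq_mul]
  ring

/-- the logarithmic derivative of an orthogonal matrix -/
theorem exists_logD {g : Matrix (Ix n) (Ix n) K} (hg : Orth g) (D : Derivation ℂ K K) :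
    ∃ P : Matrix (Ix n) (Ix n) K, IsSo P ∧ g.map D = P * g := by
  have hg' : gᵀ * Jm n K * g = Jm n K := hg
  have h1 : (Jm n K * gᵀ * Jm n K) * g = 1 := Gen.orth_left_inv hg
  have h2 : g * (Jm n K * gᵀ * Jm n K) = 1 := Gen.orth_right_inv hg
  refine ⟨g.map D * (Jm n K * gᵀ * Jm n K), ?_, by rw [Matrix.mul_assoc, h1, Matrix.mul_one]⟩
  have h3 : (g.map D)ᵀ * Jm n K * g + gᵀ * Jm n K * g.map D = 0 := by
    have h4 : (gᵀ * Jm n K * g).map D = (Jm n K).map D := by rw [hg']
    rw [map_mul_D, map_mul_D, Jm_D, Matrix.mul_zero, add_zero] at h4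
    exact h4
  set P := g.map D * (Jm n K * gᵀ * Jm n K) with hP
  have hPg : g.map D = P * g := by rw [hP, Matrix.mul_assoc, h1, Matrix.mul_one]
  rw [hPg, transpose_mul] at h3
  have h5 : gᵀ * (Pᵀ * Jm n K + Jm n K * P) * g = 0 := by
    rw [← h3]
    simp only [Matrix.mul_add, Matrix.add_mul, Matrix.mul_assoc]
  have h6 : (g * (Jm n K * gᵀ * Jm n K))ᵀ * (Pᵀ * Jm n K + Jm n K * P) *
      (g * (Jm n K * gᵀ * Jm n K)) = 0 := by
    have e : (g * (Jm n K * gᵀ * Jm n K))ᵀ * (Pᵀ * Jm n K + Jm n K * P) *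
      (g * (Jm n K * gᵀ * Jm n K)) = (Jm n K * gᵀ * Jm n K)ᵀ *
        (gᵀ * (Pᵀ * Jm n K + Jm n K * P) * g) * (Jm n K * gᵀ * Jm n K) := by
      rw [transpose_mul g]
      simp only [Matrix.mul_assoc]
    rw [e, h5, Matrix.mul_zero, Matrix.zero_mul]
  rw [h2, transpose_one, Matrix.one_mul, Matrix.mul_one] at h6
  exact h6

omit [Algebra ℂ K] in
theorem Sec.adj_mat {S : Submodule K (Ix n → K)} {β : Matrix (Ix n) (Ix n') K}
    {τ : Matrix (Ix n') (Ix n) K} (h : Sec S n' β τ) : βᵀ * Jm n K = Jm n' K * τ := by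
  have h1 : ∀ (x : Ix n' → K) (v : Ix n → K), x ⬝ᵥ ((βᵀ * Jm n K) *ᵥ v) =
      x ⬝ᵥ ((Jm n' K * τ) *ᵥ v) := by
    intro x v
    have h2 := h.adj x v
    rw [form_eq, form_eq] at h2
    rw [← mulVec_mulVec, ← mulVec_mulVec, ← h2, dotProduct_mulVec x, vecMul_transpose]
  ext p q
  have h2 := h1 (Pi.single p 1) (Pi.single q 1)
  rw [mulVec_single_one, mulVec_single_one, single_one_dotProduct, single_one_dotProduct] at h2
  exact h2

omit [Algebra ℂ K] in
theorem act_diag {δ : Type*} [Fintype δ] [DecidableEq δ] (arm : δ → Fin 3)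
    (Y : Matrix (Ix n) (Ix n) K) (F : Matrix (Ix n) δ K) :
    FO.act arm (fun _ => Y) F = Y * F := by
  ext p d
  rw [act_apply]

omit [Algebra ℂ K] in
theorem act_add' {δ : Type*} [Fintype δ] [DecidableEq δ] (arm : δ → Fin 3)
    (X Y : Fin 3 → Matrix (Ix n) (Ix n) K) (F : Matrix (Ix n) δ K) :
    FO.act arm (fun s => X s + Y s) F = FO.act arm X F + FO.act arm Y F := by
  ext p d
  rw [act_apply, Matrix.add_apply, act_apply, act_apply, Matrix.add_mul, Matrix.add_apply]

variable {c : Cfg n a} {f : c.δ → ℕ} {hf : ∀ d, f (c.σ d) + f d = 2 * n'}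
  {g : Fin 3 → Matrix (Ix n) (Ix n) K} {S : Submodule K (Ix n → K)}
  {β : Matrix (Ix n) (Ix n') K} {τ : Matrix (Ix n') (Ix n) K}
  {g' : Fin 3 → Matrix (Ix n') (Ix n') K}

/-- **directions on `V_S`, up to the diagonal** -/
theorem RedAt.dir (h : RedAt c f hf g S β τ g') (p : Pol c) {H : Matrix (Fin p.m) (Fin p.m) K}
    (hdir : ∀ G : Matrix (Fin p.m) (Fin p.m) K, Gᵀ = -G → ∃ D : Derivation ℂ K K, H.map D = G)
    (hc : ∀ X : Fin 3 → Matrix (Ix n) (Ix n) K, (∀ s, IsSo (X s)) →
      (∀ s, ∀ v ∈ S, X s *ᵥ v = 0) →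
      ∃ D : Derivation ℂ K K, (∀ F ∈ c.N g, F.map D - FO.act c.arm X F ∈ c.N g) ∧
        H.map D = 0 ∧ ∀ v ∈ S, (fun i => D (v i)) ∈ S)
    (X' : Fin 3 → Matrix (Ix n') (Ix n') K) (hX' : ∀ s, IsSo (X' s))
    (G : Matrix (Fin p.m) (Fin p.m) K) (hG : Gᵀ = -G) :
    ∃ (D : Derivation ℂ K K) (Y : Matrix (Ix n') (Ix n') K), IsSo Y ∧
      (∀ F ∈ (redCfg c f hf).N g', F.map D - FO.act c.arm (fun s => X' s + Y) F ∈
        (redCfg c f hf).N g') ∧ H.map D = G := by
  obtain ⟨D1, hD1⟩ := hdir G hG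
  choose P hP1 hP2 using fun s => exists_logD (h.orth' s) D1
  have hadj := h.sec.adj_mat
  have hadj' : Jm n K * β = τᵀ * Jm n' K := by
    have := congrArg transpose hadj
    rw [transpose_mul, transpose_mul, transpose_transpose, Jm_transpose, Jm_transpose] at this
    exact this
  -- the direction on `V`
  let X : Fin 3 → Matrix (Ix n) (Ix n) K := fun s => β * (X' s - P s) * τ
  have hX : ∀ s, IsSo (X s) := by
    intro s
    have h1 : (X' s)ᵀ * Jm n' K + Jm n' K * X' s = 0 := hX' s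
    have h2 : (P s)ᵀ * Jm n' K + Jm n' K * P s = 0 := hP1 s
    have h3 : (X' s - P s)ᵀ * Jm n' K + Jm n' K * (X' s - P s) = 0 := by
      rw [transpose_sub, Matrix.sub_mul, Matrix.mul_sub]
      calc _ = ((X' s)ᵀ * Jm n' K + Jm n' K * X' s) - ((P s)ᵀ * Jm n' K + Jm n' K * P s) := by
            abel
        _ = 0 := by rw [h1, h2, sub_zero]
    change (β * (X' s - P s) * τ)ᵀ * Jm n K + Jm n K * (β * (X' s - P s) * τ) = 0
    have e1 : (β * (X' s - P s) * τ)ᵀ * Jm n K = τᵀ * ((X' s - P s)ᵀ * Jm n' K) * τ := by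
      rw [transpose_mul, transpose_mul, Matrix.mul_assoc τᵀ, Matrix.mul_assoc (X' s - P s)ᵀ, hadj]
      simp only [Matrix.mul_assoc]
    have e2 : Jm n K * (β * (X' s - P s) * τ) = τᵀ * (Jm n' K * (X' s - P s)) * τ := by
      rw [← Matrix.mul_assoc, ← Matrix.mul_assoc, hadj']
      simp only [Matrix.mul_assoc]
    rw [e1, e2, ← Matrix.add_mul, ← Matrix.mul_add, h3, Matrix.mul_zero, Matrix.zero_mul]
  have hXS : ∀ s, ∀ v ∈ S, X s *ᵥ v = 0 := by
    intro s v hv
    change (β * (X' s - P s) * τ) *ᵥ v = 0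
    rw [← mulVec_mulVec, h.sec.kill v hv, mulVec_zero]
  obtain ⟨D2, hD2N, hD2H, hD2S⟩ := hc X hX hXS
  have hD2P : ∀ v ∈ perp S, (fun i => D2 (v i)) ∈ perp S := by
    intro v hv s hs
    have h1 := form_D D2 v s
    rw [hv s hs, map_zero, hv _ (hD2S s hs), add_zero] at h1
    exact h1.symm
  let Y : Matrix (Ix n') (Ix n') K := τ.map D2 * β
  have hτS : ∀ s ∈ S, τ.map D2 *ᵥ s = 0 := by
    intro s hs
    have h1 := mulVec_D D2 τ s
    rw [h.sec.kill s hs, h.sec.kill _ (hD2S s hs), add_zero] at h1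
    rw [← h1]
    funext i
    simp
  have hY : IsSo Y := by
    have h1 : τ.map D2 * β + τ * β.map D2 = 0 := by
      rw [← map_mul_D, h.sec.tb]
      ext i j
      rw [map_apply, Matrix.one_apply]
      split_ifs <;> simp
    have h2 : βᵀ * Jm n K * β = Jm n' K := by
      rw [hadj, Matrix.mul_assoc, h.sec.tb, Matrix.mul_one]
    have h3 : (β.map D2)ᵀ * Jm n K * β + βᵀ * Jm n K * β.map D2 = 0 := by
      have h4 : (βᵀ * Jm n K * β).map D2 = (Jm n' K).map D2 := by rw [h2]
      rw [map_mul_D, map_mul_D, Jm_D, Jm_D, Matrix.mul_zero, add_zero] at h4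
      exact h4
    have h5 : Y = -(τ * β.map D2) := eq_neg_of_add_eq_zero_left h1
    change Yᵀ * Jm n' K + Jm n' K * Y = 0
    rw [h5, transpose_neg, transpose_mul, Matrix.neg_mul, Matrix.mul_neg, Matrix.mul_assoc,
      ← hadj', ← Matrix.mul_assoc (Jm n' K), ← hadj, ← Matrix.mul_assoc, ← neg_add, h3, neg_zero]
  refine ⟨D1 + D2, Y, hY, ?_, ?_⟩
  · intro F' hF'
    have hA : F'.map D1 - FO.act c.arm P F' ∈ (redCfg c f hf).N g' :=
      FO3.onN (redCfg c f hf) D1 hP2 hF'
    have hB : F'.map D2 - FO.act c.arm (fun s => (X' s - P s) + Y) F' ∈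
        (redCfg c f hf).N g' := by
      obtain ⟨F, hF1, hF2, rfl⟩ := h.mem_N.1 hF'
      refine h.mem_N.2 ⟨F.map D2 - FO.act c.arm X F, hD2N F hF1, ?_, ?_⟩
      · refine Submodule.sub_mem _ (fun d => hD2P _ (hF2 d)) ?_
        intro d
        have h1 : (fun q => FO.act c.arm X F q d) =
            β *ᵥ (((X' (c.arm d) - P (c.arm d)) * τ) *ᵥ fun q => F q d) := by
          funext q
          rw [act_apply, mulVec_mulVec, ← Matrix.mul_assoc]
          rfl
        rw [h1]
        exact h.sec.beta_mem _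
      · have e1 : τ * F.map D2 = (τ * F).map D2 - τ.map D2 * F := by
          rw [map_mul_D]; abel
        have e2 : τ.map D2 * F = Y * (τ * F) := by
          ext q d
          have h1 := h.sec.dec _ (hF2 d)
          have h2 := hτS _ h1
          rw [mulVec_sub, sub_eq_zero] at h2
          have h3 := congrFun h2 q
          rw [mulVec_mulVec, mulVec_mulVec] at h3
          rw [← Matrix.mul_assoc]
          exact h3
        have e3 : τ * FO.act c.arm X F = FO.act c.arm (fun s => X' s - P s) (τ * F) := by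
          ext q d
          have h1 : (τ * FO.act c.arm X F) q d = (τ *ᵥ fun r => FO.act c.arm X F r d) q := rfl
          have h2 : (fun q => FO.act c.arm X F q d) =
              β *ᵥ (((X' (c.arm d) - P (c.arm d)) * τ) *ᵥ fun q => F q d) := by
            funext q
            rw [act_apply, mulVec_mulVec, ← Matrix.mul_assoc]
            rfl
          rw [h1, h2, h.sec.tau_beta, act_apply, ← mulVec_mulVec]
          rfl
        rw [Matrix.mul_sub, e1, e2, e3, act_add', act_diag]
        abel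
    have e : F'.map (D1 + D2) - FO.act c.arm (fun s => X' s + Y) F' =
        (F'.map D1 - FO.act c.arm P F') +
          (F'.map D2 - FO.act c.arm (fun s => (X' s - P s) + Y) F') := by
      have e1 : F'.map (D1 + D2) = F'.map D1 + F'.map D2 := by
        ext q d; rfl
      have e2 : FO.act c.arm (fun s => X' s + Y) F' = FO.act c.arm P F' +
          FO.act c.arm (fun s => (X' s - P s) + Y) F' := by
        rw [← act_add']
        congr 1
        funext s
        abel
      rw [e1, e2]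
      abel
    have e' : F'.map (D1 + D2) - FO.act c.arm (fun s => X' s + Y) F' ∈
        (redCfg c f hf).N g' := by
      rw [e]
      exact Submodule.add_mem _ hA hB
    exact e'
  · have e1 : H.map (D1 + D2) = H.map D1 + H.map D2 := by
      ext q d; rfl
    rw [e1, hD1, hD2H, add_zero]

end Crest.Agent.R172.Ind
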