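import Crest.Agent.R172.IndCnt
import Crest.Agent.R172.NilBr5

/-!
Row 172 (S0260), node IND: generic elements of subspaces of matrices, over the class `GI`.
-/

set_option autoImplicit false
set_option linter.unusedSectionVars false
set_option maxHeartbeats 400000

namespace Crest.Agent.R172.Ext

open Matrix Crest.AlgebraR.SpinSaturation Crest.Agent.R172.SoGrade Crest.Agent.R172.Sp
open Crest.Agent.R172.Gen (Jm Ix emb IsSo Ent ent)
open Crest.Agent.R172.CF Crest.Agent.R172.HM8 Crest.Agent.R172.HM9 Module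
open Crest.Agent.R172.Ind (GI kk mu perp Bd)

section lin

variable {K L : Type} [Field K] [Field L] [Algebra K L]

/-- solutions over `L` are combinations of solutions over `K` -/
theorem ker_emb {α β : Type} [Fintype α] [Fintype β] [DecidableEq α] [DecidableEq β]
    (A : Matrix α β K) {x : β → L} (hx : emb K L A *ᵥ x = 0) :
    x ∈ Submodule.span L ((fun v : β → K => fun i => algebraMap K L (v i)) '' {v | A *ᵥ v = 0}) := by
  obtain ⟨P, G, hAP, hG⟩ := Gen.exists_kernel_projector A
  have hGL : 1 - emb K L P = emb K L G * emb K L A := by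
    rw [← Matrix.map_mul, ← hG]
    ext i j
    simp [Matrix.one_apply, apply_ite (algebraMap K L)]
  have h1 : emb K L P *ᵥ x = x := by
    have : (1 - emb K L P) *ᵥ x = 0 := by
      rw [hGL, ← Matrix.mulVec_mulVec, hx, Matrix.mulVec_zero]
    rw [Matrix.sub_mulVec, Matrix.one_mulVec, sub_eq_zero] at this
    exact this.symm
  have h2 : x = ∑ j, x j • (fun i => algebraMap K L (P i j)) := by
    conv_lhs => rw [← h1]
    funext i
    rw [mulVec, dotProduct, Finset.sum_apply]
    exact Finset.sum_congr rfl fun j _ => mul_comm _ _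
  rw [h2]
  refine Submodule.sum_mem _ fun j _ => Submodule.smul_mem _ _ (Submodule.subset_span ?_)
  refine ⟨fun i => P i j, ?_, rfl⟩
  funext i
  have h4 := congrFun (congrFun hAP i) j
  rw [Matrix.mul_apply] at h4
  exact h4

/-- a matrix whose kernel is a given subspace -/
theorem exists_ker {β : Type} [Fintype β] [DecidableEq β] (Z : Submodule K (β → K)) :
    ∃ A : Matrix β β K, ∀ v, A *ᵥ v = 0 ↔ v ∈ Z := by
  obtain ⟨Z', hZ⟩ := Submodule.exists_isCompl Z
  let π : (β → K) →ₗ[K] (β → K) := Z'.subtype ∘ₗ Z'.projectionOnto Z hZ.symm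
  refine ⟨LinearMap.toMatrix' π, fun v => ?_⟩
  rw [LinearMap.toMatrix'_mulVec]
  simp [π]

/-- the `L`-span of a `K`-subspace of matrices -/
def spL (L : Type) [Field L] [Algebra K L] {α β : Type} (Z : Submodule K (Matrix α β K)) :
    Submodule L (Matrix α β L) :=
  Submodule.span L ((fun F => emb K L F) '' (Z : Set (Matrix α β K)))

theorem emb_mem_spL {α β : Type} {Z : Submodule K (Matrix α β K)} {F : Matrix α β K}
    (hF : F ∈ Z) : emb K L F ∈ spL L Z := Submodule.subset_span ⟨F, hF, rfl⟩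

theorem spL_le {α β : Type} {Z : Submodule K (Matrix α β K)} {Y : Submodule L (Matrix α β L)}
    (h : ∀ F ∈ Z, emb K L F ∈ Y) : spL L Z ≤ Y := by
  rw [spL, Submodule.span_le]
  rintro _ ⟨F, hF, rfl⟩
  exact h F hF

/-- **Generic elements of a subspace of matrices.** -/
theorem exists_genZ (K : Type) [Field K] [CharZero K] [Algebra ℂ K] {α β : Type} [Fintype α]
    [Fintype β] [DecidableEq α] [DecidableEq β] (Z : Submodule K (Matrix α β K)) :
    ∃ (L : Type) (_ : Field L) (_ : Algebra K L) (_ : Algebra ℂ L) (_ : IsScalarTower ℂ K L)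
      (_ : IsAlgClosed L) (_ : CharZero L) (F : Matrix α β L),
      F ∈ spL L Z ∧
      (∀ q : MvPolynomial (α × β) K, MvPolynomial.aeval (fun y => F y.1 y.2) q = 0 →
        ∀ F0 ∈ Z, MvPolynomial.aeval (fun y => F0 y.1 y.2) q = 0) ∧
      ∀ w ∈ spL L Z, ∃ D : Derivation ℂ L L, (∀ x, D (algebraMap K L x) = 0) ∧ F.map D = w := by
  classical
  let e : (α × β → K) →ₗ[K] Matrix α β K :=
    { toFun := fun v => Matrix.of fun i j => v (i, j)
      map_add' := fun _ _ => rfl
      map_smul' := fun _ _ => rfl }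
  obtain ⟨A, hA⟩ := exists_ker (Z.comap e)
  obtain ⟨L, iL, iKL, iCL, ist, icl, icz, f, hf, hspec, hder⟩ := Gen.exists_generic_kernel ℂ K A
  have hker : ∀ v : α × β → K, A *ᵥ v = 0 ↔ (Matrix.of fun i j => v (i, j)) ∈ Z := fun v => hA v
  refine ⟨L, iL, iKL, iCL, ist, icl, icz, Matrix.of fun i j => f (i, j), ?_, ?_, ?_⟩
  · have h1 := ker_emb A hf
    let e' : (α × β → L) →ₗ[L] Matrix α β L :=
      { toFun := fun v => Matrix.of fun i j => v (i, j)
        map_add' := fun _ _ => rfl
        map_smul' := fun _ _ => rfl }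
    have h2 : Submodule.span L ((fun v : α × β → K => fun i => algebraMap K L (v i)) ''
        {v | A *ᵥ v = 0}) ≤ (spL L Z).comap e' := by
      rw [Submodule.span_le]
      rintro _ ⟨v, hv, rfl⟩
      exact emb_mem_spL ((hker v).1 hv)
    exact h2 h1
  · intro q hq F0 hF0
    exact hspec q hq (fun y => F0 y.1 y.2) ((hker _).2 hF0)
  · intro w hw
    have h3 : emb K L A *ᵥ (fun y => w y.1 y.2) = 0 := by
      let T : Matrix α β L →ₗ[L] (α × β → L) :=
        { toFun := fun F => emb K L A *ᵥ (fun y => F y.1 y.2)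
          map_add' := fun F F' => Matrix.mulVec_add _ _ _
          map_smul' := fun t F =>
            Matrix.mulVec_smul (emb K L A) t (fun y : α × β => F y.1 y.2) }
      have h4 : spL L Z ≤ LinearMap.ker T := by
        apply spL_le
        intro F hF
        rw [LinearMap.mem_ker]
        have h5 := (hker (fun y => F y.1 y.2)).2 hF
        funext i
        have h6 := congrArg (algebraMap K L) (congrFun h5 i)
        rw [mulVec, dotProduct, map_sum, Pi.zero_apply, map_zero] at h6
        change ∑ j, _ = _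
        rw [Pi.zero_apply, ← h6]
        refine Finset.sum_congr rfl fun j _ => ?_
        rw [map_mul]
        rfl
      exact h4 hw
    obtain ⟨D, hD1, hD2⟩ := hder 0 (fun y => w y.1 y.2) (by
      have h5 : Gen.dmat (0 : Derivation ℂ K L) A = 0 := by ext i j; rfl
      rw [h3, h5, zero_mulVec, add_zero])
    refine ⟨D, fun x => hD1 x, ?_⟩
    ext i j
    exact hD2 (i, j)

end lin

section gi

variable {n : ℕ} {a : Fin 3 → Fin n → ℤ} {c : Cfg n a} (p : Pol c)
variable {K L : Type} [Field K] [Field L] [Algebra K L] [Algebra ℂ K] [Algebra ℂ L]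
  [IsScalarTower ℂ K L]

/-- `𝒦` over `L` is spanned by `𝒦` over `K` -/
theorem KL_le {g : Fin 3 → Matrix (Ix n) (Ix n) K} (hg : ∀ s, (g s)ᵀ * Jm n K * g s = Jm n K)
    (H : Matrix (Fin p.m) (Fin p.m) K) :
    c.N (fun s => emb K L (g s)) ⊓ VL (p.LH (emb K L H)) ≤ spL L (c.N g ⊓ VL (p.LH H)) := by
  classical
  rintro F ⟨hN, hW⟩
  obtain ⟨R, rfl⟩ := p.mem_VL_iff.1 hW
  have hgL : ∀ s, (emb K L (g s))ᵀ * Jm n L * emb K L (g s) = Jm n L :=
    fun s => Top.emb_orth (hg s)
  have h1 := (p.Lam_ker hgL (emb K L H) R).2 hN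
  rw [← FO3.emb_Lam p g H] at h1
  have h2 := ker_emb _ h1
  let T : (Ix n × Fin p.m → L) →ₗ[L] Matrix (Ix n) c.δ L :=
    { toFun := fun v => Matrix.of (fun i j => v (i, j)) * (p.P (emb K L H))ᵀ
      map_add' := fun v v' => by
        rw [← Matrix.add_mul]
        rfl
      map_smul' := fun t v => by
        rw [RingHom.id_apply, ← Matrix.smul_mul]
        rfl }
  have h3 : Submodule.span L ((fun v : Ix n × Fin p.m → K => fun i => algebraMap K L (v i)) ''
      {v | (p.Lam.map (MvPolynomial.aeval (ent g H))) *ᵥ v = 0}) ≤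
      (spL L (c.N g ⊓ VL (p.LH H))).comap T := by
    rw [Submodule.span_le]
    rintro _ ⟨v, hv, rfl⟩
    have h4 : (p.Lam.map (MvPolynomial.aeval (ent g H))) *ᵥ
        (fun y : Ix n × Fin p.m => (Matrix.of fun i j => v (i, j)) y.1 y.2) = 0 := hv
    have h5 := (p.Lam_ker hg H (Matrix.of fun i j => v (i, j))).1 h4
    have h6 : emb K L ((Matrix.of fun i j => v (i, j)) * (p.P H)ᵀ) =
        Matrix.of (fun i j => algebraMap K L (v (i, j))) * (p.P (emb K L H))ᵀ := by
      rw [FO3.emb_mul', ← FO3.emb_P]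
      rfl
    have h7 : emb K L ((Matrix.of fun i j => v (i, j)) * (p.P H)ᵀ) ∈
        spL L (c.N g ⊓ VL (p.LH H)) := emb_mem_spL ⟨h5, p.mem_VL_iff.2 ⟨_, rfl⟩⟩
    rw [h6] at h7
    exact h7
  exact h3 h2

theorem spL_le_KL (g : Fin 3 → Matrix (Ix n) (Ix n) K)
    (H : Matrix (Fin p.m) (Fin p.m) K) :
    spL L (c.N g ⊓ VL (p.LH H)) ≤ c.N (fun s => emb K L (g s)) ⊓ VL (p.LH (emb K L H)) :=
  spL_le fun _ hF => ⟨CSys.emb_mem_N hF.1, CSys.emb_mem_VL p hF.2⟩

theorem spL_K {g : Fin 3 → Matrix (Ix n) (Ix n) K} (hg : ∀ s, (g s)ᵀ * Jm n K * g s = Jm n K)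
    (H : Matrix (Fin p.m) (Fin p.m) K) :
    spL L (c.N g ⊓ VL (p.LH H)) = c.N (fun s => emb K L (g s)) ⊓ VL (p.LH (emb K L H)) :=
  le_antisymm (spL_le_KL p g H) (KL_le p hg H)

/-- `N` over `L` is spanned by `N` over `K` -/
theorem NL_le (g : Fin 3 → Matrix (Ix n) (Ix n) K) :
    c.N (fun s => emb K L (g s)) ≤ spL L (c.N g) := by
  classical
  intro F hF
  obtain ⟨G, hG, rfl⟩ := c.mem_N.1 hF
  have h1 : G = ∑ q, ∑ d, G q d • emb K L (Matrix.single q d (1 : K)) := by
    conv_lhs => rw [matrix_eq_sum_single G]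
    refine Finset.sum_congr rfl fun q _ => Finset.sum_congr rfl fun d _ => ?_
    ext i j
    rw [Matrix.smul_apply, FO3.emb_apply', Matrix.single_apply, Matrix.single_apply]
    split_ifs <;> simp
  have h2 : FO.act c.arm (fun s => emb K L (g s)) G =
      ∑ q, ∑ d, G q d • FO.act c.arm (fun s => emb K L (g s)) (emb K L (Matrix.single q d (1 : K))) := by
    conv_lhs => rw [h1]
    change actL c.arm (fun s => emb K L (g s)) _ = _
    rw [map_sum]
    refine Finset.sum_congr rfl fun q _ => ?_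
    rw [map_sum]
    refine Finset.sum_congr rfl fun d _ => ?_
    rw [map_smul]
    rfl
  rw [h2]
  refine Submodule.sum_mem _ fun q _ => Submodule.sum_mem _ fun d _ => ?_
  by_cases h0 : G q d = 0
  · rw [h0, zero_smul]; exact Submodule.zero_mem _
  refine Submodule.smul_mem _ _ ?_
  have h3 : FO.act c.arm (fun s => emb K L (g s)) (emb K L (Matrix.single q d (1 : K))) =
      emb K L (FO.act c.arm g (Matrix.single q d 1)) := by
    ext i j
    rw [act_apply, FO3.emb_apply', act_apply, ← FO3.emb_apply', FO3.emb_mul']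
  rw [h3]
  apply emb_mem_spL
  refine c.mem_N.2 ⟨_, ?_, rfl⟩
  rw [Pol.mem_nstd_iff] at hG ⊢
  intro q' d' hz
  rw [Matrix.single_apply, if_neg]
  rintro ⟨rfl, rfl⟩
  exact h0 (hG _ _ hz)

/-- derivations over `K` preserve `N` -/
theorem vert_N {g : Fin 3 → Matrix (Ix n) (Ix n) K} (D : Derivation ℂ L L)
    (hD : ∀ x, D (algebraMap K L x) = 0) :
    ∀ F ∈ c.N (fun s => emb K L (g s)), F.map D ∈ c.N (fun s => emb K L (g s)) := by
  intro F hF
  have h1 := FO3.onN c D (g := fun s => emb K L (g s)) (X := fun _ => 0) (fun s => by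
    ext i j
    rw [map_apply, FO3.emb_apply', hD, Matrix.zero_mul, Matrix.zero_apply]) hF
  rwa [show FO.act c.arm (fun _ => (0 : Matrix (Ix n) (Ix n) L)) F = 0 from by
    ext i j; rw [act_apply, Matrix.zero_mul], sub_zero] at h1

end gi

end Crest.Agent.R172.Ext
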