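import Crest.Agent.R172.IndGen
import Crest.Agent.R172.IndExt
import Crest.Agent.R172.Om5
import Crest.Agent.R172.CtxFr
import Crest.Agent.R172.LemN

/-!
Row 172 (S0260), node IND: the generic package over the class `GI`, the context of the Q-theory,
condition (c) and good subspaces `S = im F`.
-/

set_option autoImplicit false
set_option linter.unusedSectionVars false
set_option maxHeartbeats 400000

namespace Crest.Agent.R172.Ext

open Matrix Crest.AlgebraR.SpinSaturation Crest.Agent.R172.SoGrade Crest.Agent.R172.Sp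
open Crest.Agent.R172.Gen (Jm Ix emb IsSo Ent ent)
open Crest.Agent.R172.CF Crest.Agent.R172.HM8 Crest.Agent.R172.HM9 Module
open Crest.Agent.R172.Ind (GI kk mu perp Bd)

section pkg

variable {n : ℕ} {a : Fin 3 → Fin n → ℤ} {c : Cfg n a}
variable {K L : Type} [Field K] [Field L] [Algebra K L] [Algebra ℂ K] [Algebra ℂ L]
  [IsScalarTower ℂ K L]

/-- derivations with `D H = 0` preserve `W` -/
theorem vert_W (p : Pol c) {H : Matrix (Fin p.m) (Fin p.m) L} (hH : Hᵀ = -H)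
    (D : Derivation ℂ L L) (hD : H.map D = 0) :
    ∀ F ∈ (VL (p.LH H) : Submodule L (Matrix (Ix n) c.δ L)),
      F.map D ∈ (VL (p.LH H) : Submodule L (Matrix (Ix n) c.δ L)) := by
  intro F hF
  have h1 := FO3.onW p hH (ξ := 0) D (by
    rw [hD, FO3.dirH, Matrix.mul_zero, Matrix.zero_mul]) hF
  rwa [transpose_zero, Matrix.mul_zero, sub_zero] at h1

theorem emb_der_zero {α β : Type} (A : Matrix α β K) (D : Derivation ℂ L L)
    (hD : ∀ x, D (algebraMap K L x) = 0) : (emb K L A).map D = 0 := by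
  ext i j
  exact hD _

/-- vertical derivations realise `(0,0)` -/
theorem vert_real (p : Pol c) {g : Fin 3 → Matrix (Ix n) (Ix n) K}
    {H : Matrix (Fin p.m) (Fin p.m) K} (hH : Hᵀ = -H) (D : Derivation ℂ L L)
    (hD : ∀ x, D (algebraMap K L x) = 0) :
    FO.Realises c.arm (c.N (fun s => emb K L (g s))) (VL (p.LH (emb K L H)))
      (0 : Fin 3 → Matrix (Ix n) (Ix n) L) (0 : Matrix c.δ c.δ L) D where
  onN := by
    intro F hF
    rw [FO.act_zero, sub_zero]
    exact vert_N D hD F hF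
  onW := by
    intro F hF
    rw [transpose_zero, Matrix.mul_zero, sub_zero]
    exact vert_W p (FO3.emb_skew hH) D (emb_der_zero H D hD) F hF

/-- `FO.Generic` from `exists_genZ` -/
theorem generic_of (p : Pol c) {g : Fin 3 → Matrix (Ix n) (Ix n) K}
    (hg : ∀ s, (g s)ᵀ * Jm n K * g s = Jm n K)
    {H : Matrix (Fin p.m) (Fin p.m) K} (hH : Hᵀ = -H) {F : Matrix (Ix n) c.δ L}
    (hF : F ∈ spL L (c.N g ⊓ VL (p.LH H)))
    (hv : ∀ w ∈ spL L (c.N g ⊓ VL (p.LH H)), ∃ D : Derivation ℂ L L,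
      (∀ x, D (algebraMap K L x) = 0) ∧ F.map D = w) :
    FO.Generic ℂ c.arm (c.N (fun s => emb K L (g s))) (VL (p.LH (emb K L H))) F where
  mem := spL_le_KL p g H hF
  vert := by
    intro F' hF'
    obtain ⟨D, hD1, hD2⟩ := hv F' (KL_le p hg H hF')
    exact ⟨D, hD2, vert_real p hH D hD1⟩

end pkg

section main

variable {n : ℕ} {a : Fin 3 → Fin n → ℤ} {c : Cfg n a} {q : SPol c}

theorem charZero_of (K : Type) [Field K] [Algebra ℂ K] : CharZero K :=
  charZero_of_injective_algebraMap (algebraMap ℂ K).injective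

theorem hgen_of_GI {K : Type} [Field K] [Algebra ℂ K] {g : Fin 3 → Matrix (Ix n) (Ix n) K}
    {H : Matrix (Fin q.m) (Fin q.m) K} (hG : GI c q.toPol K g H)
    (G : Matrix (Fin q.m) (Fin q.m) K) (hGs : Gᵀ = -G) :
    ∃ D : Derivation ℂ K K, H.map D = G := by
  obtain ⟨D, -, hD⟩ := hG.dir (fun _ => 0) (fun s => by simp [IsSo]) G hGs
  exact ⟨D, hD⟩

/-- **The generic package over `GI`.** -/
theorem genPkg_of_GI {K : Type} [Field K] [Algebra ℂ K] {g : Fin 3 → Matrix (Ix n) (Ix n) K}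
    {H : Matrix (Fin q.m) (Fin q.m) K} (hG : GI c q.toPol K g H)
    (P : ∀ (L : Type) [Field L] [Algebra K L] [Algebra ℂ L], Matrix (Ix n) c.δ L → Prop)
    (hP : ∀ (L : Type) [Field L] [Algebra K L] [Algebra ℂ L] [IsScalarTower ℂ K L]
      [IsAlgClosed L] [CharZero L] (F : Matrix (Ix n) c.δ L),
      GI c q.toPol L (fun s => emb K L (g s)) (emb K L H) →
      FO.Generic ℂ c.arm (c.N (fun s => emb K L (g s))) (VL (q.toPol.LH (emb K L H))) F → P L F) :
    CSys.GenPkg q K g H P := by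
  have hcz : CharZero K := charZero_of K
  obtain ⟨L, iL, iKL, iCL, ist, icl, icz, F, hF, hspec, hv⟩ :=
    exists_genZ K (c.N g ⊓ VL (q.toPol.LH H))
  have hGL : GI c q.toPol L (fun s => emb K L (g s)) (emb K L H) := gi_bc q.toPol hG
  have hgenF := generic_of q.toPol hG.orth hG.skew hF hv
  exact ⟨L, iL, iKL, iCL, ist, icl, icz, F, data_of_GI q.toPol hGL, hgenF,
    fun G hGs => hgen_of_GI hGL G hGs, fun p hp F0 h1 h2 => hspec p hp F0 ⟨h2, h1⟩,
    hP L F hGL hgenF⟩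

variable {K : Type} [Field K] [Algebra ℂ K] {g : Fin 3 → Matrix (Ix n) (Ix n) K}
  {H : Matrix (Fin q.m) (Fin q.m) K}

/-- isotropic elements of `𝒦` are perpendicular to `𝒦` -/
theorem iso_mem (R : Ranked c) (hR : CSys.PosR R q) (hG : GI c q.toPol K g H)
    {w : Matrix (Ix n) c.δ K} (hw : w ∈ c.N g ⊓ VL (q.toPol.LH H))
    (h0 : wᵀ * Jm n K * w = 0) : w ∈ Om.Kiso (Jm n K) (c.N g) (VL (q.toPol.LH H)) := by
  have hD := data_of_GI q.toPol hG
  refine ⟨hw, fun G hG' => ?_⟩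
  refine CSys.lemN R hR hG.orth hG.skew (hgen_of_GI hG) hw.1 hw.2 hG'.1 rfl ?_ ?_
  · rw [transpose_mul, transpose_mul, transpose_transpose, Jm_transpose, ← Matrix.mul_assoc]
    exact hD.symm_U hw hG'
  · intro s
    have h1 := hD.symm_arm hw hG' s
    unfold FO.M at h1
    calc wᵀ * Jm n K * G * (FO.E K c.arm s * c.B K) * (wᵀ * Jm n K * G)
        = wᵀ * Jm n K * (G * FO.E K c.arm s * c.B K * wᵀ) * Jm n K * G := by
          simp only [Matrix.mul_assoc]
      _ = (wᵀ * Jm n K * w) * (FO.E K c.arm s * c.B K * Gᵀ * Jm n K * G) := by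
          rw [← h1]
          simp only [Matrix.mul_assoc]
      _ = 0 := by rw [h0, Matrix.zero_mul]

/-- **the context of the Q-theory at every element of `Kiso`** -/
theorem ctx_of_GI (R : Ranked c) (hR : CSys.PosR R q) (hG : GI c q.toPol K g H)
    {F : Matrix (Ix n) c.δ K} (hF : F ∈ Om.Kiso (Jm n K) (c.N g) (VL (q.toPol.LH H))) :
    Qt.Ctx ℂ c.arm (Jm n K) (c.B K) (c.N g) (VL (q.toPol.LH H)) F where
  data := data_of_GI q.toPol hG
  memN := hF.1.1
  memW := hF.1.2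
  perp := hF.2
  frame := fun d => CtxFr.ctx_frame R hG.orth (hF.2 F hF.1) d
  lemN := fun _ hν _ _ h1 h2 h3 =>
    CSys.lemN R hR hG.orth hG.skew (hgen_of_GI hG) hF.1.1 hF.1.2 hν h1 h2 h3

/-- `w := D F` is isotropic -/
theorem der_iso (R : Ranked c) (hR : CSys.PosR R q) (hG : GI c q.toPol K g H)
    {F w : Matrix (Ix n) c.δ K} (hF : F ∈ Om.Kiso (Jm n K) (c.N g) (VL (q.toPol.LH H)))
    (hw : w ∈ c.N g ⊓ VL (q.toPol.LH H))
    (hker : ∀ u : c.δ → K, F *ᵥ u = 0 → ∃ v : c.δ → K, w *ᵥ u = F *ᵥ v) :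
    w ∈ Om.Kiso (Jm n K) (c.N g) (VL (q.toPol.LH H)) := by
  have hD := data_of_GI q.toPol hG
  refine iso_mem R hR hG hw ?_
  set β := wᵀ * Jm n K * w with hβ
  have hβs : βᵀ = β := by
    rw [hβ, transpose_mul, transpose_mul, transpose_transpose, Jm_transpose, ← Matrix.mul_assoc]
  have hwF : wᵀ * Jm n K * F = 0 := by
    rw [hD.symm_U hF.1 hw]
    exact hF.2 w hw
  obtain ⟨Q, hQ⟩ := FO.exists_gen_inv F
  have hβF : ∀ u : c.δ → K, F *ᵥ u = 0 → β *ᵥ u = 0 := by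
    intro u hu
    obtain ⟨v, hv⟩ := hker u hu
    rw [hβ, ← mulVec_mulVec, hv, mulVec_mulVec, hwF, zero_mulVec]
  have hβR : β = β * (Q * F) := by
    have h1 : β * (1 - Q * F) = 0 := by
      have h6 : F * (1 - Q * F) = 0 := by
        rw [Matrix.mul_sub, Matrix.mul_one, ← Matrix.mul_assoc, hQ, sub_self]
      ext i j
      have h7 := hβF ((1 - Q * F).col j) (by
        ext i'
        have := congrFun (congrFun h6 i') j
        simpa [Matrix.mul_apply, Matrix.mulVec, dotProduct] using this)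
      have h8 := congrFun h7 i
      simpa [Matrix.mul_apply, Matrix.mulVec, dotProduct] using h8
    rw [Matrix.mul_sub, Matrix.mul_one, sub_eq_zero] at h1
    exact h1
  have hβR' : β = Fᵀ * (Qᵀ * β) := by
    have h9 := congrArg transpose hβR
    rw [hβs, transpose_mul, transpose_mul, hβs] at h9
    rw [← Matrix.mul_assoc]
    exact h9
  refine CSys.lemN R hR hG.orth hG.skew (hgen_of_GI hG) hw.1 hw.2 hw.1 rfl hβs ?_
  intro s
  have h10 := hD.symm_arm hF.1 hw s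
  unfold FO.M at h10
  rw [← hβ]
  calc β * (FO.E K c.arm s * c.B K) * β
      = (wᵀ * Jm n K * w) * (FO.E K c.arm s * c.B K) * (Fᵀ * (Qᵀ * β)) := by
        rw [← hβR', ← hβ]
    _ = wᵀ * Jm n K * (w * FO.E K c.arm s * c.B K * Fᵀ) * (Qᵀ * β) := by
        simp only [Matrix.mul_assoc]
    _ = (wᵀ * Jm n K * F) * (FO.E K c.arm s * c.B K * wᵀ * (Qᵀ * β)) := by
        rw [← h10]
        simp only [Matrix.mul_assoc]
    _ = 0 := by rw [hwF, Matrix.zero_mul]

theorem mulVec_der {α β : Type} [Fintype β] (D : Derivation ℂ K K) (F : Matrix α β K)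
    (u : β → K) : (fun i => D ((F *ᵥ u) i)) = F.map D *ᵥ u + F *ᵥ (fun j => D (u j)) := by
  funext i
  rw [Pi.add_apply, mulVec, mulVec, mulVec, dotProduct, dotProduct, dotProduct, map_sum,
    ← Finset.sum_add_distrib]
  refine Finset.sum_congr rfl fun j _ => ?_
  rw [Derivation.leibniz, smul_eq_mul, smul_eq_mul, map_apply]
  ring

/-- **Condition (c)** -/
theorem cond_c (R : Ranked c) (hR : CSys.PosR R q) (hG : GI c q.toPol K g H)
    {Z : Submodule K (Matrix (Ix n) c.δ K)}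
    (hZ : Z ≤ Om.Kiso (Jm n K) (c.N g) (VL (q.toPol.LH H)))
    (hcl : ∀ F ∈ Z, ∀ w ∈ Om.Kiso (Jm n K) (c.N g) (VL (q.toPol.LH H)),
      (∀ u : c.δ → K, F *ᵥ u = 0 → ∃ v : c.δ → K, w *ᵥ u = F *ᵥ v) → w ∈ Z)
    {F : Matrix (Ix n) c.δ K} (hF : F ∈ Z)
    (hvert : ∀ w ∈ Z, ∃ D : Derivation ℂ K K, (∀ G ∈ c.N g, G.map D ∈ c.N g) ∧
      H.map D = 0 ∧ F.map D = w)
    (X : Fin 3 → Matrix (Ix n) (Ix n) K) (hX : ∀ s, IsSo (X s)) (hXF : ∀ s, X s * F = 0) :
    ∃ D : Derivation ℂ K K, (∀ G ∈ c.N g, G.map D - FO.act c.arm X G ∈ c.N g) ∧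
      H.map D = 0 ∧ F.map D = 0 := by
  obtain ⟨D0, hD1, hD2⟩ := hG.dir X hX 0 (by simp)
  have hFK := hZ hF
  have hact : FO.act c.arm X F = 0 := by
    ext i d
    rw [act_apply, hXF]
  have hwN : F.map D0 ∈ c.N g := by
    have h1 := hD1 F hFK.1.1
    rwa [hact, sub_zero] at h1
  have hwW : F.map D0 ∈ VL (q.toPol.LH H) := vert_W q.toPol hG.skew D0 hD2 F hFK.1.2
  have hker : ∀ u : c.δ → K, F *ᵥ u = 0 → ∃ v : c.δ → K, F.map D0 *ᵥ u = F *ᵥ v := by
    intro u hu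
    have h1 := mulVec_der D0 F u
    rw [hu] at h1
    refine ⟨-(fun j => D0 (u j)), ?_⟩
    rw [mulVec_neg, eq_neg_iff_add_eq_zero, ← h1]
    funext i
    simp
  have hwi := der_iso R hR hG hFK ⟨hwN, hwW⟩ hker
  obtain ⟨D1, hE1, hE2, hE3⟩ := hvert _ (hcl F hF _ hwi hker)
  refine ⟨D0 - D1, ?_, ?_, ?_⟩
  · intro G hG'
    have e : G.map (D0 - D1 : Derivation ℂ K K) - FO.act c.arm X G =
        (G.map D0 - FO.act c.arm X G) - G.map D1 := by
      ext i j
      simp only [Matrix.sub_apply, map_apply, Derivation.sub_apply]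
      ring
    rw [e]
    exact (c.N g).sub_mem (hD1 G hG') (hE1 G hG')
  · ext i j
    have h1 := congrFun (congrFun hD2 i) j
    have h2 := congrFun (congrFun hE2 i) j
    rw [map_apply, Matrix.zero_apply] at h1 h2
    rw [map_apply, Derivation.sub_apply, h1, h2, sub_zero, Matrix.zero_apply]
  · ext i j
    have h2 := congrFun (congrFun hE3 i) j
    rw [map_apply, map_apply] at h2
    rw [map_apply, Derivation.sub_apply, h2, sub_self, Matrix.zero_apply]

/-- **Good subspaces.** -/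
theorem goodSub (R : Ranked c) (hR : CSys.PosR R q) (hG : GI c q.toPol K g H)
    {Z : Submodule K (Matrix (Ix n) c.δ K)}
    (hZ : Z ≤ Om.Kiso (Jm n K) (c.N g) (VL (q.toPol.LH H)))
    (hcl : ∀ F ∈ Z, ∀ w ∈ Om.Kiso (Jm n K) (c.N g) (VL (q.toPol.LH H)),
      (∀ u : c.δ → K, F *ᵥ u = 0 → ∃ v : c.δ → K, w *ᵥ u = F *ᵥ v) → w ∈ Z)
    {F : Matrix (Ix n) c.δ K} (hF : F ∈ Z) (h0 : F ≠ 0)
    (hvert : ∀ w ∈ Z, ∃ D : Derivation ℂ K K, (∀ G ∈ c.N g, G.map D ∈ c.N g) ∧
      H.map D = 0 ∧ F.map D = w)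
    (hb : ∀ a ∈ VL (q.toPol.LH H), ∀ ν ∈ c.N g, ∀ C : Matrix c.δ c.δ K, a - ν = F * C →
      Fᵀ * Jm n K * a = 0) :
    Ind.GoodSub c q.toPol K g H (CtxFr.colS F) := by
  have hFF : Fᵀ * Jm n K * F = 0 := (hZ hF).2 F (hZ hF).1
  have hcol : ∀ d, (fun i => F i d) ∈ CtxFr.colS F := by
    intro d
    refine ⟨Pi.single d 1, ?_⟩
    rw [mulVecLin_apply, mulVec_single_one]
    rfl
  have hperp : ∀ G : Matrix (Ix n) c.δ K, Fᵀ * Jm n K * G = 0 → G ∈ SU (perp (CtxFr.colS F)) := by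
    intro G hG' d
    rw [Ind.mem_perp]
    rintro _ ⟨u, rfl⟩
    rw [mulVecLin_apply, HM2.form_symm, form_eq]
    have h1 : (F *ᵥ u) ⬝ᵥ (Jm n K *ᵥ fun p => G p d) = u ⬝ᵥ ((Fᵀ * Jm n K * G) *ᵥ Pi.single d 1) := by
      rw [mulVec_single_one, ← vecMul_transpose, ← dotProduct_mulVec, Matrix.mul_assoc]
      congr 1
    rw [h1, hG', zero_mulVec, dotProduct_zero]
  refine ⟨CtxFr.iso_colS hFF, ?_, ?_, ?_⟩
  · intro h
    apply h0
    ext i d
    have h1 := hcol d
    rw [h, Submodule.mem_bot] at h1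
    exact congrFun h1 i
  · rintro ν ⟨hν, hν2⟩
    obtain ⟨A, hA, z, hz, rfl⟩ := Submodule.mem_sup.1 hν2
    have h1 : ∀ d, ∃ x : c.δ → K, F *ᵥ x = fun i => z i d := by
      intro d
      obtain ⟨x, hx⟩ := hz d
      exact ⟨x, hx⟩
    choose x hx using h1
    have hzC : z = F * Matrix.of fun e d => x d e := by
      ext i d
      rw [Matrix.mul_apply]
      exact (congrFun (hx d) i).symm
    have h2 := hb A hA (A + z) hν (-(Matrix.of fun e d => x d e)) (by
      rw [Matrix.mul_neg, ← hzC]; abel)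
    apply hperp
    rw [Matrix.mul_add, h2, hzC, ← Matrix.mul_assoc, hFF, Matrix.zero_mul, add_zero]
  · intro X hX hXS
    obtain ⟨D, hD1, hD2, hD3⟩ := cond_c R hR hG hZ hcl hF hvert X hX (by
      intro s
      ext i d
      have h1 := congrFun (hXS s _ (hcol d)) i
      rw [Matrix.mul_apply]
      exact h1)
    refine ⟨D, hD1, hD2, ?_⟩
    rintro _ ⟨u, rfl⟩
    rw [mulVecLin_apply, mulVec_der, hD3, zero_mulVec, zero_add]
    exact ⟨_, rfl⟩

end main

end Crest.Agent.R172.Ext
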