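import Crest.Agent.R172.IndGen2

/-!
Row 172 (S0260), node IND: base change of `ZZ` and existence of good subspaces.
-/

set_option autoImplicit false
set_option linter.unusedSectionVars false
set_option maxHeartbeats 400000

namespace Crest.Agent.R172.Ext

open Matrix Crest.AlgebraR.SpinSaturation Crest.Agent.R172.SoGrade Crest.Agent.R172.Sp
open Crest.Agent.R172.Gen (Jm Ix emb IsSo Ent ent)
open Crest.Agent.R172.CF Crest.Agent.R172.HM8 Crest.Agent.R172.HM9 Module
open Crest.Agent.R172.Ind (GI kk mu perp Bd)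

section bc

variable {K L : Type} [Field K] [Field L] [Algebra K L]

theorem BC_spL {α β : Type} [Fintype α] [DecidableEq α] [Fintype β] [DecidableEq β]
    (Z : Submodule K (Matrix α β K)) : Om.BC Z (spL L Z) where
  up := fun F hF => emb_mem_spL hF
  down := by
    intro F hF
    have hF' : F ∈ Submodule.span L ((fun F => emb K L F) '' (Z : Set (Matrix α β K))) := hF
    induction hF' using Submodule.span_induction with
    | mem x hx =>
      obtain ⟨F0, hF0, rfl⟩ := hx
      intro φ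
      have h1 := Om.map_smul_emb (K := K) (L := L) φ 1 F0
      rw [one_smul] at h1
      change (F0.map (algebraMap K L)).map φ ∈ Z
      rw [h1]
      exact Z.smul_mem _ hF0
    | zero => intro φ; rw [Om.map_zero_lin]; exact Z.zero_mem
    | add x y hx' hy' hx hy =>
      intro φ
      rw [Om.map_add_lin]
      exact Z.add_mem (hx hx' φ) (hy hy' φ)
    | smul t x hx ih =>
      intro φ
      exact ih hx (φ ∘ₗ LinearMap.mulLeft K t)

theorem spL_bot {α β : Type} : spL L (⊥ : Submodule K (Matrix α β K)) = ⊥ := by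
  rw [eq_bot_iff]
  apply spL_le
  intro F hF
  rw [Submodule.mem_bot] at hF ⊢
  rw [hF]
  ext i j
  rw [FO3.emb_apply', Matrix.zero_apply, map_zero, Matrix.zero_apply]

end bc

section gi

variable {n : ℕ} {a : Fin 3 → Fin n → ℤ} {c : Cfg n a}
variable {K L : Type} [Field K] [Field L] [Algebra K L]

theorem spL_N [Algebra ℂ K] [Algebra ℂ L] [IsScalarTower ℂ K L] (g : Fin 3 → Matrix (Ix n) (Ix n) K) :
    spL L (c.N g) = c.N (fun s => emb K L (g s)) :=
  le_antisymm (spL_le fun _ hF => CSys.emb_mem_N hF) (NL_le g)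

theorem spL_W (p : Pol c) [Algebra ℂ K] [Algebra ℂ L] [IsScalarTower ℂ K L]
    (H : Matrix (Fin p.m) (Fin p.m) K) :
    spL L (VL (p.LH H) : Submodule K (Matrix (Ix n) c.δ K)) =
      (VL (p.LH (emb K L H)) : Submodule L (Matrix (Ix n) c.δ L)) := by
  classical
  refine le_antisymm (spL_le fun _ hF => CSys.emb_mem_VL p hF) ?_
  intro F hF
  obtain ⟨R, rfl⟩ := p.mem_VL_iff.1 hF
  have h1 : R = ∑ i, ∑ j, R i j • emb K L (Matrix.single i j (1 : K)) := by
    conv_lhs => rw [matrix_eq_sum_single R]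
    refine Finset.sum_congr rfl fun i _ => Finset.sum_congr rfl fun j _ => ?_
    ext x y
    rw [Matrix.smul_apply, FO3.emb_apply', Matrix.single_apply, Matrix.single_apply]
    split_ifs <;> simp
  rw [h1, Matrix.sum_mul]
  refine Submodule.sum_mem _ fun i _ => ?_
  rw [Matrix.sum_mul]
  refine Submodule.sum_mem _ fun j _ => ?_
  rw [Matrix.smul_mul]
  refine Submodule.smul_mem _ _ ?_
  have h2 : emb K L (Matrix.single i j (1 : K)) * (p.P (emb K L H))ᵀ =
      emb K L (Matrix.single i j (1 : K) * (p.P H)ᵀ) := by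
    rw [FO3.emb_mul', ← FO3.emb_P]
    rfl
  rw [h2]
  exact emb_mem_spL (p.mem_VL_iff.2 ⟨_, rfl⟩)

theorem bcN [Algebra ℂ K] [Algebra ℂ L] [IsScalarTower ℂ K L] (g : Fin 3 → Matrix (Ix n) (Ix n) K) :
    Om.BC (c.N g) (c.N (fun s => emb K L (g s))) := by
  rw [← spL_N]
  exact BC_spL _

theorem bcW (p : Pol c) [Algebra ℂ K] [Algebra ℂ L] [IsScalarTower ℂ K L]
    (H : Matrix (Fin p.m) (Fin p.m) K) :
    Om.BC (VL (p.LH H) : Submodule K (Matrix (Ix n) c.δ K)) (VL (p.LH (emb K L H))) := by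
  rw [← spL_W]
  exact BC_spL _

/-- the space `ZZ` at an instance -/
noncomputable def ZI (c : Cfg n a) (p : Pol c) {K : Type} [Field K] [Algebra ℂ K]
    (g : Fin 3 → Matrix (Ix n) (Ix n) K) (H : Matrix (Fin p.m) (Fin p.m) K) :
    Submodule K (Matrix (Ix n) c.δ K) :=
  Om.ZZ ℂ c.arm (Jm n K) (c.B K) (c.N g) (VL (p.LH H))

/-- the space `Kiso` at an instance -/
noncomputable def KI (c : Cfg n a) (p : Pol c) {K : Type} [Field K] [Algebra ℂ K]
    (g : Fin 3 → Matrix (Ix n) (Ix n) K) (H : Matrix (Fin p.m) (Fin p.m) K) :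
    Submodule K (Matrix (Ix n) c.δ K) :=
  Om.Kiso (Jm n K) (c.N g) (VL (p.LH H))

/-- **base change of `ZZ`** -/
theorem spL_ZI (p : Pol c) [Algebra ℂ K] [Algebra ℂ L] [IsScalarTower ℂ K L]
    {g : Fin 3 → Matrix (Ix n) (Ix n) K} {H : Matrix (Fin p.m) (Fin p.m) K}
    (hG : GI c p K g H) :
    spL L (ZI c p g H) = ZI c p (fun s => emb K L (g s)) (emb K L H) := by
  have hGL : GI c p L (fun s => emb K L (g s)) (emb K L H) := gi_bc p hG
  have e1 : (Jm n K).map (algebraMap K L) = Jm n L := CSys.emb_Jm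
  have e2 : (c.B K).map (algebraMap K L) = c.B L := c.B_map K L (algebraMap K L)
  have h1 := Om.bc_ZZ (k := ℂ) (arm := c.arm) (J := Jm n K) (B := c.B K) (bcN (L := L) g)
    (bcW (L := L) p H) (data_of_GI p hG) (by
      rw [e1, e2]
      exact data_of_GI p hGL)
  rw [e1, e2] at h1
  exact h1.eq_span.symm

theorem spL_KI (p : Pol c) [Algebra ℂ K] [Algebra ℂ L] [IsScalarTower ℂ K L]
    (g : Fin 3 → Matrix (Ix n) (Ix n) K) (H : Matrix (Fin p.m) (Fin p.m) K) :
    spL L (KI c p g H) = KI c p (fun s => emb K L (g s)) (emb K L H) := by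
  have e1 : (Jm n K).map (algebraMap K L) = Jm n L := CSys.emb_Jm
  have h1 := Om.bc_Kiso (J := Jm n K) (bcN (L := L) g) (bcW (L := L) p H)
  rw [e1] at h1
  exact h1.eq_span.symm

end gi

section good

variable {n : ℕ} {a : Fin 3 → Fin n → ℤ} {c : Cfg n a} {q : SPol c}

/-- the closedness of `ZZ` -/
theorem ZI_closed {K : Type} [Field K] [Algebra ℂ K] {g : Fin 3 → Matrix (Ix n) (Ix n) K}
    {H : Matrix (Fin q.m) (Fin q.m) K} (R : Ranked c) (hG : GI c q.toPol K g H)
    (hS : Om.Scal ℂ c.arm (Jm n K) (c.B K) (c.N g) (VL (q.toPol.LH H))) :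
    ∀ F ∈ ZI c q.toPol g H, ∀ w ∈ Om.Kiso (Jm n K) (c.N g) (VL (q.toPol.LH H)),
      (∀ u : c.δ → K, F *ᵥ u = 0 → ∃ v : c.δ → K, w *ᵥ u = F *ᵥ v) → w ∈ ZI c q.toPol g H := by
  intro F hF w hw hker
  have hcz : CharZero K := charZero_of K
  have hD := data_of_GI q.toPol hG
  exact Om.mem_ZZ_of_ker hD hS (Om.nilSp_cfg R q.toPol hG.orth hG.skew (hgen_of_GI hG) hD)
    two_ne_zero hF hw hker

/-- **Good subspaces exist over some extension** if `ZZ ≠ 0` and `T_f` is scalar over all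
extensions. -/
theorem exists_good {K : Type} [Field K] [Algebra ℂ K] {g : Fin 3 → Matrix (Ix n) (Ix n) K}
    {H : Matrix (Fin q.m) (Fin q.m) K} (R : Ranked c) (hR : CSys.PosR R q)
    (hG : GI c q.toPol K g H)
    (hS : ∀ (L : Type) [Field L] [Algebra K L] [Algebra ℂ L] [IsScalarTower ℂ K L]
      [IsAlgClosed L], Om.Scal ℂ c.arm (Jm n L) (c.B L) (c.N (fun s => emb K L (g s)))
        (VL (q.toPol.LH (emb K L H))))
    (hZ : ZI c q.toPol g H ≠ ⊥) :
    ∃ (L : Type) (_ : Field L) (_ : Algebra K L) (_ : Algebra ℂ L) (_ : IsScalarTower ℂ K L)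
      (_ : IsAlgClosed L) (S : Submodule L (Ix n → L)),
      Ind.GoodSub c q.toPol L (fun s => emb K L (g s)) (emb K L H) S := by
  have hcz : CharZero K := charZero_of K
  obtain ⟨L, iL, iKL, iCL, ist, icl, icz, F, hF, hspec, hv⟩ := exists_genZ K (ZI c q.toPol g H)
  have hGL : GI c q.toPol L (fun s => emb K L (g s)) (emb K L H) := gi_bc q.toPol hG
  have hZL : spL L (ZI c q.toPol g H) = ZI c q.toPol (fun s => emb K L (g s)) (emb K L H) :=
    spL_ZI q.toPol hG
  rw [hZL] at hF hv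
  have hle : ZI c q.toPol (fun s => emb K L (g s)) (emb K L H) ≤
      Om.Kiso (Jm n L) (c.N (fun s => emb K L (g s))) (VL (q.toPol.LH (emb K L H))) :=
    Om.ZZ_le_Kiso
  refine ⟨L, iL, iKL, iCL, ist, icl, CtxFr.colS F,
    goodSub R hR hGL hle (ZI_closed R hGL (hS L)) hF ?_ ?_ ?_⟩
  · intro h0
    apply hZ
    rw [eq_bot_iff]
    intro F0 hF0
    rw [Submodule.mem_bot]
    ext i d
    have h1 := hspec (MvPolynomial.X (i, d)) (by
      rw [MvPolynomial.aeval_X, h0, Matrix.zero_apply]) F0 hF0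
    rw [MvPolynomial.aeval_X] at h1
    exact h1
  · intro w hw
    obtain ⟨D, hD1, hD2⟩ := hv w hw
    exact ⟨D, vert_N D hD1, emb_der_zero H D hD1, hD2⟩
  · intro A hA ν hν C hC
    exact Om.ZZ_q_zero two_ne_zero (ctx_of_GI R hR hGL (hle hF)) hF hA hν hC

end good

end Crest.Agent.R172.Ext
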