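import Crest.Agent.R172.IndGen3

/-!
Row 172 (S0260), node IND: STEP outside tame, from the inputs G1.2, G1.3 and `NotTame`.
-/

set_option autoImplicit false
set_option linter.unusedSectionVars false
set_option maxHeartbeats 400000

namespace Crest.Agent.R172.Ext

open Matrix Crest.AlgebraR.SpinSaturation Crest.Agent.R172.SoGrade Crest.Agent.R172.Sp
open Crest.Agent.R172.Gen (Jm Ix emb IsSo Ent ent)
open Crest.Agent.R172.CF Crest.Agent.R172.HM8 Crest.Agent.R172.HM9 Module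
open Crest.Agent.R172.Ind (GI kk mu perp Bd)

variable {n : ℕ} {a : Fin 3 → Fin n → ℤ} {c : Cfg n a} {q : SPol c}

theorem form_zero_iff {K : Type} [Field K] (F G : Matrix (Ix n) c.δ K) :
    (∀ u u', CSys.BV n K (F *ᵥ u) (G *ᵥ u') = 0) ↔ Gᵀ * Jm n K * F = 0 := by
  have e : (Gᵀ * Jm n K * F)ᵀ = Fᵀ * Jm n K * G := by
    rw [transpose_mul, transpose_mul, transpose_transpose, Jm_transpose, ← Matrix.mul_assoc]
  constructor
  · intro h
    have h1 : Fᵀ * Jm n K * G = 0 := by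
      ext d d'
      have h2 := h (Pi.single d 1) (Pi.single d' 1)
      rw [CSys.BV_mulVec, mulVec_single_one, single_one_dotProduct] at h2
      exact h2
    rw [← transpose_transpose (Gᵀ * Jm n K * F), e, h1, transpose_zero]
  · intro h u u'
    rw [CSys.BV_mulVec, ← e, h, transpose_zero, zero_mulVec, dotProduct_zero]

/-- the two versions of `Kiso` -/
theorem Kiso_eq {K : Type} [Field K] (N W : Submodule K (Matrix (Ix n) c.δ K)) :
    ThX.Kiso (CSys.BV n K) (CSys.KK (N ⊓ W)) = CSys.KK (Om.Kiso (Jm n K) N W) := by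
  ext G
  rw [ThX.mem_Kiso, CSys.mem_KK, CSys.mem_KK]
  constructor
  · rintro ⟨⟨G', hG', rfl⟩, h⟩
    refine ⟨G', ⟨hG', fun F hF => ?_⟩, rfl⟩
    exact (form_zero_iff F G').1 fun u u' => h _ ⟨F, hF, rfl⟩ u u'
  · rintro ⟨G', hG', rfl⟩
    refine ⟨⟨G', hG'.1, rfl⟩, ?_⟩
    rintro _ ⟨F, hF, rfl⟩ u u'
    exact (form_zero_iff F G').2 (hG'.2 F hF) u u'

/-- **(P1)** `dim 𝒦 ≤ dim 𝒦iso + 1` outside tame. -/
theorem finrank_Kiso {K : Type} [Field K] [Algebra ℂ K] [IsAlgClosed K]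
    {g : Fin 3 → Matrix (Ix n) (Ix n) K} {H : Matrix (Fin q.m) (Fin q.m) K}
    (R : Ranked c) (hR : CSys.PosR R q) (hG : GI c q.toPol K g H)
    (hT : ∀ (L : Type) [Field L] [Algebra K L] [Algebra ℂ L] [IsScalarTower ℂ K L]
      [IsAlgClosed L] [CharZero L] (F : Matrix (Ix n) c.δ L),
      GI c q.toPol L (fun s => emb K L (g s)) (emb K L H) →
      FO.Generic ℂ c.arm (c.N (fun s => emb K L (g s))) (VL (q.toPol.LH (emb K L H))) F →
      CSys.NotTame F) :
    finrank K ↥(c.N g ⊓ VL (q.toPol.LH H)) ≤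
      finrank K ↥(Om.Kiso (Jm n K) (c.N g) (VL (q.toPol.LH H))) + 1 := by
  have h1 := CSys.finrank_base R hR hG.orth hG.skew (hgen_of_GI hG) (data_of_GI q.toPol hG)
    (genPkg_of_GI hG (fun _ _ _ _ F => CSys.NotTame F) hT)
  rw [Kiso_eq, CSys.finrank_KK] at h1
  exact h1

/-- `dim 𝒦iso ≤ dim ZZ + 1` if `T_f` is scalar -/
theorem finrank_ZI {K : Type} [Field K] [Algebra ℂ K]
    {g : Fin 3 → Matrix (Ix n) (Ix n) K} {H : Matrix (Fin q.m) (Fin q.m) K}
    (R : Ranked c) (hG : GI c q.toPol K g H)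
    (hS : Om.Scal ℂ c.arm (Jm n K) (c.B K) (c.N g) (VL (q.toPol.LH H))) :
    finrank K ↥(Om.Kiso (Jm n K) (c.N g) (VL (q.toPol.LH H))) ≤
      finrank K ↥(ZI c q.toPol g H) + 1 := by
  have hcz : CharZero K := charZero_of K
  have hD := data_of_GI q.toPol hG
  exact Om.finrank_le hD hS (Om.nilSp_cfg R q.toPol hG.orth hG.skew (hgen_of_GI hG) hD)
    two_ne_zero

/-- **STEP from its inputs**: (P1), (P2) = `Scal` over all extensions, (P3) = G1.2. -/
theorem step_inputs {K : Type} [Field K] [Algebra ℂ K]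
    {g : Fin 3 → Matrix (Ix n) (Ix n) K} {H : Matrix (Fin q.m) (Fin q.m) K}
    (R : Ranked c) (hR : CSys.PosR R q) (hG : GI c q.toPol K g H)
    (hk : 2 ≤ kk c q.toPol g H)
    (P1 : finrank K ↥(c.N g ⊓ VL (q.toPol.LH H)) ≤
      finrank K ↥(Om.Kiso (Jm n K) (c.N g) (VL (q.toPol.LH H))) + 1)
    (P2 : ∀ (L : Type) [Field L] [Algebra K L] [Algebra ℂ L] [IsScalarTower ℂ K L]
      [IsAlgClosed L], Om.Scal ℂ c.arm (Jm n L) (c.B L) (c.N (fun s => emb K L (g s)))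
        (VL (q.toPol.LH (emb K L H))))
    (P2' : Om.Scal ℂ c.arm (Jm n K) (c.B K) (c.N g) (VL (q.toPol.LH H)))
    (P3 : Om.Kiso (Jm n K) (c.N g) (VL (q.toPol.LH H)) ≠ c.N g ⊓ VL (q.toPol.LH H) →
      ZI c q.toPol g H = Om.Kiso (Jm n K) (c.N g) (VL (q.toPol.LH H))) :
    ∃ (L : Type) (_ : Field L) (_ : Algebra K L) (_ : Algebra ℂ L) (_ : IsScalarTower ℂ K L)
      (_ : IsAlgClosed L) (S : Submodule L (Ix n → L)),
      Ind.GoodSub c q.toPol L (fun s => emb K L (g s)) (emb K L H) S := by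
  refine exists_good R hR hG P2 ?_
  intro h0
  have hk' : 2 ≤ finrank K ↥(c.N g ⊓ VL (q.toPol.LH H)) := by
    rw [inf_comm]; exact hk
  have h1 := finrank_ZI R hG P2'
  rw [h0, finrank_bot] at h1
  by_cases h2 : Om.Kiso (Jm n K) (c.N g) (VL (q.toPol.LH H)) = c.N g ⊓ VL (q.toPol.LH H)
  · rw [h2] at h1
    omega
  · have h3 := P3 h2
    rw [h0] at h3
    rw [← h3, finrank_bot] at P1
    omega

end Crest.Agent.R172.Ext
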