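import Crest.Agent.R172.Om3
import Crest.Agent.R172.Qt4

/-!
Row 172 (S0260), node G1.5, fourth part: the fields `ω_d(g,f)` in terms of the Q-theory
(`Qt`, node G1.1): `ω_d(g,f) = gᵀ J X₀ f` for an element `(X₀, X) ∈ NN`.
-/

set_option autoImplicit false
set_option linter.unusedSectionVars false

namespace Crest.Agent.R172.Om

open Matrix Module Crest.Agent.R172.FO Crest.Agent.R172.Qt

variable {ι : Type*} [Fintype ι] [DecidableEq ι] {δ : Type*} [Fintype δ] [DecidableEq δ]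
variable {k K : Type*} [Field k] [Field K] [Algebra k K]
variable {arm : δ → Fin 3} {J : Matrix ι ι K} {B : Matrix δ δ K} {N W : Submodule K (Matrix ι δ K)}
variable {g : Matrix ι δ K}

theorem exists_NN (h : Ctx k arm J B N W g) {d : Derivation k K K} (hd : IsY k arm B N W d) :
    ∃ p ∈ NN arm J N g, ∀ f ∈ N ⊓ W, Om J d g f = gᵀ * J * (p.1 * f) := by
  obtain ⟨Y, _, hr⟩ := hd
  obtain ⟨Z, hZ1, hZ2, hZ3⟩ := h.frame d
  have hp := mem_NN_of_frame (X := 0) (g := g) (J := J) (fun s => by simp [Skw])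
    (fun s => ⟨0, by simp⟩) hr hZ1 hZ2 hZ3
  refine ⟨_, hp, fun f hf => ?_⟩
  obtain ⟨C, hC⟩ := hZ3 0
  have hgf := h.perp f hf
  have hfg : fᵀ * J * g = 0 := by
    have := congrArg transpose hgf
    rw [transpose_mul, transpose_mul, transpose_transpose, h.data.J_symm, transpose_zero,
      ← Matrix.mul_assoc] at this
    exact this
  have h1 : Om J d f g = fᵀ * J * (Z 0 * g) := by
    unfold Om
    have e : g.map d = Z 0 * g + g * C := by rw [← hC]; abel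
    rw [e, Matrix.mul_add, ← Matrix.mul_assoc _ g C, hfg, Matrix.zero_mul, add_zero]
  rw [Om_transpose h.data d hgf, h1]
  change -(fᵀ * J * (Z 0 * g))ᵀ = gᵀ * J * (Z 0 * f)
  have hz := (hZ1 0).eq
  rw [transpose_mul, transpose_mul, transpose_mul, transpose_transpose, h.data.J_symm]
  calc -(gᵀ * (Z 0)ᵀ * (J * f)) = -(gᵀ * ((Z 0)ᵀ * J) * f) := by simp only [Matrix.mul_assoc]
    _ = gᵀ * J * (Z 0 * f) := by
      rw [hz, Matrix.mul_neg, Matrix.neg_mul, neg_neg]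
      simp only [Matrix.mul_assoc]

/-- "`T_f` is a scalar" in terms of `NN` implies `Scal`. -/
theorem scal_of_NN (hC : ∀ g ∈ Kiso J N W, Ctx k arm J B N W g)
    (hS : ∀ g ∈ Kiso J N W, ∃ c : Matrix ι δ K → K, ∀ f ∈ Kiso J N W, ∀ p ∈ NN arm J N g,
      gᵀ * J * (p.1 * f) = c f • (gᵀ * J * (p.1 * g))) :
    Scal k arm J B N W := by
  intro g hg
  obtain ⟨c, hc⟩ := hS g hg
  refine ⟨c, fun f hf d hd => ?_⟩
  obtain ⟨p, hp, hpf⟩ := exists_NN (hC g hg) hd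
  rw [hpf f hf.1, hpf g hg.1, hc f hf p hp]

/-- (Qskew) -/
theorem qskew_of_ctx (hC : ∀ g ∈ Kiso J N W, Ctx k arm J B N W g) : QSkew J N W := by
  intro g hg a ha ν hν C hC'
  exact (hC g hg).Qskew ha hν (by rw [← hC']; abel)

/-- `Q_F = 0` for `F ∈ ZZ`, final form: for `a ∈ W`, `ν ∈ N` with `a - ν ∈ S ⊗ U`. -/
theorem ZZ_q_zero (h2 : (2 : K) ≠ 0) {F : Matrix ι δ K} (h : Ctx k arm J B N W F)
    (hF : F ∈ ZZ k arm J B N W)
    {a ν : Matrix ι δ K} {C : Matrix δ δ K} (ha : a ∈ W) (hν : ν ∈ N) (hC : a - ν = F * C) :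
    Fᵀ * J * a = 0 := by
  have h3 := symm_of_self h.data hF.1 (fun d hd => hF.2 F hF.1 d hd) ha hν hC
  rw [h.Qskew ha hν (by rw [← hC]; abel), neg_eq_iff_add_eq_zero, ← two_smul K,
    smul_eq_zero] at h3
  exact h3.resolve_left h2

/-- if `X₀ g ⊥ S` for all elements of `NN` (`g ∈ Kiso`), i.e. all `Q_g = 0`, then `ZZ = Kiso`. -/
theorem ZZ_eq_of_NN (hC : ∀ g ∈ Kiso J N W, Ctx k arm J B N W g)
    (h0 : ∀ g ∈ Kiso J N W, ∀ p ∈ NN arm J N g, gᵀ * J * (p.1 * g) = 0) :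
    ZZ k arm J B N W = Kiso J N W := by
  refine le_antisymm ZZ_le_Kiso fun F hF => ⟨hF, fun g hg d hd => ?_⟩
  obtain ⟨p, hp, hpf⟩ := exists_NN (hC g hg) hd
  rw [hpf F hF.1]
  exact (hC g hg).tf_zero hF.1 hp (h0 g hg p hp)

end Crest.Agent.R172.Om
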