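import Crest.Agent.R172.Ind3
import Crest.Agent.R172.Om4

/-!
Row 172, node IND: the good subspace `S = im F` for a generic `F ∈ ZZ`.
-/

set_option autoImplicit false
set_option maxHeartbeats 400000
set_option linter.unusedSectionVars false

namespace Crest.Agent.R172.Ind

open Matrix Module

section abstract

open Crest.Agent.R172.FO Crest.Agent.R172.Qt

variable {ι : Type*} [Fintype ι] [DecidableEq ι] {δ : Type*} [Fintype δ] [DecidableEq δ]
variable {k K : Type*} [Field k] [Field K] [Algebra k K]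
variable {arm : δ → Fin 3} {J : Matrix ι ι K} {B : Matrix δ δ K} {N W : Submodule K (Matrix ι δ K)}

/-- **`w = DF` is isotropic** when `F ∈ Kiso` and `D` realises `(X,0)` with `X F = 0`. -/
theorem w_iso {F : Matrix ι δ K} (h : Ctx k arm J B N W F) {D : Derivation k K K}
    {X : Fin 3 → Matrix ι ι K} (hX : ∀ s, Skw J (X s)) (hXF : ∀ s, X s * F = 0)
    (hN : ∀ G ∈ N, G.map D - act arm X G ∈ N) (hW : ∀ G ∈ W, G.map D ∈ W) :
    F.map D ∈ N ⊓ W ∧ (F.map D)ᵀ * J * F.map D = 0 := by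
  have hact : act arm X F = 0 := by
    unfold act
    exact Finset.sum_eq_zero fun s _ => by rw [hXF, Matrix.zero_mul]
  have hwN : F.map D ∈ N := by
    have := hN F h.memN
    rwa [hact, sub_zero] at this
  have hwW : F.map D ∈ W := hW F h.memW
  set w := F.map D with hw
  have hperp := h.perp w ⟨hwN, hwW⟩
  have hperp' : wᵀ * J * F = 0 := by
    have := congrArg transpose hperp
    rw [transpose_mul, transpose_mul, transpose_transpose, h.data.J_symm, transpose_zero,
      ← Matrix.mul_assoc] at this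
    exact this
  refine ⟨⟨hwN, hwW⟩, ?_⟩
  -- derivative of `Fᵀ J w = 0`
  have h1 : wᵀ * J * w + Fᵀ * J * w.map D = 0 := by
    have h2 : (Fᵀ * J * w).map D = 0 := by rw [hperp]; ext i j; simp
    rw [map_mul_der, map_mul_der, h.data.J_const, Matrix.mul_zero, add_zero,
      map_transpose_der] at h2
    exact h2
  have hβ : Fᵀ * J * w.map D = -(wᵀ * J * w) := by
    rw [eq_neg_iff_add_eq_zero, add_comm]; exact h1
  have hsymm : (wᵀ * J * w)ᵀ = wᵀ * J * w := by
    rw [transpose_mul, transpose_mul, transpose_transpose, h.data.J_symm, Matrix.mul_assoc]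
  have hFX : Fᵀ * J * act arm X w = 0 := by
    unfold act
    rw [Matrix.mul_sum]
    refine Finset.sum_eq_zero fun s _ => ?_
    have h3 : Fᵀ * J * X s = 0 := by
      have h4 := congrArg transpose (hXF s)
      rw [transpose_mul, transpose_zero] at h4
      have h5 := (hX s).eq
      calc Fᵀ * J * X s = -(Fᵀ * ((X s)ᵀ * J)) := by
            rw [h5, Matrix.mul_neg, neg_neg, Matrix.mul_assoc]
        _ = 0 := by rw [← Matrix.mul_assoc, h4, Matrix.zero_mul, neg_zero]
    rw [← Matrix.mul_assoc, ← Matrix.mul_assoc, h3, Matrix.zero_mul, Matrix.zero_mul]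
  have hlem := h.lemN (w.map D - act arm X w) (hN w hwN) (w.map D) (hW w hwW)
    (by rw [Matrix.mul_sub, hFX, sub_zero])
    (by rw [hβ, transpose_neg, hsymm]) (by
      intro s
      -- `w E_s B Fᵀ` has columns in `im F`
      have h3 : wᵀ * J * w * (E K arm s * B) * Fᵀ = 0 := by
        have h4 := h.data.symm_arm ⟨hwN, hwW⟩ h.mem s
        have h5 : wᵀ * J * (M arm B s w F) = wᵀ * J * (M arm B s F w) := by rw [h4]
        unfold M at h5
        calc wᵀ * J * w * (E K arm s * B) * Fᵀ = wᵀ * J * (w * E K arm s * B * Fᵀ) := by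
              simp only [Matrix.mul_assoc]
          _ = wᵀ * J * (F * E K arm s * B * wᵀ) := h5
          _ = (wᵀ * J * F) * (E K arm s * B * wᵀ) := by simp only [Matrix.mul_assoc]
          _ = 0 := by rw [hperp', Matrix.zero_mul]
      calc Fᵀ * J * w.map D * (E K arm s * B) * (Fᵀ * J * w.map D)
          = (Fᵀ * J * w.map D) * (E K arm s * B) * Fᵀ * (J * w.map D) := by
            simp only [Matrix.mul_assoc]
        _ = 0 := by
            rw [hβ, Matrix.neg_mul, Matrix.neg_mul, h3, neg_zero, Matrix.zero_mul])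
  rw [hβ, neg_eq_zero] at hlem
  exact hlem

end abstract

open Crest.AlgebraR.SpinSaturation Crest.Agent.R172.SoGrade Crest.Agent.R172.Sp
open Crest.Agent.R172.Gen (Jm Ix emb IsSo)
open Crest.Agent.R172.CF Crest.Agent.R172.HM2 Crest.Agent.R172.HM8 Crest.Agent.R172.HM9

variable {n : ℕ} {a : Fin 3 → Fin n → ℤ} {c : Cfg n a} {K : Type} [Field K] [Algebra ℂ K]

/-- **the good subspace** -/
theorem goodSub_of (h2 : (2 : K) ≠ 0) (p : Pol c) {g : Fin 3 → Matrix (Ix n) (Ix n) K}
    {H : Matrix (Fin p.m) (Fin p.m) K} (hG : GI c p K g H) {F : Matrix (Ix n) c.δ K}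
    (hctx : Qt.Ctx ℂ c.arm (Jm n K) (c.B K) (c.N g) (VL (p.LH H)) F)
    (hS : Om.Scal ℂ c.arm (Jm n K) (c.B K) (c.N g) (VL (p.LH H)))
    (hNil : Om.NilSp ℂ c.arm (Jm n K) (c.B K) (c.N g) (VL (p.LH H)))
    (hF : F ∈ Om.ZZ ℂ c.arm (Jm n K) (c.B K) (c.N g) (VL (p.LH H))) (hF0 : F ≠ 0)
    (hiso : ∀ w ∈ c.N g ⊓ VL (p.LH H), wᵀ * Jm n K * w = 0 →
      w ∈ Om.Kiso (Jm n K) (c.N g) (VL (p.LH H)))
    (hvert : ∀ w ∈ Om.ZZ ℂ c.arm (Jm n K) (c.B K) (c.N g) (VL (p.LH H)),
      ∃ D : Derivation ℂ K K, F.map D = w ∧ (∀ G ∈ c.N g, G.map D ∈ c.N g) ∧ H.map D = 0) :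
    GoodSub c p K g H (LinearMap.range (mulVecLin F)) := by
  have hD := hctx.data
  refine ⟨?_, ?_, ?_, ?_⟩
  · rintro _ ⟨u, rfl⟩ _ ⟨v, rfl⟩
    rw [mulVecLin_apply, mulVecLin_apply, form_eq, mulVec_mulVec]
    have h1 : Fᵀ * Jm n K * F = 0 := hctx.iso
    have h3 : (F *ᵥ u) ⬝ᵥ ((Jm n K * F) *ᵥ v) = u ⬝ᵥ ((Fᵀ * Jm n K * F) *ᵥ v) := by
      rw [Matrix.mul_assoc, ← mulVec_mulVec v Fᵀ (Jm n K * F), dotProduct_mulVec u,
        vecMul_transpose]
    rw [h3, h1, zero_mulVec, dotProduct_zero]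
  · intro h0
    apply hF0
    ext i j
    have h1 : F *ᵥ Pi.single j 1 ∈ LinearMap.range (mulVecLin F) := ⟨_, rfl⟩
    rw [h0, Submodule.mem_bot, mulVec_single_one] at h1
    exact congrFun h1 i
  · rintro ν ⟨hν, hsup⟩
    obtain ⟨w, hw, s, hs, rfl⟩ := Submodule.mem_sup.1 hsup
    have hs' : ∃ C : Matrix c.δ c.δ K, s = F * C := by
      choose u hu using fun d => hs d
      refine ⟨Matrix.of fun e d => u d e, ?_⟩
      ext q d
      exact (congrFun (hu d) q).symm
    obtain ⟨C, rfl⟩ := hs'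
    have h1 := Om.ZZ_q_zero h2 hctx hF hw hν (C := -C) (by rw [Matrix.mul_neg]; abel)
    have h3 : Fᵀ * Jm n K * (w + F * C) = 0 := by
      rw [Matrix.mul_add, h1, ← Matrix.mul_assoc _ F C, hctx.iso, Matrix.zero_mul, add_zero]
    intro d
    rintro _ ⟨u, rfl⟩
    rw [form_symm, mulVecLin_apply, form_eq]
    have h4 : (F *ᵥ u) ⬝ᵥ (Jm n K *ᵥ fun q => (w + F * C) q d) =
        u ⬝ᵥ (fun e => (Fᵀ * Jm n K * (w + F * C)) e d) := by
      have h5 : (fun e => (Fᵀ * Jm n K * (w + F * C)) e d) =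
          Fᵀ *ᵥ (Jm n K *ᵥ fun q => (w + F * C) q d) := by
        rw [mulVec_mulVec]
        rfl
      rw [h5, dotProduct_mulVec u, vecMul_transpose]
    rw [h4, h3]
    exact dotProduct_zero u
  · intro X hX hXS
    have hXF : ∀ s, X s * F = 0 := by
      intro s
      ext q d
      have h1 := congrFun (hXS s (F *ᵥ Pi.single d 1) ⟨_, rfl⟩) q
      rw [mulVec_mulVec, mulVec_single_one] at h1
      exact h1
    obtain ⟨D0, hD0N, hD0H⟩ := hG.dir X hX 0 (by simp)
    have hD0W : ∀ G ∈ VL (p.LH H), G.map D0 ∈ (VL (p.LH H) :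
        Submodule K (Matrix (Ix n) c.δ K)) := by
      intro G hG'
      have h1 := FO3.onW p hG.skew (ξ := 0) D0 (by rw [hD0H, FO3.dirH]; simp) hG'
      rw [transpose_zero, Matrix.mul_zero, sub_zero] at h1
      exact h1
    obtain ⟨hw1, hw2⟩ := w_iso hctx (fun s => hX s) hXF hD0N hD0W
    have hwK := hiso _ hw1 hw2
    have hwZ := Om.mem_ZZ_of_ker hD hS hNil h2 hF hwK (by
      intro u hu
      refine ⟨-(fun i => D0 (u i)), ?_⟩
      have h1 : (fun i => D0 ((F *ᵥ u) i)) = F.map D0 *ᵥ u + F *ᵥ (fun i => D0 (u i)) := by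
        funext i
        rw [Pi.add_apply, mulVec, dotProduct, map_sum, mulVec, mulVec, dotProduct, dotProduct,
          ← Finset.sum_add_distrib]
        refine Finset.sum_congr rfl fun j _ => ?_
        rw [Derivation.leibniz, smul_eq_mul, smul_eq_mul, map_apply]
        ring
      rw [hu] at h1
      have h3 : (fun i : Ix n => D0 ((0 : Ix n → K) i)) = 0 := by funext i; simp
      rw [h3] at h1
      rw [mulVec_neg]
      exact eq_neg_of_add_eq_zero_left h1.symm)
    obtain ⟨D', hD'F, hD'N, hD'H⟩ := hvert _ hwZ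
    refine ⟨D0 - D', ?_, ?_, ?_⟩
    · intro G hG'
      have e : G.map (D0 - D') = G.map D0 - G.map D' := by ext q d; rfl
      have e' : G.map (D0 - D') - FO.act c.arm X G =
          (G.map D0 - FO.act c.arm X G) - G.map D' := by rw [e]; abel
      rw [e']
      exact Submodule.sub_mem _ (hD0N G hG') (hD'N G hG')
    · have e : H.map (D0 - D') = H.map D0 - H.map D' := by ext q d; rfl
      rw [e, hD0H, hD'H, sub_zero]
    · rintro _ ⟨u, rfl⟩
      refine ⟨fun i => (D0 - D') (u i), ?_⟩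
      rw [mulVecLin_apply, mulVecLin_apply]
      have hF' : F.map (D0 - D') = 0 := by
        have e : F.map (D0 - D') = F.map D0 - F.map D' := by ext q d; rfl
        rw [e, hD'F, sub_self]
      funext i
      have h1 : (D0 - D') ((F *ᵥ u) i) = (F.map (D0 - D') *ᵥ u) i +
          (F *ᵥ (fun i => (D0 - D') (u i))) i := by
        rw [mulVec, dotProduct, map_sum, mulVec, mulVec, dotProduct, dotProduct,
          ← Finset.sum_add_distrib]
        refine Finset.sum_congr rfl fun j _ => ?_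
        rw [Derivation.leibniz, smul_eq_mul, smul_eq_mul, map_apply]
        ring
      rw [h1, hF', zero_mulVec, Pi.zero_apply, zero_add]

end Crest.Agent.R172.Ind
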