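import Mathlib

/-!
Row 172, node (K) of note 12626: weighted flags given by a basis and a weight function.
-/

set_option autoImplicit false
set_option linter.unusedSectionVars false
set_option linter.unusedSimpArgs false

namespace Crest.Agent.R172.Kempf

open Module

variable {k V ι κ : Type*} [Field k] [AddCommGroup V] [Module k V] [Fintype ι]

/-- The filtration step of weight `≥ a` of a weighted basis. -/
def Fil (e : Basis ι k V) (w : ι → ℝ) (a : ℝ) : Submodule k V where
  carrier := {v | ∀ i, e.repr v i ≠ 0 → a ≤ w i}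
  zero_mem' := by intro i h; simp at h
  add_mem' := by
    intro x y hx hy i h
    by_cases h1 : e.repr x i = 0
    · refine hy i ?_
      intro h2; apply h; simp [h1, h2]
    · exact hx i h1
  smul_mem' := by
    intro c x hx i h
    refine hx i ?_
    intro h2; apply h; simp [h2]

theorem mem_Fil {e : Basis ι k V} {w : ι → ℝ} {a : ℝ} {v : V} :
    v ∈ Fil e w a ↔ ∀ i, e.repr v i ≠ 0 → a ≤ w i := Iff.rfl

theorem Fil_anti (e : Basis ι k V) (w : ι → ℝ) {a b : ℝ} (h : a ≤ b) :
    Fil e w b ≤ Fil e w a := fun _ hv i hi => h.trans (hv i hi)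

theorem basis_mem_Fil (e : Basis ι k V) (w : ι → ℝ) {i : ι} {a : ℝ} (h : a ≤ w i) :
    e i ∈ Fil e w a := by
  classical
  intro j hj
  rw [Basis.repr_self, Finsupp.single_apply] at hj
  by_cases hij : i = j
  · subst hij; exact h
  · simp [hij] at hj

theorem Fil_eq_span (e : Basis ι k V) (w : ι → ℝ) (a : ℝ) :
    Fil e w a = Submodule.span k (e '' {i | a ≤ w i}) := by
  ext v
  rw [e.mem_span_image]
  constructor
  · intro h i hi
    exact h i (by simpa using hi)
  · intro h i hi
    exact h (by simpa using hi)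

theorem finrank_Fil (e : Basis ι k V) (w : ι → ℝ) (a : ℝ) :
    finrank k (Fil e w a) = Nat.card {i | a ≤ w i} := by
  classical
  rw [Fil_eq_span]
  have hli : LinearIndependent k (fun x : {i | a ≤ w i} => e x) :=
    e.linearIndependent.comp _ Subtype.val_injective
  have := finrank_span_eq_card (R := k) hli
  rw [Nat.card_eq_fintype_card, ← this, Set.image_eq_range]

/-- If every vector of the basis `f` lies in the right step, `f` is adapted. -/
theorem Fil_eq_of_mem (e f : Basis ι k V) (w : ι → ℝ) (h : ∀ i, f i ∈ Fil e w (w i)) (a : ℝ) :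
    Fil f w a = Fil e w a := by
  have : FiniteDimensional k V := Module.Finite.of_basis e
  apply Submodule.eq_of_le_of_finrank_eq
  · rw [Fil_eq_span, Submodule.span_le]
    rintro _ ⟨i, hi, rfl⟩
    exact Fil_anti e w hi (h i)
  · rw [finrank_Fil, finrank_Fil]

/-- `f` and `e` adapted to the same flag: the weights agree up to a permutation. -/
theorem exists_perm (e f : Basis ι k V) (w u : ι → ℝ) (h : ∀ a, Fil f u a = Fil e w a) :
    ∃ σ : Equiv.Perm ι, ∀ i, w i = u (σ i) := by
  classical
  -- a permutation with nonzero product of coefficients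
  have key : ∀ (e f : Basis ι k V) (w u : ι → ℝ), (∀ a, Fil f u a = Fil e w a) →
      ∃ σ : Equiv.Perm ι, ∀ i, w i ≤ u (σ i) := by
    intro e f w u h
    have hdet : (f.toMatrix e).det ≠ 0 := by
      have := (f.invertibleToMatrix e)
      exact (Matrix.isUnit_det_of_invertible (f.toMatrix e)).ne_zero
    rw [Matrix.det_apply] at hdet
    obtain ⟨σ, -, hσ⟩ := Finset.exists_ne_zero_of_sum_ne_zero hdet
    refine ⟨σ, fun i => ?_⟩
    have hprod : (∏ i, f.toMatrix e (σ i) i) ≠ 0 := by
      intro h0; apply hσ; rw [h0, smul_zero]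
    have hi := (Finset.prod_ne_zero_iff.mp hprod) i (Finset.mem_univ i)
    rw [Basis.toMatrix_apply] at hi
    have hmem : e i ∈ Fil f u (w i) := by rw [h]; exact basis_mem_Fil e w le_rfl
    exact hmem _ hi
  obtain ⟨σ, hσ⟩ := key e f w u h
  obtain ⟨τ, hτ⟩ := key f e u w (fun a => (h a).symm)
  refine ⟨σ, ?_⟩
  have h1 : ∑ i, w i ≤ ∑ i, u (σ i) := Finset.sum_le_sum fun i _ => hσ i
  have h2 : ∑ i, u (σ i) = ∑ i, u i := Equiv.sum_comp σ u
  have h3 : ∑ i, u i ≤ ∑ i, w (τ i) := Finset.sum_le_sum fun i _ => hτ i
  have h4 : ∑ i, w (τ i) = ∑ i, w i := Equiv.sum_comp τ w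
  have h5 : ∑ i, w i = ∑ i, u (σ i) := le_antisymm h1 (by rw [h2]; exact h3.trans h4.le)
  intro i
  exact (Finset.sum_eq_sum_iff_of_le (fun i _ => hσ i)).1 h5 i (Finset.mem_univ i)

theorem sum_sq_eq (e f : Basis ι k V) (w u : ι → ℝ) (h : ∀ a, Fil f u a = Fil e w a) :
    ∑ i, (w i) ^ 2 = ∑ i, (u i) ^ 2 := by
  obtain ⟨σ, hσ⟩ := exists_perm e f w u h
  simp_rw [hσ]
  exact Equiv.sum_comp σ (fun i => (u i) ^ 2)

/-- Replace one vector of a basis. -/
theorem exists_replace (f : Basis ι k V) (i0 : ι) (v : V) (hv : f.repr v i0 ≠ 0) :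
    ∃ f' : Basis ι k V, f' i0 = v ∧ ∀ i, i ≠ i0 → f' i = f i := by
  classical
  have : FiniteDimensional k V := Module.Finite.of_basis f
  let T : V →ₗ[k] V := LinearMap.id + (f.coord i0).smulRight (v - f i0)
  have hT : ∀ x, T x = x + f.repr x i0 • (v - f i0) := by
    intro x; simp [T]
  have hinj : Function.Injective T := by
    rw [← LinearMap.ker_eq_bot, LinearMap.ker_eq_bot']
    intro x hx
    rw [hT] at hx
    have h0 : f.repr (x + f.repr x i0 • (v - f i0)) i0 = 0 := by rw [hx]; simp
    simp only [map_add, map_smul, map_sub, Finsupp.add_apply, Finsupp.smul_apply,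
      Finsupp.sub_apply, Basis.repr_self, Finsupp.single_eq_same, smul_eq_mul] at h0
    have h1 : f.repr x i0 * f.repr v i0 = 0 := by linear_combination h0
    have h2 : f.repr x i0 = 0 := by
      rcases mul_eq_zero.mp h1 with h | h
      · exact h
      · exact absurd h hv
    rw [h2, zero_smul, add_zero] at hx
    exact hx
  let E : V ≃ₗ[k] V := LinearEquiv.ofInjectiveEndo T hinj
  refine ⟨f.map E, ?_, ?_⟩
  · rw [Basis.map_apply]
    change T (f i0) = v
    rw [hT]; simp
  · intro i hi
    rw [Basis.map_apply]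
    change T (f i) = f i
    rw [hT]; simp [Finsupp.single_apply, hi]

/-- Two weighted flags have a common adapted basis. -/
theorem exists_common (e e' : Basis ι k V) (w w' : ι → ℝ) :
    ∃ (f : Basis ι k V) (u : ι → ℝ), (∀ a, Fil f w a = Fil e w a) ∧
      (∀ a, Fil f u a = Fil e' w' a) := by
  classical
  have : FiniteDimensional k V := Module.Finite.of_basis e
  -- the admissible index functions
  let A : Set (ι → ι) := {j | ∃ f : Basis ι k V, (∀ a, Fil f w a = Fil e w a) ∧
    ∀ i, f i ∈ Fil e' w' (w' (j i))}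
  -- nonempty : each vector has a minimal index
  have hmin : ∀ v : V, v ≠ 0 → ∃ j, e'.repr v j ≠ 0 ∧ v ∈ Fil e' w' (w' j) := by
    intro v hv
    have hne : (e'.repr v).support.Nonempty := by
      rw [Finsupp.support_nonempty_iff]
      intro h; apply hv; exact e'.repr.map_eq_zero_iff.mp h
    obtain ⟨j, hj, hj2⟩ := Finset.exists_min_image _ w' hne
    refine ⟨j, by simpa using hj, ?_⟩
    intro i hi
    exact hj2 i (by simpa using hi)
  have hA : A.Nonempty := by
    choose g hg1 hg2 using fun i => hmin (e i) (e.ne_zero i)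
    exact ⟨g, e, fun a => rfl, hg2⟩
  obtain ⟨j, hjA, hjmax⟩ := Set.exists_max_image A (fun j => ∑ i, w' (j i)) (Set.toFinite A) hA
  obtain ⟨f, hf, hfj⟩ := hjA
  refine ⟨f, fun i => w' (j i), hf, ?_⟩
  intro a
  apply le_antisymm
  · rw [Fil_eq_span, Submodule.span_le]
    rintro _ ⟨i, hi, rfl⟩
    exact Fil_anti e' w' hi (hfj i)
  · intro v hv
    by_contra hnot
    rw [mem_Fil] at hnot
    push Not at hnot
    obtain ⟨i1, hi1, hi1a⟩ := hnot
    -- the minimal level on the support
    have hsupp : (f.repr v).support.Nonempty := ⟨i1, by simpa using hi1⟩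
    obtain ⟨i2, hi2, hi2min⟩ := Finset.exists_min_image _ (fun i => w' (j i)) hsupp
    set μ := w' (j i2) with hμ
    have hμa : μ < a := lt_of_le_of_lt (hi2min i1 (by simpa using hi1)) hi1a
    let I0 : Finset ι := (f.repr v).support.filter (fun i => w' (j i) = μ)
    have hI0 : I0.Nonempty := ⟨i2, Finset.mem_filter.mpr ⟨hi2, rfl⟩⟩
    let v0 : V := ∑ i ∈ I0, (f.repr v i) • f i
    -- coordinates of v0
    have hv0r : ∀ i, f.repr v0 i = if i ∈ I0 then f.repr v i else 0 := by
      intro i
      simp only [v0, map_sum, map_smul, Basis.repr_self, Finsupp.coe_finsetSum, Finset.sum_apply,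
        Finsupp.smul_apply, smul_eq_mul, Finsupp.single_apply, mul_ite, mul_one, mul_zero]
      rw [Finset.sum_ite_eq']
    -- v0 lies in a strictly higher step
    have hb : ∃ b, μ < b ∧ v0 ∈ Fil e' w' b := by
      let I1 : Finset ι := (f.repr v).support.filter (fun i => ¬ w' (j i) = μ)
      have hsplit : v = v0 + ∑ i ∈ I1, (f.repr v i) • f i := by
        rw [Finset.sum_filter_add_sum_filter_not]
        conv_lhs => rw [← f.linearCombination_repr v]
        rw [Finsupp.linearCombination_apply, Finsupp.sum]
      have hv0 : v0 = v - ∑ i ∈ I1, (f.repr v i) • f i := by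
        rw [eq_sub_iff_add_eq]; exact hsplit.symm
      by_cases hI1 : I1.Nonempty
      · obtain ⟨i3, hi3, hi3min⟩ := Finset.exists_min_image I1 (fun i => w' (j i)) hI1
        have h3 : μ < w' (j i3) := by
          have := Finset.mem_filter.mp hi3
          exact lt_of_le_of_ne (hi2min i3 this.1) (Ne.symm this.2)
        refine ⟨min a (w' (j i3)), lt_min hμa h3, ?_⟩
        rw [hv0]
        apply Submodule.sub_mem
        · exact Fil_anti e' w' (min_le_left _ _) hv
        · apply Submodule.sum_mem
          intro i hi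
          apply Submodule.smul_mem
          exact Fil_anti e' w' ((min_le_right _ _).trans (hi3min i hi)) (hfj i)
      · rw [Finset.not_nonempty_iff_eq_empty] at hI1
        refine ⟨a, hμa, ?_⟩
        rw [hv0, hI1]; simpa using hv
    obtain ⟨b, hμb, hv0b⟩ := hb
    -- the index of lowest F-weight in I0
    obtain ⟨i0, hi0, hi0min⟩ := Finset.exists_min_image I0 w hI0
    have hi0' := Finset.mem_filter.mp hi0
    have hc : f.repr v0 i0 ≠ 0 := by
      rw [hv0r, if_pos hi0]
      simpa using hi0'.1
    have hv0ne : v0 ≠ 0 := by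
      intro h; apply hc; rw [h]; simp
    obtain ⟨f', hf'0, hf'⟩ := exists_replace f i0 v0 hc
    obtain ⟨j0, hj0, hj0m⟩ := hmin v0 hv0ne
    have hj0b : b ≤ w' j0 := hv0b j0 hj0
    -- the new index function
    have hnew : Function.update j i0 j0 ∈ A := by
      refine ⟨f', ?_, ?_⟩
      · intro a
        rw [← hf]
        apply Fil_eq_of_mem
        intro i
        by_cases hi : i = i0
        · subst hi
          rw [hf'0]
          intro l hl
          rw [hv0r] at hl
          have hlI : l ∈ I0 := by
            by_contra h; simp [h] at hl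
          exact hi0min l hlI
        · rw [hf' i hi]; exact basis_mem_Fil f w le_rfl
      · intro i
        by_cases hi : i = i0
        · subst hi
          rw [hf'0, Function.update_self]; exact hj0m
        · rw [hf' i hi, Function.update_of_ne hi]; exact hfj i
    have hle := hjmax _ hnew
    have hlt : ∑ i, w' (j i) < ∑ i, w' (Function.update j i0 j0 i) := by
      apply Finset.sum_lt_sum
      · intro i _
        by_cases hi : i = i0
        · subst hi
          rw [Function.update_self]
          rw [hi0'.2]; exact (hμb.trans_le hj0b).le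
        · rw [Function.update_of_ne hi]
      · refine ⟨i0, Finset.mem_univ _, ?_⟩
        rw [Function.update_self, hi0'.2]; exact hμb.trans_le hj0b
    exact absurd hle (not_le.mpr hlt)

end Crest.Agent.R172.Kempf
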