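import Crest.Agent.R172.Kempf1

/-!
Row 172, node (K) of note 12626: the minimising weighted flag of a nilpotent family, its
uniqueness, and the statement about the leading parts.
-/

set_option autoImplicit false
set_option linter.unusedSectionVars false
set_option linter.unusedSimpArgs false

namespace Crest.Agent.R172.Kempf

open Module

variable {k V ι κ : Type*} [Field k] [AddCommGroup V] [Module k V] [Fintype ι]

/-- The family `M` raises the weights by at least one. -/
def Good (M : κ → V →ₗ[k] V) (e : Basis ι k V) (w : ι → ℝ) : Prop :=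
  ∀ s a, ∀ v ∈ Fil e w a, M s v ∈ Fil e w (a + 1)

theorem good_iff {M : κ → V →ₗ[k] V} {e : Basis ι k V} {w : ι → ℝ} :
    Good M e w ↔ ∀ s i j, e.repr (M s (e i)) j ≠ 0 → w i + 1 ≤ w j := by
  constructor
  · intro h s i j hj
    exact h s (w i) (e i) (basis_mem_Fil e w le_rfl) j hj
  · intro h s a v hv
    have hvs : M s v = ∑ i, e.repr v i • M s (e i) := by
      conv_lhs => rw [← e.sum_repr v]
      rw [map_sum]
      exact Finset.sum_congr rfl fun i _ => by rw [map_smul]
    rw [hvs]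
    apply Submodule.sum_mem
    intro i _
    by_cases h0 : e.repr v i = 0
    · rw [h0, zero_smul]; exact Submodule.zero_mem _
    · apply Submodule.smul_mem
      intro j hj
      have h1 := hv i h0
      have h2 := h s i j hj
      linarith

theorem Good.congr {M : κ → V →ₗ[k] V} {e f : Basis ι k V} {w u : ι → ℝ} (hg : Good M e w)
    (h : ∀ a, Fil f u a = Fil e w a) : Good M f u := by
  intro s a v hv
  rw [h] at hv ⊢
  exact hg s a v hv

/-- `(e, w)` minimises `∑ w²` among the good weighted bases. -/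
def IsMin (M : κ → V →ₗ[k] V) (e : Basis ι k V) (w : ι → ℝ) : Prop :=
  Good M e w ∧ ∀ (e' : Basis ι k V) (w' : ι → ℝ), Good M e' w' → ∑ i, (w i) ^ 2 ≤ ∑ i, (w' i) ^ 2

theorem IsMin.congr {M : κ → V →ₗ[k] V} {e f : Basis ι k V} {w u : ι → ℝ} (hg : IsMin M e w)
    (h : ∀ a, Fil f u a = Fil e w a) : IsMin M f u := by
  refine ⟨hg.1.congr h, fun e' w' h' => ?_⟩
  rw [← sum_sq_eq e f w u h]
  exact hg.2 e' w' h'

/-- The polyhedron of weights allowed by a set of relations. -/
def Poly (R : Set (ι × ι)) : Set (ι → ℝ) := {w | ∀ p ∈ R, w p.1 + 1 ≤ w p.2}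

theorem isClosed_Poly (R : Set (ι × ι)) : IsClosed (Poly R) := by
  have : Poly R = ⋂ p ∈ R, {w : ι → ℝ | w p.1 + 1 ≤ w p.2} := by
    ext w; simp [Poly]
  rw [this]
  refine isClosed_biInter fun p _ => isClosed_le ?_ ?_
  · exact (continuous_apply p.1).add continuous_const
  · exact continuous_apply p.2

theorem exists_min_Poly (R : Set (ι × ι)) (h : (Poly R).Nonempty) :
    ∃ w ∈ Poly R, ∀ w' ∈ Poly R, ∑ i, (w i) ^ 2 ≤ ∑ i, (w' i) ^ 2 := by
  obtain ⟨w0, hw0⟩ := h
  -- compact sublevel set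
  let C := ∑ i, (w0 i) ^ 2
  have hcont : Continuous fun w : ι → ℝ => ∑ i, (w i) ^ 2 :=
    continuous_finsetSum _ fun i _ => (continuous_apply i).pow 2
  let K : Set (ι → ℝ) := Poly R ∩ {w | ∑ i, (w i) ^ 2 ≤ C}
  have hK : IsCompact K := by
    have hcl : IsClosed K := (isClosed_Poly R).inter (isClosed_le hcont continuous_const)
    have hsub : K ⊆ Set.pi Set.univ (fun _ : ι => Set.Icc (-(C + 1)) (C + 1)) := by
      intro w hw i _
      have h1 : (w i) ^ 2 ≤ C :=
        (Finset.single_le_sum (f := fun i => (w i) ^ 2) (fun j _ => sq_nonneg _)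
          (Finset.mem_univ i)).trans hw.2
      have hC : 0 ≤ C := Finset.sum_nonneg fun j _ => sq_nonneg _
      constructor
      · nlinarith
      · nlinarith
    exact (isCompact_univ_pi fun _ => isCompact_Icc).of_isClosed_subset hcl hsub
  obtain ⟨w, hwK, hwmin⟩ := hK.exists_isMinOn ⟨w0, hw0, le_refl C⟩ hcont.continuousOn
  refine ⟨w, hwK.1, fun w' hw' => ?_⟩
  by_cases h' : ∑ i, (w' i) ^ 2 ≤ C
  · exact hwmin ⟨hw', h'⟩
  · exact (hwK.2 : _).trans (not_le.mp h').le

theorem exists_isMin (M : κ → V →ₗ[k] V) (e : Basis ι k V) (w : ι → ℝ) (h : Good M e w) :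
    ∃ (e' : Basis ι k V) (w' : ι → ℝ), IsMin M e' w' := by
  classical
  let Rel : Basis ι k V → Set (ι × ι) := fun e => {p | ∃ s, e.repr (M s (e p.1)) p.2 ≠ 0}
  have hgp : ∀ (e : Basis ι k V) (w : ι → ℝ), Good M e w ↔ w ∈ Poly (Rel e) := by
    intro e w
    rw [good_iff]
    constructor
    · rintro h ⟨i, j⟩ ⟨s, hs⟩; exact h s i j hs
    · intro h s i j hs; exact h (i, j) ⟨s, hs⟩
  let S : Set (Set (ι × ι)) := {R | (∃ e : Basis ι k V, Rel e = R) ∧ (Poly R).Nonempty}
  have hS : S.Nonempty := ⟨Rel e, ⟨e, rfl⟩, w, (hgp e w).1 h⟩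
  have hmin : ∀ R : Set (ι × ι), ∃ m : ι → ℝ, (Poly R).Nonempty →
      (m ∈ Poly R ∧ ∀ w' ∈ Poly R, ∑ i, (m i) ^ 2 ≤ ∑ i, (w' i) ^ 2) := by
    intro R
    by_cases hR : (Poly R).Nonempty
    · obtain ⟨m, hm, hm2⟩ := exists_min_Poly R hR
      exact ⟨m, fun _ => ⟨hm, hm2⟩⟩
    · exact ⟨0, fun h => absurd h hR⟩
  choose m hm using hmin
  obtain ⟨R, ⟨⟨e1, he1⟩, hR⟩, hRmin⟩ :=
    Set.exists_min_image S (fun R => ∑ i, (m R i) ^ 2) (Set.toFinite S) hS
  refine ⟨e1, m R, ?_, ?_⟩
  · rw [hgp, he1]; exact (hm R hR).1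
  · intro e' w' h'
    rw [hgp] at h'
    have hne : (Poly (Rel e')).Nonempty := ⟨w', h'⟩
    exact (hRmin (Rel e') ⟨⟨e', rfl⟩, hne⟩).trans ((hm _ hne).2 w' h')

/-- The minimising weighted flag is unique. -/
theorem IsMin.unique {M : κ → V →ₗ[k] V} {e e' : Basis ι k V} {w w' : ι → ℝ}
    (h : IsMin M e w) (h' : IsMin M e' w') (a : ℝ) : Fil e w a = Fil e' w' a := by
  obtain ⟨f, u, hf, hu⟩ := exists_common e e' w w'
  have h1 : IsMin M f w := h.congr hf
  have h2 : IsMin M f u := h'.congr hu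
  have hmid : Good M f (fun i => (w i + u i) / 2) := by
    rw [good_iff]
    intro s i j hj
    have a1 := good_iff.1 h1.1 s i j hj
    have a2 := good_iff.1 h2.1 s i j hj
    linarith
  have e1 : ∑ i, (w i) ^ 2 = ∑ i, (u i) ^ 2 :=
    le_antisymm (h1.2 f u h2.1) (h2.2 f w h1.1)
  have e2 := h1.2 f _ hmid
  have e3 : ∑ i, ((w i + u i) / 2) ^ 2 =
      (∑ i, (w i) ^ 2) / 2 + (∑ i, (u i) ^ 2) / 2 - (∑ i, (w i - u i) ^ 2) / 4 := by
    rw [Finset.sum_div, Finset.sum_div, Finset.sum_div, ← Finset.sum_add_distrib,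
      ← Finset.sum_sub_distrib]
    exact Finset.sum_congr rfl fun i _ => by ring
  have e4 : ∑ i, (w i - u i) ^ 2 ≤ 0 := by
    rw [e3] at e2; linarith
  have e5 : ∀ i, w i = u i := by
    intro i
    have h0 := (Finset.single_le_sum (f := fun i => (w i - u i) ^ 2) (fun j _ => sq_nonneg _)
          (Finset.mem_univ i)).trans e4
    have : (w i - u i) ^ 2 = 0 := le_antisymm h0 (sq_nonneg _)
    have := pow_eq_zero_iff (n := 2) (by norm_num) |>.1 this
    linarith
  have e6 : u = w := funext fun i => (e5 i).symm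
  rw [← hf, ← hu, e6]

theorem Fil_map (e : Basis ι k V) (w : ι → ℝ) (g : V ≃ₗ[k] V) (a : ℝ) (v : V) :
    v ∈ Fil (e.map g) w a ↔ g.symm v ∈ Fil e w a := by
  rw [mem_Fil, mem_Fil]; rfl

/-- The minimising flag is invariant under the automorphisms commuting with the family. -/
theorem IsMin.invariant {M : κ → V →ₗ[k] V} {e : Basis ι k V} {w : ι → ℝ}
    (h : IsMin M e w) (g : V ≃ₗ[k] V) (hg : ∀ s v, g (M s v) = M s (g v)) (a : ℝ) (v : V)
    (hv : v ∈ Fil e w a) : g v ∈ Fil e w a := by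
  have hgood : Good M (e.map g) w := by
    intro s a v hv
    rw [Fil_map] at hv ⊢
    have := h.1 s a _ hv
    have h2 : g.symm (M s v) = M s (g.symm v) := by
      rw [LinearEquiv.symm_apply_eq, hg, LinearEquiv.apply_symm_apply]
    rw [h2]; exact this
  have hmin : IsMin M (e.map g) w := ⟨hgood, fun e' w' h' => h.2 e' w' h'⟩
  have := hmin.unique h a
  rw [← this, Fil_map, LinearEquiv.symm_apply_apply]
  exact hv

/-- Homogeneous part of degree `d` of an endomorphism. -/
noncomputable def part (e : Basis ι k V) (w : ι → ℝ) (d : ℝ) (T : V →ₗ[k] V) : V →ₗ[k] V := by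
  classical
  exact e.constr k fun i => ∑ j, if w j = w i + d then e.repr (T (e i)) j • e j else 0

theorem repr_part (e : Basis ι k V) (w : ι → ℝ) (d : ℝ) (T : V →ₗ[k] V) (i j : ι) [Decidable (w j = w i + d)] :
    e.repr (part e w d T (e i)) j = if w j = w i + d then e.repr (T (e i)) j else 0 := by
  classical
  rw [part, Basis.constr_basis, map_sum, Finsupp.coe_finsetSum, Finset.sum_apply]
  rw [Finset.sum_eq_single j]
  · by_cases h : w j = w i + d
    · simp [h]
    · simp [h]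
  · intro l _ hl
    by_cases h : w l = w i + d
    · simp [h, Finsupp.single_apply, hl]
    · simp [h]
  · intro h; exact absurd (Finset.mem_univ _) h

end Crest.Agent.R172.Kempf
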