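import Crest.Agent.R172.Kempf2

/-!
Row 172, node (K) of note 12626: the flag which minimises for `M` also minimises for the leading
part of `M`, and no strictly lowering endomorphism commutes with the leading part.
-/

set_option autoImplicit false
set_option linter.unusedSectionVars false
set_option linter.unusedSimpArgs false

namespace Crest.Agent.R172.Kempf

open Module

variable {k V ι κ : Type*} [Field k] [AddCommGroup V] [Module k V] [Fintype ι]

/-- Projection on the weight `a` part of the grading given by `(e, w)`. -/
noncomputable def pr (e : Basis ι k V) (w : ι → ℝ) (a : ℝ) : V →ₗ[k] V := by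
  classical
  exact e.constr k fun i => if w i = a then e i else 0

theorem pr_basis (e : Basis ι k V) (w : ι → ℝ) (a : ℝ) (i : ι) [Decidable (w i = a)] :
    pr e w a (e i) = if w i = a then e i else 0 := by
  classical
  rw [pr, Basis.constr_basis]
  by_cases h : w i = a <;> simp [h]

theorem repr_pr (e : Basis ι k V) (w : ι → ℝ) (a : ℝ) (v : V) (j : ι) [Decidable (w j = a)] :
    e.repr (pr e w a v) j = if w j = a then e.repr v j else 0 := by
  classical
  conv_lhs => rw [← e.sum_repr v]
  rw [map_sum, map_sum, Finsupp.coe_finsetSum, Finset.sum_apply]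
  rw [Finset.sum_eq_single j]
  · rw [map_smul, pr_basis]
    by_cases h : w j = a
    · simp [h]
    · simp [h]
  · intro l _ hl
    rw [map_smul, pr_basis]
    by_cases h : w l = a
    · simp [h, Finsupp.single_apply, hl]
    · simp [h]
  · intro h; exact absurd (Finset.mem_univ _) h

/-- Strict steps of the filtration only depend on the flag. -/
theorem strict_of_strict {e f : Basis ι k V} {w u : ι → ℝ} (h : ∀ a, Fil f u a = Fil e w a)
    {a : ℝ} {v : V} (hv : ∀ j, e.repr v j ≠ 0 → a < w j) : ∀ j, f.repr v j ≠ 0 → a < u j := by
  classical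
  intro j hj
  have hne : (e.repr v).support.Nonempty := by
    rw [Finsupp.support_nonempty_iff]
    intro h0
    have : v = 0 := e.repr.map_eq_zero_iff.mp h0
    apply hj; rw [this]; simp
  obtain ⟨l, hl, hlmin⟩ := Finset.exists_min_image _ w hne
  have hmem : v ∈ Fil e w (w l) := fun i hi => hlmin i (by simpa using hi)
  rw [← h] at hmem
  exact (hv l (by simpa using hl)).trans_le (hmem j hj)

/-- The homogeneous parts of an adapted basis form an adapted basis. -/
theorem exists_homogeneous {e f : Basis ι k V} {w : ι → ℝ} (h : ∀ a, Fil f w a = Fil e w a) :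
    ∃ g : Basis ι k V, (∀ i, g i = pr e w (w i) (f i)) ∧ ∀ a, Fil g w a = Fil e w a := by
  classical
  have : FiniteDimensional k V := Module.Finite.of_basis e
  have hli : LinearIndependent k fun i => pr e w (w i) (f i) := by
    rw [Fintype.linearIndependent_iff]
    intro c hc i0
    by_contra hi0
    -- the part of weight `w i0`
    let a := w i0
    let v : V := ∑ i, (if w i = a then c i else 0) • f i
    have hvf : ∀ i, f.repr v i = if w i = a then c i else 0 := by
      intro i
      have : f.repr v = f.repr (∑ i, (if w i = a then c i else 0) • f i) := rfl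
      rw [this, f.repr_sum_self]
    have hva : v ∈ Fil e w a := by
      rw [← h]
      intro i hi
      rw [hvf] at hi
      by_contra h'
      apply hi
      rw [if_neg]
      intro h''; exact h' h''.ge
    have hprv : pr e w a v = 0 := by
      have e1 : pr e w a v = ∑ i, (if w i = a then c i else 0) • pr e w a (f i) := by
        simp only [v, map_sum, map_smul]
      have e2 : pr e w a (∑ i, c i • pr e w (w i) (f i)) =
          ∑ i, (if w i = a then c i else 0) • pr e w a (f i) := by
        rw [map_sum]
        refine Finset.sum_congr rfl fun i _ => ?_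
        rw [map_smul]
        apply e.repr.injective
        ext j
        by_cases hi : w i = a
        · rw [if_pos hi, hi]
          simp only [map_smul, Finsupp.smul_apply, repr_pr]
          by_cases hj : w j = a <;> simp [hj]
        · rw [if_neg hi]
          simp only [map_smul, Finsupp.smul_apply, repr_pr, zero_smul, Finsupp.zero_apply, map_zero]
          by_cases hj : w j = a
          · have : ¬ a = w i := fun h => hi h.symm
            simp [hj, this]
          · simp [hj]
      rw [e1, ← e2, hc, map_zero]
    have hstrict : ∀ j, e.repr v j ≠ 0 → a < w j := by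
      intro j hj
      refine lt_of_le_of_ne (hva j hj) ?_
      intro haj
      apply hj
      have := repr_pr e w a v j
      rw [hprv, if_pos haj.symm] at this
      rw [← this]; simp
    have := strict_of_strict h hstrict i0 (by rw [hvf]; simpa [a] using hi0)
    exact lt_irrefl _ this
  let g : Basis ι k V := basisOfLinearIndependentOfCardEqFinrank' _ hli
    (Module.finrank_eq_card_basis e).symm
  have hg : ∀ i, g i = pr e w (w i) (f i) := fun i => by
    simp [g]
  refine ⟨g, hg, fun a => Fil_eq_of_mem e g w (fun i => ?_) a⟩
  rw [hg]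
  intro j hj
  rw [repr_pr] at hj
  by_contra h'
  apply hj
  rw [if_neg]
  intro h''; exact h' h''.ge

theorem pr_part (e : Basis ι k V) (w : ι → ℝ) (d a : ℝ) (T : V →ₗ[k] V) (v : V) :
    pr e w (a + d) (part e w d T v) = part e w d T (pr e w a v) := by
  classical
  have : (pr e w (a + d)).comp (part e w d T) = (part e w d T).comp (pr e w a) := by
    apply e.ext
    intro i
    apply e.repr.injective
    ext j
    rw [LinearMap.comp_apply, LinearMap.comp_apply, repr_pr, repr_part, pr_basis]
    by_cases hi : w i = a
    · rw [if_pos hi, repr_part, hi]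
      by_cases hj : w j = a + d <;> simp [hj]
    · rw [if_neg hi, map_zero, map_zero, Finsupp.zero_apply]
      by_cases hj : w j = a + d
      · rw [if_pos hj, if_neg]
        intro h; apply hi; linarith
      · rw [if_neg hj]
  exact congrArg (fun f : V →ₗ[k] V => f v) this

theorem IsMin.lead {M : κ → V →ₗ[k] V} {e : Basis ι k V} {w : ι → ℝ} (h : IsMin M e w) :
    IsMin (fun s => part e w 1 (M s)) e w := by
  classical
  set L : κ → V →ₗ[k] V := fun s => part e w 1 (M s) with hL
  have hLg : Good L e w := by
    rw [good_iff]
    intro s i j hj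
    rw [hL] at hj
    simp only [repr_part] at hj
    by_contra h'
    apply hj
    rw [if_neg]
    intro h''; exact h' h''.ge
  obtain ⟨g, u0, hgu⟩ := exists_isMin L e w hLg
  obtain ⟨f, u, hf, hu⟩ := exists_common e g w u0
  obtain ⟨f0, hf0, hf0F⟩ := exists_homogeneous hf
  have hLfu : Good L f u := hgu.1.congr hu
  -- homogeneity of `f0`
  have hhom : ∀ i j, e.repr (f0 i) j ≠ 0 → w j = w i := by
    intro i j hj
    rw [hf0, repr_pr] at hj
    by_contra h'
    apply hj; rw [if_neg h']
  -- coordinates of `L f0`
  have hLf0 : ∀ s i, L s (f0 i) = ∑ j, (if w j = w i + 1 then f.repr (L s (f i)) j else 0) • f0 j := by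
    intro s i
    rw [hf0 i]
    have e1 : L s (pr e w (w i) (f i)) = pr e w (w i + 1) (L s (f i)) := by
      rw [hL]; exact (pr_part e w 1 (w i) (M s) (f i)).symm
    rw [e1]
    conv_lhs => rw [← f.sum_repr (L s (f i))]
    rw [map_sum]
    refine Finset.sum_congr rfl fun j _ => ?_
    rw [map_smul]
    by_cases hj : w j = w i + 1
    · rw [if_pos hj, hf0 j, hj]
    · rw [if_neg hj, zero_smul]
      by_cases hc : f.repr (L s (f i)) j = 0
      · rw [hc, zero_smul]
      · have h1 : L s (f i) ∈ Fil e w (w i + 1) := by
          apply hLg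
          rw [← hf]; exact basis_mem_Fil f w le_rfl
        rw [← hf] at h1
        have h2 : w i + 1 < w j := lt_of_le_of_ne (h1 j hc) (Ne.symm hj)
        have h3 : pr e w (w i + 1) (f j) = 0 := by
          apply e.repr.injective
          ext l
          rw [repr_pr, map_zero, Finsupp.zero_apply]
          by_cases hl : w l = w i + 1
          · rw [if_pos hl]
            by_contra hne
            have h4 : f j ∈ Fil e w (w j) := by rw [← hf]; exact basis_mem_Fil f w le_rfl
            have := h4 l hne
            linarith
          · rw [if_neg hl]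
        rw [h3, smul_zero]
  have hLf0r : ∀ s i j, f0.repr (L s (f0 i)) j =
      if w j = w i + 1 then f.repr (L s (f i)) j else 0 := by
    intro s i j
    rw [hLf0, f0.repr_sum_self]
  -- relations of `M` in the basis `f0`
  have hrel : ∀ s i j, f0.repr (M s (f0 i)) j ≠ 0 →
      (w i + 1 < w j) ∨ (w j = w i + 1 ∧ u i + 1 ≤ u j) := by
    intro s i j hj
    have h1 : w i + 1 ≤ w j := good_iff.1 (h.1.congr hf0F) s i j hj
    rcases h1.lt_or_eq with h2 | h2
    · exact Or.inl h2
    · refine Or.inr ⟨h2.symm, ?_⟩
      -- the difference lies in a strict step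
      have hstr : ∀ l, e.repr (M s (f0 i) - L s (f0 i)) l ≠ 0 → w i + 1 < w l := by
        intro l hl
        have e1 : e.repr (M s (f0 i) - L s (f0 i)) l =
            ∑ m, e.repr (f0 i) m * (e.repr (M s (e m)) l - if w l = w m + 1 then
              e.repr (M s (e m)) l else 0) := by
          have : M s (f0 i) - L s (f0 i) = ∑ m, e.repr (f0 i) m • (M s (e m) - L s (e m)) := by
            conv_lhs => rw [← e.sum_repr (f0 i)]
            simp only [map_sum, map_smul, smul_sub, Finset.sum_sub_distrib]
          rw [this, map_sum, Finsupp.coe_finsetSum, Finset.sum_apply]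
          refine Finset.sum_congr rfl fun m _ => ?_
          rw [map_smul, map_sub, Finsupp.smul_apply, Finsupp.sub_apply, smul_eq_mul]
          rw [hL]
          simp only [repr_part]
        rw [e1] at hl
        obtain ⟨m, -, hm⟩ := Finset.exists_ne_zero_of_sum_ne_zero hl
        have hm1 : e.repr (f0 i) m ≠ 0 := left_ne_zero_of_mul hm
        have hm2 := right_ne_zero_of_mul hm
        have hwm := hhom i m hm1
        by_cases hlm : w l = w m + 1
        · rw [if_pos hlm, sub_self] at hm2; exact absurd rfl hm2
        · rw [if_neg hlm, sub_zero] at hm2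
          have := good_iff.1 h.1 s m l hm2
          rw [hwm] at this hlm
          exact lt_of_le_of_ne this (Ne.symm hlm)
      have hstr' := strict_of_strict hf0F hstr
      have heq : f0.repr (M s (f0 i)) j = f0.repr (L s (f0 i)) j := by
        by_contra hne
        have : f0.repr (M s (f0 i) - L s (f0 i)) j ≠ 0 := by
          rw [map_sub, Finsupp.sub_apply]; exact sub_ne_zero.mpr hne
        have := hstr' j this
        linarith
      rw [heq, hLf0r, if_pos h2.symm] at hj
      exact good_iff.1 hLfu s i j hj
  -- comparison of the norms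
  have hle : ∑ i, (w i) ^ 2 ≤ ∑ i, (u i) ^ 2 := by
    by_contra hlt
    rw [not_le] at hlt
    have hev : ∀ᶠ ε : ℝ in nhdsWithin 0 (Set.Ioi 0), (∀ p : ι × ι, w p.1 + 1 < w p.2 →
        0 < (1 - ε) * (w p.2 - w p.1 - 1) + ε * (u p.2 - u p.1 - 1)) ∧ ε < 1 := by
      refine Filter.Eventually.and ?_ ?_
      · rw [Filter.eventually_all]
        intro p
        by_cases hp : w p.1 + 1 < w p.2
        · have hc : Continuous fun ε : ℝ => (1 - ε) * (w p.2 - w p.1 - 1) +
              ε * (u p.2 - u p.1 - 1) := by fun_prop
          have : ∀ᶠ ε : ℝ in nhds 0, 0 < (1 - ε) * (w p.2 - w p.1 - 1) +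
              ε * (u p.2 - u p.1 - 1) := by
            refine (hc.tendsto 0).eventually (lt_mem_nhds ?_)
            simp only [sub_zero, one_mul, zero_mul, add_zero]
            linarith
          exact (this.filter_mono nhdsWithin_le_nhds).mono fun ε hε _ => hε
        · exact Filter.Eventually.of_forall fun ε h => absurd h hp
      · exact (eventually_lt_nhds one_pos).filter_mono nhdsWithin_le_nhds
    obtain ⟨ε, ⟨hε1, hε2⟩, hε0⟩ := (hev.and self_mem_nhdsWithin).exists
    have hε0 : 0 < ε := hε0
    have hgood : Good M f0 (fun i => (1 - ε) * w i + ε * u i) := by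
      rw [good_iff]
      intro s i j hj
      rcases hrel s i j hj with h1 | ⟨h1, h2⟩
      · have := hε1 (i, j) h1
        simp only at this
        linarith
      · rw [h1]; nlinarith
    have h1 := h.2 f0 _ hgood
    have h2 : ∑ i, ((1 - ε) * w i + ε * u i) ^ 2 ≤
        (1 - ε) * ∑ i, (w i) ^ 2 + ε * ∑ i, (u i) ^ 2 := by
      rw [Finset.mul_sum, Finset.mul_sum, ← Finset.sum_add_distrib]
      apply Finset.sum_le_sum
      intro i _
      nlinarith [mul_nonneg (mul_nonneg hε0.le (sub_nonneg.mpr hε2.le)) (sq_nonneg (w i - u i))]
    nlinarith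
  refine ⟨hLg, fun e' w' h' => ?_⟩
  calc ∑ i, (w i) ^ 2 ≤ ∑ i, (u i) ^ 2 := hle
    _ = ∑ i, (u0 i) ^ 2 := (sum_sq_eq g f u0 u hu).symm
    _ ≤ ∑ i, (w' i) ^ 2 := hgu.2 e' w' h'

/-- **Node (K)**: no nonzero strictly lowering endomorphism commutes with the leading parts. -/
theorem IsMin.eq_zero_of_commute {M : κ → V →ₗ[k] V} {e : Basis ι k V} {w : ι → ℝ}
    (h : IsMin M e w) (Y : V →ₗ[k] V) (hY : ∀ i j, e.repr (Y (e i)) j ≠ 0 → w j < w i)
    (hc : ∀ s v, Y (part e w 1 (M s) v) = part e w 1 (M s) (Y v)) : Y = 0 := by
  classical
  have : FiniteDimensional k V := Module.Finite.of_basis e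
  let T : V →ₗ[k] V := LinearMap.id + Y
  have hinj : Function.Injective T := by
    rw [← LinearMap.ker_eq_bot, LinearMap.ker_eq_bot']
    intro x hx
    by_contra hx0
    have hne : (e.repr x).support.Nonempty := by
      rw [Finsupp.support_nonempty_iff]
      intro h0; exact hx0 (e.repr.map_eq_zero_iff.mp h0)
    obtain ⟨j, hj, hjmax⟩ := Finset.exists_max_image _ w hne
    have h0 : e.repr (T x) j = e.repr x j + ∑ i, e.repr x i * e.repr (Y (e i)) j := by
      have : T x = x + ∑ i, e.repr x i • Y (e i) := by
        simp only [T, LinearMap.add_apply, LinearMap.id_apply]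
        congr 1
        conv_lhs => rw [← e.sum_repr x]
        simp only [map_sum, map_smul]
      rw [this, map_add, map_sum, Finsupp.add_apply, Finsupp.coe_finsetSum, Finset.sum_apply]
      simp
    have h1 : ∑ i, e.repr x i * e.repr (Y (e i)) j = 0 := by
      apply Finset.sum_eq_zero
      intro i _
      by_contra hne
      have h2 := left_ne_zero_of_mul hne
      have h3 := hY i j (right_ne_zero_of_mul hne)
      have h4 := hjmax i (by simpa using h2)
      linarith
    rw [hx, h1, map_zero, Finsupp.zero_apply, add_zero] at h0
    exact (by simpa using hj : e.repr x j ≠ 0) h0.symm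
  let g : V ≃ₗ[k] V := LinearEquiv.ofInjectiveEndo T hinj
  have hg : ∀ v, g v = v + Y v := fun v => rfl
  have hinv := h.lead.invariant g (by
    intro s v
    rw [hg, hg, map_add, hc])
  apply e.ext
  intro i
  rw [LinearMap.zero_apply]
  apply e.repr.injective
  ext j
  rw [map_zero, Finsupp.zero_apply]
  by_contra hne
  have h1 := hinv (w i) (e i) (basis_mem_Fil e w le_rfl)
  rw [hg] at h1
  have h2 : Y (e i) ∈ Fil e w (w i) := by
    have := Submodule.sub_mem _ h1 (basis_mem_Fil e w (le_refl (w i)))
    simpa using this
  have := h2 j hne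
  exact absurd (hY i j hne) (not_lt.mpr this)

end Crest.Agent.R172.Kempf
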