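import Crest.Agent.R172.Kempf3

/-!
Row 172, node (K) of note 12626: self-duality of the minimising flag of a family of symmetric
endomorphisms, and the final statement.
-/

set_option autoImplicit false
set_option linter.unusedSectionVars false
set_option linter.unusedSimpArgs false

namespace Crest.Agent.R172.Kempf

open Module

variable {k V ι κ : Type*} [Field k] [AddCommGroup V] [Module k V] [Fintype ι] [DecidableEq ι]

theorem dual_repr (B : LinearMap.BilinForm k V) (hB : B.Nondegenerate) (e : Basis ι k V) (x : V)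
    (i : ι) : (B.dualBasis hB e).repr x i = B x (e i) := by
  rw [LinearMap.BilinForm.dualBasis_repr_apply]

theorem repr_dual (B : LinearMap.BilinForm k V) (hB : B.Nondegenerate) (e : Basis ι k V) (x : V)
    (i : ι) : e.repr x i = B (B.dualBasis hB e i) x := by
  conv_rhs => rw [← e.sum_repr x]
  rw [map_sum, Finset.sum_eq_single i]
  · simp [LinearMap.BilinForm.apply_dualBasis_left]
  · intro j _ hj
    simp [LinearMap.BilinForm.apply_dualBasis_left, hj]
  · intro h; exact absurd (Finset.mem_univ _) h

theorem IsMin.dual {M : κ → V →ₗ[k] V} {e : Basis ι k V} {w : ι → ℝ} (h : IsMin M e w)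
    (B : LinearMap.BilinForm k V) (hB : B.Nondegenerate)
    (hM : ∀ s x y, B (M s x) y = B x (M s y)) :
    IsMin M (B.dualBasis hB e) (fun i => - w i) := by
  refine ⟨?_, fun e' w' h' => ?_⟩
  · rw [good_iff]
    intro s i j hj
    rw [dual_repr, hM, ← repr_dual] at hj
    have := good_iff.1 h.1 s j i hj
    linarith
  · simpa using h.2 e' w' h'

/-- Self-duality: the steps `≥ a` and `≥ b` are orthogonal if `a + b > 0`. -/
theorem IsMin.ortho {M : κ → V →ₗ[k] V} {e : Basis ι k V} {w : ι → ℝ} (h : IsMin M e w)
    (B : LinearMap.BilinForm k V) (hB : B.Nondegenerate)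
    (hM : ∀ s x y, B (M s x) y = B x (M s y)) {a b : ℝ} (hab : 0 < a + b) {x y : V}
    (hx : x ∈ Fil e w a) (hy : y ∈ Fil e w b) : B x y = 0 := by
  rw [h.unique (h.dual B hB hM) a] at hx
  have e1 : B x y = ∑ i, e.repr y i * B x (e i) := by
    conv_lhs => rw [← e.sum_repr y]
    rw [map_sum]
    exact Finset.sum_congr rfl fun i _ => by rw [map_smul, smul_eq_mul]
  rw [e1]
  apply Finset.sum_eq_zero
  intro i _
  by_contra hne
  have h1 := hy i (left_ne_zero_of_mul hne)
  have h2 := hx i (by rw [dual_repr]; exact right_ne_zero_of_mul hne)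
  linarith

/-- The minimising flag of a symmetric family has an orthogonal-dual splitting. -/
theorem IsMin.exists_selfdual {M : κ → V →ₗ[k] V} {e : Basis ι k V} {w : ι → ℝ}
    (h : IsMin M e w) (B : LinearMap.BilinForm k V) (hB : B.Nondegenerate) (hs : B.IsSymm)
    (h2 : (2 : k) ≠ 0) (hM : ∀ s x y, B (M s x) y = B x (M s y)) :
    ∃ (e' : Basis ι k V) (σ : Equiv.Perm ι), IsMin M e' w ∧ (∀ i, w (σ i) = - w i) ∧
      (∀ i j, w i + w j ≠ 0 → B (e' i) (e' j) = 0) := by
  have : FiniteDimensional k V := Module.Finite.of_basis e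
  have hdual := h.dual B hB hM
  obtain ⟨σ, hσ⟩ := exists_perm e (B.dualBasis hB e) w (fun i => - w i)
    (fun a => (h.unique hdual a).symm)
  have hσ' : ∀ i, w (σ i) = - w i := fun i => by have := hσ i; linarith
  set d := B.dualBasis hB e with hd
  have hde : ∀ i j, B (d i) (e j) = if j = i then 1 else 0 := fun i j => by
    rw [hd, LinearMap.BilinForm.apply_dualBasis_left]
  have hort : ∀ i j, 0 < w i + w j → B (e i) (e j) = 0 := fun i j hij =>
    h.ortho B hB hM hij (basis_mem_Fil e w le_rfl) (basis_mem_Fil e w le_rfl)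
  -- the corrected dual vectors
  let q : ι → V := fun i => d i - (2 : k)⁻¹ • ∑ l, (if 0 < w l then B (d i) (d l) else 0) • e l
  have hqe : ∀ i j, 0 ≤ w j → B (q i) (e j) = if j = i then 1 else 0 := by
    intro i j hj
    have hz : ∑ l, (if 0 < w l then B (d i) (d l) else 0) * B (e l) (e j) = 0 := by
      apply Finset.sum_eq_zero
      intro l _
      by_cases hl : 0 < w l
      · rw [hort l j (by linarith), mul_zero]
      · rw [if_neg hl, zero_mul]
    simp only [q, map_sub, LinearMap.sub_apply, map_smul, LinearMap.smul_apply, map_sum,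
      LinearMap.sum_apply, smul_eq_mul, hz, mul_zero, sub_zero, hde]
  have hqq : ∀ i j, 0 < w i → 0 < w j → B (q i) (q j) = 0 := by
    intro i j hi hj
    have e1 : B (q i) (q j) = B (q i) (d j) -
        (2 : k)⁻¹ * ∑ l, (if 0 < w l then B (d j) (d l) else 0) * B (q i) (e l) := by
      simp only [q, map_sub, LinearMap.sub_apply, map_smul, LinearMap.smul_apply, map_sum,
        LinearMap.sum_apply, smul_eq_mul]
    have e2 : ∑ l, (if 0 < w l then B (d j) (d l) else 0) * B (q i) (e l) = B (d j) (d i) := by
      rw [Finset.sum_eq_single i]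
      · rw [if_pos hi, hqe i i hi.le, if_pos rfl, mul_one]
      · intro l _ hl
        by_cases hl0 : 0 < w l
        · rw [hqe i l hl0.le, if_neg hl, mul_zero]
        · rw [if_neg hl0, zero_mul]
      · intro h; exact absurd (Finset.mem_univ _) h
    have e3 : B (q i) (d j) = B (d i) (d j) -
        (2 : k)⁻¹ * ∑ l, (if 0 < w l then B (d i) (d l) else 0) * B (e l) (d j) := by
      simp only [q, map_sub, LinearMap.sub_apply, map_smul, LinearMap.smul_apply, map_sum,
        LinearMap.sum_apply, smul_eq_mul]
    have e4 : ∑ l, (if 0 < w l then B (d i) (d l) else 0) * B (e l) (d j) = B (d i) (d j) := by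
      rw [Finset.sum_eq_single j]
      · rw [if_pos hj, hs.eq (e j) (d j), hde, if_pos rfl, mul_one]
      · intro l _ hl
        rw [hs.eq (e l) (d j), hde, if_neg hl, mul_zero]
      · intro h; exact absurd (Finset.mem_univ _) h
    rw [e1, e2, e3, e4, hs.eq (d j) (d i)]
    have : (2 : k)⁻¹ * B (d i) (d j) + (2 : k)⁻¹ * B (d i) (d j) = B (d i) (d j) := by
      rw [← two_mul, ← mul_assoc, mul_inv_cancel₀ h2, one_mul]
    linear_combination -this
  -- the new basis
  let g : ι → V := fun i => if 0 ≤ w i then e i else q (σ i)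
  have hgpos : ∀ i, 0 ≤ w i → g i = e i := fun i hi => if_pos hi
  have hgneg : ∀ i, w i < 0 → g i = q (σ i) := fun i hi => if_neg (not_le.mpr hi)
  have hli : LinearIndependent k g := by
    rw [Fintype.linearIndependent_iff]
    intro c hc
    have hneg : ∀ i, w i < 0 → c i = 0 := by
      intro i hi
      have h1 : B (∑ l, c l • g l) (e (σ i)) = 0 := by rw [hc]; simp
      rw [map_sum, LinearMap.sum_apply, Finset.sum_eq_single i] at h1
      · rw [map_smul, LinearMap.smul_apply, hgneg i hi, hqe _ _ (by rw [hσ']; linarith),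
          if_pos rfl, smul_eq_mul, mul_one] at h1
        exact h1
      · intro l _ hl
        rw [map_smul, LinearMap.smul_apply]
        by_cases hl0 : 0 ≤ w l
        · rw [hgpos l hl0, hort l (σ i) (by rw [hσ']; linarith), smul_zero]
        · rw [hgneg l (not_le.mp hl0), hqe _ _ (by rw [hσ']; linarith), if_neg, smul_zero]
          intro h; exact hl (σ.injective h.symm)
      · intro h; exact absurd (Finset.mem_univ _) h
    have hc' : ∑ l, c l • e l = 0 := by
      rw [← hc]
      refine Finset.sum_congr rfl fun l _ => ?_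
      by_cases hl0 : 0 ≤ w l
      · rw [hgpos l hl0]
      · rw [hneg l (not_le.mp hl0), zero_smul, zero_smul]
    exact Fintype.linearIndependent_iff.1 e.linearIndependent c hc'
  let e' : Basis ι k V := basisOfLinearIndependentOfCardEqFinrank' _ hli
    (Module.finrank_eq_card_basis e).symm
  have he' : ∀ i, e' i = g i := fun i => by simp [e']
  have hdm : ∀ i, d i ∈ Fil e w (- w i) := by
    intro i
    rw [h.unique hdual (- w i)]
    exact basis_mem_Fil d _ le_rfl
  have hmem : ∀ i, e' i ∈ Fil e w (w i) := by
    intro i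
    rw [he']
    by_cases hi : 0 ≤ w i
    · rw [hgpos i hi]; exact basis_mem_Fil e w le_rfl
    · rw [hgneg i (not_le.mp hi)]
      apply Submodule.sub_mem
      · have := hdm (σ i)
        rw [hσ', neg_neg] at this; exact this
      · apply Submodule.smul_mem
        apply Submodule.sum_mem
        intro l _
        by_cases hl : 0 < w l
        · apply Submodule.smul_mem
          apply basis_mem_Fil
          have := not_le.mp hi
          linarith
        · rw [if_neg hl, zero_smul]; exact Submodule.zero_mem _
  refine ⟨e', σ, h.congr (Fil_eq_of_mem e e' w hmem), hσ', ?_⟩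
  intro i j hij
  rw [he', he']
  by_cases hi : 0 ≤ w i
  · by_cases hj : 0 ≤ w j
    · rw [hgpos i hi, hgpos j hj]
      apply hort
      exact lt_of_le_of_ne (by linarith) (Ne.symm hij)
    · have hj' := not_le.mp hj
      rw [hgpos i hi, hgneg j hj', hs.eq, hqe _ _ hi, if_neg]
      intro h'
      apply hij
      rw [h', hσ']; ring
  · have hi' := not_le.mp hi
    by_cases hj : 0 ≤ w j
    · rw [hgneg i hi', hgpos j hj, hqe _ _ hj, if_neg]
      intro h'
      apply hij
      rw [h', hσ']; ring
    · have hj' := not_le.mp hj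
      rw [hgneg i hi', hgneg j hj']
      apply hqq
      · rw [hσ']; linarith
      · rw [hσ']; linarith

/-- **Node (K)**, final form. `M` is a family of symmetric endomorphisms which is strictly
triangular with respect to some weighted basis. -/
theorem kempf (M : κ → V →ₗ[k] V) (hgood : ∃ (e : Basis ι k V) (w : ι → ℝ), Good M e w)
    (B : LinearMap.BilinForm k V) (hB : B.Nondegenerate) (hs : B.IsSymm)
    (h2 : (2 : k) ≠ 0) (hM : ∀ s x y, B (M s x) y = B x (M s y)) :
    ∃ (e : Basis ι k V) (w : ι → ℝ) (σ : Equiv.Perm ι),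
      -- the weights are symmetric and the form pairs weight `a` with weight `-a`
      (∀ i, w (σ i) = - w i) ∧ (∀ i j, w i + w j ≠ 0 → B (e i) (e j) = 0) ∧
      -- `M` raises the weights by at least one
      (∀ s i j, e.repr (M s (e i)) j ≠ 0 → w i + 1 ≤ w j) ∧
      -- nothing strictly lowering commutes with the parts of degree one
      (∀ Y : V →ₗ[k] V, (∀ i j, e.repr (Y (e i)) j ≠ 0 → w j < w i) →
        (∀ s v, Y (part e w 1 (M s) v) = part e w 1 (M s) (Y v)) → Y = 0) := by
  obtain ⟨e0, w0, h0⟩ := hgood
  obtain ⟨e1, w, h1⟩ := exists_isMin M e0 w0 h0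
  obtain ⟨e, σ, h, hσ, hort⟩ := h1.exists_selfdual B hB hs h2 hM
  exact ⟨e, w, σ, hσ, hort, good_iff.1 h.1, fun Y hY hc => h.eq_zero_of_commute Y hY hc⟩

end Crest.Agent.R172.Kempf
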