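import Crest.Agent.R172.St1

/-!
Row 172 (S0260), node G1, two-module part, file 1 (helper342): lifting of cocycles between the
cores of two arbitrary modules.

`X`, `Z` finite-dimensional, `a : ι → End X`, `b : ι → End Z`.  `T a` is the largest nilpotent
submodule, `Pinf a = ⋂ A^k X`.  The core is `Pinf / (Pinf ∩ T)`.
-/

set_option autoImplicit false

namespace Crest.Agent.R172.Mix

open Module
open Crest.Agent.R172.St (T Nk mem_T T_stable T_closed mem_Nk_succ mem_Nk_zero Nk_le_T T_eq_Nk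
  Nk_mono Nk_le_succ)

variable {K : Type*} [Field K] {X Z : Type*} [AddCommGroup X] [Module K X]
  [AddCommGroup Z] [Module K Z] {ι : Type*}

/-- `A^k X` -/
def Rg (a : ι → End K X) : ℕ → Submodule K X
  | 0 => ⊤
  | k + 1 => ⨆ s, (Rg a k).map (a s)

theorem Rg_zero (a : ι → End K X) : Rg a 0 = ⊤ := rfl

theorem Rg_succ (a : ι → End K X) (k : ℕ) : Rg a (k + 1) = ⨆ s, (Rg a k).map (a s) := rfl

theorem map_mem_Rg {a : ι → End K X} {k : ℕ} {v : X} (s : ι) (hv : v ∈ Rg a k) :
    a s v ∈ Rg a (k + 1) :=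
  Submodule.mem_iSup_of_mem s ⟨v, hv, rfl⟩

theorem Rg_succ_le (a : ι → End K X) (k : ℕ) : Rg a (k + 1) ≤ Rg a k := by
  induction k with
  | zero => rw [Rg_zero]; exact le_top
  | succ k ih =>
    rw [Rg_succ a (k + 1), Rg_succ a k]
    exact iSup_mono fun s => Submodule.map_mono ih

theorem Rg_anti (a : ι → End K X) : Antitone (Rg a) := antitone_nat_of_succ_le (Rg_succ_le a)

/-- `⋂ A^k X` -/
def Pinf (a : ι → End K X) : Submodule K X := ⨅ k, Rg a k

theorem mem_Pinf {a : ι → End K X} {v : X} : v ∈ Pinf a ↔ ∀ k, v ∈ Rg a k := by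
  simp [Pinf, Submodule.mem_iInf]

theorem Pinf_stable {a : ι → End K X} (s : ι) {v : X} (hv : v ∈ Pinf a) : a s v ∈ Pinf a :=
  mem_Pinf.2 fun k => Rg_succ_le a k (map_mem_Rg s (mem_Pinf.1 hv k))

theorem exists_Pinf_eq [FiniteDimensional K X] (a : ι → End K X) :
    ∃ k, ∀ j, k ≤ j → Rg a j = Pinf a := by
  obtain ⟨k, hk⟩ := monotone_stabilizes_iff_artinian.2 (inferInstance : IsArtinian K X)
    ⟨fun k => OrderDual.toDual (Rg a k), fun i j hij => Rg_anti a hij⟩
  have h1 : ∀ j, k ≤ j → Rg a j = Rg a k := fun j hj =>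
    (OrderDual.toDual.injective (hk j hj)).symm
  refine ⟨k, fun j hj => le_antisymm ?_ (iInf_le _ j)⟩
  rw [h1 j hj]
  refine le_iInf fun i => ?_
  rcases le_total k i with h | h
  · rw [h1 i h]
  · exact Rg_anti a h

theorem Pinf_eq_iSup [FiniteDimensional K X] (a : ι → End K X) :
    ⨆ s, (Pinf a).map (a s) = Pinf a := by
  obtain ⟨k, hk⟩ := exists_Pinf_eq a
  rw [← hk k le_rfl, ← Rg_succ, hk (k + 1) (by omega), hk k le_rfl]

/-- induction principle for `Pinf`: a linear map which intertwines modulo a stable subspace. -/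
theorem map_Pinf_le {a : ι → End K X} {b : ι → End K Z} [FiniteDimensional K X]
    {c : Z →ₗ[K] X} {U : Submodule K X} (hU : ∀ s, ∀ v ∈ U, a s v ∈ U) (hP : Pinf a ≤ U)
    [FiniteDimensional K Z]
    (hc : ∀ s, ∀ z ∈ Pinf b, a s (c z) - c (b s z) ∈ U) : ∀ z ∈ Pinf b, c z ∈ U := by
  obtain ⟨k, hk⟩ := exists_Pinf_eq a
  -- `c (Pinf b) ≤ Rg a j ⊔ U` for all `j`
  have key : ∀ j, ∀ z ∈ Pinf b, c z ∈ Rg a j ⊔ U := by
    intro j
    induction j with
    | zero => intro z _; rw [Rg_zero, top_sup_eq]; trivial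
    | succ j ih =>
      intro z hz
      rw [← Pinf_eq_iSup b] at hz
      have hle : ⨆ s, (Pinf b).map (b s) ≤ (Rg a (j + 1) ⊔ U).comap c := by
        refine iSup_le fun s => ?_
        rintro _ ⟨w, hw, rfl⟩
        rw [Submodule.mem_comap]
        have h1 := hc s w hw
        have h2 := ih w hw
        obtain ⟨p, hp, u, hu, hpu⟩ := Submodule.mem_sup.1 h2
        have h3 : c (b s w) = a s p + (a s u - (a s (c w) - c (b s w))) := by
          rw [← hpu, map_add]; abel
        rw [h3]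
        exact Submodule.add_mem_sup (map_mem_Rg s hp) (U.sub_mem (hU s u hu) h1)
      exact hle hz
  intro z hz
  have := key k z hz
  rw [hk k le_rfl, sup_eq_right.2 hP] at this
  exact this

/-- a linear map which intertwines on nilpotent vectors modulo `T` maps them to `T`. -/
theorem map_T_le {a : ι → End K X} {b : ι → End K Z} [Finite ι] {c : Z →ₗ[K] X}
    {N : Submodule K Z} (hN : ∀ s, ∀ z ∈ N, b s z ∈ N) (hNT : N ≤ T b)
    (hc : ∀ s, ∀ z ∈ N, a s (c z) - c (b s z) ∈ T a) : ∀ z ∈ N, c z ∈ T a := by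
  have key : ∀ k, ∀ z ∈ N, z ∈ Nk b k → c z ∈ T a := by
    intro k
    induction k with
    | zero => intro z _ h; rw [mem_Nk_zero] at h; rw [h, map_zero]; exact Submodule.zero_mem _
    | succ k ih =>
      intro z hz h
      rw [mem_Nk_succ] at h
      refine T_closed fun s => ?_
      have h1 := hc s z hz
      have h2 := ih (b s z) (hN s z hz) (h s)
      have := (T a).add_mem h1 h2
      rwa [sub_add_cancel] at this
  intro z hz
  obtain ⟨k, hk⟩ := mem_T.1 (hNT hz)
  exact key k z hz hk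

section Rank1

variable [FiniteDimensional K X]

/-- the operator `c : Z → X` representing a functional on `Hom (X, Z)`. -/
noncomputable def rep (f : (X →ₗ[K] Z) →ₗ[K] K) : Z →ₗ[K] X :=
  (Module.evalEquiv K X).symm.toLinearMap ∘ₗ
    { toFun := fun z =>
        { toFun := fun l => f (LinearMap.smulRight l z)
          map_add' := by
            intro l l'
            rw [← map_add]
            congr 1
            ext v
            simp [add_smul]
          map_smul' := by
            intro t l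
            rw [RingHom.id_apply, ← map_smul]
            congr 1
            ext v
            simp [mul_smul] }
      map_add' := by
        intro z z'
        ext l
        simp only [LinearMap.coe_mk, AddHom.coe_mk, LinearMap.add_apply]
        rw [← map_add]
        congr 1
        ext v
        simp
      map_smul' := by
        intro t z
        ext l
        simp only [LinearMap.coe_mk, AddHom.coe_mk, LinearMap.smul_apply, RingHom.id_apply]
        rw [← map_smul]
        congr 1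
        ext v
        exact smul_comm _ _ _ }

theorem rep_apply (f : (X →ₗ[K] Z) →ₗ[K] K) (z : Z) (l : Dual K X) :
    l (rep f z) = f (LinearMap.smulRight l z) := by
  unfold rep
  rw [LinearMap.comp_apply]
  exact Module.apply_evalEquiv_symm_apply K X l _

theorem rep_zero [FiniteDimensional K Z] (f : (X →ₗ[K] Z) →ₗ[K] K) {N : Submodule K Z}
    {U : Submodule K X} (hN : ∀ z ∈ N, rep f z ∈ U) {x : X →ₗ[K] Z} (hx : ∀ v, x v ∈ N)
    (hU : ∀ v ∈ U, x v = 0) : f x = 0 := by
  classical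
  let bs := Module.finBasis K N
  let l : Fin (finrank K N) → Dual K X := fun i => bs.coord i ∘ₗ (x.codRestrict N hx)
  have heq : x = ∑ i, LinearMap.smulRight (l i) (bs i : Z) := by
    ext v
    have h1 := bs.sum_repr (x.codRestrict N hx v)
    have h2 := congrArg (fun n : N => (n : Z)) h1
    simp only [Submodule.coe_sum, Submodule.coe_smul, LinearMap.codRestrict_apply] at h2
    rw [LinearMap.sum_apply]
    simp only [LinearMap.smulRight_apply]
    exact h2.symm
  rw [heq, map_sum]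
  refine Finset.sum_eq_zero fun i _ => ?_
  rw [← rep_apply]
  have h3 := hN _ (bs i).2
  show bs.coord i (x.codRestrict N hx (rep f (bs i))) = 0
  have h4 : x.codRestrict N hx (rep f (bs i)) = 0 := Subtype.ext (hU _ h3)
  rw [h4, map_zero]

end Rank1

/-- the correction space -/
def Wc (a : ι → End K X) (b : ι → End K Z) : Submodule K (X →ₗ[K] Z) where
  carrier := {x | (∀ v ∈ T a, x v = 0) ∧ (∀ v, x v ∈ Pinf b) ∧ ∀ v ∈ Pinf a, x v ∈ T b}
  add_mem' := by
    rintro x y ⟨h1, h2, h3⟩ ⟨h1', h2', h3'⟩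
    refine ⟨fun v hv => ?_, fun v => ?_, fun v hv => ?_⟩
    · rw [LinearMap.add_apply, h1 v hv, h1' v hv, add_zero]
    · exact (Pinf b).add_mem (h2 v) (h2' v)
    · exact (T b).add_mem (h3 v hv) (h3' v hv)
  zero_mem' := ⟨fun _ _ => rfl, fun _ => (Pinf b).zero_mem, fun _ _ => (T b).zero_mem⟩
  smul_mem' := by
    rintro t x ⟨h1, h2, h3⟩
    refine ⟨fun v hv => ?_, fun v => ?_, fun v hv => ?_⟩
    · rw [LinearMap.smul_apply, h1 v hv, smul_zero]
    · exact (Pinf b).smul_mem _ (h2 v)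
    · exact (T b).smul_mem _ (h3 v hv)

theorem mem_Wc {a : ι → End K X} {b : ι → End K Z} {x : X →ₗ[K] Z} :
    x ∈ Wc a b ↔ (∀ v ∈ T a, x v = 0) ∧ (∀ v, x v ∈ Pinf b) ∧ ∀ v ∈ Pinf a, x v ∈ T b := Iff.rfl

/-- the correction equation is solvable. -/
theorem exists_solve [FiniteDimensional K X] [FiniteDimensional K Z] [Fintype ι]
    {a : ι → End K X} {b : ι → End K Z} {e : X →ₗ[K] Z} (he : e ∈ Wc a b) :
    ∃ x : ι → (X →ₗ[K] Z), (∀ s, x s ∈ Wc a b) ∧ ∑ s, (x s ∘ₗ a s - b s ∘ₗ x s) = e := by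
  classical
  let Ψ : (ι → (X →ₗ[K] Z)) →ₗ[K] (X →ₗ[K] Z) :=
    { toFun := fun x => ∑ s, (x s ∘ₗ a s - b s ∘ₗ x s)
      map_add' := by
        intro x y
        rw [← Finset.sum_add_distrib]
        refine Finset.sum_congr rfl (fun s _ => ?_)
        rw [Pi.add_apply, LinearMap.add_comp, LinearMap.comp_add]
        abel
      map_smul' := by
        intro c x
        rw [RingHom.id_apply, Finset.smul_sum]
        refine Finset.sum_congr rfl (fun s _ => ?_)
        rw [Pi.smul_apply, LinearMap.smul_comp, LinearMap.comp_smul, smul_sub] }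
  set W : Submodule K (X →ₗ[K] Z) := (Submodule.pi Set.univ fun _ : ι => Wc a b).map Ψ with hW
  by_cases hmem : e ∈ W
  · obtain ⟨x, hx, hxe⟩ := hmem
    exact ⟨x, fun s => (Submodule.mem_pi.1 hx) s (Set.mem_univ s), hxe⟩
  exfalso
  obtain ⟨f, hfe, hfW⟩ := Submodule.exists_dual_map_eq_bot_of_notMem hmem inferInstance
  have hf0 : ∀ Y ∈ W, f Y = 0 := by
    intro Y hY
    have : f Y ∈ W.map f := ⟨Y, hY, rfl⟩
    rw [hfW] at this
    exact (Submodule.mem_bot K).1 this
  apply hfe
  have hfs : ∀ s, ∀ x ∈ Wc a b, f (x ∘ₗ a s) = f (b s ∘ₗ x) := by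
    intro s x hx
    have hmemW : x ∘ₗ a s - b s ∘ₗ x ∈ W := by
      refine ⟨Pi.single s x, ?_, ?_⟩
      · rw [SetLike.mem_coe, Submodule.mem_pi]
        intro i _
        by_cases hi : i = s
        · subst hi
          rw [Pi.single_eq_same]
          exact hx
        · rw [Pi.single_eq_of_ne hi]
          exact Submodule.zero_mem _
      · show ∑ i, _ = _
        rw [Finset.sum_eq_single s]
        · rw [Pi.single_eq_same]
        · intro i _ hi
          rw [Pi.single_eq_of_ne hi]; simp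
        · intro h; exact absurd (Finset.mem_univ s) h
    have h0 := hf0 _ hmemW
    rwa [map_sub, sub_eq_zero] at h0
  have hcomm : ∀ s, ∀ (l : Dual K X) (z : Z), LinearMap.smulRight l z ∈ Wc a b →
      l (a s (rep f z) - rep f (b s z)) = 0 := by
    intro s l z h
    have h1 := hfs s _ h
    rw [map_sub, rep_apply]
    have h2 : l (a s (rep f z)) = (l ∘ₗ a s) (rep f z) := rfl
    rw [h2, rep_apply]
    have h3 : LinearMap.smulRight (l ∘ₗ a s) z = LinearMap.smulRight l z ∘ₗ a s := by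
      ext v; simp
    have h4 : LinearMap.smulRight l (b s z) = b s ∘ₗ LinearMap.smulRight l z := by
      ext v; simp
    rw [h3, h4, h1, sub_self]
  -- (i) on the nilpotent part
  have hN : ∀ z ∈ Pinf b ⊓ T b, rep f z ∈ T a := by
    refine map_T_le (a := a) (b := b) (c := rep f) (N := Pinf b ⊓ T b)
      (fun s z hz => ⟨Pinf_stable s hz.1, T_stable s hz.2⟩) inf_le_right ?_
    intro s z hz
    rw [← Subspace.forall_mem_dualAnnihilator_apply_eq_zero_iff]
    intro l hl
    rw [Submodule.mem_dualAnnihilator] at hl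
    refine hcomm s l z ⟨fun v hv => ?_, fun v => ?_, fun v _ => ?_⟩
    · rw [LinearMap.smulRight_apply, hl v hv, zero_smul]
    · exact (Pinf b).smul_mem _ hz.1
    · exact (T b).smul_mem _ hz.2
  -- (ii) on `Pinf b`
  have hP : ∀ z ∈ Pinf b, rep f z ∈ T a ⊔ Pinf a := by
    refine map_Pinf_le (a := a) (b := b) (c := rep f) (U := T a ⊔ Pinf a) ?_ le_sup_right ?_
    · intro s v hv
      obtain ⟨t, ht, p, hp, rfl⟩ := Submodule.mem_sup.1 hv
      rw [map_add]
      exact Submodule.add_mem_sup (T_stable s ht) (Pinf_stable s hp)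
    · intro s z hz
      rw [← Subspace.forall_mem_dualAnnihilator_apply_eq_zero_iff]
      intro l hl
      rw [Submodule.mem_dualAnnihilator] at hl
      refine hcomm s l z ⟨fun v hv => ?_, fun v => ?_, fun v hv => ?_⟩
      · rw [LinearMap.smulRight_apply, hl v (Submodule.mem_sup_left hv), zero_smul]
      · exact (Pinf b).smul_mem _ hz
      · rw [LinearMap.smulRight_apply, hl v (Submodule.mem_sup_right hv), zero_smul]
        exact (T b).zero_mem
  -- split `e`
  obtain ⟨C, hC⟩ := Submodule.exists_isCompl (T a ⊔ Pinf a)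
  set π : X →ₗ[K] X := (T a ⊔ Pinf a).subtype ∘ₗ Submodule.projectionOnto _ C hC with hπ
  have hπ1 : ∀ v ∈ T a ⊔ Pinf a, π v = v := by
    intro v hv
    have := Submodule.projectionOnto_apply_left hC ⟨v, hv⟩
    show ((Submodule.projectionOnto _ C hC v : (T a ⊔ Pinf a : Submodule K X)) : X) = v
    rw [this]
  have hπ2 : ∀ v, π v ∈ T a ⊔ Pinf a := fun v => Subtype.coe_prop _
  have hsplit : e = e ∘ₗ π + (e - e ∘ₗ π) := by abel
  rw [hsplit, map_add]
  have e1 : f (e ∘ₗ π) = 0 := by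
    refine rep_zero f (N := Pinf b ⊓ T b) (U := T a) hN ?_ ?_
    · intro v
      obtain ⟨t, ht, p, hp, htp⟩ := Submodule.mem_sup.1 (hπ2 v)
      rw [LinearMap.comp_apply, ← htp, map_add, he.1 t ht, zero_add]
      exact ⟨he.2.1 p, he.2.2 p hp⟩
    · intro v hv
      rw [LinearMap.comp_apply, hπ1 v (Submodule.mem_sup_left hv), he.1 v hv]
  have e2 : f (e - e ∘ₗ π) = 0 := by
    refine rep_zero f (N := Pinf b) (U := T a ⊔ Pinf a) hP ?_ ?_
    · intro v
      exact (Pinf b).sub_mem (he.2.1 v) (he.2.1 _)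
    · intro v hv
      rw [LinearMap.sub_apply, LinearMap.comp_apply, hπ1 v hv, sub_self]
  rw [e1, e2, add_zero]

/-- **LIFT**: a cocycle between the cores lifts exactly. -/
theorem lift_mix [FiniteDimensional K X] [FiniteDimensional K Z] [Fintype ι]
    {a : ι → End K X} {b : ι → End K Z} (x : ι → (X →ₗ[K] Z))
    (hP : ∀ s, ∀ v ∈ Pinf a, x s v ∈ Pinf b)
    (hT : ∀ s, ∀ v ∈ Pinf a, v ∈ T a → x s v ∈ T b)
    (hx : ∀ v ∈ Pinf a, ∑ s, (x s (a s v) - b s (x s v)) ∈ T b) :
    ∃ xi : ι → (X →ₗ[K] Z), (∀ s v, xi s v ∈ Pinf b) ∧ (∀ s, ∀ v ∈ T a, xi s v = 0) ∧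
      (∑ s, (xi s ∘ₗ a s - b s ∘ₗ xi s) = 0) ∧ ∀ s, ∀ v ∈ Pinf a, xi s v - x s v ∈ T b := by
  classical
  -- complement of `T a ⊓ Pinf a` in `Pinf a`, and projection
  obtain ⟨M', hM'⟩ := Submodule.exists_isCompl ((T a ⊓ Pinf a).comap (Pinf a).subtype)
  set M : Submodule K X := M'.map (Pinf a).subtype with hM
  have hMP : M ≤ Pinf a := by
    rintro _ ⟨m, _, rfl⟩
    exact m.2
  have hdec : ∀ v ∈ Pinf a, ∃ t ∈ T a ⊓ Pinf a, ∃ m ∈ M, t + m = v := by
    intro v hv
    have : (⟨v, hv⟩ : Pinf a) ∈ (⊤ : Submodule K (Pinf a)) := trivial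
    rw [← hM'.sup_eq_top] at this
    obtain ⟨t, ht, m, hm, htm⟩ := Submodule.mem_sup.1 this
    exact ⟨t, ht, m, ⟨m, hm, rfl⟩, congrArg Subtype.val htm⟩
  have hMT : Disjoint M (T a) := by
    rw [Submodule.disjoint_def]
    rintro _ ⟨m, hm, rfl⟩ hmT
    have h1 : m ∈ (T a ⊓ Pinf a).comap (Pinf a).subtype := ⟨hmT, m.2⟩
    have h2 : m ∈ ((T a ⊓ Pinf a).comap (Pinf a).subtype) ⊓ M' := ⟨h1, hm⟩
    rw [hM'.inf_eq_bot, Submodule.mem_bot] at h2
    rw [h2]; simp
  -- a projection onto `M` killing `T a`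
  obtain ⟨C, hCT, hCM⟩ : ∃ C : Submodule K X, T a ≤ C ∧ IsCompl M C := by
    obtain ⟨C, hC1, hC2⟩ := hMT.symm.exists_isCompl
    exact ⟨C, hC1, hC2.symm⟩
  set π : X →ₗ[K] X := M.subtype ∘ₗ Submodule.projectionOnto M C hCM with hπ
  have hπM : ∀ m ∈ M, π m = m := by
    intro m hm
    have := Submodule.projectionOnto_apply_left hCM ⟨m, hm⟩
    show ((Submodule.projectionOnto M C hCM m : M) : X) = m
    rw [this]
  have hπT : ∀ t ∈ T a, π t = 0 := by
    intro t ht
    show ((Submodule.projectionOnto M C hCM t : M) : X) = 0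
    rw [(Submodule.projectionOnto_apply_eq_zero_iff hCM).2 (hCT ht)]
    rfl
  have hπm : ∀ v, π v ∈ M := fun v => Subtype.coe_prop _
  set x0 : ι → (X →ₗ[K] Z) := fun s => x s ∘ₗ π with hx0
  have h01 : ∀ s v, x0 s v ∈ Pinf b := fun s v => hP s _ (hMP (hπm v))
  have h02 : ∀ s, ∀ v ∈ T a, x0 s v = 0 := by
    intro s v hv
    show x s (π v) = 0
    rw [hπT v hv, map_zero]
  have h03 : ∀ s, ∀ v ∈ Pinf a, x0 s v - x s v ∈ T b := by
    intro s v hv
    obtain ⟨t, ht, m, hm, rfl⟩ := hdec v hv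
    show x s (π (t + m)) - x s (t + m) ∈ T b
    rw [map_add π, hπT t ht.1, hπM m hm, zero_add, map_add (x s), sub_add_cancel_right]
    exact (T b).neg_mem (hT s t ht.2 ht.1)
  set e : X →ₗ[K] Z := ∑ s, (x0 s ∘ₗ a s - b s ∘ₗ x0 s) with he
  have hev : ∀ v, e v = ∑ s, (x0 s (a s v) - b s (x0 s v)) := by
    intro v
    rw [he, LinearMap.sum_apply]
    rfl
  have heW : e ∈ Wc a b := by
    refine ⟨fun v hv => ?_, fun v => ?_, fun v hv => ?_⟩
    · rw [hev]
      refine Finset.sum_eq_zero fun s _ => ?_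
      rw [h02 s _ (T_stable s hv), h02 s v hv, map_zero, sub_zero]
    · rw [hev]
      exact (Pinf b).sum_mem fun s _ => (Pinf b).sub_mem (h01 s _) (Pinf_stable s (h01 s v))
    · rw [hev]
      have h1 : ∑ s, (x0 s (a s v) - b s (x0 s v)) = ∑ s, (x s (a s v) - b s (x s v))
          + ∑ s, ((x0 s (a s v) - x s (a s v)) - b s (x0 s v - x s v)) := by
        rw [← Finset.sum_add_distrib]
        refine Finset.sum_congr rfl fun s _ => ?_
        rw [map_sub]; abel
      rw [h1]
      refine (T b).add_mem (hx v hv) ((T b).sum_mem fun s _ => (T b).sub_mem ?_ ?_)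
      · exact h03 s _ (Pinf_stable s hv)
      · exact T_stable s (h03 s v hv)
  obtain ⟨y, hy, hye⟩ := exists_solve heW
  refine ⟨fun s => x0 s - y s, fun s v => ?_, fun s v hv => ?_, ?_, fun s v hv => ?_⟩
  · exact (Pinf b).sub_mem (h01 s v) ((hy s).2.1 v)
  · rw [LinearMap.sub_apply, h02 s v hv, (hy s).1 v hv, sub_zero]
  · have h1 : ∑ s, ((x0 s - y s) ∘ₗ a s - b s ∘ₗ (x0 s - y s)) = e
        - ∑ s, (y s ∘ₗ a s - b s ∘ₗ y s) := by
      rw [he, ← Finset.sum_sub_distrib]
      refine Finset.sum_congr rfl fun s _ => ?_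
      rw [LinearMap.sub_comp, LinearMap.comp_sub]
      abel
    rw [h1, hye, sub_self]
  · have h1 : (x0 s - y s) v - x s v = (x0 s v - x s v) - y s v := by
      rw [LinearMap.sub_apply]; abel
    rw [h1]
    exact (T b).sub_mem (h03 s v hv) ((hy s).2.2 v hv)

end Crest.Agent.R172.Mix
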