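import Crest.Agent.R172.Mix1
import Crest.Agent.R172.Core2

/-!
Row 172 (S0260), node G1, two-module part, file 2 (helper342): the core as a module, its
properties, and the alternative for two cores with `H^1 = 0` (one direction is enough).
-/

set_option autoImplicit false

namespace Crest.Agent.R172.Mix

open Module
open Crest.Agent.R172.St (T Nk mem_T T_stable T_closed mem_Nk_succ mem_Nk_zero Nk_le_T T_eq_Nk
  Nk_mono Nk_le_succ)
open Crest.Agent.R172.Core (Inter InterAll mem_Inter rk nn pair_lemma rk_zero nn_zero nn_const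
  nn_zero_pos pow_eq_zero_of_pair free_aux rk_eq_zero_iff rk_antitone nn_nonneg)

variable {K : Type*} [Field K] {X Z : Type*} [AddCommGroup X] [Module K X]
  [AddCommGroup Z] [Module K Z] {ι : Type*}

/-- `T ∩ Pinf` inside `Pinf` -/
def TP (a : ι → End K X) : Submodule K (Pinf a) := (T a).comap (Pinf a).subtype

theorem mem_TP {a : ι → End K X} {p : Pinf a} : p ∈ TP a ↔ (p : X) ∈ T a := Iff.rfl

/-- **the core** `Pinf / (Pinf ∩ T)` -/
abbrev Cor (a : ι → End K X) : Type _ := (Pinf a) ⧸ (TP a)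

/-- a map respecting `Pinf` and `T` induces a map of cores -/
def Cmap (a : ι → End K X) (b : ι → End K Z) (c : X →ₗ[K] Z) (h1 : ∀ v ∈ Pinf a, c v ∈ Pinf b)
    (h2 : ∀ v ∈ Pinf a, v ∈ T a → c v ∈ T b) : Cor a →ₗ[K] Cor b :=
  Submodule.mapQ (TP a) (TP b) (c.restrict h1) (fun p hp => h2 p p.2 hp)

theorem Cmap_mk {a : ι → End K X} {b : ι → End K Z} {c : X →ₗ[K] Z}
    {h1 : ∀ v ∈ Pinf a, c v ∈ Pinf b} {h2 : ∀ v ∈ Pinf a, v ∈ T a → c v ∈ T b} (p : Pinf a) :
    Cmap a b c h1 h2 (Submodule.Quotient.mk p) = Submodule.Quotient.mk ⟨c p, h1 p p.2⟩ := rfl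

/-- the induced operators on the core -/
def ac (a : ι → End K X) (s : ι) : End K (Cor a) :=
  Cmap a a (a s) (fun _ hv => Pinf_stable s hv) (fun _ _ hv => T_stable s hv)

theorem ac_mk {a : ι → End K X} (s : ι) (p : Pinf a) :
    ac a s (Submodule.Quotient.mk p) = Submodule.Quotient.mk ⟨a s p, Pinf_stable s p.2⟩ := rfl

theorem mk_eq_zero {a : ι → End K X} {p : Pinf a} :
    (Submodule.Quotient.mk p : Cor a) = 0 ↔ (p : X) ∈ T a := by
  rw [Submodule.Quotient.mk_eq_zero]; rfl

theorem ac_ker [Finite ι] {a : ι → End K X} (v : Cor a) (h : ∀ s, ac a s v = 0) : v = 0 := by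
  induction v using Submodule.Quotient.induction_on with
  | _ p =>
    rw [mk_eq_zero]
    refine T_closed fun s => ?_
    have := h s
    rw [ac_mk, mk_eq_zero] at this
    exact this

theorem ac_range [FiniteDimensional K X] (a : ι → End K X) :
    ⨆ s, LinearMap.range (ac a s) = ⊤ := by
  rw [eq_top_iff]
  rintro v -
  induction v using Submodule.Quotient.induction_on with
  | _ p =>
    have hle : ∀ q (hq : q ∈ ⨆ s, (Pinf a).map (a s)), ∃ hq' : q ∈ Pinf a,
        (Submodule.Quotient.mk (⟨q, hq'⟩ : Pinf a) : Cor a) ∈ ⨆ s, LinearMap.range (ac a s) := by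
      intro q hq
      induction hq using Submodule.iSup_induction' with
      | mem s x hx =>
        obtain ⟨w, hw, rfl⟩ := hx
        exact ⟨Pinf_stable s hw, Submodule.mem_iSup_of_mem s ⟨Submodule.Quotient.mk ⟨w, hw⟩, rfl⟩⟩
      | zero => exact ⟨(Pinf a).zero_mem, Submodule.zero_mem _⟩
      | add x y _ _ hx hy =>
        obtain ⟨hx1, hx2⟩ := hx
        obtain ⟨hy1, hy2⟩ := hy
        exact ⟨(Pinf a).add_mem hx1 hy1, Submodule.add_mem _ hx2 hy2⟩
    obtain ⟨hq', h⟩ := hle p (by rw [Pinf_eq_iSup]; exact p.2)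
    exact h

theorem ac_sum [Fintype ι] {a : ι → End K X} (h : ∀ v, ∑ s, a s v = 0) (v : Cor a) :
    ∑ s, ac a s v = 0 := by
  induction v using Submodule.Quotient.induction_on with
  | _ p =>
    have h1 : ∑ s, ac a s (Submodule.Quotient.mk p)
        = (Submodule.Quotient.mk (∑ s, (⟨a s p, Pinf_stable s p.2⟩ : Pinf a)) : Cor a) := by
      have h2 : (Submodule.Quotient.mk (∑ s, (⟨a s p, Pinf_stable s p.2⟩ : Pinf a)) : Cor a)
          = (TP a).mkQ (∑ s, (⟨a s p, Pinf_stable s p.2⟩ : Pinf a)) := rfl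
      rw [h2, map_sum]
      rfl
    rw [h1]
    have h3 : ∑ s, (⟨a s p, Pinf_stable s p.2⟩ : Pinf a) = 0 := by
      apply Subtype.ext
      rw [Submodule.coe_sum]
      exact h p
    rw [h3]; rfl

theorem ac_pow {a : ι → End K X} (s : ι) (k : ℕ) (p : Pinf a) :
    ∃ h : (a s ^ k) p ∈ Pinf a,
      (ac a s ^ k) (Submodule.Quotient.mk p) = Submodule.Quotient.mk ⟨(a s ^ k) p, h⟩ := by
  induction k with
  | zero => exact ⟨p.2, rfl⟩
  | succ k ih =>
    obtain ⟨h, he⟩ := ih
    refine ⟨by rw [pow_succ', Module.End.mul_apply]; exact Pinf_stable s h, ?_⟩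
    rw [pow_succ', Module.End.mul_apply, he, ac_mk]
    congr 1
    apply Subtype.ext
    show a s ((a s ^ k) p) = (a s ^ (k + 1)) p
    rw [pow_succ', Module.End.mul_apply]

theorem ac_nil {a : ι → End K X} {s : ι} {k : ℕ} (h : a s ^ k = 0) : ac a s ^ k = 0 := by
  apply LinearMap.ext
  intro v
  induction v using Submodule.Quotient.induction_on with
  | _ p =>
    obtain ⟨h1, h2⟩ := ac_pow (a := a) s k p
    rw [h2, LinearMap.zero_apply, mk_eq_zero]
    show (a s ^ k) p ∈ T a
    rw [h]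
    exact Submodule.zero_mem _

/-- the core vanishes iff everything is nilpotent -/
theorem T_eq_top_of_core [FiniteDimensional K X] [Finite ι] {a : ι → End K X}
    (h : finrank K (Cor a) = 0) : T a = ⊤ := by
  have h1 : Pinf a ≤ T a := by
    intro p hp
    have : Subsingleton (Cor a) := Module.finrank_zero_iff.1 h
    exact mk_eq_zero.1 (Subsingleton.elim (Submodule.Quotient.mk ⟨p, hp⟩ : Cor a) 0)
  obtain ⟨k, hk⟩ := exists_Pinf_eq a
  have key : ∀ j, Rg a j ≤ T a → T a = ⊤ := by
    intro j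
    induction j with
    | zero => intro h; rw [Rg_zero] at h; exact eq_top_iff.2 h
    | succ j ih =>
      intro h
      refine ih fun v hv => T_closed fun s => h (map_mem_Rg s hv)
  exact key k (by rw [hk k le_rfl]; exact h1)

theorem core_of_T_eq_top {a : ι → End K X} (h : T a = ⊤) : finrank K (Cor a) = 0 := by
  have : Subsingleton (Cor a) := by
    refine ⟨fun x y => ?_⟩
    rw [← sub_eq_zero]
    generalize x - y = z
    induction z using Submodule.Quotient.induction_on with
    | _ p => rw [mk_eq_zero, h]; trivial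
  exact Module.finrank_zero_of_subsingleton

/-- `T = ⊤` iff the algebra is nilpotent, in terms of words. -/
theorem T_eq_top_iff [FiniteDimensional K X] {a : ι → End K X} :
    T a = ⊤ ↔ ∃ m, ∀ l : List ι, l.length = m → (l.map a).prod = 0 := by
  have hN : ∀ (m : ℕ) (v : X), v ∈ Nk a m ↔ ∀ l : List ι, l.length = m → (l.map a).prod v = 0 := by
    intro m
    induction m with
    | zero =>
      intro v
      rw [mem_Nk_zero]
      constructor
      · rintro rfl l _; rw [map_zero]
      · intro h; exact h [] rfl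
    | succ m ih =>
      intro v
      rw [mem_Nk_succ]
      constructor
      · intro h l hl
        obtain ⟨l', s, rfl⟩ : ∃ l' s, l = l' ++ [s] := by
          rcases List.eq_nil_or_concat l with h0 | ⟨l', s, h0⟩
          · rw [h0] at hl; simp at hl
          · exact ⟨l', s, by rw [h0, List.concat_eq_append]⟩
        rw [List.map_append, List.prod_append]
        simp only [List.map_cons, List.map_nil, List.prod_cons, List.prod_nil, mul_one]
        rw [Module.End.mul_apply]
        refine (ih _).1 (h s) l' ?_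
        simpa using hl
      · intro h s
        rw [ih]
        intro l hl
        have := h (l ++ [s]) (by simp [hl])
        rw [List.map_append, List.prod_append] at this
        simpa using this
  constructor
  · intro h
    obtain ⟨k, hk⟩ := T_eq_Nk a
    refine ⟨k, fun l hl => LinearMap.ext fun v => ?_⟩
    have : v ∈ Nk a k := by rw [← hk, h]; trivial
    exact (hN k v).1 this l hl
  · rintro ⟨m, hm⟩
    rw [eq_top_iff]
    intro v _
    exact Nk_le_T a m ((hN m v).2 fun l hl => by rw [hm l hl]; rfl)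

/-- `∑ rk ≥ 2 dim` for a core. -/
theorem two_le_rk {P : Type*} [AddCommGroup P] [Module K P] [FiniteDimensional K P] [Fintype ι]
    {α : ι → End K P} (hsum : ∀ v, ∑ s, α s v = 0) (hker : ∀ v, (∀ s, α s v = 0) → v = 0)
    (htop : ⨆ s, LinearMap.range (α s) = ⊤) :
    2 * (finrank K P : ℤ) ≤ ∑ s, (rk (α s) 1 : ℤ) := by
  classical
  let f : P →ₗ[K] (∀ s, LinearMap.range (α s)) := LinearMap.pi (fun s => (α s).rangeRestrict)
  let g : (∀ s, LinearMap.range (α s)) →ₗ[K] P :=
    ∑ s, (LinearMap.range (α s)).subtype ∘ₗ LinearMap.proj s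
  have hg : ∀ z, g z = ∑ s, ((z s : LinearMap.range (α s)) : P) := by
    intro z
    simp [g, LinearMap.sum_apply]
  have hf : Function.Injective f := by
    rw [injective_iff_map_eq_zero]
    intro v hv
    apply hker
    intro s
    exact congrArg Subtype.val (congrFun hv s)
  have hgf : ∀ v, g (f v) = 0 := by
    intro v
    rw [hg]
    exact hsum v
  have hgs : LinearMap.range g = ⊤ := by
    rw [eq_top_iff, ← htop]
    refine iSup_le fun s => ?_
    rintro _ ⟨v, rfl⟩
    refine ⟨Pi.single s ⟨α s v, v, rfl⟩, ?_⟩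
    rw [hg, Finset.sum_eq_single s]
    · rw [Pi.single_eq_same]
    · intro i _ hi
      rw [Pi.single_eq_of_ne hi]; rfl
    · intro h; exact absurd (Finset.mem_univ s) h
  have h1 := LinearMap.finrank_range_add_finrank_ker g
  have h2 : finrank K (LinearMap.range f) ≤ finrank K (LinearMap.ker g) := by
    apply Submodule.finrank_mono
    rintro _ ⟨v, rfl⟩
    exact hgf v
  rw [LinearMap.finrank_range_of_inj hf] at h2
  rw [hgs, finrank_top, Module.finrank_pi_fintype] at h1
  have h3 : ∀ s, rk (α s) 1 = finrank K (LinearMap.range (α s)) := by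
    intro s
    unfold rk
    rw [pow_one]
  simp only [h3]
  have h4 : (finrank K P + finrank K P : ℤ) ≤ (∑ s, finrank K (LinearMap.range (α s)) : ℕ) := by
    rw [← h1]
    push_cast
    have : (finrank K P : ℤ) ≤ finrank K (LinearMap.ker g) := by exact_mod_cast h2
    linarith
  push_cast at h4
  linarith

section Alt

variable {P Q : Type*} [AddCommGroup P] [Module K P] [FiniteDimensional K P]
    [AddCommGroup Q] [Module K Q] [FiniteDimensional K Q] [Fintype ι]

/-- **ALT**: two non-zero cores with `H^1(P, Q) = 0` (one direction): both are free over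
`K[Φ_s]/(Φ_s^{l_s})` with the same `l_s` and `∑ (1 - 1/l_s) = 2`. -/
theorem alt (α : ι → End K P) (β : ι → End K Q)
    (hα : ∀ s, ∃ k, α s ^ k = 0) (hβ : ∀ s, ∃ k, β s ^ k = 0)
    (hsα : ∀ v, ∑ s, α s v = 0) (hsβ : ∀ v, ∑ s, β s v = 0)
    (hkα : ∀ v, (∀ s, α s v = 0) → v = 0) (hkβ : ∀ v, (∀ s, β s v = 0) → v = 0)
    (htα : ⨆ s, LinearMap.range (α s) = ⊤) (htβ : ⨆ s, LinearMap.range (β s) = ⊤)
    (H1 : ∀ x : ι → (P →ₗ[K] Q), ∑ s, (x s ∘ₗ α s - β s ∘ₗ x s) = 0 →
      ∃ y : P →ₗ[K] Q, ∀ s, x s - y ∈ Inter (α s) (β s))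
    (hP : 0 < finrank K P) (hQ : 0 < finrank K Q) :
    InterAll α β = ⊥ ∧ ∃ l : ι → ℕ, (∀ s, 1 ≤ l s) ∧
      (∀ s j, α s ^ j = 0 ↔ l s ≤ j) ∧ (∀ s j, β s ^ j = 0 ↔ l s ≤ j) ∧
      (∀ s, l s * finrank K (LinearMap.ker (α s)) = finrank K P) ∧
      (∀ s, l s * finrank K (LinearMap.ker (β s)) = finrank K Q) ∧
      ∑ s, (1 - 1 / (l s : ℚ)) = 2 := by
  classical
  -- a common exponent
  choose kα hkα' using hα
  choose kβ hkβ' using hβ
  obtain ⟨k, hk1, hk2⟩ : ∃ k, (∀ s, α s ^ k = 0) ∧ ∀ s, β s ^ k = 0 := by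
    refine ⟨Finset.univ.sup kα + Finset.univ.sup kβ, fun s => ?_, fun s => ?_⟩
    · have h1 : kα s ≤ Finset.univ.sup kα := Finset.le_sup (Finset.mem_univ s)
      exact pow_eq_zero_of_le (by omega) (hkα' s)
    · have h1 : kβ s ≤ Finset.univ.sup kβ := Finset.le_sup (Finset.mem_univ s)
      exact pow_eq_zero_of_le (by omega) (hkβ' s)
  obtain ⟨hI, hrk, hn⟩ := pair_lemma α β k hk1 hk2 H1 (two_le_rk hsα hkα htα)
  have hrkα := hrk hQ
  have hrkβ := two_le_rk hsβ hkβ htβ
  -- index of `β s`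
  have hex : ∀ s, ∃ j, β s ^ j = 0 := fun s => ⟨k, hk2 s⟩
  set l : ι → ℕ := fun s => Nat.find (hex s) with hl
  have hl0 : ∀ s, β s ^ (l s) = 0 := fun s => Nat.find_spec (hex s)
  have hl1 : ∀ s, 1 ≤ l s := by
    intro s
    rw [Nat.one_le_iff_ne_zero]
    intro h
    have h0 : β s ^ 0 = 0 := by
      have := hl0 s
      rwa [h] at this
    have : Nontrivial Q := Module.nontrivial_of_finrank_pos hQ
    obtain ⟨v, hv⟩ := exists_ne (0 : Q)
    apply hv
    have := LinearMap.congr_fun h0 v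
    simpa using this
  have hlmin : ∀ s j, j < l s → β s ^ j ≠ 0 := fun s j hj => Nat.find_min (hex s) hj
  have hlβ : ∀ s j, β s ^ j = 0 ↔ l s ≤ j := by
    intro s j
    constructor
    · intro h; exact Nat.find_min' (hex s) h
    · intro h; exact pow_eq_zero_of_le h (hl0 s)
  -- `n_j(α_s) = n_0(α_s)` for `j < l s`
  have hnα : ∀ s j, j < l s → nn (α s) j = nn (α s) 0 := fun s j hj =>
    nn_const (hn s) j (hlmin s j hj)
  have hfa : ∀ s, (rk (α s) (l s) : ℤ) = finrank K P - l s * nn (α s) 0 := fun s =>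
    free_aux (l s) (hnα s) (l s) le_rfl
  have hn0 : ∀ s, nn (α s) 0 = (finrank K P : ℤ) - rk (α s) 1 := by
    intro s; unfold nn; rw [rk_zero]
  have hm0 : ∀ s, nn (β s) 0 = (finrank K Q : ℤ) - rk (β s) 1 := by
    intro s; unfold nn; rw [rk_zero]
  -- `l_s n_0(α_s) ≤ dim P`
  have hle1 : ∀ s, (l s : ℤ) * nn (α s) 0 ≤ finrank K P := by
    intro s
    have := hfa s
    have h2 : (0 : ℤ) ≤ rk (α s) (l s) := by positivity
    linarith
  -- `dim Q ≤ l_s n_0(β_s)`
  have hmono : ∀ s i, nn (β s) i ≤ nn (β s) 0 := by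
    intro s i
    induction i with
    | zero => exact le_rfl
    | succ i ih => exact (Crest.Agent.R172.Core.nn_succ_le (β s) i).trans ih
  have hle2' : ∀ s (j : ℕ), (finrank K Q : ℤ) - rk (β s) j ≤ j * nn (β s) 0 := by
    intro s j
    induction j with
    | zero => simp [rk_zero]
    | succ j ih =>
      have h1 := hmono s j
      have h2 : nn (β s) j = (rk (β s) j : ℤ) - rk (β s) (j + 1) := rfl
      push_cast
      linarith
  have hle2 : ∀ s, (finrank K Q : ℤ) ≤ (l s : ℤ) * nn (β s) 0 := by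
    intro s
    have h1 := hle2' s (l s)
    rw [(rk_eq_zero_iff (β s) _).2 (hl0 s)] at h1
    simpa using h1
  -- rational versions
  have hlq : ∀ s, (0 : ℚ) < l s := fun s => by exact_mod_cast hl1 s
  have hPq : (0 : ℚ) < finrank K P := by exact_mod_cast hP
  have hQq : (0 : ℚ) < finrank K Q := by exact_mod_cast hQ
  have hA : ∑ s, (nn (α s) 0 : ℚ) = ((Fintype.card ι : ℚ) - 2) * finrank K P := by
    have h1 : ∑ s, nn (α s) 0 = (Fintype.card ι : ℤ) * finrank K P - 2 * finrank K P := by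
      simp only [hn0]
      rw [Finset.sum_sub_distrib, hrkα]
      simp
    have h2 : ((∑ s, nn (α s) 0 : ℤ) : ℚ) = ((Fintype.card ι : ℤ) * finrank K P
      - 2 * finrank K P : ℤ) := by rw [h1]
    push_cast at h2
    rw [h2]; ring
  have hB : ∑ s, (nn (β s) 0 : ℚ) ≤ ((Fintype.card ι : ℚ) - 2) * finrank K Q := by
    have h1 : ∑ s, nn (β s) 0 ≤ (Fintype.card ι : ℤ) * finrank K Q - 2 * finrank K Q := by
      simp only [hm0]
      rw [Finset.sum_sub_distrib]
      simp only [Finset.sum_const, Finset.card_univ, nsmul_eq_mul]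
      linarith
    have h2 : ((∑ s, nn (β s) 0 : ℤ) : ℚ) ≤ ((Fintype.card ι : ℤ) * finrank K Q
      - 2 * finrank K Q : ℤ) := by exact_mod_cast h1
    push_cast at h2
    linarith
  have hα1 : ∀ s, (nn (α s) 0 : ℚ) ≤ finrank K P / l s := by
    intro s
    rw [le_div_iff₀ (hlq s)]
    have := hle1 s
    have h2 : ((l s : ℤ) * nn (α s) 0 : ℤ) ≤ ((finrank K P : ℤ) : ℤ) := this
    have h3 : (((l s : ℤ) * nn (α s) 0 : ℤ) : ℚ) ≤ ((finrank K P : ℤ) : ℚ) := by exact_mod_cast h2
    push_cast at h3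
    linarith
  have hβ1 : ∀ s, (finrank K Q : ℚ) / l s ≤ nn (β s) 0 := by
    intro s
    rw [div_le_iff₀ (hlq s)]
    have h3 : ((finrank K Q : ℤ) : ℚ) ≤ (((l s : ℤ) * nn (β s) 0 : ℤ) : ℚ) := by
      exact_mod_cast hle2 s
    push_cast at h3
    linarith
  -- `∑ 1/l_s = card - 2`
  have hS : ∑ s, 1 / (l s : ℚ) = (Fintype.card ι : ℚ) - 2 := by
    apply le_antisymm
    · have h1 : finrank K Q * ∑ s, 1 / (l s : ℚ) ≤ finrank K Q * ((Fintype.card ι : ℚ) - 2) := by
        calc finrank K Q * ∑ s, 1 / (l s : ℚ) = ∑ s, (finrank K Q : ℚ) / l s := by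
              rw [Finset.mul_sum]
              exact Finset.sum_congr rfl fun s _ => by ring
          _ ≤ ∑ s, (nn (β s) 0 : ℚ) := Finset.sum_le_sum fun s _ => hβ1 s
          _ ≤ _ := by linarith [hB]
      exact le_of_mul_le_mul_left h1 hQq
    · have h1 : finrank K P * ((Fintype.card ι : ℚ) - 2) ≤ finrank K P * ∑ s, 1 / (l s : ℚ) := by
        calc finrank K P * ((Fintype.card ι : ℚ) - 2) = ∑ s, (nn (α s) 0 : ℚ) := by
              rw [hA]; ring
          _ ≤ ∑ s, (finrank K P : ℚ) / l s := Finset.sum_le_sum fun s _ => hα1 s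
          _ = _ := by
              rw [Finset.mul_sum]
              exact Finset.sum_congr rfl fun s _ => by ring
      exact le_of_mul_le_mul_left h1 hPq
  -- equalities
  have hαeq : ∀ s, (nn (α s) 0 : ℚ) = finrank K P / l s := by
    have h1 : ∑ s, ((finrank K P : ℚ) / l s - nn (α s) 0) = 0 := by
      rw [Finset.sum_sub_distrib, hA]
      have : ∑ s, (finrank K P : ℚ) / l s = finrank K P * ∑ s, 1 / (l s : ℚ) := by
        rw [Finset.mul_sum]
        exact Finset.sum_congr rfl fun s _ => by ring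
      rw [this, hS]; ring
    intro s
    have h2 := (Finset.sum_eq_zero_iff_of_nonneg (fun s _ => sub_nonneg.2 (hα1 s))).1 h1 s
      (Finset.mem_univ s)
    linarith
  have hβeq : ∀ s, (nn (β s) 0 : ℚ) = finrank K Q / l s := by
    have h1 : ∑ s, ((nn (β s) 0 : ℚ) - finrank K Q / l s) ≤ 0 := by
      rw [Finset.sum_sub_distrib]
      have : ∑ s, (finrank K Q : ℚ) / l s = finrank K Q * ∑ s, 1 / (l s : ℚ) := by
        rw [Finset.mul_sum]
        exact Finset.sum_congr rfl fun s _ => by ring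
      rw [this, hS]
      linarith [hB]
    have h0 : ∑ s, ((nn (β s) 0 : ℚ) - finrank K Q / l s) = 0 :=
      le_antisymm h1 (Finset.sum_nonneg fun s _ => sub_nonneg.2 (hβ1 s))
    intro s
    have h2 := (Finset.sum_eq_zero_iff_of_nonneg (fun s _ => sub_nonneg.2 (hβ1 s))).1 h0 s
      (Finset.mem_univ s)
    linarith
  have hαe : ∀ s, (l s : ℤ) * nn (α s) 0 = finrank K P := by
    intro s
    have := hαeq s
    rw [eq_div_iff (hlq s).ne'] at this
    have h2 : (((l s : ℤ) * nn (α s) 0 : ℤ) : ℚ) = ((finrank K P : ℤ) : ℚ) := by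
      push_cast; linarith
    exact_mod_cast h2
  have hβe : ∀ s, (l s : ℤ) * nn (β s) 0 = finrank K Q := by
    intro s
    have := hβeq s
    rw [eq_div_iff (hlq s).ne'] at this
    have h2 : (((l s : ℤ) * nn (β s) 0 : ℤ) : ℚ) = ((finrank K Q : ℤ) : ℚ) := by
      push_cast; linarith
    exact_mod_cast h2
  have hα0 : ∀ s, α s ^ (l s) = 0 := by
    intro s
    rw [← rk_eq_zero_iff]
    have := hfa s
    rw [hαe s, sub_self] at this
    exact_mod_cast this
  have hαpos : ∀ s, 0 < nn (α s) 0 := fun s => nn_zero_pos (hk1 s) hP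
  have hlα : ∀ s j, α s ^ j = 0 ↔ l s ≤ j := by
    intro s j
    constructor
    · intro h
      by_contra hcon
      push Not at hcon
      have h1 := hnα s j hcon
      have h2 : rk (α s) j = 0 := (rk_eq_zero_iff (α s) j).2 h
      have h3 : nn (α s) j ≤ 0 := by
        unfold nn
        rw [h2]
        have : (0 : ℤ) ≤ rk (α s) (j + 1) := by positivity
        push_cast
        linarith
      have := hαpos s
      linarith
    · intro h; exact pow_eq_zero_of_le h (hα0 s)
  refine ⟨hI, l, hl1, hlα, hlβ, fun s => ?_, fun s => ?_, ?_⟩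
  · have := hαe s
    rw [nn_zero] at this
    exact_mod_cast this
  · have := hβe s
    rw [nn_zero] at this
    exact_mod_cast this
  · rw [Finset.sum_sub_distrib, hS]
    simp

end Alt

end Crest.Agent.R172.Mix
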