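import Crest.Agent.R172.Mix2

/-!
Row 172 (S0260), node G1, two-module part, file 3 (helper342): from the claim of step 1 of note
14005 to `H^1(core X, core S) = 0` and to the alternative.
-/

set_option autoImplicit false

namespace Crest.Agent.R172.Mix

open Module
open Crest.Agent.R172.St (T Nk mem_T T_stable T_closed mem_Nk_succ mem_Nk_zero Nk_le_T T_eq_Nk
  Nk_mono Nk_le_succ)
open Crest.Agent.R172.Core (Inter InterAll mem_Inter)

variable {K : Type*} [Field K] {X S S' : Type*} [AddCommGroup X] [Module K X]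
  [AddCommGroup S] [Module K S] [AddCommGroup S'] [Module K S'] {ι : Type*}

/-- every linear map between the cores is induced by a linear map `X → S`. -/
theorem exists_rep (a : ι → End K X) (b : ι → End K S) (x : Cor a →ₗ[K] Cor b) :
    ∃ c : X →ₗ[K] S, ∃ h1 : ∀ v ∈ Pinf a, c v ∈ Pinf b, ∀ (v : X) (hv : v ∈ Pinf a),
      x (Submodule.Quotient.mk ⟨v, hv⟩) = Submodule.Quotient.mk ⟨c v, h1 v hv⟩ := by
  -- a linear section of `Pinf b → Cor b`
  obtain ⟨σ, hσ⟩ := (TP b).mkQ.exists_rightInverse_of_surjective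
    (LinearMap.range_eq_top.2 (Submodule.mkQ_surjective _))
  obtain ⟨π, hπ⟩ := (Pinf a).subtype.exists_leftInverse_of_injective
    (by rw [Submodule.ker_subtype])
  let c0 : X →ₗ[K] Pinf b := σ ∘ₗ x ∘ₗ (TP a).mkQ ∘ₗ π
  refine ⟨(Pinf b).subtype ∘ₗ c0, fun v _ => (c0 v).2, fun v hv => ?_⟩
  have h1 : π v = ⟨v, hv⟩ := LinearMap.congr_fun hπ ⟨v, hv⟩
  have h2 : c0 v = σ (x (Submodule.Quotient.mk ⟨v, hv⟩)) := by
    show σ (x ((TP a).mkQ (π v))) = _
    rw [h1]; rfl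
  have h3 : (Submodule.Quotient.mk (⟨((Pinf b).subtype ∘ₗ c0) v, (c0 v).2⟩ : Pinf b) : Cor b)
      = (TP b).mkQ (c0 v) := rfl
  rw [h3, h2]
  exact (LinearMap.congr_fun hσ _).symm

/-- the hypotheses on `φ : S → S'` -/
structure Brd (φ : S →ₗ[K] S') (Φ : ι → End K S) (Φ' : ι → End K S') : Prop where
  comm : ∀ s v, φ (Φ s v) = Φ' s (φ v)
  ker : ∀ s v, φ v = 0 → Φ s v = 0
  range : ∀ s w, ∃ v, φ v = Φ' s w

variable {φ : S →ₗ[K] S'} {Φ : ι → End K S} {Φ' : ι → End K S'}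

theorem Brd.Rg_le (h : Brd φ Φ Φ') (k : ℕ) : Rg Φ' (k + 1) ≤ (Rg Φ k).map φ := by
  induction k with
  | zero =>
    rw [Rg_succ]
    refine iSup_le fun s => ?_
    rintro _ ⟨w, _, rfl⟩
    obtain ⟨v, hv⟩ := h.range s w
    exact ⟨v, trivial, hv⟩
  | succ k ih =>
    rw [Rg_succ Φ' (k + 1)]
    refine iSup_le fun s => ?_
    rintro _ ⟨w, hw, rfl⟩
    obtain ⟨v, hv, rfl⟩ := ih hw
    exact ⟨Φ s v, map_mem_Rg s hv, h.comm s v⟩

theorem Brd.Rg_map (h : Brd φ Φ Φ') (k : ℕ) : ∀ v ∈ Rg Φ k, φ v ∈ Rg Φ' k := by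
  induction k with
  | zero => intro v _; trivial
  | succ k ih =>
    intro v hv
    have hle : ⨆ s, (Rg Φ k).map (Φ s) ≤ (Rg Φ' (k + 1)).comap φ := by
      refine iSup_le fun s => ?_
      rintro _ ⟨w, hw, rfl⟩
      rw [Submodule.mem_comap, h.comm]
      exact map_mem_Rg s (ih w hw)
    exact hle hv

theorem Brd.Pinf_map (h : Brd φ Φ Φ') : ∀ v ∈ Pinf Φ, φ v ∈ Pinf Φ' := fun v hv =>
  mem_Pinf.2 fun k => h.Rg_map k v (mem_Pinf.1 hv k)

theorem Brd.Pinf_le [FiniteDimensional K S] (h : Brd φ Φ Φ') : Pinf Φ' ≤ (Pinf Φ).map φ := by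
  obtain ⟨k, hk⟩ := exists_Pinf_eq Φ
  rw [← hk k le_rfl]
  exact (iInf_le _ (k + 1)).trans (h.Rg_le k)

theorem Brd.T_iff (h : Brd φ Φ Φ') (v : S) : φ v ∈ T Φ' ↔ v ∈ T Φ := by
  have h1 : ∀ k v, φ v ∈ Nk Φ' k → v ∈ Nk Φ (k + 1) := by
    intro k
    induction k with
    | zero =>
      intro v hv
      rw [mem_Nk_zero] at hv
      rw [mem_Nk_succ]
      intro s
      rw [mem_Nk_zero]
      exact h.ker s v hv
    | succ k ih =>
      intro v hv
      rw [mem_Nk_succ] at hv ⊢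
      intro s
      refine ih _ ?_
      rw [h.comm]
      exact hv s
  have h2 : ∀ k v, v ∈ Nk Φ k → φ v ∈ Nk Φ' k := by
    intro k
    induction k with
    | zero => intro v hv; rw [mem_Nk_zero] at hv ⊢; rw [hv, map_zero]
    | succ k ih =>
      intro v hv
      rw [mem_Nk_succ] at hv ⊢
      intro s
      rw [← h.comm]
      exact ih _ (hv s)
  constructor
  · intro hv
    obtain ⟨k, hk⟩ := mem_T.1 hv
    exact mem_T.2 ⟨k + 1, h1 k v hk⟩
  · intro hv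
    obtain ⟨k, hk⟩ := mem_T.1 hv
    exact mem_T.2 ⟨k, h2 k v hk⟩

/-- `φ` on the cores -/
noncomputable def Brd.cor (h : Brd φ Φ Φ') : Cor Φ →ₗ[K] Cor Φ' :=
  Cmap Φ Φ' φ h.Pinf_map (fun v _ hv => (h.T_iff v).2 hv)

theorem Brd.cor_bij [FiniteDimensional K S] (h : Brd φ Φ Φ') : Function.Bijective h.cor := by
  constructor
  · rw [injective_iff_map_eq_zero]
    intro v hv
    induction v using Submodule.Quotient.induction_on with
    | _ p =>
      have h1 : (Submodule.Quotient.mk (⟨φ p, h.Pinf_map p p.2⟩ : Pinf Φ') : Cor Φ') = 0 := hv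
      rw [mk_eq_zero] at h1
      rw [mk_eq_zero]
      exact (h.T_iff p).1 h1
  · intro w
    induction w using Submodule.Quotient.induction_on with
    | _ p =>
      obtain ⟨v, hv, hvp⟩ := h.Pinf_le p.2
      refine ⟨Submodule.Quotient.mk ⟨v, hv⟩, ?_⟩
      show (Submodule.Quotient.mk (⟨φ v, h.Pinf_map v hv⟩ : Pinf Φ') : Cor Φ') = _
      congr 1
      exact Subtype.ext hvp

/-- the claim of step 1 of note 14005 (for all exact cocycles killing `T a` with values in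
`Pinf Φ`) -/
def Claim (a : ι → End K X) (φ : S →ₗ[K] S') (Φ : ι → End K S) (Φ' : ι → End K S')
    [Fintype ι] : Prop :=
  ∀ xi : ι → (X →ₗ[K] S), (∀ s v, xi s v ∈ Pinf Φ) → (∀ s, ∀ v ∈ T a, xi s v = 0) →
    (∀ v, ∑ s, (xi s (a s v) - Φ s (xi s v)) = 0) →
    ∃ y : X →ₗ[K] S', ∀ s v, Φ' s (φ (xi s v) - y v) = φ (xi s (a s v)) - y (a s v)

/-- **MIX**: the claim gives `H^1 = 0` for the cores. -/
theorem mixed_h1 [FiniteDimensional K X] [FiniteDimensional K S] [FiniteDimensional K S']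
    [Fintype ι] {a : ι → End K X} (hB : Brd φ Φ Φ') (hC : Claim a φ Φ Φ')
    (x : ι → (Cor a →ₗ[K] Cor Φ)) (hx : ∑ s, (x s ∘ₗ ac a s - ac Φ s ∘ₗ x s) = 0) :
    ∃ y : Cor a →ₗ[K] Cor Φ, ∀ s, x s - y ∈ Inter (ac a s) (ac Φ s) := by
  classical
  choose c h1 h2 using fun s => exists_rep a Φ (x s)
  -- `c s` satisfies the hypotheses of `lift_mix`
  have hT : ∀ s, ∀ v ∈ Pinf a, v ∈ T a → c s v ∈ T Φ := by
    intro s v hv hvT
    have h3 := h2 s v hv
    have h4 : (Submodule.Quotient.mk (⟨v, hv⟩ : Pinf a) : Cor a) = 0 := mk_eq_zero.2 hvT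
    rw [h4, map_zero] at h3
    exact mk_eq_zero.1 h3.symm
  have hx' : ∀ v ∈ Pinf a, ∑ s, (c s (a s v) - Φ s (c s v)) ∈ T Φ := by
    intro v hv
    have h3 := LinearMap.congr_fun hx (Submodule.Quotient.mk ⟨v, hv⟩)
    rw [LinearMap.sum_apply] at h3
    have h4 : ∀ s, (x s ∘ₗ ac a s - ac Φ s ∘ₗ x s) (Submodule.Quotient.mk ⟨v, hv⟩)
        = (TP Φ).mkQ ⟨c s (a s v) - Φ s (c s v), (Pinf Φ).sub_mem
            (h1 s _ (Pinf_stable s hv)) (Pinf_stable s (h1 s v hv))⟩ := by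
      intro s
      show x s (ac a s (Submodule.Quotient.mk ⟨v, hv⟩))
        - ac Φ s (x s (Submodule.Quotient.mk ⟨v, hv⟩)) = _
      rw [ac_mk, h2 s _ (Pinf_stable s hv), h2 s v hv, ac_mk]
      rfl
    rw [Finset.sum_congr rfl fun s _ => h4 s, ← map_sum] at h3
    have h5 : (∑ s, (⟨c s (a s v) - Φ s (c s v), (Pinf Φ).sub_mem
            (h1 s _ (Pinf_stable s hv)) (Pinf_stable s (h1 s v hv))⟩ : Pinf Φ)) ∈ TP Φ := by
      have h6 := (Submodule.Quotient.mk_eq_zero (TP Φ)).1 h3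
      exact h6
    rw [mem_TP, Submodule.coe_sum] at h5
    exact h5
  obtain ⟨xi, hxi1, hxi2, hxi3, hxi4⟩ := lift_mix c h1 hT hx'
  have hxi3' : ∀ v, ∑ s, (xi s (a s v) - Φ s (xi s v)) = 0 := by
    intro v
    have := LinearMap.congr_fun hxi3 v
    rw [LinearMap.sum_apply] at this
    exact this
  obtain ⟨y, hy⟩ := hC xi hxi1 hxi2 hxi3'
  -- `y (T a) ≤ T Φ'`
  have hyT : ∀ v ∈ T a, y v ∈ T Φ' := by
    refine map_T_le (a := Φ') (b := a) (c := y) (N := T a) (fun s z hz => T_stable s hz) le_rfl ?_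
    intro s z hz
    have h3 := hy s z
    rw [hxi2 s z hz, map_zero, zero_sub, map_neg, hxi2 s _ (T_stable s hz), map_zero, zero_sub,
      neg_inj] at h3
    rw [h3, sub_self]
    exact Submodule.zero_mem _
  -- `y (Pinf a) ≤ Pinf Φ'`
  have hyP : ∀ v ∈ Pinf a, y v ∈ Pinf Φ' := by
    refine map_Pinf_le (a := Φ') (b := a) (c := y) (U := Pinf Φ')
      (fun s v hv => Pinf_stable s hv) le_rfl ?_
    intro s z _
    have h3 := hy s z
    rw [map_sub] at h3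
    have h4 : Φ' s (y z) - y (a s z) = Φ' s (φ (xi s z)) - φ (xi s (a s z)) := by
      have : Φ' s (y z) = Φ' s (φ (xi s z)) - (φ (xi s (a s z)) - y (a s z)) := by
        rw [← h3]; abel
      rw [this]; abel
    rw [h4]
    exact (Pinf Φ').sub_mem (Pinf_stable s (hB.Pinf_map _ (hxi1 s z))) (hB.Pinf_map _ (hxi1 s _))
  let yb : Cor a →ₗ[K] Cor Φ' := Cmap a Φ' y hyP (fun v _ hv => hyT v hv)
  let E : Cor Φ ≃ₗ[K] Cor Φ' := LinearEquiv.ofBijective hB.cor hB.cor_bij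
  have hEcomm : ∀ s z, E (ac Φ s z) = ac Φ' s (E z) := by
    intro s z
    induction z using Submodule.Quotient.induction_on with
    | _ p =>
      show (Submodule.Quotient.mk (⟨φ (Φ s p), _⟩ : Pinf Φ') : Cor Φ')
        = Submodule.Quotient.mk (⟨Φ' s (φ p), _⟩ : Pinf Φ')
      congr 1
      exact Subtype.ext (hB.comm s p)
  refine ⟨E.symm.toLinearMap ∘ₗ yb, fun s => ?_⟩
  rw [mem_Inter]
  intro v
  induction v using Submodule.Quotient.induction_on with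
  | _ p =>
    obtain ⟨p, hp⟩ := p
    apply E.injective
    rw [hEcomm]
    -- `E (x s w - E⁻¹ yb w) = mk (φ (xi s w) - y w)`
    have key : ∀ (w : X) (hw : w ∈ Pinf a),
        E ((x s - E.symm.toLinearMap ∘ₗ yb) (Submodule.Quotient.mk ⟨w, hw⟩))
          = (Submodule.Quotient.mk (⟨φ (xi s w) - y w, (Pinf Φ').sub_mem
              (hB.Pinf_map _ (hxi1 s w)) (hyP w hw)⟩ : Pinf Φ') : Cor Φ') := by
      intro w hw
      rw [LinearMap.sub_apply, map_sub]
      have e1 : E ((E.symm.toLinearMap ∘ₗ yb) (Submodule.Quotient.mk ⟨w, hw⟩))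
          = Submodule.Quotient.mk (⟨y w, hyP w hw⟩ : Pinf Φ') := by
        show E (E.symm (yb (Submodule.Quotient.mk ⟨w, hw⟩))) = _
        rw [E.apply_symm_apply]
        rfl
      have e2 : E (x s (Submodule.Quotient.mk ⟨w, hw⟩))
          = Submodule.Quotient.mk (⟨φ (xi s w), hB.Pinf_map _ (hxi1 s w)⟩ : Pinf Φ') := by
        rw [h2 s w hw]
        show (Submodule.Quotient.mk (⟨φ (c s w), _⟩ : Pinf Φ') : Cor Φ') = _
        rw [eq_comm, Submodule.Quotient.eq]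
        show φ (xi s w) - φ (c s w) ∈ T Φ'
        rw [← map_sub, hB.T_iff]
        exact hxi4 s w hw
      rw [e1, e2]
      rfl
    rw [ac_mk, key _ (Pinf_stable s hp), key p hp, ac_mk]
    congr 1
    apply Subtype.ext
    show φ (xi s (a s p)) - y (a s p) = Φ' s (φ (xi s p) - y p)
    rw [hy s p]

/-- tame data for a pair of modules -/
def TameData {P Q : Type*} [AddCommGroup P] [Module K P] [AddCommGroup Q] [Module K Q]
    [Fintype ι] (α : ι → End K P) (β : ι → End K Q) : Prop :=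
  InterAll α β = ⊥ ∧ ∃ l : ι → ℕ, (∀ s, 1 ≤ l s) ∧
      (∀ s j, α s ^ j = 0 ↔ l s ≤ j) ∧ (∀ s j, β s ^ j = 0 ↔ l s ≤ j) ∧
      (∀ s, l s * finrank K (LinearMap.ker (α s)) = finrank K P) ∧
      (∀ s, l s * finrank K (LinearMap.ker (β s)) = finrank K Q) ∧
      ∑ s, (1 - 1 / (l s : ℚ)) = 2

/-- **the alternative for two modules**: `X` nilpotent, or `S` nilpotent, or the two cores form a
tame pair. -/
theorem mix_alt [FiniteDimensional K X] [FiniteDimensional K S] [FiniteDimensional K S']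
    [Fintype ι] {a : ι → End K X} (hB : Brd φ Φ Φ') (hC : Claim a φ Φ Φ')
    (hna : ∀ s, ∃ k, a s ^ k = 0) (hnΦ : ∀ s, ∃ k, Φ s ^ k = 0)
    (hsa : ∀ v, ∑ s, a s v = 0) (hsΦ : ∀ v, ∑ s, Φ s v = 0) :
    T a = ⊤ ∨ T Φ = ⊤ ∨
      (0 < finrank K (Cor a) ∧ 0 < finrank K (Cor Φ) ∧ TameData (ac a) (ac Φ)) := by
  by_cases h1 : finrank K (Cor a) = 0
  · exact Or.inl (T_eq_top_of_core h1)
  by_cases h2 : finrank K (Cor Φ) = 0
  · exact Or.inr (Or.inl (T_eq_top_of_core h2))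
  refine Or.inr (Or.inr ⟨Nat.pos_of_ne_zero h1, Nat.pos_of_ne_zero h2, ?_⟩)
  refine alt (ac a) (ac Φ) (fun s => ?_) (fun s => ?_) (ac_sum hsa) (ac_sum hsΦ)
    (fun v hv => ac_ker v hv) (fun v hv => ac_ker v hv) (ac_range a) (ac_range Φ)
    (mixed_h1 hB hC) (Nat.pos_of_ne_zero h1) (Nat.pos_of_ne_zero h2)
  · obtain ⟨k, hk⟩ := hna s
    exact ⟨k, ac_nil hk⟩
  · obtain ⟨k, hk⟩ := hnΦ s
    exact ⟨k, ac_nil hk⟩

end Crest.Agent.R172.Mix
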