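import Crest.Agent.R172.Slack1

/-!
Row 172 (S0260), node R-MvInst (insurance copy): the `t1` instance of helper26's structure `Mv`
(note 15924): moves of `H = F + tG` with PRESCRIBED `ξ`.

* `move_gen` : `Data`, `Generic` at `H`, `X` `J`-skew, `ξ` `B`-skew, `H ξᵀ = act X H` imply that
  there is `d` with `Realises arm N W X ξ d` and `H.map d = act X H`.
* `skew_mulJ` : `xᵀ = -x` implies that `x J` is `J`-skew.
* `Mv` : the structure of note 15924, `mv_t1` : its instance for `eta = J`, `e = 1`, `C = ⊤`.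
-/

set_option autoImplicit false
set_option linter.unusedSectionVars false

namespace Crest.Agent.R172.MvT420

open Matrix Crest.Agent.R172.FO

variable {ι : Type*} [Fintype ι] [DecidableEq ι] {δ : Type*} [Fintype δ] [DecidableEq δ]
variable {k K : Type*} [Field k] [Field K] [Algebra k K]
variable {arm : δ → Fin 3} {J : Matrix ι ι K} {B : Matrix δ δ K}
  {N W : Submodule K (Matrix ι δ K)}

/-- A direction `(X, ξ)` with `H ξᵀ = act X H` is realised by a derivation with
`dH = act X H`. -/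
theorem move_gen (hD : Data k arm J B N W) {H : Matrix ι δ K} (hH : Generic k arm N W H)
    {X : Fin 3 → Matrix ι ι K} (hX : ∀ s, (X s)ᵀ * J + J * X s = 0)
    {ξ : Matrix δ δ K} (hξ : ξᵀ * B + B * ξ = 0) (h : H * ξᵀ = act arm X H) :
    ∃ d : Derivation k K K, Realises arm N W X ξ d ∧ H.map d = act arm X H := by
  obtain ⟨d0, hd0⟩ := hD.dir X ξ hX hξ
  have h1 : H.map d0 - act arm X H ∈ N ⊓ W := by
    refine ⟨hd0.onN H hH.mem.1, ?_⟩
    rw [← h]
    exact hd0.onW H hH.mem.2
  obtain ⟨d1, hd1, hr⟩ := hH.vert _ h1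
  have hsub : ∀ G : Matrix ι δ K, G.map (d0 - d1) = G.map d0 - G.map d1 := by
    intro G; ext i j; simp
  refine ⟨d0 - d1, ⟨?_, ?_⟩, ?_⟩
  · intro G hG
    have h2 := hd0.onN G hG
    have h3 := hr.onN G hG
    rw [act_zero, sub_zero] at h3
    rw [hsub]
    have : G.map d0 - G.map d1 - act arm X G = (G.map d0 - act arm X G) - G.map d1 := by abel
    rw [this]
    exact N.sub_mem h2 h3
  · intro G hG
    have h2 := hd0.onW G hG
    have h3 := hr.onW G hG
    rw [transpose_zero, Matrix.mul_zero, sub_zero] at h3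
    rw [hsub]
    have : G.map d0 - G.map d1 - G * ξᵀ = (G.map d0 - G * ξᵀ) - G.map d1 := by abel
    rw [this]
    exact W.sub_mem h2 h3
  · rw [hsub, hd1]
    abel

/-- `x` skew ⇒ `x J` is `J`-skew -/
theorem skew_mulJ (hJ : Jᵀ = J) {x : Matrix ι ι K} (hx : xᵀ = -x) :
    (x * J)ᵀ * J + J * (x * J) = 0 := by
  rw [transpose_mul, hx, hJ, Matrix.mul_neg, Matrix.neg_mul, Matrix.mul_assoc, neg_add_cancel]

/-- **The structure of note 15924**: moves at `H`, with `ξ` given.  `X_r = x_r eta`. -/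
structure Mv (k : Type*) {K : Type*} [Field k] [Field K] [Algebra k K] {ι δ : Type*} [Fintype ι]
    [DecidableEq ι] [Fintype δ] [DecidableEq δ] (arm : δ → Fin 3) (eta : Matrix ι ι K)
    (e : K) (B : Matrix δ δ K) (N W C : Submodule K (Matrix ι δ K)) (P : Submodule K (ι → K))
    (H : Matrix ι δ K) : Prop where
  eta_symm : etaᵀ = e • eta
  mem : H ∈ N ⊓ W
  memC : H ∈ C
  move : ∀ x : Fin 3 → Matrix ι ι K, (∀ r, (x r)ᵀ = (-e) • x r) →
    (∀ r v, x r *ᵥ v ∈ P) → ∀ ξ : Matrix δ δ K, ξᵀ * B + B * ξ = 0 →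
    H * ξᵀ = act arm (fun r => x r * eta) H →
    ∃ d : Derivation k K K,
      (∀ F ∈ N ⊓ C, F.map d - act arm (fun r => x r * eta) F ∈ N) ∧
      (∀ F ∈ W, F.map d - F * ξᵀ ∈ W) ∧ (∀ F ∈ C, F.map d ∈ C) ∧ eta.map d = 0 ∧
      H.map d = act arm (fun r => x r * eta) H

/-- the `t1` instance: `eta = J`, `e = 1`, `C = ⊤`, any `P` -/
theorem mv_t1 (hD : Data k arm J B N W) {H : Matrix ι δ K} (hH : Generic k arm N W H)
    (P : Submodule K (ι → K)) : Mv k arm J 1 B N W ⊤ P H where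
  eta_symm := by rw [one_smul, hD.J_symm]
  mem := hH.mem
  memC := Submodule.mem_top
  move := by
    intro x hx _ ξ hξ h
    obtain ⟨d, hd, hd2⟩ := move_gen hD hH (X := fun r => x r * J)
      (fun s => skew_mulJ hD.J_symm (by rw [hx s, neg_smul, one_smul])) hξ h
    exact ⟨d, fun F hF => hd.onN F hF.1, fun F hF => hd.onW F hF, fun _ _ => Submodule.mem_top,
      hD.J_const d, hd2⟩

end Crest.Agent.R172.MvT420
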