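import Crest.Agent.R172.Fin3

/-!
Row 172 (S0260), node R-MvInst: 26's structure `Mv` (note 15924) and its instance for (t1)
(`η = J`, `C = ⊤`), from `Data.dir` and the vertical derivations at `H`.

* `MvT.move_at`: at a generic `H`, for every direction `(X, ξ)` of `SO(V)^3 × SO(U)` with
  `H ξᵀ = X H` there is `d` realising `(X, ξ)` with `dH = X H`.
* `MvT.Mv`: the structure; `MvT.mvT`: the instance for `η = J`, `C = ⊤`.
-/

set_option autoImplicit false
set_option linter.unusedSectionVars false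

namespace Crest.Agent.R172.MvT798

open Matrix Crest.Agent.R172.FO

variable {ι : Type*} [Fintype ι] [DecidableEq ι] {δ : Type*} [Fintype δ] [DecidableEq δ]
variable {k K : Type*} [Field k] [Field K] [Algebra k K]
variable {arm : δ → Fin 3} {J : Matrix ι ι K} {B : Matrix δ δ K}
  {N W : Submodule K (Matrix ι δ K)}

/-- the move at a generic point -/
theorem move_at (hD : Data k arm J B N W) {H : Matrix ι δ K} (hH : Generic k arm N W H)
    (X : Fin 3 → Matrix ι ι K) (hX : ∀ s, (X s)ᵀ * J + J * X s = 0)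
    (ξ : Matrix δ δ K) (hξ : ξᵀ * B + B * ξ = 0) (h : H * ξᵀ = act arm X H) :
    ∃ d : Derivation k K K, Realises arm N W X ξ d ∧ H.map d = act arm X H := by
  obtain ⟨d0, hd0⟩ := hD.dir X ξ hX hξ
  have h1 : H.map d0 - act arm X H ∈ N ⊓ W := by
    refine ⟨hd0.onN H hH.mem.1, ?_⟩
    rw [← h]
    exact hd0.onW H hH.mem.2
  obtain ⟨d1, hd1, hr⟩ := hH.vert _ h1
  have hsub : ∀ G : Matrix ι δ K, G.map (d0 - d1) = G.map d0 - G.map d1 := by
    intro G; ext i j; simp
  refine ⟨d0 - d1, ⟨?_, ?_⟩, ?_⟩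
  · intro G hG
    have h2 := hd0.onN G hG
    have h3 := hr.onN G hG
    rw [act_zero, sub_zero] at h3
    rw [hsub]
    have : G.map d0 - G.map d1 - act arm X G = (G.map d0 - act arm X G) - G.map d1 := by abel
    rw [this]
    exact N.sub_mem h2 h3
  · intro G hG
    have h2 := hd0.onW G hG
    have h3 := hr.onW G hG
    rw [transpose_zero, Matrix.mul_zero, sub_zero] at h3
    rw [hsub]
    have : G.map d0 - G.map d1 - G * ξᵀ = (G.map d0 - G * ξᵀ) - G.map d1 := by abel
    rw [this]
    exact W.sub_mem h2 h3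
  · rw [hsub, hd1]
    abel

variable (k) in
/-- the structure `Mv` of 15924: the form `η` with sign `e`, the stable subspace `C` of `V ⊗ U`,
and the existence of the move at `H + t G`, `t ∈ S`, for every exact `x` and compatible `ξ`. -/
structure Mv (arm : δ → Fin 3) (J : Matrix ι ι K) (B : Matrix δ δ K)
    (N W : Submodule K (Matrix ι δ K)) (η : Matrix ι ι K) (e : K)
    (C : Submodule K (Matrix ι δ K)) (P : Submodule K (ι → K)) (S : Set k)
    (H G : Matrix ι δ K) : Prop where
  memH : H ∈ N ⊓ W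
  memG : G ∈ N ⊓ W
  sign : e * e = 1
  eta : ηᵀ = e • η
  HC : H ∈ C
  GC : G ∈ C
  move : ∀ t ∈ S, ∀ x : Fin 3 → Matrix ι ι K, (∀ s, (x s)ᵀ = -e • x s) →
    (∀ s v, (x s).mulVec v ∈ P) →
    (∑ s, (x s * η * M arm B s (H + algebraMap k K t • G) (H + algebraMap k K t • G)
      - M arm B s (H + algebraMap k K t • G) (H + algebraMap k K t • G) * η * x s) = 0) →
    ∀ ξ : Matrix δ δ K, ξᵀ * B + B * ξ = 0 →
    (H + algebraMap k K t • G) * ξᵀ
      = act arm (fun s => x s * η) (H + algebraMap k K t • G) →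
    ∃ d : Derivation k K K,
      (∀ F ∈ N ⊓ C, F.map d - act arm (fun s => x s * η) F ∈ N) ∧
      (∀ F ∈ W, F.map d - F * ξᵀ ∈ W) ∧ (∀ F ∈ C, F.map d ∈ C) ∧ η.map d = 0 ∧
      (H + algebraMap k K t • G).map d
        = act arm (fun s => x s * η) (H + algebraMap k K t • G)

/-- the instance for (t1): `η = J`, `C = ⊤` -/
theorem mvT (hD : Data k arm J B N W) {H G : Matrix ι δ K} (P : Submodule K (ι → K))
    (S : Set k) (hH : H ∈ N ⊓ W) (hG : G ∈ N ⊓ W)
    (hgen : ∀ t ∈ S, Generic k arm N W (H + algebraMap k K t • G)) :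
    Mv k arm J B N W J 1 ⊤ P S H G where
  memH := hH
  memG := hG
  sign := one_mul 1
  eta := by rw [one_smul, hD.J_symm]
  HC := Submodule.mem_top
  GC := Submodule.mem_top
  move := by
    intro t ht x hx _ _ ξ hξ h
    obtain ⟨d, h1, h2⟩ := move_at hD (hgen t ht) (fun s => x s * J) (by
      intro s
      have h3 : (x s)ᵀ = -x s := by rw [hx s, neg_smul, one_smul]
      rw [transpose_mul, h3, hD.J_symm, Matrix.mul_neg, Matrix.neg_mul, Matrix.mul_assoc,
        neg_add_cancel]) ξ hξ h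
    exact ⟨d, fun F hF => h1.onN F hF.1, h1.onW, fun _ _ => Submodule.mem_top, hD.J_const d, h2⟩

/-- the instance from `GenOver` -/
theorem mvT_of_genOver (hD : Data k arm J B N W) {F G : Matrix ι δ K}
    (P : Submodule K (ι → K)) (S : Set k) (h : GenOver k arm N W F G) :
    Mv k arm J B N W J 1 ⊤ P S F G :=
  mvT hD P S h.mem h.memG fun t _ => h.generic_add t

end Crest.Agent.R172.MvT798
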