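import Crest.Agent.R172.Slack1

/-!
Row 172, TAME (t1), R = 0, any number of blocks (dependent characters allowed): first and second
derivative in the quotient form of note 15122 (T0 of master v3).
-/

set_option autoImplicit false
set_option linter.unusedSectionVars false

namespace Crest.Agent.R172.QQ1

open Matrix Crest.Agent.R172.FO

variable {ι : Type*} [Fintype ι] [DecidableEq ι] {δ : Type*} [Fintype δ] [DecidableEq δ]
variable {n : Type*} [Fintype n] [DecidableEq n]
variable {k K : Type*} [Field k] [Field K] [Algebra k K]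
variable {arm : δ → Fin 3} {J : Matrix ι ι K} {B : Matrix δ δ K}
  {N W : Submodule K (Matrix ι δ K)} {H G : Matrix ι δ K} {e : n → Matrix ι ι K} {lam : n → K}
  {S : Set k}

variable (k) in
/-- The setting of (T0), `R = 0`, `D` semisimple on the core, blocks `e i`. -/
structure Cx (S : Set k) (arm : δ → Fin 3) (J : Matrix ι ι K) (B : Matrix δ δ K)
    (N W : Submodule K (Matrix ι δ K)) (H G : Matrix ι δ K) (e : n → Matrix ι ι K)
    (lam : n → K) : Prop where
  data : Data k arm J B N W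
  memH : H ∈ N ⊓ W
  memG : G ∈ N ⊓ W
  gen : ∀ t ∈ S, Generic k arm N W (H + (algebraMap k K t) • G)
  t0 : ∀ t ∈ S, algebraMap k K t ≠ 0
  sa : ∀ i, (e i)ᵀ * J = J * e i
  idem : ∀ i, e i * e i = e i
  orth : ∀ i j, i ≠ j → e i * e j = 0
  eG : ∀ i, e i * G = lam i • (e i * H)
  ne : ∀ t ∈ S, ∀ i, 1 + algebraMap k K t * lam i ≠ 0
  com : ∀ i s, e i * Phi arm J B H s = Phi arm J B H s * e i
  perf : ∃ a : Fin 3 → Matrix ι ι K, ∑ r, a r * (∑ i, e i) * Phi arm J B H r = ∑ i, e i
  hom : ∀ t ∈ S, ∀ z : Matrix ι ι K,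
    (∀ r, z * Phi arm J B (H + (algebraMap k K t) • G) r =
      Phi arm J B (H + (algebraMap k K t) • G) r * z) →
    (∀ i j, i ≠ j → e i * z * e j = 0) ∧
      ∀ i, e i * z * (1 - ∑ j, e j) = 0 ∧ (1 - ∑ j, e j) * z * e i = 0

/-- the `T`-part of the corrections -/
def TT (arm : δ → Fin 3) (B : Matrix δ δ K) (W : Submodule K (Matrix ι δ K))
    (H : Matrix ι δ K) (P : Matrix ι ι K) : Submodule K (Matrix ι δ K) where
  carrier := {h | h ∈ W ∧ P * h = 0 ∧ ∀ r, P * H * E K arm r * B * hᵀ = 0}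
  add_mem' := by
    rintro a b ⟨h1, h2, h3⟩ ⟨h1', h2', h3'⟩
    refine ⟨W.add_mem h1 h1', by rw [Matrix.mul_add, h2, h2', add_zero], fun r => ?_⟩
    rw [transpose_add, Matrix.mul_add, h3 r, h3' r, add_zero]
  zero_mem' := ⟨W.zero_mem, by simp, fun r => by simp⟩
  smul_mem' := by
    rintro c a ⟨h1, h2, h3⟩
    refine ⟨W.smul_mem c h1, by rw [Matrix.mul_smul, h2, smul_zero], fun r => ?_⟩
    rw [transpose_smul, Matrix.mul_smul, h3 r, smul_zero]

theorem mem_TT {P : Matrix ι ι K} {h : Matrix ι δ K} : h ∈ TT arm B W H P ↔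
    h ∈ W ∧ P * h = 0 ∧ ∀ r, P * H * E K arm r * B * hᵀ = 0 := Iff.rfl

/-- the quotient space: `N + (block scalars) H + T ⊗ L^⊥C` -/
def Q (arm : δ → Fin 3) (B : Matrix δ δ K) (N W : Submodule K (Matrix ι δ K))
    (H : Matrix ι δ K) (e : n → Matrix ι ι K) : Submodule K (Matrix ι δ K) where
  carrier := {Y | ∃ μ : n → K, ∃ h ∈ TT arm B W H (∑ i, e i), Y - (∑ i, μ i • e i) * H - h ∈ N}
  add_mem' := by
    rintro Y Y' ⟨μ, h, h1, h2⟩ ⟨μ', h', h1', h2'⟩
    refine ⟨μ + μ', h + h', Submodule.add_mem _ h1 h1', ?_⟩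
    have e1 : (∑ i, (μ + μ') i • e i) = (∑ i, μ i • e i) + ∑ i, μ' i • e i := by
      simp only [Pi.add_apply, add_smul, Finset.sum_add_distrib]
    have e2 : Y + Y' - (∑ i, (μ + μ') i • e i) * H - (h + h')
        = (Y - (∑ i, μ i • e i) * H - h) + (Y' - (∑ i, μ' i • e i) * H - h') := by
      rw [e1, Matrix.add_mul]; abel
    rw [e2]
    exact N.add_mem h2 h2'
  zero_mem' := ⟨0, 0, Submodule.zero_mem _, by simp⟩
  smul_mem' := by
    rintro c Y ⟨μ, h, h1, h2⟩
    refine ⟨c • μ, c • h, Submodule.smul_mem _ c h1, ?_⟩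
    have e1 : (∑ i, (c • μ) i • e i) = c • ∑ i, μ i • e i := by
      simp only [Pi.smul_apply, smul_eq_mul, mul_smul, Finset.smul_sum]
    have e2 : c • Y - (∑ i, (c • μ) i • e i) * H - c • h
        = c • (Y - (∑ i, μ i • e i) * H - h) := by
      rw [e1, Matrix.smul_mul, smul_sub, smul_sub]
    rw [e2]
    exact N.smul_mem c h2

theorem N_le_Q {Y : Matrix ι δ K} (h : Y ∈ N) : Y ∈ Q arm B N W H e :=
  ⟨0, 0, Submodule.zero_mem _, by simpa using h⟩

theorem TT_le_Q {Y : Matrix ι δ K} (h : Y ∈ TT arm B W H (∑ i, e i)) : Y ∈ Q arm B N W H e :=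
  ⟨0, Y, h, by simp⟩

theorem blk_mem_Q (μ : n → K) : (∑ i, μ i • e i) * H ∈ Q arm B N W H e :=
  ⟨μ, 0, Submodule.zero_mem _, by simp⟩

/-- the operators whose one-arm action is in `Q` -/
def QS (arm : δ → Fin 3) (B : Matrix δ δ K) (N W : Submodule K (Matrix ι δ K))
    (H : Matrix ι δ K) (e : n → Matrix ι ι K) (s : Fin 3) : Submodule K (Matrix ι ι K) where
  carrier := {y | y * H * E K arm s ∈ Q arm B N W H e}
  add_mem' := by
    intro a b ha hb
    show (a + b) * H * E K arm s ∈ Q arm B N W H e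
    rw [Matrix.add_mul, Matrix.add_mul]
    exact Submodule.add_mem _ ha hb
  zero_mem' := by
    show (0 : Matrix ι ι K) * H * E K arm s ∈ Q arm B N W H e
    rw [Matrix.zero_mul, Matrix.zero_mul]
    exact Submodule.zero_mem _
  smul_mem' := by
    intro c a ha
    show (c • a) * H * E K arm s ∈ Q arm B N W H e
    rw [Matrix.smul_mul, Matrix.smul_mul]
    exact Submodule.smul_mem _ c ha

theorem mem_QS {s : Fin 3} {y : Matrix ι ι K} :
    y ∈ QS arm B N W H e s ↔ y * H * E K arm s ∈ Q arm B N W H e := Iff.rfl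

theorem map_zero_der {α β : Type*} (d : Derivation k K K) : (0 : Matrix α β K).map d = 0 := by
  ext i j; simp

theorem map_one_der (d : Derivation k K K) : (1 : Matrix ι ι K).map d = 0 := by
  ext i j
  by_cases h : i = j
  · subst h; simp
  · simp [h]

theorem map_const_smul (d : Derivation k K K) (c : k) {α β : Type*} (F : Matrix α β K) :
    ((algebraMap k K c) • F).map d = (algebraMap k K c) • F.map d := by
  ext i j
  simp [Algebra.smul_def]

theorem map_smul_der (d : Derivation k K K) (c : K) {α β : Type*} (F : Matrix α β K) :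
    (c • F).map d = d c • F + c • F.map d := by
  ext i j
  simp only [map_apply, Matrix.smul_apply, smul_eq_mul, Derivation.leibniz, Matrix.add_apply]
  ring

theorem map_sum_der (d : Derivation k K K) {α β γ : Type*} (s : Finset γ)
    (F : γ → Matrix α β K) : (∑ i ∈ s, F i).map d = ∑ i ∈ s, (F i).map d := by
  ext i j
  simp [Matrix.sum_apply]

/-- a derivation killing `Φ` kills its powers -/
theorem map_pow_zero (d : Derivation k K K) {A : Matrix ι ι K} (hA : A.map d = 0) (v : ℕ) :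
    (A ^ v).map d = 0 := by
  induction v with
  | zero => rw [pow_zero, map_one_der]
  | succ v ih => rw [pow_succ, map_mul_der, ih, hA, Matrix.zero_mul, Matrix.mul_zero, add_zero]

namespace Cx

variable (h : Cx k S arm J B N W H G e lam)
include h

theorem memHt (t : k) : H + (algebraMap k K t) • G ∈ N ⊓ W :=
  (N ⊓ W).add_mem h.memH ((N ⊓ W).smul_mem _ h.memG)

theorem eHt (t : k) (i : n) : e i * (H + (algebraMap k K t) • G) =
    (1 + algebraMap k K t * lam i) • (e i * H) := by
  rw [Matrix.mul_add, Matrix.mul_smul, h.eG, smul_smul, add_smul, one_smul]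

/-- `Fᵀ J e_i` -/
theorem tJe (F : Matrix ι δ K) (i : n) : Fᵀ * J * e i = (e i * F)ᵀ * J := by
  rw [transpose_mul, Matrix.mul_assoc Fᵀ (e i)ᵀ J, h.sa, Matrix.mul_assoc]

theorem ePhi (t : k) (i : n) (r : Fin 3) :
    e i * Phi arm J B (H + (algebraMap k K t) • G) r =
      (1 + algebraMap k K t * lam i) ^ 2 • (e i * Phi arm J B H r) := by
  have hs := h.data.symm_arm h.memH (h.memHt t) r
  have h1 : e i * M arm B r (H + (algebraMap k K t) • G) (H + (algebraMap k K t) • G) =
      (1 + algebraMap k K t * lam i) • (e i * M arm B r H (H + (algebraMap k K t) • G)) := by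
    unfold M
    rw [← Matrix.mul_assoc, ← Matrix.mul_assoc, ← Matrix.mul_assoc, h.eHt]
    simp only [Matrix.smul_mul, Matrix.mul_assoc]
  have h2 : e i * M arm B r (H + (algebraMap k K t) • G) H =
      (1 + algebraMap k K t * lam i) • (e i * M arm B r H H) := by
    unfold M
    rw [← Matrix.mul_assoc, ← Matrix.mul_assoc, ← Matrix.mul_assoc, h.eHt]
    simp only [Matrix.smul_mul, Matrix.mul_assoc]
  unfold Phi
  rw [← Matrix.mul_assoc, h1, hs, h2, smul_smul, ← pow_two, Matrix.smul_mul, Matrix.mul_assoc]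

theorem Phie (t : k) (i : n) (r : Fin 3) :
    Phi arm J B (H + (algebraMap k K t) • G) r * e i =
      (1 + algebraMap k K t * lam i) ^ 2 • (Phi arm J B H r * e i) := by
  have hs := h.data.symm_arm h.memH (h.memHt t) r
  have h0 : ∀ F : Matrix ι δ K, M arm B r F (H + (algebraMap k K t) • G) * J * e i =
      (1 + algebraMap k K t * lam i) • (M arm B r F H * J * e i) := by
    intro F
    unfold M
    rw [Matrix.mul_assoc (F * E K arm r * B), Matrix.mul_assoc (F * E K arm r * B), h.tJe,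
      h.eHt, transpose_smul, Matrix.smul_mul, Matrix.mul_smul, ← h.tJe]
    rw [Matrix.mul_assoc (F * E K arm r * B) Hᵀ J, Matrix.mul_assoc (F * E K arm r * B)]
  unfold Phi
  rw [h0, ← hs, h0, smul_smul, ← pow_two]

theorem comt (t : k) (i : n) (r : Fin 3) :
    e i * Phi arm J B (H + (algebraMap k K t) • G) r =
      Phi arm J B (H + (algebraMap k K t) • G) r * e i := by
  rw [h.ePhi, h.Phie, h.com]

theorem e_ee (i : n) : e i * ∑ j, e j = e i := by
  rw [Matrix.mul_sum, Finset.sum_eq_single i]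
  · exact h.idem i
  · intro j _ hj; exact h.orth i j hj.symm
  · intro hi; exact absurd (Finset.mem_univ i) hi

theorem ee_e (i : n) : (∑ j, e j) * e i = e i := by
  rw [Matrix.sum_mul, Finset.sum_eq_single i]
  · exact h.idem i
  · intro j _ hj; exact h.orth j i hj
  · intro hi; exact absurd (Finset.mem_univ i) hi

theorem ee_ee : (∑ j, e j) * (∑ j, e j) = ∑ j, e j := by
  rw [Matrix.sum_mul]
  exact Finset.sum_congr rfl fun i _ => h.e_ee i

theorem ee_sa : (∑ j, e j)ᵀ * J = J * ∑ j, e j := by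
  rw [transpose_sum, Matrix.sum_mul, Matrix.mul_sum]
  exact Finset.sum_congr rfl fun i _ => h.sa i

theorem ee_com (r : Fin 3) : (∑ j, e j) * Phi arm J B H r = Phi arm J B H r * ∑ j, e j := by
  rw [Matrix.sum_mul, Matrix.mul_sum]
  exact Finset.sum_congr rfl fun i _ => h.com i r

/-- `ee Ht = cc ee H` -/
theorem eeHt (t : k) : (∑ j, e j) * (H + (algebraMap k K t) • G) =
    (∑ j, (1 + algebraMap k K t * lam j) • e j) * ((∑ j, e j) * H) := by
  rw [← Matrix.mul_assoc, Matrix.sum_mul, Matrix.sum_mul, Matrix.sum_mul]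
  refine Finset.sum_congr rfl fun i _ => ?_
  rw [h.eHt, Matrix.smul_mul, Matrix.smul_mul, h.e_ee]

theorem perft {t : k} (ht : t ∈ S) : ∃ a : Fin 3 → Matrix ι ι K,
    ∑ r, a r * (∑ i, e i) * Phi arm J B (H + (algebraMap k K t) • G) r = ∑ i, e i := by
  obtain ⟨a, ha⟩ := h.perf
  refine ⟨fun r => a r * ∑ i, ((1 + algebraMap k K t * lam i) ^ 2)⁻¹ • e i, ?_⟩
  have h1 : ∀ r, a r * (∑ i, ((1 + algebraMap k K t * lam i) ^ 2)⁻¹ • e i) * (∑ i, e i) *
      Phi arm J B (H + (algebraMap k K t) • G) r = a r * (∑ i, e i) * Phi arm J B H r := by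
    intro r
    have h2 : (∑ i, ((1 + algebraMap k K t * lam i) ^ 2)⁻¹ • e i) * (∑ i, e i) *
        Phi arm J B (H + (algebraMap k K t) • G) r = (∑ i, e i) * Phi arm J B H r := by
      rw [Matrix.sum_mul, Matrix.sum_mul, Matrix.sum_mul]
      refine Finset.sum_congr rfl fun i _ => ?_
      rw [Matrix.smul_mul, Matrix.smul_mul, h.e_ee, h.ePhi, smul_smul,
        inv_mul_cancel₀ (pow_ne_zero 2 (h.ne t ht i)), one_smul]
    rw [Matrix.mul_assoc (a r), Matrix.mul_assoc (a r), h2, ← Matrix.mul_assoc]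
  exact (Finset.sum_congr rfl fun r _ => h1 r).trans ha

/-- perpendicular to the core at every arm: the same for `H` and `Ht` -/
theorem perpt (t : k) {F : Matrix ι δ K} {r : Fin 3}
    (hF : (∑ i, e i) * H * E K arm r * B * Fᵀ = 0) :
    (∑ i, e i) * (H + (algebraMap k K t) • G) * E K arm r * B * Fᵀ = 0 := by
  rw [h.eeHt]
  have : (∑ j, (1 + algebraMap k K t * lam j) • e j) * ((∑ j, e j) * H) * E K arm r * B * Fᵀ =
      (∑ j, (1 + algebraMap k K t * lam j) • e j) *
        ((∑ j, e j) * H * E K arm r * B * Fᵀ) := by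
    simp only [Matrix.mul_assoc]
  rw [this, hF, Matrix.mul_zero]

/-- **the L-motion**, explicit -/
theorem exists_xi {t : k} (ht : t ∈ S) (s : Fin 3) {X : Matrix ι ι K}
    (hX : Xᵀ * J + J * X = 0) (hX1 : (∑ i, e i) * X = X) (hX2 : X * (∑ i, e i) = X)
    (hc : X * Phi arm J B (H + (algebraMap k K t) • G) s =
      Phi arm J B (H + (algebraMap k K t) • G) s * X) :
    ∃ ξ : Matrix δ δ K, ξᵀ * B + B * ξ = 0 ∧
      (H + (algebraMap k K t) • G) * ξᵀ = X * (H + (algebraMap k K t) • G) * E K arm s ∧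
      ∀ F : Matrix ι δ K, (∀ r, (∑ i, e i) * H * E K arm r * B * Fᵀ = 0) → F * ξᵀ = 0 := by
  have hD := h.data
  obtain ⟨Bi, hBi, hBi', hBit⟩ := symm_inv hD.B_symm hD.B_unit
  obtain ⟨Ji, hJi, hJi', hJit⟩ := symm_inv hD.J_symm hD.J_unit
  obtain ⟨a, ha⟩ := h.perft ht
  have hperpt := fun F r => h.perpt t (F := F) (r := r)
  have hsa := h.ee_sa
  set P : Matrix ι ι K := ∑ i, e i with hP
  set F0 : Matrix ι δ K := H + (algebraMap k K t) • G with hF0
  set Φ : Matrix ι ι K := Phi arm J B F0 s with hΦ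
  have hXT : Xᵀ * J = -(J * X) := eq_neg_of_add_eq_zero_left hX
  have hΦT : Φᵀ * J = J * Φ := by
    rw [hΦ]; unfold Phi
    rw [transpose_mul, hD.J_symm, Slack.M_transpose hD, Matrix.mul_assoc]
  have hΦdef : Φ = F0 * E K arm s * B * F0ᵀ * J := rfl
  set Θ : Matrix ι δ K := ∑ r, a r * P * F0 * E K arm r * B with hΘ
  have hΘ1 : Θ * (F0ᵀ * J) = P := by
    rw [hΘ, Matrix.sum_mul]
    refine (Finset.sum_congr rfl fun r _ => ?_).trans ha
    unfold Phi M
    simp only [Matrix.mul_assoc]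
  set Z : Matrix δ ι K := E K arm s * F0ᵀ * J * X with hZ
  have hZP : Z * P = Z := by
    rw [hZ]
    simp only [Matrix.mul_assoc]
    rw [hX2]
  have hZt : Zᵀ = -(J * X * F0 * E K arm s) := by
    rw [hZ, transpose_mul, transpose_mul, transpose_mul, transpose_transpose, E_transpose,
      hD.J_symm, ← Matrix.mul_assoc, ← Matrix.mul_assoc, hXT]
    simp only [Matrix.neg_mul, Matrix.mul_assoc]
  -- the skew form `J X Φ`
  have hSk : (J * X * Φ)ᵀ = -(J * X * Φ) := by
    rw [transpose_mul, transpose_mul, hD.J_symm, hXT, Matrix.mul_neg, ← Matrix.mul_assoc, hΦT,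
      Matrix.mul_assoc J Φ X, ← hc, Matrix.mul_assoc]
  refine ⟨-(Z * Θ) + Bi * (Θᵀ * Zᵀ * B) + Bi * (Θᵀ * (J * X * Φ) * Θ), ?_, ?_, ?_⟩
  · have e1 : B * (-(Z * Θ) + Bi * (Θᵀ * Zᵀ * B) + Bi * (Θᵀ * (J * X * Φ) * Θ))
        = -(B * Z * Θ) + Θᵀ * Zᵀ * B + Θᵀ * (J * X * Φ) * Θ := by
      rw [Matrix.mul_add, Matrix.mul_add, ← Matrix.mul_assoc B Bi, ← Matrix.mul_assoc B Bi, hBi,
        Matrix.one_mul, Matrix.one_mul, Matrix.mul_neg, ← Matrix.mul_assoc]
    have e2 : (-(Z * Θ) + Bi * (Θᵀ * Zᵀ * B) + Bi * (Θᵀ * (J * X * Φ) * Θ))ᵀ * B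
        = (B * (-(Z * Θ) + Bi * (Θᵀ * Zᵀ * B) + Bi * (Θᵀ * (J * X * Φ) * Θ)))ᵀ := by
      rw [transpose_mul B, hD.B_symm]
    have g1 : (B * Z * Θ)ᵀ = Θᵀ * Zᵀ * B := by
      rw [transpose_mul (B * Z) Θ, transpose_mul B Z, hD.B_symm, Matrix.mul_assoc]
    have g2 : (Θᵀ * Zᵀ * B)ᵀ = B * Z * Θ := by
      rw [← g1, transpose_transpose]
    have g3 : (Θᵀ * (J * X * Φ) * Θ)ᵀ = -(Θᵀ * (J * X * Φ) * Θ) := by
      rw [transpose_mul (Θᵀ * (J * X * Φ)) Θ, transpose_mul Θᵀ (J * X * Φ), transpose_transpose,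
        hSk, Matrix.neg_mul, Matrix.mul_neg]
      simp only [Matrix.mul_assoc]
    rw [e2, e1, transpose_add, transpose_add, transpose_neg, g1, g2, g3]
    abel
  · -- `ξ F0ᵀ J = -Z`
    have e1 : (-(Z * Θ) + Bi * (Θᵀ * Zᵀ * B) + Bi * (Θᵀ * (J * X * Φ) * Θ)) * (F0ᵀ * J)
        = -Z := by
      have e2 : Zᵀ * B * (F0ᵀ * J) = -(J * X * Φ) := by
        rw [hZt, hΦdef]
        simp only [Matrix.neg_mul, Matrix.mul_assoc]
      have e3 : (J * X * Φ) * P = J * X * Φ := by
        rw [Matrix.mul_assoc J X Φ, hc, Matrix.mul_assoc J, Matrix.mul_assoc Φ, hX2]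
      have e4 : -(Z * Θ) * (F0ᵀ * J) = -Z := by
        rw [Matrix.neg_mul, Matrix.mul_assoc, hΘ1, hZP]
      have e5 : Bi * (Θᵀ * Zᵀ * B) * (F0ᵀ * J) = -(Bi * (Θᵀ * (J * X * Φ))) := by
        have : Bi * (Θᵀ * Zᵀ * B) * (F0ᵀ * J) = Bi * (Θᵀ * (Zᵀ * B * (F0ᵀ * J))) := by
          simp only [Matrix.mul_assoc]
        rw [this, e2, Matrix.mul_neg, Matrix.mul_neg]
      have e6 : Bi * (Θᵀ * (J * X * Φ) * Θ) * (F0ᵀ * J) = Bi * (Θᵀ * (J * X * Φ)) := by
        have : Bi * (Θᵀ * (J * X * Φ) * Θ) * (F0ᵀ * J)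
            = Bi * (Θᵀ * ((J * X * Φ) * (Θ * (F0ᵀ * J)))) := by
          simp only [Matrix.mul_assoc]
        rw [this, hΘ1, e3]
      rw [Matrix.add_mul, Matrix.add_mul, e4, e5, e6, neg_add_cancel_right]
    generalize (-(Z * Θ) + Bi * (Θᵀ * Zᵀ * B) + Bi * (Θᵀ * (J * X * Φ) * Θ)) = ξ at e1
    have e7 := congrArg transpose e1
    rw [transpose_mul, transpose_mul, transpose_transpose, hD.J_symm, transpose_neg, hZt,
      neg_neg] at e7
    have e8 := congrArg (fun A => Ji * A) e7
    simp only [Matrix.mul_assoc] at e8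
    rw [← Matrix.mul_assoc Ji J, ← Matrix.mul_assoc Ji J, hJi', Matrix.one_mul,
      Matrix.one_mul] at e8
    rw [e8, Matrix.mul_assoc]
  · intro F hF
    have f1 : ∀ r, P * F0 * E K arm r * B * Fᵀ = 0 := fun r => hperpt F r (hF r)
    have f2 : Θ * Fᵀ = 0 := by
      rw [hΘ, Matrix.sum_mul]
      refine Finset.sum_eq_zero fun r _ => ?_
      have : a r * P * F0 * E K arm r * B * Fᵀ = a r * (P * F0 * E K arm r * B * Fᵀ) := by
        simp only [Matrix.mul_assoc]
      rw [this, f1 r, Matrix.mul_zero]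
    have f3 : Zᵀ * B * Fᵀ = 0 := by
      rw [hZt]
      have : -(J * X * F0 * E K arm s) * B * Fᵀ = -(J * X * (P * F0 * E K arm s * B * Fᵀ)) := by
        rw [← hX2]
        simp only [Matrix.neg_mul, Matrix.mul_assoc]
        rw [← Matrix.mul_assoc P P, h.ee_ee]
      rw [this, f1 s, Matrix.mul_zero, neg_zero]
    have f4 : (-(Z * Θ) + Bi * (Θᵀ * Zᵀ * B) + Bi * (Θᵀ * (J * X * Φ) * Θ)) * Fᵀ = 0 := by
      have g1 : -(Z * Θ) * Fᵀ = 0 := by
        rw [Matrix.neg_mul, Matrix.mul_assoc, f2, Matrix.mul_zero, neg_zero]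
      have g2 : Bi * (Θᵀ * Zᵀ * B) * Fᵀ = 0 := by
        have : Bi * (Θᵀ * Zᵀ * B) * Fᵀ = Bi * (Θᵀ * (Zᵀ * B * Fᵀ)) := by
          simp only [Matrix.mul_assoc]
        rw [this, f3, Matrix.mul_zero, Matrix.mul_zero]
      have g3 : Bi * (Θᵀ * (J * X * Φ) * Θ) * Fᵀ = 0 := by
        have : Bi * (Θᵀ * (J * X * Φ) * Θ) * Fᵀ = Bi * (Θᵀ * (J * X * Φ) * (Θ * Fᵀ)) := by
          simp only [Matrix.mul_assoc]
        rw [this, f2, Matrix.mul_zero, Matrix.mul_zero]
      rw [Matrix.add_mul, Matrix.add_mul, g1, g2, g3, add_zero, add_zero]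
    have f5 := congrArg transpose f4
    rw [transpose_mul, transpose_transpose, transpose_zero] at f5
    exact f5

theorem sa_mul {J e : Matrix ι ι K} (he : eᵀ * J = J * e) (A : Matrix ι δ K) :
    Aᵀ * J * e = (e * A)ᵀ * J := by
  rw [transpose_mul, Matrix.mul_assoc Aᵀ eᵀ J, he, Matrix.mul_assoc]

/-- `(1 - ee) H` is perpendicular to the core -/
theorem perp0 (r : Fin 3) :
    (∑ i, e i) * H * E K arm r * B * ((1 - ∑ i, e i) * H)ᵀ = 0 := by
  obtain ⟨Ji, hJi, -, -⟩ := symm_inv h.data.J_symm h.data.J_unit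
  have hsa : (1 - ∑ i, e i)ᵀ * J = J * (1 - ∑ i, e i) := by
    rw [transpose_sub, transpose_one, Matrix.sub_mul, Matrix.mul_sub, h.ee_sa, Matrix.one_mul,
      Matrix.mul_one]
  have h1 : (∑ i, e i) * H * E K arm r * B * ((1 - ∑ i, e i) * H)ᵀ * J = 0 := by
    rw [Matrix.mul_assoc _ _ J]
    have h3 : ((1 - ∑ i, e i) * H)ᵀ * J = Hᵀ * J * (1 - ∑ i, e i) := by
      rw [transpose_mul, Matrix.mul_assoc Hᵀ _ J, hsa, Matrix.mul_assoc]
    rw [h3]
    have : (∑ i, e i) * H * E K arm r * B * (Hᵀ * J * (1 - ∑ i, e i)) =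
        ((∑ i, e i) * Phi arm J B H r) * (1 - ∑ i, e i) := by
      unfold Phi M; simp only [Matrix.mul_assoc]
    rw [this, h.ee_com, Matrix.mul_assoc, Matrix.mul_sub, Matrix.mul_one, h.ee_ee, sub_self,
      Matrix.mul_zero]
  have h2 : (∑ i, e i) * H * E K arm r * B * ((1 - ∑ i, e i) * H)ᵀ * J * Ji = 0 := by
    rw [h1, Matrix.zero_mul]
  rwa [Matrix.mul_assoc _ J Ji, hJi, Matrix.mul_one] at h2

theorem perpt' {t : k} (ht : t ∈ S) {F : Matrix ι δ K} {r : Fin 3}
    (hF : (∑ i, e i) * (H + (algebraMap k K t) • G) * E K arm r * B * Fᵀ = 0) :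
    (∑ i, e i) * H * E K arm r * B * Fᵀ = 0 := by
  have h1 : (∑ i, e i) * H = (∑ i, (1 + algebraMap k K t * lam i)⁻¹ • e i) *
      ((∑ i, e i) * (H + (algebraMap k K t) • G)) := by
    rw [← Matrix.mul_assoc, Matrix.sum_mul (s := Finset.univ) (f := e), Matrix.sum_mul,
      Matrix.sum_mul]
    refine Finset.sum_congr rfl fun i _ => ?_
    rw [Matrix.smul_mul, Matrix.smul_mul, h.e_ee, h.eHt, smul_smul,
      inv_mul_cancel₀ (h.ne t ht i), one_smul]
  rw [h1]
  have : (∑ i, (1 + algebraMap k K t * lam i)⁻¹ • e i) *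
      ((∑ i, e i) * (H + (algebraMap k K t) • G)) * E K arm r * B * Fᵀ =
      (∑ i, (1 + algebraMap k K t * lam i)⁻¹ • e i) *
      ((∑ i, e i) * (H + (algebraMap k K t) • G) * E K arm r * B * Fᵀ) := by
    simp only [Matrix.mul_assoc]
  rw [this, hF, Matrix.mul_zero]

/-- derivations killing `Φ(Ht)` kill the blocks -/
theorem der_e_zero {t : k} (ht : t ∈ S) (d : Derivation k K K)
    (hPhi : ∀ r, (Phi arm J B (H + (algebraMap k K t) • G) r).map d = 0) (i : n) :
    (e i).map d = 0 := by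
  have hz : ∀ r, (e i).map d * Phi arm J B (H + (algebraMap k K t) • G) r =
      Phi arm J B (H + (algebraMap k K t) • G) r * (e i).map d := by
    intro r
    have h1 := congrArg (fun A : Matrix ι ι K => A.map d) (h.comt t i r)
    simp only [map_mul_der, hPhi r, Matrix.mul_zero, Matrix.zero_mul, add_zero, zero_add] at h1
    exact h1
  obtain ⟨a1, a2⟩ := h.hom t ht _ hz
  have h1 : (e i).map d = (e i).map d * e i + e i * (e i).map d := by
    have := congrArg (fun A : Matrix ι ι K => A.map d) (h.idem i)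
    simp only [map_mul_der] at this
    exact this.symm
  obtain ⟨a3, a4⟩ := a2 i
  generalize (e i).map d = z at *
  have h2 : e i * z * e i = 0 := by
    have h3 := congrArg (fun A : Matrix ι ι K => e i * A * e i) h1
    simp only [Matrix.mul_add, Matrix.add_mul] at h3
    have h4 : e i * (z * e i) * e i = e i * z * e i := by
      rw [Matrix.mul_assoc, Matrix.mul_assoc z, h.idem, Matrix.mul_assoc]
    have h5 : e i * (e i * z) * e i = e i * z * e i := by
      rw [← Matrix.mul_assoc, h.idem]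
    rw [h4, h5] at h3
    exact add_left_cancel (h3.symm.trans (add_zero _).symm)
  have h6 : e i * z = 0 := by
    have h7 : e i * z * (∑ j, e j) = 0 := by
      rw [Matrix.mul_sum]
      refine Finset.sum_eq_zero fun j _ => ?_
      by_cases hj : i = j
      · subst hj; exact h2
      · exact a1 i j hj
    rw [Matrix.mul_sub, Matrix.mul_one, h7, sub_zero] at a3
    exact a3
  have h8 : z * e i = 0 := by
    have h7 : (∑ j, e j) * z * e i = 0 := by
      rw [Matrix.sum_mul, Matrix.sum_mul]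
      refine Finset.sum_eq_zero fun j _ => ?_
      by_cases hj : j = i
      · subst hj; exact h2
      · exact a1 j i hj
    rw [Matrix.sub_mul, Matrix.one_mul, Matrix.sub_mul, h7, sub_zero] at a4
    exact a4
  rw [h1, h6, h8, add_zero]

end Cx

/-- the derivation realising `x - x'` at the arm `s` for the point `H + tG` -/
structure Mo (arm : δ → Fin 3) (J : Matrix ι ι K) (B : Matrix δ δ K)
    (N W : Submodule K (Matrix ι δ K)) (H G : Matrix ι δ K) (e : n → Matrix ι ι K)
    (t : k) (s : Fin 3) (i j : n) (x x' : Matrix ι ι K) (d : Derivation k K K)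
    (ξ : Matrix δ δ K) : Prop where
  hx : e j * x * e i = x
  hx' : e i * x' * e j = x'
  real : Realises arm N W (fun u => if u = s then x - x' else 0) ξ d
  de : ∀ l, (e l).map d = 0
  dPhi : ∀ r, (Phi arm J B (H + (algebraMap k K t) • G) r).map d = 0
  dHt : (H + (algebraMap k K t) • G).map d =
    (x - x') * (H + (algebraMap k K t) • G) * E K arm s
  perp : ∀ F : Matrix ι δ K, (∀ r, (∑ i, e i) * H * E K arm r * B * Fᵀ = 0) → F * ξᵀ = 0
  cx : x * Phi arm J B (H + (algebraMap k K t) • G) s =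
    Phi arm J B (H + (algebraMap k K t) • G) s * x
  cx' : x' * Phi arm J B (H + (algebraMap k K t) • G) s =
    Phi arm J B (H + (algebraMap k K t) • G) s * x'

theorem act_single (s : Fin 3) (X : Matrix ι ι K) (F : Matrix ι δ K) :
    act arm (fun u => if u = s then X else 0) F = X * F * E K arm s := by
  unfold act
  rw [Finset.sum_eq_single s]
  · simp
  · intro u _ hu; simp [hu]
  · intro hu; exact absurd (Finset.mem_univ s) hu

namespace Cx

variable (h : Cx k S arm J B N W H G e lam)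
include h

theorem motion {t : k} (ht : t ∈ S) (s : Fin 3) {i j : n} {x x' : Matrix ι ι K}
    (hx : e j * x * e i = x) (hx' : xᵀ * J = J * x')
    (hxc : (1 + algebraMap k K t * lam i) ^ 2 • (x * Phi arm J B H s) =
      (1 + algebraMap k K t * lam j) ^ 2 • (Phi arm J B H s * x)) :
    ∃ (d : Derivation k K K) (ξ : Matrix δ δ K), Mo arm J B N W H G e t s i j x x' d ξ := by
  have hD := h.data
  obtain ⟨Ji, hJi, hJi', hJit⟩ := symm_inv hD.J_symm hD.J_unit
  have hJc : ∀ {A C : Matrix ι ι K}, J * A = J * C → A = C := by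
    intro A C hAC
    have := congrArg (fun Z => Ji * Z) hAC
    simpa only [← Matrix.mul_assoc, hJi', Matrix.one_mul] using this
  have hx'e : e i * x' * e j = x' := by
    apply hJc
    have e0 : J * (e i * x' * e j) = (J * e i) * x' * e j := by simp only [Matrix.mul_assoc]
    rw [e0, ← h.sa, Matrix.mul_assoc (e i)ᵀ J, ← hx', Matrix.mul_assoc, Matrix.mul_assoc xᵀ,
      ← h.sa]
    conv_rhs => rw [← hx]
    rw [transpose_mul, transpose_mul]
    simp only [Matrix.mul_assoc]
  have hx'J : x'ᵀ * J = J * x := by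
    have := congrArg transpose hx'
    rw [transpose_mul, transpose_mul, transpose_transpose, hD.J_symm] at this
    exact this.symm
  set F0 : Matrix ι δ K := H + (algebraMap k K t) • G with hF0
  have hsa : (Phi arm J B F0 s)ᵀ * J = J * Phi arm J B F0 s := by
    unfold Phi
    rw [transpose_mul, hD.J_symm, Slack.M_transpose hD, Matrix.mul_assoc]
  have k1 : x * Phi arm J B F0 s = Phi arm J B F0 s * x := by
    have q1 : x * Phi arm J B F0 s = e j * x * (e i * Phi arm J B F0 s) := by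
      conv_lhs => rw [← hx]
      simp only [Matrix.mul_assoc]
    have q2 : Phi arm J B F0 s * x = (Phi arm J B F0 s * e j) * x * e i := by
      conv_lhs => rw [← hx]
      simp only [Matrix.mul_assoc]
    have q3 : e j * x * (e i * Phi arm J B H s) = x * Phi arm J B H s := by
      rw [← Matrix.mul_assoc, hx]
    have q4 : (Phi arm J B H s * e j) * x * e i = Phi arm J B H s * x := by
      conv_rhs => rw [← hx]
      simp only [Matrix.mul_assoc]
    rw [q1, q2, hF0, h.ePhi, h.Phie, Matrix.mul_smul, Matrix.smul_mul, Matrix.smul_mul, q3, q4,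
      hxc]
  have k2 : x' * Phi arm J B F0 s = Phi arm J B F0 s * x' := by
    apply hJc
    have h1 := congrArg (fun A : Matrix ι ι K => Aᵀ * J) k1
    simp only [transpose_mul] at h1
    rw [Matrix.mul_assoc, hx', Matrix.mul_assoc, hsa, ← Matrix.mul_assoc, hsa,
      ← Matrix.mul_assoc, hx'] at h1
    rw [← Matrix.mul_assoc, ← Matrix.mul_assoc]
    exact h1.symm
  have hcomm : (x - x') * Phi arm J B F0 s = Phi arm J B F0 s * (x - x') := by
    rw [Matrix.sub_mul, Matrix.mul_sub, k1, k2]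
  have hskew : (x - x')ᵀ * J + J * (x - x') = 0 := by
    rw [transpose_sub, Matrix.sub_mul, hx', hx'J, Matrix.mul_sub]
    abel
  have hl : (∑ i, e i) * (x - x') = x - x' := by
    rw [Matrix.mul_sub]
    congr 1
    · rw [← hx, ← Matrix.mul_assoc, ← Matrix.mul_assoc, h.ee_e]
    · rw [← hx'e, ← Matrix.mul_assoc, ← Matrix.mul_assoc, h.ee_e]
  have hr : (x - x') * (∑ i, e i) = x - x' := by
    rw [Matrix.sub_mul]
    congr 1
    · rw [← hx, Matrix.mul_assoc, h.e_ee]
    · rw [← hx'e, Matrix.mul_assoc, h.e_ee]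
  obtain ⟨ξ, hξ, hξF, hξp⟩ := h.exists_xi ht s hskew hl hr hcomm
  have hXsk : ∀ u, ((fun u => if u = s then x - x' else 0 : Fin 3 → Matrix ι ι K) u)ᵀ * J +
      J * (fun u => if u = s then x - x' else 0 : Fin 3 → Matrix ι ι K) u = 0 := by
    intro u
    by_cases hu : u = s
    · simp only [hu, if_true]; exact hskew
    · simp [hu]
  obtain ⟨d0, hd0⟩ := hD.dir (fun u => if u = s then x - x' else 0) ξ hXsk hξ
  have hg := h.gen t ht
  have h1 : F0.map d0 - act arm (fun u => if u = s then x - x' else 0) F0 ∈ N ⊓ W := by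
    refine ⟨hd0.onN F0 hg.mem.1, ?_⟩
    have := hd0.onW F0 hg.mem.2
    rw [act_single]
    rwa [hξF] at this
  obtain ⟨d1, hd1, hr1⟩ := hg.vert _ h1
  have hsub : ∀ G : Matrix ι δ K, G.map (d0 - d1) = G.map d0 - G.map d1 := by
    intro G; ext i j; simp
  have hdF : F0.map (d0 - d1) = act arm (fun u => if u = s then x - x' else 0) F0 := by
    rw [hsub, hd1]
    abel
  have hPhi : ∀ u, (Phi arm J B F0 u).map (d0 - d1) = 0 := by
    intro u
    rw [hD.map_Phi _ (fun u => if u = s then x - x' else 0) hXsk _ hdF u]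
    by_cases hu : u = s
    · subst hu
      simp only [if_true]
      rw [hcomm, sub_self]
    · simp [hu]
  refine ⟨d0 - d1, ξ, hx, hx'e, ⟨?_, ?_⟩, h.der_e_zero ht _ hPhi, hPhi, ?_, hξp, k1, k2⟩
  · intro G hG
    have h2 := hd0.onN G hG
    have h3 := hr1.onN G hG
    rw [act_zero, sub_zero] at h3
    rw [hsub]
    have : G.map d0 - G.map d1 - act arm (fun u => if u = s then x - x' else 0) G =
      (G.map d0 - act arm (fun u => if u = s then x - x' else 0) G) - G.map d1 := by abel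
    rw [this]
    exact N.sub_mem h2 h3
  · intro G hG
    have h2 := hd0.onW G hG
    have h3 := hr1.onW G hG
    rw [transpose_zero, Matrix.mul_zero, sub_zero] at h3
    rw [hsub]
    have : G.map d0 - G.map d1 - G * ξᵀ = (G.map d0 - G * ξᵀ) - G.map d1 := by abel
    rw [this]
    exact W.sub_mem h2 h3
  · rw [hdF, act_single]

section mo

variable {t : k} {s : Fin 3} {i j : n} {x x' : Matrix ι ι K} {d : Derivation k K K}
  {ξ : Matrix δ δ K}

theorem xHt (m : Mo arm J B N W H G e t s i j x x' d ξ) :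
    x * (H + (algebraMap k K t) • G) = (1 + algebraMap k K t * lam i) • (x * H) := by
  have e1 : x * (H + (algebraMap k K t) • G) = e j * x * (e i * (H + (algebraMap k K t) • G)) := by
    rw [← Matrix.mul_assoc, m.hx]
  rw [e1, h.eHt, Matrix.mul_smul, ← Matrix.mul_assoc, m.hx]

theorem x'Ht (m : Mo arm J B N W H G e t s i j x x' d ξ) :
    x' * (H + (algebraMap k K t) • G) = (1 + algebraMap k K t * lam j) • (x' * H) := by
  have e1 : x' * (H + (algebraMap k K t) • G) =
      e i * x' * (e j * (H + (algebraMap k K t) • G)) := by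
    rw [← Matrix.mul_assoc, m.hx']
  rw [e1, h.eHt, Matrix.mul_smul, ← Matrix.mul_assoc, m.hx']

/-- the derivative of a block of `H` -/
theorem edH (ht : t ∈ S) (m : Mo arm J B N W H G e t s i j x x' d ξ) (l : n) :
    e l * H.map d =
      ((1 + algebraMap k K t * lam l)⁻¹ * (1 + algebraMap k K t * lam i)) •
          (e l * x * H * E K arm s) -
        ((1 + algebraMap k K t * lam l)⁻¹ * (1 + algebraMap k K t * lam j)) •
          (e l * x' * H * E K arm s) -
        ((1 + algebraMap k K t * lam l)⁻¹ * (algebraMap k K t * d (lam l))) • (e l * H) := by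
  have h1 := congrArg (fun A : Matrix ι δ K => A.map d) (h.eHt t l)
  simp only [map_mul_der, m.de l, Matrix.zero_mul, zero_add, map_smul_der] at h1
  have h2 : d (1 + algebraMap k K t * lam l) = algebraMap k K t * d (lam l) := by
    simp
  rw [h2, m.dHt] at h1
  have h3 : e l * ((x - x') * (H + (algebraMap k K t) • G) * E K arm s) =
      (1 + algebraMap k K t * lam i) • (e l * x * H * E K arm s) -
        (1 + algebraMap k K t * lam j) • (e l * x' * H * E K arm s) := by
    rw [Matrix.sub_mul, h.xHt m, h.x'Ht m, Matrix.sub_mul, Matrix.smul_mul, Matrix.smul_mul,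
      Matrix.mul_sub, Matrix.mul_smul, Matrix.mul_smul]
    simp only [Matrix.mul_assoc]
  rw [h3] at h1
  have hne := h.ne t ht l
  have h4 : e l * H.map d = (1 + algebraMap k K t * lam l)⁻¹ •
      ((1 + algebraMap k K t * lam l) • (e l * H.map d)) := by
    rw [smul_smul, inv_mul_cancel₀ hne, one_smul]
  rw [h4]
  have h5 : (1 + algebraMap k K t * lam l) • (e l * H.map d) =
      (1 + algebraMap k K t * lam i) • (e l * x * H * E K arm s) -
        (1 + algebraMap k K t * lam j) • (e l * x' * H * E K arm s) -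
        (algebraMap k K t * d (lam l)) • (e l * H) := by
    rw [h1]; abel
  rw [h5, smul_sub, smul_sub, smul_smul, smul_smul, smul_smul]

theorem e_x_ne (m : Mo arm J B N W H G e t s i j x x' d ξ) {l : n} (hl : l ≠ j) :
    e l * x = 0 := by
  rw [← m.hx, ← Matrix.mul_assoc, ← Matrix.mul_assoc, h.orth l j hl, Matrix.zero_mul,
    Matrix.zero_mul]

theorem e_x (m : Mo arm J B N W H G e t s i j x x' d ξ) : e j * x = x := by
  conv_lhs => rw [← m.hx]
  rw [← Matrix.mul_assoc, ← Matrix.mul_assoc, h.idem, m.hx]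

theorem e_x'_ne (m : Mo arm J B N W H G e t s i j x x' d ξ) {l : n} (hl : l ≠ i) :
    e l * x' = 0 := by
  rw [← m.hx', ← Matrix.mul_assoc, ← Matrix.mul_assoc, h.orth l i hl, Matrix.zero_mul,
    Matrix.zero_mul]

theorem e_x' (m : Mo arm J B N W H G e t s i j x x' d ξ) : e i * x' = x' := by
  conv_lhs => rw [← m.hx']
  rw [← Matrix.mul_assoc, ← Matrix.mul_assoc, h.idem, m.hx']

theorem x_e_ne (m : Mo arm J B N W H G e t s i j x x' d ξ) {l : n} (hl : l ≠ i) :
    x * e l = 0 := by
  rw [← m.hx, Matrix.mul_assoc, h.orth i l hl.symm, Matrix.mul_zero]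

theorem x_e (m : Mo arm J B N W H G e t s i j x x' d ξ) : x * e i = x := by
  conv_lhs => rw [← m.hx]
  rw [Matrix.mul_assoc, h.idem, m.hx]

theorem x'_e_ne (m : Mo arm J B N W H G e t s i j x x' d ξ) {l : n} (hl : l ≠ j) :
    x' * e l = 0 := by
  rw [← m.hx', Matrix.mul_assoc, h.orth j l hl.symm, Matrix.mul_zero]

theorem x'_e (m : Mo arm J B N W H G e t s i j x x' d ξ) : x' * e j = x' := by
  conv_lhs => rw [← m.hx']
  rw [Matrix.mul_assoc, h.idem, m.hx']

/-- block combinations of `dH` -/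
theorem blk_dH (ht : t ∈ S) (m : Mo arm J B N W H G e t s i j x x' d ξ) (c : n → K) :
    ∃ μ : n → K, (∑ l, c l • e l) * H.map d =
      (c j * ((1 + algebraMap k K t * lam j)⁻¹ * (1 + algebraMap k K t * lam i))) •
          (x * H * E K arm s) -
        (c i * ((1 + algebraMap k K t * lam i)⁻¹ * (1 + algebraMap k K t * lam j))) •
          (x' * H * E K arm s) + (∑ l, μ l • e l) * H := by
  refine ⟨fun l => -(c l * ((1 + algebraMap k K t * lam l)⁻¹ * (algebraMap k K t * d (lam l)))),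
    ?_⟩
  have h1 : (∑ l, c l • e l) * H.map d = ∑ l, c l •
      (((1 + algebraMap k K t * lam l)⁻¹ * (1 + algebraMap k K t * lam i)) •
          (e l * x * H * E K arm s) -
        ((1 + algebraMap k K t * lam l)⁻¹ * (1 + algebraMap k K t * lam j)) •
          (e l * x' * H * E K arm s) -
        ((1 + algebraMap k K t * lam l)⁻¹ * (algebraMap k K t * d (lam l))) • (e l * H)) := by
    rw [Matrix.sum_mul]
    exact Finset.sum_congr rfl fun l _ => by rw [Matrix.smul_mul, h.edH ht m]
  rw [h1]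
  simp only [smul_sub, smul_smul, Finset.sum_sub_distrib]
  rw [Finset.sum_eq_single j (by
      intro l _ hl
      rw [h.e_x_ne m hl]; simp) (fun hj => absurd (Finset.mem_univ _) hj),
    Finset.sum_eq_single i (by
      intro l _ hl
      rw [h.e_x'_ne m hl]; simp) (fun hj => absurd (Finset.mem_univ _) hj), h.e_x m, h.e_x' m,
    Matrix.sum_mul, sub_eq_add_neg, ← Finset.sum_neg_distrib]
  congr 1
  refine Finset.sum_congr rfl fun l _ => ?_
  rw [Matrix.smul_mul, neg_smul]

theorem dee (m : Mo arm J B N W H G e t s i j x x' d ξ) : (∑ l, e l).map d = 0 := by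
  rw [map_sum_der]
  exact Finset.sum_eq_zero fun l _ => m.de l

theorem ee_x (m : Mo arm J B N W H G e t s i j x x' d ξ) : (x - x') * (∑ l, e l) = x - x' := by
  rw [Matrix.sub_mul]
  congr 1
  · rw [← m.hx, Matrix.mul_assoc, h.e_ee]
  · rw [← m.hx', Matrix.mul_assoc, h.e_ee]

/-- perpendicularity is preserved by the derivation -/
theorem perp_der (ht : t ∈ S) (m : Mo arm J B N W H G e t s i j x x' d ξ) {F : Matrix ι δ K}
    (hF : ∀ r, (∑ i, e i) * H * E K arm r * B * Fᵀ = 0) (r : Fin 3) :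
    (∑ i, e i) * H * E K arm r * B * (F.map d)ᵀ = 0 := by
  have hD := h.data
  apply h.perpt' ht
  have h1 := h.perpt t (hF r)
  have h2 := congrArg (fun A : Matrix ι ι K => A.map d) h1
  simp only [map_mul_der, hD.B_const, E_map_der, map_transpose_der, m.dHt, h.dee m,
    Matrix.mul_zero, Matrix.zero_mul, add_zero, zero_add, map_zero_der] at h2
  have h3 : (∑ i, e i) * ((x - x') * (H + (algebraMap k K t) • G) * E K arm s) * E K arm r * B *
      Fᵀ = 0 := by
    by_cases hr : s = r
    · subst hr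
      have e1 : (∑ i, e i) * ((x - x') * (H + (algebraMap k K t) • G) * E K arm s) * E K arm s *
          B * Fᵀ = (∑ i, e i) * ((x - x') * ((∑ i, e i) * (H + (algebraMap k K t) • G) *
            E K arm s * B * Fᵀ)) := by
        conv_lhs => rw [← h.ee_x m]
        simp only [Matrix.mul_assoc]
        rw [← Matrix.mul_assoc (E K arm s) (E K arm s), E_mul_self]
      rw [e1, h1, Matrix.mul_zero, Matrix.mul_zero]
    · have e1 : (∑ i, e i) * ((x - x') * (H + (algebraMap k K t) • G) * E K arm s) * E K arm r *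
          B * Fᵀ = (∑ i, e i) * ((x - x') * (H + (algebraMap k K t) • G) *
            ((E K arm s * E K arm r) * (B * Fᵀ))) := by
        simp only [Matrix.mul_assoc]
      rw [e1, E_mul_ne arm hr]
      simp
  rw [h3, zero_add] at h2
  exact h2

/-- the `T`-part is preserved by the derivation -/
theorem TT_der (ht : t ∈ S) (m : Mo arm J B N W H G e t s i j x x' d ξ) {g : Matrix ι δ K}
    (hg : g ∈ TT arm B W H (∑ i, e i)) : g.map d ∈ TT arm B W H (∑ i, e i) := by
  obtain ⟨g1, g2, g3⟩ := hg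
  refine ⟨?_, ?_, h.perp_der ht m g3⟩
  · have := m.real.onW g g1
    rwa [m.perp g g3, sub_zero] at this
  · have := congrArg (fun A : Matrix ι δ K => A.map d) g2
    simp only [map_mul_der, h.dee m, Matrix.zero_mul, zero_add, map_zero_der] at this
    exact this

/-- the part of `dH` outside the core -/
theorem dH_TT (ht : t ∈ S) (m : Mo arm J B N W H G e t s i j x x' d ξ) :
    (1 - ∑ i, e i) * H.map d ∈ TT arm B W H (∑ i, e i) := by
  have h1 : ((1 - ∑ i, e i) * H).map d = (1 - ∑ i, e i) * H.map d := by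
    rw [map_mul_der, map_sub_der, map_one_der, h.dee m]
    simp
  rw [← h1]
  refine ⟨?_, ?_, h.perp_der ht m h.perp0⟩
  · have := m.real.onW _ (h.data.W_left H h.memH.2 (1 - ∑ i, e i))
    rwa [m.perp _ h.perp0, sub_zero] at this
  · rw [h1, ← Matrix.mul_assoc, Matrix.mul_sub, Matrix.mul_one, h.ee_ee, sub_self,
      Matrix.zero_mul]

/-- the one-arm action of a block operator on `dH` -/
theorem y_dH (ht : t ∈ S) (m : Mo arm J B N W H G e t s i j x x' d ξ) (hij : i ≠ j)
    {y : Matrix ι ι K} (hy : y * e i = y) :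
    (1 + algebraMap k K t * lam i) • (y * H.map d) =
      -((1 + algebraMap k K t * lam j) • (y * x' * H * E K arm s)) -
        (algebraMap k K t * d (lam i)) • (y * H) := by
  have h1 := congrArg (fun A => y * A) (h.edH ht m i)
  simp only [← Matrix.mul_assoc, hy] at h1
  rw [h.e_x_ne m hij] at h1
  rw [h1]
  have hne := h.ne t ht i
  simp only [Matrix.mul_sub, Matrix.mul_neg, Matrix.mul_smul, smul_sub, smul_neg, smul_smul,
    ← Matrix.mul_assoc, hy, Matrix.zero_mul, smul_zero, Matrix.mul_zero, zero_sub,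
    mul_inv_cancel_left₀ hne]

/-- **first derivative** -/
theorem first {t : k} (ht : t ∈ S) (s : Fin 3) {i j : n} (hij : i ≠ j) (hl : lam i ≠ lam j)
    {x x' : Matrix ι ι K} (hx : e j * x * e i = x) (hx' : xᵀ * J = J * x')
    (hxc : (1 + algebraMap k K t * lam i) ^ 2 • (x * Phi arm J B H s) =
      (1 + algebraMap k K t * lam j) ^ 2 • (Phi arm J B H s * x)) :
    (1 + algebraMap k K t * lam i) • x + (1 + algebraMap k K t * lam j) • x' ∈
      QS arm B N W H e s := by
  obtain ⟨d, ξ, m⟩ := h.motion ht s hx hx' hxc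
  obtain ⟨μ, hμ⟩ := h.blk_dH ht m (fun _ => 1)
  have hTT := h.dH_TT ht m
  have hN : H.map d - (x - x') * H * E K arm s ∈ N := by
    have := m.real.onN H h.memH.1
    rwa [act_single] at this
  have hsp : H.map d = (∑ l, e l) * H.map d + (1 - ∑ l, e l) * H.map d := by
    rw [← Matrix.add_mul, add_sub_cancel, Matrix.one_mul]
  simp only [one_smul, one_mul] at hμ
  -- pass to the quotient
  set Qm := Q arm B N W H e with hQm
  have q1 : Qm.mkQ (H.map d - (x - x') * H * E K arm s) = 0 := by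
    rw [Submodule.mkQ_apply, Submodule.Quotient.mk_eq_zero]
    exact N_le_Q hN
  have q2 : Qm.mkQ ((1 - ∑ l, e l) * H.map d) = 0 := by
    rw [Submodule.mkQ_apply, Submodule.Quotient.mk_eq_zero]
    exact TT_le_Q hTT
  have q3 : Qm.mkQ ((∑ l, μ l • e l) * H) = 0 := by
    rw [Submodule.mkQ_apply, Submodule.Quotient.mk_eq_zero]
    exact blk_mem_Q μ
  rw [mem_QS, ← hQm, ← Submodule.Quotient.mk_eq_zero, ← Submodule.mkQ_apply]
  rw [hsp, hμ, Matrix.sub_mul x x', Matrix.sub_mul (x * H)] at q1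
  rw [Matrix.add_mul, Matrix.add_mul, Matrix.smul_mul, Matrix.smul_mul, Matrix.smul_mul,
    Matrix.smul_mul]
  simp only [map_add, map_sub, map_smul, q2, q3] at q1 ⊢
  set u := Qm.mkQ (x * H * E K arm s)
  set u' := Qm.mkQ (x' * H * E K arm s)
  set ai := 1 + algebraMap k K t * lam i with hai
  set aj := 1 + algebraMap k K t * lam j with haj
  have hi : ai ≠ 0 := h.ne t ht i
  have hj : aj ≠ 0 := h.ne t ht j
  have hd : ai - aj ≠ 0 := by
    have : ai - aj = algebraMap k K t * (lam i - lam j) := by rw [hai, haj]; ring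
    rw [this]
    exact mul_ne_zero (h.t0 t ht) (sub_ne_zero.2 hl)
  have key : (ai - aj) • (ai • u + aj • u') = 0 := by
    have e1 : (ai - aj) • (ai • u + aj • u') = (ai * aj) •
        ((aj⁻¹ * ai) • u - (ai⁻¹ * aj) • u' + 0 + 0 - (u - u')) := by
      have f1 : ai * aj * (aj⁻¹ * ai) = ai * ai := by field_simp
      have f2 : ai * aj * (ai⁻¹ * aj) = aj * aj := by field_simp
      simp only [smul_sub, smul_smul, add_zero, f1, f2]
      module
    rw [e1, q1, smul_zero]
  exact (smul_eq_zero.1 key).resolve_left hd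

/-- filteredness for `H` and `H + tG` -/
theorem pow_e (t : k) (l : n) (s : Fin 3) (v : ℕ) :
    e l * (Phi arm J B (H + (algebraMap k K t) • G) s) ^ v =
      ((1 + algebraMap k K t * lam l) ^ 2) ^ v • (e l * (Phi arm J B H s) ^ v) := by
  have hc : ∀ v : ℕ, e l * (Phi arm J B H s) ^ v = (Phi arm J B H s) ^ v * e l := by
    intro v
    exact ((show Commute (e l) (Phi arm J B H s) from h.com l s).pow_right v).eq
  induction v with
  | zero => simp
  | succ v ih =>
    rw [pow_succ, ← Matrix.mul_assoc, ih, Matrix.smul_mul, hc v, Matrix.mul_assoc, h.ePhi,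
      Matrix.mul_smul, smul_smul, ← Matrix.mul_assoc, ← hc v, Matrix.mul_assoc, ← pow_succ,
      ← pow_succ]

theorem pow_e' (t : k) (l : n) (s : Fin 3) (v : ℕ) :
    (Phi arm J B (H + (algebraMap k K t) • G) s) ^ v * e l =
      ((1 + algebraMap k K t * lam l) ^ 2) ^ v • ((Phi arm J B H s) ^ v * e l) := by
  have hc : e l * (Phi arm J B H s) ^ v = (Phi arm J B H s) ^ v * e l :=
    ((show Commute (e l) (Phi arm J B H s) from h.com l s).pow_right v).eq
  have hc' : e l * (Phi arm J B (H + (algebraMap k K t) • G) s) ^ v =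
      (Phi arm J B (H + (algebraMap k K t) • G) s) ^ v * e l :=
    ((show Commute (e l) (Phi arm J B (H + (algebraMap k K t) • G) s) from
      h.comt t l s).pow_right v).eq
  rw [← hc', h.pow_e, hc]

theorem fil_to {t : k} (ht : t ∈ S) {s : Fin 3} {i j : n} {y : Matrix ι ι K}
    (hy : e j * y * e i = y)
    (hf : ∀ v : ℕ, ∃ R, y * (Phi arm J B H s) ^ v = (Phi arm J B H s) ^ v * R) (v : ℕ) :
    ∃ R, y * (Phi arm J B (H + (algebraMap k K t) • G) s) ^ v =
      (Phi arm J B (H + (algebraMap k K t) • G) s) ^ v * R := by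
  obtain ⟨R, hR⟩ := hf v
  set ai := ((1 + algebraMap k K t * lam i) ^ 2) ^ v with hai
  set aj := ((1 + algebraMap k K t * lam j) ^ 2) ^ v with haj
  have hj : aj ≠ 0 := pow_ne_zero _ (pow_ne_zero _ (h.ne t ht j))
  have hc : e j * (Phi arm J B H s) ^ v = (Phi arm J B H s) ^ v * e j :=
    ((show Commute (e j) (Phi arm J B H s) from h.com j s).pow_right v).eq
  refine ⟨(ai * aj⁻¹) • (e j * R), ?_⟩
  have e1 : y * (Phi arm J B (H + (algebraMap k K t) • G) s) ^ v =
      ai • (y * (Phi arm J B H s) ^ v) := by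
    have : y * (Phi arm J B (H + (algebraMap k K t) • G) s) ^ v =
        e j * y * (e i * (Phi arm J B (H + (algebraMap k K t) • G) s) ^ v) := by
      rw [← Matrix.mul_assoc, hy]
    rw [this, h.pow_e, Matrix.mul_smul, ← Matrix.mul_assoc, hy]
  have e2 : y * (Phi arm J B H s) ^ v = (Phi arm J B H s) ^ v * (e j * R) := by
    have f1 : e j * y = y := by
      conv_lhs => rw [← hy]
      rw [← Matrix.mul_assoc, ← Matrix.mul_assoc, h.idem, hy]
    rw [← Matrix.mul_assoc, ← hc, Matrix.mul_assoc, ← hR, ← Matrix.mul_assoc, f1]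
  have e3 : (Phi arm J B (H + (algebraMap k K t) • G) s) ^ v * (e j * R) =
      aj • ((Phi arm J B H s) ^ v * (e j * R)) := by
    rw [← Matrix.mul_assoc, h.pow_e', Matrix.smul_mul, Matrix.mul_assoc]
  rw [e1, e2, Matrix.mul_smul, e3, smul_smul, mul_assoc, inv_mul_cancel₀ hj, mul_one]

theorem fil_from {t : k} (ht : t ∈ S) {s : Fin 3} {i j : n} {y : Matrix ι ι K}
    (hy : e j * y * e i = y)
    (hf : ∀ v : ℕ, ∃ R, y * (Phi arm J B (H + (algebraMap k K t) • G) s) ^ v =
      (Phi arm J B (H + (algebraMap k K t) • G) s) ^ v * R) (v : ℕ) :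
    ∃ R, y * (Phi arm J B H s) ^ v = (Phi arm J B H s) ^ v * R := by
  obtain ⟨R, hR⟩ := hf v
  set ai := ((1 + algebraMap k K t * lam i) ^ 2) ^ v with hai
  set aj := ((1 + algebraMap k K t * lam j) ^ 2) ^ v with haj
  have hi : ai ≠ 0 := pow_ne_zero _ (pow_ne_zero _ (h.ne t ht i))
  have hc : e j * (Phi arm J B (H + (algebraMap k K t) • G) s) ^ v =
      (Phi arm J B (H + (algebraMap k K t) • G) s) ^ v * e j :=
    ((show Commute (e j) (Phi arm J B (H + (algebraMap k K t) • G) s) from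
      h.comt t j s).pow_right v).eq
  refine ⟨(ai⁻¹ * aj) • (e j * R), ?_⟩
  have e1 : y * (Phi arm J B (H + (algebraMap k K t) • G) s) ^ v =
      ai • (y * (Phi arm J B H s) ^ v) := by
    have : y * (Phi arm J B (H + (algebraMap k K t) • G) s) ^ v =
        e j * y * (e i * (Phi arm J B (H + (algebraMap k K t) • G) s) ^ v) := by
      rw [← Matrix.mul_assoc, hy]
    rw [this, h.pow_e, Matrix.mul_smul, ← Matrix.mul_assoc, hy]
  have e2 : y * (Phi arm J B (H + (algebraMap k K t) • G) s) ^ v =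
      (Phi arm J B (H + (algebraMap k K t) • G) s) ^ v * (e j * R) := by
    have f1 : e j * y = y := by
      conv_lhs => rw [← hy]
      rw [← Matrix.mul_assoc, ← Matrix.mul_assoc, h.idem, hy]
    rw [← Matrix.mul_assoc, ← hc, Matrix.mul_assoc, ← hR, ← Matrix.mul_assoc, f1]
  have e3 : (Phi arm J B (H + (algebraMap k K t) • G) s) ^ v * (e j * R) =
      aj • ((Phi arm J B H s) ^ v * (e j * R)) := by
    rw [← Matrix.mul_assoc, h.pow_e', Matrix.smul_mul, Matrix.mul_assoc]
  rw [e1, e3] at e2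
  have e4 := congrArg (fun A => ai⁻¹ • A) e2
  simp only [smul_smul, inv_mul_cancel₀ hi, one_smul] at e4
  rw [e4, Matrix.mul_smul]

/-- commuting implies filtered -/
theorem fil_of_com {t : k} (ht : t ∈ S) {s : Fin 3} {i j : n} {y : Matrix ι ι K}
    (hy : e j * y * e i = y)
    (hc : y * Phi arm J B (H + (algebraMap k K t) • G) s =
      Phi arm J B (H + (algebraMap k K t) • G) s * y) (v : ℕ) :
    ∃ R, y * (Phi arm J B H s) ^ v = (Phi arm J B H s) ^ v * R := by
  refine h.fil_from ht hy (fun v => ⟨y, ?_⟩) v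
  exact ((show Commute y (Phi arm J B (H + (algebraMap k K t) • G) s) from hc).pow_right v).eq

/-- **second derivative** -/
theorem second {t : k} (ht : t ∈ S) (s : Fin 3) {i j : n} (hij : i ≠ j)
    {x x' : Matrix ι ι K} (hx : e j * x * e i = x) (hx' : xᵀ * J = J * x')
    (hxc : (1 + algebraMap k K t * lam i) ^ 2 • (x * Phi arm J B H s) =
      (1 + algebraMap k K t * lam j) ^ 2 • (Phi arm J B H s * x))
    (hfil : ∀ i' j' : n, i' ≠ j' → ∀ y : Matrix ι ι K, e j' * y * e i' = y →
      (∀ v : ℕ, ∃ R, y * (Phi arm J B H s) ^ v = (Phi arm J B H s) ^ v * R) →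
      y ∈ QS arm B N W H e s)
    {y : Matrix ι ι K} (hy : e j * y * e i = y)
    (hyf : ∀ v : ℕ, ∃ R, y * (Phi arm J B H s) ^ v = (Phi arm J B H s) ^ v * R) :
    (1 + algebraMap k K t * lam i) • (x' * y) - (1 + algebraMap k K t * lam j) • (y * x') ∈
      QS arm B N W H e s := by
  obtain ⟨d, ξ, m⟩ := h.motion ht s hx hx' hxc
  have hyi : y * e i = y := by
    conv_lhs => rw [← hy]
    rw [Matrix.mul_assoc, h.idem, hy]
  have hjy : e j * y = y := by
    conv_lhs => rw [← hy]
    rw [← Matrix.mul_assoc, ← Matrix.mul_assoc, h.idem, hy]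
  -- the four filtered operators
  have Qy := hfil i j hij y hy hyf
  have Qx := hfil i j hij x hx (h.fil_of_com ht hx m.cx)
  have Qx' := hfil j i hij.symm x' m.hx' (h.fil_of_com ht m.hx' m.cx')
  have hdy : e j * y.map d * e i = y.map d := by
    have := congrArg (fun A : Matrix ι ι K => A.map d) hy
    simpa only [map_mul_der, m.de, Matrix.zero_mul, Matrix.mul_zero, zero_add, add_zero] using this
  have Qdy := hfil i j hij (y.map d) hdy (h.fil_from ht hdy (fun v => by
    obtain ⟨R, hR⟩ := h.fil_to ht hy hyf v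
    refine ⟨R.map d, ?_⟩
    have := congrArg (fun A : Matrix ι ι K => A.map d) hR
    simpa only [map_mul_der, map_pow_zero d (m.dPhi s) v, Matrix.zero_mul, Matrix.mul_zero,
      zero_add, add_zero] using this))
  rw [mem_QS] at Qy Qx Qx' Qdy
  obtain ⟨μ, g, hg, hn⟩ := Qy
  -- the derivative of the decomposition of `y H E_s`
  have hN := m.real.onN _ hn
  rw [act_single] at hN
  obtain ⟨μ', hμ'⟩ := h.blk_dH ht m μ
  have hdg := h.TT_der ht m hg
  have hydH := h.y_dH ht m hij hyi
  have e0 : (y * H * E K arm s - (∑ l, μ l • e l) * H - g).map d =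
      y.map d * H * E K arm s + y * H.map d * E K arm s -
        ((∑ l, d (μ l) • e l) * H + (∑ l, μ l • e l) * H.map d) - g.map d := by
    have f1 : (∑ l, μ l • e l).map d = ∑ l, d (μ l) • e l := by
      rw [map_sum_der]
      refine Finset.sum_congr rfl fun l _ => ?_
      rw [map_smul_der, m.de l, smul_zero, add_zero]
    rw [map_sub_der, map_sub_der, map_mul_der _ (y * H), E_map_der, Matrix.mul_zero, add_zero,
      map_mul_der _ y, Matrix.add_mul, map_mul_der _ _ H, f1]
  have e1 : (x - x') * (y * H * E K arm s - (∑ l, μ l • e l) * H - g) * E K arm s =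
      -(x' * y * H * E K arm s) - (μ i • (x * H * E K arm s) - μ j • (x' * H * E K arm s)) := by
    have f1 : (x - x') * g = 0 := by
      rw [← h.ee_x m, Matrix.mul_assoc, hg.2.1, Matrix.mul_zero]
    have f2 : x * y = 0 := by
      rw [← m.hx, ← hy]
      have : e j * x * e i * (e j * y * e i) = e j * x * (e i * e j) * y * e i := by
        simp only [Matrix.mul_assoc]
      rw [this, h.orth i j hij]; simp
    have f3 : (x - x') * (∑ l, μ l • e l) = μ i • x - μ j • x' := by
      rw [Matrix.sub_mul, Matrix.mul_sum, Matrix.mul_sum]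
      congr 1
      · rw [Finset.sum_eq_single i (fun l _ hl => by
          rw [Matrix.mul_smul, h.x_e_ne m hl, smul_zero])
          (fun hj => absurd (Finset.mem_univ _) hj), Matrix.mul_smul, h.x_e m]
      · rw [Finset.sum_eq_single j (fun l _ hl => by
          rw [Matrix.mul_smul, h.x'_e_ne m hl, smul_zero])
          (fun hj => absurd (Finset.mem_univ _) hj), Matrix.mul_smul, h.x'_e m]
    have f4 : (x - x') * (y * H * E K arm s) * E K arm s = -(x' * y * H * E K arm s) := by
      have : (x - x') * (y * H * E K arm s) * E K arm s =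
          (x - x') * y * H * (E K arm s * E K arm s) := by
        simp only [Matrix.mul_assoc]
      rw [this, E_mul_self, Matrix.sub_mul, f2, zero_sub, Matrix.neg_mul, Matrix.neg_mul]
    rw [Matrix.mul_sub, Matrix.mul_sub, f1, sub_zero, Matrix.sub_mul, f4, ← Matrix.mul_assoc,
      f3, Matrix.sub_mul (μ i • x), Matrix.sub_mul]
    simp only [Matrix.smul_mul]
  rw [e0, e1, hμ'] at hN
  -- quotient
  set Qm := Q arm B N W H e with hQm
  have q0 : ∀ {Z : Matrix ι δ K}, Z ∈ Qm → Qm.mkQ Z = 0 := by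
    intro Z hZ
    rw [Submodule.mkQ_apply, Submodule.Quotient.mk_eq_zero]
    exact hZ
  have q1 := q0 (N_le_Q hN)
  have q2 := q0 (TT_le_Q hdg)
  have q3 := q0 (blk_mem_Q (arm := arm) (B := B) (N := N) (W := W) (H := H) (e := e) μ')
  have q4 := q0 (blk_mem_Q (arm := arm) (B := B) (N := N) (W := W) (H := H) (e := e)
    (fun l => d (μ l)))
  have q5 := q0 Qx
  have q6 := q0 Qx'
  have q7 := q0 Qdy
  have q8 : Qm.mkQ (y * H * E K arm s) = 0 := q0 ⟨μ, g, hg, hn⟩
  have q9 := congrArg (fun A => Qm.mkQ (A * E K arm s)) hydH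
  simp only [Matrix.sub_mul, Matrix.neg_mul, Matrix.smul_mul] at q9
  rw [Matrix.mul_assoc _ (E K arm s) (E K arm s), E_mul_self] at q9
  rw [mem_QS, ← hQm, ← Submodule.Quotient.mk_eq_zero, ← Submodule.mkQ_apply]
  rw [Matrix.sub_mul, Matrix.sub_mul, Matrix.smul_mul, Matrix.smul_mul, Matrix.smul_mul,
    Matrix.smul_mul]
  simp only [map_add, map_sub, map_smul, map_neg, q2, q3, q4, q5, q6, q7, q8, smul_zero, zero_add,
    add_zero, sub_zero, zero_sub, neg_zero, sub_neg_eq_add] at q1 q9 ⊢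
  have q10 := congrArg (fun A => (1 + algebraMap k K t * lam i) • A) q1
  simp only [smul_add, smul_zero] at q10
  rw [q9] at q10
  rw [← q10]
  abel

end mo

end Cx

end Crest.Agent.R172.QQ1
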