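import Crest.Agent.R172.N5b
import Crest.Agent.R172.QQ1

/-!
Row 172, TAME (T0), node N5, part 3 (radical zero): Hom-vanishing for `F + t G` and the passage to
`QQ1.Cx`.
-/

set_option autoImplicit false
set_option linter.unusedSectionVars false
set_option maxHeartbeats 400000

namespace Crest.Agent.R172.N5

open Module Matrix Crest.AlgebraR.SpinSaturation Crest.Agent.R172.SoGrade Crest.Agent.R172.CF
open Crest.Agent.R172.Gen (Jm Ix emb Ent ent)
open Crest.Agent.R172.ThX Crest.Agent.R172.CSys Crest.Agent.R172.TG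
open Crest.Agent.R172.Core (NS cp BM Tame)
open Crest.Agent.R172.QN (Co Psi)

variable {n : ℕ} {a : Fin 3 → Fin n → ℤ} {c : Cfg n a} {K : Type} [Field K] [Algebra ℂ K]
variable {N W : Submodule K (Matrix (Ix n) c.δ K)} {F G : Matrix (Ix n) c.δ K}
variable {C : St.Core (BV n K) (Ph F)} {τ : Module.End K C.M}
variable {Q : Fin 3 → Matrix (Ix n) (Ix n) K} {m : ℕ}

/-- `1 + t τ` is invertible if `-1/t` is not an eigenvalue -/
theorem exists_inv (t : K) (ht : ∀ ν, τ.maxGenEigenspace ν ≠ ⊥ → 1 + t * ν ≠ 0) :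
    ∃ σ : Module.End K C.M, (1 + t • τ) * σ = 1 ∧ σ * (1 + t • τ) = 1 := by
  have hinj : Function.Injective (1 + t • τ : Module.End K C.M) := by
    rw [← LinearMap.ker_eq_bot, LinearMap.ker_eq_bot']
    intro v hv
    have hv' : v + t • τ v = 0 := hv
    by_cases h0 : t = 0
    · subst h0
      simpa using hv'
    · by_contra hne
      have h1 : τ v = (-t⁻¹) • v := by
        have h2 : t • τ v = -v := by
          rw [eq_neg_iff_add_eq_zero, add_comm]; exact hv'
        calc τ v = t⁻¹ • (t • τ v) := by rw [smul_smul, inv_mul_cancel₀ h0, one_smul]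
          _ = _ := by rw [h2, smul_neg]; exact (neg_smul _ _).symm
      have h3 : v ∈ τ.maxGenEigenspace (-t⁻¹) := by
        rw [Module.End.mem_maxGenEigenspace]
        refine ⟨1, ?_⟩
        rw [pow_one, LinearMap.sub_apply, h1]
        exact sub_self _
      refine ht (-t⁻¹) (fun h => hne ?_) ?_
      · rw [h, Submodule.mem_bot] at h3
        exact h3
      · rw [mul_neg, mul_inv_cancel₀ h0]
        ring
  let E := LinearEquiv.ofInjectiveEndo (1 + t • τ : Module.End K C.M) hinj
  refine ⟨E.symm, ?_, ?_⟩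
  · apply LinearMap.ext
    intro v
    exact E.apply_symm_apply v
  · apply LinearMap.ext
    intro v
    exact E.symm_apply_apply v

theorem ht_add_smul (t : K) : ht C (1 + t • τ) = eM C + t • ht C τ := by
  rw [ht, map_add, map_smul]
  congr 1
  exact ht_one

variable (h : Co ℂ c.arm (Jm n K) (c.B K) N W F (eM C) Q m) (hG : G ∈ N ⊓ W)
  (hR : Rad0 (BV n K) (Ph F)) (hT : TameAt F G C τ)

include h hG hR hT in
theorem Phi_t_e (t : K) (r : Fin 3) :
    FO.Phi c.arm (Jm n K) (c.B K) (F + t • G) r * eM C =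
      ht C ((1 + t • τ) * (1 + t • τ)) * FO.Phi c.arm (Jm n K) (c.B K) F r := by
  rw [h.Phi_add_e hG, DD_eq_ht h hG hR hT, ← ht_add_smul, ht_mul]

include h hG hR hT in
/-- `Φ_r(F + t G) = (1 + t τ)² Φ_r(F)` on the core -/
theorem Ph_t_apply (t : K) (r : Fin 3) (v : C.M) :
    Ph (F + t • G) r v = ((1 + t • τ) * (1 + t • τ)) (cp C (Ph F r) v) := by
  have hsa := Ph_sa h.data h.gen.mem
  have hv : eM C *ᵥ (v : Ix n → K) = v := by rw [eM_mulVec, C.fix _ v.2]
  have h1 := congrArg (fun A => A *ᵥ (v : Ix n → K)) (Phi_t_e h hG hR hT t r)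
  rw [← mulVec_mulVec, hv, ← mulVec_mulVec, ht_mulVec] at h1
  rw [Ph_apply, h1]
  congr 2
  apply Subtype.ext
  rw [Core.cp_coe, Ph_apply]

include h hG hR hT in
/-- words of `Φ(F + t G)` on the core -/
theorem wd_t (t : K) (l : List (Fin 3)) (v : C.M) :
    Core.wd (Ph (F + t • G)) l (v : Ix n → K) =
      (((1 + t • τ) * (1 + t • τ)) ^ l.length : Module.End K C.M)
        (Core.wd (fun s => cp C (Ph F s)) l v) := by
  have hc : ∀ s, Commute (1 + t • τ) (cp C (Ph F s)) := by
    intro s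
    refine (Commute.one_left _).add_left ?_
    refine Commute.smul_left ?_ t
    exact LinearMap.ext fun v => hT.comm s v
  have hc2 : ∀ s k, Commute (((1 + t • τ) * (1 + t • τ)) ^ k) (cp C (Ph F s)) := fun s k =>
    ((hc s).mul_left (hc s)).pow_left k
  induction l with
  | nil => simp [Core.wd]
  | cons s l ih =>
    rw [ThX.wd_cons, ih, Ph_t_apply h hG hR hT, ThX.wd_cons, List.length_cons, pow_succ']
    have h1 := LinearMap.congr_fun (hc2 s l.length).eq (Core.wd (fun s => cp C (Ph F s)) l v)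
    rw [Module.End.mul_apply, Module.End.mul_apply] at h1
    rw [← h1]
    rfl

include h hG hR hT in
/-- the core of `Φ(F + t G)` -/
theorem exists_core_t (t : K) (ht : ∀ ν, τ.maxGenEigenspace ν ≠ ⊥ → 1 + t * ν ≠ 0) :
    ∃ C' : St.Core (BV n K) (Ph (F + t • G)), C'.M = C.M ∧ C'.π = C.π := by
  have hcz : CharZero K := charZero_of_injective_algebraMap (algebraMap ℂ K).injective
  have hsa := Ph_sa h.data h.gen.mem
  have hsat := Ph_sa h.data (h.mem_add hG t)
  obtain ⟨σ, hσ1, hσ2⟩ := exists_inv t ht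
  have hcom : ∀ s v, C.π (Ph (F + t • G) s v) = Ph (F + t • G) s (C.π v) := by
    intro s v
    rw [← eM_mulVec, ← eM_mulVec, Ph_apply, Ph_apply, mulVec_mulVec, mulVec_mulVec,
      h.e_Phi_add hG, h.Phi_add_e hG]
  have hwcom : ∀ (l : List (Fin 3)) v, C.π (Core.wd (Ph (F + t • G)) l v) =
      Core.wd (Ph (F + t • G)) l (C.π v) := by
    intro l v
    exact (Core.wd_comm (E := C.π) hcom l v).symm
  have hkill : ∀ v ∈ St.T (Ph (F + t • G)), C.π v = 0 := by
    intro v hv
    obtain ⟨N', hN'⟩ := St.mem_T.1 hv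
    rw [Core.mem_Nk_iff] at hN'
    have h1 : C.π v ∈ St.T (Ph F) := by
      refine St.mem_T.2 ⟨N', ?_⟩
      rw [Core.mem_Nk_iff]
      intro l hl
      have h2 := hwcom l v
      rw [hN' l hl, map_zero] at h2
      have h3 := wd_t h hG hR hT t l ⟨C.π v, C.mem v⟩
      rw [← h2] at h3
      have h4 : (((1 + t • τ) * (1 + t • τ)) ^ l.length : Module.End K C.M)
          (Core.wd (fun s => cp C (Ph F s)) l ⟨C.π v, C.mem v⟩) = 0 := Subtype.ext h3.symm
      have h5 : ∀ k, (σ * σ) ^ k * ((1 + t • τ) * (1 + t • τ)) ^ k = 1 := by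
        intro k
        have hcs : Commute (σ * σ) ((1 + t • τ) * (1 + t • τ)) := by
          have h6 : Commute σ (1 + t • τ) := by rw [Commute, SemiconjBy, hσ1, hσ2]
          exact (h6.mul_left h6).mul_right (h6.mul_left h6)
        rw [← hcs.mul_pow]
        have : σ * σ * ((1 + t • τ) * (1 + t • τ)) = 1 := by
          calc σ * σ * ((1 + t • τ) * (1 + t • τ)) = σ * (σ * (1 + t • τ)) * (1 + t • τ) := by
                simp only [mul_assoc]
            _ = 1 := by rw [hσ2, mul_one, hσ2]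
        rw [this, one_pow]
      have h6 := congrArg ((σ * σ) ^ l.length : Module.End K C.M) h4
      rw [← Module.End.mul_apply, h5, map_zero, Module.End.one_apply] at h6
      -- words of `Ph F` on the core
      have h7 : ∀ (l : List (Fin 3)) (v : C.M),
          Core.wd (Ph F) l (v : Ix n → K) = (Core.wd (fun s => cp C (Ph F s)) l v : C.M) := by
        intro l v
        induction l with
        | nil => simp [Core.wd]
        | cons s l ih =>
          rw [ThX.wd_cons, ih, ThX.wd_cons, cp_val hR C (Core.pres_Φ hsa s)]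
      have h8 := h7 l ⟨C.π v, C.mem v⟩
      rw [h6] at h8
      exact h8
    exact hR _ h1 (C.le _ (C.mem v))
  refine ⟨⟨C.M, C.π, ?_, C.mem, C.fix, C.sa, hkill, ?_⟩, rfl, rfl⟩
  · intro v hv w hw
    rw [← C.fix v hv, C.sa, hkill w hw, map_zero]
  · intro v _
    refine St.mem_T.2 ⟨m, ?_⟩
    rw [Core.mem_Nk_iff]
    intro l hl
    have h1 := congrArg (fun A => A *ᵥ v) (h.nil_H (h.mem_add hG t) hl)
    rw [← mulVec_mulVec, ← wd_Ph, zero_mulVec, sub_mulVec, one_mulVec, eM_mulVec] at h1
    exact h1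

end Crest.Agent.R172.N5
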