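import Crest.Agent.R172.N5c

/-!
Row 172, TAME (T0), node N5, part 4 (radical zero): Hom-vanishing between different blocks for
`F + t G`.
-/

set_option autoImplicit false
set_option linter.unusedSectionVars false
set_option maxHeartbeats 400000

namespace Crest.Agent.R172.N5

open Module Matrix Crest.AlgebraR.SpinSaturation Crest.Agent.R172.SoGrade Crest.Agent.R172.CF
open Crest.Agent.R172.Gen (Jm Ix emb Ent ent)
open Crest.Agent.R172.ThX Crest.Agent.R172.CSys Crest.Agent.R172.TG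
open Crest.Agent.R172.Core (NS cp BM Tame)
open Crest.Agent.R172.QN (Co Psi)

variable {n : ℕ} {a : Fin 3 → Fin n → ℤ} {c : Cfg n a} {K : Type} [Field K] [Algebra ℂ K]
variable {N W : Submodule K (Matrix (Ix n) c.δ K)} {F G : Matrix (Ix n) c.δ K}
variable {C : St.Core (BV n K) (Ph F)} {τ : Module.End K C.M}
variable {Q : Fin 3 → Matrix (Ix n) (Ix n) K} {m : ℕ}

theorem ht_inj {A A' : Module.End K C.M} (h : ht C A = ht C A') : A = A' := by
  apply LinearMap.ext
  intro v
  have h1 := congrArg (fun Z => Z *ᵥ (v : Ix n → K)) h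
  simp only [ht_mulVec] at h1
  have h2 : (⟨C.π v, C.mem v⟩ : C.M) = v := Subtype.ext (C.fix _ v.2)
  rw [h2] at h1
  exact Subtype.ext h1

/-- the compression of a matrix -/
noncomputable abbrev cz (C : St.Core (BV n K) (Ph F)) (z : Matrix (Ix n) (Ix n) K) :
    Module.End K C.M := cp C (Matrix.toLin' z)

theorem ht_cz (z : Matrix (Ix n) (Ix n) K) : ht C (cz C z) = eM C * z * eM C := by
  refine ext_mulVec (α := Ix n) fun v => ?_
  rw [ht_mulVec, Core.cp_coe, ← mulVec_mulVec, ← mulVec_mulVec, eM_mulVec, eM_mulVec,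
    Matrix.toLin'_apply]

variable (h : Co ℂ c.arm (Jm n K) (c.B K) N W F (eM C) Q m) (hG : G ∈ N ⊓ W)
  (hR : Rad0 (BV n K) (Ph F)) (hT : TameAt F G C τ)

include h hG hR hT in
/-- **Hom-vanishing** between the blocks for `Φ(F + t G)` -/
theorem hom_block [IsAlgClosed K] [CharZero K] (t : K)
    (ht' : ∀ ν, τ.maxGenEigenspace ν ≠ ⊥ → 1 + t * ν ≠ 0)
    (hnil : ∃ k, ∀ s, Ph (F + t • G) s ^ k = 0)
    (hsum : ∀ v, ∑ s, Ph (F + t • G) s v = 0) (hDer : Core.DerR (BV n K) (Ph (F + t • G)))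
    {z : Matrix (Ix n) (Ix n) K}
    (hz : ∀ r, z * FO.Phi c.arm (Jm n K) (c.B K) (F + t • G) r =
      FO.Phi c.arm (Jm n K) (c.B K) (F + t • G) r * z)
    {lam mu : K} (hne : lam ≠ mu) {p : Module.End K C.M}
    (hp : ∀ v, p v ∈ τ.maxGenEigenspace mu)
    (hpc : ∀ (f : Module.End K C.M), (∀ v, τ (f v) = f (τ v)) → ∀ v, p (f v) = f (p v))
    {v : C.M} (hv : v ∈ τ.maxGenEigenspace lam) : p (cz C z v) = 0 := by
  have hsat := Ph_sa h.data (h.mem_add hG t)
  obtain ⟨⟨M', π', a1, a2, a3, a4, a5, a6⟩, hM, hπ⟩ := exists_core_t h hG hR hT t ht'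
  change M' = C.M at hM
  change π' = C.π at hπ
  subst hM hπ
  let C' : St.Core (BV n K) (Ph (F + t • G)) := ⟨C.M, C.π, a1, a2, a3, a4, a5, a6⟩
  have hval : ∀ s (v : C.M), ((cp C' (Ph (F + t • G) s) v : C.M) : Ix n → K) =
      Ph (F + t • G) s v := by
    intro s v
    change C.π (Ph (F + t • G) s v) = Ph (F + t • G) s v
    rw [Ph_t_apply h hG hR hT, C.fix _ (Subtype.mem _)]
  have hcp : ∀ s (v : C.M), (cp C' (Ph (F + t • G) s) v : C.M) =
      ((1 + t • τ) * (1 + t • τ)) (cp C (Ph F s) v) := by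
    intro s v
    apply Subtype.ext
    rw [hval, Ph_t_apply h hG hR hT]
  have hτ : ∀ s (v : C.M), τ (cp C' (Ph (F + t • G) s) v : C.M) =
      (cp C' (Ph (F + t • G) s) (τ v) : C.M) := by
    intro s v
    rw [hcp, hcp]
    have hc : Commute τ ((1 + t • τ) * (1 + t • τ)) := by
      have h1 : Commute τ (1 + t • τ) :=
        (Commute.one_right _).add_right ((Commute.refl τ).smul_right t)
      exact h1.mul_right h1
    have h2 : τ (((1 + t • τ) * (1 + t • τ)) (cp C (Ph F s) v)) =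
        ((1 + t • τ) * (1 + t • τ)) (τ (cp C (Ph F s) v)) :=
      LinearMap.congr_fun hc.eq (cp C (Ph F s) v)
    rw [h2, hT.comm s v]
  have halt := Core.core_alt_of_DerR BV_ns hsat hnil hsum hDer C' (D := τ)
    (fun v w => by
      have h1 := hT.sa v w
      rw [Core.BM_apply, Core.BM_apply] at h1
      rw [Core.BM_apply, Core.BM_apply]
      exact h1) hτ
  rcases halt with ⟨lam', hl⟩ | htame
  · exfalso
    obtain ⟨⟨l1, l2, hne12, hn1, hn2⟩, -⟩ := hT.tame
    have hl' : τ.maxGenEigenspace lam' = ⊤ := hl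
    have : ∀ ν, ν ≠ lam' → τ.maxGenEigenspace ν = ⊥ := by
      intro ν hν
      have hd : Disjoint (τ.maxGenEigenspace ν) (τ.maxGenEigenspace lam') :=
        Module.End.disjoint_genEigenspace τ hν _ _
      rw [hl'] at hd
      exact disjoint_top.1 hd
    by_cases e1 : l1 = lam'
    · exact hn2 (this l2 (fun e2 => hne12 (e1.trans e2.symm)))
    · exact hn1 (this l1 e1)
  · have h2 := htame.2.1 lam mu hne
    let x : τ.maxGenEigenspace lam →ₗ[K] τ.maxGenEigenspace mu :=
      ((p ∘ₗ cz C z).comp (τ.maxGenEigenspace lam).subtype).codRestrict _ (fun v => hp _)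
    have hx : ∀ v, ((x v : τ.maxGenEigenspace mu) : C.M) = p (cz C z v) := fun v => rfl
    have hx0 : x = 0 := by
      apply h2
      intro s v w hw
      change ((x w : τ.maxGenEigenspace mu) : C.M) =
        (cp C' (Ph (F + t • G) s) (x v : τ.maxGenEigenspace mu) : C.M)
      rw [hx, hx, ← hpc _ (hτ s)]
      congr 1
      apply Subtype.ext
      rw [hval, Core.cp_coe, Core.cp_coe, Matrix.toLin'_apply, Matrix.toLin'_apply]
      have e1 : ((w : C.M) : Ix n → K) = Ph (F + t • G) s ((v : C.M) : Ix n → K) := by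
        have := congrArg Subtype.val hw
        rw [← hval]
        exact this
      rw [e1, Ph_apply, Ph_apply, mulVec_mulVec, hz, ← mulVec_mulVec, ← eM_mulVec, ← eM_mulVec,
        mulVec_mulVec, h.e_Phi_add hG, ← h.Phi_add_e hG, ← mulVec_mulVec]
    have h3 : ((x ⟨v, hv⟩ : τ.maxGenEigenspace mu) : C.M) = 0 := by rw [hx0]; rfl
    exact h3

end Crest.Agent.R172.N5
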