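import Crest.Agent.R172.QQ2b
import Crest.Agent.R172.TG2

/-!
Row 172, TAME (T0): assembly, part 3: freeness of the blocks from `Core.Tame`, glue to the END.
-/

set_option autoImplicit false
set_option linter.unusedSectionVars false

namespace Crest.Agent.R172.QQ2

open Matrix Module LinearMap Crest.Agent.R172.FO Crest.Agent.R172.Core

variable {ι : Type*} [Fintype ι] [DecidableEq ι]
variable {K : Type*} [Field K]

section free

variable {M : Submodule K (ι → K)} {E e Φ : Matrix ι ι K} {D ΦM : Module.End K M} {ν : K}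

/-- powers of `ΦM` on a block -/
theorem PhiM_pow (he : e * e = e) (hce : e * Φ = Φ * e) (hEe : E * e = e)
    (hΦM : ∀ v, ((ΦM v : M) : ι → K) = E *ᵥ (Φ *ᵥ (v : ι → K)))
    (hC : C e = (D.maxGenEigenspace ν).map M.subtype) (j : ℕ) (m : M)
    (hm : m ∈ D.maxGenEigenspace ν) :
    (((ΦM ^ j) m : M) : ι → K) = Φ ^ j *ᵥ (m : ι → K) := by
  have hmC : (m : ι → K) ∈ C e := by rw [hC]; exact ⟨m, hm, rfl⟩
  have hfix : e *ᵥ (m : ι → K) = m := mem_fix he ⟨_, hmC⟩
  induction j with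
  | zero => simp
  | succ j ih =>
    rw [pow_succ', Module.End.mul_apply, hΦM, ih]
    have h1 : Φ ^ j *ᵥ (m : ι → K) = e *ᵥ (Φ ^ j *ᵥ (m : ι → K)) := by
      conv_lhs => rw [← hfix]
      rw [mulVec_mulVec, mulVec_mulVec, pow_com hce]
    rw [h1, mulVec_mulVec (Φ ^ j *ᵥ (m : ι → K)) Φ e, ← hce, ← mulVec_mulVec, mulVec_mulVec _ E e,
      hEe]
    have h2 : e *ᵥ (Φ *ᵥ (Φ ^ j *ᵥ (m : ι → K))) = Φ *ᵥ (e *ᵥ (Φ ^ j *ᵥ (m : ι → K))) := by
      rw [mulVec_mulVec _ e Φ, hce, ← mulVec_mulVec]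
    rw [h2, ← h1, mulVec_mulVec, ← pow_succ']

/-- the block of `M` is the range of `e` -/
noncomputable def blk (hC : C e = (D.maxGenEigenspace ν).map M.subtype) :
    D.maxGenEigenspace ν ≃ₗ[K] C e :=
  (Submodule.equivMapOfInjective M.subtype M.injective_subtype (D.maxGenEigenspace ν)).trans
    (LinearEquiv.ofEq _ _ hC.symm)

theorem blk_coe (hC : C e = (D.maxGenEigenspace ν).map M.subtype) (m : D.maxGenEigenspace ν) :
    ((blk hC m : C e) : ι → K) = ((m : M) : ι → K) := rfl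

theorem ph_zero (he : e * e = e) (hce : e * Φ = Φ * e) (hEe : E * e = e)
    (hΦM : ∀ v, ((ΦM v : M) : ι → K) = E *ᵥ (Φ *ᵥ (v : ι → K)))
    (hC : C e = (D.maxGenEigenspace ν).map M.subtype) {l : ℕ}
    (hl : ∀ v ∈ D.maxGenEigenspace ν, (ΦM ^ l) v = 0) : ph Φ e ^ l = 0 := by
  apply LinearMap.ext
  intro v
  apply Subtype.ext
  rw [ph_pow_coe he hce]
  obtain ⟨m, hm, hmv⟩ : (v : ι → K) ∈ (D.maxGenEigenspace ν).map M.subtype := hC ▸ v.2
  rw [← hmv, Submodule.subtype_apply, ← PhiM_pow he hce hEe hΦM hC l m hm, hl m hm]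
  rfl

theorem ph_free (he : e * e = e) (hce : e * Φ = Φ * e) (hEe : E * e = e)
    (hΦM : ∀ v, ((ΦM v : M) : ι → K) = E *ᵥ (Φ *ᵥ (v : ι → K)))
    (hC : C e = (D.maxGenEigenspace ν).map M.subtype) {l : ℕ}
    (hf : l * finrank K (ker ΦM ⊓ D.maxGenEigenspace ν : Submodule K M) =
      finrank K (D.maxGenEigenspace ν)) :
    l * finrank K (ker (ph Φ e)) = finrank K (C e) := by
  rw [← (blk hC).finrank_eq, ← hf]
  congr 1
  have h1 : finrank K ((ker (ph Φ e)).map (C e).subtype : Submodule K (ι → K)) =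
      finrank K (ker (ph Φ e)) := Submodule.finrank_map_subtype_eq _ _
  have h2 : finrank K ((ker ΦM ⊓ D.maxGenEigenspace ν : Submodule K M).map M.subtype :
      Submodule K (ι → K)) = finrank K (ker ΦM ⊓ D.maxGenEigenspace ν : Submodule K M) :=
    Submodule.finrank_map_subtype_eq _ _
  rw [← h1, ← h2]
  have key : (ker (ph Φ e)).map (C e).subtype =
      (ker ΦM ⊓ D.maxGenEigenspace ν : Submodule K M).map M.subtype := by
    ext v
    constructor
    · rintro ⟨w, hw, rfl⟩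
      obtain ⟨m, hm, hmv⟩ : (w : ι → K) ∈ (D.maxGenEigenspace ν).map M.subtype := hC ▸ w.2
      refine ⟨m, ⟨?_, hm⟩, hmv⟩
      rw [SetLike.mem_coe, LinearMap.mem_ker] at hw ⊢
      apply Subtype.ext
      have h3 := PhiM_pow he hce hEe hΦM hC 1 m hm
      have h4 := ph_pow_coe he hce 1 w
      rw [pow_one, pow_one] at h3 h4
      rw [hw] at h4
      rw [h3]
      have hmv' : (m : ι → K) = w := hmv
      rw [hmv', ← h4]
      rfl
    · rintro ⟨m, ⟨hk, hm⟩, rfl⟩
      have hmC : (m : ι → K) ∈ C e := by rw [hC]; exact ⟨m, hm, rfl⟩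
      refine ⟨⟨m, hmC⟩, ?_, rfl⟩
      rw [SetLike.mem_coe, LinearMap.mem_ker] at hk ⊢
      apply Subtype.ext
      have h3 := PhiM_pow he hce hEe hΦM hC 1 m hm
      have h4 := ph_pow_coe he hce 1 (⟨m, hmC⟩ : C e)
      rw [pow_one, pow_one] at h3 h4
      rw [h4]
      change Φ *ᵥ (m : ι → K) = _
      rw [← h3, hk]
      rfl
  rw [key]

end free

section glue

variable {δ : Type*} [Fintype δ] [DecidableEq δ]
variable {k : Type*} [Field k] [Algebra k K]
variable {arm : δ → Fin 3} {J : Matrix ι ι K} {B : Matrix δ δ K}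
  {N W : Submodule K (Matrix ι δ K)} {F : Matrix ι δ K}
  {n : Type*} [Fintype n] [DecidableEq n]

/-- matrices `y` with `y F E_s ∈ Q` -/
def pull (arm : δ → Fin 3) (F : Matrix ι δ K) (Q : Submodule K (Matrix ι δ K)) (s : Fin 3) :
    Submodule K (Matrix ι ι K) where
  carrier := {y | y * F * E K arm s ∈ Q}
  add_mem' := by
    intro a b ha hb
    change (a + b) * F * E K arm s ∈ Q
    rw [Matrix.add_mul, Matrix.add_mul]
    exact Q.add_mem ha hb
  zero_mem' := by
    change (0 : Matrix ι ι K) * F * E K arm s ∈ Q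
    rw [Matrix.zero_mul, Matrix.zero_mul]
    exact Q.zero_mem
  smul_mem' := by
    intro c a ha
    change (c • a) * F * E K arm s ∈ Q
    rw [Matrix.smul_mul, Matrix.smul_mul]
    exact Q.smul_mem c ha

theorem mem_pull {Q : Submodule K (Matrix ι δ K)} {s : Fin 3} {y : Matrix ι ι K} :
    y ∈ pull arm F Q s ↔ y * F * E K arm s ∈ Q := Iff.rfl

/-- **GLUE.** The two derivative steps for all arms contradict `Core.Tame`. -/
theorem tame_false [CharZero K] (hD : Data k arm J B N W) (hF : F ∈ N ⊓ W)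
    {e : n → Matrix ι ι K} {lam : n → K} (hlam : Function.Injective lam)
    (idem : ∀ i, e i * e i = e i) (orth : ∀ i j, i ≠ j → e i * e j = 0)
    (sa : ∀ i, (e i)ᵀ * J = J * e i)
    (com : ∀ i s, e i * Phi arm J B F s = Phi arm J B F s * e i)
    {R : Matrix δ ι K} (hR : F * R = ∑ i, e i)
    {M : Submodule K (ι → K)} (hM : ∀ v, v ∈ M ↔ ∃ w, v = (∑ i, e i) *ᵥ w)
    (ΦM : Fin 3 → Module.End K M)
    (hΦM : ∀ s v, ((ΦM s v : M) : ι → K) = (∑ i, e i) *ᵥ (Phi arm J B F s *ᵥ (v : ι → K)))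
    {D : Module.End K M} (hDΦ : ∀ s v, D (ΦM s v) = ΦM s (D v))
    (hDs : ⨆ ν, D.maxGenEigenspace ν = ⊤) (hT : Tame ΦM D)
    (hC : ∀ i, C (e i) = (D.maxGenEigenspace (lam i)).map M.subtype)
    (hcov : ∀ ν, D.maxGenEigenspace ν ≠ ⊥ → ∃ i, lam i = ν)
    (hnb : ∀ i, D.maxGenEigenspace (lam i) ≠ ⊥)
    {T : Set k} (hTi : T.Infinite) (ha : ∀ t ∈ T, ∀ i, 1 + algebraMap k K t * lam i ≠ 0)
    {Q : Submodule K (Matrix ι δ K)} (hQ : Q ≤ TG.QQ J N W F (∑ i, e i))
    (first : ∀ s, ∀ t ∈ T, ∀ i j, i ≠ j → ∀ x x' : Matrix ι ι K, e j * x * e i = x →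
      xᵀ * J = J * x' →
      (1 + algebraMap k K t * lam i) ^ 2 • (x * Phi arm J B F s) =
        (1 + algebraMap k K t * lam j) ^ 2 • (Phi arm J B F s * x) →
      ((1 + algebraMap k K t * lam i) • x + (1 + algebraMap k K t * lam j) • x') * F *
        E K arm s ∈ Q)
    (second : ∀ s, (∀ i j, i ≠ j → ∀ y, e j * y * e i = y → FM (Phi arm J B F s) y →
        y * F * E K arm s ∈ Q) →
      ∀ t ∈ T, ∀ i j, i ≠ j → ∀ x x' y : Matrix ι ι K, e j * x * e i = x → xᵀ * J = J * x' →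
      (1 + algebraMap k K t * lam i) ^ 2 • (x * Phi arm J B F s) =
        (1 + algebraMap k K t * lam j) ^ 2 • (Phi arm J B F s * x) →
      e j * y * e i = y → FM (Phi arm J B F s) y →
      ((1 + algebraMap k K t * lam i) • (x' * y) - (1 + algebraMap k K t * lam j) • (y * x')) *
        F * E K arm s ∈ Q) : False := by
  have hE2 : (∑ i, e i) * (∑ i, e i) = ∑ i, e i := by
    rw [Matrix.sum_mul]
    refine Finset.sum_congr rfl fun i _ => ?_
    rw [Matrix.mul_sum, Finset.sum_eq_single i]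
    · exact idem i
    · intro j _ hj; exact orth i j (Ne.symm hj)
    · intro h; exact absurd (Finset.mem_univ i) h
  have hEe : ∀ i, (∑ i, e i) * e i = e i := by
    intro i
    rw [Matrix.sum_mul, Finset.sum_eq_single i]
    · exact idem i
    · intro j _ hj; exact orth j i hj
    · intro h; exact absurd (Finset.mem_univ i) h
  have hEsa : (∑ i, e i)ᵀ * J = J * ∑ i, e i := by
    rw [transpose_sum, Matrix.sum_mul, Matrix.mul_sum]
    exact Finset.sum_congr rfl fun i _ => sa i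
  have hEcom : ∀ s, (∑ i, e i) * Phi arm J B F s = Phi arm J B F s * ∑ i, e i := by
    intro s
    rw [Matrix.sum_mul, Matrix.mul_sum]
    exact Finset.sum_congr rfl fun i _ => com i s
  have hΦsa : ∀ s, (Phi arm J B F s)ᵀ * J = J * Phi arm J B F s := by
    intro s
    unfold Phi
    rw [transpose_mul, hD.J_symm, Slack.M_transpose hD F F s, Matrix.mul_assoc]
  obtain ⟨⟨ν, μ, hνμ, hν, hμ⟩, -, l, -, hl, -⟩ := id hT
  refine TG.tame_falseQQ hD hF hR hE2 hEsa hM ΦM hΦM hDΦ hDs hT fun s A hA => hQ ?_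
  rw [← mem_pull (arm := arm) (F := F) (Q := Q)]
  have hl' : ∀ i, ph (Phi arm J B F s) (e i) ^ l s = 0 := fun i =>
    ph_zero (idem i) (com i s) (hEe i) (hΦM s) (hC i)
      (((hl s (lam i) (hnb i)).1 (l s)).2 le_rfl)
  have hfree : ∀ i, l s * finrank K (ker (ph (Phi arm J B F s) (e i))) = finrank K (C (e i)) :=
    fun i => ph_free (idem i) (com i s) (hEe i) (hΦM s) (hC i) (hl s (lam i) (hnb i)).2
  have hpos : ∀ i, 0 < finrank K (C (e i)) := by
    intro i
    rw [← (blk (hC i)).finrank_eq]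
    have h1 := hnb i
    by_contra h2
    exact h1 (Submodule.finrank_eq_zero.1 (by omega))
  have hne : ∀ i, ∃ j, j ≠ i ∧ 0 < finrank K (C (e j)) := by
    intro i
    obtain ⟨a, haν⟩ := hcov ν hν
    obtain ⟨b, hbμ⟩ := hcov μ hμ
    by_cases hi : a = i
    · refine ⟨b, ?_, hpos b⟩
      rintro rfl
      rw [hi] at haν
      exact hνμ (haν.symm.trans hbμ)
    · exact ⟨a, hi, hpos a⟩
  refine arm_mem hD.J_unit hD.J_symm (hΦsa s) hlam idem orth sa (fun i => com i s) hl' hfree hne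
    hTi ha (pull arm F Q s) (first s) (second s) ?_ ?_
  · rw [TG.P_mul_hat hE2, TG.hat_mul_P hE2]
  · -- `hat A` is filtered
    intro v
    -- lift
    obtain ⟨g, hg⟩ := Module.projective_lifting_property
      ((ΦM s ^ v).rangeRestrict) ((A ∘ₗ (ΦM s ^ v)).codRestrict (range (ΦM s ^ v))
        fun u => hA v _ ⟨u, rfl⟩) (LinearMap.surjective_rangeRestrict _)
    have hg2 : ∀ m, A ((ΦM s ^ v) m) = (ΦM s ^ v) (g m) := by
      intro m
      exact (congrArg Subtype.val (LinearMap.congr_fun hg m)).symm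
    -- powers of `ΦM`
    have hpow : ∀ (j : ℕ) (m : M), (((ΦM s ^ j) m : M) : ι → K) =
        Phi arm J B F s ^ j *ᵥ (m : ι → K) := by
      intro j
      induction j with
      | zero => intro m; simp
      | succ j ih =>
        intro m
        rw [pow_succ, Module.End.mul_apply, ih, hΦM, mulVec_mulVec _ (∑ i, e i), hEcom,
          ← mulVec_mulVec, TG.fix_of_mem hE2 hM, mulVec_mulVec, ← pow_succ]
    refine ⟨TG.hat (∑ i, e i) hM g, ?_⟩
    refine ext_mulVec fun u => ?_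
    rw [← mulVec_mulVec, ← mulVec_mulVec, TG.hat_mulVec, TG.hat_mulVec]
    have h1 : TG.prM (∑ i, e i) hM (Phi arm J B F s ^ v *ᵥ u) =
        (ΦM s ^ v) (TG.prM (∑ i, e i) hM u) := by
      apply Subtype.ext
      rw [hpow, TG.prM_coe, TG.prM_coe, mulVec_mulVec, mulVec_mulVec, pow_com (hEcom s)]
    rw [h1, hg2, hpow]

end glue

end Crest.Agent.R172.QQ2
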