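import Crest.Agent.R172.QQ1
import Crest.Agent.R172.QQ2c

/-!
Row 172, TAME (T0), `R = 0`, `D` semisimple on the core: `QQ1.Cx` and `Core.Tame` contradict
each other.
-/

set_option autoImplicit false
set_option linter.unusedSectionVars false

namespace Crest.Agent.R172.QQ2

open Matrix Module LinearMap Crest.Agent.R172.FO Crest.Agent.R172.Core

variable {ι : Type*} [Fintype ι] [DecidableEq ι] {δ : Type*} [Fintype δ] [DecidableEq δ]
variable {k K : Type*} [Field k] [Field K] [Algebra k K]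
variable {arm : δ → Fin 3} {J : Matrix ι ι K} {B : Matrix δ δ K}
  {N W : Submodule K (Matrix ι δ K)} {F G : Matrix ι δ K}
  {n : Type*} [Fintype n] [DecidableEq n]

theorem cx_false [CharZero K] {T : Set k} (hTi : T.Infinite)
    {e : n → Matrix ι ι K} {lam : n → K} (hlam : Function.Injective lam)
    (hX : QQ1.Cx k T arm J B N W F G e lam)
    {R : Matrix δ ι K} (hR : F * R = ∑ i, e i)
    {M : Submodule K (ι → K)} (hM : ∀ v, v ∈ M ↔ ∃ w, v = (∑ i, e i) *ᵥ w)
    (ΦM : Fin 3 → Module.End K M)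
    (hΦM : ∀ s v, ((ΦM s v : M) : ι → K) = (∑ i, e i) *ᵥ (Phi arm J B F s *ᵥ (v : ι → K)))
    {D : Module.End K M} (hDΦ : ∀ s v, D (ΦM s v) = ΦM s (D v))
    (hDs : ⨆ ν, D.maxGenEigenspace ν = ⊤) (hT : Tame ΦM D)
    (hC : ∀ i, C (e i) = (D.maxGenEigenspace (lam i)).map M.subtype)
    (hcov : ∀ ν, D.maxGenEigenspace ν ≠ ⊥ → ∃ i, lam i = ν)
    (hnb : ∀ i, D.maxGenEigenspace (lam i) ≠ ⊥) : False := by
  refine tame_false hX.data hX.memH hlam hX.idem hX.orth hX.sa hX.com hR hM ΦM hΦM hDΦ hDs hT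
    hC hcov hnb hTi hX.ne (Q := QQ1.Q arm B N W F e) ?_ ?_ ?_
  · rintro Y ⟨μ, h, ⟨h1, h2, h3⟩, h4⟩
    refine ⟨∑ i, μ i • e i, h, ?_, h1, h2, h4⟩
    rw [transpose_sum, Matrix.sum_mul, Matrix.mul_sum]
    refine Finset.sum_congr rfl fun i _ => ?_
    rw [transpose_smul, Matrix.smul_mul, Matrix.mul_smul, hX.sa i]
  · intro s t ht i j hij x x' hx hx' hxc
    exact hX.first ht s hij (hlam.ne hij) hx hx' hxc
  · intro s hfil t ht i j hij x x' y hx hx' hxc hy hyf
    exact hX.second ht s hij hx hx' hxc (fun i j hij y hy hyf => hfil i j hij y hy hyf)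
      hy hyf

end Crest.Agent.R172.QQ2
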