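import Crest.Agent.R172.N5d
import Crest.Agent.R172.QQ2d

/-!
Row 172, TAME (T0), node N5, part 5 (radical zero): blocks of `D` as matrices.
-/

set_option autoImplicit false
set_option linter.unusedSectionVars false
set_option maxHeartbeats 400000

namespace Crest.Agent.R172.N5

open Module Matrix Crest.AlgebraR.SpinSaturation Crest.Agent.R172.SoGrade Crest.Agent.R172.CF
open Crest.Agent.R172.Gen (Jm Ix emb Ent ent)
open Crest.Agent.R172.ThX Crest.Agent.R172.CSys Crest.Agent.R172.TG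
open Crest.Agent.R172.Core (NS cp BM Tame)
open Crest.Agent.R172.QN (Co Psi)

variable {n : ℕ} {a : Fin 3 → Fin n → ℤ} {c : Cfg n a} {K : Type} [Field K] [Algebra ℂ K]
variable {N W : Submodule K (Matrix (Ix n) c.δ K)} {F G : Matrix (Ix n) c.δ K}
variable {C : St.Core (BV n K) (Ph F)} {τ : Module.End K C.M}
variable {Q : Fin 3 → Matrix (Ix n) (Ix n) K} {m : ℕ}

/-- the block data of a self-adjoint operator `τ` of the core, as matrices -/
structure Blk (F : Matrix (Ix n) c.δ K) (C : St.Core (BV n K) (Ph F)) (τ : Module.End K C.M)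
    (m' : ℕ) (lam : Fin m' → K) (π : Fin m' → Module.End K C.M)
    (e : Fin m' → Matrix (Ix n) (Ix n) K) : Prop where
  inj : Function.Injective lam
  e_eq : ∀ i, e i = ht C (π i)
  mem : ∀ i v, π i v ∈ τ.maxGenEigenspace (lam i)
  fix : ∀ i, ∀ v ∈ τ.maxGenEigenspace (lam i), π i v = v
  zero : ∀ i j, i ≠ j → ∀ v ∈ τ.maxGenEigenspace (lam j), π i v = 0
  pcom : ∀ (f : Module.End K C.M), (∀ v, τ (f v) = f (τ v)) → ∀ i v, π i (f v) = f (π i v)
  sa : ∀ i, (e i)ᵀ * Jm n K = Jm n K * e i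
  idem : ∀ i, e i * e i = e i
  orth : ∀ i j, i ≠ j → e i * e j = 0
  sum : ∑ i, e i = eM C
  com : ∀ i s, e i * FO.Phi c.arm (Jm n K) (c.B K) F s = FO.Phi c.arm (Jm n K) (c.B K) F s * e i
  tau : ∀ i, e i * ht C τ = ht C τ * e i
  hC : ∀ i, QQ2.C (e i) = (τ.maxGenEigenspace (lam i)).map C.M.subtype
  nb : ∀ i, τ.maxGenEigenspace (lam i) ≠ ⊥
  cov : ∀ ν, τ.maxGenEigenspace ν ≠ ⊥ → ∃ i, lam i = ν

variable (h : Co ℂ c.arm (Jm n K) (c.B K) N W F (eM C) Q m) (hG : G ∈ N ⊓ W)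
  (hR : Rad0 (BV n K) (Ph F)) (hT : TameAt F G C τ)

include h hR hT in
theorem exists_Blk [IsAlgClosed K] : ∃ m' lam π e, Blk F C τ m' lam π e := by
  obtain ⟨m', lam, π, h1, h2, h3, h4, h5, h6, h7, h8, h9⟩ :=
    exists_spec (B := BM C) τ (Module.End.iSup_maxGenEigenspace_eq_top τ) hT.sa
  have hmul : ∀ i, π i * π i = π i := fun i => LinearMap.ext fun v => h3 i _ (h2 i v)
  have horth : ∀ i j, i ≠ j → π i * π j = 0 := fun i j hij =>
    LinearMap.ext fun v => h4 i j hij _ (h2 j v)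
  have hsum : ∑ i, π i = 1 := LinearMap.ext fun v => by
    rw [LinearMap.sum_apply, h5]; rfl
  refine ⟨m', lam, π, fun i => ht C (π i), h1, fun i => rfl, h2, h3, h4, h7,
    fun i => ht_sa (h6 i), fun i => ?_, fun i j hij => ?_, ?_, fun i s => ?_, fun i => ?_,
    fun i => ?_, h8, h9⟩
  · rw [ht_mul, hmul]
  · rw [ht_mul, horth i j hij]
    exact map_zero _
  · rw [← ht_one, ← hsum]
    exact (map_sum (hat (eM C) (mem_M C)) _ _).symm
  · refine ht_Phi h.data h.gen.mem hR ?_ s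
    intro s v
    exact h7 _ (hT.comm s) i v
  · rw [ht_mul, ht_mul]
    congr 1
    exact LinearMap.ext fun v => h7 τ (fun v => rfl) i v
  · ext v
    rw [QQ2.C, LinearMap.mem_range, Submodule.mem_map]
    constructor
    · rintro ⟨w, rfl⟩
      refine ⟨π i ⟨C.π w, C.mem w⟩, h2 i _, ?_⟩
      rw [Matrix.toLin'_apply, ht_mulVec]
      rfl
    · rintro ⟨w, hw, rfl⟩
      refine ⟨w, ?_⟩
      rw [Matrix.toLin'_apply, ht_mulVec]
      have e1 : (⟨C.π (w : Ix n → K), C.mem _⟩ : C.M) = w := Subtype.ext (C.fix _ w.2)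
      rw [e1, h3 i w hw]
      rfl

include h hG hR hT in
/-- the Hom-vanishing in the form of `QQ1.Cx` -/
theorem hom_all [IsAlgClosed K] [CharZero K] {m' : ℕ} {lam : Fin m' → K}
    {π : Fin m' → Module.End K C.M} {e : Fin m' → Matrix (Ix n) (Ix n) K}
    (hb : Blk F C τ m' lam π e) (t : K) (ht' : ∀ i, 1 + t * lam i ≠ 0)
    (hnil : ∃ k, ∀ s, Ph (F + t • G) s ^ k = 0)
    (hsum : ∀ v, ∑ s, Ph (F + t • G) s v = 0) (hDer : Core.DerR (BV n K) (Ph (F + t • G)))
    {z : Matrix (Ix n) (Ix n) K}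
    (hz : ∀ r, z * FO.Phi c.arm (Jm n K) (c.B K) (F + t • G) r =
      FO.Phi c.arm (Jm n K) (c.B K) (F + t • G) r * z) :
    (∀ i j, i ≠ j → e i * z * e j = 0) ∧
      ∀ i, e i * z * (1 - ∑ j, e j) = 0 ∧ (1 - ∑ j, e j) * z * e i = 0 := by
  have ht2 : ∀ ν, τ.maxGenEigenspace ν ≠ ⊥ → 1 + t * ν ≠ 0 := by
    intro ν hν
    obtain ⟨i, rfl⟩ := hb.cov ν hν
    exact ht' i
  obtain ⟨σ, hσ1, hσ2⟩ := exists_inv t ht2
  have hDD := DD_eq_ht h hG hR hT
  have hc1 : (eM C + t • Co.DD c.arm (Jm n K) (c.B K) F (eM C) Q G) * ht C σ = eM C := by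
    rw [hDD, ← ht_add_smul, ht_mul, hσ1, ht_one]
  have hσΦ : ∀ s v, σ (cp C (Ph F s) v) = cp C (Ph F s) (σ v) := by
    intro s v
    have hc : Commute (1 + t • τ) (cp C (Ph F s)) := by
      refine (Commute.one_left _).add_left ?_
      refine Commute.smul_left ?_ t
      exact LinearMap.ext fun v => hT.comm s v
    have h1 : σ * cp C (Ph F s) = cp C (Ph F s) * σ := by
      calc σ * cp C (Ph F s) = σ * (cp C (Ph F s) * (1 + t • τ)) * σ := by
            rw [mul_assoc, mul_assoc, hσ1, mul_one]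
        _ = σ * (1 + t • τ) * (cp C (Ph F s) * σ) := by
            rw [← hc.eq]; simp only [mul_assoc]
        _ = _ := by rw [hσ2, one_mul]
    exact LinearMap.congr_fun h1 v
  have hc3 : ∀ r, ht C σ * FO.Phi c.arm (Jm n K) (c.B K) F r =
      FO.Phi c.arm (Jm n K) (c.B K) F r * ht C σ := ht_Phi h.data h.gen.mem hR hσΦ
  have hh := h.hom hG hc1 (e_ht σ) hc3 hz
  have hh' := h.hom' hG hc1 (e_ht σ) hc3 hz
  have hee : ∀ i, eM C * e i = e i := fun i => by rw [hb.e_eq, e_ht]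
  have hee' : ∀ i, e i * eM C = e i := fun i => by rw [hb.e_eq, ht_e]
  refine ⟨fun i j hij => ?_, fun i => ⟨?_, ?_⟩⟩
  · have h1 : e i * z * e j = ht C (π i * cz C z * π j) := by
      rw [← ht_mul, ← ht_mul, ht_cz, ← hb.e_eq, ← hb.e_eq]
      calc e i * z * e j = (e i * eM C) * z * (eM C * e j) := by rw [hee, hee']
        _ = _ := by simp only [Matrix.mul_assoc]
    rw [h1]
    have h2 : π i * cz C z * π j = 0 := by
      refine LinearMap.ext fun v => ?_
      exact hom_block h hG hR hT t ht2 hnil hsum hDer hz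
        (fun hl => hij (hb.inj hl).symm) (hb.mem i)
        (fun f hf v => hb.pcom f hf i v) (hb.mem j v)
    rw [h2]
    exact map_zero _
  · rw [hb.sum]
    calc e i * z * (1 - eM C) = e i * (eM C * z * (1 - eM C)) := by
          rw [← Matrix.mul_assoc, ← Matrix.mul_assoc, hee']
      _ = 0 := by rw [hh', Matrix.mul_zero]
  · rw [hb.sum]
    calc (1 - eM C) * z * e i = (1 - eM C) * z * eM C * e i := by
          rw [Matrix.mul_assoc _ (eM C), hee]
      _ = 0 := by rw [hh, Matrix.zero_mul]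

include h in
/-- perfectness in the form of `QQ1.Cx` -/
theorem perf' {m' : ℕ} {lam : Fin m' → K}
    {π : Fin m' → Module.End K C.M} {e : Fin m' → Matrix (Ix n) (Ix n) K}
    (hb : Blk F C τ m' lam π e) : ∃ a : Fin 3 → Matrix (Ix n) (Ix n) K,
      ∑ r, a r * (∑ i, e i) * FO.Phi c.arm (Jm n K) (c.B K) F r = ∑ i, e i := by
  obtain ⟨Ji, hJi, hJi', hJit⟩ := FO.symm_inv h.data.J_symm h.data.J_unit
  have hPsa : ∀ r, (FO.Phi c.arm (Jm n K) (c.B K) F r)ᵀ * Jm n K =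
      Jm n K * FO.Phi c.arm (Jm n K) (c.B K) F r := by
    intro r
    unfold FO.Phi
    rw [transpose_mul, Slack.M_transpose h.data, h.data.J_symm, Matrix.mul_assoc]
  refine ⟨fun r => Ji * (eM C * Q r * eM C)ᵀ * Jm n K, ?_⟩
  rw [hb.sum]
  have h1 : ∀ r, Ji * (eM C * Q r * eM C)ᵀ * Jm n K * eM C *
      FO.Phi c.arm (Jm n K) (c.B K) F r =
      Ji * (FO.Phi c.arm (Jm n K) (c.B K) F r * (eM C * Q r * eM C))ᵀ * Jm n K := by
    intro r
    rw [transpose_mul _ (eM C * Q r * eM C)]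
    calc Ji * (eM C * Q r * eM C)ᵀ * Jm n K * eM C * FO.Phi c.arm (Jm n K) (c.B K) F r
        = Ji * (eM C * Q r * eM C)ᵀ * (Jm n K * eM C) * FO.Phi c.arm (Jm n K) (c.B K) F r := by
          simp only [Matrix.mul_assoc]
      _ = Ji * ((eM C * Q r * eM C)ᵀ * (eM C)ᵀ) *
          (Jm n K * FO.Phi c.arm (Jm n K) (c.B K) F r) := by
          rw [← eM_sa C]; simp only [Matrix.mul_assoc]
      _ = Ji * (eM C * (eM C * Q r * eM C))ᵀ *
          ((FO.Phi c.arm (Jm n K) (c.B K) F r)ᵀ * Jm n K) := by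
          rw [← transpose_mul, hPsa]
      _ = _ := by
          have e2 : eM C * (eM C * Q r * eM C) = eM C * Q r * eM C := by
            rw [← Matrix.mul_assoc, ← Matrix.mul_assoc, h.ee]
          rw [e2]
          simp only [Matrix.mul_assoc]
  calc ∑ r, Ji * (eM C * Q r * eM C)ᵀ * Jm n K * eM C * FO.Phi c.arm (Jm n K) (c.B K) F r
      = ∑ r, Ji * (FO.Phi c.arm (Jm n K) (c.B K) F r * (eM C * Q r * eM C))ᵀ * Jm n K :=
        Finset.sum_congr rfl fun r _ => h1 r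
    _ = Ji * (∑ r, FO.Phi c.arm (Jm n K) (c.B K) F r * (eM C * Q r * eM C))ᵀ * Jm n K := by
        rw [transpose_sum, Matrix.mul_sum, Matrix.sum_mul]
    _ = Ji * ((eM C)ᵀ * Jm n K) := by rw [h.sum_Phi_Q, Matrix.mul_assoc]
    _ = eM C := by rw [eM_sa, ← Matrix.mul_assoc, hJi', Matrix.one_mul]

end Crest.Agent.R172.N5
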