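import Crest.Agent.R172.N5e

/-!
Row 172, TAME (T0), node N5, part 6 (radical zero): `QQ1.Cx` for semisimple `τ`, and
`¬ TameAt` for radical zero and semisimple `τ`.
-/

set_option autoImplicit false
set_option linter.unusedSectionVars false
set_option maxHeartbeats 400000

namespace Crest.Agent.R172.N5

open Module Matrix Crest.AlgebraR.SpinSaturation Crest.Agent.R172.SoGrade Crest.Agent.R172.CF
open Crest.Agent.R172.Gen (Jm Ix emb Ent ent)
open Crest.Agent.R172.ThX Crest.Agent.R172.CSys Crest.Agent.R172.TG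
open Crest.Agent.R172.Core (NS cp BM Tame)
open Crest.Agent.R172.QN (Co Psi)

variable {n : ℕ} {a : Fin 3 → Fin n → ℤ} {c : Cfg n a} {K : Type} [Field K] [Algebra ℂ K]
variable {N W : Submodule K (Matrix (Ix n) c.δ K)} {F G : Matrix (Ix n) c.δ K}
variable {C : St.Core (BV n K) (Ph F)} {τ : Module.End K C.M}
variable {Q : Fin 3 → Matrix (Ix n) (Ix n) K} {m : ℕ}

/-- the good parameters -/
def TS {m' : ℕ} (lam : Fin m' → K) : Set ℂ :=
  {t | t ≠ 0 ∧ ∀ i, 1 + algebraMap ℂ K t * lam i ≠ 0}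

theorem TS_infinite {m' : ℕ} (lam : Fin m' → K) : (TS lam).Infinite := by
  have h1 : (TS lam)ᶜ ⊆ {0} ∪ ⋃ i, {t : ℂ | 1 + algebraMap ℂ K t * lam i = 0} := by
    intro t ht
    simp only [TS, Set.mem_compl_iff, Set.mem_ofPred_eq, not_and_or, not_forall, not_not] at ht
    rcases ht with h | ⟨i, h⟩
    · exact Or.inl h
    · exact Or.inr (Set.mem_iUnion.2 ⟨i, h⟩)
  have h2 : ∀ i, {t : ℂ | 1 + algebraMap ℂ K t * lam i = 0}.Subsingleton := by
    intro i s hs t ht
    have hs' : 1 + algebraMap ℂ K s * lam i = 0 := hs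
    have ht' : 1 + algebraMap ℂ K t * lam i = 0 := ht
    have h3 : (algebraMap ℂ K s - algebraMap ℂ K t) * lam i = 0 := by
      linear_combination hs' - ht'
    rcases mul_eq_zero.1 h3 with h4 | h4
    · exact (algebraMap ℂ K).injective (sub_eq_zero.1 h4)
    · rw [h4, mul_zero, add_zero] at hs'
      exact absurd hs' one_ne_zero
  have h3 : ((TS lam)ᶜ).Finite :=
    ((Set.finite_singleton (0 : ℂ)).union (Set.finite_iUnion fun i => (h2 i).finite)).subset h1
  intro h4
  exact Set.infinite_univ ((h4.union h3).subset (fun t _ => by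
    by_cases h : t ∈ TS lam
    · exact Or.inl h
    · exact Or.inr h))

theorem derR' (hD : FO.Data ℂ c.arm (Jm n K) (c.B K) N W) {H : Matrix (Ix n) c.δ K}
    (hH : FO.Generic ℂ c.arm N W H) : Core.DerR (BV n K) (Ph H) := by
  rw [BV_eq, show (Ph H) = DerG.Ph c.arm (Jm n K) (c.B K) H from MM_eq H]
  exact DerG.derR hD hH

variable (h : Co ℂ c.arm (Jm n K) (c.B K) N W F (eM C) Q m)
  (hG : FO.GenOver ℂ c.arm N W F G)
  (hR : Rad0 (BV n K) (Ph F)) (hT : TameAt F G C τ)
  (hnil : ∀ H ∈ N ⊓ W, ∃ k, ∀ s, Ph H s ^ k = 0)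

include h hG hR hT hnil in
/-- the Hom-vanishing for constants `t` -/
theorem hom_const [IsAlgClosed K] [CharZero K] {m' : ℕ} {lam : Fin m' → K}
    {π : Fin m' → Module.End K C.M} {e : Fin m' → Matrix (Ix n) (Ix n) K}
    (hb : Blk F C τ m' lam π e) (t : ℂ) (ht : ∀ i, 1 + algebraMap ℂ K t * lam i ≠ 0)
    {z : Matrix (Ix n) (Ix n) K}
    (hz : ∀ r, z * FO.Phi c.arm (Jm n K) (c.B K) (F + algebraMap ℂ K t • G) r =
      FO.Phi c.arm (Jm n K) (c.B K) (F + algebraMap ℂ K t • G) r * z) :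
    (∀ i j, i ≠ j → e i * z * e j = 0) ∧
      ∀ i, e i * z * (1 - ∑ j, e j) = 0 ∧ (1 - ∑ j, e j) * z * e i = 0 :=
  hom_all h hG.memG hR hT hb _ ht (hnil _ (hG.generic_add t).mem)
    (MM_sum h.data (hG.generic_add t).mem.2) (derR' h.data (hG.generic_add t)) hz

include h hG hR hT hnil in
theorem cx_of [IsAlgClosed K] [CharZero K] {m' : ℕ} {lam : Fin m' → K}
    {π : Fin m' → Module.End K C.M} {e : Fin m' → Matrix (Ix n) (Ix n) K}
    (hb : Blk F C τ m' lam π e) (hss : ∀ i v, τ (π i v) = lam i • π i v) :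
    QQ1.Cx ℂ (TS lam) c.arm (Jm n K) (c.B K) N W F G e lam where
  data := h.data
  memH := h.gen.mem
  memG := hG.memG
  gen t _ := hG.generic_add t
  t0 t ht := by
    rw [Ne, ← map_zero (algebraMap ℂ K)]
    exact fun h0 => ht.1 ((algebraMap ℂ K).injective h0)
  sa := hb.sa
  idem := hb.idem
  orth := hb.orth
  eG i := by
    have h1 : e i * ht C τ = lam i • e i := by
      rw [hb.e_eq, ht_mul]
      have h2 : π i * τ = lam i • π i := by
        refine LinearMap.ext fun v => ?_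
        rw [Module.End.mul_apply, hb.pcom τ (fun v => rfl) i v, hss]
        rfl
      rw [h2]
      exact map_smul _ _ _
    have h3 : e i * eM C = e i := by rw [hb.e_eq, ht_e]
    calc e i * G = e i * (eM C * G) := by rw [← Matrix.mul_assoc, h3]
      _ = e i * ht C τ * F := by
          rw [h.eG hG.memG, DD_eq_ht h hG.memG hR hT, Matrix.mul_assoc]
      _ = lam i • (e i * F) := by rw [h1, Matrix.smul_mul]
  ne t ht := ht.2
  com := hb.com
  perf := perf' h hb
  hom t ht z hz := hom_const h hG hR hT hnil hb t ht.2 hz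

include h in
theorem blk_M {m' : ℕ} {lam : Fin m' → K}
    {π : Fin m' → Module.End K C.M} {e : Fin m' → Matrix (Ix n) (Ix n) K}
    (hb : Blk F C τ m' lam π e) (v : Ix n → K) :
    v ∈ C.M ↔ ∃ w, v = (∑ i, e i) *ᵥ w := by
  rw [hb.sum]; exact mem_M C v

theorem blk_Phi {m' : ℕ} {lam : Fin m' → K}
    {π : Fin m' → Module.End K C.M} {e : Fin m' → Matrix (Ix n) (Ix n) K}
    (hb : Blk F C τ m' lam π e) (s : Fin 3) (v : C.M) :
    ((cp C (Ph F s) v : C.M) : Ix n → K) =
      (∑ i, e i) *ᵥ (FO.Phi c.arm (Jm n K) (c.B K) F s *ᵥ (v : Ix n → K)) := by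
  rw [hb.sum, eM_mulVec, ← Ph_apply]
  rfl

include hG hR hT hnil in
/-- **(T0)** for radical zero and semisimple `τ` -/
theorem notTame_ss [IsAlgClosed K] [CharZero K]
    (hD : FO.Data ℂ c.arm (Jm n K) (c.B K) N W)
    (hss : ∀ ν, ∀ v ∈ τ.maxGenEigenspace ν, τ v = ν • v) : False := by
  obtain ⟨Q, m, h⟩ := exists_Co hD hG.generic C hR
  obtain ⟨m', lam, π, e, hb⟩ := exists_Blk h hR hT
  have hcx := cx_of h hG hR hT hnil hb (fun i v => hss _ _ (hb.mem i v))
  exact QQ2.cx_false (TS_infinite lam) hb.inj hcx (h.F_pp.trans hb.sum.symm) (blk_M h hb)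
    (fun s => cp C (Ph F s)) (blk_Phi hb) hT.comm (Module.End.iSup_maxGenEigenspace_eq_top τ)
    hT.tame hb.hC hb.cov hb.nb

end Crest.Agent.R172.N5
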