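import Crest.Agent.R172.TL1

/-!
Row 172, TAME, node (o2) of note 15216: the `c`-scaling lemma `TL.filt_mem` for a derivation that
is not semisimple.

`D₁, D₂` commute with the free nilpotents `φ₁, φ₂` and `D_i - la_i` is nilpotent, `la₁ ≠ la₂`.
Put `c_i = 1 + t D_i`.  If `ι₁ (x c₁) + ι₂ (c₂ x) ∈ S` for infinitely many `t` and all `x` with
`x c₁² φ₁ = c₂² φ₂ x`, then `ι₁ y ∈ S` and `ι₂ y ∈ S` for every filtered `y`.

Proof: modulo the two commuting nilpotent operators `N₂ ∘ ·` and `· ∘ N₁` the statement is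
`TL.filt_mem`; then Nakayama.
-/

set_option autoImplicit false

namespace Crest.Agent.R172.TL

open Module LinearMap

variable {K : Type*} [Field K]

section nak

variable {P : Type*} [AddCommGroup P] [Module K P]

/-- Nakayama for one nilpotent operator. -/
theorem nak1 (Sp U : Submodule K P) (B : End K P) {n : ℕ} (hB : B ^ n = 0)
    (hS : Sp.map B ≤ Sp) (hU : U ≤ Sp ⊔ U.map B) : U ≤ Sp := by
  have hSk : ∀ k : ℕ, Sp.map (B ^ k) ≤ Sp := by
    intro k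
    induction k with
    | zero => rw [pow_zero]; exact le_of_eq (Submodule.map_id Sp)
    | succ k ih =>
      have : Sp.map (B ^ (k + 1)) = (Sp.map (B ^ k)).map B := by
        rw [pow_succ', Module.End.mul_eq_comp, Submodule.map_comp]
      rw [this]
      exact (Submodule.map_mono ih).trans hS
  have hk : ∀ k : ℕ, U ≤ Sp ⊔ U.map (B ^ k) := by
    intro k
    induction k with
    | zero =>
      rw [pow_zero]
      have : U.map (1 : End K P) = U := Submodule.map_id U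
      rw [this]
      exact le_sup_right
    | succ k ih =>
      refine ih.trans (sup_le le_sup_left ?_)
      refine (Submodule.map_mono hU).trans ?_
      rw [Submodule.map_sup]
      refine sup_le ((hSk k).trans le_sup_left) ?_
      have : (U.map B).map (B ^ k) = U.map (B ^ (k + 1)) := by
        rw [pow_succ, Module.End.mul_eq_comp, Submodule.map_comp]
      rw [this]
      exact le_sup_right
  have h := hk n
  rw [hB, Submodule.map_zero, sup_bot_eq] at h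
  exact h

/-- Nakayama for two commuting nilpotent operators. -/
theorem nak2 (Sp U : Submodule K P) (A B : End K P) {n m : ℕ} (hA : A ^ m = 0) (hB : B ^ n = 0)
    (hAB : Commute A B)
    (hSA : Sp.map A ≤ Sp) (hSB : Sp.map B ≤ Sp) (hUB : U.map B ≤ U)
    (hU : U ≤ Sp ⊔ U.map A ⊔ U.map B) : U ≤ Sp := by
  refine nak1 Sp U A hA hSA ?_
  refine nak1 (Sp ⊔ U.map A) U B hB ?_ hU
  rw [Submodule.map_sup]
  refine sup_le (hSB.trans le_sup_left) ?_
  have : (U.map A).map B = (U.map B).map A := by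
    rw [← Submodule.map_comp, ← Submodule.map_comp]
    have := hAB.eq
    rw [Module.End.mul_eq_comp, Module.End.mul_eq_comp] at this
    rw [this]
  rw [this]
  exact (Submodule.map_mono hUB).trans le_sup_right

end nak

section solve

variable {C₁ C₂ : Type*} [AddCommGroup C₁] [Module K C₁] [AddCommGroup C₂] [Module K C₂]

/-- from a commutation relation with shifted right hand side to filteredness -/
theorem filt_of_rel {ψ₁ : End K C₁} {ψ₂ : End K C₂} {Y Z : C₁ →ₗ[K] C₂}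
    (h : ∀ w, Y (ψ₁ w) = ψ₂ (Y w) + Z w)
    (hZ : ∀ j : ℕ, ∀ v ∈ range (ψ₁ ^ j), Z v ∈ range (ψ₂ ^ (j + 1))) : Filt ψ₁ ψ₂ Y := by
  intro j
  induction j with
  | zero =>
    intro v _
    exact ⟨Y v, rfl⟩
  | succ j ih =>
    rintro v ⟨u, rfl⟩
    rw [pow_succ' ψ₁, Module.End.mul_apply, h]
    refine Submodule.add_mem _ ?_ (hZ j _ ⟨u, rfl⟩)
    obtain ⟨w, hw⟩ := ih _ ⟨u, rfl⟩
    rw [← hw, ← Module.End.mul_apply, ← pow_succ']
    exact ⟨w, rfl⟩

/-- the equation `Y ψ₁ - ψ₂ Y = Z` for `Z` of shift one -/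
theorem solve [FiniteDimensional K C₁] {ψ₁ : End K C₁} {ψ₂ : End K C₂} {l : ℕ}
    (h₁ : ψ₁ ^ l = 0) (hf₁ : l * finrank K (ker ψ₁) = finrank K C₁) (h₂ : ψ₂ ^ l = 0)
    (Z : C₁ →ₗ[K] C₂) (hZ : ∀ j : ℕ, ∀ v ∈ range (ψ₁ ^ j), Z v ∈ range (ψ₂ ^ (j + 1))) :
    ∃ Y : C₁ →ₗ[K] C₂, Filt ψ₁ ψ₂ Y ∧ Y ∘ₗ ψ₁ - ψ₂ ∘ₗ Y = Z := by
  classical
  obtain ⟨e, b, hb⟩ := TC.exists_adapted h₁ hf₁
  let f : ℕ → Fin (finrank K (ker ψ₁)) → C₂ := fun j a =>
    Nat.rec 0 (fun j v => ψ₂ v + Z ((ψ₁ ^ j) (e a))) j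
  have hf0 : ∀ a, f 0 a = 0 := fun a => rfl
  have hfs : ∀ j a, f (j + 1) a = ψ₂ (f j a) + Z ((ψ₁ ^ j) (e a)) := fun j a => rfl
  have hfr : ∀ j a, f j a ∈ range (ψ₂ ^ j) := by
    intro j a
    induction j with
    | zero => exact ⟨f 0 a, rfl⟩
    | succ j ih =>
      rw [hfs]
      refine Submodule.add_mem _ ?_ (hZ j _ ⟨e a, rfl⟩)
      obtain ⟨w, hw⟩ := ih
      rw [← hw, ← Module.End.mul_apply, ← pow_succ']
      exact ⟨w, rfl⟩
  let Y : C₁ →ₗ[K] C₂ := b.constr K (fun p => f p.1 p.2)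
  have hYb : ∀ p, Y (b p) = f p.1 p.2 := fun p => b.constr_basis K _ p
  have hrel : Y ∘ₗ ψ₁ - ψ₂ ∘ₗ Y = Z := by
    refine b.ext fun p => ?_
    rw [LinearMap.sub_apply, LinearMap.comp_apply, LinearMap.comp_apply, hYb]
    have hφ : ψ₁ (b p) = (ψ₁ ^ ((p.1 : ℕ) + 1)) (e p.2) := by
      rw [hb, ← Module.End.mul_apply, ← pow_succ']
    by_cases hp : (p.1 : ℕ) + 1 < l
    · have h5 : ψ₁ (b p) = b (⟨(p.1 : ℕ) + 1, hp⟩, p.2) := by
        rw [hφ, hb]
      rw [h5, hYb]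
      show f ((p.1 : ℕ) + 1) p.2 - _ = _
      rw [hfs, hb, add_sub_cancel_left]
    · have hl : (p.1 : ℕ) + 1 = l := by
        have := p.1.2
        omega
      have h5 : ψ₁ (b p) = 0 := by
        rw [hφ, hl, h₁]
        rfl
      have h6 : ψ₂ (f p.1 p.2) = 0 := by
        obtain ⟨w, hw⟩ := hfr p.1 p.2
        rw [← hw, ← Module.End.mul_apply, ← pow_succ', hl, h₂]
        rfl
      have h7 : Z (b p) = 0 := by
        have := hZ p.1 (b p) ⟨e p.2, (hb p).symm⟩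
        rw [hl, h₂] at this
        obtain ⟨w, hw⟩ := this
        rw [← hw]
        rfl
      rw [h5, h6, h7, map_zero, sub_zero]
  refine ⟨Y, filt_of_rel (Z := Z) ?_ hZ, hrel⟩
  intro w
  have := LinearMap.congr_fun hrel w
  rw [LinearMap.sub_apply, LinearMap.comp_apply, LinearMap.comp_apply] at this
  rw [← this]
  abel

end solve

section unit

variable {C : Type*} [AddCommGroup C] [Module K C]

theorem range_unit_mul_pow {φ u : End K C} (hu : IsUnit u) (hc : Commute u φ) (j : ℕ) :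
    range ((u * φ) ^ j) = range (φ ^ j) := by
  rw [hc.mul_pow, (hc.pow_pow j j).eq, Module.End.mul_eq_comp]
  refine LinearMap.range_comp_of_range_eq_top _ ?_
  exact LinearMap.range_eq_top.2 (((Module.End.isUnit_iff _).1 (hu.pow j)).2)

theorem ker_unit_mul {φ u : End K C} (hu : IsUnit u) :
    ker (u * φ) = ker φ := by
  rw [Module.End.mul_eq_comp]
  refine LinearMap.ker_comp_of_ker_eq_bot _ ?_
  exact LinearMap.ker_eq_bot.2 (((Module.End.isUnit_iff _).1 hu).1)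

theorem isUnit_scalar_add {x : K} (hx : x ≠ 0) {N : End K C} (hN : IsNilpotent N) :
    IsUnit (x • (1 : End K C) + N) := by
  have h1 : IsUnit (x • (1 : End K C)) := by
    have : x • (1 : End K C) = algebraMap K (End K C) x := (Algebra.algebraMap_eq_smul_one x).symm
    rw [this]
    exact (IsUnit.mk0 x hx).map _
  refine hN.isUnit_add_left_of_commute h1 ?_
  exact (Commute.one_right N).smul_right x

theorem mem_range_of_commute {φ a : End K C} (h : Commute a φ) {j : ℕ} {v : C}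
    (hv : v ∈ range (φ ^ j)) : a v ∈ range (φ ^ j) := by
  obtain ⟨w, rfl⟩ := hv
  rw [← Module.End.mul_apply, (h.pow_right j).eq]
  exact ⟨a w, rfl⟩

theorem hstep (φ : End K C) (j : ℕ) (v : C) (hv : v ∈ range (φ ^ j)) :
    φ v ∈ range (φ ^ (j + 1)) := by
  obtain ⟨w, rfl⟩ := hv
  rw [← Module.End.mul_apply, ← pow_succ']
  exact ⟨w, rfl⟩

theorem hcom {a b : End K C} (hab : Commute a b) (w : C) : a (b w) = b (a w) :=
  LinearMap.congr_fun hab.eq w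

end unit

section main

variable {C₁ C₂ : Type*} [AddCommGroup C₁] [Module K C₁] [AddCommGroup C₂] [Module K C₂]

/-- the submodule of filtered maps -/
def filtSub (φ₁ : End K C₁) (φ₂ : End K C₂) : Submodule K (C₁ →ₗ[K] C₂) where
  carrier := {y | Filt φ₁ φ₂ y}
  add_mem' := by
    intro a b ha hb j v hv
    rw [LinearMap.add_apply]
    exact Submodule.add_mem _ (ha j v hv) (hb j v hv)
  zero_mem' := by
    intro j v _
    rw [LinearMap.zero_apply]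
    exact Submodule.zero_mem _
  smul_mem' := by
    intro c a ha j v hv
    rw [LinearMap.smul_apply]
    exact Submodule.smul_mem _ _ (ha j v hv)

theorem mem_filtSub {φ₁ : End K C₁} {φ₂ : End K C₂} {y : C₁ →ₗ[K] C₂} :
    y ∈ filtSub φ₁ φ₂ ↔ Filt φ₁ φ₂ y := Iff.rfl

/-- `(p, q) ↦ (a p, a q)` -/
def opA (a : End K C₂) : End K ((C₁ →ₗ[K] C₂) × (C₁ →ₗ[K] C₂)) where
  toFun := fun z => (a ∘ₗ z.1, a ∘ₗ z.2)
  map_add' := by
    intro x y
    simp only [Prod.fst_add, Prod.snd_add, LinearMap.comp_add, Prod.mk_add_mk]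
  map_smul' := by
    intro c x
    simp only [Prod.smul_fst, Prod.smul_snd, LinearMap.comp_smul, RingHom.id_apply, Prod.smul_mk]

/-- `(p, q) ↦ (p a, q a)` -/
def opB (a : End K C₁) : End K ((C₁ →ₗ[K] C₂) × (C₁ →ₗ[K] C₂)) where
  toFun := fun z => (z.1 ∘ₗ a, z.2 ∘ₗ a)
  map_add' := by
    intro x y
    simp only [Prod.fst_add, Prod.snd_add, LinearMap.add_comp, Prod.mk_add_mk]
  map_smul' := by
    intro c x
    simp only [Prod.smul_fst, Prod.smul_snd, LinearMap.smul_comp, RingHom.id_apply, Prod.smul_mk]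

theorem opA_apply (a : End K C₂) (z : (C₁ →ₗ[K] C₂) × (C₁ →ₗ[K] C₂)) :
    opA a z = (a ∘ₗ z.1, a ∘ₗ z.2) := rfl

theorem opB_apply (a : End K C₁) (z : (C₁ →ₗ[K] C₂) × (C₁ →ₗ[K] C₂)) :
    opB a z = (z.1 ∘ₗ a, z.2 ∘ₗ a) := rfl

theorem opA_pow (a : End K C₂) (n : ℕ) :
    (opA a : End K ((C₁ →ₗ[K] C₂) × (C₁ →ₗ[K] C₂))) ^ n = opA (a ^ n) := by
  induction n with
  | zero =>
    ext z <;> simp [opA_apply]
  | succ n ih =>
    rw [pow_succ', ih]
    refine LinearMap.ext fun z => ?_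
    rw [Module.End.mul_apply, opA_apply, opA_apply, opA_apply, pow_succ',
      Module.End.mul_eq_comp, LinearMap.comp_assoc, LinearMap.comp_assoc]

theorem opB_pow (a : End K C₁) (n : ℕ) :
    (opB a : End K ((C₁ →ₗ[K] C₂) × (C₁ →ₗ[K] C₂))) ^ n = opB (a ^ n) := by
  induction n with
  | zero =>
    ext z <;> simp [opB_apply]
  | succ n ih =>
    rw [pow_succ', ih]
    refine LinearMap.ext fun z => ?_
    rw [Module.End.mul_apply, opB_apply, opB_apply, opB_apply, pow_succ,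
      Module.End.mul_eq_comp, LinearMap.comp_assoc, LinearMap.comp_assoc]

theorem opA_nil {a : End K C₂} {n : ℕ} (h : a ^ n = 0) :
    (opA a : End K ((C₁ →ₗ[K] C₂) × (C₁ →ₗ[K] C₂))) ^ n = 0 := by
  rw [opA_pow, h]
  refine LinearMap.ext fun z => ?_
  rw [opA_apply, LinearMap.zero_comp, LinearMap.zero_comp]
  rfl

theorem opB_nil {a : End K C₁} {n : ℕ} (h : a ^ n = 0) :
    (opB a : End K ((C₁ →ₗ[K] C₂) × (C₁ →ₗ[K] C₂))) ^ n = 0 := by
  rw [opB_pow, h]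
  refine LinearMap.ext fun z => ?_
  rw [opB_apply, LinearMap.comp_zero, LinearMap.comp_zero]
  rfl

theorem opAB (a : End K C₂) (b : End K C₁) :
    Commute (opA a : End K ((C₁ →ₗ[K] C₂) × (C₁ →ₗ[K] C₂))) (opB b) := by
  refine LinearMap.ext fun z => ?_
  rw [Module.End.mul_apply, Module.End.mul_apply, opA_apply, opB_apply, opB_apply, opA_apply]
  rw [LinearMap.comp_assoc, LinearMap.comp_assoc]

/-- composition of filtered maps -/
theorem Filt.comp_left {φ₁ : End K C₁} {φ₂ : End K C₂} {y : C₁ →ₗ[K] C₂} (hy : Filt φ₁ φ₂ y)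
    {a : End K C₂} (ha : Commute a φ₂) : Filt φ₁ φ₂ (a ∘ₗ y) := fun j v hv =>
  mem_range_of_commute ha (hy j v hv)

theorem Filt.comp_right {φ₁ : End K C₁} {φ₂ : End K C₂} {y : C₁ →ₗ[K] C₂} (hy : Filt φ₁ φ₂ y)
    {a : End K C₁} (ha : Commute a φ₁) : Filt φ₁ φ₂ (y ∘ₗ a) := fun j v hv =>
  hy j (a v) (mem_range_of_commute ha hv)

/-- the scaling lemma for a non-semisimple derivation -/
theorem filt_mem_gen {E : Type*} [AddCommGroup E] [Module K E] [FiniteDimensional K C₁]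
    [FiniteDimensional K C₂] {φ₁ : End K C₁} {φ₂ : End K C₂} {l : ℕ}
    (h₁ : φ₁ ^ l = 0) (hf₁ : l * finrank K (ker φ₁) = finrank K C₁)
    (h₂ : φ₂ ^ l = 0) (hf₂ : l * finrank K (ker φ₂) = finrank K C₂)
    {D₁ : End K C₁} {D₂ : End K C₂} {la₁ la₂ : K} (hla : la₁ ≠ la₂)
    (hn₁ : IsNilpotent (D₁ - la₁ • (1 : End K C₁))) (hn₂ : IsNilpotent (D₂ - la₂ • (1 : End K C₂)))
    (hc₁ : Commute D₁ φ₁) (hc₂ : Commute D₂ φ₂)
    (S : Submodule K E) (ι₁ ι₂ : (C₁ →ₗ[K] C₂) →ₗ[K] E) {T : Set K} (hT : T.Infinite)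
    (h : ∀ t ∈ T, ∀ x : C₁ →ₗ[K] C₂,
      x ∘ₗ ((1 + t • D₁) * (1 + t • D₁) * φ₁) = ((1 + t • D₂) * (1 + t • D₂) * φ₂) ∘ₗ x →
      ι₁ (x ∘ₗ (1 + t • D₁)) + ι₂ ((1 + t • D₂) ∘ₗ x) ∈ S)
    {y : C₁ →ₗ[K] C₂} (hy : Filt φ₁ φ₂ y) : ι₁ y ∈ S ∧ ι₂ y ∈ S := by
  classical
  obtain ⟨n₁, hN₁⟩ := hn₁
  obtain ⟨n₂, hN₂⟩ := hn₂
  obtain ⟨N₁, hN₁d⟩ : ∃ N : End K C₁, N = D₁ - la₁ • (1 : End K C₁) := ⟨_, rfl⟩
  obtain ⟨N₂, hN₂d⟩ : ∃ N : End K C₂, N = D₂ - la₂ • (1 : End K C₂) := ⟨_, rfl⟩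
  rw [← hN₁d] at hN₁
  rw [← hN₂d] at hN₂
  have hD₁ : D₁ = la₁ • (1 : End K C₁) + N₁ := by rw [hN₁d]; abel
  have hD₂ : D₂ = la₂ • (1 : End K C₂) + N₂ := by rw [hN₂d]; abel
  have hcN₁ : Commute N₁ φ₁ := by
    rw [hN₁d]
    exact hc₁.sub_left ((Commute.one_left φ₁).smul_left la₁)
  have hcN₂ : Commute N₂ φ₂ := by
    rw [hN₂d]
    exact hc₂.sub_left ((Commute.one_left φ₂).smul_left la₂)
  -- the good parameters
  let T' : Set K := {t | t ∈ T ∧ 1 + t * la₁ ≠ 0 ∧ 1 + t * la₂ ≠ 0}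
  have hfin : ∀ la : K, ({t : K | 1 + t * la = 0} : Set K).Finite := by
    intro la
    refine Set.Subsingleton.finite ?_
    intro s hs t ht
    have hs : 1 + s * la = 0 := hs
    have ht : 1 + t * la = 0 := ht
    have hla0 : la ≠ 0 := by
      rintro rfl
      rw [mul_zero, add_zero] at hs
      exact one_ne_zero hs
    exact mul_right_cancel₀ hla0 (add_left_cancel (hs.trans ht.symm))
  have hT' : T'.Infinite := by
    have h1 : (T \ ({t : K | 1 + t * la₁ = 0} ∪ {t : K | 1 + t * la₂ = 0})).Infinite :=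
      hT.sdiff ((hfin la₁).union (hfin la₂))
    refine h1.mono ?_
    rintro t ⟨ht, ht'⟩
    rw [Set.mem_union, not_or] at ht'
    exact ⟨ht, ht'.1, ht'.2⟩
  let Λ : Set K := (fun t => (1 + t * la₁) / (1 + t * la₂)) '' T'
  have hΛ : Λ.Infinite := by
    refine hT'.image ?_
    rintro s ⟨_, hs1, hs2⟩ t ⟨_, ht1, ht2⟩ hst
    simp only at hst
    rw [div_eq_div_iff hs2 ht2] at hst
    have h3 : (s - t) * (la₁ - la₂) = 0 := by linear_combination hst
    rcases mul_eq_zero.1 h3 with h4 | h4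
    · exact sub_eq_zero.1 h4
    · exact absurd (sub_eq_zero.1 h4) hla
  -- the span of the given pairs
  let Sp : Submodule K ((C₁ →ₗ[K] C₂) × (C₁ →ₗ[K] C₂)) := Submodule.span K
    {z | ∃ t ∈ T', ∃ x : C₁ →ₗ[K] C₂,
      x ∘ₗ ((1 + t • D₁) * (1 + t • D₁) * φ₁) = ((1 + t • D₂) * (1 + t • D₂) * φ₂) ∘ₗ x ∧
      z = (x ∘ₗ (1 + t • D₁), (1 + t • D₂) ∘ₗ x)}
  have hSpS : Sp ≤ S.comap (ι₁.coprod ι₂) := by
    refine Submodule.span_le.2 ?_
    rintro z ⟨t, ht, x, hx, rfl⟩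
    rw [SetLike.mem_coe, Submodule.mem_comap, LinearMap.coprod_apply]
    exact h t ht.1 x hx
  let FF := (filtSub φ₁ φ₂).prod (filtSub φ₁ φ₂)
  -- stability
  have hcD₁ : ∀ t : K, Commute N₁ (1 + t • D₁) := by
    intro t
    refine (Commute.one_right N₁).add_right (Commute.smul_right ?_ t)
    rw [hD₁]
    exact ((Commute.one_right N₁).smul_right la₁).add_right (Commute.refl N₁)
  have hcD₂ : ∀ t : K, Commute N₂ (1 + t • D₂) := by
    intro t
    refine (Commute.one_right N₂).add_right (Commute.smul_right ?_ t)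
    rw [hD₂]
    exact ((Commute.one_right N₂).smul_right la₂).add_right (Commute.refl N₂)
  have hSA : Sp.map (opA N₂) ≤ Sp := by
    rw [Submodule.map_le_iff_le_comap]
    refine Submodule.span_le.2 ?_
    rintro z ⟨t, ht, x, hx, rfl⟩
    rw [SetLike.mem_coe, Submodule.mem_comap, opA_apply]
    refine Submodule.subset_span ⟨t, ht, N₂ ∘ₗ x, ?_, ?_⟩
    · rw [LinearMap.comp_assoc, hx, ← LinearMap.comp_assoc, ← LinearMap.comp_assoc]
      have := (((hcD₂ t).mul_right (hcD₂ t)).mul_right hcN₂).eq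
      rw [Module.End.mul_eq_comp _ ((1 + t • D₂) * (1 + t • D₂) * φ₂),
        Module.End.mul_eq_comp ((1 + t • D₂) * (1 + t • D₂) * φ₂)] at this
      rw [this]
    · have := (hcD₂ t).eq
      rw [Module.End.mul_eq_comp, Module.End.mul_eq_comp] at this
      simp only [← LinearMap.comp_assoc, this]
  have hSB : Sp.map (opB N₁) ≤ Sp := by
    rw [Submodule.map_le_iff_le_comap]
    refine Submodule.span_le.2 ?_
    rintro z ⟨t, ht, x, hx, rfl⟩
    rw [SetLike.mem_coe, Submodule.mem_comap, opB_apply]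
    refine Submodule.subset_span ⟨t, ht, x ∘ₗ N₁, ?_, ?_⟩
    · rw [← LinearMap.comp_assoc, ← hx, LinearMap.comp_assoc, LinearMap.comp_assoc]
      have := (((hcD₁ t).mul_right (hcD₁ t)).mul_right hcN₁).eq
      rw [Module.End.mul_eq_comp _ ((1 + t • D₁) * (1 + t • D₁) * φ₁),
        Module.End.mul_eq_comp ((1 + t • D₁) * (1 + t • D₁) * φ₁)] at this
      rw [this]
    · have := (hcD₁ t).eq
      rw [Module.End.mul_eq_comp, Module.End.mul_eq_comp] at this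
      simp only [LinearMap.comp_assoc, this]
  have hFB : FF.map (opB N₁) ≤ FF := by
    rw [Submodule.map_le_iff_le_comap]
    rintro ⟨p, q⟩ ⟨hp, hq⟩
    exact ⟨Filt.comp_right hp hcN₁, Filt.comp_right hq hcN₁⟩
  -- the approximation
  have happ : ∀ c ∈ Λ, ∀ x : C₁ →ₗ[K] C₂, c ^ 2 • (x ∘ₗ φ₁) = φ₂ ∘ₗ x →
      c • (LinearMap.inl K (C₁ →ₗ[K] C₂) (C₁ →ₗ[K] C₂)) x +
        (LinearMap.inr K (C₁ →ₗ[K] C₂) (C₁ →ₗ[K] C₂)) x ∈
        Sp ⊔ FF.map (opA N₂) ⊔ FF.map (opB N₁) := by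
    rintro c ⟨t, ⟨htT, ht1, ht2⟩, rfl⟩ x hx
    obtain ⟨c₁, hc₁d⟩ : ∃ c : End K C₁, c = 1 + t • D₁ := ⟨_, rfl⟩
    obtain ⟨c₂, hc₂d⟩ : ∃ c : End K C₂, c = 1 + t • D₂ := ⟨_, rfl⟩
    obtain ⟨x₁, hx₁d⟩ : ∃ x₁ : K, x₁ = 1 + t * la₁ := ⟨_, rfl⟩
    obtain ⟨x₂, hx₂d⟩ : ∃ x₂ : K, x₂ = 1 + t * la₂ := ⟨_, rfl⟩
    simp only at hx ⊢
    rw [← hx₁d] at ht1 hx ⊢
    rw [← hx₂d] at ht2 hx ⊢
    have hc₁e : c₁ = x₁ • (1 : End K C₁) + t • N₁ := by
      rw [hc₁d, hx₁d, hD₁, smul_add, smul_smul, add_smul, one_smul]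
      abel
    have hc₂e : c₂ = x₂ • (1 : End K C₂) + t • N₂ := by
      rw [hc₂d, hx₂d, hD₂, smul_add, smul_smul, add_smul, one_smul]
      abel
    have hc₁a : ∀ w, c₁ w = x₁ • w + t • N₁ w := by
      intro w
      rw [hc₁e]
      rfl
    have hc₂a : ∀ w, c₂ w = x₂ • w + t • N₂ w := by
      intro w
      rw [hc₂e]
      rfl
    have hu₁ : IsUnit c₁ := by
      rw [hc₁e]
      exact isUnit_scalar_add ht1 ⟨n₁, by rw [smul_pow, hN₁, smul_zero]⟩
    have hu₂ : IsUnit c₂ := by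
      rw [hc₂e]
      exact isUnit_scalar_add ht2 ⟨n₂, by rw [smul_pow, hN₂, smul_zero]⟩
    have hcφ₁ : Commute c₁ φ₁ := by
      rw [hc₁d]
      exact (Commute.one_left φ₁).add_left (hc₁.smul_left t)
    have hcφ₂ : Commute c₂ φ₂ := by
      rw [hc₂d]
      exact (Commute.one_left φ₂).add_left (hc₂.smul_left t)
    have hNc₁ : Commute N₁ c₁ := by rw [hc₁d]; exact hcD₁ t
    have hNc₂ : Commute N₂ c₂ := by rw [hc₂d]; exact hcD₂ t
    have hr₁ : ∀ j, range ((c₁ * c₁ * φ₁) ^ j) = range (φ₁ ^ j) := fun j =>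
      range_unit_mul_pow (hu₁.mul hu₁) (hcφ₁.mul_left hcφ₁) j
    have hr₂ : ∀ j, range ((c₂ * c₂ * φ₂) ^ j) = range (φ₂ ^ j) := fun j =>
      range_unit_mul_pow (hu₂.mul hu₂) (hcφ₂.mul_left hcφ₂) j
    have hk₁ : ker (c₁ * c₁ * φ₁) = ker φ₁ := ker_unit_mul (hu₁.mul hu₁)
    have hz₁ : (c₁ * c₁ * φ₁) ^ l = 0 := by
      rw [(hcφ₁.mul_left hcφ₁).mul_pow, h₁, mul_zero]
    have hz₂ : (c₂ * c₂ * φ₂) ^ l = 0 := by
      rw [(hcφ₂.mul_left hcφ₂).mul_pow, h₂, mul_zero]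
    -- the relation for x
    have hxr : ∀ w, (x₁ * x₁) • x (φ₁ w) = (x₂ * x₂) • φ₂ (x w) := by
      intro w
      have h1 := LinearMap.congr_fun hx w
      rw [LinearMap.smul_apply, LinearMap.comp_apply, LinearMap.comp_apply] at h1
      rw [← h1, smul_smul]
      congr 1
      field_simp
    have hxF : Filt φ₁ φ₂ x := by
      intro j
      induction j with
      | zero =>
        intro v _
        exact ⟨x v, rfl⟩
      | succ j ih =>
        rintro v ⟨u, rfl⟩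
        rw [pow_succ' φ₁, Module.End.mul_apply]
        obtain ⟨w, hw⟩ := ih _ ⟨u, rfl⟩
        have h2 : x (φ₁ ((φ₁ ^ j) u)) = ((x₁ * x₁)⁻¹ * (x₂ * x₂)) • φ₂ (x ((φ₁ ^ j) u)) := by
          rw [mul_smul, ← hxr, smul_smul, inv_mul_cancel₀ (mul_ne_zero ht1 ht1), one_smul]
        rw [h2, ← hw, ← Module.End.mul_apply, ← pow_succ']
        exact Submodule.smul_mem _ _ ⟨w, rfl⟩
    -- the right hand sides
    obtain ⟨r₁, hr₁d⟩ : ∃ r : End K C₁, r = (2 * t * x₁) • (1 : End K C₁) + (t * t) • N₁ :=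
      ⟨_, rfl⟩
    obtain ⟨r₂, hr₂d⟩ : ∃ r : End K C₂, r = (2 * t * x₂) • (1 : End K C₂) + (t * t) • N₂ :=
      ⟨_, rfl⟩
    have hr₁c : Commute r₁ φ₁ := by
      rw [hr₁d]
      exact ((Commute.one_left φ₁).smul_left _).add_left (hcN₁.smul_left _)
    have hr₂c : Commute r₂ φ₂ := by
      rw [hr₂d]
      exact ((Commute.one_left φ₂).smul_left _).add_left (hcN₂.smul_left _)
    have hr₁a : ∀ w, r₁ w = (2 * t * x₁) • w + (t * t) • N₁ w := by
      intro w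
      rw [hr₁d]
      rfl
    have hr₂a : ∀ w, r₂ w = (2 * t * x₂) • w + (t * t) • N₂ w := by
      intro w
      rw [hr₂d]
      rfl
    have hZ₁ : ∀ j : ℕ, ∀ v ∈ range ((c₁ * c₁ * φ₁) ^ j),
        (-(x ∘ₗ φ₁ ∘ₗ r₁)) v ∈ range ((c₂ * c₂ * φ₂) ^ (j + 1)) := by
      intro j v hv
      rw [hr₁] at hv
      rw [hr₂, LinearMap.neg_apply]
      exact Submodule.neg_mem _ (hxF (j + 1) _ (hstep φ₁ j _ (mem_range_of_commute hr₁c hv)))
    have hZ₂ : ∀ j : ℕ, ∀ v ∈ range ((c₁ * c₁ * φ₁) ^ j),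
        (r₂ ∘ₗ φ₂ ∘ₗ x) v ∈ range ((c₂ * c₂ * φ₂) ^ (j + 1)) := by
      intro j v hv
      rw [hr₁] at hv
      rw [hr₂]
      exact mem_range_of_commute hr₂c (hstep φ₂ j _ (hxF j v hv))
    obtain ⟨U₁, hU₁F, hU₁⟩ := solve hz₁ (by rw [hk₁]; exact hf₁) hz₂ _ hZ₁
    obtain ⟨U₂, hU₂F, hU₂⟩ := solve hz₁ (by rw [hk₁]; exact hf₁) hz₂ _ hZ₂
    have hU₁' : Filt φ₁ φ₂ U₁ := by
      intro j v hv
      have := hU₁F j v (by rw [hr₁]; exact hv)
      rwa [hr₂] at this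
    have hU₂' : Filt φ₁ φ₂ U₂ := by
      intro j v hv
      have := hU₂F j v (by rw [hr₁]; exact hv)
      rwa [hr₂] at this
    have hU₁a : ∀ w, U₁ ((c₁ * c₁ * φ₁) w) = (c₂ * c₂ * φ₂) (U₁ w) - x (φ₁ (r₁ w)) := by
      intro w
      have := LinearMap.congr_fun hU₁ w
      rw [LinearMap.sub_apply, LinearMap.comp_apply, LinearMap.comp_apply, LinearMap.neg_apply,
        LinearMap.comp_apply, LinearMap.comp_apply] at this
      rw [sub_eq_add_neg, ← this]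
      abel
    have hU₂a : ∀ w, U₂ ((c₁ * c₁ * φ₁) w) = (c₂ * c₂ * φ₂) (U₂ w) + r₂ (φ₂ (x w)) := by
      intro w
      have := LinearMap.congr_fun hU₂ w
      rw [LinearMap.sub_apply, LinearMap.comp_apply, LinearMap.comp_apply,
        LinearMap.comp_apply, LinearMap.comp_apply] at this
      rw [← this]
      abel
    -- expansions
    have e1 : ∀ w, x ((c₁ * c₁ * φ₁) w) = (x₁ * x₁) • x (φ₁ w) + x (φ₁ (r₁ (N₁ w))) := by
      intro w
      rw [Module.End.mul_apply, Module.End.mul_apply, hc₁a (c₁ _), hc₁a (φ₁ w), hr₁a]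
      rw [map_add φ₁, map_smul φ₁, map_smul φ₁, ← hcom hcN₁ (N₁ w), ← hcom hcN₁ w]
      rw [map_add N₁, map_smul N₁, map_smul N₁]
      simp only [map_add, map_smul]
      module
    have e2 : ∀ w, (c₂ * c₂ * φ₂) (x w) = (x₂ * x₂) • φ₂ (x w) + N₂ (r₂ (φ₂ (x w))) := by
      intro w
      rw [Module.End.mul_apply, Module.End.mul_apply, hc₂a (c₂ _), hc₂a (φ₂ (x w)), hr₂a]
      simp only [map_add, map_smul]
      module
    have hψN₁ : Commute N₁ (c₁ * c₁ * φ₁) := (hNc₁.mul_right hNc₁).mul_right hcN₁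
    have hψN₂ : Commute N₂ (c₂ * c₂ * φ₂) := (hNc₂.mul_right hNc₂).mul_right hcN₂
    obtain ⟨X, hX⟩ : ∃ X : C₁ →ₗ[K] C₂, X = x + U₁ ∘ₗ N₁ + N₂ ∘ₗ U₂ := ⟨_, rfl⟩
    have hXa : ∀ w, X w = x w + U₁ (N₁ w) + N₂ (U₂ w) := by
      intro w
      rw [hX]
      rfl
    have hXr : X ∘ₗ (c₁ * c₁ * φ₁) = (c₂ * c₂ * φ₂) ∘ₗ X := by
      refine LinearMap.ext fun w => ?_
      rw [LinearMap.comp_apply, LinearMap.comp_apply, hXa, hXa, map_add (c₂ * c₂ * φ₂),
        map_add (c₂ * c₂ * φ₂), e1, e2, hcom hψN₁, hU₁a, hU₂a, map_add N₂, hcom hψN₂, hxr]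
      abel
    have hmem : (X ∘ₗ c₁, c₂ ∘ₗ X) ∈ Sp := by
      refine Submodule.subset_span ⟨t, ⟨htT, ?_, ?_⟩, X, ?_, ?_⟩
      · rw [← hx₁d]; exact ht1
      · rw [← hx₂d]; exact ht2
      · rw [← hc₁d, ← hc₂d]; exact hXr
      · rw [← hc₁d, ← hc₂d]
    have hBm : opB N₁ (t • x + U₁ ∘ₗ c₁, c₂ ∘ₗ U₁) ∈ FF.map (opB N₁) :=
      Submodule.mem_map_of_mem ⟨(filtSub φ₁ φ₂).add_mem ((filtSub φ₁ φ₂).smul_mem t hxF)
        (Filt.comp_right hU₁' hcφ₁), Filt.comp_left hU₁' hcφ₂⟩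
    have hAm : opA N₂ (U₂ ∘ₗ c₁, t • x + c₂ ∘ₗ U₂) ∈ FF.map (opA N₂) :=
      Submodule.mem_map_of_mem ⟨Filt.comp_right hU₂' hcφ₁,
        (filtSub φ₁ φ₂).add_mem ((filtSub φ₁ φ₂).smul_mem t hxF) (Filt.comp_left hU₂' hcφ₂)⟩
    have hfin : (x₁ / x₂) • (LinearMap.inl K (C₁ →ₗ[K] C₂) (C₁ →ₗ[K] C₂)) x +
        (LinearMap.inr K (C₁ →ₗ[K] C₂) (C₁ →ₗ[K] C₂)) x =
        x₂⁻¹ • ((X ∘ₗ c₁, c₂ ∘ₗ X) - opA N₂ (U₂ ∘ₗ c₁, t • x + c₂ ∘ₗ U₂)
          - opB N₁ (t • x + U₁ ∘ₗ c₁, c₂ ∘ₗ U₁)) := by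
      rw [opA_apply, opB_apply]
      have f1 : X ∘ₗ c₁ - N₂ ∘ₗ (U₂ ∘ₗ c₁) - (t • x + U₁ ∘ₗ c₁) ∘ₗ N₁ = x₁ • x := by
        refine LinearMap.ext fun w => ?_
        simp only [LinearMap.sub_apply, LinearMap.comp_apply, LinearMap.add_apply,
          LinearMap.smul_apply, hXa]
        rw [hcom hNc₁ w, hc₁a w]
        simp only [map_add, map_smul]
        abel
      have f2 : c₂ ∘ₗ X - N₂ ∘ₗ (t • x + c₂ ∘ₗ U₂) - (c₂ ∘ₗ U₁) ∘ₗ N₁ = x₂ • x := by
        refine LinearMap.ext fun w => ?_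
        simp only [LinearMap.sub_apply, LinearMap.comp_apply, LinearMap.add_apply,
          LinearMap.smul_apply, hXa]
        rw [map_add c₂, map_add c₂, map_add N₂, map_smul N₂, hcom hNc₂, hc₂a (x w)]
        abel
      rw [Prod.mk_sub_mk, Prod.mk_sub_mk, f1, f2, LinearMap.inl_apply, LinearMap.inr_apply]
      refine Prod.ext ?_ ?_
      · simp only [Prod.fst_add, Prod.smul_fst, add_zero, smul_smul, div_eq_inv_mul]
      · simp only [Prod.snd_add, Prod.smul_snd, smul_zero, zero_add, smul_smul,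
          inv_mul_cancel₀ ht2, one_smul]
    rw [hfin]
    refine Submodule.smul_mem _ _ (Submodule.sub_mem _ (Submodule.sub_mem _ ?_ ?_) ?_)
    · exact (le_sup_left.trans le_sup_left : Sp ≤ _) hmem
    · exact (le_sup_right.trans le_sup_left : FF.map (opA N₂) ≤ _) hAm
    · exact (le_sup_right : FF.map (opB N₁) ≤ _) hBm
  have hFF : FF ≤ Sp ⊔ FF.map (opA N₂) ⊔ FF.map (opB N₁) := by
    rintro ⟨p, q⟩ ⟨hp, hq⟩
    have r1 := (filt_mem h₁ hf₁ h₂ hf₂ (Sp ⊔ FF.map (opA N₂) ⊔ FF.map (opB N₁))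
      (LinearMap.inl K _ _) (LinearMap.inr K _ _) hΛ happ hp).1
    have r2 := (filt_mem h₁ hf₁ h₂ hf₂ (Sp ⊔ FF.map (opA N₂) ⊔ FF.map (opB N₁))
      (LinearMap.inl K _ _) (LinearMap.inr K _ _) hΛ happ hq).2
    have : ((p, q) : (C₁ →ₗ[K] C₂) × (C₁ →ₗ[K] C₂)) =
        LinearMap.inl K _ _ p + LinearMap.inr K _ _ q := by
      simp
    rw [this]
    exact Submodule.add_mem _ r1 r2
  have hle : FF ≤ Sp := nak2 Sp FF (opA N₂) (opB N₁) (opA_nil hN₂) (opB_nil hN₁) (opAB N₂ N₁)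
    hSA hSB hFB hFF
  constructor
  · have h5 : ((y, 0) : (C₁ →ₗ[K] C₂) × (C₁ →ₗ[K] C₂)) ∈ FF := ⟨hy, (filtSub φ₁ φ₂).zero_mem⟩
    have h6 := hSpS (hle h5)
    rw [Submodule.mem_comap, LinearMap.coprod_apply, map_zero, add_zero] at h6
    exact h6
  · have h5 : ((0, y) : (C₁ →ₗ[K] C₂) × (C₁ →ₗ[K] C₂)) ∈ FF := ⟨(filtSub φ₁ φ₂).zero_mem, hy⟩
    have h6 := hSpS (hle h5)
    rw [Submodule.mem_comap, LinearMap.coprod_apply, map_zero, zero_add] at h6
    exact h6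

/-- `V ↦ a V` -/
def lA (a : End K C₂) : End K (C₁ →ₗ[K] C₂) where
  toFun := fun z => a ∘ₗ z
  map_add' := fun x y => LinearMap.comp_add _ _ _
  map_smul' := fun c x => by rw [LinearMap.comp_smul]; rfl

/-- `V ↦ V b` -/
def lB (b : End K C₁) : End K (C₁ →ₗ[K] C₂) where
  toFun := fun z => z ∘ₗ b
  map_add' := fun x y => LinearMap.add_comp _ _ _
  map_smul' := fun c x => by rw [LinearMap.smul_comp]; rfl

theorem lA_apply (a : End K C₂) (z : C₁ →ₗ[K] C₂) : lA a z = a ∘ₗ z := rfl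

theorem lB_apply (b : End K C₁) (z : C₁ →ₗ[K] C₂) : lB b z = z ∘ₗ b := rfl

theorem lA_nil {a : End K C₂} (h : IsNilpotent a) :
    IsNilpotent (lA a : End K (C₁ →ₗ[K] C₂)) := by
  obtain ⟨n, hn⟩ := h
  refine ⟨n, ?_⟩
  have : ∀ n : ℕ, (lA a : End K (C₁ →ₗ[K] C₂)) ^ n = lA (a ^ n) := by
    intro n
    induction n with
    | zero =>
      refine LinearMap.ext fun z => ?_
      rw [pow_zero, pow_zero, lA_apply]
      rfl
    | succ n ih =>
      rw [pow_succ', ih]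
      refine LinearMap.ext fun z => ?_
      rw [Module.End.mul_apply, lA_apply, lA_apply, lA_apply, pow_succ',
        Module.End.mul_eq_comp, LinearMap.comp_assoc]
  rw [this, hn]
  refine LinearMap.ext fun z => ?_
  rw [lA_apply, LinearMap.zero_comp]
  rfl

theorem lB_nil {b : End K C₁} (h : IsNilpotent b) :
    IsNilpotent (lB b : End K (C₁ →ₗ[K] C₂)) := by
  obtain ⟨n, hn⟩ := h
  refine ⟨n, ?_⟩
  have : ∀ n : ℕ, (lB b : End K (C₁ →ₗ[K] C₂)) ^ n = lB (b ^ n) := by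
    intro n
    induction n with
    | zero =>
      refine LinearMap.ext fun z => ?_
      rw [pow_zero, pow_zero, lB_apply]
      rfl
    | succ n ih =>
      rw [pow_succ', ih]
      refine LinearMap.ext fun z => ?_
      rw [Module.End.mul_apply, lB_apply, lB_apply, lB_apply, pow_succ,
        Module.End.mul_eq_comp, LinearMap.comp_assoc]
  rw [this, hn]
  refine LinearMap.ext fun z => ?_
  rw [lB_apply, LinearMap.comp_zero]
  rfl

theorem lAB (a : End K C₂) (b : End K C₁) :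
    Commute (lA a : End K (C₁ →ₗ[K] C₂)) (lB b) := by
  refine LinearMap.ext fun z => ?_
  rw [Module.End.mul_apply, Module.End.mul_apply, lA_apply, lB_apply, lB_apply, lA_apply,
    LinearMap.comp_assoc]

/-- the Sylvester operator of two blocks with different eigenvalues is bijective -/
theorem sylvester {a : End K C₂} {b : End K C₁} {al be : K}
    (ha : IsNilpotent (a - al • (1 : End K C₂))) (hb : IsNilpotent (b - be • (1 : End K C₁)))
    (hne : al ≠ be) : Function.Bijective (lA a - lB b : End K (C₁ →ₗ[K] C₂)) := by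
  refine (Module.End.isUnit_iff _).1 ?_
  have : (lA a - lB b : End K (C₁ →ₗ[K] C₂)) = (al - be) • (1 : End K (C₁ →ₗ[K] C₂)) +
      (lA (a - al • (1 : End K C₂)) - lB (b - be • (1 : End K C₁))) := by
    refine LinearMap.ext fun z => LinearMap.ext fun w => ?_
    simp only [LinearMap.sub_apply, LinearMap.add_apply, LinearMap.smul_apply, lA_apply,
      lB_apply, LinearMap.comp_apply, Module.End.one_apply, map_sub, map_smul]
    module
  rw [this]
  exact isUnit_scalar_add (sub_ne_zero.2 hne) ((lAB _ _).isNilpotent_sub (lA_nil ha) (lB_nil hb))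

/-- solving `V b - a V = x` inside the intertwiners -/
theorem sylvester_intertwine {a ψ₂ : End K C₂} {b ψ₁ : End K C₁} {al be : K}
    (ha : IsNilpotent (a - al • (1 : End K C₂))) (hb : IsNilpotent (b - be • (1 : End K C₁)))
    (hne : al ≠ be) (hca : Commute a ψ₂) (hcb : Commute b ψ₁) (x : C₁ →ₗ[K] C₂)
    (hx : x ∘ₗ ψ₁ = ψ₂ ∘ₗ x) :
    ∃ V : C₁ →ₗ[K] C₂, V ∘ₗ ψ₁ = ψ₂ ∘ₗ V ∧ V ∘ₗ b - a ∘ₗ V = x := by
  have hbij := sylvester ha hb hne
  obtain ⟨V, hV⟩ := hbij.2 (-x)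
  rw [LinearMap.sub_apply, lA_apply, lB_apply] at hV
  have hV' : V ∘ₗ b - a ∘ₗ V = x := by
    rw [← neg_sub, hV, neg_neg]
  refine ⟨V, ?_, hV'⟩
  rw [← sub_eq_zero]
  apply hbij.1
  rw [map_zero, LinearMap.sub_apply, lA_apply, lB_apply]
  have e1 : ∀ w, V (b w) - a (V w) = x w := fun w => LinearMap.congr_fun hV' w
  refine LinearMap.ext fun w => ?_
  simp only [LinearMap.sub_apply, LinearMap.comp_apply, LinearMap.zero_apply, map_sub]
  rw [hcom hca, ← hcom hcb]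
  have e2 := e1 (ψ₁ w)
  have e3 : ψ₂ (V (b w)) - ψ₂ (a (V w)) = ψ₂ (x w) := by rw [← map_sub, e1]
  have e4 : x (ψ₁ w) = ψ₂ (x w) := LinearMap.congr_fun hx w
  rw [← e2, ← e3] at e4
  rw [sub_eq_sub_iff_add_eq_add] at e4
  rw [sub_sub_sub_comm, sub_eq_zero, sub_eq_sub_iff_add_eq_add]
  rw [add_comm, ← e4, add_comm]

/-- `filt_mem_gen` in the form produced by the first derivative: the family
`c⁻¹ X c - X`, `X = V - V*`. -/
theorem filt_mem_V {E : Type*} [AddCommGroup E] [Module K E] [FiniteDimensional K C₁]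
    [FiniteDimensional K C₂] {φ₁ : End K C₁} {φ₂ : End K C₂} {l : ℕ}
    (h₁ : φ₁ ^ l = 0) (hf₁ : l * finrank K (ker φ₁) = finrank K C₁)
    (h₂ : φ₂ ^ l = 0) (hf₂ : l * finrank K (ker φ₂) = finrank K C₂)
    {D₁ : End K C₁} {D₂ : End K C₂} {la₁ la₂ : K} (hla : la₁ ≠ la₂)
    (hn₁ : IsNilpotent (D₁ - la₁ • (1 : End K C₁))) (hn₂ : IsNilpotent (D₂ - la₂ • (1 : End K C₂)))
    (hc₁ : Commute D₁ φ₁) (hc₂ : Commute D₂ φ₂)
    (S : Submodule K E) (ι₁ ι₂ : (C₁ →ₗ[K] C₂) →ₗ[K] E) {T : Set K} (hT : T.Infinite)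
    (h : ∀ t ∈ T, ∀ V x : C₁ →ₗ[K] C₂,
      V ∘ₗ ((1 + t • D₁) * (1 + t • D₁) * φ₁) = ((1 + t • D₂) * (1 + t • D₂) * φ₂) ∘ₗ V →
      (1 + t • D₂) ∘ₗ x ∘ₗ (1 + t • D₁) = V ∘ₗ (1 + t • D₁) - (1 + t • D₂) ∘ₗ V →
      ι₁ (x ∘ₗ (1 + t • D₁)) + ι₂ ((1 + t • D₂) ∘ₗ x) ∈ S)
    {y : C₁ →ₗ[K] C₂} (hy : Filt φ₁ φ₂ y) : ι₁ y ∈ S ∧ ι₂ y ∈ S := by
  have hT0 : (T \ {0}).Infinite := hT.sdiff (Set.finite_singleton 0)
  refine filt_mem_gen h₁ hf₁ h₂ hf₂ hla hn₁ hn₂ hc₁ hc₂ S ι₁ ι₂ hT0 ?_ hy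
  rintro t ⟨ht, ht0⟩ x hx
  have ht0 : t ≠ 0 := ht0
  have hcψ₁ : Commute (1 + t • D₁) ((1 + t • D₁) * (1 + t • D₁) * φ₁) :=
    ((Commute.refl _).mul_right (Commute.refl _)).mul_right
      ((Commute.one_left φ₁).add_left (hc₁.smul_left t))
  have hcψ₂ : Commute (1 + t • D₂) ((1 + t • D₂) * (1 + t • D₂) * φ₂) :=
    ((Commute.refl _).mul_right (Commute.refl _)).mul_right
      ((Commute.one_left φ₂).add_left (hc₂.smul_left t))
  have hnil : ∀ {C : Type _} [AddCommGroup C] [Module K C] (D : End K C) (la : K),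
      IsNilpotent (D - la • (1 : End K C)) →
      IsNilpotent ((1 + t • D) - (1 + t * la) • (1 : End K C)) := by
    intro C _ _ D la hD
    have : (1 + t • D) - (1 + t * la) • (1 : End K C) = t • (D - la • (1 : End K C)) := by
      rw [smul_sub, smul_smul, add_smul, one_smul]
      abel
    rw [this]
    exact hD.smul t
  have hnil₂ : IsNilpotent ((1 + t • D₂) - (1 + t * la₂) • (1 : End K C₂)) := by
    have : (1 + t • D₂) - (1 + t * la₂) • (1 : End K C₂) = t • (D₂ - la₂ • (1 : End K C₂)) := by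
      rw [smul_sub, smul_smul, add_smul, one_smul]
      abel
    rw [this]
    exact hn₂.smul t
  obtain ⟨V, hV1, hV2⟩ := sylvester_intertwine (a := 1 + t • D₂) (b := 1 + t • D₁)
    (al := 1 + t * la₂) (be := 1 + t * la₁) hnil₂ (hnil D₁ la₁ hn₁) (by
      intro hh
      exact hla (mul_left_cancel₀ ht0 (add_left_cancel hh)).symm) hcψ₂ hcψ₁
    ((1 + t • D₂) ∘ₗ x ∘ₗ (1 + t • D₁)) (by
      refine LinearMap.ext fun w => ?_
      simp only [LinearMap.comp_apply]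
      have e1 := LinearMap.congr_fun hx ((1 + t • D₁) w)
      rw [LinearMap.comp_apply, LinearMap.comp_apply] at e1
      rw [hcom hcψ₁, e1, hcom hcψ₂])
  exact h t ht V x hV1 hV2.symm

end main

end Crest.Agent.R172.TL
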