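import Crest.Agent.R172.QQ2c
import Crest.Agent.R172.TL2

/-!
Row 172, TAME (T0), general `D` (note 15796): assembly for one arm.
`c = E + t D`, `ci` its inverse on the core.
-/

set_option autoImplicit false
set_option linter.unusedSectionVars false

namespace Crest.Agent.R172.QQ2

open Matrix Module LinearMap Crest.Agent.R172.FO

variable {ι : Type*} [Fintype ι] [DecidableEq ι]
variable {k K : Type*} [Field k] [Field K] [Algebra k K]

section main

variable {n : Type*} [Fintype n] [DecidableEq n]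

theorem up_c {e D : Matrix ι ι K} (he : e * e = e) (hc : e * D = D * e) (t : K) :
    up e e (1 + t • ph D e) = e + t • (D * e) := by
  rw [map_add, map_smul, up_one he, up_ph he hc]

/-- **One arm, general `D`.** -/
theorem arm_mem_gen {J Φ : Matrix ι ι K} (hJ : IsUnit J) (hJs : Jᵀ = J) (hΦ : Φᵀ * J = J * Φ)
    {e : n → Matrix ι ι K} {lam : n → K} (hlam : Function.Injective lam)
    (idem : ∀ i, e i * e i = e i) (orth : ∀ i j, i ≠ j → e i * e j = 0)
    (sa : ∀ i, (e i)ᵀ * J = J * e i) (com : ∀ i, e i * Φ = Φ * e i)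
    {D : Matrix ι ι K} (ED : (∑ i, e i) * D = D) (DE : D * (∑ i, e i) = D)
    (saD : Dᵀ * J = J * D)
    (comD : D * Φ = Φ * D) (eD : ∀ i, e i * D = D * e i)
    (nilD : ∀ i, IsNilpotent (ph D (e i) - lam i • (1 : End K (C (e i)))))
    {l : ℕ} (hl : ∀ i, ph Φ (e i) ^ l = 0)
    (hfree : ∀ i, l * finrank K (ker (ph Φ (e i))) = finrank K (C (e i)))
    (hne : ∀ i, ∃ j, j ≠ i ∧ 0 < finrank K (C (e j)))
    {T : Set k} (hT : T.Infinite)
    (S : Submodule K (Matrix ι ι K))
    (inv : ∀ t ∈ T, ∃ ci : Matrix ι ι K, (∑ i, e i) * ci = ci ∧ ci * (∑ i, e i) = ci ∧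
      ci * ((∑ i, e i) + algebraMap k K t • D) = ∑ i, e i ∧
      ((∑ i, e i) + algebraMap k K t • D) * ci = ∑ i, e i)
    (first : ∀ t ∈ T, ∀ c ci : Matrix ι ι K, c = (∑ i, e i) + algebraMap k K t • D →
      (∑ i, e i) * ci = ci → ci * (∑ i, e i) = ci → ci * c = ∑ i, e i → c * ci = ∑ i, e i →
      ∀ i j, i ≠ j → ∀ Y Y' : Matrix ι ι K, e j * Y * e i = Y → Yᵀ * J = J * Y' →
      Y * (c * c * Φ) = c * c * Φ * Y → (ci * Y * c - Y) - (ci * Y' * c - Y') ∈ S)
    (second : (∀ i j, i ≠ j → ∀ y, e j * y * e i = y → FM Φ y → y ∈ S) →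
      ∀ t ∈ T, ∀ c ci : Matrix ι ι K, c = (∑ i, e i) + algebraMap k K t • D →
      (∑ i, e i) * ci = ci → ci * (∑ i, e i) = ci → ci * c = ∑ i, e i → c * ci = ∑ i, e i →
      ∀ i j, i ≠ j → ∀ Y Y' y : Matrix ι ι K, e j * Y * e i = Y → Yᵀ * J = J * Y' →
      Y * (c * c * Φ) = c * c * Φ * Y → e j * y * e i = y → FM Φ y →
      Y' * y - y * (ci * Y' * c) ∈ S)
    {A : Matrix ι ι K} (hA : (∑ i, e i) * A * (∑ i, e i) = A) (hfil : FM Φ A) : A ∈ S := by
  classical
  have hEe : ∀ i, (∑ i, e i) * e i = e i := by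
    intro i
    rw [Matrix.sum_mul, Finset.sum_eq_single i]
    · exact idem i
    · intro j _ hj; exact orth j i hj
    · intro h; exact absurd (Finset.mem_univ i) h
  have heE : ∀ i, e i * (∑ i, e i) = e i := by
    intro i
    rw [Matrix.mul_sum, Finset.sum_eq_single i]
    · exact idem i
    · intro j _ hj; exact orth i j (Ne.symm hj)
    · intro h; exact absurd (Finset.mem_univ i) h
  have hEsa : (∑ i, e i)ᵀ * J = J * ∑ i, e i := by
    rw [transpose_sum, Matrix.sum_mul, Matrix.mul_sum]
    exact Finset.sum_congr rfl fun i _ => sa i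
  have hEcom : (∑ i, e i) * Φ = Φ * ∑ i, e i := by
    rw [Matrix.sum_mul, Matrix.mul_sum]
    exact Finset.sum_congr rfl fun i _ => com i
  obtain ⟨E, hE⟩ : ∃ E, E = ∑ i, e i := ⟨_, rfl⟩
  rw [← hE] at ED DE hA hEsa hEcom
  simp only [← hE] at inv first second hEe heE
  have hblk : ∀ (i j : n) (x : C (e i) →ₗ[K] C (e j)),
      e j * up (e i) (e j) x * e i = up (e i) (e j) x := by
    intro i j x
    rw [mul_up (idem j), up_mul (idem i)]
  have hcD : ∀ i, Commute (ph D (e i)) (ph Φ (e i)) := by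
    intro i
    apply up_inj (idem i)
    rw [Module.End.mul_eq_comp, Module.End.mul_eq_comp, up_comp (idem i), up_comp (idem i),
      up_ph (idem i) (eD i), up_ph (idem i) (com i), ← com i, ← eD i]
    calc e i * D * (e i * Φ) = e i * (D * e i) * Φ := by simp only [Matrix.mul_assoc]
      _ = e i * (e i * (D * Φ)) := by rw [← eD i]; simp only [Matrix.mul_assoc]
      _ = e i * e i * (D * Φ) := by simp only [Matrix.mul_assoc]
      _ = e i * e i * (Φ * D) := by rw [comD]
      _ = e i * (e i * Φ) * D := by simp only [Matrix.mul_assoc]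
      _ = e i * (Φ * e i) * D := by rw [com i]
      _ = e i * Φ * (e i * D) := by simp only [Matrix.mul_assoc]
  -- `c` on blocks
  have hxc : ∀ (t : K) (i j : n) (x : C (e i) →ₗ[K] C (e j)),
      up (e i) (e j) (x ∘ₗ (1 + t • ph D (e i))) = up (e i) (e j) x * (E + t • D) := by
    intro t i j x
    have h2 := hblk i j x
    rw [up_comp (idem i), up_c (idem i) (eD i)]
    have h1 : up (e i) (e j) x * e i = up (e i) (e j) x := up_mul (idem i) x
    generalize up (e i) (e j) x = X at *
    rw [Matrix.mul_add, Matrix.mul_add, h1, Matrix.mul_smul, Matrix.mul_smul, ← eD i,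
      ← Matrix.mul_assoc, h1]
    congr 1
    conv_rhs => rw [← h1, Matrix.mul_assoc, heE, h1]
  have hcx : ∀ (t : K) (i j : n) (x : C (e i) →ₗ[K] C (e j)),
      up (e i) (e j) ((1 + t • ph D (e j)) ∘ₗ x) = (E + t • D) * up (e i) (e j) x := by
    intro t i j x
    rw [up_comp (idem j), up_c (idem j) (eD j)]
    have h1 : e j * up (e i) (e j) x = up (e i) (e j) x := mul_up (idem j) x
    generalize up (e i) (e j) x = X at *
    rw [Matrix.add_mul, Matrix.add_mul, h1, Matrix.smul_mul, Matrix.smul_mul, Matrix.mul_assoc, h1]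
    congr 1
    conv_rhs => rw [← h1, ← Matrix.mul_assoc, hEe, h1]
  have hxΦ : ∀ (i j : n) (x : C (e i) →ₗ[K] C (e j)),
      up (e i) (e j) (x ∘ₗ ph Φ (e i)) = up (e i) (e j) x * Φ := by
    intro i j x
    rw [up_comp (idem i), up_ph (idem i) (com i), ← com i, ← Matrix.mul_assoc, up_mul (idem i)]
  have hΦx : ∀ (i j : n) (x : C (e i) →ₗ[K] C (e j)),
      up (e i) (e j) (ph Φ (e j) ∘ₗ x) = Φ * up (e i) (e j) x := by
    intro i j x
    rw [up_comp (idem j), up_ph (idem j) (com j), Matrix.mul_assoc, mul_up (idem j)]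
  -- commutation relations in matrices
  have hrel : ∀ (t : K) (i j : n) (x : C (e i) →ₗ[K] C (e j)),
      x ∘ₗ ((1 + t • ph D (e i)) * (1 + t • ph D (e i)) * ph Φ (e i)) =
        ((1 + t • ph D (e j)) * (1 + t • ph D (e j)) * ph Φ (e j)) ∘ₗ x →
      up (e i) (e j) x * ((E + t • D) * (E + t • D) * Φ) =
        (E + t • D) * (E + t • D) * Φ * up (e i) (e j) x := by
    intro t i j x h
    have h1 := congrArg (up (e i) (e j)) h
    simp only [Module.End.mul_eq_comp] at h1
    rw [← LinearMap.comp_assoc, hxΦ, ← LinearMap.comp_assoc, hxc, hxc, LinearMap.comp_assoc,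
      LinearMap.comp_assoc, hcx, hcx, hΦx] at h1
    rw [← Matrix.mul_assoc, ← Matrix.mul_assoc, h1]
    simp only [Matrix.mul_assoc]
  have hTi : (algebraMap k K '' T).Infinite :=
    hT.image ((algebraMap k K).injective.injOn)
  have hcsa : ∀ t : K, VD.adj J (E + t • D) = E + t • D := by
    intro t
    rw [VD.adj_add, VD.adj_smul, adj_of_sa hJ hEsa, adj_of_sa hJ saD]
  have hEc : ∀ t : K, E * (E + t • D) = E + t • D := by
    intro t
    have hEE : E * E = E := by
      conv_lhs => rw [hE]
      rw [Matrix.sum_mul]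
      rw [hE]
      refine Finset.sum_congr rfl fun i _ => ?_
      rw [← hE, heE]
    rw [Matrix.mul_add, Matrix.mul_smul, ED, hEE]
  -- first step
  have F1 : ∀ i j, i ≠ j → ∀ y : C (e i) →ₗ[K] C (e j), TL.Filt (ph Φ (e i)) (ph Φ (e j)) y →
      up (e i) (e j) y ∈ S := by
    intro i j hij y hy
    refine (TL.filt_mem_V (hl i) (hfree i) (hl j) (hfree j) (hlam.ne hij) (nilD i) (nilD j)
      (hcD i) (hcD j) S (up (e i) (e j)) (adjL J ∘ₗ up (e i) (e j)) hTi ?_ hy).1
    rintro _ ⟨t, ht, rfl⟩ V x hV hx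
    obtain ⟨ci, h1, h2, h3, h4⟩ := inv t ht
    have h5 := first t ht _ ci rfl h1 h2 h3 h4 i j hij (up (e i) (e j) V)
      (VD.adj J (up (e i) (e j) V)) (hblk i j V) (J_adj hJ _).symm (hrel _ i j V hV)
    have h6 := congrArg (up (e i) (e j)) (eq_sub_iff_add_eq.1 hx)
    rw [map_add, hcx, hxc, hxc, hcx] at h6
    replace h6 := eq_sub_of_add_eq h6
    have hX : E * up (e i) (e j) x = up (e i) (e j) x := by
      rw [← mul_up (idem j) x, ← Matrix.mul_assoc, hEe]
    have hVE : E * up (e i) (e j) V = up (e i) (e j) V := by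
      rw [← mul_up (idem j) V, ← Matrix.mul_assoc, hEe]
    have hX' : E * VD.adj J (up (e i) (e j) x) = VD.adj J (up (e i) (e j) x) := by
      have h7 : up (e i) (e j) x * E = up (e i) (e j) x := by
        rw [← up_mul (idem i) x, Matrix.mul_assoc, heE]
      have h8 := congrArg (VD.adj J) h7
      rwa [adj_mul hJ, adj_of_sa hJ hEsa] at h8
    have hV' : E * VD.adj J (up (e i) (e j) V) = VD.adj J (up (e i) (e j) V) := by
      have h7 : up (e i) (e j) V * E = up (e i) (e j) V := by
        rw [← up_mul (idem i) V, Matrix.mul_assoc, heE]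
      have h8 := congrArg (VD.adj J) h7
      rwa [adj_mul hJ, adj_of_sa hJ hEsa] at h8
    have h6' := congrArg (VD.adj J) h6
    rw [adj_mul hJ, adj_mul hJ, VD.adj_sub, adj_mul hJ, adj_mul hJ, hcsa] at h6'
    rw [LinearMap.comp_apply, hxc, hcx]
    change up (e i) (e j) x * _ + VD.adj J (_ * up (e i) (e j) x) ∈ S
    rw [adj_mul hJ, hcsa]
    generalize up (e i) (e j) x = X at *
    generalize up (e i) (e j) V = Y at *
    generalize VD.adj J X = X' at *
    generalize VD.adj J Y = Y' at *
    generalize E + algebraMap k K t • D = c at *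
    have g1 : ci * Y * c - Y = X * c := by
      have : ci * (c * (X * c)) = ci * (Y * c - c * Y) := by
        rw [← h6]
      rw [← Matrix.mul_assoc, h3, ← Matrix.mul_assoc, hX, Matrix.mul_sub, ← Matrix.mul_assoc,
        ← Matrix.mul_assoc, h3, hVE] at this
      exact this.symm
    have g2 : ci * Y' * c - Y' = -(X' * c) := by
      have : ci * (c * X' * c) = ci * (c * Y' - Y' * c) := by
        rw [h6']
      rw [← Matrix.mul_assoc, ← Matrix.mul_assoc, h3, hX', Matrix.mul_sub, ← Matrix.mul_assoc,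
        ← Matrix.mul_assoc, h3, hV'] at this
      rw [this]; abel
    rw [g1, g2, sub_neg_eq_add] at h5
    exact h5
  have F1' : ∀ i j, i ≠ j → ∀ y, e j * y * e i = y → FM Φ y → y ∈ S := by
    intro i j hij y hy hyf
    have hu : up (e i) (e j) (dn (e i) (e j) y) = y := by rw [up_dn, hy]
    rw [← hu]
    exact F1 i j hij _ (filt_of_FM (idem i) (idem j) (com i) (com j) (by rw [hu]; exact hyf))
  -- second step
  have F2 : ∀ i j, i ≠ j → ∀ (y : C (e i) →ₗ[K] C (e j)) (z : C (e j) →ₗ[K] C (e i)),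
      TL.Filt (ph Φ (e i)) (ph Φ (e j)) y → TL.Filt (ph Φ (e j)) (ph Φ (e i)) z →
      up (e i) (e i) (z ∘ₗ y) ∈ S := by
    intro i j hij y z hy hz
    have hyM := FM_of_filt (idem i) (idem j) (com i) (com j) hy
    have hx := filt_adj hJ hΦ (idem i) (idem j) (sa i) (sa j) (com i) (com j) (hl i) (hl j)
      (hfree j) hz
    have h1 := (TL.filt_mem_gen (hl i) (hfree i) (hl j) (hfree j) (hlam.ne hij) (nilD i) (nilD j)
      (hcD i) (hcD j) S
      ((LinearMap.mulRight K (up (e i) (e j) y)) ∘ₗ adjL J ∘ₗ up (e i) (e j))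
      (-((LinearMap.mulLeft K (up (e i) (e j) y)) ∘ₗ adjL J ∘ₗ up (e i) (e j)))
      hTi (by
        rintro _ ⟨t, ht, rfl⟩ x hx
        obtain ⟨ci, g1, g2, g3, g4⟩ := inv t ht
        have hr := hrel _ i j x hx
        have hX : E * VD.adj J (up (e i) (e j) x) = VD.adj J (up (e i) (e j) x) := by
          have h7 : up (e i) (e j) x * E = up (e i) (e j) x := by
            rw [← up_mul (idem i) x, Matrix.mul_assoc, heE]
          have h8 := congrArg (VD.adj J) h7
          rwa [adj_mul hJ, adj_of_sa hJ hEsa] at h8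
        have hcΦ : (E + algebraMap k K t • D) * Φ = Φ * (E + algebraMap k K t • D) := by
          rw [Matrix.add_mul, Matrix.mul_add, hEcom, Matrix.smul_mul, comD, Matrix.mul_smul]
        have hec : (E + algebraMap k K t • D) * e i = e i * (E + algebraMap k K t • D) := by
          rw [Matrix.add_mul, Matrix.mul_add, hEe, heE, Matrix.smul_mul, ← eD, Matrix.mul_smul]
        have h2 := second F1' t ht _ ci rfl g1 g2 g3 g4 i j hij
          (up (e i) (e j) x * (E + algebraMap k K t • D))
          (VD.adj J (up (e i) (e j) x * (E + algebraMap k K t • D)))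
          (up (e i) (e j) y) (by
            rw [Matrix.mul_assoc (e j), Matrix.mul_assoc (up (e i) (e j) x), hec,
              ← Matrix.mul_assoc (up (e i) (e j) x), ← Matrix.mul_assoc, ← Matrix.mul_assoc,
              hblk i j x])
          (J_adj hJ _).symm (by
            generalize E + algebraMap k K t • D = c at *
            calc up (e i) (e j) x * c * (c * c * Φ)
                = up (e i) (e j) x * (c * c * (c * Φ)) := by simp only [Matrix.mul_assoc]
              _ = up (e i) (e j) x * (c * c * Φ) * c := by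
                  rw [hcΦ]; simp only [Matrix.mul_assoc]
              _ = _ := by rw [hr]; simp only [Matrix.mul_assoc]) (hblk i j y) hyM
        rw [adj_mul hJ, hcsa] at h2
        rw [LinearMap.neg_apply, ← sub_eq_add_neg, LinearMap.comp_apply, LinearMap.comp_apply,
          LinearMap.comp_apply, LinearMap.comp_apply, hxc, hcx]
        change VD.adj J (up (e i) (e j) x * _) * up (e i) (e j) y -
          up (e i) (e j) y * VD.adj J (_ * up (e i) (e j) x) ∈ S
        rw [adj_mul hJ, adj_mul hJ, hcsa]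
        have h3 : ci * ((E + algebraMap k K t • D) * VD.adj J (up (e i) (e j) x)) *
            (E + algebraMap k K t • D) = VD.adj J (up (e i) (e j) x) *
            (E + algebraMap k K t • D) := by
          rw [← Matrix.mul_assoc ci, g3, hX]
        rw [h3] at h2
        exact h2) hx).1
    rw [up_comp (idem j)]
    have h3 : ((LinearMap.mulRight K (up (e i) (e j) y)) ∘ₗ adjL J ∘ₗ up (e i) (e j))
        (dn (e i) (e j) (VD.adj J (up (e j) (e i) z)))
        = VD.adj J (up (e i) (e j) (dn (e i) (e j) (VD.adj J (up (e j) (e i) z)))) *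
          up (e i) (e j) y := rfl
    rw [h3, up_adj hJ (idem i) (idem j) (sa i) (sa j), adj_adj hJ hJs] at h1
    exact h1
  -- blocks
  have hAb : ∀ i j, FM Φ (e j * A * e i) := by
    intro i j v
    obtain ⟨R, hR⟩ := hfil v
    refine ⟨e j * R * e i, ?_⟩
    calc e j * A * e i * Φ ^ v = e j * (A * Φ ^ v) * e i := by
          rw [Matrix.mul_assoc (e j * A), pow_com (com i)]
          simp only [Matrix.mul_assoc]
      _ = (e j * Φ ^ v) * R * e i := by rw [hR]; simp only [Matrix.mul_assoc]
      _ = _ := by rw [pow_com (com j)]; simp only [Matrix.mul_assoc]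
  have hb : ∀ i j, e j * A * e i ∈ S := by
    intro i j
    by_cases hij : i = j
    · subst hij
      obtain ⟨j, hji, hj⟩ := hne i
      have hu : up (e i) (e i) (dn (e i) (e i) A) = e i * A * e i := up_dn A
      have hfi : TL.Filt (ph Φ (e i)) (ph Φ (e i)) (dn (e i) (e i) A) :=
        filt_of_FM (idem i) (idem i) (com i) (com i) (by rw [hu]; exact hAb i i)
      have h1 := TL.span_comp (hl i) (hfree i) (hl j) (hfree j) hj hfi
      rw [← hu]
      have h2 : Submodule.span K {B : C (e i) →ₗ[K] C (e i) |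
          ∃ (y : C (e i) →ₗ[K] C (e j)) (z : C (e j) →ₗ[K] C (e i)),
            TL.Filt (ph Φ (e i)) (ph Φ (e j)) y ∧ TL.Filt (ph Φ (e j)) (ph Φ (e i)) z ∧
              B = z ∘ₗ y} ≤ S.comap (up (e i) (e i)) := by
        rw [Submodule.span_le]
        rintro B ⟨y, z, hy, hz, rfl⟩
        exact F2 i j (Ne.symm hji) y z hy hz
      exact h2 h1
    · refine F1' i j hij _ ?_ (hAb i j)
      calc e j * (e j * A * e i) * e i = (e j * e j) * A * (e i * e i) := by
            simp only [Matrix.mul_assoc]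
        _ = _ := by rw [idem, idem]
  rw [← hA]
  have hsum : E * A * E = ∑ i, ∑ j, e j * A * e i := by
    rw [hE, Matrix.mul_sum]
    refine Finset.sum_congr rfl fun i _ => ?_
    rw [Matrix.sum_mul, Matrix.sum_mul]
  rw [hsum]
  exact S.sum_mem fun i _ => S.sum_mem fun j _ => hb i j

end main

end Crest.Agent.R172.QQ2
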