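import Crest.Agent.R172.N5f
import Crest.Agent.R172.QQ2g

/-!
Row 172, TAME (T0), node N5, part 7 (radical zero): general `τ`.
-/

set_option autoImplicit false
set_option linter.unusedSectionVars false
set_option maxHeartbeats 400000

namespace Crest.Agent.R172.N5

open Module Matrix Crest.AlgebraR.SpinSaturation Crest.Agent.R172.SoGrade Crest.Agent.R172.CF
open Crest.Agent.R172.Gen (Jm Ix emb Ent ent)
open Crest.Agent.R172.ThX Crest.Agent.R172.CSys Crest.Agent.R172.TG
open Crest.Agent.R172.Core (NS cp BM Tame)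
open Crest.Agent.R172.QN (Co Psi)

variable {n : ℕ} {a : Fin 3 → Fin n → ℤ} {c : Cfg n a} {K : Type} [Field K] [Algebra ℂ K]
variable {N W : Submodule K (Matrix (Ix n) c.δ K)} {F G : Matrix (Ix n) c.δ K}
variable {C : St.Core (BV n K) (Ph F)} {τ : Module.End K C.M}
variable {Q : Fin 3 → Matrix (Ix n) (Ix n) K} {m : ℕ}
variable {m' : ℕ} {lam : Fin m' → K}
    {π : Fin m' → Module.End K C.M} {e : Fin m' → Matrix (Ix n) (Ix n) K}

/-- `τ - lam` is nilpotent on the block -/
theorem nilD (hb : Blk F C τ m' lam π e) (i : Fin m') :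
    IsNilpotent (QQ2.ph (ht C τ) (e i) - lam i • (1 : Module.End K (QQ2.C (e i)))) := by
  have key : ∀ (k : ℕ) (v : QQ2.C (e i)), ∃ w ∈ τ.maxGenEigenspace (lam i),
      (v : Ix n → K) = (w : Ix n → K) ∧
      ((((QQ2.ph (ht C τ) (e i) - lam i • (1 : Module.End K (QQ2.C (e i)))) ^ k) v :
        QQ2.C (e i)) : Ix n → K) =
      (((τ - lam i • (1 : Module.End K C.M)) ^ k) w : C.M) := by
    intro k
    induction k with
    | zero =>
      intro v
      have h1 : (v : Ix n → K) ∈ (τ.maxGenEigenspace (lam i)).map C.M.subtype := by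
        rw [← hb.hC i]; exact v.2
      obtain ⟨w, hw, hwv⟩ := h1
      exact ⟨w, hw, hwv.symm, by rw [pow_zero, pow_zero]; exact hwv.symm⟩
    | succ k ih =>
      intro v
      obtain ⟨w, hw, hvw, -⟩ := ih v
      refine ⟨w, hw, hvw, ?_⟩
      have h2 : (((QQ2.ph (ht C τ) (e i) - lam i • (1 : Module.End K (QQ2.C (e i)))) v :
          QQ2.C (e i)) : Ix n → K) = ((τ - lam i • (1 : Module.End K C.M)) w : C.M) := by
        rw [LinearMap.sub_apply, LinearMap.sub_apply, LinearMap.smul_apply,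
          LinearMap.smul_apply, Submodule.coe_sub, Submodule.coe_sub, Submodule.coe_smul,
          Submodule.coe_smul, Module.End.one_apply, Module.End.one_apply, hvw]
        congr 1
        change e i *ᵥ (ht C τ *ᵥ (v : Ix n → K)) = _
        rw [hvw, ht_mulVec]
        have e1 : (⟨C.π (w : Ix n → K), C.mem _⟩ : C.M) = w := Subtype.ext (C.fix _ w.2)
        rw [e1, hb.e_eq, ht_mulVec]
        have e2 : (⟨C.π (τ w : Ix n → K), C.mem _⟩ : C.M) = τ w :=
          Subtype.ext (C.fix _ (τ w).2)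
        rw [e2, hb.fix i]
        exact Core.gen_stable (fun v => rfl) (lam i) _ hw
      obtain ⟨w', hw', hvw', h3⟩ := ih
        ((QQ2.ph (ht C τ) (e i) - lam i • (1 : Module.End K (QQ2.C (e i)))) v)
      have h4 : w' = (τ - lam i • (1 : Module.End K C.M)) w :=
        Subtype.ext (hvw'.symm.trans h2)
      rw [pow_succ, Module.End.mul_apply, h3, h4, pow_succ, Module.End.mul_apply]
  refine ⟨finrank K C.M, ?_⟩
  refine LinearMap.ext fun v => ?_
  obtain ⟨w, hw, -, h1⟩ := key (finrank K C.M) v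
  apply Subtype.ext
  rw [h1]
  have h2 : ((τ - lam i • (1 : Module.End K C.M)) ^ (finrank K C.M)) w = 0 := by
    rw [Module.End.maxGenEigenspace_eq_genEigenspace_finrank,
      Module.End.mem_genEigenspace_nat] at hw
    exact hw
  rw [h2]
  rfl

theorem blk_eeD (hb : Blk F C τ m' lam π e) : (∑ i, e i) * ht C τ = ht C τ := by
  rw [hb.sum, e_ht]

theorem blk_Dee (hb : Blk F C τ m' lam π e) : ht C τ * (∑ i, e i) = ht C τ := by
  rw [hb.sum, ht_e]

/-- inverses of `∑ e + t τ` -/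
theorem exists_ci (hb : Blk F C τ m' lam π e) : ∃ ci : ℂ → Matrix (Ix n) (Ix n) K,
    ∀ t ∈ TS lam, ((∑ i, e i) + algebraMap ℂ K t • ht C τ) * ci t = ∑ i, e i ∧
      ci t * ((∑ i, e i) + algebraMap ℂ K t • ht C τ) = ∑ i, e i ∧
      (∑ i, e i) * ci t = ci t ∧ ci t * (∑ i, e i) = ci t := by
  classical
  have h1 : ∀ t : ℂ, ∃ σ : Module.End K C.M, t ∈ TS lam →
      (1 + algebraMap ℂ K t • τ) * σ = 1 ∧ σ * (1 + algebraMap ℂ K t • τ) = 1 := by
    intro t
    by_cases ht : t ∈ TS lam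
    · obtain ⟨σ, h1, h2⟩ := exists_inv (τ := τ) (algebraMap ℂ K t) (fun ν hν => by
        obtain ⟨i, rfl⟩ := hb.cov ν hν
        exact ht.2 i)
      exact ⟨σ, fun _ => ⟨h1, h2⟩⟩
    · exact ⟨0, fun h => absurd h ht⟩
  choose σ hσ using h1
  refine ⟨fun t => ht C (σ t), fun t ht => ?_⟩
  rw [hb.sum, ← ht_add_smul, ht_mul, ht_mul, (hσ t ht).1, (hσ t ht).2, ht_one, e_ht, ht_e]
  exact ⟨rfl, rfl, rfl, rfl⟩

variable (h : Co ℂ c.arm (Jm n K) (c.B K) N W F (eM C) Q m)
  (hG : FO.GenOver ℂ c.arm N W F G)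
  (hR : Rad0 (BV n K) (Ph F)) (hT : TameAt F G C τ)

include h hG hR hT in
theorem blk_eG (hb : Blk F C τ m' lam π e) : (∑ i, e i) * G = ht C τ * F := by
  rw [hb.sum, h.eG hG.memG, DD_eq_ht h hG.memG hR hT]

end Crest.Agent.R172.N5
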