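import Crest.Agent.R172.QQ1

/-!
Row 172, TAME (t1), R = 0, ARBITRARY `D` (non-semisimple allowed), any number of blocks: first and
second derivative with a parameter space `ZZ` of corrections (notes 15441, 15796, interface 20:36).
-/

set_option autoImplicit false
set_option linter.unusedSectionVars false
set_option linter.unusedVariables false

namespace Crest.Agent.R172.QQ1Z

open Matrix Crest.Agent.R172.FO Crest.Agent.R172.QQ1

variable {ι : Type*} [Fintype ι] [DecidableEq ι] {δ : Type*} [Fintype δ] [DecidableEq δ]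
variable {n : Type*} [Fintype n] [DecidableEq n]
variable {k K : Type*} [Field k] [Field K] [Algebra k K]
variable {arm : δ → Fin 3} {J : Matrix ι ι K} {B : Matrix δ δ K}
  {N W : Submodule K (Matrix ι δ K)} {H G : Matrix ι δ K} {e : n → Matrix ι ι K}
  {D : Matrix ι ι K} {ci : k → Matrix ι ι K} {S : Set k} {ZZ : Submodule K (Matrix ι ι K)}

/-- `c_t = ee + t D` -/
def cc (e : n → Matrix ι ι K) (D : Matrix ι ι K) (t : k) : Matrix ι ι K :=
  (∑ i, e i) + (algebraMap k K t) • D

variable (k) in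
/-- The setting of (T0), `R = 0`, `D` arbitrary on the core. -/
structure CxZ (S : Set k) (arm : δ → Fin 3) (J : Matrix ι ι K) (B : Matrix δ δ K)
    (N W : Submodule K (Matrix ι δ K)) (H G : Matrix ι δ K) (e : n → Matrix ι ι K)
    (D : Matrix ι ι K) (ci : k → Matrix ι ι K) : Prop where
  data : Data k arm J B N W
  memH : H ∈ N ⊓ W
  memG : G ∈ N ⊓ W
  gen : ∀ t ∈ S, Generic k arm N W (H + (algebraMap k K t) • G)
  sa : ∀ i, (e i)ᵀ * J = J * e i
  idem : ∀ i, e i * e i = e i
  orth : ∀ i j, i ≠ j → e i * e j = 0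
  eG : (∑ i, e i) * G = D * H
  eD : ∀ l, e l * D = D * e l
  eeD : (∑ i, e i) * D = D
  Dsa : Dᵀ * J = J * D
  Dcom : ∀ r, D * Phi arm J B H r = Phi arm J B H r * D
  cci : ∀ t ∈ S, cc e D t * ci t = ∑ i, e i
  ici : ∀ t ∈ S, ci t * cc e D t = ∑ i, e i
  eci : ∀ t ∈ S, (∑ i, e i) * ci t = ci t
  cie : ∀ t ∈ S, ci t * (∑ i, e i) = ci t
  com : ∀ i s, e i * Phi arm J B H s = Phi arm J B H s * e i
  perf : ∃ a : Fin 3 → Matrix ι ι K, ∑ r, a r * (∑ i, e i) * Phi arm J B H r = ∑ i, e i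
  hom : ∀ t ∈ S, ∀ z : Matrix ι ι K,
    (∀ r, z * Phi arm J B (H + (algebraMap k K t) • G) r =
      Phi arm J B (H + (algebraMap k K t) • G) r * z) →
    (∀ i j, i ≠ j → e i * z * e j = 0) ∧
      ∀ i, e i * z * (1 - ∑ j, e j) = 0 ∧ (1 - ∑ j, e j) * z * e i = 0

variable (k) in
/-- The conditions on the space of corrections. -/
structure ZOK (S : Set k) (arm : δ → Fin 3) (J : Matrix ι ι K) (B : Matrix δ δ K)
    (H : Matrix ι δ K) (e : n → Matrix ι ι K) (D : Matrix ι ι K) (ci : k → Matrix ι ι K)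
    (ZZ : Submodule K (Matrix ι ι K)) : Prop where
  blk : ∀ z ∈ ZZ, ∀ l, e l * z = z * e l
  ez : ∀ z ∈ ZZ, (∑ i, e i) * z = z
  fil : ∀ z ∈ ZZ, ∀ (s : Fin 3) (v : ℕ), ∃ R, z * (Phi arm J B H s) ^ v =
    (Phi arm J B H s) ^ v * R
  Z1 : ∀ t ∈ S, ∀ Δ : Matrix ι ι K, (∑ i, e i) * Δ = Δ → Δ * (∑ i, e i) = Δ → Δᵀ * J = J * Δ →
    (∀ r, Δ * (cc e D t * cc e D t * Phi arm J B H r) =
      (cc e D t * cc e D t * Phi arm J B H r) * Δ) →
    (∀ l, e l * Δ = Δ * e l) → (algebraMap k K t) • (ci t * Δ) ∈ ZZ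
  Z2 : ∀ t ∈ S, ∀ d : Derivation k K K, (∀ l, (e l).map d = 0) →
    (∀ r, (cc e D t * cc e D t * Phi arm J B H r).map d = 0) →
    ∀ z ∈ ZZ, z.map d - (algebraMap k K t) • (z * ci t * D.map d) ∈ ZZ

/-- the quotient space -/
def QZ (arm : δ → Fin 3) (B : Matrix δ δ K) (N W : Submodule K (Matrix ι δ K))
    (H : Matrix ι δ K) (P : Matrix ι ι K) (ZZ : Submodule K (Matrix ι ι K)) :
    Submodule K (Matrix ι δ K) where
  carrier := {Y | ∃ z ∈ ZZ, ∃ h ∈ TT arm B W H P, Y - z * H - h ∈ N}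
  add_mem' := by
    rintro Y Y' ⟨z, hz, h, h1, h2⟩ ⟨z', hz', h', h1', h2'⟩
    refine ⟨z + z', ZZ.add_mem hz hz', h + h', Submodule.add_mem _ h1 h1', ?_⟩
    have e2 : Y + Y' - (z + z') * H - (h + h') = (Y - z * H - h) + (Y' - z' * H - h') := by
      rw [Matrix.add_mul]; abel
    rw [e2]
    exact N.add_mem h2 h2'
  zero_mem' := ⟨0, Submodule.zero_mem _, 0, Submodule.zero_mem _, by simp⟩
  smul_mem' := by
    rintro c Y ⟨z, hz, h, h1, h2⟩
    refine ⟨c • z, ZZ.smul_mem c hz, c • h, Submodule.smul_mem _ c h1, ?_⟩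
    have e2 : c • Y - (c • z) * H - c • h = c • (Y - z * H - h) := by
      rw [Matrix.smul_mul, smul_sub, smul_sub]
    rw [e2]
    exact N.smul_mem c h2

theorem N_le_QZ {P : Matrix ι ι K} {Y : Matrix ι δ K} (h : Y ∈ N) : Y ∈ QZ arm B N W H P ZZ :=
  ⟨0, Submodule.zero_mem _, 0, Submodule.zero_mem _, by simpa using h⟩

theorem TT_le_QZ {P : Matrix ι ι K} {Y : Matrix ι δ K} (h : Y ∈ TT arm B W H P) :
    Y ∈ QZ arm B N W H P ZZ :=
  ⟨0, Submodule.zero_mem _, Y, h, by simp⟩

theorem ZZ_le_QZ {P : Matrix ι ι K} {z : Matrix ι ι K} (h : z ∈ ZZ) :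
    z * H ∈ QZ arm B N W H P ZZ :=
  ⟨z, h, 0, Submodule.zero_mem _, by simp⟩

/-- the operators whose one-arm action is in `QZ` -/
def QZS (arm : δ → Fin 3) (B : Matrix δ δ K) (N W : Submodule K (Matrix ι δ K))
    (H : Matrix ι δ K) (P : Matrix ι ι K) (ZZ : Submodule K (Matrix ι ι K)) (s : Fin 3) :
    Submodule K (Matrix ι ι K) where
  carrier := {y | y * H * E K arm s ∈ QZ arm B N W H P ZZ}
  add_mem' := by
    intro a b ha hb
    show (a + b) * H * E K arm s ∈ QZ arm B N W H P ZZ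
    rw [Matrix.add_mul, Matrix.add_mul]
    exact Submodule.add_mem _ ha hb
  zero_mem' := by
    show (0 : Matrix ι ι K) * H * E K arm s ∈ QZ arm B N W H P ZZ
    rw [Matrix.zero_mul, Matrix.zero_mul]
    exact Submodule.zero_mem _
  smul_mem' := by
    intro c a ha
    show (c • a) * H * E K arm s ∈ QZ arm B N W H P ZZ
    rw [Matrix.smul_mul, Matrix.smul_mul]
    exact Submodule.smul_mem _ c ha

theorem mem_QZS {s : Fin 3} {P y : Matrix ι ι K} :
    y ∈ QZS arm B N W H P ZZ s ↔ y * H * E K arm s ∈ QZ arm B N W H P ZZ := Iff.rfl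

/-- **the L-motion**, explicit and general: `P` idempotent, `F0` perfect on `P` -/
theorem exists_xi_gen (hD : Data k arm J B N W) {P : Matrix ι ι K} (hPP : P * P = P)
    {F0 : Matrix ι δ K} {a : Fin 3 → Matrix ι ι K} (ha : ∑ r, a r * P * Phi arm J B F0 r = P)
    (s : Fin 3) {X : Matrix ι ι K} (hX : Xᵀ * J + J * X = 0) (hX2 : X * P = X)
    (hc : X * Phi arm J B F0 s = Phi arm J B F0 s * X) :
    ∃ ξ : Matrix δ δ K, ξᵀ * B + B * ξ = 0 ∧ F0 * ξᵀ = X * F0 * E K arm s ∧
      ∀ F : Matrix ι δ K, (∀ r, P * F0 * E K arm r * B * Fᵀ = 0) → F * ξᵀ = 0 := by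
  obtain ⟨Bi, hBi, hBi', hBit⟩ := symm_inv hD.B_symm hD.B_unit
  obtain ⟨Ji, hJi, hJi', hJit⟩ := symm_inv hD.J_symm hD.J_unit
  set Φ : Matrix ι ι K := Phi arm J B F0 s with hΦ
  have hXT : Xᵀ * J = -(J * X) := eq_neg_of_add_eq_zero_left hX
  have hΦT : Φᵀ * J = J * Φ := by
    rw [hΦ]; unfold Phi
    rw [transpose_mul, hD.J_symm, Slack.M_transpose hD, Matrix.mul_assoc]
  have hΦdef : Φ = F0 * E K arm s * B * F0ᵀ * J := rfl
  set Θ : Matrix ι δ K := ∑ r, a r * P * F0 * E K arm r * B with hΘ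
  have hΘ1 : Θ * (F0ᵀ * J) = P := by
    rw [hΘ, Matrix.sum_mul]
    refine (Finset.sum_congr rfl fun r _ => ?_).trans ha
    unfold Phi M
    simp only [Matrix.mul_assoc]
  set Z : Matrix δ ι K := E K arm s * F0ᵀ * J * X with hZ
  have hZP : Z * P = Z := by
    rw [hZ]
    simp only [Matrix.mul_assoc]
    rw [hX2]
  have hZt : Zᵀ = -(J * X * F0 * E K arm s) := by
    rw [hZ, transpose_mul, transpose_mul, transpose_mul, transpose_transpose, E_transpose,
      hD.J_symm, ← Matrix.mul_assoc, ← Matrix.mul_assoc, hXT]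
    simp only [Matrix.neg_mul, Matrix.mul_assoc]
  -- the skew form `J X Φ`
  have hSk : (J * X * Φ)ᵀ = -(J * X * Φ) := by
    rw [transpose_mul, transpose_mul, hD.J_symm, hXT, Matrix.mul_neg, ← Matrix.mul_assoc, hΦT,
      Matrix.mul_assoc J Φ X, ← hc, Matrix.mul_assoc]
  refine ⟨-(Z * Θ) + Bi * (Θᵀ * Zᵀ * B) + Bi * (Θᵀ * (J * X * Φ) * Θ), ?_, ?_, ?_⟩
  · have e1 : B * (-(Z * Θ) + Bi * (Θᵀ * Zᵀ * B) + Bi * (Θᵀ * (J * X * Φ) * Θ))
        = -(B * Z * Θ) + Θᵀ * Zᵀ * B + Θᵀ * (J * X * Φ) * Θ := by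
      rw [Matrix.mul_add, Matrix.mul_add, ← Matrix.mul_assoc B Bi, ← Matrix.mul_assoc B Bi, hBi,
        Matrix.one_mul, Matrix.one_mul, Matrix.mul_neg, ← Matrix.mul_assoc]
    have e2 : (-(Z * Θ) + Bi * (Θᵀ * Zᵀ * B) + Bi * (Θᵀ * (J * X * Φ) * Θ))ᵀ * B
        = (B * (-(Z * Θ) + Bi * (Θᵀ * Zᵀ * B) + Bi * (Θᵀ * (J * X * Φ) * Θ)))ᵀ := by
      rw [transpose_mul B, hD.B_symm]
    have g1 : (B * Z * Θ)ᵀ = Θᵀ * Zᵀ * B := by
      rw [transpose_mul (B * Z) Θ, transpose_mul B Z, hD.B_symm, Matrix.mul_assoc]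
    have g2 : (Θᵀ * Zᵀ * B)ᵀ = B * Z * Θ := by
      rw [← g1, transpose_transpose]
    have g3 : (Θᵀ * (J * X * Φ) * Θ)ᵀ = -(Θᵀ * (J * X * Φ) * Θ) := by
      rw [transpose_mul (Θᵀ * (J * X * Φ)) Θ, transpose_mul Θᵀ (J * X * Φ), transpose_transpose,
        hSk, Matrix.neg_mul, Matrix.mul_neg]
      simp only [Matrix.mul_assoc]
    rw [e2, e1, transpose_add, transpose_add, transpose_neg, g1, g2, g3]
    abel
  · -- `ξ F0ᵀ J = -Z`
    have e1 : (-(Z * Θ) + Bi * (Θᵀ * Zᵀ * B) + Bi * (Θᵀ * (J * X * Φ) * Θ)) * (F0ᵀ * J)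
        = -Z := by
      have e2 : Zᵀ * B * (F0ᵀ * J) = -(J * X * Φ) := by
        rw [hZt, hΦdef]
        simp only [Matrix.neg_mul, Matrix.mul_assoc]
      have e3 : (J * X * Φ) * P = J * X * Φ := by
        rw [Matrix.mul_assoc J X Φ, hc, Matrix.mul_assoc J, Matrix.mul_assoc Φ, hX2]
      have e4 : -(Z * Θ) * (F0ᵀ * J) = -Z := by
        rw [Matrix.neg_mul, Matrix.mul_assoc, hΘ1, hZP]
      have e5 : Bi * (Θᵀ * Zᵀ * B) * (F0ᵀ * J) = -(Bi * (Θᵀ * (J * X * Φ))) := by
        have : Bi * (Θᵀ * Zᵀ * B) * (F0ᵀ * J) = Bi * (Θᵀ * (Zᵀ * B * (F0ᵀ * J))) := by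
          simp only [Matrix.mul_assoc]
        rw [this, e2, Matrix.mul_neg, Matrix.mul_neg]
      have e6 : Bi * (Θᵀ * (J * X * Φ) * Θ) * (F0ᵀ * J) = Bi * (Θᵀ * (J * X * Φ)) := by
        have : Bi * (Θᵀ * (J * X * Φ) * Θ) * (F0ᵀ * J)
            = Bi * (Θᵀ * ((J * X * Φ) * (Θ * (F0ᵀ * J)))) := by
          simp only [Matrix.mul_assoc]
        rw [this, hΘ1, e3]
      rw [Matrix.add_mul, Matrix.add_mul, e4, e5, e6, neg_add_cancel_right]
    generalize (-(Z * Θ) + Bi * (Θᵀ * Zᵀ * B) + Bi * (Θᵀ * (J * X * Φ) * Θ)) = ξ at e1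
    have e7 := congrArg transpose e1
    rw [transpose_mul, transpose_mul, transpose_transpose, hD.J_symm, transpose_neg, hZt,
      neg_neg] at e7
    have e8 := congrArg (fun A => Ji * A) e7
    simp only [Matrix.mul_assoc] at e8
    rw [← Matrix.mul_assoc Ji J, ← Matrix.mul_assoc Ji J, hJi', Matrix.one_mul,
      Matrix.one_mul] at e8
    rw [e8, Matrix.mul_assoc]
  · intro F hF
    have f1 : ∀ r, P * F0 * E K arm r * B * Fᵀ = 0 := hF
    have f2 : Θ * Fᵀ = 0 := by
      rw [hΘ, Matrix.sum_mul]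
      refine Finset.sum_eq_zero fun r _ => ?_
      have : a r * P * F0 * E K arm r * B * Fᵀ = a r * (P * F0 * E K arm r * B * Fᵀ) := by
        simp only [Matrix.mul_assoc]
      rw [this, f1 r, Matrix.mul_zero]
    have f3 : Zᵀ * B * Fᵀ = 0 := by
      rw [hZt]
      have : -(J * X * F0 * E K arm s) * B * Fᵀ = -(J * X * (P * F0 * E K arm s * B * Fᵀ)) := by
        rw [← hX2]
        simp only [Matrix.neg_mul, Matrix.mul_assoc]
        rw [← Matrix.mul_assoc P P, hPP]
      rw [this, f1 s, Matrix.mul_zero, neg_zero]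
    have f4 : (-(Z * Θ) + Bi * (Θᵀ * Zᵀ * B) + Bi * (Θᵀ * (J * X * Φ) * Θ)) * Fᵀ = 0 := by
      have g1 : -(Z * Θ) * Fᵀ = 0 := by
        rw [Matrix.neg_mul, Matrix.mul_assoc, f2, Matrix.mul_zero, neg_zero]
      have g2 : Bi * (Θᵀ * Zᵀ * B) * Fᵀ = 0 := by
        have : Bi * (Θᵀ * Zᵀ * B) * Fᵀ = Bi * (Θᵀ * (Zᵀ * B * Fᵀ)) := by
          simp only [Matrix.mul_assoc]
        rw [this, f3, Matrix.mul_zero, Matrix.mul_zero]
      have g3 : Bi * (Θᵀ * (J * X * Φ) * Θ) * Fᵀ = 0 := by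
        have : Bi * (Θᵀ * (J * X * Φ) * Θ) * Fᵀ = Bi * (Θᵀ * (J * X * Φ) * (Θ * Fᵀ)) := by
          simp only [Matrix.mul_assoc]
        rw [this, f2, Matrix.mul_zero, Matrix.mul_zero]
      rw [Matrix.add_mul, Matrix.add_mul, g1, g2, g3, add_zero, add_zero]
    have f5 := congrArg transpose f4
    rw [transpose_mul, transpose_transpose, transpose_zero] at f5
    exact f5


namespace CxZ

variable (h : CxZ k S arm J B N W H G e D ci)
include h

theorem memHt (t : k) : H + (algebraMap k K t) • G ∈ N ⊓ W :=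
  (N ⊓ W).add_mem h.memH ((N ⊓ W).smul_mem _ h.memG)

theorem e_ee (i : n) : e i * ∑ j, e j = e i := by
  rw [Matrix.mul_sum, Finset.sum_eq_single i]
  · exact h.idem i
  · intro j _ hj; exact h.orth i j hj.symm
  · intro hi; exact absurd (Finset.mem_univ i) hi

theorem ee_e (i : n) : (∑ j, e j) * e i = e i := by
  rw [Matrix.sum_mul, Finset.sum_eq_single i]
  · exact h.idem i
  · intro j _ hj; exact h.orth j i hj
  · intro hi; exact absurd (Finset.mem_univ i) hi

theorem ee_ee : (∑ j, e j) * (∑ j, e j) = ∑ j, e j := by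
  rw [Matrix.sum_mul]
  exact Finset.sum_congr rfl fun i _ => h.e_ee i

theorem ee_sa : (∑ j, e j)ᵀ * J = J * ∑ j, e j := by
  rw [transpose_sum, Matrix.sum_mul, Matrix.mul_sum]
  exact Finset.sum_congr rfl fun i _ => h.sa i

theorem ee_com (r : Fin 3) : (∑ j, e j) * Phi arm J B H r = Phi arm J B H r * ∑ j, e j := by
  rw [Matrix.sum_mul, Matrix.mul_sum]
  exact Finset.sum_congr rfl fun i _ => h.com i r

theorem Dee : D * (∑ i, e i) = D := by
  conv_rhs => rw [← h.eeD]
  rw [Matrix.mul_sum, Matrix.sum_mul]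
  exact Finset.sum_congr rfl fun i _ => (h.eD i).symm

theorem ecc (t : k) : (∑ i, e i) * cc e D t = cc e D t := by
  unfold cc
  rw [Matrix.mul_add, h.ee_ee, Matrix.mul_smul, h.eeD]

theorem cce (t : k) : cc e D t * (∑ i, e i) = cc e D t := by
  unfold cc
  rw [Matrix.add_mul, h.ee_ee, Matrix.smul_mul, h.Dee]

theorem e_cc (t : k) (l : n) : e l * cc e D t = cc e D t * e l := by
  unfold cc
  rw [Matrix.mul_add, Matrix.add_mul, h.e_ee, h.ee_e, Matrix.mul_smul, Matrix.smul_mul, h.eD]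

theorem cc_sa (t : k) : (cc e D t)ᵀ * J = J * cc e D t := by
  unfold cc
  rw [transpose_add, transpose_smul, Matrix.add_mul, Matrix.mul_add, Matrix.smul_mul,
    Matrix.mul_smul, h.Dsa, h.ee_sa]

theorem cc_com (t : k) (r : Fin 3) : cc e D t * Phi arm J B H r = Phi arm J B H r * cc e D t := by
  unfold cc
  rw [Matrix.add_mul, Matrix.mul_add, h.ee_com, Matrix.smul_mul, Matrix.mul_smul, h.Dcom]

theorem ci_com {t : k} (ht : t ∈ S) (r : Fin 3) :
    ci t * Phi arm J B H r = Phi arm J B H r * ci t := by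
  have e1 : ci t * Phi arm J B H r = ci t * (Phi arm J B H r * (cc e D t * ci t)) := by
    rw [h.cci t ht, ← h.ee_com, ← Matrix.mul_assoc, h.cie t ht]
  rw [e1, ← Matrix.mul_assoc (Phi arm J B H r), ← h.cc_com, ← Matrix.mul_assoc,
    ← Matrix.mul_assoc, h.ici t ht, h.ee_com, Matrix.mul_assoc, h.eci t ht]

theorem e_ci {t : k} (ht : t ∈ S) (l : n) : e l * ci t = ci t * e l := by
  have e1 : ci t * e l = ci t * (e l * (cc e D t * ci t)) := by
    rw [h.cci t ht, h.e_ee]
  rw [e1, ← Matrix.mul_assoc (e l), h.e_cc, ← Matrix.mul_assoc, ← Matrix.mul_assoc, h.ici t ht,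
    h.ee_e]

/-- `ee Ht = c H` -/
theorem eeHt (t : k) : (∑ j, e j) * (H + (algebraMap k K t) • G) = cc e D t * H := by
  unfold cc
  rw [Matrix.mul_add, Matrix.mul_smul, h.eG, Matrix.add_mul, Matrix.smul_mul]

theorem eePhi (t : k) (r : Fin 3) :
    (∑ j, e j) * Phi arm J B (H + (algebraMap k K t) • G) r =
      cc e D t * cc e D t * Phi arm J B H r := by
  have hs := h.data.symm_arm h.memH (h.memHt t) r
  have h1 : (∑ j, e j) * M arm B r (H + (algebraMap k K t) • G) (H + (algebraMap k K t) • G) =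
      cc e D t * M arm B r H (H + (algebraMap k K t) • G) := by
    unfold M
    rw [← Matrix.mul_assoc, ← Matrix.mul_assoc, ← Matrix.mul_assoc, h.eeHt]
    simp only [Matrix.mul_assoc]
  have h2 : cc e D t * M arm B r (H + (algebraMap k K t) • G) H =
      cc e D t * cc e D t * M arm B r H H := by
    have : cc e D t * M arm B r (H + (algebraMap k K t) • G) H =
        cc e D t * (((∑ j, e j) * (H + (algebraMap k K t) • G)) * E K arm r * B * Hᵀ) := by
      unfold M
      conv_lhs => rw [← h.cce t]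
      simp only [Matrix.mul_assoc]
    rw [this, h.eeHt]
    unfold M
    simp only [Matrix.mul_assoc]
  unfold Phi
  rw [← Matrix.mul_assoc, h1, hs, h2, Matrix.mul_assoc]

theorem Phiee (t : k) (r : Fin 3) :
    Phi arm J B (H + (algebraMap k K t) • G) r * (∑ j, e j) =
      cc e D t * cc e D t * Phi arm J B H r := by
  have hD := h.data
  obtain ⟨Ji, hJi, hJi', hJit⟩ := symm_inv hD.J_symm hD.J_unit
  have hsa : ∀ F : Matrix ι δ K, (Phi arm J B F r)ᵀ * J = J * Phi arm J B F r := by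
    intro F
    unfold Phi
    rw [transpose_mul, hD.J_symm, Slack.M_transpose hD, Matrix.mul_assoc]
  have h1 := congrArg (fun A : Matrix ι ι K => Aᵀ * J) (h.eePhi t r)
  simp only [transpose_mul] at h1
  rw [Matrix.mul_assoc, h.ee_sa, ← Matrix.mul_assoc, hsa, Matrix.mul_assoc] at h1
  have h2 : (Phi arm J B H r)ᵀ * ((cc e D t)ᵀ * (cc e D t)ᵀ) * J =
      J * (cc e D t * cc e D t * Phi arm J B H r) := by
    rw [Matrix.mul_assoc, Matrix.mul_assoc, h.cc_sa, ← Matrix.mul_assoc (cc e D t)ᵀ J, h.cc_sa,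
      ← Matrix.mul_assoc, ← Matrix.mul_assoc, hsa]
    have : cc e D t * cc e D t * Phi arm J B H r = Phi arm J B H r * cc e D t * cc e D t := by
      rw [Matrix.mul_assoc, h.cc_com, ← Matrix.mul_assoc, h.cc_com]
    rw [this]
    simp only [Matrix.mul_assoc]
  rw [h2] at h1
  have h3 := congrArg (fun A => Ji * A) h1
  simp only [← Matrix.mul_assoc, hJi', Matrix.one_mul] at h3
  rw [h3]

theorem ee_comt (t : k) (r : Fin 3) :
    (∑ j, e j) * Phi arm J B (H + (algebraMap k K t) • G) r =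
      Phi arm J B (H + (algebraMap k K t) • G) r * (∑ j, e j) := by
  rw [h.eePhi, h.Phiee]

theorem comt (t : k) (i : n) (r : Fin 3) :
    e i * Phi arm J B (H + (algebraMap k K t) • G) r =
      Phi arm J B (H + (algebraMap k K t) • G) r * e i := by
  have e1 : e i * Phi arm J B (H + (algebraMap k K t) • G) r =
      e i * (cc e D t * cc e D t * Phi arm J B H r) := by
    rw [← h.eePhi, ← Matrix.mul_assoc, h.e_ee]
  have e2 : Phi arm J B (H + (algebraMap k K t) • G) r * e i =
      (cc e D t * cc e D t * Phi arm J B H r) * e i := by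
    rw [← h.Phiee, Matrix.mul_assoc, h.ee_e]
  rw [e1, e2, ← Matrix.mul_assoc, ← Matrix.mul_assoc, h.e_cc, Matrix.mul_assoc (cc e D t) (e i),
    h.e_cc, ← Matrix.mul_assoc, Matrix.mul_assoc _ (e i), h.com, ← Matrix.mul_assoc]

theorem perft {t : k} (ht : t ∈ S) : ∃ a : Fin 3 → Matrix ι ι K,
    ∑ r, a r * (∑ i, e i) * Phi arm J B (H + (algebraMap k K t) • G) r = ∑ i, e i := by
  obtain ⟨a, ha⟩ := h.perf
  refine ⟨fun r => a r * (ci t * ci t), ?_⟩
  refine (Finset.sum_congr rfl fun r _ => ?_).trans ha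
  have h2 : ci t * ci t * ((∑ i, e i) * Phi arm J B (H + (algebraMap k K t) • G) r) =
      (∑ i, e i) * Phi arm J B H r := by
    rw [h.eePhi, Matrix.mul_assoc, ← Matrix.mul_assoc (ci t) _ (Phi arm J B H r),
      ← Matrix.mul_assoc (ci t) (cc e D t), h.ici t ht, h.ecc, ← Matrix.mul_assoc, h.ici t ht]
  rw [Matrix.mul_assoc (a r * (ci t * ci t)), Matrix.mul_assoc (a r), h2, ← Matrix.mul_assoc]

theorem perpt (t : k) {F : Matrix ι δ K} {r : Fin 3}
    (hF : (∑ i, e i) * H * E K arm r * B * Fᵀ = 0) :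
    (∑ i, e i) * (H + (algebraMap k K t) • G) * E K arm r * B * Fᵀ = 0 := by
  rw [h.eeHt]
  have : cc e D t * H * E K arm r * B * Fᵀ =
      cc e D t * ((∑ j, e j) * H * E K arm r * B * Fᵀ) := by
    conv_lhs => rw [← h.cce t]
    simp only [Matrix.mul_assoc]
  rw [this, hF, Matrix.mul_zero]

theorem perpt' {t : k} (ht : t ∈ S) {F : Matrix ι δ K} {r : Fin 3}
    (hF : (∑ i, e i) * (H + (algebraMap k K t) • G) * E K arm r * B * Fᵀ = 0) :
    (∑ i, e i) * H * E K arm r * B * Fᵀ = 0 := by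
  rw [h.eeHt] at hF
  have : (∑ i, e i) * H * E K arm r * B * Fᵀ = ci t * (cc e D t * H * E K arm r * B * Fᵀ) := by
    rw [← h.ici t ht]
    simp only [Matrix.mul_assoc]
  rw [this, hF, Matrix.mul_zero]

/-- `(1 - ee) H` is perpendicular to the core -/
theorem perp0 (r : Fin 3) :
    (∑ i, e i) * H * E K arm r * B * ((1 - ∑ i, e i) * H)ᵀ = 0 := by
  obtain ⟨Ji, hJi, -, -⟩ := symm_inv h.data.J_symm h.data.J_unit
  have hsa : (1 - ∑ i, e i)ᵀ * J = J * (1 - ∑ i, e i) := by
    rw [transpose_sub, transpose_one, Matrix.sub_mul, Matrix.mul_sub, h.ee_sa, Matrix.one_mul,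
      Matrix.mul_one]
  have h1 : (∑ i, e i) * H * E K arm r * B * ((1 - ∑ i, e i) * H)ᵀ * J = 0 := by
    rw [Matrix.mul_assoc _ _ J]
    have h3 : ((1 - ∑ i, e i) * H)ᵀ * J = Hᵀ * J * (1 - ∑ i, e i) := by
      rw [transpose_mul, Matrix.mul_assoc Hᵀ _ J, hsa, Matrix.mul_assoc]
    rw [h3]
    have : (∑ i, e i) * H * E K arm r * B * (Hᵀ * J * (1 - ∑ i, e i)) =
        ((∑ i, e i) * Phi arm J B H r) * (1 - ∑ i, e i) := by
      unfold Phi M; simp only [Matrix.mul_assoc]
    rw [this, h.ee_com, Matrix.mul_assoc, Matrix.mul_sub, Matrix.mul_one, h.ee_ee, sub_self,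
      Matrix.mul_zero]
  have h2 : (∑ i, e i) * H * E K arm r * B * ((1 - ∑ i, e i) * H)ᵀ * J * Ji = 0 := by
    rw [h1, Matrix.zero_mul]
  rwa [Matrix.mul_assoc _ J Ji, hJi, Matrix.mul_one] at h2

/-- derivations killing `Φ(Ht)` kill the blocks -/
theorem der_e_zero {t : k} (ht : t ∈ S) (d : Derivation k K K)
    (hPhi : ∀ r, (Phi arm J B (H + (algebraMap k K t) • G) r).map d = 0) (i : n) :
    (e i).map d = 0 := by
  have hz : ∀ r, (e i).map d * Phi arm J B (H + (algebraMap k K t) • G) r =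
      Phi arm J B (H + (algebraMap k K t) • G) r * (e i).map d := by
    intro r
    have h1 := congrArg (fun A : Matrix ι ι K => A.map d) (h.comt t i r)
    simp only [map_mul_der, hPhi r, Matrix.mul_zero, Matrix.zero_mul, add_zero, zero_add] at h1
    exact h1
  obtain ⟨a1, a2⟩ := h.hom t ht _ hz
  have h1 : (e i).map d = (e i).map d * e i + e i * (e i).map d := by
    have := congrArg (fun A : Matrix ι ι K => A.map d) (h.idem i)
    simp only [map_mul_der] at this
    exact this.symm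
  obtain ⟨a3, a4⟩ := a2 i
  generalize (e i).map d = z at *
  have h2 : e i * z * e i = 0 := by
    have h3 := congrArg (fun A : Matrix ι ι K => e i * A * e i) h1
    simp only [Matrix.mul_add, Matrix.add_mul] at h3
    have h4 : e i * (z * e i) * e i = e i * z * e i := by
      rw [Matrix.mul_assoc, Matrix.mul_assoc z, h.idem, Matrix.mul_assoc]
    have h5 : e i * (e i * z) * e i = e i * z * e i := by
      rw [← Matrix.mul_assoc, h.idem]
    rw [h4, h5] at h3
    exact add_left_cancel (h3.symm.trans (add_zero _).symm)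
  have h6 : e i * z = 0 := by
    have h7 : e i * z * (∑ j, e j) = 0 := by
      rw [Matrix.mul_sum]
      refine Finset.sum_eq_zero fun j _ => ?_
      by_cases hj : i = j
      · subst hj; exact h2
      · exact a1 i j hj
    rw [Matrix.mul_sub, Matrix.mul_one, h7, sub_zero] at a3
    exact a3
  have h8 : z * e i = 0 := by
    have h7 : (∑ j, e j) * z * e i = 0 := by
      rw [Matrix.sum_mul, Matrix.sum_mul]
      refine Finset.sum_eq_zero fun j _ => ?_
      by_cases hj : j = i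
      · subst hj; exact h2
      · exact a1 j i hj
    rw [Matrix.sub_mul, Matrix.one_mul, Matrix.sub_mul, h7, sub_zero] at a4
    exact a4
  rw [h1, h6, h8, add_zero]

end CxZ

/-- the derivation realising `X` at the arm `s` for the point `H + tG` -/
structure MoZ (arm : δ → Fin 3) (J : Matrix ι ι K) (B : Matrix δ δ K)
    (N W : Submodule K (Matrix ι δ K)) (H G : Matrix ι δ K) (e : n → Matrix ι ι K)
    (t : k) (s : Fin 3) (X : Matrix ι ι K) (d : Derivation k K K)
    (ξ : Matrix δ δ K) : Prop where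
  eX : (∑ i, e i) * X = X
  Xe : X * (∑ i, e i) = X
  real : Realises arm N W (fun u => if u = s then X else 0) ξ d
  de : ∀ l, (e l).map d = 0
  dPhi : ∀ r, (Phi arm J B (H + (algebraMap k K t) • G) r).map d = 0
  dHt : (H + (algebraMap k K t) • G).map d = X * (H + (algebraMap k K t) • G) * E K arm s
  perp : ∀ F : Matrix ι δ K, (∀ r, (∑ i, e i) * H * E K arm r * B * Fᵀ = 0) → F * ξᵀ = 0

namespace CxZ

variable (h : CxZ k S arm J B N W H G e D ci)
include h

theorem motion {t : k} (ht : t ∈ S) (s : Fin 3) {X : Matrix ι ι K} (hskew : Xᵀ * J + J * X = 0)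
    (hl : (∑ i, e i) * X = X) (hr : X * (∑ i, e i) = X)
    (hXc : X * (cc e D t * cc e D t * Phi arm J B H s) =
      (cc e D t * cc e D t * Phi arm J B H s) * X) :
    ∃ (d : Derivation k K K) (ξ : Matrix δ δ K), MoZ arm J B N W H G e t s X d ξ := by
  have hD := h.data
  have hcomm : X * Phi arm J B (H + (algebraMap k K t) • G) s =
      Phi arm J B (H + (algebraMap k K t) • G) s * X := by
    have e1 : X * Phi arm J B (H + (algebraMap k K t) • G) s =
        X * (cc e D t * cc e D t * Phi arm J B H s) := by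
      rw [← h.eePhi, ← Matrix.mul_assoc, hr]
    have e2 : Phi arm J B (H + (algebraMap k K t) • G) s * X =
        (cc e D t * cc e D t * Phi arm J B H s) * X := by
      rw [← h.Phiee, Matrix.mul_assoc, hl]
    rw [e1, e2, hXc]
  obtain ⟨a, ha⟩ := h.perft ht
  obtain ⟨ξ, hξ, hξF, hξp⟩ := exists_xi_gen hD h.ee_ee ha s hskew hr hcomm
  set F0 : Matrix ι δ K := H + (algebraMap k K t) • G with hF0
  have hXsk : ∀ u, ((fun u => if u = s then X else 0 : Fin 3 → Matrix ι ι K) u)ᵀ * J +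
      J * (fun u => if u = s then X else 0 : Fin 3 → Matrix ι ι K) u = 0 := by
    intro u
    by_cases hu : u = s
    · simp only [hu, if_true]; exact hskew
    · simp [hu]
  obtain ⟨d0, hd0⟩ := hD.dir (fun u => if u = s then X else 0) ξ hXsk hξ
  have hg := h.gen t ht
  have h1 : F0.map d0 - act arm (fun u => if u = s then X else 0) F0 ∈ N ⊓ W := by
    refine ⟨hd0.onN F0 hg.mem.1, ?_⟩
    have := hd0.onW F0 hg.mem.2
    rw [act_single]
    rwa [hξF] at this
  obtain ⟨d1, hd1, hr1⟩ := hg.vert _ h1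
  have hsub : ∀ G : Matrix ι δ K, G.map (d0 - d1) = G.map d0 - G.map d1 := by
    intro G; ext i j; simp
  have hdF : F0.map (d0 - d1) = act arm (fun u => if u = s then X else 0) F0 := by
    rw [hsub, hd1]
    abel
  have hPhi : ∀ u, (Phi arm J B F0 u).map (d0 - d1) = 0 := by
    intro u
    rw [hD.map_Phi _ (fun u => if u = s then X else 0) hXsk _ hdF u]
    by_cases hu : u = s
    · subst hu
      simp only [if_true]
      rw [hcomm, sub_self]
    · simp [hu]
  refine ⟨d0 - d1, ξ, hl, hr, ⟨?_, ?_⟩, h.der_e_zero ht _ hPhi, hPhi, ?_,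
    fun F hF => hξp F fun r => h.perpt t (hF r)⟩
  · intro G hG
    have h2 := hd0.onN G hG
    have h3 := hr1.onN G hG
    rw [act_zero, sub_zero] at h3
    rw [hsub]
    have : G.map d0 - G.map d1 - act arm (fun u => if u = s then X else 0) G =
      (G.map d0 - act arm (fun u => if u = s then X else 0) G) - G.map d1 := by abel
    rw [this]
    exact N.sub_mem h2 h3
  · intro G hG
    have h2 := hd0.onW G hG
    have h3 := hr1.onW G hG
    rw [transpose_zero, Matrix.mul_zero, sub_zero] at h3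
    rw [hsub]
    have : G.map d0 - G.map d1 - G * ξᵀ = (G.map d0 - G * ξᵀ) - G.map d1 := by abel
    rw [this]
    exact W.sub_mem h2 h3
  · rw [hdF, act_single]

section mo

variable {t : k} {s : Fin 3} {X : Matrix ι ι K} {d : Derivation k K K} {ξ : Matrix δ δ K}

theorem dee (m : MoZ arm J B N W H G e t s X d ξ) : (∑ l, e l).map d = 0 := by
  rw [map_sum_der]
  exact Finset.sum_eq_zero fun l _ => m.de l

/-- the derivative of the core part of `H` -/
theorem edH (ht : t ∈ S) (m : MoZ arm J B N W H G e t s X d ξ) :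
    (∑ l, e l) * H.map d = ci t * X * cc e D t * H * E K arm s -
      (algebraMap k K t) • (ci t * D.map d * H) := by
  have h1 := congrArg (fun A : Matrix ι δ K => A.map d) (h.eeHt t)
  have hdc : (cc e D t).map d = (algebraMap k K t) • D.map d := by
    unfold cc
    rw [map_add_der, h.dee m, zero_add, map_const_smul]
  simp only [map_mul_der, h.dee m, Matrix.zero_mul, zero_add, hdc, m.dHt] at h1
  have h2 := congrArg (fun A : Matrix ι δ K => ci t * A) h1
  simp only [Matrix.mul_add, ← Matrix.mul_assoc, h.ici t ht, h.cie t ht, Matrix.smul_mul,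
    Matrix.mul_smul] at h2
  have h3 : ci t * X * (H + (algebraMap k K t) • G) * E K arm s =
      ci t * X * cc e D t * H * E K arm s := by
    have : ci t * X * (H + (algebraMap k K t) • G) * E K arm s =
        ci t * X * ((∑ l, e l) * (H + (algebraMap k K t) • G)) * E K arm s := by
      conv_lhs => rw [← m.Xe]
      simp only [Matrix.mul_assoc]
    rw [this, h.eeHt]
    simp only [Matrix.mul_assoc]
  have h4 : ci t * X * (H + (algebraMap k K t) • G) * E K arm s =
      (algebraMap k K t) • (ci t * D.map d * H) + (∑ l, e l) * H.map d := by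
    rw [← h2]
    simp only [Matrix.mul_add, Matrix.add_mul, Matrix.mul_smul, Matrix.smul_mul]
  rw [← h3, h4]
  abel

/-- perpendicularity is preserved by the derivation -/
theorem perp_der (ht : t ∈ S) (m : MoZ arm J B N W H G e t s X d ξ) {F : Matrix ι δ K}
    (hF : ∀ r, (∑ i, e i) * H * E K arm r * B * Fᵀ = 0) (r : Fin 3) :
    (∑ i, e i) * H * E K arm r * B * (F.map d)ᵀ = 0 := by
  have hD := h.data
  apply h.perpt' ht
  have h1 := h.perpt t (hF r)
  have h2 := congrArg (fun A : Matrix ι ι K => A.map d) h1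
  simp only [map_mul_der, hD.B_const, E_map_der, map_transpose_der, m.dHt, h.dee m,
    Matrix.mul_zero, Matrix.zero_mul, add_zero, zero_add, map_zero_der] at h2
  have h3 : (∑ i, e i) * (X * (H + (algebraMap k K t) • G) * E K arm s) * E K arm r * B *
      Fᵀ = 0 := by
    by_cases hr : s = r
    · subst hr
      have e1 : (∑ i, e i) * (X * (H + (algebraMap k K t) • G) * E K arm s) * E K arm s *
          B * Fᵀ = (∑ i, e i) * (X * ((∑ i, e i) * (H + (algebraMap k K t) • G) *
            E K arm s * B * Fᵀ)) := by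
        conv_lhs => rw [← m.Xe]
        simp only [Matrix.mul_assoc]
        rw [← Matrix.mul_assoc (E K arm s) (E K arm s), E_mul_self]
      rw [e1, h1, Matrix.mul_zero, Matrix.mul_zero]
    · have e1 : (∑ i, e i) * (X * (H + (algebraMap k K t) • G) * E K arm s) * E K arm r *
          B * Fᵀ = (∑ i, e i) * (X * (H + (algebraMap k K t) • G) *
            ((E K arm s * E K arm r) * (B * Fᵀ))) := by
        simp only [Matrix.mul_assoc]
      rw [e1, E_mul_ne arm hr]
      simp
  rw [h3, zero_add] at h2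
  exact h2

/-- the `T`-part is preserved by the derivation -/
theorem TT_der (ht : t ∈ S) (m : MoZ arm J B N W H G e t s X d ξ) {g : Matrix ι δ K}
    (hg : g ∈ TT arm B W H (∑ i, e i)) : g.map d ∈ TT arm B W H (∑ i, e i) := by
  obtain ⟨g1, g2, g3⟩ := hg
  refine ⟨?_, ?_, h.perp_der ht m g3⟩
  · have := m.real.onW g g1
    rwa [m.perp g g3, sub_zero] at this
  · have := congrArg (fun A : Matrix ι δ K => A.map d) g2
    simp only [map_mul_der, h.dee m, Matrix.zero_mul, zero_add, map_zero_der] at this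
    exact this

/-- the part of `dH` outside the core -/
theorem dH_TT (ht : t ∈ S) (m : MoZ arm J B N W H G e t s X d ξ) :
    (1 - ∑ i, e i) * H.map d ∈ TT arm B W H (∑ i, e i) := by
  have h1 : ((1 - ∑ i, e i) * H).map d = (1 - ∑ i, e i) * H.map d := by
    rw [map_mul_der, map_sub_der, map_one_der, h.dee m]
    simp
  rw [← h1]
  refine ⟨?_, ?_, h.perp_der ht m h.perp0⟩
  · have := m.real.onW _ (h.data.W_left H h.memH.2 (1 - ∑ i, e i))
    rwa [m.perp _ h.perp0, sub_zero] at this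
  · rw [h1, ← Matrix.mul_assoc, Matrix.mul_sub, Matrix.mul_one, h.ee_ee, sub_self,
      Matrix.zero_mul]

/-- `d (c c Φ) = 0` -/
theorem dPsi (m : MoZ arm J B N W H G e t s X d ξ) (r : Fin 3) :
    (cc e D t * cc e D t * Phi arm J B H r).map d = 0 := by
  rw [← h.eePhi, map_mul_der, h.dee m, m.dPhi r, Matrix.zero_mul, Matrix.mul_zero, add_zero]

/-- the properties of `dD` -/
theorem dD_ee (m : MoZ arm J B N W H G e t s X d ξ) : (∑ l, e l) * D.map d = D.map d := by
  have := congrArg (fun A : Matrix ι ι K => A.map d) h.eeD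
  simpa only [map_mul_der, h.dee m, Matrix.zero_mul, zero_add] using this

theorem dD_ee' (m : MoZ arm J B N W H G e t s X d ξ) : D.map d * (∑ l, e l) = D.map d := by
  have := congrArg (fun A : Matrix ι ι K => A.map d) h.Dee
  simpa only [map_mul_der, h.dee m, Matrix.mul_zero, add_zero] using this

theorem dD_e (m : MoZ arm J B N W H G e t s X d ξ) (l : n) : e l * D.map d = D.map d * e l := by
  have := congrArg (fun A : Matrix ι ι K => A.map d) (h.eD l)
  simpa only [map_mul_der, m.de, Matrix.mul_zero, Matrix.zero_mul, zero_add, add_zero] using this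

theorem dD_sa (m : MoZ arm J B N W H G e t s X d ξ) : (D.map d)ᵀ * J = J * D.map d := by
  have := congrArg (fun A : Matrix ι ι K => A.map d) h.Dsa
  simpa only [map_mul_der, h.data.J_const, Matrix.mul_zero, Matrix.zero_mul, zero_add, add_zero,
    map_transpose_der] using this

theorem D_Psi (t : k) (r : Fin 3) : D * (cc e D t * cc e D t * Phi arm J B H r) =
    (cc e D t * cc e D t * Phi arm J B H r) * D := by
  have hc : D * cc e D t = cc e D t * D := by
    unfold cc
    rw [Matrix.mul_add, Matrix.add_mul, h.eeD, h.Dee, Matrix.mul_smul, Matrix.smul_mul]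
  rw [← Matrix.mul_assoc, ← Matrix.mul_assoc, hc, Matrix.mul_assoc (cc e D t) D, hc,
    ← Matrix.mul_assoc, Matrix.mul_assoc _ D, h.Dcom, ← Matrix.mul_assoc]

theorem dD_Psi (m : MoZ arm J B N W H G e t s X d ξ) (r : Fin 3) :
    D.map d * (cc e D t * cc e D t * Phi arm J B H r) =
      (cc e D t * cc e D t * Phi arm J B H r) * D.map d := by
  have := congrArg (fun A : Matrix ι ι K => A.map d) (h.D_Psi t r)
  have hd := h.dPsi m r
  generalize cc e D t * cc e D t * Phi arm J B H r = Ψ at this hd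
  simpa only [map_mul_der, hd, Matrix.mul_zero, Matrix.zero_mul, zero_add, add_zero] using this

end mo

/-- **first derivative** -/
theorem first (hZ : ZOK k S arm J B H e D ci ZZ) {t : k} (ht : t ∈ S) (s : Fin 3)
    {X : Matrix ι ι K} (hskew : Xᵀ * J + J * X = 0)
    (hl : (∑ i, e i) * X = X) (hr : X * (∑ i, e i) = X)
    (hXc : X * (cc e D t * cc e D t * Phi arm J B H s) =
      (cc e D t * cc e D t * Phi arm J B H s) * X) :
    ci t * X * cc e D t - X ∈ QZS arm B N W H (∑ i, e i) ZZ s := by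
  obtain ⟨d, ξ, m⟩ := h.motion ht s hskew hl hr hXc
  have hTT := h.dH_TT ht m
  have hN : H.map d - X * H * E K arm s ∈ N := by
    have := m.real.onN H h.memH.1
    rwa [act_single] at this
  rw [mem_QZS]
  refine ⟨(algebraMap k K t) • (ci t * D.map d),
    hZ.Z1 t ht _ (h.dD_ee m) (h.dD_ee' m) (h.dD_sa m) (h.dD_Psi m) (h.dD_e m),
    -((1 - ∑ i, e i) * H.map d), Submodule.neg_mem _ hTT, ?_⟩
  have hsp : H.map d = (∑ l, e l) * H.map d + (1 - ∑ l, e l) * H.map d := by
    rw [← Matrix.add_mul, add_sub_cancel, Matrix.one_mul]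
  have e1 : (ci t * X * cc e D t - X) * H * E K arm s -
      (algebraMap k K t) • (ci t * D.map d) * H - -((1 - ∑ i, e i) * H.map d) =
      H.map d - X * H * E K arm s := by
    conv_rhs => rw [hsp, h.edH ht m]
    rw [Matrix.sub_mul (ci t * X * cc e D t) X, Matrix.sub_mul, Matrix.smul_mul]
    abel
  rw [e1]
  exact hN

/-! ### filtered operators -/

theorem ci_cc {t : k} (ht : t ∈ S) :
    (cc e D t * cc e D t) * (ci t * ci t) = ∑ i, e i := by
  rw [Matrix.mul_assoc, ← Matrix.mul_assoc (cc e D t) (ci t), h.cci t ht, h.eci t ht, h.cci t ht]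

theorem Psi_pow (t : k) (s : Fin 3) (v : ℕ) :
    (cc e D t * cc e D t * Phi arm J B H s) ^ v =
      (cc e D t * cc e D t) ^ v * (Phi arm J B H s) ^ v := by
  have hc : Commute (cc e D t * cc e D t) (Phi arm J B H s) := by
    have h1 : Commute (cc e D t) (Phi arm J B H s) := h.cc_com t s
    exact h1.mul_left h1
  exact hc.mul_pow v

theorem ee_pow (v : ℕ) : (∑ i, e i) ^ v * (∑ i, e i) = ∑ i, e i := by
  induction v with
  | zero => simp
  | succ v ih => rw [pow_succ, Matrix.mul_assoc, h.ee_ee, ih]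

/-- `Ψ^v (ci ci)^v ee = Φ^v ee` -/
theorem Psi_pow' {t : k} (ht : t ∈ S) (s : Fin 3) (v : ℕ) :
    (cc e D t * cc e D t * Phi arm J B H s) ^ v * ((ci t * ci t) ^ v * (∑ i, e i)) =
      (Phi arm J B H s) ^ v * (∑ i, e i) := by
  have h1 : Commute (cc e D t) (Phi arm J B H s) := h.cc_com t s
  have h2 : Commute (cc e D t * cc e D t) (Phi arm J B H s) := h1.mul_left h1
  have h3 : Commute (cc e D t) (ci t) := by
    show cc e D t * ci t = ci t * cc e D t
    rw [h.cci t ht, h.ici t ht]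
  have h4 : Commute (cc e D t * cc e D t) (ci t * ci t) :=
    (h3.mul_left h3).mul_right (h3.mul_left h3)
  rw [h.Psi_pow, (h2.pow_pow v v).eq, Matrix.mul_assoc, ← Matrix.mul_assoc _ ((ci t * ci t) ^ v),
    ← h4.mul_pow, h.ci_cc ht, h.ee_pow]

theorem fil_to {t : k} (ht : t ∈ S) {s : Fin 3} {y : Matrix ι ι K} (hy : (∑ i, e i) * y = y)
    (hf : ∀ v : ℕ, ∃ R, y * (Phi arm J B H s) ^ v = (Phi arm J B H s) ^ v * R) (v : ℕ) :
    ∃ R, y * (cc e D t * cc e D t * Phi arm J B H s) ^ v =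
      (cc e D t * cc e D t * Phi arm J B H s) ^ v * R := by
  obtain ⟨R, hR⟩ := hf v
  have h1 : Commute (cc e D t) (Phi arm J B H s) := h.cc_com t s
  have h2 : Commute (cc e D t * cc e D t) (Phi arm J B H s) := h1.mul_left h1
  have hec : (∑ i, e i) * (Phi arm J B H s) ^ v = (Phi arm J B H s) ^ v * (∑ i, e i) :=
    ((show Commute (∑ i, e i) (Phi arm J B H s) from h.ee_com s).pow_right v).eq
  refine ⟨(ci t * ci t) ^ v * (∑ i, e i) * (R * (cc e D t * cc e D t) ^ v), ?_⟩
  rw [← Matrix.mul_assoc, h.Psi_pow' ht, ← hec, h.Psi_pow, (h2.pow_pow v v).eq,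
    ← Matrix.mul_assoc y, hR, Matrix.mul_assoc (∑ i, e i), ← Matrix.mul_assoc _ R, ← hR,
    Matrix.mul_assoc y, ← Matrix.mul_assoc (∑ i, e i), hy, ← Matrix.mul_assoc y, Matrix.mul_assoc]

theorem fil_from {t : k} (ht : t ∈ S) {s : Fin 3} {y : Matrix ι ι K} (hy : y * (∑ i, e i) = y)
    (hf : ∀ v : ℕ, ∃ R, y * (cc e D t * cc e D t * Phi arm J B H s) ^ v =
      (cc e D t * cc e D t * Phi arm J B H s) ^ v * R) (v : ℕ) :
    ∃ R, y * (Phi arm J B H s) ^ v = (Phi arm J B H s) ^ v * R := by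
  obtain ⟨R, hR⟩ := hf v
  have h1 : Commute (cc e D t) (Phi arm J B H s) := h.cc_com t s
  have h2 : Commute (cc e D t * cc e D t) (Phi arm J B H s) := h1.mul_left h1
  have hec : (∑ i, e i) * (Phi arm J B H s) ^ v = (Phi arm J B H s) ^ v * (∑ i, e i) :=
    ((show Commute (∑ i, e i) (Phi arm J B H s) from h.ee_com s).pow_right v).eq
  refine ⟨(cc e D t * cc e D t) ^ v * (R * ((ci t * ci t) ^ v * (∑ i, e i))), ?_⟩
  have e1 : y * (Phi arm J B H s) ^ v = y * ((Phi arm J B H s) ^ v * (∑ i, e i)) := by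
    rw [← hec, ← Matrix.mul_assoc, hy]
  rw [e1, ← h.Psi_pow' ht, ← Matrix.mul_assoc, hR, h.Psi_pow, (h2.pow_pow v v).eq]
  simp only [Matrix.mul_assoc]

/-- commuting with `Ψ` implies filtered -/
theorem fil_of_com {t : k} (ht : t ∈ S) {s : Fin 3} {y : Matrix ι ι K} (hy : y * (∑ i, e i) = y)
    (hc : y * (cc e D t * cc e D t * Phi arm J B H s) =
      (cc e D t * cc e D t * Phi arm J B H s) * y) (v : ℕ) :
    ∃ R, y * (Phi arm J B H s) ^ v = (Phi arm J B H s) ^ v * R :=
  h.fil_from ht hy (fun v => ⟨y, ((show Commute y (cc e D t * cc e D t * Phi arm J B H s) from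
    hc).pow_right v).eq⟩) v

omit h in
theorem fil_mul {Φ : Matrix ι ι K} {y y' : Matrix ι ι K}
    (h1 : ∀ v : ℕ, ∃ R, y * Φ ^ v = Φ ^ v * R) (h2 : ∀ v : ℕ, ∃ R, y' * Φ ^ v = Φ ^ v * R)
    (v : ℕ) : ∃ R, (y * y') * Φ ^ v = Φ ^ v * R := by
  obtain ⟨R', hR'⟩ := h2 v
  obtain ⟨R, hR⟩ := h1 v
  exact ⟨R * R', by rw [Matrix.mul_assoc, hR', ← Matrix.mul_assoc, hR, Matrix.mul_assoc]⟩

omit h in
theorem fil_sub {Φ : Matrix ι ι K} {y y' : Matrix ι ι K}
    (h1 : ∀ v : ℕ, ∃ R, y * Φ ^ v = Φ ^ v * R) (h2 : ∀ v : ℕ, ∃ R, y' * Φ ^ v = Φ ^ v * R)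
    (v : ℕ) : ∃ R, (y - y') * Φ ^ v = Φ ^ v * R := by
  obtain ⟨R', hR'⟩ := h2 v
  obtain ⟨R, hR⟩ := h1 v
  exact ⟨R - R', by rw [Matrix.sub_mul, Matrix.mul_sub, hR, hR']⟩

omit h in
theorem fil_smul {Φ : Matrix ι ι K} {y : Matrix ι ι K} (c : K)
    (h1 : ∀ v : ℕ, ∃ R, y * Φ ^ v = Φ ^ v * R) (v : ℕ) : ∃ R, (c • y) * Φ ^ v = Φ ^ v * R := by
  obtain ⟨R, hR⟩ := h1 v
  exact ⟨c • R, by rw [Matrix.smul_mul, Matrix.mul_smul, hR]⟩

omit h in
theorem fil_com {Φ : Matrix ι ι K} {y : Matrix ι ι K} (h1 : y * Φ = Φ * y) (v : ℕ) :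
    ∃ R, y * Φ ^ v = Φ ^ v * R :=
  ⟨y, ((show Commute y Φ from h1).pow_right v).eq⟩

/-- **second derivative** -/
theorem second (hZ : ZOK k S arm J B H e D ci ZZ) {t : k} (ht : t ∈ S) (s : Fin 3) {i j : n}
    (hij : i ≠ j) {x x' : Matrix ι ι K} (hx : e j * x * e i = x) (hx' : xᵀ * J = J * x')
    (hxc : x * (cc e D t * cc e D t * Phi arm J B H s) =
      (cc e D t * cc e D t * Phi arm J B H s) * x)
    (hfil : ∀ i' j' : n, i' ≠ j' → ∀ y : Matrix ι ι K, e j' * y * e i' = y →
      (∀ v : ℕ, ∃ R, y * (Phi arm J B H s) ^ v = (Phi arm J B H s) ^ v * R) →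
      y ∈ QZS arm B N W H (∑ i, e i) ZZ s)
    {y : Matrix ι ι K} (hy : e j * y * e i = y)
    (hyf : ∀ v : ℕ, ∃ R, y * (Phi arm J B H s) ^ v = (Phi arm J B H s) ^ v * R) :
    x' * y - y * ci t * x' * cc e D t ∈ QZS arm B N W H (∑ i, e i) ZZ s := by
  have hD := h.data
  obtain ⟨Ji, hJi, hJi', hJit⟩ := symm_inv hD.J_symm hD.J_unit
  have hJc : ∀ {A C : Matrix ι ι K}, J * A = J * C → A = C := by
    intro A C hAC
    have := congrArg (fun Z => Ji * Z) hAC
    simpa only [← Matrix.mul_assoc, hJi', Matrix.one_mul] using this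
  have hx'e : e i * x' * e j = x' := by
    apply hJc
    have e0 : J * (e i * x' * e j) = (J * e i) * x' * e j := by simp only [Matrix.mul_assoc]
    rw [e0, ← h.sa, Matrix.mul_assoc (e i)ᵀ J, ← hx', Matrix.mul_assoc, Matrix.mul_assoc xᵀ,
      ← h.sa]
    conv_rhs => rw [← hx]
    rw [transpose_mul, transpose_mul]
    simp only [Matrix.mul_assoc]
  have hx'J : x'ᵀ * J = J * x := by
    have := congrArg transpose hx'
    rw [transpose_mul, transpose_mul, transpose_transpose, hD.J_symm] at this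
    exact this.symm
  have hPsa : (cc e D t * cc e D t * Phi arm J B H s)ᵀ * J =
      J * (cc e D t * cc e D t * Phi arm J B H s) := by
    rw [← h.eePhi, transpose_mul]
    have hsa : (Phi arm J B (H + (algebraMap k K t) • G) s)ᵀ * J =
        J * Phi arm J B (H + (algebraMap k K t) • G) s := by
      unfold Phi
      rw [transpose_mul, hD.J_symm, Slack.M_transpose hD, Matrix.mul_assoc]
    rw [Matrix.mul_assoc, h.ee_sa, ← Matrix.mul_assoc, hsa, Matrix.mul_assoc, h.ee_comt]
  have k2 : x' * (cc e D t * cc e D t * Phi arm J B H s) =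
      (cc e D t * cc e D t * Phi arm J B H s) * x' := by
    generalize cc e D t * cc e D t * Phi arm J B H s = Ψ at hxc hPsa
    apply hJc
    have h1 := congrArg (fun A : Matrix ι ι K => Aᵀ * J) hxc
    simp only [transpose_mul] at h1
    rw [Matrix.mul_assoc, hx', Matrix.mul_assoc, hPsa, ← Matrix.mul_assoc, hPsa,
      ← Matrix.mul_assoc, hx'] at h1
    rw [← Matrix.mul_assoc, ← Matrix.mul_assoc]
    exact h1.symm
  have hXc : (x - x') * (cc e D t * cc e D t * Phi arm J B H s) =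
      (cc e D t * cc e D t * Phi arm J B H s) * (x - x') := by
    rw [Matrix.sub_mul, Matrix.mul_sub, hxc, k2]
  have hskew : (x - x')ᵀ * J + J * (x - x') = 0 := by
    rw [transpose_sub, Matrix.sub_mul, hx', hx'J, Matrix.mul_sub]
    abel
  have hee_x : (∑ i, e i) * x = x := by
    rw [← hx, ← Matrix.mul_assoc, ← Matrix.mul_assoc, h.ee_e]
  have hee_x' : (∑ i, e i) * x' = x' := by
    rw [← hx'e, ← Matrix.mul_assoc, ← Matrix.mul_assoc, h.ee_e]
  have hx_ee : x * (∑ i, e i) = x := by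
    rw [← hx, Matrix.mul_assoc, h.e_ee]
  have hx'_ee : x' * (∑ i, e i) = x' := by
    rw [← hx'e, Matrix.mul_assoc, h.e_ee]
  have hy_ee : y * (∑ i, e i) = y := by
    rw [← hy, Matrix.mul_assoc, h.e_ee]
  have hee_y : (∑ i, e i) * y = y := by
    rw [← hy, ← Matrix.mul_assoc, ← Matrix.mul_assoc, h.ee_e]
  obtain ⟨d, ξ, m⟩ := h.motion ht s hskew (by rw [Matrix.mul_sub, hee_x, hee_x'])
    (by rw [Matrix.sub_mul, hx_ee, hx'_ee]) hXc
  have fx := h.fil_of_com ht hx_ee hxc
  have fx' := h.fil_of_com ht hx'_ee k2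
  have fcc : ∀ v : ℕ, ∃ R, cc e D t * (Phi arm J B H s) ^ v = (Phi arm J B H s) ^ v * R :=
    fil_com (h.cc_com t s)
  have fci : ∀ v : ℕ, ∃ R, ci t * (Phi arm J B H s) ^ v = (Phi arm J B H s) ^ v * R :=
    fil_com (h.ci_com ht s)
  have fdD : ∀ v : ℕ, ∃ R, D.map d * (Phi arm J B H s) ^ v = (Phi arm J B H s) ^ v * R :=
    h.fil_of_com ht (h.dD_ee' m) (h.dD_Psi m s)
  obtain ⟨z, hz, g, hg, hn⟩ := hfil i j hij y hy hyf
  have hzb := hZ.blk z hz
  have hze := hZ.ez z hz
  have hze' : z * (∑ i, e i) = z := by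
    conv_rhs => rw [← hze]
    rw [Matrix.mul_sum, Matrix.sum_mul]
    exact Finset.sum_congr rfl fun l _ => (hzb l).symm
  have fz := hZ.fil z hz s
  -- the filtered operator `dy - t y ci dD`
  have hdy : e j * y.map d * e i = y.map d := by
    have := congrArg (fun A : Matrix ι ι K => A.map d) hy
    simpa only [map_mul_der, m.de, Matrix.zero_mul, Matrix.mul_zero, zero_add, add_zero] using this
  have hdy_ee : y.map d * (∑ i, e i) = y.map d := by
    rw [← hdy, Matrix.mul_assoc, h.e_ee]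
  have fdy : ∀ v : ℕ, ∃ R, y.map d * (Phi arm J B H s) ^ v = (Phi arm J B H s) ^ v * R :=
    h.fil_from ht hdy_ee (fun v => by
      obtain ⟨R, hR⟩ := h.fil_to ht hee_y hyf v
      refine ⟨R.map d, ?_⟩
      have := congrArg (fun A : Matrix ι ι K => A.map d) hR
      simpa only [map_mul_der, map_pow_zero d (h.dPsi m s) v, Matrix.zero_mul, Matrix.mul_zero,
        zero_add, add_zero] using this)
  have hA1 : y.map d - (algebraMap k K t) • (y * ci t * D.map d) ∈
      QZS arm B N W H (∑ i, e i) ZZ s := by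
    refine hfil i j hij _ ?_ (fil_sub fdy (fil_smul _ (fil_mul (fil_mul hyf fci) fdD)))
    have e1 : e j * (y * ci t * D.map d) * e i = y * ci t * D.map d := by
      have : e j * (y * ci t * D.map d) * e i = e j * y * (ci t * (D.map d * e i)) := by
        simp only [Matrix.mul_assoc]
      rw [this, ← h.dD_e m, ← Matrix.mul_assoc (ci t), ← h.e_ci ht, ← Matrix.mul_assoc,
        ← Matrix.mul_assoc, hy, Matrix.mul_assoc]
    rw [Matrix.mul_sub, Matrix.sub_mul, hdy, Matrix.mul_smul, Matrix.smul_mul, e1]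
  -- the filtered operators `x z - z ci x c` and `x' z - z ci x' c`
  have hA2 : x * z - z * ci t * x * cc e D t ∈ QZS arm B N W H (∑ i, e i) ZZ s := by
    refine hfil i j hij _ ?_ (fil_sub (fil_mul fx fz) (fil_mul (fil_mul (fil_mul fz fci) fx) fcc))
    have e1 : e j * (x * z) * e i = x * z := by
      have : e j * (x * z) * e i = e j * x * (z * e i) := by simp only [Matrix.mul_assoc]
      rw [this, ← hzb i, ← Matrix.mul_assoc, hx]
    have e2 : e j * (z * ci t * x * cc e D t) * e i = z * ci t * x * cc e D t := by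
      have : e j * (z * ci t * x * cc e D t) * e i =
          (e j * z) * ci t * x * (cc e D t * e i) := by simp only [Matrix.mul_assoc]
      rw [this, hzb j, ← h.e_cc, Matrix.mul_assoc z, h.e_ci ht, ← Matrix.mul_assoc z]
      have e3 : z * ci t * e j * x * (e i * cc e D t) =
          z * ci t * (e j * x * e i) * cc e D t := by simp only [Matrix.mul_assoc]
      rw [e3, hx]
    rw [Matrix.mul_sub, Matrix.sub_mul, e1, e2]
  have hA3 : x' * z - z * ci t * x' * cc e D t ∈ QZS arm B N W H (∑ i, e i) ZZ s := by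
    refine hfil j i hij.symm _ ?_
      (fil_sub (fil_mul fx' fz) (fil_mul (fil_mul (fil_mul fz fci) fx') fcc))
    have e1 : e i * (x' * z) * e j = x' * z := by
      have : e i * (x' * z) * e j = e i * x' * (z * e j) := by simp only [Matrix.mul_assoc]
      rw [this, ← hzb j, ← Matrix.mul_assoc, hx'e]
    have e2 : e i * (z * ci t * x' * cc e D t) * e j = z * ci t * x' * cc e D t := by
      have : e i * (z * ci t * x' * cc e D t) * e j =
          (e i * z) * ci t * x' * (cc e D t * e j) := by simp only [Matrix.mul_assoc]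
      rw [this, hzb i, ← h.e_cc, Matrix.mul_assoc z, h.e_ci ht, ← Matrix.mul_assoc z]
      have e3 : z * ci t * e i * x' * (e j * cc e D t) =
          z * ci t * (e i * x' * e j) * cc e D t := by simp only [Matrix.mul_assoc]
      rw [e3, hx'e]
    rw [Matrix.mul_sub, Matrix.sub_mul, e1, e2]
  rw [mem_QZS] at hA1 hA2 hA3
  -- the derivative of the decomposition of `y H E_s`
  have hN := m.real.onN _ hn
  rw [act_single] at hN
  have hdg := h.TT_der ht m hg
  have hdz := hZ.Z2 t ht d m.de (h.dPsi m) z hz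
  have hedH := h.edH ht m
  have hydH : y * H.map d = y * ci t * (x - x') * cc e D t * H * E K arm s -
      (algebraMap k K t) • (y * ci t * D.map d * H) := by
    have h1 := congrArg (fun A : Matrix ι δ K => y * A) hedH
    simpa only [Matrix.mul_sub, Matrix.mul_smul, ← Matrix.mul_assoc, hy_ee] using h1
  have hzdH : z * H.map d = z * ci t * (x - x') * cc e D t * H * E K arm s -
      (algebraMap k K t) • (z * ci t * D.map d * H) := by
    have h1 := congrArg (fun A : Matrix ι δ K => z * A) hedH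
    simpa only [Matrix.mul_sub, Matrix.mul_smul, ← Matrix.mul_assoc, hze'] using h1
  have e0 : (y * H * E K arm s - z * H - g).map d =
      y.map d * H * E K arm s + y * H.map d * E K arm s -
        (z.map d * H + z * H.map d) - g.map d := by
    rw [map_sub_der, map_sub_der, map_mul_der _ (y * H), E_map_der, Matrix.mul_zero, add_zero,
      map_mul_der _ y, Matrix.add_mul, map_mul_der _ z H]
  have hxy : x * y = 0 := by
    rw [← hx, ← hy]
    have : e j * x * e i * (e j * y * e i) = e j * x * (e i * e j) * y * e i := by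
      simp only [Matrix.mul_assoc]
    rw [this, h.orth i j hij]; simp
  have hyx : y * ci t * x = 0 := by
    have : y * ci t * x = y * (e i * ci t) * x := by
      rw [← Matrix.mul_assoc]
      conv_lhs => rw [← hy]
      conv_rhs => rw [← hy]
      have q : e j * y * e i * e i = e j * y * e i := by
        rw [Matrix.mul_assoc _ (e i) (e i), h.idem]
      rw [q]
    rw [this, h.e_ci ht, ← hx]
    have : y * (ci t * e i) * (e j * x * e i) = y * ci t * (e i * e j) * x * e i := by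
      simp only [Matrix.mul_assoc]
    rw [this, h.orth i j hij]; simp
  have e1 : (x - x') * (y * H * E K arm s - z * H - g) * E K arm s =
      -(x' * y * H * E K arm s) - ((x * z) * H * E K arm s - (x' * z) * H * E K arm s) := by
    have f1 : (x - x') * g = 0 := by
      have : (x - x') * g = (x - x') * ((∑ i, e i) * g) := by
        rw [← Matrix.mul_assoc, Matrix.sub_mul x x' (∑ i, e i), hx_ee, hx'_ee]
      rw [this, hg.2.1, Matrix.mul_zero]
    have f4 : (x - x') * (y * H * E K arm s) * E K arm s = -(x' * y * H * E K arm s) := by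
      have : (x - x') * (y * H * E K arm s) * E K arm s =
          (x - x') * y * H * (E K arm s * E K arm s) := by
        simp only [Matrix.mul_assoc]
      rw [this, E_mul_self, Matrix.sub_mul, hxy, zero_sub, Matrix.neg_mul, Matrix.neg_mul]
    rw [Matrix.mul_sub, Matrix.mul_sub, f1, sub_zero, Matrix.sub_mul _ _ (E K arm s), f4,
      ← Matrix.mul_assoc _ z, Matrix.sub_mul x x' z, Matrix.sub_mul (x * z), Matrix.sub_mul]
  rw [e0, e1, hydH, hzdH] at hN
  -- quotient
  set Qm := QZ arm B N W H (∑ i, e i) ZZ with hQm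
  have q0 : ∀ {Z : Matrix ι δ K}, Z ∈ Qm → Qm.mkQ Z = 0 := by
    intro Z hZ
    rw [Submodule.mkQ_apply, Submodule.Quotient.mk_eq_zero]
    exact hZ
  have q1 := q0 (N_le_QZ hN)
  have q2 := q0 (TT_le_QZ hdg)
  have q3 := q0 (ZZ_le_QZ (arm := arm) (B := B) (N := N) (W := W) (H := H)
    (P := ∑ i, e i) hdz)
  have q5 := q0 hA1
  have q6 := q0 hA2
  have q7 := q0 hA3
  rw [mem_QZS, ← hQm, ← Submodule.Quotient.mk_eq_zero, ← Submodule.mkQ_apply]
  have hEE : ∀ A : Matrix ι ι K, A * H * E K arm s * E K arm s = A * H * E K arm s := by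
    intro A
    rw [Matrix.mul_assoc _ (E K arm s), E_mul_self]
  simp only [Matrix.sub_mul, Matrix.mul_sub, Matrix.smul_mul, hyx, Matrix.zero_mul, zero_sub,
    Matrix.neg_mul, hEE, map_add, map_sub, map_smul, map_neg, q2, sub_zero] at q1 q3 q5 q6 q7 ⊢
  generalize Qm.mkQ (y.map d * H * E K arm s) = a1 at *
  generalize Qm.mkQ (y * ci t * D.map d * H * E K arm s) = a2 at *
  generalize Qm.mkQ (x * z * H * E K arm s) = a3 at *
  generalize Qm.mkQ (x' * z * H * E K arm s) = a4 at *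
  generalize Qm.mkQ (z * ci t * x * cc e D t * H * E K arm s) = a5 at *
  generalize Qm.mkQ (z * ci t * x' * cc e D t * H * E K arm s) = a6 at *
  generalize Qm.mkQ (z.map d * H) = a7 at *
  generalize Qm.mkQ (z * ci t * D.map d * H) = a8 at *
  generalize Qm.mkQ (x' * y * H * E K arm s) = a9 at *
  generalize Qm.mkQ (y * ci t * x' * cc e D t * H * E K arm s) = a10 at *
  linear_combination (norm := module) q1 + q3 - q5 - q6 + q7

end CxZ

end Crest.Agent.R172.QQ1Z
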