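import Crest.Agent.R172.QQ2g

/-!
Row 172, TAME (T0), `R = 0`, general `D`: glue of the derivative steps with the END.
The space `ZZ` of global corrections is a parameter (note 15796).
-/

set_option autoImplicit false
set_option linter.unusedSectionVars false

namespace Crest.Agent.R172.QQ2

open Matrix Module LinearMap Crest.Agent.R172.FO Crest.Agent.R172.Core Crest.Agent.R172.OneArm

variable {ι : Type*} [Fintype ι] [DecidableEq ι]
variable {K : Type*} [Field K]

section nil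

variable {M : Submodule K (ι → K)} {e D : Matrix ι ι K} {τ : Module.End K M} {ν : K}

theorem ph_nil (he : e * e = e) (heD : e * D = D * e)
    (hτ : ∀ v : M, ((τ v : M) : ι → K) = D *ᵥ (v : ι → K))
    (hC : C e = (τ.maxGenEigenspace ν).map M.subtype) :
    IsNilpotent (ph D e - ν • (1 : End K (C e))) := by
  have hk : τ.maxGenEigenspace ν ≤ τ.genEigenspace ν (τ.maxGenEigenspaceIndex ν) :=
    (Module.End.maxGenEigenspace_eq τ ν).le
  refine ⟨τ.maxGenEigenspaceIndex ν, ?_⟩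
  apply LinearMap.ext
  intro v
  apply Subtype.ext
  obtain ⟨m, hm, hmv⟩ : (v : ι → K) ∈ (τ.maxGenEigenspace ν).map M.subtype := hC ▸ v.2
  have key : ∀ j : ℕ, ∀ (m : M) (v : C e), (m : ι → K) = v →
      ((((ph D e - ν • (1 : End K (C e))) ^ j) v : C e) : ι → K) =
        (((τ - ν • (1 : Module.End K M)) ^ j) m : M) := by
    intro j
    induction j with
    | zero => intro m v h; simpa using h.symm
    | succ j ih =>
      intro m v h
      rw [pow_succ, pow_succ, Module.End.mul_apply, Module.End.mul_apply]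
      apply ih
      rw [LinearMap.sub_apply, LinearMap.sub_apply, Submodule.coe_sub, Submodule.coe_sub,
        LinearMap.smul_apply, LinearMap.smul_apply, Submodule.coe_smul, Submodule.coe_smul,
        Module.End.one_apply, Module.End.one_apply, hτ, h]
      have h1 := ph_pow_coe he heD 1 v
      rw [pow_one, pow_one] at h1
      rw [h1]
  rw [key _ m v hmv]
  have h2 := hk hm
  rw [Module.End.mem_genEigenspace_nat, LinearMap.mem_ker] at h2
  rw [h2]
  rfl

end nil

section glue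

variable {δ : Type*} [Fintype δ] [DecidableEq δ]
variable {k : Type*} [Field k] [Algebra k K]
variable {arm : δ → Fin 3} {J : Matrix ι ι K} {B : Matrix δ δ K}
  {N W : Submodule K (Matrix ι δ K)} {F : Matrix ι δ K}
  {n : Type*} [Fintype n] [DecidableEq n]

/-- a filtered endomorphism of `M` extends to a filtered matrix -/
theorem FM_hat {M : Submodule K (ι → K)} {E Φ : Matrix ι ι K} (hE : E * E = E)
    (hM : ∀ v, v ∈ M ↔ ∃ w, v = E *ᵥ w) (hcom : E * Φ = Φ * E) {ΦM : Module.End K M}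
    (hΦM : ∀ v, ((ΦM v : M) : ι → K) = E *ᵥ (Φ *ᵥ (v : ι → K))) {A : Module.End K M}
    (hA : ∀ j : ℕ, ∀ x ∈ LinearMap.range (ΦM ^ j), A x ∈ LinearMap.range (ΦM ^ j)) :
    FM Φ (TG.hat E hM A) := by
  intro v
  obtain ⟨g, hg⟩ := Module.projective_lifting_property
    ((ΦM ^ v).rangeRestrict) ((A ∘ₗ (ΦM ^ v)).codRestrict (range (ΦM ^ v))
      fun u => hA v _ ⟨u, rfl⟩) (LinearMap.surjective_rangeRestrict _)
  have hg2 : ∀ m, A ((ΦM ^ v) m) = (ΦM ^ v) (g m) := by
    intro m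
    exact (congrArg Subtype.val (LinearMap.congr_fun hg m)).symm
  have hpow : ∀ (j : ℕ) (m : M), (((ΦM ^ j) m : M) : ι → K) = Φ ^ j *ᵥ (m : ι → K) := by
    intro j
    induction j with
    | zero => intro m; simp
    | succ j ih =>
      intro m
      rw [pow_succ, Module.End.mul_apply, ih, hΦM, mulVec_mulVec _ E, hcom,
        ← mulVec_mulVec, TG.fix_of_mem hE hM, mulVec_mulVec, ← pow_succ]
  refine ⟨TG.hat E hM g, ?_⟩
  refine ext_mulVec fun u => ?_
  rw [← mulVec_mulVec, ← mulVec_mulVec, TG.hat_mulVec, TG.hat_mulVec]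
  have h1 : TG.prM E hM (Φ ^ v *ᵥ u) = (ΦM ^ v) (TG.prM E hM u) := by
    apply Subtype.ext
    rw [hpow, TG.prM_coe, TG.prM_coe, mulVec_mulVec, mulVec_mulVec, pow_com hcom]
  rw [h1, hg2, hpow]

/-- endomorphisms of the core commuting with the `Φ_s` are block diagonal -/
theorem blk_of_tame {M : Submodule K (ι → K)} {e : n → Matrix ι ι K} {lam : n → K}
    (idem : ∀ i, e i * e i = e i) {P : Fin 3 → Matrix ι ι K}
    (com : ∀ i s, e i * P s = P s * e i)
    (hEe : ∀ i, (∑ i, e i) * e i = e i)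
    (ΦM : Fin 3 → Module.End K M)
    (hΦM : ∀ s v, ((ΦM s v : M) : ι → K) = (∑ i, e i) *ᵥ (P s *ᵥ (v : ι → K)))
    {τ : Module.End K M} (hT : Tame ΦM τ)
    (hC : ∀ i, C (e i) = (τ.maxGenEigenspace (lam i)).map M.subtype)
    {i j : n} (hij : lam i ≠ lam j) {y : Matrix ι ι K} (hy : ∀ s, y * P s = P s * y) :
    e j * y * e i = 0 := by
  obtain ⟨-, hhom, -⟩ := hT
  -- the map
  let x : τ.maxGenEigenspace (lam i) →ₗ[K] τ.maxGenEigenspace (lam j) :=
    (blk (hC j)).symm.toLinearMap ∘ₗ dn (e i) (e j) y ∘ₗ (blk (hC i)).toLinearMap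
  have hxv : ∀ v, (((x v : τ.maxGenEigenspace (lam j)) : M) : ι → K) =
      e j *ᵥ (y *ᵥ (((v : τ.maxGenEigenspace (lam i)) : M) : ι → K)) := by
    intro v
    have h1 : blk (hC j) (x v) = dn (e i) (e j) y (blk (hC i) v) :=
      LinearEquiv.apply_symm_apply _ _
    have h2 := congrArg (Subtype.val) h1
    rw [blk_coe] at h2
    rw [h2]
    unfold dn
    rw [LinearMap.comp_apply, LinearMap.comp_apply, pr_coe, Submodule.subtype_apply,
      toLin'_apply, blk_coe]
  have hx : x = 0 := by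
    apply hhom (lam i) (lam j) hij
    intro s v w hw
    apply Subtype.ext
    have hPj : ∀ m : τ.maxGenEigenspace (lam j),
        ((ΦM s (m : M) : M) : ι → K) = P s *ᵥ ((m : M) : ι → K) := by
      intro m
      have := PhiM_pow (idem j) (com j s) (hEe j) (hΦM s) (hC j) 1 (m : M) m.2
      rwa [pow_one, pow_one] at this
    have hPi : ∀ m : τ.maxGenEigenspace (lam i),
        ((ΦM s (m : M) : M) : ι → K) = P s *ᵥ ((m : M) : ι → K) := by
      intro m
      have := PhiM_pow (idem i) (com i s) (hEe i) (hΦM s) (hC i) 1 (m : M) m.2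
      rwa [pow_one, pow_one] at this
    rw [hxv, hw, hPi, hPj, hxv]
    simp only [mulVec_mulVec]
    rw [hy, ← Matrix.mul_assoc, com j s]
    simp only [Matrix.mul_assoc]
  refine ext_mulVec fun u => ?_
  rw [zero_mulVec, ← mulVec_mulVec, ← mulVec_mulVec]
  have h3 := hxv ((blk (hC i)).symm (pr (e i) u))
  rw [hx] at h3
  have h4 : (((((blk (hC i)).symm (pr (e i) u)) : τ.maxGenEigenspace (lam i)) : M) : ι → K) =
      e i *ᵥ u := by
    rw [← blk_coe (hC i), LinearEquiv.apply_symm_apply, pr_coe]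
  rw [h4] at h3
  rw [← h3]
  rfl

/-- **GLUE, general `D`, correction space `ZZ`.** -/
theorem tame_falseZ [CharZero K] (hD : Data k arm J B N W) (hF : F ∈ N ⊓ W)
    {e : n → Matrix ι ι K} {lam : n → K} (hlam : Function.Injective lam)
    (idem : ∀ i, e i * e i = e i) (orth : ∀ i j, i ≠ j → e i * e j = 0)
    (sa : ∀ i, (e i)ᵀ * J = J * e i)
    (com : ∀ i s, e i * Phi arm J B F s = Phi arm J B F s * e i)
    {D : Matrix ι ι K} (ED : (∑ i, e i) * D = D) (DE : D * (∑ i, e i) = D)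
    (saD : Dᵀ * J = J * D)
    (comD : ∀ s, D * Phi arm J B F s = Phi arm J B F s * D) (eD : ∀ i, e i * D = D * e i)
    {R : Matrix δ ι K} (hR : F * R = ∑ i, e i)
    {M : Submodule K (ι → K)} (hM : ∀ v, v ∈ M ↔ ∃ w, v = (∑ i, e i) *ᵥ w)
    (ΦM : Fin 3 → Module.End K M)
    (hΦM : ∀ s v, ((ΦM s v : M) : ι → K) = (∑ i, e i) *ᵥ (Phi arm J B F s *ᵥ (v : ι → K)))
    {τ : Module.End K M} (hDΦ : ∀ s v, τ (ΦM s v) = ΦM s (τ v))
    (hDs : ⨆ ν, τ.maxGenEigenspace ν = ⊤) (hT : Tame ΦM τ)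
    (hτ : ∀ v : M, ((τ v : M) : ι → K) = D *ᵥ (v : ι → K))
    (hC : ∀ i, C (e i) = (τ.maxGenEigenspace (lam i)).map M.subtype)
    (hcov : ∀ ν, τ.maxGenEigenspace ν ≠ ⊥ → ∃ i, lam i = ν)
    (hnb : ∀ i, τ.maxGenEigenspace (lam i) ≠ ⊥)
    {T : Set k} (hTi : T.Infinite)
    (inv : ∀ t ∈ T, ∃ ci : Matrix ι ι K, (∑ i, e i) * ci = ci ∧ ci * (∑ i, e i) = ci ∧
      ci * ((∑ i, e i) + algebraMap k K t • D) = ∑ i, e i ∧
      ((∑ i, e i) + algebraMap k K t • D) * ci = ∑ i, e i)
    (ZZ : Submodule K (Matrix ι ι K)) (hZe : ∀ z ∈ ZZ, ∀ l, e l * z = z * e l)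
    (hZE : ∀ z ∈ ZZ, (∑ i, e i) * z = z)
    (Z3 : ∀ X z : Matrix ι ι K, (∑ i, e i) * X = X → X * (∑ i, e i) = X →
      Xᵀ * J + J * X = 0 →
      (∀ s v, ∃ R, X * (Phi arm J B F s) ^ v = (Phi arm J B F s) ^ v * R) →
      (∀ l, e l * X = X * e l) → z ∈ ZZ → (X - z)ᵀ * J = J * (X - z) →
      (∀ r, (X - z) * Phi arm J B F r = Phi arm J B F r * (X - z)) → X = 0)
    {Q : Submodule K (Matrix ι δ K)}
    (hQ : ∀ Y ∈ Q, ∃ z ∈ ZZ, ∃ h ∈ W, (∑ i, e i) * h = 0 ∧ Y - z * F - h ∈ N)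
    (first : ∀ s, ∀ t ∈ T, ∀ c ci : Matrix ι ι K, c = (∑ i, e i) + algebraMap k K t • D →
      (∑ i, e i) * ci = ci → ci * (∑ i, e i) = ci → ci * c = ∑ i, e i → c * ci = ∑ i, e i →
      ∀ i j, i ≠ j → ∀ Y Y' : Matrix ι ι K, e j * Y * e i = Y → Yᵀ * J = J * Y' →
      Y * (c * c * Phi arm J B F s) = c * c * Phi arm J B F s * Y →
      ((ci * Y * c - Y) - (ci * Y' * c - Y')) * F * E K arm s ∈ Q)
    (second : ∀ s, (∀ i j, i ≠ j → ∀ y, e j * y * e i = y → FM (Phi arm J B F s) y →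
        y * F * E K arm s ∈ Q) →
      ∀ t ∈ T, ∀ c ci : Matrix ι ι K, c = (∑ i, e i) + algebraMap k K t • D →
      (∑ i, e i) * ci = ci → ci * (∑ i, e i) = ci → ci * c = ∑ i, e i → c * ci = ∑ i, e i →
      ∀ i j, i ≠ j → ∀ Y Y' y : Matrix ι ι K, e j * Y * e i = Y → Yᵀ * J = J * Y' →
      Y * (c * c * Phi arm J B F s) = c * c * Phi arm J B F s * Y → e j * y * e i = y →
      FM (Phi arm J B F s) y →
      (Y' * y - y * (ci * Y' * c)) * F * E K arm s ∈ Q) : False := by
  have hE2 : (∑ i, e i) * (∑ i, e i) = ∑ i, e i := by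
    rw [Matrix.sum_mul]
    refine Finset.sum_congr rfl fun i _ => ?_
    rw [Matrix.mul_sum, Finset.sum_eq_single i]
    · exact idem i
    · intro j _ hj; exact orth i j (Ne.symm hj)
    · intro h; exact absurd (Finset.mem_univ i) h
  have hEe : ∀ i, (∑ i, e i) * e i = e i := by
    intro i
    rw [Matrix.sum_mul, Finset.sum_eq_single i]
    · exact idem i
    · intro j _ hj; exact orth j i hj
    · intro h; exact absurd (Finset.mem_univ i) h
  have hEsa : (∑ i, e i)ᵀ * J = J * ∑ i, e i := by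
    rw [transpose_sum, Matrix.sum_mul, Matrix.mul_sum]
    exact Finset.sum_congr rfl fun i _ => sa i
  have hEcom : ∀ s, (∑ i, e i) * Phi arm J B F s = Phi arm J B F s * ∑ i, e i := by
    intro s
    rw [Matrix.sum_mul, Matrix.mul_sum]
    exact Finset.sum_congr rfl fun i _ => com i s
  have hΦsa : ∀ s, (Phi arm J B F s)ᵀ * J = J * Phi arm J B F s := by
    intro s
    unfold Phi
    rw [transpose_mul, hD.J_symm, Slack.M_transpose hD F F s, Matrix.mul_assoc]
  obtain ⟨⟨ν, μ, hνμ, hν, hμ⟩, -, l, -, hl, -⟩ := id hT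
  have hpos : ∀ i, 0 < finrank K (C (e i)) := by
    intro i
    rw [← (blk (hC i)).finrank_eq]
    have h1 := hnb i
    by_contra h2
    exact h1 (Submodule.finrank_eq_zero.1 (by omega))
  have hne : ∀ i, ∃ j, j ≠ i ∧ 0 < finrank K (C (e j)) := by
    intro i
    obtain ⟨a, haν⟩ := hcov ν hν
    obtain ⟨b, hbμ⟩ := hcov μ hμ
    by_cases hi : a = i
    · refine ⟨b, ?_, hpos b⟩
      rintro rfl
      rw [hi] at haν
      exact hνμ (haν.symm.trans hbμ)
    · exact ⟨a, hi, hpos a⟩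
  -- the skew endomorphism
  have hNS := TG.frm_NS hD.J_symm hD.J_unit hE2 hEsa hM
  obtain ⟨X0, hX0, hXs, hXr⟩ :=
    TC.exists_skew_of_tame' hNS ΦM (TG.core_sa hD hE2 hEsa hM hΦM) hDΦ hDs hT
  have hEX := TG.P_mul_hat hE2 hM X0
  have hXE := TG.hat_mul_P hE2 hM X0
  have hXskew := TG.hat_skew hE2 hEsa hM hXs
  have hXf : ∀ s, FM (Phi arm J B F s) (TG.hat (∑ i, e i) hM X0) := fun s =>
    FM_hat hE2 hM (hEcom s) (hΦM s) (hXr s)
  refine hX0 (TG.hat_eq_zero hE2 hM ?_)
  generalize TG.hat (∑ i, e i) hM X0 = X at *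
  -- `X F E_s ∈ Q`
  have hXQ : ∀ s, X * F * E K arm s ∈ Q := by
    intro s
    rw [← mem_pull (arm := arm) (F := F) (Q := Q)]
    exact arm_mem_gen hD.J_unit hD.J_symm (hΦsa s) hlam idem orth sa (fun i => com i s) ED DE saD
      (comD s) eD (fun i => ph_nil (idem i) (eD i) hτ (hC i))
      (fun i => ph_zero (idem i) (com i s) (hEe i) (hΦM s) (hC i)
        (((hl s (lam i) (hnb i)).1 (l s)).2 le_rfl))
      (fun i => ph_free (idem i) (com i s) (hEe i) (hΦM s) (hC i) (hl s (lam i) (hnb i)).2)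
      hne hTi (pull arm F Q s) inv (first s) (second s) (by rw [hEX, hXE]) (hXf s)
  obtain ⟨z, hz, h, hhW, hEh, hN⟩ := hQ _ (TG.sum_arm hXQ)
  have hEz := hZE z hz
  have hzE : z * (∑ i, e i) = z := by
    rw [Matrix.mul_sum]
    conv_rhs => rw [← hEz, Matrix.sum_mul]
    exact Finset.sum_congr rfl fun l _ => (hZe z hz l).symm
  -- `κ = (X - z) F - h ∈ N ⊓ W`
  have hκ : (X - z) * F - h ∈ N ⊓ W := by
    constructor
    · rw [Matrix.sub_mul]; exact hN
    · exact W.sub_mem (hD.W_left F hF.2 _) hhW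
  have hyE : (X - z) * (∑ i, e i) = X - z := by rw [Matrix.sub_mul, hXE, hzE]
  have hEy : (∑ i, e i) * (X - z) = X - z := by rw [Matrix.mul_sub, hEX, hEz]
  have hysa : (X - z)ᵀ * J = J * (X - z) := by
    have h5 := TG.glueQ hD hF hR (A := X - z) hhW hκ.1
      (by rw [hEsa, Matrix.mul_assoc, hEh, Matrix.mul_zero])
    have h6 : (∑ i, e i)ᵀ * J * (X - z) * (∑ i, e i) = J * (X - z) := by
      rw [hEsa, Matrix.mul_assoc, Matrix.mul_assoc, hyE, hEy]
    rw [h6, transpose_mul, hD.J_symm] at h5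
    exact h5
  have hyΦ : ∀ r, (X - z) * Phi arm J B F r = Phi arm J B F r * (X - z) := by
    intro r
    have h1 := hD.symm_arm hκ hF r
    have hEκ : (∑ i, e i) * ((X - z) * F - h) = (X - z) * F := by
      rw [Matrix.mul_sub, hEh, sub_zero, ← Matrix.mul_assoc, hEy]
    have h2 := congrArg (fun A : Matrix ι ι K => (∑ i, e i) * A * J * (∑ i, e i)) h1
    have e1 : (∑ i, e i) * FO.M arm B r ((X - z) * F - h) F * J * (∑ i, e i) =
        (X - z) * Phi arm J B F r := by
      have : (∑ i, e i) * FO.M arm B r ((X - z) * F - h) F = (X - z) * FO.M arm B r F F := by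
        unfold FO.M
        calc (∑ i, e i) * (((X - z) * F - h) * E K arm r * B * Fᵀ)
            = ((∑ i, e i) * ((X - z) * F - h)) * E K arm r * B * Fᵀ := by
              simp only [Matrix.mul_assoc]
          _ = _ := by rw [hEκ]; simp only [Matrix.mul_assoc]
      rw [this, Matrix.mul_assoc (X - z)]
      change (X - z) * Phi arm J B F r * _ = _
      rw [Matrix.mul_assoc, ← hEcom, ← Matrix.mul_assoc, hyE]
    have e2 : (∑ i, e i) * FO.M arm B r F ((X - z) * F - h) * J * (∑ i, e i) =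
        Phi arm J B F r * (X - z) := by
      have h3 : ((X - z) * F - h)ᵀ * J * (∑ i, e i) = Fᵀ * J * (X - z) := by
        rw [sa_mul hEsa, hEκ, transpose_mul, Matrix.mul_assoc, hysa, Matrix.mul_assoc]
      have h4 : (∑ i, e i) * FO.M arm B r F ((X - z) * F - h) * J * (∑ i, e i) =
          (∑ i, e i) * (F * E K arm r * B * (((X - z) * F - h)ᵀ * J * (∑ i, e i))) := by
        unfold FO.M; simp only [Matrix.mul_assoc]
      rw [h4, h3]
      have h5 : (∑ i, e i) * (F * E K arm r * B * (Fᵀ * J * (X - z))) =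
          (∑ i, e i) * Phi arm J B F r * (X - z) := by
        unfold Phi FO.M; simp only [Matrix.mul_assoc]
      rw [h5, hEcom, Matrix.mul_assoc, hEy]
    rw [e1, e2] at h2
    exact h2
  have hyb : ∀ l, e l * (X - z) = (X - z) * e l := by
    intro l
    have h1 : ∀ i j, i ≠ j → e j * (X - z) * e i = 0 := fun i j hij =>
      blk_of_tame idem com hEe ΦM hΦM hT hC (hlam.ne hij) hyΦ
    have h2 : e l * (X - z) = e l * (X - z) * e l := by
      conv_lhs => rw [← hyE, ← Matrix.mul_assoc, Matrix.mul_sum]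
      rw [Finset.sum_eq_single l]
      · intro j _ hj; exact h1 j l hj
      · intro h; exact absurd (Finset.mem_univ l) h
    have h3 : (X - z) * e l = e l * (X - z) * e l := by
      conv_lhs => rw [← hEy, Matrix.sum_mul, Matrix.sum_mul]
      rw [Finset.sum_eq_single l]
      · intro j _ hj; exact h1 l j (Ne.symm hj)
      · intro h; exact absurd (Finset.mem_univ l) h
    rw [h2, h3]
  refine Z3 X z hEX hXE hXskew (fun s v => hXf s v) (fun l => ?_) hz hysa hyΦ
  have h1 := hyb l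
  rw [Matrix.mul_sub, Matrix.sub_mul, hZe z hz l] at h1
  exact sub_left_injective h1

end glue

end Crest.Agent.R172.QQ2
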