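import Crest.Agent.R172.N5g
import Crest.Agent.R172.QQ1Z
import Crest.Agent.R172.QQ2Z

/-!
Row 172, TAME (T0), node N5, part 8 (radical zero): general `τ`; glue of `QQ1Z` and `QQ2Z`.
-/

set_option autoImplicit false
set_option linter.unusedSectionVars false
set_option maxHeartbeats 400000

namespace Crest.Agent.R172.N5

open Module Matrix Crest.AlgebraR.SpinSaturation Crest.Agent.R172.SoGrade Crest.Agent.R172.CF
open Crest.Agent.R172.Gen (Jm Ix emb Ent ent)
open Crest.Agent.R172.ThX Crest.Agent.R172.CSys Crest.Agent.R172.TG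
open Crest.Agent.R172.Core (NS cp BM Tame)
open Crest.Agent.R172.QN (Co Psi)
open Crest.Agent.R172.QQ1Z (CxZ ZOK)

section abs

open Crest.Agent.R172.FO

variable {ι : Type*} [Fintype ι] [DecidableEq ι] {δ : Type*} [Fintype δ] [DecidableEq δ]
variable {k K : Type*} [Field k] [Field K] [Algebra k K]
variable {arm : δ → Fin 3} {J : Matrix ι ι K} {B : Matrix δ δ K}
  {N W : Submodule K (Matrix ι δ K)} {F G : Matrix ι δ K}
  {n : Type*} [Fintype n] [DecidableEq n]

/-- `CxZ`, `ZOK`, `Z3` and `Tame` contradict each other. -/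
theorem cxz_false [CharZero K] {T : Set k} (hTi : T.Infinite)
    {e : n → Matrix ι ι K} {lam : n → K} (hlam : Function.Injective lam)
    {D : Matrix ι ι K} {ci : k → Matrix ι ι K} (hX : CxZ k T arm J B N W F G e D ci)
    {R : Matrix δ ι K} (hR : F * R = ∑ i, e i)
    {M : Submodule K (ι → K)} (hM : ∀ v, v ∈ M ↔ ∃ w, v = (∑ i, e i) *ᵥ w)
    (ΦM : Fin 3 → Module.End K M)
    (hΦM : ∀ s v, ((ΦM s v : M) : ι → K) = (∑ i, e i) *ᵥ (Phi arm J B F s *ᵥ (v : ι → K)))
    {τ : Module.End K M} (hDΦ : ∀ s v, τ (ΦM s v) = ΦM s (τ v))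
    (hDs : ⨆ ν, τ.maxGenEigenspace ν = ⊤) (hT : Tame ΦM τ)
    (hτ : ∀ v : M, ((τ v : M) : ι → K) = D *ᵥ (v : ι → K))
    (hC : ∀ i, QQ2.C (e i) = (τ.maxGenEigenspace (lam i)).map M.subtype)
    (hcov : ∀ ν, τ.maxGenEigenspace ν ≠ ⊥ → ∃ i, lam i = ν)
    (hnb : ∀ i, τ.maxGenEigenspace (lam i) ≠ ⊥)
    (ZZ : Submodule K (Matrix ι ι K)) (hZ : ZOK k T arm J B F e D ci ZZ)
    (Z3 : ∀ X z : Matrix ι ι K, (∑ i, e i) * X = X → X * (∑ i, e i) = X →
      Xᵀ * J + J * X = 0 →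
      (∀ s v, ∃ R, X * (Phi arm J B F s) ^ v = (Phi arm J B F s) ^ v * R) →
      (∀ l, e l * X = X * e l) → z ∈ ZZ → (X - z)ᵀ * J = J * (X - z) →
      (∀ r, (X - z) * Phi arm J B F r = Phi arm J B F r * (X - z)) → X = 0) : False := by
  have huniq : ∀ t ∈ T, ∀ ci' : Matrix ι ι K, (∑ i, e i) * ci' = ci' →
      ci' * (∑ i, e i) = ci' → ci' * QQ1Z.cc e D t = ∑ i, e i → ci' = ci t := by
    intro t ht ci' h1 h2 h3
    calc ci' = ci' * (QQ1Z.cc e D t * ci t) := by rw [hX.cci t ht, h2]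
      _ = (∑ i, e i) * ci t := by rw [← Matrix.mul_assoc, h3]
      _ = ci t := hX.eci t ht
  refine QQ2.tame_falseZ hX.data hX.memH hlam hX.idem hX.orth hX.sa hX.com hX.eeD hX.Dee hX.Dsa
    hX.Dcom hX.eD hR hM ΦM hΦM hDΦ hDs hT hτ hC hcov hnb hTi
    (fun t ht => ⟨ci t, hX.eci t ht, hX.cie t ht, hX.ici t ht, hX.cci t ht⟩)
    ZZ hZ.blk hZ.ez Z3 (Q := QQ1Z.QZ arm B N W F (∑ i, e i) ZZ) ?_ ?_ ?_
  · rintro Y ⟨z, hz, h, ⟨h1, h2, h3⟩, h4⟩
    exact ⟨z, hz, h, h1, h2, h4⟩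
  · intro s t ht c ci' hc h1 h2 h3 h4 i j hij Y Y' hY hY' hcom
    have hc' : c = QQ1Z.cc e D t := hc
    subst hc'
    have hci := huniq t ht ci' h1 h2 h3
    subst hci
    have hD := hX.data
    obtain ⟨Ji, hJi, hJi', hJit⟩ := symm_inv hD.J_symm hD.J_unit
    have hJc : ∀ {A C : Matrix ι ι K}, J * A = J * C → A = C := by
      intro A C hAC
      have := congrArg (fun Z => Ji * Z) hAC
      simpa only [← Matrix.mul_assoc, hJi', Matrix.one_mul] using this
    have hYT : Y'ᵀ * J = J * Y := by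
      have h5 := congrArg transpose hY'
      rw [transpose_mul, transpose_mul, transpose_transpose, hD.J_symm] at h5
      exact h5.symm
    have hEY : (∑ i, e i) * Y = Y := by
      rw [← hY, ← Matrix.mul_assoc, ← Matrix.mul_assoc, hX.ee_e]
    have hYE : Y * (∑ i, e i) = Y := by
      rw [← hY, Matrix.mul_assoc, hX.e_ee]
    have hEY' : (∑ i, e i) * Y' = Y' := by
      apply hJc
      rw [← Matrix.mul_assoc, ← hX.ee_sa, Matrix.mul_assoc, ← hY', ← Matrix.mul_assoc,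
        ← transpose_mul, hYE]
    have hYE' : Y' * (∑ i, e i) = Y' := by
      apply hJc
      rw [← Matrix.mul_assoc, ← hY', Matrix.mul_assoc, ← hX.ee_sa, ← Matrix.mul_assoc,
        ← transpose_mul, hEY]
    have hskew : (Y - Y')ᵀ * J + J * (Y - Y') = 0 := by
      rw [transpose_sub, Matrix.sub_mul, Matrix.mul_sub, hY', hYT]; abel
    have hPsa : (QQ1Z.cc e D t * QQ1Z.cc e D t * Phi arm J B F s)ᵀ * J =
        J * (QQ1Z.cc e D t * QQ1Z.cc e D t * Phi arm J B F s) := by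
      have hΦsa : (Phi arm J B F s)ᵀ * J = J * Phi arm J B F s := by
        unfold Phi
        rw [transpose_mul, hD.J_symm, Slack.M_transpose hD F F s, Matrix.mul_assoc]
      have hcs := hX.cc_sa t
      have hcc := hX.cc_com t s
      generalize QQ1Z.cc e D t = c at *
      calc (c * c * Phi arm J B F s)ᵀ * J = (Phi arm J B F s)ᵀ * (cᵀ * (cᵀ * J)) := by
            rw [transpose_mul, transpose_mul]; simp only [Matrix.mul_assoc]
        _ = (Phi arm J B F s)ᵀ * J * (c * c) := by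
            rw [hcs, ← Matrix.mul_assoc cᵀ, hcs]; simp only [Matrix.mul_assoc]
        _ = J * (Phi arm J B F s * c * c) := by
            rw [hΦsa]; simp only [Matrix.mul_assoc]
        _ = _ := by
            rw [← hcc, Matrix.mul_assoc c, ← hcc, Matrix.mul_assoc]
    have hcomY' : Y' * (QQ1Z.cc e D t * QQ1Z.cc e D t * Phi arm J B F s) =
        QQ1Z.cc e D t * QQ1Z.cc e D t * Phi arm J B F s * Y' := by
      generalize QQ1Z.cc e D t * QQ1Z.cc e D t * Phi arm J B F s = P at *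
      apply hJc
      calc J * (Y' * P) = Yᵀ * J * P := by rw [← Matrix.mul_assoc, ← hY']
        _ = (P * Y)ᵀ * J := by rw [transpose_mul, Matrix.mul_assoc, ← hPsa, Matrix.mul_assoc]
        _ = (Y * P)ᵀ * J := by rw [hcom]
        _ = Pᵀ * J * Y' := by rw [transpose_mul, Matrix.mul_assoc, hY', Matrix.mul_assoc]
        _ = J * (P * Y') := by rw [hPsa, Matrix.mul_assoc]
    have h6 := hX.first hZ ht s hskew (by rw [Matrix.mul_sub, hEY, hEY'])
      (by rw [Matrix.sub_mul, hYE, hYE']) (by rw [Matrix.sub_mul, Matrix.mul_sub, hcom, hcomY'])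
    rw [QQ1Z.mem_QZS] at h6
    have e1 : (ci t * Y * QQ1Z.cc e D t - Y) - (ci t * Y' * QQ1Z.cc e D t - Y') =
        ci t * (Y - Y') * QQ1Z.cc e D t - (Y - Y') := by
      rw [Matrix.mul_sub, Matrix.sub_mul]; abel
    rw [e1]
    exact h6
  · intro s hfil t ht c ci' hc h1 h2 h3 h4 i j hij Y Y' y hY hY' hcom hy hyf
    have hc' : c = QQ1Z.cc e D t := hc
    subst hc'
    have hci := huniq t ht ci' h1 h2 h3
    subst hci
    have h6 := hX.second hZ ht s hij hY hY' hcom (fun i' j' h' y' hy' hyf' =>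
      hfil i' j' h' y' hy' hyf') hy hyf
    rw [QQ1Z.mem_QZS] at h6
    have e1 : y * (ci t * Y' * QQ1Z.cc e D t) = y * ci t * Y' * QQ1Z.cc e D t := by
      simp only [Matrix.mul_assoc]
    rw [e1]
    exact h6

end abs

variable {n : ℕ} {a : Fin 3 → Fin n → ℤ} {c : Cfg n a} {K : Type} [Field K] [Algebra ℂ K]
variable {N W : Submodule K (Matrix (Ix n) c.δ K)} {F G : Matrix (Ix n) c.δ K}
variable {C : St.Core (BV n K) (Ph F)} {τ : Module.End K C.M}
variable {Q : Fin 3 → Matrix (Ix n) (Ix n) K} {m : ℕ}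
variable {m' : ℕ} {lam : Fin m' → K}
    {π : Fin m' → Module.End K C.M} {e : Fin m' → Matrix (Ix n) (Ix n) K}

variable (h : Co ℂ c.arm (Jm n K) (c.B K) N W F (eM C) Q m)
  (hG : FO.GenOver ℂ c.arm N W F G)
  (hR : Rad0 (BV n K) (Ph F)) (hT : TameAt F G C τ)
  (hnil : ∀ H ∈ N ⊓ W, ∃ k, ∀ s, Ph H s ^ k = 0)

include h hG hR hT hnil in
theorem cxz_of [IsAlgClosed K] [CharZero K] (hb : Blk F C τ m' lam π e) :
    ∃ ci : ℂ → Matrix (Ix n) (Ix n) K,
      CxZ ℂ (TS lam) c.arm (Jm n K) (c.B K) N W F G e (ht C τ) ci := by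
  obtain ⟨ci, hci⟩ := exists_ci hb
  refine ⟨ci, ?_⟩
  exact {
    data := h.data
    memH := h.gen.mem
    memG := hG.memG
    gen := fun t _ => hG.generic_add t
    sa := hb.sa
    idem := hb.idem
    orth := hb.orth
    eG := blk_eG h hG hR hT hb
    eD := hb.tau
    eeD := blk_eeD hb
    Dsa := ht_sa hT.sa
    Dcom := fun r => ht_Phi h.data h.gen.mem hR hT.comm r
    cci := fun t ht => (hci t ht).1
    ici := fun t ht => (hci t ht).2.1
    eci := fun t ht => (hci t ht).2.2.1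
    cie := fun t ht => (hci t ht).2.2.2
    com := hb.com
    perf := perf' h hb
    hom := fun t ht z hz => hom_const h hG hR hT hnil hb t ht.2 hz }

end Crest.Agent.R172.N5
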