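import Crest.Agent.R172.N5h

/-!
Row 172, TAME (T0), node N5, part 9 (radical zero): `e_l D - lam_l e_l` is nilpotent.
-/

set_option autoImplicit false
set_option linter.unusedSectionVars false
set_option maxHeartbeats 400000

namespace Crest.Agent.R172.N5

open Module Matrix Crest.AlgebraR.SpinSaturation Crest.Agent.R172.SoGrade Crest.Agent.R172.CF
open Crest.Agent.R172.Gen (Jm Ix emb Ent ent)
open Crest.Agent.R172.ThX Crest.Agent.R172.CSys Crest.Agent.R172.TG
open Crest.Agent.R172.Core (NS cp BM Tame)
open Crest.Agent.R172.QN (Co Psi)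
open Crest.Agent.R172.QQ1Z (CxZ ZOK)

variable {n : ℕ} {a : Fin 3 → Fin n → ℤ} {c : Cfg n a} {K : Type} [Field K] [Algebra ℂ K]
variable {N W : Submodule K (Matrix (Ix n) c.δ K)} {F G : Matrix (Ix n) c.δ K}
variable {C : St.Core (BV n K) (Ph F)} {τ : Module.End K C.M}
variable {Q : Fin 3 → Matrix (Ix n) (Ix n) K} {m : ℕ}
variable {m' : ℕ} {lam : Fin m' → K}
    {π : Fin m' → Module.End K C.M} {e : Fin m' → Matrix (Ix n) (Ix n) K}

theorem ht_pow (A : Module.End K C.M) (k : ℕ) : ht C A ^ (k + 1) = ht C (A ^ (k + 1)) := by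
  induction k with
  | zero => rw [zero_add, pow_one, pow_one]
  | succ k ih => rw [pow_succ, ih, ht_mul, ← pow_succ]

/-- `e_l D - lam_l e_l` is nilpotent -/
theorem nil_mat (hb : Blk F C τ m' lam π e) (l : Fin m') :
    IsNilpotent (e l * ht C τ - lam l • e l) := by
  have h1 : e l * ht C τ - lam l • e l = ht C (π l * (τ - lam l • 1)) := by
    have h0 : π l * (τ - lam l • 1) = π l * τ - lam l • π l := by
      refine LinearMap.ext fun v => ?_
      rw [Module.End.mul_apply, LinearMap.sub_apply, map_sub, LinearMap.smul_apply, map_smul,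
        LinearMap.sub_apply, Module.End.mul_apply, LinearMap.smul_apply, Module.End.one_apply]
    rw [h0, hb.e_eq, ht_mul]
    exact ((map_sub (hat (eM C) (mem_M C)) _ _).trans
      (congrArg₂ _ rfl (map_smul (hat (eM C) (mem_M C)) _ _))).symm
  have hc : Commute (π l) (τ - lam l • 1) := by
    refine LinearMap.ext fun v => ?_
    change π l (τ v - lam l • v) = τ (π l v) - lam l • π l v
    rw [map_sub, map_smul, hb.pcom τ (fun v => rfl) l v]
  have h2 : (π l * (τ - lam l • 1)) ^ (finrank K C.M + 1) = 0 := by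
    rw [hc.mul_pow]
    have hcp : Commute (π l ^ (finrank K C.M + 1)) ((τ - lam l • 1) ^ (finrank K C.M + 1)) :=
      (hc.pow_left _).pow_right _
    rw [hcp.eq]
    refine LinearMap.ext fun v => ?_
    rw [Module.End.mul_apply, pow_succ (π l), pow_succ' (τ - lam l • (1 : Module.End K C.M)),
      Module.End.mul_apply, Module.End.mul_apply]
    have h3 : (π l ^ finrank K C.M) (π l v) = π l v := by
      have h4 : ∀ k, (π l ^ k) (π l v) = π l v := by
        intro k
        induction k with
        | zero => rw [pow_zero, Module.End.one_apply]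
        | succ k ih => rw [pow_succ, Module.End.mul_apply, hb.fix l _ (hb.mem l v), ih]
      exact h4 _
    rw [h3]
    have h5 := hb.mem l v
    rw [Module.End.maxGenEigenspace_eq_genEigenspace_finrank,
      Module.End.mem_genEigenspace_nat, LinearMap.mem_ker] at h5
    rw [h5, map_zero]
    rfl
  refine ⟨finrank K C.M + 1, ?_⟩
  rw [h1, ht_pow, h2]
  exact map_zero _

end Crest.Agent.R172.N5
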