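import Crest.Agent.R172.ZP1

/-!
Row 172, T0, node (o2): matrix form of the space of twisted self-adjoint corrections
(fields of `ZOK`, note 15982, and the END `Z3`).
-/

set_option autoImplicit false
set_option linter.unusedSectionVars false

namespace Crest.Agent.R172.ZPM

open Matrix Crest.Agent.R172.ZP

section NilM

variable {E : Type*} [Ring E]

/-- left multiplication -/
def lE (m : E) : AddMonoid.End E := AddMonoidHom.mulLeft m

/-- minus right multiplication -/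
def rE (m : E) : AddMonoid.End E := -AddMonoidHom.mulRight m

theorem nil_ad_of_nilpotent {m : E} (hm : IsNilpotent m) (y : E) : NilAt (adE m) y := by
  obtain ⟨j, hj⟩ := hm
  have h1 : ∀ i : ℕ, ((lE m) ^ i) y = m ^ i * y := by
    intro i
    induction i with
    | zero => simp
    | succ i ih =>
      rw [pow_succ', AddMonoid.End.coe_mul, Function.comp_apply, ih, pow_succ', mul_assoc]
      rfl
  have h2 : ∀ i : ℕ, ((rE m) ^ i) y = (-1) ^ i * (y * m ^ i) := by
    intro i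
    induction i with
    | zero => simp
    | succ i ih =>
      rw [pow_succ', AddMonoid.End.coe_mul, Function.comp_apply, ih]
      change -(((-1) ^ i * (y * m ^ i)) * m) = _
      rw [pow_succ, pow_succ]
      noncomm_ring
  have hc : Commute (lE m) (rE m) := by
    ext x
    change m * -(x * m) = -((m * x) * m)
    noncomm_ring
  have e1 : adE m = lE m + rE m := by
    ext x
    change m * x - x * m = m * x + -(x * m)
    rw [sub_eq_add_neg]
  rw [e1]
  refine NilAt.add_op hc ⟨j, ?_⟩ ⟨j, ?_⟩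
  · rw [h1, hj, zero_mul]
  · rw [h2, hj, mul_zero, mul_zero]

theorem NilAt.sum {A : Type*} [AddCommGroup A] {U : AddMonoid.End A} {α : Type*} (s : Finset α)
    (f : α → A) (h : ∀ i ∈ s, NilAt U (f i)) : NilAt U (∑ i ∈ s, f i) := by
  classical
  induction s using Finset.induction_on with
  | empty => simpa using NilAt.zero U
  | insert a s ha ih =>
    rw [Finset.sum_insert ha]
    exact (h a (Finset.mem_insert_self _ _)).add
      (ih fun i hi => h i (Finset.mem_insert_of_mem hi))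

end NilM

variable {ι : Type*} [Fintype ι] [DecidableEq ι] {n κ : Type*} [Fintype n] [DecidableEq n]
variable {k K : Type*} [Field k] [Field K] [Algebra k K]

/-- the `J`-adjoint -/
noncomputable def TJ (J : Matrix ι ι K) : Matrix ι ι K →ₗ[K] Matrix ι ι K where
  toFun z := J⁻¹ * zᵀ * J
  map_add' a b := by rw [transpose_add, Matrix.mul_add, Matrix.add_mul]
  map_smul' c a := by rw [transpose_smul, Matrix.mul_smul, Matrix.smul_mul, RingHom.id_apply]

theorem TJ_apply (J z : Matrix ι ι K) : TJ J z = J⁻¹ * zᵀ * J := rfl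

theorem TJ_eq_iff {J : Matrix ι ι K} (hJ : IsUnit J) {z w : Matrix ι ι K} :
    TJ J z = w ↔ zᵀ * J = J * w := by
  have hd : IsUnit J.det := (Matrix.isUnit_iff_isUnit_det J).1 hJ
  rw [TJ_apply]
  constructor
  · intro h
    rw [← h, ← Matrix.mul_assoc, ← Matrix.mul_assoc, Matrix.mul_nonsing_inv _ hd, Matrix.one_mul]
  · intro h
    rw [Matrix.mul_assoc, h, ← Matrix.mul_assoc, Matrix.nonsing_inv_mul _ hd, Matrix.one_mul]

theorem TJ_mul {J : Matrix ι ι K} (hJ : IsUnit J) (x y : Matrix ι ι K) :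
    TJ J (x * y) = TJ J y * TJ J x := by
  have hd : IsUnit J.det := (Matrix.isUnit_iff_isUnit_det J).1 hJ
  rw [TJ_apply, TJ_apply, TJ_apply, transpose_mul]
  calc J⁻¹ * (yᵀ * xᵀ) * J = J⁻¹ * yᵀ * (J * J⁻¹) * xᵀ * J := by
        rw [Matrix.mul_nonsing_inv _ hd, Matrix.mul_one]; simp only [Matrix.mul_assoc]
    _ = _ := by simp only [Matrix.mul_assoc]

theorem TJ_TJ {J : Matrix ι ι K} (hJ : IsUnit J) (hs : Jᵀ = J) (x : Matrix ι ι K) :
    TJ J (TJ J x) = x := by
  rw [TJ_eq_iff hJ, TJ_apply, transpose_mul, transpose_mul, transpose_transpose, hs,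
    Matrix.transpose_nonsing_inv, hs, Matrix.mul_assoc, Matrix.mul_assoc]
  have hd : IsUnit J.det := (Matrix.isUnit_iff_isUnit_det J).1 hJ
  rw [Matrix.nonsing_inv_mul _ hd, Matrix.mul_one]

theorem map_inv_zero {J : Matrix ι ι K} (hJ : IsUnit J) (d : Derivation k K K)
    (hd : J.map d = 0) (mm : ∀ (A C : Matrix ι ι K), (A * C).map d = A.map d * C + A * C.map d) :
    (J⁻¹).map d = 0 := by
  have hdet : IsUnit J.det := (Matrix.isUnit_iff_isUnit_det J).1 hJ
  have h1 := mm J⁻¹ J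
  rw [Matrix.nonsing_inv_mul _ hdet, hd, Matrix.mul_zero, add_zero] at h1
  have h2 : (1 : Matrix ι ι K).map d = 0 := by
    ext i j
    rw [Matrix.map_apply, Matrix.zero_apply, Matrix.one_apply]
    split_ifs
    · exact d.map_one_eq_zero
    · exact map_zero d
  rw [h2] at h1
  calc (J⁻¹).map d = (J⁻¹).map d * (J * J⁻¹) := by
        rw [Matrix.mul_nonsing_inv _ hdet, Matrix.mul_one]
    _ = ((J⁻¹).map d * J) * J⁻¹ := by rw [Matrix.mul_assoc]
    _ = 0 := by rw [← h1, Matrix.zero_mul]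

theorem mapd_mul (d : Derivation k K K) {α β γ : Type*} [Fintype β]
    (A : Matrix α β K) (C : Matrix β γ K) : (A * C).map d = A.map d * C + A * C.map d := by
  ext i j
  simp only [Matrix.map_apply, Matrix.mul_apply, Matrix.add_apply, map_sum, Derivation.leibniz,
    Finset.sum_add_distrib, smul_eq_mul]
  rw [add_comm]
  congr 1
  exact Finset.sum_congr rfl fun x _ => mul_comm _ _

theorem mapd_add (d : Derivation k K K) {α β : Type*} (A C : Matrix α β K) :
    (A + C).map d = A.map d + C.map d := by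
  ext i j; simp

/-- block-diagonal matrices -/
def Blk (e : n → Matrix ι ι K) : Submodule K (Matrix ι ι K) where
  carrier := {z | ∀ l, e l * z = z * e l}
  add_mem' := by
    intro a b ha hb l
    rw [Matrix.mul_add, Matrix.add_mul, ha l, hb l]
  zero_mem' := fun l => by rw [Matrix.mul_zero, Matrix.zero_mul]
  smul_mem' := by
    intro c a ha l
    rw [Matrix.mul_smul, Matrix.smul_mul, ha l]

/-- filtered matrices (column form) -/
def Fil (Φ : κ → Matrix ι ι K) : Submodule K (Matrix ι ι K) where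
  carrier := {z | ∀ s, ∀ v : ℕ, ∃ R, z * (Φ s) ^ v = (Φ s) ^ v * R}
  add_mem' := by
    intro a b ha hb s v
    obtain ⟨R, hR⟩ := ha s v
    obtain ⟨R', hR'⟩ := hb s v
    exact ⟨R + R', by rw [Matrix.add_mul, hR, hR', Matrix.mul_add]⟩
  zero_mem' := fun s v => ⟨0, by rw [Matrix.zero_mul, Matrix.mul_zero]⟩
  smul_mem' := by
    intro c a ha s v
    obtain ⟨R, hR⟩ := ha s v
    exact ⟨c • R, by rw [Matrix.smul_mul, hR, Matrix.mul_smul]⟩

/-- the space of corrections -/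
noncomputable def ZZM (J : Matrix ι ι K) (e : n → Matrix ι ι K) (D : Matrix ι ι K)
    (Φ : κ → Matrix ι ι K) : Submodule K (Matrix ι ι K) :=
  ZZ (TJ J) (∑ l, e l) D (fun r => (∑ l, e l) * Φ r) ⊓ Blk e ⊓ Fil Φ

/-- the data -/
structure ZD (J : Matrix ι ι K) (e : n → Matrix ι ι K) (D : Matrix ι ι K)
    (Φ : κ → Matrix ι ι K) (lam : n → K) : Prop where
  J_symm : Jᵀ = J
  J_unit : IsUnit J
  sa : ∀ l, (e l)ᵀ * J = J * e l
  idem : ∀ l, e l * e l = e l
  orth : ∀ i j, i ≠ j → e i * e j = 0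
  eD : ∀ l, e l * D = D * e l
  eeD : (∑ l, e l) * D = D
  Dsa : Dᵀ * J = J * D
  Dcom : ∀ r, D * Φ r = Φ r * D
  com : ∀ l r, e l * Φ r = Φ r * e l
  Φsa : ∀ r, (Φ r)ᵀ * J = J * Φ r
  nil : ∀ l, IsNilpotent (e l * D - lam l • e l)

variable {J : Matrix ι ι K} {e : n → Matrix ι ι K} {D : Matrix ι ι K}
  {Φ : κ → Matrix ι ι K} {lam : n → K}

theorem ZD.ee (h : ZD J e D Φ lam) (l : n) : (∑ i, e i) * e l = e l := by
  rw [Finset.sum_mul, Finset.sum_eq_single l]
  · exact h.idem l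
  · intro j _ hj; exact h.orth j l hj
  · intro hl; exact absurd (Finset.mem_univ _) hl

theorem ZD.ee' (h : ZD J e D Φ lam) (l : n) : e l * (∑ i, e i) = e l := by
  rw [Finset.mul_sum, Finset.sum_eq_single l]
  · exact h.idem l
  · intro j _ hj; exact h.orth l j hj.symm
  · intro hl; exact absurd (Finset.mem_univ _) hl

theorem ZD.EE (h : ZD J e D Φ lam) : (∑ i, e i) * (∑ i, e i) = ∑ i, e i := by
  rw [Finset.mul_sum]
  exact Finset.sum_congr rfl fun l _ => h.ee l

theorem ZD.DE (h : ZD J e D Φ lam) : D * (∑ i, e i) = D := by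
  rw [Finset.mul_sum]
  rw [← Finset.sum_congr rfl fun l _ => h.eD l, ← Finset.sum_mul, h.eeD]

theorem ZD.EΦ (h : ZD J e D Φ lam) (r : κ) : (∑ i, e i) * Φ r = Φ r * ∑ i, e i := by
  rw [Finset.sum_mul, Finset.mul_sum]
  exact Finset.sum_congr rfl fun l _ => h.com l r

theorem ZD.Esa (h : ZD J e D Φ lam) : (∑ i, e i)ᵀ * J = J * ∑ i, e i := by
  rw [transpose_sum, Finset.sum_mul, Finset.mul_sum]
  exact Finset.sum_congr rfl fun l _ => h.sa l

theorem ZD.nilblk (h : ZD J e D Φ lam) {x : Matrix ι ι K} (hx : ∀ l, e l * x = x * e l)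
    (hxe : (∑ i, e i) * x = x) : NilAt (adE D) x := by
  have h0 : x = ∑ l, e l * x := by rw [← Finset.sum_mul, hxe]
  rw [h0]
  refine NilAt.sum _ _ fun l _ => ?_
  obtain ⟨m, hm⟩ := nil_ad_of_nilpotent (h.nil l) (e l * x)
  refine ⟨m, ?_⟩
  suffices H : ∀ (m : ℕ) (y : Matrix ι ι K), e l * y = y → y * e l = y →
      ((adE D) ^ m) y = ((adE (e l * D - lam l • e l)) ^ m) y by
    rw [H m _ (by rw [← Matrix.mul_assoc, h.idem]) (by
      rw [hx, Matrix.mul_assoc, h.idem])]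
    exact hm
  intro m
  induction m with
  | zero => intro y _ _; simp
  | succ m ih =>
    intro y h1 h2
    rw [pow_succ, pow_succ, AddMonoid.End.coe_mul, AddMonoid.End.coe_mul, Function.comp_apply,
      Function.comp_apply]
    have e1 : adE D y = adE (e l * D - lam l • e l) y := by
      rw [adE_apply, adE_apply, Matrix.sub_mul, Matrix.mul_sub, Matrix.smul_mul, Matrix.mul_smul,
        h1, h2]
      have e2 : e l * D * y = D * y := by rw [h.eD, Matrix.mul_assoc, h1]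
      have e3 : y * (e l * D) = y * D := by rw [← Matrix.mul_assoc, h2]
      rw [e2, e3]
      abel
    rw [← e1]
    apply ih
    · rw [adE_apply, Matrix.mul_sub, ← Matrix.mul_assoc, h.eD, Matrix.mul_assoc, h1,
        ← Matrix.mul_assoc, h1]
    · rw [adE_apply, Matrix.sub_mul, Matrix.mul_assoc, h2, Matrix.mul_assoc, ← h.eD,
        ← Matrix.mul_assoc, h2]

theorem ZZM_blk {z : Matrix ι ι K} (hz : z ∈ ZZM J e D Φ) (l : n) : e l * z = z * e l :=
  hz.1.2 l

theorem ZZM_fil {z : Matrix ι ι K} (hz : z ∈ ZZM J e D Φ) (s : κ) (v : ℕ) :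
    ∃ R, z * (Φ s) ^ v = (Φ s) ^ v * R := hz.2 s v

theorem ZZM_ez {z : Matrix ι ι K} (hz : z ∈ ZZM J e D Φ) : (∑ l, e l) * z = z :=
  ZZ.e_mul hz.1.1

theorem ZZM_ze {z : Matrix ι ι K} (hz : z ∈ ZZM J e D Φ) : z * (∑ l, e l) = z :=
  ZZ.mul_e hz.1.1

section gauge

variable {a : K} {ci : Matrix ι ι K}

/-- gauge data in the corner ring -/
structure Gc (e : n → Matrix ι ι K) (D : Matrix ι ι K) (a : K) (ci : Matrix ι ι K) : Prop where
  cci : ((∑ l, e l) + a • D) * ci = ∑ l, e l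
  ici : ci * ((∑ l, e l) + a • D) = ∑ l, e l
  eci : (∑ l, e l) * ci = ci
  cie : ci * (∑ l, e l) = ci

theorem Gc.gau (h : ZD J e D Φ lam) (g : Gc e D a ci) :
    Gau D (1 + a • D) (ci + (1 - ∑ l, e l)) a where
  mul := by
    have h1 : (1 + a • D) * (ci + (1 - ∑ l, e l))
        = (∑ l, e l + a • D) * ci + (1 - ∑ l, e l) * ci + (1 - ∑ l, e l)
          + (a • D) * (1 - ∑ l, e l) := by
      simp only [Matrix.add_mul, Matrix.mul_add, Matrix.sub_mul, Matrix.mul_sub, Matrix.one_mul,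
        Matrix.mul_one]
      abel
    rw [h1, g.cci]
    have h2 : (1 - ∑ l, e l) * ci = 0 := by rw [Matrix.sub_mul, Matrix.one_mul, g.eci, sub_self]
    have h3 : (a • D) * (1 - ∑ l, e l) = 0 := by
      rw [Matrix.smul_mul, Matrix.mul_sub, Matrix.mul_one, h.DE, sub_self, smul_zero]
    rw [h2, h3]; abel
  mul' := by
    have h1 : (ci + (1 - ∑ l, e l)) * (1 + a • D)
        = ci * (∑ l, e l + a • D) + ci * (1 - ∑ l, e l) + (1 - ∑ l, e l)
          + (1 - ∑ l, e l) * (a • D) := by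
      simp only [Matrix.add_mul, Matrix.mul_add, Matrix.sub_mul, Matrix.mul_sub, Matrix.one_mul,
        Matrix.mul_one]
      abel
    rw [h1, g.ici]
    have h2 : ci * (1 - ∑ l, e l) = 0 := by rw [Matrix.mul_sub, Matrix.mul_one, g.cie, sub_self]
    have h3 : (1 - ∑ l, e l) * (a • D) = 0 := by
      rw [Matrix.mul_smul, Matrix.sub_mul, Matrix.one_mul, h.eeD, sub_self, smul_zero]
    rw [h2, h3]; abel
  comm := by
    intro x
    rw [Matrix.add_mul, Matrix.mul_add, Matrix.one_mul, Matrix.mul_one, Matrix.smul_mul,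
      Matrix.mul_smul, smul_sub]
    abel

theorem Gc.ciΦ (h : ZD J e D Φ lam) (g : Gc e D a ci) (r : κ) : ci * Φ r = Φ r * ci := by
  have hcΦ : ((∑ l, e l) + a • D) * Φ r = Φ r * ((∑ l, e l) + a • D) := by
    rw [Matrix.add_mul, Matrix.mul_add, h.EΦ, Matrix.smul_mul, Matrix.mul_smul, h.Dcom]
  calc ci * Φ r = ci * (∑ l, e l) * Φ r := by rw [g.cie]
    _ = ci * (Φ r * ∑ l, e l) := by rw [Matrix.mul_assoc, h.EΦ]
    _ = ci * (Φ r * (((∑ l, e l) + a • D) * ci)) := by rw [g.cci]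
    _ = ci * ((((∑ l, e l) + a • D) * Φ r) * ci) := by rw [hcΦ, Matrix.mul_assoc]
    _ = (ci * ((∑ l, e l) + a • D)) * Φ r * ci := by simp only [Matrix.mul_assoc]
    _ = Φ r * ((∑ l, e l) * ci) := by rw [g.ici, h.EΦ, Matrix.mul_assoc]
    _ = Φ r * ci := by rw [g.eci]

theorem Gc.cie_l (h : ZD J e D Φ lam) (g : Gc e D a ci) (l : n) : ci * e l = e l * ci := by
  have hc : ((∑ l, e l) + a • D) * e l = e l * ((∑ l, e l) + a • D) := by
    rw [Matrix.add_mul, Matrix.mul_add, h.ee, h.ee', Matrix.smul_mul, Matrix.mul_smul, h.eD]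
  calc ci * e l = ci * (e l * ∑ l, e l) := by rw [h.ee']
    _ = ci * (e l * (((∑ l, e l) + a • D) * ci)) := by rw [g.cci]
    _ = ci * ((((∑ l, e l) + a • D) * e l) * ci) := by rw [hc, Matrix.mul_assoc]
    _ = (ci * ((∑ l, e l) + a • D)) * e l * ci := by simp only [Matrix.mul_assoc]
    _ = e l * ci := by rw [g.ici, h.ee]

theorem Gc.Tci (h : ZD J e D Φ lam) (g : Gc e D a ci) : ciᵀ * J = J * ci := by
  -- `T ci` is also an inverse
  have hJ := h.J_unit
  have hTE : TJ J (∑ l, e l) = ∑ l, e l := (TJ_eq_iff hJ).2 h.Esa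
  have hTD : TJ J D = D := (TJ_eq_iff hJ).2 h.Dsa
  have hTc : TJ J ((∑ l, e l) + a • D) = (∑ l, e l) + a • D := by
    rw [map_add, map_smul, hTE, hTD]
  rw [← TJ_eq_iff hJ]
  have h1 : TJ J ci * ((∑ l, e l) + a • D) = ∑ l, e l := by
    have := congrArg (TJ J) g.cci
    rw [TJ_mul hJ, hTc, hTE] at this
    exact this
  have h2 : TJ J ci * (∑ l, e l) = TJ J ci := by
    have := congrArg (TJ J) g.eci
    rw [TJ_mul hJ, hTE] at this
    exact this
  calc TJ J ci = TJ J ci * (∑ l, e l) := h2.symm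
    _ = TJ J ci * (((∑ l, e l) + a • D) * ci) := by rw [g.cci]
    _ = (TJ J ci * ((∑ l, e l) + a • D)) * ci := by rw [Matrix.mul_assoc]
    _ = ci := by rw [h1, g.eci]

theorem cE (h : ZD J e D Φ lam) (a : K) :
    ((∑ l, e l) + a • D) * (∑ l, e l) = (∑ l, e l) + a • D := by
  rw [Matrix.add_mul, h.EE, Matrix.smul_mul, h.DE]

theorem Ec (h : ZD J e D Φ lam) (a : K) :
    (∑ l, e l) * ((∑ l, e l) + a • D) = (∑ l, e l) + a • D := by
  rw [Matrix.mul_add, h.EE, Matrix.mul_smul, h.eeD]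

theorem cΦ (h : ZD J e D Φ lam) (a : K) (r : κ) :
    ((∑ l, e l) + a • D) * Φ r = Φ r * ((∑ l, e l) + a • D) := by
  rw [Matrix.add_mul, Matrix.mul_add, h.EΦ, Matrix.smul_mul, Matrix.mul_smul, h.Dcom]

theorem c1 (h : ZD J e D Φ lam) (a : K) (r : κ) :
    (1 + a • D) * (1 + a • D) * ((∑ l, e l) * Φ r)
      = ((∑ l, e l) + a • D) * ((∑ l, e l) + a • D) * Φ r := by
  have e2 : (1 + a • D) * (∑ l, e l) = (∑ l, e l) + a • D := by
    rw [Matrix.add_mul, Matrix.one_mul, Matrix.smul_mul, h.DE]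
  calc (1 + a • D) * (1 + a • D) * ((∑ l, e l) * Φ r)
      = (1 + a • D) * ((1 + a • D) * (∑ l, e l)) * Φ r := by simp only [Matrix.mul_assoc]
    _ = (1 + a • D) * ((∑ l, e l) * ((∑ l, e l) + a • D)) * Φ r := by rw [e2, Ec h]
    _ = ((1 + a • D) * (∑ l, e l)) * ((∑ l, e l) + a • D) * Φ r := by
        simp only [Matrix.mul_assoc]
    _ = _ := by rw [e2]

theorem c1E (h : ZD J e D Φ lam) (a : K) :
    (1 + a • D) * (∑ l, e l) = (∑ l, e l) * (1 + a • D) := by
  rw [Matrix.add_mul, Matrix.mul_add, Matrix.one_mul, Matrix.mul_one, Matrix.smul_mul,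
    Matrix.mul_smul, h.DE, h.eeD]

theorem c1Φ (h : ZD J e D Φ lam) (a : K) (r : κ) :
    (1 + a • D) * ((∑ l, e l) * Φ r) = ((∑ l, e l) * Φ r) * (1 + a • D) := by
  have e1 : D * ((∑ l, e l) * Φ r) = ((∑ l, e l) * Φ r) * D := by
    rw [← Matrix.mul_assoc, h.DE, Matrix.mul_assoc, ← h.Dcom, ← Matrix.mul_assoc, h.eeD]
  rw [Matrix.add_mul, Matrix.mul_add, Matrix.one_mul, Matrix.mul_one, Matrix.smul_mul,
    Matrix.mul_smul, e1]

theorem psi_pow (h : ZD J e D Φ lam) (a : K) (s : κ) (v : ℕ) :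
    (((∑ l, e l) + a • D) * ((∑ l, e l) + a • D) * Φ s) ^ v
      = ((∑ l, e l) + a • D) ^ (2 * v) * Φ s ^ v := by
  have k1 : Commute (((∑ l, e l) + a • D) * ((∑ l, e l) + a • D)) (Φ s) :=
    (show Commute ((∑ l, e l) + a • D) (Φ s) from cΦ h a s).mul_left (cΦ h a s)
  rw [k1.mul_pow, pow_mul, pow_two]

theorem Gc.kcc (h : ZD J e D Φ lam) (g : Gc e D a ci) (u : ℕ) :
    (∑ l, e l) * (((∑ l, e l) + a • D) ^ u * ci ^ u) = ∑ l, e l := by
  induction u with
  | zero => simp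
  | succ u ih =>
    have kcE : ((∑ l, e l) + a • D) ^ u * (∑ l, e l) = (∑ l, e l) * ((∑ l, e l) + a • D) ^ u := by
      have : Commute ((∑ l, e l) + a • D) (∑ l, e l) := by
        change ((∑ l, e l) + a • D) * (∑ l, e l) = (∑ l, e l) * ((∑ l, e l) + a • D)
        rw [cE h, Ec h]
      exact (this.pow_left u).eq
    calc (∑ l, e l) * (((∑ l, e l) + a • D) ^ (u + 1) * ci ^ (u + 1))
        = (∑ l, e l) * (((∑ l, e l) + a • D) ^ u * (((∑ l, e l) + a • D) * ci) * ci ^ u) := by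
          rw [pow_succ ((∑ l, e l) + a • D) u, pow_succ' ci u]; simp only [Matrix.mul_assoc]
      _ = (∑ l, e l) * (((∑ l, e l) + a • D) ^ u * (∑ l, e l) * ci ^ u) := by rw [g.cci]
      _ = ((∑ l, e l) * (∑ l, e l)) * (((∑ l, e l) + a • D) ^ u * ci ^ u) := by
          rw [kcE]; simp only [Matrix.mul_assoc]
      _ = _ := by rw [h.EE, ih]

theorem Gc.toPsi (h : ZD J e D Φ lam) (g : Gc e D a ci) {M : Matrix ι ι K}
    (hM' : (∑ l, e l) * M = M) {s : κ} {v : ℕ} (hR : ∃ R, M * Φ s ^ v = Φ s ^ v * R) :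
    ∃ R, M * (((∑ l, e l) + a • D) * ((∑ l, e l) + a • D) * Φ s) ^ v
      = (((∑ l, e l) + a • D) * ((∑ l, e l) + a • D) * Φ s) ^ v * R := by
  obtain ⟨R, hR⟩ := hR
  have kcv : ((∑ l, e l) + a • D) ^ (2 * v) * Φ s ^ v
      = Φ s ^ v * ((∑ l, e l) + a • D) ^ (2 * v) :=
    ((show Commute ((∑ l, e l) + a • D) (Φ s) from cΦ h a s).pow_pow (2 * v) v).eq
  have kE : (∑ l, e l) * Φ s ^ v = Φ s ^ v * (∑ l, e l) := by
    have : Commute (∑ l, e l) (Φ s) := h.EΦ s
    exact (this.pow_right v).eq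
  refine ⟨ci ^ (2 * v) * (R * ((∑ l, e l) + a • D) ^ (2 * v)), ?_⟩
  rw [psi_pow h, kcv]
  calc M * (Φ s ^ v * ((∑ l, e l) + a • D) ^ (2 * v))
      = (∑ l, e l) * (M * Φ s ^ v) * ((∑ l, e l) + a • D) ^ (2 * v) := by
        rw [← Matrix.mul_assoc (∑ l, e l), hM', Matrix.mul_assoc]
    _ = ((∑ l, e l) * Φ s ^ v) * R * ((∑ l, e l) + a • D) ^ (2 * v) := by
        rw [hR]; simp only [Matrix.mul_assoc]
    _ = Φ s ^ v * ((∑ l, e l) * (((∑ l, e l) + a • D) ^ (2 * v) * ci ^ (2 * v))) * R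
          * ((∑ l, e l) + a • D) ^ (2 * v) := by rw [kE, g.kcc h]
    _ = (Φ s ^ v * (∑ l, e l)) * (((∑ l, e l) + a • D) ^ (2 * v) * ci ^ (2 * v)) * R
          * ((∑ l, e l) + a • D) ^ (2 * v) := by simp only [Matrix.mul_assoc]
    _ = ((∑ l, e l) * (Φ s ^ v * ((∑ l, e l) + a • D) ^ (2 * v))) * (ci ^ (2 * v)
          * (R * ((∑ l, e l) + a • D) ^ (2 * v))) := by
        rw [← kE]; simp only [Matrix.mul_assoc]
    _ = (Φ s ^ v * ((∑ l, e l) + a • D) ^ (2 * v)) * (ci ^ (2 * v)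
          * (R * ((∑ l, e l) + a • D) ^ (2 * v))) := by
        rcases Nat.eq_zero_or_pos v with hv | hv
        · subst hv
          simp only [mul_zero, pow_zero, Matrix.one_mul, Matrix.mul_one] at hR ⊢
          rw [← hR, hM']
        · congr 1
          rw [← Matrix.mul_assoc, kE, Matrix.mul_assoc]
          congr 1
          obtain ⟨w, hw⟩ : ∃ w, 2 * v = w + 1 := ⟨2 * v - 1, by omega⟩
          rw [hw, pow_succ', ← Matrix.mul_assoc, Ec h]

theorem Gc.fromPsi (h : ZD J e D Φ lam) (g : Gc e D a ci) {M : Matrix ι ι K}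
    (hM : M * (∑ l, e l) = M) {s : κ} {v : ℕ}
    (hR : ∃ R, M * (((∑ l, e l) + a • D) * ((∑ l, e l) + a • D) * Φ s) ^ v
      = (((∑ l, e l) + a • D) * ((∑ l, e l) + a • D) * Φ s) ^ v * R) :
    ∃ R, M * Φ s ^ v = Φ s ^ v * R := by
  obtain ⟨R, hR⟩ := hR
  rw [psi_pow h] at hR
  have kcv : ((∑ l, e l) + a • D) ^ (2 * v) * Φ s ^ v
      = Φ s ^ v * ((∑ l, e l) + a • D) ^ (2 * v) :=
    ((show Commute ((∑ l, e l) + a • D) (Φ s) from cΦ h a s).pow_pow (2 * v) v).eq
  have kci : ci ^ (2 * v) * Φ s ^ v = Φ s ^ v * ci ^ (2 * v) :=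
    ((show Commute ci (Φ s) from g.ciΦ h s).pow_pow (2 * v) v).eq
  refine ⟨((∑ l, e l) + a • D) ^ (2 * v) * (R * ci ^ (2 * v)), ?_⟩
  calc M * Φ s ^ v = M * ((∑ l, e l) * (((∑ l, e l) + a • D) ^ (2 * v) * ci ^ (2 * v)))
        * Φ s ^ v := by rw [g.kcc h, hM]
    _ = (M * (∑ l, e l)) * ((∑ l, e l) + a • D) ^ (2 * v) * (ci ^ (2 * v) * Φ s ^ v) := by
        simp only [Matrix.mul_assoc]
    _ = (M * (((∑ l, e l) + a • D) ^ (2 * v) * Φ s ^ v)) * ci ^ (2 * v) := by
        rw [hM, kci]; simp only [Matrix.mul_assoc]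
    _ = (((∑ l, e l) + a • D) ^ (2 * v) * Φ s ^ v) * R * ci ^ (2 * v) := by rw [hR]
    _ = _ := by rw [kcv]; simp only [Matrix.mul_assoc]

theorem Gc.filt_comm (h : ZD J e D Φ lam) (g : Gc e D a ci) {M : Matrix ι ι K}
    (hM : M * (∑ l, e l) = M) (hc : ∀ r, M * (((∑ l, e l) + a • D) * ((∑ l, e l) + a • D) * Φ r)
      = (((∑ l, e l) + a • D) * ((∑ l, e l) + a • D) * Φ r) * M) (s : κ) (v : ℕ) :
    ∃ R, M * Φ s ^ v = Φ s ^ v * R :=
  g.fromPsi h hM ⟨M, ((show Commute M _ from hc s).pow_right v).eq⟩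

theorem ZZM_Z1 (h : ZD J e D Φ lam) (g : Gc e D a ci) {δ : Matrix ι ι K}
    (hδ1 : (∑ l, e l) * δ = δ) (hδ2 : δ * (∑ l, e l) = δ) (hδs : δᵀ * J = J * δ)
    (hδc : ∀ r, δ * (((∑ l, e l) + a • D) * ((∑ l, e l) + a • D) * Φ r)
      = (((∑ l, e l) + a • D) * ((∑ l, e l) + a • D) * Φ r) * δ)
    (hδb : ∀ l, e l * δ = δ * e l) (b : K) : b • (ci * δ) ∈ ZZM J e D Φ := by
  refine Submodule.smul_mem _ _ ?_
  have hJ := h.J_unit
  have hT1 : TJ J 1 = 1 := by rw [TJ_eq_iff hJ]; simp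
  refine ⟨⟨?_, ?_⟩, ?_⟩
  · have h1 := ZP.first_mem (T := TJ J) (e := ∑ l, e l) (D := D)
      (Φ := fun r => (∑ l, e l) * Φ r) (TJ_mul hJ) (g.gau h) (by
        rw [map_add, map_sub, (TJ_eq_iff hJ).2 (g.Tci h), (TJ_eq_iff hJ).2 h.Esa, hT1])
      (c1E h a) (c1Φ h a)
      (δ := δ) ((TJ_eq_iff hJ).2 hδs) hδ2 hδ1 (h.nilblk hδb hδ1) (by
        intro r
        simp only [c1 h]
        exact hδc r)
    have h2 : (ci + (1 - ∑ l, e l)) * δ = ci * δ := by
      rw [Matrix.add_mul, Matrix.sub_mul, Matrix.one_mul, hδ1, sub_self, add_zero]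
    rw [h2] at h1
    exact h1
  · intro l
    rw [← Matrix.mul_assoc, ← g.cie_l h, Matrix.mul_assoc, hδb, Matrix.mul_assoc]
  · intro s v
    obtain ⟨R, hR⟩ := g.filt_comm h hδ2 hδc s v
    have kci : ci * Φ s ^ v = Φ s ^ v * ci :=
      ((show Commute ci (Φ s) from g.ciΦ h s).pow_right v).eq
    exact ⟨ci * R, by rw [Matrix.mul_assoc, hR, ← Matrix.mul_assoc, kci, Matrix.mul_assoc]⟩

theorem ZZM_Z2 (h : ZD J e D Φ lam) {t : k} (g : Gc e D (algebraMap k K t) ci)
    (d : Derivation k K K) (hJd : J.map d = 0) (hed : ∀ l, (e l).map d = 0)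
    (hΦd : ∀ r, (((∑ l, e l) + algebraMap k K t • D) * ((∑ l, e l) + algebraMap k K t • D)
      * Φ r).map d = 0) {z : Matrix ι ι K} (hz : z ∈ ZZM J e D Φ) :
    z.map d - algebraMap k K t • (z * ci * D.map d) ∈ ZZM J e D Φ := by
  have hJ := h.J_unit
  have hT1 : TJ J 1 = 1 := by rw [TJ_eq_iff hJ]; simp
  have hEd : (∑ l, e l).map d = 0 := by
    ext i j
    rw [Matrix.map_apply, Matrix.sum_apply, map_sum, Matrix.zero_apply]
    refine Finset.sum_eq_zero fun l _ => ?_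
    have := congrFun (congrFun (hed l) i) j
    simpa using this
  have hd1 : (1 : Matrix ι ι K).map d = 0 := by
    ext i j
    rw [Matrix.map_apply, Matrix.zero_apply, Matrix.one_apply]
    split_ifs
    · exact d.map_one_eq_zero
    · exact map_zero d
  have had : (algebraMap k K t • D).map d = algebraMap k K t • D.map d := by
    ext i j
    simp only [Matrix.map_apply, Matrix.smul_apply, smul_eq_mul, Derivation.leibniz,
      Derivation.map_algebraMap, mul_zero, add_zero]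
  have hDb : ∀ l, e l * D.map d = D.map d * e l := by
    intro l
    have h8 := congrArg (fun M : Matrix ι ι K => M.map d) (h.eD l)
    rw [mapd_mul, mapd_mul, hed, Matrix.zero_mul, Matrix.mul_zero, zero_add, add_zero] at h8
    exact h8
  have hDE1 : (∑ l, e l) * D.map d = D.map d := by
    have h8 := congrArg (fun M : Matrix ι ι K => M.map d) h.eeD
    rw [mapd_mul, hEd, Matrix.zero_mul, zero_add] at h8
    exact h8
  have hDE2 : D.map d * (∑ l, e l) = D.map d := by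
    have h8 := congrArg (fun M : Matrix ι ι K => M.map d) h.DE
    rw [mapd_mul, hEd, Matrix.mul_zero, add_zero] at h8
    exact h8
  have hze : z * (∑ l, e l) = z := ZZM_ze hz
  have hez : (∑ l, e l) * z = z := ZZM_ez hz
  have hdze : z.map d * (∑ l, e l) = z.map d := by
    have h8 := congrArg (fun M : Matrix ι ι K => M.map d) hze
    rw [mapd_mul, hEd, Matrix.mul_zero, add_zero] at h8
    exact h8
  have hzci : z * (ci + (1 - ∑ l, e l)) = z * ci := by
    rw [Matrix.mul_add, Matrix.mul_sub, Matrix.mul_one, hze, sub_self, add_zero]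
  have hrew : z.map d - algebraMap k K t • (z * ci * D.map d)
      = z.map d - z * ((ci + (1 - ∑ l, e l)) * ((1 + algebraMap k K t • D).map d)) := by
    rw [mapd_add, hd1, zero_add, had, ← Matrix.mul_assoc, hzci, Matrix.mul_smul]
  refine ⟨⟨?_, ?_⟩, ?_⟩
  · rw [hrew]
    have hJi : (J⁻¹).map d = 0 := map_inv_zero hJ d hJd (mapd_mul d)
    refine ZP.second_mem (T := TJ J) (e := ∑ l, e l) (D := D)
      (Φ := fun r => (∑ l, e l) * Φ r) (TJ_mul hJ)
      (g.gau h) ?_ ?_ (c1E h _) (c1Φ h _) (fun M => M.map d) (fun x y => mapd_add d x y)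
      (fun x y => mapd_mul d x y) ?_ hEd ?_ (h.nilblk hDb hDE1) hz.1.1
    · rw [map_add, map_smul, (TJ_eq_iff hJ).2 h.Dsa, hT1]
    · rw [map_add, map_sub, (TJ_eq_iff hJ).2 (g.Tci h), (TJ_eq_iff hJ).2 h.Esa, hT1]
    · intro x
      simp only [TJ_apply]
      rw [mapd_mul, mapd_mul, hJd, hJi, Matrix.zero_mul, zero_add, Matrix.mul_zero, add_zero,
        transpose_map]
    · intro r
      simp only [c1 h]
      exact hΦd r
  · intro l
    have h1 := congrArg (fun M : Matrix ι ι K => M.map d) (hz.1.2 l)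
    rw [mapd_mul, mapd_mul, hed, Matrix.zero_mul, Matrix.mul_zero, zero_add, add_zero] at h1
    rw [Matrix.mul_sub, Matrix.sub_mul, h1, Matrix.mul_smul, Matrix.smul_mul]
    congr 2
    calc e l * (z * ci * D.map d) = (e l * z) * ci * D.map d := by
          simp only [Matrix.mul_assoc]
      _ = z * (e l * ci) * D.map d := by rw [hz.1.2 l]; simp only [Matrix.mul_assoc]
      _ = z * ci * (e l * D.map d) := by rw [← g.cie_l h]; simp only [Matrix.mul_assoc]
      _ = z * ci * D.map d * e l := by rw [hDb]; simp only [Matrix.mul_assoc]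
  · refine Submodule.sub_mem (Fil Φ) ?_ (Submodule.smul_mem _ _ ?_)
    · intro s v
      refine g.fromPsi h hdze ?_
      obtain ⟨R, hR⟩ := g.toPsi h hez (hz.2 s v)
      have hpowd : ((((∑ l, e l) + algebraMap k K t • D) * ((∑ l, e l) + algebraMap k K t • D)
          * Φ s) ^ v).map d = 0 := by
        clear hR
        induction v with
        | zero => rw [pow_zero]; exact hd1
        | succ v ih =>
          rw [pow_succ, mapd_mul, ih, hΦd, Matrix.zero_mul, Matrix.mul_zero, add_zero]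
      have h8 := congrArg (fun M : Matrix ι ι K => M.map d) hR
      rw [mapd_mul, mapd_mul, hpowd, Matrix.mul_zero, Matrix.zero_mul, add_zero, zero_add] at h8
      exact ⟨_, h8⟩
    · intro s v
      have hDc : ∀ r, D.map d * (((∑ l, e l) + algebraMap k K t • D)
          * ((∑ l, e l) + algebraMap k K t • D) * Φ r)
          = (((∑ l, e l) + algebraMap k K t • D) * ((∑ l, e l) + algebraMap k K t • D) * Φ r)
            * D.map d := by
        intro r
        have h9 : D * (((∑ l, e l) + algebraMap k K t • D)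
            * ((∑ l, e l) + algebraMap k K t • D) * Φ r)
            = (((∑ l, e l) + algebraMap k K t • D) * ((∑ l, e l) + algebraMap k K t • D) * Φ r)
              * D := by
          have hDc1 : Commute D ((∑ l, e l) + algebraMap k K t • D) := by
            change D * ((∑ l, e l) + algebraMap k K t • D)
              = ((∑ l, e l) + algebraMap k K t • D) * D
            rw [Matrix.mul_add, Matrix.add_mul, h.DE, h.eeD, Matrix.mul_smul, Matrix.smul_mul]
          exact ((hDc1.mul_right hDc1).mul_right (h.Dcom r)).eq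
        have h8 := congrArg (fun M : Matrix ι ι K => M.map d) h9
        rw [mapd_mul d D, mapd_mul d _ D, hΦd, Matrix.mul_zero, Matrix.zero_mul, add_zero,
          zero_add] at h8
        exact h8
      obtain ⟨R1, hR1⟩ := g.filt_comm h hDE2 hDc s v
      obtain ⟨R2, hR2⟩ := hz.2 s v
      have kci : ci * Φ s ^ v = Φ s ^ v * ci :=
        ((show Commute ci (Φ s) from g.ciΦ h s).pow_right v).eq
      refine ⟨R2 * (ci * R1), ?_⟩
      calc z * ci * D.map d * Φ s ^ v = z * (ci * (D.map d * Φ s ^ v)) := by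
            simp only [Matrix.mul_assoc]
        _ = z * ((ci * Φ s ^ v) * R1) := by rw [hR1]; simp only [Matrix.mul_assoc]
        _ = (z * Φ s ^ v) * (ci * R1) := by rw [kci]; simp only [Matrix.mul_assoc]
        _ = _ := by rw [hR2]; simp only [Matrix.mul_assoc]

end gauge

/-- self-adjoint commuting block matrices are in `ZZM` -/
theorem ZZM_of_sa (h : ZD J e D Φ lam) {z : Matrix ι ι K} (h1 : (∑ l, e l) * z = z)
    (h2 : z * (∑ l, e l) = z) (hs : zᵀ * J = J * z) (hb : ∀ l, e l * z = z * e l)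
    (hc : ∀ r, z * Φ r = Φ r * z) : z ∈ ZZM J e D Φ := by
  refine ⟨⟨?_, hb⟩, fun s v => ⟨z, ((show Commute z (Φ s) from hc s).pow_right v).eq⟩⟩
  refine ZP.mem_ZZ_of_sa ((TJ_eq_iff h.J_unit).2 hs) h2 h1 (h.nilblk hb h1) ?_
  intro r
  change z * ((∑ l, e l) * Φ r) = ((∑ l, e l) * Φ r) * z
  rw [← Matrix.mul_assoc, h2, Matrix.mul_assoc, ← hc, ← Matrix.mul_assoc, h1]

/-- (Z3) -/
theorem ZZM_Z3 [CharZero K] (h : ZD J e D Φ lam) {X z : Matrix ι ι K} [Fintype κ]
    (perf : ∃ a : κ → Matrix ι ι K, ∑ r, a r * (∑ i, e i) * Φ r = ∑ i, e i)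
    (hX2 : X * (∑ l, e l) = X) (hXs : Xᵀ * J + J * X = 0)
    (hz : z ∈ ZZM J e D Φ) (hsa : (X - z)ᵀ * J = J * (X - z))
    (hc : ∀ r, (X - z) * Φ r = Φ r * (X - z)) (hX1 : (∑ l, e l) * X = X) : X = 0 := by
  have hJ := h.J_unit
  let _ : Algebra ℚ K := DivisionRing.toRatAlgebra
  let _ : Module ℚ (Matrix ι ι K) := Matrix.module
  have hze := ZZM_ze hz
  have hez := ZZM_ez hz
  refine ZP.skew_eq_zero (K := K) hz.1.1 ?_ hX2 ?_ ((TJ_eq_iff hJ).2 hsa) ?_
  · rw [TJ_eq_iff hJ, Matrix.mul_neg]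
    exact eq_neg_of_add_eq_zero_left hXs
  · intro x hx hx0
    obtain ⟨a, ha⟩ := perf
    have hTE : TJ J (∑ l, e l) = ∑ l, e l := (TJ_eq_iff hJ).2 h.Esa
    have h2 := congrArg (TJ J) ha
    rw [map_sum, hTE] at h2
    have h3 : ∀ r, TJ J (a r * (∑ i, e i) * Φ r) = ((∑ i, e i) * Φ r) * TJ J (a r) := by
      intro r
      rw [TJ_mul hJ, TJ_mul hJ, hTE, (TJ_eq_iff hJ).2 (h.Φsa r), ← Matrix.mul_assoc, h.EΦ]
    rw [Finset.sum_congr rfl fun r _ => h3 r] at h2
    rw [← hx, ← h2, Finset.mul_sum]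
    refine Finset.sum_eq_zero fun r _ => ?_
    rw [← Matrix.mul_assoc]
    have := hx0 r
    rw [this, Matrix.zero_mul]
  · intro r
    change (X - z) * ((∑ l, e l) * Φ r) = ((∑ l, e l) * Φ r) * (X - z)
    have h5 : (∑ l, e l) * (X - z) = X - z := by rw [Matrix.mul_sub, hX1, hez]
    rw [← Matrix.mul_assoc, Matrix.sub_mul, hX2, hze, hc, h.EΦ, Matrix.mul_assoc, h5]

end Crest.Agent.R172.ZPM
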