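import Crest.Agent.R172.N5i
import Crest.Agent.R172.ZP2

/-!
Row 172, TAME (T0), node N5, part 10: **`¬ TameAt` for radical zero**, general `τ`.
-/

set_option autoImplicit false
set_option linter.unusedSectionVars false
set_option maxHeartbeats 400000

namespace Crest.Agent.R172.N5

open Module Matrix Crest.AlgebraR.SpinSaturation Crest.Agent.R172.SoGrade Crest.Agent.R172.CF
open Crest.Agent.R172.Gen (Jm Ix emb Ent ent)
open Crest.Agent.R172.ThX Crest.Agent.R172.CSys Crest.Agent.R172.TG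
open Crest.Agent.R172.Core (NS cp BM Tame)
open Crest.Agent.R172.QN (Co Psi)
open Crest.Agent.R172.QQ1Z (CxZ ZOK)

variable {n : ℕ} {a : Fin 3 → Fin n → ℤ} {c : Cfg n a} {K : Type} [Field K] [Algebra ℂ K]
variable {N W : Submodule K (Matrix (Ix n) c.δ K)} {F G : Matrix (Ix n) c.δ K}
variable {C : St.Core (BV n K) (Ph F)} {τ : Module.End K C.M}
variable {Q : Fin 3 → Matrix (Ix n) (Ix n) K} {m : ℕ}
variable {m' : ℕ} {lam : Fin m' → K}
    {π : Fin m' → Module.End K C.M} {e : Fin m' → Matrix (Ix n) (Ix n) K}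

variable (h : Co ℂ c.arm (Jm n K) (c.B K) N W F (eM C) Q m)
  (hG : FO.GenOver ℂ c.arm N W F G)
  (hR : Rad0 (BV n K) (Ph F)) (hT : TameAt F G C τ)
  (hnil : ∀ H ∈ N ⊓ W, ∃ k, ∀ s, Ph H s ^ k = 0)

include h hR hT in
theorem zd_of (hb : Blk F C τ m' lam π e) :
    ZPM.ZD (Jm n K) e (ht C τ) (FO.Phi c.arm (Jm n K) (c.B K) F) lam where
  J_symm := h.data.J_symm
  J_unit := h.data.J_unit
  sa := hb.sa
  idem := hb.idem
  orth := hb.orth
  eD := hb.tau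
  eeD := blk_eeD hb
  Dsa := ht_sa hT.sa
  Dcom := fun r => ht_Phi h.data h.gen.mem hR hT.comm r
  com := hb.com
  Φsa := fun r => by
    unfold FO.Phi
    rw [transpose_mul, h.data.J_symm, Slack.M_transpose h.data F F r, Matrix.mul_assoc]
  nil := nil_mat hb

include h hR hT in
theorem zok_of (hb : Blk F C τ m' lam π e) {ci : ℂ → Matrix (Ix n) (Ix n) K}
    (hX : CxZ ℂ (TS lam) c.arm (Jm n K) (c.B K) N W F G e (ht C τ) ci) :
    ZOK ℂ (TS lam) c.arm (Jm n K) (c.B K) F e (ht C τ) ci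
      (ZPM.ZZM (Jm n K) e (ht C τ) (FO.Phi c.arm (Jm n K) (c.B K) F)) where
  blk := fun z hz l => ZPM.ZZM_blk hz l
  ez := fun z hz => ZPM.ZZM_ez hz
  fil := fun z hz s v => ZPM.ZZM_fil hz s v
  Z1 := fun t ht Δ h1 h2 h3 h4 h5 =>
    ZPM.ZZM_Z1 (zd_of h hR hT hb) ⟨hX.cci t ht, hX.ici t ht, hX.eci t ht, hX.cie t ht⟩
      h1 h2 h3 h4 h5 _
  Z2 := fun t ht d h1 h2 z hz =>
    ZPM.ZZM_Z2 (zd_of h hR hT hb) ⟨hX.cci t ht, hX.ici t ht, hX.eci t ht, hX.cie t ht⟩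
      d (h.data.J_const d) h1 h2 hz

include hG hR hT hnil in
/-- **(T0) for radical zero** (arbitrary `τ`) -/
theorem notTame_R0 [IsAlgClosed K] [CharZero K]
    (hD : FO.Data ℂ c.arm (Jm n K) (c.B K) N W) : False := by
  obtain ⟨Q, m, h⟩ := exists_Co hD hG.generic C hR
  obtain ⟨m', lam, π, e, hb⟩ := exists_Blk h hR hT
  obtain ⟨ci, hX⟩ := cxz_of h hG hR hT hnil hb
  refine cxz_false (TS_infinite lam) hb.inj hX (h.F_pp.trans hb.sum.symm) (blk_M h hb)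
    (fun s => cp C (Ph F s)) (blk_Phi hb) hT.comm (Module.End.iSup_maxGenEigenspace_eq_top τ)
    hT.tame (fun v => ?_) hb.hC hb.cov hb.nb _ (zok_of h hR hT hb hX) ?_
  · rw [ht_mulVec]
    have e1 : (⟨C.π (v : Ix n → K), C.mem _⟩ : C.M) = v := Subtype.ext (C.fix _ v.2)
    rw [e1]
  · intro X z h1 h2 h3 h4 h5 h6 h7 h8
    exact ZPM.ZZM_Z3 (zd_of h hR hT hb) hX.perf h2 h3 h6 h7 h8 h1

end Crest.Agent.R172.N5
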