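import Crest.Agent.R172.SUB2

/-!
Row 172 (S0260), S-side (t2): the connection `nabla` preserves the blocks up to the radical.
-/

set_option autoImplicit false
set_option linter.unusedSectionVars false
set_option linter.unusedFintypeInType false
set_option linter.unusedDecidableInType false

namespace Crest.Agent.R172.SHex965

open Module

section abs

variable {K : Type*} [Field K] {V M : Type*} [AddCommGroup V] [Module K V]
  [AddCommGroup M] [Module K M]

/-- words of length `m` on a perfect stable submodule -/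
theorem word_ind {O : Fin 3 → End K V} {Q : Submodule K V} (hst : ∀ r, ∀ q ∈ Q, O r q ∈ Q)
    (hperf : Q ≤ ⨆ r, Q.map (O r)) (m : ℕ) :
    Q ≤ Submodule.span K {v | ∃ w : List (Fin 3), w.length = m ∧ ∃ q ∈ Q, v = (w.map O).prod q} := by
  induction m with
  | zero =>
    intro q hq
    exact Submodule.subset_span ⟨[], rfl, q, hq, by simp⟩
  | succ m ih =>
    refine hperf.trans (iSup_le fun r => ?_)
    rw [Submodule.map_le_iff_le_comap]
    refine ih.trans (Submodule.span_le.2 ?_)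
    rintro _ ⟨w, hw, q, hq, rfl⟩
    refine Submodule.subset_span ⟨r :: w, by simp [hw], q, hq, ?_⟩
    rw [List.map_cons, List.prod_cons, Module.End.mul_apply]

/-- **perfect → nilpotent**: an additive map `f : Q → V/C` compatible with `O`, linear, with values
killed by words of length `m`, is zero -/
theorem perf_nil {O : Fin 3 → End K V} {Q C : Submodule K V} (hst : ∀ r, ∀ q ∈ Q, O r q ∈ Q)
    (hperf : Q ≤ ⨆ r, Q.map (O r)) (hC : ∀ r, ∀ v ∈ C, O r v ∈ C) (f : V → V)
    (hadd : ∀ v w, f (v + w) - (f v + f w) ∈ C) (hsm : ∀ (a : K), ∀ v ∈ Q, f (a • v) - a • f v ∈ C)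
    (hf : ∀ r, ∀ q ∈ Q, f (O r q) - O r (f q) ∈ C) {m : ℕ}
    (hk : ∀ w : List (Fin 3), w.length = m → ∀ q ∈ Q, (w.map O).prod (f q) ∈ C) :
    ∀ q ∈ Q, f q ∈ C := by
  have hw : ∀ w : List (Fin 3), ∀ q ∈ Q, f ((w.map O).prod q) - (w.map O).prod (f q) ∈ C ∧
      (w.map O).prod q ∈ Q := by
    intro w
    induction w with
    | nil => intro q hq; simpa using hq
    | cons r w ih =>
      intro q hq
      obtain ⟨h1, h2⟩ := ih q hq
      rw [List.map_cons, List.prod_cons, Module.End.mul_apply, Module.End.mul_apply]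
      refine ⟨?_, hst r _ h2⟩
      have h3 := hf r _ h2
      have h4 := hC r _ h1
      rw [map_sub] at h4
      have := C.add_mem h3 h4
      convert this using 1
      abel
  have h0 : f 0 ∈ C := by
    have := hadd 0 0
    rw [add_zero] at this
    have h2 : f 0 - (f 0 + f 0) = -(f 0) := by abel
    rw [h2] at this
    exact C.neg_mem_iff.1 this
  intro q hq
  have hq' := word_ind hst hperf m hq
  have key : ∀ v ∈ Submodule.span K {v | ∃ w : List (Fin 3), w.length = m ∧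
      ∃ q ∈ Q, v = (w.map O).prod q}, v ∈ Q ∧ f v ∈ C := by
    intro v hv
    induction hv using Submodule.span_induction with
    | mem v hv =>
      obtain ⟨w, hwm, q, hq, rfl⟩ := hv
      obtain ⟨h1, h2⟩ := hw w q hq
      refine ⟨h2, ?_⟩
      have := C.add_mem h1 (hk w hwm q hq)
      rwa [sub_add_cancel] at this
    | zero => exact ⟨Q.zero_mem, h0⟩
    | add v w _ _ hv hw =>
      refine ⟨Q.add_mem hv.1 hw.1, ?_⟩
      have := C.add_mem (hadd v w) (C.add_mem hv.2 hw.2)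
      rwa [sub_add_cancel] at this
    | smul a v _ hv =>
      refine ⟨Q.smul_mem a hv.1, ?_⟩
      have := C.add_mem (hsm a v hv.1) (C.smul_mem a hv.2)
      rwa [sub_add_cancel] at this
  exact (key q hq').2

/-- **the connection preserves `Q ⊔ R`** -/
theorem nab_block {O Yo : Fin 3 → End K V} {nab : V → V} {d : K → K}
    (hadd : ∀ v w, nab (v + w) = nab v + nab w)
    (hsm : ∀ (a : K) (v : V), nab (a • v) = a • nab v + d a • v)
    (hc : ∀ r v, nab (O r v) = O r (nab v) + Yo r (O r v) - O r (Yo r v))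
    {U : Submodule K V} (hU : ∀ v ∈ U, nab v ∈ U) (hUO : ∀ r, ∀ v ∈ U, O r v ∈ U)
    {Q R : Submodule K V} (hQU : Q ≤ U) (hst : ∀ r, ∀ q ∈ Q, O r q ∈ Q)
    (hperf : Q ≤ ⨆ r, Q.map (O r)) (hRU : R ≤ U) (hR : ∀ r, ∀ v ∈ R, O r v ∈ R)
    (hY : ∀ r, ∀ q ∈ Q, Yo r (O r q) - O r (Yo r q) ∈ R)
    {π : U →ₗ[K] M} {o : Fin 3 → End K M} (hπ : ∀ r (v : U), π ⟨O r v, hUO r v v.2⟩ = o r (π v))
    (hπR : ∀ v (hv : v ∈ R), π ⟨v, hRU hv⟩ = 0)
    {m : ℕ} (hk : ∀ w : List (Fin 3), w.length = m → ∀ v : U, π v = 0 → (w.map O).prod (v : V) = 0)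
    {e : End K M} (hee : ∀ x, e (e x) = e x) (heo : ∀ r x, e (o r x) = o r (e x))
    (heQ : ∀ q (hq : q ∈ Q), e (π ⟨q, hQU hq⟩) = π ⟨q, hQU hq⟩)
    (hsurj : ∀ x, e x = x → ∃ q, ∃ hq : q ∈ Q, π ⟨q, hQU hq⟩ = x)
    (hHom : ∀ T : Q →ₗ[K] M, (∀ r (q : Q), T ⟨O r q, hst r q q.2⟩ = o r (T q)) →
      ∀ q, e (T q) = T q) :
    ∀ q ∈ Q, nab q ∈ Q ⊔ R := by
  -- the linear map `T q = π(nab q) - e π (nab q)`
  let T : Q →ₗ[K] M :=
    { toFun := fun q => π ⟨nab q, hU _ (hQU q.2)⟩ - e (π ⟨nab q, hU _ (hQU q.2)⟩)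
      map_add' := by
        intro a b
        have h1 : (⟨nab ((a + b : Q) : V), hU _ (hQU (a + b).2)⟩ : U)
            = ⟨nab a, hU _ (hQU a.2)⟩ + ⟨nab b, hU _ (hQU b.2)⟩ :=
          Subtype.ext (by simpa using hadd (a : V) (b : V))
        rw [h1, map_add, map_add]
        abel
      map_smul' := by
        intro c a
        have h1 : (⟨nab ((c • a : Q) : V), hU _ (hQU (c • a).2)⟩ : U)
            = c • ⟨nab a, hU _ (hQU a.2)⟩ + d c • ⟨(a : V), hQU a.2⟩ :=
          Subtype.ext (by simpa using hsm c (a : V))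
        rw [h1, map_add, map_smul, map_smul, map_add, map_smul, map_smul, heQ _ a.2,
          RingHom.id_apply, smul_sub]
        abel }
  have hT : ∀ r (q : Q), T ⟨O r q, hst r q q.2⟩ = o r (T q) := by
    intro r q
    have h1 : (⟨nab (O r (q : V)), hU _ (hQU (hst r q q.2))⟩ : U)
        = ⟨O r (nab q), hUO r _ (hU _ (hQU q.2))⟩
          + ⟨Yo r (O r (q : V)) - O r (Yo r (q : V)), hRU (hY r q q.2)⟩ :=
      Subtype.ext (by
        change nab (O r (q : V)) = O r (nab q) + (Yo r (O r (q : V)) - O r (Yo r (q : V)))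
        rw [hc]; abel)
    change π ⟨nab (O r (q : V)), _⟩ - e (π ⟨nab (O r (q : V)), _⟩)
      = o r (π ⟨nab q, _⟩ - e (π ⟨nab q, _⟩))
    rw [h1, map_add, hπR _ (hY r q q.2), add_zero, hπ r ⟨nab q, hU _ (hQU q.2)⟩, heo, map_sub]
  have hT0 : ∀ q, T q = 0 := by
    intro q
    have h1 := hHom T hT q
    have h2 : e (T q) = 0 := by
      change e (π ⟨nab q, _⟩ - e (π ⟨nab q, _⟩)) = 0
      rw [map_sub, hee, sub_self]
    rw [← h1, h2]
  have hwQ : ∀ w : List (Fin 3), ∀ q ∈ Q, (w.map O).prod q ∈ Q := by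
    intro w
    induction w with
    | nil => intro q hq; simpa using hq
    | cons r w ih =>
      intro q hq
      rw [List.map_cons, List.prod_cons, Module.End.mul_apply]
      exact hst r _ (ih q hq)
  refine perf_nil (O := O) (C := Q ⊔ R) (m := m) hst hperf ?_ nab ?_ ?_ ?_ ?_
  · intro r v hv
    obtain ⟨a, ha, b, hb, rfl⟩ := Submodule.mem_sup.1 hv
    rw [map_add]
    exact Submodule.add_mem_sup (hst r a ha) (hR r b hb)
  · intro v w
    rw [hadd, sub_self]
    exact Submodule.zero_mem _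
  · intro a v hv
    rw [hsm, add_sub_cancel_left]
    exact Submodule.mem_sup_left (Q.smul_mem _ hv)
  · intro r q hq
    have h1 : nab (O r q) - O r (nab q) = Yo r (O r q) - O r (Yo r q) := by rw [hc]; abel
    rw [h1]
    exact Submodule.mem_sup_right (hY r q hq)
  · intro w hw q hq
    have h1 := hT0 ⟨q, hq⟩
    have h2 : π ⟨nab q, hU _ (hQU hq)⟩ = e (π ⟨nab q, hU _ (hQU hq)⟩) := sub_eq_zero.1 h1
    obtain ⟨q', hq', e'⟩ := hsurj _ h2.symm
    have h3 : (w.map O).prod (nab q - q') = 0 := by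
      refine hk w hw (⟨nab q, hU _ (hQU hq)⟩ - ⟨q', hQU hq'⟩) ?_
      rw [map_sub, e', sub_self]
    have h4 : (w.map O).prod (nab q) = (w.map O).prod q' := by
      rw [map_sub] at h3
      exact sub_eq_zero.1 h3
    rw [h4]
    exact Submodule.mem_sup_left (hwQ w q' hq')

/-- **finitely many twists**: for a perfect `M1`, the set of `κ` with a nonzero `x : M1 → M2`,
`x Φ_r = κ Ψ_r x`, is finite. -/
theorem hom_fin {M1 M2 : Type*} [AddCommGroup M1] [Module K M1] [AddCommGroup M2] [Module K M2]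
    [FiniteDimensional K M1] [FiniteDimensional K M2] {A : Fin 3 → End K M1}
    {B : Fin 3 → End K M2} (hA : ⨆ r, LinearMap.range (A r) = ⊤) :
    ∃ S : Set K, S.Finite ∧ ∀ κ : K, κ ∉ S → ∀ x : M1 →ₗ[K] M2,
      (∀ r v, x (A r v) = κ • B r (x v)) → x = 0 := by
  classical
  let L : (M1 →ₗ[K] M2) →ₗ[K] (Fin 3 → (M1 →ₗ[K] M2)) :=
    LinearMap.pi fun r => LinearMap.lcomp K M2 (A r)
  let Rr : (M1 →ₗ[K] M2) →ₗ[K] (Fin 3 → (M1 →ₗ[K] M2)) :=
    LinearMap.pi fun r => LinearMap.llcomp K M1 M2 M2 (B r)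
  have hL : LinearMap.ker L = ⊥ := by
    rw [eq_bot_iff]
    intro x hx
    rw [LinearMap.mem_ker] at hx
    rw [Submodule.mem_bot]
    have h1 : ∀ r v, x (A r v) = 0 := fun r v => by
      have := congrArg (fun f => f r v) hx
      exact this
    have h2 : (⨆ r, LinearMap.range (A r)) ≤ LinearMap.ker x := by
      refine iSup_le fun r => ?_
      rintro _ ⟨v, rfl⟩
      exact h1 r v
    rw [hA] at h2
    exact LinearMap.ker_eq_top.1 (top_le_iff.1 h2)
  obtain ⟨Λ, hΛ⟩ := L.exists_leftInverse_of_injective hL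
  -- `x = κ (Λ R) x`
  let g : End K (M1 →ₗ[K] M2) := Λ ∘ₗ Rr
  refine ⟨{κ | ∃ μ : K, g.HasEigenvalue μ ∧ κ = μ⁻¹}, ?_, ?_⟩
  · have hfin : {μ : K | g.HasEigenvalue μ}.Finite := Module.End.finite_hasEigenvalue g
    refine (hfin.image fun μ => μ⁻¹).subset ?_
    rintro κ ⟨μ, hμ, rfl⟩
    exact ⟨μ, hμ, rfl⟩
  · intro κ hκ x hx
    by_contra hne
    apply hκ
    have h1 : L x = κ • Rr x := by
      funext r
      refine LinearMap.ext fun v => ?_
      exact hx r v
    have h2 : x = κ • g x := by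
      have h3 : Λ (L x) = x := by
        have := congrArg (fun f => f x) hΛ
        exact this
      rw [← h3]
      conv_lhs => rw [h1, map_smul]
      rw [h3]
      rfl
    have hκ0 : κ ≠ 0 := by
      rintro rfl
      rw [zero_smul] at h2
      exact hne h2
    refine ⟨κ⁻¹, ?_, (inv_inv κ).symm⟩
    refine Module.End.hasEigenvalue_of_hasEigenvector (x := x) ⟨?_, hne⟩
    rw [Module.End.mem_eigenspace_iff]
    conv_rhs => rw [h2]
    rw [smul_smul, inv_mul_cancel₀ hκ0, one_smul]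

end abs

end Crest.Agent.R172.SHex965
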