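import Crest.Agent.R172.SUX1

/-!
Row 172 (S0260), S-side (t2): the raw second derivative identity (tensors in `U`).

For a move `Mv` at `(H, P, Y)` and `V = ∑_s F A_s E_s - w ∈ N` (`F ∈ 𝒦`-type, `w ∈ W`, all
perpendicular to `H`):
`∑_s {F (Z A_s + dA_s) + w_F A_s - w Y_s θ_H - H Y_s (θ_F A_s - θ_w)} E_s - (dw - w Z) ∈ N`.
-/

set_option autoImplicit false
set_option linter.unusedSectionVars false
set_option linter.unusedFintypeInType false
set_option linter.unusedDecidableInType false

namespace Crest.Agent.R172.SUX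

open Matrix Module Crest.Agent.R172.FO Crest.Agent.R172.Qt Crest.Agent.R172.SpS
  Crest.Agent.R172.Om

variable {ι : Type*} [Fintype ι] [DecidableEq ι] {δ : Type*} [Fintype δ] [DecidableEq δ]
variable {k K : Type*} [Field k] [Field K] [Algebra k K]
variable {arm : δ → Fin 3} {J : Matrix ι ι K} {B : Matrix δ δ K}
  {N W : Submodule K (Matrix ι δ K)} {H : Matrix ι δ K}
  {P : Matrix ι ι K × (Fin 3 → Matrix ι ι K)} {Y : Fin 3 → Matrix δ δ K}
  {d : Derivation k K K}

theorem map_sum_der' (d : Derivation k K K) {α β γ : Type*} (s : Finset γ)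
    (F : γ → Matrix α β K) : (∑ i ∈ s, F i).map d = ∑ i ∈ s, (F i).map d := by
  ext i j
  simp [Matrix.sum_apply]

/-- the arm tensor `∑_s A_s E_s` -/
theorem sum_mul_E (F : Matrix ι δ K) (A : Fin 3 → Matrix δ δ K) (r : Fin 3) :
    (∑ s, F * A s * E K arm s) * E K arm r = F * A r * E K arm r := by
  rw [Matrix.sum_mul, Finset.sum_eq_single r]
  · rw [Matrix.mul_assoc, E_mul_self]
  · intro t _ ht
    rw [Matrix.mul_assoc, E_mul_ne arm ht, Matrix.mul_zero]
  · intro h
    exact absurd (Finset.mem_univ r) h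

/-- **second derivative**, raw form -/
theorem Mv.second (m : Mv k arm J N W H P.1 Y d) {F w : Matrix ι δ K}
    {A : Fin 3 → Matrix δ δ K} (hF : Hᵀ * J * F = 0) (hw : Hᵀ * J * w = 0)
    (hV : ∑ s, F * A s * E K arm s - w ∈ N) :
    ∑ s, (F * (ZY arm J H P.1 Y * A s + (A s).map d) + wd arm J H P.1 Y d F * A s -
        w * Y s * th J H P.1 H - H * Y s * (th J H P.1 F * A s - th J H P.1 w)) * E K arm s -
      wd arm J H P.1 Y d w ∈ N := by
  set Z : Matrix δ δ K := ZY arm J H P.1 Y with hZ
  set V : Matrix ι δ K := ∑ s, F * A s * E K arm s - w with hVdef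
  have hVp : Hᵀ * J * V = 0 := by
    rw [hVdef, Matrix.mul_sub, hw, sub_zero, Matrix.mul_sum]
    refine Finset.sum_eq_zero fun s _ => ?_
    calc Hᵀ * J * (F * A s * E K arm s) = (Hᵀ * J * F) * A s * E K arm s := by
          simp only [Matrix.mul_assoc]
      _ = 0 := by rw [hF, Matrix.zero_mul, Matrix.zero_mul]
  have h1 := m.n_mem hV hVp
  have hdF : F.map d = F * Z + wd arm J H P.1 Y d F := by unfold wd; rw [← hZ]; abel
  have hdw : w.map d = w * Z + wd arm J H P.1 Y d w := by unfold wd; rw [← hZ]; abel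
  have hdV : V.map d = ∑ s, (F * (Z * A s + (A s).map d) + wd arm J H P.1 Y d F * A s) *
      E K arm s - (w * Z + wd arm J H P.1 Y d w) := by
    rw [hVdef, map_sub_der, hdw, map_sum_der']
    congr 1
    refine Finset.sum_congr rfl fun s _ => ?_
    rw [map_mul_der, map_mul_der, E_map_der, Matrix.mul_zero, add_zero, hdF]
    congr 1
    simp only [Matrix.add_mul, Matrix.mul_add, Matrix.mul_assoc]
    abel
  have hwZ : w * Z = ∑ s, w * Y s * th J H P.1 H * E K arm s := by rw [hZ, H_ZY]
  have hth : ∀ s, H * Y s * th J H P.1 V * E K arm s =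
      H * Y s * (th J H P.1 F * A s - th J H P.1 w) * E K arm s := by
    intro s
    have e1 : th J H P.1 V * E K arm s = (th J H P.1 F * A s - th J H P.1 w) * E K arm s := by
      unfold th
      have e2 : Hᵀ * J * (P.1 * V) * E K arm s = Hᵀ * J * (P.1 * (V * E K arm s)) := by
        simp only [Matrix.mul_assoc]
      rw [e2, hVdef, Matrix.sub_mul, sum_mul_E, Matrix.sub_mul, Matrix.mul_sub, Matrix.mul_sub]
      simp only [Matrix.mul_assoc]
    rw [Matrix.mul_assoc (H * Y s), e1, ← Matrix.mul_assoc]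
  rw [hdV] at h1
  have h2 : ∑ s, (F * (Z * A s + (A s).map d) + wd arm J H P.1 Y d F * A s -
        w * Y s * th J H P.1 H - H * Y s * (th J H P.1 F * A s - th J H P.1 w)) * E K arm s -
      wd arm J H P.1 Y d w =
      ∑ s, (F * (Z * A s + (A s).map d) + wd arm J H P.1 Y d F * A s) *
      E K arm s - (w * Z + wd arm J H P.1 Y d w) -
      ∑ r, H * Y r * th J H P.1 V * E K arm r := by
    rw [hwZ, Finset.sum_congr rfl fun s _ => hth s]
    have e3 : ∀ s, (F * (Z * A s + (A s).map d) + wd arm J H P.1 Y d F * A s -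
        w * Y s * th J H P.1 H - H * Y s * (th J H P.1 F * A s - th J H P.1 w)) * E K arm s =
        (F * (Z * A s + (A s).map d) + wd arm J H P.1 Y d F * A s) * E K arm s -
        w * Y s * th J H P.1 H * E K arm s -
        H * Y s * (th J H P.1 F * A s - th J H P.1 w) * E K arm s := by
      intro s
      rw [Matrix.sub_mul, Matrix.sub_mul]
    rw [Finset.sum_congr rfl fun s _ => e3 s, Finset.sum_sub_distrib, Finset.sum_sub_distrib]
    abel
  rw [h2]
  exact h1

end Crest.Agent.R172.SUX
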