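import Crest.Agent.R172.SUB
import Crest.Agent.R172.SUX2

/-!
Row 172 (S0260), S-side (t2) at the U-level, II.

* `first_a`, `second_a`: first and second derivative in the form `∑_s H a_s S E_s - w ∈ N`.
* `ZW W = {v | w v = 0 for all w ∈ W}`; everything descends to `X = (δ → K) ⧸ ZW W`:
  `omX`, `nabX`, `evX`, `frX`, `sum_omX : ∑ s, omX s = 0`.
-/

set_option autoImplicit false
set_option linter.unusedSectionVars false
set_option linter.unusedFintypeInType false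
set_option linter.unusedDecidableInType false

namespace Crest.Agent.R172.SUB

open Matrix Module Crest.Agent.R172.FO Crest.Agent.R172.Qt Crest.Agent.R172.SpS
  Crest.Agent.R172.Om Crest.Agent.R172.SUX

variable {ι : Type*} [Fintype ι] [DecidableEq ι] {δ : Type*} [Fintype δ] [DecidableEq δ]
variable {k K : Type*} [Field k] [Field K] [Algebra k K]
variable {arm : δ → Fin 3} {J : Matrix ι ι K} {B : Matrix δ δ K}
  {N W : Submodule K (Matrix ι δ K)} {H : Matrix ι δ K}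

section rel

variable {P : Matrix ι ι K × (Fin 3 → Matrix ι ι K)} {Y : Fin 3 → Matrix δ δ K}
  {d : Derivation k K K}

/-- `Y θ_w = Gᵀ S` if `w Y = H G`, `θ_w` skew, `Y` symmetric -/
theorem Y_th (h : Ctx k arm J B N W H) (hP : P ∈ NN arm J N H) {w : Matrix ι δ K}
    (hsk : (th J H P.1 w)ᵀ = - th J H P.1 w) {Ys G : Matrix δ δ K} (hYs : Ysᵀ = Ys)
    (hG : w * Ys = H * G) : Ys * th J H P.1 w = Gᵀ * th J H P.1 H := by
  have hS := th_skew h hP ⟨h.memN, h.memW⟩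
  have e1 : th J H P.1 w * Ys = th J H P.1 H * G := by
    unfold th
    calc Hᵀ * J * (P.1 * w) * Ys = Hᵀ * J * (P.1 * (w * Ys)) := by simp only [Matrix.mul_assoc]
      _ = _ := by rw [hG]; simp only [Matrix.mul_assoc]
  have e2 := congrArg transpose e1
  rw [transpose_mul, transpose_mul, hYs, hsk, hS, Matrix.mul_neg, Matrix.mul_neg] at e2
  exact neg_injective e2

/-- **first derivative**: `∑_r H (G_r - G_rᵀ) S E_r + wd F ∈ N` for `F Y_r = H G_r` -/
theorem first_a (h : Ctx k arm J B N W H) (hP : P ∈ NN arm J N H) (hY : ∀ r, (Y r)ᵀ = Y r)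
    (m : Mv k arm J N W H P.1 Y d) {F : Matrix ι δ K} (hF : F ∈ N ⊓ W)
    {G : Fin 3 → Matrix δ δ K} (hG : ∀ r, F * Y r = H * G r) :
    ∑ r, H * (G r - (G r)ᵀ) * th J H P.1 H * E K arm r + wd arm J H P.1 Y d F ∈ N := by
  have h1 := m.first hF.1 (h.perp F hF)
  have h2 : ∀ r, (F * Y r * th J H P.1 H - H * Y r * th J H P.1 F) * E K arm r
      = H * (G r - (G r)ᵀ) * th J H P.1 H * E K arm r := by
    intro r
    rw [hG r, Matrix.mul_assoc H (Y r), Y_th h hP (th_skew h hP hF) (hY r) (hG r),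
      Matrix.mul_sub]
    simp only [Matrix.sub_mul, Matrix.mul_assoc]
  rw [Finset.sum_congr rfl fun r _ => h2 r] at h1
  exact h1

theorem Z_E (P : Matrix ι ι K) (Y : Fin 3 → Matrix δ δ K) (r : Fin 3) :
    ZY arm J H P Y * E K arm r = Y r * th J H P H * E K arm r := by
  unfold ZY
  rw [Matrix.sum_mul, Finset.sum_eq_single r]
  · rw [Matrix.mul_assoc, E_mul_self]
  · intro s _ hs
    rw [Matrix.mul_assoc, E_mul_ne arm hs, Matrix.mul_zero]
  · intro hr
    exact absurd (Finset.mem_univ r) hr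

/-- covariant derivative of a tensor `a ∈ U ⊗ U` -/
def nabM (arm : δ → Fin 3) (J : Matrix ι ι K) (H : Matrix ι δ K) (P : Matrix ι ι K)
    (Y : Fin 3 → Matrix δ δ K) (d : Derivation k K K) (a : Matrix δ δ K) : Matrix δ δ K :=
  a.map d + ZY arm J H P Y * a + a * (ZY arm J H P Y)ᵀ

theorem nabM_transpose (P : Matrix ι ι K) (a : Matrix δ δ K) :
    (nabM arm J H P Y d a)ᵀ = nabM arm J H P Y d aᵀ := by
  unfold nabM
  rw [transpose_add, transpose_add, transpose_mul, transpose_mul, transpose_transpose,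
    map_transpose_der]
  abel

/-- `∇ (u uᵀ) = (∇u) u'ᵀ + u (∇u')ᵀ` -/
theorem nabM_vecMulVec (P : Matrix ι ι K) (u u' : δ → K) :
    nabM arm J H P Y d (vecMulVec u u') = vecMulVec (nab arm J H P Y d u) u'
      + vecMulVec u (nab arm J H P Y d u') := by
  unfold nabM nab
  have e1 : (vecMulVec u u').map d = vecMulVec (dv d u) u' + vecMulVec u (dv d u') := by
    ext i j
    simp only [map_apply, vecMulVec_apply, Derivation.leibniz, smul_eq_mul, Matrix.add_apply, dv]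
    ring
  rw [e1, mul_vecMulVec, vecMulVec_mul, vecMul_transpose]
  ext i j
  simp only [Matrix.add_apply, vecMulVec_apply, Pi.add_apply]
  ring

/-- `(∇ (a S))`-rule: `Z (a S) + d(a S) = (∇ a) S + a S Z` -/
theorem nabM_S (h : Ctx k arm J B N W H) (m : Mv k arm J N W H P.1 Y d) (a : Matrix δ δ K) :
    ZY arm J H P.1 Y * (a * th J H P.1 H) + (a * th J H P.1 H).map d
      = nabM arm J H P.1 Y d a * th J H P.1 H + a * th J H P.1 H * ZY arm J H P.1 Y := by
  rw [map_mul_der, S_map h m]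
  unfold nabM
  simp only [Matrix.add_mul, Matrix.mul_add, Matrix.mul_assoc]
  abel

/-- **second derivative**: if `∑_s H a_s S E_s - w ∈ N`, `Hᵀ J w = 0`, `θ_w` skew and
`w Y_s = H G_s`, then
`∑_s H (∇a_s + a_s S Y_s - Y_s S a_s - G_s + G_sᵀ) S E_s - wd w ∈ N`. -/
theorem second_a (h : Ctx k arm J B N W H) (hP : P ∈ NN arm J N H) (hY : ∀ r, (Y r)ᵀ = Y r)
    (m : Mv k arm J N W H P.1 Y d) {w : Matrix ι δ K} {a G : Fin 3 → Matrix δ δ K}
    (hw : Hᵀ * J * w = 0) (hsk : (th J H P.1 w)ᵀ = - th J H P.1 w)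
    (hG : ∀ r, w * Y r = H * G r)
    (hV : ∑ s, H * a s * th J H P.1 H * E K arm s - w ∈ N) :
    ∑ s, H * (nabM arm J H P.1 Y d (a s) + a s * th J H P.1 H * Y s
        - Y s * th J H P.1 H * a s - G s + (G s)ᵀ) * th J H P.1 H * E K arm s
      - wd arm J H P.1 Y d w ∈ N := by
  have hV' : ∑ s, H * (a s * th J H P.1 H) * E K arm s - w ∈ N := by
    simpa only [Matrix.mul_assoc] using hV
  have h1 := Mv.second m h.iso hw hV'
  rw [wd_H m] at h1
  have h2 : ∀ s, (H * (ZY arm J H P.1 Y * (a s * th J H P.1 H) + (a s * th J H P.1 H).map d)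
      + (0 : Matrix ι δ K) * (a s * th J H P.1 H) - w * Y s * th J H P.1 H
      - H * Y s * (th J H P.1 H * (a s * th J H P.1 H) - th J H P.1 w)) * E K arm s
      = H * (nabM arm J H P.1 Y d (a s) + a s * th J H P.1 H * Y s
        - Y s * th J H P.1 H * a s - G s + (G s)ᵀ) * th J H P.1 H * E K arm s := by
    intro s
    have e1 : a s * th J H P.1 H * ZY arm J H P.1 Y * E K arm s
        = a s * th J H P.1 H * Y s * th J H P.1 H * E K arm s := by
      rw [Matrix.mul_assoc (a s * th J H P.1 H), Z_E]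
      simp only [Matrix.mul_assoc]
    have e2 : H * Y s * (th J H P.1 H * (a s * th J H P.1 H) - th J H P.1 w)
        = H * (Y s * th J H P.1 H * a s - (G s)ᵀ) * th J H P.1 H := by
      rw [Matrix.mul_sub, Matrix.mul_assoc H (Y s) (th J H P.1 w), Y_th h hP hsk (hY s) (hG s)]
      simp only [Matrix.mul_sub, Matrix.sub_mul, Matrix.mul_assoc]
    rw [nabM_S h m, hG s, e2, Matrix.zero_mul, add_zero, Matrix.mul_add H, Matrix.sub_mul,
      Matrix.sub_mul, Matrix.add_mul, Matrix.mul_assoc H (a s * th J H P.1 H * _), e1]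
    simp only [Matrix.mul_add, Matrix.mul_sub, Matrix.add_mul, Matrix.sub_mul, Matrix.mul_assoc]
    abel
  rw [Finset.sum_congr rfl fun s _ => h2 s] at h1
  exact h1

end rel

/-! ### the quotient `X = (δ → K) ⧸ ZW` -/

section quot

variable (W) in
/-- the common kernel of `W` -/
def ZW : Submodule K (δ → K) where
  carrier := {v | ∀ w ∈ W, w *ᵥ v = 0}
  zero_mem' := fun w _ => mulVec_zero w
  add_mem' := fun {a b} ha hb w hw => by rw [mulVec_add, ha w hw, hb w hw, add_zero]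
  smul_mem' := fun c v hv w hw => by rw [mulVec_smul, hv w hw, smul_zero]

theorem mem_ZW {v : δ → K} : v ∈ ZW W ↔ ∀ w ∈ W, w *ᵥ v = 0 := Iff.rfl

variable {P : Matrix ι ι K × (Fin 3 → Matrix ι ι K)} {Y : Fin 3 → Matrix δ δ K}
  {d : Derivation k K K}

theorem th_ZW (Pm : Matrix ι ι K) {w : Matrix ι δ K} (hw : w ∈ W) {v : δ → K} (hv : v ∈ ZW W) :
    th J H Pm w *ᵥ v = 0 := by
  unfold th
  simp only [← mulVec_mulVec]
  rw [hv w hw]
  simp only [mulVec_zero]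

theorem omF_ZW (Pm : Matrix ι ι K) {w : Matrix ι δ K} (hw : w ∈ W) (r : Fin 3) {v : δ → K}
    (hv : v ∈ ZW W) : omF arm J B H Pm w r *ᵥ v = 0 := by
  unfold omF
  rw [← mulVec_mulVec, th_ZW Pm hw hv, mulVec_zero]

theorem om_ZW (h : Ctx k arm J B N W H) (Pm : Matrix ι ι K) (r : Fin 3) {v : δ → K}
    (hv : v ∈ ZW W) : om arm J B H Pm r *ᵥ v = 0 := omF_ZW Pm h.memW r hv

/-- `∑ om_s v ∈ ZW` -/
theorem sum_om_mem (h : Ctx k arm J B N W H) (Pm : Matrix ι ι K) (F : Matrix ι δ K) (v : δ → K) :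
    ∑ s, omF arm J B H Pm F s *ᵥ v ∈ ZW W := by
  intro w hw
  have hs : ∑ s, omF arm J B H Pm F s = B * th J H Pm F := by
    unfold omF
    rw [← Matrix.sum_mul, ← Matrix.mul_sum, sum_E, Matrix.mul_one]
  rw [← Matrix.sum_mulVec, hs]
  have e := h.data.W_iso w hw H h.memW
  have e2 : w * (B * th J H Pm F) = 0 := by
    unfold th
    calc w * (B * (Hᵀ * J * (Pm * F))) = w * B * Hᵀ * (J * (Pm * F)) := by
          simp only [Matrix.mul_assoc]
      _ = 0 := by rw [e, Matrix.zero_mul]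
  rw [mulVec_mulVec, e2, zero_mulVec]

/-- `nabla ZW ≤ ZW` -/
theorem nab_ZW (m : Mv k arm J N W H P.1 Y d) {v : δ → K} (hv : v ∈ ZW W) :
    nab arm J H P.1 Y d v ∈ ZW W := by
  intro w hw
  have e := F_nab (arm := arm) (J := J) (H := H) (Y := Y) (d := d) P.1 w v
  rw [hv w hw, hv _ (m.w_mem hw), add_zero] at e
  rw [← e]
  funext i
  simp [dv]

/-- the map `X → X` induced by a matrix killing `ZW` -/
noncomputable def mX (A : Matrix δ δ K) (hA : ∀ v ∈ ZW W, A *ᵥ v = 0) :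
    ((δ → K) ⧸ ZW W) →ₗ[K] ((δ → K) ⧸ ZW W) :=
  (ZW W).mapQ (ZW W) A.mulVecLin fun v hv => by
    rw [Submodule.mem_comap, mulVecLin_apply, hA v hv]; exact Submodule.zero_mem _

theorem mX_mk (A : Matrix δ δ K) (hA : ∀ v ∈ ZW W, A *ᵥ v = 0) (v : δ → K) :
    mX A hA ((ZW W).mkQ v) = (ZW W).mkQ (A *ᵥ v) := rfl

/-- `ω_r` on `X` -/
noncomputable def omX (h : Ctx k arm J B N W H) (P : Matrix ι ι K) (r : Fin 3) :
    ((δ → K) ⧸ ZW W) →ₗ[K] ((δ → K) ⧸ ZW W) :=
  mX (om arm J B H P r) fun _ hv => om_ZW h P r hv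

theorem omX_mk (h : Ctx k arm J B N W H) (P : Matrix ι ι K) (r : Fin 3) (v : δ → K) :
    omX h P r ((ZW W).mkQ v) = (ZW W).mkQ (om arm J B H P r *ᵥ v) := rfl

theorem sum_omX (h : Ctx k arm J B N W H) (P : Matrix ι ι K) : ∑ r, omX h P r = 0 := by
  refine LinearMap.ext fun x => ?_
  obtain ⟨v, rfl⟩ := (ZW W).mkQ_surjective x
  rw [LinearMap.sum_apply, LinearMap.zero_apply]
  simp only [omX_mk]
  rw [← map_sum, Submodule.mkQ_apply, Submodule.Quotient.mk_eq_zero]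
  exact sum_om_mem h P H v

/-- evaluation of `w ∈ W` on `X` -/
noncomputable def evX (w : Matrix ι δ K) (hw : w ∈ W) : ((δ → K) ⧸ ZW W) →ₗ[K] (ι → K) :=
  (ZW W).liftQ w.mulVecLin fun v hv => by
    rw [LinearMap.mem_ker, mulVecLin_apply]; exact hv w hw

theorem evX_mk (w : Matrix ι δ K) (hw : w ∈ W) (v : δ → K) :
    evX w hw ((ZW W).mkQ v) = w *ᵥ v := rfl

/-- the elements of `X` are separated by `W` -/
theorem eq_zero_of_evX {x : (δ → K) ⧸ ZW W} (hx : ∀ w (hw : w ∈ W), evX w hw x = 0) : x = 0 := by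
  obtain ⟨v, rfl⟩ := (ZW W).mkQ_surjective x
  rw [Submodule.mkQ_apply, Submodule.Quotient.mk_eq_zero]
  exact fun w hw => hx w hw

/-- the operator `Y_r S` on `X` -/
noncomputable def YSX (h : Ctx k arm J B N W H) (P : Matrix ι ι K) (A : Matrix δ δ K) :
    ((δ → K) ⧸ ZW W) →ₗ[K] ((δ → K) ⧸ ZW W) :=
  mX (A * th J H P H) fun v hv => by
    rw [← mulVec_mulVec, th_ZW P h.memW hv, mulVec_zero]

theorem YSX_mk (h : Ctx k arm J B N W H) (P : Matrix ι ι K) (A : Matrix δ δ K) (v : δ → K) :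
    YSX h P A ((ZW W).mkQ v) = (ZW W).mkQ ((A * th J H P H) *ᵥ v) := rfl

/-- the form `aᵀ θ_w v` on `X` (`θ_w` skew) -/
noncomputable def frX (Pm : Matrix ι ι K) (w : Matrix ι δ K) (hw : w ∈ W)
    (hsk : (th J H Pm w)ᵀ = - th J H Pm w) :
    ((δ → K) ⧸ ZW W) →ₗ[K] ((δ → K) ⧸ ZW W) →ₗ[K] K :=
  (ZW W).liftQ ((ZW W).liftQ (((dotProductBilin K K).compl₂ (th J H Pm w).mulVecLin).flip)
    (fun v hv => by
      rw [LinearMap.mem_ker]
      refine LinearMap.ext fun a => ?_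
      change a ⬝ᵥ (th J H Pm w *ᵥ v) = 0
      rw [th_ZW Pm hw hv, dotProduct_zero])).flip (fun a ha => by
      rw [LinearMap.mem_ker]
      refine LinearMap.ext fun x => ?_
      obtain ⟨v, rfl⟩ := (ZW W).mkQ_surjective x
      change a ⬝ᵥ (th J H Pm w *ᵥ v) = 0
      rw [dotProduct_mulVec, ← mulVec_transpose, hsk, neg_mulVec, th_ZW Pm hw ha, neg_zero,
        zero_dotProduct])

theorem frX_mk (Pm : Matrix ι ι K) (w : Matrix ι δ K) (hw : w ∈ W)
    (hsk : (th J H Pm w)ᵀ = - th J H Pm w) (a v : δ → K) :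
    frX Pm w hw hsk ((ZW W).mkQ a) ((ZW W).mkQ v) = a ⬝ᵥ (th J H Pm w *ᵥ v) := rfl

/-- the covariant derivative on `X` -/
noncomputable def nabX (m : Mv k arm J N W H P.1 Y d) (x : (δ → K) ⧸ ZW W) :
    (δ → K) ⧸ ZW W :=
  (ZW W).mkQ (nab arm J H P.1 Y d (Function.surjInv (ZW W).mkQ_surjective x))

theorem nabX_mk (m : Mv k arm J N W H P.1 Y d) (v : δ → K) :
    nabX m ((ZW W).mkQ v) = (ZW W).mkQ (nab arm J H P.1 Y d v) := by
  unfold nabX
  set v' := Function.surjInv (ZW W).mkQ_surjective ((ZW W).mkQ v) with hv'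
  have h1 : (ZW W).mkQ v' = (ZW W).mkQ v := Function.surjInv_eq (ZW W).mkQ_surjective _
  have h2 : v' - v ∈ ZW W := by
    rw [← Submodule.Quotient.mk_eq_zero, ← Submodule.mkQ_apply, map_sub, h1, sub_self]
  have h3 := nab_ZW m h2
  rw [← sub_eq_zero, ← map_sub, Submodule.mkQ_apply, Submodule.Quotient.mk_eq_zero]
  have h4 : nab arm J H P.1 Y d v' - nab arm J H P.1 Y d v = nab arm J H P.1 Y d (v' - v) := by
    rw [sub_eq_iff_eq_add, ← nab_add, sub_add_cancel]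
  rw [h4]
  exact h3

theorem nabX_add (m : Mv k arm J N W H P.1 Y d) (x y : (δ → K) ⧸ ZW W) :
    nabX m (x + y) = nabX m x + nabX m y := by
  obtain ⟨v, rfl⟩ := (ZW W).mkQ_surjective x
  obtain ⟨w, rfl⟩ := (ZW W).mkQ_surjective y
  rw [← map_add, nabX_mk, nabX_mk, nabX_mk, nab_add, map_add]

theorem nabX_smul (m : Mv k arm J N W H P.1 Y d) (c : K) (x : (δ → K) ⧸ ZW W) :
    nabX m (c • x) = c • nabX m x + d c • x := by
  obtain ⟨v, rfl⟩ := (ZW W).mkQ_surjective x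
  rw [← map_smul, nabX_mk, nabX_mk, nab_smul, map_add, map_smul, map_smul]

/-- `nabX` as an additive map -/
noncomputable def nabXa (m : Mv k arm J N W H P.1 Y d) :
    ((δ → K) ⧸ ZW W) →+ ((δ → K) ⧸ ZW W) := AddMonoidHom.mk' (nabX m) (nabX_add m)

/-- **`[nabX, ω_r] = [Y_r S, ω_r]`** on `X` -/
theorem nabX_om (h : Ctx k arm J B N W H) (hP : P ∈ NN arm J N H) (hY : ∀ r, (Y r)ᵀ = Y r)
    (m : Mv k arm J N W H P.1 Y d) (r : Fin 3) (x : (δ → K) ⧸ ZW W) :
    nabX m (omX h P.1 r x) = omX h P.1 r (nabX m x) + YSX h P.1 (Y r) (omX h P.1 r x)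
      - omX h P.1 r (YSX h P.1 (Y r) x) := by
  obtain ⟨v, rfl⟩ := (ZW W).mkQ_surjective x
  rw [nabX_mk, omX_mk, nabX_mk, omX_mk, YSX_mk, YSX_mk, omX_mk, nab_om h hP hY m, map_sub,
    map_add]

/-- `d (w x) = w (nabX x) + (wd w) x` -/
theorem evX_nab (m : Mv k arm J N W H P.1 Y d) (w : Matrix ι δ K) (hw : w ∈ W)
    (x : (δ → K) ⧸ ZW W) :
    dv d (evX w hw x) = evX w hw (nabX m x) + evX (wd arm J H P.1 Y d w) (m.w_mem hw) x := by
  obtain ⟨v, rfl⟩ := (ZW W).mkQ_surjective x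
  rw [nabX_mk, evX_mk, evX_mk, evX_mk]
  exact F_nab P.1 w v

/-- `d (H x) = H (nabX x)` -/
theorem evX_H_nab (h : Ctx k arm J B N W H) (m : Mv k arm J N W H P.1 Y d)
    (x : (δ → K) ⧸ ZW W) :
    dv d (evX H h.memW x) = evX H h.memW (nabX m x) := by
  obtain ⟨v, rfl⟩ := (ZW W).mkQ_surjective x
  rw [nabX_mk, evX_mk, evX_mk]
  exact H_nab m v

/-- `d (x S y) = (∇x) S y + x S (∇y)` -/
theorem frX_nab (h : Ctx k arm J B N W H) (hP : P ∈ NN arm J N H)
    (m : Mv k arm J N W H P.1 Y d) (x y : (δ → K) ⧸ ZW W) :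
    d (frX P.1 H h.memW (th_skew h hP ⟨h.memN, h.memW⟩) x y)
      = frX P.1 H h.memW (th_skew h hP ⟨h.memN, h.memW⟩) (nabX m x) y
        + frX P.1 H h.memW (th_skew h hP ⟨h.memN, h.memW⟩) x (nabX m y) := by
  obtain ⟨v, rfl⟩ := (ZW W).mkQ_surjective x
  obtain ⟨w, rfl⟩ := (ZW W).mkQ_surjective y
  rw [nabX_mk, nabX_mk, frX_mk, frX_mk, frX_mk]
  exact form_nab h m v w

/-- `Y_r S` for `Y_r = u vᵀ` -/
theorem YSX_vecMulVec (h : Ctx k arm J B N W H) (hP : P ∈ NN arm J N H) (u v : δ → K)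
    (x : (δ → K) ⧸ ZW W) :
    YSX h P.1 (vecMulVec u v) x
      = frX P.1 H h.memW (th_skew h hP ⟨h.memN, h.memW⟩) ((ZW W).mkQ v) x • (ZW W).mkQ u := by
  obtain ⟨w, rfl⟩ := (ZW W).mkQ_surjective x
  rw [YSX_mk, frX_mk, ← map_smul]
  congr 1
  rw [← mulVec_mulVec, vecMulVec_mulVec]
  funext i
  simp [mul_comm]

/-- the form is `ω`-selfadjoint up to sign: `(om_r u) S v = - u S (om_r v)` -/
theorem frX_om (h : Ctx k arm J B N W H) (hP : P ∈ NN arm J N H) (r : Fin 3)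
    (x y : (δ → K) ⧸ ZW W) :
    frX P.1 H h.memW (th_skew h hP ⟨h.memN, h.memW⟩) (omX h P.1 r x) y
      = - frX P.1 H h.memW (th_skew h hP ⟨h.memN, h.memW⟩) x (omX h P.1 r y) := by
  obtain ⟨v, rfl⟩ := (ZW W).mkQ_surjective x
  obtain ⟨w, rfl⟩ := (ZW W).mkQ_surjective y
  rw [omX_mk, omX_mk, frX_mk, frX_mk]
  have hS := th_skew h hP ⟨h.memN, h.memW⟩
  have e1 : (om arm J B H P.1 r)ᵀ * th J H P.1 H = -(th J H P.1 H * om arm J B H P.1 r) := by
    unfold om omF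
    rw [transpose_mul, transpose_mul, E_transpose, h.data.B_symm, hS, h.data.B_arm]
    simp only [Matrix.neg_mul, Matrix.mul_assoc]
  calc (om arm J B H P.1 r *ᵥ v) ⬝ᵥ (th J H P.1 H *ᵥ w)
      = v ⬝ᵥ (((om arm J B H P.1 r)ᵀ * th J H P.1 H) *ᵥ w) := by
        rw [← mulVec_mulVec, dotProduct_comm, dotProduct_mulVec, ← mulVec_transpose,
          dotProduct_comm]
    _ = _ := by rw [e1, neg_mulVec, dotProduct_neg, mulVec_mulVec]

/-- the form is skew -/
theorem frX_skew (h : Ctx k arm J B N W H) (hP : P ∈ NN arm J N H) (x y : (δ → K) ⧸ ZW W) :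
    frX P.1 H h.memW (th_skew h hP ⟨h.memN, h.memW⟩) x y
      = - frX P.1 H h.memW (th_skew h hP ⟨h.memN, h.memW⟩) y x := by
  obtain ⟨v, rfl⟩ := (ZW W).mkQ_surjective x
  obtain ⟨w, rfl⟩ := (ZW W).mkQ_surjective y
  rw [frX_mk, frX_mk]
  have hS := th_skew h hP ⟨h.memN, h.memW⟩
  rw [dotProduct_mulVec, ← mulVec_transpose, hS, neg_mulVec, neg_dotProduct, dotProduct_comm]

end quot

end Crest.Agent.R172.SUB
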