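import Crest.Agent.R172.UFr
import Crest.Agent.R172.SUB2
import Crest.Agent.R172.SHex965

/-!
Row 172 (S0260), S-side: the connection `∇` preserves the sum of the two active blocks.
No core at `H = g + t f` is used: the full form at `H` is an orthogonal sum of the forms of the
blocks and of one extra form `T`.
-/

set_option autoImplicit false
set_option linter.unusedSectionVars false
set_option linter.unusedVariables false
set_option linter.unusedFintypeInType false
set_option linter.unusedDecidableInType false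

namespace Crest.Agent.R172.ND756

open Module

section abs

variable {K V α κ : Type*} [Field K] [AddCommGroup V] [Module K V] [Fintype α] [DecidableEq α]
  {Ψ : α → κ → End K V} {om : κ → End K V}

/-- nonempty words split -/
theorem word_split (hcross : ∀ i j, i ≠ j → ∀ s t v, Ψ i s (Ψ j t v) = 0)
    (hom : ∀ s v, om s v = ∑ i, Ψ i s v) :
    ∀ (w : List κ) (r : κ) (v : V), ((r :: w).map om).prod v = ∑ i, ((r :: w).map (Ψ i)).prod v := by
  intro w
  induction w with
  | nil => intro r v; simpa using hom r v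
  | cons t w ih =>
    intro r v
    have h1 : ((r :: t :: w).map om).prod v = om r (((t :: w).map om).prod v) := by
      rw [List.map_cons, List.prod_cons, Module.End.mul_apply]
    have h2 : ∀ i, ((r :: t :: w).map (Ψ i)).prod v = Ψ i r (((t :: w).map (Ψ i)).prod v) := by
      intro i
      rw [List.map_cons, List.prod_cons, Module.End.mul_apply]
    rw [h1, ih, hom]
    refine Finset.sum_congr rfl fun i _ => ?_
    rw [h2, map_sum, Finset.sum_eq_single i]
    · intro j _ hji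
      rw [List.map_cons, List.prod_cons, Module.End.mul_apply]
      exact hcross i j (Ne.symm hji) _ _ _
    · intro h; exact absurd (Finset.mem_univ i) h

variable {nab : V → V} {Q C : Submodule K V}

/-- **the abstract inclusion** -/
theorem nab_le [Fintype κ] (hcross : ∀ i j, i ≠ j → ∀ s t v, Ψ i s (Ψ j t v) = 0)
    (hom : ∀ s v, om s v = ∑ i, Ψ i s v) (hadd : ∀ u v, nab (u + v) = nab u + nab v)
    (h0 : nab 0 = 0)
    (hperf : ∀ u ∈ Q, ∃ c : κ → V, (∀ r, c r ∈ Q) ∧ ∑ r, om r (c r) = u)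
    (hc : ∀ r, ∀ u ∈ Q, nab (om r u) - om r (nab u) ∈ C)
    (hC : ∀ s, ∀ v ∈ C, om s v ∈ C) {I : Set α}
    (hI : ∀ i ∉ I, ∀ s, ∀ u ∈ Q, Ψ i s (nab u) = 0) {m : ℕ}
    (hw : ∀ i ∈ I, ∀ w : List κ, w.length = m + 1 → ∀ v, (w.map (Ψ i)).prod v ∈ C) :
    ∀ u ∈ Q, nab u ∈ C := by
  classical
  have hsum : ∀ (c : κ → V), nab (∑ r, c r) = ∑ r, nab (c r) := by
    intro c
    let F : V →+ V := AddMonoidHom.mk' nab hadd
    exact map_sum F c Finset.univ
  have key : ∀ n : ℕ, ∀ u ∈ Q, nab u ∈ C ⊔ Submodule.span K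
      {x | ∃ (w : List κ) (u' : V), w.length = n ∧ u' ∈ Q ∧ x = (w.map om).prod (nab u')} := by
    intro n
    induction n with
    | zero =>
      intro u hu
      exact Submodule.mem_sup_right (Submodule.subset_span ⟨[], u, rfl, hu, by simp⟩)
    | succ n ih =>
      intro u hu
      obtain ⟨c, hcQ, rfl⟩ := hperf u hu
      rw [hsum]
      refine Submodule.sum_mem _ fun r _ => ?_
      have h1 := hc r (c r) (hcQ r)
      have h2 : nab (om r (c r)) = (nab (om r (c r)) - om r (nab (c r))) + om r (nab (c r)) := by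
        abel
      rw [h2]
      refine Submodule.add_mem _ (Submodule.mem_sup_left h1) ?_
      have h3 := ih (c r) (hcQ r)
      obtain ⟨a, ha, b, hb, hab⟩ := Submodule.mem_sup.1 h3
      rw [← hab, map_add]
      refine Submodule.add_mem _ (Submodule.mem_sup_left (hC r a ha)) (Submodule.mem_sup_right ?_)
      have h4 : Submodule.span K {x | ∃ (w : List κ) (u' : V), w.length = n ∧ u' ∈ Q ∧
          x = (w.map om).prod (nab u')} ≤ (Submodule.span K {x | ∃ (w : List κ) (u' : V),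
          w.length = n + 1 ∧ u' ∈ Q ∧ x = (w.map om).prod (nab u')}).comap (om r) := by
        rw [Submodule.span_le]
        rintro _ ⟨w, u', hwl, hu', rfl⟩
        refine Submodule.subset_span ⟨r :: w, u', by rw [List.length_cons, hwl], hu', ?_⟩
        rw [List.map_cons, List.prod_cons, Module.End.mul_apply]
      exact h4 hb
  intro u hu
  have h1 := key (m + 1) u hu
  refine (sup_le le_rfl ?_ : C ⊔ _ ≤ C) h1
  rw [Submodule.span_le]
  rintro _ ⟨w, u', hwl, hu', rfl⟩
  change _ ∈ C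
  cases w with
  | nil => simp at hwl
  | cons r w =>
    rw [word_split hcross hom]
    refine Submodule.sum_mem _ fun i _ => ?_
    by_cases hi : i ∈ I
    · exact hw i hi _ hwl _
    · have h5 : ((r :: w).map (Ψ i)).prod (nab u') = 0 := by
        have h6 : ∀ (w : List κ) (r : κ), ((r :: w).map (Ψ i)).prod (nab u') = 0 := by
          intro w
          induction w with
          | nil => intro r; simpa using hI i hi r u' hu'
          | cons t w ih =>
            intro r
            rw [List.map_cons, List.prod_cons, Module.End.mul_apply, ih t, map_zero]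
        exact h6 w r
      rw [h5]; exact C.zero_mem

end abs

section par

open Crest.Agent.R172.PL (Wk Ainf Rad CoreM coreOp Ainf_exists Ainf_le_Wk)
open Crest.Agent.R172.SBlk (Par)

variable {K V κ : Type*} [Field K] [AddCommGroup V] [Module K V] [FiniteDimensional K V]
  [Fintype κ] {Φ Ns : κ → End K V} {Ψ : K → κ → End K V} {S : Finset K}

/-- the perfect part of `Ψ_c` lies in the block of `c` -/
theorem ainf_le_PB (h : Par Φ Ns Ψ S) {D : End K (CoreM Φ)}
    (hD : ∀ (s : κ) (v w : Ainf Φ), (w : V) = Ns s (v : V) →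
      D (coreOp Φ s ((Rad Φ).mkQ v)) = (Rad Φ).mkQ w) (c : K) :
    Ainf (Ψ c) ≤ SC.PB Φ D c := by
  classical
  have h1 : ∀ v ∈ Ainf (Ψ c), ∃ f : κ → V, (∀ s, f s ∈ Ainf (Ψ c)) ∧ ∑ s, Ψ c s (f s) = v :=
    fun v hv => Ainf_exists (Ψ c) hv
  have h2 : ∀ v ∈ Ainf (Ψ c), ∀ s, Φ s v = Ψ c s v := by
    intro v hv s
    obtain ⟨f, hf, rfl⟩ := h1 v hv
    rw [map_sum, map_sum]
    exact Finset.sum_congr rfl fun t _ => h.diag c s t (f t)
  have h3 : Ainf (Ψ c) ≤ ⨆ s, (Ainf (Ψ c)).map (Φ s) := by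
    intro v hv
    obtain ⟨f, hf, rfl⟩ := h1 v hv
    exact Submodule.sum_mem _ fun s _ => Submodule.mem_iSup_of_mem s
      ⟨f s, hf s, h2 _ (hf s) s⟩
  have h4 : Ainf (Ψ c) ≤ Ainf Φ := by
    refine le_iInf fun k => ?_
    induction k with
    | zero => exact le_top
    | succ k ih => exact h3.trans (iSup_mono fun s => Submodule.map_mono ih)
  refine SC.le_perf ?_ h3
  intro v hv
  refine SC.mem_QB.2 ⟨h4 hv, ?_⟩
  obtain ⟨f, hf, hfv⟩ := h1 v hv
  choose g hg hgs using fun s => h1 (f s) (hf s)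
  have h5 : (⟨v, h4 hv⟩ : Ainf Φ) = ∑ s, ∑ t, (⟨Ψ c s (Ψ c t (g s t)),
      h.ainf c s (h.ainf c t (h4 (hg s t)))⟩ : Ainf Φ) := by
    apply Subtype.ext
    simp only [Submodule.coe_sum]
    rw [← hfv]
    refine Finset.sum_congr rfl fun s _ => ?_
    rw [← map_sum, hgs s]
  rw [h5, map_sum]
  refine Submodule.sum_mem _ fun s _ => ?_
  rw [map_sum]
  refine Submodule.sum_mem _ fun t _ => ?_
  refine Module.End.mem_maxGenEigenspace _ _ _ |>.2 ⟨1, ?_⟩
  rw [pow_one, LinearMap.sub_apply, LinearMap.smul_apply, Module.End.one_apply,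
    h.eig hD c s t ⟨g s t, h4 (hg s t)⟩, sub_self]

end par

section mat

open Matrix Crest.Agent.R172.FO Crest.Agent.R172.Qt Crest.Agent.R172.SpS
open Crest.Agent.R172.SBlk Crest.Agent.R172.UBlk
open Crest.Agent.R172.PL (CoreM Ainf Wk)
open Crest.Agent.R172.SUX (th)

variable {ι : Type*} [Fintype ι] [DecidableEq ι] {δ : Type*} [Fintype δ] [DecidableEq δ]
variable {k K : Type*} [Field k] [Field K] [Algebra k K]
variable {arm : δ → Fin 3} {J : Matrix ι ι K} {B : Matrix δ δ K}
  {N W : Submodule K (Matrix ι δ K)} {g f : Matrix ι δ K}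
  {p : Matrix ι ι K × (Fin 3 → Matrix ι ι K)} {S : Finset K}
  {q : K → Matrix ι ι K × (Fin 3 → Matrix ι ι K)}

/-- the form of the block `c` -/
def Sc (J : Matrix ι ι K) (g : Matrix ι δ K) (q : K → Matrix ι ι K × (Fin 3 → Matrix ι ι K))
    (c : K) : Matrix δ δ K := gᵀ * J * ((q c).1 * g)

/-- the extra form -/
def TT (J : Matrix ι ι K) (g f : Matrix ι δ K) (q : K → Matrix ι ι K × (Fin 3 → Matrix ι ι K))
    (S : Finset K) (dY : Derivation k K K) : Matrix δ δ K :=
  fᵀ * J * f.map dY - ∑ c ∈ S, c ^ 2 • Sc J g q c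

theorem e2_of (h : Ctx k arm J B N W g) (hp : p ∈ NN arm J N g) (hf : f ∈ N ⊓ W) {a : K}
    (ha : a ≠ 0) {Pt : Matrix ι ι K} {dY : Derivation k K K}
    (hY : ∀ f' ∈ N ⊓ W, (g + a • f)ᵀ * J * (Pt * f') = (g + a • f)ᵀ * J * f'.map dY)
    (hPF : (g + a • f)ᵀ * J * (Pt * g) = (g + a • f)ᵀ * J * (p.1 * g))
    (e1 : gᵀ * J * g.map dY = gᵀ * J * (p.1 * g)) :
    fᵀ * J * g.map dY = gᵀ * J * (p.1 * f) := by
  have h1 := (hY g h.mem).symm.trans hPF
  simp only [transpose_add, transpose_smul, Matrix.add_mul, Matrix.smul_mul] at h1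
  rw [e1, add_right_inj] at h1
  have h2 : fᵀ * J * g.map dY = fᵀ * J * (p.1 * g) := by
    have h3 := congrArg (fun X => a⁻¹ • X) h1
    simpa [smul_smul, inv_mul_cancel₀ ha] using h3
  rw [h2]
  exact SUX.th_flip h hp hf

theorem e3_of (h : Ctx k arm J B N W g) (hp : p ∈ NN arm J N g) (hf : f ∈ N ⊓ W)
    {dY : Derivation k K K} (e2 : fᵀ * J * g.map dY = gᵀ * J * (p.1 * f)) :
    gᵀ * J * f.map dY = gᵀ * J * (p.1 * f) := by
  have hD := h.data
  have h1 := congrArg (fun A : Matrix δ δ K => A.map dY) (h.perp f hf)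
  simp only [map_mul_der, hD.J_const, Matrix.mul_zero, add_zero, map_transpose_der,
    SRow.map_zero_d] at h1
  have h2 : (g.map dY)ᵀ * J * f = (fᵀ * J * g.map dY)ᵀ := by
    rw [transpose_mul, transpose_mul, transpose_transpose, hD.J_symm, Matrix.mul_assoc]
  have h3 : (gᵀ * J * (p.1 * f))ᵀ = -(gᵀ * J * (p.1 * f)) := SUX.th_skew h hp hf
  rw [h2, e2, h3, neg_add_eq_zero] at h1
  exact h1.symm

theorem S_full (h : Ctx k arm J B N W g) (hp : p ∈ NN arm J N g) (hf : f ∈ N ⊓ W)
    (hq : Spec arm J N g f p.1 S q) {a : K} {Pt : Matrix ι ι K} {dY : Derivation k K K}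
    (hY : ∀ f' ∈ N ⊓ W, (g + a • f)ᵀ * J * (Pt * f') = (g + a • f)ᵀ * J * f'.map dY)
    (e1 : gᵀ * J * g.map dY = gᵀ * J * (p.1 * g))
    (e2 : fᵀ * J * g.map dY = gᵀ * J * (p.1 * f)) :
    th J (g + a • f) Pt (g + a • f) =
      ∑ c ∈ S, (1 + a * c) ^ 2 • Sc J g q c + a ^ 2 • TT J g f q S dY := by
  have e3 := e3_of h hp hf e2
  have h1 : th J (g + a • f) Pt (g + a • f) =
      (g + a • f)ᵀ * J * g.map dY + a • ((g + a • f)ᵀ * J * f.map dY) := by
    rw [← hY g h.mem, ← hY f hf]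
    unfold th
    rw [Matrix.mul_add, Matrix.mul_smul, Matrix.mul_add, Matrix.mul_smul]
  have h2 : gᵀ * J * (p.1 * g) = ∑ c ∈ S, Sc J g q c := hq.sum
  have h3 : gᵀ * J * (p.1 * f) = ∑ c ∈ S, c • Sc J g q c := hq.sumf
  have h4 : ∑ c ∈ S, (1 + a * c) ^ 2 • Sc J g q c = ∑ c ∈ S, Sc J g q c +
      (2 * a) • ∑ c ∈ S, c • Sc J g q c + a ^ 2 • ∑ c ∈ S, c ^ 2 • Sc J g q c := by
    rw [Finset.smul_sum, Finset.smul_sum, ← Finset.sum_add_distrib, ← Finset.sum_add_distrib]
    refine Finset.sum_congr rfl fun c _ => ?_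
    rw [smul_smul, smul_smul]
    module
  rw [h1, h4]
  simp only [transpose_add, transpose_smul, Matrix.add_mul, Matrix.smul_mul]
  rw [e1, e2, e3, h2, h3]
  unfold TT
  rw [smul_sub]
  module

theorem Sc_skew (h : Ctx k arm J B N W g) (hq : Spec arm J N g f p.1 S q) (c : K) :
    (Sc J g q c)ᵀ = -Sc J g q c := form_skew h.data.J_symm (hq.mem c)

theorem TT_skew (h : Ctx k arm J B N W g) (hq : Spec arm J N g f p.1 S q)
    (hff : fᵀ * J * f = 0) (dY : Derivation k K K) :
    (TT J g f q S dY)ᵀ = -TT J g f q S dY := by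
  have hD := h.data
  have h1 := congrArg (fun A : Matrix δ δ K => A.map dY) hff
  simp only [map_mul_der, hD.J_const, Matrix.mul_zero, add_zero, map_transpose_der,
    SRow.map_zero_d] at h1
  have h2 : (fᵀ * J * f.map dY)ᵀ = (f.map dY)ᵀ * J * f := by
    rw [transpose_mul, transpose_mul, transpose_transpose, hD.J_symm, Matrix.mul_assoc]
  have h3 : (fᵀ * J * f.map dY)ᵀ = -(fᵀ * J * f.map dY) := by
    rw [h2]; exact eq_neg_of_add_eq_zero_left h1
  unfold TT
  rw [transpose_sub, h3, transpose_sum]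
  simp only [transpose_smul, Sc_skew h hq, smul_neg, Finset.sum_neg_distrib]
  abel

theorem Sc_cross (h : Ctx k arm J B N W g) (hq : Spec arm J N g f p.1 S q) (hf : f ∈ N ⊓ W)
    {c c' : K} (hne : c ≠ c') (s : Fin 3) :
    Sc J g q c * (E K arm s * B) * Sc J g q c' = 0 := hq.cross h hf hne s

theorem sum_cross (h : Ctx k arm J B N W g) (hq : Spec arm J N g f p.1 S q) (hf : f ∈ N ⊓ W)
    (c : K) (s : Fin 3) (w : K → K) :
    (∑ c' ∈ S, w c' • Sc J g q c') * (E K arm s * B) * Sc J g q c =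
      w c • (Sc J g q c * (E K arm s * B) * Sc J g q c) := by
  rw [Matrix.sum_mul, Matrix.sum_mul]
  by_cases hc : c ∈ S
  · rw [Finset.sum_eq_single c]
    · rw [Matrix.smul_mul, Matrix.smul_mul]
    · intro c' _ hne
      rw [Matrix.smul_mul, Matrix.smul_mul, Sc_cross h hq hf hne, smul_zero]
    · intro h'; exact absurd hc h'
  · have h0 : Sc J g q c = 0 := hq.out c hc
    rw [h0]
    simp

/-- `T` is orthogonal to the blocks -/
theorem TT_cross (h : Ctx k arm J B N W g) (hp : p ∈ NN arm J N g) (hf : f ∈ N ⊓ W)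
    (hq : Spec arm J N g f p.1 S q) (hff : fᵀ * J * f = 0) {dY : Derivation k K K}
    (e2 : fᵀ * J * g.map dY = gᵀ * J * (p.1 * f)) (c : K) (s : Fin 3) :
    TT J g f q S dY * (E K arm s * B) * Sc J g q c = 0 := by
  have hgf : gᵀ * J * f = 0 := h.perp f hf
  have hfg : fᵀ * J * g = 0 := by
    have := congrArg transpose hgf
    rw [transpose_mul, transpose_mul, transpose_transpose, h.data.J_symm, transpose_zero,
      ← Matrix.mul_assoc] at this
    exact this
  have h1 := congrArg (fun X => fᵀ * J * X * (J * ((q c).1 * g))) (UFr.symm_der h hf dY s)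
  have l1 : fᵀ * J * (f.map dY * E K arm s * B * gᵀ + f * E K arm s * B * (g.map dY)ᵀ) *
      (J * ((q c).1 * g)) = fᵀ * J * f.map dY * (E K arm s * B) * Sc J g q c := by
    have e0 : fᵀ * J * (f * E K arm s * B * (g.map dY)ᵀ) = 0 := by
      calc fᵀ * J * (f * E K arm s * B * (g.map dY)ᵀ)
          = (fᵀ * J * f) * (E K arm s * B * (g.map dY)ᵀ) := by simp only [Matrix.mul_assoc]
        _ = 0 := by rw [hff, Matrix.zero_mul]
    rw [Matrix.mul_add, e0, add_zero]
    unfold Sc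
    simp only [Matrix.mul_assoc]
  have l2 : fᵀ * J * (g.map dY * E K arm s * B * fᵀ + g * E K arm s * B * (f.map dY)ᵀ) *
      (J * ((q c).1 * g)) = fᵀ * J * g.map dY * (E K arm s * B) * (c • Sc J g q c) := by
    have e0 : fᵀ * J * (g * E K arm s * B * (f.map dY)ᵀ) = 0 := by
      calc fᵀ * J * (g * E K arm s * B * (f.map dY)ᵀ)
          = (fᵀ * J * g) * (E K arm s * B * (f.map dY)ᵀ) := by simp only [Matrix.mul_assoc]
        _ = 0 := by rw [hfg, Matrix.zero_mul]
    have e4 : fᵀ * (J * ((q c).1 * g)) = c • Sc J g q c := by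
      have := hq.flip h.data.J_symm c
      rw [← Matrix.mul_assoc, ← Matrix.mul_assoc]
      rw [← Matrix.mul_assoc] at this
      exact this
    rw [Matrix.mul_add, e0, add_zero, ← e4]
    simp only [Matrix.mul_assoc]
  rw [l1, l2, e2] at h1
  have h3 : gᵀ * J * (p.1 * f) = ∑ c ∈ S, c • Sc J g q c := hq.sumf
  unfold TT
  rw [Matrix.sub_mul, Matrix.sub_mul, h1, h3, sum_cross h hq hf c s (fun c => c ^ 2),
    Matrix.mul_smul, sum_cross h hq hf c s (fun c => c), smul_smul, ← sub_smul]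
  have : c * c - c ^ 2 = 0 := by ring
  rw [this, zero_smul]

theorem TT_cross' (h : Ctx k arm J B N W g) (hp : p ∈ NN arm J N g) (hf : f ∈ N ⊓ W)
    (hq : Spec arm J N g f p.1 S q) (hff : fᵀ * J * f = 0) {dY : Derivation k K K}
    (e2 : fᵀ * J * g.map dY = gᵀ * J * (p.1 * f)) (c : K) (s : Fin 3) :
    Sc J g q c * (E K arm s * B) * TT J g f q S dY = 0 := by
  have h1 := congrArg transpose (TT_cross h hp hf hq hff e2 c s)
  rw [transpose_mul, transpose_mul, transpose_mul, Sc_skew h hq, TT_skew h hq hff, E_transpose,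
    h.data.B_symm, transpose_zero, Matrix.neg_mul, Matrix.mul_neg, Matrix.mul_neg, neg_neg,
    ← h.data.B_arm, ← Matrix.mul_assoc] at h1
  exact h1

/-- the orthogonal family -/
def Ps (arm : δ → Fin 3) (J : Matrix ι ι K) (B : Matrix δ δ K) (g f : Matrix ι δ K)
    (q : K → Matrix ι ι K × (Fin 3 → Matrix ι ι K)) (S : Finset K) (dY : Derivation k K K) :
    Option {c : K // c ∈ S} → Fin 3 → End K (δ → K)
  | some c => UBlk.om arm J B g (q c.1).1 g
  | none => fun s => Matrix.mulVecLin (B * E K arm s * TT J g f q S dY)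

def lx : Option {c : K // c ∈ S} → K
  | some _ => 1
  | none => 0

def ly : Option {c : K // c ∈ S} → K
  | some c => c.1
  | none => 1

def lam (a : K) (i : Option {c : K // c ∈ S}) : K := (lx i + ly i * a) ^ 2

theorem mul_cross (hBE : ∀ s, E K arm s * B = B * E K arm s) {X Y : Matrix δ δ K} (s t : Fin 3)
    (h : X * (E K arm t * B) * Y = 0) (v : δ → K) :
    (B * E K arm s * X) *ᵥ ((B * E K arm t * Y) *ᵥ v) = 0 := by
  rw [mulVec_mulVec]
  have h1 : B * E K arm s * X * (B * E K arm t * Y) =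
      B * E K arm s * (X * (E K arm t * B) * Y) := by
    rw [hBE]; simp only [Matrix.mul_assoc]
  rw [h1, h, Matrix.mul_zero, zero_mulVec]

theorem Ps_cross (h : Ctx k arm J B N W g) (hp : p ∈ NN arm J N g) (hf : f ∈ N ⊓ W)
    (hq : Spec arm J N g f p.1 S q) (hff : fᵀ * J * f = 0) {dY : Derivation k K K}
    (e2 : fᵀ * J * g.map dY = gᵀ * J * (p.1 * f)) :
    ∀ i j, i ≠ j → ∀ s t v, Ps arm J B g f q S dY i s (Ps arm J B g f q S dY j t v) = 0 := by
  intro i j hij s t v
  rcases i with _ | c <;> rcases j with _ | c'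
  · exact absurd rfl hij
  · exact mul_cross h.data.B_arm s t (TT_cross h hp hf hq hff e2 c'.1 t) v
  · exact mul_cross h.data.B_arm s t (TT_cross' h hp hf hq hff e2 c.1 t) v
  · refine mul_cross h.data.B_arm s t (Sc_cross h hq hf (c := c.1) (c' := c'.1) ?_ t) v
    intro hc
    exact hij (congrArg some (Subtype.ext hc))

theorem om_split (h : Ctx k arm J B N W g) (hp : p ∈ NN arm J N g) (hf : f ∈ N ⊓ W)
    (hq : Spec arm J N g f p.1 S q) {a : K} {Pt : Matrix ι ι K} {dY : Derivation k K K}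
    (hY : ∀ f' ∈ N ⊓ W, (g + a • f)ᵀ * J * (Pt * f') = (g + a • f)ᵀ * J * f'.map dY)
    (e1 : gᵀ * J * g.map dY = gᵀ * J * (p.1 * g))
    (e2 : fᵀ * J * g.map dY = gᵀ * J * (p.1 * f)) (s : Fin 3) (v : δ → K) :
    UBlk.om arm J B (g + a • f) Pt (g + a • f) s v =
      ∑ i, (lam a i • Ps arm J B g f q S dY i s) v := by
  rw [UBlk.om_apply, S_full h hp hf hq hY e1 e2, Fintype.sum_option]
  have h1 : ∑ i : {c : K // c ∈ S}, (lam a (some i) • Ps arm J B g f q S dY (some i) s) v =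
      ∑ c ∈ S, (1 + c * a) ^ 2 • ((B * E K arm s * Sc J g q c) *ᵥ v) :=
    Finset.sum_coe_sort S (fun c => (1 + c * a) ^ 2 • ((B * E K arm s * Sc J g q c) *ᵥ v))
  have h2 : (lam a (none : Option {c : K // c ∈ S}) • Ps arm J B g f q S dY none s) v =
      a ^ 2 • ((B * E K arm s * TT J g f q S dY) *ᵥ v) := by
    have : lam a (none : Option {c : K // c ∈ S}) = a ^ 2 := by
      change (0 + 1 * a) ^ 2 = a ^ 2
      ring
    rw [this]; rfl
  rw [h1, h2, Matrix.mul_add, add_mulVec, Matrix.mul_sum, sum_mulVec, add_comm]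
  congr 1
  · rw [Matrix.mul_smul, smul_mulVec]
  · refine Finset.sum_congr rfl fun c _ => ?_
    rw [Matrix.mul_smul, smul_mulVec, mul_comm a c]

/-- finiteness of the exceptional parameters of one eigenvalue -/
theorem fin_lam [IsAlgClosed K] (i : Option {c : K // c ∈ S}) (μ κ : K)
    (hne : lx i * μ ≠ ly i) : {a : K | lam a i = κ * (1 + a * μ) ^ 2}.Finite := by
  obtain ⟨s, hs⟩ := IsAlgClosed.exists_pow_nat_eq κ (n := 2) (by norm_num)
  have h1 : ∀ σ : K, {a : K | lx i + ly i * a = σ * (1 + a * μ)}.Subsingleton := by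
    intro σ a ha b hb
    change lx i + ly i * a = σ * (1 + a * μ) at ha
    change lx i + ly i * b = σ * (1 + b * μ) at hb
    have h2 : (a - b) * (ly i - σ * μ) = 0 := by linear_combination ha - hb
    rcases mul_eq_zero.1 h2 with h3 | h3
    · exact sub_eq_zero.1 h3
    · exfalso
      have h4 : ly i = σ * μ := sub_eq_zero.1 h3
      have h5 : lx i = σ := by
        rw [h4] at ha
        linear_combination ha
      exact hne (by rw [h5, h4])
  refine ((h1 s).finite.union (h1 (-s)).finite).subset ?_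
  intro a ha
  change lam a i = κ * (1 + a * μ) ^ 2 at ha
  have h3 : (lx i + ly i * a - s * (1 + a * μ)) * (lx i + ly i * a + s * (1 + a * μ)) = 0 := by
    unfold lam at ha
    rw [← hs] at ha
    linear_combination ha
  rcases mul_eq_zero.1 h3 with h4 | h4
  · left
    exact sub_eq_zero.1 h4
  · right
    change lx i + ly i * a = -s * (1 + a * μ)
    linear_combination h4

section main

variable (h : Ctx k arm J B N W g) {R : Matrix δ ι K} (hR : g * R * g = g)
  {D : End K (CoreM (Ph arm J B g R p.1))}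
  (hD : IsD (Ph arm J B g R p.1) (Nh arm J B g f R p.1) D)
variable [IsAlgClosed K]
variable (hNil : NilW arm J B N g) (hp : p ∈ NN arm J N g) (hf : f ∈ N ⊓ W)

include hD hp hf

/-- the block is in the range of its own operators -/
theorem Qb_le_range (hq : Spec arm J N g f p.1 S q) (ν : K) :
    Qb h.data hR p.1 D ν ≤ ⨆ s, LinearMap.range (UBlk.om arm J B g (q ν).1 g s) :=
  (par hq h hf).PB_le (isD_up h hR hD hf hp).1 (isD_up h hR hD hf hp).2 ν

theorem Qb_bot (hq : Spec arm J N g f p.1 S q) {ν : K} (hν : ν ∉ S) {u : δ → K}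
    (hu : u ∈ Qb h.data hR p.1 D ν) : u = 0 := by
  have h1 := Qb_le_range h hR hD hp hf hq ν hu
  have h2 : (⨆ s, LinearMap.range (UBlk.om arm J B g (q ν).1 g s)) = ⊥ := by
    rw [iSup_eq_bot]
    intro s
    rw [LinearMap.range_eq_bot]
    apply LinearMap.ext
    intro v
    have h3 : gᵀ * J * ((q ν).1 * g) = 0 := hq.out ν hν
    rw [UBlk.om_apply]
    change (B * E K arm s * (gᵀ * J * ((q ν).1 * g))) *ᵥ v = 0
    rw [h3, Matrix.mul_zero, zero_mulVec]
  rw [h2] at h1
  exact (Submodule.mem_bot K).1 h1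

theorem Ps_kill (hq : Spec arm J N g f p.1 S q) (hff : fᵀ * J * f = 0)
    {dY : Derivation k K K} (e2 : fᵀ * J * g.map dY = gᵀ * J * (p.1 * f)) {ν : K}
    {i : Option {c : K // c ∈ S}} (hi : ∀ hν : ν ∈ S, i ≠ some ⟨ν, hν⟩) (s : Fin 3) {u : δ → K}
    (hu : u ∈ Qb h.data hR p.1 D ν) : Ps arm J B g f q S dY i s u = 0 := by
  by_cases hν : ν ∈ S
  · have h1 := Qb_le_range h hR hD hp hf hq ν hu
    have h2 : (⨆ t, LinearMap.range (UBlk.om arm J B g (q ν).1 g t)) ≤
        LinearMap.ker (Ps arm J B g f q S dY i s) := by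
      refine iSup_le fun t => ?_
      rintro _ ⟨v, rfl⟩
      exact Ps_cross h hp hf hq hff e2 i (some ⟨ν, hν⟩) (hi hν) s t v
    exact h2 h1
  · rw [Qb_bot h hR hD hp hf hq hν hu, map_zero]

/-- the perfect part of `om (q c)` -/
theorem words_mem (hq : Spec arm J N g f p.1 S q) (c : K) :
    ∃ m0 : ℕ, ∀ m, m0 ≤ m → ∀ l : K, ∀ w : List (Fin 3), w.length = m → ∀ v,
      (w.map fun s => l • UBlk.om arm J B g (q c).1 g s).prod v ∈ Qb h.data hR p.1 D c := by
  obtain ⟨m0, hm0⟩ := PL.Ainf_eq_Wk (UBlk.om arm J B g (q c).1 g)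
  refine ⟨m0, fun m hm l w hw v => ?_⟩
  have h1 : Ainf (UBlk.om arm J B g (q c).1 g) ≤ Qb h.data hR p.1 D c :=
    ainf_le_PB (par hq h hf) (isD_up h hR hD hf hp).1 c
  refine h1 ?_
  rw [hm0.1]
  refine PL.Wk_anti _ hm ?_
  rw [← hw]
  clear hw hm
  induction w with
  | nil => exact Submodule.mem_top
  | cons r w ih =>
    rw [List.map_cons, List.prod_cons, Module.End.mul_apply, LinearMap.smul_apply]
    exact Submodule.smul_mem _ _ (PL.Wk_succ_mem ih r)

/-- the exceptional values of one pair (block `μ`, index `i`) -/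
theorem exists_S (dY : Derivation k K K) (μ : K) (i : Option {c : K // c ∈ S}) :
    ∃ Sb : Set K, Sb.Finite ∧ ∀ κ : K, κ ∉ Sb →
      ∀ x : (Qb h.data hR p.1 D μ) →ₗ[K] (Fin 3 → (δ → K)),
      (∀ r (v : Qb h.data hR p.1 D μ) (w : Qb h.data hR p.1 D μ),
        (w : δ → K) = UBlk.om arm J B g p.1 g r v →
        ∀ s, x w s = κ • Ps arm J B g f q S dY i s (x v r)) → x = 0 := by
  classical
  let A : Fin 3 → End K (Qb h.data hR p.1 D μ) := fun r =>
    (UBlk.om arm J B g p.1 g r).restrict fun u hu => Qb_stable h hR hD r hu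
  have hA : ⨆ r, LinearMap.range (A r) = ⊤ := by
    rw [eq_top_iff]
    rintro ⟨u, hu⟩ -
    obtain ⟨c, hc, hcu⟩ := Qb_exists h hR hD hu
    have h1 : (⟨u, hu⟩ : Qb h.data hR p.1 D μ) = ∑ r, A r ⟨c r, hc r⟩ := by
      apply Subtype.ext
      rw [Submodule.coe_sum]
      exact hcu.symm
    rw [h1]
    exact Submodule.sum_mem _ fun r _ => Submodule.mem_iSup_of_mem r ⟨_, rfl⟩
  let Bm : Fin 3 → End K (Fin 3 → (δ → K)) := fun r =>
    LinearMap.pi fun s => (Ps arm J B g f q S dY i s) ∘ₗ LinearMap.proj r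
  obtain ⟨Sb, hSb, hx⟩ := SHex965.hom_fin (B := Bm) hA
  refine ⟨Sb, hSb, fun κ hκ x hrel => hx κ hκ x fun r v => ?_⟩
  funext s
  exact hrel r v (A r v) rfl s

include hNil

/-- **the connection preserves the sum of the blocks of `F`** -/
theorem nab_mem (hq : Spec arm J N g f p.1 S q) (hff : fᵀ * J * f = 0) (dY : Derivation k K K)
    (e1 : gᵀ * J * g.map dY = gᵀ * J * (p.1 * g)) :
    ∃ Bad : Set K, Bad.Finite ∧ ∀ a ∉ Bad, ∀ (Pt : Matrix ι ι K × (Fin 3 → Matrix ι ι K))
      (_ : Ctx k arm J B N W (g + a • f)) (_ : Pt ∈ NN arm J N (g + a • f))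
      (_ : ∀ f' ∈ N ⊓ W, (g + a • f)ᵀ * J * (Pt.1 * f') = (g + a • f)ᵀ * J * f'.map dY)
      (_ : (g + a • f)ᵀ * J * (Pt.1 * g) = (g + a • f)ᵀ * J * (p.1 * g))
      (Y : Fin 3 → Matrix δ δ K) (_ : ∀ r, (Y r)ᵀ = Y r) (d : Derivation k K K)
      (_ : SUX.Mv k arm J N W (g + a • f) Pt.1 Y d) (μ : K) (F : Set K) (_ : μ ∈ F)
      (_ : ∀ r, ∀ u ∈ Qb h.data hR p.1 D μ,
        (Y r * th J (g + a • f) Pt.1 (g + a • f)) *ᵥ
            (SUB.om arm J B (g + a • f) Pt.1 r *ᵥ u) -
          SUB.om arm J B (g + a • f) Pt.1 r *ᵥ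
            ((Y r * th J (g + a • f) Pt.1 (g + a • f)) *ᵥ u) ∈
          ⨆ c ∈ F, Qb h.data hR p.1 D c),
      ∀ u ∈ Qb h.data hR p.1 D μ,
        SUB.nab arm J (g + a • f) Pt.1 Y d u ∈ ⨆ c ∈ F, Qb h.data hR p.1 D c := by
  classical
  choose Sb hSbf hSb using fun (x : K × Option {c : K // c ∈ S}) =>
    exists_S (q := q) (f := f) (S := S) h hR hD hp hf dY x.1 x.2
  let Bad : Set K := {0} ∪ ⋃ ν ∈ S, ({a : K | 1 + a * ν = 0} ∪
    ⋃ i : Option {c : K // c ∈ S}, ⋃ _ : (lx i * ν ≠ ly i),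
      ⋃ κ ∈ Sb (ν, i), {a : K | lam a i = κ * (1 + a * ν) ^ 2})
  have hBad : Bad.Finite := by
    refine (Set.finite_singleton _).union ?_
    refine S.finite_toSet.biUnion fun ν _ => ?_
    refine Set.Finite.union ?_ (Set.finite_iUnion fun i => ?_)
    · refine Set.Subsingleton.finite ?_
      intro a ha b hb
      change 1 + a * ν = 0 at ha
      change 1 + b * ν = 0 at hb
      have hν : ν ≠ 0 := by
        rintro rfl
        rw [mul_zero, add_zero] at ha
        exact one_ne_zero ha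
      exact mul_right_cancel₀ hν (by linear_combination ha - hb)
    · exact Set.finite_iUnion fun hne => (hSbf (ν, i)).biUnion fun κ _ => fin_lam i ν κ hne
  refine ⟨Bad, hBad, ?_⟩
  intro a ha Pt hH hPt hY hPF Y hYs d mv μ F hμ hE u hu
  have ha0 : a ≠ 0 := fun h0 => ha (Or.inl h0)
  have e2 := e2_of h hp hf ha0 hY hPF e1
  set H := g + a • f with hHdef
  by_cases hμS : μ ∈ S
  swap
  · rw [Qb_bot h hR hD hp hf hq hμS hu, SUB.nab_zero]
    exact Submodule.zero_mem _
  have ha' : ∀ x, x ∈ ({a : K | 1 + a * μ = 0} ∪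
    ⋃ i : Option {c : K // c ∈ S}, ⋃ _ : (lx i * μ ≠ ly i),
      ⋃ κ ∈ Sb (μ, i), {a : K | lam a i = κ * (1 + a * μ) ^ 2}) → x ≠ a := by
    rintro x hx rfl
    exact ha (Or.inr (Set.mem_biUnion hμS hx))
  have hc0 : 1 + a * μ ≠ 0 := fun h0 => ha' a (Or.inl h0) rfl
  set c2 := 1 + a * μ with hc2
  -- values of `om` at `H`
  have hom : ∀ ν, ∀ v ∈ Qb h.data hR p.1 D ν, ∀ s,
      UBlk.om arm J B H Pt.1 H s v = (1 + a * ν) ^ 2 • UBlk.om arm J B g p.1 g s v := by
    intro ν v hv s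
    have h1 := (UFr.at_H h hR hD hNil hp hf hff hY hPF hv).2.2.2
    rw [UBlk.om_apply, UBlk.om_apply, ← mulVec_mulVec, h1, mulVec_smul, mulVec_mulVec]
    rfl
  have hsplit : ∀ s v, UBlk.om arm J B H Pt.1 H s v =
      ∑ i, (lam a i • Ps arm J B g f q S dY i s) v := fun s v =>
    om_split h hp hf hq hY e1 e2 s v
  have hcross0 := Ps_cross h hp hf hq hff e2
  have hcross : ∀ i j, i ≠ j → ∀ s t v, (lam a i • Ps arm J B g f q S dY i s)
      ((lam a j • Ps arm J B g f q S dY j t) v) = 0 := by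
    intro i j hij s t v
    rw [LinearMap.smul_apply, LinearMap.smul_apply, map_smul, hcross0 i j hij, smul_zero,
      smul_zero]
  have hcom : ∀ r v, SUB.nab arm J H Pt.1 Y d (UBlk.om arm J B H Pt.1 H r v) =
      UBlk.om arm J B H Pt.1 H r (SUB.nab arm J H Pt.1 Y d v) +
        ((Y r * th J H Pt.1 H) *ᵥ (SUB.om arm J B H Pt.1 r *ᵥ v) -
          SUB.om arm J B H Pt.1 r *ᵥ ((Y r * th J H Pt.1 H) *ᵥ v)) := by
    intro r v
    have h1 := SUB.nab_om hH hPt hYs mv r v
    rw [add_sub_assoc] at h1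
    exact h1
  let C : Submodule K (δ → K) := ⨆ c ∈ F, Qb h.data hR p.1 D c
  have hCle : ∀ c ∈ F, Qb h.data hR p.1 D c ≤ C := fun c hc => le_iSup₂_of_le c hc le_rfl
  let I : Set (Option {c : K // c ∈ S}) := {i | ∃ c : {c : K // c ∈ S}, i = some c ∧ c.1 ∈ F}
  have hkillC : ∀ i ∉ I, ∀ s, ∀ v ∈ C, Ps arm J B g f q S dY i s v = 0 := by
    intro i hi s v hv
    have h1 : C ≤ LinearMap.ker (Ps arm J B g f q S dY i s) := by
      refine iSup₂_le fun c hc => ?_
      intro w hw
      refine Ps_kill h hR hD hp hf hq hff e2 ?_ s hw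
      rintro hν rfl
      exact hi ⟨⟨c, hν⟩, rfl, hc⟩
    exact h1 hv
  choose m0 hm0 using fun c : K => words_mem (q := q) (S := S) h hR hD hp hf hq c
  refine nab_le (om := UBlk.om arm J B H Pt.1 H)
    (Ψ := fun i s => lam a i • Ps arm J B g f q S dY i s) (Q := Qb h.data hR p.1 D μ) (C := C)
    (I := I) (m := S.sup m0) hcross hsplit (SUB.nab_add Pt.1) (SUB.nab_zero Pt.1)
    ?_ ?_ ?_ ?_ ?_ u hu
  · intro u hu
    obtain ⟨c, hc, hcu⟩ := Qb_exists h hR hD hu
    refine ⟨fun r => (c2 ^ 2)⁻¹ • c r, fun r => Submodule.smul_mem _ _ (hc r), ?_⟩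
    rw [← hcu]
    refine Finset.sum_congr rfl fun r _ => ?_
    rw [map_smul, hom μ (c r) (hc r) r, smul_smul, ← hc2,
      inv_mul_cancel₀ (pow_ne_zero 2 hc0), one_smul]
  · intro r u hu
    rw [hcom, add_sub_cancel_left]
    exact hE r u hu
  · intro s v hv
    have h1 : C ≤ C.comap (UBlk.om arm J B H Pt.1 H s) := by
      refine iSup₂_le fun c hc => ?_
      intro w hw
      change UBlk.om arm J B H Pt.1 H s w ∈ C
      rw [hom c w hw s]
      exact C.smul_mem _ (hCle c hc (Qb_stable h hR hD s hw))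
    exact h1 hv
  · intro i hi s u hu
    rw [LinearMap.smul_apply]
    have hiμ : ∀ hν : μ ∈ S, i ≠ some ⟨μ, hν⟩ := by
      rintro hν rfl
      exact hi ⟨⟨μ, hν⟩, rfl, hμ⟩
    have hk : ∀ s, ∀ u ∈ Qb h.data hR p.1 D μ, Ps arm J B g f q S dY i s u = 0 :=
      fun s u hu => Ps_kill h hR hD hp hf hq hff e2 hiμ s hu
    let x : (Qb h.data hR p.1 D μ) →ₗ[K] (Fin 3 → (δ → K)) :=
      { toFun := fun u s => Ps arm J B g f q S dY i s (SUB.nab arm J H Pt.1 Y d u)
        map_add' := by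
          intro u v
          funext s
          change Ps arm J B g f q S dY i s (SUB.nab arm J H Pt.1 Y d ((u : δ → K) + v)) = _
          rw [SUB.nab_add, map_add]
          rfl
        map_smul' := by
          intro b u
          funext s
          change Ps arm J B g f q S dY i s (SUB.nab arm J H Pt.1 Y d (b • (u : δ → K))) = _
          rw [SUB.nab_smul, map_add, map_smul, map_smul, hk s u u.2, smul_zero, add_zero]
          rfl }
    have hne : lx i * μ ≠ ly i := by
      rcases i with _ | c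
      · change (0 : K) * μ ≠ 1
        rw [zero_mul]; exact zero_ne_one
      · change (1 : K) * μ ≠ c.1
        rw [one_mul]
        rintro rfl
        exact hiμ c.2 rfl
    have hκ : lam a i / c2 ^ 2 ∉ Sb (μ, i) := by
      intro hκ
      refine ha' a (Or.inr (Set.mem_iUnion.2 ⟨i, Set.mem_iUnion.2 ⟨hne,
        Set.mem_biUnion hκ ?_⟩⟩)) rfl
      change lam a i = lam a i / c2 ^ 2 * (1 + a * μ) ^ 2
      rw [← hc2, div_mul_cancel₀ _ (pow_ne_zero 2 hc0)]
    have hx : x = 0 := by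
      refine hSb (μ, i) _ hκ x fun r v w hw s => ?_
      change Ps arm J B g f q S dY i s (SUB.nab arm J H Pt.1 Y d (w : δ → K)) =
        (lam a i / c2 ^ 2) • Ps arm J B g f q S dY i s (Ps arm J B g f q S dY i r
          (SUB.nab arm J H Pt.1 Y d (v : δ → K)))
      have h1 := congrArg (Ps arm J B g f q S dY i s) (hcom r (v : δ → K))
      rw [map_add, hkillC i hi s _ (hE r v v.2), add_zero, hsplit r] at h1
      have h2 : Ps arm J B g f q S dY i s (∑ j, (lam a j • Ps arm J B g f q S dY j r)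
          (SUB.nab arm J H Pt.1 Y d (v : δ → K))) = lam a i • Ps arm J B g f q S dY i s
          (Ps arm J B g f q S dY i r (SUB.nab arm J H Pt.1 Y d (v : δ → K))) := by
        rw [map_sum, Finset.sum_eq_single i]
        · rw [LinearMap.smul_apply, map_smul]
        · intro j _ hj
          rw [LinearMap.smul_apply, map_smul, hcross0 i j (Ne.symm hj), smul_zero]
        · intro h'; exact absurd (Finset.mem_univ i) h'
      have h3 : UBlk.om arm J B H Pt.1 H r (v : δ → K) = c2 ^ 2 • (w : δ → K) := by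
        rw [hom μ v v.2 r, hw]
      have h4 : Ps arm J B g f q S dY i s (SUB.nab arm J H Pt.1 Y d
          (UBlk.om arm J B H Pt.1 H r (v : δ → K))) =
          c2 ^ 2 • Ps arm J B g f q S dY i s (SUB.nab arm J H Pt.1 Y d (w : δ → K)) := by
        rw [h3, SUB.nab_smul, map_add, map_smul, map_smul, hk s w w.2, smul_zero, add_zero]
      rw [← hsplit r, h4, hsplit r, h2] at h1
      have h5 := congrArg (fun z => (c2 ^ 2)⁻¹ • z) h1
      simp only [smul_smul, inv_mul_cancel₀ (pow_ne_zero 2 hc0), one_smul] at h5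
      rw [h5, div_eq_inv_mul]
    have h6 : Ps arm J B g f q S dY i s (SUB.nab arm J H Pt.1 Y d u) = 0 := by
      have h7 := congrFun (LinearMap.congr_fun hx ⟨u, hu⟩) s
      exact h7
    rw [h6, smul_zero]
  · rintro i ⟨c, rfl, hcF⟩ w hw v
    refine hCle c.1 hcF ?_
    refine hm0 c.1 _ ?_ (lam a (some c)) w hw v
    exact (Finset.le_sup (f := m0) c.2).trans (Nat.le_succ _)

end main

end mat

end Crest.Agent.R172.ND756
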