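import Mathlib

/-!
# Row 172 (S0260), node RD-NF (helper265, for helper296): normal form of the connection mod `ker p`

`nf`: abstract block form; `nf_matrix`: the same for matrices (`e` = projector on the block).
-/

set_option autoImplicit false

namespace Crest.Agent.R172.NF265

open Module Finset

section abstract

variable {K : Type*} [Field K] {τ V : Type*} [AddCommGroup V] [Module K V]

/-- long words on a perfect module -/
theorem words_span {Y : Type*} [AddCommGroup Y] [Module K Y] {A : τ → Module.End K Y}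
    (perf : ⨆ s, LinearMap.range (A s) = ⊤) (m : ℕ) (x : Y) :
    x ∈ Submodule.span K {y : Y | ∃ w : List τ, w.length = m ∧ ∃ z, y = (w.map A).prod z} := by
  induction m generalizing x with
  | zero => exact Submodule.subset_span ⟨[], rfl, x, by simp⟩
  | succ m ih =>
    have hx : x ∈ ⨆ s, LinearMap.range (A s) := by rw [perf]; exact Submodule.mem_top
    refine Submodule.iSup_induction (fun s => LinearMap.range (A s))
      (motive := fun x => x ∈ Submodule.span K
        {y : Y | ∃ w : List τ, w.length = m + 1 ∧ ∃ z, y = (w.map A).prod z}) hx ?_ ?_ ?_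
    · rintro s y ⟨z, rfl⟩
      have h := Submodule.mem_map_of_mem (f := A s) (ih z)
      rw [Submodule.map_span] at h
      refine Submodule.span_mono ?_ h
      rintro _ ⟨_, ⟨w, hw, z', rfl⟩, rfl⟩
      exact ⟨s :: w, by simp [hw], z', by simp⟩
    · exact Submodule.zero_mem _
    · intro a b ha hb
      exact Submodule.add_mem _ ha hb

/-- a map from a perfect module which is an intertwiner modulo a stable submodule `P` and whose
values are killed modulo `P` by all words of length `m`, has values in `P` -/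
theorem mem_of_perf {Y : Type*} [AddCommGroup Y] [Module K Y] {A : τ → Module.End K Y}
    (perf : ⨆ s, LinearMap.range (A s) = ⊤) {Φ : τ → Module.End K V} {P : Submodule K V}
    (hP : ∀ s, ∀ v ∈ P, Φ s v ∈ P) (θ : Y →ₗ[K] V)
    (hint : ∀ s x, θ (A s x) - Φ s (θ x) ∈ P) {m : ℕ}
    (hnil : ∀ w : List τ, w.length = m → ∀ x, (w.map Φ).prod (θ x) ∈ P) (x : Y) : θ x ∈ P := by
  have key : ∀ (w : List τ) (z : Y), θ ((w.map A).prod z) - (w.map Φ).prod (θ z) ∈ P := by
    intro w
    induction w with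
    | nil => intro z; simp
    | cons s w ih =>
      intro z
      have h1 := hint s ((w.map A).prod z)
      have h2 := hP s _ (ih z)
      rw [map_sub] at h2
      have h3 := P.add_mem h1 h2
      simpa using h3
  have h := words_span perf m x
  refine Submodule.span_induction (p := fun y _ => θ y ∈ P) ?_ ?_ ?_ ?_ h
  · rintro _ ⟨w, hw, z, rfl⟩
    have h1 := P.add_mem (key w z) (hnil w hw z)
    simpa using h1
  · simp
  · intro a b _ _ ha hb
    rw [map_add]
    exact P.add_mem ha hb
  · intro c a _ ha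
    rw [map_smul]
    exact P.smul_mem c ha

/-- **normal form of the connection**, block form -/
theorem nf {I : Type*} [Fintype I] [DecidableEq I] {X : I → Type*} [∀ i, AddCommGroup (X i)]
    [∀ i, Module K (X i)] (p : ∀ i, X i →ₗ[K] V) (j : I) (A : τ → Module.End K (X j))
    (Φ : τ → Module.End K V) (hA : ∀ s x, Φ s (p j x) = p j (A s x))
    (perf : ⨆ s, LinearMap.range (A s) = ⊤) (π β : ∀ i, X j →ₗ[K] X i) {m : ℕ}
    (hint : ∀ s x, ∃ y, (∑ i ∈ univ.erase j, p i (π i (A s x) - β i (A s x))) -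
      Φ s (∑ i ∈ univ.erase j, p i (π i x - β i x)) = p j y)
    (hnil : ∀ w : List τ, w.length = m → ∀ x, ∃ y,
      (w.map Φ).prod (∑ i ∈ univ.erase j, p i (π i x - β i x)) = p j y) :
    ∃ κ : ∀ i, X j →ₗ[K] X i, (∀ x, ∑ i, p i (κ i x) = 0) ∧
      ∀ i, i ≠ j → ∀ x, π i x + κ i x = β i x := by
  classical
  set θ : X j →ₗ[K] V := ∑ i ∈ univ.erase j, (p i) ∘ₗ (π i - β i) with hθ
  have hθx : ∀ x, θ x = ∑ i ∈ univ.erase j, p i (π i x - β i x) := by
    intro x
    rw [hθ, LinearMap.sum_apply]
    rfl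
  have hmem : ∀ x, θ x ∈ LinearMap.range (p j) := by
    refine mem_of_perf perf (Φ := Φ) (P := LinearMap.range (p j)) ?_ θ ?_ (m := m) ?_
    · rintro s _ ⟨y, rfl⟩
      exact ⟨A s y, (hA s y).symm⟩
    · intro s x
      obtain ⟨y, hy⟩ := hint s x
      rw [hθx, hθx]
      exact ⟨y, hy.symm⟩
    · intro w hw x
      obtain ⟨y, hy⟩ := hnil w hw x
      rw [hθx]
      exact ⟨y, hy.symm⟩
  obtain ⟨g, hg⟩ := (p j).rangeRestrict.exists_rightInverse_of_surjective
    (LinearMap.range_eq_top.2 (p j).surjective_rangeRestrict)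
  have hgx : ∀ x, p j (g (LinearMap.codRestrict (LinearMap.range (p j)) θ hmem x)) = θ x := by
    intro x
    have h := LinearMap.congr_fun hg (LinearMap.codRestrict (LinearMap.range (p j)) θ hmem x)
    have h2 := congrArg Subtype.val h
    simpa using h2
  refine ⟨Function.update (fun i => β i - π i) j
    (g ∘ₗ LinearMap.codRestrict (LinearMap.range (p j)) θ hmem), ?_, ?_⟩
  · intro x
    rw [← Finset.add_sum_erase _ _ (mem_univ j)]
    have h1 : ∑ i ∈ univ.erase j, p i (Function.update (fun i => β i - π i) j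
        (g ∘ₗ LinearMap.codRestrict (LinearMap.range (p j)) θ hmem) i x) = -θ x := by
      rw [hθx, ← Finset.sum_neg_distrib]
      refine Finset.sum_congr rfl fun i hi => ?_
      rw [Function.update_of_ne (Finset.ne_of_mem_erase hi), LinearMap.sub_apply, map_sub, map_sub]
      abel
    rw [h1, Function.update_self]
    change p j (g (LinearMap.codRestrict (LinearMap.range (p j)) θ hmem x)) + -θ x = 0
    rw [hgx, add_neg_cancel]
  · intro i hi x
    rw [Function.update_of_ne hi, LinearMap.sub_apply]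
    abel

end abstract

section matrix

open Matrix

variable {K : Type*} [Field K] {τ : Type*} [Fintype τ] {ι n : Type*} [Fintype ι] [DecidableEq ι]
  [Fintype n] [DecidableEq n]

/-- long words -/
theorem words_mat {α ρ : τ → Matrix n n K} (hρ : ∑ s, α s * ρ s = 1) (m : ℕ)
    (Z : Matrix n n K) :
    Z ∈ AddSubgroup.closure {M : Matrix n n K | ∃ w : List τ, w.length = m ∧
      ∃ Z', M = (w.map α).prod * Z'} := by
  induction m generalizing Z with
  | zero => exact AddSubgroup.subset_closure ⟨[], rfl, Z, by simp⟩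
  | succ m ih =>
    have h0 : Z = ∑ s, α s * (ρ s * Z) := by
      have h := congrArg (fun M => M * Z) hρ
      simp only [Finset.sum_mul, Matrix.one_mul, Matrix.mul_assoc] at h
      exact h.symm
    rw [h0]
    refine AddSubgroup.sum_mem _ fun s _ => ?_
    have h := ih (ρ s * Z)
    refine AddSubgroup.closure_induction (p := fun M _ => α s * M ∈ AddSubgroup.closure
      {M : Matrix n n K | ∃ w : List τ, w.length = m + 1 ∧ ∃ Z', M = (w.map α).prod * Z'})
      ?_ ?_ ?_ ?_ h
    · rintro _ ⟨w, hw, Z', rfl⟩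
      exact AddSubgroup.subset_closure ⟨s :: w, by simp [hw], Z', by
        simp [Matrix.mul_assoc]⟩
    · simp
    · intro a b _ _ ha hb
      rw [Matrix.mul_add]
      exact AddSubgroup.add_mem _ ha hb
    · intro a _ ha
      rw [Matrix.mul_neg]
      exact AddSubgroup.neg_mem _ ha

/-- **normal form of the connection**, matrix form: `e` projector on the block -/
theorem nf_matrix (p : Matrix ι n K) (e : Matrix n n K) (he : e * e = e)
    (α ρ : τ → Matrix n n K) (Φ : τ → Matrix ι ι K) (hp : ∀ s, Φ s * p = p * α s)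
    (hc : ∀ s, e * α s = α s * e) (hρ : ∑ s, α s * ρ s = 1) (π β : Matrix n n K)
    (hint : ∀ s, ∃ Y, p * ((1 - e) * (π - β) * e) * α s - Φ s * (p * ((1 - e) * (π - β) * e)) =
      p * (e * Y)) {m : ℕ}
    (hnil : ∀ w : List τ, w.length = m → ∃ Y,
      (w.map Φ).prod * (p * ((1 - e) * (π - β) * e)) = p * (e * Y)) :
    ∃ κ : Matrix n n K, p * κ = 0 ∧ κ * e = κ ∧ (1 - e) * (π + κ) * e = (1 - e) * β * e := by
  obtain ⟨θ, hθ⟩ : ∃ θ, θ = p * ((1 - e) * (π - β) * e) := ⟨_, rfl⟩
  rw [← hθ] at hnil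
  have hint' : ∀ s, ∃ Y, θ * α s = Φ s * θ + p * (e * Y) := by
    intro s
    obtain ⟨Y, hY⟩ := hint s
    refine ⟨Y, ?_⟩
    rw [← hθ] at hY
    rw [← hY]
    abel
  have key : ∀ w : List τ, ∃ Y, θ * (w.map α).prod = (w.map Φ).prod * θ + p * (e * Y) := by
    intro w
    induction w with
    | nil => exact ⟨0, by simp⟩
    | cons s w ih =>
      obtain ⟨Y, hY⟩ := ih
      obtain ⟨Y', hY'⟩ := hint' s
      refine ⟨α s * Y + Y' * (w.map α).prod, ?_⟩
      rw [List.map_cons, List.map_cons, List.prod_cons, List.prod_cons, ← Matrix.mul_assoc, hY',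
        Matrix.add_mul, Matrix.mul_assoc (Φ s) θ, hY, Matrix.mul_add]
      have h1 : Φ s * (p * (e * Y)) = p * (e * (α s * Y)) := by
        rw [← Matrix.mul_assoc (Φ s) p, hp, Matrix.mul_assoc, ← Matrix.mul_assoc (α s) e, ← hc,
          Matrix.mul_assoc e]
      rw [h1]
      simp only [Matrix.mul_add, Matrix.mul_assoc]
      abel
  have h1 : ∃ Y, θ * (1 : Matrix n n K) = p * (e * Y) := by
    refine AddSubgroup.closure_induction (p := fun M _ => ∃ Y, θ * M = p * (e * Y))
      ?_ ?_ ?_ ?_ (words_mat hρ m (1 : Matrix n n K))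
    · rintro _ ⟨w, hw, Z', rfl⟩
      obtain ⟨Y, hY⟩ := key w
      obtain ⟨Y', hY'⟩ := hnil w hw
      refine ⟨(Y' + Y) * Z', ?_⟩
      rw [← Matrix.mul_assoc, hY, hY']
      simp only [Matrix.add_mul, Matrix.mul_add, Matrix.mul_assoc]
    · exact ⟨0, by simp⟩
    · rintro a b _ _ ⟨Y, hY⟩ ⟨Y', hY'⟩
      exact ⟨Y + Y', by rw [Matrix.mul_add, hY, hY', Matrix.mul_add, Matrix.mul_add]⟩
    · rintro a _ ⟨Y, hY⟩
      exact ⟨-Y, by rw [Matrix.mul_neg, hY, Matrix.mul_neg, Matrix.mul_neg]⟩
  obtain ⟨Y, hY⟩ := h1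
  rw [Matrix.mul_one] at hY
  have hθe : θ * e = θ := by
    rw [hθ, Matrix.mul_assoc, Matrix.mul_assoc _ e e, he]
  have h10 : (1 - e) * e = 0 := by rw [Matrix.sub_mul, he, Matrix.one_mul, sub_self]
  have h11 : (1 - e) * (1 - e) = 1 - e := by
    rw [Matrix.mul_sub, Matrix.mul_one, h10, sub_zero]
  refine ⟨(1 - e) * (β - π) * e + e * Y * e, ?_, ?_, ?_⟩
  · have h2 : p * (e * Y * e) = θ := by
      rw [← hθe, hY]
      simp only [Matrix.mul_assoc]
    have h3 : p * ((1 - e) * (β - π) * e) = -θ := by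
      rw [hθ, ← neg_sub π β, Matrix.mul_neg, Matrix.neg_mul, Matrix.mul_neg]
    rw [Matrix.mul_add, h2, h3, neg_add_cancel]
  · rw [Matrix.add_mul, Matrix.mul_assoc _ e e, Matrix.mul_assoc _ e e, he]
  · have h4 : (1 - e) * ((1 - e) * (β - π) * e + e * Y * e) * e = (1 - e) * (β - π) * e := by
      rw [Matrix.mul_add, Matrix.add_mul]
      have a1 : (1 - e) * ((1 - e) * (β - π) * e) * e = (1 - e) * (β - π) * e := by
        rw [← Matrix.mul_assoc (1 - e), ← Matrix.mul_assoc (1 - e), h11,
          Matrix.mul_assoc _ e e, he]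
      have a2 : (1 - e) * (e * Y * e) * e = 0 := by
        rw [Matrix.mul_assoc e Y, ← Matrix.mul_assoc (1 - e), h10, Matrix.zero_mul,
          Matrix.zero_mul]
      rw [a1, a2, add_zero]
    rw [Matrix.mul_add, Matrix.add_mul, h4]
    simp only [Matrix.mul_sub, Matrix.sub_mul]
    abel

end matrix

end Crest.Agent.R172.NF265
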