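import Mathlib

/-!
Row 172, TAME (T0), arbitrary radical and non-semisimple `D`: the separation lemma for an
operator-valued Laurent parameter (notes 16232 (B), 16086 (5), 16213 (3)).

`al, be` commuting nilpotent operators, `S` a space of families stable under them,
`op t k = χ t k + (terms in al, be)`. If `∑ k, f k (op t k (w k)) ∈ Q` for all `t ∈ T` and all
`w ∈ S`, then `f k (w k) ∈ Q` for all `w ∈ S` and all `k`.
-/

set_option autoImplicit false

namespace Crest.Agent.R172.NV

variable {K : Type*} [Field K] {V E : Type*} [AddCommGroup V] [Module K V] [AddCommGroup E]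
  [Module K E] {κ : Type*} [Fintype κ] {τ : Type*}

/-- monomials of degree at least `m` -/
def Mon (al be : Module.End K V) (m : ℕ) : Submodule K (Module.End K V) :=
  Submodule.span K {a | ∃ i j : ℕ, m ≤ i + j ∧ a = al ^ i * be ^ j}

theorem mon_mem (al be : Module.End K V) {m i j : ℕ} (h : m ≤ i + j) :
    al ^ i * be ^ j ∈ Mon al be m := Submodule.subset_span ⟨i, j, h, rfl⟩

theorem mon_mul {al be : Module.End K V} (hc : Commute al be) {m n : ℕ} {a b : Module.End K V}
    (ha : a ∈ Mon al be m) (hb : b ∈ Mon al be n) : a * b ∈ Mon al be (m + n) := by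
  induction ha using Submodule.span_induction with
  | mem x hx =>
    obtain ⟨i, j, hij, rfl⟩ := hx
    induction hb using Submodule.span_induction with
    | mem y hy =>
      obtain ⟨i', j', hij', rfl⟩ := hy
      have h1 : al ^ i * be ^ j * (al ^ i' * be ^ j') = al ^ (i + i') * be ^ (j + j') := by
        have h2 : be ^ j * al ^ i' = al ^ i' * be ^ j := (hc.symm.pow_pow j i').eq
        calc al ^ i * be ^ j * (al ^ i' * be ^ j') = al ^ i * (be ^ j * al ^ i') * be ^ j' := by
              simp only [mul_assoc]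
          _ = al ^ i * al ^ i' * (be ^ j * be ^ j') := by rw [h2]; simp only [mul_assoc]
          _ = _ := by rw [pow_add, pow_add]
      rw [h1]
      exact mon_mem al be (by omega)
    | zero => rw [mul_zero]; exact Submodule.zero_mem _
    | add y z _ _ hy hz => rw [mul_add]; exact Submodule.add_mem _ hy hz
    | smul c y _ hy => rw [mul_smul_comm]; exact Submodule.smul_mem _ c hy
  | zero => rw [zero_mul]; exact Submodule.zero_mem _
  | add y z _ _ hy hz => rw [add_mul]; exact Submodule.add_mem _ hy hz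
  | smul c y _ hy => rw [smul_mul_assoc]; exact Submodule.smul_mem _ c hy

theorem mon_mono {al be : Module.End K V} {m n : ℕ} (h : m ≤ n) :
    Mon al be n ≤ Mon al be m := by
  apply Submodule.span_mono
  rintro _ ⟨i, j, hij, rfl⟩
  exact ⟨i, j, h.trans hij, rfl⟩

theorem mon_bot {al be : Module.End K V} {p q : ℕ} (ha : al ^ p = 0) (hb : be ^ q = 0) :
    Mon al be (p + q) = ⊥ := by
  rw [eq_bot_iff]
  apply Submodule.span_le.2
  rintro _ ⟨i, j, hij, rfl⟩
  rw [SetLike.mem_coe, Submodule.mem_bot]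
  by_cases hi : p ≤ i
  · obtain ⟨r, rfl⟩ := Nat.exists_eq_add_of_le hi
    rw [pow_add, ha, zero_mul, zero_mul]
  · obtain ⟨r, rfl⟩ := Nat.exists_eq_add_of_le (show q ≤ j by omega)
    rw [pow_add, hb, zero_mul, mul_zero]

/-- **LEMMA NV.** -/
theorem sep {al be : Module.End K V} (hc : Commute al be) (ha : IsNilpotent al)
    (hb : IsNilpotent be) (S : Submodule K (κ → V))
    (hSa : ∀ w ∈ S, (fun k => al (w k)) ∈ S) (hSb : ∀ w ∈ S, (fun k => be (w k)) ∈ S)
    (f : κ → V →ₗ[K] E) (Q : Submodule K E) (T : Set τ) (op : τ → κ → Module.End K V)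
    (χ : τ → κ → K) (hop : ∀ t ∈ T, ∀ k, op t k - χ t k • (1 : Module.End K V) ∈ Mon al be 1)
    (hV : ∀ v : κ → E, (∀ t ∈ T, ∑ k, χ t k • v k ∈ Q) → ∀ k, v k ∈ Q)
    (h : ∀ t ∈ T, ∀ w ∈ S, ∑ k, f k (op t k (w k)) ∈ Q) :
    ∀ w ∈ S, ∀ k, f k (w k) ∈ Q := by
  obtain ⟨p, hp⟩ := ha
  obtain ⟨q, hq⟩ := hb
  -- `S` is stable under monomials
  have hSm : ∀ i j : ℕ, ∀ w ∈ S, (fun k => (al ^ i * be ^ j) (w k)) ∈ S := by
    intro i j w hw
    have h1 : ∀ j : ℕ, (fun k => (be ^ j) (w k)) ∈ S := by
      intro j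
      induction j with
      | zero => simpa using hw
      | succ j ih =>
        have := hSb _ ih
        simpa only [pow_succ', Module.End.mul_apply] using this
    have h2 : ∀ i : ℕ, (fun k => (al ^ i) ((be ^ j) (w k))) ∈ S := by
      intro i
      induction i with
      | zero => simpa using h1 j
      | succ i ih =>
        have := hSa _ ih
        simpa only [pow_succ', Module.End.mul_apply] using this
    exact h2 i
  -- descending induction on the degree
  have key : ∀ m n : ℕ, p + q = m + n → ∀ i j : ℕ, n ≤ i + j → ∀ w ∈ S, ∀ k,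
      f k ((al ^ i * be ^ j) (w k)) ∈ Q := by
    intro m
    induction m with
    | zero =>
      intro n hn i j hij w _ k
      have h1 : al ^ i * be ^ j ∈ Mon al be (p + q) := mon_mem al be (by omega)
      rw [mon_bot hp hq, Submodule.mem_bot] at h1
      rw [h1, LinearMap.zero_apply, map_zero]
      exact Q.zero_mem
    | succ m ih =>
      intro n hn i j hij w hw
      -- everything of higher degree is in `Q`
      have h1 : ∀ a ∈ Mon al be (n + 1), ∀ k, f k (a (w k)) ∈ Q := by
        intro a ha' k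
        induction ha' using Submodule.span_induction with
        | mem x hx =>
          obtain ⟨i', j', hij', rfl⟩ := hx
          exact ih (n + 1) (by omega) i' j' hij' w hw k
        | zero => rw [LinearMap.zero_apply, map_zero]; exact Q.zero_mem
        | add x y _ _ hx hy => rw [LinearMap.add_apply, map_add]; exact Q.add_mem hx hy
        | smul c x _ hx => rw [LinearMap.smul_apply, map_smul]; exact Q.smul_mem c hx
      have hmon : al ^ i * be ^ j ∈ Mon al be n := mon_mem al be hij
      apply hV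
      intro t ht
      have h2 := h t ht _ (hSm i j w hw)
      have h3 : ∑ k, χ t k • f k ((al ^ i * be ^ j) (w k)) =
          ∑ k, f k (op t k ((al ^ i * be ^ j) (w k))) -
            ∑ k, f k (((op t k - χ t k • (1 : Module.End K V)) * (al ^ i * be ^ j)) (w k)) := by
        generalize al ^ i * be ^ j = a
        rw [← Finset.sum_sub_distrib]
        refine Finset.sum_congr rfl fun k _ => ?_
        rw [sub_mul, LinearMap.sub_apply, Module.End.mul_apply, smul_mul_assoc, one_mul,
          LinearMap.smul_apply, map_sub, map_smul, sub_sub_cancel]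
      rw [h3]
      refine Q.sub_mem h2 (Q.sum_mem fun k _ => h1 _ ?_ k)
      have := mon_mul hc (hop t ht k) hmon
      rwa [add_comm] at this
  intro w hw k
  have := key (p + q) 0 rfl 0 0 (Nat.zero_le _) w hw k
  simpa using this

/-! ### Vandermonde -/

/-- natural exponents -/
theorem vand_nat (Q : Submodule K E) {Λ : Set K} (hΛ : Λ.Infinite) {e : κ → ℕ}
    (he : Function.Injective e) (v : κ → E) (h : ∀ c ∈ Λ, ∑ k, c ^ e k • v k ∈ Q) :
    ∀ k, v k ∈ Q := by
  classical
  intro k
  rw [← Submodule.Quotient.mk_eq_zero, ← Module.forall_dual_apply_eq_zero_iff K]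
  intro φ
  let P : Polynomial K := ∑ j, Polynomial.monomial (e j) (φ (Submodule.Quotient.mk (v j)))
  have hroot : ∀ c ∈ Λ, P.IsRoot c := by
    intro c hc
    have h1 := h c hc
    rw [← Submodule.Quotient.mk_eq_zero] at h1
    have h2 : φ (Submodule.Quotient.mk (∑ j, c ^ e j • v j) : E ⧸ Q) = 0 := by
      rw [h1, map_zero]
    rw [Polynomial.IsRoot.def]
    simp only [P, Polynomial.eval_finset_sum, Polynomial.eval_monomial]
    rw [← h2, ← Submodule.mkQ_apply, map_sum, map_sum]
    refine Finset.sum_congr rfl fun j _ => ?_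
    rw [map_smul, map_smul, smul_eq_mul, mul_comm]
    rfl
  have hP : P = 0 := Polynomial.eq_zero_of_infinite_isRoot P (hΛ.mono hroot)
  have h3 : P.coeff (e k) = φ (Submodule.Quotient.mk (v k)) := by
    simp only [P, Polynomial.finset_sum_coeff, Polynomial.coeff_monomial]
    rw [Finset.sum_eq_single k]
    · simp
    · intro j _ hjk
      rw [if_neg]
      intro hij
      exact hjk (he hij)
    · intro hk
      exact absurd (Finset.mem_univ k) hk
  rw [← h3, hP, Polynomial.coeff_zero]

/-- integer exponents -/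
theorem vand_int (Q : Submodule K E) {Λ : Set K} (hΛ : Λ.Infinite) (h0 : (0 : K) ∉ Λ)
    {e : κ → ℤ} (he : Function.Injective e) (v : κ → E)
    (h : ∀ c ∈ Λ, ∑ k, c ^ e k • v k ∈ Q) : ∀ k, v k ∈ Q := by
  classical
  -- shift by a large power
  obtain ⟨m, hm⟩ : ∃ m : ℕ, ∀ k, 0 ≤ e k + m := by
    refine ⟨∑ k, (e k).natAbs, fun k => ?_⟩
    have h1 : (e k).natAbs ≤ ∑ k, (e k).natAbs :=
      Finset.single_le_sum (f := fun k => (e k).natAbs) (fun _ _ => Nat.zero_le _)
        (Finset.mem_univ k)
    omega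
  have he' : Function.Injective fun k => (e k + m).toNat := by
    intro a b hab
    simp only at hab
    have h1 := hm a
    have h2 := hm b
    apply he
    omega
  refine vand_nat Q hΛ he' v fun c hc => ?_
  have hc0 : c ≠ 0 := fun h => h0 (h ▸ hc)
  have h1 : ∑ k, c ^ (e k + m).toNat • v k = c ^ m • ∑ k, c ^ e k • v k := by
    rw [Finset.smul_sum]
    refine Finset.sum_congr rfl fun k _ => ?_
    rw [smul_smul]
    congr 1
    rw [← zpow_natCast c (e k + m).toNat, Int.toNat_of_nonneg (hm k), zpow_add₀ hc0,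
      zpow_natCast, mul_comm]
  rw [h1]
  exact Q.smul_mem _ (h c hc)

/-! ### powers of a unipotent times scalar operator -/

/-- if `ρ - r ∈ 𝔪` then `ρ ^ n - r ^ n ∈ 𝔪` -/
theorem pow_sub_mem {al be : Module.End K V} (hc : Commute al be) {ρ : Module.End K V} {r : K}
    (h : ρ - r • (1 : Module.End K V) ∈ Mon al be 1) (n : ℕ) :
    ρ ^ n - r ^ n • (1 : Module.End K V) ∈ Mon al be 1 := by
  induction n with
  | zero => rw [pow_zero, pow_zero, one_smul, sub_self]; exact Submodule.zero_mem _
  | succ n ih =>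
    have e : ρ ^ (n + 1) - r ^ (n + 1) • (1 : Module.End K V) =
        (ρ ^ n - r ^ n • (1 : Module.End K V)) * (ρ - r • (1 : Module.End K V)) +
          (r • (ρ ^ n - r ^ n • (1 : Module.End K V)) +
            r ^ n • (ρ - r • (1 : Module.End K V))) := by
      rw [pow_succ, pow_succ, sub_mul, mul_sub, mul_sub, smul_mul_assoc, one_mul, mul_smul_comm,
        mul_one, smul_sub, smul_sub, smul_mul_assoc, one_mul, smul_smul, smul_smul, mul_comm r]
      abel
    rw [e]
    refine Submodule.add_mem _ (mon_mono (by omega) (mon_mul hc ih h))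
      (Submodule.add_mem _ (Submodule.smul_mem _ _ ih) (Submodule.smul_mem _ _ h))

theorem pow_mem_mon {al be : Module.End K V} (hc : Commute al be) {ν : Module.End K V}
    (h : ν ∈ Mon al be 1) (n : ℕ) : ν ^ n ∈ Mon al be n := by
  induction n with
  | zero =>
    have := mon_mem al be (m := 0) (i := 0) (j := 0) le_rfl
    simpa using this
  | succ n ih => rw [pow_succ]; exact mon_mul hc ih h

/-- the inverse -/
theorem inv_sub_mem {al be : Module.End K V} (hc : Commute al be) (ha : IsNilpotent al)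
    (hb : IsNilpotent be) {ρ σ : Module.End K V} {r : K} (hr : r ≠ 0)
    (h : ρ - r • (1 : Module.End K V) ∈ Mon al be 1) (hσ : σ * ρ = 1) :
    σ - r⁻¹ • (1 : Module.End K V) ∈ Mon al be 1 := by
  obtain ⟨p, hp⟩ := ha
  obtain ⟨q, hq⟩ := hb
  obtain ⟨ν, hν⟩ : ∃ ν, ν = -(r⁻¹ • (ρ - r • (1 : Module.End K V))) := ⟨_, rfl⟩
  have hνm : ν ∈ Mon al be 1 := by
    rw [hν]; exact Submodule.neg_mem _ (Submodule.smul_mem _ _ h)
  have hρ : ρ = r • (1 - ν) := by
    rw [hν, sub_neg_eq_add, smul_add, smul_smul, mul_inv_cancel₀ hr, one_smul]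
    abel
  have hM : ν ^ (p + q) = 0 := by
    have := pow_mem_mon hc hνm (p + q)
    rwa [mon_bot hp hq, Submodule.mem_bot] at this
  have hG : ρ * (r⁻¹ • ∑ i ∈ Finset.range (p + q), ν ^ i) = 1 := by
    rw [hρ, smul_mul_smul_comm, mul_inv_cancel₀ hr, one_smul, mul_neg_geom_sum, hM, sub_zero]
  have hσG : σ = r⁻¹ • ∑ i ∈ Finset.range (p + q), ν ^ i := by
    calc σ = σ * (ρ * (r⁻¹ • ∑ i ∈ Finset.range (p + q), ν ^ i)) := by rw [hG, mul_one]
      _ = _ := by rw [← mul_assoc, hσ, one_mul]
  rcases Nat.eq_zero_or_pos (p + q) with h0 | h0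
  · -- then `1 = 0`
    have h1 : (1 : Module.End K V) = 0 := by
      have : al ^ p = 1 := by rw [show p = 0 by omega, pow_zero]
      rw [← this, hp]
    have h2 : σ - r⁻¹ • (1 : Module.End K V) = 0 := by
      rw [← mul_one (σ - r⁻¹ • (1 : Module.End K V)), h1, mul_zero]
    rw [h2]
    exact Submodule.zero_mem _
  · obtain ⟨M, hM'⟩ := Nat.exists_eq_succ_of_ne_zero (by omega : p + q ≠ 0)
    rw [hσG, hM', Finset.sum_range_succ', pow_zero, smul_add, add_sub_cancel_right]
    refine Submodule.smul_mem _ _ (Submodule.sum_mem _ fun i _ => ?_)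
    exact mon_mono (by omega) (pow_mem_mon hc hνm (i + 1))

/-- products of operators `scalar + 𝔪` -/
theorem mul_sub_mem {al be : Module.End K V} (hc : Commute al be) {ρ σ : Module.End K V} {r s : K}
    (h : ρ - r • (1 : Module.End K V) ∈ Mon al be 1)
    (h' : σ - s • (1 : Module.End K V) ∈ Mon al be 1) :
    ρ * σ - (r * s) • (1 : Module.End K V) ∈ Mon al be 1 := by
  have e : ρ * σ - (r * s) • (1 : Module.End K V) =
      (ρ - r • (1 : Module.End K V)) * (σ - s • (1 : Module.End K V)) +
        (s • (ρ - r • (1 : Module.End K V)) + r • (σ - s • (1 : Module.End K V))) := by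
    rw [sub_mul, mul_sub, mul_sub, smul_mul_assoc, one_mul, mul_smul_comm, mul_one, smul_sub,
      smul_sub, smul_mul_assoc, one_mul, smul_smul, smul_smul, mul_comm s r]
    abel
  rw [e]
  exact Submodule.add_mem _ (mon_mono (by omega) (mon_mul hc h h'))
    (Submodule.add_mem _ (Submodule.smul_mem _ _ h) (Submodule.smul_mem _ _ h'))

/-! ### the case used: left and right multiplication on `P₂ ⊗ P₁` or `Hom(P₁, P₂)` -/

/-- **Separation.** `ρ t` is (scalar `r t`) + (nilpotent part), `ρi t` its inverse; Laurent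
polynomials in `ρ t` with exponents `e k : ℤ`. -/
theorem sep_zpow {al be : Module.End K V} (hc : Commute al be) (ha : IsNilpotent al)
    (hb : IsNilpotent be) (S : Submodule K (κ → V))
    (hSa : ∀ w ∈ S, (fun k => al (w k)) ∈ S) (hSb : ∀ w ∈ S, (fun k => be (w k)) ∈ S)
    (f : κ → V →ₗ[K] E) (Q : Submodule K E) (T : Set τ) (r : τ → K) (hr : (r '' T).Infinite)
    (hr0 : ∀ t ∈ T, r t ≠ 0) (ρ ρi : τ → Module.End K V)
    (hρ : ∀ t ∈ T, ρ t - r t • (1 : Module.End K V) ∈ Mon al be 1)
    (hρi : ∀ t ∈ T, ρi t * ρ t = 1) (e : κ → ℤ) (he : Function.Injective e)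
    (h : ∀ t ∈ T, ∀ w ∈ S, ∑ k, f k ((if 0 ≤ e k then ρ t ^ (e k).toNat
      else ρi t ^ (-e k).toNat) (w k)) ∈ Q) :
    ∀ w ∈ S, ∀ k, f k (w k) ∈ Q := by
  refine sep hc ha hb S hSa hSb f Q T _ (fun t k => r t ^ e k) ?_ ?_ h
  · intro t ht k
    by_cases hk : 0 ≤ e k
    · rw [if_pos hk]
      have h1 := pow_sub_mem hc (hρ t ht) (e k).toNat
      have h2 : r t ^ (e k).toNat = r t ^ e k := by
        rw [← zpow_natCast, Int.toNat_of_nonneg hk]
      rwa [h2] at h1
    · rw [if_neg hk]
      have h1 := pow_sub_mem hc (inv_sub_mem hc ha hb (hr0 t ht) (hρ t ht) (hρi t ht))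
        (-e k).toNat
      have h2 : (r t)⁻¹ ^ (-e k).toNat = r t ^ e k := by
        rw [inv_pow, ← zpow_natCast, Int.toNat_of_nonneg (by omega), zpow_neg, inv_inv]
      rwa [h2] at h1
  · intro v hv
    refine vand_int Q hr ?_ he v ?_
    · rintro ⟨t, ht, h0⟩
      exact hr0 t ht h0
    · rintro _ ⟨t, ht, rfl⟩
      exact hv t ht

end Crest.Agent.R172.NV
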