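import Crest.Agent.R172.Dual1

/-!
Row 172 (S0260), tame case `t1`, arbitrary radical: the Nakayama step (N1).

`g` is the form of the second side (vanishing on its radical `R2`, nonzero on the tops of every arm).
If every exact family `x` has a correction `δ : P2 → R1` satisfying the relation
`c δ B = A δ + A x♯ - c x♯ B` whose values on `R2` lie in `S`, then `R1 ≤ S`.
-/

set_option autoImplicit false
set_option linter.unusedSectionVars false

namespace Crest.Agent.R172.Nak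

open Module TensorProduct Crest.Agent.R172.Dual

variable {K : Type*} [Field K] {P1 P2 : Type*} [AddCommGroup P1] [Module K P1]
  [AddCommGroup P2] [Module K P2] {τ : Type*} [Fintype τ]

/-- `sh g (p2 ⊗ p1) p = g p2 p • p1` -/
noncomputable def sh (g : P2 →ₗ[K] P2 →ₗ[K] K) : P2 ⊗[K] P1 →ₗ[K] (P2 →ₗ[K] P1) :=
  TensorProduct.lift (LinearMap.smulRightₗ ∘ₗ g)

theorem sh_tmul (g : P2 →ₗ[K] P2 →ₗ[K] K) (p2 : P2) (p1 : P1) (p : P2) :
    sh g (p2 ⊗ₜ[K] p1) p = g p2 p • p1 := by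
  simp [sh]

theorem tmul_left {R1 : Submodule K P1} {R2 : Submodule K P2} {r : P2} (hr : r ∈ R2) (p : P1) :
    r ⊗ₜ[K] p ∈ Rad R1 R2 :=
  Submodule.mem_sup_left (Submodule.subset_span ⟨r, hr, p, rfl⟩)

theorem tmul_right {R1 : Submodule K P1} {R2 : Submodule K P2} {r : P1} (hr : r ∈ R1) (p : P2) :
    p ⊗ₜ[K] r ∈ Rad R1 R2 :=
  Submodule.mem_sup_right (Submodule.subset_span ⟨p, r, hr, rfl⟩)

/-- a submodule containing both kinds of radical tensors contains `Rad` -/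
theorem rad_le {R1 : Submodule K P1} {R2 : Submodule K P2} {G : Submodule K (P2 ⊗[K] P1)}
    (h1 : ∀ r ∈ R2, ∀ p : P1, r ⊗ₜ[K] p ∈ G) (h2 : ∀ r ∈ R1, ∀ p : P2, p ⊗ₜ[K] r ∈ G) :
    Rad R1 R2 ≤ G := by
  refine sup_le (Submodule.span_le.2 ?_) (Submodule.span_le.2 ?_)
  · rintro _ ⟨r, hr, p, rfl⟩
    exact h1 r hr p
  · rintro _ ⟨p, r, hr, rfl⟩
    exact h2 r hr p

theorem sh_right {g : P2 →ₗ[K] P2 →ₗ[K] K} {r : P2} (hr : ∀ y, g y r = 0) (z : P2 ⊗[K] P1) :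
    sh g z r = 0 := by
  induction z using TensorProduct.induction_on with
  | zero => simp
  | tmul p2 p1 => rw [sh_tmul, hr, zero_smul]
  | add x y hx hy => rw [map_add, LinearMap.add_apply, hx, hy, add_zero]

theorem sh_rad {g : P2 →ₗ[K] P2 →ₗ[K] K} {R1 : Submodule K P1} {R2 : Submodule K P2}
    (hgR : ∀ r ∈ R2, ∀ y, g r y = 0) {z : P2 ⊗[K] P1} (hz : z ∈ Rad R1 R2) (p : P2) :
    sh g z p ∈ R1 := by
  have h : Rad R1 R2 ≤ R1.comap (LinearMap.applyₗ p ∘ₗ sh g) := by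
    refine rad_le (fun r hr p1 => ?_) (fun r hr p2 => ?_)
    · rw [Submodule.mem_comap, LinearMap.comp_apply, LinearMap.applyₗ_apply_apply, sh_tmul,
        hgR r hr, zero_smul]
      exact R1.zero_mem
    · rw [Submodule.mem_comap, LinearMap.comp_apply, LinearMap.applyₗ_apply_apply, sh_tmul]
      exact R1.smul_mem _ hr
  exact h hz

theorem defect_rad {A : End K P1} {B : End K P2} {R1 : Submodule K P1} {R2 : Submodule K P2}
    (hA : ∀ r ∈ R1, A r ∈ R1) (hB : ∀ r ∈ R2, B r ∈ R2) (c : K) {z : P2 ⊗[K] P1}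
    (hz : z ∈ Rad R1 R2) : defect A B c z ∈ Rad R1 R2 := by
  have h : Rad R1 R2 ≤ (Rad R1 R2).comap (defect A B c) := by
    refine rad_le (fun r hr p1 => ?_) (fun r hr p2 => ?_)
    · rw [Submodule.mem_comap, defect_tmul]
      exact Submodule.sub_mem _ (tmul_left hr _) (Submodule.smul_mem _ _ (tmul_left (hB r hr) _))
    · rw [Submodule.mem_comap, defect_tmul]
      exact Submodule.sub_mem _ (tmul_right (hA r hr) _) (Submodule.smul_mem _ _ (tmul_right hr _))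
  exact h hz

/-- total defects of radical families -/
def Tot (A : τ → End K P1) (B : τ → End K P2) (R1 : Submodule K P1) (R2 : Submodule K P2) (c : K) :
    Submodule K (P2 ⊗[K] P1) :=
  (Submodule.pi Set.univ fun _ : τ => Rad R1 R2).map
    (∑ t, defect (A t) (B t) c ∘ₗ LinearMap.proj t)

theorem mem_tot {A : τ → End K P1} {B : τ → End K P2} {R1 : Submodule K P1} {R2 : Submodule K P2}
    {c : K} {x : P2 ⊗[K] P1} : x ∈ Tot A B R1 R2 c ↔
      ∃ y : τ → P2 ⊗[K] P1, (∀ t, y t ∈ Rad R1 R2) ∧ ∑ t, defect (A t) (B t) c (y t) = x := by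
  constructor
  · rintro ⟨y, hy, rfl⟩
    exact ⟨y, fun t => hy t (Set.mem_univ t), by
      simp only [LinearMap.sum_apply, LinearMap.comp_apply, LinearMap.proj_apply]⟩
  · rintro ⟨y, hy, rfl⟩
    exact ⟨y, fun t _ => hy t, by
      simp only [LinearMap.sum_apply, LinearMap.comp_apply, LinearMap.proj_apply]⟩

section tot

variable {A : τ → End K P1} {B : τ → End K P2} {R1 : Submodule K P1} {R2 : Submodule K P2} {c : K}

theorem tot_left (hA : ∀ p, ∃ f : τ → P1, p = ∑ t, A t (f t))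
    (hB2 : ∀ t, ∀ r ∈ R2, B t r ∈ R2) (n : ℕ) :
    ∀ r ∈ R2, Kills B n r → ∀ p : P1, r ⊗ₜ[K] p ∈ Tot A B R1 R2 c := by
  induction n with
  | zero =>
    intro r _ hk p
    rw [hk.zero, TensorProduct.zero_tmul]
    exact Submodule.zero_mem _
  | succ n ih =>
    intro r hr hk p
    obtain ⟨f, hf⟩ := hA p
    have h1 : (∑ t, defect (A t) (B t) c (r ⊗ₜ[K] f t)) ∈ Tot A B R1 R2 c :=
      mem_tot.2 ⟨fun t => r ⊗ₜ[K] f t, fun t => tmul_left hr _, rfl⟩
    have h2 : (∑ t, c • ((B t r) ⊗ₜ[K] f t)) ∈ Tot A B R1 R2 c :=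
      Submodule.sum_mem _ fun t _ => Submodule.smul_mem _ _ (ih _ (hB2 t r hr) (hk.succ t) _)
    have h3 : r ⊗ₜ[K] p = (∑ t, defect (A t) (B t) c (r ⊗ₜ[K] f t)) +
        ∑ t, c • ((B t r) ⊗ₜ[K] f t) := by
      rw [← Finset.sum_add_distrib, hf, TensorProduct.tmul_sum]
      refine Finset.sum_congr rfl fun t _ => ?_
      rw [defect_tmul, sub_add_cancel]
    rw [h3]
    exact Submodule.add_mem _ h1 h2

theorem tot_right (hc : c ≠ 0) (hB : ∀ p, ∃ f : τ → P2, p = ∑ t, B t (f t))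
    (hA1 : ∀ t, ∀ r ∈ R1, A t r ∈ R1) (n : ℕ) :
    ∀ r ∈ R1, Kills A n r → ∀ p : P2, p ⊗ₜ[K] r ∈ Tot A B R1 R2 c := by
  induction n with
  | zero =>
    intro r _ hk p
    rw [hk.zero, TensorProduct.tmul_zero]
    exact Submodule.zero_mem _
  | succ n ih =>
    intro r hr hk p
    obtain ⟨f, hf⟩ := hB p
    have h1 : (∑ t, defect (A t) (B t) c (f t ⊗ₜ[K] r)) ∈ Tot A B R1 R2 c :=
      mem_tot.2 ⟨fun t => f t ⊗ₜ[K] r, fun t => tmul_right hr _, rfl⟩
    have h2 : (∑ t, (f t) ⊗ₜ[K] A t r) ∈ Tot A B R1 R2 c :=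
      Submodule.sum_mem _ fun t _ => ih _ (hA1 t r hr) (hk.succ t) _
    have h3 : c • (p ⊗ₜ[K] r) = (∑ t, (f t) ⊗ₜ[K] A t r) -
        ∑ t, defect (A t) (B t) c (f t ⊗ₜ[K] r) := by
      rw [← Finset.sum_sub_distrib, hf, TensorProduct.sum_tmul, Finset.smul_sum]
      refine Finset.sum_congr rfl fun t _ => ?_
      rw [defect_tmul, sub_sub_cancel]
    have h4 : p ⊗ₜ[K] r = c⁻¹ • ((∑ t, (f t) ⊗ₜ[K] A t r) -
        ∑ t, defect (A t) (B t) c (f t ⊗ₜ[K] r)) := by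
      rw [← h3, smul_smul, inv_mul_cancel₀ hc, one_smul]
    rw [h4]
    exact Submodule.smul_mem _ _ (Submodule.sub_mem _ h2 h1)

/-- **Total defects of radical families fill `Rad`.** -/
theorem rad_le_tot (hc : c ≠ 0) (hA : ∀ p, ∃ f : τ → P1, p = ∑ t, A t (f t))
    (hB : ∀ p, ∃ f : τ → P2, p = ∑ t, B t (f t))
    (hA1 : ∀ t, ∀ r ∈ R1, A t r ∈ R1) (hB2 : ∀ t, ∀ r ∈ R2, B t r ∈ R2)
    (hn1 : ∃ n, ∀ r ∈ R1, Kills A n r) (hn2 : ∃ n, ∀ r ∈ R2, Kills B n r) :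
    Rad R1 R2 ≤ Tot A B R1 R2 c := by
  obtain ⟨n1, hn1⟩ := hn1
  obtain ⟨n2, hn2⟩ := hn2
  exact rad_le (fun r hr p => tot_left hA hB2 n2 r hr (hn2 r hr) p)
    (fun r hr p => tot_right hc hB hA1 n1 r hr (hn1 r hr) p)

/-- telescoping -/
theorem defect_tele (a : End K P1) (b : End K P2) (l : ℕ) (p2 : P2) (p1 : P1) :
    defect a b c (∑ k ∈ Finset.range l, c ^ k • ((b ^ k) p2 ⊗ₜ[K] (a ^ (l - 1 - k)) p1)) =
      p2 ⊗ₜ[K] (a ^ l) p1 - c ^ l • ((b ^ l) p2 ⊗ₜ[K] p1) := by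
  have h : ∀ k ∈ Finset.range l,
      defect a b c (c ^ k • ((b ^ k) p2 ⊗ₜ[K] (a ^ (l - 1 - k)) p1)) =
      c ^ k • ((b ^ k) p2 ⊗ₜ[K] (a ^ (l - k)) p1) -
        c ^ (k + 1) • ((b ^ (k + 1)) p2 ⊗ₜ[K] (a ^ (l - (k + 1))) p1) := by
    intro k hk
    have hk' := Finset.mem_range.1 hk
    have h1 : l - k = (l - 1 - k) + 1 := by omega
    have h2 : l - (k + 1) = l - 1 - k := by omega
    rw [map_smul, defect_tmul, smul_sub, smul_smul, ← pow_succ, h1, h2, pow_succ' a, pow_succ' b]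
    rfl
  rw [map_sum, Finset.sum_congr rfl h,
    Finset.sum_range_sub' (fun k => c ^ k • ((b ^ k) p2 ⊗ₜ[K] (a ^ (l - k)) p1))]
  simp

/-- **Correction**: every single-arm chain is completed to an exact family by a radical family. -/
theorem exists_exact [DecidableEq τ] (hc : c ≠ 0) (hA : ∀ p, ∃ f : τ → P1, p = ∑ t, A t (f t))
    (hB : ∀ p, ∃ f : τ → P2, p = ∑ t, B t (f t))
    (hA1 : ∀ t, ∀ r ∈ R1, A t r ∈ R1) (hB2 : ∀ t, ∀ r ∈ R2, B t r ∈ R2)
    (hn1 : ∃ n, ∀ r ∈ R1, Kills A n r) (hn2 : ∃ n, ∀ r ∈ R2, Kills B n r)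
    (s : τ) (X : P2 ⊗[K] P1) (hX : defect (A s) (B s) c X ∈ Rad R1 R2) :
    ∃ y : τ → P2 ⊗[K] P1, (∀ t, y t ∈ Rad R1 R2) ∧
      Exact A B R1 R2 c (Pi.single s X - y : τ → P2 ⊗[K] P1) := by
  obtain ⟨y, hy, hs⟩ := mem_tot.1 (rad_le_tot hc hA hB hA1 hB2 hn1 hn2 hX)
  have hd : ∀ t, defect (A t) (B t) c ((Pi.single s X - y : τ → P2 ⊗[K] P1) t) =
      (if t = s then defect (A s) (B s) c X else 0) - defect (A t) (B t) c (y t) := by
    intro t
    rw [Pi.sub_apply, map_sub]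
    by_cases h : t = s
    · subst h
      rw [Pi.single_eq_same, if_pos rfl]
    · rw [Pi.single_eq_of_ne h, if_neg h, map_zero]
  refine ⟨y, hy, ?_, fun t => ?_⟩
  · rw [Finset.sum_congr rfl fun t _ => hd t, Finset.sum_sub_distrib, hs,
      Finset.sum_ite_eq' Finset.univ s, if_pos (Finset.mem_univ s), sub_self]
  · rw [hd t]
    refine Submodule.sub_mem _ ?_ (defect_rad (hA1 t) (hB2 t) c (hy t))
    split_ifs
    · exact hX
    · exact Submodule.zero_mem _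

end tot

/-- nilpotent Nakayama -/
theorem nakayama {A : τ → End K P1} {R1 N : Submodule K P1} {n : ℕ}
    (hn : ∀ r ∈ R1, Kills A n r) (hN : ∀ t, ∀ r ∈ N, A t r ∈ N)
    (h : R1 ≤ N ⊔ ⨆ t, R1.map (A t)) : R1 ≤ N := by
  have key : ∀ k : ℕ, R1 ≤ N ⊔ Submodule.span K {v | ∃ w : List τ, w.length = k ∧
      ∃ r ∈ R1, v = (w.map A).prod r} := by
    intro k
    induction k with
    | zero =>
      intro r hr
      exact Submodule.mem_sup_right (Submodule.subset_span ⟨[], rfl, r, hr, by simp⟩)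
    | succ k ih =>
      refine h.trans (sup_le le_sup_left (iSup_le fun t => ?_))
      refine (Submodule.map_mono ih).trans ?_
      rw [Submodule.map_sup]
      refine sup_le_sup ?_ ?_
      · rintro _ ⟨x, hx, rfl⟩
        exact hN t x hx
      · rw [Submodule.map_span]
        refine Submodule.span_mono ?_
        rintro _ ⟨_, ⟨w, hw, r, hr, rfl⟩, rfl⟩
        exact ⟨t :: w, by simp [hw], r, hr, by simp⟩
  refine (key n).trans (sup_le le_rfl (Submodule.span_le.2 ?_))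
  rintro _ ⟨w, hw, r, hr, rfl⟩
  rw [hn r hr w hw]
  exact N.zero_mem

/-- **(N1)** -/
theorem nak {A : τ → End K P1} {B : τ → End K P2} {R1 : Submodule K P1} {R2 : Submodule K P2}
    {l : τ → ℕ}
    (hA : ∀ p, ∃ f : τ → P1, p = ∑ t, A t (f t)) (hB : ∀ p, ∃ f : τ → P2, p = ∑ t, B t (f t))
    (hA1 : ∀ t, ∀ r ∈ R1, A t r ∈ R1) (hB2 : ∀ t, ∀ r ∈ R2, B t r ∈ R2)
    (hn1 : ∃ n, ∀ r ∈ R1, Kills A n r) (hn2 : ∃ n, ∀ r ∈ R2, Kills B n r)
    (hl : ∀ s, 1 ≤ l s)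
    (hl1 : ∀ s p, (A s ^ l s) p ∈ R1) (hl2 : ∀ s p, (B s ^ l s) p ∈ R2)
    (gen1 : ∀ S : Submodule K P1, (∀ s p, (A s ^ l s) p ∈ S) → (∀ t, ∀ r ∈ S, A t r ∈ S) → R1 ≤ S)
    (g2 : P2 →ₗ[K] P2 →ₗ[K] K) (hsym : ∀ x y, g2 x y = g2 y x)
    (hg : ∀ t x y, g2 (B t x) y = g2 x (B t y)) (hgR : ∀ r ∈ R2, ∀ y, g2 r y = 0)
    (hne : ∀ s, ∃ p p', g2 p ((B s ^ (l s - 1)) p') ≠ 0)
    {c : K} (hc : c ≠ 0) (S : Submodule K P1)
    (hS : ∀ x : τ → P2 ⊗[K] P1, Exact A B R1 R2 c x → ∃ δ : P2 →ₗ[K] P1, (∀ p, δ p ∈ R1) ∧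
      (∀ r p, c • δ (B r p) =
        A r (δ p) + A r (sh g2 (x r) p) - c • sh g2 (x r) (B r p)) ∧ ∀ ρ ∈ R2, δ ρ ∈ S) :
    R1 ≤ S := by
  classical
  have hgR' : ∀ r ∈ R2, ∀ y, g2 y r = 0 := fun r hr y => by rw [hsym, hgR r hr]
  let N : Submodule K P1 := Submodule.span K {v | ∃ x : τ → P2 ⊗[K] P1, Exact A B R1 R2 c x ∧
    ∃ δ : P2 →ₗ[K] P1, ((∀ p, δ p ∈ R1) ∧
      (∀ r p, c • δ (B r p) =
        A r (δ p) + A r (sh g2 (x r) p) - c • sh g2 (x r) (B r p)) ∧ ∀ ρ ∈ R2, δ ρ ∈ S) ∧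
    ∃ ρ ∈ R2, v = δ ρ}
  have hNS : N ≤ S := by
    refine Submodule.span_le.2 ?_
    rintro _ ⟨x, _, δ, ⟨_, _, h3⟩, ρ, hρ, rfl⟩
    exact h3 ρ hρ
  have hNA : ∀ t, ∀ r ∈ N, A t r ∈ N := by
    intro t
    have h : N ≤ N.comap (A t) := by
      refine Submodule.span_le.2 ?_
      rintro _ ⟨x, hx, δ, ⟨h1, h2, h3⟩, ρ, hρ, rfl⟩
      rw [SetLike.mem_coe, Submodule.mem_comap]
      have h4 := h2 t ρ
      rw [sh_right (hgR' ρ hρ), sh_right (hgR' _ (hB2 t ρ hρ)), map_zero, smul_zero, add_zero,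
        sub_zero] at h4
      rw [← h4]
      exact N.smul_mem _ (Submodule.subset_span
        ⟨x, hx, δ, ⟨h1, h2, h3⟩, B t ρ, hB2 t ρ hρ, rfl⟩)
    exact fun r hr => h hr
  refine le_trans ?_ hNS
  obtain ⟨n, hn⟩ := hn1
  refine nakayama hn hNA (gen1 _ ?_ ?_)
  · intro s p1
    obtain ⟨p2, p', hpp⟩ := hne s
    set X : P2 ⊗[K] P1 := ∑ k ∈ Finset.range (l s),
      c ^ k • (((B s) ^ k) p2 ⊗ₜ[K] ((A s) ^ (l s - 1 - k)) p1) with hXdef
    have hX : defect (A s) (B s) c X ∈ Rad R1 R2 := by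
      rw [hXdef, defect_tele]
      exact Submodule.sub_mem _ (tmul_right (hl1 s p1) _)
        (Submodule.smul_mem _ _ (tmul_left (hl2 s p2) _))
    obtain ⟨y, hy, hex⟩ := exists_exact hc hA hB hA1 hB2 ⟨n, hn⟩ hn2 s X hX
    obtain ⟨δ, hδ1, hδ2, hδ3⟩ := hS _ hex
    have hpow : (B s) ((B s ^ (l s - 1)) p') = (B s ^ l s) p' := by
      have h1 : l s = (l s - 1) + 1 := by have := hl s; omega
      conv_rhs => rw [h1, pow_succ']
      rfl
    have hrel := hδ2 s ((B s ^ (l s - 1)) p')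
    rw [hpow, sh_right (hgR' _ (hl2 s p')), smul_zero, sub_zero] at hrel
    -- value of `sh X`
    have hpw : ∀ (k : ℕ) (u v : P2), g2 ((B s ^ k) u) v = g2 u ((B s ^ k) v) := by
      intro k
      induction k with
      | zero => intro u v; simp
      | succ k ih =>
        intro u v
        rw [pow_succ', Module.End.mul_apply, hg, ih, ← Module.End.mul_apply, ← pow_succ,
          ← pow_succ']
    have hshX : sh g2 X ((B s ^ (l s - 1)) p') =
        g2 p2 ((B s ^ (l s - 1)) p') • (A s ^ (l s - 1)) p1 := by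
      rw [hXdef, map_sum, LinearMap.sum_apply, Finset.sum_eq_single 0]
      · rw [map_smul, LinearMap.smul_apply, sh_tmul, pow_zero, one_smul, pow_zero,
          Module.End.one_apply, Nat.sub_zero]
      · intro k _ hk
        rw [map_smul, LinearMap.smul_apply, sh_tmul, hpw]
        have h2 : (B s ^ k) ((B s ^ (l s - 1)) p') = (B s ^ l s) ((B s ^ (k - 1)) p') := by
          rw [← Module.End.mul_apply, ← Module.End.mul_apply, ← pow_add, ← pow_add]
          congr 2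
          have := hl s
          omega
        rw [h2, hgR' _ (hl2 s _), zero_smul, smul_zero]
      · intro h
        exact absurd (Finset.mem_range.2 (hl s)) h
    have hxs : (Pi.single s X - y : τ → P2 ⊗[K] P1) s = X - y s := by
      rw [Pi.sub_apply, Pi.single_eq_same]
    have hAp : (A s) ((A s ^ (l s - 1)) p1) = (A s ^ l s) p1 := by
      have h1 : l s = (l s - 1) + 1 := by have := hl s; omega
      conv_rhs => rw [h1, pow_succ']
      rfl
    rw [hxs, map_sub, LinearMap.sub_apply, hshX, map_sub, map_smul, hAp] at hrel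
    set a := g2 p2 ((B s ^ (l s - 1)) p') with ha
    have h5 : a • (A s ^ l s) p1 = c • δ ((B s ^ l s) p') -
        A s (δ ((B s ^ (l s - 1)) p')) + A s (sh g2 (y s) ((B s ^ (l s - 1)) p')) := by
      rw [hrel]; abel
    have h6 : (A s ^ l s) p1 = a⁻¹ • (c • δ ((B s ^ l s) p') -
        A s (δ ((B s ^ (l s - 1)) p')) + A s (sh g2 (y s) ((B s ^ (l s - 1)) p'))) := by
      rw [← h5, smul_smul, inv_mul_cancel₀ hpp, one_smul]
    rw [h6]
    refine Submodule.smul_mem _ _ (Submodule.add_mem _ (Submodule.sub_mem _ ?_ ?_) ?_)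
    · exact Submodule.smul_mem _ _ (Submodule.mem_sup_left (Submodule.subset_span
        ⟨_, hex, δ, ⟨hδ1, hδ2, hδ3⟩, _, hl2 s p', rfl⟩))
    · exact Submodule.mem_sup_right (Submodule.mem_iSup_of_mem s
        (Submodule.mem_map_of_mem (hδ1 _)))
    · exact Submodule.mem_sup_right (Submodule.mem_iSup_of_mem s
        (Submodule.mem_map_of_mem (sh_rad hgR (hy s) _)))
  · intro t
    have hle : N ≤ R1 := by
      refine Submodule.span_le.2 ?_
      rintro _ ⟨x, _, δ, ⟨h1, _, _⟩, ρ, _, rfl⟩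
      exact h1 ρ
    have h : N ⊔ (⨆ u, R1.map (A u)) ≤ (N ⊔ ⨆ u, R1.map (A u)).comap (A t) := by
      refine sup_le (fun r hr => Submodule.mem_sup_left (hNA t r hr)) (iSup_le fun u => ?_)
      rintro _ ⟨r, hr, rfl⟩
      exact Submodule.mem_sup_right (Submodule.mem_iSup_of_mem t
        (Submodule.mem_map_of_mem (hA1 u r hr)))
    exact fun r hr => h hr

end Crest.Agent.R172.Nak
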