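import Crest.Agent.R172.ThX2

/-!
Row 172 (S0260): isotropic elements. If `NIL` holds for all pairs, every isotropic `G ∈ 𝒦` is
perpendicular to `𝒦`; together with the identity `(*)` (Theorem X at the generic point, descended
to the base field) the space `𝒦iso` has codimension at most one.
-/

set_option autoImplicit false

namespace Crest.Agent.R172.ThX

open Module LinearMap St _root_.Crest.Agent.R172.Core

variable {K : Type*} [Field K] {V : Type*} [AddCommGroup V] [Module K V]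
variable {U : Type*} [AddCommGroup U] [Module K U] {ι : Type*}
variable {B : LinearMap.BilinForm K V} {q : LinearMap.BilinForm K U} {p : ι → End K U}
variable {adj : (U →ₗ[K] V) →ₗ[K] (V →ₗ[K] U)} {𝒦 : Submodule K (U →ₗ[K] V)}

/-- The space of elements of `𝒦` perpendicular to all of `𝒦`. -/
def Kiso (B : LinearMap.BilinForm K V) (𝒦 : Submodule K (U →ₗ[K] V)) :
    Submodule K (U →ₗ[K] V) where
  carrier := {G | G ∈ 𝒦 ∧ ∀ F ∈ 𝒦, ∀ u u', B (F u) (G u') = 0}
  zero_mem' := ⟨𝒦.zero_mem, by intro F _ u u'; simp⟩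
  add_mem' := by
    rintro G G' ⟨h1, h2⟩ ⟨h1', h2'⟩
    refine ⟨𝒦.add_mem h1 h1', fun F hF u u' => ?_⟩
    rw [LinearMap.add_apply, map_add, h2 F hF, h2' F hF, add_zero]
  smul_mem' := by
    rintro c G ⟨h1, h2⟩
    refine ⟨𝒦.smul_mem c h1, fun F hF u u' => ?_⟩
    rw [LinearMap.smul_apply, map_smul, h2 F hF, smul_zero]

theorem mem_Kiso {G : U →ₗ[K] V} :
    G ∈ Kiso B 𝒦 ↔ G ∈ 𝒦 ∧ ∀ F ∈ 𝒦, ∀ u u', B (F u) (G u') = 0 := Iff.rfl

theorem Kiso_le : Kiso B 𝒦 ≤ 𝒦 := fun _ h => h.1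

/-- words of length two in `M(F,G)` vanish if `G` is isotropic -/
theorem Sys.words_of_iso (S : Sys B q p adj 𝒦) (hq : NS q) {F G : U →ₗ[K] V} (hF : F ∈ 𝒦)
    (hG : G ∈ 𝒦) (hiso : ∀ u u', B (G u) (G u') = 0) :
    ∀ l : List ι, 2 ≤ l.length → ∀ v, wd (MM p adj F G) l v = 0 := by
  have h0 : ∀ u, adj G (G u) = 0 := by
    intro u
    apply hq.nd
    intro w
    rw [hq.symm, ← S.adj_spec, hiso]
  have h1 : ∀ s t v, MM p adj F G s (MM p adj F G t v) = 0 := by
    intro s t v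
    rw [S.F2 F hF G hG t v]
    simp only [MM_apply, h0, map_zero]
  intro l hl v
  match l, hl with
  | s :: t :: l, _ => rw [wd_cons, wd_cons, h1]

/-- **Isotropic elements are perpendicular to everything.** -/
theorem Sys.iso_mem (S : Sys B q p adj 𝒦) (hB : NS B) (hq : NS q)
    (nil : ∀ F ∈ 𝒦, ∀ G ∈ 𝒦, (∃ m, ∀ l : List ι, m ≤ l.length → ∀ v,
      wd (MM p adj F G) l v = 0) → ∀ u u', B (F u) (G u') = 0)
    {G : U →ₗ[K] V} (hG : G ∈ 𝒦) (hiso : ∀ u u', B (G u) (G u') = 0) : G ∈ Kiso B 𝒦 :=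
  ⟨hG, fun F hF => nil F hF G hG ⟨2, S.words_of_iso hq hF hG hiso⟩⟩

/-- **Codimension at most one.** `hX` is Theorem X descended to the base field. -/
theorem Sys.codim [IsAlgClosed K] (S : Sys B q p adj 𝒦) (hB : NS B) (hq : NS q)
    (nil : ∀ F ∈ 𝒦, ∀ G ∈ 𝒦, (∃ m, ∀ l : List ι, m ≤ l.length → ∀ v,
      wd (MM p adj F G) l v = 0) → ∀ u u', B (F u) (G u') = 0)
    (hX : ∀ F ∈ 𝒦, ∀ G ∈ 𝒦, ∀ u1 u1' u2 u2', B (F u1) (G u1') * B (F u2) (F u2')
      = B (F u2) (G u2') * B (F u1) (F u1')) :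
    Kiso B 𝒦 = 𝒦 ∨ ∃ F0 ∈ 𝒦, F0 ∉ Kiso B 𝒦 ∧ 𝒦 = Kiso B 𝒦 ⊔ Submodule.span K {F0} := by
  by_cases hall : ∀ F ∈ 𝒦, ∀ u u', B (F u) (F u') = 0
  · left
    exact le_antisymm Kiso_le fun G hG => S.iso_mem hB hq nil hG (hall G hG)
  right
  push Not at hall
  obtain ⟨F0, hF0, u0, u0', h0⟩ := hall
  have hsymm : ∀ F ∈ 𝒦, ∀ G ∈ 𝒦, ∀ u u', B (F u) (G u') = B (G u) (F u') :=
    fun F hF G hG u u' => S.F1 F hF G hG u u'
  -- `a`-isotropic elements are isotropic
  have hiso : ∀ G ∈ 𝒦, B (G u0) (G u0') = 0 → ∀ u u', B (G u) (G u') = 0 := by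
    intro G hG ha u u'
    by_cases hFG : B (F0 u0) (G u0') = 0
    · have h1 : ∀ F ∈ 𝒦, B (F u0) (G u0') = 0 → B (F u0) (F u0') ≠ 0 → B (F u) (G u') = 0 := by
        intro F hF h2 h3
        have h4 := hX F hF G hG u0 u0' u u'
        rw [h2, zero_mul] at h4
        exact (mul_eq_zero.mp h4.symm).resolve_right h3
      have h5 := h1 F0 hF0 hFG h0
      have h6 := h1 (F0 + G) (𝒦.add_mem hF0 hG) (by
        rw [LinearMap.add_apply, map_add, LinearMap.add_apply, hFG, ha, add_zero]) (by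
        rw [LinearMap.add_apply, LinearMap.add_apply, map_add, map_add, LinearMap.add_apply,
          LinearMap.add_apply, ha, hFG, ← hsymm F0 hF0 G hG, hFG, add_zero, add_zero, add_zero]
        exact h0)
      rw [LinearMap.add_apply, map_add, LinearMap.add_apply, h5, zero_add] at h6
      exact h6
    · have h4 := hX G hG F0 hF0 u0 u0' u u'
      rw [ha, mul_zero] at h4
      have h5 : B (G u0) (F0 u0') ≠ 0 := by rw [← hsymm F0 hF0 G hG]; exact hFG
      exact (mul_eq_zero.mp h4).resolve_left h5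
  refine ⟨F0, hF0, ?_, ?_⟩
  · intro h; exact h0 (h.2 F0 hF0 u0 u0')
  · apply le_antisymm
    · intro G hG
      obtain ⟨c, hc⟩ : ∃ c : K, B ((G - c • F0) u0) ((G - c • F0) u0') = 0 := by
        obtain ⟨c, hc⟩ := IsAlgClosed.exists_root
          (Polynomial.C (B (F0 u0) (F0 u0')) * Polynomial.X ^ 2
            + Polynomial.C (-(B (G u0) (F0 u0') + B (F0 u0) (G u0'))) * Polynomial.X
            + Polynomial.C (B (G u0) (G u0'))) (by
          rw [Polynomial.degree_quadratic h0]; decide)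
        refine ⟨c, ?_⟩
        simp only [Polynomial.IsRoot.def, Polynomial.eval_add, Polynomial.eval_mul,
          Polynomial.eval_C, Polynomial.eval_pow, Polynomial.eval_X] at hc
        simp only [LinearMap.sub_apply, LinearMap.smul_apply, map_sub, map_smul, smul_eq_mul]
        linear_combination hc
      have hmem : G - c • F0 ∈ Kiso B 𝒦 :=
        S.iso_mem hB hq nil (𝒦.sub_mem hG (𝒦.smul_mem c hF0))
          (hiso _ (𝒦.sub_mem hG (𝒦.smul_mem c hF0)) hc)
      have : G = (G - c • F0) + c • F0 := by abel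
      rw [this]
      exact Submodule.add_mem _ (Submodule.mem_sup_left hmem)
        (Submodule.mem_sup_right (Submodule.smul_mem _ _ (Submodule.mem_span_singleton_self _)))
    · refine sup_le Kiso_le ?_
      rw [Submodule.span_singleton_le_iff_mem]
      exact hF0

/-- If there is no non-zero isotropic element then `dim 𝒦 ≤ 1`. -/
theorem Sys.finrank_le [IsAlgClosed K] [FiniteDimensional K U] [FiniteDimensional K V]
    (S : Sys B q p adj 𝒦) (hB : NS B) (hq : NS q)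
    (nil : ∀ F ∈ 𝒦, ∀ G ∈ 𝒦, (∃ m, ∀ l : List ι, m ≤ l.length → ∀ v,
      wd (MM p adj F G) l v = 0) → ∀ u u', B (F u) (G u') = 0)
    (hX : ∀ F ∈ 𝒦, ∀ G ∈ 𝒦, ∀ u1 u1' u2 u2', B (F u1) (G u1') * B (F u2) (F u2')
      = B (F u2) (G u2') * B (F u1) (F u1')) :
    finrank K 𝒦 ≤ finrank K (Kiso B 𝒦) + 1 := by
  rcases S.codim hB hq nil hX with h | ⟨F0, _, _, h⟩
  · rw [h]; omega
  · conv_lhs => rw [h]
    refine (Submodule.finrank_add_le_finrank_add_finrank _ _).trans ?_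
    gcongr
    exact (finrank_span_le_card ({F0} : Set (U →ₗ[K] V))).trans (by simp)

end Crest.Agent.R172.ThX
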