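import Crest.Agent.R172.NilFin
import Crest.Agent.R172.ThX3

/-!
Row 172: the bridge from the space `𝒦` to NIL.
`Σ = U / rad b`, `b(u,u') = B(F u, G u')`.
-/

set_option autoImplicit false
set_option linter.unusedSectionVars false

namespace Crest.Agent.R172.NilBr

open Module Crest.Agent.R172.NilLower Crest.Agent.R172.NilCount
open Crest.Agent.R172.NilConn (ten ten_apply)

variable {K : Type*} [Field K]

theorem bil_sum {V ι κ : Type*} [AddCommGroup V] [Module K V] [Fintype ι] [Fintype κ]
    (B : LinearMap.BilinForm K V) (p : ι → K) (f : ι → V) (q : κ → K) (g : κ → V) :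
    B (∑ i, p i • f i) (∑ j, q j • g j) = ∑ i, ∑ j, p i * q j * B (f i) (g j) := by
  have h1 : B (∑ i, p i • f i) = ∑ i, p i • B (f i) := by
    rw [map_sum]; exact Finset.sum_congr rfl fun i _ => map_smul _ _ _
  rw [h1, LinearMap.sum_apply]
  refine Finset.sum_congr rfl fun i _ => ?_
  rw [LinearMap.smul_apply, map_sum, Finset.smul_sum]
  refine Finset.sum_congr rfl fun j _ => ?_
  rw [map_smul, smul_eq_mul, smul_eq_mul]
  ring

/-- Every derivation of the field extends to a connection compatible with a nondegenerate symmetric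
form (characteristic not two). -/
theorem exists_conn {V : Type*} [AddCommGroup V] [Module K V] [FiniteDimensional K V]
    {B : LinearMap.BilinForm K V} (hB : B.Nondegenerate) (hs : B.IsSymm) (h2 : (2 : K) ≠ 0)
    (d : Derivation ℤ K K) : ∃ C : Conn B, C.d = d := by
  classical
  let e := Module.finBasis K V
  obtain ⟨A, hA⟩ : ∃ A : V →ₗ[K] V, ∀ i j, B (A (e i)) (e j) = 2⁻¹ * d (B (e i) (e j)) := by
    obtain ⟨A, hA⟩ := (gramMap_bijective hB e).2 (fun i j => 2⁻¹ * d (B (e i) (e j)))
    exact ⟨A, fun i j => congrFun (congrFun hA i) j⟩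
  have hA' : ∀ i j, B (e i) (A (e j)) = 2⁻¹ * d (B (e i) (e j)) := by
    intro i j
    have h1 : B (e i) (A (e j)) = B (A (e j)) (e i) := hs.eq _ _
    have h3 : B (e i) (e j) = B (e j) (e i) := hs.eq _ _
    rw [h1, h3]
    exact hA j i
  let nab : V →+ V :=
    { toFun := fun x => ∑ i, d (e.repr x i) • e i + A x
      map_zero' := by simp
      map_add' := by
        intro x y
        simp only [map_add, Finsupp.add_apply, add_smul, Finset.sum_add_distrib]
        abel }
  have hnab : ∀ x, nab x = ∑ i, d (e.repr x i) • e i + A x := fun x => rfl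
  refine ⟨⟨d, nab, ?_, ?_⟩, rfl⟩
  · intro c x
    rw [hnab, hnab, smul_add, map_smul e.repr, map_smul A, ← add_assoc]
    congr 1
    have : d c • x = ∑ i, (d c * e.repr x i) • e i := by
      conv_lhs => rw [← e.sum_repr x]
      rw [Finset.smul_sum]
      exact Finset.sum_congr rfl fun i _ => smul_smul _ _ _
    rw [this, Finset.smul_sum, ← Finset.sum_add_distrib]
    refine Finset.sum_congr rfl fun i _ => ?_
    rw [Finsupp.smul_apply, smul_eq_mul, Derivation.leibniz, smul_smul, ← add_smul, smul_eq_mul, smul_eq_mul]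
    congr 1
    ring
  · intro x y
    rw [hnab, hnab]
    have hx := e.sum_repr x
    have hy := e.sum_repr y
    have hAx : A x = ∑ i, e.repr x i • A (e i) := by
      conv_lhs => rw [← hx]
      rw [map_sum]
      exact Finset.sum_congr rfl fun i _ => map_smul _ _ _
    have hAy : A y = ∑ i, e.repr y i • A (e i) := by
      conv_lhs => rw [← hy]
      rw [map_sum]
      exact Finset.sum_congr rfl fun i _ => map_smul _ _ _
    have e1 : B x y = ∑ i, ∑ j, e.repr x i * e.repr y j * B (e i) (e j) := by
      conv_lhs => rw [← hx, ← hy]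
      exact bil_sum B _ _ _ _
    have e2 : B (∑ i, d (e.repr x i) • e i) y
        = ∑ i, ∑ j, d (e.repr x i) * e.repr y j * B (e i) (e j) := by
      conv_lhs => rw [← hy]
      exact bil_sum B _ _ _ _
    have e3 : B x (∑ i, d (e.repr y i) • e i)
        = ∑ i, ∑ j, e.repr x i * d (e.repr y j) * B (e i) (e j) := by
      conv_lhs => rw [← hx]
      exact bil_sum B _ _ _ _
    have e4 : B (A x) y = ∑ i, ∑ j, e.repr x i * e.repr y j * (2⁻¹ * d (B (e i) (e j))) := by
      rw [hAx]
      conv_lhs => rw [← hy]
      rw [bil_sum]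
      simp only [hA]
    have e5 : B x (A y) = ∑ i, ∑ j, e.repr x i * e.repr y j * (2⁻¹ * d (B (e i) (e j))) := by
      rw [hAy]
      conv_lhs => rw [← hx]
      rw [bil_sum]
      simp only [hA']
    rw [map_add, LinearMap.add_apply, map_add, e1, e2, e3, e4, e5]
    simp only [map_sum, ← Finset.sum_add_distrib]
    refine Finset.sum_congr rfl fun i _ => Finset.sum_congr rfl fun j _ => ?_
    rw [Derivation.leibniz, Derivation.leibniz]
    simp only [smul_eq_mul]
    field_simp
    ring

end Crest.Agent.R172.NilBr
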