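import Crest.Agent.R172.NilPat1

/-!
Row 172, node NILC: self-dual weighted flags (P2) and patterns (P3).
-/

set_option autoImplicit false
set_option linter.unusedSectionVars false
set_option linter.unusedSimpArgs false

namespace Crest.Agent.R172.NilPat

open Module Crest.Agent.R172.Kempf

variable {K V ι κ : Type*} [Field K] [AddCommGroup V] [Module K V] [Fintype ι] [DecidableEq ι]

/-! ### (P2) self-dual weighted flags -/

/-- The weighted flag `(e, w)` is self-dual for `B`. -/
def SD (B : LinearMap.BilinForm K V) (e : Basis ι K V) (w : ι → ℝ) : Prop :=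
  ∀ a x, x ∈ Fil e w a ↔ ∀ i, -a < w i → B (e i) x = 0

theorem bilin_eq_sum (B : LinearMap.BilinForm K V) (e : Basis ι K V) (x y : V) :
    B x y = ∑ i, e.repr x i * B (e i) y := by
  conv_lhs => rw [← e.sum_repr x]
  rw [map_sum, LinearMap.sum_apply]
  exact Finset.sum_congr rfl fun i _ => by rw [map_smul, LinearMap.smul_apply, smul_eq_mul]

theorem SD.mem_iff_flag {B : LinearMap.BilinForm K V} {e : Basis ι K V} {w : ι → ℝ}
    (h : SD B e w) (a : ℝ) (x : V) :
    x ∈ Fil e w a ↔ ∀ b, -a < b → ∀ y ∈ Fil e w b, B y x = 0 := by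
  rw [h]
  constructor
  · intro hx b hb y hy
    rw [bilin_eq_sum B e]
    apply Finset.sum_eq_zero
    intro i _
    by_cases hi : e.repr y i = 0
    · rw [hi, zero_mul]
    · rw [hx i (hb.trans_le (hy i hi)), mul_zero]
  · intro hx i hi
    exact hx (w i) hi (e i) (basis_mem_Fil e w le_rfl)

/-- Orthogonality of the steps `≥ a` and `≥ b` for `a + b > 0`. -/
theorem SD.ortho {B : LinearMap.BilinForm K V} {e : Basis ι K V} {w : ι → ℝ}
    (h : SD B e w) {a b : ℝ} (hab : 0 < a + b) {x y : V} (hx : x ∈ Fil e w a)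
    (hy : y ∈ Fil e w b) : B x y = 0 :=
  (h.mem_iff_flag b y).1 hy a (by linarith) x hx

theorem SD.congr {B : LinearMap.BilinForm K V} {e f : Basis ι K V} {w u : ι → ℝ}
    (h : SD B e w) (hf : ∀ a, Fil f u a = Fil e w a) : SD B f u := by
  intro a x
  rw [hf, h.mem_iff_flag]
  constructor
  · intro hx i hi
    exact hx (u i) hi (f i) (by rw [← hf]; exact basis_mem_Fil f u le_rfl)
  · intro hx b hb y hy
    rw [← hf] at hy
    rw [bilin_eq_sum B f]
    apply Finset.sum_eq_zero
    intro i _
    by_cases hi : f.repr y i = 0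
    · rw [hi, zero_mul]
    · rw [hx i (hb.trans_le (hy i hi)), mul_zero]

/-- An orthogonal-dual grading (output of `kempf`) gives a self-dual flag. -/
theorem SD.of_grading {B : LinearMap.BilinForm K V} (hB : B.Nondegenerate) (hs : B.IsSymm)
    {e : Basis ι K V} {w : ι → ℝ} (h : ∀ i j, w i + w j ≠ 0 → B (e i) (e j) = 0) : SD B e w := by
  have hfd : FiniteDimensional K V := Module.Finite.of_basis e
  intro a x
  constructor
  · intro hx i hi
    rw [hs.eq (e i) x, bilin_eq_sum B e]
    apply Finset.sum_eq_zero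
    intro j _
    by_cases hj : e.repr x j = 0
    · rw [hj, zero_mul]
    · have := hx j hj
      rw [h j i (by linarith), mul_zero]
  · intro hx
    -- the part of `x` of weight `< a` vanishes
    let x1 : V := ∑ j, (if w j < a then e.repr x j else 0) • e j
    have hx1r : ∀ j, e.repr x1 j = if w j < a then e.repr x j else 0 := fun j => by
      rw [show e.repr x1 = e.repr (∑ j, (if w j < a then e.repr x j else 0) • e j) from rfl,
        e.repr_sum_self]
    have hx1 : x1 = 0 := by
      have hB' := hB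
      apply (LinearMap.BilinForm.nondegenerate_iff_ker_eq_bot.mp hB |> fun h =>
        LinearMap.ker_eq_bot.mp h)
      rw [map_zero]
      apply e.ext
      intro i
      rw [LinearMap.zero_apply, bilin_eq_sum B e]
      by_cases hi : -a < w i
      · have h1 : B x (e i) = 0 := by rw [hs.eq x (e i)]; exact hx i hi
        rw [bilin_eq_sum B e] at h1
        rw [← h1]
        refine Finset.sum_congr rfl fun j _ => ?_
        rw [hx1r]
        by_cases hj : w j < a
        · rw [if_pos hj]
        · rw [if_neg hj, h j i (by linarith [not_lt.mp hj]), mul_zero, mul_zero]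
      · apply Finset.sum_eq_zero
        intro j _
        rw [hx1r]
        by_cases hj : w j < a
        · rw [h j i (by linarith [not_lt.mp hi]), mul_zero]
        · rw [if_neg hj, zero_mul]
    intro j hj
    by_contra hlt
    apply hj
    have := hx1r j
    rw [hx1, if_pos (not_le.mp hlt)] at this
    rw [← this]; simp

/-! ### (P3) patterns -/

section Pat

variable (B : LinearMap.BilinForm K V) (hB : B.Nondegenerate) (b : Basis ι K V)

theorem dual_left (i j : ι) : B (B.dualBasis hB b i) (b j) = if j = i then 1 else 0 :=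
  LinearMap.BilinForm.apply_dualBasis_left hB b i j

theorem dual_right (hs : B.IsSymm) (i j : ι) :
    B (b j) (B.dualBasis hB b i) = if j = i then 1 else 0 := by
  rw [hs.eq (b j) (B.dualBasis hB b i), dual_left]

/-- Endomorphisms `x ↦ ∑ C j k • B (b k) x • b j` with `C` supported on `ρ`. -/
def Pat (ρ : ι → ι → Prop) : Submodule K (V →ₗ[K] V) where
  carrier := {A | ∀ j k, ¬ ρ j k → b.repr (A (B.dualBasis hB b k)) j = 0}
  zero_mem' := by intro j k _; simp
  add_mem' := by
    intro A A' h h' j k hjk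
    simp [h j k hjk, h' j k hjk]
  smul_mem' := by
    intro r A h j k hjk
    simp [h j k hjk]

theorem mem_Pat {ρ : ι → ι → Prop} {A : V →ₗ[K] V} :
    A ∈ Pat B hB b ρ ↔ ∀ j k, ¬ ρ j k → b.repr (A (B.dualBasis hB b k)) j = 0 := Iff.rfl

theorem apply_eq_sum (hs : B.IsSymm) (A : V →ₗ[K] V) (x : V) :
    A x = ∑ k, ∑ j, (b.repr (A (B.dualBasis hB b k)) j * B (b k) x) • b j := by
  conv_lhs => rw [← (B.dualBasis hB b).sum_repr x]
  rw [map_sum]
  refine Finset.sum_congr rfl fun k _ => ?_
  rw [map_smul, dual_repr, hs.eq x (b k)]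
  conv_lhs => rw [← b.sum_repr (A (B.dualBasis hB b k)), Finset.smul_sum]
  refine Finset.sum_congr rfl fun j _ => ?_
  rw [smul_smul, mul_comm]

theorem mem_Pat_iff_exists (hs : B.IsSymm) {ρ : ι → ι → Prop} {A : V →ₗ[K] V} :
    A ∈ Pat B hB b ρ ↔ ∃ C : ι → ι → K, (∀ j k, ¬ ρ j k → C j k = 0) ∧
      ∀ x, A x = ∑ k, ∑ j, (C j k * B (b k) x) • b j := by
  constructor
  · intro h
    exact ⟨_, h, apply_eq_sum B hB b hs A⟩
  · rintro ⟨C, hC, hA⟩ j k hjk
    rw [hA, ← hC j k hjk, Finset.sum_eq_single k]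
    · rw [show (∑ j, (C j k * B (b k) (B.dualBasis hB b k)) • b j) = ∑ j, C j k • b j from ?_,
        b.repr_sum_self]
      refine Finset.sum_congr rfl fun j _ => ?_
      rw [dual_right B hB b hs, if_pos rfl, mul_one]
    · intro l _ hl
      apply Finset.sum_eq_zero
      intro j _
      rw [dual_right B hB b hs, if_neg hl, mul_zero, zero_smul]
    · intro h; exact absurd (Finset.mem_univ _) h

theorem Pat_inf (ρ ρ' : ι → ι → Prop) :
    Pat B hB b ρ ⊓ Pat B hB b ρ' = Pat B hB b (fun j k => ρ j k ∧ ρ' j k) := by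
  ext A
  rw [Submodule.mem_inf, mem_Pat, mem_Pat, mem_Pat]
  constructor
  · rintro ⟨h1, h2⟩ j k hjk
    by_cases hρ : ρ j k
    · exact h2 j k (fun h => hjk ⟨hρ, h⟩)
    · exact h1 j k hρ
  · intro h
    exact ⟨fun j k hjk => h j k (fun h' => hjk h'.1), fun j k hjk => h j k (fun h' => hjk h'.2)⟩

theorem Pat_mono {ρ ρ' : ι → ι → Prop} (h : ∀ j k, ρ j k → ρ' j k) :
    Pat B hB b ρ ≤ Pat B hB b ρ' := fun _ hA j k hjk => hA j k (fun h' => hjk (h j k h'))

/-- Under self-duality the steps of the filtration of `End V` are patterns. -/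
theorem Ge_eq_Pat (hs : B.IsSymm) {w : ι → ℝ} (h : SD B b w) (c : ℝ) :
    Ge b w c = Pat B hB b (fun j k => c ≤ w j + w k) := by
  ext A
  have hd : ∀ k, B.dualBasis hB b k ∈ Fil b w (- w k) := by
    intro k
    rw [h]
    intro i hi
    rw [dual_right B hB b hs, if_neg]
    rintro rfl; linarith
  constructor
  · intro hA j k hjk
    by_contra hne
    have := hA _ _ (hd k) j hne
    linarith
  · intro hA a x hx
    rw [apply_eq_sum B hB b hs A x]
    apply Submodule.sum_mem
    intro k _
    apply Submodule.sum_mem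
    intro j _
    by_cases hk : -a < w k
    · rw [(h a x).1 hx k hk, mul_zero, zero_smul]; exact Submodule.zero_mem _
    · by_cases hjk : c ≤ w j + w k
      · apply Submodule.smul_mem
        apply basis_mem_Fil
        linarith [not_lt.mp hk]
      · rw [hA j k hjk, zero_mul, zero_smul]; exact Submodule.zero_mem _

theorem Gt_eq_Pat (hs : B.IsSymm) {w : ι → ℝ} (h : SD B b w) (c : ℝ) :
    Gt b w c = Pat B hB b (fun j k => c < w j + w k) := by
  ext A
  have hd : ∀ k, B.dualBasis hB b k ∈ Fil b w (- w k) := by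
    intro k
    rw [h]
    intro i hi
    rw [dual_right B hB b hs, if_neg]
    rintro rfl; linarith
  constructor
  · intro hA j k hjk
    by_contra hne
    have := mem_Gt_flag.1 hA _ _ (hd k) j hne
    linarith [not_lt.mp hjk]
  · intro hA
    rw [mem_Gt_flag]
    intro a x hx l hl
    by_contra hlt
    apply hl
    rw [apply_eq_sum B hB b hs A x]
    rw [map_sum, Finsupp.coe_finsetSum, Finset.sum_apply]
    apply Finset.sum_eq_zero
    intro k _
    rw [b.repr_sum_self]
    by_cases hk : -a < w k
    · rw [(h a x).1 hx k hk, mul_zero]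
    · by_cases hlk : c < w l + w k
      · exfalso; linarith [not_lt.mp hk, not_lt.mp hlt]
      · rw [hA l k hlk, zero_mul]

/-- Coefficients as values of the form. -/
theorem coef_eq (hs : B.IsSymm) (A : V →ₗ[K] V) (j k : ι) :
    b.repr (A (B.dualBasis hB b k)) j = B (A (B.dualBasis hB b k)) (B.dualBasis hB b j) := by
  rw [bilin_eq_sum B b, Finset.sum_eq_single j]
  · rw [dual_right B hB b hs, if_pos rfl, mul_one]
  · intro l _ hl
    rw [dual_right B hB b hs, if_neg hl, mul_zero]
  · intro h; exact absurd (Finset.mem_univ _) h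

theorem mem_Sym_iff_coef (hs : B.IsSymm) {A : V →ₗ[K] V} :
    A ∈ Sym B ↔ ∀ j k, b.repr (A (B.dualBasis hB b k)) j = b.repr (A (B.dualBasis hB b j)) k := by
  constructor
  · intro h j k
    rw [coef_eq B hB b hs, coef_eq B hB b hs, h, hs.eq (B.dualBasis hB b k) (A _)]
  · intro h
    have hbil : (B.comp A LinearMap.id : LinearMap.BilinForm K V) = B.comp LinearMap.id A := by
      apply LinearMap.BilinForm.ext_basis (B.dualBasis hB b)
      intro i j
      simp only [LinearMap.BilinForm.comp_apply, LinearMap.id_apply]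
      rw [← coef_eq B hB b hs, h j i, coef_eq B hB b hs, hs.eq (A _) _]
    intro x y
    have := congrArg (fun C : LinearMap.BilinForm K V => C x y) hbil
    simpa using this

theorem mem_Skw_iff_coef (hs : B.IsSymm) {A : V →ₗ[K] V} :
    A ∈ Skw B ↔ ∀ j k, b.repr (A (B.dualBasis hB b k)) j = - b.repr (A (B.dualBasis hB b j)) k := by
  constructor
  · intro h j k
    rw [coef_eq B hB b hs, coef_eq B hB b hs, h, hs.eq (B.dualBasis hB b k) (A _)]
  · intro h
    have hbil : (B.comp A LinearMap.id : LinearMap.BilinForm K V) = - B.comp LinearMap.id A := by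
      apply LinearMap.BilinForm.ext_basis (B.dualBasis hB b)
      intro i j
      simp only [LinearMap.BilinForm.comp_apply, LinearMap.id_apply, LinearMap.neg_apply]
      rw [← coef_eq B hB b hs, h j i, coef_eq B hB b hs, hs.eq (A _) _]
    intro x y
    have := congrArg (fun C : LinearMap.BilinForm K V => C x y) hbil
    simpa using this

end Pat

/-! ### Dimension formulas -/

/-- Symmetric arrays supported on `ρ`. -/
def MSym (K : Type*) [Field K] (ρ : ι → ι → Prop) : Submodule K (ι → ι → K) where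
  carrier := {C | (∀ j k, C j k = C k j) ∧ ∀ j k, ¬ ρ j k → C j k = 0}
  zero_mem' := ⟨fun _ _ => rfl, fun _ _ _ => rfl⟩
  add_mem' := by
    rintro C C' ⟨h1, h2⟩ ⟨h1', h2'⟩
    exact ⟨fun j k => by simp only [Pi.add_apply, h1 j k, h1' j k],
      fun j k hjk => by simp only [Pi.add_apply, h2 j k hjk, h2' j k hjk, add_zero]⟩
  smul_mem' := by
    rintro r C ⟨h1, h2⟩
    exact ⟨fun j k => by simp only [Pi.smul_apply, h1 j k],
      fun j k hjk => by simp only [Pi.smul_apply, h2 j k hjk, smul_zero]⟩

/-- Skew arrays supported on `ρ`. -/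
def MSkw (K : Type*) [Field K] (ρ : ι → ι → Prop) : Submodule K (ι → ι → K) where
  carrier := {C | (∀ j k, C j k = - C k j) ∧ ∀ j k, ¬ ρ j k → C j k = 0}
  zero_mem' := ⟨fun _ _ => by simp, fun _ _ _ => rfl⟩
  add_mem' := by
    rintro C C' ⟨h1, h2⟩ ⟨h1', h2'⟩
    exact ⟨fun j k => by simp only [Pi.add_apply]; rw [h1 j k, h1' j k]; ring,
      fun j k hjk => by simp only [Pi.add_apply, h2 j k hjk, h2' j k hjk, add_zero]⟩
  smul_mem' := by
    rintro r C ⟨h1, h2⟩
    exact ⟨fun j k => by simp only [Pi.smul_apply]; rw [h1 j k]; simp,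
      fun j k hjk => by simp only [Pi.smul_apply, h2 j k hjk, smul_zero]⟩

theorem finrank_MSym_add_MSkw (h2 : (2 : K) ≠ 0) (ρ : ι → ι → Prop) (hρ : ∀ j k, ρ j k → ρ k j) :
    finrank K (MSym K ρ) + finrank K (MSkw K ρ) = Nat.card {p : ι × ι // ρ p.1 p.2} := by
  classical
  let F : (MSym K ρ × MSkw K ρ) →ₗ[K] ({p : ι × ι // ρ p.1 p.2} → K) :=
    { toFun := fun x p => x.1.1 p.1.1 p.1.2 + x.2.1 p.1.1 p.1.2
      map_add' := by intro x y; funext p; simp; ring
      map_smul' := by intro r x; funext p; simp; ring }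
  have hinj : Function.Injective F := by
    rw [← LinearMap.ker_eq_bot, LinearMap.ker_eq_bot']
    rintro ⟨⟨S, hS1, hS2⟩, ⟨T, hT1, hT2⟩⟩ h
    have h' : ∀ j k, S j k + T j k = 0 := by
      intro j k
      by_cases hjk : ρ j k
      · exact congrFun h ⟨(j, k), hjk⟩
      · rw [hS2 j k hjk, hT2 j k hjk, add_zero]
    have hS : ∀ j k, S j k = 0 := by
      intro j k
      have e1 := h' j k
      have e2 := h' k j
      rw [hS1 k j, hT1 k j] at e2
      have : 2 * S j k = 0 := by linear_combination e1 + e2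
      exact (mul_eq_zero.mp this).resolve_left h2
    have hT : ∀ j k, T j k = 0 := by
      intro j k
      have e1 := h' j k
      rw [hS j k, zero_add] at e1; exact e1
    ext j k
    · exact hS j k
    · exact hT j k
  have hsurj : Function.Surjective F := by
    intro f
    let C : ι → ι → K := fun j k => if h : ρ j k then f ⟨(j, k), h⟩ else 0
    refine ⟨⟨⟨fun j k => (2 : K)⁻¹ * (C j k + C k j), ?_, ?_⟩,
      ⟨fun j k => (2 : K)⁻¹ * (C j k - C k j), ?_, ?_⟩⟩, ?_⟩
    · intro j k; ring
    · intro j k hjk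
      have hkj : ¬ ρ k j := fun h => hjk (hρ k j h)
      simp only [C, dif_neg hjk, dif_neg hkj, add_zero, mul_zero]
    · intro j k; ring
    · intro j k hjk
      have hkj : ¬ ρ k j := fun h => hjk (hρ k j h)
      simp only [C, dif_neg hjk, dif_neg hkj, sub_zero, mul_zero]
    · funext ⟨⟨j, k⟩, hjk⟩
      change (2 : K)⁻¹ * (C j k + C k j) + (2 : K)⁻¹ * (C j k - C k j) = f ⟨(j, k), hjk⟩
      have : C j k = f ⟨(j, k), hjk⟩ := dif_pos hjk
      rw [← this]
      field_simp
      ring
  have := (LinearEquiv.ofBijective F ⟨hinj, hsurj⟩).finrank_eq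
  rw [finrank_prod] at this
  rw [this, Module.finrank_fintype_fun_eq_card, Nat.card_eq_fintype_card]

theorem finrank_MSym_eq (h2 : (2 : K) ≠ 0) (ρ : ι → ι → Prop) (hρ : ∀ j k, ρ j k → ρ k j) :
    finrank K (MSym K ρ) = finrank K (MSkw K ρ) + Nat.card {i // ρ i i} := by
  classical
  let φ := Fintype.equivFin ι
  let s : ι → ι → K := fun j k => if φ j < φ k then 1 else if φ k < φ j then -1 else 0
  have hs1 : ∀ j k, s k j = - s j k := by
    intro j k
    simp only [s]
    rcases lt_trichotomy (φ j) (φ k) with h | h | h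
    · rw [if_pos h, if_neg (not_lt.mpr h.le), if_pos h]
    · rw [h]; simp
    · rw [if_pos h, if_neg (not_lt.mpr h.le), if_pos h, neg_neg]
  have hs2 : ∀ j k, j ≠ k → s j k * s j k = 1 := by
    intro j k hjk
    simp only [s]
    rcases lt_trichotomy (φ j) (φ k) with h | h | h
    · rw [if_pos h, mul_one]
    · exact absurd (φ.injective h) hjk
    · rw [if_neg (not_lt.mpr h.le), if_pos h]; ring
  have hs3 : ∀ j, s j j = 0 := by intro j; simp [s]
  let F : MSym K ρ →ₗ[K] (MSkw K ρ × ({i // ρ i i} → K)) :=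
    { toFun := fun C => (⟨fun j k => s j k * C.1 j k, by
        refine ⟨fun j k => ?_, fun j k hjk => ?_⟩
        · beta_reduce; rw [hs1 j k, C.2.1 k j]; ring
        · beta_reduce; rw [C.2.2 j k hjk, mul_zero]⟩, fun i => C.1 i.1 i.1)
      map_add' := by
        intro C C'
        refine Prod.ext (Subtype.ext ?_) rfl
        funext j k
        simp; ring
      map_smul' := by
        intro r C
        refine Prod.ext (Subtype.ext ?_) rfl
        funext j k
        simp; ring }
  have hinj : Function.Injective F := by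
    rw [← LinearMap.ker_eq_bot, LinearMap.ker_eq_bot']
    rintro ⟨C, hC1, hC2⟩ h
    apply Subtype.ext
    funext j k
    change C j k = 0
    by_cases hjk : j = k
    · subst hjk
      by_cases hj : ρ j j
      · exact congrFun (congrArg Prod.snd h) ⟨j, hj⟩
      · exact hC2 j j hj
    · have h1 : s j k * C j k = 0 := congrFun (congrFun (congrArg (fun x => x.1.1) h) j) k
      have h3 := hs2 j k hjk
      have : s j k * s j k * C j k = 0 := by rw [mul_assoc, h1, mul_zero]
      rw [h3, one_mul] at this; exact this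
  have hsurj : Function.Surjective F := by
    rintro ⟨⟨D, hD1, hD2⟩, δ⟩
    have hDd : ∀ j, D j j = 0 := by
      intro j
      have := hD1 j j
      have h3 : 2 * D j j = 0 := by linear_combination this
      exact (mul_eq_zero.mp h3).resolve_left h2
    refine ⟨⟨fun j k => s j k * D j k + (if h : ρ j j then (if j = k then δ ⟨j, h⟩ else 0) else 0),
      ?_, ?_⟩, ?_⟩
    · intro j k
      beta_reduce
      rw [hs1 j k, hD1 k j]
      by_cases hjk : j = k
      · subst hjk; ring
      · have hkj : ¬ k = j := fun h => hjk h.symm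
        simp [hjk, hkj]
    · intro j k hjk
      beta_reduce
      rw [hD2 j k hjk, mul_zero, zero_add]
      by_cases h : ρ j j
      · rw [dif_pos h, if_neg]
        rintro rfl; exact hjk h
      · rw [dif_neg h]
    · refine Prod.ext (Subtype.ext ?_) ?_
      · funext j k
        change s j k * (s j k * D j k + (if h : ρ j j then (if j = k then δ ⟨j, h⟩ else 0) else 0)) =
          D j k
        by_cases hjk : j = k
        · subst hjk; rw [hs3, zero_mul, hDd]
        · have e1 : (if h : ρ j j then (if j = k then δ ⟨j, h⟩ else 0) else 0) = 0 := by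
            by_cases h : ρ j j
            · rw [dif_pos h, if_neg hjk]
            · rw [dif_neg h]
          rw [e1, add_zero, ← mul_assoc, hs2 j k hjk, one_mul]
      · funext ⟨j, hj⟩
        change s j j * D j j + (if h : ρ j j then (if j = j then δ ⟨j, h⟩ else 0) else 0) = δ ⟨j, hj⟩
        rw [hs3, zero_mul, zero_add, dif_pos hj, if_pos rfl]
  have := (LinearEquiv.ofBijective F ⟨hinj, hsurj⟩).finrank_eq
  rw [finrank_prod, Module.finrank_fintype_fun_eq_card] at this
  rw [this, Nat.card_eq_fintype_card]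

section PatDim

variable (B : LinearMap.BilinForm K V) (hB : B.Nondegenerate) (b : Basis ι K V)

/-- Coefficient array of an endomorphism. -/
noncomputable def coefEquiv : (V →ₗ[K] V) ≃ₗ[K] (ι → ι → K) :=
  LinearMap.toMatrix (B.dualBasis hB b) b

theorem coefEquiv_apply (A : V →ₗ[K] V) (j k : ι) :
    coefEquiv B hB b A j k = b.repr (A (B.dualBasis hB b k)) j :=
  LinearMap.toMatrix_apply _ _ _ _ _

theorem finrank_Sym_inf_Pat (hs : B.IsSymm) (ρ : ι → ι → Prop) :
    finrank K (Sym B ⊓ Pat B hB b ρ : Submodule K (V →ₗ[K] V)) = finrank K (MSym K ρ) := by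
  have h : (Sym B ⊓ Pat B hB b ρ).map (coefEquiv B hB b).toLinearMap = MSym K ρ := by
    ext C
    rw [Submodule.mem_map_equiv, Submodule.mem_inf, mem_Sym_iff_coef B hB b hs, mem_Pat]
    simp_rw [← coefEquiv_apply, LinearEquiv.apply_symm_apply]
    rfl
  rw [← h]
  exact (LinearEquiv.finrank_map_eq (coefEquiv B hB b) _).symm

theorem finrank_Skw_inf_Pat (hs : B.IsSymm) (ρ : ι → ι → Prop) :
    finrank K (Skw B ⊓ Pat B hB b ρ : Submodule K (V →ₗ[K] V)) = finrank K (MSkw K ρ) := by
  have h : (Skw B ⊓ Pat B hB b ρ).map (coefEquiv B hB b).toLinearMap = MSkw K ρ := by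
    ext C
    rw [Submodule.mem_map_equiv, Submodule.mem_inf, mem_Skw_iff_coef B hB b hs, mem_Pat]
    simp_rw [← coefEquiv_apply, LinearEquiv.apply_symm_apply]
    rfl
  rw [← h]
  exact (LinearEquiv.finrank_map_eq (coefEquiv B hB b) _).symm

/-- (P3), difference formula. -/
theorem finrank_Sym_eq (hs : B.IsSymm) (h2 : (2 : K) ≠ 0) (ρ : ι → ι → Prop)
    (hρ : ∀ j k, ρ j k → ρ k j) :
    finrank K (Sym B ⊓ Pat B hB b ρ : Submodule K (V →ₗ[K] V)) =
      finrank K (Skw B ⊓ Pat B hB b ρ : Submodule K (V →ₗ[K] V)) + Nat.card {i // ρ i i} := by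
  rw [finrank_Sym_inf_Pat B hB b hs, finrank_Skw_inf_Pat B hB b hs, finrank_MSym_eq h2 ρ hρ]

/-- (P3), sum formula. -/
theorem finrank_Sym_add_Skw (hs : B.IsSymm) (h2 : (2 : K) ≠ 0) (ρ : ι → ι → Prop)
    (hρ : ∀ j k, ρ j k → ρ k j) :
    finrank K (Sym B ⊓ Pat B hB b ρ : Submodule K (V →ₗ[K] V)) +
      finrank K (Skw B ⊓ Pat B hB b ρ : Submodule K (V →ₗ[K] V)) =
      Nat.card {p : ι × ι // ρ p.1 p.2} := by
  rw [finrank_Sym_inf_Pat B hB b hs, finrank_Skw_inf_Pat B hB b hs, finrank_MSym_add_MSkw h2 ρ hρ]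

end PatDim

end Crest.Agent.R172.NilPat
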