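import Crest.Agent.R172.NilCount3
import Crest.Agent.R172.NilPat2

/-!
# Row 172, node NILC: the data attached to a self-dual weighted flag
-/

set_option autoImplicit false
set_option linter.unusedSectionVars false

namespace Crest.Agent.R172.NilCount

open Module Crest.Agent.R172.Kempf Crest.Agent.R172.NilPat

section Adjoint

variable {K V ι : Type*} [Field K] [AddCommGroup V] [Module K V] [Fintype ι]

theorem exists_adj [FiniteDimensional K V] {B : LinearMap.BilinForm K V} (hB : B.Nondegenerate)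
    (hs : B.IsSymm) (A : V →ₗ[K] V) : ∃ A' : V →ₗ[K] V, ∀ x y, B (A x) y = B x (A' y) := by
  refine ⟨B.leftAdjointOfNondegenerate hB A, fun x y => ?_⟩
  have h := LinearMap.BilinForm.isAdjointPairLeftAdjointOfNondegenerate B hB A
  have h1 := h y x
  rw [hs.eq (A x) y, hs.eq x _]
  exact h1.symm

theorem trace_adj [FiniteDimensional K V] {B : LinearMap.BilinForm K V} (hB : B.Nondegenerate)
    (hs : B.IsSymm) {A A' : V →ₗ[K] V} (h : ∀ x y, B (A x) y = B x (A' y)) :
    LinearMap.trace K V A = LinearMap.trace K V A' := by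
  classical
  let b := finBasis K V
  let b' := B.dualBasis hB b
  rw [LinearMap.trace_eq_matrix_trace K b A, LinearMap.trace_eq_matrix_trace K b' A',
    Matrix.trace, Matrix.trace]
  refine Finset.sum_congr rfl fun i _ => ?_
  rw [Matrix.diag_apply, Matrix.diag_apply, LinearMap.toMatrix_apply, LinearMap.toMatrix_apply]
  have h1 : ∀ x, b.repr x i = B x (b' i) := by
    intro x
    rw [bilin_eq_sum B b, Finset.sum_eq_single i]
    · rw [dual_right B hB b hs, if_pos rfl, mul_one]
    · intro l _ hl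
      rw [dual_right B hB b hs, if_neg hl, mul_zero]
    · intro h; exact absurd (Finset.mem_univ _) h
  rw [h1, dual_repr B hB b, h, hs.eq]

/-- a filtration step which is dual (trace form) to another and stable under adjoints -/
theorem adj_mem_Ge {B : LinearMap.BilinForm K V} {e : Basis ι K V} {w : ι → ℝ}
    (hsd : SD B e w) {c : ℝ} {A A' : V →ₗ[K] V} (hA : A ∈ Ge e w c)
    (h : ∀ x y, B (A x) y = B x (A' y)) : A' ∈ Ge e w c := by
  classical
  intro a y hy
  rw [hsd.mem_iff_flag]
  intro b hb z hz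
  rw [← h]
  exact hsd.ortho (a := b + c) (b := a) (by linarith) (hA b z hz) hy

theorem adj_mem_Gt [FiniteDimensional K V] {B : LinearMap.BilinForm K V} (hB : B.Nondegenerate)
    (hs : B.IsSymm) {e : Basis ι K V} {w : ι → ℝ}
    (hsd : SD B e w) {c : ℝ} {A A' : V →ₗ[K] V} (hA : A ∈ Gt e w c)
    (h : ∀ x y, B (A x) y = B x (A' y)) : A' ∈ Gt e w c := by
  have h1 := mem_Gt_iff_trace (e := e) (w := w) (c := -c) (A := A')
  rw [neg_neg] at h1
  rw [h1]
  intro Q hQ
  obtain ⟨Q', hQ'⟩ := exists_adj hB hs Q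
  have hQm := adj_mem_Ge hsd hQ hQ'
  have h2 := mem_Gt_iff_trace (e := e) (w := w) (c := -c) (A := A)
  rw [neg_neg] at h2
  have h3 := h2.1 hA Q' hQm
  have h4 : ∀ x y, B ((A' * Q) x) y = B x ((Q' * A) y) := by
    intro x y
    change B (A' (Q x)) y = B x (Q' (A y))
    rw [← hQ', hs.eq, ← h, hs.eq]
  rw [trace_adj hB hs h4, trace_mul_comm']
  exact h3

theorem split_of_adj [FiniteDimensional K V] {B : LinearMap.BilinForm K V} (hB : B.Nondegenerate)
    (hs : B.IsSymm) (h2 : (2 : K) ≠ 0) {G : Submodule K (V →ₗ[K] V)}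
    (hG : ∀ A ∈ G, ∀ A' : V →ₗ[K] V, (∀ x y, B (A x) y = B x (A' y)) → A' ∈ G)
    {A : V →ₗ[K] V} (hA : A ∈ G) :
    ∃ a ∈ Sym B, ∃ b ∈ Skw B, a ∈ G ∧ b ∈ G ∧ A = a + b := by
  obtain ⟨A', hA'⟩ := exists_adj hB hs A
  have h' : ∀ x y, B (A' x) y = B x (A y) := by
    intro x y; rw [hs.eq, ← hA', hs.eq]
  have hm := hG A hA A' hA'
  refine ⟨(2 : K)⁻¹ • (A + A'), ?_, (2 : K)⁻¹ • (A - A'), ?_, G.smul_mem _ (G.add_mem hA hm),
    G.smul_mem _ (G.sub_mem hA hm), ?_⟩
  · intro x y
    simp only [LinearMap.smul_apply, LinearMap.add_apply, map_smul, map_add, hA', h']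
    ring
  · intro x y
    simp only [LinearMap.smul_apply, LinearMap.sub_apply, map_smul, map_sub, hA', h', smul_eq_mul]
    ring
  · rw [← smul_add]
    have : A + A' + (A - A') = (2 : K) • A := by rw [two_smul]; abel
    rw [this, smul_smul, inv_mul_cancel₀ h2, one_smul]

theorem trace_sym_skw [FiniteDimensional K V] {B : LinearMap.BilinForm K V} (hB : B.Nondegenerate)
    (hs : B.IsSymm) (h2 : (2 : K) ≠ 0) {x y : V →ₗ[K] V} (hx : x ∈ Sym B) (hy : y ∈ Skw B) :
    LinearMap.trace K V (x * y) = 0 := by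
  have h : ∀ u v, B ((x * y) u) v = B u ((-(y * x)) v) := by
    intro u v
    change B (x (y u)) v = B u (-(y (x v)))
    rw [hx, hy, map_neg]
  have h1 := trace_adj hB hs h
  rw [map_neg, trace_mul_comm' y x] at h1
  have h3 : (2 : K) * LinearMap.trace K V (x * y) = 0 := by linear_combination h1
  exact (mul_eq_zero.mp h3).resolve_left h2

end Adjoint

section MkData

variable {K V ι : Type*} [Field K] [AddCommGroup V] [Module K V] [Fintype ι]
  [FiniteDimensional K V]

/-- The data attached to a self-dual weighted flag. -/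
noncomputable def mkData (B : LinearMap.BilinForm K V) (hB : B.Nondegenerate) (hs : B.IsSymm)
    (h2 : (2 : K) ≠ 0) (e : Basis ι K V) (w : ι → ℝ) (hsd : SD B e w) :
    Data K (Module.End K V) where
  tr := LinearMap.trace K V
  S := Sym B
  L := Skw B
  Gmm := Gt e w (-1)
  G0 := Ge e w 0
  G0p := Gt e w 0
  Gm := Ge e w 1
  tr_comm := trace_mul_comm'
  nondeg := by
    classical
    intro x hx
    refine e.ext fun i => ?_
    rw [LinearMap.zero_apply]
    apply e.repr.injective
    ext j
    rw [← trace_mul_Elem, hx]; simp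
  trSL := fun x hx y hy => trace_sym_skw hB hs h2 hx hy
  split := by
    intro x
    obtain ⟨a, ha, b, hb, -, -, h⟩ := split_of_adj hB hs h2 (G := ⊤)
      (fun _ _ _ _ => Submodule.mem_top) (A := x) Submodule.mem_top
    exact ⟨a, ha, b, hb, h⟩
  splitmm := fun x hx => split_of_adj hB hs h2 (fun _ hA _ h => adj_mem_Gt hB hs hsd hA h) hx
  split0 := fun x hx => split_of_adj hB hs h2 (fun _ hA _ h => adj_mem_Ge hsd hA h) hx
  split0p := fun x hx => split_of_adj hB hs h2 (fun _ hA _ h => adj_mem_Gt hB hs hsd hA h) hx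
  splitm := fun x hx => split_of_adj hB hs h2 (fun _ hA _ h => adj_mem_Ge hsd hA h) hx
  dualmm := fun x => mem_Gt_iff_trace
  dual0 := fun x => by
    have := mem_Ge_iff_trace (e := e) (w := w) (c := 0) (A := x)
    rwa [neg_zero] at this
  dual0p := fun x => by
    have := mem_Gt_iff_trace (e := e) (w := w) (c := 0) (A := x)
    rwa [neg_zero] at this
  dualm := fun x => by
    have := mem_Ge_iff_trace (e := e) (w := w) (c := -1) (A := x)
    rwa [neg_neg] at this
  m_le := Ge_le_Gt e w (by norm_num)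
  p_le := Gt_le_Ge e w 0
  z_le := Ge_le_Gt e w (by norm_num)
  brSS := by
    intro x hx y hy u v
    change B (x (y u) - y (x u)) v = - B u (x (y v) - y (x v))
    rw [map_sub, map_sub, LinearMap.sub_apply, hx, hy, hy, hx]; ring
  brLS := by
    intro x hx y hy u v
    change B (x (y u) - y (x u)) v = B u (x (y v) - y (x v))
    rw [map_sub, map_sub, LinearMap.sub_apply, hx, hy, hy, hx]; ring
  brmm := by
    intro x hx y hy
    have h1 := Gt_mul_Ge hx hy
    have h3 := Ge_mul_Gt hy hx
    rw [show (-1 : ℝ) + 1 = 0 by norm_num] at h1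
    rw [show (1 : ℝ) + -1 = 0 by norm_num] at h3
    exact Submodule.sub_mem _ h1 h3
  br0 := by
    intro x hx y hy
    have h1 := Ge_mul hx hy
    have h3 := Ge_mul hy hx
    rw [zero_add] at h1
    rw [add_zero] at h3
    exact Submodule.sub_mem _ h1 h3

end MkData

end Crest.Agent.R172.NilCount
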