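import Mathlib

/-!
# Row 172, NIL: the lower bound of the tangent space at a generic point
-/

set_option autoImplicit false
set_option linter.unusedSectionVars false

namespace Crest.Agent.R172.NilLower

open Module

variable {K : Type*} [Field K] {V : Type*} [AddCommGroup V] [Module K V]

/-- A connection on the orthogonal space `(V, B)`: an additive map over a derivation of the field,
compatible with the form. -/
structure Conn (B : LinearMap.BilinForm K V) where
  d : Derivation ℤ K K
  nab : V →+ V
  leib : ∀ (c : K) (x : V), nab (c • x) = d c • x + c • nab x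
  compat : ∀ x y : V, d (B x y) = B (nab x) y + B x (nab y)

/-- self-adjoint operators. -/
def SelfAdj (B : LinearMap.BilinForm K V) : Submodule K (V →ₗ[K] V) where
  carrier := {A | ∀ x y, B (A x) y = B x (A y)}
  zero_mem' := by intro x y; simp
  add_mem' := by
    intro A A' h h' x y
    simp only [LinearMap.add_apply, map_add, h x y, h' x y]
  smul_mem' := by
    intro c A h x y
    simp only [LinearMap.smul_apply, map_smul, h x y, smul_eq_mul]

/-- skew-adjoint operators. -/
def SkewAdj (B : LinearMap.BilinForm K V) : Submodule K (V →ₗ[K] V) where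
  carrier := {A | ∀ x y, B (A x) y = - B x (A y)}
  zero_mem' := by intro x y; simp
  add_mem' := by
    intro A A' h h' x y
    simp only [LinearMap.add_apply, map_add, h x y, h' x y]; ring
  smul_mem' := by
    intro c A h x y
    simp only [LinearMap.smul_apply, map_smul, h x y, smul_eq_mul]; ring

theorem mem_SelfAdj {B : LinearMap.BilinForm K V} {A : V →ₗ[K] V} :
    A ∈ SelfAdj B ↔ ∀ x y, B (A x) y = B x (A y) := Iff.rfl

theorem mem_SkewAdj {B : LinearMap.BilinForm K V} {A : V →ₗ[K] V} :
    A ∈ SkewAdj B ↔ ∀ x y, B (A x) y = - B x (A y) := Iff.rfl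

section dims

variable [FiniteDimensional K V]

/-- operators as Gram matrices. -/
noncomputable def gramMap (B : LinearMap.BilinForm K V) {ι : Type*} (e : Basis ι K V) :
    (V →ₗ[K] V) →ₗ[K] (ι → ι → K) where
  toFun A := fun i j => B (A (e i)) (e j)
  map_add' A A' := by ext i j; simp
  map_smul' c A := by ext i j; simp

theorem gramMap_injective {B : LinearMap.BilinForm K V} (hB : B.Nondegenerate) {ι : Type*}
    (e : Basis ι K V) : Function.Injective (gramMap B e) := by
  rw [← LinearMap.ker_eq_bot, LinearMap.ker_eq_bot']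
  intro A hA
  refine e.ext fun i => ?_
  rw [LinearMap.zero_apply]
  have h : ∀ j, B (A (e i)) (e j) = 0 := fun j => congrFun (congrFun hA i) j
  have h2 : B (A (e i)) = 0 := e.ext fun j => by rw [h j]; simp
  exact hB.1 _ fun y => by rw [h2]; simp

theorem gramMap_bijective {B : LinearMap.BilinForm K V} (hB : B.Nondegenerate) {ι : Type*}
    [Fintype ι] (e : Basis ι K V) : Function.Bijective (gramMap B e) := by
  refine ⟨gramMap_injective hB e, ?_⟩
  have hfr : finrank K (V →ₗ[K] V) = finrank K (ι → ι → K) := by
    rw [Module.finrank_linearMap, Module.finrank_pi_fintype]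
    simp [Module.finrank_eq_card_basis e]
  exact (LinearMap.injective_iff_surjective_of_finrank_eq_finrank hfr).mp (gramMap_injective hB e)

theorem mem_SelfAdj_iff {B : LinearMap.BilinForm K V} (hs : B.IsSymm) {ι : Type*} [Fintype ι]
    (e : Basis ι K V) (A : V →ₗ[K] V) :
    A ∈ SelfAdj B ↔ ∀ i j, gramMap B e A i j = gramMap B e A j i := by
  constructor
  · intro h i j
    show B (A (e i)) (e j) = B (A (e j)) (e i)
    rw [h, hs.eq]
  · intro h x y
    have h1 : ∀ i j, B (A (e i)) (e j) = B (e i) (A (e j)) := by
      intro i j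
      have := h i j
      change B (A (e i)) (e j) = B (A (e j)) (e i) at this
      rw [this, hs.eq]
    rw [← e.sum_repr x, ← e.sum_repr y]
    simp only [map_sum, map_smul, LinearMap.sum_apply, LinearMap.smul_apply, h1]

theorem mem_SkewAdj_iff {B : LinearMap.BilinForm K V} (hs : B.IsSymm) {ι : Type*} [Fintype ι]
    (e : Basis ι K V) (A : V →ₗ[K] V) :
    A ∈ SkewAdj B ↔ ∀ i j, gramMap B e A i j = - gramMap B e A j i := by
  constructor
  · intro h i j
    show B (A (e i)) (e j) = - B (A (e j)) (e i)
    rw [h, hs.eq]
  · intro h x y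
    have h1 : ∀ i j, B (A (e i)) (e j) = - B (e i) (A (e j)) := by
      intro i j
      have := h i j
      change B (A (e i)) (e j) = - B (A (e j)) (e i) at this
      rw [this, hs.eq]
    rw [← e.sum_repr x, ← e.sum_repr y]
    simp only [map_sum, map_smul, LinearMap.sum_apply, LinearMap.smul_apply, h1]
    simp

/-- sign change of a matrix below the diagonal. -/
def flip (K : Type*) [Field K] (N : ℕ) : (Fin N → Fin N → K) →ₗ[K] (Fin N → Fin N → K) where
  toFun M := fun i j => if i < j then M i j else if j < i then - M i j else 0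
  map_add' M M' := by
    ext i j; simp only [Pi.add_apply]; split_ifs <;> ring
  map_smul' c M := by
    ext i j; simp only [Pi.smul_apply, smul_eq_mul, RingHom.id_apply]; split_ifs <;> ring

theorem finrank_SelfAdj_le {B : LinearMap.BilinForm K V} (hB : B.Nondegenerate) (hs : B.IsSymm) :
    finrank K (SelfAdj B) ≤ finrank K (SkewAdj B) + finrank K V := by
  classical
  set N := finrank K V with hN
  let e : Basis (Fin N) K V := Module.finBasis K V
  let Φ : (V →ₗ[K] V) ≃ₗ[K] (Fin N → Fin N → K) :=
    LinearEquiv.ofBijective (gramMap B e) (gramMap_bijective hB e)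
  have hΦ : ∀ A, Φ A = gramMap B e A := fun A => rfl
  let D : SelfAdj B →ₗ[K] (Fin N → K) :=
    { toFun := fun A i => gramMap B e A.1 i i
      map_add' := by intro A A'; ext i; simp
      map_smul' := by intro c A; ext i; simp }
  have hrn := LinearMap.finrank_range_add_finrank_ker D
  have h1 : finrank K (LinearMap.range D) ≤ N := by
    have := Submodule.finrank_le (LinearMap.range D)
    simpa using this
  let E : LinearMap.ker D →ₗ[K] (V →ₗ[K] V) :=
    (Φ.symm.toLinearMap.comp ((flip K N).comp (gramMap B e))).comp
      ((SelfAdj B).subtype.comp (LinearMap.ker D).subtype)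
  have hE : ∀ A, gramMap B e (E A) = flip K N (gramMap B e A.1.1) := by
    intro A
    rw [← hΦ]
    simp [E]
  have hEmem : ∀ A, E A ∈ SkewAdj B := by
    intro A
    rw [mem_SkewAdj_iff hs e]
    intro i j
    rw [hE]
    have hsym := (mem_SelfAdj_iff hs e A.1.1).mp A.1.2
    show (if i < j then gramMap B e A.1.1 i j else if j < i then - gramMap B e A.1.1 i j else 0)
      = - (if j < i then gramMap B e A.1.1 j i else if i < j then - gramMap B e A.1.1 j i else 0)
    rw [hsym i j]
    rcases lt_trichotomy i j with h | h | h
    · simp [h, not_lt_of_gt h]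
    · simp [h]
    · simp [h, not_lt_of_gt h]
  have hEinj : ∀ A A' : LinearMap.ker D, E A = E A' → A = A' := by
    intro A A' hAA'
    have hsym := (mem_SelfAdj_iff hs e A.1.1).mp A.1.2
    have hsym' := (mem_SelfAdj_iff hs e A'.1.1).mp A'.1.2
    have hD : D A.1 = 0 := A.2
    have hD' : D A'.1 = 0 := A'.2
    have h0 : gramMap B e A.1.1 = gramMap B e A'.1.1 := by
      ext i j
      have h3 : gramMap B e (E A) i j = gramMap B e (E A') i j := by rw [hAA']
      rw [hE, hE] at h3
      change (if i < j then gramMap B e A.1.1 i j else if j < i then - gramMap B e A.1.1 i j else 0)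
        = (if i < j then gramMap B e A'.1.1 i j else if j < i then - gramMap B e A'.1.1 i j else 0)
        at h3
      rcases lt_trichotomy i j with h | h | h
      · rw [if_pos h, if_pos h] at h3; exact h3
      · subst h
        have h4 : gramMap B e A.1.1 i i = 0 := congrFun hD i
        have h5 : gramMap B e A'.1.1 i i = 0 := congrFun hD' i
        rw [h4, h5]
      · rw [if_neg (not_lt_of_gt h), if_pos h, if_neg (not_lt_of_gt h), if_pos h] at h3
        exact neg_injective h3
    have : A.1.1 = A'.1.1 := gramMap_injective hB e h0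
    exact Subtype.ext (Subtype.ext this)
  have h2 : finrank K (LinearMap.ker D) ≤ finrank K (SkewAdj B) := by
    let E' : LinearMap.ker D →ₗ[K] SkewAdj B := E.codRestrict _ hEmem
    refine LinearMap.finrank_le_finrank_of_injective (f := E') ?_
    intro a b hab
    exact hEinj a b (congrArg Subtype.val hab)
  omega

end dims

/-- `Y` acting on a family. -/
def actL (K : Type*) [Field K] {V : Type*} [AddCommGroup V] [Module K V] {X : Type*} [Fintype X]
    (G : X → X → K) (v : X → V) : X → V := fun x => ∑ y, G x y • v y

/-- the map `y ↦ (φ ↦ ∑ φ(v_x) y_x + φ(y_x) v_x)` used for the relations. -/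
noncomputable def theta (B : LinearMap.BilinForm K V) {X : Type*} [Fintype X] (v : X → V) :
    (X → V) →ₗ[K] (V →ₗ[K] V) where
  toFun y := ∑ x, ((B (v x)).smulRight (y x) + (B (y x)).smulRight (v x))
  map_add' y y' := by
    rw [← Finset.sum_add_distrib]
    refine Finset.sum_congr rfl fun x _ => ?_
    ext u
    simp only [LinearMap.add_apply, LinearMap.smulRight_apply, Pi.add_apply, map_add, smul_add,
      add_smul]
    abel
  map_smul' c y := by
    rw [Finset.smul_sum]
    refine Finset.sum_congr rfl fun x _ => ?_
    ext u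
    simp only [LinearMap.add_apply, LinearMap.smul_apply, LinearMap.smulRight_apply, Pi.smul_apply,
      map_smul, RingHom.id_apply, smul_add, smul_eq_mul]
    rw [smul_smul, smul_smul, smul_smul, mul_comm]

theorem theta_apply (B : LinearMap.BilinForm K V) {X : Type*} [Fintype X] (v y : X → V) (u : V) :
    theta B v y u = ∑ x, (B (v x) u • y x + B (y x) u • v x) := by
  simp [theta, LinearMap.sum_apply]

theorem theta_mem (B : LinearMap.BilinForm K V) (hs : B.IsSymm) {X : Type*} [Fintype X]
    (v y : X → V) : theta B v y ∈ SelfAdj B := by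
  intro a b
  rw [theta_apply, theta_apply]
  simp only [map_sum, LinearMap.sum_apply, map_add, map_smul, LinearMap.add_apply,
    LinearMap.smul_apply, smul_eq_mul]
  refine Finset.sum_congr rfl fun x _ => ?_
  rw [hs.eq a (y x), hs.eq a (v x)]
  ring

theorem exists_skew [FiniteDimensional K V] {B : LinearMap.BilinForm K V} (hB : B.Nondegenerate)
    (hs : B.IsSymm) {X : Type*} [Fintype X] (v : X → V)
    (hv : Submodule.span K (Set.range v) = ⊤) (y : X → V) (hy : theta B v y = 0) :
    ∃ G : X → X → K, (∀ x z, G x z = - G z x) ∧ y = actL K G v := by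
  classical
  -- a right inverse of the combination map
  let L : (X → K) →ₗ[K] V := Fintype.linearCombination K v
  have hL : Function.Surjective L := by
    rw [← LinearMap.range_eq_top, ← hv]
    exact Fintype.range_linearCombination K v
  obtain ⟨s, hs'⟩ := L.exists_rightInverse_of_surjective (LinearMap.range_eq_top.mpr hL)
  have hsum : ∀ u, ∑ z, s u z • v z = u := by
    intro u
    have := congrArg (fun f => f u) hs'
    simpa [L, Fintype.linearCombination_apply] using this
  -- representation of the coordinate functionals by vectors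
  have hp : ∀ x : X, ∃ p : V, ∀ u, B u p = s u x := by
    intro x
    let f : Dual K V := (LinearMap.proj x).comp s
    refine ⟨(B.toDual hB).symm f, fun u => ?_⟩
    rw [hs.eq, LinearMap.BilinForm.apply_toDual_symm_apply]
    rfl
  choose p hp using hp
  have hth : ∀ x, ∑ t, (s (v t) x • y t + s (y t) x • v t) = 0 := by
    intro x
    have := congrArg (fun f => f (p x)) hy
    simp only [theta_apply, LinearMap.zero_apply, hp] at this
    exact this
  refine ⟨fun x z => s (y x) z - s (y z) x - ∑ t, s (v t) x * s (y t) z, ?_, ?_⟩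
  · intro x z
    have h1 := congrArg (fun u => s u z) (hth x)
    simp only [map_sum, map_add, map_smul, map_zero, Pi.zero_apply, Finset.sum_apply,
      Pi.add_apply, Pi.smul_apply, smul_eq_mul] at h1
    rw [Finset.sum_add_distrib] at h1
    have h2 : ∑ t, s (y t) x * s (v t) z = ∑ t, s (v t) z * s (y t) x :=
      Finset.sum_congr rfl fun t _ => mul_comm _ _
    rw [h2] at h1
    linear_combination -h1
  · funext x
    show y x = ∑ z, (s (y x) z - s (y z) x - ∑ t, s (v t) x * s (y t) z) • v z
    have h1 : ∑ z, (∑ t, s (v t) x * s (y t) z) • v z = ∑ t, s (v t) x • y t := by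
      simp only [Finset.sum_smul, mul_smul]
      rw [Finset.sum_comm]
      refine Finset.sum_congr rfl fun t _ => ?_
      rw [← Finset.smul_sum, hsum]
    simp only [sub_smul, Finset.sum_sub_distrib]
    rw [h1, hsum]
    have h2 := hth x
    rw [Finset.sum_add_distrib] at h2
    rw [sub_sub, add_comm, h2, sub_zero]

/-- The space of families `G v`, `G` skew. -/
def skewFam (K : Type*) [Field K] {V : Type*} [AddCommGroup V] [Module K V] {X : Type*}
    [Fintype X] (v : X → V) : Submodule K (X → V) where
  carrier := {y | ∃ G : X → X → K, (∀ x z, G x z = - G z x) ∧ y = actL K G v}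
  zero_mem' := ⟨0, by simp, by ext x; simp [actL]⟩
  add_mem' := by
    rintro _ _ ⟨G, hG, rfl⟩ ⟨G', hG', rfl⟩
    refine ⟨G + G', fun x z => by simp only [Pi.add_apply]; rw [hG x z, hG' x z]; ring, ?_⟩
    funext x
    simp [actL, add_smul, Finset.sum_add_distrib]
  smul_mem' := by
    rintro c _ ⟨G, hG, rfl⟩
    refine ⟨c • G, fun x z => by simp only [Pi.smul_apply, smul_eq_mul]; rw [hG x z]; ring, ?_⟩
    funext x
    simp [actL, Finset.smul_sum, mul_smul]

theorem finrank_skewFam [FiniteDimensional K V] {B : LinearMap.BilinForm K V}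
    (hB : B.Nondegenerate) (hs : B.IsSymm) {X : Type*} [Fintype X] (v : X → V)
    (hv : Submodule.span K (Set.range v) = ⊤) :
    Fintype.card X * finrank K V ≤ finrank K (skewFam K v) + finrank K (SelfAdj B) := by
  have hker : LinearMap.ker (theta B v) ≤ skewFam K v := by
    intro y hy
    exact exists_skew hB hs v hv y (LinearMap.mem_ker.mp hy)
  have hran : LinearMap.range (theta B v) ≤ SelfAdj B := by
    rintro _ ⟨y, rfl⟩
    exact theta_mem B hs v y
  have h1 := LinearMap.finrank_range_add_finrank_ker (theta B v)
  have h2 := Submodule.finrank_mono hker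
  have h3 := Submodule.finrank_mono hran
  have h4 : finrank K (X → V) = Fintype.card X * finrank K V := by
    rw [Module.finrank_pi_fintype]; simp
  omega

/-- `(a, b) ↦ b - H a`. -/
noncomputable def psi {X : Type*} [Fintype X] (H : X → X → K) :
    ((X → V) × (X → V)) →ₗ[K] (X → V) where
  toFun p := p.2 - actL K H p.1
  map_add' p q := by
    funext x
    simp only [actL, Prod.fst_add, Prod.snd_add, Pi.add_apply, Pi.sub_apply, smul_add,
      Finset.sum_add_distrib]
    abel
  map_smul' c p := by
    funext x
    simp only [actL, Prod.smul_fst, Prod.smul_snd, Pi.smul_apply, Pi.sub_apply,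
      RingHom.id_apply, smul_sub, Finset.smul_sum]
    congr 1
    exact Finset.sum_congr rfl fun y _ => smul_comm _ _ _

/-- **The lower bound.** -/
theorem low [FiniteDimensional K V] [Nontrivial V] {B : LinearMap.BilinForm K V}
    (hB : B.Nondegenerate) (hs : B.IsSymm) (h2 : (2 : K) ≠ 0) {X : Type*} [Fintype X]
    (H : X → X → K) (v : X → V) (hv : Submodule.span K (Set.range v) = ⊤)
    (w : X → V) (hw : ∀ x, w x = ∑ y, H x y • v y)
    (hgen : ∀ G : X → X → K, (∀ x y, G x y = - G y x) →
      ∃ C : Conn B, ∀ x y, C.d (H x y) = G x y)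
    (T : Submodule K ((X → V) × (X → V)))
    (hT1 : ∀ C : Conn B, ((fun x => C.nab (v x), fun x => C.nab (w x)) : (X → V) × (X → V)) ∈ T)
    (hT2 : ∀ Z : V →ₗ[K] V, (∀ x y, B (Z x) y = - B x (Z y)) →
      ((fun x => Z (v x), fun x => Z (w x)) : (X → V) × (X → V)) ∈ T)
    (hT3 : ((v, w) : (X → V) × (X → V)) ∈ T) :
    Fintype.card X * finrank K V + 1 ≤ finrank K T + finrank K V := by
  classical
  have hwH : w = actL K H v := funext hw
  let f : T →ₗ[K] (X → V) := (psi H).comp T.subtype
  have hf : ∀ t : T, f t = t.1.2 - actL K H t.1.1 := fun t => rfl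
  have hrn := LinearMap.finrank_range_add_finrank_ker f
  -- the range
  have hrange : skewFam K v ≤ LinearMap.range f := by
    rintro _ ⟨G, hG, rfl⟩
    obtain ⟨C, hC⟩ := hgen G hG
    refine ⟨⟨_, hT1 C⟩, ?_⟩
    rw [hf]
    funext x
    simp only [Pi.sub_apply, actL]
    rw [hw x, map_sum]
    simp only [C.leib, hC, Finset.sum_add_distrib]
    abel
  -- the kernel
  let g : (SkewAdj B × K) →ₗ[K] ((X → V) × (X → V)) :=
    { toFun := fun p => (fun x => p.1.1 (v x) + p.2 • v x, fun x => p.1.1 (w x) + p.2 • w x)
      map_add' := by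
        rintro ⟨Z, c⟩ ⟨Z', c'⟩
        refine Prod.ext ?_ ?_
        · funext x
          simp only [Prod.mk_add_mk, Submodule.coe_add, LinearMap.add_apply, add_smul,
            Pi.add_apply]
          abel
        · funext x
          simp only [Prod.mk_add_mk, Submodule.coe_add, LinearMap.add_apply, add_smul,
            Pi.add_apply]
          abel
      map_smul' := by
        rintro t ⟨Z, c⟩
        refine Prod.ext ?_ ?_
        · funext x
          simp only [Prod.smul_mk, Submodule.coe_smul, LinearMap.smul_apply, smul_eq_mul,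
            mul_smul, RingHom.id_apply, Pi.smul_apply, smul_add]
        · funext x
          simp only [Prod.smul_mk, Submodule.coe_smul, LinearMap.smul_apply, smul_eq_mul,
            mul_smul, RingHom.id_apply, Pi.smul_apply, smul_add] }
  have hg : ∀ p : SkewAdj B × K, g p
      = (fun x => p.1.1 (v x) + p.2 • v x, fun x => p.1.1 (w x) + p.2 • w x) := fun p => rfl
  have hgT : ∀ p, g p ∈ T := by
    rintro ⟨Z, c⟩
    have h3 := T.add_mem (hT2 Z.1 Z.2) (T.smul_mem c hT3)
    exact h3
  have hgker : ∀ p, (⟨g p, hgT p⟩ : T) ∈ LinearMap.ker f := by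
    rintro ⟨Z, c⟩
    rw [LinearMap.mem_ker, hf]
    funext x
    simp only [hg, actL, Pi.sub_apply, Pi.zero_apply]
    rw [hw x, map_sum]
    simp only [map_smul, smul_add, Finset.sum_add_distrib, Finset.smul_sum]
    rw [sub_eq_zero]
    congr 1
    exact Finset.sum_congr rfl fun y _ => smul_comm _ _ _
  have hginj : ∀ p, g p = 0 → p = 0 := by
    rintro ⟨Z, c⟩ h0
    have h1 : ∀ x, Z.1 (v x) + c • v x = 0 := fun x => congrFun (congrArg Prod.fst h0) x
    have h3 : ∀ u, Z.1 u + c • u = 0 := by
      intro u
      have hu : u ∈ Submodule.span K (Set.range v) := by rw [hv]; trivial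
      refine Submodule.span_induction (p := fun u _ => Z.1 u + c • u = 0) ?_ ?_ ?_ ?_ hu
      · rintro _ ⟨x, rfl⟩; exact h1 x
      · simp
      · intro a b _ _ ha hb
        rw [map_add, smul_add, add_add_add_comm, ha, hb, add_zero]
      · intro t a _ ha
        rw [map_smul, smul_comm, ← smul_add, ha, smul_zero]
    have h4 : ∀ a b, c * B a b = 0 := by
      intro a b
      have e1 : B (Z.1 a) b = - (c * B a b) := by
        rw [eq_neg_of_add_eq_zero_left (h3 a)]; simp
      have e2 : B a (Z.1 b) = - (c * B a b) := by
        rw [eq_neg_of_add_eq_zero_left (h3 b)]; simp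
      have e3 := Z.2 a b
      rw [e1, e2, neg_neg] at e3
      have e4 : 2 * (c * B a b) = 0 := by linear_combination -e3
      exact (mul_eq_zero.mp e4).resolve_left h2
    have hc : c = 0 := by
      by_contra hc
      obtain ⟨a, ha⟩ := exists_ne (0 : V)
      apply ha
      exact hB.1 a fun b => (mul_eq_zero.mp (h4 a b)).resolve_left hc
    subst hc
    have hZ : Z = 0 := by
      apply Subtype.ext
      refine LinearMap.ext fun u => ?_
      have := h3 u
      simpa using this
    rw [hZ]; rfl
  have hkerdim : finrank K (SkewAdj B) + 1 ≤ finrank K (LinearMap.ker f) := by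
    have h5 : finrank K (SkewAdj B × K) = finrank K (SkewAdj B) + 1 := by
      rw [Module.finrank_prod, Module.finrank_self]
    rw [← h5]
    let g1 : (SkewAdj B × K) →ₗ[K] T := g.codRestrict T hgT
    let g2 : (SkewAdj B × K) →ₗ[K] LinearMap.ker f := g1.codRestrict _ hgker
    refine LinearMap.finrank_le_finrank_of_injective (f := g2) ?_
    intro a b hab
    have h6 : g a = g b := congrArg (fun t => t.1.1) hab
    have h7 : g (a - b) = 0 := by rw [map_sub, h6, sub_self]
    exact sub_eq_zero.mp (hginj _ h7)
  have h8 := Submodule.finrank_mono hrange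
  have h9 := finrank_skewFam hB hs v hv
  have h10 := finrank_SelfAdj_le hB hs
  omega

end Crest.Agent.R172.NilLower
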