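import Crest.Agent.R172.NilPat
import Crest.Agent.R172.NilCount4
import Crest.Agent.R172.NilLower

/-!
Row 172, node NILC: connection lemma (C1), spanning inequality (C2), rank one operators (C3).
-/

set_option autoImplicit false
set_option linter.unusedSectionVars false

namespace Crest.Agent.R172.NilConn

open Module Crest.Agent.R172.Kempf Crest.Agent.R172.NilPat Crest.Agent.R172.NilLower

variable {K V ι : Type*} [Field K] [AddCommGroup V] [Module K V] [Fintype ι]

/-- **(C1)** A connection is a flag preserving connection plus a skew operator. -/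
theorem conn_split [FiniteDimensional K V] {B : LinearMap.BilinForm K V} (hB : B.Nondegenerate)
    (hs : B.IsSymm) (h2 : (2 : K) ≠ 0) (f : Basis ι K V) (C : Conn B) :
    ∃ Z : V →ₗ[K] V, (∀ x y, B (Z x) y = - B x (Z y)) ∧
      ∀ w : ι → ℝ, SD B f w → ∀ a x, x ∈ Fil f w a → C.nab x - Z x ∈ Fil f w a := by
  classical
  let A : V →ₗ[K] V := f.constr K fun i => C.nab (f i)
  have hA : ∀ i, A (f i) = C.nab (f i) := fun i => f.constr_basis K _ i
  obtain ⟨A', hA'⟩ := NilCount.exists_adj hB hs A
  have hA'' : ∀ x y, B (A' x) y = B x (A y) := by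
    intro x y
    rw [hs.eq (A' x) y, ← hA', hs.eq (A y) x]
  have hnab : ∀ x, C.nab x - A x = ∑ i, C.d (f.repr x i) • f i := by
    intro x
    conv_lhs => rw [← f.sum_repr x]
    rw [map_sum, map_sum, ← Finset.sum_sub_distrib]
    refine Finset.sum_congr rfl fun i _ => ?_
    rw [C.leib, map_smul, hA, add_sub_cancel_right]
  refine ⟨(2 : K)⁻¹ • (A - A'), ?_, ?_⟩
  · intro x y
    simp only [LinearMap.smul_apply, LinearMap.sub_apply, map_smul, map_sub, smul_eq_mul, hA',
      hA'']
    ring
  · intro w hw a x hx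
    have h1 : C.nab x - A x ∈ Fil f w a := by
      rw [hnab]
      refine Submodule.sum_mem _ fun i _ => ?_
      by_cases hi : f.repr x i = 0
      · rw [hi, map_zero, zero_smul]; exact Submodule.zero_mem _
      · exact Submodule.smul_mem _ _ (basis_mem_Fil f w (hx i hi))
    have h3 : C.nab x + A' x ∈ Fil f w a := by
      rw [hw]
      intro i hi
      have h4 : B (f i) x = 0 := (hw a x).1 hx i hi
      have h5 := C.compat (f i) x
      rw [h4, map_zero] at h5
      rw [map_add, ← hA', hA, add_comm]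
      exact h5.symm
    have h6 : C.nab x - ((2 : K)⁻¹ • (A - A')) x
        = (2 : K)⁻¹ • ((C.nab x - A x) + (C.nab x + A' x)) := by
      have h7 : C.nab x = (2 : K)⁻¹ • ((2 : K) • C.nab x) := by
        rw [smul_smul, inv_mul_cancel₀ h2, one_smul]
      conv_lhs => rw [h7]
      rw [LinearMap.smul_apply, ← smul_sub, LinearMap.sub_apply, two_smul]
      congr 1
      abel
    rw [h6]
    exact Submodule.smul_mem _ _ (Submodule.add_mem _ h1 h3)

/-- (C1), the form with two weightings. -/
theorem conn_two [FiniteDimensional K V] {B : LinearMap.BilinForm K V} (hB : B.Nondegenerate)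
    (hs : B.IsSymm) (h2 : (2 : K) ≠ 0) (f : Basis ι K V) (w u : ι → ℝ) (hw : SD B f w)
    (hu : SD B f u) (C : Conn B) :
    ∃ Z : V →ₗ[K] V, (∀ x y, B (Z x) y = - B x (Z y)) ∧
      (∀ a x, x ∈ Fil f w a → C.nab x - Z x ∈ Fil f w a) ∧
      (∀ a x, x ∈ Fil f u a → C.nab x - Z x ∈ Fil f u a) := by
  obtain ⟨Z, hZ, h⟩ := conn_split hB hs h2 f C
  exact ⟨Z, hZ, h w hw, h u hu⟩

/-- **(C2)** -/
theorem spanning [FiniteDimensional K V] {σ : Type*} [Fintype σ] (F : Submodule K V)
    (Bs : σ → Submodule K V) (htop : ⨆ s, Bs s = ⊤) :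
    finrank K V + ∑ s, finrank K (Bs s ⊓ F : Submodule K V)
      ≤ finrank K F + ∑ s, finrank K (Bs s) := by
  classical
  let φ : (∀ s, Bs s) →ₗ[K] (V ⧸ F) := ∑ s, F.mkQ ∘ₗ (Bs s).subtype ∘ₗ LinearMap.proj s
  have hφ : ∀ b, φ b = F.mkQ (∑ s, (b s : V)) := by
    intro b
    simp only [φ, LinearMap.sum_apply, LinearMap.comp_apply, LinearMap.proj_apply,
      Submodule.subtype_apply, map_sum]
  have hsurj : LinearMap.range φ = ⊤ := by
    rw [eq_top_iff]
    intro y _
    obtain ⟨v, rfl⟩ := F.mkQ_surjective y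
    have hv : v ∈ ⨆ s, Bs s := by rw [htop]; trivial
    rw [Submodule.mem_iSup_iff_exists_finsupp] at hv
    obtain ⟨g, hg, hgv⟩ := hv
    refine ⟨fun s => ⟨g s, hg s⟩, ?_⟩
    rw [hφ, ← hgv, Finsupp.sum_fintype _ _ (fun _ => rfl)]
  let j : (∀ s, (Bs s ⊓ F : Submodule K V)) →ₗ[K] (∀ s, Bs s) :=
    LinearMap.pi fun s => (Submodule.inclusion inf_le_left) ∘ₗ LinearMap.proj s
  have hj : ∀ x s, ((j x s : Bs s) : V) = x s := fun x s => rfl
  have hjker : ∀ x, j x ∈ LinearMap.ker φ := by
    intro x
    rw [LinearMap.mem_ker, hφ]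
    simp only [hj]
    rw [Submodule.mkQ_apply, Submodule.Quotient.mk_eq_zero]
    exact Submodule.sum_mem _ fun s _ => (x s).2.2
  have hjinj : Function.Injective (j.codRestrict _ hjker) := by
    intro x y hxy
    have h1 : j x = j y := congrArg Subtype.val hxy
    funext s
    apply Subtype.ext
    have h2 := congrArg (fun b : (∀ s, Bs s) => (b s : V)) h1
    exact h2
  have h1 := LinearMap.finrank_le_finrank_of_injective hjinj
  have h2 := LinearMap.finrank_range_add_finrank_ker φ
  rw [hsurj, finrank_top] at h2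
  have h3 := Submodule.finrank_quotient_add_finrank F
  rw [Module.finrank_pi_fintype] at h1 h2
  omega

/-! ### (C3) rank one operators -/

/-- `ten a b = a ⊗ b : z ↦ B(b,z) a` -/
def ten (B : LinearMap.BilinForm K V) (a b : V) : V →ₗ[K] V := (B b).smulRight a

theorem ten_apply (B : LinearMap.BilinForm K V) (a b z : V) : ten B a b z = B b z • a := rfl

theorem ten_adj (B : LinearMap.BilinForm K V) (hs : B.IsSymm) (a b x y : V) :
    B (ten B a b x) y = B x (ten B b a y) := by
  rw [ten_apply, ten_apply, map_smul, LinearMap.smul_apply, map_smul, smul_eq_mul, smul_eq_mul,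
    hs.eq x b]
  ring

theorem mul_ten (B : LinearMap.BilinForm K V) (Y : V →ₗ[K] V) (a b : V) :
    Y * ten B a b = ten B (Y a) b := by
  ext z
  rw [Module.End.mul_apply, ten_apply, ten_apply, map_smul]

theorem ten_mul_skew (B : LinearMap.BilinForm K V) {Y : V →ₗ[K] V}
    (hY : ∀ x y, B (Y x) y = - B x (Y y)) (a b : V) : ten B a b * Y = - ten B a (Y b) := by
  ext z
  rw [Module.End.mul_apply, LinearMap.neg_apply, ten_apply, ten_apply, hY, neg_smul, neg_neg]

theorem ten_mul_sym (B : LinearMap.BilinForm K V) {S : V →ₗ[K] V}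
    (hS : ∀ x y, B (S x) y = B x (S y)) (a b : V) : ten B a b * S = ten B a (S b) := by
  ext z
  rw [Module.End.mul_apply, ten_apply, ten_apply, hS]

theorem trace_ten [FiniteDimensional K V] (B : LinearMap.BilinForm K V) (a b : V) :
    LinearMap.trace K V (ten B a b) = B b a := by
  exact LinearMap.trace_smulRight _ _

theorem trace_mul_ten [FiniteDimensional K V] (B : LinearMap.BilinForm K V) (S : V →ₗ[K] V)
    (a b : V) : LinearMap.trace K V (S * ten B a b) = B b (S a) := by
  rw [mul_ten, trace_ten]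

/-- Leibniz rule for `ten` and the connection `D x = nab x - Z x`. -/
theorem conn_ten {B : LinearMap.BilinForm K V} (C : Conn B) {Z : V →ₗ[K] V}
    (hZ : ∀ x y, B (Z x) y = - B x (Z y)) (a b z : V) :
    C.nab (ten B a b z) - Z (ten B a b z)
      = ten B (C.nab a - Z a) b z + ten B a (C.nab b - Z b) z + ten B a b (C.nab z - Z z) := by
  simp only [ten_apply, C.leib, C.compat, map_smul, map_sub, LinearMap.sub_apply, hZ, smul_sub,
    add_smul, sub_smul, neg_smul]
  abel

/-- compatibility of `D x = nab x - Z x` with the form -/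
theorem conn_compat {B : LinearMap.BilinForm K V} (C : Conn B) {Z : V →ₗ[K] V}
    (hZ : ∀ x y, B (Z x) y = - B x (Z y)) (x y : V) :
    C.d (B x y) = B (C.nab x - Z x) y + B x (C.nab y - Z y) := by
  rw [C.compat, map_sub, map_sub, LinearMap.sub_apply, hZ]
  ring

/-- Leibniz rule of `D x = nab x - Z x` -/
theorem conn_leib {B : LinearMap.BilinForm K V} (C : Conn B) (Z : V →ₗ[K] V) (c : K) (x : V) :
    C.nab (c • x) - Z (c • x) = C.d c • x + c • (C.nab x - Z x) := by
  rw [C.leib, map_smul, smul_sub]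
  abel

end Crest.Agent.R172.NilConn
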