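import Mathlib

/-!
# Row 172, node NILC: abstract linear algebra of the count (F3), (F4)
-/

set_option autoImplicit false
set_option linter.unusedSectionVars false

namespace Crest.Agent.R172.NilCount

open Module

section Perp

variable {K E : Type*} [Field K] [AddCommGroup E] [Module K E]

/-- left orthogonal of `W` for `T` -/
def perp (T : E →ₗ[K] E →ₗ[K] K) (W : Submodule K E) : Submodule K E where
  carrier := {x | ∀ y ∈ W, T x y = 0}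
  zero_mem' := by intro y _; simp
  add_mem' := by intro a b ha hb y hy; simp [ha y hy, hb y hy]
  smul_mem' := by intro c a ha y hy; simp [ha y hy]

theorem mem_perp {T : E →ₗ[K] E →ₗ[K] K} {W : Submodule K E} {x : E} :
    x ∈ perp T W ↔ ∀ y ∈ W, T x y = 0 := Iff.rfl

variable [FiniteDimensional K E]

/-- If `T` is nondegenerate on `S` and `W ≤ S` then `dim (S ∩ W^⊥) + dim W = dim S`. -/
theorem finrank_inf_perp (T : E →ₗ[K] E →ₗ[K] K) (S W : Submodule K E)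
    (hS : ∀ x ∈ S, (∀ y ∈ S, T x y = 0) → x = 0) (hW : W ≤ S) :
    finrank K ↥(S ⊓ perp T W) + finrank K W = finrank K S := by
  -- S → Dual S
  let f : S →ₗ[K] Dual K S := (Submodule.dualRestrict S).comp (T.comp S.subtype)
  have hf : Function.Injective f := by
    rw [← LinearMap.ker_eq_bot, LinearMap.ker_eq_bot']
    intro x hx
    apply Subtype.ext
    apply hS x x.2
    intro y hy
    exact congrArg (fun g : Dual K S => g ⟨y, hy⟩) hx
  have hf2 : Function.Surjective f := by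
    rw [← LinearMap.injective_iff_surjective_of_finrank_eq_finrank]
    · exact hf
    · exact (Subspace.dual_finrank_eq (K := K) (V := S)).symm
  -- Dual S → Dual W
  let i : W →ₗ[K] S := Submodule.inclusion hW
  have hi : Function.Injective i := Submodule.inclusion_injective hW
  let g : S →ₗ[K] Dual K W := (i.dualMap).comp f
  have hg : Function.Surjective g := by
    have h1 : Function.Surjective i.dualMap := LinearMap.dualMap_surjective_of_injective hi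
    exact h1.comp hf2
  have hrn := LinearMap.finrank_range_add_finrank_ker g
  rw [LinearMap.range_eq_top.mpr hg, finrank_top, Subspace.dual_finrank_eq] at hrn
  have hk : finrank K (LinearMap.ker g) = finrank K ↥(S ⊓ perp T W) := by
    have : (LinearMap.ker g).map S.subtype = S ⊓ perp T W := by
      ext x
      simp only [Submodule.mem_map, LinearMap.mem_ker, Submodule.coe_subtype, Subtype.exists,
        exists_and_right, exists_eq_right, Submodule.mem_inf]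
      constructor
      · rintro ⟨hx, h⟩
        refine ⟨hx, fun y hy => ?_⟩
        exact congrArg (fun q : Dual K W => q ⟨y, hy⟩) h
      · rintro ⟨hx, h⟩
        refine ⟨hx, ?_⟩
        ext y
        exact h y y.2
    rw [← this]
    exact (LinearEquiv.finrank_eq
      (Submodule.equivMapOfInjective S.subtype S.injective_subtype (LinearMap.ker g)))
  omega

theorem perp_sup (T : E →ₗ[K] E →ₗ[K] K) (W W' : Submodule K E) :
    perp T (W ⊔ W') = perp T W ⊓ perp T W' := by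
  ext x
  simp only [Submodule.mem_inf, mem_perp]
  constructor
  · intro h
    exact ⟨fun y hy => h y (Submodule.mem_sup_left hy), fun y hy => h y (Submodule.mem_sup_right hy)⟩
  · rintro ⟨h1, h2⟩ y hy
    obtain ⟨a, ha, b, hb, rfl⟩ := Submodule.mem_sup.mp hy
    rw [map_add, h1 a ha, h2 b hb, add_zero]

end Perp

/-- Abstract data: an algebra with a trace, symmetric part `S`, skew part `L`, and the four
filtration steps `G_{>-m}`, `G_{≥0}`, `G_{>0}`, `G_{≥m}`. -/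
structure Data (K E : Type*) [Field K] [Ring E] [Algebra K E] where
  tr : E →ₗ[K] K
  S : Submodule K E
  L : Submodule K E
  Gmm : Submodule K E
  G0 : Submodule K E
  G0p : Submodule K E
  Gm : Submodule K E
  tr_comm : ∀ x y, tr (x * y) = tr (y * x)
  nondeg : ∀ x, (∀ y, tr (x * y) = 0) → x = 0
  trSL : ∀ x ∈ S, ∀ y ∈ L, tr (x * y) = 0
  split : ∀ x : E, ∃ a ∈ S, ∃ b ∈ L, x = a + b
  splitmm : ∀ x ∈ Gmm, ∃ a ∈ S, ∃ b ∈ L, a ∈ Gmm ∧ b ∈ Gmm ∧ x = a + b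
  split0 : ∀ x ∈ G0, ∃ a ∈ S, ∃ b ∈ L, a ∈ G0 ∧ b ∈ G0 ∧ x = a + b
  split0p : ∀ x ∈ G0p, ∃ a ∈ S, ∃ b ∈ L, a ∈ G0p ∧ b ∈ G0p ∧ x = a + b
  splitm : ∀ x ∈ Gm, ∃ a ∈ S, ∃ b ∈ L, a ∈ Gm ∧ b ∈ Gm ∧ x = a + b
  dualmm : ∀ x, x ∈ Gmm ↔ ∀ y ∈ Gm, tr (x * y) = 0
  dual0 : ∀ x, x ∈ G0 ↔ ∀ y ∈ G0p, tr (x * y) = 0
  dual0p : ∀ x, x ∈ G0p ↔ ∀ y ∈ G0, tr (x * y) = 0
  dualm : ∀ x, x ∈ Gm ↔ ∀ y ∈ Gmm, tr (x * y) = 0
  m_le : Gm ≤ G0p
  p_le : G0p ≤ G0
  z_le : G0 ≤ Gmm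
  brSS : ∀ x ∈ S, ∀ y ∈ S, x * y - y * x ∈ L
  brLS : ∀ x ∈ L, ∀ y ∈ S, x * y - y * x ∈ S
  brmm : ∀ x ∈ Gmm, ∀ y ∈ Gm, x * y - y * x ∈ G0p
  br0 : ∀ x ∈ G0, ∀ y ∈ Gm, x * y - y * x ∈ Gm

namespace Data

variable {K E : Type*} [Field K] [Ring E] [Algebra K E] (D : Data K E)

/-- the trace form -/
noncomputable def T : E →ₗ[K] E →ₗ[K] K := (LinearMap.mul K E).compr₂ D.tr

@[simp] theorem T_apply (x y : E) : D.T x y = D.tr (x * y) := rfl

theorem trLS {x y : E} (hx : x ∈ D.L) (hy : y ∈ D.S) : D.tr (x * y) = 0 := by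
  rw [D.tr_comm]; exact D.trSL y hy x hx

theorem nondegS : ∀ x ∈ D.S, (∀ y ∈ D.S, D.T x y = 0) → x = 0 := by
  intro x hx h
  apply D.nondeg
  intro y
  obtain ⟨a, ha, b, hb, rfl⟩ := D.split y
  rw [mul_add, map_add, D.trSL x hx b hb, add_zero]
  exact h a ha

theorem nondegL : ∀ x ∈ D.L, (∀ y ∈ D.L, D.T x y = 0) → x = 0 := by
  intro x hx h
  apply D.nondeg
  intro y
  obtain ⟨a, ha, b, hb, rfl⟩ := D.split y
  rw [mul_add, map_add, D.trLS hx ha, zero_add]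
  exact h b hb

/-- `tr ([x, y] z) = - tr (x [z, y])`-type identity. -/
theorem tr_bracket (x y z : E) :
    D.tr (x * (y * z - z * y)) = D.tr ((z * x - x * z) * y) := by
  rw [mul_sub, sub_mul, map_sub, map_sub, ← mul_assoc, ← mul_assoc]
  congr 1
  · rw [D.tr_comm, ← mul_assoc]
  
/-- membership in a dual piece tested on symmetric elements only -/
theorem mem_of_S {G G' : Submodule K E}
    (hsp : ∀ x ∈ G, ∃ a ∈ D.S, ∃ b ∈ D.L, a ∈ G ∧ b ∈ G ∧ x = a + b)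
    (hd : ∀ x, x ∈ G' ↔ ∀ y ∈ G, D.tr (x * y) = 0) {x : E} (hx : x ∈ D.S)
    (h : ∀ y ∈ D.S, y ∈ G → D.tr (x * y) = 0) : x ∈ G' := by
  rw [hd]
  intro y hy
  obtain ⟨a, ha, b, hb, haG, hbG, rfl⟩ := hsp y hy
  rw [mul_add, map_add, D.trSL x hx b hb, add_zero]
  exact h a ha haG

theorem mem_of_L {G G' : Submodule K E}
    (hsp : ∀ x ∈ G, ∃ a ∈ D.S, ∃ b ∈ D.L, a ∈ G ∧ b ∈ G ∧ x = a + b)
    (hd : ∀ x, x ∈ G' ↔ ∀ y ∈ G, D.tr (x * y) = 0) {x : E} (hx : x ∈ D.L)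
    (h : ∀ y ∈ D.L, y ∈ G → D.tr (x * y) = 0) : x ∈ G' := by
  rw [hd]
  intro y hy
  obtain ⟨a, ha, b, hb, haG, hbG, rfl⟩ := hsp y hy
  rw [mul_add, map_add, D.trLS hx ha, zero_add]
  exact h b hb hbG

theorem inf_perp_S {G G' : Submodule K E}
    (hsp : ∀ x ∈ G, ∃ a ∈ D.S, ∃ b ∈ D.L, a ∈ G ∧ b ∈ G ∧ x = a + b)
    (hd : ∀ x, x ∈ G' ↔ ∀ y ∈ G, D.tr (x * y) = 0) :
    D.S ⊓ perp D.T (D.S ⊓ G) = D.S ⊓ G' := by
  ext x
  simp only [Submodule.mem_inf, mem_perp, T_apply, and_congr_right_iff]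
  intro hx
  constructor
  · intro h
    exact D.mem_of_S hsp hd hx fun y hy hyG => h y ⟨hy, hyG⟩
  · intro h y hy
    exact (hd x).1 h y hy.2

theorem inf_perp_L {G G' : Submodule K E}
    (hsp : ∀ x ∈ G, ∃ a ∈ D.S, ∃ b ∈ D.L, a ∈ G ∧ b ∈ G ∧ x = a + b)
    (hd : ∀ x, x ∈ G' ↔ ∀ y ∈ G, D.tr (x * y) = 0) :
    D.L ⊓ perp D.T (D.L ⊓ G) = D.L ⊓ G' := by
  ext x
  simp only [Submodule.mem_inf, mem_perp, T_apply, and_congr_right_iff]
  intro hx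
  constructor
  · intro h
    exact D.mem_of_L hsp hd hx fun y hy hyG => h y ⟨hy, hyG⟩
  · intro h y hy
    exact (hd x).1 h y hy.2

variable [FiniteDimensional K E]

theorem finrank_S {G G' : Submodule K E}
    (hsp : ∀ x ∈ G, ∃ a ∈ D.S, ∃ b ∈ D.L, a ∈ G ∧ b ∈ G ∧ x = a + b)
    (hd : ∀ x, x ∈ G' ↔ ∀ y ∈ G, D.tr (x * y) = 0) :
    finrank K ↥(D.S ⊓ G') + finrank K ↥(D.S ⊓ G) = finrank K D.S := by
  rw [← D.inf_perp_S hsp hd]
  exact finrank_inf_perp D.T D.S _ D.nondegS inf_le_left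

theorem finrank_L {G G' : Submodule K E}
    (hsp : ∀ x ∈ G, ∃ a ∈ D.S, ∃ b ∈ D.L, a ∈ G ∧ b ∈ G ∧ x = a + b)
    (hd : ∀ x, x ∈ G' ↔ ∀ y ∈ G, D.tr (x * y) = 0) :
    finrank K ↥(D.L ⊓ G') + finrank K ↥(D.L ⊓ G) = finrank K D.L := by
  rw [← D.inf_perp_L hsp hd]
  exact finrank_inf_perp D.T D.L _ D.nondegL inf_le_left

/-- `dim (S ∩ n^⊥ ∩ G') + dim n + dim (S ∩ G) = dim S + dim (n ∩ G)`. -/
theorem finrank_S_perp {G G' n : Submodule K E} (hn : n ≤ D.S)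
    (hsp : ∀ x ∈ G, ∃ a ∈ D.S, ∃ b ∈ D.L, a ∈ G ∧ b ∈ G ∧ x = a + b)
    (hd : ∀ x, x ∈ G' ↔ ∀ y ∈ G, D.tr (x * y) = 0) :
    finrank K ↥(D.S ⊓ perp D.T n ⊓ G') + finrank K n + finrank K ↥(D.S ⊓ G)
      = finrank K D.S + finrank K ↥(n ⊓ G) := by
  have h1 : D.S ⊓ perp D.T n ⊓ G' = D.S ⊓ perp D.T (n ⊔ (D.S ⊓ G)) := by
    rw [perp_sup]
    have := D.inf_perp_S hsp hd
    calc D.S ⊓ perp D.T n ⊓ G' = perp D.T n ⊓ (D.S ⊓ G') := by
          rw [inf_comm D.S, inf_assoc]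
      _ = perp D.T n ⊓ (D.S ⊓ perp D.T (D.S ⊓ G)) := by rw [this]
      _ = _ := by rw [← inf_assoc, inf_comm (perp D.T n), inf_assoc]
  have h2 := finrank_inf_perp D.T D.S (n ⊔ (D.S ⊓ G)) D.nondegS (sup_le hn inf_le_left)
  have h3 := Submodule.finrank_sup_add_finrank_inf_eq n (D.S ⊓ G)
  have h4 : n ⊓ (D.S ⊓ G) = n ⊓ G := by
    rw [← inf_assoc, inf_eq_left.mpr hn]
  rw [h4] at h3
  rw [h1]
  omega

theorem finrank_L_perp {G G' n : Submodule K E} (hn : n ≤ D.L)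
    (hsp : ∀ x ∈ G, ∃ a ∈ D.S, ∃ b ∈ D.L, a ∈ G ∧ b ∈ G ∧ x = a + b)
    (hd : ∀ x, x ∈ G' ↔ ∀ y ∈ G, D.tr (x * y) = 0) :
    finrank K ↥(D.L ⊓ perp D.T n ⊓ G') + finrank K n + finrank K ↥(D.L ⊓ G)
      = finrank K D.L + finrank K ↥(n ⊓ G) := by
  have h1 : D.L ⊓ perp D.T n ⊓ G' = D.L ⊓ perp D.T (n ⊔ (D.L ⊓ G)) := by
    rw [perp_sup]
    have := D.inf_perp_L hsp hd
    calc D.L ⊓ perp D.T n ⊓ G' = perp D.T n ⊓ (D.L ⊓ G') := by
          rw [inf_comm D.L, inf_assoc]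
      _ = perp D.T n ⊓ (D.L ⊓ perp D.T (D.L ⊓ G)) := by rw [this]
      _ = _ := by rw [← inf_assoc, inf_comm (perp D.T n), inf_assoc]
  have h2 := finrank_inf_perp D.T D.L (n ⊔ (D.L ⊓ G)) D.nondegL (sup_le hn inf_le_left)
  have h3 := Submodule.finrank_sup_add_finrank_inf_eq n (D.L ⊓ G)
  have h4 : n ⊓ (D.L ⊓ G) = n ⊓ G := by
    rw [← inf_assoc, inf_eq_left.mpr hn]
  rw [h4] at h3
  rw [h1]
  omega

end Data

end Crest.Agent.R172.NilCount
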