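import Crest.Agent.R172.NilCount1

/-!
# Row 172, node NILC: the complex (F3)
-/

set_option autoImplicit false
set_option linter.unusedSectionVars false
set_option linter.unusedFintypeInType false
set_option linter.unusedVariables false

namespace Crest.Agent.R172.NilCount

open Module

/-- the bracket with `Φ` -/
def ad (K : Type*) {E : Type*} [Field K] [Ring E] [Algebra K E] (Φ : E) : E →ₗ[K] E where
  toFun x := x * Φ - Φ * x
  map_add' x y := by rw [add_mul, mul_add]; abel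
  map_smul' c x := by rw [smul_mul_assoc, mul_smul_comm, ← smul_sub]; rfl

@[simp] theorem ad_apply {K E : Type*} [Field K] [Ring E] [Algebra K E] (Φ x : E) :
    ad K Φ x = x * Φ - Φ * x := rfl

/-- abstract arm -/
structure Arm {K E : Type*} [Field K] [Ring E] [Algebra K E] (D : Data K E) where
  Φ : E
  n : Submodule K E
  q : Submodule K E
  p : Submodule K E
  ΦS : Φ ∈ D.S
  ΦG : Φ ∈ D.Gm
  nS : n ≤ D.S
  qL : q ≤ D.L
  pL : p ≤ D.L
  qp : ∀ x ∈ D.L, (∀ y ∈ p, D.tr (x * y) = 0) → x ∈ q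
  pq : ∀ x ∈ D.L, (∀ y ∈ q, D.tr (x * y) = 0) → x ∈ p
  pq0 : ∀ x ∈ p, ∀ y ∈ q, D.tr (x * y) = 0
  br : ∀ x ∈ q, x * Φ - Φ * x ∈ n

section F3

variable {K E ι : Type*} [Field K] [Ring E] [Algebra K E] [FiniteDimensional K E] [Fintype ι]
  (D : Data K E) (A : ι → Arm D)

/-- domain of `g` -/
abbrev CC := (∀ s : ι, ↥(D.S ⊓ D.Gmm) × ↥((A s).p ⊓ D.G0p)) × ↥(D.L ⊓ D.Gm)

/-- the map `g` -/
noncomputable def gmap : CC D A →ₗ[K] E where
  toFun c := ∑ s, (ad K (A s).Φ (c.1 s).1 + ((c.1 s).2 : E)) + (c.2 : E)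
  map_add' c c' := by
    simp only [Prod.fst_add, Prod.snd_add, Pi.add_apply, Submodule.coe_add, map_add,
      Finset.sum_add_distrib]
    abel
  map_smul' r c := by
    simp only [Prod.smul_fst, Prod.smul_snd, Pi.smul_apply, Submodule.coe_smul, map_smul,
      RingHom.id_apply, smul_add, Finset.smul_sum]

theorem gmap_mem (c : CC D A) : gmap D A c ∈ D.L := by
  refine D.L.add_mem (D.L.sum_mem fun s _ => D.L.add_mem ?_ ?_) c.2.2.1
  · exact D.brSS _ (c.1 s).1.2.1 _ (A s).ΦS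
  · exact (A s).pL (c.1 s).2.2.1

theorem finrank_gmap [DecidableEq ι]
    (hK2 : ∀ x ∈ D.Gmm, (∀ s, x * (A s).Φ - (A s).Φ * x ∈ D.Gm) → x ∈ D.G0) :
    finrank K ↥(D.L ⊓ D.G0p) ≤ finrank K (LinearMap.range (gmap D A)) := by
  have h1 := finrank_inf_perp D.T D.L (LinearMap.range (gmap D A)) D.nondegL (by
    rintro _ ⟨c, rfl⟩; exact gmap_mem D A c)
  have h2 := D.finrank_L D.split0p D.dual0
  have h3 : D.L ⊓ perp D.T (LinearMap.range (gmap D A)) ≤ D.L ⊓ D.G0 := by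
    rintro x ⟨hx, hp⟩
    refine ⟨hx, ?_⟩
    have hm : x ∈ D.Gmm := by
      apply D.mem_of_L D.splitm D.dualmm hx
      intro y hy hyG
      have := hp (gmap D A (0, ⟨y, hy, hyG⟩)) ⟨_, rfl⟩
      simpa [gmap] using this
    apply hK2 x hm
    intro s
    apply D.mem_of_S D.splitmm D.dualm (D.brLS x hx _ (A s).ΦS)
    intro y hy hyG
    have := hp (gmap D A (Pi.single s (⟨y, hy, hyG⟩, 0), 0)) ⟨_, rfl⟩
    have he : gmap D A (Pi.single s (⟨y, hy, hyG⟩, 0), 0) = y * (A s).Φ - (A s).Φ * y := by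
      change ∑ t, (ad K (A t).Φ
        ((Pi.single s ((⟨y, hy, hyG⟩ : ↥(D.S ⊓ D.Gmm)), (0 : ↥((A s).p ⊓ D.G0p))) :
          ∀ s : ι, ↥(D.S ⊓ D.Gmm) × ↥((A s).p ⊓ D.G0p)) t).1 +
        (((Pi.single s ((⟨y, hy, hyG⟩ : ↥(D.S ⊓ D.Gmm)), (0 : ↥((A s).p ⊓ D.G0p))) :
          ∀ s : ι, ↥(D.S ⊓ D.Gmm) × ↥((A s).p ⊓ D.G0p)) t).2 : E)) + ((0 : ↥(D.L ⊓ D.Gm)) : E) = _
      rw [Finset.sum_eq_single s]
      · simp
      · intro t _ ht
        simp [Pi.single_eq_of_ne ht]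
      · intro h; exact absurd (Finset.mem_univ s) h
    rw [he, Data.T_apply, D.tr_bracket] at this
    have h5 : (x * (A s).Φ - (A s).Φ * x) * y = -(((A s).Φ * x - x * (A s).Φ) * y) := by
      rw [← neg_mul]; congr 1; abel
    rw [h5, map_neg, this, neg_zero]
  have h4 := Submodule.finrank_mono h3
  omega

/-- domain of `k` -/
abbrev DK := ↥(D.S ⊓ D.Gmm) ×
  (∀ s : ι, ↥(D.S ⊓ perp D.T (A s).n ⊓ D.Gmm) × ↥(D.S ⊓ D.G0) × ↥((A s).p ⊓ D.Gm))

theorem bracket_mem_p (s : ι) {x : E} (hx : x ∈ D.S) (hn : x ∈ perp D.T (A s).n) :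
    x * (A s).Φ - (A s).Φ * x ∈ (A s).p := by
  apply (A s).pq _ (D.brSS x hx _ (A s).ΦS)
  intro y hy
  have h1 := hn _ ((A s).br y hy)
  rw [Data.T_apply] at h1
  have h2 := D.tr_bracket x y (A s).Φ
  rw [h1] at h2
  have h5 : (x * (A s).Φ - (A s).Φ * x) * y = -(((A s).Φ * x - x * (A s).Φ) * y) := by
    rw [← neg_mul]; congr 1; abel
  rw [h5, map_neg, ← h2, neg_zero]

/-- the map `k` -/
noncomputable def kmap : DK D A →ₗ[K] CC D A where
  toFun z := (fun s => (⟨(z.1 : E) + ((z.2 s).1 : E) + ((z.2 s).2.1 : E),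
      D.S.add_mem (D.S.add_mem z.1.2.1 (z.2 s).1.2.1.1) (z.2 s).2.1.2.1,
      D.Gmm.add_mem (D.Gmm.add_mem z.1.2.2 (z.2 s).1.2.2) (D.z_le (z.2 s).2.1.2.2)⟩,
      ⟨-ad K (A s).Φ ((z.2 s).1 : E) + ((z.2 s).2.2 : E),
        (A s).p.add_mem ((A s).p.neg_mem
          (bracket_mem_p D A s (z.2 s).1.2.1.1 (z.2 s).1.2.1.2)) (z.2 s).2.2.2.1,
        D.G0p.add_mem (D.G0p.neg_mem (D.brmm _ (z.2 s).1.2.2 _ (A s).ΦG))
          (D.m_le (z.2 s).2.2.2.2)⟩),
    ⟨-∑ s, (ad K (A s).Φ ((z.2 s).2.1 : E) + ((z.2 s).2.2 : E)),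
      D.L.neg_mem (D.L.sum_mem fun s _ => D.L.add_mem
        (D.brSS _ (z.2 s).2.1.2.1 _ (A s).ΦS) ((A s).pL (z.2 s).2.2.2.1)),
      D.Gm.neg_mem (D.Gm.sum_mem fun s _ => D.Gm.add_mem
        (D.br0 _ (z.2 s).2.1.2.2 _ (A s).ΦG) (z.2 s).2.2.2.2)⟩)
  map_add' z z' := by
    ext s
    · simp only [Prod.fst_add, Prod.snd_add, Pi.add_apply, Submodule.coe_add]; abel
    · simp only [Prod.fst_add, Prod.snd_add, Pi.add_apply, Submodule.coe_add, map_add]; abel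
    · simp only [Prod.fst_add, Prod.snd_add, Pi.add_apply, Submodule.coe_add, map_add,
        Finset.sum_add_distrib]; abel
  map_smul' r z := by
    ext s
    · simp only [Prod.smul_fst, Prod.smul_snd, Pi.smul_apply, Submodule.coe_smul,
        RingHom.id_apply, smul_add]
    · simp only [Prod.smul_fst, Prod.smul_snd, Pi.smul_apply, Submodule.coe_smul,
        RingHom.id_apply, smul_add, map_smul, smul_neg]
    · simp only [Prod.smul_fst, Prod.smul_snd, Pi.smul_apply, Submodule.coe_smul,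
        RingHom.id_apply, smul_add, map_smul, smul_neg, Finset.smul_sum]

theorem gk (hsum : ∑ s, (A s).Φ = 0) (z : DK D A) : gmap D A (kmap D A z) = 0 := by
  change ∑ s, (ad K (A s).Φ ((z.1 : E) + ((z.2 s).1 : E) + ((z.2 s).2.1 : E)) +
    (-ad K (A s).Φ ((z.2 s).1 : E) + ((z.2 s).2.2 : E))) +
    (-∑ s, (ad K (A s).Φ ((z.2 s).2.1 : E) + ((z.2 s).2.2 : E))) = 0
  have h1 : ∑ s, ad K (A s).Φ (z.1 : E) = 0 := by
    simp only [ad_apply, Finset.sum_sub_distrib, ← Finset.mul_sum, ← Finset.sum_mul, hsum]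
    simp
  simp only [map_add, Finset.sum_add_distrib, Finset.sum_neg_distrib, h1]
  abel

theorem finrank_ker_k (hsum : ∑ s, (A s).Φ = 0)
    (hK2 : ∀ x ∈ D.Gmm, (∀ s, x * (A s).Φ - (A s).Φ * x ∈ D.Gm) → x ∈ D.G0) :
    finrank K (LinearMap.ker (kmap D A)) ≤ finrank K ↥(D.S ⊓ D.G0) +
      ∑ s, finrank K ↥(D.S ⊓ perp D.T (A s).n ⊓ D.G0) := by
  have key : ∀ z : LinearMap.ker (kmap D A), ∀ s,
      (z.1.1 : E) + ((z.1.2 s).1 : E) + ((z.1.2 s).2.1 : E) = 0 ∧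
      -ad K (A s).Φ ((z.1.2 s).1 : E) + ((z.1.2 s).2.2 : E) = 0 := by
    intro z s
    have h := z.2
    rw [LinearMap.mem_ker] at h
    have h1 := congrArg (fun c : CC D A => ((c.1 s).1 : E)) h
    have h2 := congrArg (fun c : CC D A => ((c.1 s).2 : E)) h
    exact ⟨h1, h2⟩
  have hx : ∀ z : LinearMap.ker (kmap D A), (z.1.1 : E) ∈ D.G0 := by
    intro z
    apply hK2 _ z.1.1.2.2
    intro s
    obtain ⟨h1, h2⟩ := key z s
    have h3 : (z.1.1 : E) = -((z.1.2 s).1 : E) - ((z.1.2 s).2.1 : E) := by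
      rw [eq_sub_iff_add_eq, ← add_eq_zero_iff_eq_neg]
      rw [← h1]; abel
    have h4 : ad K (A s).Φ (z.1.1 : E) = -((z.1.2 s).2.2 : E) - ad K (A s).Φ ((z.1.2 s).2.1 : E) := by
      rw [h3, map_sub, map_neg]
      congr 1
      rw [eq_comm, neg_eq_iff_add_eq_zero]
      rw [← h2]; abel
    rw [← ad_apply (K := K), h4]
    exact D.Gm.sub_mem (D.Gm.neg_mem (z.1.2 s).2.2.2.2) (D.br0 _ (z.1.2 s).2.1.2.2 _ (A s).ΦG)
  have hT : ∀ z : LinearMap.ker (kmap D A), ∀ s, ((z.1.2 s).1 : E) ∈ D.G0 := by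
    intro z s
    obtain ⟨h1, h2⟩ := key z s
    have h3 : ((z.1.2 s).1 : E) = -(z.1.1 : E) - ((z.1.2 s).2.1 : E) := by
      rw [eq_sub_iff_add_eq, ← add_eq_zero_iff_eq_neg]
      rw [← h1]; abel
    rw [h3]
    exact D.G0.sub_mem (D.G0.neg_mem (hx z)) (z.1.2 s).2.1.2.2
  let f : LinearMap.ker (kmap D A) →ₗ[K]
      (↥(D.S ⊓ D.G0) × (∀ s : ι, ↥(D.S ⊓ perp D.T (A s).n ⊓ D.G0))) :=
    { toFun := fun z => (⟨(z.1.1 : E), z.1.1.2.1, hx z⟩,
        fun s => ⟨((z.1.2 s).1 : E), (z.1.2 s).1.2.1, hT z s⟩)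
      map_add' := by intro z z'; ext s <;> simp
      map_smul' := by intro r z; ext s <;> simp }
  have hf : Function.Injective f := by
    rw [injective_iff_map_eq_zero]
    intro z hz
    have hz1 : (z.1.1 : E) = 0 := congrArg (fun c => (c.1 : E)) hz
    have hz2 : ∀ s, ((z.1.2 s).1 : E) = 0 := fun s =>
      congrArg (fun c : (↥(D.S ⊓ D.G0) × (∀ s : ι, ↥(D.S ⊓ perp D.T (A s).n ⊓ D.G0))) =>
        (c.2 s : E)) hz
    apply Subtype.ext
    ext s
    · exact hz1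
    · exact hz2 s
    · have := (key z s).1
      rw [hz1, hz2 s, add_zero, zero_add] at this
      exact this
    · have := (key z s).2
      rw [hz2 s, map_zero, neg_zero, zero_add] at this
      exact this
  have := LinearMap.finrank_le_finrank_of_injective hf
  rwa [finrank_prod, finrank_pi_fintype] at this

/-- (F3) -/
theorem F3 (hsum : ∑ s, (A s).Φ = 0)
    (hK2 : ∀ x ∈ D.Gmm, (∀ s, x * (A s).Φ - (A s).Φ * x ∈ D.Gm) → x ∈ D.G0) :
    finrank K ↥(D.S ⊓ D.G0p) + finrank K ↥(D.L ⊓ D.G0p) +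
      ∑ s, (finrank K ↥((A s).n ⊓ D.Gm) + finrank K ↥((A s).p ⊓ D.Gm)) ≤
    finrank K ↥(D.S ⊓ D.Gm) + finrank K ↥(D.L ⊓ D.Gm) +
      ∑ s, (finrank K ↥((A s).n ⊓ D.G0p) + finrank K ↥((A s).p ⊓ D.G0p)) := by
  classical
  have h1 := finrank_gmap D A hK2
  have h2 := finrank_ker_k D A hsum hK2
  have h3 := LinearMap.finrank_range_add_finrank_ker (gmap D A)
  have h4 := LinearMap.finrank_range_add_finrank_ker (kmap D A)
  have h5 : finrank K (LinearMap.range (kmap D A)) ≤ finrank K (LinearMap.ker (gmap D A)) := by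
    apply Submodule.finrank_mono
    rintro _ ⟨z, rfl⟩
    exact gk D A hsum z
  rw [finrank_prod, finrank_pi_fintype] at h3
  rw [finrank_prod, finrank_pi_fintype] at h4
  simp only [finrank_prod] at h3 h4
  have e1 := D.finrank_S D.splitm D.dualmm
  have e2 := D.finrank_S D.split0p D.dual0
  have e3 := fun s => D.finrank_S_perp (A s).nS D.splitm D.dualmm
  have e4 := fun s => D.finrank_S_perp (A s).nS D.split0p D.dual0
  -- sum over arms
  have key : ∑ s : ι, (finrank K ↥(D.S ⊓ perp D.T (A s).n ⊓ D.Gmm) +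
        (finrank K ↥(D.S ⊓ D.G0) + finrank K ↥((A s).p ⊓ D.Gm))) +
      ∑ s : ι, (finrank K ↥((A s).n ⊓ D.G0p) + finrank K ↥((A s).p ⊓ D.G0p)) =
      ∑ s : ι, (finrank K ↥(D.S ⊓ D.Gmm) + finrank K ↥((A s).p ⊓ D.G0p)) +
      ∑ s : ι, finrank K ↥(D.S ⊓ perp D.T (A s).n ⊓ D.G0) +
      ∑ s : ι, (finrank K ↥((A s).n ⊓ D.Gm) + finrank K ↥((A s).p ⊓ D.Gm)) := by
    rw [← Finset.sum_add_distrib, ← Finset.sum_add_distrib, ← Finset.sum_add_distrib]
    apply Finset.sum_congr rfl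
    intro s _
    have := e3 s
    have := e4 s
    omega
  omega

end F3

end Crest.Agent.R172.NilCount
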