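import Crest.Agent.R172.NilCount2

/-!
# Row 172, node NILC: the tangent bound (F4)
-/

set_option autoImplicit false
set_option linter.unusedSectionVars false
set_option linter.unusedFintypeInType false
set_option linter.unusedVariables false
set_option linter.unusedSimpArgs false

namespace Crest.Agent.R172.NilCount

open Module

/-- an arm together with its space of variations -/
structure FArm {K E : Type*} [Field K] [Ring E] [Algebra K E] (D : Data K E)
    (W : Type*) [AddCommGroup W] [Module K W] extends Arm D where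
  act : E →ₗ[K] W
  N : Submodule K W
  φ : W →ₗ[K] E
  φN : ∀ f ∈ N, φ f ∈ n
  φsurj : ∀ y ∈ n, ∃ f ∈ N, φ f = y
  actN : ∀ Y ∈ q, act Y ∈ N
  φact : ∀ Y ∈ q, φ (act Y) = Y * Φ - Φ * Y

section F4

variable {K E ι W : Type*} [Field K] [Ring E] [Algebra K E] [FiniteDimensional K E] [Fintype ι]
  [AddCommGroup W] [Module K W] [FiniteDimensional K W]
  (D : Data K E) (A : ι → FArm D W)

theorem finrank_N (s : ι) :
    finrank K ↥((A s).N ⊓ D.Gm.comap (A s).φ) + finrank K (A s).n ≤
      finrank K (A s).N + finrank K ↥((A s).n ⊓ D.Gm) := by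
  let g : (A s).N →ₗ[K] E := (A s).φ.domRestrict (A s).N
  let h : ↥((A s).N ⊓ D.Gm.comap (A s).φ) →ₗ[K] E :=
    (A s).φ.domRestrict ((A s).N ⊓ D.Gm.comap (A s).φ)
  have hg := LinearMap.finrank_range_add_finrank_ker g
  have hh := LinearMap.finrank_range_add_finrank_ker h
  have h1 : LinearMap.range g = (A s).n := by
    ext y
    constructor
    · rintro ⟨f, rfl⟩; exact (A s).φN f f.2
    · intro hy
      obtain ⟨f, hf, rfl⟩ := (A s).φsurj y hy
      exact ⟨⟨f, hf⟩, rfl⟩
  have h2 : LinearMap.range h ≤ (A s).n ⊓ D.Gm := by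
    rintro _ ⟨f, rfl⟩; exact ⟨(A s).φN f f.2.1, f.2.2⟩
  have h3 := Submodule.finrank_mono h2
  have h4 : finrank K (LinearMap.ker h) ≤ finrank K (LinearMap.ker g) := by
    let f : LinearMap.ker h →ₗ[K] LinearMap.ker g :=
      { toFun := fun z => ⟨⟨z.1.1, z.1.2.1⟩, z.2⟩
        map_add' := fun _ _ => rfl
        map_smul' := fun _ _ => rfl }
    apply LinearMap.finrank_le_finrank_of_injective (f := f)
    intro z z' hz
    apply Subtype.ext; apply Subtype.ext
    exact congrArg (fun c : LinearMap.ker g => c.1.1) hz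
  rw [h1] at hg
  omega

/-- parameter space -/
abbrev PP := D.L × (∀ s : ι, ↥(D.L ⊓ D.G0) × ↥((A s).N ⊓ D.Gm.comap (A s).φ))

/-- constraint map -/
noncomputable def cmap : PP D A →ₗ[K] E where
  toFun z := ∑ s, (ad K (A s).Φ ((z.2 s).1 : E) + (A s).φ ((z.2 s).2 : W))
  map_add' z z' := by
    simp only [Prod.snd_add, Prod.fst_add, Pi.add_apply, Submodule.coe_add, map_add,
      Finset.sum_add_distrib]
    abel
  map_smul' r z := by
    simp only [Prod.smul_snd, Prod.smul_fst, Pi.smul_apply, Submodule.coe_smul, map_smul,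
      RingHom.id_apply, Finset.smul_sum, smul_add]

/-- evaluation map -/
noncomputable def evmap : PP D A →ₗ[K] W where
  toFun z := ∑ s, ((A s).act ((z.1 : E) + ((z.2 s).1 : E)) + ((z.2 s).2 : W))
  map_add' z z' := by
    simp only [Prod.snd_add, Prod.fst_add, Pi.add_apply, Submodule.coe_add, map_add,
      Finset.sum_add_distrib]
    abel
  map_smul' r z := by
    simp only [Prod.smul_snd, Prod.smul_fst, Pi.smul_apply, Submodule.coe_smul, map_smul,
      RingHom.id_apply, Finset.smul_sum, ← smul_add]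

theorem cmap_mem (z : PP D A) : cmap D A z ∈ D.S := by
  refine D.S.sum_mem fun s _ => D.S.add_mem ?_ ?_
  · exact D.brLS _ (z.2 s).1.2.1 _ (A s).ΦS
  · exact (A s).nS ((A s).φN _ (z.2 s).2.2.1)

theorem finrank_cmap [DecidableEq ι]
    (hK1 : ∀ x, (∀ s, x * (A s).Φ - (A s).Φ * x ∈ D.G0p) → x ∈ D.Gmm) :
    finrank K ↥(D.S ⊓ D.Gm) ≤ finrank K (LinearMap.range (cmap D A)) := by
  have h1 := finrank_inf_perp D.T D.S (LinearMap.range (cmap D A)) D.nondegS (by
    rintro _ ⟨c, rfl⟩; exact cmap_mem D A c)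
  have h2 := D.finrank_S D.splitm D.dualmm
  have h3 : D.S ⊓ perp D.T (LinearMap.range (cmap D A)) ≤ D.S ⊓ D.Gmm := by
    rintro x ⟨hx, hp⟩
    refine ⟨hx, ?_⟩
    apply hK1
    intro s
    apply D.mem_of_L D.split0 D.dual0p (D.brSS x hx _ (A s).ΦS)
    intro y hy hyG
    have := hp (cmap D A (0, Pi.single s (⟨y, hy, hyG⟩, 0))) ⟨_, rfl⟩
    have he : cmap D A (0, Pi.single s (⟨y, hy, hyG⟩, 0)) = y * (A s).Φ - (A s).Φ * y := by
      change ∑ t, (ad K (A t).Φ
        ((Pi.single s ((⟨y, hy, hyG⟩ : ↥(D.L ⊓ D.G0)),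
            (0 : ↥((A s).N ⊓ D.Gm.comap (A s).φ))) :
          ∀ s : ι, ↥(D.L ⊓ D.G0) × ↥((A s).N ⊓ D.Gm.comap (A s).φ)) t).1 +
        (A t).φ (((Pi.single s ((⟨y, hy, hyG⟩ : ↥(D.L ⊓ D.G0)),
            (0 : ↥((A s).N ⊓ D.Gm.comap (A s).φ))) :
          ∀ s : ι, ↥(D.L ⊓ D.G0) × ↥((A s).N ⊓ D.Gm.comap (A s).φ)) t).2 : W)) = _
      rw [Finset.sum_eq_single s]
      · simp
      · intro t _ ht
        simp [Pi.single_eq_of_ne ht]
      · intro h; exact absurd (Finset.mem_univ s) h
    rw [he, Data.T_apply, D.tr_bracket] at this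
    have h5 : (x * (A s).Φ - (A s).Φ * x) * y = -(((A s).Φ * x - x * (A s).Φ) * y) := by
      rw [← neg_mul]; congr 1; abel
    rw [h5, map_neg, this, neg_zero]
  have h4 := Submodule.finrank_mono h3
  omega

/-- (F4) -/
theorem F4 (hsum : ∑ s, (A s).Φ = 0)
    (hK1 : ∀ x, (∀ s, x * (A s).Φ - (A s).Φ * x ∈ D.G0p) → x ∈ D.Gmm)
    (Tg : Submodule K W)
    (hT : ∀ τ ∈ Tg, ∃ z : PP D A, cmap D A z = 0 ∧ evmap D A z = τ) :
    finrank K Tg + finrank K ↥(D.S ⊓ D.Gm) +
      ∑ s, (finrank K ↥((A s).p ⊓ D.G0p) + finrank K (A s).n) ≤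
    finrank K ↥(D.L ⊓ D.G0p) +
      ∑ s, (finrank K (A s).p + finrank K (A s).N + finrank K ↥((A s).n ⊓ D.Gm)) := by
  classical
  have h1 := finrank_cmap D A hK1
  have h2 := LinearMap.finrank_range_add_finrank_ker (cmap D A)
  let e : LinearMap.ker (cmap D A) →ₗ[K] W :=
    (evmap D A).domRestrict (LinearMap.ker (cmap D A))
  have h3 := LinearMap.finrank_range_add_finrank_ker (K := K)
    (V := ↥(LinearMap.ker (cmap D A))) (V₂ := W) e
  have h4 : Tg ≤ LinearMap.range e := by
    intro τ hτ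
    obtain ⟨z, hz1, hz2⟩ := hT τ hτ
    exact ⟨⟨z, hz1⟩, hz2⟩
  have h5 := Submodule.finrank_mono h4
  -- the kernel is big
  let j0 : (↥(D.L ⊓ D.G0) × (∀ s : ι, ↥((A s).q ⊓ D.G0))) →ₗ[K] PP D A :=
    { toFun := fun y => (⟨y.1, y.1.2.1⟩, fun s =>
        (⟨((y.2 s : E)) - (y.1 : E), D.L.sub_mem ((A s).qL (y.2 s).2.1) y.1.2.1,
          D.G0.sub_mem (y.2 s).2.2 y.1.2.2⟩,
         ⟨-(A s).act (y.2 s : E), (A s).N.neg_mem ((A s).actN _ (y.2 s).2.1), by
            change (A s).φ (-(A s).act (y.2 s : E)) ∈ D.Gm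
            rw [map_neg, (A s).φact _ (y.2 s).2.1]
            exact D.Gm.neg_mem (D.br0 _ (y.2 s).2.2 _ (A s).ΦG)⟩))
      map_add' := by
        intro y y'
        ext s
        · simp
        · simp only [Prod.fst_add, Prod.snd_add, Pi.add_apply, Submodule.coe_add]; abel
        · simp only [Prod.fst_add, Prod.snd_add, Pi.add_apply, Submodule.coe_add, map_add]; abel
      map_smul' := by
        intro r y
        ext s
        · simp
        · simp only [Prod.smul_fst, Prod.smul_snd, Pi.smul_apply, Submodule.coe_smul,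
            RingHom.id_apply, smul_sub]
        · simp only [Prod.smul_fst, Prod.smul_snd, Pi.smul_apply, Submodule.coe_smul,
            RingHom.id_apply, map_smul, smul_neg] }
  have hj1 : ∀ y, cmap D A (j0 y) = 0 := by
    intro y
    change ∑ s, (ad K (A s).Φ ((y.2 s : E) - (y.1 : E)) + (A s).φ (-(A s).act (y.2 s : E))) = 0
    have h6 : ∑ s, ad K (A s).Φ (y.1 : E) = 0 := by
      simp only [ad_apply, Finset.sum_sub_distrib, ← Finset.mul_sum, ← Finset.sum_mul, hsum]
      simp
    have h7 : ∀ s, (A s).φ ((A s).act (y.2 s : E)) = ad K (A s).Φ (y.2 s : E) :=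
      fun s => (A s).φact _ (y.2 s).2.1
    simp only [map_sub, map_neg, h7, Finset.sum_add_distrib, Finset.sum_sub_distrib,
      Finset.sum_neg_distrib, h6]
    abel
  have hj2 : ∀ y, evmap D A (j0 y) = 0 := by
    intro y
    change ∑ s, ((A s).act ((y.1 : E) + ((y.2 s : E) - (y.1 : E))) + -(A s).act (y.2 s : E)) = 0
    apply Finset.sum_eq_zero
    intro s _
    rw [add_sub_cancel, add_neg_cancel]
  let j : (↥(D.L ⊓ D.G0) × (∀ s : ι, ↥((A s).q ⊓ D.G0))) →ₗ[K] LinearMap.ker e :=
    { toFun := fun y => ⟨⟨j0 y, hj1 y⟩, hj2 y⟩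
      map_add' := by intro y y'; apply Subtype.ext; apply Subtype.ext; exact map_add j0 y y'
      map_smul' := by intro r y; apply Subtype.ext; apply Subtype.ext; exact map_smul j0 r y }
  have hj : Function.Injective j := by
    rw [injective_iff_map_eq_zero]
    intro y hy
    have h8 : j0 y = 0 := congrArg (fun c : LinearMap.ker e => (c.1 : PP D A)) hy
    have h9 : (y.1 : E) = 0 := congrArg (fun c : PP D A => (c.1 : E)) h8
    have h10 : ∀ s, (y.2 s : E) - (y.1 : E) = 0 := fun s =>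
      congrArg (fun c : PP D A => ((c.2 s).1 : E)) h8
    ext s
    · exact h9
    · have := h10 s
      rw [h9, sub_zero] at this
      exact this
  have h6 := LinearMap.finrank_le_finrank_of_injective hj
  rw [finrank_prod, finrank_pi_fintype] at h6
  rw [finrank_prod, finrank_pi_fintype] at h2
  simp only [finrank_prod] at h2
  have e1 := D.finrank_L D.split0p D.dual0
  have e2 : ∀ s, finrank K ↥((A s).q ⊓ D.G0) + finrank K (A s).p + finrank K ↥(D.L ⊓ D.G0p)
      = finrank K D.L + finrank K ↥((A s).p ⊓ D.G0p) := by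
    intro s
    have h := D.finrank_L_perp (A s).pL D.split0p D.dual0
    have hq : D.L ⊓ perp D.T (A s).p = (A s).q := by
      ext x
      constructor
      · rintro ⟨hx, h⟩
        exact (A s).qp x hx h
      · intro hx
        refine ⟨(A s).qL hx, fun y hy => ?_⟩
        rw [Data.T_apply, D.tr_comm]
        exact (A s).pq0 y hy x hx
    rwa [hq] at h
  have e3 := fun s => finrank_N D A s
  have key : ∑ s : ι, (finrank K ↥(D.L ⊓ D.G0) + finrank K ↥((A s).N ⊓ D.Gm.comap (A s).φ)) +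
      ∑ s : ι, (finrank K ↥((A s).p ⊓ D.G0p) + finrank K (A s).n) ≤
      ∑ s : ι, finrank K ↥((A s).q ⊓ D.G0) +
      ∑ s : ι, (finrank K (A s).p + finrank K (A s).N + finrank K ↥((A s).n ⊓ D.Gm)) := by
    rw [← Finset.sum_add_distrib, ← Finset.sum_add_distrib]
    apply Finset.sum_le_sum
    intro s _
    have := e2 s
    have := e3 s
    omega
  omega

end F4

end Crest.Agent.R172.NilCount
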