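import Crest.Agent.R172.NilCount4
import Crest.Agent.R172.NilPat3
import Crest.Agent.R172.NilConn

/-!
# Row 172, node NILC: arms
-/

set_option autoImplicit false
set_option linter.unusedSectionVars false
set_option linter.unusedSimpArgs false
set_option linter.unusedVariables false

namespace Crest.Agent.R172.NilCount

open Module Crest.Agent.R172.Kempf Crest.Agent.R172.NilPat
open Crest.Agent.R172.NilConn (ten ten_apply)

section Ten

variable {K V : Type*} [Field K] [AddCommGroup V] [Module K V] (B : LinearMap.BilinForm K V)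

theorem ten_add_left (a a' b : V) : ten B (a + a') b = ten B a b + ten B a' b := by
  ext z; simp [ten_apply]

theorem ten_add_right (a b b' : V) : ten B a (b + b') = ten B a b + ten B a b' := by
  ext z; simp [ten_apply, add_smul]

theorem ten_smul_left (c : K) (a b : V) : ten B (c • a) b = c • ten B a b := by
  ext z
  rw [LinearMap.smul_apply, ten_apply, ten_apply, smul_comm]

theorem ten_smul_right (c : K) (a b : V) : ten B a (c • b) = c • ten B a b := by
  ext z; simp [ten_apply, smul_smul]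

theorem ten_zero_left (b : V) : ten B 0 b = 0 := by ext z; simp [ten_apply]

theorem ten_zero_right (a : V) : ten B a 0 = 0 := by ext z; simp [ten_apply]

/-- symmetrised -/
noncomputable def sten (a b : V) : V →ₗ[K] V := ten B a b + ten B b a

theorem sten_comm (a b : V) : sten B a b = sten B b a := add_comm _ _

theorem sten_add_left (a a' b : V) : sten B (a + a') b = sten B a b + sten B a' b := by
  rw [sten, sten, sten, ten_add_left, ten_add_right]; abel

theorem sten_add_right (a b b' : V) : sten B a (b + b') = sten B a b + sten B a b' := by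
  rw [sten, sten, sten, ten_add_left, ten_add_right]; abel

theorem sten_smul_left (c : K) (a b : V) : sten B (c • a) b = c • sten B a b := by
  rw [sten, sten, ten_smul_left, ten_smul_right, smul_add]

theorem sten_smul_right (c : K) (a b : V) : sten B a (c • b) = c • sten B a b := by
  rw [sten, sten, ten_smul_left, ten_smul_right, smul_add]

theorem sten_zero_left (b : V) : sten B 0 b = 0 := by
  rw [sten, ten_zero_left, ten_zero_right, add_zero]

theorem sten_zero_right (b : V) : sten B b 0 = 0 := by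
  rw [sten, ten_zero_left, ten_zero_right, add_zero]

theorem sten_mem_Sym (hs : B.IsSymm) (a b : V) : sten B a b ∈ Sym B := by
  intro x y
  simp only [sten, LinearMap.add_apply, ten_apply, map_add, map_smul, LinearMap.smul_apply,
    smul_eq_mul]
  rw [hs.eq x a, hs.eq x b]; ring

/-- `Y ∘ sten - sten ∘ Y` for skew `Y` -/
theorem skw_sten (hs : B.IsSymm) {Y : V →ₗ[K] V} (hY : Y ∈ Skw B) (a b : V) :
    Y * sten B a b - sten B a b * Y = sten B (Y a) b + sten B a (Y b) := by
  ext z
  change Y (sten B a b z) - sten B a b (Y z) = _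
  have h1 : B b (Y z) = - B (Y b) z := by rw [hY b z, neg_neg]
  have h2 : B a (Y z) = - B (Y a) z := by rw [hY a z, neg_neg]
  simp only [sten, LinearMap.add_apply, ten_apply, map_add, map_smul, h1, h2, neg_smul]
  abel

theorem skw_ten (hs : B.IsSymm) {Y : V →ₗ[K] V} (hY : Y ∈ Skw B) (a b : V) :
    Y * ten B a b - ten B a b * Y = ten B (Y a) b + ten B a (Y b) := by
  ext z
  change Y (ten B a b z) - ten B a b (Y z) = _
  have h1 : B b (Y z) = - B (Y b) z := by rw [hY b z, neg_neg]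
  simp only [LinearMap.add_apply, ten_apply, map_add, map_smul, h1, neg_smul]
  abel

end Ten

/-- A configuration of columns. -/
structure Conf {K V : Type*} [Field K] [AddCommGroup V] [Module K V]
    (B : LinearMap.BilinForm K V) (X σ : Type*) where
  arm : X → σ
  ht : X → ℕ
  M : ℕ
  htM : ∀ x, ht x < M
  v : X → V
  w : X → V
  v0 : σ → V
  c0 : σ → K
  odd : σ → Prop
  even0 : ∀ s, ¬ odd s → v0 s = 0
  c0ne : ∀ s, odd s → c0 s ≠ 0
  vv : ∀ x y, arm x = arm y → B (v x) (v y) = 0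
  vw : ∀ x y, arm x = arm y → ht x ≤ ht y → B (v x) (w y) = 0
  v00 : ∀ s, B (v0 s) (v0 s) = 0
  vv0 : ∀ x, B (v x) (v0 (arm x)) = 0

namespace Conf

variable {K V X σ : Type*} [Field K] [AddCommGroup V] [Module K V]
  {B : LinearMap.BilinForm K V} (F : Conf B X σ)

/-- the steps -/
def R (s : σ) (i : ℕ) : Submodule K V := Submodule.span K (F.v '' {x | F.arm x = s ∧ F.ht x < i})

/-- top step with `v0` -/
def Rp (s : σ) : Submodule K V := F.R s F.M ⊔ Submodule.span K {F.v0 s}

/-- chain -/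
noncomputable def ch (s : σ) (i : ℕ) : Submodule K V := if i ≤ F.M then F.R s i else F.Rp s

theorem R_mono (s : σ) {i j : ℕ} (h : i ≤ j) : F.R s i ≤ F.R s j := by
  apply Submodule.span_mono
  rintro _ ⟨x, ⟨h1, h2⟩, rfl⟩
  exact ⟨x, ⟨h1, h2.trans_le h⟩, rfl⟩

theorem R_le (s : σ) (i : ℕ) : F.R s i ≤ F.R s F.M := by
  apply Submodule.span_mono
  rintro _ ⟨x, ⟨h1, h2⟩, rfl⟩
  exact ⟨x, ⟨h1, F.htM x⟩, rfl⟩

theorem R_zero (s : σ) : F.R s 0 = ⊥ := by
  rw [R, Submodule.span_eq_bot]
  rintro _ ⟨x, ⟨h1, h2⟩, rfl⟩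
  exact absurd h2 (Nat.not_lt_zero _)

theorem v_mem (x : X) : F.v x ∈ F.R (F.arm x) (F.ht x + 1) :=
  Submodule.subset_span ⟨x, ⟨rfl, Nat.lt_succ_self _⟩, rfl⟩

theorem v0_mem (s : σ) : F.v0 s ∈ F.Rp s :=
  Submodule.mem_sup_right (Submodule.mem_span_singleton_self _)

theorem R_le_Rp (s : σ) (i : ℕ) : F.R s i ≤ F.Rp s := (F.R_le s i).trans le_sup_left

theorem ch_mono (s : σ) : Monotone (F.ch s) := by
  intro i j hij
  unfold ch
  by_cases hj : j ≤ F.M
  · rw [if_pos hj, if_pos (hij.trans hj)]; exact F.R_mono s hij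
  · rw [if_neg hj]
    by_cases hi : i ≤ F.M
    · rw [if_pos hi]; exact F.R_le_Rp s i
    · rw [if_neg hi]

theorem ch_zero (s : σ) : F.ch s 0 = ⊥ := by
  rw [ch, if_pos (Nat.zero_le _), R_zero]

theorem ch_of_le (s : σ) {i : ℕ} (h : i ≤ F.M) : F.ch s i = F.R s i := if_pos h

theorem ch_top (s : σ) : F.ch s (F.M + 1) = F.Rp s := if_neg (by omega)

theorem R_iso (s : σ) (i : ℕ) : ∀ x ∈ F.R s i, ∀ y ∈ F.R s i, B x y = 0 := by
  intro x hx y hy
  have h1 : F.R s i ≤ LinearMap.ker (B.flip y) := by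
    rw [R, Submodule.span_le]
    rintro _ ⟨z, hz, rfl⟩
    have h2 : F.R s i ≤ LinearMap.ker (B (F.v z)) := by
      rw [R, Submodule.span_le]
      rintro _ ⟨z', hz', rfl⟩
      exact F.vv z z' (hz.1.trans hz'.1.symm)
    exact h2 hy
  exact h1 hx

theorem R_v0 (s : σ) (i : ℕ) : ∀ x ∈ F.R s i, B x (F.v0 s) = 0 := by
  intro x hx
  have h1 : F.R s i ≤ LinearMap.ker (B.flip (F.v0 s)) := by
    rw [R, Submodule.span_le]
    rintro _ ⟨z, hz, rfl⟩
    have := F.vv0 z
    rw [hz.1] at this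
    exact this
  exact h1 hx

theorem Rp_iso (hs : B.IsSymm) (s : σ) : ∀ x ∈ F.Rp s, ∀ y ∈ F.Rp s, B x y = 0 := by
  intro x hx y hy
  obtain ⟨a, ha, b, hb, rfl⟩ := Submodule.mem_sup.mp hx
  obtain ⟨a', ha', b', hb', rfl⟩ := Submodule.mem_sup.mp hy
  obtain ⟨c, rfl⟩ := Submodule.mem_span_singleton.mp hb
  obtain ⟨c', rfl⟩ := Submodule.mem_span_singleton.mp hb'
  have h1 := F.R_iso s F.M a ha a' ha'
  have h2 := F.R_v0 s F.M a ha
  have h3 := F.R_v0 s F.M a' ha'
  simp only [map_add, LinearMap.add_apply, map_smul, LinearMap.smul_apply, h1, h2, smul_zero,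
    hs.eq (F.v0 s) a', h3, F.v00 s, add_zero]

/-- `w_x` is orthogonal to `R (ht x + 1)` -/
theorem R_w (x : X) : ∀ y ∈ F.R (F.arm x) (F.ht x + 1), B y (F.w x) = 0 := by
  intro y hy
  have h1 : F.R (F.arm x) (F.ht x + 1) ≤ LinearMap.ker (B.flip (F.w x)) := by
    rw [R, Submodule.span_le]
    rintro _ ⟨z, hz, rfl⟩
    exact F.vw z x hz.1 (Nat.lt_succ_iff.mp hz.2)
  exact h1 hy

/-- orthogonal of `R` -/
def Ro (s : σ) (i : ℕ) : Submodule K V where
  carrier := {y | ∀ x ∈ F.R s i, B x y = 0}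
  zero_mem' := by intro x _; simp
  add_mem' := by intro a b ha hb x hx; rw [map_add, ha x hx, hb x hx, add_zero]
  smul_mem' := by intro c a ha x hx; rw [map_smul, ha x hx, smul_zero]

theorem mem_Ro {s : σ} {i : ℕ} {y : V} : y ∈ F.Ro s i ↔ ∀ x ∈ F.R s i, B x y = 0 := Iff.rfl

theorem Ro_anti (s : σ) {i j : ℕ} (h : i ≤ j) : F.Ro s j ≤ F.Ro s i :=
  fun _ hy x hx => hy x (F.R_mono s h hx)

theorem w_mem (x : X) : F.w x ∈ F.Ro (F.arm x) (F.ht x + 1) := F.R_w x

theorem Rp_le_Ro (hs : B.IsSymm) (s : σ) (i : ℕ) : F.Rp s ≤ F.Ro s i :=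
  fun _ hy x hx => F.Rp_iso hs s x (F.R_le_Rp s i hx) _ hy

section Maps

variable [Fintype X] [DecidableEq σ]

/-- the operator of the arm `s` -/
noncomputable def Phi (s : σ) : V →ₗ[K] V :=
  (∑ x, if F.arm x = s then sten B (F.v x) (F.w x) else 0) + F.c0 s • ten B (F.v0 s) (F.v0 s)

/-- variations of the columns -/
abbrev Wt (V X σ : Type*) := (X → V) × (X → V) × (σ → V)

/-- derivative of `Phi` -/
noncomputable def phi (s : σ) : Wt V X σ →ₗ[K] (V →ₗ[K] V) where
  toFun f := (∑ x, if F.arm x = s then sten B (f.1 x) (F.w x) + sten B (F.v x) (f.2.1 x) else 0) +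
    F.c0 s • sten B (f.2.2 s) (F.v0 s)
  map_add' f f' := by
    have h : ∀ x, (if F.arm x = s then sten B ((f + f').1 x) (F.w x) +
        sten B (F.v x) ((f + f').2.1 x) else 0) =
        (if F.arm x = s then sten B (f.1 x) (F.w x) + sten B (F.v x) (f.2.1 x) else 0) +
        (if F.arm x = s then sten B (f'.1 x) (F.w x) + sten B (F.v x) (f'.2.1 x) else 0) := by
      intro x
      by_cases hx : F.arm x = s
      · rw [if_pos hx, if_pos hx, if_pos hx]
        change sten B (f.1 x + f'.1 x) _ + sten B _ (f.2.1 x + f'.2.1 x) = _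
        rw [sten_add_left, sten_add_right]; abel
      · rw [if_neg hx, if_neg hx, if_neg hx, add_zero]
    simp only [h, Finset.sum_add_distrib]
    change _ + F.c0 s • sten B (f.2.2 s + f'.2.2 s) _ = _
    rw [sten_add_left, smul_add]; abel
  map_smul' c f := by
    have h : ∀ x, (if F.arm x = s then sten B ((c • f).1 x) (F.w x) +
        sten B (F.v x) ((c • f).2.1 x) else 0) =
        c • (if F.arm x = s then sten B (f.1 x) (F.w x) + sten B (F.v x) (f.2.1 x) else 0) := by
      intro x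
      by_cases hx : F.arm x = s
      · rw [if_pos hx, if_pos hx]
        change sten B (c • f.1 x) _ + sten B _ (c • f.2.1 x) = _
        rw [sten_smul_left, sten_smul_right, smul_add]
      · rw [if_neg hx, if_neg hx, smul_zero]
    simp only [h, ← Finset.smul_sum]
    change _ + F.c0 s • sten B (c • f.2.2 s) _ = _
    rw [sten_smul_left, smul_comm (F.c0 s) c, ← smul_add]; rfl

theorem phi_apply (s : σ) (f : Wt V X σ) : F.phi s f =
    (∑ x, if F.arm x = s then sten B (f.1 x) (F.w x) + sten B (F.v x) (f.2.1 x) else 0) +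
    F.c0 s • sten B (f.2.2 s) (F.v0 s) := rfl

/-- the action of an operator on the columns of the arm `s` -/
noncomputable def act (s : σ) : (V →ₗ[K] V) →ₗ[K] Wt V X σ where
  toFun A := (fun x => if F.arm x = s then A (F.v x) else 0,
    fun x => if F.arm x = s then A (F.w x) else 0,
    fun t => if t = s then A (F.v0 s) else 0)
  map_add' A A' := by
    refine Prod.ext (funext fun x => ?_) (Prod.ext (funext fun x => ?_) (funext fun t => ?_))
    · simp only [Prod.fst_add, Prod.snd_add, Pi.add_apply]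
      split_ifs <;> simp
    · simp only [Prod.fst_add, Prod.snd_add, Pi.add_apply]
      split_ifs <;> simp
    · simp only [Prod.fst_add, Prod.snd_add, Pi.add_apply]
      split_ifs <;> simp
  map_smul' c A := by
    refine Prod.ext (funext fun x => ?_) (Prod.ext (funext fun x => ?_) (funext fun t => ?_))
    · simp only [Prod.smul_fst, Prod.smul_snd, Pi.smul_apply, RingHom.id_apply]
      split_ifs <;> simp
    · simp only [Prod.smul_fst, Prod.smul_snd, Pi.smul_apply, RingHom.id_apply]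
      split_ifs <;> simp
    · simp only [Prod.smul_fst, Prod.smul_snd, Pi.smul_apply, RingHom.id_apply]
      split_ifs <;> simp

theorem act_apply (s : σ) (A : V →ₗ[K] V) : F.act s A =
    (fun x => if F.arm x = s then A (F.v x) else 0,
      fun x => if F.arm x = s then A (F.w x) else 0,
      fun t => if t = s then A (F.v0 s) else 0) := rfl

/-- allowed variations -/
def Nn (s : σ) : Submodule K (Wt V X σ) where
  carrier := {f | (∀ x, F.arm x = s → f.1 x ∈ F.R s (F.ht x + 1)) ∧
    (∀ x, F.arm x ≠ s → f.1 x = 0) ∧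
    (∀ x, F.arm x = s → f.2.1 x ∈ F.Ro s (F.ht x + 1)) ∧
    (∀ x, F.arm x ≠ s → f.2.1 x = 0) ∧
    (F.odd s → f.2.2 s ∈ F.Rp s) ∧ (¬ F.odd s → f.2.2 s = 0) ∧
    (∀ t, t ≠ s → f.2.2 t = 0)}
  zero_mem' := ⟨fun _ _ => Submodule.zero_mem _, fun _ _ => rfl, fun _ _ => Submodule.zero_mem _,
    fun _ _ => rfl, fun _ => Submodule.zero_mem _, fun _ => rfl, fun _ _ => rfl⟩
  add_mem' := by
    rintro f f' ⟨h1, h2, h3, h4, h5, h6, h7⟩ ⟨h1', h2', h3', h4', h5', h6', h7'⟩
    refine ⟨fun x hx => Submodule.add_mem _ (h1 x hx) (h1' x hx), fun x hx => ?_,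
      fun x hx => Submodule.add_mem _ (h3 x hx) (h3' x hx), fun x hx => ?_,
      fun hx => Submodule.add_mem _ (h5 hx) (h5' hx), fun hx => ?_, fun t ht => ?_⟩
    · change f.1 x + f'.1 x = 0; rw [h2 x hx, h2' x hx, add_zero]
    · change f.2.1 x + f'.2.1 x = 0; rw [h4 x hx, h4' x hx, add_zero]
    · change f.2.2 s + f'.2.2 s = 0; rw [h6 hx, h6' hx, add_zero]
    · change f.2.2 t + f'.2.2 t = 0; rw [h7 t ht, h7' t ht, add_zero]
  smul_mem' := by
    rintro c f ⟨h1, h2, h3, h4, h5, h6, h7⟩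
    refine ⟨fun x hx => Submodule.smul_mem _ c (h1 x hx), fun x hx => ?_,
      fun x hx => Submodule.smul_mem _ c (h3 x hx), fun x hx => ?_,
      fun hx => Submodule.smul_mem _ c (h5 hx), fun hx => ?_, fun t ht => ?_⟩
    · change c • f.1 x = 0; rw [h2 x hx, smul_zero]
    · change c • f.2.1 x = 0; rw [h4 x hx, smul_zero]
    · change c • f.2.2 s = 0; rw [h6 hx, smul_zero]
    · change c • f.2.2 t = 0; rw [h7 t ht, smul_zero]

theorem mem_Nn {s : σ} {f : Wt V X σ} : f ∈ F.Nn s ↔
    (∀ x, F.arm x = s → f.1 x ∈ F.R s (F.ht x + 1)) ∧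
    (∀ x, F.arm x ≠ s → f.1 x = 0) ∧
    (∀ x, F.arm x = s → f.2.1 x ∈ F.Ro s (F.ht x + 1)) ∧
    (∀ x, F.arm x ≠ s → f.2.1 x = 0) ∧
    (F.odd s → f.2.2 s ∈ F.Rp s) ∧ (¬ F.odd s → f.2.2 s = 0) ∧
    (∀ t, t ≠ s → f.2.2 t = 0) := Iff.rfl

theorem Phi_mem_Sym (hs : B.IsSymm) (s : σ) : F.Phi s ∈ Sym B := by
  refine (Sym B).add_mem ((Sym B).sum_mem fun x _ => ?_) ((Sym B).smul_mem _ ?_)
  · split_ifs
    · exact sten_mem_Sym B hs _ _
    · exact (Sym B).zero_mem
  · intro x y
    rw [NilConn.ten_adj B hs]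

theorem phi_mem_Sym (hs : B.IsSymm) (s : σ) (f : Wt V X σ) : F.phi s f ∈ Sym B := by
  refine (Sym B).add_mem ((Sym B).sum_mem fun x _ => ?_) ((Sym B).smul_mem _ ?_)
  · split_ifs
    · exact (Sym B).add_mem (sten_mem_Sym B hs _ _) (sten_mem_Sym B hs _ _)
    · exact (Sym B).zero_mem
  · exact sten_mem_Sym B hs _ _

/-- bracket with a skew operator -/
theorem phi_act (hs : B.IsSymm) (s : σ) {Y : V →ₗ[K] V} (hY : Y ∈ Skw B) :
    F.phi s (F.act s Y) = Y * F.Phi s - F.Phi s * Y := by
  rw [phi_apply, act_apply, Phi, mul_add, add_mul, Finset.mul_sum, Finset.sum_mul]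
  have h1 : ∀ x, (if F.arm x = s then sten B ((fun x => if F.arm x = s then Y (F.v x) else 0) x)
      (F.w x) + sten B (F.v x) ((fun x => if F.arm x = s then Y (F.w x) else 0) x) else 0) =
      Y * (if F.arm x = s then sten B (F.v x) (F.w x) else 0) -
      (if F.arm x = s then sten B (F.v x) (F.w x) else 0) * Y := by
    intro x
    by_cases hx : F.arm x = s
    · simp only [if_pos hx]
      exact (skw_sten B hs hY _ _).symm
    · simp only [if_neg hx, mul_zero, zero_mul, sub_zero]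
  have h2 : sten B ((fun t => if t = s then Y (F.v0 s) else 0) s) (F.v0 s) =
      Y * ten B (F.v0 s) (F.v0 s) - ten B (F.v0 s) (F.v0 s) * Y := by
    simp only [if_pos]
    rw [skw_ten B hs hY, sten]
  change _ + F.c0 s • sten B ((fun t => if t = s then Y (F.v0 s) else 0) s) (F.v0 s) = _
  rw [h2]
  simp only [h1, Finset.sum_sub_distrib, mul_smul_comm, smul_mul_assoc, smul_sub]
  abel

/-- `T` contains the values of all connections and skew operators, and the configuration. -/
structure Closed (T : Submodule K (Wt V X σ)) : Prop where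
  conn : ∀ C : NilLower.Conn B, ((fun x => C.nab (F.v x), fun x => C.nab (F.w x),
    fun s => C.nab (F.v0 s)) : Wt V X σ) ∈ T
  skew : ∀ Z : V →ₗ[K] V, (∀ x y, B (Z x) y = - B x (Z y)) →
    ((fun x => Z (F.v x), fun x => Z (F.w x), fun s => Z (F.v0 s)) : Wt V X σ) ∈ T
  self : ((F.v, F.w, F.v0) : Wt V X σ) ∈ T

end Maps

end Conf

end Crest.Agent.R172.NilCount
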