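import Crest.Agent.R172.NilCount5

/-!
# Row 172, node NILC: the flag of an arm and the image of the variations
-/

set_option autoImplicit false
set_option linter.unusedSectionVars false
set_option linter.unusedSimpArgs false
set_option linter.unusedVariables false

namespace Crest.Agent.R172.NilCount

open Module Crest.Agent.R172.Kempf Crest.Agent.R172.NilPat
open Crest.Agent.R172.NilConn (ten ten_apply)

/-- the pattern of an arm -/
def rho {ι : Type*} (u : ι → ℝ) (j k : ι) : Prop :=
  0 < u j + u k ∧ ¬ (u j = 1 ∧ u k = 0) ∧ ¬ (u j = 0 ∧ u k = 1)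

theorem rho_symm {ι : Type*} {u : ι → ℝ} {j k : ι} (h : rho u j k) : rho u k j :=
  ⟨by rw [add_comm]; exact h.1, fun h' => h.2.2 ⟨h'.2, h'.1⟩, fun h' => h.2.1 ⟨h'.2, h'.1⟩⟩

section

variable {K V X σ ι : Type*} [Field K] [AddCommGroup V] [Module K V] [Fintype ι] [DecidableEq ι]
  {B : LinearMap.BilinForm K V}

theorem repr_ten (hB : B.Nondegenerate) (hs : B.IsSymm) (f : Basis ι K V) (a b : V) (j k : ι) :
    f.repr (ten B a b (B.dualBasis hB f k)) j = f.repr b k * f.repr a j := by
  rw [ten_apply, map_smul, Finsupp.smul_apply, smul_eq_mul]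
  congr 1
  rw [bilin_eq_sum B f, Finset.sum_eq_single k]
  · rw [dual_right B hB f hs, if_pos rfl, mul_one]
  · intro l _ hl
    rw [dual_right B hB f hs, if_neg hl, mul_zero]
  · intro h; exact absurd (Finset.mem_univ _) h

theorem ten_mem_Pat (hB : B.Nondegenerate) (hs : B.IsSymm) (f : Basis ι K V) {a b : V}
    {ρ : ι → ι → Prop} (h : ∀ j k, f.repr a j ≠ 0 → f.repr b k ≠ 0 → ρ j k) :
    ten B a b ∈ Pat B hB f ρ := by
  intro j k hjk
  rw [repr_ten hB hs]
  by_contra hne
  exact hjk (h j k (right_ne_zero_of_mul hne) (left_ne_zero_of_mul hne))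

theorem sten_mem_Pat (hB : B.Nondegenerate) (hs : B.IsSymm) (f : Basis ι K V) {a b : V}
    {ρ : ι → ι → Prop} (hρ : ∀ j k, ρ j k → ρ k j)
    (h : ∀ j k, f.repr a j ≠ 0 → f.repr b k ≠ 0 → ρ j k) :
    sten B a b ∈ Pat B hB f ρ :=
  (Pat B hB f ρ).add_mem (ten_mem_Pat hB hs f h)
    (ten_mem_Pat hB hs f fun j k hj hk => hρ _ _ (h k j hk hj))

theorem eq_sum_ten (hB : B.Nondegenerate) (hs : B.IsSymm) (f : Basis ι K V) (A : V →ₗ[K] V) :
    A = ∑ k, ∑ j, f.repr (A (B.dualBasis hB f k)) j • ten B (f j) (f k) := by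
  ext x
  rw [apply_eq_sum B hB f hs A x]
  simp only [LinearMap.sum_apply, LinearMap.smul_apply, ten_apply, smul_smul]

theorem two_smul_eq_sum_sten (hB : B.Nondegenerate) (hs : B.IsSymm) (f : Basis ι K V)
    {A : V →ₗ[K] V} (hA : A ∈ Sym B) :
    (2 : K) • A = ∑ k, ∑ j, f.repr (A (B.dualBasis hB f k)) j • sten B (f j) (f k) := by
  have h1 := eq_sum_ten hB hs f A
  have h2 : A = ∑ k, ∑ j, f.repr (A (B.dualBasis hB f k)) j • ten B (f k) (f j) := by
    conv_lhs => rw [h1, Finset.sum_comm]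
    refine Finset.sum_congr rfl fun k _ => Finset.sum_congr rfl fun j _ => ?_
    rw [(mem_Sym_iff_coef B hB f hs).1 hA k j]
  rw [two_smul]
  conv_lhs => rw [h1]
  conv_lhs => rw [← h1]
  conv_lhs => enter [2]; rw [h2]
  conv_lhs => enter [1]; rw [h1]
  rw [← Finset.sum_add_distrib]
  refine Finset.sum_congr rfl fun k _ => ?_
  rw [← Finset.sum_add_distrib]
  refine Finset.sum_congr rfl fun j _ => ?_
  rw [sten, smul_add]

end

namespace Conf

variable {K V X σ ι : Type*} [Field K] [AddCommGroup V] [Module K V] [Fintype ι] [DecidableEq ι]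
  {B : LinearMap.BilinForm K V} (F : Conf B X σ)

/-- `(f, u)` is the weighted flag of the arm `s`. -/
structure Flag (s : σ) (f : Basis ι K V) (u : ι → ℝ) : Prop where
  sd : SD B f u
  int : ∀ i, ∃ z : ℤ, u i = z
  R : ∀ i ≤ F.M, Fil f u ((F.M : ℝ) + 2 - i) = F.R s i
  Rp : Fil f u 1 = F.Rp s
  Ro : ∀ i ≤ F.M, Fil f u (-((F.M : ℝ) + 1 - i)) = F.Ro s i

theorem exists_Flag (hB : B.Nondegenerate) (hs : B.IsSymm) (e : Basis ι K V) (s : σ) :
    ∃ (g : Basis ι K V) (om : ι → ℝ), F.Flag s g om := by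
  obtain ⟨g, om, h1, h2, h3, h4, h5⟩ := exists_isotropic_flag B hB hs e (F.M + 1) (F.ch s)
    (F.ch_mono s) (F.ch_zero s) (by rw [F.ch_top]; exact F.Rp_iso hs s)
  refine ⟨g, om, h1, h2, ?_, ?_, ?_⟩
  · intro i hi
    rw [← F.ch_of_le s hi, ← h4 i (by omega)]
    congr 1; push_cast; ring
  · rw [← F.ch_top s, ← h4 _ le_rfl]
    congr 1; push_cast; ring
  · intro i hi
    ext x
    rw [mem_Ro, ← F.ch_of_le s hi, ← h5 i (by omega)]
    push_cast; rfl

theorem Flag.congr {F : Conf B X σ} {s : σ} {f g : Basis ι K V} {u om : ι → ℝ} (h : F.Flag s g om)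
    (hf : ∀ a, Fil f u a = Fil g om a) : F.Flag s f u := by
  refine ⟨h.sd.congr hf, ?_, ?_, ?_, ?_⟩
  · intro i
    obtain ⟨π, hπ⟩ := exists_perm g f om u hf
    obtain ⟨z, hz⟩ := h.int (π.symm i)
    refine ⟨z, ?_⟩
    rw [← hz, hπ, Equiv.apply_symm_apply]
  · intro i hi; rw [hf, h.R i hi]
  · rw [hf, h.Rp]
  · intro i hi; rw [hf, h.Ro i hi]

theorem Flag.one_le_of_pos {F : Conf B X σ} {s : σ} {f : Basis ι K V} {u : ι → ℝ}
    (h : F.Flag s f u) {i : ι} (hi : 0 < u i) : 1 ≤ u i := by
  obtain ⟨z, hz⟩ := h.int i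
  rw [hz] at hi ⊢
  have : (0 : ℤ) < z := by exact_mod_cast hi
  exact_mod_cast this

section Maps

variable [Fintype X] [DecidableEq σ] [DecidableEq X]

/-- the space `n` of the arm -/
noncomputable def nn (s : σ) : Submodule K (V →ₗ[K] V) := (F.Nn s).map (F.phi s)

theorem sten_mem_nn {s : σ} {x : X} (hx : F.arm x = s) {b : V} (hb : b ∈ F.Ro s (F.ht x + 1)) :
    sten B (F.v x) b ∈ F.nn s := by
  refine ⟨(0, Pi.single x b, 0), ?_, ?_⟩
  · refine ⟨fun _ _ => Submodule.zero_mem _, fun _ _ => rfl, ?_, ?_, fun _ => Submodule.zero_mem _,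
      fun _ => rfl, fun _ _ => rfl⟩
    · intro y hy
      by_cases hyx : y = x
      · subst hyx; simpa using hb
      · simp only [Pi.single_eq_of_ne hyx]; exact Submodule.zero_mem _
    · intro y hy
      have hyx : y ≠ x := by rintro rfl; exact hy hx
      simp only [Pi.single_eq_of_ne hyx]
  · rw [phi_apply, Finset.sum_eq_single x]
    · rw [if_pos hx]
      simp [sten_zero_left]
    · intro y _ hy
      simp [Pi.single_eq_of_ne hy, sten_zero_left, sten_zero_right]
    · intro h; exact absurd (Finset.mem_univ _) h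

theorem sten_v0_mem_nn {s : σ} {t : V} (ht : t ∈ F.Rp s) : sten B t (F.v0 s) ∈ F.nn s := by
  by_cases ho : F.odd s
  · refine ⟨(0, 0, Pi.single s ((F.c0 s)⁻¹ • t)), ?_, ?_⟩
    · refine ⟨fun _ _ => Submodule.zero_mem _, fun _ _ => rfl, fun _ _ => Submodule.zero_mem _,
        fun _ _ => rfl, fun _ => ?_, fun h => absurd ho h, fun t' ht' => ?_⟩
      · simpa using Submodule.smul_mem _ _ ht
      · simp only [Pi.single_eq_of_ne ht']
    · rw [phi_apply, Finset.sum_eq_zero, zero_add]
      · simp only [Pi.single_eq_same]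
        rw [sten_smul_left, smul_smul, mul_inv_cancel₀ (F.c0ne s ho), one_smul]
      · intro y _
        simp [sten_zero_left, sten_zero_right]
  · rw [F.even0 s ho, sten_zero_right]; exact Submodule.zero_mem _

/-- **The image of the allowed variations is a pattern.** -/
theorem nn_eq (hB : B.Nondegenerate) (hs : B.IsSymm) (h2 : (2 : K) ≠ 0) {s : σ}
    {f : Basis ι K V} {u : ι → ℝ} (h : F.Flag s f u) :
    F.nn s = Sym B ⊓ Pat B hB f (rho u) := by
  have hρ : ∀ j k, rho u j k → rho u k j := fun _ _ => rho_symm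
  apply le_antisymm
  · rintro _ ⟨z, ⟨h1, -, h3, -, h5, h6, -⟩, rfl⟩
    refine ⟨F.phi_mem_Sym hs s z, ?_⟩
    rw [phi_apply]
    have key : ∀ i ≤ F.M, ∀ a ∈ F.R s i, ∀ b ∈ F.Ro s i, sten B a b ∈ Pat B hB f (rho u) := by
      intro i hi a ha b hb
      apply sten_mem_Pat hB hs f hρ
      intro j k hj hk
      rw [← h.R i hi] at ha
      rw [← h.Ro i hi] at hb
      have e1 := ha j hj
      have e2 := hb k hk
      have e3 : (i : ℝ) ≤ F.M := by exact_mod_cast hi
      refine ⟨by linarith, ?_, ?_⟩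
      · rintro ⟨e4, -⟩; linarith
      · rintro ⟨e4, -⟩; linarith
    refine Submodule.add_mem _ (Submodule.sum_mem _ fun x _ => ?_) (Submodule.smul_mem _ _ ?_)
    · split_ifs with hx
      · have hM : F.ht x + 1 ≤ F.M := F.htM x
        refine Submodule.add_mem _ (key _ hM _ (h1 x hx) _ ?_) (key _ hM _ ?_ _ (h3 x hx))
        · rw [← hx]; exact F.w_mem x
        · rw [← hx]; exact F.v_mem x
      · exact Submodule.zero_mem _
    · by_cases ho : F.odd s
      · apply sten_mem_Pat hB hs f hρ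
        intro j k hj hk
        have ha := h5 ho
        have hb := F.v0_mem s
        rw [← h.Rp] at ha hb
        have e1 := ha j hj
        have e2 := hb k hk
        refine ⟨by linarith, ?_, ?_⟩
        · rintro ⟨-, e4⟩; linarith
        · rintro ⟨e4, -⟩; linarith
      · rw [F.even0 s ho, sten_zero_right]; exact Submodule.zero_mem _
  · rintro A ⟨hA1, hA2⟩
    -- pairs with `u j ≥ 2`
    have hbig : ∀ j k, 2 ≤ u j → 0 < u j + u k → sten B (f j) (f k) ∈ F.nn s := by
      intro j k hj hjk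
      obtain ⟨a, ha⟩ := h.int j
      obtain ⟨b, hb⟩ := h.int k
      by_cases hjM : u j ≤ (F.M : ℝ) + 2
      · -- `i = M + 2 - u j`
        have ha2 : (2 : ℤ) ≤ a := by rw [ha] at hj; exact_mod_cast hj
        have haM : a ≤ (F.M : ℤ) + 2 := by rw [ha] at hjM; exact_mod_cast hjM
        obtain ⟨i, hi⟩ : ∃ i : ℕ, (i : ℤ) = (F.M : ℤ) + 2 - a :=
          ⟨((F.M : ℤ) + 2 - a).toNat, Int.toNat_of_nonneg (by omega)⟩
        have hiM : i ≤ F.M := by omega
        have hiR : (i : ℝ) = (F.M : ℝ) + 2 - a := by exact_mod_cast hi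
        have h1 : f j ∈ F.R s i := by
          rw [← h.R i hiM]
          apply basis_mem_Fil
          rw [ha, hiR]; linarith
        have hab : 1 ≤ a + b := by
          rw [ha, hb] at hjk
          have : (0 : ℤ) < a + b := by exact_mod_cast hjk
          omega
        have habR : (1 : ℝ) ≤ a + b := by exact_mod_cast hab
        have h2 : f k ∈ F.Ro s i := by
          rw [← h.Ro i hiM]
          apply basis_mem_Fil
          rw [hb, hiR]; linarith
        have h3 : F.R s i ≤ (F.nn s).comap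
            ({ toFun := fun y => sten B y (f k)
               map_add' := fun a b => sten_add_left B a b (f k)
               map_smul' := fun c a => sten_smul_left B c a (f k) } : V →ₗ[K] (V →ₗ[K] V)) := by
          rw [Conf.R, Submodule.span_le]
          rintro _ ⟨x, ⟨hx1, hx2⟩, rfl⟩
          exact F.sten_mem_nn hx1 (F.Ro_anti s hx2 h2)
        exact h3 h1
      · exfalso
        have h1 : f j ∈ F.R s 0 := by
          rw [← h.R 0 (Nat.zero_le _)]
          apply basis_mem_Fil
          push_cast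
          linarith [not_le.mp hjM]
        rw [R_zero, Submodule.mem_bot] at h1
        exact f.ne_zero j h1
    -- pairs in `Rp`
    have hone : ∀ y ∈ F.Rp s, ∀ z ∈ F.Rp s, sten B y z ∈ F.nn s := by
      intro y hy z hz
      have h3 : F.Rp s ≤ (F.nn s).comap
          ({ toFun := fun y => sten B y z
             map_add' := fun a b => sten_add_left B a b z
             map_smul' := fun c a => sten_smul_left B c a z } : V →ₗ[K] (V →ₗ[K] V)) := by
        rw [Conf.Rp, sup_le_iff]
        constructor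
        · rw [Conf.R, Submodule.span_le]
          rintro _ ⟨x, ⟨hx1, hx2⟩, rfl⟩
          exact F.sten_mem_nn hx1 (F.Rp_le_Ro hs s _ hz)
        · rw [Submodule.span_singleton_le_iff_mem]
          change sten B (F.v0 s) z ∈ F.nn s
          rw [sten_comm]
          exact F.sten_v0_mem_nn hz
      exact h3 hy
    have hall : ∀ j k, rho u j k → sten B (f j) (f k) ∈ F.nn s := by
      intro j k hjk
      by_cases h3 : 2 ≤ u j
      · exact hbig j k h3 hjk.1
      by_cases h4 : 2 ≤ u k
      · rw [sten_comm]; exact hbig k j h4 (rho_symm hjk).1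
      obtain ⟨a, ha⟩ := h.int j
      obtain ⟨b, hb⟩ := h.int k
      have h5 : 1 ≤ u j ∧ 1 ≤ u k := by
        obtain ⟨e1, e2, e3⟩ := hjk
        rw [ha, hb] at e1 e2 e3
        rw [ha] at h3
        rw [hb] at h4
        rw [ha, hb]
        have f1 : (0 : ℤ) < a + b := by exact_mod_cast e1
        have f2 : ¬ (a = 1 ∧ b = 0) := fun h' => e2 ⟨by rw [h'.1]; simp, by rw [h'.2]; simp⟩
        have f3 : ¬ (a = 0 ∧ b = 1) := fun h' => e3 ⟨by rw [h'.1]; simp, by rw [h'.2]; simp⟩
        have f4 : a < 2 := by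
          have := not_le.mp h3
          exact_mod_cast this
        have f5 : b < 2 := by
          have := not_le.mp h4
          exact_mod_cast this
        have f6 : (1 : ℤ) ≤ a ∧ (1 : ℤ) ≤ b := by omega
        exact ⟨by exact_mod_cast f6.1, by exact_mod_cast f6.2⟩
      apply hone
      · rw [← h.Rp]; exact basis_mem_Fil f u h5.1
      · rw [← h.Rp]; exact basis_mem_Fil f u h5.2
    have h3 : (2 : K) • A ∈ F.nn s := by
      rw [two_smul_eq_sum_sten hB hs f hA1]
      refine Submodule.sum_mem _ fun k _ => Submodule.sum_mem _ fun j _ => ?_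
      by_cases hjk : rho u j k
      · exact Submodule.smul_mem _ _ (hall j k hjk)
      · rw [hA2 j k hjk, zero_smul]; exact Submodule.zero_mem _
    have h4 : A = (2 : K)⁻¹ • ((2 : K) • A) := by rw [smul_smul, inv_mul_cancel₀ h2, one_smul]
    rw [h4]
    exact Submodule.smul_mem _ _ h3

end Maps

end Conf

end Crest.Agent.R172.NilCount
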