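import Crest.Agent.R172.NilCount6

/-!
# Row 172, node NILC: the abstract arms of a configuration
-/

set_option autoImplicit false
set_option linter.unusedSectionVars false
set_option linter.unusedSimpArgs false
set_option linter.unusedVariables false

namespace Crest.Agent.R172.NilCount

open Module Crest.Agent.R172.Kempf Crest.Agent.R172.NilPat
open Crest.Agent.R172.NilConn (ten ten_apply)

namespace Conf

variable {K V X σ ι : Type*} [Field K] [AddCommGroup V] [Module K V] [Fintype ι] [DecidableEq ι]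
  {B : LinearMap.BilinForm K V} (F : Conf B X σ)

theorem finrank_R_add_Ro [FiniteDimensional K V] (hB : B.Nondegenerate) (hs : B.IsSymm) (s : σ)
    (i : ℕ) : finrank K (F.R s i) + finrank K (F.Ro s i) = finrank K V := by
  have h := finrank_inf_perp B ⊤ (F.R s i) (fun x _ h => hB.1 x fun y => h y trivial) le_top
  have h2 : (⊤ : Submodule K V) ⊓ perp B (F.R s i) = F.Ro s i := by
    ext y
    simp only [Submodule.mem_inf, Submodule.mem_top, true_and, mem_perp, mem_Ro]
    constructor
    · intro h x hx; rw [hs.eq x y]; exact h x hx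
    · intro h x hx; rw [hs.eq y x]; exact h x hx
  rw [h2, finrank_top] at h
  omega

section Maps

variable [Fintype X] [DecidableEq σ] [DecidableEq X] [FiniteDimensional K V]

/-- number of columns of the arm -/
def card (s : σ) : ℕ := (Finset.univ.filter fun x => F.arm x = s).card

open Classical in
theorem finrank_Nn (hB : B.Nondegenerate) (hs : B.IsSymm) (s : σ) :
    finrank K (F.Nn s) ≤ F.card s * finrank K V + (if F.odd s then finrank K (F.Rp s) else 0) := by
  let A : X → Submodule K V := fun x => if F.arm x = s then F.R s (F.ht x + 1) else ⊥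
  let C : X → Submodule K V := fun x => if F.arm x = s then F.Ro s (F.ht x + 1) else ⊥
  let D : Submodule K V := if F.odd s then F.Rp s else ⊥
  have hA : ∀ z : F.Nn s, ∀ x, z.1.1 x ∈ A x := by
    intro z x
    by_cases hx : F.arm x = s
    · simp only [A, if_pos hx]; exact z.2.1 x hx
    · simp only [A, if_neg hx]; rw [z.2.2.1 x hx]; exact Submodule.zero_mem _
  have hC : ∀ z : F.Nn s, ∀ x, z.1.2.1 x ∈ C x := by
    intro z x
    by_cases hx : F.arm x = s
    · simp only [C, if_pos hx]; exact z.2.2.2.1 x hx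
    · simp only [C, if_neg hx]; rw [z.2.2.2.2.1 x hx]; exact Submodule.zero_mem _
  have hD : ∀ z : F.Nn s, z.1.2.2 s ∈ D := by
    intro z
    by_cases hx : F.odd s
    · simp only [D, if_pos hx]; exact z.2.2.2.2.2.1 hx
    · simp only [D, if_neg hx]; rw [z.2.2.2.2.2.2.1 hx]; exact Submodule.zero_mem _
  let g : F.Nn s →ₗ[K] (∀ x, A x) × (∀ x, C x) × D :=
    { toFun := fun z => (fun x => ⟨z.1.1 x, hA z x⟩, fun x => ⟨z.1.2.1 x, hC z x⟩,
        ⟨z.1.2.2 s, hD z⟩)
      map_add' := fun _ _ => rfl
      map_smul' := fun _ _ => rfl }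
  have hg : Function.Injective g := by
    rw [injective_iff_map_eq_zero]
    intro z hz
    apply Subtype.ext
    refine Prod.ext ?_ (Prod.ext ?_ ?_)
    · funext x
      exact congrArg (fun q : (∀ x, A x) × (∀ x, C x) × D => (q.1 x : V)) hz
    · funext x
      exact congrArg (fun q : (∀ x, A x) × (∀ x, C x) × D => (q.2.1 x : V)) hz
    · funext t
      by_cases ht : t = s
      · subst ht
        exact congrArg (fun q : (∀ x, A x) × (∀ x, C x) × D => (q.2.2 : V)) hz
      · exact z.2.2.2.2.2.2.2 t ht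
  have h1 := LinearMap.finrank_le_finrank_of_injective hg
  rw [finrank_prod, finrank_prod, finrank_pi_fintype, finrank_pi_fintype] at h1
  have h2 : ∑ x, finrank K (A x) + ∑ x, finrank K (C x) = F.card s * finrank K V := by
    rw [← Finset.sum_add_distrib, card, Finset.card_filter, Finset.sum_mul]
    refine Finset.sum_congr rfl fun x _ => ?_
    by_cases hx : F.arm x = s
    · have e1 : A x = F.R s (F.ht x + 1) := if_pos hx
      have e2 : C x = F.Ro s (F.ht x + 1) := if_pos hx
      rw [e1, e2, if_pos hx, one_mul]; exact F.finrank_R_add_Ro hB hs s _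
    · have e1 : A x = ⊥ := if_neg hx
      have e2 : C x = ⊥ := if_neg hx
      rw [e1, e2, if_neg hx, zero_mul, finrank_bot, add_zero]
  have h3 : finrank K D = (if F.odd s then finrank K (F.Rp s) else 0) := by
    by_cases hx : F.odd s
    · have e1 : D = F.Rp s := if_pos hx
      rw [e1, if_pos hx]
    · have e1 : D = ⊥ := if_neg hx
      rw [e1, if_neg hx, finrank_bot]
  omega

theorem sum_card [Fintype σ] : ∑ s, F.card s = Fintype.card X := by
  simp only [card]
  rw [← Finset.card_eq_sum_card_fiberwise (s := Finset.univ) (t := Finset.univ)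
    (f := F.arm) (fun _ _ => Finset.mem_coe.2 (Finset.mem_univ _)), Finset.card_univ]

/-- restriction of a variation to an arm -/
def restr (s : σ) (f : Wt V X σ) : Wt V X σ :=
  (fun x => if F.arm x = s then f.1 x else 0, fun x => if F.arm x = s then f.2.1 x else 0,
    fun t => if t = s then f.2.2 t else 0)

theorem sum_restr [Fintype σ] (f : Wt V X σ) : ∑ s, F.restr s f = f := by
  have h1 : (∑ s, F.restr s f).1 = f.1 := by
    rw [Prod.fst_sum]
    funext x
    rw [Finset.sum_apply, Finset.sum_eq_single (F.arm x)]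
    · exact if_pos rfl
    · intro s _ hs; exact if_neg (Ne.symm hs)
    · intro h; exact absurd (Finset.mem_univ _) h
  have h2 : (∑ s, F.restr s f).2.1 = f.2.1 := by
    rw [Prod.snd_sum, Prod.fst_sum]
    funext x
    rw [Finset.sum_apply, Finset.sum_eq_single (F.arm x)]
    · exact if_pos rfl
    · intro s _ hs; exact if_neg (Ne.symm hs)
    · intro h; exact absurd (Finset.mem_univ _) h
  have h3 : (∑ s, F.restr s f).2.2 = f.2.2 := by
    rw [Prod.snd_sum, Prod.snd_sum]
    funext t
    rw [Finset.sum_apply, Finset.sum_eq_single t]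
    · exact if_pos rfl
    · intro s _ hs; exact if_neg (Ne.symm hs)
    · intro h; exact absurd (Finset.mem_univ _) h
  exact Prod.ext h1 (Prod.ext h2 h3)

theorem phi_restr (s : σ) (f : Wt V X σ) : F.phi s (F.restr s f) = F.phi s f := by
  rw [phi_apply, phi_apply]
  congr 1
  · refine Finset.sum_congr rfl fun x _ => ?_
    by_cases hx : F.arm x = s
    · simp only [restr, if_pos hx]
    · simp only [if_neg hx]
  · simp only [restr, if_pos]

theorem restr_mem (s : σ) {f : Wt V X σ} (h1 : ∀ x, F.arm x = s → f.1 x ∈ F.R s (F.ht x + 1))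
    (h2 : ∀ x, F.arm x = s → f.2.1 x ∈ F.Ro s (F.ht x + 1)) (h3 : F.odd s → f.2.2 s ∈ F.Rp s)
    (h4 : ¬ F.odd s → f.2.2 s = 0) : F.restr s f ∈ F.Nn s := by
  refine ⟨fun x hx => ?_, fun x hx => ?_, fun x hx => ?_, fun x hx => ?_, fun hx => ?_,
    fun hx => ?_, fun t ht => ?_⟩
  · simp only [restr, if_pos hx]; exact h1 x hx
  · simp only [restr, if_neg hx]
  · simp only [restr, if_pos hx]; exact h2 x hx
  · simp only [restr, if_neg hx]
  · simp only [restr, if_pos]; exact h3 hx
  · simp only [restr, if_pos]; exact h4 hx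
  · simp only [restr, if_neg ht]

/-- the columns acted upon by an additive map -/
def app (A : V → V) : Wt V X σ := (fun x => A (F.v x), fun x => A (F.w x), fun s => A (F.v0 s))

theorem act_eq (s : σ) (A : V →ₗ[K] V) : F.act s A = F.restr s (F.app A) := by
  rw [act_apply]
  refine Prod.ext rfl (Prod.ext rfl ?_)
  funext t
  by_cases ht : t = s
  · subst ht; rfl
  · simp only [restr, if_neg ht]

/-- An additive map preserving the flag of the arm gives an allowed variation. -/
theorem app_mem {F : Conf B X σ} {s : σ} {f : Basis ι K V} {u : ι → ℝ} (h : F.Flag s f u)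
    (A : V → V) (hA0 : A 0 = 0) (hA : ∀ a x, x ∈ Fil f u a → A x ∈ Fil f u a) :
    F.restr s (F.app A) ∈ F.Nn s := by
  apply F.restr_mem
  · intro x hx
    rw [← h.R _ (F.htM x)]
    apply hA
    rw [h.R _ (F.htM x), ← hx]
    exact F.v_mem x
  · intro x hx
    rw [← h.Ro _ (F.htM x)]
    apply hA
    rw [h.Ro _ (F.htM x), ← hx]
    exact F.w_mem x
  · intro _
    rw [← h.Rp]
    apply hA
    rw [h.Rp]
    exact F.v0_mem s
  · intro ho
    change A (F.v0 s) = 0
    rw [F.even0 s ho, hA0]

/-- the abstract arm -/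
noncomputable def farm (hB : B.Nondegenerate) (hs : B.IsSymm) (h2 : (2 : K) ≠ 0)
    (e : Basis ι K V) (w : ι → ℝ) (hsd : SD B e w) (s : σ) (f : Basis ι K V) (u : ι → ℝ)
    (h : F.Flag s f u) (hG : F.Phi s ∈ Ge e w 1) :
    FArm (mkData B hB hs h2 e w hsd) (Wt V X σ) where
  Φ := F.Phi s
  n := F.nn s
  q := Skw B ⊓ Ge f u 0
  p := Skw B ⊓ Gt f u 0
  ΦS := F.Phi_mem_Sym hs s
  ΦG := hG
  nS := by rintro _ ⟨z, -, rfl⟩; exact F.phi_mem_Sym hs s z
  qL := inf_le_left
  pL := inf_le_left
  qp := by
    intro x hx hy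
    refine ⟨hx, ?_⟩
    exact (mkData B hB hs h2 f u h.sd).mem_of_L (mkData B hB hs h2 f u h.sd).split0p
      (mkData B hB hs h2 f u h.sd).dual0 hx fun y hyL hyG => hy y ⟨hyL, hyG⟩
  pq := by
    intro x hx hy
    refine ⟨hx, ?_⟩
    exact (mkData B hB hs h2 f u h.sd).mem_of_L (mkData B hB hs h2 f u h.sd).split0
      (mkData B hB hs h2 f u h.sd).dual0p hx fun y hyL hyG => hy y ⟨hyL, hyG⟩
  pq0 := by
    intro x hx y hy
    exact ((mkData B hB hs h2 f u h.sd).dual0p x).1 hx.2 y hy.2
  br := by
    intro Y hY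
    refine ⟨F.act s Y, ?_, F.phi_act hs s hY.1⟩
    rw [SetLike.mem_coe, act_eq]
    exact app_mem h Y (map_zero Y) fun a x hx => by simpa using hY.2 a x hx
  act := F.act s
  N := F.Nn s
  φ := F.phi s
  φN := fun z hz => ⟨z, hz, rfl⟩
  φsurj := by rintro _ ⟨z, hz, rfl⟩; exact ⟨z, hz, rfl⟩
  actN := by
    intro Y hY
    rw [act_eq]
    exact app_mem h Y (map_zero Y) fun a x hx => by simpa using hY.2 a x hx
  φact := fun Y hY => F.phi_act hs s hY.1

/-- bracket of `Phi` with a connection -/
theorem phi_conn (hs : B.IsSymm) (s : σ) (C : NilLower.Conn B) (hc : C.d (F.c0 s) = 0)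
    {Z : V →ₗ[K] V} (hZ : ∀ x y, B (Z x) y = - B x (Z y)) (z : V) :
    F.phi s (F.app fun x => C.nab x - Z x) z =
      (C.nab (F.Phi s z) - Z (F.Phi s z)) - F.Phi s (C.nab z - Z z) := by
  have hst : ∀ a b : V, sten B (C.nab a - Z a) b z + sten B a (C.nab b - Z b) z =
      (C.nab (sten B a b z) - Z (sten B a b z)) - sten B a b (C.nab z - Z z) := by
    intro a b
    have h1 := NilConn.conn_ten C hZ a b z
    have h2 := NilConn.conn_ten C hZ b a z
    simp only [sten, LinearMap.add_apply, map_add]
    have h3 : C.nab (ten B a b z) + C.nab (ten B b a z) -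
        (Z (ten B a b z) + Z (ten B b a z)) =
        (C.nab (ten B a b z) - Z (ten B a b z)) + (C.nab (ten B b a z) - Z (ten B b a z)) := by
      abel
    rw [h3, h1, h2]; abel
  have ht : sten B (C.nab (F.v0 s) - Z (F.v0 s)) (F.v0 s) z =
      (C.nab (ten B (F.v0 s) (F.v0 s) z) - Z (ten B (F.v0 s) (F.v0 s) z)) -
      ten B (F.v0 s) (F.v0 s) (C.nab z - Z z) := by
    rw [NilConn.conn_ten C hZ (F.v0 s) (F.v0 s) z, sten, LinearMap.add_apply]; abel
  rw [phi_apply, Phi]
  simp only [LinearMap.add_apply, LinearMap.sum_apply, LinearMap.smul_apply, map_add, map_sum,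
    map_smul, C.leib, hc, zero_smul, zero_add]
  have hx : ∀ x, (if F.arm x = s then sten B ((F.app fun x => C.nab x - Z x).1 x) (F.w x) +
      sten B (F.v x) ((F.app fun x => C.nab x - Z x).2.1 x) else 0) z =
      (C.nab ((if F.arm x = s then sten B (F.v x) (F.w x) else 0) z) -
      Z ((if F.arm x = s then sten B (F.v x) (F.w x) else 0) z)) -
      (if F.arm x = s then sten B (F.v x) (F.w x) else 0) (C.nab z - Z z) := by
    intro x
    by_cases hx : F.arm x = s
    · simp only [if_pos hx, LinearMap.add_apply]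
      exact hst _ _
    · simp only [if_neg hx, LinearMap.zero_apply, map_zero, sub_zero]
  simp only [hx, Finset.sum_sub_distrib]
  have h4 : sten B ((F.app fun x => C.nab x - Z x).2.2 s) (F.v0 s) z =
      sten B (C.nab (F.v0 s) - Z (F.v0 s)) (F.v0 s) z := rfl
  rw [h4, ht]
  simp only [smul_sub]
  abel

theorem phi_self (s : σ) : F.phi s (F.app id) = (2 : K) • F.Phi s := by
  rw [phi_apply, Phi, smul_add, Finset.smul_sum]
  congr 1
  · refine Finset.sum_congr rfl fun x _ => ?_
    by_cases hx : F.arm x = s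
    · simp only [if_pos hx, two_smul]; rfl
    · simp only [if_neg hx, smul_zero]
  · rw [two_smul, ← smul_add]; rfl

end Maps

end Conf

end Crest.Agent.R172.NilCount
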