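import Crest.Agent.R172.NilCount7

/-!
# Row 172, node NILC: the tangent space of a configuration
-/

set_option autoImplicit false
set_option linter.unusedSectionVars false
set_option linter.unusedSimpArgs false
set_option linter.unusedVariables false

namespace Crest.Agent.R172.NilCount

open Module Crest.Agent.R172.Kempf Crest.Agent.R172.NilPat
open Crest.Agent.R172.NilConn (ten ten_apply)

namespace Conf

variable {K V X σ ι : Type*} [Field K] [AddCommGroup V] [Module K V] [Fintype ι] [DecidableEq ι]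
  {B : LinearMap.BilinForm K V} (F : Conf B X σ) [Fintype X] [DecidableEq σ] [DecidableEq X]
  [FiniteDimensional K V] [Fintype σ]

/-- all the arms -/
noncomputable def farms (hB : B.Nondegenerate) (hs : B.IsSymm) (h2 : (2 : K) ≠ 0)
    (e : Basis ι K V) (w : ι → ℝ) (hsd : SD B e w) (f : σ → Basis ι K V) (u : σ → ι → ℝ)
    (h : ∀ s, F.Flag s (f s) (u s)) (hG : ∀ s, F.Phi s ∈ Ge e w 1) (s : σ) :
    FArm (mkData B hB hs h2 e w hsd) (Wt V X σ) :=
  F.farm hB hs h2 e w hsd s (f s) (u s) (h s) (hG s)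

section

variable (hB : B.Nondegenerate) (hs : B.IsSymm) (h2 : (2 : K) ≠ 0)
    (e : Basis ι K V) (w : ι → ℝ) (hsd : SD B e w) (f : σ → Basis ι K V) (u : σ → ι → ℝ)
    (h : ∀ s, F.Flag s (f s) (u s)) (hG : ∀ s, F.Phi s ∈ Ge e w 1)

/-- the tangent space -/
noncomputable def Tg : Submodule K (Wt V X σ) :=
  (LinearMap.ker (cmap (mkData B hB hs h2 e w hsd) (F.farms hB hs h2 e w hsd f u h hG))).map
    (evmap (mkData B hB hs h2 e w hsd) (F.farms hB hs h2 e w hsd f u h hG))

theorem mem_Tg (Y : V →ₗ[K] V) (hY : Y ∈ Skw B) (Z : σ → V →ₗ[K] V) (hZ : ∀ s, Z s ∈ Skw B)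
    (hZ0 : ∀ s, Z s ∈ Ge e w 0) (G : σ → Wt V X σ) (hGN : ∀ s, G s ∈ F.Nn s)
    (hG1 : ∀ s, F.phi s (G s) ∈ Ge e w 1)
    (h0 : ∑ s, ((Z s * F.Phi s - F.Phi s * Z s) + F.phi s (G s)) = 0) :
    ∑ s, (F.act s (Y + Z s) + G s) ∈ F.Tg hB hs h2 e w hsd f u h hG := by
  refine ⟨(⟨Y, hY⟩, fun s => (⟨Z s, hZ s, hZ0 s⟩, ⟨G s, hGN s, hG1 s⟩)), ?_, rfl⟩
  rw [SetLike.mem_coe, LinearMap.mem_ker]
  exact h0

theorem skew_act_eq (A : V →ₗ[K] V) : ∑ s, F.act s A = F.app A := by
  simp only [act_eq]
  exact F.sum_restr _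

theorem closed (hf : ∀ s a, Fil (f s) w a = Fil e w a) (hsum : ∑ s, F.Phi s = 0)
    (hc : ∀ s (C : NilLower.Conn B), C.d (F.c0 s) = 0) :
    F.Closed (F.Tg hB hs h2 e w hsd f u h hG) := by
  refine ⟨?_, ?_, ?_⟩
  · intro C
    obtain ⟨Z0, hZ0, hZ0'⟩ := NilConn.conn_split hB hs h2 e C
    have hex : ∀ s, ∃ Z : V →ₗ[K] V, (∀ x y, B (Z x) y = - B x (Z y)) ∧
        ∀ v : ι → ℝ, SD B (f s) v → ∀ a x, x ∈ Fil (f s) v a → C.nab x - Z x ∈ Fil (f s) v a :=
      fun s => NilConn.conn_split hB hs h2 (f s) C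
    choose Z hZ hZ' using hex
    have hsdf : ∀ s, SD B (f s) w := fun s => hsd.congr (hf s)
    have hpres : ∀ s a x, x ∈ Fil e w a → C.nab x - Z s x ∈ Fil e w a := by
      intro s a x hx
      rw [← hf s] at hx ⊢
      exact hZ' s w (hsdf s) a x hx
    have hpres0 : ∀ a x, x ∈ Fil e w a → C.nab x - Z0 x ∈ Fil e w a := hZ0' w hsd
    have key := F.mem_Tg hB hs h2 e w hsd f u h hG Z0 hZ0 (fun s => Z s - Z0)
      (fun s => (Skw B).sub_mem (hZ s) hZ0)
      (by
        intro s a x hx
        have h1 := Submodule.sub_mem _ (hpres0 a x hx) (hpres s a x hx)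
        have h2 : (Z s - Z0) x = (C.nab x - Z0 x) - (C.nab x - Z s x) := by
          rw [LinearMap.sub_apply]; abel
        rw [h2, add_zero]; exact h1)
      (fun s => F.restr s (F.app fun x => C.nab x - Z s x))
      (fun s => app_mem (h s) _ (by simp) (hZ' s (u s) (h s).sd))
      (by
        intro s a x hx
        rw [phi_restr, phi_conn F hs s C (hc s C) (hZ s)]
        exact Submodule.sub_mem _ (hpres s _ _ (hG s a x hx)) (hG s a _ (hpres s _ _ hx)))
      (by
        ext z
        simp only [LinearMap.sum_apply, LinearMap.add_apply, LinearMap.sub_apply,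
          LinearMap.zero_apply, phi_restr, phi_conn F hs _ C (hc _ C) (hZ _), Module.End.mul_apply]
        have h1 : ∀ y, ∑ s, F.Phi s y = 0 := by
          intro y
          rw [← LinearMap.sum_apply, hsum, LinearMap.zero_apply]
        have h3 : ∀ s, Z s (F.Phi s z) - Z0 (F.Phi s z) - F.Phi s (Z s z - Z0 z) +
            (C.nab (F.Phi s z) - Z s (F.Phi s z) - F.Phi s (C.nab z - Z s z)) =
            C.nab (F.Phi s z) - Z0 (F.Phi s z) + F.Phi s (Z0 z) - F.Phi s (C.nab z) := by
          intro s; rw [map_sub, map_sub]; abel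
        simp only [h3, Finset.sum_add_distrib, Finset.sum_sub_distrib, ← map_sum, h1, map_zero,
          sub_zero, add_zero])
    convert key using 1
    have h3 : ∀ s, F.act s (Z0 + (Z s - Z0)) + F.restr s (F.app fun x => C.nab x - Z s x) =
        F.restr s (F.app C.nab) := by
      intro s
      rw [add_sub_cancel, act_eq]
      refine Prod.ext ?_ (Prod.ext ?_ ?_)
      · funext x
        simp only [restr, app, Prod.fst_add, Pi.add_apply]
        split_ifs <;> abel
      · funext x
        simp only [restr, app, Prod.fst_add, Prod.snd_add, Pi.add_apply]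
        split_ifs <;> abel
      · funext x
        simp only [restr, app, Prod.fst_add, Prod.snd_add, Pi.add_apply]
        split_ifs <;> abel
    simp only [h3, sum_restr]
    rfl
  · intro Z hZ
    have key := F.mem_Tg hB hs h2 e w hsd f u h hG Z hZ (fun s => 0)
      (fun s => (Skw B).zero_mem) (fun s => Submodule.zero_mem _) (fun s => 0)
      (fun s => Submodule.zero_mem _)
      (fun s => by rw [map_zero]; exact Submodule.zero_mem _)
      (by simp)
    simp only [add_zero] at key
    rw [skew_act_eq] at key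
    exact key
  · have key := F.mem_Tg hB hs h2 e w hsd f u h hG 0 (Skw B).zero_mem (fun s => 0)
      (fun s => (Skw B).zero_mem) (fun s => Submodule.zero_mem _)
      (fun s => F.restr s (F.app id))
      (fun s => app_mem (h s) _ rfl (fun _ _ hx => hx))
      (fun s => by rw [phi_restr, phi_self]; exact Submodule.smul_mem _ _ (hG s))
      (by
        simp only [phi_restr, phi_self, zero_mul, mul_zero, sub_zero, zero_add,
          ← Finset.smul_sum, hsum, smul_zero])
    simp only [add_zero, map_zero, zero_add, sum_restr] at key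
    exact key

end

end Conf

end Crest.Agent.R172.NilCount
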