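import Crest.Agent.R172.NilCount8
import Crest.Agent.R172.Kempf5

/-!
# Row 172, node NILC: type of an arm
-/

set_option autoImplicit false
set_option linter.unusedSectionVars false
set_option linter.unusedSimpArgs false
set_option linter.unusedVariables false

namespace Crest.Agent.R172.NilCount

open Module Crest.Agent.R172.Kempf Crest.Agent.R172.NilPat
open Crest.Agent.R172.NilConn (ten ten_apply)

namespace Conf

variable {K V X σ ι : Type*} [Field K] [AddCommGroup V] [Module K V] [Fintype ι] [DecidableEq ι]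
  {B : LinearMap.BilinForm K V} (F : Conf B X σ) [Fintype X] [DecidableEq σ] [DecidableEq X]
  [FiniteDimensional K V] [Fintype σ]

theorem Flag.R_top {F : Conf B X σ} {s : σ} {f : Basis ι K V} {u : ι → ℝ} (h : F.Flag s f u) :
    Fil f u 2 = F.R s F.M := by
  rw [← h.R F.M le_rfl]; congr 1; ring

theorem Flag.typeB {F : Conf B X σ} {s : σ} {f : Basis ι K V} {u : ι → ℝ} (h : F.Flag s f u)
    (hv : F.v0 s ∈ F.R s F.M) (i : ι) : u i ≠ 1 := by
  intro hi
  have h1 : F.Rp s = F.R s F.M := by
    rw [Conf.Rp, sup_eq_left, Submodule.span_singleton_le_iff_mem]; exact hv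
  have h2 : f i ∈ Fil f u 1 := basis_mem_Fil f u hi.ge
  rw [h.Rp, h1, ← h.R_top] at h2
  have h3 := h2 i (by simp)
  linarith

theorem Flag.typeA {F : Conf B X σ} {s : σ} {f : Basis ι K V} {u : ι → ℝ} (h : F.Flag s f u)
    (hB : B.Nondegenerate) (hs : B.IsSymm)
    (hv : F.v0 s ∉ F.R s F.M) {w : ι → ℝ} (hw : SD B f w) (hG : F.Phi s ∈ Ge f w 1) :
    ∃ j, (∀ i, u i = 1 ↔ i = j) ∧ 1 ≤ 2 * w j := by
  have ho : F.odd s := by
    by_contra ho
    apply hv
    rw [F.even0 s ho]; exact Submodule.zero_mem _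
  have hv1 : F.v0 s ∈ Fil f u 1 := by rw [h.Rp]; exact F.v0_mem s
  have hv2 : F.v0 s ∉ Fil f u 2 := by rw [h.R_top]; exact hv
  obtain ⟨j, hj1, hj2⟩ : ∃ j, f.repr (F.v0 s) j ≠ 0 ∧ ¬ 2 ≤ u j := by
    by_contra hne
    apply hv2
    intro j hj
    by_contra h3
    exact hne ⟨j, hj, h3⟩
  have huj : u j = 1 := by
    have h3 := hv1 j hj1
    obtain ⟨z, hz⟩ := h.int j
    rw [hz] at hj2 h3 ⊢
    have h4 : z < 2 := by
      have := not_le.mp hj2
      exact_mod_cast this
    have h5 : 1 ≤ z := by exact_mod_cast h3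
    have : z = 1 := by omega
    rw [this]; simp
  refine ⟨j, fun i => ⟨fun hi => ?_, fun hi => by rw [hi, huj]⟩, ?_⟩
  · -- uniqueness
    by_contra hij
    have h3 : f i ∈ F.Rp s := by rw [← h.Rp]; exact basis_mem_Fil f u hi.ge
    have h4 : f j ∈ F.Rp s := by rw [← h.Rp]; exact basis_mem_Fil f u huj.ge
    rw [Conf.Rp] at h3 h4
    obtain ⟨a, ha, b, hb, hab⟩ := Submodule.mem_sup.mp h3
    obtain ⟨c, rfl⟩ := Submodule.mem_span_singleton.mp hb
    obtain ⟨a', ha', b', hb', hab'⟩ := Submodule.mem_sup.mp h4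
    obtain ⟨c', rfl⟩ := Submodule.mem_span_singleton.mp hb'
    rw [← h.R_top] at ha ha'
    have hz : ∀ {y : V}, y ∈ Fil f u 2 → ∀ {l : ι}, u l = 1 → f.repr y l = 0 := by
      intro y hy l hl
      by_contra hne
      have := hy l hne
      linarith
    -- coordinates
    have e1 := congrArg (fun y => f.repr y i) hab
    have e2 := congrArg (fun y => f.repr y j) hab
    have e3 := congrArg (fun y => f.repr y j) hab'
    have e4 := congrArg (fun y => f.repr y i) hab'
    simp only [map_add, map_smul, Finsupp.add_apply, Finsupp.smul_apply, smul_eq_mul,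
      Basis.repr_self, hz ha hi, hz ha huj, hz ha' hi, hz ha' huj, zero_add,
      Finsupp.single_eq_same] at e1 e2 e3 e4
    rw [Finsupp.single_eq_of_ne (Ne.symm hij)] at e2
    rw [Finsupp.single_eq_of_ne hij] at e4
    have h5 : c = 0 := by
      rcases mul_eq_zero.mp e2 with h6 | h6
      · exact h6
      · exact absurd h6 hj1
    rw [h5, zero_mul] at e1
    exact zero_ne_one e1
  · -- the weight
    rw [Ge_eq_Pat B hB f hs hw] at hG
    by_contra hlt
    have h3 := hG j j (by linarith [not_le.mp hlt])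
    apply hj1
    have hz : ∀ x, F.arm x = s → f.repr (F.v x) j = 0 := by
      intro x hx
      by_contra hne
      have h4 : F.v x ∈ Fil f u 2 := by
        rw [h.R_top, ← hx]; exact F.R_le _ _ (F.v_mem x)
      have := h4 j hne
      linarith
    have h5 : f.repr (F.Phi s (B.dualBasis hB f j)) j =
        F.c0 s * (f.repr (F.v0 s) j * f.repr (F.v0 s) j) := by
      rw [Phi, LinearMap.add_apply, map_add, Finsupp.add_apply, LinearMap.sum_apply, map_sum,
        Finsupp.coe_finsetSum, Finset.sum_apply, Finset.sum_eq_zero, zero_add,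
        LinearMap.smul_apply, map_smul, Finsupp.smul_apply, smul_eq_mul, repr_ten hB hs]
      intro x _
      by_cases hx : F.arm x = s
      · rw [if_pos hx, sten, LinearMap.add_apply, map_add, Finsupp.add_apply, repr_ten hB hs,
          repr_ten hB hs, hz x hx, mul_zero, zero_mul, add_zero]
      · rw [if_neg hx, LinearMap.zero_apply, map_zero, Finsupp.zero_apply]
    rw [h5] at h3
    rcases mul_eq_zero.mp h3 with h6 | h6
    · exact absurd h6 (F.c0ne s ho)
    · rcases mul_eq_zero.mp h6 with h7 | h7 <;> exact h7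

end Conf

end Crest.Agent.R172.NilCount
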