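import Crest.Agent.R172.NilCount5

/-!
Row 172, node NILC: the configurations of columns coming from a generic skew matrix `H`.
(E) all arms even; (O) two odd arms, extra index `none`.
-/

set_option autoImplicit false
set_option linter.unusedSectionVars false

namespace Crest.Agent.R172.NilFin

open Module Crest.Agent.R172.NilLower Crest.Agent.R172.NilCount
open Crest.Agent.R172.NilConn (ten ten_apply)

variable {K V X σ : Type*} [Field K] [AddCommGroup V] [Module K V]

/-- `∑_x v_x ⊙ (H v)_x = 0` for skew `H`. -/
theorem sum_sten_eq_zero {Y : Type*} [Fintype Y] (B : LinearMap.BilinForm K V) (h2 : (2 : K) ≠ 0)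
    (H : Y → Y → K) (hH : ∀ x y, H x y = - H y x) (v w : Y → V)
    (hw : ∀ x, w x = ∑ y, H x y • v y) : ∑ x, sten B (v x) (w x) = 0 := by
  have h1 : ∀ x, sten B (v x) (w x) = ∑ y, H x y • sten B (v x) (v y) := by
    intro x
    rw [hw x]
    have : ∀ s : Finset Y, sten B (v x) (∑ y ∈ s, H x y • v y)
        = ∑ y ∈ s, H x y • sten B (v x) (v y) := by
      classical
      intro s
      induction s using Finset.induction_on with
      | empty => rw [Finset.sum_empty, Finset.sum_empty, sten_zero_right]
      | insert a s ha ih =>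
        rw [Finset.sum_insert ha, Finset.sum_insert ha, sten_add_right, sten_smul_right, ih]
    exact this _
  have h3 : ∑ x, sten B (v x) (w x) = - ∑ x, sten B (v x) (w x) := by
    conv_lhs => simp only [h1]
    rw [Finset.sum_comm, ← Finset.sum_neg_distrib]
    refine Finset.sum_congr rfl fun y _ => ?_
    rw [h1 y, ← Finset.sum_neg_distrib]
    refine Finset.sum_congr rfl fun x _ => ?_
    rw [hH x y, sten_comm, neg_smul]
  have h4 : (2 : K) • ∑ x, sten B (v x) (w x) = 0 := by
    rw [two_smul]
    nth_rw 1 [h3]
    abel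
  exact (smul_eq_zero.mp h4).resolve_left h2

section Even

variable {B : LinearMap.BilinForm K V} [Fintype X] [Fintype σ] [DecidableEq σ]

/-- The configuration with even arms only. -/
noncomputable def confE (arm : X → σ) (ht : X → ℕ) (v w : X → V)
    (vv : ∀ x y, arm x = arm y → B (v x) (v y) = 0)
    (vw : ∀ x y, arm x = arm y → ht x ≤ ht y → B (v x) (w y) = 0) : Conf B X σ where
  arm := arm
  ht := ht
  M := (Finset.univ.sup ht) + 1
  htM x := Nat.lt_succ_of_le (Finset.le_sup (f := ht) (Finset.mem_univ x))
  v := v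
  w := w
  v0 _ := 0
  c0 _ := 0
  odd _ := False
  even0 _ _ := rfl
  c0ne _ h := h.elim
  vv := vv
  vw := vw
  v00 _ := by simp
  vv0 _ := by simp

variable {arm : X → σ} {ht : X → ℕ} {v w : X → V}
  {vv : ∀ x y, arm x = arm y → B (v x) (v y) = 0}
  {vw : ∀ x y, arm x = arm y → ht x ≤ ht y → B (v x) (w y) = 0}

theorem confE_Phi (s : σ) : (confE arm ht v w vv vw).Phi s
    = ∑ x, if arm x = s then sten B (v x) (w x) else 0 := by
  change (∑ x, if arm x = s then sten B (v x) (w x) else 0) + (0 : K) • ten B (0 : V) 0 = _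
  rw [zero_smul, add_zero]

theorem confE_sum (h2 : (2 : K) ≠ 0) (H : X → X → K) (hH : ∀ x y, H x y = - H y x)
    (hw : ∀ x, w x = ∑ y, H x y • v y) : ∑ s, (confE arm ht v w vv vw).Phi s = 0 := by
  simp only [confE_Phi]
  rw [Finset.sum_comm]
  simp only [Finset.sum_ite_eq, Finset.mem_univ, if_true]
  exact sum_sten_eq_zero B h2 H hH v w hw

theorem confE_top (hv : Submodule.span K (Set.range v) = ⊤) :
    ⨆ s, (confE arm ht v w vv vw).Rp s = ⊤ := by
  rw [eq_top_iff, ← hv, Submodule.span_le]
  rintro _ ⟨x, rfl⟩
  refine Submodule.mem_iSup_of_mem (arm x) ?_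
  exact (confE arm ht v w vv vw).R_le_Rp _ _ ((confE arm ht v w vv vw).v_mem x)

theorem confE_low [FiniteDimensional K V] [Nontrivial V] (hB : B.Nondegenerate) (hs : B.IsSymm)
    (h2 : (2 : K) ≠ 0) (H : X → X → K) (hw : ∀ x, w x = ∑ y, H x y • v y)
    (hv : Submodule.span K (Set.range v) = ⊤)
    (hgen : ∀ G : X → X → K, (∀ x y, G x y = - G y x) →
      ∃ C : Conn B, ∀ x y, C.d (H x y) = G x y)
    [DecidablePred (confE arm ht v w vv vw).odd]
    (T : Submodule K (Conf.Wt V X σ)) (hT : (confE arm ht v w vv vw).Closed T) :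
    (2 * Fintype.card X + (Finset.univ.filter (confE arm ht v w vv vw).odd).card) * finrank K V + 2
      ≤ 2 * finrank K T + 2 * finrank K V := by
  let j : ((X → V) × (X → V)) →ₗ[K] Conf.Wt V X σ :=
    { toFun := fun p => (p.1, p.2, 0)
      map_add' := by intro p q; simp
      map_smul' := by intro c p; simp }
  have hj : ∀ p, j p = (p.1, p.2, 0) := fun p => rfl
  have hjinj : Function.Injective j := by
    intro p q h
    rw [hj, hj] at h
    have h1 := congrArg Prod.fst h
    have h3 := congrArg (fun z => z.2.1) h
    exact Prod.ext h1 h3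
  have hlow := low hB hs h2 H v hv w hw hgen (T.comap j) (by
      intro C
      rw [Submodule.mem_comap, hj]
      have := hT.conn C
      have h0 : (fun s => C.nab ((confE arm ht v w vv vw).v0 s)) = (0 : σ → V) :=
        funext fun s => map_zero C.nab
      rw [h0] at this
      exact this) (by
      intro Z hZ
      rw [Submodule.mem_comap, hj]
      have := hT.skew Z hZ
      have h0 : (fun s => Z ((confE arm ht v w vv vw).v0 s)) = (0 : σ → V) :=
        funext fun s => map_zero Z
      rw [h0] at this
      exact this) (by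
      rw [Submodule.mem_comap, hj]
      exact hT.self)
  have h3 : finrank K (T.comap j) ≤ finrank K T := by
    refine LinearMap.finrank_le_finrank_of_injective
      (f := (j.domRestrict (T.comap j)).codRestrict T (fun x => x.2)) ?_
    intro a b hab
    exact Subtype.ext (hjinj (congrArg Subtype.val hab))
  have h4 : (Finset.univ.filter (confE arm ht v w vv vw).odd).card = 0 := by
    rw [Finset.card_eq_zero, Finset.filter_eq_empty_iff]
    intro s _ h; exact h
  rw [h4, add_zero, mul_assoc]
  omega

end Even

section Odd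

variable {B : LinearMap.BilinForm K V} [Fintype X] [Fintype σ] [DecidableEq σ]

/-- the vector of the anisotropic direction of the odd arms -/
def vodd (s1 s2 : σ) (c : K) (v w : Option X → V) (s : σ) : V :=
  if s = s1 then v none + c • w none else if s = s2 then v none - c • w none else 0

/-- the coefficients of the odd arms -/
def codd (s1 s2 : σ) (c : K) (s : σ) : K :=
  if s = s1 then (2 * c)⁻¹ else if s = s2 then - (2 * c)⁻¹ else 0

/-- The configuration with two odd arms. -/
noncomputable def confO (s1 s2 : σ) (h12 : s1 ≠ s2) (c : K) (hc : c ≠ 0) (h2 : (2 : K) ≠ 0)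
    (arm : X → σ) (ht : X → ℕ) (v w : Option X → V)
    (vv : ∀ x y, arm x = arm y → B (v (some x)) (v (some y)) = 0)
    (vw : ∀ x y, arm x = arm y → ht x ≤ ht y → B (v (some x)) (w (some y)) = 0)
    (v00 : ∀ s, B (vodd s1 s2 c v w s) (vodd s1 s2 c v w s) = 0)
    (vv0 : ∀ x, B (v (some x)) (vodd s1 s2 c v w (arm x)) = 0) : Conf B X σ where
  arm := arm
  ht := ht
  M := (Finset.univ.sup ht) + 1
  htM x := Nat.lt_succ_of_le (Finset.le_sup (f := ht) (Finset.mem_univ x))
  v x := v (some x)
  w x := w (some x)
  v0 s := vodd s1 s2 c v w s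
  c0 s := codd s1 s2 c s
  odd s := s = s1 ∨ s = s2
  even0 s hs := by
    rw [not_or] at hs
    rw [vodd, if_neg hs.1, if_neg hs.2]
  c0ne s hs := by
    have h3 : (2 * c)⁻¹ ≠ 0 := inv_ne_zero (mul_ne_zero h2 hc)
    rcases hs with rfl | rfl
    · rw [codd, if_pos rfl]; exact h3
    · rw [codd, if_neg (Ne.symm h12), if_pos rfl]; exact neg_ne_zero.mpr h3
  vv := vv
  vw := vw
  v00 := v00
  vv0 := vv0

variable {s1 s2 : σ} {h12 : s1 ≠ s2} {c : K} {hc : c ≠ 0} {h2 : (2 : K) ≠ 0}
  {arm : X → σ} {ht : X → ℕ} {v w : Option X → V}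
  {vv : ∀ x y, arm x = arm y → B (v (some x)) (v (some y)) = 0}
  {vw : ∀ x y, arm x = arm y → ht x ≤ ht y → B (v (some x)) (w (some y)) = 0}
  {v00 : ∀ s, B (vodd s1 s2 c v w s) (vodd s1 s2 c v w s) = 0}
  {vv0 : ∀ x, B (v (some x)) (vodd s1 s2 c v w (arm x)) = 0}

theorem confO_Phi (s : σ) : (confO s1 s2 h12 c hc h2 arm ht v w vv vw v00 vv0).Phi s
    = (∑ x, if arm x = s then sten B (v (some x)) (w (some x)) else 0)
      + codd s1 s2 c s • ten B (vodd s1 s2 c v w s) (vodd s1 s2 c v w s) := rfl

theorem confO_sum (H : Option X → Option X → K) (hH : ∀ x y, H x y = - H y x)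
    (hw : ∀ x, w x = ∑ y, H x y • v y) :
    ∑ s, (confO s1 s2 h12 c hc h2 arm ht v w vv vw v00 vv0).Phi s = 0 := by
  have h0 := sum_sten_eq_zero B h2 H hH v w hw
  rw [Fintype.sum_option] at h0
  simp only [confO_Phi, Finset.sum_add_distrib]
  rw [Finset.sum_comm]
  simp only [Finset.sum_ite_eq, Finset.mem_univ, if_true]
  have h3 : ∑ s, codd s1 s2 c s • ten B (vodd s1 s2 c v w s) (vodd s1 s2 c v w s)
      = sten B (v none) (w none) := by
    have h4 : ∀ s, codd s1 s2 c s • ten B (vodd s1 s2 c v w s) (vodd s1 s2 c v w s)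
        = (if s = s1 then (2 * c)⁻¹ • ten B (v none + c • w none) (v none + c • w none) else 0)
        + (if s = s2 then (-(2 * c)⁻¹) • ten B (v none - c • w none) (v none - c • w none)
            else 0) := by
      intro s
      by_cases h5 : s = s1
      · subst h5
        rw [codd, vodd, if_pos rfl, if_pos rfl, if_pos rfl, if_neg h12, add_zero]
      · by_cases h6 : s = s2
        · subst h6
          rw [codd, vodd, if_neg h5, if_neg h5, if_neg h5, if_pos rfl, if_pos rfl, if_pos rfl,
            zero_add]
        · rw [codd, if_neg h5, if_neg h6, if_neg h5, if_neg h6, zero_smul, add_zero]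
    simp only [h4, Finset.sum_add_distrib, Finset.sum_ite_eq', Finset.mem_univ, if_true]
    have h7 : ten B (v none + c • w none) (v none + c • w none)
        - ten B (v none - c • w none) (v none - c • w none)
        = (2 * c) • sten B (v none) (w none) := by
      ext z
      simp only [sten, ten_apply, LinearMap.sub_apply, LinearMap.smul_apply, LinearMap.add_apply,
        map_add, map_sub, map_smul, smul_eq_mul]
      module
    rw [neg_smul, ← sub_eq_add_neg, ← smul_sub, h7, smul_smul,
      inv_mul_cancel₀ (mul_ne_zero h2 hc), one_smul]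
  rw [h3, add_comm]
  exact h0

theorem confO_top (hv : Submodule.span K (Set.range v) = ⊤) :
    ⨆ s, (confO s1 s2 h12 c hc h2 arm ht v w vv vw v00 vv0).Rp s = ⊤ := by
  set F := confO s1 s2 h12 c hc h2 arm ht v w vv vw v00 vv0 with hF
  rw [eq_top_iff, ← hv, Submodule.span_le]
  rintro _ ⟨x, rfl⟩
  rcases x with _ | x
  · have h1 : F.v0 s1 ∈ ⨆ s, F.Rp s := Submodule.mem_iSup_of_mem s1 (F.v0_mem s1)
    have h3 : F.v0 s2 ∈ ⨆ s, F.Rp s := Submodule.mem_iSup_of_mem s2 (F.v0_mem s2)
    have h4 : F.v0 s1 = v none + c • w none := by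
      change vodd s1 s2 c v w s1 = _
      rw [vodd, if_pos rfl]
    have h5 : F.v0 s2 = v none - c • w none := by
      change vodd s1 s2 c v w s2 = _
      rw [vodd, if_neg (Ne.symm h12), if_pos rfl]
    have h6 : v none = (2 : K)⁻¹ • (F.v0 s1 + F.v0 s2) := by
      rw [h4, h5]
      have : v none + c • w none + (v none - c • w none) = (2 : K) • v none := by
        rw [two_smul]; abel
      rw [this, smul_smul, inv_mul_cancel₀ h2, one_smul]
    change v none ∈ _
    rw [h6]
    exact Submodule.smul_mem _ _ (Submodule.add_mem _ h1 h3)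
  · exact Submodule.mem_iSup_of_mem (arm x) (F.R_le_Rp _ _ (F.v_mem x))

theorem confO_low [FiniteDimensional K V] [Nontrivial V] (hB : B.Nondegenerate) (hs : B.IsSymm)
    (hcd : ∀ d : Derivation ℤ K K, d c = 0)
    (H : Option X → Option X → K) (hw : ∀ x, w x = ∑ y, H x y • v y)
    (hv : Submodule.span K (Set.range v) = ⊤)
    (hgen : ∀ G : Option X → Option X → K, (∀ x y, G x y = - G y x) →
      ∃ C : Conn B, ∀ x y, C.d (H x y) = G x y)
    [DecidablePred (confO s1 s2 h12 c hc h2 arm ht v w vv vw v00 vv0).odd]
    (T : Submodule K (Conf.Wt V X σ))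
    (hT : (confO s1 s2 h12 c hc h2 arm ht v w vv vw v00 vv0).Closed T) :
    (2 * Fintype.card X + (Finset.univ.filter
      (confO s1 s2 h12 c hc h2 arm ht v w vv vw v00 vv0).odd).card) * finrank K V + 2
      ≤ 2 * finrank K T + 2 * finrank K V := by
  classical
  set F := confO s1 s2 h12 c hc h2 arm ht v w vv vw v00 vv0 with hF
  let j : ((Option X → V) × (Option X → V)) →ₗ[K] Conf.Wt V X σ :=
    { toFun := fun p => (fun x => p.1 (some x), fun x => p.2 (some x),
        fun s => vodd s1 s2 c p.1 p.2 s)
      map_add' := by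
        intro p q
        refine Prod.ext rfl (Prod.ext rfl (funext fun s => ?_))
        change vodd s1 s2 c (p.1 + q.1) (p.2 + q.2) s
          = vodd s1 s2 c p.1 p.2 s + vodd s1 s2 c q.1 q.2 s
        unfold vodd
        split_ifs
        · simp only [Pi.add_apply, smul_add]; abel
        · simp only [Pi.add_apply, smul_add]; abel
        · rw [add_zero]
      map_smul' := by
        intro t p
        refine Prod.ext rfl (Prod.ext rfl (funext fun s => ?_))
        change vodd s1 s2 c (t • p.1) (t • p.2) s = t • vodd s1 s2 c p.1 p.2 s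
        unfold vodd
        split_ifs
        · simp only [Pi.smul_apply, smul_add, smul_comm c t]
        · simp only [Pi.smul_apply, smul_sub, smul_comm c t]
        · rw [smul_zero] }
  have hj : ∀ p, j p = (fun x => p.1 (some x), fun x => p.2 (some x),
        fun s => vodd s1 s2 c p.1 p.2 s) := fun p => rfl
  have hjinj : Function.Injective j := by
    rw [injective_iff_map_eq_zero]
    rintro ⟨a, b⟩ h
    rw [hj] at h
    have h1 : ∀ x, a (some x) = 0 := fun x => congrFun (congrArg Prod.fst h) x
    have h3 : ∀ x, b (some x) = 0 := fun x => congrFun (congrArg (fun z => z.2.1) h) x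
    have h4 : vodd s1 s2 c a b s1 = 0 := congrFun (congrArg (fun z => z.2.2) h) s1
    have h5 : vodd s1 s2 c a b s2 = 0 := congrFun (congrArg (fun z => z.2.2) h) s2
    rw [vodd, if_pos rfl] at h4
    rw [vodd, if_neg (Ne.symm h12), if_pos rfl] at h5
    have h6 : (2 : K) • a none = 0 := by
      have : (2 : K) • a none = (a none + c • b none) + (a none - c • b none) := by
        rw [two_smul]; abel
      rw [this, h4, h5, add_zero]
    have h7 : a none = 0 := (smul_eq_zero.mp h6).resolve_left h2
    rw [h7, zero_add] at h4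
    have h8 : b none = 0 := (smul_eq_zero.mp h4).resolve_left hc
    refine Prod.ext (funext fun x => ?_) (funext fun x => ?_)
    · rcases x with _ | x
      · exact h7
      · exact h1 x
    · rcases x with _ | x
      · exact h8
      · exact h3 x
  have hlow := low hB hs h2 H v hv w hw hgen (T.comap j) (by
      intro C
      rw [Submodule.mem_comap, hj]
      have := hT.conn C
      have h0 : (fun s => C.nab (F.v0 s))
          = fun s => vodd s1 s2 c (fun x => C.nab (v x)) (fun x => C.nab (w x)) s := by
        funext s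
        change C.nab (vodd s1 s2 c v w s) = _
        unfold vodd
        split_ifs
        · rw [map_add, C.leib, hcd, zero_smul, zero_add]
        · rw [map_sub, C.leib, hcd, zero_smul, zero_add]
        · rw [map_zero]
      rw [h0] at this
      exact this) (by
      intro Z hZ
      rw [Submodule.mem_comap, hj]
      have := hT.skew Z hZ
      have h0 : (fun s => Z (F.v0 s))
          = fun s => vodd s1 s2 c (fun x => Z (v x)) (fun x => Z (w x)) s := by
        funext s
        change Z (vodd s1 s2 c v w s) = _
        unfold vodd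
        split_ifs
        · rw [map_add, map_smul]
        · rw [map_sub, map_smul]
        · rw [map_zero]
      rw [h0] at this
      exact this) (by
      rw [Submodule.mem_comap, hj]
      exact hT.self)
  have h3 : finrank K (T.comap j) ≤ finrank K T := by
    refine LinearMap.finrank_le_finrank_of_injective
      (f := (j.domRestrict (T.comap j)).codRestrict T (fun x => x.2)) ?_
    intro a b hab
    exact Subtype.ext (hjinj (congrArg Subtype.val hab))
  have h4 : (Finset.univ.filter F.odd).card = 2 := by
    have : Finset.univ.filter F.odd = {s1, s2} := by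
      ext s
      simp only [Finset.mem_filter, Finset.mem_univ, true_and, Finset.mem_insert,
        Finset.mem_singleton]
      exact Iff.rfl
    rw [this, Finset.card_pair h12]
  have h4' : ∀ inst : DecidablePred (confO s1 s2 h12 c hc h2 arm ht v w vv vw v00 vv0).odd,
      (@Finset.filter σ (confO s1 s2 h12 c hc h2 arm ht v w vv vw v00 vv0).odd inst
        Finset.univ).card = 2 := by
    intro inst
    convert h4
  rw [h4' _]
  rw [Fintype.card_option] at hlow
  have h5 : (2 * Fintype.card X + 2) * finrank K V = 2 * ((Fintype.card X + 1) * finrank K V) := by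
    ring
  rw [h5]
  omega

end Odd

end Crest.Agent.R172.NilFin
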