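import Crest.Agent.R172.Kempf4

/-!
Row 172, node NILC: filtered pieces of the endomorphism algebra, trace duality (P1), and the
statement (K) of `Kempf.kempf` in filtered form (P4).
-/

set_option autoImplicit false
set_option linter.unusedSectionVars false
set_option linter.unusedSimpArgs false

namespace Crest.Agent.R172.NilPat

open Module Crest.Agent.R172.Kempf

variable {K V ι κ : Type*} [Field K] [AddCommGroup V] [Module K V] [Fintype ι]

/-- `B`-symmetric endomorphisms. -/
def Sym (B : LinearMap.BilinForm K V) : Submodule K (V →ₗ[K] V) where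
  carrier := {A | ∀ x y, B (A x) y = B x (A y)}
  zero_mem' := by intro x y; simp
  add_mem' := by
    intro A A' h h' x y
    simp only [LinearMap.add_apply, map_add, h x y, h' x y]
  smul_mem' := by
    intro c A h x y
    simp only [LinearMap.smul_apply, map_smul, h x y]

/-- `B`-skew endomorphisms. -/
def Skw (B : LinearMap.BilinForm K V) : Submodule K (V →ₗ[K] V) where
  carrier := {A | ∀ x y, B (A x) y = - B x (A y)}
  zero_mem' := by intro x y; simp
  add_mem' := by
    intro A A' h h' x y
    simp only [LinearMap.add_apply, map_add, h x y, h' x y]; ring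
  smul_mem' := by
    intro c A h x y
    simp only [LinearMap.smul_apply, map_smul, h x y, smul_eq_mul]; ring

theorem mem_Sym {B : LinearMap.BilinForm K V} {A : V →ₗ[K] V} :
    A ∈ Sym B ↔ ∀ x y, B (A x) y = B x (A y) := Iff.rfl

theorem mem_Skw {B : LinearMap.BilinForm K V} {A : V →ₗ[K] V} :
    A ∈ Skw B ↔ ∀ x y, B (A x) y = - B x (A y) := Iff.rfl

/-- Endomorphisms raising the weights by at least `c`. -/
def Ge (e : Basis ι K V) (w : ι → ℝ) (c : ℝ) : Submodule K (V →ₗ[K] V) where
  carrier := {A | ∀ a x, x ∈ Fil e w a → A x ∈ Fil e w (a + c)}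
  zero_mem' := by intro a x _; exact Submodule.zero_mem _
  add_mem' := by
    intro A A' h h' a x hx
    exact Submodule.add_mem _ (h a x hx) (h' a x hx)
  smul_mem' := by
    intro r A h a x hx
    exact Submodule.smul_mem _ r (h a x hx)

theorem mem_Ge {e : Basis ι K V} {w : ι → ℝ} {c : ℝ} {A : V →ₗ[K] V} :
    A ∈ Ge e w c ↔ ∀ a x, x ∈ Fil e w a → A x ∈ Fil e w (a + c) := Iff.rfl

/-- Endomorphisms raising the weights by more than `c`. -/
def Gt (e : Basis ι K V) (w : ι → ℝ) (c : ℝ) : Submodule K (V →ₗ[K] V) where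
  carrier := {A | ∀ i j, w j ≤ w i + c → e.repr (A (e i)) j = 0}
  zero_mem' := by intro i j _; simp
  add_mem' := by
    intro A A' h h' i j hij
    simp [h i j hij, h' i j hij]
  smul_mem' := by
    intro r A h i j hij
    simp [h i j hij]

theorem mem_Gt {e : Basis ι K V} {w : ι → ℝ} {c : ℝ} {A : V →ₗ[K] V} :
    A ∈ Gt e w c ↔ ∀ i j, w j ≤ w i + c → e.repr (A (e i)) j = 0 := Iff.rfl

theorem repr_apply_eq_sum (e : Basis ι K V) (A : V →ₗ[K] V) (x : V) (j : ι) :
    e.repr (A x) j = ∑ i, e.repr x i * e.repr (A (e i)) j := by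
  conv_lhs => rw [← e.sum_repr x]
  rw [map_sum, map_sum, Finsupp.coe_finsetSum, Finset.sum_apply]
  refine Finset.sum_congr rfl fun i _ => ?_
  rw [map_smul, map_smul, Finsupp.smul_apply, smul_eq_mul]

theorem mem_Ge_iff {e : Basis ι K V} {w : ι → ℝ} {c : ℝ} {A : V →ₗ[K] V} :
    A ∈ Ge e w c ↔ ∀ i j, w j < w i + c → e.repr (A (e i)) j = 0 := by
  constructor
  · intro h i j hij
    by_contra hne
    have := h (w i) (e i) (basis_mem_Fil e w le_rfl) j hne
    linarith
  · intro h a x hx j hj
    by_contra hlt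
    apply hj
    rw [repr_apply_eq_sum]
    apply Finset.sum_eq_zero
    intro i _
    by_cases hi : e.repr x i = 0
    · rw [hi, zero_mul]
    · have := hx i hi
      rw [h i j (by linarith [not_le.mp hlt]), mul_zero]

/-- `Gt` in flag form. -/
theorem mem_Gt_flag {e : Basis ι K V} {w : ι → ℝ} {c : ℝ} {A : V →ₗ[K] V} :
    A ∈ Gt e w c ↔ ∀ a x, x ∈ Fil e w a → ∀ j, e.repr (A x) j ≠ 0 → a + c < w j := by
  constructor
  · intro h a x hx j hj
    by_contra hlt
    apply hj
    rw [repr_apply_eq_sum]
    apply Finset.sum_eq_zero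
    intro i _
    by_cases hi : e.repr x i = 0
    · rw [hi, zero_mul]
    · have := hx i hi
      rw [h i j (by linarith [not_lt.mp hlt]), mul_zero]
  · intro h i j hij
    by_contra hne
    have := h (w i) (e i) (basis_mem_Fil e w le_rfl) j hne
    linarith

theorem Ge_congr {e f : Basis ι K V} {w u : ι → ℝ} (h : ∀ a, Fil f u a = Fil e w a) (c : ℝ) :
    Ge f u c = Ge e w c := by
  ext A
  rw [mem_Ge, mem_Ge]
  simp_rw [h]

theorem Gt_congr {e f : Basis ι K V} {w u : ι → ℝ} (h : ∀ a, Fil f u a = Fil e w a) (c : ℝ) :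
    Gt f u c = Gt e w c := by
  have key : ∀ {e f : Basis ι K V} {w u : ι → ℝ}, (∀ a, Fil f u a = Fil e w a) →
      Gt e w c ≤ Gt f u c := by
    intro e f w u h A hA
    rw [mem_Gt_flag] at hA ⊢
    intro a x hx
    rw [h] at hx
    exact strict_of_strict h (hA a x hx)
  exact le_antisymm (key fun a => (h a).symm) (key h)

theorem Gt_le_Ge (e : Basis ι K V) (w : ι → ℝ) (c : ℝ) : Gt e w c ≤ Ge e w c := by
  intro A hA
  rw [mem_Ge_iff]
  intro i j hij
  exact hA i j hij.le

theorem Ge_anti (e : Basis ι K V) (w : ι → ℝ) {c d : ℝ} (h : c ≤ d) : Ge e w d ≤ Ge e w c := by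
  intro A hA
  rw [mem_Ge_iff] at hA ⊢
  intro i j hij
  exact hA i j (by linarith)

theorem Gt_anti (e : Basis ι K V) (w : ι → ℝ) {c d : ℝ} (h : c ≤ d) : Gt e w d ≤ Gt e w c := by
  intro A hA i j hij
  exact hA i j (by linarith)

theorem Ge_le_Gt (e : Basis ι K V) (w : ι → ℝ) {c d : ℝ} (h : c < d) : Ge e w d ≤ Gt e w c := by
  intro A hA i j hij
  rw [mem_Ge_iff] at hA
  exact hA i j (by linarith)

theorem Ge_mul {e : Basis ι K V} {w : ι → ℝ} {c d : ℝ} {A A' : V →ₗ[K] V} (hA : A ∈ Ge e w c)
    (hA' : A' ∈ Ge e w d) : A * A' ∈ Ge e w (c + d) := by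
  intro a x hx
  have := hA _ _ (hA' a x hx)
  rw [show a + (c + d) = a + d + c by ring]
  exact this

theorem Gt_mul_Ge {e : Basis ι K V} {w : ι → ℝ} {c d : ℝ} {A A' : V →ₗ[K] V}
    (hA : A ∈ Gt e w c) (hA' : A' ∈ Ge e w d) : A * A' ∈ Gt e w (c + d) := by
  rw [mem_Gt_flag] at hA ⊢
  intro a x hx j hj
  have := hA _ _ (hA' a x hx) j hj
  linarith

theorem Ge_mul_Gt {e : Basis ι K V} {w : ι → ℝ} {c d : ℝ} {A A' : V →ₗ[K] V}
    (hA : A ∈ Ge e w c) (hA' : A' ∈ Gt e w d) : A * A' ∈ Gt e w (c + d) := by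
  rw [mem_Gt_flag] at hA' ⊢
  intro a x hx j hj
  have h1 := hA' a x hx
  -- coordinates of `A' x` lie strictly above `a + d`
  by_contra hlt
  apply hj
  have : (A * A') x = A (A' x) := rfl
  rw [this, repr_apply_eq_sum]
  apply Finset.sum_eq_zero
  intro i _
  by_cases hi : e.repr (A' x) i = 0
  · rw [hi, zero_mul]
  · have h2 := h1 i hi
    rw [mem_Ge_iff] at hA
    rw [hA i j (by linarith [not_lt.mp hlt]), mul_zero]

/-! ### (P1) trace duality -/

theorem trace_mul_eq [DecidableEq ι] (e : Basis ι K V) (A A' : V →ₗ[K] V) :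
    LinearMap.trace K V (A * A') = ∑ j, ∑ i, e.repr (A' (e j)) i * e.repr (A (e i)) j := by
  rw [LinearMap.trace_eq_matrix_trace K e, Matrix.trace]
  refine Finset.sum_congr rfl fun j _ => ?_
  rw [Matrix.diag_apply, LinearMap.toMatrix_apply]
  exact repr_apply_eq_sum e A (A' (e j)) j

/-- The elementary endomorphism `e_j ↦ e_i`. -/
noncomputable def Elem (e : Basis ι K V) (j i : ι) : V →ₗ[K] V := (e.coord j).smulRight (e i)

theorem repr_Elem [DecidableEq ι] (e : Basis ι K V) (j i l m : ι) :
    e.repr (Elem e j i (e l)) m = if l = j ∧ m = i then 1 else 0 := by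
  rw [Elem, LinearMap.smulRight_apply, Basis.coord_apply, map_smul, Basis.repr_self,
    Basis.repr_self, Finsupp.smul_apply, Finsupp.single_apply, Finsupp.single_apply, smul_eq_mul]
  by_cases h1 : l = j
  · by_cases h2 : m = i
    · simp [h1, h2]
    · have : ¬ i = m := fun h => h2 h.symm
      simp [h1, h2, this]
  · simp [h1]

theorem trace_mul_Elem (e : Basis ι K V) (A : V →ₗ[K] V) (j i : ι) :
    LinearMap.trace K V (A * Elem e j i) = e.repr (A (e i)) j := by
  classical
  rw [trace_mul_eq e, Finset.sum_eq_single j, Finset.sum_eq_single i]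
  · rw [repr_Elem]; simp
  · intro m _ hm
    rw [repr_Elem, if_neg, zero_mul]
    rintro ⟨-, h⟩; exact hm h
  · intro h; exact absurd (Finset.mem_univ _) h
  · intro l _ hl
    apply Finset.sum_eq_zero
    intro m _
    rw [repr_Elem, if_neg, zero_mul]
    rintro ⟨h, -⟩; exact hl h
  · intro h; exact absurd (Finset.mem_univ _) h

theorem trace_eq_zero_of_Gt_Ge {e : Basis ι K V} {w : ι → ℝ} {c : ℝ} {A A' : V →ₗ[K] V}
    (hA : A ∈ Gt e w (-c)) (hA' : A' ∈ Ge e w c) : LinearMap.trace K V (A * A') = 0 := by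
  classical
  rw [trace_mul_eq e]
  apply Finset.sum_eq_zero
  intro j _
  apply Finset.sum_eq_zero
  intro i _
  rw [mem_Ge_iff] at hA'
  by_cases h : w i < w j + c
  · rw [hA' j i h, zero_mul]
  · rw [hA i j (by linarith [not_lt.mp h]), mul_zero]

theorem trace_mul_comm' (A A' : V →ₗ[K] V) :
    LinearMap.trace K V (A * A') = LinearMap.trace K V (A' * A) := LinearMap.trace_mul_comm K A A'

/-- (P1), first half. -/
theorem mem_Gt_iff_trace {e : Basis ι K V} {w : ι → ℝ} {c : ℝ} {A : V →ₗ[K] V} :
    A ∈ Gt e w (-c) ↔ ∀ A' ∈ Ge e w c, LinearMap.trace K V (A * A') = 0 := by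
  classical
  refine ⟨fun h A' hA' => trace_eq_zero_of_Gt_Ge h hA', fun h i j hij => ?_⟩
  rw [← trace_mul_Elem]
  apply h
  rw [mem_Ge_iff]
  intro l m hlm
  rw [repr_Elem, if_neg]
  rintro ⟨h1, h2⟩
  subst h1 h2
  linarith

/-- (P1), second half. -/
theorem mem_Ge_iff_trace {e : Basis ι K V} {w : ι → ℝ} {c : ℝ} {A : V →ₗ[K] V} :
    A ∈ Ge e w (-c) ↔ ∀ A' ∈ Gt e w c, LinearMap.trace K V (A * A') = 0 := by
  classical
  constructor
  · intro h A' hA'
    rw [trace_mul_comm']
    apply trace_eq_zero_of_Gt_Ge (c := -c) _ h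
    rw [neg_neg]; exact hA'
  · intro h
    rw [mem_Ge_iff]
    intro i j hij
    rw [← trace_mul_Elem]
    apply h
    intro l m hlm
    rw [repr_Elem, if_neg]
    rintro ⟨h1, h2⟩
    subst h1 h2
    linarith

/-! ### (P4) the Kempf statement in filtered form -/

/-- Kempf data for the family `M`. -/
structure KData (M : κ → V →ₗ[K] V) (e : Basis ι K V) (w : ι → ℝ) : Prop where
  ge : ∀ s, M s ∈ Ge e w 1
  key : ∀ Y : V →ₗ[K] V, (∀ i j, e.repr (Y (e i)) j ≠ 0 → w j < w i) →
        (∀ s v, Y (part e w 1 (M s) v) = part e w 1 (M s) (Y v)) → Y = 0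

theorem KData.of_kempf {M : κ → V →ₗ[K] V} {e : Basis ι K V} {w : ι → ℝ}
    (h1 : ∀ s i j, e.repr (M s (e i)) j ≠ 0 → w i + 1 ≤ w j)
    (h2 : ∀ Y : V →ₗ[K] V, (∀ i j, e.repr (Y (e i)) j ≠ 0 → w j < w i) →
        (∀ s v, Y (part e w 1 (M s) v) = part e w 1 (M s) (Y v)) → Y = 0) : KData M e w := by
  refine ⟨fun s => ?_, h2⟩
  rw [mem_Ge_iff]
  intro i j hij
  by_contra hne
  have := h1 s i j hne
  linarith

/-- Step: `S ∈ Ge (-j)`, `[S, M_s] ∈ Gt (1-j)`, `j > 0` imply `S ∈ Gt (-j)`. -/
theorem KData.step {M : κ → V →ₗ[K] V} {e : Basis ι K V} {w : ι → ℝ} (h : KData M e w)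
    {d : ℝ} (hd : 0 < d) {S : V →ₗ[K] V} (hS : S ∈ Ge e w (-d))
    (hc : ∀ s, S * M s - M s * S ∈ Gt e w (1 - d)) : S ∈ Gt e w (-d) := by
  classical
  -- the leading part of `S`
  have hY : part e w (-d) S = 0 := by
    apply h.key
    · intro i j hij
      rw [repr_part] at hij
      by_contra hlt
      apply hij
      rw [if_neg]
      intro h'; apply hlt; linarith
    · intro s v
      have hlin : (part e w (-d) S).comp (part e w 1 (M s)) =
          (part e w 1 (M s)).comp (part e w (-d) S) := by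
        apply e.ext
        intro i
        apply e.repr.injective
        ext j
        rw [LinearMap.comp_apply, LinearMap.comp_apply, repr_apply_eq_sum e _ (part e w 1 (M s) (e i)),
          repr_apply_eq_sum e _ (part e w (-d) S (e i))]
        simp only [repr_part]
        have hSg := mem_Ge_iff.1 hS
        have hMg := mem_Ge_iff.1 (h.ge s)
        by_cases hij : w j = w i + (1 - d)
        · have e1 : ∑ l, (if w l = w i + 1 then e.repr (M s (e i)) l else 0) *
              (if w j = w l + -d then e.repr (S (e l)) j else 0) = e.repr ((S * M s) (e i)) j := by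
            rw [show (S * M s) (e i) = S (M s (e i)) from rfl, repr_apply_eq_sum]
            refine Finset.sum_congr rfl fun l _ => ?_
            by_cases h1 : w l = w i + 1
            · rw [if_pos h1, if_pos (by linarith)]
            · rw [if_neg h1, zero_mul]
              rcases lt_or_gt_of_ne h1 with h2 | h2
              · rw [hMg i l h2, zero_mul]
              · rw [hSg l j (by linarith), mul_zero]
          have e2 : ∑ l, (if w l = w i + -d then e.repr (S (e i)) l else 0) *
              (if w j = w l + 1 then e.repr (M s (e l)) j else 0) = e.repr ((M s * S) (e i)) j := by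
            rw [show (M s * S) (e i) = M s (S (e i)) from rfl, repr_apply_eq_sum]
            refine Finset.sum_congr rfl fun l _ => ?_
            by_cases h1 : w l = w i + -d
            · rw [if_pos h1, if_pos (by linarith)]
            · rw [if_neg h1, zero_mul]
              rcases lt_or_gt_of_ne h1 with h2 | h2
              · rw [hSg i l h2, zero_mul]
              · rw [hMg l j (by linarith), mul_zero]
          rw [e1, e2]
          have := hc s i j hij.le
          rw [LinearMap.sub_apply, map_sub, Finsupp.sub_apply, sub_eq_zero] at this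
          exact this
        · have e1 : ∑ l, (if w l = w i + 1 then e.repr (M s (e i)) l else 0) *
              (if w j = w l + -d then e.repr (S (e l)) j else 0) = 0 := by
            apply Finset.sum_eq_zero
            intro l _
            by_cases h1 : w l = w i + 1
            · rw [if_pos h1, if_neg (fun h2 => hij (by linarith)), mul_zero]
            · rw [if_neg h1, zero_mul]
          have e2 : ∑ l, (if w l = w i + -d then e.repr (S (e i)) l else 0) *
              (if w j = w l + 1 then e.repr (M s (e l)) j else 0) = 0 := by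
            apply Finset.sum_eq_zero
            intro l _
            by_cases h1 : w l = w i + -d
            · rw [if_pos h1, if_neg (fun h2 => hij (by linarith)), mul_zero]
            · rw [if_neg h1, zero_mul]
          rw [e1, e2]
      exact congrArg (fun f : V →ₗ[K] V => f v) hlin
  intro i j hij
  rcases hij.lt_or_eq with h1 | h1
  · exact mem_Ge_iff.1 hS i j h1
  · have := repr_part e w (-d) S i j
    rw [hY, if_pos h1] at this
    rw [← this]; simp

/-- The lowest degree of an endomorphism. -/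
theorem exists_lowest {e : Basis ι K V} {w : ι → ℝ} {S : V →ₗ[K] V} (hS : S ≠ 0) :
    ∃ c, S ∈ Ge e w c ∧ ∃ i j, w j = w i + c ∧ e.repr (S (e i)) j ≠ 0 := by
  classical
  let P : Finset (ι × ι) := Finset.univ.filter fun p => e.repr (S (e p.1)) p.2 ≠ 0
  have hP : P.Nonempty := by
    by_contra hne
    rw [Finset.not_nonempty_iff_eq_empty] at hne
    apply hS
    apply e.ext
    intro i
    apply e.repr.injective
    ext j
    by_contra h
    have : (i, j) ∈ P := Finset.mem_filter.mpr ⟨Finset.mem_univ _, by simpa using h⟩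
    rw [hne] at this
    exact absurd this (Finset.notMem_empty _)
  obtain ⟨⟨i, j⟩, hij, hmin⟩ := Finset.exists_min_image P (fun p => w p.2 - w p.1) hP
  refine ⟨w j - w i, ?_, i, j, by ring, (Finset.mem_filter.mp hij).2⟩
  rw [mem_Ge_iff]
  intro l m hlm
  by_contra hne
  have := hmin (l, m) (Finset.mem_filter.mpr ⟨Finset.mem_univ _, hne⟩)
  simp only at this
  linarith

/-- (K1). -/
theorem KData.K1 {M : κ → V →ₗ[K] V} {e : Basis ι K V} {w : ι → ℝ} (h : KData M e w)
    {S : V →ₗ[K] V} (hc : ∀ s, S * M s - M s * S ∈ Gt e w 0) : S ∈ Gt e w (-1) := by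
  by_cases hS : S = 0
  · rw [hS]; exact Submodule.zero_mem _
  obtain ⟨c, hc1, i, j, hij, hne⟩ := exists_lowest (e := e) (w := w) hS
  by_cases h1 : -1 < c
  · exact Ge_le_Gt e w h1 hc1
  · exfalso
    have hc' := not_lt.mp h1
    have := h.step (d := -c) (by linarith) (by rw [neg_neg]; exact hc1)
      (fun s => Gt_anti e w (by linarith) (hc s))
    rw [neg_neg] at this
    exact hne (this i j hij.le)

/-- (K2). -/
theorem KData.K2 {M : κ → V →ₗ[K] V} {e : Basis ι K V} {w : ι → ℝ} (h : KData M e w)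
    {S : V →ₗ[K] V} (hS1 : S ∈ Gt e w (-1)) (hc : ∀ s, S * M s - M s * S ∈ Ge e w 1) :
    S ∈ Ge e w 0 := by
  by_cases hS : S = 0
  · rw [hS]; exact Submodule.zero_mem _
  obtain ⟨c, hc1, i, j, hij, hne⟩ := exists_lowest (e := e) (w := w) hS
  by_cases h1 : 0 ≤ c
  · exact Ge_anti e w h1 hc1
  · exfalso
    have hc' := not_le.mp h1
    have hc2 : -1 < c := by
      by_contra hlt
      exact hne (hS1 i j (by linarith [not_lt.mp hlt]))
    have := h.step (d := -c) (by linarith) (by rw [neg_neg]; exact hc1)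
      (fun s => Ge_le_Gt e w (by linarith) (hc s))
    rw [neg_neg] at this
    exact hne (this i j hij.le)

end Crest.Agent.R172.NilPat
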