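import Mathlib

/-!
R172, node NIL^sp (note 14061): the isotropic chain of a jointly nilpotent skew operator on a graded
quadratic space, and the nilpotency of `T * A`.
-/

namespace Crest.Agent.R172.NilSp

open Module

variable {K : Type*} [Field K] {V : Type*} [AddCommGroup V] [Module K V]
variable {σ : Type*}

/-- `Q_k = span (v_0 .. v_{k-1})` -/
def Q (K : Type*) [Field K] {V : Type*} [AddCommGroup V] [Module K V] (v : ℕ → V) (k : ℕ) :
    Submodule K V := Submodule.span K (v '' Set.Iio k)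

theorem Q_mono (v : ℕ → V) {j k : ℕ} (h : j ≤ k) : Q K v j ≤ Q K v k :=
  Submodule.span_mono (Set.image_mono fun _ hi => lt_of_lt_of_le hi h)

theorem mem_Q (v : ℕ → V) {j k : ℕ} (h : j < k) : v j ∈ Q K v k :=
  Submodule.subset_span ⟨j, h, rfl⟩

theorem Q_zero (v : ℕ → V) : Q K v 0 = ⊥ := by
  unfold Q
  simp

theorem Q_succ (v : ℕ → V) (k : ℕ) : Q K v (k + 1) = Q K v k ⊔ K ∙ v k := by
  unfold Q
  have h : Set.Iio (k + 1) = insert k (Set.Iio k) := by
    ext x; simp only [Set.mem_Iio, Set.mem_insert_iff]; omega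
  rw [h, Set.image_insert_eq, Submodule.span_insert, sup_comm]

theorem finrank_Q [FiniteDimensional K V] (v : ℕ → V) {r : ℕ}
    (hli : ∀ a < r, v a ∉ Q K v a) : ∀ a ≤ r, finrank K (Q K v a) = a := by
  intro a
  induction a with
  | zero => intro _; rw [Q_zero]; simp
  | succ a ih =>
    intro ha
    rw [Q_succ, Submodule.finrank_sup_span_singleton (hli a (by omega)), ih (by omega)]

/-- the chain -/
structure Chain (B : LinearMap.BilinForm K V) (ρ : σ → Module.End K V) (T : Module.End K V)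
    (r : ℕ) (v : ℕ → V) (s : ℕ → σ) : Prop where
  hom : ∀ k < r, ρ (s k) (v k) = v k
  ind : ∀ k < r, v k ∉ Q K v k
  iso : ∀ j < r, ∀ k < r, B (v j) (v k) = 0
  low : ∀ k < r, T (v k) ∈ Q K v k

/-- words -/
def wd (ρ : σ → Module.End K V) (T : Module.End K V) (l : List σ) : Module.End K V :=
  (l.map (fun s => T * ρ s)).prod

theorem wd_nil (ρ : σ → Module.End K V) (T : Module.End K V) : wd ρ T [] = 1 := rfl

theorem wd_cons (ρ : σ → Module.End K V) (T : Module.End K V) (s : σ) (l : List σ) (x : V) :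
    wd ρ T (s :: l) x = T (ρ s (wd ρ T l x)) := by
  unfold wd
  rw [List.map_cons, List.prod_cons, Module.End.mul_apply, Module.End.mul_apply]

/-- `ρ` is an orthogonal decomposition into arms -/
structure Arms [Fintype σ] (B : LinearMap.BilinForm K V) (ρ : σ → Module.End K V) : Prop where
  adj : ∀ s x y, B (ρ s x) y = B x (ρ s y)
  idem : ∀ s x, ρ s (ρ s x) = ρ s x
  orth : ∀ s t x, s ≠ t → ρ s (ρ t x) = 0
  sum : ∀ x, ∑ s, ρ s x = x

variable [Fintype σ] {B : LinearMap.BilinForm K V} {ρ : σ → Module.End K V} {T : Module.End K V}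
  {r : ℕ} {v : ℕ → V} {s : ℕ → σ}

theorem B_Q {x : V} {k : ℕ} (hx : ∀ j < k, B x (v j) = 0) {q : V} (hq : q ∈ Q K v k) :
    B x q = 0 := by
  refine Submodule.span_induction (p := fun q _ => B x q = 0) ?_ ?_ ?_ ?_ hq
  · rintro _ ⟨j, hj, rfl⟩
    exact hx j hj
  · simp
  · intro a b _ _ ha hb
    rw [map_add, ha, hb, add_zero]
  · intro c a _ ha
    rw [map_smul, ha, smul_zero]

omit [Fintype σ] in
theorem Chain.T_Q (h : Chain B ρ T r v s) {k : ℕ} (hk : k < r) {q : V} (hq : q ∈ Q K v (k + 1)) :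
    T q ∈ Q K v k := by
  refine Submodule.span_induction (p := fun q _ => T q ∈ Q K v k) ?_ ?_ ?_ ?_ hq
  · rintro _ ⟨j, hj, rfl⟩
    have hj' : j < k + 1 := hj
    exact Q_mono v (by omega) (h.low j (by omega))
  · simp
  · intro a b _ _ ha hb
    rw [map_add]; exact Submodule.add_mem _ ha hb
  · intro c a _ ha
    rw [map_smul]; exact Submodule.smul_mem _ _ ha

omit [Fintype σ] in
theorem Chain.T_Qr (h : Chain B ρ T r v s) {q : V} (hq : q ∈ Q K v r) : T q ∈ Q K v r := by
  refine Submodule.span_induction (p := fun q _ => T q ∈ Q K v r) ?_ ?_ ?_ ?_ hq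
  · rintro _ ⟨j, hj, rfl⟩
    have hj' : j < r := hj
    exact Q_mono v (by omega) (h.low j (by omega))
  · simp
  · intro a b _ _ ha hb
    rw [map_add]; exact Submodule.add_mem _ ha hb
  · intro c a _ ha
    rw [map_smul]; exact Submodule.smul_mem _ _ ha

theorem Chain.rho_Q (hρ : Arms B ρ) (h : Chain B ρ T r v s) (t : σ) {k : ℕ} (hk : k ≤ r) {q : V}
    (hq : q ∈ Q K v k) : ρ t q ∈ Q K v k := by
  classical
  refine Submodule.span_induction (p := fun q _ => ρ t q ∈ Q K v k) ?_ ?_ ?_ ?_ hq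
  · rintro _ ⟨j, hj, rfl⟩
    have hj' : j < k := hj
    by_cases ht : t = s j
    · rw [ht, h.hom j (by omega)]
      exact mem_Q v hj'
    · rw [← h.hom j (by omega), hρ.orth t (s j) _ ht]
      exact Submodule.zero_mem _
  · simp
  · intro a b _ _ ha hb
    rw [map_add]; exact Submodule.add_mem _ ha hb
  · intro c a _ ha
    rw [map_smul]; exact Submodule.smul_mem _ _ ha

omit [Fintype σ] in
theorem Chain.T_P (h : Chain B ρ T r v s) (hT : ∀ x y, B (T x) y = - B x (T y)) {k : ℕ}
    (hk : k < r) {x : V} (hx : ∀ j < k, B x (v j) = 0) : ∀ j < k + 1, B (T x) (v j) = 0 := by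
  intro j hj
  rw [hT, neg_eq_zero]
  exact B_Q hx (Q_mono v (by omega) (h.low j (by omega)))

theorem exists_step (hB : B.IsSymm) (hρ : Arms B ρ) (hT : ∀ x y, B (T x) y = - B x (T y))
    {m : ℕ} (hm : ∀ l : List σ, m ≤ l.length → ∀ x, wd ρ T l x = 0)
    (h : Chain B ρ T r v s)
    (hnot : ¬ ∀ x, (∀ k < r, B x (v k) = 0) → T x ∈ Q K v r) :
    ∃ v' s', Chain B ρ T (r + 1) v' s' := by
  classical
  have hsy : ∀ x y, B x y = B y x := fun x y => hB.eq x y
  set P : V → Prop := fun x => ∀ k < r, B x (v k) = 0 with hP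
  have hTP : ∀ x, P x → P (T x) := by
    intro x hx k hk
    rw [hT, neg_eq_zero]
    exact B_Q hx (Q_mono v (by omega) (h.low k hk))
  have hρP : ∀ t x, P x → P (ρ t x) := by
    intro t x hx k hk
    rw [hρ.adj]
    exact B_Q hx (h.rho_Q hρ t le_rfl (mem_Q v hk))
  have hwP : ∀ (l : List σ) x, P x → P (wd ρ T l x) := by
    intro l x hx
    induction l with
    | nil => rw [wd_nil]; exact hx
    | cons t l ih => rw [wd_cons]; exact hTP _ (hρP _ _ ih)
  set good : ℕ → Prop := fun n => ∃ l : List σ, l.length = n ∧ ∃ x, P x ∧ wd ρ T l x ∉ Q K v r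
    with hgood
  have h1 : good 1 := by
    by_contra hcon
    apply hnot
    intro x hx
    have h2 : T x = ∑ t, T (ρ t x) := by
      conv_lhs => rw [← hρ.sum x, map_sum]
    rw [h2]
    refine Submodule.sum_mem _ fun t _ => ?_
    by_contra h3
    exact hcon ⟨[t], rfl, x, hx, by rw [wd_cons, wd_nil]; exact h3⟩
  have hmax : ∃ n, 1 ≤ n ∧ good n ∧ ¬ good (n + 1) := by
    by_contra hcon
    push Not at hcon
    have hall : ∀ n, good (n + 1) := by
      intro n
      induction n with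
      | zero => exact h1
      | succ n ih => exact hcon (n + 1) (by omega) ih
    obtain ⟨l, hl, x, _, hx⟩ := hall m
    apply hx
    rw [hm l (by omega) x]
    exact Submodule.zero_mem _
  obtain ⟨n, hn1, ⟨l, hl, x, hxP, hxQ⟩, hnn⟩ := hmax
  obtain ⟨t0, l', rfl⟩ : ∃ t0 l', l = t0 :: l' := by
    cases l with
    | nil => simp at hl; omega
    | cons t0 l' => exact ⟨t0, l', rfl⟩
  set y := wd ρ T (t0 :: l') x with hy
  have hyt : ∃ t, ρ t y ∉ Q K v r := by
    by_contra hcon
    push Not at hcon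
    apply hxQ
    rw [← hρ.sum y]
    exact Submodule.sum_mem _ fun t _ => hcon t
  obtain ⟨t, ht⟩ := hyt
  have hyP : P y := hwP _ _ hxP
  have hvP : P (ρ t y) := hρP _ _ hyP
  have hTv : T (ρ t y) ∈ Q K v r := by
    by_contra hcon
    apply hnn
    refine ⟨t :: t0 :: l', by simpa using hl, x, hxP, ?_⟩
    rw [wd_cons]
    exact hcon
  have hself : B (ρ t y) (ρ t y) = 0 := by
    have h3 : B (ρ t y) (T (ρ t0 (wd ρ T l' x))) = - B (T (ρ t y)) (ρ t0 (wd ρ T l' x)) := by
      rw [hT, neg_neg]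
    have h4 : B (ρ t y) (ρ t y) = B (ρ t y) y := by rw [← hρ.adj, hρ.idem]
    have h5 : y = T (ρ t0 (wd ρ T l' x)) := by rw [hy, wd_cons]
    calc B (ρ t y) (ρ t y) = B (ρ t y) y := h4
      _ = B (ρ t y) (T (ρ t0 (wd ρ T l' x))) := by rw [← h5]
      _ = - B (T (ρ t y)) (ρ t0 (wd ρ T l' x)) := h3
      _ = - B (ρ t0 (wd ρ T l' x)) (T (ρ t y)) := by rw [hsy]
      _ = 0 := by rw [B_Q (hρP _ _ (hwP l' x hxP)) hTv, neg_zero]
  refine ⟨fun k => if k = r then ρ t y else v k, fun k => if k = r then t else s k, ?_⟩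
  have hQ : ∀ k ≤ r, Q K (fun k => if k = r then ρ t y else v k) k = Q K v k := by
    intro k hk
    unfold Q
    congr 1
    refine Set.image_congr fun a ha => ?_
    have : a < k := ha
    simp only [if_neg (show a ≠ r by omega)]
  refine ⟨?_, ?_, ?_, ?_⟩
  · intro k hk
    by_cases hkr : k = r
    · simp only [hkr, if_true]; exact hρ.idem _ _
    · simp only [if_neg hkr]; exact h.hom k (by omega)
  · intro k hk
    rw [hQ k (by omega)]
    by_cases hkr : k = r
    · simp only [hkr, if_true]; exact ht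
    · simp only [if_neg hkr]; exact h.ind k (by omega)
  · intro j hj k hk
    by_cases hjr : j = r <;> by_cases hkr : k = r
    · simp only [hjr, hkr, if_true]; exact hself
    · simp only [hjr, if_true, if_neg hkr]; exact hvP k (by omega)
    · simp only [hkr, if_true, if_neg hjr]
      rw [hsy]; exact hvP j (by omega)
    · simp only [if_neg hkr, if_neg hjr]; exact h.iso j (by omega) k (by omega)
  · intro k hk
    rw [hQ k (by omega)]
    by_cases hkr : k = r
    · simp only [hkr, if_true]; exact hTv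
    · simp only [if_neg hkr]; exact h.low k (by omega)

theorem exists_chain [FiniteDimensional K V] [Nonempty σ] (hB : B.IsSymm) (hρ : Arms B ρ)
    (hT : ∀ x y, B (T x) y = - B x (T y))
    {m : ℕ} (hm : ∀ l : List σ, m ≤ l.length → ∀ x, wd ρ T l x = 0) :
    ∃ r v s, Chain B ρ T r v s ∧ ∀ x, (∀ k < r, B x (v k) = 0) → T x ∈ Q K v r := by
  by_contra hcon
  push Not at hcon
  have hall : ∀ r, ∃ v s, Chain B ρ T r v s := by
    intro r
    induction r with
    | zero =>
      exact ⟨fun _ => 0, fun _ => Classical.arbitrary σ, ⟨fun k hk => absurd hk (by omega),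
        fun k hk => absurd hk (by omega), fun k hk => absurd hk (by omega),
        fun k hk => absurd hk (by omega)⟩⟩
    | succ r ih =>
      obtain ⟨v, s, h⟩ := ih
      refine exists_step hB hρ hT hm h ?_
      intro h2
      obtain ⟨x, hx, hx'⟩ := hcon r v s h
      exact hx' (h2 x hx)
  obtain ⟨v, s, h⟩ := hall (finrank K V + 1)
  have h1 := finrank_Q v h.ind (finrank K V + 1) le_rfl
  have h2 := Submodule.finrank_le (Q K v (finrank K V + 1))
  omega

omit [Fintype σ] in
/-- the nilpotency of `T * A` -/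
theorem isNilpotent_mul (hT : ∀ x y, B (T x) y = - B x (T y)) (h : Chain B ρ T r v s)
    (hlast : ∀ x, (∀ k < r, B x (v k) = 0) → T x ∈ Q K v r) (L : Submodule K V)
    (hTL : ∀ x, T x ∈ L) (hL : ∀ x ∈ L, T x = 0) (A : Module.End K V)
    (hA1 : ∀ k ≤ r, ∀ x ∈ L, x ∈ Q K v k → ∃ l ∈ L, ∃ q ∈ Q K v k, A x = l + q)
    (hA2 : ∀ k ≤ r, ∀ x ∈ L, (∀ j < k, B x (v j) = 0) →
      ∃ l ∈ L, ∃ q, (∀ j < k, B q (v j) = 0) ∧ A x = l + q) :
    IsNilpotent (T * A) := by
  have e1 : ∀ k ≤ r, ∀ x, ((T * A) ^ (k + 1)) x ∈ L ∧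
      ∀ j < k, B (((T * A) ^ (k + 1)) x) (v j) = 0 := by
    intro k
    induction k with
    | zero =>
      intro _ x
      refine ⟨?_, fun j hj => absurd hj (by omega)⟩
      rw [zero_add, pow_one, Module.End.mul_apply]
      exact hTL _
    | succ k ih =>
      intro hk x
      obtain ⟨h1, h2⟩ := ih (by omega) x
      rw [pow_succ' _ (k + 1), Module.End.mul_apply, Module.End.mul_apply]
      refine ⟨hTL _, ?_⟩
      obtain ⟨l, hl, q, hq, hlq⟩ := hA2 k (by omega) _ h1 h2
      rw [hlq, map_add, hL l hl, zero_add]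
      exact h.T_P hT (by omega) hq
  have e2 : ∀ k ≤ r, ∀ x, ((T * A) ^ (r + 2 + k)) x ∈ L ∧
      ((T * A) ^ (r + 2 + k)) x ∈ Q K v (r - k) := by
    intro k
    induction k with
    | zero =>
      intro _ x
      obtain ⟨h1, h2⟩ := e1 r le_rfl x
      rw [add_zero, show r + 2 = (r + 1) + 1 from rfl, pow_succ' _ (r + 1), Module.End.mul_apply,
        Module.End.mul_apply, Nat.sub_zero]
      refine ⟨hTL _, ?_⟩
      obtain ⟨l, hl, q, hq, hlq⟩ := hA2 r le_rfl _ h1 h2
      rw [hlq, map_add, hL l hl, zero_add]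
      exact hlast q hq
    | succ k ih =>
      intro hk x
      obtain ⟨h1, h2⟩ := ih (by omega) x
      rw [show r + 2 + (k + 1) = (r + 2 + k) + 1 from rfl, pow_succ' _ (r + 2 + k),
        Module.End.mul_apply, Module.End.mul_apply]
      refine ⟨hTL _, ?_⟩
      obtain ⟨l, hl, q, hq, hlq⟩ := hA1 (r - k) (by omega) _ h1 h2
      rw [hlq, map_add, hL l hl, zero_add]
      refine h.T_Q (k := r - (k + 1)) (by omega) ?_
      rw [show r - (k + 1) + 1 = r - k by omega]
      exact hq
  refine ⟨r + 2 + r, ?_⟩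
  ext x
  have := (e2 r le_rfl x).2
  rw [Nat.sub_self, Q_zero, Submodule.mem_bot] at this
  rw [this, LinearMap.zero_apply]

end Crest.Agent.R172.NilSp
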