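import Crest.Agent.R172.NilSp1
import Crest.Agent.R172.Adapt

/-!
R172, node NIL^sp: the connection adapted to a flag of constant subspaces and to a flag of isotropic
subspaces over a differential field.
-/

namespace Crest.Agent.R172.NilSp

open Module Crest.Agent.R172.Adapt

variable {k K : Type*} [Field k] [Field K] [Algebra k K]
variable {ι : Type*} [Fintype ι] [DecidableEq ι]

/-- the form `∑ x i * y (inv i)` -/
def uf (K : Type*) [Field K] (inv : ι → ι) : LinearMap.BilinForm K (ι → K) :=
  LinearMap.mk₂ K (fun x y => ∑ i, x i * y (inv i))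
    (fun x x' y => by simp [add_mul, Finset.sum_add_distrib])
    (fun c x y => by simp [Finset.mul_sum, mul_assoc])
    (fun x y y' => by simp [mul_add, Finset.sum_add_distrib])
    (fun c x y => by
      simp only [Pi.smul_apply, smul_eq_mul, Finset.mul_sum]
      exact Finset.sum_congr rfl fun i _ => by ring)

omit [DecidableEq ι] in
theorem uf_apply (inv : ι → ι) (x y : ι → K) : uf K inv x y = ∑ i, x i * y (inv i) := rfl

omit [DecidableEq ι] in
theorem uf_comm {inv : ι → ι} (hinv : Function.Involutive inv) (x y : ι → K) :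
    uf K inv x y = uf K inv y x := by
  rw [uf_apply, uf_apply]
  refine Finset.sum_equiv hinv.toPerm (by simp) ?_
  intro i _
  show x i * y (inv i) = y (inv i) * x (inv (inv i))
  rw [hinv i, mul_comm]

omit [DecidableEq ι] in
theorem uf_symm {inv : ι → ι} (hinv : Function.Involutive inv) : (uf K inv).IsSymm :=
  ⟨fun x y => uf_comm hinv x y⟩

theorem uf_single_left (inv : ι → ι) (i : ι) (y : ι → K) :
    uf K inv (Pi.single i 1) y = y (inv i) := by
  rw [uf_apply, Finset.sum_eq_single i]
  · simp
  · intro j _ hj; simp [hj]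
  · intro h; exact absurd (Finset.mem_univ i) h

theorem hyp_basisFun (inv : ι → ι) :
    Hyp (uf K inv) inv (Pi.basisFun K ι) := by
  intro i j
  rw [Pi.basisFun_apply, Pi.basisFun_apply, uf_single_left, Pi.single_apply]
  by_cases h : j = inv i
  · rw [if_pos h, if_pos h.symm]
  · rw [if_neg h, if_neg (fun h' => h h'.symm)]

/-- coordinatewise derivative -/
def Dt (D : Derivation k K K) (x : ι → K) : ι → K := fun i => D (x i)

omit [Fintype ι] [DecidableEq ι] in
theorem Dt_add (D : Derivation k K K) (x y : ι → K) : Dt D (x + y) = Dt D x + Dt D y := by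
  funext i; simp [Dt]

omit [Fintype ι] [DecidableEq ι] in
theorem Dt_smul (D : Derivation k K K) (c : K) (x : ι → K) :
    Dt D (c • x) = c • Dt D x + D c • x := by
  funext i
  simp only [Dt, Pi.smul_apply, smul_eq_mul, Derivation.leibniz, Pi.add_apply]
  ring

omit [DecidableEq ι] in
theorem D_uf (D : Derivation k K K) (inv : ι → ι) (x y : ι → K) :
    D (uf K inv x y) = uf K inv (Dt D x) y + uf K inv x (Dt D y) := by
  rw [uf_apply, uf_apply, uf_apply, map_sum, ← Finset.sum_add_distrib]
  refine Finset.sum_congr rfl fun i _ => ?_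
  simp only [Derivation.leibniz, smul_eq_mul, Dt]
  ring

/-- the connection killing the basis `b` -/
noncomputable def nab (D : Derivation k K K) (b : Basis ι K (ι → K)) (x : ι → K) : ι → K :=
  ∑ i, D (b.repr x i) • b i

omit [DecidableEq ι] in
theorem nab_add (D : Derivation k K K) (b : Basis ι K (ι → K)) (x y : ι → K) :
    nab D b (x + y) = nab D b x + nab D b y := by
  unfold nab
  rw [← Finset.sum_add_distrib]
  refine Finset.sum_congr rfl fun i _ => ?_
  rw [map_add, Finsupp.add_apply, map_add, add_smul]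

omit [DecidableEq ι] in
theorem nab_smul (D : Derivation k K K) (b : Basis ι K (ι → K)) (c : K) (x : ι → K) :
    nab D b (c • x) = c • nab D b x + D c • x := by
  unfold nab
  conv_rhs => rw [← b.sum_repr x]
  rw [Finset.smul_sum, Finset.smul_sum, ← Finset.sum_add_distrib]
  refine Finset.sum_congr rfl fun i _ => ?_
  rw [map_smul, Finsupp.smul_apply, smul_eq_mul, Derivation.leibniz, add_smul, smul_eq_mul,
    smul_eq_mul, mul_smul]
  rw [b.sum_repr x, mul_comm, mul_smul]

/-- the difference of the constant connection and `nab` -/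
noncomputable def ZZ (D : Derivation k K K) (b : Basis ι K (ι → K)) : (ι → K) →ₗ[K] (ι → K) where
  toFun x := Dt D x - nab D b x
  map_add' x y := by rw [Dt_add, nab_add]; abel
  map_smul' c x := by
    rw [Dt_smul, nab_smul, RingHom.id_apply, smul_sub]; abel

theorem ZZ_skew {inv : ι → ι} (hinv : Function.Involutive inv) (D : Derivation k K K)
    (b : Basis ι K (ι → K)) (hb : Hyp (uf K inv) inv b) (x y : ι → K) :
    uf K inv (ZZ D b x) y + uf K inv x (ZZ D b y) = 0 := by
  have h1 := D_uf D inv x y
  have hL : ∀ x y : ι → K, uf K inv (nab D b x) y = ∑ i, D (b.repr x i) * b.repr y (inv i) := by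
    intro x y
    unfold nab
    rw [map_sum, LinearMap.sum_apply]
    refine Finset.sum_congr rfl fun i _ => ?_
    rw [map_smul, LinearMap.smul_apply, smul_eq_mul, hb.repr_eq' (uf_symm hinv) hinv]
  have h2 : D (uf K inv x y) = uf K inv (nab D b x) y + uf K inv x (nab D b y) := by
    have h3 : uf K inv x y = ∑ i, b.repr x i * b.repr y (inv i) := by
      conv_lhs => rw [← b.sum_repr x]
      rw [map_sum, LinearMap.sum_apply]
      refine Finset.sum_congr rfl fun i _ => ?_
      rw [map_smul, LinearMap.smul_apply, smul_eq_mul, hb.repr_eq' (uf_symm hinv) hinv]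
    have h4 : uf K inv x (nab D b y) = ∑ i, b.repr x i * D (b.repr y (inv i)) := by
      rw [uf_comm hinv, hL]
      refine Finset.sum_equiv hinv.toPerm (by simp) ?_
      intro i _
      show D (b.repr y i) * b.repr x (inv i) = b.repr x (inv i) * D (b.repr y (inv (inv i)))
      rw [hinv i, mul_comm]
    rw [h3, hL, h4, map_sum, ← Finset.sum_add_distrib]
    refine Finset.sum_congr rfl fun i _ => ?_
    rw [Derivation.leibniz, smul_eq_mul, smul_eq_mul]
    ring
  have h5 : ZZ D b x = Dt D x - nab D b x := rfl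
  have h6 : ZZ D b y = Dt D y - nab D b y := rfl
  rw [h5, h6, map_sub, LinearMap.sub_apply, map_sub]
  rw [h1] at h2
  linear_combination h2

/-- the adapted connection in one arm -/
theorem arm_conn {inv : ι → ι} (hinv : Function.Involutive inv) (lam : ι → ℝ)
    (hlam : ∀ i, lam (inv i) = - lam i) (hfix : ∀ i j, inv i = i → inv j = j → i = j)
    (D : Derivation k K K) (v : ℕ → (ι → K)) (r : ℕ) (hli : ∀ a < r, v a ∉ Q K v a)
    (hiso : ∀ a < r, ∀ c < r, uf K inv (v a) (v c) = 0) :
    ∃ Z : (ι → K) →ₗ[K] (ι → K), (∀ x y, uf K inv (Z x) y + uf K inv x (Z y) = 0) ∧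
      (∀ i j, Z (Pi.single j 1) i ≠ 0 → lam j ≤ lam i) ∧
      ∀ a < r, Dt D (v a) - Z (v a) ∈ Q K v (a + 1) := by
  rcases isEmpty_or_nonempty ι with hι | hι
  · refine ⟨0, fun x y => by simp, fun i => (hι.false i).elim, fun a _ => ?_⟩
    have : Dt D (v a) - (0 : (ι → K) →ₗ[K] (ι → K)) (v a) = 0 := Subsingleton.elim _ _
    rw [this]
    exact Submodule.zero_mem _
  obtain ⟨b, hb, hge, j, hj1, hj2, hspan⟩ := exists_adapted (uf_symm (K := K) hinv) hinv
    (Pi.basisFun K ι) (hyp_basisFun inv) lam hlam hfix v r hli hiso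
  have hbge : ∀ i i', b i i' ≠ 0 → lam i ≤ lam i' := by
    intro i i' hne
    have h1 := (mem_Vge_iff (Pi.basisFun K ι) lam (lam i)).mp (hge i)
    exact h1 i' (by rw [Pi.basisFun_repr]; exact hne)
  refine ⟨ZZ D b, fun x y => ZZ_skew hinv D b hb x y, ?_, ?_⟩
  · intro i i0 hne
    have h1 : ZZ D b (Pi.single i0 1) = Dt D (Pi.single i0 1) - nab D b (Pi.single i0 1) := rfl
    have h2 : Dt D (Pi.single i0 (1 : K)) = 0 := by
      funext i'
      unfold Dt
      by_cases h : i' = i0
      · subst h; simp
      · simp [h]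
    rw [h1, h2, zero_sub] at hne
    have h3 : nab D b (Pi.single i0 1) i ≠ 0 := by
      intro h; apply hne; rw [Pi.neg_apply, h, neg_zero]
    unfold nab at h3
    rw [Finset.sum_apply] at h3
    obtain ⟨i1, _, hi1⟩ := Finset.exists_ne_zero_of_sum_ne_zero h3
    rw [Pi.smul_apply, smul_eq_mul] at hi1
    have h4 : b.repr (Pi.single i0 1) i1 ≠ 0 := by
      intro h; rw [h, map_zero, zero_mul] at hi1; exact hi1 rfl
    have h5 : b i1 i ≠ 0 := right_ne_zero_of_mul hi1
    rw [hb.repr_eq hinv, uf_single_left] at h4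
    have h6 := hbge _ _ h4
    rw [hlam, hlam] at h6
    have h7 := hbge _ _ h5
    linarith
  · intro a ha
    have h1 : Dt D (v a) - ZZ D b (v a) = nab D b (v a) := by
      show Dt D (v a) - (Dt D (v a) - nab D b (v a)) = _
      abel
    rw [h1]
    have h2 : v a ∈ Submodule.span K ((fun x => b (j x)) '' Set.Iio (a + 1)) := by
      rw [← hspan (a + 1) (by omega)]
      exact mem_Q v (Nat.lt_succ_self a)
    have h3 : Q K v (a + 1) = Submodule.span K ((fun x => b (j x)) '' Set.Iio (a + 1)) :=
      hspan (a + 1) (by omega)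
    rw [h3]
    refine Submodule.span_induction (p := fun x _ => nab D b x ∈
      Submodule.span K ((fun x => b (j x)) '' Set.Iio (a + 1))) ?_ ?_ ?_ ?_ h2
    · rintro _ ⟨i, hi, rfl⟩
      have : nab D b (b (j i)) = 0 := by
        unfold nab
        refine Finset.sum_eq_zero fun i' _ => ?_
        rw [Basis.repr_self, Finsupp.single_apply]
        split_ifs <;> simp
      show nab D b (b (j i)) ∈ _
      rw [this]
      exact Submodule.zero_mem _
    · have : nab D b 0 = 0 := by unfold nab; simp
      rw [this]; exact Submodule.zero_mem _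
    · intro x y _ _ hx hy
      rw [nab_add]; exact Submodule.add_mem _ hx hy
    · intro c x hx hx'
      rw [nab_smul]
      exact Submodule.add_mem _ (Submodule.smul_mem _ _ hx') (Submodule.smul_mem _ _ hx)

end Crest.Agent.R172.NilSp
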