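import Crest.Agent.R172.NilSp2

/-!
R172, node NIL^sp: the adapted connection on the whole space `U = ⊕ U_s`, and the final theorem.
-/

namespace Crest.Agent.R172.NilSp

open Module Crest.Agent.R172.Adapt

variable {k K : Type*} [Field k] [Field K] [Algebra k K]
variable {δ : Type*} [Fintype δ] [DecidableEq δ] {σ : Type*} [Fintype σ] [DecidableEq σ]

theorem exists_of_lt_count (p : ℕ → Prop) [DecidablePred p] : ∀ r a, a < Nat.count p r →
    ∃ j < r, p j ∧ Nat.count p j = a := by
  intro r
  induction r with
  | zero => intro a ha; simp at ha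
  | succ r ih =>
    intro a ha
    rw [Nat.count_succ] at ha
    by_cases hp : p r
    · rw [if_pos hp] at ha
      rcases Nat.lt_or_ge a (Nat.count p r) with h | h
      · obtain ⟨j, hj, hpj, hc⟩ := ih a h
        exact ⟨j, by omega, hpj, hc⟩
      · exact ⟨r, by omega, hp, by omega⟩
    · rw [if_neg hp] at ha
      obtain ⟨j, hj, hpj, hc⟩ := ih a (by omega)
      exact ⟨j, by omega, hpj, hc⟩

/-- projector on an arm -/
def rho (K : Type*) [Field K] (arm : δ → σ) (s : σ) : Module.End K (δ → K) where
  toFun x := fun d => if arm d = s then x d else 0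
  map_add' x y := by
    funext d; simp only [Pi.add_apply]; split_ifs <;> simp
  map_smul' c x := by
    funext d; simp only [Pi.smul_apply, RingHom.id_apply]; split_ifs <;> simp

omit [Fintype δ] [DecidableEq δ] [Fintype σ] in
theorem rho_apply (arm : δ → σ) (s : σ) (x : δ → K) (d : δ) :
    rho K arm s x d = if arm d = s then x d else 0 := rfl

/-- restriction to an arm -/
def res (K : Type*) [Field K] (arm : δ → σ) (s : σ) : (δ → K) →ₗ[K] ({d // arm d = s} → K) where
  toFun x := fun d => x d.1
  map_add' _ _ := rfl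
  map_smul' _ _ := rfl

/-- extension by zero -/
def ext (K : Type*) [Field K] (arm : δ → σ) (s : σ) : ({d // arm d = s} → K) →ₗ[K] (δ → K) where
  toFun x := fun d => if h : arm d = s then x ⟨d, h⟩ else 0
  map_add' x y := by
    funext d; simp only [Pi.add_apply]; split_ifs <;> simp
  map_smul' c x := by
    funext d; simp only [Pi.smul_apply, RingHom.id_apply]; split_ifs <;> simp

omit [Fintype δ] [DecidableEq δ] [Fintype σ] in
theorem ext_apply (arm : δ → σ) (s : σ) (x : {d // arm d = s} → K) (d : δ) :
    ext K arm s x d = if h : arm d = s then x ⟨d, h⟩ else 0 := rfl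

omit [Fintype δ] [DecidableEq δ] [Fintype σ] in
theorem ext_res (arm : δ → σ) (s : σ) (x : δ → K) : ext K arm s (res K arm s x) = rho K arm s x := by
  funext d
  rw [ext_apply, rho_apply]
  by_cases h : arm d = s <;> simp [h, res]

/-- the involution of an arm -/
def invs (arm : δ → σ) (inv : δ → δ) (ha : ∀ d, arm (inv d) = arm d) (s : σ) :
    {d // arm d = s} → {d // arm d = s} := fun d => ⟨inv d.1, by rw [ha, d.2]⟩

omit [DecidableEq δ] [Fintype σ] in
theorem uf_ext (arm : δ → σ) (inv : δ → δ) (ha : ∀ d, arm (inv d) = arm d) (s : σ)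
    (z : {d // arm d = s} → K) (y : δ → K) :
    uf K inv (ext K arm s z) y = uf K (invs arm inv ha s) z (res K arm s y) := by
  rw [uf_apply, uf_apply]
  symm
  refine Fintype.sum_of_injective (fun d : {d // arm d = s} => d.1) Subtype.val_injective _ _ ?_ ?_
  · intro d hd
    rw [ext_apply, dif_neg, zero_mul]
    intro h
    exact hd ⟨⟨d, h⟩, rfl⟩
  · rintro ⟨d, hd⟩
    rw [ext_apply, dif_pos hd]
    rfl

/-- the adapted connection -/
theorem total_conn {arm : δ → σ} {inv : δ → δ} (hinv : Function.Involutive inv)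
    (ha : ∀ d, arm (inv d) = arm d) (w : δ → ℝ) (hw : ∀ d, w (inv d) = - w d)
    (hfix : ∀ i j, arm i = arm j → inv i = i → inv j = j → i = j)
    (D : Derivation k K K) (v : ℕ → (δ → K)) (t : ℕ → σ) (r : ℕ)
    (hom : ∀ j < r, rho K arm (t j) (v j) = v j) (ind : ∀ j < r, v j ∉ Q K v j)
    (iso : ∀ i < r, ∀ j < r, uf K inv (v i) (v j) = 0) :
    ∃ Z : Module.End K (δ → K), (∀ x y, uf K inv (Z x) y + uf K inv x (Z y) = 0) ∧
      (∀ d e, Z (Pi.single e 1) d ≠ 0 → arm d = arm e ∧ w e ≤ w d) ∧
      ∀ j < r, Dt D (v j) - Z (v j) ∈ Q K v (j + 1) := by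
  classical
  have key : ∀ s : σ, ∃ Z : ({d // arm d = s} → K) →ₗ[K] ({d // arm d = s} → K),
      (∀ x y, uf K (invs arm inv ha s) (Z x) y + uf K (invs arm inv ha s) x (Z y) = 0) ∧
      (∀ i j, Z (Pi.single j 1) i ≠ 0 → w j.1 ≤ w i.1) ∧
      ∀ j < r, t j = s → ext K arm s (Dt D (res K arm s (v j)) - Z (res K arm s (v j)))
        ∈ Q K v (j + 1) := by
    intro s
    set p : ℕ → Prop := fun j => t j = s with hp
    set vs : ℕ → ({d // arm d = s} → K) := fun a => res K arm s (v (Nat.nth p a)) with hvs
    have hext : ∀ j < r, p j → ext K arm s (res K arm s (v j)) = v j := by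
      intro j hj hpj
      have h1 := hom j hj
      rw [show t j = s from hpj] at h1
      rw [ext_res, h1]
    have hQ : ∀ j ≤ r, ∀ a, a ≤ Nat.count p j → ∀ x ∈ Q K vs a, ext K arm s x ∈ Q K v j := by
      intro j hj a haj x hx
      refine Submodule.span_induction (p := fun x _ => ext K arm s x ∈ Q K v j) ?_ ?_ ?_ ?_ hx
      · rintro _ ⟨a', ha', rfl⟩
        have ha'' : a' < a := ha'
        obtain ⟨j', hj', hpj', hc⟩ := exists_of_lt_count p j a' (by omega)
        have h2 : Nat.nth p a' = j' := by rw [← hc]; exact Nat.nth_count hpj'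
        show ext K arm s (res K arm s (v (Nat.nth p a'))) ∈ _
        rw [h2, hext j' (by omega) hpj']
        exact mem_Q v hj'
      · rw [map_zero]; exact Submodule.zero_mem _
      · intro x y _ _ hx hy
        rw [map_add]; exact Submodule.add_mem _ hx hy
      · intro c x _ hx
        rw [map_smul]; exact Submodule.smul_mem _ _ hx
    have hsinv : Function.Involutive (invs arm inv ha s) := fun d => Subtype.ext (hinv d.1)
    obtain ⟨Z, hZ1, hZ2, hZ3⟩ := arm_conn (k := k) (K := K) hsinv (fun d => w d.1)
      (fun d => hw d.1) (fun i j hi hj => Subtype.ext (hfix i.1 j.1 (by rw [i.2, j.2])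
        (congrArg Subtype.val hi) (congrArg Subtype.val hj))) D vs (Nat.count p r) (by
        intro a har hmem
        obtain ⟨j, hj, hpj, hc⟩ := exists_of_lt_count p r a har
        have h2 : Nat.nth p a = j := by rw [← hc]; exact Nat.nth_count hpj
        apply ind j hj
        have h3 := hQ j (by omega) a (by omega) (vs a) hmem
        rw [show vs a = res K arm s (v (Nat.nth p a)) from rfl, h2, hext j hj hpj] at h3
        exact h3) (by
        intro a har c hcr
        obtain ⟨j, hj, hpj, hcj⟩ := exists_of_lt_count p r a har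
        obtain ⟨j', hj', hpj', hcj'⟩ := exists_of_lt_count p r c hcr
        have h2 : Nat.nth p a = j := by rw [← hcj]; exact Nat.nth_count hpj
        have h2' : Nat.nth p c = j' := by rw [← hcj']; exact Nat.nth_count hpj'
        show uf K (invs arm inv ha s) (res K arm s (v (Nat.nth p a)))
          (res K arm s (v (Nat.nth p c))) = 0
        rw [← uf_ext arm inv ha s, h2, h2', hext j hj hpj]
        exact iso j hj j' hj')
    refine ⟨Z, hZ1, hZ2, ?_⟩
    intro j hj hpj
    have h1 : Nat.count p j < Nat.count p r := Nat.count_strict_mono hpj hj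
    have h2 := hZ3 (Nat.count p j) h1
    rw [show vs (Nat.count p j) = res K arm s (v j) by
      show res K arm s (v (Nat.nth p (Nat.count p j))) = _
      rw [Nat.nth_count hpj]] at h2
    refine hQ (j + 1) (by omega) (Nat.count p j + 1) ?_ _ h2
    rw [Nat.count_succ, if_pos hpj]
  choose Z hZ1 hZ2 hZ3 using key
  refine ⟨∑ s, (ext K arm s) ∘ₗ (Z s) ∘ₗ (res K arm s), ?_, ?_, ?_⟩
  · intro x y
    rw [LinearMap.sum_apply, LinearMap.sum_apply, map_sum, LinearMap.sum_apply, map_sum,
      ← Finset.sum_add_distrib]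
    refine Finset.sum_eq_zero fun s _ => ?_
    rw [LinearMap.comp_apply, LinearMap.comp_apply, LinearMap.comp_apply, LinearMap.comp_apply,
      uf_ext arm inv ha s, uf_comm hinv x, uf_ext arm inv ha s]
    have hsinv : Function.Involutive (invs arm inv ha s) := fun d => Subtype.ext (hinv d.1)
    rw [uf_comm hsinv (Z s (res K arm s y))]
    exact hZ1 s _ _
  · intro d e hne
    rw [LinearMap.sum_apply, Finset.sum_apply] at hne
    obtain ⟨s, _, hs⟩ := Finset.exists_ne_zero_of_sum_ne_zero hne
    rw [LinearMap.comp_apply, LinearMap.comp_apply, ext_apply] at hs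
    by_cases hds : arm d = s
    · rw [dif_pos hds] at hs
      by_cases hes : arm e = s
      · have h1 : res K arm s (Pi.single e 1) = Pi.single ⟨e, hes⟩ 1 := by
          funext x
          show (Pi.single e 1 : δ → K) x.1 = _
          by_cases hx : x = ⟨e, hes⟩
          · rw [hx]; simp
          · have hx' : x.1 ≠ e := fun h => hx (Subtype.ext h)
            rw [Pi.single_eq_of_ne hx, Pi.single_eq_of_ne hx']
        rw [h1] at hs
        exact ⟨by rw [hds, hes], hZ2 s _ _ hs⟩
      · have h1 : res K arm s (Pi.single e 1) = 0 := by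
          funext x
          show (Pi.single e 1 : δ → K) x.1 = _
          have hx' : x.1 ≠ e := fun h => hes (by rw [← h, x.2])
          rw [Pi.single_eq_of_ne hx']; rfl
        rw [h1, map_zero] at hs
        exact absurd rfl hs
    · rw [dif_neg hds] at hs
      exact absurd rfl hs
  · intro j hj
    have h1 : (∑ s, (ext K arm s) ∘ₗ (Z s) ∘ₗ (res K arm s)) (v j)
        = ext K arm (t j) (Z (t j) (res K arm (t j) (v j))) := by
      rw [LinearMap.sum_apply, Finset.sum_eq_single (t j)]
      · rfl
      · intro s _ hs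
        have h2 : res K arm s (v j) = 0 := by
          funext x
          show v j x.1 = 0
          rw [← hom j hj, rho_apply, if_neg]
          intro h
          exact hs (by rw [← h, x.2])
        rw [LinearMap.comp_apply, LinearMap.comp_apply, h2, map_zero, map_zero]
      · intro h; exact absurd (Finset.mem_univ _) h
    have h2 : Dt D (v j) = ext K arm (t j) (Dt D (res K arm (t j) (v j))) := by
      funext d
      rw [ext_apply]
      by_cases h : arm d = t j
      · rw [dif_pos h]; rfl
      · rw [dif_neg h]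
        show D (v j d) = 0
        rw [← hom j hj, rho_apply, if_neg h, map_zero]
    rw [h1, h2, ← map_sub]
    exact hZ3 (t j) j hj rfl

omit [DecidableEq δ] in
theorem arms {arm : δ → σ} {inv : δ → δ} (ha : ∀ d, arm (inv d) = arm d) :
    Arms (uf K inv) (rho K arm) := by
  refine ⟨?_, ?_, ?_, ?_⟩
  · intro s x y
    rw [uf_apply, uf_apply]
    refine Finset.sum_congr rfl fun i _ => ?_
    rw [rho_apply, rho_apply, ha]
    split_ifs <;> simp
  · intro s x
    funext d
    rw [rho_apply, rho_apply]
    split_ifs <;> simp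
  · intro s t x hst
    funext d
    rw [rho_apply, rho_apply]
    split_ifs with h1 h2
    · exact absurd (h1.symm.trans h2) hst
    · rfl
    · rfl
  · intro x
    funext d
    rw [Finset.sum_apply, Finset.sum_eq_single (arm d)]
    · rw [rho_apply, if_pos rfl]
    · intro s _ hs
      rw [rho_apply, if_neg hs.symm]
    · intro h; exact absurd (Finset.mem_univ _) h

/-- **NIL^sp.** `L` isotropic and generic (every skew direction `ξ` is realised by a derivation `D`
with `(D - ξ) L ⊆ L`); `T` skew with values in `L`, strictly triangular in every arm, and with long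
words in the `T ρ_s` equal to zero.  Then `T = 0`. -/
theorem nil_sp [Nonempty σ] (h2 : (2 : K) ≠ 0) {arm : δ → σ} {inv : δ → δ}
    (hinv : Function.Involutive inv)
    (ha : ∀ d, arm (inv d) = arm d) (w : δ → ℝ) (hw : ∀ d, w (inv d) = - w d)
    (hfix : ∀ i j, arm i = arm j → inv i = i → inv j = j → i = j)
    (L : Submodule K (δ → K)) (hL : ∀ x ∈ L, ∀ y ∈ L, uf K inv x y = 0)
    (hgen : ∀ ξ : Module.End K (δ → K), (∀ x y, uf K inv (ξ x) y + uf K inv x (ξ y) = 0) →
      ∃ D : Derivation k K K, ∀ x ∈ L, Dt D x - ξ x ∈ L)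
    (T : Module.End K (δ → K)) (hT : ∀ x y, uf K inv (T x) y = - uf K inv x (T y))
    (hTL : ∀ x, T x ∈ L)
    (hstrict : ∀ d e, arm d = arm e → T (Pi.single e 1) d ≠ 0 → w e < w d)
    {m : ℕ} (hm : ∀ l : List σ, m ≤ l.length → ∀ x, wd (rho K arm) T l x = 0) : T = 0 := by
  classical
  obtain ⟨r, v, t, hch, hlast⟩ := exists_chain (uf_symm hinv) (arms (K := K) ha) hT hm
  have hnd : ∀ x : δ → K, (∀ y, uf K inv x y = 0) → x = 0 := by
    intro x hx
    funext d
    have h3 := hx (Pi.single (inv d) 1)
    rw [uf_comm hinv, uf_single_left, hinv d] at h3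
    exact h3
  have hT0 : ∀ x ∈ L, T x = 0 := by
    intro x hx
    apply hnd
    intro y
    rw [hT, hL x hx _ (hTL y), neg_zero]
  have htr : ∀ ξ : Module.End K (δ → K), (∀ x y, uf K inv (ξ x) y + uf K inv x (ξ y) = 0) →
      LinearMap.trace K (δ → K) (T * ξ) = 0 := by
    intro ξ hξ
    obtain ⟨D, hD⟩ := hgen ξ hξ
    obtain ⟨Z, hZ1, hZ2, hZ3⟩ := total_conn hinv ha w hw hfix D v t r hch.hom hch.ind hch.iso
    have hDQ : ∀ j ≤ r, ∀ x ∈ Q K v j, Dt D x - Z x ∈ Q K v j := by
      intro j hj x hx
      refine Submodule.span_induction (p := fun x _ => Dt D x - Z x ∈ Q K v j) ?_ ?_ ?_ ?_ hx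
      · rintro _ ⟨a, haj, rfl⟩
        have haj' : a < j := haj
        exact Q_mono v (by omega) (hZ3 a (by omega))
      · have : Dt D (0 : δ → K) - Z 0 = 0 := by
          rw [map_zero, sub_zero]
          funext d
          exact map_zero D
        rw [this]; exact Submodule.zero_mem _
      · intro x y _ _ hx hy
        have : Dt D (x + y) - Z (x + y) = (Dt D x - Z x) + (Dt D y - Z y) := by
          rw [Dt_add, map_add]; abel
        rw [this]; exact Submodule.add_mem _ hx hy
      · intro c x hx hx'
        have : Dt D (c • x) - Z (c • x) = c • (Dt D x - Z x) + D c • x := by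
          rw [Dt_smul, map_smul, smul_sub]; abel
        rw [this]
        exact Submodule.add_mem _ (Submodule.smul_mem _ _ hx') (Submodule.smul_mem _ _ hx)
    have hDP : ∀ j ≤ r, ∀ x, (∀ i < j, uf K inv x (v i) = 0) →
        ∀ i < j, uf K inv (Dt D x - Z x) (v i) = 0 := by
      intro j hj x hx i hi
      have h3 := D_uf D inv x (v i)
      rw [hx i hi, map_zero] at h3
      have h4 := hZ1 x (v i)
      have h5 : uf K inv x (Dt D (v i) - Z (v i)) = 0 :=
        B_Q hx (Q_mono v (by omega) (hZ3 i (by omega)))
      rw [map_sub] at h5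
      rw [map_sub, LinearMap.sub_apply]
      linear_combination -h3 - h4 - h5
    have hnil : IsNilpotent (T * (ξ - Z)) := by
      refine isNilpotent_mul hT hch hlast L hTL hT0 (ξ - Z) ?_ ?_
      · intro j hj x hxL hxQ
        refine ⟨-(Dt D x - ξ x), L.neg_mem (hD x hxL), Dt D x - Z x, hDQ j hj x hxQ, ?_⟩
        rw [LinearMap.sub_apply]; abel
      · intro j hj x hxL hxP
        refine ⟨-(Dt D x - ξ x), L.neg_mem (hD x hxL), Dt D x - Z x, hDP j hj x hxP, ?_⟩
        rw [LinearMap.sub_apply]; abel
    have h3 := (LinearMap.isNilpotent_trace_of_isNilpotent hnil).eq_zero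
    rw [mul_sub, map_sub] at h3
    have h4 : LinearMap.trace K (δ → K) (T * Z) = 0 := by
      rw [LinearMap.trace_eq_matrix_trace K (Pi.basisFun K δ), Matrix.trace]
      refine Finset.sum_eq_zero fun e _ => ?_
      rw [Matrix.diag_apply, LinearMap.toMatrix_apply, Pi.basisFun_apply, Pi.basisFun_repr,
        Module.End.mul_apply]
      have h5 : Z (Pi.single e 1) = ∑ d, Z (Pi.single e 1) d • Pi.single d (1 : K) := by
        conv_lhs => rw [← (Pi.basisFun K δ).sum_repr (Z (Pi.single e 1))]
        refine Finset.sum_congr rfl fun d _ => ?_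
        rw [Pi.basisFun_repr, Pi.basisFun_apply]
      rw [h5, map_sum, Finset.sum_apply]
      refine Finset.sum_eq_zero fun d _ => ?_
      rw [map_smul, Pi.smul_apply, smul_eq_mul]
      by_contra hne
      have h6 : Z (Pi.single e 1) d ≠ 0 := left_ne_zero_of_mul hne
      have h7 : T (Pi.single d 1) e ≠ 0 := right_ne_zero_of_mul hne
      obtain ⟨h8, h9⟩ := hZ2 d e h6
      have h10 := hstrict e d h8.symm h7
      linarith
    rw [h4, sub_zero] at h3
    exact h3
  refine LinearMap.ext fun y => ?_
  rw [LinearMap.zero_apply]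
  apply hnd
  intro x
  set ξ : Module.End K (δ → K) :=
    (uf K inv x).smulRight y - (uf K inv y).smulRight x with hξdef
  have hξ : ∀ a b, uf K inv (ξ a) b + uf K inv a (ξ b) = 0 := by
    intro a b
    simp only [hξdef, LinearMap.sub_apply, LinearMap.smulRight_apply, map_sub, map_smul,
      LinearMap.smul_apply, smul_eq_mul]
    rw [uf_comm hinv a y, uf_comm hinv a x]
    ring
  have h3 := htr ξ hξ
  have h4 : T * ξ = (uf K inv x).smulRight (T y) - (uf K inv y).smulRight (T x) := by
    refine LinearMap.ext fun z => ?_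
    simp only [hξdef, Module.End.mul_apply, LinearMap.sub_apply, LinearMap.smulRight_apply,
      map_sub, map_smul]
  rw [h4, map_sub, LinearMap.trace_smulRight, LinearMap.trace_smulRight, uf_comm hinv y (T x),
    hT x y, sub_neg_eq_add, ← two_mul] at h3
  rw [uf_comm hinv]
  exact (mul_eq_zero.mp h3).resolve_left h2

end Crest.Agent.R172.NilSp
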