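import Crest.Agent.R172.FO2

/-!
Row 172 (S0260), node G1.5: the skew fields `ω_Y(f₁,f₂) = f₁ᵀ J d_Y f₂` on the space of isotropic
elements (Lemmas 1 and 2 of 13955 and the linear algebra of the master list v2).

`Kiso` = elements of `𝒦 = N ⊓ W` perpendicular to `𝒦`; `IsY d` = the derivation `d` realises
a direction `(0, Y)`, `Y ∈ so(U)` (only `L` moves); `Om d g f = gᵀ J (d f)`.

If `Om d g f = c_g(f) Om d g g` for all `g, f ∈ Kiso` and all `d` (this is "`T_f` is scalar"),
then `ZZ = {f ∈ Kiso : Om d g f = 0 for all d, g}` has codimension at most one in `Kiso`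
(`finrank_le`), and it is stable under every derivation in the form `mem_ZZ_of_ker`.
-/

set_option autoImplicit false
set_option linter.unusedSectionVars false

namespace Crest.Agent.R172.Om

open Matrix Module Crest.Agent.R172.FO

variable {ι : Type*} [Fintype ι] [DecidableEq ι] {δ : Type*} [Fintype δ] [DecidableEq δ]
variable {k K : Type*} [Field k] [Field K] [Algebra k K]
variable {arm : δ → Fin 3} {J : Matrix ι ι K} {B : Matrix δ δ K} {N W : Submodule K (Matrix ι δ K)}

/-- elements of `𝒦 = N ⊓ W` perpendicular to `𝒦` -/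
def Kiso (J : Matrix ι ι K) (N W : Submodule K (Matrix ι δ K)) :
    Submodule K (Matrix ι δ K) where
  carrier := {G | G ∈ N ⊓ W ∧ ∀ F ∈ N ⊓ W, Gᵀ * J * F = 0}
  zero_mem' := ⟨(N ⊓ W).zero_mem, by intro F _; simp⟩
  add_mem' := by
    rintro G G' ⟨h1, h2⟩ ⟨h1', h2'⟩
    refine ⟨(N ⊓ W).add_mem h1 h1', fun F hF => ?_⟩
    rw [transpose_add, Matrix.add_mul, Matrix.add_mul, h2 F hF, h2' F hF, add_zero]
  smul_mem' := by
    rintro c G ⟨h1, h2⟩
    refine ⟨(N ⊓ W).smul_mem c h1, fun F hF => ?_⟩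
    rw [transpose_smul, Matrix.smul_mul, Matrix.smul_mul, h2 F hF, smul_zero]

theorem mem_Kiso {G : Matrix ι δ K} :
    G ∈ Kiso J N W ↔ G ∈ N ⊓ W ∧ ∀ F ∈ N ⊓ W, Gᵀ * J * F = 0 := Iff.rfl

variable (k) in
/-- `d` realises a direction `(0, Y)` with `Y ∈ so(U)` -/
def IsY (arm : δ → Fin 3) (B : Matrix δ δ K) (N W : Submodule K (Matrix ι δ K))
    (d : Derivation k K K) : Prop :=
  ∃ Y : Matrix δ δ K, Yᵀ * B + B * Y = 0 ∧ Realises arm N W 0 Y d

/-- the field `ω_d(g,f) = gᵀ J d(f)` -/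
def Om (J : Matrix ι ι K) (d : Derivation k K K) (g f : Matrix ι δ K) : Matrix δ δ K :=
  gᵀ * J * f.map d

theorem IsY.map_mem {d : Derivation k K K} (hd : IsY k arm B N W d) {F : Matrix ι δ K}
    (hF : F ∈ N) : F.map d ∈ N := by
  obtain ⟨Y, _, h⟩ := hd
  have := h.onN F hF
  rwa [act_zero, sub_zero] at this

theorem map_smul_der (d : Derivation k K K) (a : K) (F : Matrix ι δ K) :
    (a • F).map d = a • F.map d + d a • F := by
  ext i j
  simp only [Matrix.map_apply, Matrix.smul_apply, Matrix.add_apply, smul_eq_mul, Derivation.leibniz]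
  ring

theorem Om_add_right (d : Derivation k K K) (g f f' : Matrix ι δ K) :
    Om J d g (f + f') = Om J d g f + Om J d g f' := by
  unfold Om
  rw [map_add_der, Matrix.mul_add]

theorem Om_add_left (d : Derivation k K K) (g g' f : Matrix ι δ K) :
    Om J d (g + g') f = Om J d g f + Om J d g' f := by
  unfold Om
  rw [transpose_add, Matrix.add_mul, Matrix.add_mul]

theorem Om_smul_left (d : Derivation k K K) (a : K) (g f : Matrix ι δ K) :
    Om J d (a • g) f = a • Om J d g f := by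
  unfold Om
  rw [transpose_smul, Matrix.smul_mul, Matrix.smul_mul]

theorem Om_smul_right (d : Derivation k K K) (a : K) {g f : Matrix ι δ K}
    (h : gᵀ * J * f = 0) : Om J d g (a • f) = a • Om J d g f := by
  unfold Om
  rw [map_smul_der, Matrix.mul_add, Matrix.mul_smul, Matrix.mul_smul, h, smul_zero, add_zero]

theorem Om_smul_right' (d : Derivation k K K) (a : K) {g f : Matrix ι δ K}
    (hg : g ∈ Kiso J N W) (hf : f ∈ Kiso J N W) : Om J d g (a • f) = a • Om J d g f :=
  Om_smul_right d a (hg.2 f hf.1)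

theorem Om_zero_right (d : Derivation k K K) (g : Matrix ι δ K) :
    Om J d g (0 : Matrix ι δ K) = 0 := by
  unfold Om
  have : (0 : Matrix ι δ K).map d = 0 := by ext i j; simp
  rw [this, Matrix.mul_zero]

/-- derivative of `gᵀ J f = 0` -/
theorem Om_transpose (hD : Data k arm J B N W) (d : Derivation k K K) {g f : Matrix ι δ K}
    (h : gᵀ * J * f = 0) : Om J d g f = -(Om J d f g)ᵀ := by
  have h1 : (gᵀ * J * f).map d = 0 := by rw [h]; ext i j; simp
  rw [map_mul_der, map_mul_der, hD.J_const, Matrix.mul_zero, add_zero, map_transpose_der] at h1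
  have h2 : (Om J d f g)ᵀ = (g.map d)ᵀ * J * f := by
    unfold Om
    rw [transpose_mul, transpose_mul, transpose_transpose, hD.J_symm, Matrix.mul_assoc]
  rw [h2]
  exact eq_neg_of_add_eq_zero_right h1

theorem Om_self_skew (hD : Data k arm J B N W) (d : Derivation k K K) {g : Matrix ι δ K}
    (hg : g ∈ Kiso J N W) : (Om J d g g)ᵀ = -Om J d g g := by
  have := Om_transpose hD d (hg.2 g hg.1)
  rw [eq_neg_iff_add_eq_zero, add_comm, ← eq_neg_iff_add_eq_zero] at this
  exact this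

/-- (Lemma 2, total symmetry) -/
theorem Om_symm (hD : Data k arm J B N W) (d : Derivation k K K) {f1 f2 f3 : Matrix ι δ K}
    (h1 : f1 ∈ Kiso J N W) (h2 : f2 ∈ N ⊓ W) (h3 : f3 ∈ N ⊓ W) (s : Fin 3) :
    Om J d f1 f2 * (E K arm s * B) * f3ᵀ = Om J d f1 f3 * (E K arm s * B) * f2ᵀ := by
  have key := congrArg (fun A : Matrix ι ι K => f1ᵀ * J * A.map d) (hD.symm_arm h2 h3 s)
  simp only [M] at key
  rw [map_mul_der, map_mul_der, map_mul_der, map_mul_der, map_mul_der, map_mul_der, E_map_der,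
    hD.B_const, Matrix.mul_zero, Matrix.mul_zero, Matrix.mul_zero, Matrix.mul_zero, add_zero,
    add_zero, add_zero, add_zero, Matrix.mul_add, Matrix.mul_add] at key
  have e1 : f1ᵀ * J * (f2 * E K arm s * B * f3ᵀ.map d) = 0 := by
    have : f1ᵀ * J * (f2 * E K arm s * B * f3ᵀ.map d)
        = (f1ᵀ * J * f2) * (E K arm s * B * f3ᵀ.map d) := by simp only [Matrix.mul_assoc]
    rw [this, h1.2 f2 h2, Matrix.zero_mul]
  have e2 : f1ᵀ * J * (f3 * E K arm s * B * f2ᵀ.map d) = 0 := by
    have : f1ᵀ * J * (f3 * E K arm s * B * f2ᵀ.map d)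
        = (f1ᵀ * J * f3) * (E K arm s * B * f2ᵀ.map d) := by simp only [Matrix.mul_assoc]
    rw [this, h1.2 f3 h3, Matrix.zero_mul]
  rw [e1, e2, add_zero, add_zero] at key
  unfold Om
  simp only [Matrix.mul_assoc] at key ⊢
  exact key

theorem Om_symm2 (hD : Data k arm J B N W) (d d' : Derivation k K K)
    {f1 f2 f3 : Matrix ι δ K} (f4 : Matrix ι δ K)
    (h1 : f1 ∈ Kiso J N W) (h2 : f2 ∈ N ⊓ W) (h3 : f3 ∈ N ⊓ W) (s : Fin 3) :
    Om J d f1 f2 * (E K arm s * B) * Om J d' f3 f4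
      = Om J d f1 f3 * (E K arm s * B) * Om J d' f2 f4 := by
  have key := congrArg (fun A : Matrix δ ι K => A * (J * f4.map d')) (Om_symm hD d h1 h2 h3 s)
  simp only [Om] at key ⊢
  simp only [Matrix.mul_assoc] at key ⊢
  exact key

variable (k) in
/-- "`T_f` is a scalar": the input from G1.3 -/
def Scal (arm : δ → Fin 3) (J : Matrix ι ι K) (B : Matrix δ δ K)
    (N W : Submodule K (Matrix ι δ K)) : Prop :=
  ∀ g ∈ Kiso J N W, ∃ c : Matrix ι δ K → K, ∀ f ∈ Kiso J N W, ∀ d : Derivation k K K,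
    IsY k arm B N W d → Om J d g f = c f • Om J d g g

variable (k) in
/-- the form of NIL^sp used here (words of length two) -/
def NilSp (arm : δ → Fin 3) (J : Matrix ι ι K) (B : Matrix δ δ K)
    (N W : Submodule K (Matrix ι δ K)) : Prop :=
  ∀ g ∈ Kiso J N W, ∀ d : Derivation k K K, IsY k arm B N W d →
    (∀ s, Om J d g g * (E K arm s * B) * Om J d g g = 0) → Om J d g g = 0

/-- symmetry of `ω` on `Kiso` -/
theorem Om_comm (hD : Data k arm J B N W) (hS : Scal k arm J B N W) {d : Derivation k K K}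
    (hd : IsY k arm B N W d) {g f : Matrix ι δ K} (hg : g ∈ Kiso J N W)
    (hf : f ∈ Kiso J N W) : Om J d f g = Om J d g f := by
  obtain ⟨c, hc⟩ := hS g hg
  rw [Om_transpose hD d (hf.2 g hg.1), hc f hf d hd, transpose_smul, Om_self_skew hD d hg,
    smul_neg, neg_neg]

/-- the kernel of `c_g`: `ω(g,f) = 0` for all `d` implies `ω(f,f) = 0` -/
theorem Om_self_zero (hD : Data k arm J B N W) (hS : Scal k arm J B N W)
    (hN : NilSp k arm J B N W) {g f : Matrix ι δ K} (hg : g ∈ Kiso J N W)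
    (hf : f ∈ Kiso J N W) {d0 : Derivation k K K} (hd0 : IsY k arm B N W d0)
    (h0 : Om J d0 g g ≠ 0) (hgf : ∀ d : Derivation k K K, IsY k arm B N W d → Om J d g f = 0)
    {d : Derivation k K K} (hd : IsY k arm B N W d) : Om J d f f = 0 := by
  obtain ⟨c, hc⟩ := hS (g + f) (Submodule.add_mem _ hg hf)
  have key : ∀ d : Derivation k K K, IsY k arm B N W d →
      Om J d g g = c g • (Om J d g g + Om J d f f) := by
    intro d hd
    have h1 := hc g hg d hd
    rw [Om_add_left, Om_add_left, Om_add_right, Om_add_right, Om_comm hD hS hd hg hf,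
      hgf d hd, add_zero, zero_add] at h1
    exact h1
  have hcg : c g ≠ 0 := by
    intro h
    apply h0
    rw [key d0 hd0, h, zero_smul]
  -- `ω(f,f) = κ ω(g,g)`
  have key2 : ∀ d : Derivation k K K, IsY k arm B N W d →
      Om J d f f = ((c g)⁻¹ - 1) • Om J d g g := by
    intro d hd
    have h1 := key d hd
    have h2 : (c g)⁻¹ • Om J d g g = Om J d g g + Om J d f f := by
      conv_lhs => rw [h1]
      rw [smul_smul, inv_mul_cancel₀ hcg, one_smul]
    rw [sub_smul, one_smul, h2, add_sub_cancel_left]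
  by_cases hk : (c g)⁻¹ - 1 = 0
  · rw [key2 d hd, hk, zero_smul]
  · exfalso
    apply h0
    apply hN g hg d0 hd0
    intro s
    have h3 := Om_symm2 hD d0 d0 (f4 := f) hg hg.1 hf.1 s
    rw [hgf d0 hd0, Matrix.zero_mul, Matrix.zero_mul, key2 d0 hd0, Matrix.mul_smul,
      smul_eq_zero] at h3
    exact h3.resolve_left hk

/-- the structure of `ω` on `Kiso`: zero or of rank one -/
theorem Om_rank_one (hD : Data k arm J B N W) (hS : Scal k arm J B N W)
    (hN : NilSp k arm J B N W) (h2 : (2 : K) ≠ 0) :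
    (∀ g ∈ Kiso J N W, ∀ f ∈ Kiso J N W, ∀ d : Derivation k K K, IsY k arm B N W d →
      Om J d g f = 0) ∨
    ∃ (g0 : Matrix ι δ K) (d0 : Derivation k K K) (c : ↥(Kiso J N W) →ₗ[K] K)
      (hg0 : g0 ∈ Kiso J N W), IsY k arm B N W d0 ∧ Om J d0 g0 g0 ≠ 0 ∧ c ⟨g0, hg0⟩ = 1 ∧
      ∀ (g f : ↥(Kiso J N W)) (d : Derivation k K K), IsY k arm B N W d →
        Om J d g.1 f.1 = (c g * c f) • Om J d g0 g0 := by
  by_cases hall : ∀ f ∈ Kiso J N W, ∀ d : Derivation k K K, IsY k arm B N W d →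
      Om J d f f = 0
  · left
    intro g hg f hf d hd
    obtain ⟨c, hc⟩ := hS g hg
    rw [hc f hf d hd, hall g hg d hd, smul_zero]
  right
  push Not at hall
  obtain ⟨g0, hg0, d0, hd0, h0⟩ := hall
  obtain ⟨i, j, hij⟩ : ∃ i j, Om J d0 g0 g0 i j ≠ 0 := by
    by_contra hcon
    push Not at hcon
    exact h0 (by ext i j; simpa using hcon i j)
  let c : ↥(Kiso J N W) →ₗ[K] K :=
    { toFun := fun f => Om J d0 g0 f.1 i j / Om J d0 g0 g0 i j
      map_add' := by
        intro f f'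
        rw [Submodule.coe_add, Om_add_right, Matrix.add_apply, add_div]
      map_smul' := by
        intro a f
        rw [Submodule.coe_smul, Om_smul_right' d0 a hg0 f.2, Matrix.smul_apply, smul_eq_mul,
          RingHom.id_apply, smul_eq_mul, mul_div_assoc] }
  have hcdef : ∀ f : ↥(Kiso J N W), c f = Om J d0 g0 f.1 i j / Om J d0 g0 g0 i j :=
    fun _ => rfl
  have hc1 : ∀ (f : ↥(Kiso J N W)) (d : Derivation k K K), IsY k arm B N W d →
      Om J d g0 f.1 = c f • Om J d g0 g0 := by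
    intro f d hd
    obtain ⟨c', hc'⟩ := hS g0 hg0
    have h1 := congrFun (congrFun (hc' f.1 f.2 d0 hd0) i) j
    rw [Matrix.smul_apply, smul_eq_mul] at h1
    rw [hc' f.1 f.2 d hd, hcdef, h1, mul_div_cancel_right₀ _ hij]
  have hcg : c ⟨g0, hg0⟩ = 1 := by rw [hcdef]; exact div_self hij
  -- on the kernel of `c`
  have hk : ∀ (f : ↥(Kiso J N W)), c f = 0 → ∀ (d : Derivation k K K), IsY k arm B N W d →
      Om J d f.1 f.1 = 0 := by
    intro f hf d hd
    refine Om_self_zero hD hS hN hg0 f.2 hd0 h0 (fun d' hd' => ?_) hd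
    rw [hc1 f d' hd', hf, zero_smul]
  have hk2 : ∀ (f f' : ↥(Kiso J N W)), c f = 0 → c f' = 0 → ∀ (d : Derivation k K K),
      IsY k arm B N W d → Om J d f.1 f'.1 = 0 := by
    intro f f' hf hf' d hd
    have h3 := hk (f + f') (by rw [map_add, hf, hf', add_zero]) d hd
    rw [Submodule.coe_add, Om_add_left, Om_add_right, Om_add_right, hk f hf d hd,
      hk f' hf' d hd, zero_add, add_zero, Om_comm hD hS hd f.2 f'.2, ← two_smul K,
      smul_eq_zero] at h3
    exact h3.resolve_left h2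
  refine ⟨g0, d0, c, hg0, hd0, h0, hcg, ?_⟩
  intro g f d hd
  set g' : ↥(Kiso J N W) := g - c g • ⟨g0, hg0⟩ with hg'
  set f' : ↥(Kiso J N W) := f - c f • ⟨g0, hg0⟩ with hf'
  have cg' : c g' = 0 := by rw [hg', map_sub, map_smul, hcg, smul_eq_mul, mul_one, sub_self]
  have cf' : c f' = 0 := by rw [hf', map_sub, map_smul, hcg, smul_eq_mul, mul_one, sub_self]
  have eg : g.1 = g'.1 + c g • g0 := by
    rw [hg', Submodule.coe_sub, Submodule.coe_smul, sub_add_cancel]
  have ef : f.1 = f'.1 + c f • g0 := by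
    rw [hf', Submodule.coe_sub, Submodule.coe_smul, sub_add_cancel]
  rw [eg, ef, Om_add_left, Om_add_right, Om_add_right, hk2 g' f' cg' cf' d hd, zero_add,
    Om_smul_left, Om_smul_left, hc1 f' d hd, cf', zero_smul, smul_zero, zero_add,
    Om_smul_right' d (c f) g'.2 hg0, Om_comm hD hS hd hg0 g'.2, hc1 g' d hd, cg', zero_smul,
    smul_zero, zero_add, Om_smul_right' d (c f) hg0 hg0, smul_smul]

end Crest.Agent.R172.Om
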