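import Crest.Agent.R172.Om1

/-!
Row 172 (S0260), node G1.5, second part: the subspace `ZZ` of `Kiso`.
-/

set_option autoImplicit false
set_option linter.unusedSectionVars false

namespace Crest.Agent.R172.Om

open Matrix Module Crest.Agent.R172.FO

variable {ι : Type*} [Fintype ι] [DecidableEq ι] {δ : Type*} [Fintype δ] [DecidableEq δ]
variable {k K : Type*} [Field k] [Field K] [Algebra k K]
variable {arm : δ → Fin 3} {J : Matrix ι ι K} {B : Matrix δ δ K} {N W : Submodule K (Matrix ι δ K)}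

variable (k) in
/-- `ZZ = {F ∈ Kiso : gᵀ J d(F) = 0 for all g ∈ Kiso and all d realising some (0,Y)}` -/
def ZZ (arm : δ → Fin 3) (J : Matrix ι ι K) (B : Matrix δ δ K)
    (N W : Submodule K (Matrix ι δ K)) : Submodule K (Matrix ι δ K) where
  carrier := {F | F ∈ Kiso J N W ∧ ∀ g ∈ Kiso J N W, ∀ d : Derivation k K K,
    IsY k arm B N W d → Om J d g F = 0}
  zero_mem' := ⟨(Kiso J N W).zero_mem, by intro g _ d _; exact Om_zero_right d g⟩
  add_mem' := by
    rintro F F' ⟨h1, h2⟩ ⟨h1', h2'⟩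
    refine ⟨(Kiso J N W).add_mem h1 h1', fun g hg d hd => ?_⟩
    rw [Om_add_right, h2 g hg d hd, h2' g hg d hd, add_zero]
  smul_mem' := by
    rintro a F ⟨h1, h2⟩
    refine ⟨(Kiso J N W).smul_mem a h1, fun g hg d hd => ?_⟩
    rw [Om_smul_right' d a hg h1, h2 g hg d hd, smul_zero]

theorem mem_ZZ {F : Matrix ι δ K} :
    F ∈ ZZ k arm J B N W ↔ F ∈ Kiso J N W ∧ ∀ g ∈ Kiso J N W, ∀ d : Derivation k K K,
      IsY k arm B N W d → Om J d g F = 0 := Iff.rfl

theorem ZZ_le_Kiso : ZZ k arm J B N W ≤ Kiso J N W := fun _ h => h.1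

theorem Kiso_le : Kiso J N W ≤ N ⊓ W := fun _ h => h.1

/-- an element `F` of `Kiso` with `ω(F,F) = 0` for all `d` is in `ZZ` -/
theorem mem_ZZ_of_self (hD : Data k arm J B N W) (hS : Scal k arm J B N W) {F : Matrix ι δ K}
    (hF : F ∈ Kiso J N W)
    (h : ∀ d : Derivation k K K, IsY k arm B N W d → Om J d F F = 0) :
    F ∈ ZZ k arm J B N W := by
  refine ⟨hF, fun g hg d hd => ?_⟩
  obtain ⟨c, hc⟩ := hS F hF
  rw [← Om_comm hD hS hd hg hF, hc g hg d hd, h d hd, smul_zero]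

/-- **`ZZ` has codimension at most one in `Kiso`.** -/
theorem finrank_le (hD : Data k arm J B N W) (hS : Scal k arm J B N W)
    (hN : NilSp k arm J B N W) (h2 : (2 : K) ≠ 0) :
    finrank K ↥(Kiso J N W) ≤ finrank K ↥(ZZ k arm J B N W) + 1 := by
  rcases Om_rank_one hD hS hN h2 with h | ⟨g0, d0, c, hg0, hd0, h0, hcg, h⟩
  · have : Kiso J N W = ZZ k arm J B N W :=
      le_antisymm (fun F hF => ⟨hF, fun g hg d hd => h g hg F hF d hd⟩) ZZ_le_Kiso
    rw [← this]
    omega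
  · have hker : finrank K ↥(LinearMap.ker c) ≤ finrank K ↥(ZZ k arm J B N W) := by
      have hmap : (LinearMap.ker c).map (Kiso J N W).subtype ≤ ZZ k arm J B N W := by
        rintro _ ⟨F, hF, rfl⟩
        refine ⟨F.2, fun g hg d hd => ?_⟩
        have := h ⟨g, hg⟩ F d hd
        rw [show c F = 0 from hF, mul_zero, zero_smul] at this
        exact this
      have h3 := Submodule.finrank_mono hmap
      rwa [Submodule.finrank_map_subtype_eq] at h3
    have h4 := LinearMap.finrank_range_add_finrank_ker c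
    have h5 : finrank K ↥(LinearMap.range c) ≤ 1 :=
      (Submodule.finrank_le _).trans (by rw [Module.finrank_self])
    omega

/-- `(Lemma)` if `F ∈ ZZ`, `w ∈ Kiso` and `w (ker F) ⊆ im F` then `w ∈ ZZ`. -/
theorem mem_ZZ_of_ker (hD : Data k arm J B N W) (hS : Scal k arm J B N W)
    (hN : NilSp k arm J B N W) (h2 : (2 : K) ≠ 0) {F w : Matrix ι δ K}
    (hF : F ∈ ZZ k arm J B N W) (hw : w ∈ Kiso J N W)
    (hker : ∀ u : δ → K, F *ᵥ u = 0 → ∃ v : δ → K, w *ᵥ u = F *ᵥ v) :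
    w ∈ ZZ k arm J B N W := by
  rcases Om_rank_one hD hS hN h2 with h | ⟨g0, d0, c, hg0, hd0, h0, hcg, h⟩
  · exact ⟨hw, fun g hg d hd => h g hg w hw d hd⟩
  -- `c w = 0`
  suffices hcw : c ⟨w, hw⟩ = 0 by
    refine ⟨hw, fun g hg d hd => ?_⟩
    have := h ⟨g, hg⟩ ⟨w, hw⟩ d hd
    rw [hcw, mul_zero, zero_smul] at this
    exact this
  by_contra hcw
  set β := Om J d0 g0 g0 with hβ
  have hFF : ∀ f ∈ Kiso J N W, Om J d0 F f = 0 := by
    intro f hf
    rw [← Om_comm hD hS hd0 hF.1 hf]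
    exact hF.2 f hf d0 hd0
  have hww : Om J d0 w w = (c ⟨w, hw⟩ * c ⟨w, hw⟩) • β := h ⟨w, hw⟩ ⟨w, hw⟩ d0 hd0
  have hcw2 : c ⟨w, hw⟩ * c ⟨w, hw⟩ ≠ 0 := mul_ne_zero hcw hcw
  have hβskew : βᵀ = -β := Om_self_skew hD d0 hg0
  -- `β` kills `ker F`
  have hβF : ∀ u : δ → K, F *ᵥ u = 0 → β *ᵥ u = 0 := by
    intro u hu
    obtain ⟨v, hv⟩ := hker u hu
    have h3 : u ᵥ* Om J d0 w w = 0 := by
      have e : u ᵥ* Om J d0 w w = v ᵥ* Om J d0 F w := by
        unfold Om
        rw [← vecMul_vecMul, ← vecMul_vecMul, vecMul_transpose, hv, ← vecMul_transpose,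
          vecMul_vecMul, vecMul_vecMul]
        rw [Matrix.mul_assoc]
      rw [e, hFF w hw, vecMul_zero]
    rw [hww, vecMul_smul, smul_eq_zero] at h3
    have h4 := h3.resolve_left hcw2
    have h5 : β *ᵥ u = -(u ᵥ* β) := by
      rw [← mulVec_transpose, hβskew, neg_mulVec, neg_neg]
    rw [h5, h4, neg_zero]
  -- so `β = β R F`
  obtain ⟨R, hR⟩ := exists_gen_inv F
  have hβR : β = β * (R * F) := by
    have : β * (1 - R * F) = 0 := by
      have h6 : F * (1 - R * F) = 0 := by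
        rw [Matrix.mul_sub, Matrix.mul_one, ← Matrix.mul_assoc, hR, sub_self]
      ext i j
      have h7 := hβF ((1 - R * F).col j) (by
        ext i'
        have := congrFun (congrFun h6 i') j
        simpa [Matrix.mul_apply, Matrix.mulVec, dotProduct] using this)
      have h8 := congrFun h7 i
      simpa [Matrix.mul_apply, Matrix.mulVec, dotProduct] using h8
    rw [Matrix.mul_sub, Matrix.mul_one, sub_eq_zero] at this
    exact this
  have hβR' : β = Fᵀ * (Rᵀ * β) := by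
    have h9 := congrArg transpose hβR
    rw [hβskew, transpose_mul, transpose_mul, hβskew, Matrix.mul_neg, neg_inj] at h9
    rw [← Matrix.mul_assoc]
    exact h9
  apply h0
  apply hN g0 hg0 d0 hd0
  intro s
  have h10 := Om_symm hD d0 hg0 hg0.1 hF.1.1 s
  rw [hF.2 g0 hg0 d0 hd0, Matrix.zero_mul, Matrix.zero_mul] at h10
  have h11 : β * (E K arm s * B) * β = β * (E K arm s * B) * (Fᵀ * (Rᵀ * β)) := by
    conv_lhs => rw [Matrix.mul_assoc]; arg 2; arg 2; rw [hβR']
    rw [← Matrix.mul_assoc]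
  rw [h11, ← Matrix.mul_assoc, h10, Matrix.zero_mul]

end Crest.Agent.R172.Om
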