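import Crest.Agent.R172.SN1
import Crest.Agent.R172.Rk1

/-!
Row 172, NIL^sp: concrete forms over the polarised configuration.
-/

set_option autoImplicit false
set_option linter.unusedSectionVars false

namespace Crest.Agent.R172.SN

open Matrix Module Crest.AlgebraR.SpinSaturation Crest.Agent.R172.SoGrade Crest.Agent.R172.CF
open Crest.Agent.R172.Gen (Jm Ix emb Ent ent)

variable {n : ℕ} {a : Fin 3 → Fin n → ℤ} {c : Cfg n a} {K : Type} [Field K] [Algebra ℂ K]

/-- heights -/
noncomputable def ht (R : Ranked c) (d : c.δ) : ℕ := (∑ e, |R.rk e| - R.rk d).toNat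

theorem ht_le (R : Ranked c) {d e : c.δ} (h : ht R d ≤ ht R e) : R.rk e ≤ R.rk d := by
  have h1 : ∀ d, R.rk d ≤ ∑ e, |R.rk e| := by
    intro d
    exact (le_abs_self _).trans (Finset.single_le_sum (f := fun e => |R.rk e|)
      (fun e _ => abs_nonneg _) (Finset.mem_univ d))
  have h2 := h1 d
  have h3 := h1 e
  unfold ht at h
  omega

/-- the derivative of the frame `P` -/
theorem der_P (p : Pol c) {H G : Matrix (Fin p.m) (Fin p.m) K} (D : Derivation ℂ K K)
    (hD : H.map D = G) : ((p.P H).map D)ᵀ * c.B K * p.P H = Gᵀ := by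
  have h1 : (p.P H).map D = p.TK K * Matrix.fromRows G (0 : Matrix (Fin p.m) (Fin p.m) K) := by
    rw [Pol.P, FO3.map_der_mul, FO3.TK_der, Matrix.zero_mul, zero_add]
    congr 1
    rw [← hD]
    ext i j
    rcases i with i | i
    · simp [Pol.st]
    · simp only [Pol.st, map_apply, Matrix.fromRows_apply_inr, Matrix.zero_apply]
      rw [Matrix.one_apply]
      split_ifs <;> simp
  rw [h1, transpose_mul, Pol.P]
  have h2 : (Matrix.fromRows G (0 : Matrix (Fin p.m) (Fin p.m) K))ᵀ * (p.TK K)ᵀ * c.B K *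
      (p.TK K * Pol.st p.m H) = (Matrix.fromRows G (0 : Matrix (Fin p.m) (Fin p.m) K))ᵀ *
        (((p.TK K)ᵀ * c.B K * p.TK K) * Pol.st p.m H) := by
    simp only [Matrix.mul_assoc]
  rw [h2, p.hTK]
  have h3 : Jm p.m K * Pol.st p.m H = Matrix.fromRows (1 : Matrix (Fin p.m) (Fin p.m) K) H := by
    rw [Pol.st]
    simp only [LieAlgebra.Orthogonal.JD]
    rw [Matrix.fromBlocks_mul_fromRows]
    simp
  rw [h3, Matrix.transpose_fromRows, Matrix.fromCols_mul_fromRows]
  simp

/-- `Π (A C_s) A = A Π (C_s A)` -/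
theorem prod_swap {α β κ : Type*} [Fintype α] [Fintype β] [DecidableEq α] [DecidableEq β]
    (A : Matrix α β K) (C : κ → Matrix β α K) (l : List κ) :
    (l.map fun s => A * C s).prod * A = A * (l.map fun s => C s * A).prod := by
  induction l with
  | nil => simp
  | cons s l ih =>
    rw [List.map_cons, List.prod_cons, List.map_cons, List.prod_cons, Matrix.mul_assoc, ih]
    simp only [Matrix.mul_assoc]

/-- words of length `M` in `A C_s` vanish: words of length `M+1` in `C_s A` vanish. -/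
theorem words_swap {α β κ : Type*} [Fintype α] [Fintype β] [DecidableEq α] [DecidableEq β]
    (A : Matrix α β K) (C : κ → Matrix β α K) (M : ℕ)
    (h : ∀ l : List κ, l.length = M → (l.map fun s => A * C s).prod = 0)
    (l : List κ) (hl : l.length = M + 1) : (l.map fun s => C s * A).prod = 0 := by
  obtain ⟨s, l, rfl⟩ : ∃ s l', l = s :: l' := by
    cases l with
    | nil => simp at hl
    | cons s l' => exact ⟨s, l', rfl⟩
  rw [List.map_cons, List.prod_cons, Matrix.mul_assoc, ← prod_swap, h l (by simpa using hl),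
    Matrix.zero_mul, Matrix.mul_zero]

theorem mulVec_E (s : Fin 3) (v : c.δ → K) (d : c.δ) :
    (FO.E K c.arm s *ᵥ v) d = if c.arm d = s then v d else 0 := by
  rw [FO.E, mulVec_diagonal]
  split_ifs <;> simp

theorem sum_smul_single {m : Type*} [Fintype m] [DecidableEq m] (x : m → K) :
    ∑ j, x j • (Pi.single j (1 : K) : m → K) = x := by
  ext i
  rw [Finset.sum_apply, Finset.sum_eq_single i]
  · simp
  · intro b _ hb
    simp [hb.symm]
  · simp

/-- **NIL^sp**, form with `β` on the parameter space of `L`. -/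
theorem nil_sp_beta (R : Ranked c) (p : Pol c) {H : Matrix (Fin p.m) (Fin p.m) K} (hH : Hᵀ = -H)
    (hgen : ∀ G : Matrix (Fin p.m) (Fin p.m) K, Gᵀ = -G → ∃ D : Derivation ℂ K K, H.map D = G)
    (β : Matrix (Fin p.m) (Fin p.m) K) (hβ : βᵀ = -β)
    (hcomp : ∀ d e, c.arm d = c.arm e → 0 ≤ R.rk d + R.rk e →
      (p.P H * β * (p.P H)ᵀ) d e = 0)
    (M : ℕ) (hnil : ∀ l : List (Fin 3), l.length = M →
      (l.map fun s => (p.P H)ᵀ * (FO.E K c.arm s * c.B K) * (p.P H * β)).prod = 0) :
    β = 0 := by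
  classical
  have hcz : CharZero K := charZero_of_injective_algebraMap (algebraMap ℂ K).injective
  have h2 : (2 : K) ≠ 0 := two_ne_zero
  let w : LinearMap.BilinForm K (Fin p.m → K) := Matrix.toLinearMap₂' K βᵀ
  have hw : ∀ x y, w x y = y ⬝ᵥ (β *ᵥ x) := by
    intro x y
    change Matrix.toLinearMap₂' K βᵀ x y = _
    rw [Matrix.toLinearMap₂'_apply', dotProduct_mulVec, vecMul_transpose, dotProduct_comm]
  have hskew : ∀ x y, w x y = - w y x := by
    intro x y
    rw [hw, hw, dotProduct_mulVec, ← mulVec_transpose, hβ, neg_mulVec, neg_dotProduct,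
      dotProduct_comm]
  have hrow : ∀ d, ∑ j, p.P H d j • (Pi.single j (1 : K) : Fin p.m → K) = p.P H d :=
    fun d => sum_smul_single _
  have hiso : ∀ j k, ∑ d, p.P H d j * p.P H (c.σ d) k = 0 := by
    intro j k
    have h := congrFun (congrFun (p.P_iso hH) j) k
    rw [Matrix.mul_assoc, Matrix.mul_apply, Matrix.zero_apply] at h
    rw [← h]
    refine Finset.sum_congr rfl fun d _ => ?_
    rw [transpose_apply]
    congr 1
    exact (c.mulVec_B K (fun d => p.P H d k) d).symm
  have hwP : ∀ d e, w (p.P H d) (p.P H e) = (p.P H * β * (p.P H)ᵀ) e d := by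
    intro d e
    rw [hw, Matrix.mul_assoc, Matrix.mul_apply]
    rw [dotProduct]
    refine Finset.sum_congr rfl fun j _ => ?_
    congr 1
  have hskX : ∀ d e, (p.P H * β * (p.P H)ᵀ) d e = -(p.P H * β * (p.P H)ᵀ) e d := by
    intro d e
    rw [← hwP, ← hwP, hskew]
  have hW : ∀ d d', c.arm d' = c.arm d → ht R d' ≤ ht R d →
      w (∑ j, p.P H d' j • (Pi.single j (1 : K) : Fin p.m → K))
        (∑ j, p.P H (c.σ d) j • (Pi.single j (1 : K) : Fin p.m → K)) = 0 := by
    intro d d' h1 h3
    rw [hrow, hrow, hwP, hskX, neg_eq_zero]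
    refine hcomp _ _ (by rw [c.arm_σ, h1]) ?_
    have := ht_le R h3
    rw [R.rk_σ]
    omega
  have hPsi : ∀ s, Psi w c.arm c.σ
      (fun d => ∑ j, p.P H d j • (Pi.single j (1 : K) : Fin p.m → K)) s =
        Matrix.toLin' ((p.P H)ᵀ * (FO.E K c.arm s * c.B K) * (p.P H * β)) := by
    intro s
    refine LinearMap.ext fun v => ?_
    rw [Psi_apply, toLin'_apply]
    simp only [hrow]
    rw [← mulVec_mulVec, ← mulVec_mulVec, ← mulVec_mulVec, ← mulVec_mulVec]
    ext j
    rw [Finset.sum_apply]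
    have h5 : ((p.P H)ᵀ *ᵥ (FO.E K c.arm s *ᵥ (c.B K *ᵥ (p.P H *ᵥ (β *ᵥ v))))) j =
        ∑ d, if c.arm d = s then w v (p.P H (c.σ d)) * p.P H d j else 0 := by
      rw [mulVec, dotProduct]
      refine Finset.sum_congr rfl fun d _ => ?_
      rw [mulVec_E, c.mulVec_B, transpose_apply, hw]
      split_ifs
      · rw [mul_comm]; rfl
      · rw [mul_zero]
    rw [h5, Finset.sum_filter]
    refine Finset.sum_congr rfl fun d _ => ?_
    split_ifs
    · rw [Pi.smul_apply, smul_eq_mul]
    · rfl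
  have hnil' : ∀ l : List (Fin 3), l.length = M → (l.map (Psi w c.arm c.σ
      (fun d => ∑ j, p.P H d j • (Pi.single j (1 : K) : Fin p.m → K)))).prod = 0 := by
    intro l hl
    have h6 : ∀ l : List (Fin 3), (l.map (Psi w c.arm c.σ
        (fun d => ∑ j, p.P H d j • (Pi.single j (1 : K) : Fin p.m → K)))).prod =
        Matrix.toLin' (l.map fun s => (p.P H)ᵀ * (FO.E K c.arm s * c.B K) * (p.P H * β)).prod := by
      intro l
      induction l with
      | nil => simp [Module.End.one_eq_id]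
      | cons s l ih =>
        rw [List.map_cons, List.prod_cons, List.map_cons, List.prod_cons, ih, hPsi,
          Matrix.toLin'_mul ((p.P H)ᵀ * (FO.E K c.arm s * c.B K) * (p.P H * β))]
        rfl
    rw [h6, hnil l hl, map_zero]
  have hdir : ∀ G : Fin p.m → Fin p.m → K, (∀ j k, G j k = - G k j) →
      ∃ D : Derivation ℂ K K, ∀ j k, ∑ d, D (p.P H d j) * p.P H (c.σ d) k = G j k := by
    intro G hG
    obtain ⟨D, hD⟩ := hgen (Matrix.of fun j k => G k j) (by
      ext j k
      rw [transpose_apply, Matrix.neg_apply, of_apply, of_apply]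
      exact hG j k)
    refine ⟨D, fun j k => ?_⟩
    have h := congrFun (congrFun (der_P p D hD) j) k
    rw [Matrix.mul_assoc, Matrix.mul_apply, transpose_apply, of_apply] at h
    rw [← h]
    refine Finset.sum_congr rfl fun d _ => ?_
    rw [transpose_apply]
    congr 1
    exact (c.mulVec_B K (fun d => p.P H d k) d).symm
  have key := nil_sp h2 w hskew c.arm c.σ (ht R) (fun d j => p.P H d j)
    (fun j => (Pi.single j (1 : K) : Fin p.m → K)) hiso hW M hnil' hdir
  ext j k
  have := key k j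
  rw [hw, single_one_dotProduct, mulVec_single_one] at this
  exact this

/-- **NIL^sp**, form with a skew matrix `X ∈ Λ² L`. -/
theorem nil_sp_X (R : Ranked c) (p : Pol c) {H : Matrix (Fin p.m) (Fin p.m) K} (hH : Hᵀ = -H)
    (hgen : ∀ G : Matrix (Fin p.m) (Fin p.m) K, Gᵀ = -G → ∃ D : Derivation ℂ K K, H.map D = G)
    (X : Matrix c.δ c.δ K) (hX : Xᵀ = -X) (hXL : ∀ d, X d ∈ p.LH H)
    (hcomp : ∀ d e, c.arm d = c.arm e → 0 ≤ R.rk d + R.rk e → X d e = 0)
    (M : ℕ) (hnil : ∀ l : List (Fin 3), l.length = M →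
      (l.map fun s => X * (FO.E K c.arm s * c.B K)).prod = 0) :
    X = 0 := by
  classical
  -- `X = X Qᵀ Pᵀ`
  have h1 : X = X * (p.P H * p.Q K)ᵀ := by
    ext d e
    obtain ⟨x, hx⟩ := p.mem_LH.1 (hXL d)
    have h2 : (p.P H * p.Q K) *ᵥ X d = X d := by
      rw [← hx, mulVec_mulVec, Matrix.mul_assoc, p.left_inv, Matrix.mul_one]
    have h3 := congrFun h2 e
    rw [Matrix.mul_apply, ← h3, mulVec, dotProduct]
    exact Finset.sum_congr rfl fun i _ => mul_comm _ _
  have h2 : X = (p.P H * p.Q K) * X := by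
    have := congrArg transpose h1
    rw [transpose_mul, transpose_transpose, hX, Matrix.mul_neg] at this
    exact neg_injective this
  set β : Matrix (Fin p.m) (Fin p.m) K := p.Q K * X * (p.Q K)ᵀ with hβ
  have h3 : X = p.P H * β * (p.P H)ᵀ := by
    calc X = (p.P H * p.Q K) * (X * (p.P H * p.Q K)ᵀ) := by rw [← h1, ← h2]
      _ = _ := by rw [hβ, transpose_mul]; simp only [Matrix.mul_assoc]
  have hβs : βᵀ = -β := by
    rw [hβ, transpose_mul, transpose_mul, transpose_transpose, hX]
    simp only [Matrix.mul_assoc, Matrix.neg_mul, Matrix.mul_neg]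
  have h4 : β = 0 := by
    refine nil_sp_beta R p hH hgen β hβs (by rw [← h3]; exact hcomp) (M + 1) ?_
    have h5 : ∀ l : List (Fin 3), l.length = M →
        (l.map fun s => (p.P H * β) * ((p.P H)ᵀ * (FO.E K c.arm s * c.B K))).prod = 0 := by
      intro l hl
      rw [← hnil l hl]
      congr 2
      funext s
      rw [← Matrix.mul_assoc, ← h3]
    exact words_swap (p.P H * β) (fun s => (p.P H)ᵀ * (FO.E K c.arm s * c.B K)) M h5
  rw [h3, h4, Matrix.mul_zero, Matrix.zero_mul]

/-- **NIL^sp**, form with `φ ∈ Λ²`, `X = Fᵀ φ F`, `F ∈ V ⊗ L`. -/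
theorem nil_sp_phi (R : Ranked c) (p : Pol c) {H : Matrix (Fin p.m) (Fin p.m) K} (hH : Hᵀ = -H)
    (hgen : ∀ G : Matrix (Fin p.m) (Fin p.m) K, Gᵀ = -G → ∃ D : Derivation ℂ K K, H.map D = G)
    {F : Matrix (Ix n) c.δ K} (hF : F ∈ VL (p.LH H))
    (φ : Matrix (Ix n) (Ix n) K) (hφ : φᵀ = -φ)
    (hcomp : ∀ d e, c.arm d = c.arm e → 0 ≤ R.rk d + R.rk e → (Fᵀ * φ * F) d e = 0)
    (M : ℕ) (hnil : ∀ l : List (Fin 3), l.length = M →
      (l.map fun s => FO.M c.arm (c.B K) s F F * φ).prod = 0) :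
    Fᵀ * φ * F = 0 := by
  refine nil_sp_X R p hH hgen _ ?_ ?_ hcomp (M + 1) ?_
  · rw [transpose_mul, transpose_mul, transpose_transpose, hφ]
    simp only [Matrix.mul_assoc, Matrix.neg_mul, Matrix.mul_neg]
  · intro d
    obtain ⟨A, rfl⟩ := p.mem_VL_iff.1 hF
    refine p.mem_LH.2 ⟨((A * (p.P H)ᵀ)ᵀ * φ * A) d, ?_⟩
    funext e
    rw [← Matrix.mul_assoc, Matrix.mul_apply, mulVec, dotProduct]
    exact Finset.sum_congr rfl fun i _ => mul_comm _ _
  · have h5 : ∀ l : List (Fin 3), l.length = M →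
        (l.map fun s => (F * (FO.E K c.arm s * c.B K)) * (Fᵀ * φ)).prod = 0 := by
      intro l hl
      rw [← hnil l hl]
      congr 2
      funext s
      rw [FO.M]
      simp only [Matrix.mul_assoc]
    -- words in `C_s A` with `A = Fᵀ φ`, `C_s = F E_s B`
    intro l hl
    obtain ⟨s, l, rfl⟩ : ∃ s l', l = s :: l' := by
      cases l with
      | nil => simp at hl
      | cons s l' => exact ⟨s, l', rfl⟩
    have h6 : ∀ l : List (Fin 3), (Fᵀ * φ) * (l.map fun s =>
        (F * (FO.E K c.arm s * c.B K)) * (Fᵀ * φ)).prod =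
          (l.map fun s => Fᵀ * φ * F * (FO.E K c.arm s * c.B K)).prod * (Fᵀ * φ) := by
      intro l
      rw [← prod_swap]
      congr 3
      funext s
      simp only [Matrix.mul_assoc]
    have h7 : ∀ l : List (Fin 3), ∀ s, (l.map fun s => Fᵀ * φ * F * (FO.E K c.arm s * c.B K)).prod *
        (Fᵀ * φ * F * (FO.E K c.arm s * c.B K)) = (Fᵀ * φ) * (l.map fun s =>
        (F * (FO.E K c.arm s * c.B K)) * (Fᵀ * φ)).prod * (F * (FO.E K c.arm s * c.B K)) := by
      intro l s
      rw [h6]
      simp only [Matrix.mul_assoc]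
    obtain ⟨l', t, hlt⟩ : ∃ l' t, s :: l = l' ++ [t] := by
      rcases List.eq_nil_or_concat (s :: l) with h0 | ⟨l', t, h1⟩
      · simp at h0
      · exact ⟨l', t, by simpa using h1⟩
    have hl' : l'.length = M := by
      have := congrArg List.length hlt
      simp at this hl
      omega
    rw [hlt, List.map_append, List.prod_append, List.map_singleton, List.prod_singleton, h7,
      h5 l' hl', Matrix.mul_zero, Matrix.zero_mul]

end Crest.Agent.R172.SN
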