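import Crest.Agent.R172.Om2
import Crest.Agent.R172.SN2

/-!
Row 172 (S0260), node G1.5, third part: `Q_S = 0` for `S = im F`, `F ∈ ZZ`, and the hypothesis
`NilSp` for the concrete configurations.
-/

set_option autoImplicit false
set_option linter.unusedSectionVars false

namespace Crest.Agent.R172.Om

open Matrix Module Crest.Agent.R172.FO

section abstract

variable {ι : Type*} [Fintype ι] [DecidableEq ι] {δ : Type*} [Fintype δ] [DecidableEq δ]
variable {k K : Type*} [Field k] [Field K] [Algebra k K]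
variable {arm : δ → Fin 3} {J : Matrix ι ι K} {B : Matrix δ δ K} {N W : Submodule K (Matrix ι δ K)}

/-- `ω(F,F) = 0` for all `d` implies that `Fᵀ J a` is symmetric for `a ∈ W`, `a ∈ N + F * Mat`. -/
theorem symm_of_self (hD : Data k arm J B N W) {F : Matrix ι δ K} (hF : F ∈ Kiso J N W)
    (h : ∀ d : Derivation k K K, IsY k arm B N W d → Om J d F F = 0)
    {a ν : Matrix ι δ K} {C : Matrix δ δ K} (ha : a ∈ W) (hν : ν ∈ N) (hC : a - ν = F * C) :
    (Fᵀ * J * a)ᵀ = Fᵀ * J * a := by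
  obtain ⟨Bi, hBi, hBi', hBit⟩ := symm_inv hD.B_symm hD.B_unit
  apply symm_of_trace_skew
  intro G hG
  -- `Y = Bi * G`
  obtain ⟨d, hd⟩ := hD.dir 0 (Bi * G) (by intro s; simp) (by
    rw [transpose_mul, hG, hBit, Matrix.neg_mul, Matrix.neg_mul, Matrix.mul_assoc, hBi',
      Matrix.mul_one, ← Matrix.mul_assoc, hBi, Matrix.one_mul, neg_add_cancel])
  have hdY : IsY k arm B N W d := ⟨Bi * G, by
    rw [transpose_mul, hG, hBit, Matrix.neg_mul, Matrix.neg_mul, Matrix.mul_assoc, hBi',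
      Matrix.mul_one, ← Matrix.mul_assoc, hBi, Matrix.one_mul, neg_add_cancel], hd⟩
  have hself := h d hdY
  have hself' : (F.map d)ᵀ * J * F = 0 := by
    have h1 : (F.map d)ᵀ * J * F = (Om J d F F)ᵀ := by
      unfold Om
      rw [transpose_mul, transpose_mul, transpose_transpose, hD.J_symm, Matrix.mul_assoc]
    rw [h1, hself, transpose_zero]
  -- pairing with `a = ν + F C`
  have h1 : pair J B (F.map d) a = 0 := by
    have e : a = ν + F * C := by rw [← hC]; abel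
    have h2 := hD.N_iso _ (hdY.map_mem hF.1.1) ν hν
    unfold pair at h2 ⊢
    rw [e, Matrix.mul_add, Matrix.add_mul, trace_add, h2, zero_add, ← Matrix.mul_assoc _ F C,
      hself', Matrix.zero_mul, Matrix.zero_mul, trace_zero]
  have h2 : pair J B (F.map d - F * (Bi * G)ᵀ) a = 0 := by
    have h4 : a * B * (F.map d - F * (Bi * G)ᵀ)ᵀ = 0 :=
      hD.W_iso _ ha _ (hd.onW F hF.1.2)
    unfold pair
    rw [Matrix.mul_assoc, Matrix.mul_assoc, trace_mul_comm, Matrix.mul_assoc, h4,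
      Matrix.mul_zero, trace_zero]
  unfold pair at h1 h2
  rw [transpose_sub, Matrix.sub_mul, Matrix.sub_mul, Matrix.sub_mul, trace_sub, h1, zero_sub,
    neg_eq_zero, transpose_mul, transpose_transpose] at h2
  -- `trace (Bi * G * Fᵀ * J * a * B) = 0`
  have h3 : Bi * G * Fᵀ * J * a * B = Bi * (G * (Fᵀ * J * a)) * B := by
    simp only [Matrix.mul_assoc]
  rw [h3, trace_mul_comm, ← Matrix.mul_assoc, hBi, Matrix.one_mul] at h2
  exact h2

variable (k) in
/-- the input from G1.1: elements of `Q_g` are skew -/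
def QSkew (J : Matrix ι ι K) (N W : Submodule K (Matrix ι δ K)) : Prop :=
  ∀ g ∈ Kiso J N W, ∀ a ∈ W, ∀ ν ∈ N, ∀ C : Matrix δ δ K, a - ν = g * C →
    (gᵀ * J * a)ᵀ = -(gᵀ * J * a)

/-- **`Q_F = 0` for `F ∈ ZZ`** -/
theorem q_zero (hD : Data k arm J B N W) (h2 : (2 : K) ≠ 0) (hQ : QSkew J N W)
    {F : Matrix ι δ K} (hF : F ∈ ZZ k arm J B N W)
    {a ν : Matrix ι δ K} {C : Matrix δ δ K} (ha : a ∈ W) (hν : ν ∈ N) (hC : a - ν = F * C) :
    Fᵀ * J * a = 0 := by
  have h3 := symm_of_self hD hF.1 (fun d hd => hF.2 F hF.1 d hd) ha hν hC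
  rw [hQ F hF.1 a ha ν hν C hC, neg_eq_iff_add_eq_zero, ← two_smul K, smul_eq_zero] at h3
  exact h3.resolve_left h2

/-- converse: `Q_F = 0` implies `ω(F,F) = 0` -/
theorem self_zero_of_q (hF : Matrix ι δ K) (hFK : hF ∈ Kiso J N W)
    (hq : ∀ a ∈ W, ∀ ν ∈ N, ∀ C : Matrix δ δ K, a - ν = hF * C → hFᵀ * J * a = 0)
    {d : Derivation k K K} (hd : IsY k arm B N W d) : Om J d hF hF = 0 := by
  have hm := hd.map_mem hFK.1.1
  obtain ⟨Y, _, hr⟩ := hd
  have h1 := hq (hF.map d - hF * Yᵀ) (hr.onW _ hFK.1.2) (hF.map d) hm (-Yᵀ) (by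
    rw [Matrix.mul_neg]; abel)
  rw [Matrix.mul_sub, ← Matrix.mul_assoc _ hF, hFK.2 hF hFK.1, Matrix.zero_mul, sub_zero] at h1
  exact h1

/-- if all `Q_g = 0` (`g ∈ Kiso`) then `ZZ = Kiso` -/
theorem ZZ_eq_of_q (hD : Data k arm J B N W) (hS : Scal k arm J B N W)
    (hq : ∀ g ∈ Kiso J N W, ∀ a ∈ W, ∀ ν ∈ N, ∀ C : Matrix δ δ K, a - ν = g * C →
      gᵀ * J * a = 0) : ZZ k arm J B N W = Kiso J N W :=
  le_antisymm ZZ_le_Kiso fun F hF =>
    mem_ZZ_of_self hD hS hF fun _ hd => self_zero_of_q F hF (hq F hF) hd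

end abstract

section concrete

open Crest.AlgebraR.SpinSaturation Crest.Agent.R172.SoGrade Crest.Agent.R172.CF
open Crest.Agent.R172.Gen (Jm Ix emb Ent ent)

variable {n : ℕ} {a : Fin 3 → Fin n → ℤ} {c : Cfg n a} {K : Type} [Field K] [Algebra ℂ K]

theorem vecMul_mem_L {L : Submodule K (c.δ → K)} {F : Matrix (Ix n) c.δ K} (hF : F ∈ VL L)
    (x : Ix n → K) : x ᵥ* F ∈ L := by
  have : x ᵥ* F = ∑ q, x q • (fun d => F q d) := by
    funext d
    rw [Finset.sum_apply, vecMul, dotProduct]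
    rfl
  rw [this]
  exact L.sum_mem fun q _ => L.smul_mem _ (hF q)

/-- **`NilSp` for the concrete configurations.** -/
theorem nilSp_cfg (R : Ranked c) (p : Pol c) {g : Fin 3 → Matrix (Ix n) (Ix n) K}
    {H : Matrix (Fin p.m) (Fin p.m) K}
    (hg : ∀ s, (g s)ᵀ * Jm n K * g s = Jm n K) (hH : Hᵀ = -H)
    (hgen : ∀ G : Matrix (Fin p.m) (Fin p.m) K, Gᵀ = -G → ∃ D : Derivation ℂ K K, H.map D = G)
    (hD : FO.Data ℂ c.arm (Jm n K) (c.B K) (c.N g) (VL (p.LH H))) :
    NilSp ℂ c.arm (Jm n K) (c.B K) (c.N g) (VL (p.LH H)) := by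
  intro G hG d hd hz
  have hskew := Om_self_skew hD d hG
  refine SN.nil_sp_X R p hH hgen _ hskew ?_ ?_ 2 ?_
  · intro e
    have h1 : Om (Jm n K) d G G e = -((G.map d)ᵀ * (Jm n K) * G) e := by
      have h2 : (G.map d)ᵀ * (Jm n K) * G = (Om (Jm n K) d G G)ᵀ := by
        unfold Om
        rw [transpose_mul, transpose_mul, transpose_transpose, hD.J_symm, Matrix.mul_assoc]
      rw [h2, hskew]
      funext j
      exact (neg_neg _).symm
    rw [h1]
    refine (p.LH H).neg_mem ?_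
    have h3 : ((G.map d)ᵀ * (Jm n K) * G) e = (((G.map d)ᵀ * (Jm n K)) e) ᵥ* G := by
      funext j
      rw [Matrix.mul_apply, vecMul, dotProduct]
    rw [h3]
    exact vecMul_mem_L hG.1.2 _
  · intro x y hxy hrk
    exact R.col_perp hg hG.1.1 (hd.map_mem hG.1.1) hxy hrk
  · intro l hl
    match l, hl with
    | [s, t], _ =>
      rw [List.map_cons, List.map_cons, List.map_nil, List.prod_cons, List.prod_cons,
        List.prod_nil, mul_one]
      change Om (Jm n K) d G G * (FO.E K c.arm s * c.B K) *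
        (Om (Jm n K) d G G * (FO.E K c.arm t * c.B K)) = 0
      rw [← Matrix.mul_assoc, hz s, Matrix.zero_mul]

end concrete

end Crest.Agent.R172.Om
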