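import Crest.Agent.R172.Qt2
import Crest.Agent.R172.Slack1

/-!
Row 172, TAME (t1'), c-scaling proof (notes 14538, 14682, 14722, 14868): the two derivation steps.

Setting `Pr`: an orthogonal pair `H1, H2 ∈ N ⊓ W`, `e1, e2` the self-adjoint projectors onto the
two cores, `p` a matrix commuting with `e1 + e2` with `p H1 = H1`, `p H2 = 0`,
`Hc c = c H1 + H2` for constants `c ∈ S`.
-/

set_option autoImplicit false
set_option linter.unusedSectionVars false

namespace Crest.Agent.R172.OneArm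

open Matrix Crest.Agent.R172.FO

variable {ι : Type*} [Fintype ι] [DecidableEq ι] {δ : Type*} [Fintype δ] [DecidableEq δ]
variable {k K : Type*} [Field k] [Field K] [Algebra k K]
variable {arm : δ → Fin 3} {J : Matrix ι ι K} {B : Matrix δ δ K}
  {N W : Submodule K (Matrix ι δ K)}

/-- `c H1 + H2` -/
def Hc (c : k) (H1 H2 : Matrix ι δ K) : Matrix ι δ K := (algebraMap k K c) • H1 + H2

variable (k) in
/-- The setting of the c-scaling proof. -/
structure Pr (S : Set k) (arm : δ → Fin 3) (J : Matrix ι ι K) (B : Matrix δ δ K)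
    (N W : Submodule K (Matrix ι δ K)) (H1 H2 : Matrix ι δ K) (e1 e2 p : Matrix ι ι K) :
    Prop where
  data : Data k arm J B N W
  ne : ∀ c ∈ S, c ≠ 0
  mem1 : H1 ∈ N ⊓ W
  mem2 : H2 ∈ N ⊓ W
  sa1 : e1ᵀ * J = J * e1
  sa2 : e2ᵀ * J = J * e2
  e11 : e1 * e1 = e1
  e22 : e2 * e2 = e2
  e12 : e1 * e2 = 0
  e21 : e2 * e1 = 0
  e2H1 : e2 * H1 = 0
  e1H2 : e1 * H2 = 0
  pH1 : p * H1 = H1
  pH2 : p * H2 = 0
  pe : p * (e1 + e2) = (e1 + e2) * p
  gen : ∀ c ∈ S, Generic k arm N W (Hc c H1 H2)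
  com1 : ∀ s, e1 * Phi arm J B H1 s = Phi arm J B H1 s * e1
  com2 : ∀ s, e2 * Phi arm J B H2 s = Phi arm J B H2 s * e2
  span : ∀ c ∈ S, ∃ ρ : Matrix δ ι K, Hc c H1 H2 * ρ = e1 + e2
  hom : ∀ c ∈ S, ∀ z : Matrix ι ι K,
    (∀ t, z * Phi arm J B (Hc c H1 H2) t = Phi arm J B (Hc c H1 H2) t * z) →
      e1 * z * e2 = 0 ∧ e2 * z * e1 = 0 ∧
      e1 * z * (1 - (e1 + e2)) = 0 ∧ (1 - (e1 + e2)) * z * e1 = 0 ∧
      e2 * z * (1 - (e1 + e2)) = 0 ∧ (1 - (e1 + e2)) * z * e2 = 0

variable {S : Set k} {H1 H2 : Matrix ι δ K} {e1 e2 p : Matrix ι ι K}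

theorem sa_mul {J e : Matrix ι ι K} (he : eᵀ * J = J * e) (A : Matrix ι δ K) :
    Aᵀ * J * e = (e * A)ᵀ * J := by
  rw [transpose_mul, Matrix.mul_assoc Aᵀ eᵀ J, he, Matrix.mul_assoc]

theorem map_sub_der' {α β : Type*} (d : Derivation k K K) (A C : Matrix α β K) :
    (A - C).map d = A.map d - C.map d := by ext i j; simp

theorem map_zero_der {α β : Type*} (d : Derivation k K K) : (0 : Matrix α β K).map d = 0 := by
  ext i j; simp

theorem map_one_der (d : Derivation k K K) : (1 : Matrix ι ι K).map d = 0 := by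
  ext i j
  by_cases h : i = j
  · subst h; simp
  · simp [h]

theorem map_const_smul (d : Derivation k K K) (c : k) {α β : Type*} (F : Matrix α β K) :
    ((algebraMap k K c) • F).map d = (algebraMap k K c) • F.map d := by
  ext i j
  simp [Algebra.smul_def]

namespace Pr

variable (h : Pr k S arm J B N W H1 H2 e1 e2 p)
include h

theorem e1Hc (c : k) : e1 * Hc c H1 H2 = (algebraMap k K c) • (e1 * H1) := by
  unfold Hc
  rw [Matrix.mul_add, h.e1H2, add_zero, Matrix.mul_smul]

theorem e2Hc (c : k) : e2 * Hc c H1 H2 = e2 * H2 := by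
  unfold Hc
  rw [Matrix.mul_add, Matrix.mul_smul, h.e2H1, smul_zero, zero_add]

theorem e1Phi (c : k) (s : Fin 3) : e1 * Phi arm J B (Hc c H1 H2) s =
    (algebraMap k K c) ^ 2 • (e1 * Phi arm J B H1 s) := by
  have h12 : e1 * M arm B s H1 H2 = 0 := by
    rw [h.data.symm_arm h.mem1 h.mem2]
    unfold M
    rw [← Matrix.mul_assoc, ← Matrix.mul_assoc, ← Matrix.mul_assoc, h.e1H2]
    simp
  have h1 : e1 * M arm B s (Hc c H1 H2) (Hc c H1 H2) =
      (algebraMap k K c) ^ 2 • (e1 * M arm B s H1 H1) := by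
    have e : e1 * M arm B s (Hc c H1 H2) (Hc c H1 H2) =
        (e1 * Hc c H1 H2) * E K arm s * B * (Hc c H1 H2)ᵀ := by
      unfold M; simp only [Matrix.mul_assoc]
    rw [e, h.e1Hc]
    have e' : ((algebraMap k K c) • (e1 * H1)) * E K arm s * B * (Hc c H1 H2)ᵀ =
        (algebraMap k K c) ^ 2 • (e1 * M arm B s H1 H1) +
          (algebraMap k K c) • (e1 * M arm B s H1 H2) := by
      unfold M Hc
      rw [transpose_add, transpose_smul, Matrix.mul_add, Matrix.mul_smul, Matrix.smul_mul,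
        Matrix.smul_mul, Matrix.smul_mul, Matrix.smul_mul, smul_smul, pow_two]
      simp only [Matrix.mul_assoc]
    rw [e', h12, smul_zero, add_zero]
  unfold Phi
  rw [← Matrix.mul_assoc, h1, Matrix.smul_mul, Matrix.mul_assoc]

theorem Phie1 (c : k) (s : Fin 3) : Phi arm J B (Hc c H1 H2) s * e1 =
    (algebraMap k K c) ^ 2 • (Phi arm J B H1 s * e1) := by
  have hA : (Hc c H1 H2)ᵀ * J * e1 = (algebraMap k K c) • (H1ᵀ * J * e1) := by
    rw [sa_mul h.sa1, h.e1Hc, transpose_smul, Matrix.smul_mul, ← sa_mul h.sa1]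
  have h0 : H2ᵀ * J * e1 = 0 := by
    rw [sa_mul h.sa1, h.e1H2]; simp
  have h21 : M arm B s H2 H1 * J * e1 = 0 := by
    rw [← h.data.symm_arm h.mem1 h.mem2]
    unfold M
    rw [Matrix.mul_assoc (H1 * E K arm s * B), Matrix.mul_assoc (H1 * E K arm s * B), h0,
      Matrix.mul_zero]
  have e : Phi arm J B (Hc c H1 H2) s * e1 =
      (Hc c H1 H2) * E K arm s * B * ((Hc c H1 H2)ᵀ * J * e1) := by
    unfold Phi M; simp only [Matrix.mul_assoc]
  rw [e, hA]
  have e' : (Hc c H1 H2) * E K arm s * B * ((algebraMap k K c) • (H1ᵀ * J * e1)) =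
      (algebraMap k K c) ^ 2 • (Phi arm J B H1 s * e1) +
        (algebraMap k K c) • (M arm B s H2 H1 * J * e1) := by
    unfold Phi M Hc
    rw [Matrix.add_mul, Matrix.add_mul, Matrix.add_mul, Matrix.smul_mul, Matrix.smul_mul,
      Matrix.smul_mul, Matrix.mul_smul, Matrix.mul_smul, smul_smul, pow_two]
    simp only [Matrix.mul_assoc]
  rw [e', h21, smul_zero, add_zero]

theorem e2Phi (c : k) (s : Fin 3) : e2 * Phi arm J B (Hc c H1 H2) s =
    e2 * Phi arm J B H2 s := by
  have h21 : e2 * M arm B s H2 H1 = 0 := by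
    rw [← h.data.symm_arm h.mem1 h.mem2]
    unfold M
    rw [← Matrix.mul_assoc, ← Matrix.mul_assoc, ← Matrix.mul_assoc, h.e2H1]
    simp
  have h1 : e2 * M arm B s (Hc c H1 H2) (Hc c H1 H2) = e2 * M arm B s H2 H2 := by
    have e : e2 * M arm B s (Hc c H1 H2) (Hc c H1 H2) =
        (e2 * Hc c H1 H2) * E K arm s * B * (Hc c H1 H2)ᵀ := by
      unfold M; simp only [Matrix.mul_assoc]
    rw [e, h.e2Hc]
    have e' : (e2 * H2) * E K arm s * B * (Hc c H1 H2)ᵀ =
        (algebraMap k K c) • (e2 * M arm B s H2 H1) + (e2 * M arm B s H2 H2) := by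
      unfold M Hc
      rw [transpose_add, transpose_smul, Matrix.mul_add, Matrix.mul_smul]
      simp only [Matrix.mul_assoc]
    rw [e', h21, smul_zero, zero_add]
  unfold Phi
  rw [← Matrix.mul_assoc, h1, Matrix.mul_assoc]

theorem Phie2 (c : k) (s : Fin 3) : Phi arm J B (Hc c H1 H2) s * e2 =
    Phi arm J B H2 s * e2 := by
  have hA : (Hc c H1 H2)ᵀ * J * e2 = H2ᵀ * J * e2 := by
    rw [sa_mul h.sa2, h.e2Hc, ← sa_mul h.sa2]
  have h0 : H1ᵀ * J * e2 = 0 := by
    rw [sa_mul h.sa2, h.e2H1]; simp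
  have h12 : M arm B s H1 H2 * J * e2 = 0 := by
    rw [h.data.symm_arm h.mem1 h.mem2]
    unfold M
    rw [Matrix.mul_assoc (H2 * E K arm s * B), Matrix.mul_assoc (H2 * E K arm s * B), h0,
      Matrix.mul_zero]
  have e : Phi arm J B (Hc c H1 H2) s * e2 =
      (Hc c H1 H2) * E K arm s * B * ((Hc c H1 H2)ᵀ * J * e2) := by
    unfold Phi M; simp only [Matrix.mul_assoc]
  rw [e, hA]
  have e' : (Hc c H1 H2) * E K arm s * B * (H2ᵀ * J * e2) =
      (algebraMap k K c) • (M arm B s H1 H2 * J * e2) + Phi arm J B H2 s * e2 := by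
    unfold Phi M Hc
    rw [Matrix.add_mul, Matrix.add_mul, Matrix.add_mul, Matrix.smul_mul, Matrix.smul_mul,
      Matrix.smul_mul]
    simp only [Matrix.mul_assoc]
  rw [e', h12, smul_zero, zero_add]

theorem c1 (c : k) (s : Fin 3) : e1 * Phi arm J B (Hc c H1 H2) s =
    Phi arm J B (Hc c H1 H2) s * e1 := by
  rw [h.e1Phi, h.Phie1, h.com1]

theorem c2 (c : k) (s : Fin 3) : e2 * Phi arm J B (Hc c H1 H2) s =
    Phi arm J B (Hc c H1 H2) s * e2 := by
  rw [h.e2Phi, h.Phie2, h.com2]

theorem compl_e : (e1 + e2) * (e1 + e2) = e1 + e2 := by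
  rw [Matrix.add_mul, Matrix.mul_add, Matrix.mul_add, h.e11, h.e12, h.e21, h.e22]
  abel

/-- if `z = d(e)` commutes with the `Φ_t` then it vanishes. -/
theorem der_e_zero {c : k} (hc : c ∈ S) (d : Derivation k K K)
    (hPhi : ∀ t, (Phi arm J B (Hc c H1 H2) t).map d = 0) :
    e1.map d = 0 ∧ e2.map d = 0 := by
  have hz : ∀ e : Matrix ι ι K, (∀ t, e * Phi arm J B (Hc c H1 H2) t =
      Phi arm J B (Hc c H1 H2) t * e) → ∀ t, e.map d * Phi arm J B (Hc c H1 H2) t =
      Phi arm J B (Hc c H1 H2) t * e.map d := by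
    intro e he t
    have h1 := congrArg (fun A : Matrix ι ι K => A.map d) (he t)
    simp only [map_mul_der, hPhi t, Matrix.mul_zero, Matrix.zero_mul, add_zero, zero_add] at h1
    exact h1
  constructor
  · obtain ⟨a1, a2, a3, a4, -, -⟩ := h.hom c hc _ (hz e1 (fun t => h.c1 c t))
    have h1 : e1.map d = e1.map d * e1 + e1 * e1.map d := by
      have := congrArg (fun A : Matrix ι ι K => A.map d) h.e11
      simp only [map_mul_der] at this
      exact this.symm
    generalize e1.map d = z at *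
    have h2 : e1 * z * e1 = 0 := by
      have h3 := congrArg (fun A : Matrix ι ι K => e1 * A * e1) h1
      simp only [Matrix.mul_add, Matrix.add_mul] at h3
      have h4 : e1 * (z * e1) * e1 = e1 * z * e1 := by
        rw [Matrix.mul_assoc, Matrix.mul_assoc z, h.e11, Matrix.mul_assoc]
      have h5 : e1 * (e1 * z) * e1 = e1 * z * e1 := by
        rw [← Matrix.mul_assoc, h.e11]
      rw [h4, h5] at h3
      exact add_left_cancel (h3.symm.trans (add_zero _).symm)
    have h6 : e1 * z = 0 := by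
      rw [Matrix.mul_sub, Matrix.mul_one, Matrix.mul_add, h2, a1, add_zero, sub_zero] at a3
      exact a3
    have h7 : z * e1 = 0 := by
      rw [Matrix.sub_mul, Matrix.one_mul, Matrix.add_mul, Matrix.sub_mul, Matrix.add_mul, h2, a2,
        add_zero, sub_zero] at a4
      exact a4
    rw [h1, h6, h7, add_zero]
  · obtain ⟨a1, a2, -, -, a3, a4⟩ := h.hom c hc _ (hz e2 (fun t => h.c2 c t))
    have h1 : e2.map d = e2.map d * e2 + e2 * e2.map d := by
      have := congrArg (fun A : Matrix ι ι K => A.map d) h.e22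
      simp only [map_mul_der] at this
      exact this.symm
    generalize e2.map d = z at *
    have h2 : e2 * z * e2 = 0 := by
      have h3 := congrArg (fun A : Matrix ι ι K => e2 * A * e2) h1
      simp only [Matrix.mul_add, Matrix.add_mul] at h3
      have h4 : e2 * (z * e2) * e2 = e2 * z * e2 := by
        rw [Matrix.mul_assoc, Matrix.mul_assoc z, h.e22, Matrix.mul_assoc]
      have h5 : e2 * (e2 * z) * e2 = e2 * z * e2 := by
        rw [← Matrix.mul_assoc, h.e22]
      rw [h4, h5] at h3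
      exact add_left_cancel (h3.symm.trans (add_zero _).symm)
    have h6 : e2 * z = 0 := by
      rw [Matrix.mul_sub, Matrix.mul_one, Matrix.mul_add, h2, a2, zero_add, sub_zero] at a3
      exact a3
    have h7 : z * e2 = 0 := by
      rw [Matrix.sub_mul, Matrix.one_mul, Matrix.add_mul, Matrix.sub_mul, Matrix.add_mul, h2, a1,
        zero_add, sub_zero] at a4
      exact a4
    rw [h1, h6, h7, add_zero]

/-- **D1.** The one-arm derivation. -/
theorem D1 {c : k} (hc : c ∈ S) (s : Fin 3) {x x' : Matrix ι ι K} (hx : e2 * x * e1 = x)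
    (hx' : xᵀ * J = J * x')
    (hxc : (algebraMap k K c) ^ 2 • (x * Phi arm J B H1 s) = Phi arm J B H2 s * x) :
    ∃ (d : Derivation k K K) (ξ : Matrix δ δ K) (t : Matrix ι ι K),
      Realises arm N W (fun u => if u = s then x - x' else 0) ξ d ∧
      e1.map d = 0 ∧ e2.map d = 0 ∧ (∀ u, (Phi arm J B (Hc c H1 H2) u).map d = 0) ∧
      (e1 + e2) * t = 0 ∧ t * (e1 + e2) = 0 ∧
      (Hc c H1 H2).map d = (x - x') * Hc c H1 H2 * E K arm s ∧
      (algebraMap k K c) • H1.map d = -(x' * H2 * E K arm s) + t * Hc c H1 H2 ∧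
      e1 * x' * e2 = x' ∧ x * Hc c H1 H2 = (algebraMap k K c) • (x * H1) ∧
      x' * Hc c H1 H2 = x' * H2 := by
  have hD := h.data
  obtain ⟨Ji, hJi, hJi', hJit⟩ := symm_inv hD.J_symm hD.J_unit
  have hJc : ∀ {A C : Matrix ι ι K}, J * A = J * C → A = C := by
    intro A C hAC
    have := congrArg (fun Z => Ji * Z) hAC
    simpa only [← Matrix.mul_assoc, hJi', Matrix.one_mul] using this
  have hx'e : e1 * x' * e2 = x' := by
    apply hJc
    have e : J * (e1 * x' * e2) = (J * e1) * x' * e2 := by simp only [Matrix.mul_assoc]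
    rw [e, ← h.sa1, Matrix.mul_assoc e1ᵀ J, ← hx', Matrix.mul_assoc, Matrix.mul_assoc xᵀ,
      ← h.sa2]
    conv_rhs => rw [← hx]
    rw [transpose_mul, transpose_mul]
    simp only [Matrix.mul_assoc]
  have hx'J : x'ᵀ * J = J * x := by
    have := congrArg transpose hx'
    rw [transpose_mul, transpose_mul, transpose_transpose, hD.J_symm] at this
    exact this.symm
  have hxH : x * Hc c H1 H2 = (algebraMap k K c) • (x * H1) := by
    have e : x * Hc c H1 H2 = e2 * x * (e1 * Hc c H1 H2) := by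
      conv_lhs => rw [← hx]
      simp only [Matrix.mul_assoc]
    rw [e, h.e1Hc, Matrix.mul_smul, ← Matrix.mul_assoc, hx]
  have hx'H : x' * Hc c H1 H2 = x' * H2 := by
    have e : x' * Hc c H1 H2 = e1 * x' * (e2 * Hc c H1 H2) := by
      conv_lhs => rw [← hx'e]
      simp only [Matrix.mul_assoc]
    rw [e, h.e2Hc, ← Matrix.mul_assoc, hx'e]
  -- self-adjointness of `Φ`
  have hsa : ∀ F : Matrix ι δ K, ∀ u, (Phi arm J B F u)ᵀ * J = J * Phi arm J B F u := by
    intro F u
    unfold Phi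
    have hM : (M arm B u F F)ᵀ = M arm B u F F := Slack.M_transpose hD F F u
    rw [transpose_mul, hD.J_symm, hM, Matrix.mul_assoc]
  have hxc' : (algebraMap k K c) ^ 2 • (Phi arm J B H1 s * x') = x' * Phi arm J B H2 s := by
    apply hJc
    have h1 := congrArg (fun A : Matrix ι ι K => Aᵀ * J) hxc
    simp only [transpose_smul, transpose_mul, Matrix.smul_mul] at h1
    rw [Matrix.mul_assoc, hx', Matrix.mul_assoc, hsa H2 s, ← Matrix.mul_assoc, hsa H1 s,
      ← Matrix.mul_assoc, hx'] at h1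
    rw [Matrix.mul_smul, ← Matrix.mul_assoc, ← Matrix.mul_assoc]
    exact h1
  -- `X` commutes with `Φ_s(Hc)`
  have k1 : x * Phi arm J B (Hc c H1 H2) s = Phi arm J B (Hc c H1 H2) s * x := by
    have e : x * Phi arm J B (Hc c H1 H2) s = e2 * x * (e1 * Phi arm J B (Hc c H1 H2) s) := by
      conv_lhs => rw [← hx]
      simp only [Matrix.mul_assoc]
    have e' : Phi arm J B (Hc c H1 H2) s * x = (Phi arm J B (Hc c H1 H2) s * e2) * x * e1 := by
      conv_lhs => rw [← hx]
      simp only [Matrix.mul_assoc]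
    have e'' : Phi arm J B H2 s * x = (Phi arm J B H2 s * e2) * x * e1 := by
      conv_lhs => rw [← hx]
      simp only [Matrix.mul_assoc]
    rw [e, h.e1Phi, e', h.Phie2, ← e'', ← hxc, Matrix.mul_smul, ← Matrix.mul_assoc, hx]
  have k2 : x' * Phi arm J B (Hc c H1 H2) s = Phi arm J B (Hc c H1 H2) s * x' := by
    have e : x' * Phi arm J B (Hc c H1 H2) s = e1 * x' * (e2 * Phi arm J B (Hc c H1 H2) s) := by
      conv_lhs => rw [← hx'e]
      simp only [Matrix.mul_assoc]
    have e' : Phi arm J B (Hc c H1 H2) s * x' =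
        (Phi arm J B (Hc c H1 H2) s * e1) * x' * e2 := by
      conv_lhs => rw [← hx'e]
      simp only [Matrix.mul_assoc]
    have e'' : Phi arm J B H1 s * x' = (Phi arm J B H1 s * e1) * x' * e2 := by
      conv_lhs => rw [← hx'e]
      simp only [Matrix.mul_assoc]
    rw [e, h.e2Phi, e', h.Phie1, Matrix.smul_mul, Matrix.smul_mul, ← e'', hxc',
      ← Matrix.mul_assoc, hx'e]
  have hcomm : (x - x') * Phi arm J B (Hc c H1 H2) s =
      Phi arm J B (Hc c H1 H2) s * (x - x') := by
    rw [Matrix.sub_mul, Matrix.mul_sub, k1, k2]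
  -- the direction
  set X : Fin 3 → Matrix ι ι K := fun u => if u = s then x - x' else 0 with hXdef
  have hXs : X s = x - x' := by simp [hXdef]
  have hXt : ∀ u, u ≠ s → X u = 0 := fun u hu => by simp [hXdef, hu]
  have hXskew : ∀ u, (X u)ᵀ * J + J * X u = 0 := by
    intro u
    by_cases hu : u = s
    · subst hu
      rw [hXs, transpose_sub, Matrix.sub_mul, hx', hx'J, Matrix.mul_sub]
      abel
    · rw [hXt u hu]; simp
  have hact : ∀ F : Matrix ι δ K, act arm X F = (x - x') * F * E K arm s := by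
    intro F
    unfold act
    rw [Finset.sum_eq_single s]
    · rw [hXs]
    · intro u _ hu; rw [hXt u hu]; simp
    · intro hu; exact absurd (Finset.mem_univ s) hu
  obtain ⟨R, hR⟩ := Qt.exists_pinv (Hc c H1 H2)
  obtain ⟨ρ, hρ⟩ := h.span c hc
  have heX : (e1 + e2) * (x - x') = x - x' := by
    have a1 : e1 * x = 0 := by
      rw [← hx, ← Matrix.mul_assoc, ← Matrix.mul_assoc, h.e12]; simp
    have a2 : e2 * x = x := by
      conv_lhs => rw [← hx]
      rw [← Matrix.mul_assoc, ← Matrix.mul_assoc, h.e22, hx]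
    have a3 : e2 * x' = 0 := by
      rw [← hx'e, ← Matrix.mul_assoc, ← Matrix.mul_assoc, h.e21]; simp
    have a4 : e1 * x' = x' := by
      conv_lhs => rw [← hx'e]
      rw [← Matrix.mul_assoc, ← Matrix.mul_assoc, h.e11, hx'e]
    rw [Matrix.add_mul, Matrix.mul_sub, Matrix.mul_sub, a1, a2, a3, a4]
    abel
  obtain ⟨ξ, d, hξ, -, hreal, hd⟩ := hD.persist (h.gen c hc) X hXskew R hR (by
      rw [hact]
      have e : (x - x') * Hc c H1 H2 * E K arm s =
          Hc c H1 H2 * (ρ * ((x - x') * Hc c H1 H2 * E K arm s)) := by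
        rw [← Matrix.mul_assoc, hρ, ← Matrix.mul_assoc, ← Matrix.mul_assoc, heX]
      rw [e, ← Matrix.mul_assoc, hR])
    ((hD.iso_iff _ X hXskew).2 (by
      apply Finset.sum_eq_zero
      intro u _
      by_cases hu : u = s
      · subst hu
        rw [hXs, hcomm, sub_self]
      · rw [hXt u hu]; simp))
  have hPhi : ∀ u, (Phi arm J B (Hc c H1 H2) u).map d = 0 := by
    intro u
    rw [hD.map_Phi _ X hXskew d hd u]
    by_cases hu : u = s
    · subst hu
      rw [hXs, hcomm, sub_self]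
    · rw [hXt u hu]; simp
  obtain ⟨de1, de2⟩ := h.der_e_zero hc d hPhi
  rw [hact] at hd
  -- `d p` commutes with `e`
  have hde : (e1 + e2).map d = 0 := by rw [map_add_der, de1, de2, add_zero]
  have hpe : p.map d * (e1 + e2) = (e1 + e2) * p.map d := by
    have := congrArg (fun A : Matrix ι ι K => A.map d) h.pe
    simp only [map_mul_der, hde, Matrix.mul_zero, Matrix.zero_mul, add_zero, zero_add] at this
    exact this
  have hee := h.compl_e
  refine ⟨d, ξ, (1 - (e1 + e2)) * p.map d, hreal, de1, de2, hPhi, ?_, ?_, hd, ?_, hx'e, hxH,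
    hx'H⟩
  · rw [← Matrix.mul_assoc, Matrix.mul_sub, Matrix.mul_one, hee, sub_self, Matrix.zero_mul]
  · rw [Matrix.mul_assoc, hpe, ← Matrix.mul_assoc, Matrix.sub_mul, Matrix.one_mul, hee, sub_self,
      Matrix.zero_mul]
  · -- the formula for `c • dH1`
    have hpH : p * Hc c H1 H2 = (algebraMap k K c) • H1 := by
      unfold Hc
      rw [Matrix.mul_add, Matrix.mul_smul, h.pH1, h.pH2, add_zero]
    have hdH1 : (algebraMap k K c) • H1.map d =
        p.map d * Hc c H1 H2 + p * ((x - x') * Hc c H1 H2 * E K arm s) := by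
      have := congrArg (fun A : Matrix ι δ K => A.map d) hpH
      simp only [map_mul_der, map_const_smul, hd] at this
      exact this.symm
    have hsum : (algebraMap k K c) • H1.map d + H2.map d =
        (x - x') * Hc c H1 H2 * E K arm s := by
      rw [← hd]
      unfold Hc
      rw [map_add_der, map_const_smul]
    -- the components
    have q2 : e2 * H1.map d = 0 := by
      have := congrArg (fun A : Matrix ι δ K => A.map d) h.e2H1
      simp only [map_mul_der, de2, Matrix.zero_mul, zero_add, map_zero_der] at this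
      exact this
    have q1 : e1 * H2.map d = 0 := by
      have := congrArg (fun A : Matrix ι δ K => A.map d) h.e1H2
      simp only [map_mul_der, de1, Matrix.zero_mul, zero_add, map_zero_der] at this
      exact this
    have q3 : e1 * ((algebraMap k K c) • H1.map d) = -(x' * H2 * E K arm s) := by
      have e : e1 * ((algebraMap k K c) • H1.map d) =
          e1 * ((x - x') * Hc c H1 H2 * E K arm s) := by
        rw [← hsum, Matrix.mul_add, q1, add_zero]
      rw [e]
      have a1 : e1 * x = 0 := by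
        rw [← hx, ← Matrix.mul_assoc, ← Matrix.mul_assoc, h.e12]; simp
      have a4 : e1 * x' = x' := by
        conv_lhs => rw [← hx'e]
        rw [← Matrix.mul_assoc, ← Matrix.mul_assoc, h.e11, hx'e]
      rw [← Matrix.mul_assoc, ← Matrix.mul_assoc, Matrix.mul_sub, a1, a4, zero_sub,
        Matrix.neg_mul, Matrix.neg_mul, hx'H]
    have q4 : (1 - (e1 + e2)) * ((algebraMap k K c) • H1.map d) =
        (1 - (e1 + e2)) * p.map d * Hc c H1 H2 := by
      rw [hdH1, Matrix.mul_add, ← Matrix.mul_assoc]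
      have e : (1 - (e1 + e2)) * (p * ((x - x') * Hc c H1 H2 * E K arm s)) = 0 := by
        have e0 : (1 - (e1 + e2)) * p = p * (1 - (e1 + e2)) := by
          rw [Matrix.sub_mul, Matrix.mul_sub, Matrix.one_mul, Matrix.mul_one, h.pe]
        rw [← Matrix.mul_assoc, e0, Matrix.mul_assoc p, ← Matrix.mul_assoc (1 - (e1 + e2)),
          ← Matrix.mul_assoc (1 - (e1 + e2)), Matrix.sub_mul 1 (e1 + e2) (x - x'),
          Matrix.one_mul, heX, sub_self]
        simp
      rw [e, add_zero]
    have q5 : (algebraMap k K c) • H1.map d =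
        e1 * ((algebraMap k K c) • H1.map d) + e2 * ((algebraMap k K c) • H1.map d) +
          (1 - (e1 + e2)) * ((algebraMap k K c) • H1.map d) := by
      rw [← Matrix.add_mul, ← Matrix.add_mul]
      have : e1 + e2 + (1 - (e1 + e2)) = 1 := by abel
      rw [this, Matrix.one_mul]
    rw [q5, q3, q4, Matrix.mul_smul, q2, smul_zero, add_zero]

end Pr

end Crest.Agent.R172.OneArm
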