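import Crest.Agent.R172.Qt6

/-!
Row 172 (S0260), node (t3)/(Q1), `P`-side in pairing form (note 16280).

`H2`           : `g E_s B nᵀ J` vanishes on `S^⊥`;
`Ctx.pair_C`   : `⟨X₀ n, q g⟩ = 0` for `n ∈ N` with `H2`, `p ∈ NN`, `q ∈ NN₁`;
`FH`           : the conditions on `fh = d_Y f`;
`Ctx.pside_J`  : `⟨Z₂ fh, q g⟩ = ⟨r₂, X₀ q g⟩`;
`Ctx.pside`    : the main identity for two gluing families.
-/

set_option autoImplicit false
set_option linter.unusedSectionVars false
set_option linter.unusedFintypeInType false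
set_option linter.unusedDecidableInType false

namespace Crest.Agent.R172.Qt

open Matrix Module Crest.Agent.R172.FO

variable {ι : Type*} [Fintype ι] [DecidableEq ι] {δ : Type*} [Fintype δ] [DecidableEq δ]
variable {k K : Type*} [Field k] [Field K] [Algebra k K]
variable {arm : δ → Fin 3} {J : Matrix ι ι K} {B : Matrix δ δ K}
  {N W : Submodule K (Matrix ι δ K)} {g : Matrix ι δ K}

/-- `g E_s B nᵀ J` vanishes on `S^⊥` -/
def H2 (arm : δ → Fin 3) (J : Matrix ι ι K) (B : Matrix δ δ K) (g n : Matrix ι δ K) : Prop :=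
  ∀ s, ∀ v : Matrix ι ι K, gᵀ * J * v = 0 → g * E K arm s * B * nᵀ * J * v = 0

theorem Ctx.H2_of_mem (h : Ctx k arm J B N W g) {f : Matrix ι δ K} (hf : f ∈ N ⊓ W) :
    H2 arm J B g f := fun s _ hv => h.gf_zero hf s hv

theorem Ctx.H2_SS (h : Ctx k arm J B N W g) {n : Matrix ι δ K} (hn : H2 arm J B g n) (s : Fin 3) :
    ∃ D : Matrix δ δ K, g * E K arm s * B * nᵀ = g * D * gᵀ := by
  obtain ⟨G, hG⟩ := exists_pinv g
  obtain ⟨Ji, hJi⟩ := h.data.J_unit.exists_right_inv
  refine ⟨E K arm s * B * nᵀ * Gᵀ, ?_⟩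
  have h1 : gᵀ * J * (1 - Ji * (Gᵀ * (gᵀ * J))) = 0 := by
    have h1 : gᵀ * J * (Ji * (Gᵀ * (gᵀ * J))) = gᵀ * J := by
      calc gᵀ * J * (Ji * (Gᵀ * (gᵀ * J))) = gᵀ * (J * Ji) * Gᵀ * gᵀ * J := by
            simp only [Matrix.mul_assoc]
        _ = (g * G * g)ᵀ * J := by
            rw [hJi, Matrix.mul_one, transpose_mul, transpose_mul]; simp only [Matrix.mul_assoc]
        _ = _ := by rw [hG]
    rw [Matrix.mul_sub, Matrix.mul_one, h1, sub_self]
  have h2 := hn s _ h1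
  have h3 : ∀ X : Matrix ι ι K, X * J * (1 - Ji * (Gᵀ * (gᵀ * J))) * Ji = X - X * Gᵀ * gᵀ := by
    intro X
    have e : X * J * (1 - Ji * (Gᵀ * (gᵀ * J))) * Ji
        = X * (J * Ji) - X * (J * Ji) * Gᵀ * gᵀ * (J * Ji) := by
      simp only [Matrix.mul_sub, Matrix.sub_mul, Matrix.mul_one, Matrix.mul_assoc]
    rw [e, hJi]; simp only [Matrix.mul_one]
  have h4 := h3 (g * E K arm s * B * nᵀ)
  rw [h2, Matrix.zero_mul] at h4
  rw [sub_eq_zero.1 h4.symm]
  simp only [Matrix.mul_assoc]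

/-- **(C)** of note 16280 -/
theorem Ctx.pair_C (h : Ctx k arm J B N W g) {p q : Matrix ι ι K × (Fin 3 → Matrix ι ι K)}
    (hp : p ∈ NN arm J N g) (hq : q ∈ NN arm J N g) (hq0 : gᵀ * J * (q.1 * g) = 0)
    {n : Matrix ι δ K} (hn : n ∈ N) (h2 : H2 arm J B g n) :
    pair J B (p.1 * n) (act arm q.2 g) = 0 := by
  have h0 : pair J B (act arm p.2 n) (act arm q.2 g) = 0 :=
    h.pair_N (hp.2.1.pres n hn) (hq.2.1.pres g h.memN)
  have h1 : p.1 * n = act arm (fun s => p.1 - p.2 s) n + act arm p.2 n := by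
    rw [act_sub_left, act_const]; abel
  rw [h1, pair_add_left, h0, add_zero]
  conv_lhs => enter [3]; unfold act
  rw [Ctx.pair_sum_left]
  refine Finset.sum_eq_zero fun s _ => ?_
  rw [pair_E h.data.B_arm, act_mul_E]
  obtain ⟨C, hC⟩ := hp.2.2 s
  obtain ⟨C', hC'⟩ := hq.2.2 s
  obtain ⟨D, hD⟩ := h.H2_SS h2 s
  have hqs : gᵀ * J * (q.2 s * g) = 0 := by
    have : q.2 s * g = q.1 * g - g * C' := by rw [← hC', Matrix.sub_mul]; abel
    rw [this, Matrix.mul_sub, hq0, ← Matrix.mul_assoc (gᵀ * J) g C', h.iso, Matrix.zero_mul,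
      sub_zero]
  unfold pair
  have e2 : ((p.1 - p.2 s) * n)ᵀ * J * (q.2 s * g * E K arm s) * B
      = (nᵀ * (p.1 - p.2 s)ᵀ * J * q.2 s) * (g * E K arm s * B) := by
    rw [transpose_mul]; simp only [Matrix.mul_assoc]
  rw [e2, trace_mul_comm]
  have e3 : g * E K arm s * B * (nᵀ * (p.1 - p.2 s)ᵀ * J * q.2 s)
      = (g * E K arm s * B * nᵀ) * ((p.1 - p.2 s)ᵀ * J * q.2 s) := by
    simp only [Matrix.mul_assoc]
  rw [e3, hD]
  have e4 : g * D * gᵀ * ((p.1 - p.2 s)ᵀ * J * q.2 s)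
      = g * (D * (((p.1 - p.2 s) * g)ᵀ * J * q.2 s)) := by
    rw [transpose_mul]; simp only [Matrix.mul_assoc]
  rw [e4, trace_mul_comm, hC, transpose_mul]
  have e5 : D * (Cᵀ * gᵀ * J * q.2 s) * g = D * Cᵀ * (gᵀ * J * (q.2 s * g)) := by
    simp only [Matrix.mul_assoc]
  rw [e5, hqs, Matrix.mul_zero, trace_zero]

/-- `(gᵀ J F).map d = gᵀ J (F.map d)` for `d g = 0` -/
theorem Ctx.map_gJ (h : Ctx k arm J B N W g) {d : Derivation k K K} (hdg : g.map d = 0)
    {α : Type*} (F : Matrix ι α K) : (gᵀ * J * F).map d = gᵀ * J * F.map d := by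
  rw [map_mul_der, map_mul_der, map_transpose_der, hdg, h.data.J_const d, transpose_zero,
    Matrix.zero_mul, Matrix.mul_zero, add_zero, Matrix.zero_mul, zero_add]

theorem map_zero_der {α β : Type*} (d : Derivation k K K) : (0 : Matrix α β K).map d = 0 := by
  ext i j; simp

/-- `H2` is stable under moving along a gluing direction -/
theorem Ctx.H2_move (h : Ctx k arm J B N W g) {R : Fin 3 → Matrix ι ι K} (hR : ∀ s, Skw J (R s))
    (hRS : ∀ s, ∀ v : Matrix ι ι K, gᵀ * J * v = 0 → ∃ C : Matrix δ ι K, R s * v = g * C)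
    {d : Derivation k K K} (hdg : g.map d = 0) {n : Matrix ι δ K} (hn : H2 arm J B g n) :
    H2 arm J B g (n.map d - act arm R n) := by
  intro s v hv
  have hD := h.data
  have hv' : gᵀ * J * v.map d = 0 := by rw [← h.map_gJ hdg, hv, map_zero_der]
  have h1 : (g * E K arm s * B * nᵀ * J * v).map d
      = g * E K arm s * B * (n.map d)ᵀ * J * v + g * E K arm s * B * nᵀ * J * v.map d := by
    rw [map_mul_der, map_mul_der, map_mul_der, map_mul_der, map_mul_der, map_transpose_der, hdg,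
      hD.J_const d, hD.B_const d, E_map_der]
    simp only [Matrix.zero_mul, Matrix.mul_zero, zero_add, add_zero]
  rw [hn s v hv, hn s _ hv', add_zero, map_zero_der] at h1
  have e0 : E K arm s * (act arm R n)ᵀ = E K arm s * nᵀ * (R s)ᵀ := by
    calc E K arm s * (act arm R n)ᵀ = (act arm R n * E K arm s)ᵀ := by
          rw [transpose_mul, E_transpose]
      _ = (R s * n * E K arm s)ᵀ := by rw [act_mul_E]
      _ = _ := by rw [transpose_mul, transpose_mul, E_transpose, Matrix.mul_assoc]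
  have h4 : g * E K arm s * B * (act arm R n)ᵀ * J * v
      = - (g * E K arm s * B * nᵀ * J * (R s * v)) := by
    calc g * E K arm s * B * (act arm R n)ᵀ * J * v
        = g * (E K arm s * B) * (act arm R n)ᵀ * J * v := by simp only [Matrix.mul_assoc]
      _ = g * B * (E K arm s * (act arm R n)ᵀ) * J * v := by
          rw [hD.B_arm]; simp only [Matrix.mul_assoc]
      _ = g * (B * E K arm s) * nᵀ * ((R s)ᵀ * J) * v := by
          rw [e0]; simp only [Matrix.mul_assoc]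
      _ = _ := by
          rw [← hD.B_arm, (hR s).eq]
          simp only [Matrix.mul_neg, Matrix.neg_mul, Matrix.mul_assoc]
  obtain ⟨C, hC⟩ := hRS s v hv
  have h5 : g * E K arm s * B * nᵀ * J * (R s * v) = 0 := by
    apply hn s
    rw [hC, ← Matrix.mul_assoc, h.iso, Matrix.zero_mul]
  rw [transpose_sub, Matrix.mul_sub, Matrix.sub_mul, Matrix.sub_mul, ← h1, h4, h5, neg_zero,
    sub_zero]

/-- the conditions on `fh = d_Y f` -/
structure FH (arm : δ → Fin 3) (J : Matrix ι ι K) (B : Matrix δ δ K)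
    (N : Submodule K (Matrix ι δ K)) (g : Matrix ι δ K) (fh : Matrix ι δ K) : Prop where
  memN : fh ∈ N
  perp : gᵀ * J * fh = 0
  h2 : H2 arm J B g fh
  h3 : ∀ A C : Matrix ι ι K, pair J B (A * fh) (C * g) = 0

/-- the projector on `S^⊥`, `ι × δ` version -/
theorem Ctx.proj' (h : Ctx k arm J B N W g) : ∃ Pi : Matrix ι ι K, gᵀ * J * Pi = 0 ∧
    ∀ F : Matrix ι δ K, gᵀ * J * F = 0 → Pi * F = F := by
  obtain ⟨Pi, hPi, hPi'⟩ := exists_proj h.data.J_unit g
  refine ⟨Pi, hPi, fun F hF => ?_⟩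
  ext i j
  have h1 : gᵀ * J * (Matrix.of fun i (_ : Unit) => F i j) = 0 := by
    ext a b
    have := congrFun (congrFun hF a) j
    rw [mul_apply] at this ⊢
    exact this
  have h2 := congrFun (congrFun (hPi' _ h1) i) ()
  rw [mul_apply] at h2 ⊢
  exact h2

/-- `R_s F ∈ S ⊗ U` for `F ∈ S^⊥ ⊗ U` -/
theorem Ctx.RS_mul (h : Ctx k arm J B N W g) {R : Matrix ι ι K}
    (hRS : ∀ v : Matrix ι ι K, gᵀ * J * v = 0 → ∃ C : Matrix δ ι K, R * v = g * C)
    {F : Matrix ι δ K} (hF : gᵀ * J * F = 0) : ∃ C : Matrix δ δ K, R * F = g * C := by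
  obtain ⟨Pi, hPi, hPi'⟩ := h.proj'
  obtain ⟨C, hC⟩ := hRS Pi hPi
  refine ⟨C * F, ?_⟩
  calc R * F = R * (Pi * F) := by rw [hPi' F hF]
    _ = (R * Pi) * F := by rw [Matrix.mul_assoc]
    _ = _ := by rw [hC, Matrix.mul_assoc]

/-- `act R F ∈ S ⊗ U` for `F ∈ S^⊥ ⊗ U` -/
theorem Ctx.act_RS (h : Ctx k arm J B N W g) {R : Fin 3 → Matrix ι ι K}
    (hRS : ∀ s, ∀ v : Matrix ι ι K, gᵀ * J * v = 0 → ∃ C : Matrix δ ι K, R s * v = g * C)
    {F : Matrix ι δ K} (hF : gᵀ * J * F = 0) : ∃ C : Matrix δ δ K, act arm R F = g * C := by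
  choose C hC using fun s => h.RS_mul (hRS s) hF
  exact ⟨_, act_mul_const arm R F hC⟩

/-- `⟨F, g C⟩ = 0` for `F ∈ S^⊥ ⊗ U` -/
theorem Ctx.pair_S' (h : Ctx k arm J B N W g) {F : Matrix ι δ K} (hF : gᵀ * J * F = 0)
    (C : Matrix δ δ K) : pair J B F (g * C) = 0 := by
  rw [pair_comm h.data.J_symm h.data.B_symm, pair_S hF]

/-- derivative of the pairing -/
theorem Ctx.pair_map (h : Ctx k arm J B N W g) (d : Derivation k K K) (F F' : Matrix ι δ K) :
    d (pair J B F F') = pair J B (F.map d) F' + pair J B F (F'.map d) := by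
  unfold pair
  have h1 : d (trace (Fᵀ * J * F' * B)) = trace ((Fᵀ * J * F' * B).map d) := by
    simp only [trace, diag_apply, map_apply, map_sum]
  rw [h1, map_mul_der, map_mul_der, map_mul_der, map_transpose_der, h.data.J_const d,
    h.data.B_const d, ← trace_add]
  simp only [Matrix.mul_zero, add_zero, Matrix.add_mul]

theorem act_g_zero {R : Fin 3 → Matrix ι ι K} (hRg : ∀ s, R s * g = 0) (C : Matrix δ δ K) :
    act arm R (g * C) = 0 := by
  unfold act
  exact Finset.sum_eq_zero fun s _ => by rw [← Matrix.mul_assoc, hRg, Matrix.zero_mul,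
    Matrix.zero_mul]

/-- **(J1)** of note 16280 -/
theorem Ctx.pside_J (h : Ctx k arm J B N W g) {p : Matrix ι ι K × (Fin 3 → Matrix ι ι K)}
    (hp : p ∈ NN arm J N g) {fh : Matrix ι δ K} (hfh : FH arm J B N g fh)
    {R : Fin 3 → Matrix ι ι K} (hR : ∀ s, Skw J (R s)) (hRg : ∀ s, R s * g = 0)
    (hRS : ∀ s, ∀ v : Matrix ι ι K, gᵀ * J * v = 0 → ∃ C : Matrix δ ι K, R s * v = g * C)
    (hk : ∀ s, ∀ v : Matrix ι ι K, gᵀ * J * v = 0 → (p.1 * fh)ᵀ * J * (R s * v) = 0)
    {d : Derivation k K K} (hd : Realises arm N W R (0 : Matrix δ δ K) d) (hdg : g.map d = 0)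
    {Z : Matrix ι ι K} (hZ : Skw J Z) {Q : Fin 3 → Matrix ι ι K} (hQ : Stb arm J N Q)
    (hC : ∀ s, ∃ C : Matrix δ δ K, (Z - (R s * p.1 - p.1 * R s) - Q s) * g = g * C)
    {q : Matrix ι ι K × (Fin 3 → Matrix ι ι K)} (hq : q ∈ NN arm J N g)
    (hq0 : gᵀ * J * (q.1 * g) = 0) :
    pair J B (Z * fh) (act arm q.2 g) = pair J B (act arm R fh) (p.1 * act arm q.2 g) := by
  have hD := h.data
  have hX0 := h.pair_C hp hq hq0 hfh.memN hfh.h2
  have hd0 : d (pair J B (p.1 * fh) (act arm q.2 g)) = 0 := by rw [hX0, map_zero]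
  rw [h.pair_map] at hd0
  -- the three moves
  have hm := h.move hRg hd hdg hp hR hZ hQ hC
  have hm' := h.move hRg hd hdg hq hR Skw.zero (Q := fun _ => 0)
    ⟨fun _ => Skw.zero, fun F _ => by
      have : act arm (fun _ => (0 : Matrix ι ι K)) F = 0 := act_zero arm F
      rw [this]; exact N.zero_mem⟩ (fun s => by
      obtain ⟨C, hC⟩ := h.RS_mul (hRS s) hq0
      refine ⟨-C, ?_⟩
      have e : (0 - (R s * q.1 - q.1 * R s) - 0) * g = -(R s * (q.1 * g)) + q.1 * (R s * g) := by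
        simp only [Matrix.sub_mul, Matrix.mul_assoc, Matrix.zero_mul]; abel
      rw [e, hRg, Matrix.mul_zero, add_zero, hC, Matrix.mul_neg])
  have hm'0 : gᵀ * J * ((q.1.map d - 0) * g) = 0 := by
    have h1 : (gᵀ * J * (q.1 * g)).map d = gᵀ * J * (q.1.map d * g) := by
      rw [h.map_gJ hdg, map_mul_der, hdg, Matrix.mul_zero, add_zero]
    rw [sub_zero, ← h1, hq0, map_zero_der]
  -- (i)
  have t1 : pair J B ((p.1.map d - Z) * fh) (act arm q.2 g) = 0 :=
    h.pair_C hm hq hq0 hfh.memN hfh.h2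
  -- (ii)
  have hn4 : fh.map d - act arm R fh ∈ N := hd.onN fh hfh.memN
  have t2 : pair J B (p.1 * (fh.map d - act arm R fh)) (act arm q.2 g) = 0 :=
    h.pair_C hp hq hq0 hn4 (h.H2_move hR hRS hdg hfh.h2)
  -- (iii)
  have t3 : pair J B (p.1 * fh)
      (act arm (fun s => (q.2 s).map d - (R s * q.2 s - q.2 s * R s) - 0) g) = 0 :=
    h.pair_C hp hm' hm'0 hfh.memN hfh.h2
  have hqg : gᵀ * J * act arm q.2 g = 0 := by
    have h1 := h.perp_Pg hq
    unfold Pg at h1
    rw [Matrix.mul_sub, hq0, zero_sub, neg_eq_zero] at h1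
    exact h1
  have t4 : pair J B (p.1 * fh) (act arm R (act arm q.2 g)) = 0 := by
    obtain ⟨Pi, hPi, hPi'⟩ := h.proj'
    generalize act arm q.2 g = A at hqg ⊢
    unfold act
    rw [Ctx.pair_sum_right]
    refine Finset.sum_eq_zero fun s _ => ?_
    have e1 : R s * A = R s * Pi * A := by
      rw [Matrix.mul_assoc, hPi' _ hqg]
    rw [e1]
    unfold pair
    have e2 : (p.1 * fh)ᵀ * J * (R s * Pi * A * E K arm s) * B
        = (p.1 * fh)ᵀ * J * (R s * Pi) * (A * E K arm s * B) := by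
      simp only [Matrix.mul_assoc]
    rw [e2, hk s Pi hPi, Matrix.zero_mul, trace_zero]
  have e3 : (act arm q.2 g).map d
      = act arm (fun s => (q.2 s).map d - (R s * q.2 s - q.2 s * R s) - 0) g
        + act arm R (act arm q.2 g) := by
    rw [act_map, hdg]
    have e0 : act arm q.2 (0 : Matrix ι δ K) = 0 := by simp [act]
    have eR : act arm R g = 0 := by
      have := act_g_zero (arm := arm) hRg 1
      rwa [Matrix.mul_one] at this
    rw [e0, add_zero, act_sub_left arm (fun s => (q.2 s).map d - (R s * q.2 s - q.2 s * R s))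
      (fun _ => 0), act_sub_left arm (fun s => (q.2 s).map d),
      act_sub_left arm (fun s => R s * q.2 s), ← act_act', ← act_act', eR, e0]
    have e1 : act arm (fun _ => (0 : Matrix ι ι K)) g = 0 := act_zero arm g
    rw [e1]
    abel
  have hsum : pair J B (Z * fh) (act arm q.2 g)
      + pair J B (p.1 * act arm R fh) (act arm q.2 g) = 0 := by
    have e1 : (p.1 * fh).map d = (p.1.map d - Z) * fh + Z * fh
        + (p.1 * (fh.map d - act arm R fh) + p.1 * act arm R fh) := by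
      rw [map_mul_der, Matrix.sub_mul, Matrix.mul_sub]; abel
    rw [e1, e3, pair_add_left, pair_add_left, pair_add_left, pair_add_right, t1, t2, t3, t4,
      zero_add, zero_add, add_zero, add_zero] at hd0
    exact hd0
  rw [pair_skw hp.1] at hsum
  exact eq_of_sub_eq_zero (by rw [sub_eq_add_neg]; exact hsum)

/-- **MAIN of note 16280**: the `P`-side product in pairing form. No hypothesis on `E₁`. -/
theorem Ctx.pside (h : Ctx k arm J B N W g) {p : Matrix ι ι K × (Fin 3 → Matrix ι ι K)}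
    (hp : p ∈ NN arm J N g) {fh : Matrix ι δ K} (hfh : FH arm J B N g fh)
    {R : Fin 3 → Matrix ι ι K} (hR : ∀ s, Skw J (R s)) (hRg : ∀ s, R s * g = 0)
    (hRS : ∀ s, ∀ v : Matrix ι ι K, gᵀ * J * v = 0 → ∃ C : Matrix δ ι K, R s * v = g * C)
    (hk : ∀ s, ∀ v : Matrix ι ι K, gᵀ * J * v = 0 → (p.1 * fh)ᵀ * J * (R s * v) = 0)
    {d : Derivation k K K} (hd : Realises arm N W R (0 : Matrix δ δ K) d) (hdg : g.map d = 0)
    {Z : Matrix ι ι K} (hZ : Skw J Z) {Q : Fin 3 → Matrix ι ι K} (hQ : Stb arm J N Q)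
    (hC : ∀ s, ∃ C : Matrix δ δ K, (Z - (R s * p.1 - p.1 * R s) - Q s) * g = g * C)
    {f : Matrix ι δ K} (hf : gᵀ * J * f = 0) {R1 : Fin 3 → Matrix ι ι K}
    (hRS1 : ∀ s, ∀ v : Matrix ι ι K, gᵀ * J * v = 0 → ∃ C : Matrix δ ι K, R1 s * v = g * C)
    {e : Matrix ι δ K} (heS : ∃ C : Matrix δ δ K, e = g * C)
    {p1 : Matrix ι ι K × (Fin 3 → Matrix ι ι K)} (hp1 : p1 ∈ NN arm J N g)
    (hp10 : gᵀ * J * (p1.1 * g) = 0) (hν : e - act arm R1 f + Pg arm g p1 ∈ N)
    {Z1 Y : Matrix ι ι K}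
    (hrel : gᵀ * J * (p.1 * e) = - (gᵀ * J * (Z1 * f)) + gᵀ * J * (Y * g)
      - gᵀ * J * (p.1 * (p1.1 * g))) :
    pair J B (act arm R fh) (p.1 * act arm R1 f) + pair J B (act arm R fh) (Z1 * f)
      - pair J B (Z * fh) (act arm R1 f) + pair J B (Z * fh) e
      - pair J B (act arm R fh) (Y * g) = 0 := by
  have hD := h.data
  -- everything in `S ⊗ U`
  obtain ⟨C2, hC2⟩ := h.act_RS hRS hfh.perp
  obtain ⟨C1, hC1⟩ := h.act_RS hRS1 hf
  obtain ⟨Ce, hCe⟩ := heS
  obtain ⟨CP, hCP⟩ := Pg_InS hp1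
  set ν : Matrix ι δ K := e - act arm R1 f + Pg arm g p1 with hνd
  have hνS : ν = g * (Ce - C1 + CP) := by
    rw [hνd, hCe, hC1, hCP, Matrix.mul_add, Matrix.mul_sub]
  have hνp : gᵀ * J * ν = 0 := by rw [hνS, ← Matrix.mul_assoc, h.iso, Matrix.zero_mul]
  -- `(*)`
  have hstar : pair J B (Z * fh) ν + pair J B (p.1 * act arm R fh) ν = 0 := by
    have h0 : pair J B (act arm Q fh) ν = 0 := h.pair_N (hQ.pres fh hfh.memN) hν
    have h1 : pair J B (act arm (fun s => Z - (R s * p.1 - p.1 * R s) - Q s) fh) ν = 0 := by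
      rw [hνS]
      refine h.pair_S' ?_ _
      unfold act
      rw [Matrix.mul_sum]
      refine Finset.sum_eq_zero fun s _ => ?_
      obtain ⟨C, hCs⟩ := hC s
      have hsk : Skw J (Z - (R s * p.1 - p.1 * R s) - Q s) :=
        (hZ.sub ((hR s).comm hp.1)).sub (hQ.skw s)
      rw [← Matrix.mul_assoc, perp_stable hsk hCs hfh.perp, Matrix.zero_mul]
    have h2 : pair J B (act arm R (p.1 * fh)) ν = 0 := by
      rw [pair_act hD.B_arm hR, hνS, act_g_zero hRg, pair_zero_right, neg_zero]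
    have e1 : act arm (fun s => Z - (R s * p.1 - p.1 * R s) - Q s) fh
        = Z * fh - (act arm R (p.1 * fh) - p.1 * act arm R fh) - act arm Q fh := by
      rw [act_sub_left arm (fun s => Z - (R s * p.1 - p.1 * R s)) Q,
        act_sub_left arm (fun _ => Z) (fun s => R s * p.1 - p.1 * R s),
        act_sub_left arm (fun s => R s * p.1) (fun s => p.1 * R s), act_const]
      have e2 : act arm (fun s => R s * p.1) fh = act arm R (p.1 * fh) := by
        rw [← act_const arm p.1 fh, act_act']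
      have e3 : act arm (fun s => p.1 * R s) fh = p.1 * act arm R fh := by
        rw [← act_const arm p.1 (act arm R fh), act_act']
      rw [e2, e3]
    rw [e1, pair_sub_left, pair_sub_left, pair_sub_left, h0, h2, zero_sub, sub_neg_eq_add,
      sub_zero] at h1
    exact h1
  -- `j = 0`
  have hJ1 := h.pside_J hp hfh hR hRg hRS hk hd hdg hZ hQ hC hp1 hp10
  have hj0 : pair J B (Z * fh) (p1.1 * g) = 0 := hfh.h3 Z p1.1
  -- `(X)` paired with `r₂`
  have hXp : pair J B (act arm R fh) (p.1 * e) = - pair J B (act arm R fh) (Z1 * f)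
      + pair J B (act arm R fh) (Y * g) - pair J B (act arm R fh) (p.1 * (p1.1 * g)) := by
    have h1 : gᵀ * J * (p.1 * e + Z1 * f - Y * g + p.1 * (p1.1 * g)) = 0 := by
      rw [Matrix.mul_add, Matrix.mul_sub, Matrix.mul_add, hrel]; abel
    have h2 := pair_S (B := B) h1 C2
    rw [← hC2, pair_add_right, pair_sub_right, pair_add_right] at h2
    linear_combination h2
  -- expand `(*)`
  rw [pair_skw hp.1, hνd, Matrix.mul_add, Matrix.mul_sub, pair_add_right, pair_sub_right,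
    pair_add_right, pair_sub_right, hXp] at hstar
  have e5 : pair J B (Z * fh) (Pg arm g p1) = pair J B (Z * fh) (p1.1 * g)
      - pair J B (Z * fh) (act arm p1.2 g) := by unfold Pg; rw [pair_sub_right]
  have e6 : pair J B (act arm R fh) (p.1 * Pg arm g p1)
      = pair J B (act arm R fh) (p.1 * (p1.1 * g))
        - pair J B (act arm R fh) (p.1 * act arm p1.2 g) := by
    unfold Pg; rw [Matrix.mul_sub, pair_sub_right]
  rw [e5, e6, hj0, hJ1] at hstar
  linear_combination hstar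

end Crest.Agent.R172.Qt
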