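import Crest.Agent.R172.PSide

/-!
Row 172 (S0260), node (t3)/(Q1), `P`-side in pairing form, part 2: the matrix `fh = f.map d` of an
`L`-motion `(0, Y)` with `g Yᵀ = 0`.

`Ctx.Ldir`       : `d g ∈ 𝒦iso` (note 16259);
`Ctx.exists_Lder`: `d` corrected to `d g = 0`;
`Ctx.FH_of_der`  : `FH (f.map d)`;
`Ctx.pair_der`   : `⟨d f, T f⟩ = ⟨f Yᵀ, T f⟩`;
`Ctx.hk_of`, `Ctx.hk_R` : `(φ f̂)(P_S) = 0` if `T_f φ = 0`.
-/

set_option autoImplicit false
set_option linter.unusedSectionVars false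
set_option linter.unusedFintypeInType false
set_option linter.unusedDecidableInType false

namespace Crest.Agent.R172.Qt

open Matrix Module Crest.Agent.R172.FO

variable {ι : Type*} [Fintype ι] [DecidableEq ι] {δ : Type*} [Fintype δ] [DecidableEq δ]
variable {k K : Type*} [Field k] [Field K] [Algebra k K]
variable {arm : δ → Fin 3} {J : Matrix ι ι K} {B : Matrix δ δ K}
  {N W : Submodule K (Matrix ι δ K)} {g : Matrix ι δ K}

/-- `d g ∈ 𝒦iso` for an `L`-motion with `g Yᵀ = 0` -/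
theorem Ctx.Ldir (h : Ctx k arm J B N W g) {Y : Matrix δ δ K} (hgY : g * Yᵀ = 0)
    {d : Derivation k K K} (hd : Realises arm N W (0 : Fin 3 → Matrix ι ι K) Y d) :
    g.map d ∈ N ⊓ W ∧ ∀ f ∈ N ⊓ W, (g.map d)ᵀ * J * f = 0 := by
  have h1 : g.map d ∈ N := by
    have := hd.onN g h.memN
    rw [act_zero, sub_zero] at this
    exact this
  have h2 : g.map d ∈ W := by
    have := hd.onW g h.memW
    rw [hgY, sub_zero] at this
    exact this
  refine ⟨⟨h1, h2⟩, fun f hf => ?_⟩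
  obtain ⟨Yf, hYf, hYN, hYg⟩ := h.frame d
  have hp : (Yf 0, fun s => Yf s - (0 : Fin 3 → Matrix ι ι K) s) ∈ NN arm J N g :=
    mem_NN_of_frame (X := 0) (fun s => Skw.zero) (fun s => ⟨0, by simp⟩) hd hYf hYN hYg
  obtain ⟨C0, hC0⟩ := hYg 0
  have h3 : g.map d = Yf 0 * g + g * C0 := by rw [← hC0]; abel
  have h4 : gᵀ * J * (Yf 0 * g) = 0 := by
    have h5 := h.perp _ ⟨h1, h2⟩
    rw [h3, Matrix.mul_add, ← Matrix.mul_assoc (gᵀ * J) g C0, h.iso, Matrix.zero_mul,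
      add_zero] at h5
    exact h5
  have h5 : gᵀ * J * (Yf 0 * f) = 0 := h.tf_zero hf hp h4
  have h6 : (g.map d)ᵀ * J * f = - (gᵀ * J * (Yf 0 * f)) + C0ᵀ * (gᵀ * J * f) := by
    rw [h3, transpose_add, transpose_mul, transpose_mul, Matrix.add_mul, Matrix.add_mul,
      Matrix.mul_assoc gᵀ, (hYf 0).eq]
    simp only [Matrix.mul_neg, Matrix.neg_mul, Matrix.mul_assoc]
  rw [h6, h5, h.perp f hf, Matrix.mul_zero, neg_zero, add_zero]

/-- an `L`-motion `(0, Y)`, `g Yᵀ = 0`, with `d g = 0` -/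
theorem Ctx.exists_Lder (h : Ctx k arm J B N W g)
    (hV : ∀ w ∈ N ⊓ W, (∀ f ∈ N ⊓ W, wᵀ * J * f = 0) → ∃ D : Derivation k K K, g.map D = w ∧
      Realises arm N W (0 : Fin 3 → Matrix ι ι K) (0 : Matrix δ δ K) D)
    {Y : Matrix δ δ K} (hY : Yᵀ * B + B * Y = 0) (hgY : g * Yᵀ = 0) :
    ∃ d : Derivation k K K, Realises arm N W (0 : Fin 3 → Matrix ι ι K) Y d ∧ g.map d = 0 := by
  obtain ⟨d, hd⟩ := h.data.dir 0 Y (by intro s; simp) hY
  obtain ⟨h1, h2⟩ := h.Ldir hgY hd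
  obtain ⟨D, hD, hDr⟩ := hV _ h1 h2
  have hsub : ∀ F : Matrix ι δ K, F.map (d - D : Derivation k K K) = F.map d - F.map D := by
    intro F; ext i j; simp
  refine ⟨d - D, ⟨fun F hF => ?_, fun F hF => ?_⟩, ?_⟩
  · have e : F.map (d - D : Derivation k K K) - act arm 0 F
        = (F.map d - act arm 0 F) - (F.map D - act arm 0 F) := by
      rw [hsub, act_zero]; abel
    rw [e]
    exact N.sub_mem (hd.onN F hF) (hDr.onN F hF)
  · have e : F.map (d - D : Derivation k K K) - F * Yᵀ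
        = (F.map d - F * Yᵀ) - (F.map D - F * (0 : Matrix δ δ K)ᵀ) := by
      rw [hsub, transpose_zero, Matrix.mul_zero]; abel
    rw [e]
    exact W.sub_mem (hd.onW F hF) (hDr.onW F hF)
  · rw [hsub, hD, sub_self]

/-- `⟨d f, T f⟩ = ⟨f Yᵀ, T f⟩` -/
theorem Ctx.pair_der (h : Ctx k arm J B N W g) {f : Matrix ι δ K} (hf : f ∈ N ⊓ W)
    {Y : Matrix δ δ K} {d : Derivation k K K}
    (hd : Realises arm N W (0 : Fin 3 → Matrix ι ι K) Y d) {F : Matrix ι δ K} (hF : F ∈ W) :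
    pair J B (f.map d) F = pair J B (f * Yᵀ) F := by
  have h1 := pair_W h.data (hd.onW f hf.2) hF
  rw [pair_sub_left, sub_eq_zero] at h1
  exact h1

/-- `FH (f.map d)` -/
theorem Ctx.FH_of_der (h : Ctx k arm J B N W g) {f : Matrix ι δ K} (hf : f ∈ N ⊓ W)
    {Y : Matrix δ δ K} (hY : Yᵀ * B + B * Y = 0) (hgY : g * Yᵀ = 0)
    {d : Derivation k K K} (hd : Realises arm N W (0 : Fin 3 → Matrix ι ι K) Y d)
    (hdg : g.map d = 0) : FH arm J B N g (f.map d) := by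
  have hD := h.data
  refine ⟨?_, ?_, ?_, fun A C => ?_⟩
  · have := hd.onN f hf.1
    rw [act_zero, sub_zero] at this
    exact this
  · rw [← h.map_gJ hdg, h.perp f hf, map_zero_der]
  · have h1 := h.H2_move (R := 0) (fun _ => Skw.zero) (fun s v _ => ⟨0, by simp⟩) hdg
      (h.H2_of_mem hf)
    rw [act_zero, sub_zero] at h1
    exact h1
  · have h1 : pair J B (A * (f.map d - f * Yᵀ)) (C * g) = 0 :=
      pair_W hD (h.W_mul A (hd.onW f hf.2)) (h.W_mul C h.memW)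
    rw [Matrix.mul_sub, pair_sub_left, sub_eq_zero] at h1
    rw [h1]
    unfold pair
    have hBY : g * B * Y = 0 := by
      have h2 : B * Y = -(Yᵀ * B) := by rw [add_comm] at hY; exact eq_neg_of_add_eq_zero_left hY
      rw [Matrix.mul_assoc, h2, Matrix.mul_neg, ← Matrix.mul_assoc, hgY, Matrix.zero_mul, neg_zero]
    have e1 : (A * (f * Yᵀ))ᵀ * J * (C * g) * B = Y * (fᵀ * Aᵀ * J * C * (g * B)) := by
      rw [transpose_mul, transpose_mul, transpose_transpose]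
      simp only [Matrix.mul_assoc]
    rw [e1, trace_mul_comm]
    have e2 : fᵀ * Aᵀ * J * C * (g * B) * Y = fᵀ * Aᵀ * J * C * (g * B * Y) := by
      simp only [Matrix.mul_assoc]
    rw [e2, hBY, Matrix.mul_zero, trace_zero]

/-- moving an element of `NN` along an `L`-motion -/
theorem Ctx.move_L (h : Ctx k arm J B N W g) {Y : Matrix δ δ K} {d : Derivation k K K}
    (hd : Realises arm N W (0 : Fin 3 → Matrix ι ι K) Y d) (hdg : g.map d = 0)
    {p : Matrix ι ι K × (Fin 3 → Matrix ι ι K)} (hp : p ∈ NN arm J N g) :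
    (p.1.map d, fun s => (p.2 s).map d) ∈ NN arm J N g := by
  have hJ := h.data.J_const d
  refine ⟨hp.1.map_der d hJ, ⟨fun s => (hp.2.1.skw s).map_der d hJ, fun F hF => ?_⟩, fun s => ?_⟩
  · have h1 : act arm (fun s => (p.2 s).map d) F
        = (act arm p.2 F).map d - act arm p.2 (F.map d) := by rw [act_map]; abel
    change act arm (fun s => (p.2 s).map d) F ∈ N
    rw [h1]
    have h2 := hd.onN _ (hp.2.1.pres F hF)
    rw [act_zero, sub_zero] at h2
    have h3 := hd.onN _ hF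
    rw [act_zero, sub_zero] at h3
    exact N.sub_mem h2 (hp.2.1.pres _ h3)
  · obtain ⟨D, hD⟩ := hp.2.2 s
    refine ⟨D.map d, ?_⟩
    have := congrArg (fun A : Matrix ι δ K => A.map d) hD
    simp only [map_mul_der, hdg, Matrix.mul_zero, Matrix.zero_mul, add_zero, zero_add,
      map_sub_der] at this
    exact this

/-- `(φ f̂)(M_s φ S) = 0` if `T_f φ = 0` -/
theorem Ctx.hk_of (h : Ctx k arm J B N W g) {f : Matrix ι δ K} (hf : f ∈ N ⊓ W)
    {p : Matrix ι ι K × (Fin 3 → Matrix ι ι K)} (hp : p ∈ NN arm J N g)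
    (hp0 : gᵀ * J * (p.1 * f) = 0) {Y : Matrix δ δ K} {d : Derivation k K K}
    (hd : Realises arm N W (0 : Fin 3 → Matrix ι ι K) Y d) (hdg : g.map d = 0) (s : Fin 3) :
    (p.1 * f.map d)ᵀ * J * (M arm B s g g * J * (p.1 * g)) = 0 := by
  have hD := h.data
  have hp'' := h.move_L hd hdg hp
  obtain ⟨p6, hp6, hp6e⟩ := h.tf hf hp''
  have h1 : gᵀ * J * (p.1 * f.map d) = - (gᵀ * J * (p.1.map d * f)) := by
    have h2 : (gᵀ * J * (p.1 * f)).map d = gᵀ * J * (p.1.map d * f + p.1 * f.map d) := by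
      rw [h.map_gJ hdg, map_mul_der]
    rw [hp0, map_zero_der, Matrix.mul_add] at h2
    exact (neg_eq_of_add_eq_zero_right h2.symm).symm
  have h2 : (p.1 * f.map d)ᵀ * J * g = gᵀ * J * (p6.1 * g) := by
    have h3 : (gᵀ * J * (p.1 * f.map d))ᵀ = (p.1 * f.map d)ᵀ * J * g := by
      rw [transpose_mul (gᵀ * J), transpose_mul gᵀ J, transpose_transpose g, hD.J_symm,
        ← Matrix.mul_assoc]
    have h4 : (gᵀ * J * (p6.1 * g))ᵀ = - (gᵀ * J * (p6.1 * g)) :=
      skew_gXg hD.J_symm hp6.1 g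
    have h5 : gᵀ * J * (p.1.map d * f) = gᵀ * J * (p6.1 * g) := hp6e
    rw [← h3, h1, h5, transpose_neg, h4, neg_neg]
  have h3 : gᵀ * J * (p.1.map d * M arm B s g f) = gᵀ * J * (p6.1 * M arm B s g g) :=
    h.tf_rel hf hp6e s
  have h4 : fᵀ * J * (p.1 * g) = 0 := by
    have h5 := congrArg transpose hp0
    rw [transpose_zero, transpose_mul, transpose_mul, transpose_mul, transpose_transpose,
      hD.J_symm] at h5
    have h6 : fᵀ * p.1ᵀ * (J * g) = - (fᵀ * J * (p.1 * g)) := by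
      calc fᵀ * p.1ᵀ * (J * g) = fᵀ * (p.1ᵀ * J) * g := by simp only [Matrix.mul_assoc]
        _ = _ := by
          rw [hp.1.eq]; simp only [Matrix.mul_neg, Matrix.neg_mul, Matrix.mul_assoc]
    rw [h6, neg_eq_zero] at h5
    exact h5
  calc (p.1 * f.map d)ᵀ * J * (M arm B s g g * J * (p.1 * g))
      = ((p.1 * f.map d)ᵀ * J * g) * (E K arm s * B * gᵀ * J * (p.1 * g)) := by
        unfold M; simp only [Matrix.mul_assoc]
    _ = gᵀ * J * (p6.1 * M arm B s g g) * (J * (p.1 * g)) := by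
        rw [h2]; unfold M; simp only [Matrix.mul_assoc]
    _ = gᵀ * J * (p.1.map d * (g * E K arm s * B)) * (fᵀ * J * (p.1 * g)) := by
        rw [← h3]; unfold M; simp only [Matrix.mul_assoc]
    _ = 0 := by rw [h4, Matrix.mul_zero]

/-- `hk` of `Ctx.pside` for gluing families with values in `P_S` -/
theorem Ctx.hk_R (h : Ctx k arm J B N W g) {f : Matrix ι δ K} (hf : f ∈ N ⊓ W)
    {p : Matrix ι ι K × (Fin 3 → Matrix ι ι K)} (hp : p ∈ NN arm J N g)
    (hp0 : gᵀ * J * (p.1 * f) = 0) {Y : Matrix δ δ K} {d : Derivation k K K}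
    (hd : Realises arm N W (0 : Fin 3 → Matrix ι ι K) Y d) (hdg : g.map d = 0)
    {R : Fin 3 → Matrix ι ι K}
    (hRP : ∀ s, ∀ v : Matrix ι ι K, gᵀ * J * v = 0 → ∃ C : Fin 3 → Matrix δ ι K,
      R s * v = ∑ r, M arm B r g g * J * (p.1 * g) * C r) :
    ∀ s, ∀ v : Matrix ι ι K, gᵀ * J * v = 0 → (p.1 * f.map d)ᵀ * J * (R s * v) = 0 := by
  intro s v hv
  obtain ⟨C, hC⟩ := hRP s v hv
  rw [hC, Matrix.mul_sum]
  refine Finset.sum_eq_zero fun r _ => ?_
  rw [← Matrix.mul_assoc, h.hk_of hf hp hp0 hd hdg r, Matrix.zero_mul]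

end Crest.Agent.R172.Qt
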