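import Crest.Agent.R172.SpS7
import Crest.Agent.R172.Qt4
import Crest.Agent.R172.Om1

/-!
Row 172 (S0260), (t2): helper804's LEMMA (PT) (note 16178), independent copy (helper420).

`F, f ∈ 𝒦iso`, `P ∈ NN F`, `H = F + t f`.  There is `P_t ∈ NN H` with
`Hᵀ J (P_t.1 F) = Hᵀ J (P.1 F)`, `Hᵀ J (P_t.1 f) = Hᵀ J b`, `Fᵀ J b = Fᵀ J (P.1 f)`, `b ∈ W`, and
`Vert k arm J N W H P_t`.
-/

set_option autoImplicit false
set_option linter.unusedSectionVars false
set_option linter.unusedFintypeInType false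
set_option linter.unusedDecidableInType false

namespace Crest.Agent.R172.PT420

open Matrix Module Crest.Agent.R172.FO Crest.Agent.R172.Qt Crest.Agent.R172.SpS
open Crest.Agent.R172.Om (Kiso)

variable {ι : Type*} [Fintype ι] [DecidableEq ι] {δ : Type*} [Fintype δ] [DecidableEq δ]
variable {k K : Type*} [Field k] [Field K] [Algebra k K]
variable {arm : δ → Fin 3} {J : Matrix ι ι K} {B : Matrix δ δ K}
  {N W : Submodule K (Matrix ι δ K)} {g : Matrix ι δ K}

/-- `fᵀ J (q₁ g) = gᵀ J (q₁ f)` -/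
theorem s1 (h : Ctx k arm J B N W g) {f : Matrix ι δ K} (hf : f ∈ N ⊓ W)
    {q : Matrix ι ι K × (Fin 3 → Matrix ι ι K)} (hq : q ∈ NN arm J N g) :
    fᵀ * J * (q.1 * g) = gᵀ * J * (q.1 * f) := by
  obtain ⟨q', hq', e⟩ := h.tf hf hq
  have h1 := skew_gXg h.data.J_symm hq'.1 g
  have h2 : (gᵀ * J * (q.1 * f))ᵀ = -(fᵀ * J * (q.1 * g)) := by
    have e0 : (gᵀ * J)ᵀ = J * g := by rw [transpose_mul, transpose_transpose, h.data.J_symm]
    rw [transpose_mul, e0, transpose_mul]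
    calc fᵀ * q.1ᵀ * (J * g) = fᵀ * (q.1ᵀ * J) * g := by simp only [Matrix.mul_assoc]
      _ = _ := by rw [hq.1.eq]; simp only [Matrix.mul_neg, Matrix.neg_mul, Matrix.mul_assoc]
  rw [← e, h2] at h1
  exact neg_injective h1

theorem pair_left (q : Matrix ι ι K) (hq : Skw J q) (a b : Matrix ι δ K) (C : Matrix δ δ K) :
    pair J B (q * a) (b * C) = - trace (aᵀ * J * (q * b) * C * B) := by
  unfold pair
  rw [← trace_neg]
  congr 1
  calc (q * a)ᵀ * J * (b * C) * B = aᵀ * (qᵀ * J) * b * C * B := by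
        rw [transpose_mul]; simp only [Matrix.mul_assoc]
    _ = _ := by
      rw [hq.eq]; simp only [Matrix.mul_neg, Matrix.neg_mul, Matrix.mul_assoc]

/-- `⟨q₁ g, f C⟩ = ⟨q₁ f, g C⟩` -/
theorem s1p (h : Ctx k arm J B N W g) {f : Matrix ι δ K} (hf : f ∈ N ⊓ W)
    {q : Matrix ι ι K × (Fin 3 → Matrix ι ι K)} (hq : q ∈ NN arm J N g) (C : Matrix δ δ K) :
    pair J B (q.1 * g) (f * C) = pair J B (q.1 * f) (g * C) := by
  rw [pair_left q.1 hq.1, pair_left q.1 hq.1, s1 h hf hq]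

/-- `⟨Q g, P_k⟩ = ⟨Q k, P_g⟩`, for arbitrary `Q` and arbitrary families. -/
theorem s2 (hD : Data k arm J B N W) {k' g' : Matrix ι δ K} (hk : k' ∈ N ⊓ W) (hg : g' ∈ N ⊓ W)
    (Q : Matrix ι ι K) (p : Matrix ι ι K × (Fin 3 → Matrix ι ι K)) :
    pair J B (Q * g') (Pg arm k' p) = pair J B (Q * k') (Pg arm g' p) := by
  have key : ∀ a b : Matrix ι δ K, pair J B (Q * a) (Pg arm b p) =
      ∑ s, trace (Qᵀ * J * (p.1 - p.2 s) * M arm B s b a) := by
    intro a b
    rw [Pg_eq]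
    unfold act
    rw [Ctx.pair_sum_right]
    refine Finset.sum_congr rfl fun s _ => ?_
    unfold pair M
    have e : (Q * a)ᵀ * J * ((p.1 - p.2 s) * b * E K arm s) * B =
        aᵀ * (Qᵀ * J * (p.1 - p.2 s) * b * E K arm s * B) := by
      rw [transpose_mul]; simp only [Matrix.mul_assoc]
    rw [e, trace_mul_comm]
    simp only [Matrix.mul_assoc]
  rw [key, key]
  refine Finset.sum_congr rfl fun s _ => ?_
  rw [hD.symm_arm hk hg s]

/-- (O) -/
theorem orth (h : Ctx k arm J B N W g) {α n : Matrix ι δ K} {X : Matrix δ δ K} (hα : α ∈ W)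
    (hn : n ∈ N) (e : α = n + g * X) (h0 : gᵀ * J * α = 0)
    {q : Matrix ι ι K × (Fin 3 → Matrix ι ι K)} (hq : q ∈ NN arm J N g) :
    pair J B (q.1 * g) (g * X) = 0 := by
  have e1 : g * X = α - n := by rw [e]; abel
  have e2 : q.1 * g = act arm q.2 g + Pg arm g q := by unfold Pg; abel
  obtain ⟨D, hD⟩ := Pg_InS hq
  have h1 : pair J B (q.1 * g) (g * X) = - pair J B (q.1 * g) n := by
    rw [e1, pair_sub_right, pair_W h.data (h.W_mul _ h.memW) hα, zero_sub]
  have h2 : pair J B (q.1 * g) n = pair J B (g * D) n := by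
    rw [e2, pair_add_left, h.pair_N (hq.2.1.pres g h.memN) hn, zero_add, hD]
  have h3 : gᵀ * J * n = 0 := by
    have : n = α - g * X := by rw [e]; abel
    rw [this, Matrix.mul_sub, h0, ← Matrix.mul_assoc, h.iso, Matrix.zero_mul, sub_zero]
  rw [h1, h2, pair_S h3, neg_zero]

/-- **LEMMA G.** -/
theorem lemG (h : Ctx k arm J B N W g) {f : Matrix ι δ K} (hf : f ∈ N ⊓ W)
    {α β nα nβ : Matrix ι δ K} {C : Matrix δ δ K} (hα : α ∈ W) (hnα : nα ∈ N)
    (eα : α = nα + g * C) (hβ : β ∈ W) (hnβ : nβ ∈ N) (eβ : β = nβ + f * C)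
    {p : Matrix ι ι K × (Fin 3 → Matrix ι ι K)} (hp : p ∈ NN arm J N g)
    (hpα : gᵀ * J * α = gᵀ * J * (p.1 * g)) : gᵀ * J * β = gᵀ * J * (p.1 * f) := by
  have hD := h.data
  have hgf := h.perp f hf
  rw [← sub_eq_zero, ← Matrix.mul_sub]
  refine h.onto (a := β - p.1 * f) (ν := nβ - act arm p.2 f)
    (W.sub_mem hβ (h.W_mul _ hf.2)) (N.sub_mem hnβ (hp.2.1.pres f hf.1)) ?_ ?_
  · have h1 := perp_Pf hp hgf
    have e1 : β - p.1 * f = (nβ - act arm p.2 f) + f * C - (p.1 * f - act arm p.2 f) := by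
      rw [eβ]; abel
    rw [e1, Matrix.mul_sub, h1, sub_zero, Matrix.mul_add, ← Matrix.mul_assoc _ f, hgf,
      Matrix.zero_mul, add_zero]
  · refine LinearMap.ext fun q => ?_
    rw [fn_apply, LinearMap.zero_apply]
    obtain ⟨q, hq⟩ := q
    change pair J B (Pg arm g q) (nβ - act arm p.2 f) = 0
    have hN1 : nβ - act arm p.2 f ∈ N := N.sub_mem hnβ (hp.2.1.pres f hf.1)
    have e0 : Pg arm g q = q.1 * g - act arm q.2 g := rfl
    rw [e0, pair_sub_left, h.pair_N (hq.2.1.pres g h.memN) hN1, sub_zero]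
    have e1 : nβ - act arm p.2 f = (β - p.1 * f) - f * C + Pg arm f p := by
      rw [eβ]; unfold Pg; abel
    rw [e1, pair_add_right, pair_sub_right,
      pair_W hD (h.W_mul _ h.memW) (W.sub_mem hβ (h.W_mul _ hf.2)), zero_sub,
      s1p h hf hq, s2 hD hf h.mem q.1 p]
    obtain ⟨D, hDp⟩ := Pg_InS hp
    rw [hDp]
    obtain ⟨q', hq', e2⟩ := h.tf hf hq
    -- ⟨q₁ f, g X⟩ = ⟨q'₁ g, g X⟩
    have e3 : ∀ X : Matrix δ δ K, pair J B (q.1 * f) (g * X) = pair J B (q'.1 * g) (g * X) := by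
      intro X
      unfold pair
      have e4 : ∀ A : Matrix ι δ K, Aᵀ * J * (g * X) * B = (gᵀ * J * A)ᵀ * X * B := by
        intro A
        have e5 : (gᵀ * J)ᵀ = J * g := by rw [transpose_mul, transpose_transpose, hD.J_symm]
        rw [transpose_mul, e5]
        simp only [Matrix.mul_assoc]
      rw [e4, e4, e2]
    rw [e3, e3]
    have e6 := orth h (α := α - p.1 * g) (n := nα - act arm p.2 g) (X := C - D)
      (W.sub_mem hα (h.W_mul _ h.memW)) (N.sub_mem hnα (hp.2.1.pres g h.memN)) (by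
        have : p.1 * g = act arm p.2 g + g * D := by rw [← hDp]; unfold Pg; abel
        rw [eα, this, Matrix.mul_sub]; abel) (by rw [Matrix.mul_sub, hpα, sub_self]) hq'
    rw [Matrix.mul_sub, pair_sub_right, sub_eq_zero] at e6
    rw [e6]; ring

/-- `f C ∈ N + W` for `f ∈ 𝒦iso`. -/
theorem mem_sup (hD : Data k arm J B N W)
    (hNm : ∀ F, (∀ F' ∈ N, pair J B F' F = 0) → F ∈ N)
    (hWm : ∀ F, (∀ F' ∈ W, pair J B F' F = 0) → F ∈ W)
    {f : Matrix ι δ K} (hf : f ∈ Kiso J N W) (C : Matrix δ δ K) :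
    ∃ b ∈ W, ∃ n ∈ N, b = n + f * C := by
  have h1 : f * C ∈ N ⊔ W := by
    refine Qt.mem_of_pair hD.J_unit hD.B_unit _ _ fun z hz => ?_
    have hzK : z ∈ N ⊓ W := ⟨hNm z fun F' hF' => hz F' (Submodule.mem_sup_left hF'),
      hWm z fun F' hF' => hz F' (Submodule.mem_sup_right hF')⟩
    exact pair_S (hf.2 z hzK) C
  obtain ⟨n, hn, b, hb, e⟩ := Submodule.mem_sup.1 h1
  exact ⟨b, hb, -n, N.neg_mem hn, by rw [← e]; abel⟩

/-- (PT), existence. -/
theorem exists_pt (hctx : ∀ g ∈ Kiso J N W, Ctx k arm J B N W g) {F f : Matrix ι δ K}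
    (hF : F ∈ Kiso J N W) (hf : f ∈ Kiso J N W)
    {P : Matrix ι ι K × (Fin 3 → Matrix ι ι K)} (hP : P ∈ NN arm J N F) (t : K)
    {C : Matrix δ δ K} (hC : Pg arm F P = F * C) {b n : Matrix ι δ K} (hb : b ∈ W) (hn : n ∈ N)
    (e : b = n + f * C) :
    Fᵀ * J * b = Fᵀ * J * (P.1 * f) ∧
    ∃ p ∈ NN arm J N (F + t • f),
      (F + t • f)ᵀ * J * (P.1 * F) = (F + t • f)ᵀ * J * (p.1 * F) ∧
      (F + t • f)ᵀ * J * b = (F + t • f)ᵀ * J * (p.1 * f) := by
  have h := hctx F hF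
  have hHm : F + t • f ∈ Kiso J N W := (Kiso J N W).add_mem hF ((Kiso J N W).smul_mem t hf)
  have hH := hctx _ hHm
  have e1 : P.1 * F = act arm P.2 F + F * C := by rw [← hC]; unfold Pg; abel
  refine ⟨lemG h hf.1 (h.W_mul _ h.memW) (hP.2.1.pres F h.memN) e1 hb hn e hP rfl, ?_⟩
  have hα : P.1 * F + t • b ∈ W := W.add_mem (h.W_mul _ h.memW) (W.smul_mem t hb)
  have hnα : act arm P.2 F + t • n ∈ N := N.add_mem (hP.2.1.pres F h.memN) (N.smul_mem t hn)
  have eα : P.1 * F + t • b = (act arm P.2 F + t • n) + (F + t • f) * C := by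
    rw [e1, e, smul_add, Matrix.add_mul, Matrix.smul_mul]; abel
  obtain ⟨p, hp, hpe⟩ := hH.AS hα hnα eα
  exact ⟨p, hp, lemG hH hF.1 hα hnα eα (h.W_mul _ h.memW) (hP.2.1.pres F h.memN) e1 hp hpe,
    lemG hH hf.1 hα hnα eα hb hn e hp hpe⟩

/-- (KEY a) -/
theorem key_a (h : Ctx k arm J B N W g) {f : Matrix ι δ K} (hf : f ∈ N ⊓ W)
    {α β nα nβ : Matrix ι δ K} {C : Matrix δ δ K} (hα : α ∈ W) (hnα : nα ∈ N)
    (eα : α = nα + g * C) (hβ : β ∈ W) (hnβ : nβ ∈ N) (eβ : β = nβ + f * C)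
    (h0 : gᵀ * J * α = 0) : gᵀ * J * β = 0 := by
  have h1 := lemG h hf hα hnα eα hβ hnβ eβ (p := 0) (NN arm J N g).zero_mem (by
    rw [h0]; simp)
  rw [h1]; simp

/-- (KEY b) -/
theorem key_b (h : Ctx k arm J B N W g)
    (hNm : ∀ F, (∀ F' ∈ N, pair J B F' F = 0) → F ∈ N)
    (hWm : ∀ F, (∀ F' ∈ W, pair J B F' F = 0) → F ∈ W)
    {f : Matrix ι δ K} (hf : f ∈ Kiso J N W)
    {α nα : Matrix ι δ K} {C : Matrix δ δ K} (hα : α ∈ W) (hnα : nα ∈ N)
    (eα : α = nα + g * C) (h0 : gᵀ * J * α = 0) : fᵀ * J * α = 0 := by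
  obtain ⟨f', hf', p, hp, hp0, C', e⟩ := h.KV hNm hWm hα h0 hnα eα
  have h1 := s1 h hf.1 hp
  have h2 := h.tf_zero hf.1 hp hp0
  have h3 : fᵀ * J * g = 0 := hf.2 g h.mem
  rw [e, Matrix.mul_add, Matrix.mul_add, hf.2 f' hf', h1, h2, ← Matrix.mul_assoc _ g, h3,
    Matrix.zero_mul, add_zero, add_zero]

/-- (KEY c) -/
theorem key_c (h : Ctx k arm J B N W g)
    (hNm : ∀ F, (∀ F' ∈ N, pair J B F' F = 0) → F ∈ N)
    (hWm : ∀ F, (∀ F' ∈ W, pair J B F' F = 0) → F ∈ W)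
    {f : Matrix ι δ K} (hf : f ∈ Kiso J N W)
    {α β nα nβ : Matrix ι δ K} {C : Matrix δ δ K} (hα : α ∈ W) (hnα : nα ∈ N)
    (eα : α = nα + g * C) (hβ : β ∈ W) (hnβ : nβ ∈ N) (eβ : β = nβ + f * C)
    (h0 : gᵀ * J * α = 0) {d : Derivation k K K} (hdg : g.map d = f) (hdf : f.map d = 0)
    (hd : Realises arm N W (0 : Fin 3 → Matrix ι ι K) (0 : Matrix δ δ K) d) :
    fᵀ * J * β = 0 := by
  have hJ := h.data.J_const d
  have onN : ∀ G ∈ N, G.map d ∈ N := by
    intro G hG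
    have := hd.onN G hG
    rwa [act_zero, sub_zero] at this
  have onW : ∀ G ∈ W, G.map d ∈ W := by
    intro G hG
    have := hd.onW G hG
    rwa [transpose_zero, Matrix.mul_zero, sub_zero] at this
  have ha := key_a h hf.1 hα hnα eα hβ hnβ eβ h0
  have hb := key_b h hNm hWm hf hα hnα eα h0
  -- derivative of `gᵀ J α = 0`
  have h1 : fᵀ * J * α + gᵀ * J * α.map d = 0 := by
    have h2 : (gᵀ * J * α).map d = 0 := by rw [h0]; ext i j; simp
    rw [map_mul_der, map_mul_der, hJ, Matrix.mul_zero, add_zero, map_transpose_der, hdg] at h2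
    exact h2
  rw [hb, zero_add] at h1
  have e1 : α.map d - β = (nα.map d - nβ) + g * C.map d := by
    have : α.map d = nα.map d + (f * C + g * C.map d) := by
      conv_lhs => rw [eα]
      rw [map_add_der, map_mul_der, hdg]
    rw [this, eβ]; abel
  have e2 : β.map d = nβ.map d + f * C.map d := by
    conv_lhs => rw [eβ]
    rw [map_add_der, map_mul_der, hdf, Matrix.zero_mul, zero_add]
  have h3 : gᵀ * J * (α.map d - β) = 0 := by rw [Matrix.mul_sub, h1, ha, sub_zero]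
  have h4 := key_a h hf.1 (W.sub_mem (onW α hα) hβ) (N.sub_mem (onN nα hnα) hnβ) e1
    (onW β hβ) (onN nβ hnβ) e2 h3
  have h5 : fᵀ * J * β + gᵀ * J * β.map d = 0 := by
    have h2 : (gᵀ * J * β).map d = 0 := by rw [ha]; ext i j; simp
    rw [map_mul_der, map_mul_der, hJ, Matrix.mul_zero, add_zero, map_transpose_der, hdg] at h2
    exact h2
  rw [h4, add_zero] at h5
  exact h5

theorem map_smul_alg (d : Derivation k K K) (t : k) (G : Matrix ι δ K) :
    ((algebraMap k K t) • G).map d = (algebraMap k K t) • G.map d := by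
  ext i j
  simp [Algebra.smul_def]

/-- **(PT)** -/
theorem PT (hctx : ∀ g ∈ Kiso J N W, Ctx k arm J B N W g)
    (hNm : ∀ F, (∀ F' ∈ N, pair J B F' F = 0) → F ∈ N)
    (hWm : ∀ F, (∀ F' ∈ W, pair J B F' F = 0) → F ∈ W)
    {F f : Matrix ι δ K} (hF : F ∈ Kiso J N W) (hf : f ∈ Kiso J N W)
    (hV1 : ∀ w ∈ Kiso J N W, ∃ d : Derivation k K K, F.map d = w ∧ f.map d = 0 ∧
      Realises arm N W (0 : Fin 3 → Matrix ι ι K) (0 : Matrix δ δ K) d)
    {P : Matrix ι ι K × (Fin 3 → Matrix ι ι K)} (hP : P ∈ NN arm J N F)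
    (hV2 : ∀ p' ∈ NN arm J N F, ∃ d : Derivation k K K, F.map d = 0 ∧ f.map d = 0 ∧
      Realises arm N W (0 : Fin 3 → Matrix ι ι K) (0 : Matrix δ δ K) d ∧ P.1.map d = p'.1 ∧
        ∀ s, (P.2 s).map d = p'.2 s) (t : k) :
    ∃ b ∈ W, Fᵀ * J * b = Fᵀ * J * (P.1 * f) ∧
    ∃ p ∈ NN arm J N (F + algebraMap k K t • f),
      (F + algebraMap k K t • f)ᵀ * J * (p.1 * F) = (F + algebraMap k K t • f)ᵀ * J * (P.1 * F) ∧
      (F + algebraMap k K t • f)ᵀ * J * (p.1 * f) = (F + algebraMap k K t • f)ᵀ * J * b ∧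
      Vert k arm J N W (F + algebraMap k K t • f) p := by
  have h := hctx F hF
  have hD := h.data
  set τ : K := algebraMap k K t with hτ
  have hHm : F + τ • f ∈ Kiso J N W := (Kiso J N W).add_mem hF ((Kiso J N W).smul_mem τ hf)
  have hH := hctx _ hHm
  obtain ⟨C, hC⟩ := Pg_InS hP
  obtain ⟨b, hb, n, hn, e⟩ := mem_sup hD hNm hWm hf C
  obtain ⟨h1, p, hp, h2, h3⟩ := exists_pt hctx hF hf hP τ hC hb hn e
  refine ⟨b, hb, h1, p, hp, h2.symm, h3.symm, ⟨?_, ?_⟩⟩
  · intro w hw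
    obtain ⟨d, e1, e2, e3⟩ := hV1 w hw
    refine ⟨d, ?_, e3⟩
    rw [map_add_der, map_smul_alg, e1, e2, smul_zero, add_zero]
  · intro p' hp'
    -- the backward construction
    obtain ⟨C', hC'⟩ := Pg_InS hp'
    obtain ⟨b', hb', n', hn', e'⟩ := mem_sup hD hNm hWm hf C'
    have e1' : p'.1 * (F + τ • f) = act arm p'.2 (F + τ • f) + (F + τ • f) * C' := by
      rw [← hC']; unfold Pg; abel
    have hA : p'.1 * (F + τ • f) - τ • b' ∈ W := W.sub_mem (h.W_mul _ hH.memW) (W.smul_mem τ hb')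
    have hnA : act arm p'.2 (F + τ • f) - τ • n' ∈ N :=
      N.sub_mem (hp'.2.1.pres _ hH.memN) (N.smul_mem τ hn')
    have eA : p'.1 * (F + τ • f) - τ • b' = (act arm p'.2 (F + τ • f) - τ • n') + F * C' := by
      rw [e1', e', smul_add, Matrix.add_mul F, Matrix.smul_mul]; abel
    obtain ⟨p'', hp'', hpe''⟩ := h.AS hA hnA eA
    obtain ⟨d, d1, d2, d3, d4, d5⟩ := hV2 p'' hp''
    have onN : ∀ G ∈ N, G.map d ∈ N := by
      intro G hG
      have := d3.onN G hG
      rwa [act_zero, sub_zero] at this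
    have onW : ∀ G ∈ W, G.map d ∈ W := by
      intro G hG
      have := d3.onW G hG
      rwa [transpose_zero, Matrix.mul_zero, sub_zero] at this
    have hHd : (F + τ • f).map d = 0 := by
      rw [map_add_der, map_smul_alg, d1, d2, smul_zero, add_zero]
    refine ⟨d, hHd, d3, ?_⟩
    -- derivative of `P₁ F = act P₂ F + F C`
    have c1 : P.1 * F = act arm P.2 F + F * C := by rw [← hC]; unfold Pg; abel
    have c2 : p''.1 * F = act arm p''.2 F + F * C.map d := by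
      have c3 := congrArg (fun G : Matrix ι δ K => G.map d) c1
      rw [map_mul_der, d4, d1, Matrix.mul_zero, add_zero, map_add_der, act_map_der, d1,
        map_mul_der, d1, Matrix.zero_mul, zero_add] at c3
      have c4 : (fun s => (P.2 s).map d) = p''.2 := funext d5
      rw [c4] at c3
      have c5 : act arm P.2 (0 : Matrix ι δ K) = 0 := by simp [act]
      rw [c5, add_zero] at c3
      exact c3
    have c6 : b.map d = n.map d + f * C.map d := by
      conv_lhs => rw [e]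
      rw [map_add_der, map_mul_der, d2, Matrix.zero_mul, zero_add]
    -- `α`, `β`
    set α : Matrix ι δ K := p''.1 * F - (p'.1 * (F + τ • f) - τ • b') with hαdef
    set β : Matrix ι δ K := b.map d - b' with hβdef
    have hα : α ∈ W := W.sub_mem (h.W_mul _ h.memW) hA
    have hβ : β ∈ W := W.sub_mem (onW b hb) hb'
    have eα : α = (act arm p''.2 F - (act arm p'.2 (F + τ • f) - τ • n')) +
        F * (C.map d - C') := by
      rw [hαdef, eA, c2, Matrix.mul_sub]; abel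
    have eβ : β = (n.map d - n') + f * (C.map d - C') := by
      rw [hβdef, c6, e', Matrix.mul_sub]; abel
    have hnα : act arm p''.2 F - (act arm p'.2 (F + τ • f) - τ • n') ∈ N :=
      N.sub_mem (hp''.2.1.pres F h.memN) hnA
    have hnβ : n.map d - n' ∈ N := N.sub_mem (onN n hn) hn'
    have hα0 : Fᵀ * J * α = 0 := by rw [hαdef, Matrix.mul_sub, hpe'', sub_self]
    have ka := key_a h hf.1 hα hnα eα hβ hnβ eβ hα0
    have kb := key_b h hNm hWm hf hα hnα eα hα0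
    obtain ⟨d', f1, f2, f3⟩ := hV1 f hf
    have kc := key_c h hNm hWm hf hα hnα eα hβ hnβ eβ hα0 f1 f2 f3
    -- `Hᵀ J (α + τ β) = 0`
    have hz : (F + τ • f)ᵀ * J * (α + τ • β) = 0 := by
      rw [transpose_add, transpose_smul, Matrix.add_mul, Matrix.add_mul, Matrix.smul_mul,
        Matrix.smul_mul, Matrix.mul_add, Matrix.mul_add, Matrix.mul_smul, Matrix.mul_smul, hα0, ka,
        kb, kc]
      simp
    -- derivative of `Hᵀ J (P₁ F + τ b) = Hᵀ J (p₁ H)`
    have k1 : (F + τ • f)ᵀ * J * (P.1 * F + τ • b) = (F + τ • f)ᵀ * J * (p.1 * (F + τ • f)) := by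
      rw [Matrix.mul_add, Matrix.mul_smul, h2, h3, Matrix.mul_add p.1, Matrix.mul_add,
        Matrix.mul_smul, Matrix.mul_smul]
    have k2 := congrArg (fun G : Matrix δ δ K => G.map d) k1
    have k3 : ((F + τ • f)ᵀ * J).map d = 0 := by
      rw [map_mul_der, map_transpose_der, hHd, hD.J_const, Matrix.mul_zero, transpose_zero,
        Matrix.zero_mul, add_zero]
    rw [map_mul_der, map_mul_der d ((F + τ • f)ᵀ * J) (p.1 * (F + τ • f)), k3, Matrix.zero_mul, Matrix.zero_mul,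
      zero_add, zero_add, map_add_der, map_smul_alg, map_mul_der, map_mul_der, d4, d1, hHd,
      Matrix.mul_zero, add_zero, Matrix.mul_zero, add_zero] at k2
    rw [← k2]
    have k4 : p''.1 * F + τ • b.map d = p'.1 * (F + τ • f) + (α + τ • β) := by
      rw [hαdef, hβdef, smul_sub]; abel
    rw [k4, Matrix.mul_add, hz, add_zero]

end Crest.Agent.R172.PT420
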