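import Crest.Agent.R172.SpS7
import Crest.Agent.R172.Qt4

/-!
Row 172 (S0260), node (t2): the pairs `(F + t f, P_t)`, `F, f ∈ 𝒦iso`, `P ∈ NN F`.

* `beta_eq` : `α ∈ W ∩ (N + g C)`, `β ∈ W ∩ (N + f C)`, `gᵀ J α = gᵀ J X₀ g` ⟹ `gᵀ J β = gᵀ J X₀ f`;
* `exists_Pt` : `P_t ∈ NN (F + t f)` with `H_tᵀ J P_t F = H_tᵀ J P F`;
* `vert_Pt` : `Vert` holds at `(F + t f, P_t)`.
-/

set_option autoImplicit false
set_option linter.unusedSectionVars false

namespace Crest.Agent.R172.PTt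

open Matrix Module Crest.Agent.R172.FO Crest.Agent.R172.Qt Crest.Agent.R172.SpS
open Crest.Agent.R172.Om (Kiso)

variable {ι : Type*} [Fintype ι] [DecidableEq ι] {δ : Type*} [Fintype δ] [DecidableEq δ]
variable {k K : Type*} [Field k] [Field K] [Algebra k K]
variable {arm : δ → Fin 3} {J : Matrix ι ι K} {B : Matrix δ δ K}
  {N W : Submodule K (Matrix ι δ K)} {g f F : Matrix ι δ K}

/-- `gᵀ J X₀ f = fᵀ J X₀ g` -/
theorem flip (h : Ctx k arm J B N W g) (hf : f ∈ N ⊓ W)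
    {p : Matrix ι ι K × (Fin 3 → Matrix ι ι K)} (hp : p ∈ NN arm J N g) :
    gᵀ * J * (p.1 * f) = fᵀ * J * (p.1 * g) := by
  obtain ⟨p', hp', e⟩ := h.tf hf hp
  rw [AF_flip h.data.J_symm ⟨p, hp⟩ ⟨p', hp'⟩ e]
  simp only [Matrix.mul_assoc]

/-- `⟨q₀ g, f C⟩ = ⟨q₀ f, g C⟩` -/
theorem pair_flip (h : Ctx k arm J B N W g) (hf : f ∈ N ⊓ W)
    {q : Matrix ι ι K × (Fin 3 → Matrix ι ι K)} (hq : q ∈ NN arm J N g) (C : Matrix δ δ K) :
    pair J B (q.1 * g) (f * C) = pair J B (q.1 * f) (g * C) := by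
  rw [pair_skw hq.1, pair_skw hq.1]
  unfold pair
  congr 2
  have e := flip h hf hq
  calc gᵀ * J * (q.1 * (f * C)) * B = (gᵀ * J * (q.1 * f)) * C * B := by
        simp only [Matrix.mul_assoc]
    _ = (fᵀ * J * (q.1 * g)) * C * B := by rw [e]
    _ = _ := by simp only [Matrix.mul_assoc]

/-- `⟨q₀ g, Z_s f⟩ = ⟨q₀ f, Z_s g⟩` -/
theorem pair_act_flip (h : Ctx k arm J B N W g) (hf : f ∈ N ⊓ W)
    {q : Matrix ι ι K × (Fin 3 → Matrix ι ι K)} (hq : q ∈ NN arm J N g)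
    (Z : Fin 3 → Matrix ι ι K) :
    pair J B (q.1 * g) (act arm Z f) = pair J B (q.1 * f) (act arm Z g) := by
  unfold act
  rw [Ctx.pair_sum_right, Ctx.pair_sum_right]
  refine Finset.sum_congr rfl fun s _ => ?_
  rw [pair_skw hq.1, pair_skw hq.1]
  congr 1
  unfold pair
  have hs : g * E K arm s * B * fᵀ = f * E K arm s * B * gᵀ := h.data.symm_arm h.mem hf s
  have e1 : gᵀ * J * (q.1 * (Z s * f * E K arm s)) * B =
      gᵀ * (J * q.1 * Z s * (f * E K arm s * B)) := by simp only [Matrix.mul_assoc]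
  have e2 : fᵀ * J * (q.1 * (Z s * g * E K arm s)) * B =
      fᵀ * (J * q.1 * Z s * (g * E K arm s * B)) := by simp only [Matrix.mul_assoc]
  rw [e1, e2, trace_mul_comm, trace_mul_comm fᵀ]
  congr 1
  rw [Matrix.mul_assoc _ _ gᵀ, Matrix.mul_assoc _ _ fᵀ, hs]

/-- `n ∈ N ∩ S^⊥`, `n = α - g C`, `α ∈ W`: perpendicular to `q₀ f`. -/
theorem pair_n (h : Ctx k arm J B N W g) (hf : f ∈ N ⊓ W)
    {q : Matrix ι ι K × (Fin 3 → Matrix ι ι K)} (hq : q ∈ NN arm J N g)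
    {n α : Matrix ι δ K} (hn : n ∈ N) (hα : α ∈ W) {C : Matrix δ δ K} (hC : α = n + g * C)
    (h0 : gᵀ * J * α = 0) : pair J B (q.1 * f) n = 0 := by
  obtain ⟨q', hq', e⟩ := h.tf hf hq
  have hn0 : gᵀ * J * n = 0 := by
    have : n = α - g * C := by rw [hC]; abel
    rw [this, Matrix.mul_sub, h0, ← Matrix.mul_assoc _ g C, h.iso, Matrix.zero_mul, sub_zero]
  have e1 : q.1 * f = (q.1 * f - q'.1 * g) + (Pg arm g q' + act arm q'.2 g) := by
    unfold Pg; abel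
  have hw : gᵀ * J * (q.1 * f - q'.1 * g) = 0 := by rw [Matrix.mul_sub, e, sub_self]
  have hwW : q.1 * f - q'.1 * g ∈ W := W.sub_mem (h.W_mul _ hf.2) (h.W_mul _ h.memW)
  obtain ⟨C', hC'⟩ := Pg_InS hq'
  have e2 : pair J B (q.1 * f - q'.1 * g) n = 0 := by
    have : n = α - g * C := by rw [hC]; abel
    rw [this, pair_sub_right, pair_W h.data hwW hα, pair_comm h.data.J_symm h.data.B_symm,
      pair_S hw, sub_zero]
  rw [e1, pair_add_left, pair_add_left, e2, hC', pair_S hn0,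
    h.pair_N (hq'.2.1.pres g h.memN) hn, add_zero, add_zero]

/-- **`T_f` on `A_S`**. -/
theorem beta_eq (h : Ctx k arm J B N W g) (hf : f ∈ N ⊓ W) {α β ν ν' : Matrix ι δ K}
    {C : Matrix δ δ K} (hα : α ∈ W) (hν : ν ∈ N) (hαν : α = ν + g * C) (hβ : β ∈ W)
    (hν' : ν' ∈ N) (hβν : β = ν' + f * C)
    {p : Matrix ι ι K × (Fin 3 → Matrix ι ι K)} (hp : p ∈ NN arm J N g)
    (hpe : gᵀ * J * α = gᵀ * J * (p.1 * g)) : gᵀ * J * β = gᵀ * J * (p.1 * f) := by
  have hfp : gᵀ * J * f = 0 := h.perp f hf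
  have hPf := perp_Pf hp hfp
  have e0 : (β - p.1 * f) - (ν' - act arm p.2 f) = f * C - (p.1 * f - act arm p.2 f) := by
    rw [hβν]; abel
  have e1 : gᵀ * J * ((β - p.1 * f) - (ν' - act arm p.2 f)) = 0 := by
    rw [e0, Matrix.mul_sub, hPf, sub_zero, ← Matrix.mul_assoc _ f C, hfp, Matrix.zero_mul]
  have e2 : gᵀ * J * (β - p.1 * f) = gᵀ * J * (ν' - act arm p.2 f) := by
    rw [Matrix.mul_sub] at e1
    exact sub_eq_zero.1 e1
  have key := h.onto (W.sub_mem hβ (h.W_mul p.1 hf.2)) (N.sub_mem hν' (hp.2.1.pres f hf.1)) e2 (by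
    refine LinearMap.ext fun q => ?_
    rw [fn_apply, LinearMap.zero_apply]
    have hq := q.2
    have a0 : Pg arm g q.1 = q.1.1 * g - act arm q.1.2 g := rfl
    rw [a0, pair_sub_left, h.pair_N (hq.2.1.pres g h.memN)
      (N.sub_mem hν' (hp.2.1.pres f hf.1)), sub_zero]
    have a1 : ν' - act arm p.2 f = (β - p.1 * f) - (f * C - (p.1 * f - act arm p.2 f)) := by
      rw [hβν]; abel
    have a2 : p.1 * f - act arm p.2 f = act arm (fun s => p.1 - p.2 s) f := by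
      rw [act_sub_left, act_const]
    rw [a1, pair_sub_right, pair_W h.data (h.W_mul _ h.memW)
      (W.sub_mem hβ (h.W_mul p.1 hf.2)), zero_sub, pair_sub_right, pair_flip h hf hq, a2,
      pair_act_flip h hf hq, ← pair_sub_right, ← Pg_eq]
    -- `g C - Pg p = -(n)`
    have a3 : g * C - Pg arm g p = (α - p.1 * g) - (ν - act arm p.2 g) := by
      rw [hαν]; unfold Pg; abel
    rw [a3, pair_sub_right, pair_W h.data (h.W_mul _ hf.2) (W.sub_mem hα (h.W_mul p.1 h.memW)),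
      zero_sub, neg_neg]
    obtain ⟨Cp, hCp⟩ := Pg_InS hp
    refine pair_n h hf hq (N.sub_mem hν (hp.2.1.pres g h.memN))
      (W.sub_mem hα (h.W_mul p.1 h.memW)) (C := C - Cp) ?_ ?_
    · rw [Matrix.mul_sub, ← hCp, hαν]; unfold Pg; abel
    · rw [Matrix.mul_sub, hpe, sub_self])
  rw [Matrix.mul_sub] at key
  exact sub_eq_zero.1 key

theorem nn_zero : (0 : Matrix ι ι K × (Fin 3 → Matrix ι ι K)) ∈ NN arm J N g :=
  (NN arm J N g).zero_mem

/-- the form zero: `gᵀ J β = 0` -/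
theorem beta_zero (h : Ctx k arm J B N W g) (hf : f ∈ N ⊓ W) {α β ν ν' : Matrix ι δ K}
    {C : Matrix δ δ K} (hα : α ∈ W) (hν : ν ∈ N) (hαν : α = ν + g * C) (hβ : β ∈ W)
    (hν' : ν' ∈ N) (hβν : β = ν' + f * C) (h0 : gᵀ * J * α = 0) : gᵀ * J * β = 0 := by
  have := beta_eq h hf hα hν hαν hβ hν' hβν (nn_zero (arm := arm) (J := J) (N := N)) (by
    rw [h0, Prod.fst_zero, Matrix.zero_mul, Matrix.mul_zero])
  rw [this, Prod.fst_zero, Matrix.zero_mul, Matrix.mul_zero]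

/-- the form zero: `fᵀ J α = 0` (`f ∈ 𝒦iso`) -/
theorem alpha_zero (h : Ctx k arm J B N W g) (hf : f ∈ Kiso J N W)
    (hNm : ∀ F, (∀ F' ∈ N, pair J B F' F = 0) → F ∈ N)
    (hWm : ∀ F, (∀ F' ∈ W, pair J B F' F = 0) → F ∈ W) {α ν : Matrix ι δ K}
    {C : Matrix δ δ K} (hα : α ∈ W) (hν : ν ∈ N) (hαν : α = ν + g * C)
    (h0 : gᵀ * J * α = 0) : fᵀ * J * α = 0 := by
  obtain ⟨kk, hkk, p, hp, hp0, C', e⟩ := h.KV hNm hWm hα h0 hν hαν
  have hfg : fᵀ * J * g = 0 := hf.2 g h.mem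
  rw [e, Matrix.mul_add, Matrix.mul_add, hf.2 kk hkk, ← Matrix.mul_assoc _ g C', hfg,
    Matrix.zero_mul, ← flip h hf.1 hp, h.tf_zero hf.1 hp hp0, add_zero, add_zero]

/-- `x ∈ N + W` iff `x ⊥ 𝒦` -/
theorem mem_sup_NW (hD : Data k arm J B N W)
    (hNm : ∀ F, (∀ F' ∈ N, pair J B F' F = 0) → F ∈ N)
    (hWm : ∀ F, (∀ F' ∈ W, pair J B F' F = 0) → F ∈ W) {x : Matrix ι δ K}
    (hx : ∀ z ∈ N ⊓ W, pair J B z x = 0) : ∃ b ∈ W, ∃ ν ∈ N, b = ν + x := by
  have hmem : x ∈ N ⊔ W := by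
    refine mem_of_pair hD.J_unit hD.B_unit _ x fun z hz => ?_
    rw [pair_comm hD.J_symm hD.B_symm]
    exact hx z ⟨hNm z fun F' hF' => hz F' (Submodule.mem_sup_left hF'),
      hWm z fun F' hF' => hz F' (Submodule.mem_sup_right hF')⟩
  obtain ⟨n, hn, b, hb, e⟩ := Submodule.mem_sup.1 hmem
  exact ⟨b, hb, -n, N.neg_mem hn, by rw [← e]; abel⟩

/-- `f C ∈ N + W` for `f ∈ 𝒦iso` -/
theorem exists_b (hD : Data k arm J B N W)
    (hNm : ∀ F, (∀ F' ∈ N, pair J B F' F = 0) → F ∈ N)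
    (hWm : ∀ F, (∀ F' ∈ W, pair J B F' F = 0) → F ∈ W) (hf : f ∈ Kiso J N W)
    (C : Matrix δ δ K) : ∃ b ∈ W, ∃ ν ∈ N, b = ν + f * C := by
  refine mem_sup_NW hD hNm hWm fun z hz => ?_
  rw [pair_comm hD.J_symm hD.B_symm]
  exact pair_S (hf.2 z hz) C

/-- **(PT), first part.** -/
theorem exists_Pt {F : Matrix ι δ K} {t : K} (hF : Ctx k arm J B N W F)
    (hH : Ctx k arm J B N W (F + t • f))
    (hNm : ∀ F, (∀ F' ∈ N, pair J B F' F = 0) → F ∈ N)
    (hWm : ∀ F, (∀ F' ∈ W, pair J B F' F = 0) → F ∈ W) (hf : f ∈ Kiso J N W)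
    {P : Matrix ι ι K × (Fin 3 → Matrix ι ι K)} (hP : P ∈ NN arm J N F) :
    ∃ C : Matrix δ δ K, Pg arm F P = F * C ∧ ∃ b ∈ W, ∃ ν ∈ N, b = ν + f * C ∧
      Fᵀ * J * b = Fᵀ * J * (P.1 * f) ∧
      ∃ Pt ∈ NN arm J N (F + t • f),
        (F + t • f)ᵀ * J * (P.1 * F + t • b) = (F + t • f)ᵀ * J * (Pt.1 * (F + t • f)) ∧
        (F + t • f)ᵀ * J * (Pt.1 * F) = (F + t • f)ᵀ * J * (P.1 * F) ∧
        (F + t • f)ᵀ * J * (Pt.1 * f) = (F + t • f)ᵀ * J * b := by
  obtain ⟨C, hC⟩ := Pg_InS hP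
  obtain ⟨b, hb, ν, hν, e⟩ := exists_b hF.data hNm hWm hf C
  have h1 : P.1 * F = act arm P.2 F + F * C := by rw [← hC]; unfold Pg; abel
  have h2 : P.1 * F ∈ W := hF.W_mul _ hF.memW
  have h3 : act arm P.2 F ∈ N := hP.2.1.pres F hF.memN
  have h4 : P.1 * F + t • b = (act arm P.2 F + t • ν) + (F + t • f) * C := by
    rw [h1, e, Matrix.add_mul, Matrix.smul_mul, smul_add]; abel
  have h5 : P.1 * F + t • b ∈ W := W.add_mem h2 (W.smul_mem t hb)
  have h6 : act arm P.2 F + t • ν ∈ N := N.add_mem h3 (N.smul_mem t hν)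
  obtain ⟨Pt, hPt, he⟩ := hH.AS h5 h6 h4
  refine ⟨C, hC, b, hb, ν, hν, e, ?_, Pt, hPt, he, ?_, ?_⟩
  · exact beta_eq hF hf.1 h2 h3 h1 hb hν e hP rfl
  · exact (beta_eq hH hF.mem h5 h6 h4 h2 h3 h1 hPt he).symm
  · exact (beta_eq hH hf.1 h5 h6 h4 hb hν e hPt he).symm

theorem mapJ (hD : Data k arm J B N W) (d : Derivation k K K) {A C : Matrix ι δ K}
    (hA : A.map d = 0) : (Aᵀ * J * C).map d = Aᵀ * J * C.map d := by
  rw [map_mul_der, map_mul_der, hD.J_const, Matrix.mul_zero, add_zero, map_transpose_der, hA,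
    transpose_zero, Matrix.zero_mul, Matrix.zero_mul, zero_add]

theorem map_add_const (d : Derivation k K K) (t : k) (F f : Matrix ι δ K) :
    (F + (algebraMap k K t) • f).map d = F.map d + (algebraMap k K t) • f.map d := by
  ext i j
  simp [Algebra.smul_def]

theorem Realises.N_map {d : Derivation k K K}
    (hd : Realises arm N W (0 : Fin 3 → Matrix ι ι K) (0 : Matrix δ δ K) d) {A : Matrix ι δ K}
    (hA : A ∈ N) : A.map d ∈ N := by
  have := hd.onN A hA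
  rwa [act_zero, sub_zero] at this

theorem Realises.W_map {d : Derivation k K K}
    (hd : Realises arm N W (0 : Fin 3 → Matrix ι ι K) (0 : Matrix δ δ K) d) {A : Matrix ι δ K}
    (hA : A ∈ W) : A.map d ∈ W := by
  have := hd.onW A hA
  rwa [transpose_zero, Matrix.mul_zero, sub_zero] at this

/-- **KEY**: `Fᵀ J α = 0` implies `fᵀ J β = 0`; `d1` moves `F` in the direction `f`. -/
theorem fb_zero {F : Matrix ι δ K} (hF : Ctx k arm J B N W F)
    (hNm : ∀ F, (∀ F' ∈ N, pair J B F' F = 0) → F ∈ N)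
    (hWm : ∀ F, (∀ F' ∈ W, pair J B F' F = 0) → F ∈ W) (hf : f ∈ Kiso J N W)
    {d : Derivation k K K} (hdF : F.map d = f) (hdf : f.map d = 0)
    (hd : Realises arm N W (0 : Fin 3 → Matrix ι ι K) (0 : Matrix δ δ K) d)
    {α β ν ν' : Matrix ι δ K} {C : Matrix δ δ K} (hα : α ∈ W) (hν : ν ∈ N)
    (hαν : α = ν + F * C) (hβ : β ∈ W) (hν' : ν' ∈ N) (hβν : β = ν' + f * C)
    (h0 : Fᵀ * J * α = 0) : fᵀ * J * β = 0 := by
  have b0 := beta_zero hF hf.1 hα hν hαν hβ hν' hβν h0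
  have a0 := alpha_zero hF hf hNm hWm hα hν hαν h0
  -- the derived triple
  have hα1 : α.map d - β ∈ W := W.sub_mem (Realises.W_map hd hα) hβ
  have hν1 : ν.map d - ν' ∈ N := N.sub_mem (Realises.N_map hd hν) hν'
  have e1 : α.map d - β = (ν.map d - ν') + F * C.map d := by
    have : α.map d = ν.map d + (f * C + F * C.map d) := by
      rw [hαν, map_add_der, map_mul_der, hdF]
    rw [this, hβν]; abel
  have e2 : β.map d = ν'.map d + f * C.map d := by
    rw [hβν, map_add_der, map_mul_der, hdf, Matrix.zero_mul, zero_add]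
  have e3 : Fᵀ * J * (α.map d - β) = 0 := by
    have h1 := congrArg (fun A => A.map d) h0
    rw [map_mul_der, map_mul_der, hF.data.J_const, Matrix.mul_zero, add_zero,
      map_transpose_der, hdF, a0, zero_add] at h1
    rw [Matrix.mul_sub, b0, sub_zero, h1]
    ext i j; simp
  have e4 := beta_zero hF hf.1 hα1 hν1 e1 (Realises.W_map hd hβ) (Realises.N_map hd hν') e2 e3
  have h1 := congrArg (fun A => A.map d) b0
  rw [map_mul_der, map_mul_der, hF.data.J_const, Matrix.mul_zero, add_zero,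
    map_transpose_der, hdF, e4, add_zero] at h1
  rw [h1]
  ext i j; simp

/-- **(PT), second part: `Vert` at `(F + t f, P_t)`**. -/
theorem vert_Pt {F : Matrix ι δ K} {t : k} (hF : Ctx k arm J B N W F)
    (hH : Ctx k arm J B N W (F + (algebraMap k K t) • f))
    (hNm : ∀ F, (∀ F' ∈ N, pair J B F' F = 0) → F ∈ N)
    (hWm : ∀ F, (∀ F' ∈ W, pair J B F' F = 0) → F ∈ W) (hf : f ∈ Kiso J N W)
    (hV1 : ∀ w ∈ Kiso J N W, ∃ d : Derivation k K K, F.map d = w ∧ f.map d = 0 ∧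
      Realises arm N W (0 : Fin 3 → Matrix ι ι K) (0 : Matrix δ δ K) d)
    {P : Matrix ι ι K × (Fin 3 → Matrix ι ι K)}
    (hV2 : ∀ p' ∈ NN arm J N F, ∃ d : Derivation k K K, F.map d = 0 ∧ f.map d = 0 ∧
      Realises arm N W (0 : Fin 3 → Matrix ι ι K) (0 : Matrix δ δ K) d ∧ P.1.map d = p'.1 ∧
        ∀ s, (P.2 s).map d = p'.2 s)
    {C : Matrix δ δ K} (hC : Pg arm F P = F * C) {b ν : Matrix ι δ K} (hb : b ∈ W) (hν : ν ∈ N)
    (he : b = ν + f * C) {Pt : Matrix ι ι K × (Fin 3 → Matrix ι ι K)}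
    (hPe : (F + (algebraMap k K t) • f)ᵀ * J * (P.1 * F + (algebraMap k K t) • b) =
      (F + (algebraMap k K t) • f)ᵀ * J * (Pt.1 * (F + (algebraMap k K t) • f))) :
    Vert k arm J N W (F + (algebraMap k K t) • f) Pt := by
  set τ : K := algebraMap k K t with hτ
  refine ⟨fun w hw => ?_, fun p' hp' => ?_⟩
  · obtain ⟨d, h1, h2, h3⟩ := hV1 w hw
    exact ⟨d, by rw [map_add_const, h1, h2, smul_zero, add_zero], h3⟩
  · obtain ⟨C', hC'⟩ := Pg_InS hp'
    obtain ⟨b', hb', ν', hν', e'⟩ := exists_b hF.data hNm hWm hf C'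
    have h1 : p'.1 * (F + τ • f) - τ • b' =
        (act arm p'.2 (F + τ • f) - τ • ν') + F * C' := by
      have : p'.1 * (F + τ • f) = act arm p'.2 (F + τ • f) + (F + τ • f) * C' := by
        rw [← hC']; unfold Pg; abel
      rw [this, e', Matrix.add_mul, Matrix.smul_mul, smul_add]; abel
    have h2 : p'.1 * (F + τ • f) - τ • b' ∈ W :=
      W.sub_mem (hF.W_mul _ hH.memW) (W.smul_mem τ hb')
    have h3 : act arm p'.2 (F + τ • f) - τ • ν' ∈ N :=
      N.sub_mem (hp'.2.1.pres _ hH.memN) (N.smul_mem τ hν')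
    obtain ⟨p'', hp'', e''⟩ := hF.AS h2 h3 h1
    obtain ⟨d, dF, df, hd, dP1, dP2⟩ := hV2 p'' hp''
    have dH : (F + τ • f).map d = 0 := by
      rw [map_add_const, dF, df, smul_zero, add_zero]
    refine ⟨d, dH, hd, ?_⟩
    -- the derivative of the form of `Pt`
    have k1 := congrArg (fun A => A.map d) hPe
    rw [mapJ hF.data d dH, mapJ hF.data d dH, map_mul_der d Pt.1, dH, Matrix.mul_zero, add_zero,
      map_add_const, map_mul_der d P.1, dF, Matrix.mul_zero, add_zero, dP1] at k1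
    rw [← k1]
    -- the triple
    have k2 : p''.1 * F = act arm p''.2 F + F * C.map d := by
      have h4 : P.1 * F = act arm P.2 F + F * C := by rw [← hC]; unfold Pg; abel
      have h5 := congrArg (fun A => A.map d) h4
      rw [map_mul_der, map_add_der, map_mul_der d F, act_map_der, dF, Matrix.mul_zero,
        Matrix.zero_mul, add_zero, zero_add, dP1] at h5
      have h6 : act arm P.2 (0 : Matrix ι δ K) = 0 := by simp [act]
      have h7 : (fun s => (P.2 s).map d) = p''.2 := funext dP2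
      rw [h6, add_zero, h7] at h5
      exact h5
    have k3 : b.map d = ν.map d + f * C.map d := by
      rw [he, map_add_der, map_mul_der, df, Matrix.zero_mul, zero_add]
    have hαW : p''.1 * F - (p'.1 * (F + τ • f) - τ • b') ∈ W :=
      W.sub_mem (hF.W_mul _ hF.memW) h2
    have hαN : act arm p''.2 F - (act arm p'.2 (F + τ • f) - τ • ν') ∈ N :=
      N.sub_mem (hp''.2.1.pres _ hF.memN) h3
    have hα : p''.1 * F - (p'.1 * (F + τ • f) - τ • b') =
        (act arm p''.2 F - (act arm p'.2 (F + τ • f) - τ • ν')) + F * (C.map d - C') := by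
      rw [k2, h1, Matrix.mul_sub]; abel
    have hβW : b.map d - b' ∈ W := W.sub_mem (Realises.W_map hd hb) hb'
    have hβN : ν.map d - ν' ∈ N := N.sub_mem (Realises.N_map hd hν) hν'
    have hβ : b.map d - b' = (ν.map d - ν') + f * (C.map d - C') := by
      rw [k3, e', Matrix.mul_sub]; abel
    have h0 : Fᵀ * J * (p''.1 * F - (p'.1 * (F + τ • f) - τ • b')) = 0 := by
      rw [Matrix.mul_sub, e'', sub_self]
    have z1 := beta_zero hF hf.1 hαW hαN hα hβW hβN hβ h0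
    have z2 := alpha_zero hF hf hNm hWm hαW hαN hα h0
    obtain ⟨d1, dF1, df1, hd1⟩ := hV1 f hf
    have z3 := fb_zero hF hNm hWm hf dF1 df1 hd1 hαW hαN hα hβW hβN hβ h0
    have k4 : p''.1 * F + τ • b.map d = (p''.1 * F - (p'.1 * (F + τ • f) - τ • b')) +
        τ • (b.map d - b') + p'.1 * (F + τ • f) := by
      rw [smul_sub]; abel
    rw [k4, Matrix.mul_add, Matrix.mul_add, transpose_add, transpose_smul, Matrix.add_mul,
      Matrix.smul_mul, Matrix.add_mul, Matrix.smul_mul, h0, z2, Matrix.mul_smul, Matrix.add_mul,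
      Matrix.smul_mul, z1, z3]
    simp

end Crest.Agent.R172.PTt
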