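import Crest.Agent.R172.PTt
import Crest.Agent.R172.Om4

/-!
Row 172 (S0260), node (t2): all `P_t ∈ NN (F + t f)` from one `L`-derivation `d_Y`.

* `exists_Y` : `T_Q(g) = {gᵀ J d_Y g : Y ∈ so(U)}`;
* `exists_family` : one derivation `dY` realising `(0, Y)` and `P_t ∈ NN (F + t f)` for every
  constant `t`, with `Vert` at `(F + t f, P_t)`, the form of `P_t` on `im F` equal to the one of `P`
  and `(P_t H_t)ᵀ J w = - H_tᵀ J (dY w)` whenever `H_tᵀ J w = 0`.
-/

set_option autoImplicit false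
set_option linter.unusedSectionVars false

namespace Crest.Agent.R172.PTy

open Matrix Module Crest.Agent.R172.FO Crest.Agent.R172.Qt Crest.Agent.R172.SpS
open Crest.Agent.R172.Om (Kiso IsY)
open Crest.Agent.R172.PTt

variable {ι : Type*} [Fintype ι] [DecidableEq ι] {δ : Type*} [Fintype δ] [DecidableEq δ]
variable {k K : Type*} [Field k] [Field K] [Algebra k K]
variable {arm : δ → Fin 3} {J : Matrix ι ι K} {B : Matrix δ δ K}
  {N W : Submodule K (Matrix ι δ K)} {g f F : Matrix ι δ K}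

/-- the element of `NN g` of a derivation realising `(0, Y)` -/
theorem exists_NN' (h : Ctx k arm J B N W g) {d : Derivation k K K} {Y : Matrix δ δ K}
    (hr : Realises arm N W (0 : Fin 3 → Matrix ι ι K) Y d) :
    ∃ p ∈ NN arm J N g, (∃ C : Matrix δ δ K, g.map d - p.1 * g = g * C) ∧
      ∀ f ∈ N ⊓ W, gᵀ * J * (p.1 * f) = gᵀ * J * f.map d := by
  obtain ⟨Z, hZ1, hZ2, hZ3⟩ := h.frame d
  have hp := mem_NN_of_frame (X := 0) (g := g) (J := J) (fun s => by simp [Skw])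
    (fun s => ⟨0, by simp⟩) hr hZ1 hZ2 hZ3
  refine ⟨_, hp, hZ3 0, fun f hf => ?_⟩
  obtain ⟨C, hC⟩ := hZ3 0
  have hgf := h.perp f hf
  have hfg : fᵀ * J * g = 0 := by
    have := congrArg transpose hgf
    rw [transpose_mul, transpose_mul, transpose_transpose, h.data.J_symm, transpose_zero,
      ← Matrix.mul_assoc] at this
    exact this
  have h1 : Om.Om J d f g = fᵀ * J * (Z 0 * g) := by
    unfold Om.Om
    have e : g.map d = Z 0 * g + g * C := by rw [← hC]; abel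
    rw [e, Matrix.mul_add, ← Matrix.mul_assoc _ g C, hfg, Matrix.zero_mul, add_zero]
  have h2 : Om.Om J d g f = gᵀ * J * f.map d := rfl
  rw [← h2, Om.Om_transpose h.data d hgf, h1]
  change gᵀ * J * (Z 0 * f) = -(fᵀ * J * (Z 0 * g))ᵀ
  have hz := (hZ1 0).eq
  rw [transpose_mul, transpose_mul, transpose_mul, transpose_transpose, h.data.J_symm]
  symm
  calc -(gᵀ * (Z 0)ᵀ * (J * f)) = -(gᵀ * ((Z 0)ᵀ * J) * f) := by simp only [Matrix.mul_assoc]
    _ = gᵀ * J * (Z 0 * f) := by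
      rw [hz, Matrix.mul_neg, Matrix.neg_mul, neg_neg]
      simp only [Matrix.mul_assoc]

theorem Realises.zero' : Realises arm N W (0 : Fin 3 → Matrix ι ι K) (0 : Matrix δ δ K)
    (0 : Derivation k K K) := by
  have h0 : ∀ A : Matrix ι δ K, A.map (0 : Derivation k K K) = 0 := by
    intro A; ext i j; simp
  refine ⟨fun A _ => ?_, fun A _ => ?_⟩
  · rw [h0, act_zero, sub_zero]; exact N.zero_mem
  · rw [h0, transpose_zero, Matrix.mul_zero, sub_zero]; exact W.zero_mem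

theorem Realises.add' {Y Y' : Matrix δ δ K} {d d' : Derivation k K K}
    (h : Realises arm N W (0 : Fin 3 → Matrix ι ι K) Y d)
    (h' : Realises arm N W (0 : Fin 3 → Matrix ι ι K) Y' d') :
    Realises arm N W (0 : Fin 3 → Matrix ι ι K) (Y + Y') (d + d') := by
  have h0 : ∀ A : Matrix ι δ K, A.map (d + d') = A.map d + A.map d' := by
    intro A; ext i j; simp
  refine ⟨fun A hA => ?_, fun A hA => ?_⟩
  · have h1 := h.onN A hA
    have h2 := h'.onN A hA
    rw [act_zero, sub_zero] at h1 h2 ⊢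
    rw [h0]; exact N.add_mem h1 h2
  · have e : A.map (d + d') - A * (Y + Y')ᵀ = (A.map d - A * Yᵀ) + (A.map d' - A * Y'ᵀ) := by
      rw [h0, transpose_add, Matrix.mul_add]; abel
    rw [e]; exact W.add_mem (h.onW A hA) (h'.onW A hA)

theorem Realises.smul' {Y : Matrix δ δ K} {d : Derivation k K K} (c : K)
    (h : Realises arm N W (0 : Fin 3 → Matrix ι ι K) Y d) :
    Realises arm N W (0 : Fin 3 → Matrix ι ι K) (c • Y) (c • d) := by
  have h0 : ∀ A : Matrix ι δ K, A.map (c • d) = c • A.map d := by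
    intro A; ext i j; simp
  refine ⟨fun A hA => ?_, fun A hA => ?_⟩
  · have h1 := h.onN A hA
    rw [act_zero, sub_zero] at h1 ⊢
    rw [h0]; exact N.smul_mem c h1
  · have e : A.map (c • d) - A * (c • Y)ᵀ = c • (A.map d - A * Yᵀ) := by
      rw [h0, transpose_smul, Matrix.mul_smul, smul_sub]
    rw [e]; exact W.smul_mem c (h.onW A hA)

/-- the space of all forms `gᵀ J d_Y g` -/
def OmS (k : Type*) {K : Type*} [Field k] [Field K] [Algebra k K] (arm : δ → Fin 3)
    (J : Matrix ι ι K) (B : Matrix δ δ K) (N W : Submodule K (Matrix ι δ K))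
    (g : Matrix ι δ K) : Submodule K (Matrix δ δ K) where
  carrier := {ω | ∃ (Y : Matrix δ δ K) (d : Derivation k K K), Yᵀ * B + B * Y = 0 ∧
    Realises arm N W (0 : Fin 3 → Matrix ι ι K) Y d ∧ gᵀ * J * g.map d = ω}
  zero_mem' := ⟨0, 0, by simp, Realises.zero', by
    have : g.map (0 : Derivation k K K) = 0 := by ext i j; simp
    rw [this, Matrix.mul_zero]⟩
  add_mem' := by
    rintro _ _ ⟨Y, d, h1, h2, rfl⟩ ⟨Y', d', h1', h2', rfl⟩
    refine ⟨Y + Y', d + d', ?_, Realises.add' h2 h2', ?_⟩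
    · rw [transpose_add, Matrix.add_mul, Matrix.mul_add]
      calc Yᵀ * B + Y'ᵀ * B + (B * Y + B * Y') = (Yᵀ * B + B * Y) + (Y'ᵀ * B + B * Y') := by abel
        _ = 0 := by rw [h1, h1', add_zero]
    · have : g.map (d + d') = g.map d + g.map d' := by ext i j; simp
      rw [this, Matrix.mul_add]
  smul_mem' := by
    rintro c _ ⟨Y, d, h1, h2, rfl⟩
    refine ⟨c • Y, c • d, ?_, Realises.smul' c h2, ?_⟩
    · rw [transpose_smul, Matrix.smul_mul, Matrix.mul_smul, ← smul_add, h1, smul_zero]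
    · have : g.map (c • d) = c • g.map d := by ext i j; simp
      rw [this, Matrix.mul_smul]

/-- **`T_Q(g)` consists of the forms `gᵀ J d_Y g`.** -/
theorem exists_Y (h : Ctx k arm J B N W g) (h2 : (2 : K) ≠ 0)
    {P : Matrix ι ι K × (Fin 3 → Matrix ι ι K)} (hP : P ∈ NN arm J N g) :
    ∃ (Y : Matrix δ δ K) (d : Derivation k K K), Yᵀ * B + B * Y = 0 ∧
      Realises arm N W (0 : Fin 3 → Matrix ι ι K) Y d ∧
      gᵀ * J * g.map d = gᵀ * J * (P.1 * g) := by
  have hD := h.data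
  obtain ⟨Bi, hBi⟩ := hD.B_unit.exists_right_inv
  have hBi' : Bi * B = 1 := by
    rw [mul_eq_one_comm] at hBi; exact hBi
  have hBit : Biᵀ = Bi := by
    have h0 : B * Biᵀ = 1 := by
      have := congrArg transpose hBi'
      rw [transpose_mul, transpose_one, hD.B_symm] at this
      exact this
    calc Biᵀ = (Bi * B) * Biᵀ := by rw [hBi', Matrix.one_mul]
      _ = Bi := by rw [Matrix.mul_assoc, h0, Matrix.mul_one]
  by_contra hne
  have hnot : gᵀ * J * (P.1 * g) ∉ OmS k arm J B N W g := fun ⟨Y, d, h1, h2, h3⟩ =>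
    hne ⟨Y, d, h1, h2, h3⟩
  obtain ⟨l, hl, hlQ⟩ := Submodule.exists_dual_map_eq_bot_of_notMem hnot inferInstance
  -- representation of `l` by the skew form
  let fm : NN arm J N g →ₗ[K] Matrix δ δ K :=
    { toFun := fun p => gᵀ * J * (p.1.1 * g)
      map_add' := fun p q => by
        change gᵀ * J * ((p.1.1 + q.1.1) * g) = _
        rw [Matrix.add_mul, Matrix.mul_add]
      map_smul' := fun t p => by
        change gᵀ * J * ((t • p.1.1) * g) = t • _
        rw [Matrix.smul_mul, Matrix.mul_smul] }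
  let actg : NN arm J N g →ₗ[K] Matrix ι δ K :=
    { toFun := fun p => act arm p.1.2 g
      map_add' := fun p q => act_add_left arm p.1.2 q.1.2 g
      map_smul' := fun t p => act_smul_left arm t p.1.2 g }
  let w : NN arm J N g →ₗ[K] Dual K (NN arm J N g) := (fn arm J B N g) ∘ₗ actg
  have hw : ∀ p q, w p q = pair J B (Pg arm g q.1) (act arm p.1.2 g) := fun p q => rfl
  have hw2 : ∀ p q : NN arm J N g, w p q = - pair J B (Pg arm g p.1) (q.1.1 * g) := by
    intro p q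
    rw [hw, h.skew_w p.2 q.2]
    congr 1
    have : q.1.1 * g = Pg arm g q.1 + act arm q.1.2 g := by unfold Pg; abel
    rw [this, pair_add_right, h.pair_Pg_Pg p.2 q.2, zero_add]
  obtain ⟨p, hp⟩ := rep_of_skew w (fun p q => by rw [hw, hw]; exact h.skew_w p.2 q.2)
    (l ∘ₗ fm) (fun p hp => by
      have h3 : gᵀ * J * (p.1.1 * g) = 0 := by
        have e1 : gᵀ * J * (p.1.1 * g) = gᵀ * J * act arm p.1.2 g := by
          have := h.perp_Pg p.2
          unfold Pg at this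
          rw [Matrix.mul_sub, sub_eq_zero] at this
          exact this
        exact h.onto (h.W_mul _ h.memW) (p.2.2.1.pres g h.memN) e1 hp
      change l (gᵀ * J * (p.1.1 * g)) = 0
      rw [h3, map_zero])
  have hrep : ∀ q : NN arm J N g, l (gᵀ * J * (q.1.1 * g)) =
      - pair J B (Pg arm g p.1) (q.1.1 * g) := by
    intro q
    rw [← hw2, hp]
    rfl
  -- `pair (p.1 g) (g Yᵀ) = 0` for all `Y ∈ so(U)`
  have hYz : ∀ Y : Matrix δ δ K, Yᵀ * B + B * Y = 0 → pair J B (p.1.1 * g) (g * Yᵀ) = 0 := by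
    intro Y hY
    obtain ⟨d, hd⟩ := hD.dir 0 Y (by intro s; simp) hY
    obtain ⟨q, hq, -, hqf⟩ := exists_NN' h hd
    have e1 : l (gᵀ * J * (q.1 * g)) = 0 := by
      rw [hqf g h.mem]
      have : l (gᵀ * J * g.map d) ∈ Submodule.map l (OmS k arm J B N W g) :=
        ⟨_, ⟨Y, d, hY, hd, rfl⟩, rfl⟩
      rw [hlQ] at this
      exact (Submodule.mem_bot K).1 this
    have e2 := hrep ⟨q, hq⟩
    rw [show (⟨q, hq⟩ : NN arm J N g).1.1 = q.1 from rfl, e1] at e2
    have e3 : pair J B (Pg arm g p.1) (q.1 * g) = 0 := neg_eq_zero.1 e2.symm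
    obtain ⟨C, hC⟩ := Pg_InS p.2
    have e4 : pair J B (Pg arm g p.1) (q.1 * g - g.map d) = 0 := by
      rw [hC]
      exact pair_S (by rw [Matrix.mul_sub, hqf g h.mem, sub_self]) C
    rw [pair_sub_right, e3, zero_sub, neg_eq_zero] at e4
    have hgN : g.map d ∈ N := by
      have := hd.onN g h.memN
      rwa [act_zero, sub_zero] at this
    have e5 : Pg arm g p.1 = p.1.1 * g - act arm p.1.2 g := rfl
    rw [e5, pair_sub_left, h.pair_N (p.2.2.1.pres g h.memN) hgN, sub_zero] at e4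
    have e6 : g.map d = (g.map d - g * Yᵀ) + g * Yᵀ := by abel
    rw [e6, pair_add_right, pair_W hD (h.W_mul _ h.memW) (hd.onW g h.memW), zero_add] at e4
    exact e4
  have hsymm : (gᵀ * J * (p.1.1 * g))ᵀ = gᵀ * J * (p.1.1 * g) := by
    apply symm_of_trace_skew
    intro G hG
    have h3 := hYz (Bi * G) (by
      rw [transpose_mul, hG, hBit, Matrix.neg_mul, Matrix.neg_mul, Matrix.mul_assoc, hBi',
        Matrix.mul_one, ← Matrix.mul_assoc, hBi, Matrix.one_mul, neg_add_cancel])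
    rw [pair_skw p.2.1] at h3
    unfold pair at h3
    rw [neg_eq_zero] at h3
    have e1 : gᵀ * J * (p.1.1 * (g * (Bi * G)ᵀ)) * B = -(gᵀ * J * (p.1.1 * g) * G) := by
      rw [transpose_mul, hG, hBit]
      calc gᵀ * J * (p.1.1 * (g * (-G * Bi))) * B =
            -(gᵀ * J * (p.1.1 * g) * G * (Bi * B)) := by
              simp only [Matrix.neg_mul, Matrix.mul_neg, Matrix.mul_assoc]
        _ = _ := by rw [hBi', Matrix.mul_one]
    rw [e1, trace_neg, neg_eq_zero] at h3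
    first
      | exact h3
      | (rw [trace_mul_comm]; exact h3)
  have hskew : (gᵀ * J * (p.1.1 * g))ᵀ = -(gᵀ * J * (p.1.1 * g)) :=
    skew_gXg hD.J_symm p.2.1 g
  have hz : gᵀ * J * (p.1.1 * g) = 0 := by
    rw [hsymm] at hskew
    ext i j
    have h3 := congrFun (congrFun hskew i) j
    rw [Matrix.neg_apply] at h3
    have h4 : (2 : K) * (gᵀ * J * (p.1.1 * g)) i j = 0 := by
      rw [two_mul]; nth_rewrite 1 [h3]; ring
    exact (mul_eq_zero.1 h4).resolve_left h2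
  apply hl
  have h5 := hrep ⟨P, hP⟩
  rw [show (⟨P, hP⟩ : NN arm J N g).1.1 = P.1 from rfl] at h5
  rw [h5, neg_eq_zero, ← neg_eq_zero, ← hw2 p ⟨P, hP⟩, hw, h.skew_w p.2 hP, neg_eq_zero]
  -- `pair (Pg p) (act P.2 g) = - ...`
  have e1 := h.skew_w p.2 hP
  rw [← neg_eq_zero, ← e1]
  have e2 : act arm p.1.2 g = p.1.1 * g - Pg arm g p.1 := by unfold Pg; abel
  rw [e2, pair_sub_right, h.pair_Pg_Pg hP p.2, sub_zero]
  obtain ⟨C, hC⟩ := Pg_InS hP
  change pair J B (Pg arm g P) _ = 0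
  rw [hC]
  exact pair_S hz C

/-- **All `P_t` from one `L`-derivation.** -/
theorem exists_family (h2 : (2 : K) ≠ 0) (hCtx : ∀ g ∈ Kiso J N W, Ctx k arm J B N W g)
    (hNm : ∀ F, (∀ F' ∈ N, pair J B F' F = 0) → F ∈ N)
    (hWm : ∀ F, (∀ F' ∈ W, pair J B F' F = 0) → F ∈ W)
    {F f : Matrix ι δ K} (hF : F ∈ Kiso J N W) (hf : f ∈ Kiso J N W)
    (hV1 : ∀ w ∈ Kiso J N W, ∃ d : Derivation k K K, F.map d = w ∧ f.map d = 0 ∧
      Realises arm N W (0 : Fin 3 → Matrix ι ι K) (0 : Matrix δ δ K) d)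
    {P : Matrix ι ι K × (Fin 3 → Matrix ι ι K)} (hP : P ∈ NN arm J N F)
    (hV2 : ∀ p' ∈ NN arm J N F, ∃ d : Derivation k K K, F.map d = 0 ∧ f.map d = 0 ∧
      Realises arm N W (0 : Fin 3 → Matrix ι ι K) (0 : Matrix δ δ K) d ∧ P.1.map d = p'.1 ∧
        ∀ s, (P.2 s).map d = p'.2 s) :
    ∃ (Y : Matrix δ δ K) (dY : Derivation k K K), Yᵀ * B + B * Y = 0 ∧
      Realises arm N W (0 : Fin 3 → Matrix ι ι K) Y dY ∧
      Fᵀ * J * F.map dY = Fᵀ * J * (P.1 * F) ∧
      ∀ t : k, ∃ Pt ∈ NN arm J N (F + (algebraMap k K t) • f),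
        Vert k arm J N W (F + (algebraMap k K t) • f) Pt ∧
        (∀ f' ∈ N ⊓ W, (F + (algebraMap k K t) • f)ᵀ * J * (Pt.1 * f') =
          (F + (algebraMap k K t) • f)ᵀ * J * f'.map dY) ∧
        (F + (algebraMap k K t) • f)ᵀ * J * (Pt.1 * F) =
          (F + (algebraMap k K t) • f)ᵀ * J * (P.1 * F) ∧
        ∀ w : Matrix ι δ K, (F + (algebraMap k K t) • f)ᵀ * J * w = 0 →
          (Pt.1 * (F + (algebraMap k K t) • f))ᵀ * J * w =
            -((F + (algebraMap k K t) • f)ᵀ * J * w.map dY) := by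
  have hCF := hCtx F hF
  have hD := hCF.data
  obtain ⟨Y, dY, hY, hr, hform⟩ := exists_Y hCF h2 hP
  refine ⟨Y, dY, hY, hr, hform, fun t => ?_⟩
  set τ : K := algebraMap k K t with hτ
  have hHK : F + τ • f ∈ Kiso J N W := (Kiso J N W).add_mem hF ((Kiso J N W).smul_mem τ hf)
  have hCH := hCtx _ hHK
  obtain ⟨C, hC, b, hb, ν, hν, he, hbf, -⟩ := exists_Pt hCF hCH hNm hWm hf hP
  obtain ⟨Pt, hPt, ⟨C', hC'⟩, hPf⟩ := exists_NN' hCH hr
  -- the triples
  have hα0 : F.map dY - F * Yᵀ ∈ W := hr.onW F hCF.memW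
  have hβ0 : f.map dY - f * Yᵀ ∈ W := hr.onW f hf.1.2
  have hFN : F.map dY ∈ N := by
    have := hr.onN F hCF.memN
    rwa [act_zero, sub_zero] at this
  have hfN : f.map dY ∈ N := by
    have := hr.onN f hf.1.1
    rwa [act_zero, sub_zero] at this
  have hP1 : P.1 * F = act arm P.2 F + F * C := by rw [← hC]; unfold Pg; abel
  have hαW : P.1 * F - (F.map dY - F * Yᵀ) ∈ W := W.sub_mem (hCF.W_mul _ hCF.memW) hα0
  have hαN : act arm P.2 F - F.map dY ∈ N := N.sub_mem (hP.2.1.pres F hCF.memN) hFN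
  have hα : P.1 * F - (F.map dY - F * Yᵀ) = (act arm P.2 F - F.map dY) + F * (C + Yᵀ) := by
    rw [hP1, Matrix.mul_add]; abel
  have hβW : b - (f.map dY - f * Yᵀ) ∈ W := W.sub_mem hb hβ0
  have hβN : ν - f.map dY ∈ N := N.sub_mem hν hfN
  have hβ : b - (f.map dY - f * Yᵀ) = (ν - f.map dY) + f * (C + Yᵀ) := by
    rw [he, Matrix.mul_add]; abel
  have hFF : Fᵀ * J * F = 0 := hCF.iso
  have h0 : Fᵀ * J * (P.1 * F - (F.map dY - F * Yᵀ)) = 0 := by
    rw [Matrix.mul_sub, Matrix.mul_sub, hform, ← Matrix.mul_assoc _ F, hFF, Matrix.zero_mul,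
      sub_zero, sub_self]
  have z1 := beta_zero hCF hf.1 hαW hαN hα hβW hβN hβ h0
  have z2 := alpha_zero hCF hf hNm hWm hαW hαN hα h0
  obtain ⟨d1, dF1, df1, hd1⟩ := hV1 f hf
  have z3 := fb_zero hCF hNm hWm hf dF1 df1 hd1 hαW hαN hα hβW hβN hβ h0
  have hHα : (F + τ • f)ᵀ * J * (P.1 * F - (F.map dY - F * Yᵀ)) = 0 := by
    rw [transpose_add, transpose_smul, Matrix.add_mul, Matrix.smul_mul, Matrix.add_mul,
      Matrix.smul_mul, h0, z2, smul_zero, add_zero]
  have hHβ : (F + τ • f)ᵀ * J * (b - (f.map dY - f * Yᵀ)) = 0 := by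
    rw [transpose_add, transpose_smul, Matrix.add_mul, Matrix.smul_mul, Matrix.add_mul,
      Matrix.smul_mul, z1, z3, smul_zero, add_zero]
  have hHF : (F + τ • f)ᵀ * J * F = 0 := hCH.perp F hCF.mem
  have hHf : (F + τ • f)ᵀ * J * f = 0 := hCH.perp f hf.1
  have e1 : (F + τ • f)ᵀ * J * (P.1 * F) = (F + τ • f)ᵀ * J * F.map dY := by
    rw [Matrix.mul_sub, Matrix.mul_sub, ← Matrix.mul_assoc _ F, hHF, Matrix.zero_mul,
      sub_zero] at hHα
    exact sub_eq_zero.1 hHα
  have e2 : (F + τ • f)ᵀ * J * b = (F + τ • f)ᵀ * J * f.map dY := by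
    rw [Matrix.mul_sub, Matrix.mul_sub, ← Matrix.mul_assoc _ f, hHf, Matrix.zero_mul,
      sub_zero] at hHβ
    exact sub_eq_zero.1 hHβ
  have hPe : (F + τ • f)ᵀ * J * (P.1 * F + τ • b) =
      (F + τ • f)ᵀ * J * (Pt.1 * (F + τ • f)) := by
    rw [hPf _ hCH.mem, map_add_const, Matrix.mul_add, Matrix.mul_add, Matrix.mul_smul,
      Matrix.mul_smul, e1, e2]
  refine ⟨Pt, hPt, vert_Pt hCF hCH hNm hWm hf hV1 hV2 hC hb hν he hPe, hPf, ?_, fun w hw => ?_⟩
  · rw [hPf F hCF.mem, e1]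
  · have e3 : Pt.1 * (F + τ • f) = (F + τ • f).map dY - (F + τ • f) * C' := by
      rw [← hC']; abel
    have e4 : ((F + τ • f) * C')ᵀ * J * w = 0 := by
      rw [transpose_mul, Matrix.mul_assoc, Matrix.mul_assoc, ← Matrix.mul_assoc _ J, hw,
        Matrix.mul_zero]
    have e5 := congrArg (fun A => A.map dY) hw
    rw [map_mul_der, map_mul_der, hD.J_const, Matrix.mul_zero, add_zero,
      map_transpose_der] at e5
    have e6 : ((0 : Matrix δ δ K)).map dY = 0 := by ext i j; simp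
    rw [e3, transpose_sub, Matrix.sub_mul, Matrix.sub_mul, e4, sub_zero]
    have e7 : ((F + τ • f).map dY)ᵀ * J * w + (F + τ • f)ᵀ * J * w.map dY = 0 := by
      rw [e5]; exact e6
    exact eq_neg_of_add_eq_zero_left e7

end Crest.Agent.R172.PTy
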