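import Crest.Agent.R172.PairLift1

/-!
Row 172, gap G1, module part, file 2: the core of a module, descent of `y`, and `H^1(core X, core Z) = 0`.
-/

set_option autoImplicit false

namespace Crest.Agent.R172.PL

open Module Crest.Agent.R172.St Crest.Agent.R172.Core

variable {K : Type*} [Field K] {X Z : Type*} [AddCommGroup X] [Module K X] [AddCommGroup Z]
  [Module K Z] {ι : Type*}

/-- the nilpotent part of `Ainf`. -/
def Rad (Φ : ι → End K X) : Submodule K (Ainf Φ) := (T Φ).comap (Ainf Φ).subtype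

/-- the core `A^∞ X / (A^∞ X ∩ T)`. -/
abbrev CoreM (Φ : ι → End K X) : Type _ := Ainf Φ ⧸ Rad Φ

/-- the operators restricted to `Ainf`. -/
def resOp (Φ : ι → End K X) (s : ι) : End K (Ainf Φ) :=
  (Φ s).restrict (fun _ hv => Ainf_stable s hv)

theorem resOp_coe (Φ : ι → End K X) (s : ι) (v : Ainf Φ) : ((resOp Φ s v : Ainf Φ) : X) = Φ s v := rfl

/-- the operators on the core. -/
def coreOp (Φ : ι → End K X) (s : ι) : End K (CoreM Φ) :=
  (Rad Φ).mapQ (Rad Φ) (resOp Φ s) (fun _ hv => T_stable s hv)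

theorem coreOp_mk (Φ : ι → End K X) (s : ι) (v : Ainf Φ) :
    coreOp Φ s ((Rad Φ).mkQ v) = (Rad Φ).mkQ (resOp Φ s v) := rfl

/-- the operators on `X / T`. -/
def barOp (Φ : ι → End K X) (s : ι) : End K (X ⧸ T Φ) :=
  (T Φ).mapQ (T Φ) (Φ s) (fun _ hv => T_stable s hv)

theorem barOp_mk (Φ : ι → End K X) (s : ι) (v : X) :
    barOp Φ s ((T Φ).mkQ v) = (T Φ).mkQ (Φ s v) := rfl

/-- the embedding of the core in `X / T`. -/
def jC (Φ : ι → End K X) : CoreM Φ →ₗ[K] X ⧸ T Φ :=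
  (Rad Φ).mapQ (T Φ) (Ainf Φ).subtype (fun _ hv => hv)

theorem jC_mk (Φ : ι → End K X) (v : Ainf Φ) : jC Φ ((Rad Φ).mkQ v) = (T Φ).mkQ (v : X) := rfl

theorem jC_inj (Φ : ι → End K X) : Function.Injective (jC Φ) := by
  rw [injective_iff_map_eq_zero]
  intro p hp
  obtain ⟨v, rfl⟩ := (Rad Φ).mkQ_surjective p
  rw [jC_mk] at hp
  have h1 : (v : X) ∈ T Φ := (Submodule.Quotient.mk_eq_zero _).1 hp
  exact (Submodule.Quotient.mk_eq_zero _).2 h1

theorem jC_comm (Φ : ι → End K X) (s : ι) (p : CoreM Φ) :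
    jC Φ (coreOp Φ s p) = barOp Φ s (jC Φ p) := by
  obtain ⟨v, rfl⟩ := (Rad Φ).mkQ_surjective p
  rfl

theorem core_noker [Finite ι] (Φ : ι → End K X) (p : CoreM Φ) (h : ∀ s, coreOp Φ s p = 0) :
    p = 0 := by
  obtain ⟨v, rfl⟩ := (Rad Φ).mkQ_surjective p
  refine (Submodule.Quotient.mk_eq_zero _).2 ?_
  change (v : X) ∈ T Φ
  apply T_closed
  intro s
  have := h s
  rw [coreOp_mk] at this
  exact (Submodule.Quotient.mk_eq_zero (Rad Φ)).1 this

theorem core_exists [FiniteDimensional K X] [Fintype ι] (Φ : ι → End K X) (p : CoreM Φ) :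
    ∃ f : ι → CoreM Φ, ∑ s, coreOp Φ s (f s) = p := by
  obtain ⟨v, rfl⟩ := (Rad Φ).mkQ_surjective p
  obtain ⟨f, hf1, hf2⟩ := Ainf_exists Φ v.2
  refine ⟨fun s => (Rad Φ).mkQ ⟨f s, hf1 s⟩, ?_⟩
  have h1 : ∀ s, coreOp Φ s ((Rad Φ).mkQ ⟨f s, hf1 s⟩) = (Rad Φ).mkQ (resOp Φ s ⟨f s, hf1 s⟩) :=
    fun s => rfl
  rw [Finset.sum_congr rfl fun s _ => h1 s, ← map_sum]
  congr 1
  apply Subtype.ext
  rw [Submodule.coe_sum]
  exact hf2

theorem core_sum [Fintype ι] (Φ : ι → End K X) (hsum : ∀ v, ∑ s, Φ s v = 0) (p : CoreM Φ) :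
    ∑ s, coreOp Φ s p = 0 := by
  obtain ⟨v, rfl⟩ := (Rad Φ).mkQ_surjective p
  have h1 : ∀ s, coreOp Φ s ((Rad Φ).mkQ v) = (Rad Φ).mkQ (resOp Φ s v) := fun s => rfl
  rw [Finset.sum_congr rfl fun s _ => h1 s, ← map_sum]
  have : ∑ s, resOp Φ s v = 0 := by
    apply Subtype.ext
    rw [Submodule.coe_sum]
    exact hsum v
  rw [this, map_zero]

theorem core_pow (Φ : ι → End K X) (s : ι) (k : ℕ) (hk : Φ s ^ k = 0) : coreOp Φ s ^ k = 0 := by
  have h1 : ∀ (k : ℕ) (v : Ainf Φ), (coreOp Φ s ^ k) ((Rad Φ).mkQ v) =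
      (Rad Φ).mkQ ((resOp Φ s ^ k) v) := by
    intro k
    induction k with
    | zero => intro v; rfl
    | succ k ih =>
      intro v
      rw [pow_succ, pow_succ]
      exact ih (resOp Φ s v)
  have h2 : ∀ (k : ℕ) (v : Ainf Φ), (((resOp Φ s ^ k) v : Ainf Φ) : X) = (Φ s ^ k) v := by
    intro k
    induction k with
    | zero => intro v; rfl
    | succ k ih =>
      intro v
      rw [pow_succ, pow_succ]
      exact ih (resOp Φ s v)
  apply LinearMap.ext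
  intro p
  obtain ⟨v, rfl⟩ := (Rad Φ).mkQ_surjective p
  rw [h1]
  have : (resOp Φ s ^ k) v = 0 := by
    apply Subtype.ext
    rw [h2, hk]
    rfl
  rw [this, map_zero]
  rfl

/-- `T (X / T) = 0`. -/
theorem bar_noker [Finite ι] (Φ : ι → End K X) (q : X ⧸ T Φ) (h : ∀ s, barOp Φ s q = 0) :
    q = 0 := by
  obtain ⟨v, rfl⟩ := (T Φ).mkQ_surjective q
  refine (Submodule.Quotient.mk_eq_zero _).2 ?_
  apply T_closed
  intro s
  have := h s
  rw [barOp_mk] at this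
  exact (Submodule.Quotient.mk_eq_zero _).1 this

variable [Fintype ι] [FiniteDimensional K X] [FiniteDimensional K Z]

/-- The hypothesis `(Y)`: every exact cocycle `ξ` (killing `T α`, with values in `Ainf β`) is, on
`Ainf α` and modulo `T β`, a coboundary `y` plus intertwiners. -/
def HypY (α : ι → End K X) (β : ι → End K Z) : Prop :=
  ∀ ξ : ι → (X →ₗ[K] Z), (∀ s, ∀ v ∈ T α, ξ s v = 0) → (∀ s v, ξ s v ∈ Ainf β) →
    (∀ v, ∑ s, (β s (ξ s v) - ξ s (α s v)) = 0) →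
    ∃ y : Ainf α →ₗ[K] Z ⧸ T β, ∀ s (v : Ainf α),
      (T β).mkQ (ξ s (α s v)) - y (resOp α s v) = barOp β s ((T β).mkQ (ξ s v) - y v)

omit [FiniteDimensional K X] [FiniteDimensional K Z] in
theorem HypY.of_global {α : ι → End K X} {β : ι → End K Z}
    (h : ∀ ξ : ι → (X →ₗ[K] Z), (∀ s, ∀ v ∈ T α, ξ s v = 0) → (∀ s v, ξ s v ∈ Ainf β) →
      (∀ v, ∑ s, (β s (ξ s v) - ξ s (α s v)) = 0) →
      ∃ y : X →ₗ[K] Z, ∀ s v, ξ s (α s v) - y (α s v) = β s (ξ s v - y v)) : HypY α β := by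
  intro ξ h1 h2 h3
  obtain ⟨y, hy⟩ := h ξ h1 h2 h3
  refine ⟨(T β).mkQ ∘ₗ y ∘ₗ (Ainf α).subtype, fun s v => ?_⟩
  change (T β).mkQ (ξ s (α s v)) - (T β).mkQ (y (α s v)) =
    barOp β s ((T β).mkQ (ξ s v) - (T β).mkQ (y v))
  rw [← map_sub, ← map_sub, barOp_mk, hy]

omit [FiniteDimensional K X] in
/-- DESCENT of `y` to the cores. -/
theorem descent (α : ι → End K X) (β : ι → End K Z) (hα : Ainf α = ⨆ s, (Ainf α).map (α s))
    (ξ : ι → (X →ₗ[K] Z))
    (h1 : ∀ s, ∀ v ∈ T α, ξ s v = 0) (h2 : ∀ s v, ξ s v ∈ Ainf β)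
    (y : Ainf α →ₗ[K] Z ⧸ T β) (hy : ∀ s (v : Ainf α),
      (T β).mkQ (ξ s (α s v)) - y (resOp α s v) = barOp β s ((T β).mkQ (ξ s v) - y v)) :
    (∀ v : Ainf α, (v : X) ∈ T α → y v = 0) ∧ ∀ v, y v ∈ LinearMap.range (jC β) := by
  classical
  constructor
  · have key : ∀ k, ∀ v : Ainf α, (v : X) ∈ Nk α k → y v = 0 := by
      intro k
      induction k with
      | zero =>
        intro v hv
        have : v = 0 := Subtype.ext (mem_Nk_zero.1 hv)
        rw [this, map_zero]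
      | succ k ih =>
        intro v hv
        apply bar_noker
        intro s
        have h4 : y (resOp α s v) = 0 := ih _ (mem_Nk_succ.1 hv s)
        have h5 : ξ s (α s v) = 0 := h1 s _ (T_stable s (Nk_le_T α _ hv))
        have h6 : ξ s v = 0 := h1 s _ (Nk_le_T α _ hv)
        have h7 := hy s v
        rw [h4, h5, h6, map_zero, sub_zero, zero_sub, map_neg] at h7
        exact neg_eq_zero.1 h7.symm
    intro v hv
    obtain ⟨k, hk⟩ := mem_T.1 hv
    exact key k v hk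
  · have hS : ∀ z ∈ Ainf β, ∀ k, (T β).mkQ z ∈ (Wk β k).map (T β).mkQ := by
      intro z hz k
      exact ⟨z, Ainf_le_Wk β k hz, rfl⟩
    have hbar : ∀ s k q, q ∈ (Wk β k).map (T β).mkQ → barOp β s q ∈ (Wk β (k + 1)).map (T β).mkQ := by
      rintro s k _ ⟨z, hz, rfl⟩
      exact ⟨β s z, Wk_succ_mem hz s, rfl⟩
    have key : ∀ k, ∀ v : Ainf α, y v ∈ (Wk β k).map (T β).mkQ := by
      intro k
      induction k with
      | zero =>
        intro v
        obtain ⟨z, hz⟩ := (T β).mkQ_surjective (y v)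
        exact ⟨z, by simp [Wk], hz⟩
      | succ k ih =>
        intro v
        have hv : (v : X) ∈ ⨆ s, (Ainf α).map (α s) := by rw [← hα]; exact v.2
        obtain ⟨g, hg⟩ := (Submodule.mem_iSup_finset_iff_exists_sum (s := Finset.univ)
          (fun s => (Ainf α).map (α s)) (v : X)).1 (by simpa using hv)
        have hu : ∀ s, ∃ u ∈ Ainf α, α s u = (g s : X) := fun s => (g s).2
        choose u hu1 hu2 using hu
        have hvs : v = ∑ s, resOp α s ⟨u s, hu1 s⟩ := by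
          apply Subtype.ext
          rw [Submodule.coe_sum, ← hg]
          exact Finset.sum_congr rfl fun s _ => (hu2 s).symm
        rw [hvs, map_sum]
        apply Submodule.sum_mem
        intro s _
        have h7 := hy s ⟨u s, hu1 s⟩
        have h8 : y (resOp α s ⟨u s, hu1 s⟩) = (T β).mkQ (ξ s (α s (u s))) -
            barOp β s ((T β).mkQ (ξ s (u s)) - y ⟨u s, hu1 s⟩) := by
          rw [← h7]
          abel
        rw [h8]
        apply Submodule.sub_mem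
        · exact hS _ (h2 s _) _
        · apply hbar
          exact Submodule.sub_mem _ (hS _ (h2 s _) _) (ih _)
    obtain ⟨k, hk, -⟩ := Ainf_eq_Wk β
    intro v
    obtain ⟨z, hz, hz2⟩ := key k v
    have hz' : z ∈ Ainf β := by rw [hk]; exact hz
    exact ⟨(Rad β).mkQ ⟨z, hz'⟩, hz2⟩

/-- `H^1(core X, core Z) = 0` from `(Y)`. -/
theorem H1_core (α : ι → End K X) (β : ι → End K Z) (hY : HypY α β)
    (x : ι → (CoreM α →ₗ[K] CoreM β)) (hx : ∑ s, (x s ∘ₗ coreOp α s - coreOp β s ∘ₗ x s) = 0) :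
    ∃ y : CoreM α →ₗ[K] CoreM β, ∀ s, x s - y ∈ Inter (coreOp α s) (coreOp β s) := by
  classical
  -- lift `x s` to maps `X → Z`
  obtain ⟨σ, hσ⟩ := (Rad β).mkQ.exists_rightInverse_of_surjective
    (LinearMap.range_eq_top.2 (Rad β).mkQ_surjective)
  obtain ⟨r, hr⟩ := (jC α).exists_leftInverse_of_injective (LinearMap.ker_eq_bot.2 (jC_inj α))
  have hσ' : ∀ q, (Rad β).mkQ (σ q) = q := fun q => LinearMap.congr_fun hσ q
  have hr' : ∀ p, r (jC α p) = p := fun p => LinearMap.congr_fun hr p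
  let ξ : ι → (X →ₗ[K] Z) := fun s => (Ainf β).subtype ∘ₗ σ ∘ₗ x s ∘ₗ r ∘ₗ (T α).mkQ
  have hξ1 : ∀ s, ∀ v ∈ T α, ξ s v = 0 := by
    intro s v hv
    have : (T α).mkQ v = 0 := (Submodule.Quotient.mk_eq_zero _).2 hv
    simp only [ξ, LinearMap.comp_apply, this, map_zero]
  have hξ2 : ∀ s v, ξ s v ∈ Ainf β := fun s v => Subtype.mem _
  have hξ3 : ∀ s (v : Ainf α), (T β).mkQ (ξ s v) = jC β (x s ((Rad α).mkQ v)) := by
    intro s v
    have h1 : r ((T α).mkQ (v : X)) = (Rad α).mkQ v := by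
      rw [← jC_mk, hr']
    have h2 : ξ s v = ((σ (x s (r ((T α).mkQ (v : X)))) : Ainf β) : Z) := rfl
    rw [h2, h1, ← jC_mk, hσ']
  have hξ4 : ∀ v ∈ Ainf α, ∑ s, (β s (ξ s v) - ξ s (α s v)) ∈ T β := by
    intro v hv
    apply (Submodule.Quotient.mk_eq_zero _).1
    change (T β).mkQ _ = 0
    rw [map_sum]
    have h1 : ∀ s, (T β).mkQ (β s (ξ s v) - ξ s (α s v)) =
        -(jC β ((x s ∘ₗ coreOp α s - coreOp β s ∘ₗ x s) ((Rad α).mkQ ⟨v, hv⟩))) := by
      intro s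
      have h2 := hξ3 s ⟨v, hv⟩
      have h3 := hξ3 s (resOp α s ⟨v, hv⟩)
      have h2' : (T β).mkQ (ξ s v) = jC β (x s ((Rad α).mkQ ⟨v, hv⟩)) := h2
      have h3' : (T β).mkQ (ξ s (α s v)) = jC β (x s ((Rad α).mkQ (resOp α s ⟨v, hv⟩))) := h3
      rw [map_sub, ← barOp_mk, h2', h3', LinearMap.sub_apply, LinearMap.comp_apply,
        LinearMap.comp_apply, map_sub, jC_comm, coreOp_mk]
      abel
    rw [Finset.sum_congr rfl fun s _ => h1 s, Finset.sum_neg_distrib, ← map_sum,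
      ← LinearMap.sum_apply, hx]
    simp
  obtain ⟨ξ', h1', h2', h3', h4'⟩ := lift α β ξ hξ1 hξ2 hξ4
  obtain ⟨y, hy⟩ := hY ξ' h1' h2' h4'
  obtain ⟨hd1, hd2⟩ := descent α β (Ainf_eq_iSup α) ξ' h1' h2' y hy
  obtain ⟨rZ, hrZ⟩ := (jC β).exists_leftInverse_of_injective (LinearMap.ker_eq_bot.2 (jC_inj β))
  have hrZ' : ∀ p, rZ (jC β p) = p := fun p => LinearMap.congr_fun hrZ p
  let y' : CoreM α →ₗ[K] CoreM β := rZ ∘ₗ (Rad α).liftQ y (fun v hv => hd1 v hv)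
  have hy' : ∀ v : Ainf α, jC β (y' ((Rad α).mkQ v)) = y v := by
    intro v
    obtain ⟨p, hp⟩ := hd2 v
    have h5 : y' ((Rad α).mkQ v) = rZ (y v) := rfl
    rw [h5, ← hp, hrZ']
  have hξ'3 : ∀ s (v : Ainf α), (T β).mkQ (ξ' s v) = jC β (x s ((Rad α).mkQ v)) := by
    intro s v
    rw [← hξ3 s v]
    have h5 : (T β).mkQ (ξ' s v - ξ s v) = 0 :=
      (Submodule.Quotient.mk_eq_zero _).2 (h3' s v v.2)
    rw [map_sub, sub_eq_zero] at h5
    exact h5
  refine ⟨y', fun s => ?_⟩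
  rw [mem_Inter]
  intro p
  obtain ⟨v, rfl⟩ := (Rad α).mkQ_surjective p
  apply jC_inj β
  rw [coreOp_mk, jC_comm, LinearMap.sub_apply, LinearMap.sub_apply, map_sub, map_sub, hy', hy',
    ← hξ'3, ← hξ'3]
  exact hy s v

end Crest.Agent.R172.PL
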