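import Crest.Agent.R172.PairLift2

/-!
Row 172, gap G1, module part, file 3: the alternative for two cores.
Only `H^1(P, Q) = 0` in one direction is used: the bound for `dim Hom_{Φ_s}(P, Q)` is symmetric.
-/

set_option autoImplicit false

namespace Crest.Agent.R172.PL

open Module Crest.Agent.R172.St Crest.Agent.R172.Core

variable {K : Type*} [Field K] {ι : Type*} [Fintype ι]

section Pair

variable {P Q : Type*} [AddCommGroup P] [Module K P] [FiniteDimensional K P]
    [AddCommGroup Q] [Module K Q] [FiniteDimensional K Q]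

/-- The pair lemma with the roles exchanged in the bound (but the same `H^1(P, Q) = 0`). -/
theorem pair_lemma' (α : ι → Module.End K P) (β : ι → Module.End K Q)
    (k : ℕ) (hα : ∀ s, α s ^ k = 0)
    (H1 : ∀ x : ι → (P →ₗ[K] Q), ∑ s, (x s ∘ₗ α s - β s ∘ₗ x s) = 0 →
      ∃ y : P →ₗ[K] Q, ∀ s, x s - y ∈ Inter (α s) (β s))
    (hQ : 2 * (finrank K Q : ℤ) ≤ ∑ s, (rk (β s) 1 : ℤ)) :
    (0 < finrank K P → ∑ s, (rk (β s) 1 : ℤ) = 2 * finrank K Q) ∧
    ∀ s j, rk (α s) (j + 1) ≠ 0 → nn (β s) j = nn (β s) (j + 1) := by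
  have hE := euler_le α β H1
  have hU : ∀ s, (finrank K (Inter (α s) (β s)) : ℤ) ≤
      ((finrank K Q : ℤ) - rk (β s) 1) * finrank K P -
        ∑ j ∈ Finset.range k, (nn (β s) j - nn (β s) (j + 1)) * rk (α s) (j + 1) := by
    intro s
    have h1 := finrank_Inter_le k (α s) (β s) (hα s)
    have h1' : ∑ j ∈ Finset.range k, nn (α s) j * nn (β s) j =
        ∑ j ∈ Finset.range k, nn (β s) j * nn (α s) j :=
      Finset.sum_congr rfl fun j _ => mul_comm _ _
    rw [h1', abel_sum (β s) (α s) k (hα s)] at h1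
    have h2 : nn (β s) 0 = (finrank K Q : ℤ) - rk (β s) 1 := by
      unfold nn; rw [rk_zero]
    rw [← h2]
    exact h1
  have hS : ∑ s, (finrank K (Inter (α s) (β s)) : ℤ) ≤
      ((Fintype.card ι : ℤ) * finrank K Q - ∑ s, (rk (β s) 1 : ℤ)) * finrank K P -
        ∑ s, ∑ j ∈ Finset.range k, (nn (β s) j - nn (β s) (j + 1)) * rk (α s) (j + 1) := by
    calc ∑ s, (finrank K (Inter (α s) (β s)) : ℤ) ≤ ∑ s, (((finrank K Q : ℤ) - rk (β s) 1) *
          finrank K P -
          ∑ j ∈ Finset.range k, (nn (β s) j - nn (β s) (j + 1)) * rk (α s) (j + 1)) :=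
          Finset.sum_le_sum (fun s _ => hU s)
      _ = _ := by
          rw [Finset.sum_sub_distrib, ← Finset.sum_mul, Finset.sum_sub_distrib]
          simp
  have hnn : ∀ s, ∀ j, 0 ≤ (nn (β s) j - nn (β s) (j + 1)) * (rk (α s) (j + 1) : ℤ) := by
    intro s j
    apply mul_nonneg
    · have := nn_succ_le (β s) j
      linarith
    · positivity
  have hNN : 0 ≤ ∑ s, ∑ j ∈ Finset.range k,
      (nn (β s) j - nn (β s) (j + 1)) * (rk (α s) (j + 1) : ℤ) :=
    Finset.sum_nonneg (fun s _ => Finset.sum_nonneg (fun j _ => hnn s j))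
  have hb : 0 ≤ (finrank K P : ℤ) := by positivity
  have hh : 0 ≤ (finrank K (InterAll α β) : ℤ) := by positivity
  have hmul : 0 ≤ (∑ s, (rk (β s) 1 : ℤ) - 2 * finrank K Q) * finrank K P :=
    mul_nonneg (by linarith) hb
  have hkey : (finrank K (InterAll α β) : ℤ) + (∑ s, (rk (β s) 1 : ℤ) - 2 * finrank K Q) *
      finrank K P + ∑ s, ∑ j ∈ Finset.range k,
      (nn (β s) j - nn (β s) (j + 1)) * (rk (α s) (j + 1) : ℤ) ≤ 0 := by
    nlinarith [hE, hS]
  refine ⟨?_, ?_⟩
  · intro hP
    have h1 : (∑ s, (rk (β s) 1 : ℤ) - 2 * finrank K Q) * finrank K P = 0 := by linarith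
    rcases mul_eq_zero.1 h1 with h | h
    · linarith
    · exfalso
      have : (finrank K P : ℤ) ≠ 0 := by exact_mod_cast hP.ne'
      exact this h
  · intro s j hj
    have h0 : ∑ s, ∑ j ∈ Finset.range k,
        (nn (β s) j - nn (β s) (j + 1)) * (rk (α s) (j + 1) : ℤ) = 0 := by linarith
    have h1 := (Finset.sum_eq_zero_iff_of_nonneg
      (fun s _ => Finset.sum_nonneg (fun j _ => hnn s j))).1 h0 s (Finset.mem_univ s)
    have hjk : j < k := by
      by_contra hcon
      push Not at hcon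
      apply hj
      unfold rk
      have : α s ^ (j + 1) = 0 := by
        obtain ⟨m, hm⟩ := Nat.exists_eq_add_of_le (hcon.trans (Nat.le_succ j))
        rw [← Nat.succ_eq_add_one, hm, pow_add, hα s, zero_mul]
      rw [this, LinearMap.range_zero]
      simp
    have h2 := (Finset.sum_eq_zero_iff_of_nonneg (fun j _ => hnn s j)).1 h1 j
      (Finset.mem_range.2 hjk)
    rcases mul_eq_zero.1 h2 with h | h
    · linarith
    · exfalso
      exact hj (by exact_mod_cast h)

/-- A module with `∑ Φ_s = 0`, no common kernel, and `P = ∑ Φ_s P` has `∑ rk Φ_s ≥ 2 dim P`. -/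
theorem two_le_rk (α : ι → Module.End K P) (hsum : ∀ v, ∑ s, α s v = 0)
    (hker : ∀ v, (∀ s, α s v = 0) → v = 0) (hex : ∀ v, ∃ f : ι → P, ∑ s, α s (f s) = v) :
    2 * (finrank K P : ℤ) ≤ ∑ s, (rk (α s) 1 : ℤ) := by
  classical
  let a : P →ₗ[K] (∀ s, LinearMap.range (α s)) := LinearMap.pi (fun s => (α s).rangeRestrict)
  let b : (∀ s, LinearMap.range (α s)) →ₗ[K] P :=
    ∑ s, (LinearMap.range (α s)).subtype ∘ₗ LinearMap.proj s
  have hbv : ∀ f, b f = ∑ s, ((f s : LinearMap.range (α s)) : P) := by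
    intro f
    change (∑ s, (LinearMap.range (α s)).subtype ∘ₗ LinearMap.proj s) f = _
    rw [LinearMap.sum_apply]
    rfl
  have ha : Function.Injective a := by
    rw [injective_iff_map_eq_zero]
    intro v hv
    apply hker
    intro s
    have h := congrFun hv s
    exact congrArg Subtype.val h
  have hba : ∀ v, b (a v) = 0 := by
    intro v
    rw [hbv]
    exact hsum v
  have hb : Function.Surjective b := by
    intro v
    obtain ⟨f, hf⟩ := hex v
    refine ⟨fun s => ⟨α s (f s), ⟨f s, rfl⟩⟩, ?_⟩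
    rw [hbv]
    exact hf
  have h1 : LinearMap.range a ≤ LinearMap.ker b := by
    rintro _ ⟨v, rfl⟩
    exact hba v
  have h2 : finrank K (LinearMap.range a) = finrank K P :=
    LinearMap.finrank_range_of_inj ha
  have h3 : finrank K (LinearMap.range b) = finrank K P := by
    rw [LinearMap.range_eq_top.2 hb, finrank_top]
  have h4 := LinearMap.finrank_range_add_finrank_ker b
  have h5 : finrank K (LinearMap.range a) ≤ finrank K (LinearMap.ker b) :=
    Submodule.finrank_mono h1
  have h6 : finrank K (∀ s, LinearMap.range (α s)) = ∑ s, rk (α s) 1 := by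
    rw [Module.finrank_pi_fintype]
    refine Finset.sum_congr rfl fun s _ => ?_
    unfold rk
    rw [pow_one]
  rw [h6] at h4
  have h7 : 2 * finrank K P ≤ ∑ s, rk (α s) 1 := by omega
  exact_mod_cast h7

/-- The tame data for a pair of modules. -/
structure TamePair (α : ι → Module.End K P) (β : ι → Module.End K Q) (l : ι → ℕ) : Prop where
  inter : InterAll α β = ⊥
  pos : ∀ s, 1 ≤ l s
  powP : ∀ s j, α s ^ j = 0 ↔ l s ≤ j
  powQ : ∀ s j, β s ^ j = 0 ↔ l s ≤ j
  freeP : ∀ s, l s * finrank K (LinearMap.ker (α s)) = finrank K P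
  freeQ : ∀ s, l s * finrank K (LinearMap.ker (β s)) = finrank K Q
  sum : ∑ s, (1 - 1 / (l s : ℚ)) = 2
  rkP : ∑ s, (rk (α s) 1 : ℤ) = 2 * finrank K P
  rkQ : ∑ s, (rk (β s) 1 : ℤ) = 2 * finrank K Q

/-- The alternative for a pair of core modules. -/
theorem pair_alt (α : ι → Module.End K P) (β : ι → Module.End K Q)
    (hnα : ∃ k, ∀ s, α s ^ k = 0) (hnβ : ∃ k, ∀ s, β s ^ k = 0)
    (H1 : ∀ x : ι → (P →ₗ[K] Q), ∑ s, (x s ∘ₗ α s - β s ∘ₗ x s) = 0 →
      ∃ y : P →ₗ[K] Q, ∀ s, x s - y ∈ Inter (α s) (β s))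
    (hP : 2 * (finrank K P : ℤ) ≤ ∑ s, (rk (α s) 1 : ℤ))
    (hQ : 2 * (finrank K Q : ℤ) ≤ ∑ s, (rk (β s) 1 : ℤ)) :
    finrank K P = 0 ∨ finrank K Q = 0 ∨ ∃ l, TamePair α β l := by
  classical
  by_cases h0 : finrank K P = 0
  · exact Or.inl h0
  by_cases h0' : finrank K Q = 0
  · exact Or.inr (Or.inl h0')
  right; right
  have hPp : 0 < finrank K P := Nat.pos_of_ne_zero h0
  have hQp : 0 < finrank K Q := Nat.pos_of_ne_zero h0'
  obtain ⟨k1, hk1⟩ := hnα
  obtain ⟨k2, hk2⟩ := hnβ
  set k := max k1 k2 with hk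
  have hα : ∀ s, α s ^ k = 0 := by
    intro s
    obtain ⟨m, hm⟩ := Nat.exists_eq_add_of_le (le_max_left k1 k2)
    rw [hk, hm, pow_add, hk1, zero_mul]
  have hβ : ∀ s, β s ^ k = 0 := by
    intro s
    obtain ⟨m, hm⟩ := Nat.exists_eq_add_of_le (le_max_right k1 k2)
    rw [hk, hm, pow_add, hk2, zero_mul]
  obtain ⟨hI, hr1, hn1⟩ := pair_lemma α β k hα hβ H1 hP
  obtain ⟨hr2, hn2⟩ := pair_lemma' α β k hα H1 hQ
  have hfree : ∀ s, ∃ l, 1 ≤ l ∧ (∀ j, α s ^ j = 0 ↔ l ≤ j) ∧ (∀ j, β s ^ j = 0 ↔ l ≤ j) ∧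
      l * finrank K (LinearMap.ker (α s)) = finrank K P ∧
      l * finrank K (LinearMap.ker (β s)) = finrank K Q :=
    fun s => free_of_pair (hα s) (hβ s) hPp hQp (hn1 s) (hn2 s)
  choose l hl1 hl2 hl3 hl4 hl5 using hfree
  refine ⟨l, hI, hl1, hl2, hl3, hl4, hl5, ?_, hr1 hQp, hr2 hPp⟩
  have hr' := hr1 hQp
  set a : ℕ := finrank K P with ha
  have hapos : (0 : ℚ) < a := by exact_mod_cast hPp
  have hrk : ∀ s, (rk (α s) 1 : ℚ) = (1 - 1 / (l s : ℚ)) * a := by
    intro s
    have h1 := LinearMap.finrank_range_add_finrank_ker (α s)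
    have h2 : rk (α s) 1 = finrank K (LinearMap.range (α s)) := by
      unfold rk; rw [pow_one]
    have h3 := hl4 s
    rw [h2]
    have h4 : ((finrank K (LinearMap.range (α s)) : ℚ)) +
        finrank K (LinearMap.ker (α s)) = a := by
      exact_mod_cast h1
    have h5 : (l s : ℚ) * finrank K (LinearMap.ker (α s)) = a := by
      exact_mod_cast h3
    have h6 : (l s : ℚ) ≠ 0 := by
      have := hl1 s
      positivity
    field_simp
    rw [← h5] at h4 ⊢
    linear_combination (l s : ℚ) * h4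
  have hr'' : ∑ s, (rk (α s) 1 : ℚ) = 2 * a := by
    exact_mod_cast hr'
  rw [Finset.sum_congr rfl (fun s _ => hrk s), ← Finset.sum_mul] at hr''
  exact mul_right_cancel₀ hapos.ne' hr''

end Pair

section Main

variable {X Z : Type*} [AddCommGroup X] [Module K X] [AddCommGroup Z] [Module K Z]

/-- the core vanishes iff the module is nilpotent. -/
theorem core_zero_iff [FiniteDimensional K X] (Φ : ι → End K X) :
    finrank K (CoreM Φ) = 0 ↔ T Φ = ⊤ := by
  constructor
  · intro h
    -- every element of Ainf is in T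
    have h1 : Ainf Φ ≤ T Φ := by
      intro v hv
      have h2 : (Rad Φ).mkQ ⟨v, hv⟩ = 0 := by
        have : Subsingleton (CoreM Φ) := Module.finrank_zero_iff.1 h
        exact Subsingleton.elim _ _
      exact (Submodule.Quotient.mk_eq_zero (Rad Φ)).1 h2
    obtain ⟨j, hj, -⟩ := Ainf_eq_Wk Φ
    -- words of length `j` map `X` to `Ainf ≤ T`
    have key : ∀ (m : ℕ) (i : ℕ) (v : X), i + m = j → v ∈ Wk Φ i → v ∈ T Φ := by
      intro m
      induction m with
      | zero =>
        intro i v hi hv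
        apply h1
        rw [hj]
        have : i = j := by omega
        rw [← this]
        exact hv
      | succ m ih =>
        intro i v hi hv
        apply T_closed
        intro s
        exact ih (i + 1) _ (by omega) (Wk_succ_mem hv s)
    rw [eq_top_iff]
    intro v _
    exact key j 0 v (by omega) (by simp [Wk])
  · intro h
    rw [Module.finrank_zero_iff]
    refine ⟨fun a b => ?_⟩
    have h1 : ∀ p : CoreM Φ, p = 0 := by
      intro p
      obtain ⟨v, rfl⟩ := (Rad Φ).mkQ_surjective p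
      refine (Submodule.Quotient.mk_eq_zero (Rad Φ)).2 ?_
      change (v : X) ∈ T Φ
      rw [h]
      trivial
    rw [h1 a, h1 b]

variable [FiniteDimensional K X] [FiniteDimensional K Z]

/-- MAIN: for two modules with `∑ = 0`, arms nilpotent, and `(Y)`: one of the two is nilpotent or the
two cores form a tame pair. -/
theorem alt (α : ι → End K X) (β : ι → End K Z) (hY : HypY α β)
    (hsα : ∀ v, ∑ s, α s v = 0) (hsβ : ∀ v, ∑ s, β s v = 0)
    (hnα : ∃ k, ∀ s, α s ^ k = 0) (hnβ : ∃ k, ∀ s, β s ^ k = 0) :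
    T α = ⊤ ∨ T β = ⊤ ∨ ∃ l, TamePair (coreOp α) (coreOp β) l := by
  rw [← core_zero_iff α, ← core_zero_iff β]
  obtain ⟨k1, hk1⟩ := hnα
  obtain ⟨k2, hk2⟩ := hnβ
  exact pair_alt (coreOp α) (coreOp β) ⟨k1, fun s => core_pow α s k1 (hk1 s)⟩
    ⟨k2, fun s => core_pow β s k2 (hk2 s)⟩ (fun x hx => H1_core α β hY x hx)
    (two_le_rk _ (core_sum α hsα) (core_noker α) (core_exists α))
    (two_le_rk _ (core_sum β hsβ) (core_noker β) (core_exists β))

/-- `T = ⊤` means: all words of some length vanish. -/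
theorem T_top_iff (Φ : ι → End K X) :
    T Φ = ⊤ ↔ ∃ m, ∀ l : List ι, l.length = m → (l.map Φ).prod = 0 := by
  have hw : ∀ (m : ℕ) (v : X), v ∈ Nk Φ m ↔
      ∀ l : List ι, l.length = m → (l.map Φ).prod v = 0 := by
    intro m
    induction m with
    | zero =>
      intro v
      rw [mem_Nk_zero]
      constructor
      · rintro rfl l _
        simp
      · intro h
        simpa using h [] rfl
    | succ m ih =>
      intro v
      rw [mem_Nk_succ]
      constructor
      · intro h l hl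
        obtain ⟨l', s, rfl⟩ : ∃ l' s, l = l' ++ [s] := by
          rcases List.eq_nil_or_concat l with h0 | ⟨l', s, h0⟩
          · rw [h0] at hl; simp at hl
          · exact ⟨l', s, by rw [h0, List.concat_eq_append]⟩
        have hl' : l'.length = m := by simpa using hl
        rw [List.map_append, List.prod_append]
        simp only [List.map_cons, List.map_nil, List.prod_cons, List.prod_nil, mul_one]
        exact (ih _).1 (h s) l' hl'
      · intro h s
        rw [ih]
        intro l hl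
        have := h (l ++ [s]) (by simp [hl])
        rw [List.map_append, List.prod_append] at this
        simpa using this
  constructor
  · intro h
    obtain ⟨k, hk⟩ := T_eq_Nk Φ
    refine ⟨k, fun l hl => LinearMap.ext fun v => ?_⟩
    have hv : v ∈ Nk Φ k := by rw [← hk, h]; trivial
    exact (hw k v).1 hv l hl
  · rintro ⟨m, hm⟩
    rw [eq_top_iff]
    intro v _
    apply Nk_le_T Φ m
    rw [hw]
    intro l hl
    rw [hm l hl]
    rfl

end Main

end Crest.Agent.R172.PL
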