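import Crest.Agent.R172.Om1

/-!
Row 172 (S0260): the parity lemma (P) for the skew fields `ω_d(f₁,f₂) = f₁ᵀ J d f₂` on `Kiso`
(note 15600).  `N` and `W` are isotropic, so `tr(Y ω_{d'}(f₁,f₂) B) + tr(Y' ω_d(f₁,f₂) B) = 0`; in
particular `tr(Y ω_d(f₁,f₂) B) = 0`, and `span {ω_{d'}(g,g)}` is never contained in
`span {ω_d(w,g) : w ∈ Kiso}` unless `ω_d(g,g) = 0`.
-/

set_option autoImplicit false
set_option linter.unusedSectionVars false

namespace Crest.Agent.R172.Par

open Matrix Module Crest.Agent.R172.FO Crest.Agent.R172.Om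

variable {ι : Type*} [Fintype ι] [DecidableEq ι] {δ : Type*} [Fintype δ] [DecidableEq δ]
variable {k K : Type*} [Field k] [Field K] [Algebra k K]
variable {arm : δ → Fin 3} {J : Matrix ι ι K} {B : Matrix δ δ K} {N W : Submodule K (Matrix ι δ K)}

/-- **(P')** polarised parity identity. -/
theorem parity (hD : Data k arm J B N W) {d d' : Derivation k K K} {Y Y' : Matrix δ δ K}
    (hY' : Y'ᵀ * B + B * Y' = 0) (hd : Realises arm N W 0 Y d) (hd' : Realises arm N W 0 Y' d')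
    {f1 f2 : Matrix ι δ K} (h1 : f1 ∈ Kiso J N W) (h2 : f2 ∈ Kiso J N W) :
    trace (Y * Om J d' f1 f2 * B) + trace (Y' * Om J d f1 f2 * B) = 0 := by
  have n1 : f1.map d ∈ N := by
    have := hd.onN f1 h1.1.1
    rwa [act_zero, sub_zero] at this
  have n2 : f2.map d' ∈ N := by
    have := hd'.onN f2 h2.1.1
    rwa [act_zero, sub_zero] at this
  have key := hD.N_iso _ n1 _ n2
  have w1 := hd.onW f1 h1.1.2
  have w2 := hd'.onW f2 h2.1.2
  set u1 := f1.map d - f1 * Yᵀ with hu1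
  set u2 := f2.map d' - f2 * Y'ᵀ with hu2
  have e1 : f1.map d = f1 * Yᵀ + u1 := by rw [hu1]; abel
  have e2 : f2.map d' = f2 * Y'ᵀ + u2 := by rw [hu2]; abel
  have hff : f1ᵀ * J * f2 = 0 := h1.2 f2 h2.1
  have o12 : f1ᵀ * J * u2 = Om J d' f1 f2 := by
    rw [hu2, Matrix.mul_sub, ← Matrix.mul_assoc, hff, Matrix.zero_mul, sub_zero]
    rfl
  have o21 : u1ᵀ * J * f2 = -Om J d f1 f2 := by
    rw [Om_transpose hD d hff, neg_neg, hu1, transpose_sub, Matrix.sub_mul, Matrix.sub_mul,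
      transpose_mul, transpose_transpose, Matrix.mul_assoc Y, Matrix.mul_assoc Y, hff,
      Matrix.mul_zero, sub_zero]
    unfold Om
    rw [transpose_mul, transpose_mul, transpose_transpose, hD.J_symm, Matrix.mul_assoc]
  have z : u2 * B * u1ᵀ = 0 := hD.W_iso _ w2 _ w1
  have t4 : trace (u1ᵀ * J * u2 * B) = 0 := by
    rw [Matrix.mul_assoc, Matrix.mul_assoc, trace_mul_comm, Matrix.mul_assoc, z, Matrix.mul_zero,
      trace_zero]
  unfold pair at key
  rw [e1, e2, transpose_add, transpose_mul, transpose_transpose] at key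
  simp only [Matrix.add_mul, Matrix.mul_add, trace_add] at key
  rw [t4, add_zero] at key
  have t1 : Y * f1ᵀ * J * (f2 * Y'ᵀ) = 0 := by
    have : Y * f1ᵀ * J * (f2 * Y'ᵀ) = Y * (f1ᵀ * J * f2) * Y'ᵀ := by
      simp only [Matrix.mul_assoc]
    rw [this, hff, Matrix.mul_zero, Matrix.zero_mul]
  have t2 : Y * f1ᵀ * J * u2 = Y * Om J d' f1 f2 := by
    rw [← o12]; simp only [Matrix.mul_assoc]
  have t3 : trace (u1ᵀ * J * (f2 * Y'ᵀ) * B) = trace (Y' * Om J d f1 f2 * B) := by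
    have hb : Y'ᵀ * B = -(B * Y') := eq_neg_of_add_eq_zero_left hY'
    have : u1ᵀ * J * (f2 * Y'ᵀ) * B = (u1ᵀ * J * f2) * (Y'ᵀ * B) := by
      simp only [Matrix.mul_assoc]
    rw [this, o21, hb, Matrix.neg_mul, Matrix.mul_neg, neg_neg, ← Matrix.mul_assoc,
      trace_mul_comm, ← Matrix.mul_assoc]
  rw [t1, Matrix.zero_mul, trace_zero, zero_add, t2, t3] at key
  rw [add_comm]
  exact key

/-- **(P)** `tr(Y ω_d(f₁,f₂) B) = 0`. -/
theorem parity_self (hD : Data k arm J B N W) (h2' : (2 : K) ≠ 0) {d : Derivation k K K}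
    {Y : Matrix δ δ K} (hY : Yᵀ * B + B * Y = 0) (hd : Realises arm N W 0 Y d)
    {f1 f2 : Matrix ι δ K} (h1 : f1 ∈ Kiso J N W) (h2 : f2 ∈ Kiso J N W) :
    trace (Y * Om J d f1 f2 * B) = 0 := by
  have h := parity hD hY hd hd h1 h2
  rw [← two_mul, mul_eq_zero] at h
  exact h.resolve_left h2'

/-- **Corollary**: if all `ω_{d'}(g,g)` lie in the span of `ω_d(w,g)`, `w ∈ Kiso`, then
`ω_d(g,g) = 0`. -/
theorem Om_zero_of_span (hD : Data k arm J B N W) (h2' : (2 : K) ≠ 0) {d : Derivation k K K}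
    (hd : IsY k arm B N W d) {g : Matrix ι δ K} (hg : g ∈ Kiso J N W)
    (hspan : ∀ d' : Derivation k K K, IsY k arm B N W d' →
      Om J d' g g ∈ Submodule.span K {ω | ∃ w ∈ Kiso J N W, ω = Om J d w g}) :
    Om J d g g = 0 := by
  obtain ⟨Y, hY, hr⟩ := hd
  have hperp : ∀ d' : Derivation k K K, IsY k arm B N W d' → trace (Y * Om J d' g g * B) = 0 := by
    intro d' hd'
    refine Submodule.span_induction (p := fun ω _ => trace (Y * ω * B) = 0) ?_ ?_ ?_ ?_
      (hspan d' hd')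
    · rintro _ ⟨w, hw, rfl⟩
      exact parity_self hD h2' hY hr hw hg
    · rw [Matrix.mul_zero, Matrix.zero_mul, trace_zero]
    · intro x y _ _ hx hy
      rw [Matrix.mul_add, Matrix.add_mul, trace_add, hx, hy, add_zero]
    · intro a x _ hx
      rw [Matrix.mul_smul, Matrix.smul_mul, trace_smul, hx, smul_zero]
  have hB : ∃ Bi : Matrix δ δ K, B * Bi = 1 ∧ Biᵀ * B = 1 := by
    obtain ⟨Bi, hBi⟩ := hD.B_unit.exists_right_inv
    refine ⟨Bi, hBi, ?_⟩
    have := congrArg transpose hBi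
    rwa [transpose_mul, transpose_one, hD.B_symm] at this
  obtain ⟨Bi, hBi, hBi'⟩ := hB
  have hs : (Om J d g g)ᵀ = Om J d g g := by
    apply symm_of_trace_skew
    intro G hG
    have hY' : (Bi * G)ᵀ * B + B * (Bi * G) = 0 := by
      rw [transpose_mul, hG, Matrix.mul_assoc, hBi', Matrix.mul_one, ← Matrix.mul_assoc, hBi,
        Matrix.one_mul, neg_add_cancel]
    obtain ⟨d', hr'⟩ := hD.dir 0 (Bi * G) (by intro s; simp) hY'
    have h := parity hD hY' hr hr' hg hg
    rw [hperp d' ⟨_, hY', hr'⟩, zero_add, trace_mul_comm, ← Matrix.mul_assoc,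
      ← Matrix.mul_assoc, hBi, Matrix.one_mul] at h
    exact h
  have hsk := Om_self_skew hD d hg
  rw [hs] at hsk
  have h3 : (2 : K) • Om J d g g = 0 := by
    rw [two_smul]
    nth_rewrite 1 [hsk]
    rw [neg_add_cancel]
  exact (smul_eq_zero.1 h3).resolve_left h2'

end Crest.Agent.R172.Par
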