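import Crest.Agent.R172.Core2

/-!
Row 172 (S0260), node PAR, file 1: triple parity for Lagrangian subspaces of a quadratic space.
-/

set_option autoImplicit false

namespace Crest.Agent.R172.Par

open Module LinearMap Crest.Agent.R172.Core

variable {K : Type*} [Field K] {W : Type*} [AddCommGroup W] [Module K W]

/-- A skew-symmetric form in which only `0` is in the left radical lives on an even dimensional
space. -/
theorem even_of_skew [FiniteDimensional K W] (h2 : (2 : K) ≠ 0) (ω : LinearMap.BilinForm K W)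
    (hs : ∀ x y, ω x y = - ω y x) (hnd : ∀ x, (∀ y, ω x y = 0) → x = 0) :
    Even (finrank K W) := by
  classical
  let b := Module.finBasis K W
  have hN : ω.Nondegenerate := ⟨fun x h => hnd x h, fun y h => hnd y (fun x => by
    rw [hs, h x, neg_zero])⟩
  have hdet := (LinearMap.BilinForm.nondegenerate_iff_det_ne_zero b).1 hN
  have hT : (LinearMap.BilinForm.toMatrix b ω).transpose = - LinearMap.BilinForm.toMatrix b ω := by
    ext i j
    rw [Matrix.transpose_apply, Matrix.neg_apply, LinearMap.BilinForm.toMatrix_apply,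
      LinearMap.BilinForm.toMatrix_apply]
    exact hs _ _
  have h1 : (LinearMap.BilinForm.toMatrix b ω).det = (-1) ^ (finrank K W) * (LinearMap.BilinForm.toMatrix b ω).det := by
    conv_lhs => rw [← Matrix.det_transpose, hT, Matrix.det_neg]
    simp
  rcases Nat.even_or_odd (finrank K W) with h | h
  · exact h
  · exfalso
    rw [h.neg_one_pow] at h1
    have h3 : (2 : K) * (LinearMap.BilinForm.toMatrix b ω).det = 0 := by linear_combination h1
    rcases mul_eq_zero.1 h3 with h | h
    · exact h2 h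
    · exact hdet h

/-- rank parity of a skew form. -/
theorem even_sub_of_skew [FiniteDimensional K W] (h2 : (2 : K) ≠ 0) (ω : LinearMap.BilinForm K W)
    (hs : ∀ x y, ω x y = - ω y x) (R : Submodule K W) (hR : ∀ x, x ∈ R ↔ ∀ y, ω x y = 0) :
    Even (finrank K W + finrank K R) := by
  obtain ⟨C, hC⟩ := Submodule.exists_isCompl R
  have h1 := Submodule.finrank_add_eq_of_isCompl hC
  have h3 : Even (finrank K C) := by
    apply even_of_skew h2 (ω.restrict C) (fun x y => hs _ _)
    intro x hx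
    have hxR : (x : W) ∈ R := by
      rw [hR]
      intro y
      have hy : y ∈ R ⊔ C := by rw [hC.sup_eq_top]; trivial
      obtain ⟨r, hr, c, hc, rfl⟩ := Submodule.mem_sup.1 hy
      rw [map_add, hs _ r, (hR r).1 hr, neg_zero, zero_add]
      exact hx ⟨c, hc⟩
    have := (Submodule.disjoint_def.1 hC.disjoint) _ hxR x.2
    exact Subtype.ext this
  obtain ⟨k, hk⟩ := h3
  exact ⟨finrank K R + k, by omega⟩

section Lag

variable {B : LinearMap.BilinForm K W}

theorem orth_sup (L M : Submodule K W) :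
    B.orthogonal (L ⊔ M) = B.orthogonal L ⊓ B.orthogonal M := by
  apply le_antisymm
  · exact le_inf (LinearMap.BilinForm.orthogonal_le le_sup_left)
      (LinearMap.BilinForm.orthogonal_le le_sup_right)
  · rintro x ⟨h1, h2⟩ y hy
    obtain ⟨l, hl, m, hm, rfl⟩ := Submodule.mem_sup.1 hy
    have e1 : B l x = 0 := h1 l hl
    have e2 : B m x = 0 := h2 m hm
    change B (l + m) x = 0
    rw [map_add, LinearMap.add_apply, e1, e2, add_zero]

theorem orth_inf [FiniteDimensional K W] (hB : NS B) (L M : Submodule K W) :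
    B.orthogonal (L ⊓ M) = B.orthogonal L ⊔ B.orthogonal M := by
  rw [← hB.oo (B.orthogonal L ⊔ B.orthogonal M), orth_sup, hB.oo, hB.oo]

/-- `L` is Lagrangian. -/
def Lag (B : LinearMap.BilinForm K W) (L : Submodule K W) : Prop := B.orthogonal L = L

theorem Lag.finrank [FiniteDimensional K W] (hB : NS B) {L : Submodule K W} (hL : Lag B L) :
    2 * finrank K L = finrank K W := by
  have h := LinearMap.BilinForm.finrank_orthogonal hB.nondeg L
  unfold Lag at hL
  rw [hL] at h
  have h2 := Submodule.finrank_le L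
  omega

theorem Lag.iso {L : Submodule K W} (hL : Lag B L) {x y : W} (hx : x ∈ L) (hy : y ∈ L) :
    B x y = 0 := by
  unfold Lag at hL
  rw [← hL] at hy
  exact hy x hx

/-- **Triple parity.** -/
theorem triple_parity [FiniteDimensional K W] (h2 : (2 : K) ≠ 0) (hB : NS B)
    {L₁ L₂ L₃ : Submodule K W} (h₁ : Lag B L₁) (h₂ : Lag B L₂) (h₃ : Lag B L₃) :
    Even (finrank K (L₁ ⊓ L₂ : Submodule K W) + finrank K (L₂ ⊓ L₃ : Submodule K W) +
      finrank K (L₁ ⊓ L₃ : Submodule K W) + finrank K L₁) := by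
  classical
  have m1 := h₁.finrank hB
  have m2 := h₂.finrank hB
  have m3 := h₃.finrank hB
  -- the space `Q`
  let S : (L₁ × L₂) →ₗ[K] (W ⧸ L₃) :=
    L₃.mkQ ∘ₗ (LinearMap.coprod L₁.subtype L₂.subtype)
  have hS : ∀ z : L₁ × L₂, z ∈ ker S ↔ (z.1 : W) + z.2 ∈ L₃ := by
    intro z
    rw [LinearMap.mem_ker]
    change L₃.mkQ ((z.1 : W) + z.2) = 0 ↔ _
    rw [Submodule.mkQ_apply, Submodule.Quotient.mk_eq_zero]
  -- dimension of `Q`
  have hdQ : finrank K (ker S) =
      finrank K L₁ + finrank K (L₁ ⊓ L₂ ⊓ L₃ : Submodule K W) := by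
    have e1 := LinearMap.finrank_range_add_finrank_ker S
    rw [Module.finrank_prod] at e1
    have hr : LinearMap.range S = (L₁ ⊔ L₂).map L₃.mkQ := by
      rw [LinearMap.range_comp, LinearMap.range_coprod, Submodule.range_subtype,
        Submodule.range_subtype]
    have e2 := LinearMap.finrank_range_add_finrank_ker (L₃.mkQ.domRestrict (L₁ ⊔ L₂))
    have hr2 : LinearMap.range (L₃.mkQ.domRestrict (L₁ ⊔ L₂)) = (L₁ ⊔ L₂).map L₃.mkQ := by
      rw [LinearMap.range_domRestrict]
    have hk2 : finrank K (ker (L₃.mkQ.domRestrict (L₁ ⊔ L₂))) =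
        finrank K ((L₁ ⊔ L₂) ⊓ L₃ : Submodule K W) := by
      have hm : (ker (L₃.mkQ.domRestrict (L₁ ⊔ L₂))).map (L₁ ⊔ L₂).subtype =
          (L₁ ⊔ L₂) ⊓ L₃ := by
        ext x
        constructor
        · rintro ⟨y, hy, rfl⟩
          refine ⟨y.2, ?_⟩
          have := LinearMap.mem_ker.1 hy
          change L₃.mkQ (y : W) = 0 at this
          rwa [Submodule.mkQ_apply, Submodule.Quotient.mk_eq_zero] at this
        · rintro ⟨hx1, hx2⟩
          refine ⟨⟨x, hx1⟩, ?_, rfl⟩
          change L₃.mkQ.domRestrict (L₁ ⊔ L₂) ⟨x, hx1⟩ = 0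
          change L₃.mkQ x = 0
          rwa [Submodule.mkQ_apply, Submodule.Quotient.mk_eq_zero]
      rw [← hm]
      exact LinearEquiv.finrank_eq
        (Submodule.equivMapOfInjective _ (Submodule.injective_subtype _) _)
    have e3 := Submodule.finrank_sup_add_finrank_inf_eq L₁ L₂
    have e4 : B.orthogonal ((L₁ ⊔ L₂) ⊓ L₃) = (L₁ ⊓ L₂) ⊔ L₃ := by
      have h₁' : B.orthogonal L₁ = L₁ := h₁
      have h₂' : B.orthogonal L₂ = L₂ := h₂
      have h₃' : B.orthogonal L₃ = L₃ := h₃
      rw [orth_inf hB, orth_sup, h₁', h₂', h₃']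
    have e5 := LinearMap.BilinForm.finrank_orthogonal hB.nondeg ((L₁ ⊔ L₂) ⊓ L₃)
    rw [e4] at e5
    have e6 := Submodule.finrank_sup_add_finrank_inf_eq (L₁ ⊓ L₂) L₃
    have e7 := Submodule.finrank_le ((L₁ ⊔ L₂) ⊓ L₃)
    have e8 := Submodule.finrank_mono (inf_le_left : L₁ ⊓ L₂ ≤ L₁)
    rw [hr] at e1
    rw [hr2, hk2] at e2
    have e9 : finrank K (L₁ ⊔ L₂ : Submodule K W) = finrank K (↥(L₁ ⊔ L₂)) := rfl
    omega
  -- the form
  let ω : LinearMap.BilinForm K (ker S) :=
    LinearMap.mk₂ K (fun x y => B ((x : L₁ × L₂).1 : W) ((y : L₁ × L₂).2 : W))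
      (by intro x y z; simp) (by intro c x y; simp) (by intro x y z; simp) (by intro c x y; simp)
  have hω : ∀ x y, ω x y = B ((x : L₁ × L₂).1 : W) ((y : L₁ × L₂).2 : W) := fun x y => rfl
  have hskew : ∀ x y, ω x y = - ω y x := by
    intro x y
    have hx := (hS _).1 x.2
    have hy := (hS _).1 y.2
    have h0 := h₃.iso hx hy
    rw [map_add, map_add, LinearMap.add_apply, LinearMap.add_apply,
      h₁.iso (x : L₁ × L₂).1.2 (y : L₁ × L₂).1.2, h₂.iso (x : L₁ × L₂).2.2 (y : L₁ × L₂).2.2,
      hB.symm ((x : L₁ × L₂).2 : W) ((y : L₁ × L₂).1 : W)] at h0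
    rw [hω, hω]
    linear_combination h0
  -- the radical as the range of `Ψ`
  let Ψ : ((L₁ ⊓ L₂ : Submodule K W) × (L₁ ⊓ L₃ : Submodule K W) × (L₂ ⊓ L₃ : Submodule K W))
      →ₗ[K] ker S :=
    { toFun := fun z => ⟨(⟨(z.1 : W) + z.2.1, L₁.add_mem z.1.2.1 z.2.1.2.1⟩,
          ⟨-(z.1 : W) + z.2.2, L₂.add_mem (L₂.neg_mem z.1.2.2) z.2.2.2.1⟩), by
          rw [hS]
          have : ((z.1 : W) + z.2.1) + (-(z.1 : W) + z.2.2) = (z.2.1 : W) + z.2.2 := by abel
          change ((z.1 : W) + z.2.1) + (-(z.1 : W) + z.2.2) ∈ L₃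
          rw [this]
          exact L₃.add_mem z.2.1.2.2 z.2.2.2.2⟩
      map_add' := by
        intro x y
        apply Subtype.ext
        refine Prod.ext (Subtype.ext ?_) (Subtype.ext ?_)
        · change ((x.1 : W) + y.1) + ((x.2.1 : W) + y.2.1) =
            ((x.1 : W) + x.2.1) + ((y.1 : W) + y.2.1)
          abel
        · change -((x.1 : W) + y.1) + ((x.2.2 : W) + y.2.2) =
            (-(x.1 : W) + x.2.2) + (-(y.1 : W) + y.2.2)
          abel
      map_smul' := by
        intro c x
        apply Subtype.ext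
        refine Prod.ext (Subtype.ext ?_) (Subtype.ext ?_)
        · change c • (x.1 : W) + c • (x.2.1 : W) = c • ((x.1 : W) + x.2.1)
          rw [smul_add]
        · change -(c • (x.1 : W)) + c • (x.2.2 : W) = c • (-(x.1 : W) + x.2.2)
          rw [smul_add, smul_neg] }
  have hΨ1 : ∀ z, (((Ψ z : ker S) : L₁ × L₂).1 : W) = (z.1 : W) + z.2.1 := fun z => rfl
  have hΨ2 : ∀ z, (((Ψ z : ker S) : L₁ × L₂).2 : W) = -(z.1 : W) + z.2.2 := fun z => rfl
  have hrad : ∀ x, x ∈ LinearMap.range Ψ ↔ ∀ y, ω x y = 0 := by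
    intro x
    constructor
    · rintro ⟨z, rfl⟩ y
      rw [hω, hΨ1, map_add, LinearMap.add_apply,
        h₂.iso z.1.2.2 (y : L₁ × L₂).2.2, zero_add]
      -- `z.2.1 ∈ L₁ ⊓ L₃`
      have hy := (hS _).1 y.2
      have h0 := h₃.iso z.2.1.2.2 hy
      rw [map_add, h₁.iso z.2.1.2.1 (y : L₁ × L₂).1.2, zero_add] at h0
      exact h0
    · intro hx
      -- `x₁ ∈ L₂ ⊔ (L₁ ⊓ L₃)`
      have hmem : ((x : L₁ × L₂).1 : W) ∈ L₂ ⊔ (L₁ ⊓ L₃) := by
        have h₁' : B.orthogonal L₁ = L₁ := h₁
        have h₂' : B.orthogonal L₂ = L₂ := h₂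
        have h₃' : B.orthogonal L₃ = L₃ := h₃
        have he : B.orthogonal (L₂ ⊓ (L₁ ⊔ L₃)) = L₂ ⊔ (L₁ ⊓ L₃) := by
          rw [orth_inf hB, orth_sup, h₁', h₂', h₃']
        rw [← he]
        rintro y ⟨hy2, hy13⟩
        obtain ⟨a, ha, c, hc, hac⟩ := Submodule.mem_sup.1 hy13
        have hq : ((⟨-a, L₁.neg_mem ha⟩, ⟨y, hy2⟩) : L₁ × L₂) ∈ ker S := by
          rw [hS]
          change -a + y ∈ L₃
          rw [← hac]
          have : -a + (a + c) = c := by abel
          rw [this]
          exact hc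
        have := hx ⟨_, hq⟩
        rw [hω] at this
        change B y ((x : L₁ × L₂).1 : W) = 0
        rw [hB.symm]
        exact this
      obtain ⟨a, ha, c, hc, hac⟩ := Submodule.mem_sup.1 hmem
      have ha1 : a ∈ L₁ := by
        have : a = ((x : L₁ × L₂).1 : W) - c := by rw [← hac]; abel
        rw [this]
        exact L₁.sub_mem (x : L₁ × L₂).1.2 hc.1
      have hxS := (hS _).1 x.2
      have hd3 : a + ((x : L₁ × L₂).2 : W) ∈ L₃ := by
        have : a + ((x : L₁ × L₂).2 : W) =
            (((x : L₁ × L₂).1 : W) + ((x : L₁ × L₂).2 : W)) - c := by rw [← hac]; abel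
        rw [this]
        exact L₃.sub_mem hxS hc.2
      refine ⟨(⟨a, ha1, ha⟩, ⟨c, hc⟩, ⟨a + ((x : L₁ × L₂).2 : W),
        L₂.add_mem ha (x : L₁ × L₂).2.2, hd3⟩), ?_⟩
      apply Subtype.ext
      refine Prod.ext (Subtype.ext ?_) (Subtype.ext ?_)
      · exact hac
      · change -a + (a + ((x : L₁ × L₂).2 : W)) = ((x : L₁ × L₂).2 : W)
        abel
  have heven := even_sub_of_skew h2 ω hskew (LinearMap.range Ψ) hrad
  -- dimension of the radical
  have hdR := LinearMap.finrank_range_add_finrank_ker Ψ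
  rw [Module.finrank_prod, Module.finrank_prod] at hdR
  have hkΨ : finrank K (ker Ψ) = finrank K (L₁ ⊓ L₂ ⊓ L₃ : Submodule K W) := by
    let κ : (L₁ ⊓ L₂ ⊓ L₃ : Submodule K W) ≃ₗ[K] ker Ψ :=
      { toFun := fun a => ⟨(⟨a, a.2.1⟩, ⟨-(a : W), L₁.neg_mem a.2.1.1, L₃.neg_mem a.2.2⟩,
            ⟨a, a.2.1.2, a.2.2⟩), by
            rw [LinearMap.mem_ker]
            apply Subtype.ext
            refine Prod.ext (Subtype.ext ?_) (Subtype.ext ?_)
            · change (a : W) + -(a : W) = 0
              abel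
            · change -(a : W) + (a : W) = 0
              abel⟩
        map_add' := by
          intro a b
          apply Subtype.ext
          refine Prod.ext (Subtype.ext rfl) (Prod.ext (Subtype.ext ?_) (Subtype.ext rfl))
          change -((a : W) + b) = -(a : W) + -(b : W)
          abel
        map_smul' := by
          intro c a
          apply Subtype.ext
          refine Prod.ext (Subtype.ext rfl) (Prod.ext (Subtype.ext ?_) (Subtype.ext rfl))
          change -(c • (a : W)) = c • -(a : W)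
          rw [smul_neg]
        invFun := fun z => ⟨((z : (L₁ ⊓ L₂ : Submodule K W) × (L₁ ⊓ L₃ : Submodule K W) ×
            (L₂ ⊓ L₃ : Submodule K W)).1 : W), by
            obtain ⟨⟨a, b, c⟩, hz⟩ := z
            refine ⟨a.2, ?_⟩
            have h1 := congrArg (fun w : ker S => ((w : L₁ × L₂).1 : W)) (LinearMap.mem_ker.1 hz)
            have h2 : (a : W) + b = 0 := h1
            have h3 : (a : W) = -(b : W) := eq_neg_of_add_eq_zero_left h2
            change (a : W) ∈ L₃
            rw [h3]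
            exact L₃.neg_mem b.2.2⟩
        left_inv := by
          intro a; rfl
        right_inv := by
          rintro ⟨⟨a, b, c⟩, hz⟩
          have h1 := congrArg (fun w : ker S => ((w : L₁ × L₂).1 : W)) (LinearMap.mem_ker.1 hz)
          have h2 : (a : W) + b = 0 := h1
          have h3 := congrArg (fun w : ker S => ((w : L₁ × L₂).2 : W)) (LinearMap.mem_ker.1 hz)
          have h4 : -(a : W) + c = 0 := h3
          apply Subtype.ext
          refine Prod.ext (Subtype.ext rfl) (Prod.ext (Subtype.ext ?_) (Subtype.ext ?_))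
          · change -(a : W) = b
            exact (neg_eq_of_add_eq_zero_right h2)
          · change (a : W) = c
            have := eq_neg_of_add_eq_zero_right h4
            rw [this, neg_neg] }
    exact (LinearEquiv.finrank_eq κ).symm
  have hin : L₁ ⊓ L₃ = L₁ ⊓ L₃ := rfl
  rw [Nat.even_iff] at heven ⊢
  omega

end Lag

end Crest.Agent.R172.Par
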