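import Crest.Agent.R172.Par1

/-!
Row 172 (S0260), node PAR, file 2: `det γ = (-1)^{rank (1-γ)}` for an isometry (Wall), and the
parity of intersections of Lagrangians.
-/

set_option autoImplicit false

namespace Crest.Agent.R172.Par

open Module LinearMap Crest.Agent.R172.Core

variable {K : Type*} [Field K] {W : Type*} [AddCommGroup W] [Module K W]

theorem ns_ext {B : LinearMap.BilinForm K W} (hB : NS B) {x y : W} (h : ∀ z, B x z = B y z) :
    x = y := by
  rw [← sub_eq_zero]
  apply hB.nd
  intro z
  rw [map_sub, LinearMap.sub_apply, h, sub_self]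

section Wall

variable {B : LinearMap.BilinForm K W}

/-- orthogonality of `ker (1-γ)` and `range (1-γ)` -/
theorem ker_orth {γ : W →ₗ[K] W} (hγ : ∀ x y, B (γ x) (γ y) = B x y) {u : W}
    (hu : u - γ u = 0) (v : W) : B u (v - γ v) = 0 := by
  have h1 : γ u = u := (sub_eq_zero.1 hu).symm
  rw [map_sub, ← hγ u v, h1, sub_self]

theorem mem_ker_of_orth [FiniteDimensional K W] (hB : NS B) {γ : W →ₗ[K] W}
    (hγ : ∀ x y, B (γ x) (γ y) = B x y)
    {u : W} (hu : ∀ v, B u (v - γ v) = 0) : u - γ u = 0 := by
  have hinj : Function.Injective γ := by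
    rw [← LinearMap.ker_eq_bot, LinearMap.ker_eq_bot']
    intro x hx
    apply ns_ext hB
    intro y
    rw [map_zero, LinearMap.zero_apply, ← hγ x y, hx, map_zero, LinearMap.zero_apply]
  have hsurj : Function.Surjective γ := LinearMap.injective_iff_surjective.1 hinj
  apply ns_ext hB
  intro y
  rw [map_zero, LinearMap.zero_apply]
  obtain ⟨v, rfl⟩ := hsurj y
  have h := hu v
  rw [map_sub, sub_eq_zero] at h
  rw [map_sub, LinearMap.sub_apply, hγ u v, h, sub_self]

/-- **Wall**: `det γ = (-1) ^ rank (1 - γ)`. -/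
theorem det_isometry [FiniteDimensional K W] (hB : NS B) {γ : W →ₗ[K] W}
    (hγ : ∀ x y, B (γ x) (γ y) = B x y) :
    LinearMap.det γ = (-1) ^ finrank K (LinearMap.range (LinearMap.id - γ)) := by
  classical
  set τ : W →ₗ[K] W := LinearMap.id - γ with hτ
  have hτa : ∀ x, τ x = x - γ x := fun x => rfl
  set R := LinearMap.range τ with hR
  have hinv : R ≤ R.comap γ := by
    rintro x ⟨u, rfl⟩
    refine ⟨γ u, ?_⟩
    rw [hτa, hτa, map_sub]
  have hmap : R.mapQ R γ hinv = LinearMap.id := by
    apply Submodule.linearMap_qext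
    ext x
    change (R.mapQ R γ hinv) (R.mkQ x) = R.mkQ x
    rw [Submodule.mkQ_apply, Submodule.mapQ_apply, Submodule.Quotient.eq]
    refine ⟨-x, ?_⟩
    rw [hτa, map_neg]
    abel
  rw [LinearMap.det_eq_det_mul_det R γ hinv, hmap, LinearMap.det_id, mul_one]
  obtain ⟨σ, hσ⟩ := LinearMap.exists_rightInverse_of_surjective τ.rangeRestrict
    (LinearMap.range_rangeRestrict τ)
  have hσa : ∀ x : R, σ x - γ (σ x) = (x : W) := by
    intro x
    have := congrArg (fun f : R →ₗ[K] R => ((f x : R) : W)) hσ
    exact this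
  let θ : LinearMap.BilinForm K R := B.compl₁₂ σ R.subtype
  have hθ : ∀ x y : R, θ x y = B (σ x) (y : W) := fun x y => rfl
  have hθγ : ∀ x y : R, θ (γ.restrict hinv x) y = - θ y x := by
    intro x y
    rw [hθ, hθ]
    have h1 : (σ (γ.restrict hinv x) - γ (σ x)) - γ (σ (γ.restrict hinv x) - γ (σ x)) = 0 := by
      have e1 := hσa (γ.restrict hinv x)
      have e2 := hσa x
      have e3 : ((γ.restrict hinv x : R) : W) = γ x := rfl
      rw [e3, ← e2] at e1
      rw [map_sub] at e1 ⊢
      rw [sub_sub_sub_comm, e1, sub_self]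
    have h2 := ker_orth hγ h1 (σ y)
    rw [hσa y, map_sub, LinearMap.sub_apply, sub_eq_zero] at h2
    rw [h2]
    conv_lhs => rw [← hσa y, map_sub, hγ]
    conv_rhs => rw [← hσa x, map_sub]
    have h3 : B (γ (σ x)) (σ y) = B (σ y) (γ (σ x)) := hB.symm _ _
    have h4 : B (σ x) (σ y) = B (σ y) (σ x) := hB.symm _ _
    rw [h3, h4]
    ring
  have hθnd : θ.Nondegenerate := by
    have hl : ∀ x, (∀ y, θ x y = 0) → x = 0 := by
      intro x hx
      have h1 : σ x - γ (σ x) = 0 := by
        apply mem_ker_of_orth hB hγ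
        intro v
        exact hx ⟨v - γ v, v, hτa v⟩
      rw [hσa x] at h1
      exact Subtype.ext h1
    refine ⟨hl, fun y hy => ?_⟩
    apply hl
    intro x
    have := hθγ x y
    rw [hy] at this
    have h2 : θ y x = 0 := by
      have h3 : θ y x = - (- θ y x) := by ring
      rw [h3, ← this, neg_zero]
    exact h2
  let b := Module.finBasis K R
  have hdet := (LinearMap.BilinForm.nondegenerate_iff_det_ne_zero b).1 hθnd
  have hT : LinearMap.BilinForm.toMatrix b (θ.compLeft (γ.restrict hinv)) =
      - (LinearMap.BilinForm.toMatrix b θ).transpose := by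
    ext i j
    rw [Matrix.neg_apply, Matrix.transpose_apply, LinearMap.BilinForm.toMatrix_apply,
      LinearMap.BilinForm.toMatrix_apply]
    exact hθγ _ _
  rw [LinearMap.BilinForm.toMatrix_compLeft] at hT
  have h1 := congrArg Matrix.det hT
  rw [Matrix.det_mul, Matrix.det_transpose, Matrix.det_neg, Matrix.det_transpose,
    LinearMap.det_toMatrix, Fintype.card_fin] at h1
  exact mul_right_cancel₀ hdet h1

end Wall

section Two

variable {B : LinearMap.BilinForm K W}

/-- the form `B ⊖ B` on `W × W` -/
def dbl (B : LinearMap.BilinForm K W) : LinearMap.BilinForm K (W × W) :=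
  LinearMap.mk₂ K (fun x y => B x.1 y.1 - B x.2 y.2)
    (by intro x y z; simp; ring) (by intro c x y; simp; ring)
    (by intro x y z; simp; ring) (by intro c x y; simp; ring)

theorem dbl_apply (x y : W × W) : dbl B x y = B x.1 y.1 - B x.2 y.2 := rfl

theorem NS_dbl (hB : NS B) : NS (dbl B) := by
  refine ⟨fun x y => ?_, fun x hx => ?_⟩
  · rw [dbl_apply, dbl_apply, hB.symm x.1, hB.symm x.2]
  · apply Prod.ext
    · apply hB.nd
      intro y
      have := hx (y, 0)
      rw [dbl_apply, map_zero, sub_zero] at this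
      exact this
    · apply hB.nd
      intro y
      have := hx (0, y)
      rw [dbl_apply, map_zero, zero_sub, neg_eq_zero] at this
      exact this

theorem Lag_graph (hB : NS B) {γ : W →ₗ[K] W} (hγ : ∀ x y, B (γ x) (γ y) = B x y)
    (hs : Function.Surjective γ) :
    Lag (dbl B) (LinearMap.range (LinearMap.prod LinearMap.id γ)) := by
  apply le_antisymm
  · intro z hz
    refine ⟨z.1, ?_⟩
    apply Prod.ext
    · rfl
    · change γ z.1 = z.2
      apply ns_ext hB
      intro y
      obtain ⟨x, rfl⟩ := hs y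
      rw [hγ]
      have h := hz (x, γ x) ⟨x, rfl⟩
      change dbl B (x, γ x) z = 0 at h
      rw [dbl_apply, sub_eq_zero] at h
      rw [hB.symm, hB.symm z.2]
      exact h
  · rintro _ ⟨x, rfl⟩ _ ⟨y, rfl⟩
    change dbl B (y, γ y) (x, γ x) = 0
    rw [dbl_apply, hγ, sub_self]

theorem Lag_prod {L₁ L₂ : Submodule K W} (h₁ : Lag B L₁) (h₂ : Lag B L₂) :
    Lag (dbl B) (L₁.prod L₂) := by
  apply le_antisymm
  · intro z hz
    constructor
    · have h : z.1 ∈ B.orthogonal L₁ := by
        intro x hx
        have := hz (x, 0) ⟨hx, L₂.zero_mem⟩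
        change dbl B (x, 0) z = 0 at this
        rw [dbl_apply, map_zero, LinearMap.zero_apply, sub_zero] at this
        exact this
      unfold Lag at h₁
      rwa [h₁] at h
    · have h : z.2 ∈ B.orthogonal L₂ := by
        intro x hx
        have := hz (0, x) ⟨L₁.zero_mem, hx⟩
        change dbl B (0, x) z = 0 at this
        rw [dbl_apply, map_zero, LinearMap.zero_apply, zero_sub, neg_eq_zero] at this
        exact this
      unfold Lag at h₂
      rwa [h₂] at h
  · rintro z ⟨hz1, hz2⟩ w ⟨hw1, hw2⟩
    change dbl B w z = 0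
    rw [dbl_apply, h₁.iso hw1 hz1, h₂.iso hw2 hz2, sub_self]

/-- **Parity of intersections**: an isometry of determinant one does not change the parity of the
dimension of the intersection of two Lagrangian subspaces. -/
theorem inter_parity [FiniteDimensional K W] (h2 : (2 : K) ≠ 0) (hB : NS B) {γ : W →ₗ[K] W}
    (hγ : ∀ x y, B (γ x) (γ y) = B x y) (hdet : LinearMap.det γ = 1)
    {L₁ L₂ : Submodule K W} (h₁ : Lag B L₁) (h₂ : Lag B L₂) :
    Even (finrank K (L₁ ⊓ L₂ : Submodule K W) +
      finrank K (L₁.map γ ⊓ L₂ : Submodule K W)) := by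
  classical
  have hinj : Function.Injective γ := by
    rw [← LinearMap.ker_eq_bot, LinearMap.ker_eq_bot']
    intro x hx
    apply hB.nd
    intro y
    rw [← hγ x y, hx, map_zero, LinearMap.zero_apply]
  have hsurj : Function.Surjective γ := LinearMap.injective_iff_surjective.1 hinj
  -- Wall
  have hr : Even (finrank K (LinearMap.range (LinearMap.id - γ))) := by
    have h := det_isometry hB hγ
    rw [hdet] at h
    rcases Nat.even_or_odd (finrank K (LinearMap.range (LinearMap.id - γ))) with h' | h'
    · exact h'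
    · exfalso
      rw [h'.neg_one_pow] at h
      apply h2
      linear_combination h
  -- the triple
  have hD : Lag (dbl B) (LinearMap.range (LinearMap.prod LinearMap.id (LinearMap.id : W →ₗ[K] W))) :=
    Lag_graph hB (fun x y => rfl) Function.surjective_id
  have hG := Lag_graph hB hγ hsurj
  have hP := Lag_prod h₁ h₂
  have hT := triple_parity h2 (NS_dbl hB) hD hG hP
  -- dimension of the diagonal
  have e0 : finrank K (LinearMap.range (LinearMap.prod LinearMap.id (LinearMap.id : W →ₗ[K] W)))
      = finrank K W := by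
    apply LinearMap.finrank_range_of_inj
    intro x y h
    exact congrArg Prod.fst h
  have hWeven : Even (finrank K W) := ⟨finrank K L₁, by have := h₁.finrank hB; omega⟩
  -- general description of the intersections
  have e1 : finrank K (LinearMap.range (LinearMap.prod LinearMap.id (LinearMap.id : W →ₗ[K] W)) ⊓
      LinearMap.range (LinearMap.prod LinearMap.id γ) : Submodule K (W × W)) =
      finrank K (ker (LinearMap.id - γ)) := by
    have hm : (ker (LinearMap.id - γ)).map (LinearMap.prod LinearMap.id γ) =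
        LinearMap.range (LinearMap.prod LinearMap.id (LinearMap.id : W →ₗ[K] W)) ⊓
      LinearMap.range (LinearMap.prod LinearMap.id γ) := by
      ext z
      constructor
      · rintro ⟨x, hx, rfl⟩
        refine ⟨⟨x, ?_⟩, x, rfl⟩
        have h : x - γ x = 0 := hx
        have h' : γ x = x := (sub_eq_zero.1 h).symm
        change (x, x) = (x, γ x)
        rw [h']
      · rintro ⟨⟨x, rfl⟩, y, hy⟩
        have e1 : y = x := congrArg Prod.fst hy
        have e2 : γ y = x := congrArg Prod.snd hy
        refine ⟨y, ?_, hy⟩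
        change y - γ y = 0
        rw [e1] at e2 ⊢
        rw [e2, sub_self]
    rw [← hm]
    exact (LinearEquiv.finrank_eq (Submodule.equivMapOfInjective _ (fun x y h =>
      congrArg Prod.fst h) _)).symm
  have gen : ∀ ε : W →ₗ[K] W, Function.Injective ε →
      finrank K (LinearMap.range (LinearMap.prod LinearMap.id ε) ⊓ L₁.prod L₂ :
        Submodule K (W × W)) = finrank K (L₁.map ε ⊓ L₂ : Submodule K W) := by
    intro ε hε
    have hm1 : (L₁ ⊓ L₂.comap ε).map (LinearMap.prod LinearMap.id ε) =
        LinearMap.range (LinearMap.prod LinearMap.id ε) ⊓ L₁.prod L₂ := by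
      ext z
      constructor
      · rintro ⟨x, hx, rfl⟩
        exact ⟨⟨x, rfl⟩, hx.1, hx.2⟩
      · rintro ⟨⟨x, rfl⟩, hx⟩
        exact ⟨x, ⟨hx.1, hx.2⟩, rfl⟩
    have hm2 : (L₁ ⊓ L₂.comap ε).map ε = L₁.map ε ⊓ L₂ := by
      ext z
      constructor
      · rintro ⟨x, hx, rfl⟩
        exact ⟨⟨x, hx.1, rfl⟩, hx.2⟩
      · rintro ⟨⟨x, hx, rfl⟩, hz⟩
        exact ⟨x, ⟨hx, hz⟩, rfl⟩
    rw [← hm1, ← hm2]
    rw [← LinearEquiv.finrank_eq (Submodule.equivMapOfInjective (LinearMap.prod LinearMap.id ε)
      (fun x y h => congrArg Prod.fst h) (L₁ ⊓ L₂.comap ε))]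
    rw [← LinearEquiv.finrank_eq (Submodule.equivMapOfInjective ε hε (L₁ ⊓ L₂.comap ε))]
  rw [e0, e1, gen γ hinj, gen LinearMap.id Function.injective_id, Submodule.map_id] at hT
  have e2 := LinearMap.finrank_range_add_finrank_ker (LinearMap.id - γ)
  rw [Nat.even_iff] at *
  omega

end Two

end Crest.Agent.R172.Par
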