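import Crest.Agent.R172.Par2
import Crest.Agent.R172.FO1

/-!
Row 172 (S0260), node PAR, file 3: the concrete configuration.  `V = Fin n ⊕ Fin n → K`,
`U = δ → K` with the form `B d e = if e = σ d then 1 else 0`, `V ⊗ U = Matrix (Fin n ⊕ Fin n) δ K`.
Main result: `Par.even_finrank`: `dim ((⊕ g_s n_s) ∩ (V ⊗ L))` is even when the total weight is in
the root lattice.
-/

set_option autoImplicit false
set_option linter.unusedSectionVars false

namespace Crest.Agent.R172.Par

open Module Matrix Crest.Agent.R172.Core Crest.Agent.R172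

section Gen

variable {ι : Type*} [Fintype ι] [DecidableEq ι] {δ : Type*} [Fintype δ] [DecidableEq δ]
  {K : Type*} [Field K]

/-- the pairing on `V ⊗ U` as a bilinear form -/
def pf (J : Matrix ι ι K) (B : Matrix δ δ K) : LinearMap.BilinForm K (Matrix ι δ K) :=
  LinearMap.mk₂ K (fun F F' => FO.pair J B F F')
    (by intro x y z; simp [FO.pair, Matrix.add_mul])
    (by intro c x y; simp [FO.pair])
    (by intro x y z; simp [FO.pair, Matrix.add_mul, Matrix.mul_add])
    (by intro c x y; simp [FO.pair])

theorem pf_apply (J : Matrix ι ι K) (B : Matrix δ δ K) (F F' : Matrix ι δ K) :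
    pf J B F F' = trace (Fᵀ * J * F' * B) := rfl

/-- the pairing by rows -/
theorem pf_rows (J : Matrix ι ι K) (B : Matrix δ δ K) (F F' : Matrix ι δ K) :
    pf J B F F' = ∑ i, ∑ j, J i j * (F' j ⬝ᵥ (B *ᵥ (F i))) := by
  rw [pf_apply]
  have h1 : trace (Fᵀ * J * F' * B) = trace (J * (F' * B * Fᵀ)) := by
    rw [Matrix.mul_assoc, Matrix.mul_assoc, Matrix.trace_mul_comm, Matrix.mul_assoc]
  rw [h1]
  rw [Matrix.trace]
  apply Finset.sum_congr rfl
  intro i _
  rw [Matrix.diag_apply, Matrix.mul_apply]
  apply Finset.sum_congr rfl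
  intro j _
  congr 1
  rw [Matrix.mul_assoc, Matrix.mul_apply]
  rfl

theorem NS_pf {J : Matrix ι ι K} {B : Matrix δ δ K} (hJ : Jᵀ = J) (hB : Bᵀ = B)
    (hJ2 : J * J = 1) (hB2 : B * B = 1) : NS (pf J B) := by
  refine ⟨fun F F' => ?_, fun F hF => ?_⟩
  · rw [pf_apply, pf_apply, ← Matrix.trace_transpose (Fᵀ * J * F' * B)]
    rw [Matrix.transpose_mul, Matrix.transpose_mul, Matrix.transpose_mul, hB, hJ,
      Matrix.transpose_transpose, Matrix.trace_mul_comm]
    simp only [Matrix.mul_assoc]
  · have h : B * Fᵀ * J = 0 := by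
      ext d i
      have h1 := hF (Matrix.single i d (1 : K))
      rw [pf_apply] at h1
      have h2 : trace (Fᵀ * J * Matrix.single i d (1 : K) * B) =
          trace (B * Fᵀ * J * Matrix.single i d (1 : K)) := by
        rw [Matrix.trace_mul_comm (Fᵀ * J * Matrix.single i d 1) B]
        simp only [Matrix.mul_assoc]
      rw [h2, Matrix.trace_mul_single] at h1
      simpa using h1
    have h3 : Fᵀ = 0 := by
      have : Fᵀ = B * (B * Fᵀ * J) * J := by
        rw [← Matrix.mul_assoc, ← Matrix.mul_assoc, hB2, Matrix.one_mul, Matrix.mul_assoc, hJ2,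
          Matrix.mul_one]
      rw [this, h, Matrix.mul_zero, Matrix.zero_mul]
    have := congrArg Matrix.transpose h3
    rwa [Matrix.transpose_transpose, Matrix.transpose_zero] at this

/-- the joint action of `g` as a linear map -/
def actL (arm : δ → Fin 3) (g : Fin 3 → Matrix ι ι K) : Matrix ι δ K →ₗ[K] Matrix ι δ K where
  toFun F := FO.act arm g F
  map_add' x y := by
    simp [FO.act, Matrix.mul_add, Matrix.add_mul, Finset.sum_add_distrib]
  map_smul' c x := by
    simp [FO.act, Finset.smul_sum]

theorem actL_apply (arm : δ → Fin 3) (g : Fin 3 → Matrix ι ι K) (F : Matrix ι δ K) :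
    actL arm g F = FO.act arm g F := rfl

theorem act_entry (arm : δ → Fin 3) (g : Fin 3 → Matrix ι ι K) (F : Matrix ι δ K) (i : ι) (d : δ) :
    FO.act arm g F i d = ∑ j, g (arm d) i j * F j d := by
  unfold FO.act
  rw [Matrix.sum_apply]
  unfold FO.E
  simp only [Matrix.mul_diagonal]
  rw [Finset.sum_eq_single (arm d)]
  · simp [Matrix.mul_apply]
  · intro s _ hs
    rw [if_neg (Ne.symm hs), mul_zero]
  · intro h; exact absurd (Finset.mem_univ _) h

theorem det_actL (arm : δ → Fin 3) (g : Fin 3 → Matrix ι ι K) :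
    LinearMap.det (actL arm g) = ∏ d, (g (arm d)).det := by
  let e : Matrix ι δ K ≃ₗ[K] (δ → ι → K) := Matrix.transposeLinearEquiv ι δ K K
  have h := LinearMap.det_conj (actL arm g) e
  have h1 : (e.toLinearMap ∘ₗ actL arm g ∘ₗ e.symm.toLinearMap) =
      LinearMap.pi (fun d => (Matrix.toLin' (g (arm d))).comp (LinearMap.proj d)) := by
    apply LinearMap.ext
    intro x
    funext d i
    change FO.act arm g (e.symm x) i d = (Matrix.toLin' (g (arm d)) (x d)) i
    rw [act_entry, Matrix.toLin'_apply]
    rfl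
  rw [← h, h1, LinearMap.det_pi]
  apply Finset.prod_congr rfl
  intro d _
  rw [LinearMap.det_toLin']

theorem actL_isometry {arm : δ → Fin 3} {g : Fin 3 → Matrix ι ι K} {J : Matrix ι ι K}
    {B : Matrix δ δ K} (hBE : ∀ s, FO.E K arm s * B = B * FO.E K arm s)
    (hg : ∀ s, (g s)ᵀ * J * g s = J) (F F' : Matrix ι δ K) :
    pf J B (actL arm g F) (actL arm g F') = pf J B F F' := by
  rw [pf_apply, pf_apply, actL_apply, actL_apply]
  have h1 : trace ((FO.act arm g F)ᵀ * J * FO.act arm g F' * B) =
      ∑ s, trace (Fᵀ * J * F' * FO.E K arm s * B) := by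
    have e1 : FO.act arm g F = ∑ s, g s * F * FO.E K arm s := rfl
    rw [e1, Matrix.transpose_sum, Matrix.sum_mul, Matrix.sum_mul, Matrix.sum_mul,
      Matrix.trace_sum]
    apply Finset.sum_congr rfl
    intro s _
    have e2 : ((g s * F * FO.E K arm s)ᵀ * J * FO.act arm g F' * B) =
        FO.E K arm s * (Fᵀ * (g s)ᵀ * J * FO.act arm g F' * B) := by
      rw [Matrix.transpose_mul, Matrix.transpose_mul, FO.E_transpose]
      simp only [Matrix.mul_assoc]
    rw [e2, Matrix.trace_mul_comm]
    have e3 : Fᵀ * (g s)ᵀ * J * FO.act arm g F' * B * FO.E K arm s =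
        Fᵀ * (g s)ᵀ * J * (FO.act arm g F' * FO.E K arm s) * B := by
      rw [Matrix.mul_assoc _ B, ← hBE s]
      simp only [Matrix.mul_assoc]
    rw [e3, FO.act_mul_E]
    have e4 : Fᵀ * (g s)ᵀ * J * (g s * F' * FO.E K arm s) * B =
        Fᵀ * ((g s)ᵀ * J * g s) * F' * FO.E K arm s * B := by
      simp only [Matrix.mul_assoc]
    rw [e4, hg]
  rw [h1, ← Matrix.trace_sum]
  congr 1
  have e5 : ∑ s, Fᵀ * J * F' * FO.E K arm s * B = Fᵀ * J * F' * (∑ s, FO.E K arm s) * B := by
    rw [Matrix.mul_sum, Matrix.sum_mul]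
  rw [e5, FO.sum_E, Matrix.mul_one]

/-- `V ⊗ L` : all the rows are in `L` -/
def VLs (ι : Type*) (L : Submodule K (δ → K)) : Submodule K (Matrix ι δ K) where
  carrier := {F | ∀ i, F i ∈ L}
  add_mem' h1 h2 i := L.add_mem (h1 i) (h2 i)
  zero_mem' _ := L.zero_mem
  smul_mem' c _ h i := L.smul_mem c (h i)

theorem mem_VLs {L : Submodule K (δ → K)} {F : Matrix ι δ K} : F ∈ VLs ι L ↔ ∀ i, F i ∈ L :=
  Iff.rfl

theorem Lag_VLs {J : Matrix ι ι K} {B : Matrix δ δ K} (hB : Bᵀ = B)
    (hJ2 : J * J = 1) {L : Submodule K (δ → K)} (hL : Lag (Matrix.toBilin' B) L) :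
    Lag (pf J B) (VLs ι L) := by
  have hBs : ∀ x y : δ → K, x ⬝ᵥ (B *ᵥ y) = y ⬝ᵥ (B *ᵥ x) := by
    intro x y
    rw [Matrix.dotProduct_mulVec, ← Matrix.mulVec_transpose, hB, dotProduct_comm]
  apply le_antisymm
  · intro F' hF'
    have h1 : ∀ i, (J * F') i ∈ L := by
      intro i
      have hL' : (Matrix.toBilin' B).orthogonal L = L := hL
      rw [← hL']
      intro l hl
      change Matrix.toBilin' B l ((J * F') i) = 0
      rw [Matrix.toBilin'_apply']
      have h := hF' (Matrix.of (fun i' d => if i' = i then l d else 0)) (by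
        intro i'
        by_cases hi : i' = i
        · have : (Matrix.of (fun i' d => if i' = i then l d else 0) : Matrix ι δ K) i' = l := by
            funext d
            simp [hi]
          rw [this]; exact hl
        · have : (Matrix.of (fun i' d => if i' = i then l d else 0) : Matrix ι δ K) i' = 0 := by
            funext d
            simp [hi]
          rw [this]; exact L.zero_mem)
      change pf J B _ F' = 0 at h
      rw [pf_rows, Finset.sum_eq_single i] at h
      · have e1 : (Matrix.of (fun i' d => if i' = i then l d else 0) : Matrix ι δ K) i = l := by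
          funext d
          simp
        rw [e1] at h
        rw [hBs l]
        have e2 : (J * F') i = ∑ j, J i j • F' j := by
          funext d
          simp [Matrix.mul_apply, Finset.sum_apply]
        rw [e2, sum_dotProduct]
        rw [← h]
        apply Finset.sum_congr rfl
        intro j _
        rw [smul_dotProduct, smul_eq_mul]
      · intro i' _ hi
        have e1 : (Matrix.of (fun i' d => if i' = i then l d else 0) : Matrix ι δ K) i' = 0 := by
          funext d
          simp [hi]
        rw [e1]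
        simp
      · intro h; exact absurd (Finset.mem_univ _) h
    intro i
    have e3 : F' i = ∑ j, J i j • (J * F') j := by
      have : F' = J * (J * F') := by rw [← Matrix.mul_assoc, hJ2, Matrix.one_mul]
      conv_lhs => rw [this]
      funext d
      simp [Matrix.mul_apply, Finset.sum_apply]
    rw [e3]
    exact L.sum_mem (fun j _ => L.smul_mem _ (h1 j))
  · intro F' hF' F hF
    change pf J B F F' = 0
    rw [pf_rows]
    apply Finset.sum_eq_zero
    intro i _
    apply Finset.sum_eq_zero
    intro j _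
    have h := hL.iso (hF i) (hF' j)
    rw [Matrix.toBilin'_apply'] at h
    rw [hBs, h, mul_zero]

end Gen

end Crest.Agent.R172.Par
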