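import Crest.Agent.R172.Par3

/-!
Row 172 (S0260), node PAR, file 4: the special point and the final parity statement.
-/

set_option autoImplicit false
set_option linter.unusedSectionVars false

namespace Crest.Agent.R172.Par

open Module Matrix Crest.Agent.R172.Core Crest.Agent.R172

section Special

variable {n : ℕ} {δ : Type*} [Fintype δ] [DecidableEq δ] {K : Type*} [Field K]

/-- the form on `V = (Fin n ⊕ Fin n) → K` -/
def Jn (n : ℕ) (K : Type*) [Field K] : Matrix (Fin n ⊕ Fin n) (Fin n ⊕ Fin n) K :=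
  Matrix.fromBlocks 0 1 1 0

theorem Jn_transpose : (Jn n K)ᵀ = Jn n K := by
  simp [Jn, Matrix.fromBlocks_transpose]

theorem Jn_mul_self : Jn n K * Jn n K = 1 := by
  simp [Jn, Matrix.fromBlocks_multiply, Matrix.fromBlocks_one]

/-- the form on `U` -/
def Bs (K : Type*) [Field K] (σ : δ → δ) : Matrix δ δ K :=
  Matrix.of (fun d e => if e = σ d then 1 else 0)

theorem Bs_transpose {σ : δ → δ} (hσ : ∀ d, σ (σ d) = d) : (Bs K σ)ᵀ = Bs K σ := by
  ext d e
  simp only [Bs, Matrix.transpose_apply, Matrix.of_apply]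
  have : (d = σ e) ↔ (e = σ d) :=
    ⟨fun h => by rw [h, hσ], fun h => by rw [h, hσ]⟩
  simp only [this]

theorem Bs_mulVec (σ : δ → δ) (x : δ → K) (d : δ) : (Bs K σ *ᵥ x) d = x (σ d) := by
  simp [Bs, Matrix.mulVec, dotProduct]

theorem Bs_mul_self {σ : δ → δ} (hσ : ∀ d, σ (σ d) = d) : Bs K σ * Bs K σ = 1 := by
  ext d e
  have h1 : (Bs K σ * Bs K σ) d e = (Bs K σ *ᵥ (fun x => Bs K σ x e)) d := rfl
  rw [h1, Bs_mulVec]
  simp only [Bs, Matrix.of_apply, hσ, Matrix.one_apply]
  have : (e = d) ↔ (d = e) := eq_comm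
  simp only [this]

theorem Bs_comm {arm : δ → Fin 3} {σ : δ → δ} (ha : ∀ d, arm (σ d) = arm d) (s : Fin 3) :
    FO.E K arm s * Bs K σ = Bs K σ * FO.E K arm s := by
  ext d e
  unfold FO.E
  rw [Matrix.diagonal_mul, Matrix.mul_diagonal]
  simp only [Bs, Matrix.of_apply]
  by_cases h : e = σ d
  · subst h
    simp [ha]
  · simp [h]

/-- coordinate subspace of `U` -/
def cs (K : Type*) [Field K] (A : δ → Prop) : Submodule K (δ → K) where
  carrier := {x | ∀ d, ¬ A d → x d = 0}
  add_mem' h1 h2 d hd := by rw [Pi.add_apply, h1 d hd, h2 d hd, add_zero]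
  zero_mem' _ _ := rfl
  smul_mem' c _ h d hd := by rw [Pi.smul_apply, h d hd, smul_zero]

theorem mem_cs {A : δ → Prop} {x : δ → K} : x ∈ cs K A ↔ ∀ d, ¬ A d → x d = 0 := Iff.rfl

theorem finrank_cs (A : δ → Prop) [DecidablePred A] :
    finrank K (cs K A) = (Finset.univ.filter A).card := by
  let e : cs K A ≃ₗ[K] ({d // A d} → K) :=
    { toFun := fun x d => (x : δ → K) d
      map_add' := fun x y => rfl
      map_smul' := fun c x => rfl
      invFun := fun y => ⟨fun d => if h : A d then y ⟨d, h⟩ else 0, fun d hd => by simp [hd]⟩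
      left_inv := by
        intro x
        apply Subtype.ext
        funext d
        by_cases h : A d
        · simp [h]
        · simp [h, x.2 d h]
      right_inv := by
        intro y
        funext d
        simp [d.2] }
  rw [LinearEquiv.finrank_eq e, Module.finrank_fintype_fun_eq_card, Fintype.card_subtype]

/-- orthogonal of a coordinate subspace -/
theorem orth_cs {σ : δ → δ} (hσ : ∀ d, σ (σ d) = d) (A : δ → Prop) :
    (Matrix.toBilin' (Bs K σ)).orthogonal (cs K A) = cs K (fun d => ¬ A (σ d)) := by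
  ext x
  constructor
  · intro hx d hd
    rw [not_not] at hd
    have h := hx (Pi.single (σ d) 1) (by
      intro e he
      have : e ≠ σ d := fun h => he (h ▸ hd)
      rw [Pi.single_eq_of_ne this])
    change Matrix.toBilin' (Bs K σ) _ x = 0 at h
    rw [Matrix.toBilin'_apply', single_one_dotProduct, Bs_mulVec, hσ] at h
    exact h
  · intro hx y hy
    change Matrix.toBilin' (Bs K σ) y x = 0
    rw [Matrix.toBilin'_apply', dotProduct]
    apply Finset.sum_eq_zero
    intro d _
    rw [Bs_mulVec]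
    by_cases h : A d
    · rw [hx (σ d) (by change ¬ ¬ A (σ (σ d)); rw [hσ]; exact not_not.2 h), mul_zero]
    · rw [hy d h, zero_mul]

theorem NS_Bs {σ : δ → δ} (hσ : ∀ d, σ (σ d) = d) : NS (Matrix.toBilin' (Bs K σ)) := by
  refine ⟨fun x y => ?_, fun x hx => ?_⟩
  · rw [Matrix.toBilin'_apply', Matrix.toBilin'_apply', Matrix.dotProduct_mulVec,
      ← Matrix.mulVec_transpose, Bs_transpose hσ, dotProduct_comm]
  · funext d
    have h := hx (Pi.single (σ d) 1)
    rw [Matrix.toBilin'_apply', Matrix.dotProduct_mulVec, ← Matrix.mulVec_transpose,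
      Bs_transpose hσ, dotProduct_single_one, Bs_mulVec, hσ] at h
    exact h

/-- the standard Lagrangian `⊕ e_i ⊗ A_i + e_i^* ⊗ A_i^⊥` -/
def nst (K : Type*) [Field K] (σ : δ → δ) (A : Fin n → δ → Prop) :
    Submodule K (Matrix (Fin n ⊕ Fin n) δ K) where
  carrier := {F | ∀ i, F (Sum.inl i) ∈ cs K (A i) ∧ F (Sum.inr i) ∈ cs K (fun d => ¬ A i (σ d))}
  add_mem' h1 h2 i := ⟨(cs K _).add_mem (h1 i).1 (h2 i).1, (cs K _).add_mem (h1 i).2 (h2 i).2⟩
  zero_mem' _ := ⟨(cs K _).zero_mem, (cs K _).zero_mem⟩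
  smul_mem' c _ h i := ⟨(cs K _).smul_mem c (h i).1, (cs K _).smul_mem c (h i).2⟩

theorem mem_nst {σ : δ → δ} {A : Fin n → δ → Prop} {F : Matrix (Fin n ⊕ Fin n) δ K} :
    F ∈ nst K σ A ↔ ∀ i d, (¬ A i d → F (Sum.inl i) d = 0) ∧
      (A i (σ d) → F (Sum.inr i) d = 0) := by
  constructor
  · intro h i d
    exact ⟨(h i).1 d, fun h' => (h i).2 d (not_not.2 h')⟩
  · intro h i
    exact ⟨fun d hd => (h i d).1 hd, fun d hd => (h i d).2 (not_not.1 hd)⟩

theorem pf_Jn (B : Matrix δ δ K) (F F' : Matrix (Fin n ⊕ Fin n) δ K) :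
    pf (Jn n K) B F F' = ∑ i, (F' (Sum.inr i) ⬝ᵥ (B *ᵥ F (Sum.inl i)) +
      F' (Sum.inl i) ⬝ᵥ (B *ᵥ F (Sum.inr i))) := by
  rw [pf_rows, Fintype.sum_sum_type, Finset.sum_add_distrib]
  congr 1
  · apply Finset.sum_congr rfl
    intro i _
    rw [Fintype.sum_sum_type]
    simp [Jn, Matrix.one_apply]
  · apply Finset.sum_congr rfl
    intro i _
    rw [Fintype.sum_sum_type]
    simp [Jn, Matrix.one_apply]

theorem Lag_nst {σ : δ → δ} (hσ : ∀ d, σ (σ d) = d) (A : Fin n → δ → Prop) :
    Lag (pf (Jn n K) (Bs K σ)) (nst K σ A) := by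
  apply le_antisymm
  · intro F' hF' i
    constructor
    · intro d hd
      have h := hF' (Matrix.of (fun r e => if r = Sum.inr i ∧ e = σ d then 1 else 0)) (by
        rw [mem_nst]
        intro j e
        refine ⟨fun _ => by simp, fun h => ?_⟩
        by_cases h' : j = i ∧ e = σ d
        · obtain ⟨rfl, rfl⟩ := h'
          rw [hσ] at h
          exact absurd h hd
        · simp only [Matrix.of_apply]
          rw [if_neg]
          rintro ⟨h1, h2⟩
          exact h' ⟨Sum.inr.inj h1, h2⟩)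
      change pf (Jn n K) (Bs K σ) _ F' = 0 at h
      rw [pf_Jn, Finset.sum_eq_single i] at h
      · have e1 : (Matrix.of (fun r e => if r = Sum.inr i ∧ e = σ d then (1 : K) else 0) :
            Matrix (Fin n ⊕ Fin n) δ K) (Sum.inl i) = 0 := by
          funext e; simp
        have e2 : (Matrix.of (fun r e => if r = Sum.inr i ∧ e = σ d then (1 : K) else 0) :
            Matrix (Fin n ⊕ Fin n) δ K) (Sum.inr i) = Pi.single (σ d) 1 := by
          funext e
          simp [Pi.single_apply]
        rw [e1, e2, Matrix.mulVec_zero, dotProduct_zero, zero_add] at h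
        rw [Matrix.dotProduct_mulVec, ← Matrix.mulVec_transpose,
          Bs_transpose hσ, dotProduct_single_one, Bs_mulVec, hσ] at h
        exact h
      · intro j _ hj
        have e1 : (Matrix.of (fun r e => if r = Sum.inr i ∧ e = σ d then (1 : K) else 0) :
            Matrix (Fin n ⊕ Fin n) δ K) (Sum.inl j) = 0 := by
          funext e; simp
        have e2 : (Matrix.of (fun r e => if r = Sum.inr i ∧ e = σ d then (1 : K) else 0) :
            Matrix (Fin n ⊕ Fin n) δ K) (Sum.inr j) = 0 := by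
          funext e
          simp [hj]
        rw [e1, e2]
        simp
      · intro h'; exact absurd (Finset.mem_univ _) h'
    · intro d hd
      rw [not_not] at hd
      have h := hF' (Matrix.of (fun r e => if r = Sum.inl i ∧ e = σ d then 1 else 0)) (by
        rw [mem_nst]
        intro j e
        refine ⟨fun h => ?_, fun _ => by simp⟩
        by_cases h' : j = i ∧ e = σ d
        · obtain ⟨rfl, rfl⟩ := h'
          exact absurd hd h
        · simp only [Matrix.of_apply]
          rw [if_neg]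
          rintro ⟨h1, h2⟩
          exact h' ⟨Sum.inl.inj h1, h2⟩)
      change pf (Jn n K) (Bs K σ) _ F' = 0 at h
      rw [pf_Jn, Finset.sum_eq_single i] at h
      · have e1 : (Matrix.of (fun r e => if r = Sum.inl i ∧ e = σ d then (1 : K) else 0) :
            Matrix (Fin n ⊕ Fin n) δ K) (Sum.inr i) = 0 := by
          funext e; simp
        have e2 : (Matrix.of (fun r e => if r = Sum.inl i ∧ e = σ d then (1 : K) else 0) :
            Matrix (Fin n ⊕ Fin n) δ K) (Sum.inl i) = Pi.single (σ d) 1 := by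
          funext e
          simp [Pi.single_apply]
        rw [e1, e2, Matrix.mulVec_zero, dotProduct_zero, add_zero] at h
        rw [Matrix.dotProduct_mulVec, ← Matrix.mulVec_transpose,
          Bs_transpose hσ, dotProduct_single_one, Bs_mulVec, hσ] at h
        exact h
      · intro j _ hj
        have e1 : (Matrix.of (fun r e => if r = Sum.inl i ∧ e = σ d then (1 : K) else 0) :
            Matrix (Fin n ⊕ Fin n) δ K) (Sum.inr j) = 0 := by
          funext e; simp
        have e2 : (Matrix.of (fun r e => if r = Sum.inl i ∧ e = σ d then (1 : K) else 0) :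
            Matrix (Fin n ⊕ Fin n) δ K) (Sum.inl j) = 0 := by
          funext e
          simp [hj]
        rw [e1, e2]
        simp
      · intro h'; exact absurd (Finset.mem_univ _) h'
  · intro F' hF' F hF
    change pf (Jn n K) (Bs K σ) F F' = 0
    rw [pf_Jn]
    apply Finset.sum_eq_zero
    intro i _
    have h1 : F' (Sum.inr i) ∈ (Matrix.toBilin' (Bs K σ)).orthogonal (cs K (A i)) := by
      rw [orth_cs hσ]; exact (hF' i).2
    have h2 : F (Sum.inr i) ∈ (Matrix.toBilin' (Bs K σ)).orthogonal (cs K (A i)) := by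
      rw [orth_cs hσ]; exact (hF i).2
    have e1 : Matrix.toBilin' (Bs K σ) (F (Sum.inl i)) (F' (Sum.inr i)) = 0 := h1 _ (hF i).1
    have e2 : Matrix.toBilin' (Bs K σ) (F' (Sum.inl i)) (F (Sum.inr i)) = 0 := h2 _ (hF' i).1
    rw [(NS_Bs hσ).symm, Matrix.toBilin'_apply'] at e1
    rw [Matrix.toBilin'_apply'] at e2
    rw [e1, e2, add_zero]

/-- parity for one row pair -/
theorem row_parity {σ : δ → δ} (hσ : ∀ d, σ (σ d) = d) {L : Submodule K (δ → K)}
    (hL : Lag (Matrix.toBilin' (Bs K σ)) L) (A : δ → Prop) [DecidablePred A] :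
    ∃ z : ℕ, (finrank K (cs K A ⊓ L : Submodule K (δ → K)) +
      finrank K (cs K (fun d => ¬ A (σ d)) ⊓ L : Submodule K (δ → K)) : ℤ) =
      2 * z + (finrank K L : ℤ) - (Finset.univ.filter A).card := by
  have hN := NS_Bs (K := K) hσ
  have h1 : cs K (fun d => ¬ A (σ d)) ⊓ L =
      (Matrix.toBilin' (Bs K σ)).orthogonal (cs K A ⊔ L) := by
    have hL' : (Matrix.toBilin' (Bs K σ)).orthogonal L = L := hL
    rw [orth_sup, orth_cs hσ, hL']
  have h2 := LinearMap.BilinForm.finrank_orthogonal hN.nondeg (cs K A ⊔ L)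
  rw [← h1] at h2
  have h3 := Submodule.finrank_sup_add_finrank_inf_eq (cs K A) L
  have h4 := hL.finrank hN
  have h5 := finrank_cs (K := K) A
  have h6 := Submodule.finrank_le (cs K A ⊔ L)
  refine ⟨finrank K (cs K A ⊓ L : Submodule K (δ → K)), ?_⟩
  rw [← h5]
  omega

/-- submodule of row-constrained matrices -/
theorem finrank_rows {ρ : Type*} [Fintype ρ] (S : ρ → Submodule K (δ → K))
    (P : Submodule K (Matrix ρ δ K)) (hP : ∀ F, F ∈ P ↔ ∀ r, F r ∈ S r) :
    finrank K P = ∑ r, finrank K (S r) := by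
  let e : P ≃ₗ[K] (∀ r, S r) :=
    { toFun := fun F r => ⟨(F : Matrix ρ δ K) r, (hP _).1 F.2 r⟩
      map_add' := fun x y => rfl
      map_smul' := fun c x => rfl
      invFun := fun y => ⟨fun r => (y r : δ → K), (hP _).2 (fun r => (y r).2)⟩
      left_inv := fun x => rfl
      right_inv := fun y => rfl }
  rw [LinearEquiv.finrank_eq e, Module.finrank_pi_fintype]

theorem special_finrank {σ : δ → δ} (A : Fin n → δ → Prop) (L : Submodule K (δ → K)) :
    finrank K (nst K σ A ⊓ VLs (Fin n ⊕ Fin n) L :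
      Submodule K (Matrix (Fin n ⊕ Fin n) δ K)) =
    ∑ i, (finrank K (cs K (A i) ⊓ L : Submodule K (δ → K)) +
      finrank K (cs K (fun d => ¬ A i (σ d)) ⊓ L : Submodule K (δ → K))) := by
  rw [finrank_rows (fun r => Sum.elim (fun i => cs K (A i) ⊓ L)
    (fun i => cs K (fun d => ¬ A i (σ d)) ⊓ L) r)]
  · rw [Fintype.sum_sum_type, Finset.sum_add_distrib]
    rfl
  · intro F
    constructor
    · rintro ⟨h1, h2⟩ (i | i)
      · exact ⟨(h1 i).1, h2 _⟩
      · exact ⟨(h1 i).2, h2 _⟩
    · intro h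
      refine ⟨fun i => ⟨(h (Sum.inl i)).1, (h (Sum.inr i)).1⟩, ?_⟩
      rintro (i | i)
      · exact (h (Sum.inl i)).2
      · exact (h (Sum.inr i)).2

/-- **P4**: parity at the special point. -/
theorem special_parity {σ : δ → δ} (hσ : ∀ d, σ (σ d) = d) (A : Fin n → δ → Prop)
    [∀ i, DecidablePred (A i)] {L : Submodule K (δ → K)}
    (hL : Lag (Matrix.toBilin' (Bs K σ)) L)
    (hroot : (4 : ℤ) ∣ ∑ i : Fin n, (2 * ((Finset.univ.filter (A i)).card : ℤ) -
      Fintype.card δ)) :
    Even (finrank K (nst K σ A ⊓ VLs (Fin n ⊕ Fin n) L :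
      Submodule K (Matrix (Fin n ⊕ Fin n) δ K))) := by
  rw [special_finrank]
  have hN := NS_Bs (K := K) hσ
  have h4 := hL.finrank hN
  rw [Module.finrank_fintype_fun_eq_card] at h4
  choose z hz using fun i => row_parity (K := K) hσ hL (A i)
  have h5 : ((∑ i, (finrank K (cs K (A i) ⊓ L : Submodule K (δ → K)) +
      finrank K (cs K (fun d => ¬ A i (σ d)) ⊓ L : Submodule K (δ → K))) : ℕ) : ℤ) =
      2 * ∑ i, (z i : ℤ) - ∑ i, (((Finset.univ.filter (A i)).card : ℤ) - finrank K L) := by
    push_cast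
    rw [Finset.mul_sum, ← Finset.sum_sub_distrib]
    apply Finset.sum_congr rfl
    intro i _
    rw [hz i]
    ring
  have h6 : ∑ i : Fin n, (2 * ((Finset.univ.filter (A i)).card : ℤ) - Fintype.card δ) =
      2 * ∑ i : Fin n, (((Finset.univ.filter (A i)).card : ℤ) - finrank K L) := by
    rw [Finset.mul_sum]
    apply Finset.sum_congr rfl
    intro i _
    rw [← h4]
    push_cast
    ring
  rw [h6] at hroot
  obtain ⟨q, hq⟩ := hroot
  rw [← Int.even_coe_nat, h5]
  refine ⟨(∑ i, (z i : ℤ)) - q, ?_⟩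
  linarith

/-- **P5** (final): `dim ((⊕ g_s n_s) ∩ (V ⊗ L))` is even. -/
theorem even_finrank (h2 : (2 : K) ≠ 0) {arm : δ → Fin 3} {σ : δ → δ} (hσ : ∀ d, σ (σ d) = d)
    (ha : ∀ d, arm (σ d) = arm d) (A : Fin n → δ → Prop)
    [∀ i, DecidablePred (A i)] {L : Submodule K (δ → K)}
    (hL : Lag (Matrix.toBilin' (Bs K σ)) L)
    {g : Fin 3 → Matrix (Fin n ⊕ Fin n) (Fin n ⊕ Fin n) K}
    (hg : ∀ s, (g s)ᵀ * Jn n K * g s = Jn n K) (hd : ∀ s, (g s).det = 1)
    (hroot : (4 : ℤ) ∣ ∑ i : Fin n, (2 * ((Finset.univ.filter (A i)).card : ℤ) -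
      Fintype.card δ)) :
    Even (finrank K ((nst K σ A).map (actL arm g) ⊓ VLs (Fin n ⊕ Fin n) L :
      Submodule K (Matrix (Fin n ⊕ Fin n) δ K))) := by
  have hN : NS (pf (Jn n K) (Bs K σ)) := NS_pf Jn_transpose (Bs_transpose hσ) Jn_mul_self
    (Bs_mul_self hσ)
  have hdet : LinearMap.det (actL arm g) = 1 := by
    rw [det_actL]
    exact Finset.prod_eq_one (fun d _ => hd _)
  have h := inter_parity h2 hN (actL_isometry (Bs_comm ha) hg) hdet (Lag_nst hσ A)
    (Lag_VLs (ι := Fin n ⊕ Fin n) (Bs_transpose hσ) Jn_mul_self hL)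
  have h' := special_parity (n := n) hσ A hL hroot
  rw [Nat.even_iff] at *
  omega

/-- the root lattice hypothesis from the weights. -/
theorem root_of_count {arm : δ → Fin 3} (A : Fin n → δ → Prop) [∀ i, DecidablePred (A i)]
    (a : Fin 3 → Fin n → ℤ)
    (hc : ∀ s i, a s i = 2 * ((Finset.univ.filter (fun d => arm d = s ∧ A i d)).card : ℤ) -
      ((Finset.univ.filter (fun d => arm d = s)).card : ℤ))
    (h4 : (4 : ℤ) ∣ ∑ i, ∑ s, a s i) :
    (4 : ℤ) ∣ ∑ i : Fin n, (2 * ((Finset.univ.filter (A i)).card : ℤ) - Fintype.card δ) := by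
  have : ∑ i, ∑ s, a s i = ∑ i : Fin n, (2 * ((Finset.univ.filter (A i)).card : ℤ) -
      Fintype.card δ) := by
    apply Finset.sum_congr rfl
    intro i _
    have e1 : ((Finset.univ.filter (A i)).card : ℤ) =
        ∑ s : Fin 3, ((Finset.univ.filter (fun d => arm d = s ∧ A i d)).card : ℤ) := by
      rw [← Nat.cast_sum]
      congr 1
      rw [Finset.card_eq_sum_card_fiberwise (f := arm) (t := Finset.univ)
        (fun _ _ => Finset.mem_coe.2 (Finset.mem_univ _))]
      apply Finset.sum_congr rfl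
      intro s _
      congr 1
      ext d
      simp [and_comm]
    have e2 : (Fintype.card δ : ℤ) =
        ∑ s : Fin 3, ((Finset.univ.filter (fun d => arm d = s)).card : ℤ) := by
      rw [← Nat.cast_sum]
      congr 1
      rw [← Finset.card_univ, Finset.card_eq_sum_card_fiberwise (f := arm) (t := Finset.univ)
        (fun _ _ => Finset.mem_coe.2 (Finset.mem_univ _))]
    rw [e1, e2, Finset.mul_sum, ← Finset.sum_sub_distrib]
    exact Finset.sum_congr rfl (fun s _ => hc s i)
  rw [← this]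
  exact h4

end Special

end Crest.Agent.R172.Par
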