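import Crest.Agent.R172.Par4
import Crest.Agent.R172.Cfg

/-!
Row 172 (S0260), node PAR, file 5: the parity statement in the notation of `Cfg`.
-/

set_option autoImplicit false
set_option linter.unusedSectionVars false

namespace Crest.Agent.R172.Par

open Module Matrix Crest.Agent.R172.Core Crest.Agent.R172 Crest.AlgebraR.SpinSaturation
open Crest.Agent.R172.Gen (Jm Ix)
open Crest.Agent.R172.CF

variable {n : ℕ} {a : Fin 3 → Fin n → ℤ} (c : Cfg n a) {K : Type*} [Field K]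

theorem ub_eq (u v : c.δ → K) : c.ub u v = Matrix.toBilin' (Bs K c.σ) u v := by
  rw [Matrix.toBilin'_apply', dotProduct]
  unfold Cfg.ub
  apply Finset.sum_congr rfl
  intro d _
  rw [Bs_mulVec]

/-- a totally isotropic subspace of half dimension is Lagrangian -/
theorem Lag_of_isotropic {W : Type*} [AddCommGroup W] [Module K W] [FiniteDimensional K W]
    {B : LinearMap.BilinForm K W} (hB : NS B) {L : Submodule K W}
    (h1 : ∀ u ∈ L, ∀ v ∈ L, B u v = 0) (h2 : 2 * finrank K L = finrank K W) : Lag B L := by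
  have h3 : L ≤ B.orthogonal L := fun v hv u hu => h1 u hu v hv
  have h4 := LinearMap.BilinForm.finrank_orthogonal hB.nondeg L
  exact (Submodule.eq_of_le_of_finrank_eq h3 (by omega)).symm

theorem nstd_eq : c.nstd K = nst K c.σ c.A := by
  ext F
  rw [mem_nst]
  rfl

theorem N_eq (g : Fin 3 → Matrix (Ix n) (Ix n) K) :
    c.N g = (nst K c.σ c.A).map (Par.actL c.arm g) := by
  unfold Cfg.N
  rw [nstd_eq]
  rfl

/-- **PAR.** The dimension of `(V ⊗ L) ∩ (⊕ g_s n_s)` is even. -/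
theorem even_inf (h2 : (2 : K) ≠ 0) {L : Submodule K (c.δ → K)}
    (hL : ∀ u ∈ L, ∀ v ∈ L, c.ub u v = 0) (hL2 : 2 * finrank K L = Fintype.card c.δ)
    {g : Fin 3 → Matrix (Ix n) (Ix n) K}
    (hg : ∀ s, (g s)ᵀ * Jm n K * g s = Jm n K) (hd : ∀ s, (g s).det = 1)
    (hroot : InRootLattice n (a 0 + a 1 + a 2)) :
    Even (finrank K (VL L ⊓ c.N g : Submodule K (Matrix (Ix n) c.δ K))) := by
  have hLag : Lag (Matrix.toBilin' (Bs K c.σ)) L := by
    apply Lag_of_isotropic (NS_Bs c.inv)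
    · intro u hu v hv
      rw [← ub_eq]
      exact hL u hu v hv
    · rw [hL2, Module.finrank_fintype_fun_eq_card]
  have h4 : (4 : ℤ) ∣ ∑ i, ∑ s, a s i := by
    have : ∑ i, ∑ s, a s i = ∑ i, (a 0 + a 1 + a 2) i := by
      apply Finset.sum_congr rfl
      intro i _
      rw [Fin.sum_univ_three]
      rfl
    rw [this]
    exact hroot.2
  have h := even_finrank (n := n) (K := K) h2 c.inv c.arm_σ c.A hLag (g := g) hg hd
    (root_of_count c.A a c.count h4)
  rw [N_eq, inf_comm]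
  exact h

/-- Hence a space `(V ⊗ L) ∩ N g` of dimension at most one is zero. -/
theorem eq_zero_of_finrank_le_one (h2 : (2 : K) ≠ 0) {L : Submodule K (c.δ → K)}
    (hL : ∀ u ∈ L, ∀ v ∈ L, c.ub u v = 0) (hL2 : 2 * finrank K L = Fintype.card c.δ)
    {g : Fin 3 → Matrix (Ix n) (Ix n) K}
    (hg : ∀ s, (g s)ᵀ * Jm n K * g s = Jm n K) (hd : ∀ s, (g s).det = 1)
    (hroot : InRootLattice n (a 0 + a 1 + a 2))
    (hk : finrank K (VL L ⊓ c.N g : Submodule K (Matrix (Ix n) c.δ K)) ≤ 1) :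
    ∀ F ∈ VL L, F ∈ c.N g → F = 0 := by
  have h := even_inf c h2 hL hL2 hg hd hroot
  have h0 : finrank K (VL L ⊓ c.N g : Submodule K (Matrix (Ix n) c.δ K)) = 0 := by
    rw [Nat.even_iff] at h
    omega
  have h1 : (VL L ⊓ c.N g : Submodule K (Matrix (Ix n) c.δ K)) = ⊥ :=
    Submodule.finrank_eq_zero.1 h0
  intro F hF1 hF2
  have : F ∈ (VL L ⊓ c.N g : Submodule K (Matrix (Ix n) c.δ K)) := ⟨hF1, hF2⟩
  rw [h1] at this
  exact (Submodule.mem_bot K).1 this

end Crest.Agent.R172.Par
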