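import Crest.Agent.R172.Cfg
import Crest.Agent.R172.Gen4

/-!
R172: polarisation of `U` (constant hyperbolic basis), the family of Lagrangian subspaces `L_H`, and the
polynomial linear system whose solutions are the elements of `(V ⊗ L_H) ∩ N(g)`.
-/

set_option autoImplicit false
set_option linter.unusedSectionVars false

namespace Crest.Agent.R172.CF

open Matrix Crest.AlgebraR.SpinSaturation Crest.Agent.R172.SoGrade
open Crest.Agent.R172.Gen (Jm Ix emb Ent ent)

/-! ### Complex symmetric matrices -/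

/-- a symmetric matrix with zero quadratic form vanishes -/
theorem eq_zero_of_quad {ι : Type*} [Fintype ι] [DecidableEq ι] (A : Matrix ι ι ℂ) (hA : Aᵀ = A)
    (h : ∀ x : ι → ℂ, x ⬝ᵥ (A *ᵥ x) = 0) : A = 0 := by
  have hd : ∀ x y : ι → ℂ, x ⬝ᵥ (A *ᵥ y) = 0 := by
    intro x y
    have h1 := h (x + y)
    rw [mulVec_add, add_dotProduct, dotProduct_add, dotProduct_add, h x, h y, zero_add, add_zero]
      at h1
    have h2 : y ⬝ᵥ (A *ᵥ x) = x ⬝ᵥ (A *ᵥ y) := by
      rw [dotProduct_mulVec, ← mulVec_transpose, hA, dotProduct_comm]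
    rw [h2, ← two_mul] at h1
    exact (mul_eq_zero.1 h1).resolve_left two_ne_zero
  ext i j
  have := hd (Pi.single i 1) (Pi.single j 1)
  rw [mulVec_single_one, single_one_dotProduct] at this
  exact this

/-- orthonormal bases -/
theorem exists_onb {ι : Type*} [Fintype ι] [DecidableEq ι] (B : Matrix ι ι ℂ) (hB : Bᵀ = B)
    (hu : B.det ≠ 0) : ∃ S : Matrix ι (Fin (Fintype.card ι)) ℂ, Sᵀ * B * S = 1 := by
  have hsym : ∀ x y : ι → ℂ, Matrix.toLinearMap₂' ℂ B x y = Matrix.toLinearMap₂' ℂ B y x := by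
    intro x y
    rw [Matrix.toLinearMap₂'_apply', Matrix.toLinearMap₂'_apply', dotProduct_mulVec,
      ← mulVec_transpose, hB, dotProduct_comm]
  have hass : QuadraticMap.associated (R := ℂ) B.toQuadraticForm' = Matrix.toLinearMap₂' ℂ B :=
    QuadraticMap.associated_left_inverse ℂ hsym
  have hsep : (QuadraticMap.associated (R := ℂ) B.toQuadraticForm').SeparatingLeft := by
    rw [hass]
    exact (Matrix.nondegenerate_of_det_ne_zero hu).separatingLeft.toLinearMap₂'
  obtain ⟨e⟩ := QuadraticForm.equivalent_weightedSumSquares_of_isAlgClosed _ hsep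
  have hN : Module.finrank ℂ (ι → ℂ) = Fintype.card ι := Module.finrank_fintype_fun_eq_card ℂ
  let S0 : Matrix ι (Fin (Module.finrank ℂ (ι → ℂ))) ℂ :=
    LinearMap.toMatrix' (e.symm.toLinearEquiv.toLinearMap)
  have hS0 : S0ᵀ * B * S0 = 1 := by
    rw [← sub_eq_zero]
    apply eq_zero_of_quad
    · rw [transpose_sub, transpose_mul, transpose_mul, transpose_transpose, hB, transpose_one,
        Matrix.mul_assoc]
    · intro x
      rw [sub_mulVec, dotProduct_sub, one_mulVec, ← mulVec_mulVec, ← mulVec_mulVec,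
        mulVec_transpose, dotProduct_comm, ← dotProduct_mulVec, dotProduct_comm]
      have h1 : S0 *ᵥ x = e.symm x := LinearMap.toMatrix'_mulVec _ _
      have h2 : B.toQuadraticForm' (e.symm x) = QuadraticMap.weightedSumSquares ℂ 1 x :=
        e.symm.map_app x
      have h3 : B.toQuadraticForm' (S0 *ᵥ x) = (S0 *ᵥ x) ⬝ᵥ (B *ᵥ (S0 *ᵥ x)) := by
        rw [Matrix.toQuadraticForm', LinearMap.BilinMap.toQuadraticMap_apply,
          Matrix.toLinearMap₂'_apply']
      rw [← h3, h1, h2, QuadraticMap.weightedSumSquares_apply, sub_eq_zero, dotProduct]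
      refine Finset.sum_congr rfl fun i _ => ?_
      simp
  refine ⟨S0.submatrix id (finCongr hN.symm), ?_⟩
  rw [transpose_submatrix]
  have h1 : S0ᵀ.submatrix (finCongr hN.symm) id * B * S0.submatrix id (finCongr hN.symm) =
      (S0ᵀ * B * S0).submatrix (finCongr hN.symm) (finCongr hN.symm) := by
    rfl
  rw [h1, hS0, submatrix_one_equiv]

theorem Jm_transpose (m : ℕ) (K : Type*) [Field K] : (Jm m K)ᵀ = Jm m K := by
  simp [LieAlgebra.Orthogonal.JD, fromBlocks_transpose]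

theorem Jm_sq (m : ℕ) (K : Type*) [Field K] : Jm m K * Jm m K = 1 := by
  simp [LieAlgebra.Orthogonal.JD, fromBlocks_multiply]

/-- polarisation of an even number of variables -/
theorem exists_hyp {ι : Type*} [Fintype ι] [DecidableEq ι] (B : Matrix ι ι ℂ) (hB : Bᵀ = B)
    (hu : B.det ≠ 0) {m : ℕ} (hm : Fintype.card ι = 2 * m) :
    ∃ T : Matrix ι (Fin m ⊕ Fin m) ℂ, Tᵀ * B * T = Jm m ℂ := by
  obtain ⟨S, hS⟩ := exists_onb B hB hu
  have hJt : (Jm m ℂ)ᵀ = Jm m ℂ := Jm_transpose m ℂ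
  have hJ2 : Jm m ℂ * Jm m ℂ = 1 := Jm_sq m ℂ
  have hJd : (Jm m ℂ).det ≠ 0 := by
    intro h
    have := congrArg Matrix.det hJ2
    rw [det_mul, h, zero_mul, det_one] at this
    exact zero_ne_one this
  obtain ⟨S', hS'⟩ := exists_onb (Jm m ℂ) hJt hJd
  have hc : Fintype.card (Fin m ⊕ Fin m) = Fintype.card ι := by
    rw [hm, Fintype.card_sum, Fintype.card_fin]; ring
  have hc' : Fintype.card ι = Fintype.card (Fin m ⊕ Fin m) := hc.symm
  -- reindex
  let S1 : Matrix (Fin m ⊕ Fin m) (Fin (Fintype.card ι)) ℂ := S'.submatrix id (finCongr hc')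
  have hS1 : S1ᵀ * Jm m ℂ * S1 = 1 := by
    have h1 : S1ᵀ * Jm m ℂ * S1 = (S'ᵀ * Jm m ℂ * S').submatrix (finCongr hc') (finCongr hc') := rfl
    rw [h1, hS', submatrix_one_equiv]
  -- the left inverse of `S1` is a right inverse
  have hS2 : S1 * (S1ᵀ * Jm m ℂ) = 1 := by
    rw [Matrix.mul_eq_one_comm_of_card_eq]
    · exact hS1
    · rw [Fintype.card_fin, hc]
  refine ⟨S * (S1ᵀ * Jm m ℂ), ?_⟩
  rw [transpose_mul]
  calc (S1ᵀ * Jm m ℂ)ᵀ * Sᵀ * B * (S * (S1ᵀ * Jm m ℂ))
      = (S1ᵀ * Jm m ℂ)ᵀ * (Sᵀ * B * S) * (S1ᵀ * Jm m ℂ) := by simp only [Matrix.mul_assoc]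
    _ = (S1ᵀ * Jm m ℂ)ᵀ * (S1ᵀ * Jm m ℂ) := by rw [hS, Matrix.mul_one]
    _ = Jm m ℂ * (S1 * (S1ᵀ * Jm m ℂ)) := by
        rw [transpose_mul, transpose_transpose, hJt]; simp only [Matrix.mul_assoc]
    _ = Jm m ℂ := by rw [hS2, Matrix.mul_one]

variable {n : ℕ} {a : Fin 3 → Fin n → ℤ}

section formB

variable (c : Cfg n a) (K : Type*) [Field K]

theorem Cfg.B_transpose : (c.B K)ᵀ = c.B K := by
  ext d e
  rw [transpose_apply, Cfg.B, of_apply, of_apply]
  by_cases h : e = c.σ d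
  · rw [if_pos h, if_pos (by rw [h, c.inv])]
  · rw [if_neg h, if_neg]
    intro h'
    exact h (by rw [h', c.inv])

theorem Cfg.B_sq : c.B K * c.B K = 1 := by
  ext d e
  rw [Matrix.mul_apply, Finset.sum_eq_single (c.σ d)]
  · rw [Cfg.B, of_apply, of_apply, if_pos rfl, c.inv, one_mul, Matrix.one_apply]
    by_cases h : d = e
    · rw [if_pos h, if_pos h.symm]
    · rw [if_neg h, if_neg (fun h' => h h'.symm)]
  · intro x _ hx
    rw [Cfg.B, of_apply, if_neg hx, zero_mul]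
  · intro h
    exact absurd (Finset.mem_univ _) h

theorem Cfg.B_map (L : Type*) [Field L] (f : K →+* L) : (c.B K).map f = c.B L := by
  ext d e
  rw [map_apply, Cfg.B, Cfg.B, of_apply, of_apply]
  split_ifs <;> simp

theorem Cfg.mulVec_B (v : c.δ → K) (d : c.δ) : (c.B K *ᵥ v) d = v (c.σ d) := by
  rw [mulVec, dotProduct, Finset.sum_eq_single (c.σ d)]
  · rw [Cfg.B, of_apply, if_pos rfl, one_mul]
  · intro x _ hx
    rw [Cfg.B, of_apply, if_neg hx, zero_mul]
  · intro h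
    exact absurd (Finset.mem_univ _) h

theorem Cfg.ub_eq (u v : c.δ → K) : c.ub u v = u ⬝ᵥ (c.B K *ᵥ v) := by
  rw [Cfg.ub, dotProduct]
  exact Finset.sum_congr rfl fun d _ => by rw [c.mulVec_B]

theorem Cfg.B_det : (c.B K).det ≠ 0 := by
  intro h
  have := congrArg Matrix.det (c.B_sq K)
  rw [det_mul, h, zero_mul, det_one] at this
  exact zero_ne_one this

end formB

/-- A polarisation of `U`: a constant hyperbolic basis. -/
structure Pol (c : Cfg n a) where
  m : ℕ
  card : Fintype.card c.δ = 2 * m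
  T : Matrix c.δ (Fin m ⊕ Fin m) ℂ
  hT : Tᵀ * c.B ℂ * T = Jm m ℂ

theorem exists_pol (c : Cfg n a) (h : Even (Fintype.card c.δ)) : Nonempty (Pol c) := by
  obtain ⟨m, hm⟩ := h
  rw [← two_mul] at hm
  obtain ⟨T, hT⟩ := exists_hyp (c.B ℂ) (c.B_transpose ℂ) (c.B_det ℂ) hm
  exact ⟨⟨m, hm, T, hT⟩⟩

namespace Pol

variable {c : Cfg n a} (p : Pol c) {K : Type} [Field K] [Algebra ℂ K]

variable (K) in
/-- the hyperbolic basis over `K` -/
noncomputable def TK : Matrix c.δ (Fin p.m ⊕ Fin p.m) K := p.T.map (algebraMap ℂ K)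

variable (K) in
theorem hTK : (p.TK K)ᵀ * c.B K * p.TK K = Jm p.m K := by
  have h := congrArg (fun A : Matrix (Fin p.m ⊕ Fin p.m) (Fin p.m ⊕ Fin p.m) ℂ =>
    A.map (algebraMap ℂ K)) p.hT
  simp only [Matrix.map_mul, c.B_map] at h
  have h2 : (Jm p.m ℂ).map (algebraMap ℂ K) = Jm p.m K := by
    simp only [LieAlgebra.Orthogonal.JD, fromBlocks_map]
    congr 1 <;> ext i j <;> by_cases h : i = j <;> simp [Matrix.one_apply, h]
  rw [h2] at h
  exact h

/-- the stacked matrix `(H, 1)` -/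
def st {R : Type*} [CommRing R] (m : ℕ) (H : Matrix (Fin m) (Fin m) R) :
    Matrix (Fin m ⊕ Fin m) (Fin m) R :=
  Matrix.fromRows H (1 : Matrix (Fin m) (Fin m) R)

variable (K) in
/-- the projection `(0, 1)` -/
def pr (m : ℕ) : Matrix (Fin m) (Fin m ⊕ Fin m) K :=
  Matrix.fromCols (0 : Matrix (Fin m) (Fin m) K) (1 : Matrix (Fin m) (Fin m) K)

theorem pr_st (m : ℕ) (H : Matrix (Fin m) (Fin m) K) : pr K m * st m H = 1 := by
  rw [pr, st, Matrix.fromCols_mul_fromRows, Matrix.zero_mul, Matrix.one_mul, zero_add]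

theorem st_iso (m : ℕ) {H : Matrix (Fin m) (Fin m) K} (hH : Hᵀ = -H) :
    (st m H)ᵀ * Jm m K * st m H = 0 := by
  have h1 : Jm m K * st m H = Matrix.fromRows (1 : Matrix (Fin m) (Fin m) K) H := by
    rw [st]
    simp only [LieAlgebra.Orthogonal.JD]
    rw [Matrix.fromBlocks_mul_fromRows]
    simp
  rw [Matrix.mul_assoc, h1, st, Matrix.transpose_fromRows, Matrix.fromCols_mul_fromRows, hH]
  simp

/-- the basis matrix of `L_H` -/
noncomputable def P (H : Matrix (Fin p.m) (Fin p.m) K) : Matrix c.δ (Fin p.m) K :=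
  p.TK K * st p.m H

/-- the Lagrangian subspace `L_H` -/
noncomputable def LH (H : Matrix (Fin p.m) (Fin p.m) K) : Submodule K (c.δ → K) :=
  LinearMap.range (Matrix.toLin' (p.P H))

theorem mem_LH {H : Matrix (Fin p.m) (Fin p.m) K} {u : c.δ → K} :
    u ∈ p.LH H ↔ ∃ x, p.P H *ᵥ x = u := by
  rw [LH, LinearMap.mem_range]
  rfl

variable (K) in
/-- the left inverse of `P` -/
noncomputable def Q : Matrix (Fin p.m) c.δ K := pr K p.m * (Jm p.m K * (p.TK K)ᵀ * c.B K)

/-- a left inverse of `P` -/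
theorem left_inv (H : Matrix (Fin p.m) (Fin p.m) K) : p.Q K * p.P H = 1 := by
  rw [P, Q]
  have h1 : pr K p.m * (Jm p.m K * (p.TK K)ᵀ * c.B K) * (p.TK K * st p.m H)
      = pr K p.m * (Jm p.m K * ((p.TK K)ᵀ * c.B K * p.TK K)) * st p.m H := by
    simp only [Matrix.mul_assoc]
  rw [h1, p.hTK, Jm_sq, Matrix.mul_one, pr_st]

theorem P_injective (H : Matrix (Fin p.m) (Fin p.m) K) :
    Function.Injective (Matrix.toLin' (p.P H)) := by
  intro x y h
  have h1 : p.P H *ᵥ x = p.P H *ᵥ y := h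
  have h2 := congrArg (fun z => p.Q K *ᵥ z) h1
  simp only [Matrix.mulVec_mulVec] at h2
  rw [p.left_inv H, one_mulVec, one_mulVec] at h2
  exact h2

theorem finrank_LH (H : Matrix (Fin p.m) (Fin p.m) K) :
    2 * Module.finrank K (p.LH H) = Fintype.card c.δ := by
  rw [p.card, LH, LinearMap.finrank_range_of_inj (p.P_injective H),
    Module.finrank_fintype_fun_eq_card, Fintype.card_fin]

theorem P_iso {H : Matrix (Fin p.m) (Fin p.m) K} (hH : Hᵀ = -H) :
    (p.P H)ᵀ * c.B K * p.P H = 0 := by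
  rw [P, transpose_mul]
  have h1 : (st p.m H)ᵀ * (p.TK K)ᵀ * c.B K * (p.TK K * st p.m H)
      = (st p.m H)ᵀ * ((p.TK K)ᵀ * c.B K * p.TK K) * st p.m H := by
    simp only [Matrix.mul_assoc]
  rw [h1, p.hTK, st_iso p.m hH]

theorem LH_iso {H : Matrix (Fin p.m) (Fin p.m) K} (hH : Hᵀ = -H) :
    ∀ u ∈ p.LH H, ∀ v ∈ p.LH H, c.ub u v = 0 := by
  intro u hu v hv
  obtain ⟨x, rfl⟩ := p.mem_LH.1 hu
  obtain ⟨y, rfl⟩ := p.mem_LH.1 hv
  have h1 : (p.P H *ᵥ x) ⬝ᵥ (c.B K *ᵥ (p.P H *ᵥ y)) =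
      x ⬝ᵥ (((p.P H)ᵀ * c.B K * p.P H) *ᵥ y) := by
    rw [← mulVec_mulVec, ← mulVec_mulVec, dotProduct_comm, dotProduct_mulVec, ← mulVec_transpose,
      dotProduct_comm]
  rw [c.ub_eq, h1, p.P_iso hH, zero_mulVec, dotProduct_zero]

/-! ### The elements of `V ⊗ L_H` -/

theorem mem_VL_iff {H : Matrix (Fin p.m) (Fin p.m) K} {F : Matrix (Ix n) c.δ K} :
    F ∈ VL (p.LH H) ↔ ∃ R : Matrix (Ix n) (Fin p.m) K, F = R * (p.P H)ᵀ := by
  constructor
  · intro h
    have h1 : ∀ q, ∃ x : Fin p.m → K, p.P H *ᵥ x = fun d => F q d := fun q => p.mem_LH.1 (h q)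
    choose R hR using h1
    refine ⟨Matrix.of R, ?_⟩
    ext q d
    rw [← congrFun (hR q) d, Matrix.mul_apply, mulVec, dotProduct]
    exact Finset.sum_congr rfl fun i _ => mul_comm _ _
  · rintro ⟨R, rfl⟩ q
    refine p.mem_LH.2 ⟨R q, ?_⟩
    funext d
    rw [Matrix.mul_apply, mulVec, dotProduct]
    exact Finset.sum_congr rfl fun i _ => mul_comm _ _

/-- the positions where the elements of the standard Lagrangian vanish -/
def Zer (c : Cfg n a) : Ix n → c.δ → Prop
  | Sum.inl i, d => ¬ c.A i d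
  | Sum.inr i, d => c.A i (c.σ d)

instance (q : Ix n) (d : c.δ) : Decidable (Zer c q d) := by
  rcases q with i | i
  · exact inferInstanceAs (Decidable (¬ c.A i d))
  · exact inferInstanceAs (Decidable (c.A i (c.σ d)))

theorem mem_nstd_iff {F : Matrix (Ix n) c.δ K} :
    F ∈ c.nstd K ↔ ∀ q d, Zer c q d → F q d = 0 := by
  rw [c.mem_nstd]
  constructor
  · intro h q d hq
    rcases q with i | i
    · exact (h i d).1 hq
    · exact (h i d).2 hq
  · intro h i d
    exact ⟨fun hq => h (Sum.inl i) d hq, fun hq => h (Sum.inr i) d hq⟩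

theorem mem_N_iff {g : Fin 3 → Matrix (Ix n) (Ix n) K}
    (hg : ∀ s, (g s)ᵀ * Jm n K * g s = Jm n K) {F : Matrix (Ix n) c.δ K} :
    F ∈ c.N g ↔ ∀ q d, Zer c q d → ((Jm n K * (g (c.arm d))ᵀ * Jm n K) * F) q d = 0 := by
  rw [c.mem_N]
  constructor
  · rintro ⟨G, hG, rfl⟩ q d hz
    have h1 := mem_nstd_iff.1 hG q d hz
    rw [← h1, ← act_apply c.arm (fun s => Jm n K * (g s)ᵀ * Jm n K), act_act,
      act_one c.arm (fun s => Gen.orth_left_inv (hg s))]
  · intro h
    refine ⟨FO.act c.arm (fun s => Jm n K * (g s)ᵀ * Jm n K) F, ?_, ?_⟩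
    · rw [mem_nstd_iff]
      intro q d hz
      rw [act_apply]
      exact h q d hz
    · rw [act_act]
      exact act_one c.arm (fun s => Gen.orth_right_inv (hg s)) F

/-! ### The polynomial system -/

/-- the ring of polynomials in the entries -/
abbrev PR (n m : ℕ) : Type := MvPolynomial (Ent n (Fin m)) ℂ

/-- the generic matrices `g_s` -/
noncomputable def gX (m : ℕ) (s : Fin 3) : Matrix (Ix n) (Ix n) (PR n m) :=
  Matrix.of fun i j => MvPolynomial.X (Sum.inl (s, i, j))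

/-- the generic matrix `H` -/
noncomputable def HX (n m : ℕ) : Matrix (Fin m) (Fin m) (PR n m) :=
  Matrix.of fun i j => MvPolynomial.X (Sum.inr (i, j))

/-- the generic inverse -/
noncomputable def gi (m : ℕ) (s : Fin 3) : Matrix (Ix n) (Ix n) (PR n m) :=
  Jm n (PR n m) * (gX m s)ᵀ * Jm n (PR n m)

/-- the generic basis matrix -/
noncomputable def PX : Matrix c.δ (Fin p.m) (PR n p.m) :=
  (p.T.map (MvPolynomial.C : ℂ →+* PR n p.m)) * st p.m (HX n p.m)

/-- The system of equations for `R`. -/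
noncomputable def Lam : Matrix (Ix n × c.δ) (Ix n × Fin p.m) (PR n p.m) :=
  Matrix.of fun x y => if Zer c x.1 x.2 then gi p.m (c.arm x.2) x.1 y.1 * p.PX x.2 y.2 else 0

/-- the inverse of an orthogonal matrix -/
def go (g : Matrix (Ix n) (Ix n) K) : Matrix (Ix n) (Ix n) K := Jm n K * gᵀ * Jm n K

theorem Jm_map {R S : Type*} [CommRing R] [CommRing S] (f : R →+* S) :
    (Jm n R).map f = Jm n S := by
  simp only [LieAlgebra.Orthogonal.JD, fromBlocks_map]
  congr 1 <;> ext i j <;> by_cases h : i = j <;> simp [Matrix.one_apply, h]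

theorem gi_map (m : ℕ) (g : Fin 3 → Matrix (Ix n) (Ix n) K) (H : Matrix (Fin m) (Fin m) K)
    (s : Fin 3) (i j : Ix n) :
    MvPolynomial.aeval (ent g H) (gi m s i j) = go (g s) i j := by
  let φ : PR n m →+* K := (MvPolynomial.aeval (ent g H) : PR n m →ₐ[ℂ] K).toRingHom
  have h0 : (gi m s).map φ = go (g s) := by
    rw [gi, go, Matrix.map_mul, Matrix.map_mul, Jm_map]
    have h1 : (gX m s)ᵀ.map φ = (g s)ᵀ := by
      ext i j
      simp [φ, ent, gX]
    rw [h1]
  rw [← h0]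
  rfl

theorem PX_map (g : Fin 3 → Matrix (Ix n) (Ix n) K) (H : Matrix (Fin p.m) (Fin p.m) K)
    (d : c.δ) (i : Fin p.m) :
    MvPolynomial.aeval (ent g H) (p.PX d i) = p.P H d i := by
  let φ : PR n p.m →+* K := (MvPolynomial.aeval (ent g H) : PR n p.m →ₐ[ℂ] K).toRingHom
  have h0 : p.PX.map φ = p.P H := by
    rw [PX, P, TK, Matrix.map_mul]
    have h1 : (p.T.map (MvPolynomial.C : ℂ →+* PR n p.m)).map φ = p.T.map (algebraMap ℂ K) := by
      ext i j
      simp [φ]
    have h2 : (st p.m (HX n p.m)).map φ = st p.m H := by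
      ext i j
      rcases i with i | i
      · simp [φ, ent, HX, st]
      · by_cases h : i = j <;> simp [φ, h, st]
    rw [h1, h2]
  rw [← h0]
  rfl

theorem Lam_map (g : Fin 3 → Matrix (Ix n) (Ix n) K) (H : Matrix (Fin p.m) (Fin p.m) K)
    (x : Ix n × c.δ) (y : Ix n × Fin p.m) :
    p.Lam.map (MvPolynomial.aeval (ent g H)) x y =
      if Zer c x.1 x.2 then go (g (c.arm x.2)) x.1 y.1 * p.P H x.2 y.2 else 0 := by
  rw [map_apply, Lam, of_apply]
  split_ifs with hz
  · rw [map_mul, gi_map, p.PX_map]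
  · exact map_zero _

/-- the kernel of the system is `(V ⊗ L_H) ∩ N(g)` -/
theorem Lam_ker {g : Fin 3 → Matrix (Ix n) (Ix n) K} (hg : ∀ s, (g s)ᵀ * Jm n K * g s = Jm n K)
    (H : Matrix (Fin p.m) (Fin p.m) K) (R : Matrix (Ix n) (Fin p.m) K) :
    (p.Lam.map (MvPolynomial.aeval (ent g H))) *ᵥ (fun y => R y.1 y.2) = 0 ↔
      R * (p.P H)ᵀ ∈ c.N g := by
  rw [mem_N_iff hg]
  have key : ∀ q d, (go (g (c.arm d)) * (R * (p.P H)ᵀ)) q d =
      ∑ y : Ix n × Fin p.m, go (g (c.arm d)) q y.1 * p.P H d y.2 * R y.1 y.2 := by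
    intro q d
    rw [Matrix.mul_apply, Fintype.sum_prod_type]
    refine Finset.sum_congr rfl fun r _ => ?_
    rw [Matrix.mul_apply, Finset.mul_sum]
    refine Finset.sum_congr rfl fun i _ => ?_
    rw [transpose_apply]
    ring
  constructor
  · intro h q d hz
    have h1 := congrFun h (q, d)
    refine (key q d).trans ?_
    rw [mulVec, dotProduct] at h1
    simp only [Lam_map, if_pos hz] at h1
    exact h1
  · intro h
    funext z
    rw [mulVec, dotProduct]
    simp only [Lam_map]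
    by_cases hz : Zer c z.1 z.2
    · simp only [if_pos hz]
      rw [← key z.1 z.2]
      exact h _ _ hz
    · simp only [if_neg hz, zero_mul, Finset.sum_const_zero]
      rfl

/-- trivial kernel is equivalent to transversality -/
theorem Lam_trivial {g : Fin 3 → Matrix (Ix n) (Ix n) K}
    (hg : ∀ s, (g s)ᵀ * Jm n K * g s = Jm n K) (H : Matrix (Fin p.m) (Fin p.m) K) :
    (∀ x : Ix n × Fin p.m → K, (p.Lam.map (MvPolynomial.aeval (ent g H))) *ᵥ x = 0 → x = 0) ↔
      ∀ F ∈ VL (p.LH H), F ∈ c.N g → F = 0 := by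
  constructor
  · intro h F hF hN
    obtain ⟨R, rfl⟩ := p.mem_VL_iff.1 hF
    have h1 := h (fun y => R y.1 y.2) ((p.Lam_ker hg H R).2 hN)
    have h2 : R = 0 := by
      ext q i
      exact congrFun h1 (q, i)
    rw [h2, Matrix.zero_mul]
  · intro h x hx
    let R : Matrix (Ix n) (Fin p.m) K := Matrix.of fun q i => x (q, i)
    have h1 : R * (p.P H)ᵀ = 0 := h _ (p.mem_VL_iff.2 ⟨R, rfl⟩) ((p.Lam_ker hg H R).1 hx)
    have h2 : (R * (p.P H)ᵀ) * (p.Q K)ᵀ = 0 := by
      rw [h1, Matrix.zero_mul]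
    rw [Matrix.mul_assoc, ← transpose_mul, p.left_inv, transpose_one, Matrix.mul_one] at h2
    funext y
    exact congrFun (congrFun h2 y.1) y.2

end Pol

end Crest.Agent.R172.CF
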