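import Crest.Agent.R172.Dual2

/-!
Row 172, T0 with arbitrary radical: LEMMA 2 (products span everything), from `Dual2.span_beta`.
-/

set_option autoImplicit false
set_option linter.unusedSectionVars false
set_option maxHeartbeats 400000

namespace Crest.Agent.R172.Prod2

open TensorProduct Module Crest.Agent.R172.Dual2

variable {K : Type*} [Field K] {τ : Type*} [Fintype τ] [DecidableEq τ]
variable {P1 P2 E : Type*} [AddCommGroup P1] [Module K P1] [AddCommGroup P2] [Module K P2]
  [AddCommGroup E] [Module K E]

/-- the motion `β` of an exact family -/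
structure Cor (A : τ → End K P1) (B : τ → End K P2) (R1 : Submodule K P1)
    (g2 : P2 →ₗ[K] P2 →ₗ[K] K) (ε c : K) (x : τ → P2 ⊗[K] P1) (b : P2 →ₗ[K] P1) : Prop where
  mem : ∀ p, b p ∈ R1
  eq : ∀ t, A t ∘ₗ b - (ε * c) • (b ∘ₗ B t) =
    A t ∘ₗ (sharp g2 (x t)) - (ε * c) • ((sharp g2 (x t)) ∘ₗ B t)

variable {A : τ → End K P1} {B : τ → End K P2} {R1 : Submodule K P1} {R2 : Submodule K P2}
  {g2 : P2 →ₗ[K] P2 →ₗ[K] K} {ε : K}

theorem sharp_right (hg0' : ∀ r ∈ R2, ∀ y, g2 y r = 0) (x : P2 ⊗[K] P1) {r : P2} (hr : r ∈ R2) :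
    sharp g2 x r = 0 := by
  induction x using TensorProduct.induction_on with
  | zero => simp
  | tmul a b => rw [sharp_tmul, hg0' r hr, zero_smul]
  | add a b ha hb => rw [map_add, LinearMap.add_apply, ha, hb, add_zero]

theorem Cor.inter {c : K} {x : τ → P2 ⊗[K] P1} {b : P2 →ₗ[K] P1} (h : Cor A B R1 g2 ε c x b)
    (t : τ) (p : P2) : A t (b p - sharp g2 (x t) p) =
      (ε * c) • (b (B t p) - sharp g2 (x t) (B t p)) := by
  have h1 := LinearMap.congr_fun (h.eq t) p
  simp only [LinearMap.sub_apply, LinearMap.smul_apply, LinearMap.comp_apply] at h1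
  rw [map_sub, smul_sub]
  rw [sub_eq_sub_iff_add_eq_add] at h1 ⊢
  rw [h1]
  exact add_comm _ _

theorem Cor.inter_pow {c : K} {x : τ → P2 ⊗[K] P1} {b : P2 →ₗ[K] P1}
    (h : Cor A B R1 g2 ε c x b) (t : τ) (n : ℕ) : ∀ p : P2,
      (A t ^ n) (b p - sharp g2 (x t) p) =
      (ε * c) ^ n • (b ((B t ^ n) p) - sharp g2 (x t) ((B t ^ n) p)) := by
  induction n with
  | zero => intro p; simp
  | succ n ih =>
    intro p
    rw [pow_succ, Module.End.mul_apply, h.inter, map_smul, ih, smul_smul, pow_succ (B t),
      Module.End.mul_apply, pow_succ (ε * c), mul_comm]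

/-- Nakayama -/
theorem nak (S : Submodule K P1) (hS : ∀ t, ∀ r ∈ S, A t r ∈ S) {n : ℕ} (hn : R1 ≤ kf A n)
    (h : R1 ≤ S ⊔ ⨆ t, R1.map (A t)) : R1 ≤ S := by
  have key : ∀ m, m ≤ n → ∃ F : Submodule K P1, F ≤ kf A (n - m) ∧ R1 ≤ S ⊔ F := by
    intro m
    induction m with
    | zero => intro _; exact ⟨R1, by simpa using hn, le_sup_right⟩
    | succ m ih =>
      intro hm
      obtain ⟨F, hF1, hF2⟩ := ih (by omega)
      refine ⟨⨆ t, F.map (A t), ?_, ?_⟩
      · refine iSup_le fun t => ?_
        rw [Submodule.map_le_iff_le_comap]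
        intro x hx
        have h1 := hF1 hx
        rw [show n - m = (n - (m + 1)) + 1 by omega, mem_kf_succ] at h1
        exact h1 t
      · refine h.trans (sup_le le_sup_left (iSup_le fun t => ?_))
        rw [Submodule.map_le_iff_le_comap]
        intro x hx
        obtain ⟨y, hy, z, hz, rfl⟩ := Submodule.mem_sup.1 (hF2 hx)
        rw [Submodule.mem_comap, map_add]
        exact Submodule.add_mem _ (Submodule.mem_sup_left (hS t y hy))
          (Submodule.mem_sup_right (Submodule.mem_iSup_of_mem t ⟨z, hz, rfl⟩))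
  obtain ⟨F, hF1, hF2⟩ := key n le_rfl
  rw [Nat.sub_self] at hF1
  have : F = ⊥ := le_bot_iff.1 hF1
  rwa [this, sup_bot_eq] at hF2

/-- `lift (q ∘ ♯x') x` in terms of the flipped form -/
theorem lift_sharp (q : P1 →ₗ[K] P1 →ₗ[K] E) (a : P2) (b : P1) (x : P2 ⊗[K] P1) :
    TensorProduct.lift (q ∘ₗ (sharp g2 (a ⊗ₜ[K] b))) x = q b (sharp g2.flip x a) := by
  induction x using TensorProduct.induction_on with
  | zero => simp
  | tmul u v => simp
  | add u v hu hv => rw [map_add, hu, hv, map_add, LinearMap.add_apply, map_add]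

/-- **Lemma 2.** -/
theorem main (hA : ⨆ t, LinearMap.range (A t) = ⊤) (hB : ⨆ t, LinearMap.range (B t) = ⊤)
    (hs1 : ∀ t, ∀ r ∈ R1, A t r ∈ R1) (hs2 : ∀ t, ∀ r ∈ R2, B t r ∈ R2)
    {n : ℕ} (hn1 : R1 ≤ kf A n) (hn2 : R2 ≤ kf B n) (l : τ → ℕ)
    (hl1 : ∀ s p, (A s ^ l s) p ∈ R1) (hl2 : ∀ s p, (B s ^ l s) p ∈ R2)
    (gen1 : ∀ G : Submodule K P1, (∀ t, ∀ r ∈ G, A t r ∈ G) → (∀ s p, (A s ^ l s) p ∈ G) →
      R1 ≤ G)
    (gen2 : ∀ G : Submodule K P2, (∀ t, ∀ r ∈ G, B t r ∈ G) → (∀ s p, (B s ^ l s) p ∈ G) →
      R2 ≤ G)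
    (hε : ε ≠ 0) (hg : ∀ t x y, g2 (B t x) y = ε * g2 x (B t y))
    (hg0 : ∀ r ∈ R2, ∀ y, g2 r y = 0) (hg0' : ∀ r ∈ R2, ∀ y, g2 y r = 0)
    (hnz : ∀ s, ∃ p p', g2 ((B s ^ (l s - 1)) p) p' ≠ 0)
    (Λ : Set K) (hΛ : Λ.Infinite) (h0 : (0 : K) ∉ Λ)
    (q : τ → P1 →ₗ[K] P1 →ₗ[K] E) (Q : Submodule K E)
    (hex : ∀ c ∈ Λ, ∀ x, Exact A B R1 R2 c x → ∃ b, Cor A B R1 g2 ε c x b)
    (hrel : ∀ c ∈ Λ, ∀ c' ∈ Λ, ∀ x b x' b', Exact A B R1 R2 c x → Cor A B R1 g2 ε c x b →
      Exact A B R1 R2 c' x' → Cor A B R1 g2 ε c' x' b' →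
      ∑ t, (TensorProduct.lift ((q t) ∘ₗ (b' - sharp g2 (x' t))) (x t) +
        TensorProduct.lift ((q t).flip ∘ₗ b) (x' t)) ∈ Q) :
    (∀ t, ∀ r ∈ R1, ∀ p, q t r p ∈ Q ∧ q t p r ∈ Q) ∧
      ∀ s i j, i + j + 1 = l s → ∀ p p', q s ((A s ^ i) p) ((A s ^ j) p') ∈ Q := by
  have hl0 : ∀ s, 1 ≤ l s := by
    intro s
    by_contra hl
    have hl' : l s = 0 := by omega
    obtain ⟨p, p', hp⟩ := hnz s
    apply hp
    have := hl2 s p
    rw [hl', pow_zero, Module.End.one_apply] at this
    rw [hl']
    simpa using hg0 p this p'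
  -- USE 3
  have use3 : ∀ c' ∈ Λ, ∀ x' b', Exact A B R1 R2 c' x' → Cor A B R1 g2 ε c' x' b' →
      ∀ t, ∀ r ∈ R2, ∀ p1, q t (b' r) p1 ∈ Q := by
    intro c' hc' x' b' hx' hb' t r hr p1
    let Nl : (P2 →ₗ[K] P1) →ₗ[K] E :=
      { toFun := fun b => ∑ u, TensorProduct.lift ((q u).flip ∘ₗ b) (x' u)
        map_add' := by
          intro b b''
          rw [← Finset.sum_add_distrib]
          refine Finset.sum_congr rfl fun u _ => ?_
          rw [LinearMap.comp_add, ← LinearMap.add_apply]
          congr 1
          apply TensorProduct.ext'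
          intro a b; simp
        map_smul' := by
          intro c b
          rw [RingHom.id_apply, Finset.smul_sum]
          refine Finset.sum_congr rfl fun u _ => ?_
          rw [← LinearMap.smul_apply]
          congr 1
          apply TensorProduct.ext'
          intro a b; simp }
    have h1 := (span_beta A B hA hB R1 R2 hs1 hs2 hn1 hn2 l hl1 hl2 gen2 g2 hε hg hg0 Λ hΛ h0
      (fun u => (q u) ∘ₗ (b' - sharp g2 (x' u)))
      (Q.comap ((LinearMap.fst K E (P2 →ₗ[K] P1)) + Nl ∘ₗ (LinearMap.snd K E (P2 →ₗ[K] P1))))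
      (by
        intro c hc x hx
        obtain ⟨b, hb⟩ := hex c hc x hx
        refine ⟨b, hb.mem, hb.eq, ?_⟩
        rw [Submodule.mem_comap]
        have h2 := hrel c hc c' hc' x b x' b' hx hb hx' hb'
        rw [Finset.sum_add_distrib] at h2
        exact h2)).2 t r hr p1
    rw [Submodule.mem_comap] at h1
    simp only [LinearMap.add_apply, LinearMap.fst_apply, LinearMap.comp_apply,
      LinearMap.snd_apply, map_zero, add_zero, LinearMap.sub_apply] at h1
    rw [sharp_right hg0' _ hr, sub_zero] at h1
    exact h1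
  -- USE 1
  have use1 : ∀ c ∈ Λ, ∀ x b, Exact A B R1 R2 c x → Cor A B R1 g2 ε c x b →
      (∀ s i j, i + j + 1 = l s → ∀ p2 p1, q s ((A s ^ i) p1)
        (b ((B s ^ j) p2) - sharp g2.flip (x s) ((B s ^ j) p2)) ∈ Q) ∧
      ∀ t, ∀ r ∈ R2, ∀ p1, q t p1 (b r) ∈ Q := by
    intro c hc x b hx hb
    let Nl : (P2 →ₗ[K] P1) →ₗ[K] E :=
      { toFun := fun b' => ∑ u, TensorProduct.lift ((q u) ∘ₗ b') (x u)
        map_add' := by
          intro b b''
          rw [← Finset.sum_add_distrib]
          refine Finset.sum_congr rfl fun u _ => ?_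
          rw [LinearMap.comp_add, ← LinearMap.add_apply]
          congr 1
          apply TensorProduct.ext'
          intro a b; simp
        map_smul' := by
          intro c b
          rw [RingHom.id_apply, Finset.smul_sum]
          refine Finset.sum_congr rfl fun u _ => ?_
          rw [← LinearMap.smul_apply]
          congr 1
          apply TensorProduct.ext'
          intro a b; simp }
    have h1 := span_beta A B hA hB R1 R2 hs1 hs2 hn1 hn2 l hl1 hl2 gen2 g2 hε hg hg0 Λ hΛ h0
      (fun u => (q u).flip ∘ₗ (b - sharp g2.flip (x u)))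
      (Q.comap ((LinearMap.fst K E (P2 →ₗ[K] P1)) + Nl ∘ₗ (LinearMap.snd K E (P2 →ₗ[K] P1))))
      (by
        intro c' hc' x' hx'
        obtain ⟨b', hb'⟩ := hex c' hc' x' hx'
        refine ⟨b', hb'.mem, hb'.eq, ?_⟩
        rw [Submodule.mem_comap]
        have h2 := hrel c hc c' hc' x b x' b' hx hb hx' hb'
        have e1 : ∀ u, TensorProduct.lift ((q u) ∘ₗ (b' - sharp g2 (x' u))) (x u) +
            TensorProduct.lift ((q u).flip ∘ₗ b) (x' u) =
            TensorProduct.lift ((q u).flip ∘ₗ (b - sharp g2.flip (x u))) (x' u) +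
              TensorProduct.lift ((q u) ∘ₗ b') (x u) := by
          intro u
          have e2 : TensorProduct.lift ((q u) ∘ₗ (sharp g2 (x' u))) (x u)
              = TensorProduct.lift ((q u).flip ∘ₗ (sharp g2.flip (x u))) (x' u) := by
            generalize x' u = y
            induction y using TensorProduct.induction_on with
            | zero =>
              rw [map_zero, map_zero, LinearMap.comp_zero]
              have : TensorProduct.lift (0 : P2 →ₗ[K] P1 →ₗ[K] E) = 0 := by
                apply TensorProduct.ext'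
                intro a b; simp
              rw [this, LinearMap.zero_apply]
            | tmul a b =>
              rw [lift_sharp, TensorProduct.lift.tmul]
              rfl
            | add a b ha hb =>
              rw [map_add, map_add, ← ha, ← hb, ← LinearMap.add_apply]
              congr 1
              apply TensorProduct.ext'
              intro a b; simp
          have e3 : TensorProduct.lift ((q u) ∘ₗ (b' - sharp g2 (x' u))) (x u) =
              TensorProduct.lift ((q u) ∘ₗ b') (x u) -
                TensorProduct.lift ((q u) ∘ₗ (sharp g2 (x' u))) (x u) := by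
            rw [← LinearMap.sub_apply]
            congr 1
            apply TensorProduct.ext'
            intro a b; simp
          have e4 : TensorProduct.lift ((q u).flip ∘ₗ (b - sharp g2.flip (x u))) (x' u) =
              TensorProduct.lift ((q u).flip ∘ₗ b) (x' u) -
                TensorProduct.lift ((q u).flip ∘ₗ (sharp g2.flip (x u))) (x' u) := by
            rw [← LinearMap.sub_apply]
            congr 1
            apply TensorProduct.ext'
            intro a b; simp
          rw [e3, e4, e2]
          abel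
        rw [Finset.sum_congr rfl fun u _ => e1 u, Finset.sum_add_distrib] at h2
        exact h2)
    refine ⟨?_, ?_⟩
    · intro s i j hij p2 p1
      have h3 := h1.1 s i j hij p2 p1
      rw [Submodule.mem_comap] at h3
      simpa only [LinearMap.add_apply, LinearMap.fst_apply, LinearMap.comp_apply,
        LinearMap.snd_apply, map_zero, add_zero, LinearMap.sub_apply,
        LinearMap.flip_apply] using h3
    · intro t r hr p1
      have h3 := h1.2 t r hr p1
      rw [Submodule.mem_comap] at h3
      simp only [LinearMap.add_apply, LinearMap.fst_apply, LinearMap.comp_apply,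
        LinearMap.snd_apply, map_zero, add_zero, LinearMap.sub_apply,
        LinearMap.flip_apply] at h3
      rw [sharp_right (g2 := g2.flip) (R2 := R2) (fun r hr y => hg0 r hr y) _ hr, sub_zero] at h3
      exact h3
  -- Nakayama
  let S : Submodule K P1 := Submodule.span K {v | ∃ c ∈ Λ, ∃ x b, Exact A B R1 R2 c x ∧
    Cor A B R1 g2 ε c x b ∧ ∃ r ∈ R2, v = b r}
  have hSs : ∀ t, ∀ v ∈ S, A t v ∈ S := by
    intro t v hv
    induction hv using Submodule.span_induction with
    | mem v hv =>
      obtain ⟨c, hc, x, b, hx, hb, r, hr, rfl⟩ := hv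
      have h1 := hb.inter t r
      rw [sharp_right hg0' _ hr, sharp_right hg0' _ (hs2 t r hr), sub_zero, sub_zero] at h1
      rw [h1]
      exact S.smul_mem _ (Submodule.subset_span ⟨c, hc, x, b, hx, hb, B t r, hs2 t r hr, rfl⟩)
    | zero => rw [map_zero]; exact S.zero_mem
    | add a b _ _ ha hb => rw [map_add]; exact S.add_mem ha hb
    | smul a x _ hx => rw [map_smul]; exact S.smul_mem a hx
  have hR1S : R1 ≤ S := by
    refine nak S hSs hn1 (gen1 _ ?_ ?_)
    · intro t v hv
      obtain ⟨y, hy, z, hz, rfl⟩ := Submodule.mem_sup.1 hv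
      rw [map_add]
      refine Submodule.add_mem _ (Submodule.mem_sup_left (hSs t y hy))
        (Submodule.mem_sup_right (Submodule.mem_iSup_of_mem t ⟨z, ?_, rfl⟩))
      have h2 : (⨆ t, R1.map (A t)) ≤ R1 := by
        refine iSup_le fun t => ?_
        rw [Submodule.map_le_iff_le_comap]
        exact fun x hx => hs1 t x hx
      exact h2 hz
    · intro s p1
      obtain ⟨p, p', hp⟩ := hnz s
      let G : Submodule K P1 := S ⊔ ⨆ t, R1.map (A t)
      have h1 := (span_beta A B hA hB R1 R2 hs1 hs2 hn1 hn2 l hl1 hl2 gen2 g2 hε hg hg0 Λ hΛ h0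
        (E := P1)
        (fun u => if u = s then LinearMap.mk₂ K (fun a b => g2 a p' • (A s ^ l s) b)
          (by intro a b c; simp [add_smul]) (by intro c a b; simp [mul_smul])
          (by intro a b c; simp) (by intro c a b; simp [smul_comm c]) else 0)
        (G.comap (LinearMap.fst K P1 (P2 →ₗ[K] P1)))
        (by
          intro c hc x hx
          obtain ⟨b, hb⟩ := hex c hc x hx
          refine ⟨b, hb.mem, hb.eq, ?_⟩
          rw [Submodule.mem_comap, LinearMap.fst_apply, Finset.sum_eq_single s]
          · rw [if_pos rfl]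
            have e1 : ∀ y : P2 ⊗[K] P1, TensorProduct.lift
                (LinearMap.mk₂ K (fun a b => g2 a p' • (A s ^ l s) b)
                  (by intro a b c; simp [add_smul]) (by intro c a b; simp [mul_smul])
                  (by intro a b c; simp) (by intro c a b; simp [smul_comm c])) y
                = (A s ^ l s) (sharp g2 y p') := by
              intro y
              induction y using TensorProduct.induction_on with
              | zero => simp
              | tmul a b => simp
              | add a b ha hb => rw [map_add, ha, hb, map_add, LinearMap.add_apply, map_add]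
            rw [e1]
            have h3 := hb.inter_pow s (l s) p'
            rw [map_sub, sharp_right hg0' _ (hl2 s p'), sub_zero] at h3
            have h4 : (A s ^ l s) (sharp g2 (x s) p') =
                (A s ^ l s) (b p') - (ε * c) ^ l s • b ((B s ^ l s) p') := by
              rw [← h3]; abel
            rw [h4]
            refine G.sub_mem (Submodule.mem_sup_right (Submodule.mem_iSup_of_mem s ?_))
              (G.smul_mem _ (Submodule.mem_sup_left
                (Submodule.subset_span ⟨c, hc, x, b, hx, hb, _, hl2 s p', rfl⟩)))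
            obtain ⟨m, hm⟩ : ∃ m, l s = m + 1 := ⟨l s - 1, by have := hl0 s; omega⟩
            rw [hm, pow_succ', Module.End.mul_apply]
            refine ⟨(A s ^ m) (b p'), ?_, rfl⟩
            have h5 : ∀ k : ℕ, (A s ^ k) (b p') ∈ R1 := by
              intro k
              induction k with
              | zero => exact hb.mem p'
              | succ k ih =>
                rw [pow_succ', Module.End.mul_apply]
                exact hs1 s _ ih
            exact h5 m
          · intro u _ hu
            rw [if_neg hu]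
            have : TensorProduct.lift (0 : P2 →ₗ[K] P1 →ₗ[K] P1) = 0 := by
              apply TensorProduct.ext'
              intro a b; simp
            rw [this, LinearMap.zero_apply]
          · intro hu; exact absurd (Finset.mem_univ s) hu)).1 s 0 (l s - 1)
            (by have := hl0 s; omega) p p1
      rw [Submodule.mem_comap, LinearMap.fst_apply, if_pos rfl] at h1
      simp only [LinearMap.mk₂_apply, pow_zero, Module.End.one_apply] at h1
      have h2 := G.smul_mem (g2 ((B s ^ (l s - 1)) p) p')⁻¹ h1
      rwa [smul_smul, inv_mul_cancel₀ hp, one_smul] at h2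
  refine ⟨?_, ?_⟩
  · intro t r hr p
    have hrS := hR1S hr
    constructor
    · clear hr
      induction hrS using Submodule.span_induction with
      | mem v hv =>
        obtain ⟨c, hc, x, b, hx, hb, r, hr, rfl⟩ := hv
        exact use3 c hc x b hx hb t r hr p
      | zero => rw [map_zero, LinearMap.zero_apply]; exact Q.zero_mem
      | add a b _ _ ha hb => rw [map_add, LinearMap.add_apply]; exact Q.add_mem ha hb
      | smul a x _ hx => rw [map_smul, LinearMap.smul_apply]; exact Q.smul_mem a hx
    · clear hr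
      induction hrS using Submodule.span_induction with
      | mem v hv =>
        obtain ⟨c, hc, x, b, hx, hb, r, hr, rfl⟩ := hv
        exact (use1 c hc x b hx hb).2 t r hr p
      | zero => rw [map_zero]; exact Q.zero_mem
      | add a b _ _ ha hb => rw [map_add]; exact Q.add_mem ha hb
      | smul a x _ hx => rw [map_smul]; exact Q.smul_mem a hx
  · intro s i j hij p p'
    obtain ⟨a, a', ha⟩ := hnz s
    -- fixed `x' = (B^j a ⊗ A^i p)@s`
    let Nl : (P2 →ₗ[K] P1) →ₗ[K] E :=
      (q s ((A s ^ i) p)) ∘ₗ (LinearMap.applyₗ ((B s ^ j) a))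
    have h1 := (span_beta A B hA hB R1 R2 hs1 hs2 hn1 hn2 l hl1 hl2 gen2 g2 hε hg hg0 Λ hΛ h0
      (fun u => if u = s then
        - ((g2 ((B s ^ j) a)).smulRight (q s ((A s ^ i) p))) else 0)
      (Q.comap ((LinearMap.fst K E (P2 →ₗ[K] P1)) + Nl ∘ₗ (LinearMap.snd K E (P2 →ₗ[K] P1))))
      (by
        intro c hc x hx
        obtain ⟨b, hb⟩ := hex c hc x hx
        refine ⟨b, hb.mem, hb.eq, ?_⟩
        rw [Submodule.mem_comap]
        have h2 := (use1 c hc x b hx hb).1 s i j hij a p
        have e0 : (LinearMap.fst K E (P2 →ₗ[K] P1) + Nl ∘ₗ LinearMap.snd K E (P2 →ₗ[K] P1))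
            (∑ t, TensorProduct.lift ((fun u => if u = s then
              - ((g2 ((B s ^ j) a)).smulRight (q s ((A s ^ i) p))) else 0) t) (x t), b)
            = ∑ t, TensorProduct.lift ((fun u => if u = s then
              - ((g2 ((B s ^ j) a)).smulRight (q s ((A s ^ i) p))) else 0) t) (x t) +
              q s ((A s ^ i) p) (b ((B s ^ j) a)) := rfl
        rw [e0, Finset.sum_eq_single s]
        · simp only [if_true]
          have e1 : ∀ y : P2 ⊗[K] P1, TensorProduct.lift
              (- ((g2 ((B s ^ j) a)).smulRight (q s ((A s ^ i) p)))) y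
              = - q s ((A s ^ i) p) (sharp g2.flip y ((B s ^ j) a)) := by
            intro y
            induction y using TensorProduct.induction_on with
            | zero => simp
            | tmul a b => simp
            | add a b ha hb =>
              rw [map_add, ha, hb, map_add, LinearMap.add_apply, map_add, neg_add]
          rw [e1]
          rw [map_sub] at h2
          have e3 : - q s ((A s ^ i) p) (sharp g2.flip (x s) ((B s ^ j) a)) +
              q s ((A s ^ i) p) (b ((B s ^ j) a)) =
              q s ((A s ^ i) p) (b ((B s ^ j) a)) -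
                q s ((A s ^ i) p) (sharp g2.flip (x s) ((B s ^ j) a)) := by abel
          rw [e3]
          exact h2
        · intro u _ hu
          simp only [if_neg hu]
          have : TensorProduct.lift (0 : P2 →ₗ[K] P1 →ₗ[K] E) = 0 := by
            apply TensorProduct.ext'
            intro a b; simp
          rw [this, LinearMap.zero_apply]
        · intro hu; exact absurd (Finset.mem_univ s) hu)).1 s j i (by omega) a' p'
    rw [Submodule.mem_comap] at h1
    simp only [LinearMap.add_apply, LinearMap.fst_apply, LinearMap.comp_apply,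
      LinearMap.snd_apply, map_zero, add_zero, if_true, LinearMap.neg_apply,
      LinearMap.smulRight_apply, LinearMap.smul_apply] at h1
    have hpow : ∀ (m : ℕ) (x y : P2), g2 ((B s ^ m) x) y = ε ^ m * g2 x ((B s ^ m) y) := by
      intro m
      induction m with
      | zero => intro x y; simp
      | succ m ih =>
        intro x y
        have e1 : (B s ^ (m+1)) x = (B s ^ m) ((B s) x) := by
          rw [pow_succ, Module.End.mul_apply]
        have e2 : (B s ^ (m+1)) y = (B s) ((B s ^ m) y) := by
          rw [pow_succ', Module.End.mul_apply]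
        rw [e1, e2, ih, hg, pow_succ]
        ring
    have hne : g2 ((B s ^ j) a) ((B s ^ i) a') ≠ 0 := by
      intro h0'
      apply ha
      have e1 : (B s ^ (l s - 1)) a = (B s ^ i) ((B s ^ j) a) := by
        rw [← Module.End.mul_apply, ← pow_add, show l s - 1 = i + j by omega]
      rw [e1, hpow, h0', mul_zero]
    have h2 := Q.smul_mem (-(g2 ((B s ^ j) a) ((B s ^ i) a'))⁻¹) h1
    rwa [smul_neg, neg_smul, neg_neg, smul_smul, inv_mul_cancel₀ hne, one_smul] at h2

end Crest.Agent.R172.Prod2
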