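import Crest.Agent.R172.SpS7

/-!
Row 172, G1 Step 2 (`T_f` is scalar), part 8: the conclusion at `(g, p)`:
`gᵀ J X₀ f = c gᵀ J X₀ g` or the symplectic core of `(S, M_s(g) η)` is tame.
-/

set_option autoImplicit false
set_option linter.unusedSectionVars false

namespace Crest.Agent.R172.SpS

open Matrix Module Crest.Agent.R172.FO Crest.Agent.R172.Qt Crest.Agent.R172.Core
open Crest.Agent.R172.Om (Kiso)
open Crest.Agent.R172.St (Nk T mem_T mem_Nk_zero mem_Nk_succ Nk_le_T T_stable T_closed T_eq_Nk)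
open Crest.Agent.R172.PL (Wk Ainf Rad CoreM coreOp resOp)

variable {ι : Type*} [Fintype ι] [DecidableEq ι] {δ : Type*} [Fintype δ] [DecidableEq δ]
variable {k K : Type*} [Field k] [Field K] [Algebra k K]
variable {arm : δ → Fin 3} {J : Matrix ι ι K} {B : Matrix δ δ K}
  {N W : Submodule K (Matrix ι δ K)} {g : Matrix ι δ K}

/-- `NIL^sp` for the forms `φ = gᵀ J X₀ g`, `p ∈ NN g`. -/
def NilW (arm : δ → Fin 3) (J : Matrix ι ι K) (B : Matrix δ δ K) (N : Submodule K (Matrix ι δ K))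
    (g : Matrix ι δ K) : Prop :=
  ∀ p ∈ NN arm J N g, ∀ m : ℕ, (∀ l : List (Fin 3), l.length = m →
    (l.map fun s => (gᵀ * J * (p.1 * g)) * (E K arm s * B)).prod = 0) → gᵀ * J * (p.1 * g) = 0

/-- each `M_s(g) J X₀` is nilpotent on `S = im g`. -/
def ArmNil (arm : δ → Fin 3) (J : Matrix ι ι K) (B : Matrix δ δ K)
    (g : Matrix ι δ K) (P : Matrix ι ι K) : Prop :=
  ∃ m : ℕ, ∀ s, (M arm B s g g * (J * P)) ^ m * g = 0

/-- the tensor `M_s(f,g)` -/
def Ng (arm : δ → Fin 3) (B : Matrix δ δ K) (g : Matrix ι δ K) (R : Matrix δ ι K)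
    (f : Matrix ι δ K) (s : Fin 3) : Dual K (Sg g) →ₗ[K] Sg g :=
  Tn g (R * (f * E K arm s * B))

theorem Ng_coe (h : Ctx k arm J B N W g) {R : Matrix δ ι K} (hR : g * R * g = g)
    {f : Matrix ι δ K} (hf : f ∈ N ⊓ W) (A : Matrix ι ι K) (s : Fin 3) (v : Sg g) :
    ((Be (Ng arm B g R f) (bil g R (gᵀ * A * g)) s v : Sg g) : ι → K) =
      (M arm B s f g * A) *ᵥ (v : ι → K) := by
  rw [Be_apply, Ng, Tn_apply, bil_res hR, uu_res, gS_coe, mulVec_mulVec, mulVec_mulVec,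
    mulVec_mulVec]
  congr 1
  have hsymf : f * E K arm s * B * gᵀ = g * E K arm s * B * fᵀ :=
    h.data.symm_arm hf h.mem s
  unfold M
  have : g * (R * (f * E K arm s * B)) * gᵀ = f * E K arm s * B * gᵀ := by
    calc g * (R * (f * E K arm s * B)) * gᵀ = g * R * (f * E K arm s * B * gᵀ) := by
          simp only [Matrix.mul_assoc]
      _ = (g * R * g) * E K arm s * B * fᵀ := by rw [hsymf]; simp only [Matrix.mul_assoc]
      _ = f * E K arm s * B * gᵀ := by rw [hR, hsymf]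
  rw [← this]

/-- The tame alternative for the symplectic core of `(V, M_s η)` with the operator `D` given by
`D (Φ_s v) = N_s η v`. -/
def TameD {V : Type*} [AddCommGroup V] [Module K V] [FiniteDimensional K V] {κ : Type*} [Fintype κ]
    (M N : κ → (Dual K V →ₗ[K] V)) (η : LinearMap.BilinForm K V) : Prop :=
  ∃ D : End K (CoreM (Be M η)),
    (∀ (s : κ) (v w : Ainf (Be M η)), (w : V) = Be N η s (v : V) →
      D (coreOp (Be M η) s ((Rad (Be M η)).mkQ v)) = (Rad (Be M η)).mkQ w) ∧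
    (∀ s x, D (coreOp (Be M η) s x) = coreOp (Be M η) s (D x)) ∧
    (∀ x y, BC M η (D x) y = BC M η x (D y)) ∧ Tame (coreOp (Be M η)) D

theorem Step.scalar' {V : Type*} [AddCommGroup V] [Module K V] [FiniteDimensional K V] {κ : Type*}
    [Fintype κ] {E : Type*} [AddCommGroup E] [Module K E] {M N : κ → (Dual K V →ₗ[K] V)}
    {b : E →ₗ[K] LinearMap.BilinForm K V} {Tf : End K E}
    [IsAlgClosed K] (h : Step M N b Tf) (h2 : (2 : K) ≠ 0)
    (hNIL : ∀ η : E, ∀ k, (∀ v, v ∈ Nk (Be M (b η)) k) → η = 0)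
    (hsum : ∀ ζ, ∑ s, M s ζ = 0) (η : E) (hnil : ∃ k, ∀ s, Be M (b η) s ^ k = 0)
    (hDer : DerSp M (b η)) : (∃ c : K, Tf η = c • η) ∨ TameD M N (b η) := by
  rcases h.scalar h2 hNIL hsum η hnil hDer with hc | ⟨D, hD1, hD2, hD3, hD4⟩
  · exact Or.inl hc
  · right
    refine ⟨D, fun s v w hw => ?_, hD2, hD3, hD4⟩
    rw [hD1]
    have h3 : coreN h η s ((Rad (Be M (b η))).mkQ v) = (Rad (Be M (b η))).mkQ (resN h η s v) := rfl
    rw [h3]
    congr 1
    exact Subtype.ext hw.symm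

theorem word_phi {R : Matrix δ ι K} (hR : g * R * g = g) (A : Matrix ι ι K) (l : List (Fin 3))
    (z : δ → K) :
    ((l.map fun s => (gᵀ * A * g) * (E K arm s * B)).prod * (gᵀ * A * g)) *ᵥ z =
      (gᵀ * A) *ᵥ ((wd (Be (Mg arm B g) (bil g R (gᵀ * A * g))) l (gS g z) : Sg g) : ι → K) := by
  induction l with
  | nil =>
    rw [List.map_nil, List.prod_nil, Matrix.one_mul, wd_nil, gS_coe, mulVec_mulVec]
  | cons s l ih =>
    rw [List.map_cons, List.prod_cons, wd_cons, Be_coe hR, Matrix.mul_assoc (gᵀ * A * g * _),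
      ← mulVec_mulVec, ih, mulVec_mulVec, mulVec_mulVec]
    congr 1
    unfold M
    simp only [Matrix.mul_assoc]

theorem nil_of_NilW (hNil : NilW arm J B N g) {R : Matrix δ ι K} (hR : g * R * g = g)
    (φ : Xi J N arm g) (m : ℕ)
    (h : ∀ v, v ∈ Nk (Be (Mg arm B g) ((bil g R ∘ₗ (Xi J N arm g).subtype) φ)) m) : φ = 0 := by
  obtain ⟨p, hp⟩ := Xi_eq φ
  have h' : ∀ v, v ∈ Nk (Be (Mg arm B g) (bil g R (gᵀ * (J * p.1.1) * g))) m := by
    rw [← hp]; exact h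
  have e1 : gᵀ * J * (p.1.1 * g) = gᵀ * (J * p.1.1) * g := by simp only [Matrix.mul_assoc]
  have h0 : gᵀ * J * (p.1.1 * g) = 0 := by
    apply hNil p.1 p.2 (m + 1)
    intro l hl
    obtain ⟨l', s, rfl⟩ : ∃ l' s, l = l' ++ [s] := by
      rcases List.eq_nil_or_concat l with rfl | ⟨l', s, rfl⟩
      · simp at hl
      · exact ⟨l', s, by simp⟩
    have hl' : l'.length = m := by simpa using hl
    rw [List.map_append, List.prod_append, List.map_cons, List.map_nil, List.prod_cons,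
      List.prod_nil, mul_one, e1]
    have e2 : (l'.map fun s => (gᵀ * (J * p.1.1) * g) * (E K arm s * B)).prod *
        (gᵀ * (J * p.1.1) * g) = 0 := by
      apply Matrix.ext_of_mulVec_single
      intro i
      rw [word_phi hR, zero_mulVec]
      have e3 := (mem_Nk_iff.1 (h' (gS g (Pi.single i 1)))) l' hl'
      rw [e3, Submodule.coe_zero, mulVec_zero]
    rw [← Matrix.mul_assoc, e2, Matrix.zero_mul]
  apply Subtype.ext
  rw [hp, ← e1, h0]
  rfl

theorem sum_Mg (h : Ctx k arm J B N W g) {R : Matrix δ ι K} (hR : g * R * g = g)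
    (ζ : Dual K (Sg g)) : ∑ s, Mg arm B g s ζ = 0 := by
  have h1 : g * B * gᵀ = 0 := h.data.W_iso g h.memW g h.memW
  apply Subtype.ext
  rw [Submodule.coe_sum]
  have h2 : ∀ s, ((Mg arm B g s ζ : Sg g) : ι → K) =
      (g * (E K arm s * B) * gᵀ * Rᵀ) *ᵥ uu g ζ := by
    intro s
    have h4 : (gᵀ * Rᵀ) *ᵥ uu g ζ = uu g ζ := by rw [← transpose_mul, ← uu_R hR]
    rw [Mg, Tn_apply, gS_coe]
    conv_lhs => rw [← h4]
    rw [mulVec_mulVec, mulVec_mulVec]
    congr 1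
    simp only [Matrix.mul_assoc]
  rw [Finset.sum_congr rfl fun s _ => h2 s, ← sum_mulVec]
  have h3 : ∑ s, g * (E K arm s * B) * gᵀ * Rᵀ = 0 := by
    rw [← Matrix.sum_mul, ← Matrix.sum_mul, ← Matrix.mul_sum, ← Matrix.sum_mul, sum_E,
      Matrix.one_mul, h1, Matrix.zero_mul]
  rw [h3, zero_mulVec]
  rfl

theorem pow_coe {R : Matrix δ ι K} (hR : g * R * g = g) (A : Matrix ι ι K) (s : Fin 3) (m : ℕ)
    (v : Sg g) :
    (((Be (Mg arm B g) (bil g R (gᵀ * A * g)) s ^ m) v : Sg g) : ι → K) =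
      ((M arm B s g g * A) ^ m) *ᵥ (v : ι → K) := by
  induction m with
  | zero => rw [pow_zero, pow_zero, one_mulVec]; rfl
  | succ m ih =>
    rw [pow_succ', Module.End.mul_apply, Be_coe hR, ih, mulVec_mulVec, ← pow_succ']

/-- **G1, Step 2 at `(g, p)`.** -/
theorem scalar_at [IsAlgClosed K] (h : Ctx k arm J B N W g) (h2 : (2 : K) ≠ 0)
    {R : Matrix δ ι K} (hR : g * R * g = g) (hNil : NilW arm J B N g)
    {p : Matrix ι ι K × (Fin 3 → Matrix ι ι K)} (hp : p ∈ NN arm J N g)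
    (hA : ArmNil arm J B g p.1) (hV : Vert k arm J N W g p)
    {f : Matrix ι δ K} (hf : f ∈ N ⊓ W) :
    (∃ c : K, gᵀ * J * (p.1 * f) = c • (gᵀ * J * (p.1 * g))) ∨
      TameD (Mg arm B g) (Ng arm B g R f) (bil g R (gᵀ * (J * p.1) * g)) := by
  obtain ⟨Tf, hS, hTf⟩ := exists_step h hR hf
  let φ : Xi J N arm g := ⟨gᵀ * J * (p.1 * g), ⟨⟨p, hp⟩, rfl⟩⟩
  have hφ : (φ : Matrix δ δ K) = gᵀ * (J * p.1) * g := by
    change gᵀ * J * (p.1 * g) = _
    simp only [Matrix.mul_assoc]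
  have hb : (bil g R ∘ₗ (Xi J N arm g).subtype) φ = bil g R (gᵀ * (J * p.1) * g) := by
    change bil g R (φ : Matrix δ δ K) = _
    rw [hφ]
  have hnil : ∃ m, ∀ s, Be (Mg arm B g) ((bil g R ∘ₗ (Xi J N arm g).subtype) φ) s ^ m = 0 := by
    obtain ⟨m, hm⟩ := hA
    refine ⟨m, fun s => ?_⟩
    rw [hb]
    apply LinearMap.ext
    intro v
    obtain ⟨z, rfl⟩ := gS_surj g v
    apply Subtype.ext
    rw [pow_coe hR, gS_coe, mulVec_mulVec, hm s, zero_mulVec]
    rfl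
  have hDer : DerSp (Mg arm B g) ((bil g R ∘ₗ (Xi J N arm g).subtype) φ) := by
    rw [hb]; exact derSp_of h h2 hR hp hV
  rcases hS.scalar' h2 (fun φ m hm => nil_of_NilW hNil hR φ m hm) (sum_Mg h hR) φ hnil hDer with
    ⟨c, hc⟩ | hT
  · left
    refine ⟨c, ?_⟩
    have h3 := hTf φ ⟨p, hp⟩ rfl
    rw [hc] at h3
    exact h3.symm
  · right
    rw [← hb]
    exact hT

end Crest.Agent.R172.SpS
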