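import Crest.Agent.R172.PTy
import Crest.Agent.R172.SpS8

/-!
Row 172 (S0260), S-side: the quadratic coefficient of the form at `F + t f`:
`fᵀ J β = Fᵀ J (p' f)`.
-/

set_option autoImplicit false
set_option linter.unusedSectionVars false
set_option linter.unusedFintypeInType false
set_option linter.unusedDecidableInType false

namespace Crest.Agent.R172.Psi2

open Matrix Module Crest.Agent.R172.FO Crest.Agent.R172.Qt Crest.Agent.R172.SpS
  Crest.Agent.R172.Om Crest.Agent.R172.PTt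

variable {ι : Type*} [Fintype ι] [DecidableEq ι] {δ : Type*} [Fintype δ] [DecidableEq δ]
variable {k K : Type*} [Field k] [Field K] [Algebra k K]
variable {arm : δ → Fin 3} {J : Matrix ι ι K} {B : Matrix δ δ K}
  {N W : Submodule K (Matrix ι δ K)} {F f : Matrix ι δ K}

/-- forms of `NN` -/
def IsForm (arm : δ → Fin 3) (J : Matrix ι ι K) (N : Submodule K (Matrix ι δ K))
    (F : Matrix ι δ K) (φ : Matrix δ δ K) : Prop := ∃ q ∈ NN arm J N F, Fᵀ * J * (q.1 * F) = φ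

theorem IsForm.add {φ ψ : Matrix δ δ K} (h1 : IsForm arm J N F φ) (h2 : IsForm arm J N F ψ) :
    IsForm arm J N F (φ + ψ) := by
  obtain ⟨q, hq, rfl⟩ := h1
  obtain ⟨r, hr, rfl⟩ := h2
  exact ⟨q + r, (NN arm J N F).add_mem hq hr, by
    rw [Prod.fst_add, Matrix.add_mul, Matrix.mul_add]⟩

theorem IsForm.neg {φ : Matrix δ δ K} (h1 : IsForm arm J N F φ) : IsForm arm J N F (-φ) := by
  obtain ⟨q, hq, rfl⟩ := h1
  exact ⟨-q, (NN arm J N F).neg_mem hq, by rw [Prod.fst_neg, Matrix.neg_mul, Matrix.mul_neg]⟩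

theorem IsForm.sub {φ ψ : Matrix δ δ K} (h1 : IsForm arm J N F φ) (h2 : IsForm arm J N F ψ) :
    IsForm arm J N F (φ - ψ) := by rw [sub_eq_add_neg]; exact h1.add h2.neg

theorem isForm_f (hF : Ctx k arm J B N W F) (hf : f ∈ N ⊓ W)
    {p : Matrix ι ι K × (Fin 3 → Matrix ι ι K)} (hp : p ∈ NN arm J N F) :
    IsForm arm J N F (Fᵀ * J * (p.1 * f)) := by
  obtain ⟨p', hp', e⟩ := hF.tf hf hp
  exact ⟨p', hp', e.symm⟩

/-- the derived triple -/
theorem derived (hF : Ctx k arm J B N W F) (hf : f ∈ Kiso J N W)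
    {d : Derivation k K K} (hdF : F.map d = f) (hdf : f.map d = 0)
    (hd : Realises arm N W (0 : Fin 3 → Matrix ι ι K) (0 : Matrix δ δ K) d)
    {α β ν ν' : Matrix ι δ K} {C : Matrix δ δ K} (hα : α ∈ W) (hν : ν ∈ N)
    (hαν : α = ν + F * C) (hβ : β ∈ W) (hν' : ν' ∈ N) (hβν : β = ν' + f * C) :
    IsForm arm J N F (Fᵀ * J * (α.map d - β)) ∧ IsForm arm J N F (Fᵀ * J * β.map d) := by
  have hα1 : α.map d - β ∈ W := W.sub_mem (Realises.W_map hd hα) hβ
  have hν1 : ν.map d - ν' ∈ N := N.sub_mem (Realises.N_map hd hν) hν'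
  have e1 : α.map d - β = (ν.map d - ν') + F * C.map d := by
    have : α.map d = ν.map d + (f * C + F * C.map d) := by
      rw [hαν, map_add_der, map_mul_der, hdF]
    rw [this, hβν]; abel
  have e2 : β.map d = ν'.map d + f * C.map d := by
    rw [hβν, map_add_der, map_mul_der, hdf, Matrix.zero_mul, zero_add]
  obtain ⟨p1, hp1, e3⟩ := hF.AS hα1 hν1 e1
  have e4 := beta_eq hF hf.1 hα1 hν1 e1 (Realises.W_map hd hβ) (Realises.N_map hd hν') e2 hp1 e3
  refine ⟨⟨p1, hp1, e3.symm⟩, ?_⟩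
  rw [e4]
  exact isForm_f hF hf.1 hp1

/-- **the derivative of a form in the direction `f` is a form** -/
theorem der_form (hF : Ctx k arm J B N W F)
    (hNm : ∀ F, (∀ F' ∈ N, pair J B F' F = 0) → F ∈ N)
    (hWm : ∀ F, (∀ F' ∈ W, pair J B F' F = 0) → F ∈ W) (hf : f ∈ Kiso J N W)
    {d : Derivation k K K} (hdF : F.map d = f) (hdf : f.map d = 0)
    (hd : Realises arm N W (0 : Fin 3 → Matrix ι ι K) (0 : Matrix δ δ K) d)
    {φ : Matrix δ δ K} (hφ : IsForm arm J N F φ) : IsForm arm J N F (φ.map d) := by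
  obtain ⟨q, hq, rfl⟩ := hφ
  obtain ⟨h1, h2, C, h3⟩ := hF.mem_AS hq
  obtain ⟨b, hb, ν', hν', e⟩ := exists_b hF.data hNm hWm hf C
  obtain ⟨a1, -⟩ := derived hF hf hdF hdf hd h1 h2 h3 hb hν' e
  have e1 := beta_eq hF hf.1 h1 h2 h3 hb hν' e hq rfl
  have e2 : (Fᵀ * J * (q.1 * F)).map d = Fᵀ * J * ((q.1 * F).map d - b) +
      (Fᵀ * J * (q.1 * f) + Fᵀ * J * (q.1 * f)) := by
    have e3 : (Fᵀ * J * (q.1 * F)).map d = fᵀ * J * (q.1 * F) + Fᵀ * J * (q.1 * F).map d := by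
      rw [map_mul_der, map_mul_der, hF.data.J_const, Matrix.mul_zero, add_zero,
        map_transpose_der, hdF]
    rw [e3, Matrix.mul_sub, e1, ← flip hF hf.1 hq]
    abel
  rw [e2]
  exact a1.add ((isForm_f hF hf.1 hq).add (isForm_f hF hf.1 hq))

/-- **`fᵀ J β = Fᵀ J (p' f)`** -/
theorem psi2 (hF : Ctx k arm J B N W F)
    (hNm : ∀ F, (∀ F' ∈ N, pair J B F' F = 0) → F ∈ N)
    (hWm : ∀ F, (∀ F' ∈ W, pair J B F' F = 0) → F ∈ W) (hNil : NilW arm J B N F)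
    (hf : f ∈ Kiso J N W)
    {d : Derivation k K K} (hdF : F.map d = f) (hdf : f.map d = 0)
    (hd : Realises arm N W (0 : Fin 3 → Matrix ι ι K) (0 : Matrix δ δ K) d)
    {α β ν ν' : Matrix ι δ K} {C : Matrix δ δ K} (hα : α ∈ W) (hν : ν ∈ N)
    (hαν : α = ν + F * C) (hβ : β ∈ W) (hν' : ν' ∈ N) (hβν : β = ν' + f * C)
    {p p' : Matrix ι ι K × (Fin 3 → Matrix ι ι K)} (hp : p ∈ NN arm J N F)
    (hp' : p' ∈ NN arm J N F) (hpα : Fᵀ * J * α = Fᵀ * J * (p.1 * F))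
    (hpp : Fᵀ * J * (p.1 * f) = Fᵀ * J * (p'.1 * F)) :
    fᵀ * J * β = Fᵀ * J * (p'.1 * f) := by
  have b0 : Fᵀ * J * β = Fᵀ * J * (p'.1 * F) := by
    rw [beta_eq hF hf.1 hα hν hαν hβ hν' hβν hp hpα, hpp]
  obtain ⟨-, a2⟩ := derived hF hf hdF hdf hd hα hν hαν hβ hν' hβν
  have a3 : IsForm arm J N F ((Fᵀ * J * β).map d) := by
    rw [b0]; exact der_form hF hNm hWm hf hdF hdf hd ⟨p', hp', rfl⟩
  have e1 : (Fᵀ * J * β).map d = fᵀ * J * β + Fᵀ * J * β.map d := by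
    rw [map_mul_der, map_mul_der, hF.data.J_const, Matrix.mul_zero, add_zero,
      map_transpose_der, hdF]
  have a4 : IsForm arm J N F (fᵀ * J * β) := by
    have : fᵀ * J * β = (Fᵀ * J * β).map d - Fᵀ * J * β.map d := by rw [e1]; abel
    rw [this]; exact a3.sub a2
  obtain ⟨q, hq, e2⟩ := a4.sub (isForm_f hF hf.1 hp')
  -- `χ = Fᵀ J (q F)`
  set χ : Matrix δ δ K := fᵀ * J * β - Fᵀ * J * (p'.1 * f) with hχ
  have sw : ∀ s, F * E K arm s * B * fᵀ = f * E K arm s * B * Fᵀ :=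
    fun s => hF.data.symm_arm hF.mem hf.1 s
  have e3 : ∀ s, F * (E K arm s * B) * χ = 0 := by
    intro s
    rw [hχ, flip hF hf.1 hp', Matrix.mul_sub]
    have k1 : F * (E K arm s * B) * (fᵀ * J * β) = f * E K arm s * B * (Fᵀ * J * β) := by
      calc F * (E K arm s * B) * (fᵀ * J * β) = F * E K arm s * B * fᵀ * (J * β) := by
            simp only [Matrix.mul_assoc]
        _ = _ := by rw [sw]; simp only [Matrix.mul_assoc]
    have k2 : F * (E K arm s * B) * (fᵀ * J * (p'.1 * F)) =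
        f * E K arm s * B * (Fᵀ * J * (p'.1 * F)) := by
      calc F * (E K arm s * B) * (fᵀ * J * (p'.1 * F)) =
            F * E K arm s * B * fᵀ * (J * (p'.1 * F)) := by simp only [Matrix.mul_assoc]
        _ = _ := by rw [sw]; simp only [Matrix.mul_assoc]
    rw [k1, k2, b0, sub_self]
  have e4 := hNil q hq 2 (by
    intro l hl
    obtain ⟨s, t, rfl⟩ : ∃ s t, l = [s, t] := by
      match l, hl with
      | [s, t], _ => exact ⟨s, t, rfl⟩
    simp only [List.map_cons, List.map_nil, List.prod_cons, List.prod_nil, Matrix.mul_one]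
    have k3 : Fᵀ * J * (q.1 * F) * (E K arm s * B) * (Fᵀ * J * (q.1 * F) * (E K arm t * B)) =
        Fᵀ * J * q.1 * (F * (E K arm s * B) * χ) * (E K arm t * B) := by
      rw [← e2]; simp only [Matrix.mul_assoc]
    rw [k3, e3, Matrix.mul_zero, Matrix.zero_mul])
  rw [e2] at e4
  exact sub_eq_zero.1 e4

/-- **the global form at `H = F + t f`** for the family of `PTy.exists_family`:
`Hᵀ J (Pt H) = Fᵀ J (P F) + 2t Fᵀ J (P f) + t² Fᵀ J (p' f)`. -/
theorem form_H (hF : Ctx k arm J B N W F)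
    (hNm : ∀ F, (∀ F' ∈ N, pair J B F' F = 0) → F ∈ N)
    (hWm : ∀ F, (∀ F' ∈ W, pair J B F' F = 0) → F ∈ W) (hNil : NilW arm J B N F)
    (hf : f ∈ Kiso J N W)
    {d : Derivation k K K} (hdF : F.map d = f) (hdf : f.map d = 0)
    (hd : Realises arm N W (0 : Fin 3 → Matrix ι ι K) (0 : Matrix δ δ K) d)
    {Y : Matrix δ δ K} {dY : Derivation k K K}
    (hY : Realises arm N W (0 : Fin 3 → Matrix ι ι K) Y dY)
    {P p' : Matrix ι ι K × (Fin 3 → Matrix ι ι K)} (hP : P ∈ NN arm J N F)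
    (hp' : p' ∈ NN arm J N F) (hYP : Fᵀ * J * F.map dY = Fᵀ * J * (P.1 * F))
    (hpp : Fᵀ * J * (P.1 * f) = Fᵀ * J * (p'.1 * F)) {t : K} {Pt : Matrix ι ι K}
    (hPt : ∀ f' ∈ N ⊓ W, (F + t • f)ᵀ * J * (Pt * f') = (F + t • f)ᵀ * J * f'.map dY)
    (hPF : (F + t • f)ᵀ * J * (Pt * F) = (F + t • f)ᵀ * J * (P.1 * F)) :
    (F + t • f)ᵀ * J * (Pt * (F + t • f)) =
      Fᵀ * J * (P.1 * F) + (2 * t) • (Fᵀ * J * (P.1 * f)) + t ^ 2 • (Fᵀ * J * (p'.1 * f)) := by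
  have hff : fᵀ * J * f = 0 := hf.2 f hf.1
  have hFf : Fᵀ * J * f = 0 := hF.perp f hf.1
  have hfF : fᵀ * J * F = 0 := hf.2 F hF.mem
  -- the triple
  have hα : F.map dY - F * Yᵀ ∈ W := hY.onW F hF.memW
  have hν : F.map dY ∈ N := by
    have := hY.onN F hF.memN
    rwa [act_zero, sub_zero] at this
  have hβ : f.map dY - f * Yᵀ ∈ W := hY.onW f hf.1.2
  have hν' : f.map dY ∈ N := by
    have := hY.onN f hf.1.1
    rwa [act_zero, sub_zero] at this
  have hFF : Fᵀ * J * F = 0 := hF.iso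
  have e1 : Fᵀ * J * (F.map dY - F * Yᵀ) = Fᵀ * J * (P.1 * F) := by
    rw [Matrix.mul_sub, ← Matrix.mul_assoc _ F, hFF, Matrix.zero_mul, sub_zero, hYP]
  have e2 := psi2 hF hNm hWm hNil hf hdF hdf hd hα hν (C := -Yᵀ)
    (by rw [Matrix.mul_neg, sub_eq_add_neg]) hβ hν' (by rw [Matrix.mul_neg, sub_eq_add_neg])
    hP hp' e1 hpp
  have e3 : fᵀ * J * f.map dY = Fᵀ * J * (p'.1 * f) := by
    rw [← e2, Matrix.mul_sub, ← Matrix.mul_assoc _ f, hff, Matrix.zero_mul, sub_zero]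
  have e4 : Fᵀ * J * f.map dY = Fᵀ * J * (P.1 * f) := by
    have := beta_eq hF hf.1 hα hν (C := -Yᵀ) (by rw [Matrix.mul_neg, sub_eq_add_neg]) hβ hν'
      (by rw [Matrix.mul_neg, sub_eq_add_neg]) hP e1
    rw [← this, Matrix.mul_sub, ← Matrix.mul_assoc _ f, hFf, Matrix.zero_mul, sub_zero]
  have e5 : (F + t • f)ᵀ * J * (Pt * f) = Fᵀ * J * (P.1 * f) + t • (Fᵀ * J * (p'.1 * f)) := by
    rw [hPt f hf.1, transpose_add, transpose_smul, Matrix.add_mul, Matrix.add_mul,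
      Matrix.smul_mul, Matrix.smul_mul, e3, e4]
  have e6 : (F + t • f)ᵀ * J * (Pt * F) = Fᵀ * J * (P.1 * F) + t • (Fᵀ * J * (P.1 * f)) := by
    rw [hPF, transpose_add, transpose_smul, Matrix.add_mul, Matrix.add_mul,
      Matrix.smul_mul, Matrix.smul_mul, flip hF hf.1 hP]
  rw [Matrix.mul_add Pt, Matrix.mul_smul, Matrix.mul_add, Matrix.mul_smul, e5, e6, smul_add,
    smul_smul, two_mul, add_smul, pow_two]
  abel

end Crest.Agent.R172.Psi2
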