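import Crest.Agent.R172.Pt
import Crest.Agent.R172.CoreP

/-!
Row 172, TAME (T0), arbitrary radical, node R-Hom.

`F ∈ 𝒦` generic, `G ∈ 𝒦`, `H = F + s • G` generic (`s ∈ K` arbitrary), `C` a core of `F`,
`D = τ_G` on the core.

* `cp_GG`, `cp_H` : `cp C Φ_r(H) = cp C Φ_r(F) (1 + s D)^2`.
* `inter_zero`: no `A_H`-linear maps between different generalised eigenspaces of `D`.
* `hom`: `A_H`-linear maps `P_ν → C.M` have values in the generalised eigenspace of `ν`.
-/

set_option autoImplicit false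
set_option linter.unusedSectionVars false

namespace Crest.Agent.R172.Pt

open Matrix Crest.Agent.R172.FO Crest.Agent.R172.QN Crest.Agent.R172.St Module
open Crest.Agent.R172.Core (NS BM cp Pres cp_coe)

variable {ι : Type*} [Fintype ι] [DecidableEq ι] {δ : Type*} [Fintype δ] [DecidableEq δ]
variable {k K : Type*} [Field k] [Field K] [Algebra k K]
variable {arm : δ → Fin 3} {J : Matrix ι ι K} {B : Matrix δ δ K}
  {N W : Submodule K (Matrix ι δ K)}

theorem ns_BJ (hJ : Jᵀ = J) (hJu : IsUnit J) : NS (DerG.BJ J) where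
  symm v w := by
    rw [DerG.BJ_apply, DerG.BJ_apply, dotProduct_comm, ← vecMul_transpose, hJ,
      ← dotProduct_mulVec]
  nd v hv := by
    obtain ⟨Ji, hJi, hJi', _⟩ := symm_inv hJ hJu
    have h1 : ∀ w : ι → K, v ⬝ᵥ w = 0 := by
      intro w
      have := hv (Ji *ᵥ w)
      rw [DerG.BJ_apply, mulVec_mulVec, hJi, one_mulVec] at this
      exact this
    funext i
    have := h1 (Pi.single i 1)
    simpa using this

theorem sa_toLin {A : Matrix ι ι K} (hA : Aᵀ * J = J * A) : Sa (DerG.BJ J) (toLin' A) := by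
  intro u v
  rw [DerG.BJ_apply, DerG.BJ_apply, toLin'_apply, toLin'_apply, mulVec_mulVec, ← hA,
    ← mulVec_mulVec, ← vecMul_transpose, ← dotProduct_mulVec]

/-- self-adjointness of `M_r(a,b) J`, `a, b ∈ 𝒦` -/
theorem sa_M (hD : Data k arm J B N W) {a b : Matrix ι δ K} (ha : a ∈ N ⊓ W) (hb : b ∈ N ⊓ W)
    (r : Fin 3) : (M arm B r a b * J)ᵀ * J = J * (M arm B r a b * J) := by
  rw [transpose_mul, Slack.M_transpose hD, hD.J_symm, hD.symm_arm hb ha, Matrix.mul_assoc]

/-- a word followed by `M_r(a,b) J` -/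
theorem wd_mul (F a0 a1 : Matrix ι δ K) (r : Fin 3) (l : List (Fin 3)) :
    wd (Phi arm J B F) l * (M arm B r a0 a1 * J) =
      Wd arm J B (l ++ [r]) (fun n => if n = 2 * l.length then a0 else
        if n = 2 * l.length + 1 then a1 else F) := by
  induction l with
  | nil => simp [wd, Wd]
  | cons s l ih =>
    have h2 : wd (Phi arm J B F) (s :: l) = Phi arm J B F s * wd (Phi arm J B F) l := by
      simp [wd]
    rw [h2, Matrix.mul_assoc, ih, List.cons_append, Wd]
    have e0 : (if 0 = 2 * (s :: l).length then a0 else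
        if 0 = 2 * (s :: l).length + 1 then a1 else F) = F := by
      rw [if_neg (by simp), if_neg (by simp)]
    have e1 : (if 1 = 2 * (s :: l).length then a0 else
        if 1 = 2 * (s :: l).length + 1 then a1 else F) = F := by
      rw [if_neg (by simp only [List.length_cons]; omega),
        if_neg (by simp only [List.length_cons]; omega)]
    rw [e0, e1]
    have e2 : (fun n => if n + 2 = 2 * (s :: l).length then a0 else
        if n + 2 = 2 * (s :: l).length + 1 then a1 else F) =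
        fun n => if n = 2 * l.length then a0 else if n = 2 * l.length + 1 then a1 else F := by
      funext n
      simp only [List.length_cons]
      congr 1
      · simp only [eq_iff_iff]; omega
      · congr 1
        simp only [eq_iff_iff]; omega
    rw [e2]
    rfl

/-- `M_r(a,b) J` preserves `T(F)` and `P(F)` for `F` generic, `a, b ∈ 𝒦`. -/
theorem pres_M [CharZero K] (hD : Data k arm J B N W) {F : Matrix ι δ K}
    (hF : Generic k arm N W F) {a b : Matrix ι δ K} (ha : a ∈ N ⊓ W) (hb : b ∈ N ⊓ W)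
    (r : Fin 3) : Pres (DerG.BJ J) (DerG.Ph arm J B F) (toLin' (M arm B r a b * J)) := by
  have hT : ∀ t ∈ T (DerG.Ph arm J B F), toLin' (M arm B r a b * J) t ∈
      T (DerG.Ph arm J B F) := by
    intro t ht
    obtain ⟨m, hm⟩ := T_eq_Nk (DerG.Ph arm J B F)
    refine mem_T.2 ⟨m, (mem_Nk_iff F).2 fun l hl => ?_⟩
    rw [toLin'_apply, mulVec_mulVec, wd_mul]
    refine nil_all hD hF (m := m + 1) (hm.le.trans (Nk_le_succ _ m)) (by simp [hl])
      (fun n => ?_) ht
    split_ifs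
    · exact ha
    · exact hb
    · exact hF.mem
  exact ⟨hT, fun t ht => Tp_stable (sa_toLin (sa_M hD ha hb r)) hT ht⟩

section core

variable {F G : Matrix ι δ K}

theorem sa_Ph (hD : Data k arm J B N W) {H : Matrix ι δ K} (hH : H ∈ N ⊓ W) (r : Fin 3) :
    Sa (DerG.BJ J) (DerG.Ph arm J B H r) := sa_toLin (sa_M hD hH hH r)

theorem cp_add {V : Type*} [AddCommGroup V] [Module K V] {κ : Type*}
    {b : LinearMap.BilinForm K V} {Φ : κ → End K V} (C : St.Core b Φ) (f g : End K V) :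
    cp C (f + g) = cp C f + cp C g := by
  apply LinearMap.ext
  intro v
  apply Subtype.ext
  change C.π (f v + g v) = C.π (f v) + C.π (g v)
  rw [map_add]

theorem cp_smul {V : Type*} [AddCommGroup V] [Module K V] {κ : Type*}
    {b : LinearMap.BilinForm K V} {Φ : κ → End K V} (C : St.Core b Φ) (c : K) (f : End K V) :
    cp C (c • f) = c • cp C f := by
  apply LinearMap.ext
  intro v
  apply Subtype.ext
  change C.π (c • f v) = c • C.π (f v)
  rw [map_smul]

/-- `Φ_r(G) Φ_s(F) = Ψ_r Ψ_s` -/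
theorem GG_Phi (hD : Data k arm J B N W) (hF : F ∈ N ⊓ W) (hG : G ∈ N ⊓ W) (r s : Fin 3) :
    Phi arm J B G r * Phi arm J B F s = Psi arm J B F G r * Psi arm J B F G s := by
  have h1 := hD.symm_U hF hG
  rw [Psi_comm hD hF hG r]
  unfold Phi Psi M
  calc G * E K arm r * B * Gᵀ * J * (F * E K arm s * B * Fᵀ * J)
      = G * E K arm r * B * (Gᵀ * J * F) * E K arm s * B * Fᵀ * J := by
        simp only [Matrix.mul_assoc]
    _ = G * E K arm r * B * (Fᵀ * J * G) * E K arm s * B * Fᵀ * J := by rw [h1]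
    _ = G * E K arm r * B * Fᵀ * J * (G * E K arm s * B * Fᵀ * J) := by
        simp only [Matrix.mul_assoc]
    _ = G * E K arm r * B * Fᵀ * J * (F * E K arm s * B * Gᵀ * J) := by
        have h2 := hD.symm_arm hG hF s
        unfold M at h2
        rw [h2]

theorem Ph_add (hD : Data k arm J B N W) (hF : F ∈ N ⊓ W) (hG : G ∈ N ⊓ W) (s : K)
    (r : Fin 3) : DerG.Ph arm J B (F + s • G) r = DerG.Ph arm J B F r +
      (2 * s) • toLin' (Psi arm J B F G r) + (s * s) • DerG.Ph arm J B G r := by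
  have h1 : Phi arm J B (F + s • G) r = Phi arm J B F r + (2 * s) • Psi arm J B F G r +
      (s * s) • Phi arm J B G r := by
    have h2 := Psi_comm (J := J) hD hF hG r
    have e : Phi arm J B (F + s • G) r = Phi arm J B F r + s • Psi arm J B F G r +
        s • Psi arm J B G F r + (s * s) • Phi arm J B G r := by
      unfold Phi Psi M
      rw [transpose_add, transpose_smul, Matrix.mul_add, Matrix.mul_smul]
      simp only [Matrix.add_mul, Matrix.smul_mul, smul_add, smul_smul]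
      abel
    rw [e, ← h2, two_mul, add_smul]
    abel
  unfold DerG.Ph
  rw [h1, map_add, map_add, map_smul, map_smul]

variable (C : St.Core (DerG.BJ J) (DerG.Ph arm J B F)) {D : End K C.M}

theorem core_top [FiniteDimensional K (ι → K)] (hD : Data k arm J B N W) (hF : F ∈ N ⊓ W) :
    ⨆ r, LinearMap.range (cp C (DerG.Ph arm J B F r)) = ⊤ :=
  Core.iSup_range_eq_top (Core.NS_BM (ns_BJ hD.J_symm hD.J_unit) C)
    (fun r v w => Core.cp_sa C (sa_Ph hD hF r) v w)
    (fun v hv => Core.cp_ker (sa_Ph hD hF) C v hv)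

/-- `Φ_r(G) = Φ_r(F) D²` on the core -/
theorem cp_GG [CharZero K] (hD : Data k arm J B N W) (hF : Generic k arm N W F)
    (hG : G ∈ N ⊓ W)
    (hDΦ : ∀ r v, D (cp C (DerG.Ph arm J B F r) v) = cp C (DerG.Ph arm J B F r) (D v))
    (hrel : ∀ r v, cp C (toLin' (Psi arm J B F G r)) v = cp C (DerG.Ph arm J B F r) (D v))
    (r : Fin 3) (v : C.M) :
    cp C (DerG.Ph arm J B G r) v = cp C (DerG.Ph arm J B F r) (D (D v)) := by
  have htop := core_top C hD hF.mem
  have hle : (⊤ : Submodule K C.M) ≤ LinearMap.eqLocus (cp C (DerG.Ph arm J B G r))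
      (cp C (DerG.Ph arm J B F r) * (D * D)) := by
    rw [← htop]
    refine iSup_le fun s => ?_
    rintro _ ⟨w, rfl⟩
    rw [LinearMap.mem_eqLocus]
    have p1 : Pres (DerG.BJ J) (DerG.Ph arm J B F) (DerG.Ph arm J B G r) :=
      pres_M hD hF hG hG r
    have p2 : Pres (DerG.BJ J) (DerG.Ph arm J B F) (DerG.Ph arm J B F s) :=
      pres_M hD hF hF.mem hF.mem s
    have p3 : ∀ u, Pres (DerG.BJ J) (DerG.Ph arm J B F) (toLin' (Psi arm J B F G u)) :=
      fun u => pres_M hD hF hF.mem hG u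
    rw [Core.cp_comp C p1 p2]
    have e1 : DerG.Ph arm J B G r * DerG.Ph arm J B F s =
        toLin' (Psi arm J B F G r) * toLin' (Psi arm J B F G s) := by
      unfold DerG.Ph
      change toLin' _ ∘ₗ toLin' _ = toLin' _ ∘ₗ toLin' _
      rw [← toLin'_mul, ← toLin'_mul, GG_Phi hD hF.mem hG]
    rw [e1, ← Core.cp_comp C (p3 r) (p3 s), hrel, hrel]
    change _ = cp C (DerG.Ph arm J B F r) (D (D (cp C (DerG.Ph arm J B F s) w)))
    rw [hDΦ s w]
  exact LinearMap.mem_eqLocus.1 (hle (Submodule.mem_top (x := v)))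

/-- `Φ_r(H) = Φ_r(F) (1 + s D)²` on the core, `H = F + s G` -/
theorem cp_H [CharZero K] (hD : Data k arm J B N W) (hF : Generic k arm N W F)
    (hG : G ∈ N ⊓ W)
    (hDΦ : ∀ r v, D (cp C (DerG.Ph arm J B F r) v) = cp C (DerG.Ph arm J B F r) (D v))
    (hrel : ∀ r v, cp C (toLin' (Psi arm J B F G r)) v = cp C (DerG.Ph arm J B F r) (D v))
    (s : K) (r : Fin 3) (v : C.M) :
    cp C (DerG.Ph arm J B (F + s • G) r) v =
      cp C (DerG.Ph arm J B F r) ((1 + s • D) ((1 + s • D) v)) := by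
  rw [Ph_add hD hF.mem hG, cp_add, cp_add, cp_smul, cp_smul]
  simp only [LinearMap.add_apply, LinearMap.smul_apply, hrel,
    cp_GG C hD hF hG hDΦ hrel, Module.End.one_apply, map_add, map_smul, smul_add, smul_smul]
  rw [two_mul, add_smul]
  abel

theorem cp_H_comm [CharZero K] (hD : Data k arm J B N W) (hF : Generic k arm N W F)
    (hG : G ∈ N ⊓ W)
    (hDΦ : ∀ r v, D (cp C (DerG.Ph arm J B F r) v) = cp C (DerG.Ph arm J B F r) (D v))
    (hrel : ∀ r v, cp C (toLin' (Psi arm J B F G r)) v = cp C (DerG.Ph arm J B F r) (D v))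
    (s : K) (r : Fin 3) (v : C.M) :
    D (cp C (DerG.Ph arm J B (F + s • G) r) v) =
      cp C (DerG.Ph arm J B (F + s • G) r) (D v) := by
  rw [cp_H C hD hF hG hDΦ hrel, cp_H C hD hF hG hDΦ hrel, hDΦ]
  congr 1
  simp only [LinearMap.add_apply, LinearMap.smul_apply, Module.End.one_apply, map_add,
    map_smul]

end core

section abstract

variable {K : Type*} [Field K] {V : Type*} [AddCommGroup V] [Module K V] {κ : Type*}
variable {b : LinearMap.BilinForm K V} {Φ Φ0 : κ → End K V}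

theorem pres_of_T (hΦ : ∀ s, Sa b (Φ s)) (hT : T Φ = T Φ0) (s : κ) : Pres b Φ0 (Φ s) := by
  have h1 := Core.pres_Φ hΦ s
  refine ⟨fun t ht => ?_, fun t ht => ?_⟩
  · rw [← hT] at ht ⊢
    exact h1.T t ht
  · rw [mem_Tp, ← hT] at ht ⊢
    exact h1.Tp t ht

theorem cp_ker_of_T [Finite κ] (hΦ : ∀ s, Sa b (Φ s)) (hT : T Φ = T Φ0) (C : St.Core b Φ0)
    (v : C.M) (h : ∀ s, cp C (Φ s) v = 0) : v = 0 :=
  Core.cp_ker hΦ (coreCongr hT C) v h

theorem der_of_T [FiniteDimensional K V] [CharZero K] [Fintype κ] (hB : NS b)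
    (hΦ : ∀ s, Sa b (Φ s)) (hDer : Core.DerR b Φ) (hT : T Φ = T Φ0) (C : St.Core b Φ0) :
    Core.Der (BM C) (fun s => cp C (Φ s)) :=
  Core.Der_core' hB hΦ hDer (coreCongr hT C)

/-- **No `A`-linear maps between different blocks** of a self-adjoint `D`. -/
theorem inter_zero [FiniteDimensional K V] [IsAlgClosed K] [CharZero K] [Fintype κ] (hB : NS b)
    (hΦ : ∀ s, Sa b (Φ s)) (hnil : ∃ m, ∀ s, Φ s ^ m = 0) (hsum : ∀ v, ∑ s, Φ s v = 0)
    (hDer : Core.DerR b Φ) (hT : T Φ = T Φ0) (C : St.Core b Φ0) {D : End K C.M}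
    (hDB : ∀ v w, BM C (D v) w = BM C v (D w))
    (hDΦ : ∀ s v, D (cp C (Φ s) v) = cp C (Φ s) (D v)) {lam mu : K} (hne : lam ≠ mu)
    (x : D.maxGenEigenspace lam →ₗ[K] D.maxGenEigenspace mu)
    (hx : ∀ r, ∀ v w : D.maxGenEigenspace lam, (w : C.M) = cp C (Φ r) v →
        ((x w : D.maxGenEigenspace mu) : C.M) = cp C (Φ r) (x v : C.M)) : x = 0 := by
  obtain ⟨-, -, -, h3, -⟩ := Core.pair_blocks (B := BM C)
    (Φ := fun r => cp C (Φ r)) (D := D)
    (Core.NS_BM hB C) (fun r v w => Core.cp_sa C (hΦ r) v w)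
    (by
      obtain ⟨m, hm⟩ := hnil
      refine ⟨m, fun r => ?_⟩
      rw [Core.cp_pow C (pres_of_T hΦ hT r), hm r]
      apply LinearMap.ext
      intro v
      apply Subtype.ext
      change C.π ((0 : End K V) v) = 0
      rw [LinearMap.zero_apply, map_zero])
    (by
      intro v
      apply Subtype.ext
      rw [Submodule.coe_sum]
      change ∑ r, C.π (Φ r v) = 0
      rw [← map_sum, hsum, map_zero])
    (fun v h => cp_ker_of_T hΦ hT C v h) (der_of_T hB hΦ hDer hT C) hDB hDΦ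
    (Module.End.iSup_maxGenEigenspace_eq_top _) hne
  have h4 : x ∈ (⊥ : Submodule K (D.maxGenEigenspace lam →ₗ[K] D.maxGenEigenspace mu)) := by
    rw [← h3, Core.mem_InterAll]
    intro r v
    apply Subtype.ext
    exact hx r v _ rfl
  exact (Submodule.mem_bot K).1 h4

/-- `A`-linear maps from a block of the core into the core have values in the block. -/
theorem hom_core [FiniteDimensional K V] [IsAlgClosed K] [CharZero K] [Fintype κ] (hB : NS b)
    (hΦ : ∀ s, Sa b (Φ s)) (hnil : ∃ m, ∀ s, Φ s ^ m = 0) (hsum : ∀ v, ∑ s, Φ s v = 0)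
    (hDer : Core.DerR b Φ) (hT : T Φ = T Φ0) (C : St.Core b Φ0) {D : End K C.M}
    (hDB : ∀ v w, BM C (D v) w = BM C v (D w))
    (hDΦ : ∀ s v, D (cp C (Φ s) v) = cp C (Φ s) (D v)) {nu : K} (x : C.M →ₗ[K] C.M)
    (hx : ∀ r, ∀ v ∈ D.maxGenEigenspace nu, x (cp C (Φ r) v) = cp C (Φ r) (x v)) {m : C.M}
    (hm : m ∈ D.maxGenEigenspace nu) : x m ∈ D.maxGenEigenspace nu := by
  have htop : ⨆ ν, D.maxGenEigenspace ν = ⊤ := Module.End.iSup_maxGenEigenspace_eq_top _
  -- the components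
  have hcomp : ∀ mu, nu ≠ mu → x m ∈ Core.co D mu := by
    intro mu hne
    have hc := Core.gen_isCompl htop mu
    set pr := Submodule.projectionOnto _ _ hc with hpr
    have hprl : ∀ w : D.maxGenEigenspace mu, pr (w : C.M) = w := fun w =>
      Submodule.projectionOnto_apply_left hc w
    have hprz : ∀ w : C.M, pr w = 0 ↔ w ∈ Core.co D mu := fun w =>
      Submodule.projectionOnto_apply_eq_zero_iff hc
    have hzero := inter_zero hB hΦ hnil hsum hDer hT C hDB hDΦ hne
      ((pr ∘ₗ x).domRestrict (D.maxGenEigenspace nu)) (by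
      intro r v w hw
      have h1 : x (w : C.M) = cp C (Φ r) (x (v : C.M)) := by rw [hw]; exact hx r v v.2
      rw [LinearMap.domRestrict_apply, LinearMap.domRestrict_apply, LinearMap.comp_apply,
        LinearMap.comp_apply, h1]
      -- `pr` commutes with `cp Φ`
      have h2 : ∀ u : C.M, ((pr (cp C (Φ r) u) : D.maxGenEigenspace mu) : C.M) =
          cp C (Φ r) ((pr u : D.maxGenEigenspace mu) : C.M) := by
        intro u
        have hu : u = (pr u : C.M) + (u - (pr u : C.M)) := by abel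
        have hu2 : u - (pr u : C.M) ∈ Core.co D mu := by
          rw [← hprz, map_sub, hprl, sub_self]
        conv_lhs => rw [hu, map_add, map_add]
        have h3 : pr (cp C (Φ r) (u - (pr u : C.M))) = 0 :=
          (hprz _).2 (Core.co_stable (hDΦ r) mu _ hu2)
        have h4 : pr (cp C (Φ r) (pr u : C.M)) =
            ⟨cp C (Φ r) (pr u : C.M), Core.gen_stable (hDΦ r) mu _ (pr u).2⟩ :=
          hprl ⟨cp C (Φ r) (pr u : C.M), Core.gen_stable (hDΦ r) mu _ (pr u).2⟩
        rw [h3, add_zero, h4]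
      exact h2 _)
    rw [← hprz]
    exact LinearMap.congr_fun hzero ⟨m, hm⟩
  -- decompose
  have hxm : x m ∈ ⨆ ν, D.maxGenEigenspace ν := by rw [htop]; exact Submodule.mem_top
  obtain ⟨f, hf, hfs⟩ := (Submodule.mem_iSup_iff_exists_finsupp _ _).1 hxm
  have hfz : ∀ mu, nu ≠ mu → f mu = 0 := by
    intro mu hne
    have h1 := hcomp mu hne
    have hdis := (Core.gen_isCompl htop mu).disjoint
    have h2 : f mu ∈ Core.co D mu := by
      classical
      have h3 : f mu = x m - ∑ ν ∈ f.support.erase mu, f ν := by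
        rw [← hfs, Finsupp.sum]
        by_cases hmem : mu ∈ f.support
        · rw [← Finset.add_sum_erase _ _ hmem, add_sub_cancel_right]
        · rw [Finset.erase_eq_of_notMem hmem, sub_self, Finsupp.notMem_support_iff.1 hmem]
      rw [h3]
      refine Submodule.sub_mem _ h1 (Submodule.sum_mem _ fun ν hν => ?_)
      exact Submodule.mem_iSup_of_mem ν
        (Submodule.mem_iSup_of_mem (Finset.ne_of_mem_erase hν) (hf ν))
    exact (Submodule.disjoint_def.1 hdis) _ (hf mu) h2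
  rw [← hfs, Finsupp.sum]
  refine Submodule.sum_mem _ fun ν _ => ?_
  by_cases h : nu = ν
  · subst h; exact hf nu
  · rw [hfz ν h]; exact Submodule.zero_mem _

/-- factorisation through a linear map -/
theorem factor {P M X : Type*} [AddCommGroup P] [Module K P] [AddCommGroup M] [Module K M]
    [AddCommGroup X] [Module K X] (f : P →ₗ[K] M) (z : P →ₗ[K] X)
    (h : ∀ p, f p = 0 → z p = 0) : ∃ x : M →ₗ[K] X, ∀ p, x (f p) = z p := by
  have hle : LinearMap.ker f ≤ LinearMap.ker z := fun p hp =>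
    LinearMap.mem_ker.2 (h p (LinearMap.mem_ker.1 hp))
  obtain ⟨g, hg⟩ := LinearMap.exists_leftInverse_of_injective
    ((LinearMap.ker f).liftQ f le_rfl) (by
      rw [Submodule.ker_liftQ_eq_bot _ _ _ le_rfl])
  refine ⟨((LinearMap.ker f).liftQ z hle) ∘ₗ g, fun p => ?_⟩
  have h1 := LinearMap.congr_fun hg ((LinearMap.ker f).mkQ p)
  rw [LinearMap.comp_apply, Submodule.mkQ_apply, Submodule.liftQ_apply, LinearMap.id_apply] at h1
  rw [LinearMap.comp_apply, h1, Submodule.liftQ_apply]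

/-- **(Hom)**, abstract: `P ≤ Tᗮ` stable with `π P = M_ν`; every `A`-linear `z : P → C.M` has
values in `M_ν`. -/
theorem hom_abs [FiniteDimensional K V] [IsAlgClosed K] [CharZero K] [Fintype κ] (hB : NS b)
    (hΦ : ∀ s, Sa b (Φ s)) (hnil : ∃ m, ∀ s, Φ s ^ m = 0) (hsum : ∀ v, ∑ s, Φ s v = 0)
    (hDer : Core.DerR b Φ) (hT : T Φ = T Φ0) (C : St.Core b Φ0) {D : End K C.M}
    (hDB : ∀ v w, BM C (D v) w = BM C v (D w))
    (hDΦ : ∀ s v, D (cp C (Φ s) v) = cp C (Φ s) (D v)) {nu : K}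
    {P : Submodule K V} (hP : P ≤ Tp b Φ0) (hst : ∀ r, ∀ p ∈ P, Φ r p ∈ P)
    (hsurj : ∀ m ∈ D.maxGenEigenspace nu, ∃ p ∈ P, CP.pM C p = m)
    (hπ : ∀ p ∈ P, CP.pM C p ∈ D.maxGenEigenspace nu)
    (z : P →ₗ[K] C.M)
    (hz : ∀ r, ∀ p p' : P, (p' : V) = Φ r p → z p' = cp C (Φ r) (z p))
    (p : P) : z p ∈ D.maxGenEigenspace nu := by
  -- the kernel
  have hk : ∀ m, ∀ p : P, (p : V) ∈ Nk Φ m → z p = 0 := by
    intro m
    induction m with
    | zero =>
      intro p hp
      rw [mem_Nk_zero] at hp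
      have : p = 0 := Subtype.ext hp
      rw [this, map_zero]
    | succ m ih =>
      intro p hp
      apply cp_ker_of_T hΦ hT C
      intro r
      rw [← hz r p ⟨_, hst r _ p.2⟩ rfl]
      exact ih _ (mem_Nk_succ.1 hp r)
  obtain ⟨x, hx⟩ := factor ((CP.pM C).domRestrict P) z (by
    intro p hp
    have h1 := (CP.pM_eq_zero C (hP p.2)).1 hp
    rw [← hT] at h1
    obtain ⟨m, hm⟩ := mem_T.1 h1
    exact hk m p hm)
  rw [← hx p]
  refine hom_core hB hΦ hnil hsum hDer hT C hDB hDΦ x ?_ (hπ p p.2)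
  intro r v hv
  obtain ⟨q, hq, rfl⟩ := hsurj v hv
  have h2 : cp C (Φ r) (CP.pM C q) = CP.pM C (Φ r q) := by
    apply Subtype.ext
    rw [CP.pM_coe, cp_coe, CP.pM_coe]
    exact Core.pi_pres C (pres_of_T hΦ hT r) (hP hq)
  rw [h2]
  have h3 := hx ⟨q, hq⟩
  have h4 := hx ⟨Φ r q, hst r q hq⟩
  rw [LinearMap.domRestrict_apply] at h3 h4
  change x (CP.pM C q) = _ at h3
  change x (CP.pM C (Φ r q)) = _ at h4
  rw [h3, h4]
  exact hz r ⟨q, hq⟩ _ rfl

end abstract

section

variable {F G : Matrix ι δ K}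

theorem sum_Ph (hD : Data k arm J B N W) {H : Matrix ι δ K} (hH : H ∈ N ⊓ W) (v : ι → K) :
    ∑ r, DerG.Ph arm J B H r v = 0 := by
  simp only [DerG.Ph_apply]
  rw [← Matrix.sum_mulVec]
  unfold Phi
  rw [← Finset.sum_mul, FO.sum_M, hD.W_iso _ hH.2 _ hH.2, Matrix.zero_mul, zero_mulVec]

/-- **(Hom)** at `H = F + s G` (`s ∈ K` arbitrary with `H` generic) for a core of `F`. -/
theorem hom [IsAlgClosed K] [CharZero K] (hD : Data k arm J B N W)
    (hF : Generic k arm N W F) (hG : G ∈ N ⊓ W) {s : K} (hH : Generic k arm N W (F + s • G))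
    (hnil : ∃ m, ∀ r, DerG.Ph arm J B (F + s • G) r ^ m = 0)
    (C : St.Core (DerG.BJ J) (DerG.Ph arm J B F)) {D : End K C.M}
    (hDB : ∀ v w, BM C (D v) w = BM C v (D w))
    (hDΦ : ∀ r v, D (cp C (DerG.Ph arm J B F r) v) = cp C (DerG.Ph arm J B F r) (D v))
    (hrel : ∀ r v, cp C (toLin' (Psi arm J B F G r)) v = cp C (DerG.Ph arm J B F r) (D v))
    {nu : K} {P : Submodule K (ι → K)} (hP : P ≤ Tp (DerG.BJ J) (DerG.Ph arm J B F))
    (hst : ∀ r, ∀ p ∈ P, DerG.Ph arm J B (F + s • G) r p ∈ P)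
    (hsurj : ∀ m ∈ D.maxGenEigenspace nu, ∃ p ∈ P, CP.pM C p = m)
    (hπ : ∀ p ∈ P, CP.pM C p ∈ D.maxGenEigenspace nu)
    (z : P →ₗ[K] C.M)
    (hz : ∀ r, ∀ p p' : P, (p' : ι → K) = DerG.Ph arm J B (F + s • G) r p →
      z p' = cp C (DerG.Ph arm J B (F + s • G) r) (z p))
    (p : P) : z p ∈ D.maxGenEigenspace nu :=
  hom_abs (ns_BJ hD.J_symm hD.J_unit) (sa_Ph hD hH.mem) hnil (sum_Ph hD hH.mem)
    (DerG.derR hD hH) (T_eq hD hF hH) C hDB
    (fun r v => cp_H_comm C hD hF hG hDΦ hrel s r v) hP hst hsurj hπ z hz p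

/-- no `A_H`-linear maps between different blocks of the core of `F`, `H = F + s G` generic -/
theorem inter_zero_H [IsAlgClosed K] [CharZero K] (hD : Data k arm J B N W)
    (hF : Generic k arm N W F) (hG : G ∈ N ⊓ W) {s : K} (hH : Generic k arm N W (F + s • G))
    (hnil : ∃ m, ∀ r, DerG.Ph arm J B (F + s • G) r ^ m = 0)
    (C : St.Core (DerG.BJ J) (DerG.Ph arm J B F)) {D : End K C.M}
    (hDB : ∀ v w, BM C (D v) w = BM C v (D w))
    (hDΦ : ∀ r v, D (cp C (DerG.Ph arm J B F r) v) = cp C (DerG.Ph arm J B F r) (D v))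
    (hrel : ∀ r v, cp C (toLin' (Psi arm J B F G r)) v = cp C (DerG.Ph arm J B F r) (D v))
    {lam mu : K} (hne : lam ≠ mu)
    (x : D.maxGenEigenspace lam →ₗ[K] D.maxGenEigenspace mu)
    (hx : ∀ r, ∀ v w : D.maxGenEigenspace lam,
      (w : C.M) = cp C (DerG.Ph arm J B (F + s • G) r) v →
        ((x w : D.maxGenEigenspace mu) : C.M) =
          cp C (DerG.Ph arm J B (F + s • G) r) (x v : C.M)) : x = 0 :=
  inter_zero (ns_BJ hD.J_symm hD.J_unit) (sa_Ph hD hH.mem) hnil (sum_Ph hD hH.mem)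
    (DerG.derR hD hH) (T_eq hD hF hH) C hDB
    (fun r v => cp_H_comm C hD hF hG hDΦ hrel s r v) hne x hx

end

end Crest.Agent.R172.Pt
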