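import Crest.Agent.R172.Pt2
import Crest.Agent.R172.PairLift1

/-!
Row 172 (S0260), TAME node, arbitrary radical: long words in `Φ(H)`, `H ∈ 𝒦` ARBITRARY, map `V` into
`Tp(F)`, `F` generic (`Wk_le_Tp`); matrix form = field `nil` of `FC.Par` (`words_eq`).
-/

set_option autoImplicit false
set_option linter.unusedSectionVars false

namespace Crest.Agent.R172.Pt

open Matrix Module Crest.Agent.R172.FO Crest.Agent.R172.St Crest.Agent.R172.QN

section abs

variable {K : Type*} [Field K] {V : Type*} [AddCommGroup V] [Module K V] {κ : Type*}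

theorem Wk_orth {b : LinearMap.BilinForm K V} {Φ : κ → End K V} (hΦ : ∀ s, Sa b (Φ s)) (m : ℕ) :
    ∀ v ∈ PL.Wk Φ m, ∀ u ∈ Nk Φ m, b v u = 0 := by
  induction m with
  | zero => intro v _ u hu; rw [mem_Nk_zero] at hu; rw [hu, map_zero]
  | succ m ih =>
    intro v hv u hu
    have h1 : PL.Wk Φ (m + 1) ≤ LinearMap.ker (b.flip u) := by
      refine iSup_le fun s => ?_
      rintro _ ⟨w, hw, rfl⟩
      change b (Φ s w) u = 0
      rw [hΦ s]
      exact ih w hw _ (mem_Nk_succ.1 hu s)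
    exact h1 hv

theorem prod_mem_Wk {Φ : κ → End K V} (w : List κ) (v : V) :
    (w.map Φ).prod v ∈ PL.Wk Φ w.length := by
  induction w with
  | nil => simp [PL.Wk]
  | cons s w ih =>
    rw [List.map_cons, List.prod_cons, List.length_cons, Module.End.mul_apply]
    exact PL.Wk_succ_mem ih s

end abs

variable {ι : Type*} [Fintype ι] [DecidableEq ι] {δ : Type*} [Fintype δ] [DecidableEq δ]
variable {k K : Type*} [Field k] [Field K] [Algebra k K]
variable {arm : δ → Fin 3} {J : Matrix ι ι K} {B : Matrix δ δ K}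
  {N W : Submodule K (Matrix ι δ K)}

/-- `Wk (Φ(H)) m ≤ Tp(F)`, `F` generic, `H ∈ 𝒦` arbitrary. -/
theorem Wk_le_Tp [CharZero K] (hD : Data k arm J B N W) {F H : Matrix ι δ K}
    (hF : Generic k arm N W F) (hH : H ∈ N ⊓ W) :
    ∃ m, PL.Wk (DerG.Ph arm J B H) m ≤ Tp (DerG.BJ J) (DerG.Ph arm J B F) := by
  obtain ⟨m, hm⟩ := T_eq_Nk (DerG.Ph arm J B F)
  refine ⟨m, fun v hv => ?_⟩
  rw [mem_Tp]
  intro u hu
  refine Wk_orth (sa_Ph hD hH) m v hv u ?_
  rw [mem_Nk_iff]
  intro l hl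
  rw [← Wd_const]
  exact nil_all hD hF hm.le hl (fun _ => hH) hu

theorem Wk_le_Tp_ge [CharZero K] (hD : Data k arm J B N W) {F H : Matrix ι δ K}
    (hF : Generic k arm N W F) (hH : H ∈ N ⊓ W) :
    ∃ m, ∀ m', m ≤ m' → PL.Wk (DerG.Ph arm J B H) m' ≤ Tp (DerG.BJ J) (DerG.Ph arm J B F) := by
  obtain ⟨m, hm⟩ := Wk_le_Tp hD hF hH
  exact ⟨m, fun m' h => (PL.Wk_anti _ h).trans hm⟩

theorem prod_toLin (A : Fin 3 → Matrix ι ι K) (w : List (Fin 3)) :
    toLin' ((w.map A).prod) = (w.map fun r => toLin' (A r)).prod := by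
  induction w with
  | nil => simp only [List.map_nil, List.prod_nil, toLin'_one]; rfl
  | cons s w ih => rw [List.map_cons, List.prod_cons, List.map_cons, List.prod_cons, toLin'_mul, ih]; rfl

/-- **`FC.Par.nil` for arbitrary radical** -/
theorem words_eq [CharZero K] (hD : Data k arm J B N W) {F H : Matrix ι δ K}
    (hF : Generic k arm N W F) (hH : H ∈ N ⊓ W) {a : Type*} [Fintype a] [DecidableEq a]
    {p : Matrix ι a K} (hp : ∀ v ∈ Tp (DerG.BJ J) (DerG.Ph arm J B F), ∃ x, v = p *ᵥ x) :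
    ∃ m : ℕ, ∀ w : List (Fin 3), w.length = m → ∃ C : Matrix a ι K,
      (w.map (Phi arm J B H)).prod = p * C := by
  obtain ⟨m, hm⟩ := Wk_le_Tp hD hF hH
  refine ⟨m, fun w hw => ?_⟩
  have h1 : ∀ j, ∃ x : a → K, (w.map (Phi arm J B H)).prod *ᵥ Pi.single j 1 = p *ᵥ x := by
    intro j
    apply hp
    apply hm
    rw [← hw, ← toLin'_apply, prod_toLin]
    exact prod_mem_Wk w _
  choose f hf using h1
  refine ⟨(Matrix.of f)ᵀ, ?_⟩
  ext i j
  have := congrFun (hf j) i
  rw [mulVec_single_one] at this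
  exact this

end Crest.Agent.R172.Pt
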