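import Crest.Agent.R172.Pt3

/-!
Row 172 (S0260), TAME node (T0), arbitrary radical and arbitrary `D`: the fields `hom`, `killV`, `wk`
of the frame `RD.Fr`, general `J, B, N, W`; the core is a core of `(b, Φ0)` with `b = BJ J`,
`Φ0 = DerG.Ph arm J B F` (equalities as hypotheses).
-/

set_option autoImplicit false
set_option linter.unusedSectionVars false

namespace Crest.Agent.R172.PtFr

open Matrix Module Crest.Agent.R172.FO Crest.Agent.R172.St Crest.Agent.R172.QN Crest.Agent.R172.Pt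
open Crest.Agent.R172.Core (NS BM cp Pres cp_coe)

variable {ι : Type*} [Fintype ι] [DecidableEq ι] {δ : Type*} [Fintype δ] [DecidableEq δ]
variable {k K : Type*} [Field k] [Field K] [Algebra k K]
variable {arm : δ → Fin 3} {J : Matrix ι ι K} {B : Matrix δ δ K}
  {N W : Submodule K (Matrix ι δ K)} {F G : Matrix ι δ K}
variable {b : LinearMap.BilinForm K (ι → K)} {Φ0 : Fin 3 → End K (ι → K)}

/-- `A` commuting with `Φ_s(F) (1+tD)²` preserves the blocks of `D`. -/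
theorem comm_block [IsAlgClosed K] [CharZero K] (hD : Data k arm J B N W)
    (hb : b = DerG.BJ J) (hΦ0 : Φ0 = DerG.Ph arm J B F)
    (hF : Generic k arm N W F) (hG : G ∈ N ⊓ W) {t : K} (hH : Generic k arm N W (F + t • G))
    (hnil : ∃ m, ∀ r, DerG.Ph arm J B (F + t • G) r ^ m = 0)
    (C : St.Core b Φ0) {D : End K C.M}
    (hDB : ∀ v w, BM C (D v) w = BM C v (D w))
    (hDΦ : ∀ r v, D (cp C (Φ0 r) v) = cp C (Φ0 r) (D v))
    (hrel : ∀ r v, cp C (toLin' (Psi arm J B F G r)) v = cp C (Φ0 r) (D v))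
    {A : End K C.M} (hA : ∀ s x, A (cp C (Φ0 s) ((1 + t • D) ((1 + t • D) x))) =
      cp C (Φ0 s) ((1 + t • D) ((1 + t • D) (A x)))) {lam : K} {x : C.M}
    (hx : x ∈ D.maxGenEigenspace lam) : A x ∈ D.maxGenEigenspace lam := by
  subst hb hΦ0
  refine hom_core (Φ := DerG.Ph arm J B (F + t • G)) (ns_BJ hD.J_symm hD.J_unit)
    (sa_Ph hD hH.mem) hnil (sum_Ph hD hH.mem) (DerG.derR hD hH) (T_eq hD hF hH) C hDB
    (fun r v => cp_H_comm C hD hF hG hDΦ hrel t r v) A ?_ hx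
  intro r v _
  rw [cp_H C hD hF hG hDΦ hrel, cp_H C hD hF hG hDΦ hrel]
  exact hA r v

/-- **field `hom`** -/
theorem hom_orth [IsAlgClosed K] [CharZero K] (hD : Data k arm J B N W)
    (hb : b = DerG.BJ J) (hΦ0 : Φ0 = DerG.Ph arm J B F)
    (hF : Generic k arm N W F) (hG : G ∈ N ⊓ W) {t : K} (hH : Generic k arm N W (F + t • G))
    (hnil : ∃ m, ∀ r, DerG.Ph arm J B (F + t • G) r ^ m = 0)
    (C : St.Core b Φ0) {D : End K C.M}
    (hDB : ∀ v w, BM C (D v) w = BM C v (D w))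
    (hDΦ : ∀ r v, D (cp C (Φ0 r) v) = cp C (Φ0 r) (D v))
    (hrel : ∀ r v, cp C (toLin' (Psi arm J B F G r)) v = cp C (Φ0 r) (D v))
    {A : End K C.M} (hA : ∀ s x, A (cp C (Φ0 s) ((1 + t • D) ((1 + t • D) x))) =
      cp C (Φ0 s) ((1 + t • D) ((1 + t • D) (A x)))) {lam mu : K} (hne : lam ≠ mu) {x y : C.M}
    (hx : x ∈ D.maxGenEigenspace lam) (hy : y ∈ D.maxGenEigenspace mu) : BM C (A x) y = 0 :=
  Core.gen_ortho hDB hne _
    (comm_block hD hb hΦ0 hF hG hH hnil C hDB hDΦ hrel hA hx) y hy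

theorem prod_eq_wd (A : Fin 3 → Matrix ι ι K) (w : List (Fin 3)) :
    (w.map A).prod = wd A w := by
  induction w with
  | nil => rfl
  | cons s w ih => rw [List.map_cons, List.prod_cons, ih]; rfl

/-- **field `killV`**: long words of `Φ(H)`, `H ∈ 𝒦` arbitrary, kill `T(F)`. -/
theorem killV [CharZero K] (hD : Data k arm J B N W) (hF : Generic k arm N W F) :
    ∃ m0 : ℕ, ∀ H ∈ N ⊓ W, ∀ w : List (Fin 3), w.length = m0 →
      ∀ v ∈ T (DerG.Ph arm J B F), (w.map (Phi arm J B H)).prod *ᵥ v = 0 := by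
  obtain ⟨m, hm⟩ := T_eq_Nk (DerG.Ph arm J B F)
  refine ⟨m, fun H hH w hw v hv => ?_⟩
  rw [prod_eq_wd, ← Wd_const]
  exact nil_all hD hF hm.le hw (fun _ => hH) hv

/-- **field `wk`** -/
theorem wk [CharZero K] (hD : Data k arm J B N W) (hF : Generic k arm N W F)
    {H : Matrix ι δ K} (hH : H ∈ N ⊓ W) {a : Type*} [Fintype a] [DecidableEq a]
    {p : Matrix ι a K} (hp : ∀ v ∈ Tp (DerG.BJ J) (DerG.Ph arm J B F), ∃ x, v = p *ᵥ x) :
    ∃ m0 : ℕ, PL.Wk (fun r => toLin' (Phi arm J B H r)) m0 ≤ LinearMap.range (toLin' p) := by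
  obtain ⟨m, hm⟩ := Wk_le_Tp hD hF hH
  refine ⟨m, fun v hv => ?_⟩
  obtain ⟨x, hx⟩ := hp v (hm hv)
  exact ⟨x, by rw [toLin'_apply, hx]⟩

end Crest.Agent.R172.PtFr
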