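import Crest.Agent.R172.PtFr
import Crest.Agent.R172.N5b

/-!
Row 172 (S0260), TAME node (T0), arbitrary radical and arbitrary `τ`: the fields `hom`, `killV`, `wk`
of the frame `RD.Fr` from `TameAt F G C τ`.
-/

set_option autoImplicit false
set_option linter.unusedSectionVars false

namespace Crest.Agent.R172.PtFr

open Module Matrix LinearMap Crest.AlgebraR.SpinSaturation Crest.Agent.R172.SoGrade
  Crest.Agent.R172.CF
open Crest.Agent.R172.Gen (Jm Ix emb Ent ent)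
open Crest.Agent.R172.ThX Crest.Agent.R172.CSys
open Crest.Agent.R172.Core (NS cp BM Tame)
open Crest.Agent.R172.N5 (Ph)

variable {n : ℕ} {a : Fin 3 → Fin n → ℤ} {c : Cfg n a} {K : Type} [Field K] [Algebra ℂ K]
variable {N W : Submodule K (Matrix (Ix n) c.δ K)} {F G : Matrix (Ix n) c.δ K}
variable {C : St.Core (BV n K) (Ph F)} {τ : Module.End K C.M}

theorem Ph_eq_DerG (F : Matrix (Ix n) c.δ K) : Ph F = DerG.Ph c.arm (Jm n K) (c.B K) F :=
  MM_eq F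

theorem Psi_eq (F G : Matrix (Ix n) c.δ K) (s : Fin 3) :
    MM (pU c K) (adjU c K) (Matrix.toLin' F) (Matrix.toLin' G) s =
      toLin' (QN.Psi c.arm (Jm n K) (c.B K) F G s) := by
  refine LinearMap.ext fun v => ?_
  rw [MM_toLin, toLin'_apply]
  rfl

/-- **field `hom`**, blocks of `τ`: `A` commuting with `Ψ_s (1+tτ)²` preserves the blocks. -/
theorem comm_block_tame [IsAlgClosed K] [CharZero K]
    (hD : FO.Data ℂ c.arm (Jm n K) (c.B K) N W)
    (hF : FO.Generic ℂ c.arm N W F) (hG : G ∈ N ⊓ W) (hT : TameAt F G C τ) {t : K}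
    (hH : FO.Generic ℂ c.arm N W (F + t • G)) (hnil : ∃ m, ∀ s, Ph (F + t • G) s ^ m = 0)
    {A : Module.End K C.M} (hA : ∀ s x, A (cp C (Ph F s) ((1 + t • τ) ((1 + t • τ) x))) =
      cp C (Ph F s) ((1 + t • τ) ((1 + t • τ) (A x)))) {lam : K} {x : C.M}
    (hx : x ∈ τ.maxGenEigenspace lam) : A x ∈ τ.maxGenEigenspace lam :=
  comm_block hD BV_eq (Ph_eq_DerG F) hF hG hH
    (by simpa only [Ph_eq_DerG] using hnil) C hT.sa hT.comm
    (fun r v => by rw [← Psi_eq]; exact hT.rel r v) hA hx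

/-- **field `hom`** -/
theorem hom_tame [IsAlgClosed K] [CharZero K]
    (hD : FO.Data ℂ c.arm (Jm n K) (c.B K) N W)
    (hF : FO.Generic ℂ c.arm N W F) (hG : G ∈ N ⊓ W) (hT : TameAt F G C τ) {t : K}
    (hH : FO.Generic ℂ c.arm N W (F + t • G)) (hnil : ∃ m, ∀ s, Ph (F + t • G) s ^ m = 0)
    {A : Module.End K C.M} (hA : ∀ s x, A (cp C (Ph F s) ((1 + t • τ) ((1 + t • τ) x))) =
      cp C (Ph F s) ((1 + t • τ) ((1 + t • τ) (A x)))) {lam mu : K} (hne : lam ≠ mu) {x y : C.M}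
    (hx : x ∈ τ.maxGenEigenspace lam) (hy : y ∈ τ.maxGenEigenspace mu) : BM C (A x) y = 0 :=
  Core.gen_ortho hT.sa hne _ (comm_block_tame hD hF hG hT hH hnil hA hx) y hy

/-- **field `hom`**, literally as in `RD.Fr`: `k = ℂ`, `M = C.M`, `β = BM C`, `Ψ s = cp C (Ph F s)`,
`D = τ`; `q i x = π (e i *ᵥ x)`. -/
theorem hom_fr [IsAlgClosed K] [CharZero K]
    (hD : FO.Data ℂ c.arm (Jm n K) (c.B K) N W) (hG : FO.GenOver ℂ c.arm N W F G)
    (hnil : ∀ H ∈ N ⊓ W, ∃ m, ∀ s, Ph H s ^ m = 0) (hT : TameAt F G C τ)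
    {m X : Type*} {lam : m → K} (hlam : Function.Injective lam) (q : m → X → C.M)
    (hq : ∀ i x, q i x ∈ τ.maxGenEigenspace (lam i)) (t : ℂ) (A : Module.End K C.M)
    (hA : ∀ s x, A (cp C (Ph F s) ((1 + algebraMap ℂ K t • τ) ((1 + algebraMap ℂ K t • τ) x))) =
      cp C (Ph F s) ((1 + algebraMap ℂ K t • τ) ((1 + algebraMap ℂ K t • τ) (A x)))) :
    ∀ i j, i ≠ j → ∀ x y, BM C (A (q i x)) (q j y) = 0 := by
  intro i j hij x y
  have hmem : F + algebraMap ℂ K t • G ∈ N ⊓ W :=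
    (N ⊓ W).add_mem hG.mem ((N ⊓ W).smul_mem _ hG.memG)
  exact hom_tame hD hG.generic hG.memG hT (hG.generic_add t) (hnil _ hmem) hA
    (fun h => hij (hlam h)) (hq i x) (hq j y)

/-- **field `killV`**, literally -/
theorem killV_fr [CharZero K] (hD : FO.Data ℂ c.arm (Jm n K) (c.B K) N W)
    (hF : FO.Generic ℂ c.arm N W F) (hG : G ∈ N ⊓ W) {X : Type*} [AddCommGroup X] [Module K X]
    (l : X → (Ix n → K)) (π : X → C.M)
    (hl : ∀ u, π u = 0 → l u ∈ St.T (Ph F)) (t : K) :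
    ∃ m0 : ℕ, ∀ w : List (Fin 3), w.length = m0 → ∀ u, π u = 0 →
      (w.map (FO.Phi c.arm (Jm n K) (c.B K) (F + t • G))).prod *ᵥ (l u) = 0 := by
  obtain ⟨m0, hm0⟩ := killV (J := Jm n K) (B := c.B K) hD hF
  refine ⟨m0, fun w hw u hu => hm0 _ ?_ w hw _ ?_⟩
  · exact (N ⊓ W).add_mem hF.mem ((N ⊓ W).smul_mem _ hG)
  · have := hl u hu
    rwa [Ph_eq_DerG] at this

/-- **field `wk`**, literally -/
theorem wk_fr [CharZero K] (hD : FO.Data ℂ c.arm (Jm n K) (c.B K) N W)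
    (hF : FO.Generic ℂ c.arm N W F) {H : Matrix (Ix n) c.δ K} (hH : H ∈ N ⊓ W) {α : Type*}
    [Fintype α] [DecidableEq α] {p : Matrix (Ix n) α K}
    (hp : ∀ v ∈ St.Tp (BV n K) (Ph F), ∃ x, v = p *ᵥ x) :
    ∃ m0 : ℕ, PL.Wk (fun r => toLin' (FO.Phi c.arm (Jm n K) (c.B K) H r)) m0 ≤
      LinearMap.range (toLin' p) := by
  refine wk hD hF hH ?_
  intro v hv
  apply hp
  rw [Ph_eq_DerG, BV_eq]
  exact hv

/-- the field `nil` of `FC.Par`, literally -/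
theorem nil_fr [CharZero K] (hD : FO.Data ℂ c.arm (Jm n K) (c.B K) N W)
    (hF : FO.Generic ℂ c.arm N W F) {H : Matrix (Ix n) c.δ K} (hH : H ∈ N ⊓ W) {α : Type*}
    [Fintype α] [DecidableEq α] {p : Matrix (Ix n) α K}
    (hp : ∀ v ∈ St.Tp (BV n K) (Ph F), ∃ x, v = p *ᵥ x) :
    ∃ m : ℕ, ∀ w : List (Fin 3), w.length = m → ∃ X : Matrix α (Ix n) K,
      (w.map (FO.Phi c.arm (Jm n K) (c.B K) H)).prod = p * X := by
  refine Pt.words_eq hD hF hH ?_
  intro v hv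
  apply hp
  rw [Ph_eq_DerG, BV_eq]
  exact hv

end Crest.Agent.R172.PtFr
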