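import Crest.Agent.R172.TL1

/-!
Row 172, TAME, (o2): the products at `t = 0` (notes 15866 of helper895 and of helper460).

`M` is a free module over `K[φ]/φ^l`, a direct sum of `φ`-stable free blocks, at least two of them
non-zero.  If `f y ∈ Q` for every off-diagonal filtered `y` and `f (y x - x y) ∈ Q` for `x : Cᵢ → Cⱼ`
commuting with `φ`, `y : Cⱼ → Cᵢ` filtered (`i ≠ j`), then `f A ∈ Q` for every filtered `A` all of
whose graded pieces have trace zero (`mem_of_diag`); in particular for `X φ = ζ φ X` with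
`τ X = 0`, where `τ` is one linear functional (`mem_of_twist`).
-/

set_option autoImplicit false
set_option linter.unusedSectionVars false

namespace Crest.Agent.R172.Ptr

open Module LinearMap Crest.Agent.R172.TL

section core

variable {K : Type*} [Field K] {M E : Type*} [AddCommGroup M] [Module K M] [AddCommGroup E]
  [Module K E] {μ : Type*} [Fintype μ] [DecidableEq μ] {l : ℕ}

/-- the elementary map `b q ↦ b p` -/
noncomputable def El (b : Basis (Fin l × μ) K M) (p q : Fin l × μ) : End K M :=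
  (b.coord q).smulRight (b p)

variable (b : Basis (Fin l × μ) K M)

theorem El_b (p q r : Fin l × μ) : El b p q (b r) = if r = q then b p else 0 := by
  unfold El
  rw [LinearMap.smulRight_apply, Basis.coord_apply, Basis.repr_self]
  by_cases h : r = q
  · subst h
    simp
  · rw [if_neg h, Finsupp.single_eq_of_ne (fun h' => h h'.symm), zero_smul]

theorem El_mul (p q r s : Fin l × μ) : El b p q * El b r s = if r = q then El b p s else 0 := by
  refine b.ext fun t => ?_
  rw [Module.End.mul_apply, El_b]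
  by_cases h : t = s
  · subst h
    rw [if_pos rfl, El_b]
    by_cases h' : r = q
    · rw [if_pos h', if_pos h', El_b, if_pos rfl]
    · rw [if_neg h', if_neg h', LinearMap.zero_apply]
  · rw [if_neg h, map_zero]
    by_cases h' : r = q
    · rw [if_pos h', El_b, if_neg h]
    · rw [if_neg h', LinearMap.zero_apply]

theorem expand (A : End K M) : A = ∑ q, ∑ p, b.repr (A (b q)) p • El b p q := by
  refine b.ext fun r => ?_
  rw [LinearMap.sum_apply, Finset.sum_eq_single r]
  · rw [LinearMap.sum_apply]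
    conv_lhs => rw [← b.sum_repr (A (b r))]
    refine Finset.sum_congr rfl fun p _ => ?_
    rw [LinearMap.smul_apply, El_b, if_pos rfl]
  · intro q _ hq
    rw [LinearMap.sum_apply]
    refine Finset.sum_eq_zero fun p _ => ?_
    rw [LinearMap.smul_apply, El_b, if_neg (Ne.symm hq), smul_zero]
  · intro h
    exact absurd (Finset.mem_univ r) h

variable {φ : End K M} {e : μ → M}

theorem pow_b (hl : φ ^ l = 0) (hb : ∀ p, b p = (φ ^ (p.1 : ℕ)) (e p.2)) (k : ℕ)
    (p : Fin l × μ) :
    (φ ^ k) (b p) = if h : (p.1 : ℕ) + k < l then b (⟨p.1 + k, h⟩, p.2) else 0 := by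
  rw [hb, ← Module.End.mul_apply, ← pow_add]
  by_cases h : (p.1 : ℕ) + k < l
  · rw [dif_pos h, hb, add_comm]
  · rw [dif_neg h]
    obtain ⟨r, hr⟩ := Nat.exists_eq_add_of_le (show l ≤ k + (p.1 : ℕ) by omega)
    rw [hr, pow_add, hl, zero_mul, LinearMap.zero_apply]

/-- the `φ`-linear map `φ^w e a ↦ φ^(w+k) e a'` -/
noncomputable def xk (φ : End K M) (e : μ → M) (b : Basis (Fin l × μ) K M) (k : ℕ) (a a' : μ) :
    End K M :=
  b.constr K fun p => if p.2 = a then (φ ^ ((p.1 : ℕ) + k)) (e a') else 0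

theorem xk_b (k : ℕ) (a a' : μ) (p : Fin l × μ) :
    xk φ e b k a a' (b p) = if p.2 = a then (φ ^ ((p.1 : ℕ) + k)) (e a') else 0 :=
  b.constr_basis K _ p

theorem phi_b (hl : φ ^ l = 0) (hb : ∀ p, b p = (φ ^ (p.1 : ℕ)) (e p.2)) (p : Fin l × μ) :
    φ (b p) = if h : (p.1 : ℕ) + 1 < l then b (⟨p.1 + 1, h⟩, p.2) else 0 := by
  have h := pow_b b hl hb 1 p
  rwa [pow_one] at h

theorem xk_comm (hl : φ ^ l = 0) (hb : ∀ p, b p = (φ ^ (p.1 : ℕ)) (e p.2)) (k : ℕ) (a a' : μ) :
    xk φ e b k a a' * φ = φ * xk φ e b k a a' := by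
  refine b.ext fun p => ?_
  rw [Module.End.mul_apply, Module.End.mul_apply, xk_b, phi_b b hl hb]
  by_cases hp : p.2 = a
  · rw [if_pos hp, ← Module.End.mul_apply, ← pow_succ']
    by_cases h : (p.1 : ℕ) + 1 < l
    · rw [dif_pos h, xk_b, if_pos hp]
      congr 2
      simp only
      omega
    · rw [dif_neg h, map_zero]
      obtain ⟨r, hr⟩ := Nat.exists_eq_add_of_le (show l ≤ (p.1 : ℕ) + k + 1 by omega)
      rw [hr, pow_add, hl, zero_mul, LinearMap.zero_apply]
  · rw [if_neg hp, map_zero]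
    by_cases h : (p.1 : ℕ) + 1 < l
    · rw [dif_pos h, xk_b, if_neg hp]
    · rw [dif_neg h, map_zero]

/-- `φ^n (e a')` in the basis -/
theorem pow_e (hl : φ ^ l = 0) (hb : ∀ p, b p = (φ ^ (p.1 : ℕ)) (e p.2)) (n : ℕ) (a' : μ) :
    (φ ^ n) (e a') = if h : n < l then b (⟨n, h⟩, a') else 0 := by
  by_cases h : n < l
  · rw [dif_pos h, hb]
  · rw [dif_neg h]
    obtain ⟨r, hr⟩ := Nat.exists_eq_add_of_le (show l ≤ n by omega)
    rw [hr, pow_add, hl, zero_mul, LinearMap.zero_apply]

/-- `E(u,a'' ← v+k,a') * x = E(u,a'' ← v,a)` -/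
theorem El_mul_xk (hl : φ ^ l = 0) (hb : ∀ p, b p = (φ ^ (p.1 : ℕ)) (e p.2)) (k : ℕ)
    (a a' : μ) (p : Fin l × μ) (v : Fin l) (h : (v : ℕ) + k < l) :
    El b p (⟨v + k, h⟩, a') * xk φ e b k a a' = El b p (v, a) := by
  refine b.ext fun r => ?_
  rw [Module.End.mul_apply, xk_b, El_b]
  by_cases hr : r.2 = a
  · rw [if_pos hr, pow_e b hl hb]
    by_cases h' : (r.1 : ℕ) + k < l
    · rw [dif_pos h', El_b]
      by_cases h'' : r.1 = v
      · rw [if_pos (by subst h''; rfl), if_pos (by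
          rw [← h'', ← hr])]
      · rw [if_neg, if_neg]
        · intro hh
          exact h'' (congrArg Prod.fst hh)
        · intro hh
          have := congrArg (fun q : Fin l × μ => (q.1 : ℕ)) hh
          simp only at this
          exact h'' (Fin.ext (by omega))
    · rw [dif_neg h', map_zero, if_neg]
      intro hh
      have := congrArg (fun q : Fin l × μ => (q.1 : ℕ)) hh
      simp only at this
      omega
  · rw [if_neg hr, map_zero, if_neg]
    intro hh
    exact hr (congrArg Prod.snd hh)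

/-- `x * E(u,c ← q)` -/
theorem xk_mul_El (hl : φ ^ l = 0) (hb : ∀ p, b p = (φ ^ (p.1 : ℕ)) (e p.2)) (k : ℕ)
    (a a' : μ) (p q : Fin l × μ) :
    xk φ e b k a a' * El b p q = if p.2 = a then
      (if h : (p.1 : ℕ) + k < l then El b (⟨p.1 + k, h⟩, a') q else 0) else 0 := by
  refine b.ext fun r => ?_
  rw [Module.End.mul_apply, El_b]
  by_cases hr : r = q
  · rw [if_pos hr, xk_b]
    by_cases hp : p.2 = a
    · rw [if_pos hp, if_pos hp, pow_e b hl hb]
      by_cases h : (p.1 : ℕ) + k < l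
      · rw [dif_pos h, dif_pos h, El_b, if_pos hr]
      · rw [dif_neg h, dif_neg h, LinearMap.zero_apply]
    · rw [if_neg hp, if_neg hp, LinearMap.zero_apply]
  · rw [if_neg hr, map_zero]
    by_cases hp : p.2 = a
    · rw [if_pos hp]
      by_cases h : (p.1 : ℕ) + k < l
      · rw [dif_pos h, El_b, if_neg hr]
      · rw [dif_neg h, LinearMap.zero_apply]
    · rw [if_neg hp, LinearMap.zero_apply]

/-- elementary maps going down the filtration are filtered -/
theorem filt_El (hl : φ ^ l = 0) (hb : ∀ p, b p = (φ ^ (p.1 : ℕ)) (e p.2)) {p q : Fin l × μ}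
    (h : q.1 ≤ p.1) : Filt φ φ (El b p q) := by
  intro j u hu
  unfold El
  rw [LinearMap.smulRight_apply]
  obtain ⟨u', rfl⟩ := hu
  by_cases hj : j ≤ q.1
  · refine Submodule.smul_mem _ _ ?_
    obtain ⟨r, hr⟩ := Nat.exists_eq_add_of_le (show j ≤ (p.1 : ℕ) from le_trans hj h)
    rw [hb, hr, pow_add, Module.End.mul_apply]
    exact ⟨_, rfl⟩
  · have h0 : b.coord q ((φ ^ j) u') = 0 := by
      have : (b.coord q) ∘ₗ (φ ^ j) = 0 := by
        refine b.ext fun t => ?_
        rw [LinearMap.comp_apply, LinearMap.zero_apply, pow_b b hl hb]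
        by_cases ht : (t.1 : ℕ) + j < l
        · rw [dif_pos ht, Basis.coord_apply, Basis.repr_self, Finsupp.single_eq_of_ne]
          intro hh
          have := congrArg (fun q : Fin l × μ => (q.1 : ℕ)) hh
          simp only at this
          omega
        · rw [dif_neg ht, map_zero]
      exact LinearMap.congr_fun this u'
    rw [h0, zero_smul]
    exact Submodule.zero_mem _

section rel

variable {n : Type*} (κ : μ → n) (f : End K M →ₗ[K] E) (Q : Submodule K E)

/-- the relations coming from the products -/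
structure Rel (φ : End K M) (e : μ → M) (b : Basis (Fin l × μ) K M) (κ : μ → n)
    (f : End K M →ₗ[K] E) (Q : Submodule K E) : Prop where
  two : ∀ a, ∃ a', κ a ≠ κ a'
  off : ∀ p q : Fin l × μ, q.1 ≤ p.1 → κ p.2 ≠ κ q.2 → f (El b p q) ∈ Q
  prod : ∀ (k : ℕ) (a a' c : μ) (u v : Fin l), κ a ≠ κ a' → κ c = κ a → v ≤ u →
    f (El b (u, c) (v, a') * xk φ e b k a a' - xk φ e b k a a' * El b (u, c) (v, a')) ∈ Q

variable {κ f Q}

theorem Rel.ne (h : Rel φ e b κ f Q) (hl : φ ^ l = 0)
    (hb : ∀ p, b p = (φ ^ (p.1 : ℕ)) (e p.2)) {p q : Fin l × μ} (hpq : q.1 ≤ p.1)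
    (hne : p.2 ≠ q.2) : f (El b p q) ∈ Q := by
  by_cases hk : κ p.2 = κ q.2
  · obtain ⟨a', ha'⟩ := h.two q.2
    have h1 := h.prod 0 q.2 a' p.2 p.1 q.1 ha' hk hpq
    have h2 := El_mul_xk b hl hb 0 q.2 a' (p.1, p.2) q.1 (by simp)
    have h3 := xk_mul_El b hl hb 0 q.2 a' (p.1, p.2) (q.1, a')
    rw [if_neg (by simpa using hne)] at h3
    simp only [add_zero, Fin.eta] at h2
    rw [h2, h3, sub_zero] at h1
    exact h1
  · exact h.off p q hpq hk

theorem Rel.same (h : Rel φ e b κ f Q) (hl : φ ^ l = 0)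
    (hb : ∀ p, b p = (φ ^ (p.1 : ℕ)) (e p.2)) {u v : Fin l} (huv : v ≤ u) {a a' : μ}
    (hk : κ a ≠ κ a') : f (El b (u, a) (v, a)) - f (El b (u, a') (v, a')) ∈ Q := by
  have h1 := h.prod 0 a a' a u v hk rfl huv
  have h2 := El_mul_xk b hl hb 0 a a' (u, a) v (by simp)
  have h3 := xk_mul_El b hl hb 0 a a' (u, a) (v, a')
  rw [if_pos rfl, dif_pos (show ((u, a) : Fin l × μ).1.1 + 0 < l by simp)] at h3
  simp only [add_zero, Fin.eta] at h2 h3
  rw [h2, h3, map_sub] at h1
  exact h1

theorem Rel.shift (h : Rel φ e b κ f Q) (hl : φ ^ l = 0)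
    (hb : ∀ p, b p = (φ ^ (p.1 : ℕ)) (e p.2)) {u v : Fin l} (huv : v < u) {a a' : μ}
    (hk : κ a ≠ κ a') : f (El b (u, a) (v, a)) - (if h : (u : ℕ) + 1 < l then
      f (El b (⟨u + 1, h⟩, a') (⟨v + 1, by omega⟩, a')) else 0) ∈ Q := by
  have hv : (v : ℕ) + 1 < l := by
    have := u.2
    have h' : (v : ℕ) < u := huv
    omega
  have h1 := h.prod 1 a a' a u ⟨v + 1, hv⟩ hk rfl (by
    rw [Fin.le_def]
    exact huv)
  rw [El_mul_xk b hl hb 1 a a' (u, a) v hv, xk_mul_El b hl hb, if_pos rfl, map_sub] at h1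
  by_cases hu : (u : ℕ) + 1 < l
  · rw [dif_pos hu] at h1 ⊢
    exact h1
  · rw [dif_neg hu] at h1 ⊢
    rw [map_zero] at h1
    exact h1

theorem Rel.strict (h : Rel φ e b κ f Q) (hl : φ ^ l = 0)
    (hb : ∀ p, b p = (φ ^ (p.1 : ℕ)) (e p.2)) : ∀ (m : ℕ) (u v : Fin l), l ≤ u + m → v < u →
      ∀ a, f (El b (u, a) (v, a)) ∈ Q := by
  intro m
  induction m with
  | zero =>
    intro u v hu
    have := u.2
    omega
  | succ m ih =>
    intro u v hu huv a
    obtain ⟨a', ha'⟩ := h.two a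
    have h1 := h.shift b hl hb huv ha'
    by_cases hu' : (u : ℕ) + 1 < l
    · rw [dif_pos hu'] at h1
      have h2 := ih ⟨u + 1, hu'⟩ ⟨v + 1, by
        have h' : (v : ℕ) < u := huv
        omega⟩ (by simp only; omega) (by
          rw [Fin.lt_def]
          have h' : (v : ℕ) < u := huv
          simp only
          omega) a'
      have h3 := Q.add_mem h1 h2
      rwa [sub_add_cancel] at h3
    · rw [dif_neg hu', sub_zero] at h1
      exact h1

theorem Rel.diag (h : Rel φ e b κ f Q) (hl : φ ^ l = 0)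
    (hb : ∀ p, b p = (φ ^ (p.1 : ℕ)) (e p.2)) (v : Fin l) (a a' : μ) :
    f (El b (v, a) (v, a)) - f (El b (v, a') (v, a')) ∈ Q := by
  by_cases hk : κ a = κ a'
  · obtain ⟨c, hc⟩ := h.two a
    have h1 := h.same b hl hb (le_refl v) hc
    have h2 := h.same b hl hb (le_refl v) (a := a') (a' := c) (by rw [← hk]; exact hc)
    have h3 := Q.sub_mem h1 h2
    rwa [sub_sub_sub_cancel_right] at h3
  · exact h.same b hl hb (le_refl v) hk

/-- **filtered maps with trace zero on every graded piece** -/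
theorem Rel.mem_of_diag (h : Rel φ e b κ f Q) (hl : φ ^ l = 0)
    (hb : ∀ p, b p = (φ ^ (p.1 : ℕ)) (e p.2)) {A : End K M}
    (hA : ∀ p q : Fin l × μ, p.1 < q.1 → b.repr (A (b q)) p = 0)
    (htr : ∀ v : Fin l, ∑ a, b.repr (A (b (v, a))) (v, a) = 0) : f A ∈ Q := by
  have h1 : f A = ∑ q : Fin l × μ, ∑ p, b.repr (A (b q)) p • f (El b p q) := by
    conv_lhs => rw [expand b A]
    rw [map_sum]
    refine Finset.sum_congr rfl fun q _ => ?_
    rw [map_sum]
    exact Finset.sum_congr rfl fun p _ => map_smul _ _ _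
  -- off diagonal entries are in `Q`
  have h2 : ∀ q : Fin l × μ, (∑ p, b.repr (A (b q)) p • f (El b p q))
      - b.repr (A (b q)) q • f (El b q q) ∈ Q := by
    intro q
    rw [← Finset.add_sum_erase _ _ (Finset.mem_univ q), add_sub_cancel_left]
    refine Q.sum_mem fun p hp => ?_
    have hpq : p ≠ q := Finset.ne_of_mem_erase hp
    by_cases hlt : p.1 < q.1
    · rw [hA p q hlt, zero_smul]
      exact Q.zero_mem
    · refine Q.smul_mem _ ?_
      have hle : q.1 ≤ p.1 := not_lt.mp hlt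
      by_cases h2 : p.2 = q.2
      · have h3 : q.1 ≠ p.1 := fun h' => hpq (Prod.ext h'.symm h2)
        have h4 := h.strict b hl hb l p.1 q.1 (by omega) (lt_of_le_of_ne hle h3) q.2
        have h5 : (p.1, q.2) = p := by rw [← h2]
        rwa [h5] at h4
      · exact h.ne b hl hb hle h2
  have h3 : f A - ∑ q : Fin l × μ, b.repr (A (b q)) q • f (El b q q) ∈ Q := by
    rw [h1, ← Finset.sum_sub_distrib]
    exact Q.sum_mem fun q _ => h2 q
  have h4 : ∑ q : Fin l × μ, b.repr (A (b q)) q • f (El b q q) ∈ Q := by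
    rw [Fintype.sum_prod_type]
    refine Q.sum_mem fun v _ => ?_
    by_cases hμ : Nonempty μ
    · obtain ⟨a0⟩ := hμ
      have h5 : ∑ a, b.repr (A (b (v, a))) (v, a) • f (El b (v, a) (v, a))
          = ∑ a, b.repr (A (b (v, a))) (v, a) •
            (f (El b (v, a) (v, a)) - f (El b (v, a0) (v, a0))) := by
        have h6 : ∑ a, b.repr (A (b (v, a))) (v, a) • f (El b (v, a0) (v, a0)) = 0 := by
          rw [← Finset.sum_smul, htr, zero_smul]
        simp only [smul_sub, Finset.sum_sub_distrib, h6, sub_zero]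
      rw [h5]
      exact Q.sum_mem fun a _ => Q.smul_mem _ (h.diag b hl hb v a a0)
    · have : IsEmpty μ := not_nonempty_iff.mp hμ
      rw [Finset.univ_eq_empty, Finset.sum_empty]
      exact Q.zero_mem
  have h5 := Q.add_mem h3 h4
  rwa [sub_add_cancel] at h5

/-- the functional `τ` -/
noncomputable def tau (hl0 : 0 < l) : End K M →ₗ[K] K where
  toFun A := ∑ a, b.repr (A (b (⟨0, hl0⟩, a))) (⟨0, hl0⟩, a)
  map_add' A A' := by
    rw [← Finset.sum_add_distrib]
    refine Finset.sum_congr rfl fun a _ => ?_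
    rw [LinearMap.add_apply, map_add, Finsupp.add_apply]
  map_smul' c A := by
    rw [RingHom.id_apply, smul_eq_mul, Finset.mul_sum]
    refine Finset.sum_congr rfl fun a _ => ?_
    rw [LinearMap.smul_apply, map_smul, Finsupp.smul_apply, smul_eq_mul]

/-- twisted commutation -/
theorem twist_pow {X : End K M} {ζ : K} (hX : X * φ = ζ • (φ * X)) (v : ℕ) :
    X * φ ^ v = ζ ^ v • (φ ^ v * X) := by
  induction v with
  | zero => simp
  | succ v ih =>
    rw [pow_succ, ← mul_assoc, ih, smul_mul_assoc, mul_assoc, hX, mul_smul_comm, smul_smul,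
      ← pow_succ, mul_assoc]

theorem repr_pow (hl : φ ^ l = 0) (hb : ∀ p, b p = (φ ^ (p.1 : ℕ)) (e p.2)) (v : ℕ) (x : M)
    (p : Fin l × μ) : b.repr ((φ ^ v) x) p =
      if h : v ≤ (p.1 : ℕ) then b.repr x (⟨p.1 - v, by omega⟩, p.2) else 0 := by
  have key : (b.coord p) ∘ₗ (φ ^ v) =
      if h : v ≤ (p.1 : ℕ) then b.coord (⟨p.1 - v, by omega⟩, p.2) else 0 := by
    refine b.ext fun t => ?_
    rw [LinearMap.comp_apply, pow_b b hl hb]
    by_cases h : v ≤ (p.1 : ℕ)
    · rw [dif_pos h]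
      by_cases ht : (t.1 : ℕ) + v < l
      · rw [dif_pos ht, Basis.coord_apply, Basis.coord_apply, Basis.repr_self, Basis.repr_self]
        by_cases hh : t = (⟨p.1 - v, by omega⟩, p.2)
        · have e1 : (t.1 : ℕ) = p.1 - v := by rw [hh]
          have e2 : t.2 = p.2 := by rw [hh]
          have e3 : (((⟨(t.1 : ℕ) + v, ht⟩ : Fin l), t.2) : Fin l × μ) = p := by
            refine Prod.ext (Fin.ext ?_) e2
            simp only
            omega
          rw [← hh, Finsupp.single_eq_same, e3, Finsupp.single_eq_same]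
        · rw [Finsupp.single_eq_of_ne (fun h' => hh h'.symm), Finsupp.single_eq_of_ne]
          intro h'
          apply hh
          refine Prod.ext (Fin.ext ?_) ?_
          · have := congrArg (fun q : Fin l × μ => (q.1 : ℕ)) h'
            simp only at this ⊢
            omega
          · exact (congrArg Prod.snd h').symm
      · rw [dif_neg ht, map_zero, Basis.coord_apply, Basis.repr_self, Finsupp.single_eq_of_ne]
        intro h'
        have := congrArg (fun q : Fin l × μ => (q.1 : ℕ)) h'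
        simp only at this
        have := p.1.2
        omega
    · rw [dif_neg h, LinearMap.zero_apply]
      by_cases ht : (t.1 : ℕ) + v < l
      · rw [dif_pos ht, Basis.coord_apply, Basis.repr_self, Finsupp.single_eq_of_ne]
        intro h'
        have := congrArg (fun q : Fin l × μ => (q.1 : ℕ)) h'
        simp only at this
        omega
      · rw [dif_neg ht, map_zero]
  have h1 := LinearMap.congr_fun key x
  rw [LinearMap.comp_apply, Basis.coord_apply] at h1
  rw [h1]
  by_cases h : v ≤ (p.1 : ℕ)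
  · rw [dif_pos h, dif_pos h, Basis.coord_apply]
  · rw [dif_neg h, dif_neg h, LinearMap.zero_apply]

theorem twist_repr (hl : φ ^ l = 0) (hb : ∀ p, b p = (φ ^ (p.1 : ℕ)) (e p.2))
    {X : End K M} {ζ : K} (hX : X * φ = ζ • (φ * X)) (p q : Fin l × μ) :
    b.repr (X (b q)) p = if h : (q.1 : ℕ) ≤ p.1 then
      ζ ^ (q.1 : ℕ) * b.repr (X (e q.2)) (⟨p.1 - q.1, by omega⟩, p.2) else 0 := by
  have h1 : X (b q) = ζ ^ (q.1 : ℕ) • (φ ^ (q.1 : ℕ)) (X (e q.2)) := by
    rw [hb, ← Module.End.mul_apply, twist_pow hX, LinearMap.smul_apply, Module.End.mul_apply]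
  rw [h1, map_smul, Finsupp.smul_apply, repr_pow b hl hb, smul_eq_mul]
  by_cases h : (q.1 : ℕ) ≤ p.1
  · rw [dif_pos h, dif_pos h]
  · rw [dif_neg h, dif_neg h, mul_zero]

/-- **twisted-commuting maps with `τ X = 0`** -/
theorem Rel.mem_of_twist (h : Rel φ e b κ f Q) (hl : φ ^ l = 0)
    (hb : ∀ p, b p = (φ ^ (p.1 : ℕ)) (e p.2)) (hl0 : 0 < l) {X : End K M} {ζ : K}
    (hX : X * φ = ζ • (φ * X)) (ht : tau b hl0 X = 0) : f X ∈ Q := by
  refine h.mem_of_diag b hl hb ?_ ?_
  · intro p q hpq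
    rw [twist_repr b hl hb hX, dif_neg]
    exact not_le.mpr hpq
  · intro v
    have h1 : ∀ a, b.repr (X (b (v, a))) (v, a) =
        ζ ^ (v : ℕ) * b.repr (X (b (⟨0, hl0⟩, a))) (⟨0, hl0⟩, a) := by
      intro a
      rw [twist_repr b hl hb hX, dif_pos (le_refl _), hb]
      simp
    simp only [h1]
    rw [← Finset.mul_sum]
    have h2 : ∑ a, b.repr (X (b (⟨0, hl0⟩, a))) (⟨0, hl0⟩, a) = 0 := ht
    rw [h2, mul_zero]

/-- the trace of a map commuting with `φ` -/
theorem trace_eq (hl : φ ^ l = 0) (hb : ∀ p, b p = (φ ^ (p.1 : ℕ)) (e p.2)) (hl0 : 0 < l)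
    {X : End K M} (hX : X * φ = φ * X) : trace K M X = l * tau b hl0 X := by
  classical
  rw [LinearMap.trace_eq_matrix_trace K b, Matrix.trace]
  simp only [Matrix.diag_apply, LinearMap.toMatrix_apply]
  rw [Fintype.sum_prod_type]
  have h1 : ∀ (v : Fin l) a, b.repr (X (b (v, a))) (v, a) =
      b.repr (X (b (⟨0, hl0⟩, a))) (⟨0, hl0⟩, a) := by
    intro v a
    rw [twist_repr b hl hb (ζ := 1) (by rw [one_smul]; exact hX), dif_pos (le_refl _), hb]
    simp
  simp only [h1]
  rw [Finset.sum_const, Finset.card_univ, Fintype.card_fin, nsmul_eq_mul]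
  rfl

end rel

end core

end Crest.Agent.R172.Ptr
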