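import Crest.Agent.R172.Dual1

/-!
# Row 172: transfer of the core data along a surjection `θ : P → P1` with `ker θ ≤ R`

helper949, for helper586 (node Q-Push).
-/

set_option autoImplicit false
set_option linter.unusedSectionVars false

namespace Crest.Agent.R172.PushQ

open Module LinearMap
open Crest.Agent.R172.Dual (Kills)

variable {K : Type*} [Field K] {τ : Type*} {P P1 : Type*} [AddCommGroup P] [Module K P]
  [AddCommGroup P1] [Module K P1]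

/-- The data of a surjection compatible with the operators. -/
structure Push (Φ : τ → End K P) (R : Submodule K P) (A : τ → End K P1) (R1 : Submodule K P1)
    (θ : P →ₗ[K] P1) : Prop where
  surj : Function.Surjective θ
  comm : ∀ s p, θ (Φ s p) = A s (θ p)
  ker : ∀ p, θ p = 0 → p ∈ R
  eq : R1 = R.map θ

variable {Φ : τ → End K P} {R : Submodule K P} {A : τ → End K P1} {R1 : Submodule K P1}
  {θ : P →ₗ[K] P1}

theorem Push.mem_iff (h : Push Φ R A R1 θ) {p : P} : θ p ∈ R1 ↔ p ∈ R := by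
  rw [h.eq]
  constructor
  · rintro ⟨q, hq, hqp⟩
    have h1 : θ (p - q) = 0 := by rw [map_sub, hqp, sub_self]
    have h2 : p = (p - q) + q := by abel
    rw [h2]
    exact R.add_mem (h.ker _ h1) hq
  · intro hp
    exact ⟨p, hp, rfl⟩

theorem Push.pow (h : Push Φ R A R1 θ) (s : τ) (k : ℕ) (p : P) :
    θ ((Φ s ^ k) p) = (A s ^ k) (θ p) := by
  induction k with
  | zero => rfl
  | succ k ih => rw [pow_succ', pow_succ', Module.End.mul_apply, Module.End.mul_apply, h.comm, ih]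

theorem Push.word (h : Push Φ R A R1 θ) (w : List τ) (p : P) :
    θ ((w.map Φ).prod p) = (w.map A).prod (θ p) := by
  induction w with
  | nil => simp
  | cons s w ih =>
    rw [List.map_cons, List.prod_cons, List.map_cons, List.prod_cons, Module.End.mul_apply,
      Module.End.mul_apply, h.comm, ih]

theorem Push.top (h : Push Φ R A R1 θ) (htop : ⨆ s, range (Φ s) = ⊤) :
    ⨆ s, range (A s) = ⊤ := by
  rw [eq_top_iff]
  have h1 : (⊤ : Submodule K P1) = (⨆ s, range (Φ s)).map θ := by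
    rw [htop, Submodule.map_top, LinearMap.range_eq_top.2 h.surj]
  rw [h1, Submodule.map_iSup]
  refine iSup_mono fun s => ?_
  rintro _ ⟨_, ⟨p, rfl⟩, rfl⟩
  exact ⟨θ p, (h.comm s p).symm⟩

theorem Push.perf [Fintype τ] (h : Push Φ R A R1 θ) (hp : ∀ p, ∃ f : τ → P, p = ∑ t, Φ t (f t))
    (p : P1) : ∃ f : τ → P1, p = ∑ t, A t (f t) := by
  obtain ⟨p, rfl⟩ := h.surj p
  obtain ⟨f, hf⟩ := hp p
  refine ⟨fun t => θ (f t), ?_⟩
  conv_lhs => rw [hf, map_sum]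
  exact Finset.sum_congr rfl fun t _ => h.comm t _

theorem Push.stable (h : Push Φ R A R1 θ) (hst : ∀ t, ∀ r ∈ R, Φ t r ∈ R) (t : τ) (r : P1)
    (hr : r ∈ R1) : A t r ∈ R1 := by
  obtain ⟨p, rfl⟩ := h.surj r
  rw [← h.comm, h.mem_iff]
  exact hst t p (h.mem_iff.1 hr)

theorem Push.kills_n (h : Push Φ R A R1 θ) {n : ℕ} (hn : ∀ r ∈ R, Kills Φ n r) (r : P1)
    (hr : r ∈ R1) : Kills A n r := by
  intro w hw
  obtain ⟨p, rfl⟩ := h.surj r
  rw [← h.word, hn p (h.mem_iff.1 hr) w hw, map_zero]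

theorem Push.kills (h : Push Φ R A R1 θ) (hn : ∃ n, ∀ r ∈ R, Kills Φ n r) :
    ∃ n, ∀ r ∈ R1, Kills A n r := by
  obtain ⟨n, hn⟩ := hn
  exact ⟨n, h.kills_n hn⟩

theorem Push.pow_mem (h : Push Φ R A R1 θ) {s : τ} {k : ℕ} (hk : ∀ p, (Φ s ^ k) p ∈ R) (p : P1) :
    (A s ^ k) p ∈ R1 := by
  obtain ⟨p, rfl⟩ := h.surj p
  rw [← h.pow, h.mem_iff]
  exact hk p

theorem Push.notMem (h : Push Φ R A R1 θ) {s : τ} {k : ℕ} (hk : ∃ p, (Φ s ^ k) p ∉ R) :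
    ∃ p, (A s ^ k) p ∉ R1 := by
  obtain ⟨p, hp⟩ := hk
  exact ⟨θ p, by rw [← h.pow, h.mem_iff]; exact hp⟩

theorem Push.gen (h : Push Φ R A R1 θ) {l : τ → ℕ}
    (hg : ∀ S : Submodule K P, (∀ s p, (Φ s ^ l s) p ∈ S) → (∀ t, ∀ r ∈ S, Φ t r ∈ S) → R ≤ S)
    (S : Submodule K P1) (hpow : ∀ s p, (A s ^ l s) p ∈ S) (hst : ∀ t, ∀ r ∈ S, A t r ∈ S) :
    R1 ≤ S := by
  have h1 : R ≤ S.comap θ := by
    refine hg _ (fun s p => ?_) (fun t r hr => ?_)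
    · rw [Submodule.mem_comap, h.pow]
      exact hpow s _
    · rw [Submodule.mem_comap, h.comm]
      exact hst t _ hr
  rw [h.eq, Submodule.map_le_iff_le_comap]
  exact h1

theorem Push.sum [Fintype τ] (h : Push Φ R A R1 θ) (hs : ∀ p, ∑ s, Φ s p = 0) (p : P1) :
    ∑ s, A s p = 0 := by
  obtain ⟨p, rfl⟩ := h.surj p
  rw [← map_zero θ, ← hs p, map_sum]
  exact Finset.sum_congr rfl fun s _ => (h.comm s p).symm

theorem Push.two_arm (h : Push Φ R A R1 θ) {t u : τ}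
    (h2 : ∃ x y, Φ t x + Φ u y ∈ R ∧ Φ t x ∉ R) : ∃ x y, A t x + A u y ∈ R1 ∧ A t x ∉ R1 := by
  obtain ⟨x, y, h3, h4⟩ := h2
  refine ⟨θ x, θ y, ?_, ?_⟩
  · rw [← h.comm, ← h.comm, ← map_add, h.mem_iff]
    exact h3
  · rw [← h.comm, h.mem_iff]
    exact h4

theorem Push.rad (h : Push Φ R A R1 θ) (w : P →ₗ[K] P →ₗ[K] K) (w1 : P1 →ₗ[K] P1 →ₗ[K] K)
    (hw : ∀ x y, w1 (θ x) (θ y) = w x y) (hR : ∀ x, x ∈ R ↔ ∀ y, w x y = 0) (x : P1) :
    x ∈ R1 ↔ ∀ y, w1 x y = 0 := by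
  obtain ⟨x, rfl⟩ := h.surj x
  rw [h.mem_iff, hR]
  constructor
  · intro h1 y
    obtain ⟨y, rfl⟩ := h.surj y
    rw [hw, h1]
  · intro h1 y
    rw [← hw, h1]

/-- A form killing the kernel on both sides descends. -/
theorem exists_form {θ : P →ₗ[K] P1} (hθ : Function.Surjective θ) (w : P →ₗ[K] P →ₗ[K] K)
    (h1 : ∀ x y, θ x = 0 → w x y = 0) (h2 : ∀ x y, θ y = 0 → w x y = 0) :
    ∃ w1 : P1 →ₗ[K] P1 →ₗ[K] K, ∀ x y, w1 (θ x) (θ y) = w x y := by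
  obtain ⟨σ, hσ⟩ := θ.exists_rightInverse_of_surjective (LinearMap.range_eq_top.2 hθ)
  have hσ' : ∀ x, θ (σ x) = x := fun x => LinearMap.congr_fun hσ x
  refine ⟨w.compl₁₂ σ σ, fun x y => ?_⟩
  show w (σ (θ x)) (σ (θ y)) = w x y
  have e1 : w (σ (θ x) - x) (σ (θ y)) = 0 := h1 _ _ (by rw [map_sub, hσ', sub_self])
  have e2 : w x (σ (θ y) - y) = 0 := h2 _ _ (by rw [map_sub, hσ', sub_self])
  rw [map_sub, LinearMap.sub_apply, sub_eq_zero] at e1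
  rw [map_sub, sub_eq_zero] at e2
  rw [e1, e2]

/-- `P/R ≅ P1/R1`. -/
noncomputable def Push.equiv (h : Push Φ R A R1 θ) : (P ⧸ R) ≃ₗ[K] (P1 ⧸ R1) :=
  LinearEquiv.ofBijective (R.mapQ R1 θ (fun _ hp => h.mem_iff.2 hp)) (by
    constructor
    · rw [← LinearMap.ker_eq_bot, LinearMap.ker_eq_bot']
      intro v hv
      induction v using Submodule.Quotient.induction_on with
      | _ p =>
        rw [Submodule.mapQ_apply, Submodule.Quotient.mk_eq_zero, h.mem_iff] at hv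
        exact (Submodule.Quotient.mk_eq_zero R).2 hv
    · intro v
      induction v using Submodule.Quotient.induction_on with
      | _ p =>
        obtain ⟨p, rfl⟩ := h.surj p
        exact ⟨Submodule.Quotient.mk p, rfl⟩)

theorem Push.equiv_mk (h : Push Φ R A R1 θ) (p : P) : h.equiv (R.mkQ p) = R1.mkQ (θ p) := rfl

theorem Push.finrank_quot (h : Push Φ R A R1 θ) : finrank K (P1 ⧸ R1) = finrank K (P ⧸ R) :=
  h.equiv.finrank_eq.symm

theorem Push.q_conj (h : Push Φ R A R1 θ) {Φq : τ → End K (P ⧸ R)} {Aq : τ → End K (P1 ⧸ R1)}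
    (hΦq : ∀ s x, Φq s (R.mkQ x) = R.mkQ (Φ s x)) (hAq : ∀ s x, Aq s (R1.mkQ x) = R1.mkQ (A s x))
    (s : τ) (v : P ⧸ R) : h.equiv (Φq s v) = Aq s (h.equiv v) := by
  obtain ⟨p, rfl⟩ := R.mkQ_surjective v
  rw [hΦq, h.equiv_mk, h.equiv_mk, hAq, h.comm]

theorem Push.q_conj_pow (h : Push Φ R A R1 θ) {Φq : τ → End K (P ⧸ R)}
    {Aq : τ → End K (P1 ⧸ R1)} (hΦq : ∀ s x, Φq s (R.mkQ x) = R.mkQ (Φ s x))
    (hAq : ∀ s x, Aq s (R1.mkQ x) = R1.mkQ (A s x)) (s : τ) (k : ℕ) (v : P ⧸ R) :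
    h.equiv ((Φq s ^ k) v) = (Aq s ^ k) (h.equiv v) := by
  induction k with
  | zero => rfl
  | succ k ih =>
    rw [pow_succ', pow_succ', Module.End.mul_apply, Module.End.mul_apply, h.q_conj hΦq hAq, ih]

theorem Push.q_pow (h : Push Φ R A R1 θ) {Φq : τ → End K (P ⧸ R)} {Aq : τ → End K (P1 ⧸ R1)}
    (hΦq : ∀ s x, Φq s (R.mkQ x) = R.mkQ (Φ s x)) (hAq : ∀ s x, Aq s (R1.mkQ x) = R1.mkQ (A s x))
    {s : τ} {k : ℕ} (h0 : Φq s ^ k = 0) : Aq s ^ k = 0 := by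
  apply LinearMap.ext
  intro v
  obtain ⟨v, rfl⟩ := h.equiv.surjective v
  rw [← h.q_conj_pow hΦq hAq, h0, LinearMap.zero_apply, LinearMap.zero_apply, map_zero]

theorem Push.q_ker (h : Push Φ R A R1 θ) {Φq : τ → End K (P ⧸ R)} {Aq : τ → End K (P1 ⧸ R1)}
    (hΦq : ∀ s x, Φq s (R.mkQ x) = R.mkQ (Φ s x)) (hAq : ∀ s x, Aq s (R1.mkQ x) = R1.mkQ (A s x))
    (s : τ) : finrank K (LinearMap.ker (Aq s)) = finrank K (LinearMap.ker (Φq s)) := by
  have h1 : LinearMap.ker (Aq s) = (LinearMap.ker (Φq s)).map (h.equiv : (P ⧸ R) →ₗ[K] (P1 ⧸ R1)) := by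
    ext v
    constructor
    · intro hv
      obtain ⟨v, rfl⟩ := h.equiv.surjective v
      refine ⟨v, ?_, rfl⟩
      have h2 : h.equiv (Φq s v) = 0 := by
        rw [h.q_conj hΦq hAq]
        exact hv
      exact (map_eq_zero_iff _ h.equiv.injective).1 h2
    · rintro ⟨v, hv, rfl⟩
      show Aq s (h.equiv v) = 0
      rw [← h.q_conj hΦq hAq]
      have h2 : Φq s v = 0 := hv
      rw [h2, map_zero]
  rw [h1]
  exact LinearEquiv.finrank_map_eq h.equiv _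

theorem Push.q_free (h : Push Φ R A R1 θ) {Φq : τ → End K (P ⧸ R)} {Aq : τ → End K (P1 ⧸ R1)}
    (hΦq : ∀ s x, Φq s (R.mkQ x) = R.mkQ (Φ s x)) (hAq : ∀ s x, Aq s (R1.mkQ x) = R1.mkQ (A s x))
    {s : τ} {l : ℕ} (hf : l * finrank K (LinearMap.ker (Φq s)) = finrank K (P ⧸ R)) :
    l * finrank K (LinearMap.ker (Aq s)) = finrank K (P1 ⧸ R1) := by
  rw [h.q_ker hΦq hAq, h.finrank_quot, hf]

theorem exists_q {A : τ → End K P1} {R1 : Submodule K P1} (hst : ∀ t, ∀ r ∈ R1, A t r ∈ R1) :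
    ∃ Aq : τ → End K (P1 ⧸ R1), ∀ s x, Aq s (R1.mkQ x) = R1.mkQ (A s x) :=
  ⟨fun s => R1.mapQ R1 (A s) (fun r hr => hst s r hr), fun _ _ => rfl⟩

end Crest.Agent.R172.PushQ
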