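import Crest.Agent.R172.Mix3
import Crest.Agent.R172.Def1
import Crest.Agent.R172.Dual1

/-!
Row 172 (S0260): from the core data of a family `a : ι → End K X` (files `Mix1`-`Mix3`) to the
hypotheses of the span lemmas (`Dual1`, `RJ1`, `Span2`): the perfect module `Pinf a` with
operators `ap a s`, its nilpotent submodule `TP a`; and the twist lemma.
-/

set_option autoImplicit false
set_option linter.unusedSectionVars false

namespace Crest.Agent.R172.QBlk

open Module LinearMap
open Crest.Agent.R172.St (T Nk mem_T T_stable T_closed mem_Nk_succ mem_Nk_zero Nk_le_T T_eq_Nk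
  Nk_mono Nk_le_succ)
open Crest.Agent.R172.Mix
open Crest.Agent.R172.Dual (Kills)

variable {K : Type*} [Field K] {X : Type*} [AddCommGroup X] [Module K X] {ι : Type*}

/-- the restriction of `a s` to the perfect part `Pinf a` -/
def ap (a : ι → End K X) (s : ι) : End K (Pinf a) :=
  (a s).restrict fun _ hv => Pinf_stable s hv

theorem ap_coe (a : ι → End K X) (s : ι) (p : Pinf a) : ((ap a s p : Pinf a) : X) = a s p := rfl

theorem ap_pow_coe (a : ι → End K X) (s : ι) (k : ℕ) (p : Pinf a) :
    (((ap a s ^ k) p : Pinf a) : X) = (a s ^ k) p := by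
  induction k with
  | zero => rfl
  | succ k ih =>
    rw [pow_succ', pow_succ', Module.End.mul_apply, Module.End.mul_apply, ap_coe, ih]

/-- `Pinf a` is perfect (supremum form) -/
theorem ap_top [FiniteDimensional K X] (a : ι → End K X) : ⨆ s, range (ap a s) = ⊤ := by
  rw [eq_top_iff]
  rintro p -
  have hle : ∀ q (hq : q ∈ ⨆ s, (Pinf a).map (a s)), ∃ hq' : q ∈ Pinf a,
      (⟨q, hq'⟩ : Pinf a) ∈ ⨆ s, range (ap a s) := by
    intro q hq
    induction hq using Submodule.iSup_induction' with
    | mem s x hx =>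
      obtain ⟨w, hw, rfl⟩ := hx
      exact ⟨Pinf_stable s hw, Submodule.mem_iSup_of_mem s ⟨⟨w, hw⟩, rfl⟩⟩
    | zero => exact ⟨(Pinf a).zero_mem, Submodule.zero_mem _⟩
    | add x y _ _ hx hy =>
      obtain ⟨hx1, hx2⟩ := hx
      obtain ⟨hy1, hy2⟩ := hy
      exact ⟨(Pinf a).add_mem hx1 hy1, Submodule.add_mem _ hx2 hy2⟩
  obtain ⟨hq', h⟩ := hle p (by rw [Pinf_eq_iSup]; exact p.2)
  exact h

/-- `Pinf a` is perfect (sum form) -/
theorem ap_perf [FiniteDimensional K X] [Fintype ι] (a : ι → End K X) (p : Pinf a) :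
    ∃ f : ι → Pinf a, p = ∑ t, ap a t (f t) := by
  classical
  have h : p ∈ ⨆ s, range (ap a s) := by rw [ap_top]; trivial
  induction h using Submodule.iSup_induction' with
  | mem s x hx =>
    obtain ⟨w, rfl⟩ := hx
    refine ⟨Pi.single s w, ?_⟩
    rw [Finset.sum_eq_single s]
    · rw [Pi.single_eq_same]
    · intro t _ ht
      rw [Pi.single_eq_of_ne ht, map_zero]
    · intro hh
      exact absurd (Finset.mem_univ _) hh
  | zero => exact ⟨0, by simp⟩
  | add x y _ _ hx hy =>
    obtain ⟨f, hf⟩ := hx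
    obtain ⟨g, hg⟩ := hy
    refine ⟨fun t => f t + g t, ?_⟩
    simp only [map_add, Finset.sum_add_distrib]
    rw [← hf, ← hg]

theorem TP_stable {a : ι → End K X} (t : ι) {r : Pinf a} (hr : r ∈ TP a) : ap a t r ∈ TP a :=
  T_stable t hr

theorem Nk_words {a : ι → End K X} : ∀ (m : ℕ) (v : X), v ∈ Nk a m →
    ∀ w : List ι, w.length = m → (w.map a).prod v = 0 := by
  intro m
  induction m with
  | zero =>
    intro v hv w _
    rw [mem_Nk_zero] at hv
    rw [hv, map_zero]
  | succ m ih =>
    intro v h w hw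
    obtain ⟨l', s, rfl⟩ : ∃ l' s, w = l' ++ [s] := by
      rcases List.eq_nil_or_concat w with h0 | ⟨l', s, h0⟩
      · rw [h0] at hw; simp at hw
      · exact ⟨l', s, by rw [h0, List.concat_eq_append]⟩
    rw [List.map_append, List.prod_append]
    simp only [List.map_cons, List.map_nil, List.prod_cons, List.prod_nil, mul_one]
    rw [Module.End.mul_apply]
    refine ih _ (mem_Nk_succ.1 h s) l' ?_
    simpa using hw

theorem ap_words_coe (a : ι → End K X) (w : List ι) (p : Pinf a) :
    (((w.map (ap a)).prod p : Pinf a) : X) = (w.map a).prod p := by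
  induction w with
  | nil => simp
  | cons s w ih =>
    rw [List.map_cons, List.prod_cons, List.map_cons, List.prod_cons, Module.End.mul_apply,
      Module.End.mul_apply, ap_coe, ih]

theorem TP_kills [FiniteDimensional K X] (a : ι → End K X) :
    ∃ n, ∀ r ∈ TP a, Kills (ap a) n r := by
  obtain ⟨k, hk⟩ := T_eq_Nk a
  refine ⟨k, fun r hr w hw => Subtype.ext ?_⟩
  rw [ap_words_coe]
  have hr' : (r : X) ∈ T a := hr
  rw [hk] at hr'
  exact Nk_words k _ hr' w hw

theorem ac_pow_mk {a : ι → End K X} (s : ι) (k : ℕ) (p : Pinf a) :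
    (ac a s ^ k) (Submodule.Quotient.mk p) = Submodule.Quotient.mk ((ap a s ^ k) p) := by
  induction k with
  | zero => rfl
  | succ k ih =>
    rw [pow_succ', Module.End.mul_apply, ih, ac_mk, pow_succ', Module.End.mul_apply]
    rfl

theorem pow_mem_TP {a : ι → End K X} {s : ι} {k : ℕ} (h : ac a s ^ k = 0) (p : Pinf a) :
    (ap a s ^ k) p ∈ TP a := by
  rw [← Submodule.Quotient.mk_eq_zero (TP a), ← ac_pow_mk, h, LinearMap.zero_apply]

theorem exists_pow_notMem {a : ι → End K X} {s : ι} {k : ℕ} (h : ac a s ^ k ≠ 0) :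
    ∃ p, (ap a s ^ k) p ∉ TP a := by
  by_contra hc
  push Not at hc
  apply h
  apply LinearMap.ext
  intro v
  induction v using Submodule.Quotient.induction_on with
  | _ p =>
    rw [ac_pow_mk, LinearMap.zero_apply]
    exact (Submodule.Quotient.mk_eq_zero (TP a)).2 (hc p)

/-- `∑ rank = 2 dim`, `∑ dim ker = dim` -/
theorem sum_ker {M : Type*} [AddCommGroup M] [Module K M] [FiniteDimensional K M]
    {φ : Fin 3 → End K M} {l : Fin 3 → ℕ} (hl1 : ∀ s, 1 ≤ l s)
    (hfree : ∀ s, l s * finrank K (ker (φ s)) = finrank K M)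
    (hS2 : ∑ s, (1 - 1 / (l s : ℚ)) = 2) : ∑ s, finrank K (ker (φ s)) = finrank K M := by
  have h1 : ∀ s, (finrank K (ker (φ s)) : ℚ) = finrank K M * (1 / (l s : ℚ)) := by
    intro s
    have hls : (l s : ℚ) ≠ 0 := by
      have := hl1 s
      positivity
    have := hfree s
    have h2 : (l s : ℚ) * finrank K (ker (φ s)) = finrank K M := by exact_mod_cast this
    field_simp
    linarith
  have h2 : (∑ s, finrank K (ker (φ s)) : ℚ) = finrank K M := by
    rw [Finset.sum_congr rfl fun s _ => h1 s, ← Finset.mul_sum]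
    have h3 : ∑ s, (1 / (l s : ℚ)) = 1 := by
      simp only [Fin.sum_univ_three] at hS2 ⊢
      linarith
    rw [h3, mul_one]
  exact_mod_cast h2

section gen

variable {a : Fin 3 → End K X}

/-- one step of `gen` -/
theorem gen_step [FiniteDimensional K X] {l : Fin 3 → ℕ} (hsum : ∀ v, ∑ s, a s v = 0)
    (hl1 : ∀ s, 1 ≤ l s) (hnil : ∀ s, ac a s ^ l s = 0)
    (hfree : ∀ s, l s * finrank K (ker (ac a s)) = finrank K (Cor a))
    (hS2 : ∑ s, (1 - 1 / (l s : ℚ)) = 2) {S : Submodule K (Pinf a)}
    (hpow : ∀ s p, (ap a s ^ l s) p ∈ S) :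
    TP a ≤ S ⊔ ⨆ s, (TP a).map (ap a s) := by
  classical
  intro r hr
  set D : Submodule K (Pinf a) := (S ⊓ TP a) ⊔ ⨆ s, (TP a).map (ap a s) with hD
  have hDT : D ≤ TP a := by
    refine sup_le inf_le_right (iSup_le fun s => ?_)
    rintro _ ⟨t, ht, rfl⟩
    exact TP_stable s ht
  -- the maps
  let b : Fin 3 → Cor a →ₗ[K] (Pinf a ⧸ D) := fun s =>
    (TP a).mapQ D (ap a s) (fun t ht =>
      Submodule.mem_sup_right (Submodule.mem_iSup_of_mem s ⟨t, ht, rfl⟩))
  let π : (Pinf a ⧸ D) →ₗ[K] Cor a := D.mapQ (TP a) LinearMap.id hDT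
  have hb : ∀ s p, b s (Submodule.Quotient.mk p) = Submodule.Quotient.mk (ap a s p) :=
    fun s p => rfl
  have hπb : ∀ s, π ∘ₗ b s = ac a s := by
    intro s
    apply LinearMap.ext
    intro v
    induction v using Submodule.Quotient.induction_on with
    | _ p => rfl
  have h1 := Def.ker_eq b π ?_ ?_ ?_ ?_ ?_ (Submodule.Quotient.mk r) ?_
  · obtain ⟨k, hk0, hk⟩ := h1
    have hz : ∀ s, b s (k s) = 0 := by
      intro s
      have h2 : ac a s (k s) = 0 := by rw [← hπb]; exact hk0 s
      have h3 : k s ∈ ker (ac a s ^ 1) := by rw [pow_one]; exact h2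
      rw [TC.ker_eq_range (hnil s) (hfree s) (hl1 s)] at h3
      obtain ⟨m, hm⟩ := h3
      induction m using Submodule.Quotient.induction_on with
      | _ p =>
        rw [← hm, ac_pow_mk, hb, Submodule.Quotient.mk_eq_zero]
        have h4 : ap a s ((ap a s ^ (l s - 1)) p) = (ap a s ^ l s) p := by
          rw [← Module.End.mul_apply, ← pow_succ', Nat.sub_add_cancel (hl1 s)]
        rw [h4]
        exact Submodule.mem_sup_left ⟨hpow s p, pow_mem_TP (hnil s) p⟩
    rw [Finset.sum_eq_zero fun s _ => hz s, Submodule.Quotient.mk_eq_zero] at hk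
    exact (sup_le (inf_le_left.trans le_sup_left) le_sup_right :
      D ≤ S ⊔ ⨆ s, (TP a).map (ap a s)) hk
  · apply LinearMap.ext
    intro v
    induction v using Submodule.Quotient.induction_on with
    | _ p =>
      rw [LinearMap.sum_apply, LinearMap.zero_apply]
      simp only [hb]
      have h2 : ∑ s, (Submodule.Quotient.mk (ap a s p) : Pinf a ⧸ D)
          = D.mkQ (∑ s, ap a s p) := by
        rw [map_sum]; rfl
      rw [h2]
      have h3 : ∑ s, ap a s p = 0 := by
        apply Subtype.ext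
        rw [Submodule.coe_sum]
        exact hsum p
      rw [h3, map_zero]
  · rw [eq_top_iff]
    rintro v -
    induction v using Submodule.Quotient.induction_on with
    | _ p =>
      obtain ⟨f, hf⟩ := ap_perf a p
      have h2 : (Submodule.Quotient.mk p : Pinf a ⧸ D)
          = ∑ s, b s (Submodule.Quotient.mk (f s)) := by
        have h3 : (Submodule.Quotient.mk p : Pinf a ⧸ D) = D.mkQ (∑ s, ap a s (f s)) := by
          rw [← hf]; rfl
        rw [h3, map_sum]
        rfl
      rw [h2]
      exact Submodule.sum_mem _ fun s _ =>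
        Submodule.mem_iSup_of_mem s ⟨_, rfl⟩
  · rw [LinearMap.range_eq_top]
    intro v
    induction v using Submodule.Quotient.induction_on with
    | _ p => exact ⟨Submodule.Quotient.mk p, rfl⟩
  · intro m hm
    refine ac_ker m fun s => ?_
    rw [← hπb]
    exact hm s
  · have h2 := sum_ker hl1 hfree hS2
    have h3 : ∑ s, finrank K (ker (π ∘ₗ b s)) = finrank K (Cor a) := by
      rw [← h2]
      exact Finset.sum_congr rfl fun s _ => by rw [hπb]
    rw [h3, Fintype.card_fin]
    ring
  · show (Submodule.Quotient.mk r : Cor a) = 0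
    exact (Submodule.Quotient.mk_eq_zero (TP a)).2 hr

/-- `TP a` is the smallest stable submodule containing the values of the powers
`(ap a s)^(l s)`. -/
theorem gen [FiniteDimensional K X] {l : Fin 3 → ℕ} (hsum : ∀ v, ∑ s, a s v = 0)
    (hl1 : ∀ s, 1 ≤ l s) (hnil : ∀ s, ac a s ^ l s = 0)
    (hfree : ∀ s, l s * finrank K (ker (ac a s)) = finrank K (Cor a))
    (hS2 : ∑ s, (1 - 1 / (l s : ℚ)) = 2) (S : Submodule K (Pinf a))
    (hpow : ∀ s p, (ap a s ^ l s) p ∈ S) (hst : ∀ t, ∀ r ∈ S, ap a t r ∈ S) : TP a ≤ S := by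
  have hstep := gen_step hsum hl1 hnil hfree hS2 hpow
  obtain ⟨n, hn⟩ := TP_kills a
  -- words
  have key : ∀ m, ∀ r ∈ TP a, (∀ w : List (Fin 3), w.length = m →
      (w.map (ap a)).prod r = 0) → r ∈ S := by
    -- use the descending filtration `Am m = A^m (TP a)`
    let Am : ℕ → Submodule K (Pinf a) := fun m =>
      Nat.rec (TP a) (fun _ U => ⨆ s, U.map (ap a s)) m
    have hAm : ∀ m, TP a ≤ S ⊔ Am m := by
      intro m
      induction m with
      | zero => exact le_sup_right
      | succ m ih =>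
        have h2 : ⨆ s, (TP a).map (ap a s) ≤ S ⊔ Am (m + 1) := by
          refine iSup_le fun s => ?_
          rintro _ ⟨t, ht, rfl⟩
          obtain ⟨u, hu, v, hv, rfl⟩ := Submodule.mem_sup.1 (ih ht)
          rw [map_add]
          exact Submodule.add_mem_sup (hst s u hu)
            (Submodule.mem_iSup_of_mem s ⟨v, hv, rfl⟩)
        exact hstep.trans (sup_le le_sup_left h2)
    have hz : ∀ m, ∀ r ∈ Am m, ∀ k (w : List (Fin 3)), w.length = k → n ≤ k + m →
        (w.map (ap a)).prod r = 0 := by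
      intro m
      induction m with
      | zero =>
        intro r hr k w hw hk
        obtain ⟨w1, w2, rfl, hw2⟩ : ∃ w1 w2 : List (Fin 3), w = w1 ++ w2 ∧ w2.length = n :=
          ⟨w.take (w.length - n), w.drop (w.length - n), (List.take_append_drop _ _).symm, by
            rw [List.length_drop]; omega⟩
        rw [List.map_append, List.prod_append, Module.End.mul_apply, hn r hr w2 hw2, map_zero]
      | succ m ih =>
        intro r hr k w hw hk
        change r ∈ ⨆ s, (Am m).map (ap a s) at hr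
        induction hr using Submodule.iSup_induction' with
        | mem s x hx =>
          obtain ⟨y, hy, rfl⟩ := hx
          have := ih y hy (k + 1) (w ++ [s]) (by simp [hw]) (by omega)
          rw [List.map_append, List.prod_append] at this
          simpa using this
        | zero => rw [map_zero]
        | add x y _ _ hx hy => rw [map_add, hx, hy, add_zero]
    intro m r hr _
    obtain ⟨u, hu, v, hv, huv⟩ := Submodule.mem_sup.1 (hAm n hr)
    have hv0 : v = 0 := by
      have := hz n v hv 0 [] rfl (by omega)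
      simpa using this
    rw [hv0, add_zero] at huv
    rw [← huv]
    exact hu
  intro r hr
  exact key n r hr (hn r hr)

/-- the witness for two arms: the images of `ac a t`, `ac a u` meet. -/
theorem two_arm [FiniteDimensional K X] {l : Fin 3 → ℕ} (hl1 : ∀ s, 1 ≤ l s)
    (hfree : ∀ s, l s * finrank K (ker (ac a s)) = finrank K (Cor a))
    (hS2 : ∑ s, (1 - 1 / (l s : ℚ)) = 2) (hpos : 0 < finrank K (Cor a)) {t u : Fin 3}
    (htu : t ≠ u) : ∃ x y : Pinf a, ap a t x + ap a u y ∈ TP a ∧ ap a t x ∉ TP a := by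
  have h2 := sum_ker hl1 hfree hS2
  obtain ⟨s, hs1, hs2⟩ : ∃ s : Fin 3, s ≠ t ∧ s ≠ u := by
    revert htu; revert t u; decide
  have hks : 0 < finrank K (ker (ac a s)) := by
    rcases Nat.eq_zero_or_pos (finrank K (ker (ac a s))) with h | h
    · have := hfree s
      rw [h, mul_zero] at this
      omega
    · exact h
  have hsum3 : finrank K (ker (ac a s)) + finrank K (ker (ac a t)) + finrank K (ker (ac a u))
      = finrank K (Cor a) := by
    rw [← h2]
    have : (Finset.univ : Finset (Fin 3)) = {s, t, u} := by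
      clear hks h2
      revert hs1 hs2 htu; revert s t u; decide
    rw [this, Finset.sum_insert, Finset.sum_insert, Finset.sum_singleton]
    · ring
    · simpa using htu
    · simp only [Finset.mem_insert, Finset.mem_singleton, not_or]
      exact ⟨hs1, hs2⟩
  have ht := LinearMap.finrank_range_add_finrank_ker (ac a t)
  have hu := LinearMap.finrank_range_add_finrank_ker (ac a u)
  have h3 := Submodule.finrank_sup_add_finrank_inf_eq (range (ac a t)) (range (ac a u))
  have h4 : finrank K (range (ac a t) ⊔ range (ac a u) : Submodule K (Cor a)) ≤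
      finrank K (Cor a) := Submodule.finrank_le _
  have h5 : 0 < finrank K (range (ac a t) ⊓ range (ac a u) : Submodule K (Cor a)) := by omega
  obtain ⟨z, hz⟩ := (Module.finrank_pos_iff_exists_ne_zero).1 h5
  obtain ⟨⟨x', hx'⟩, ⟨y', hy'⟩⟩ := z.2
  have hz0 : (z : Cor a) ≠ 0 := fun h => hz (Subtype.ext h)
  induction x' using Submodule.Quotient.induction_on with
  | _ x =>
    induction y' using Submodule.Quotient.induction_on with
    | _ y =>
      refine ⟨x, -y, ?_, ?_⟩
      · rw [← Submodule.Quotient.mk_eq_zero (TP a)]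
        have h6 : (Submodule.Quotient.mk (ap a t x + ap a u (-y)) : Cor a)
            = ac a t (Submodule.Quotient.mk x) - ac a u (Submodule.Quotient.mk y) := by
          rw [ac_mk, ac_mk, map_neg, ← sub_eq_add_neg]
          rfl
        rw [h6, hx', hy', sub_self]
      · intro h
        apply hz0
        rw [← hx', ac_mk]
        exact (Submodule.Quotient.mk_eq_zero (TP a)).2 h

end gen

section twist

variable {M Q : Type*} [AddCommGroup M] [Module K M] [AddCommGroup Q] [Module K Q]
  [FiniteDimensional K M] [FiniteDimensional K Q]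

/-- **twist lemma**: `x α_s = c β_s x` has only the solution `0` for all but finitely many `c`,
if `M` is perfect. -/
theorem twist_finite {α : ι → End K M} (β : ι → End K Q) [Finite ι]
    (hα : ⨆ s, range (α s) = ⊤) :
    {c : K | ∃ x : M →ₗ[K] Q, x ≠ 0 ∧ ∀ s, x ∘ₗ α s = c • (β s ∘ₗ x)}.Finite := by
  classical
  cases nonempty_fintype ι
  let Ψ : (M →ₗ[K] Q) →ₗ[K] (ι → (M →ₗ[K] Q)) :=
    LinearMap.pi fun s => LinearMap.lcomp K Q (α s)
  let Θ : (M →ₗ[K] Q) →ₗ[K] (ι → (M →ₗ[K] Q)) :=
    LinearMap.pi fun s => LinearMap.llcomp K M Q Q (β s)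
  have hΨ : ker Ψ = ⊥ := by
    rw [eq_bot_iff]
    intro x hx
    rw [LinearMap.mem_ker] at hx
    rw [Submodule.mem_bot]
    have h1 : ⨆ s, range (α s) ≤ ker x := by
      refine iSup_le fun s => ?_
      rintro _ ⟨m, rfl⟩
      have := congrFun hx s
      exact LinearMap.congr_fun this m
    rw [hα, top_le_iff] at h1
    exact LinearMap.ker_eq_top.1 h1
  obtain ⟨Λ, hΛ⟩ := Ψ.exists_leftInverse_of_injective hΨ
  let S : End K (M →ₗ[K] Q) := Λ ∘ₗ Θ
  have hfin : {μ : K | S.HasEigenvalue μ}.Finite := Module.End.finite_hasEigenvalue S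
  refine Set.Finite.subset ((hfin.image fun μ => μ⁻¹).union (Set.finite_singleton 0)) ?_
  rintro c ⟨x, hx0, hx⟩
  by_cases hc : c = 0
  · right; exact hc
  left
  refine ⟨c⁻¹, ?_, inv_inv c⟩
  have h1 : Ψ x = c • Θ x := by
    funext s
    exact hx s
  have h2 : x = c • S x := by
    have h3 := congrArg Λ h1
    rw [map_smul] at h3
    have h4 : Λ (Ψ x) = x := LinearMap.congr_fun hΛ x
    rw [h4] at h3
    exact h3
  refine Module.End.hasEigenvalue_of_hasEigenvector (x := x) ⟨?_, hx0⟩
  rw [Module.End.mem_eigenspace_iff]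
  rw [eq_inv_smul_iff₀ hc]
  exact h2.symm

/-- same, `x α_s = -c β_s x` -/
theorem twist_finite_neg {α : ι → End K M} (β : ι → End K Q) [Finite ι]
    (hα : ⨆ s, range (α s) = ⊤) :
    {c : K | ∃ x : M →ₗ[K] Q, x ≠ 0 ∧ ∀ s, x ∘ₗ α s = -(c • (β s ∘ₗ x))}.Finite := by
  refine (twist_finite (fun s => -β s) hα).subset ?_
  rintro c ⟨x, hx0, hx⟩
  refine ⟨x, hx0, fun s => ?_⟩
  rw [hx s, LinearMap.neg_comp, smul_neg]

/-- same, `β_s x = c x α_s`, `M` perfect: `c⁻¹` avoids a finite set. -/
theorem twist_finite' {α : ι → End K M} (β : ι → End K Q) [Finite ι]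
    (hα : ⨆ s, range (α s) = ⊤) :
    {c : K | c ≠ 0 ∧ ∃ x : M →ₗ[K] Q, x ≠ 0 ∧ ∀ s, β s ∘ₗ x = c • (x ∘ₗ α s)}.Finite := by
  refine Set.Finite.subset ((twist_finite β hα).image fun μ => μ⁻¹) ?_
  rintro c ⟨hc, x, hx0, hx⟩
  refine ⟨c⁻¹, ⟨x, hx0, fun s => ?_⟩, inv_inv c⟩
  rw [hx s, smul_smul, inv_mul_cancel₀ hc, one_smul]

end twist

section scale

variable {a : ι → End K X}

theorem Rg_smul (c : K) (hc : c ≠ 0) (a : ι → End K X) (k : ℕ) :
    Rg (fun s => c • a s) k = Rg a k := by
  induction k with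
  | zero => rfl
  | succ k ih =>
    rw [Rg_succ, Rg_succ, ih]
    refine iSup_congr fun s => ?_
    exact Submodule.map_smul _ _ _ hc

theorem Pinf_smul (c : K) (hc : c ≠ 0) (a : ι → End K X) :
    Pinf (fun s => c • a s) = Pinf a := by
  unfold Pinf
  exact iInf_congr fun k => Rg_smul c hc a k

theorem Nk_smul (c : K) (hc : c ≠ 0) (a : ι → End K X) (k : ℕ) :
    Nk (fun s => c • a s) k = Nk a k := by
  induction k with
  | zero => rfl
  | succ k ih =>
    ext v
    rw [mem_Nk_succ, mem_Nk_succ, ih]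
    refine forall_congr' fun s => ?_
    rw [LinearMap.smul_apply]
    exact (Nk a k).smul_mem_iff hc

theorem T_smul (c : K) (hc : c ≠ 0) (a : ι → End K X) : T (fun s => c • a s) = T a := by
  unfold T
  exact iSup_congr fun k => Nk_smul c hc a k

end scale

end Crest.Agent.R172.QBlk
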