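import Crest.Agent.R172.QCore
import Crest.Agent.R172.QBlk

/-!
Row 172 (S0260), node Q-Core, part 3 (helper28), abstract: values of intertwiners on perfect
modules (corrections modulo the radicals), for generic twist; the packaged data `QC.Pair`.
-/

set_option autoImplicit false
set_option linter.unusedSectionVars false
set_option linter.unusedFintypeInType false
set_option linter.unusedDecidableInType false

namespace Crest.Agent.R172.QC

open Module
open Crest.Agent.R172.St (T Nk mem_T T_stable T_closed mem_Nk_succ mem_Nk_zero Nk_le_T T_eq_Nk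
  Nk_mono Nk_le_succ)
open Crest.Agent.R172.Mix
open Crest.Agent.R172.Core (InterAll)

section values

variable {K : Type*} [Field K] {X : Type*} [AddCommGroup X] [Module K X] {ι : Type*}
variable {P : Type*} [AddCommGroup P] [Module K P] {Y : Type*} [AddCommGroup Y] [Module K Y]

/-- there is no nonzero `x` with `x α_s = t β_s x` -/
def NoHom (α : ι → End K P) (β : ι → End K Y) (t : K) : Prop :=
  ∀ x : P →ₗ[K] Y, (∀ s, x ∘ₗ α s = t • (β s ∘ₗ x)) → x = 0

theorem noHom_finite [FiniteDimensional K P] [FiniteDimensional K Y] [Finite ι]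
    {α : ι → End K P} (β : ι → End K Y) (hα : ⨆ s, LinearMap.range (α s) = ⊤) :
    {t : K | ¬ NoHom α β t}.Finite := by
  refine (QBlk.twist_finite β hα).subset ?_
  intro t ht
  have ht' : ¬ NoHom α β t := ht
  unfold NoHom at ht'
  push Not at ht'
  obtain ⟨x, hx, hx0⟩ := ht'
  exact ⟨x, hx0, hx⟩

/-- a submodule `U ≤ ∑ a_s U` is contained in `Pinf a` -/
theorem le_Pinf {a : ι → End K X} {U : Submodule K X} (hU : U ≤ ⨆ s, U.map (a s)) :
    U ≤ Pinf a := by
  have h : ∀ k, U ≤ Rg a k := by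
    intro k
    induction k with
    | zero => exact le_top
    | succ k ih =>
      refine hU.trans (iSup_le fun s => ?_)
      refine (Submodule.map_mono ih).trans ?_
      exact le_iSup (fun s => (Rg a k).map (a s)) s
  intro v hv
  exact mem_Pinf.2 fun k => h k hv

/-- **values modulo the radical**: `x α_s = t a_s x` modulo `Pinf a ⊓ T a`, `P` perfect, no
`t`-twisted homomorphism to the core: values in `Pinf a ⊓ T a`. -/
theorem values_T [FiniteDimensional K X] [Fintype ι] {a : ι → End K X} {α : ι → End K P}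
    (hα : ∀ p, ∃ f : ι → P, p = ∑ s, α s (f s)) {t : K} (hno : NoHom α (ac a) t)
    (x : P →ₗ[K] X)
    (hx : ∀ s p, ∃ r ∈ Pinf a ⊓ T a, x (α s p) = t • a s (x p) + r) :
    ∀ p, x p ∈ Pinf a ⊓ T a := by
  have h1 : LinearMap.range x ⊔ Pinf a ≤ Pinf a := by
    refine le_Pinf (sup_le ?_ ?_)
    · rintro _ ⟨p, rfl⟩
      obtain ⟨f, hf⟩ := hα p
      rw [hf, map_sum]
      refine Submodule.sum_mem _ fun s _ => ?_
      obtain ⟨r, hr, hxr⟩ := hx s (f s)
      rw [hxr]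
      refine Submodule.add_mem _ (Submodule.smul_mem _ _ ?_) ?_
      · exact Submodule.mem_iSup_of_mem s ⟨x (f s), Submodule.mem_sup_left ⟨_, rfl⟩, rfl⟩
      · have h2 : r ∈ ⨆ s, (Pinf a).map (a s) := by rw [Pinf_eq_iSup]; exact hr.1
        exact iSup_mono (fun s => Submodule.map_mono le_sup_right) h2
    · intro r hr
      have h2 : r ∈ ⨆ s, (Pinf a).map (a s) := by rw [Pinf_eq_iSup]; exact hr
      exact iSup_mono (fun s => Submodule.map_mono le_sup_right) h2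
  have hP : ∀ p, x p ∈ Pinf a := fun p => h1 (Submodule.mem_sup_left ⟨p, rfl⟩)
  let x' : P →ₗ[K] Pinf a := x.codRestrict _ hP
  have h3 := hno ((TP a).mkQ ∘ₗ x') (fun s => by
    apply LinearMap.ext
    intro p
    obtain ⟨r, hr, hxr⟩ := hx s p
    rw [LinearMap.comp_apply, LinearMap.comp_apply, LinearMap.smul_apply, LinearMap.comp_apply,
      LinearMap.comp_apply, Submodule.mkQ_apply, Submodule.mkQ_apply, ac_mk,
      ← Submodule.Quotient.mk_smul, ← sub_eq_zero, ← Submodule.Quotient.mk_sub,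
      Submodule.Quotient.mk_eq_zero, mem_TP]
    change x (α s p) - t • a s (x p) ∈ T a
    rw [hxr, add_sub_cancel_left]
    exact hr.2)
  intro p
  refine ⟨hP p, ?_⟩
  have h4 := LinearMap.congr_fun h3 p
  rw [LinearMap.comp_apply, LinearMap.zero_apply, Submodule.mkQ_apply,
    Submodule.Quotient.mk_eq_zero, mem_TP] at h4
  exact h4

/-- `Pinf` of the dual operators -/
theorem Pinf_dual_le [FiniteDimensional K X] {φ : X →ₗ[K] Y} {Φ : ι → End K X}
    {Φ' : ι → End K Y} (hB : Brd φ Φ Φ') : Pinf Φ' ≤ (Pinf Φ).map φ := by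
  have h : ∀ k, Rg Φ' (k + 1) ≤ (Rg Φ k).map φ := by
    intro k
    induction k with
    | zero =>
      rw [Rg_succ]
      refine iSup_le fun s => ?_
      rintro _ ⟨w, -, rfl⟩
      obtain ⟨v, hv⟩ := hB.range s w
      exact ⟨v, trivial, hv⟩
    | succ k ih =>
      rw [Rg_succ]
      refine iSup_le fun s => ?_
      rintro _ ⟨w, hw, rfl⟩
      obtain ⟨v, hv, rfl⟩ := ih hw
      exact ⟨Φ s v, map_mem_Rg s hv, hB.comm s v⟩
  obtain ⟨k, hk⟩ := exists_Pinf_eq Φ
  intro w hw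
  have := h k (mem_Pinf.1 hw (k + 1))
  rwa [hk k le_rfl] at this

/-- **values in the dual modulo the radical** -/
theorem values_dual [FiniteDimensional K X] [FiniteDimensional K Y] [Fintype ι]
    {φ : X →ₗ[K] Y} {Φ : ι → End K X} {Φ' : ι → End K Y} (hB : Brd φ Φ Φ')
    {α : ι → End K P} (hα : ∀ p, ∃ f : ι → P, p = ∑ s, α s (f s)) {t : K}
    (hno : NoHom α (ac Φ) t) (x : P →ₗ[K] Y)
    (hx : ∀ s p, ∃ r ∈ Pinf Φ ⊓ T Φ, x (α s p) = t • Φ' s (x p) + φ r) :
    ∀ p, ∃ r ∈ Pinf Φ ⊓ T Φ, x p = φ r := by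
  -- `φ (Pinf Φ)` is contained in `∑ Φ'_s φ (Pinf Φ)`
  have h0 : (Pinf Φ).map φ ≤ ⨆ s, ((Pinf Φ).map φ).map (Φ' s) := by
    rintro _ ⟨r, hr, rfl⟩
    have h2 : r ∈ ⨆ s, (Pinf Φ).map (Φ s) := by rw [Pinf_eq_iSup]; exact hr
    have h3 : (⨆ s, (Pinf Φ).map (Φ s)) ≤ (⨆ s, ((Pinf Φ).map φ).map (Φ' s)).comap φ := by
      refine iSup_le fun s => ?_
      rintro _ ⟨w, hw, rfl⟩
      rw [Submodule.mem_comap]
      exact Submodule.mem_iSup_of_mem s ⟨φ w, ⟨w, hw, rfl⟩, (hB.comm s w).symm⟩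
    exact h3 h2
  have h1 : LinearMap.range x ⊔ (Pinf Φ).map φ ≤ Pinf Φ' := by
    refine le_Pinf (sup_le ?_ ?_)
    · rintro _ ⟨p, rfl⟩
      obtain ⟨f, hf⟩ := hα p
      rw [hf, map_sum]
      refine Submodule.sum_mem _ fun s _ => ?_
      obtain ⟨r, hr, hxr⟩ := hx s (f s)
      rw [hxr]
      refine Submodule.add_mem _ (Submodule.smul_mem _ _ ?_) ?_
      · exact Submodule.mem_iSup_of_mem s ⟨x (f s), Submodule.mem_sup_left ⟨_, rfl⟩, rfl⟩
      · exact iSup_mono (fun s => Submodule.map_mono le_sup_right) (h0 ⟨r, hr.1, rfl⟩)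
    · exact h0.trans (iSup_mono (fun s => Submodule.map_mono le_sup_right))
  have hP : ∀ p, ∃ q ∈ Pinf Φ, φ q = x p := fun p =>
    Pinf_dual_le hB (h1 (Submodule.mem_sup_left ⟨p, rfl⟩))
  choose q hq hqx using hP
  -- uniqueness modulo the radical
  have hu : ∀ v ∈ Pinf Φ, φ v = 0 → v ∈ T Φ := fun v _ hv => by
    refine Nk_le_T Φ 1 ?_
    rw [mem_Nk_succ]
    intro s
    rw [mem_Nk_zero]
    exact hB.ker s v hv
  let x' : P →ₗ[K] Cor Φ :=
    { toFun := fun p => Submodule.Quotient.mk (⟨q p, hq p⟩ : Pinf Φ)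
      map_add' := fun p p' => by
        rw [← Submodule.Quotient.mk_add, ← sub_eq_zero, ← Submodule.Quotient.mk_sub,
          Submodule.Quotient.mk_eq_zero, mem_TP]
        refine hu _ (Submodule.coe_mem _) ?_
        change φ (q (p + p') - (q p + q p')) = 0
        rw [map_sub, map_add, hqx, hqx, hqx, map_add, sub_self]
      map_smul' := fun r p => by
        rw [RingHom.id_apply, ← Submodule.Quotient.mk_smul, ← sub_eq_zero,
          ← Submodule.Quotient.mk_sub, Submodule.Quotient.mk_eq_zero, mem_TP]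
        refine hu _ (Submodule.coe_mem _) ?_
        change φ (q (r • p) - r • q p) = 0
        rw [map_sub, map_smul, hqx, hqx, map_smul, sub_self] }
  have hx' : ∀ p, x' p = Submodule.Quotient.mk (⟨q p, hq p⟩ : Pinf Φ) := fun p => rfl
  have h3 := hno x' (fun s => by
    apply LinearMap.ext
    intro p
    obtain ⟨r, hr, hxr⟩ := hx s p
    rw [LinearMap.comp_apply, LinearMap.smul_apply, LinearMap.comp_apply, hx', hx', ac_mk,
      ← Submodule.Quotient.mk_smul, ← sub_eq_zero, ← Submodule.Quotient.mk_sub,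
      Submodule.Quotient.mk_eq_zero, mem_TP]
    have h4 : q (α s p) - t • Φ s (q p) - r ∈ T Φ := by
      refine hu _ ?_ ?_
      · exact Submodule.sub_mem _ (Submodule.sub_mem _ (hq _)
          (Submodule.smul_mem _ _ (Pinf_stable s (hq p)))) hr.1
      · rw [map_sub, map_sub, map_smul, hqx, hxr, hB.comm, hqx, add_sub_cancel_left, sub_self]
    change q (α s p) - t • Φ s (q p) ∈ T Φ
    have h5 := (T Φ).add_mem h4 hr.2
    rwa [sub_add_cancel] at h5)
  intro p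
  have h4 := LinearMap.congr_fun h3 p
  rw [hx', LinearMap.zero_apply, Submodule.Quotient.mk_eq_zero, mem_TP] at h4
  exact ⟨q p, ⟨hq p, h4⟩, (hqx p).symm⟩

end values

section pair

variable {K : Type*} [Field K] {X : Type*} [AddCommGroup X] [Module K X]
  {S : Type*} [AddCommGroup S] [Module K S]

/-- the packaged data of the mixed tame pair: `(X, a)` orthogonal, `(S, Φ)` symplectic -/
structure Pair (a : Fin 3 → End K X) (wa : X →ₗ[K] X →ₗ[K] K)
    (Φ : Fin 3 → End K S) (wb : S →ₗ[K] S →ₗ[K] K) (l : Fin 3 → ℕ) : Prop where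
  sideA : Side a wa 1 1
  sideB : Side Φ wb (-1) (-1)
  sumA : ∀ v, ∑ s, a s v = 0
  sumB : ∀ v, ∑ s, Φ s v = 0
  posA : 0 < finrank K (Cor a)
  posB : 0 < finrank K (Cor Φ)
  l1 : ∀ s, 1 ≤ l s
  powA : ∀ s j, ac a s ^ j = 0 ↔ l s ≤ j
  powB : ∀ s j, ac Φ s ^ j = 0 ↔ l s ≤ j
  freeA : ∀ s, l s * finrank K (LinearMap.ker (ac a s)) = finrank K (Cor a)
  freeB : ∀ s, l s * finrank K (LinearMap.ker (ac Φ s)) = finrank K (Cor Φ)
  S2 : ∑ s, (1 - 1 / (l s : ℚ)) = 2
  inter : InterAll (ac a) (ac Φ) = ⊥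

variable {a : Fin 3 → End K X} {wa : X →ₗ[K] X →ₗ[K] K}
  {Φ : Fin 3 → End K S} {wb : S →ₗ[K] S →ₗ[K] K} {l : Fin 3 → ℕ}

theorem exists_pair (hA : Side a wa 1 1) (hB : Side Φ wb (-1) (-1))
    (sumA : ∀ v, ∑ s, a s v = 0) (sumB : ∀ v, ∑ s, Φ s v = 0)
    (posA : 0 < finrank K (Cor a)) (posB : 0 < finrank K (Cor Φ))
    (hT : TameData (ac a) (ac Φ)) : ∃ l, Pair a wa Φ wb l := by
  obtain ⟨h1, l, h2, h3, h4, h5, h6, h7⟩ := hT
  exact ⟨l, hA, hB, sumA, sumB, posA, posB, h2, h3, h4, h5, h6, h7, h1⟩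

namespace Pair

variable (h : Pair a wa Φ wb l)

include h

theorem nilA (s : Fin 3) : ac a s ^ l s = 0 := (h.powA s _).2 le_rfl

theorem nilB (s : Fin 3) : ac Φ s ^ l s = 0 := (h.powB s _).2 le_rfl

theorem topA (s : Fin 3) : ac a s ^ (l s - 1) ≠ 0 := by
  intro h0
  have := (h.powA s _).1 h0
  have := h.l1 s
  omega

theorem topB (s : Fin 3) : ac Φ s ^ (l s - 1) ≠ 0 := by
  intro h0
  have := (h.powB s _).1 h0
  have := h.l1 s
  omega

/-- `l s ≥ 2` -/
theorem l2 (s : Fin 3) : 2 ≤ l s := by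
  by_contra hcon
  have h1 : l s = 1 := by have := h.l1 s; omega
  have h2 := h.S2
  have hle : ∀ t, (1 - 1 / (l t : ℚ)) < 1 := by
    intro t
    have : (0 : ℚ) < l t := by exact_mod_cast h.l1 t
    have : (0 : ℚ) < 1 / (l t : ℚ) := by positivity
    linarith
  have hs : (1 - 1 / (l s : ℚ)) = 0 := by rw [h1]; norm_num
  rw [Fin.sum_univ_three] at h2
  have a0 := hle 0
  have a1 := hle 1
  have a2 := hle 2
  fin_cases s
  · simp only [Fin.zero_eta] at hs; linarith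
  · simp only [Fin.mk_one] at hs; linarith
  · have hs' : (1 - 1 / (l 2 : ℚ)) = 0 := hs
    linarith

theorem Cor_symmA (x y : Pinf a) : Pform a wa x y = Pform a wa y x := by
  rw [Pform_apply, Pform_apply, h.sideA.symm, one_mul]

theorem Cor_symmB (x y : Pinf Φ) : Pform Φ wb x y = - Pform Φ wb y x := by
  rw [Pform_apply, Pform_apply, h.sideB.symm, neg_one_mul]

theorem radA [FiniteDimensional K X] (x : Pinf a) : x ∈ TP a ↔ ∀ y, Pform a wa x y = 0 :=
  h.sideA.mem_TP_iff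

theorem radB [FiniteDimensional K S] (x : Pinf Φ) : x ∈ TP Φ ↔ ∀ y, Pform Φ wb x y = 0 :=
  h.sideB.mem_TP_iff

theorem adjA (s : Fin 3) (x y : Pinf a) :
    Pform a wa (QBlk.ap a s x) y = Pform a wa x (QBlk.ap a s y) := by
  rw [Pform_apply, Pform_apply, QBlk.ap_coe, QBlk.ap_coe, h.sideA.adj, one_mul]

theorem adjB (s : Fin 3) (x y : Pinf Φ) :
    Pform Φ wb (QBlk.ap Φ s x) y = - Pform Φ wb x (QBlk.ap Φ s y) := by
  rw [Pform_apply, Pform_apply, QBlk.ap_coe, QBlk.ap_coe, h.sideB.adj, neg_one_mul]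

theorem apsumA (v : Pinf a) : ∑ s, QBlk.ap a s v = 0 := by
  apply Subtype.ext
  rw [Submodule.coe_sum]
  exact h.sumA v

theorem apsumB (v : Pinf Φ) : ∑ s, QBlk.ap Φ s v = 0 := by
  apply Subtype.ext
  rw [Submodule.coe_sum]
  exact h.sumB v

theorem powA_mem (s : Fin 3) (p : Pinf a) : (QBlk.ap a s ^ l s) p ∈ TP a :=
  QBlk.pow_mem_TP (h.nilA s) p

theorem powB_mem (s : Fin 3) (p : Pinf Φ) : (QBlk.ap Φ s ^ l s) p ∈ TP Φ :=
  QBlk.pow_mem_TP (h.nilB s) p

theorem powA_notMem (s : Fin 3) : ∃ p : Pinf a, (QBlk.ap a s ^ (l s - 1)) p ∉ TP a :=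
  QBlk.exists_pow_notMem (h.topA s)

theorem powB_notMem (s : Fin 3) : ∃ p : Pinf Φ, (QBlk.ap Φ s ^ (l s - 1)) p ∉ TP Φ :=
  QBlk.exists_pow_notMem (h.topB s)

/-- `(TP a)` is generated by the `(a s)^(l s) P` -/
theorem genA [FiniteDimensional K X] (U : Submodule K (Pinf a))
    (hpow : ∀ s p, (QBlk.ap a s ^ l s) p ∈ U) (hst : ∀ t, ∀ r ∈ U, QBlk.ap a t r ∈ U) :
    TP a ≤ U := QBlk.gen h.sumA h.l1 h.nilA h.freeA h.S2 U hpow hst

theorem genB [FiniteDimensional K S] (U : Submodule K (Pinf Φ))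
    (hpow : ∀ s p, (QBlk.ap Φ s ^ l s) p ∈ U) (hst : ∀ t, ∀ r ∈ U, QBlk.ap Φ t r ∈ U) :
    TP Φ ≤ U := QBlk.gen h.sumB h.l1 h.nilB h.freeB h.S2 U hpow hst

theorem twoA [FiniteDimensional K X] {t u : Fin 3} (htu : t ≠ u) :
    ∃ x y : Pinf a, QBlk.ap a t x + QBlk.ap a u y ∈ TP a ∧ QBlk.ap a t x ∉ TP a :=
  QBlk.two_arm h.l1 h.freeA h.S2 h.posA htu

theorem twoB [FiniteDimensional K S] {t u : Fin 3} (htu : t ≠ u) :
    ∃ x y : Pinf Φ, QBlk.ap Φ t x + QBlk.ap Φ u y ∈ TP Φ ∧ QBlk.ap Φ t x ∉ TP Φ :=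
  QBlk.two_arm h.l1 h.freeB h.S2 h.posB htu

/-- **no common factor for almost all twists** -/
theorem exc [FiniteDimensional K X] [FiniteDimensional K S] :
    {t : K | ¬ (NoHom (QBlk.ap a) (ac Φ) t ∧ NoHom (QBlk.ap Φ) (ac a) t)}.Finite := by
  refine ((noHom_finite (α := QBlk.ap a) (ac Φ) (QBlk.ap_top a)).union
    (noHom_finite (α := QBlk.ap Φ) (ac a) (QBlk.ap_top Φ))).subset ?_
  intro t ht
  have ht' : ¬ (NoHom (QBlk.ap a) (ac Φ) t ∧ NoHom (QBlk.ap Φ) (ac a) t) := ht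
  rcases not_and_or.1 ht' with h1 | h1
  · exact Or.inl h1
  · exact Or.inr h1

end Pair

end pair

end Crest.Agent.R172.QC
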