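import Crest.Agent.R172.SpS8
import Crest.Agent.R172.Om5

/-!
Row 172, G1 Step 2 (`T_f` is scalar), part 9: descent from generic `(g, p)` to all `g ∈ Kiso`:
`Om.Scal`.
-/

set_option autoImplicit false
set_option linter.unusedSectionVars false

namespace Crest.Agent.R172.SpS

open Matrix Module Crest.Agent.R172.FO Crest.Agent.R172.Qt
open Crest.Agent.R172.Om (Kiso Om IsY Scal Om_add_left Om_add_right Om_smul_left Om_smul_right'
  Om_zero_right expand bc_Kiso Om_dir skew_map_emb)

section one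

variable {ι : Type*} [Fintype ι] [DecidableEq ι] {δ : Type*} [Fintype δ] [DecidableEq δ]
variable {k K : Type*} [Field k] [Field K] [Algebra k K]
variable {arm : δ → Fin 3} {J : Matrix ι ι K} {B : Matrix δ δ K}
  {N W : Submodule K (Matrix ι δ K)} {g : Matrix ι δ K}

theorem smul_of_minors {α β : Type*} {X Y : Matrix α β K}
    (h : ∀ a b a' b', X a b * Y a' b' = X a' b' * Y a b) (h0 : Y = 0 → X = 0) :
    ∃ c : K, X = c • Y := by
  by_cases hY : Y = 0
  · exact ⟨0, by rw [h0 hY, zero_smul]⟩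
  · obtain ⟨a', b', hab⟩ : ∃ a b, Y a b ≠ 0 := by
      by_contra hcon
      push Not at hcon
      exact hY (by ext i j; simpa using hcon i j)
    refine ⟨X a' b' / Y a' b', ?_⟩
    ext a b
    rw [Matrix.smul_apply, smul_eq_mul]
    field_simp
    exact h a b a' b'

/-- if `T_f φ` is proportional to `φ` for all `φ` then `T_f` is a scalar. -/
theorem uniform_of_minors (h : Ctx k arm J B N W g) {f : Matrix ι δ K} (hf : f ∈ N ⊓ W)
    (hmin : ∀ p ∈ NN arm J N g, ∀ a b a' b',
      (gᵀ * J * (p.1 * f)) a b * (gᵀ * J * (p.1 * g)) a' b' =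
        (gᵀ * J * (p.1 * f)) a' b' * (gᵀ * J * (p.1 * g)) a b) :
    ∃ c : K, ∀ p ∈ NN arm J N g, gᵀ * J * (p.1 * f) = c • (gᵀ * J * (p.1 * g)) := by
  obtain ⟨R, hR⟩ := exists_pinv g
  obtain ⟨Tf, -, hTf⟩ := exists_step h hR hf
  obtain ⟨c, hc⟩ := LinearMap.exists_eq_smul_id_of_forall_notLinearIndependent (f := Tf) (by
    intro φ hli
    obtain ⟨p, hp⟩ := φ.2
    have h1 := hTf φ p (by rw [← hp, AF_apply])
    obtain ⟨c, hc⟩ := smul_of_minors (hmin p.1 p.2) (fun h0 => h.tf_zero hf p.2 h0)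
    have h2 : Tf φ = c • φ := by
      apply Subtype.ext
      rw [h1, hc, Submodule.coe_smul, ← hp, AF_apply]
    rw [LinearIndependent.pair_iff] at hli
    have h3 := hli c (-1) (by rw [h2, neg_smul, one_smul, add_neg_cancel])
    exact one_ne_zero (neg_eq_zero.1 h3.2))
  refine ⟨c, fun p hp => ?_⟩
  have h1 := hTf ⟨gᵀ * J * (p.1 * g), ⟨⟨p, hp⟩, rfl⟩⟩ ⟨p, hp⟩ rfl
  rw [hc] at h1
  exact h1.symm

theorem triple_apply {α β γ ε : Type*} [Fintype β] [Fintype γ] (A : Matrix α β K)
    (p : Matrix β γ K) (F : Matrix γ ε K) (a : α) (b : ε) :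
    (A * (p * F)) a b = ∑ i, ∑ j, A a i * F j b * p i j := by
  rw [Matrix.mul_apply]
  refine Finset.sum_congr rfl fun i _ => ?_
  rw [Matrix.mul_apply, Finset.mul_sum]
  refine Finset.sum_congr rfl fun j _ => ?_
  ring

/-- `Scal` from minors. -/
theorem scal_of_minors (hC : ∀ g ∈ Kiso J N W, Ctx k arm J B N W g)
    (hmin : ∀ g ∈ Kiso J N W, ∀ f ∈ Kiso J N W, ∀ d1 d2 : Derivation k K K,
      IsY k arm B N W d1 → IsY k arm B N W d2 → ∀ a b a' b',
      (Om J d1 g f) a b * (Om J d2 g g) a' b' = (Om J d2 g f) a' b' * (Om J d1 g g) a b) :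
    Scal k arm J B N W := by
  intro g hg
  by_cases h0 : ∀ d : Derivation k K K, IsY k arm B N W d → Om J d g g = 0
  · refine ⟨fun _ => 0, fun f hf d hd => ?_⟩
    obtain ⟨p, hp, hpf⟩ := Om.exists_NN (hC g hg) hd
    rw [zero_smul, hpf f hf.1]
    apply (hC g hg).tf_zero hf.1 hp
    rw [← hpf g hg.1]
    exact h0 d hd
  · push Not at h0
    obtain ⟨d0, hd0, hne⟩ := h0
    obtain ⟨a', b', hab⟩ : ∃ a b, Om J d0 g g a b ≠ 0 := by
      by_contra hcon
      push Not at hcon
      exact hne (by ext i j; simpa using hcon i j)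
    refine ⟨fun f => Om J d0 g f a' b' / Om J d0 g g a' b', fun f hf d hd => ?_⟩
    ext a b
    rw [Matrix.smul_apply, smul_eq_mul]
    field_simp
    exact hmin g hg f hf d d0 hd hd0 a b a' b'

/-- spanning family of a subspace of matrices given by a projection. -/
theorem exists_projM (Z : Submodule K (Matrix ι δ K)) :
    ∃ P : ι × δ → Matrix ι δ K, (∀ y, P y ∈ Z) ∧ ∀ F ∈ Z, F = ∑ y, F y.1 y.2 • P y := by
  obtain ⟨Q, hQ⟩ := Z.exists_isCompl
  let f : Matrix ι δ K →ₗ[K] Matrix ι δ K := Z.subtype.comp (Submodule.projectionOnto Z Q hQ)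
  have hf1 : ∀ x, f x ∈ Z := fun x => (Submodule.projectionOnto Z Q hQ x).2
  have hf2 : ∀ x ∈ Z, f x = x := by
    intro x hx
    have := Submodule.projectionOnto_apply_left hQ ⟨x, hx⟩
    change ((Submodule.projectionOnto Z Q hQ x : Z) : Matrix ι δ K) = x
    rw [this]
  refine ⟨fun y => f (Matrix.single y.1 y.2 1), fun y => hf1 _, fun F hF => ?_⟩
  conv_lhs => rw [← hf2 F hF, matrix_eq_sum_single F]
  rw [map_sum, Fintype.sum_prod_type]
  refine Finset.sum_congr rfl fun i _ => ?_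
  rw [map_sum]
  refine Finset.sum_congr rfl fun j _ => ?_
  have : (Matrix.single i j (F i j) : Matrix ι δ K) = F i j • Matrix.single i j 1 := by
    rw [smul_single, smul_eq_mul, mul_one]
  rw [this, map_smul]

theorem Om_sum_left {γ : Type*} (d : Derivation k K K) (s : Finset γ) (a : γ → K)
    (P : γ → Matrix ι δ K) (f : Matrix ι δ K) :
    Om J d (∑ y ∈ s, a y • P y) f = ∑ y ∈ s, a y • Om J d (P y) f := by
  unfold Om
  rw [Matrix.transpose_sum, Matrix.sum_mul, Matrix.sum_mul]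
  refine Finset.sum_congr rfl fun y _ => ?_
  rw [transpose_smul, Matrix.smul_mul, Matrix.smul_mul]

theorem Om_sum_right {γ : Type*} (d : Derivation k K K) (s : Finset γ) (a : γ → K)
    (P : γ → Matrix ι δ K) {f : Matrix ι δ K} (hP : ∀ y, P y ∈ Kiso J N W)
    (hf : f ∈ Kiso J N W) :
    Om J d f (∑ y ∈ s, a y • P y) = ∑ y ∈ s, a y • Om J d f (P y) := by
  classical
  induction s using Finset.induction_on with
  | empty => rw [Finset.sum_empty, Finset.sum_empty, Om_zero_right]
  | insert e t het ih =>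
    rw [Finset.sum_insert het, Finset.sum_insert het, Om_add_right, ih,
      Om_smul_right' d (a e) hf (hP e)]

end one

section two

variable {ι : Type*} [Fintype ι] [DecidableEq ι] {δ : Type*} [Fintype δ] [DecidableEq δ]
variable {k K L : Type*} [Field k] [Field K] [Field L] [Algebra k K] [Algebra k L] [Algebra K L]
variable {arm : δ → Fin 3} {J : Matrix ι ι K} {B : Matrix δ δ K}
  {N W : Submodule K (Matrix ι δ K)} {NL WL : Submodule L (Matrix ι δ L)}

theorem expandM {Z : Submodule K (Matrix ι δ K)} {ZL : Submodule L (Matrix ι δ L)}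
    (hZ : Om.BC Z ZL) {P : ι × δ → Matrix ι δ K} (hP : ∀ F ∈ Z, F = ∑ y, F y.1 y.2 • P y)
    {G : Matrix ι δ L} (hG : G ∈ ZL) :
    G = ∑ y, G y.1 y.2 • (P y).map (algebraMap K L) := by
  obtain ⟨s, φ, hs⟩ := expand (K := K) G
  have h1 : ∀ e, (G.map (φ e)).map (algebraMap K L) =
      ∑ y : ι × δ, algebraMap K L (φ e (G y.1 y.2)) • (P y).map (algebraMap K L) := by
    intro e
    conv_lhs => rw [hP _ (hZ.down G hG (φ e))]
    ext i j
    rw [map_apply, Matrix.sum_apply, Matrix.sum_apply, map_sum]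
    refine Finset.sum_congr rfl fun y _ => ?_
    rw [Matrix.smul_apply, Matrix.smul_apply, map_apply, map_apply, smul_eq_mul, smul_eq_mul,
      map_mul]
  have h2 : ∀ y : ι × δ, G y.1 y.2 = ∑ e ∈ s, e * algebraMap K L (φ e (G y.1 y.2)) := by
    intro y
    conv_lhs => rw [hs]
    rw [Matrix.sum_apply]
    refine Finset.sum_congr rfl fun e _ => ?_
    rw [Matrix.smul_apply, map_apply, map_apply, smul_eq_mul]
  conv_lhs => rw [hs]
  rw [Finset.sum_congr rfl fun e _ => by rw [h1 e, Finset.smul_sum], Finset.sum_comm]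
  refine Finset.sum_congr rfl fun y _ => ?_
  conv_rhs => rw [h2 y]
  rw [Finset.sum_smul]
  refine Finset.sum_congr rfl fun e _ => ?_
  rw [smul_smul]

/-- **Descent B**: from `g₀` generic in `Kiso(L)` to all of `Kiso(K)`. -/
theorem scal_of_generic (hN : Om.BC N NL) (hW : Om.BC W WL) (hD : Data k arm J B N W)
    (hDL : Data k arm (J.map (algebraMap K L)) (B.map (algebraMap K L)) NL WL)
    (hC : ∀ g ∈ Kiso J N W, Ctx k arm J B N W g) {g0 : Matrix ι δ L}
    (hg0 : g0 ∈ Kiso (J.map (algebraMap K L)) NL WL)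
    (hC0 : Ctx k arm (J.map (algebraMap K L)) (B.map (algebraMap K L)) NL WL g0)
    (hspec : ∀ q : MvPolynomial (ι × δ) K, MvPolynomial.aeval (fun y => g0 y.1 y.2) q = 0 →
      ∀ F0 ∈ Kiso J N W, MvPolynomial.aeval (fun y => F0 y.1 y.2) q = 0)
    (hsc : ∀ f ∈ Kiso (J.map (algebraMap K L)) NL WL, ∃ c : L,
      ∀ p ∈ NN arm (J.map (algebraMap K L)) NL g0,
        g0ᵀ * J.map (algebraMap K L) * (p.1 * f) =
          c • (g0ᵀ * J.map (algebraMap K L) * (p.1 * g0))) :
    Scal k arm J B N W := by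
  classical
  have hKi := bc_Kiso (J := J) hN hW
  obtain ⟨P, hP1, hP2⟩ := exists_projM (Kiso J N W)
  have hPL : ∀ y, (P y).map (algebraMap K L) ∈ Kiso (J.map (algebraMap K L)) NL WL :=
    fun y => hKi.up _ (hP1 y)
  have hg0e := expandM hKi hP2 hg0
  apply scal_of_minors hC
  intro g hg f hf d1 d2 hd1 hd2 a b a' b'
  -- the polynomials
  let Q1 : Derivation k K K → δ → δ → MvPolynomial (ι × δ) K := fun d a b =>
    ∑ y, MvPolynomial.C (Om J d (P y) f a b) * MvPolynomial.X y
  let Q2 : Derivation k K K → δ → δ → MvPolynomial (ι × δ) K := fun d a b =>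
    ∑ y, ∑ z, MvPolynomial.C (Om J d (P y) (P z) a b) * MvPolynomial.X y * MvPolynomial.X z
  have q1K : ∀ d a b, MvPolynomial.aeval (fun y : ι × δ => g y.1 y.2) (Q1 d a b) =
      Om J d g f a b := by
    intro d a b
    conv_rhs => rw [hP2 g hg, Om_sum_left]
    rw [map_sum, Matrix.sum_apply]
    refine Finset.sum_congr rfl fun y _ => ?_
    rw [map_mul, MvPolynomial.aeval_C, MvPolynomial.aeval_X, Matrix.smul_apply, smul_eq_mul,
      mul_comm]
    rfl
  have q2K : ∀ d a b, MvPolynomial.aeval (fun y : ι × δ => g y.1 y.2) (Q2 d a b) =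
      Om J d g g a b := by
    intro d a b
    have e1 : Om J d g g = ∑ y : ι × δ, g y.1 y.2 • Om J d (P y) g := by
      conv_lhs => rw [hP2 g hg]
      rw [Om_sum_left, ← hP2 g hg]
    have e2 : ∀ y, Om J d (P y) g = ∑ z : ι × δ, g z.1 z.2 • Om J d (P y) (P z) := by
      intro y
      conv_lhs => rw [hP2 g hg]
      rw [Om_sum_right d Finset.univ _ P hP1 (hP1 y)]
    rw [e1, map_sum, Matrix.sum_apply]
    refine Finset.sum_congr rfl fun y _ => ?_
    rw [e2, map_sum, Matrix.smul_apply, Matrix.sum_apply, Finset.smul_sum]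
    refine Finset.sum_congr rfl fun z _ => ?_
    rw [map_mul, map_mul, MvPolynomial.aeval_C, MvPolynomial.aeval_X, MvPolynomial.aeval_X,
      Matrix.smul_apply, smul_eq_mul, smul_eq_mul]
    change Om J d (P y) (P z) a b * g y.1 y.2 * g z.1 z.2 = _
    ring
  -- over `L`
  have hext : ∀ d : Derivation k K K, IsY k arm B N W d → ∃ d' : Derivation k L L,
      IsY k arm (B.map (algebraMap K L)) NL WL d' ∧
      (∀ a b, MvPolynomial.aeval (fun y : ι × δ => g0 y.1 y.2) (Q1 d a b) =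
        Om (J.map (algebraMap K L)) d' g0 (f.map (algebraMap K L)) a b) ∧
      ∀ a b, MvPolynomial.aeval (fun y : ι × δ => g0 y.1 y.2) (Q2 d a b) =
        Om (J.map (algebraMap K L)) d' g0 g0 a b := by
    rintro d ⟨Y, hY, hr⟩
    obtain ⟨d', hr'⟩ := hDL.dir 0 (Y.map (algebraMap K L)) (by intro s; simp) (skew_map_emb hY)
    refine ⟨d', ⟨_, skew_map_emb hY, hr'⟩, fun a b => ?_, fun a b => ?_⟩
    · conv_rhs => rw [hg0e, Om_sum_left]
      rw [map_sum, Matrix.sum_apply]
      refine Finset.sum_congr rfl fun y _ => ?_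
      rw [map_mul, MvPolynomial.aeval_C, MvPolynomial.aeval_X, Matrix.smul_apply, smul_eq_mul,
        Om_dir hN hW hr hr' hf.1 (hP1 y), map_apply, mul_comm]
    · have e1 : Om (J.map (algebraMap K L)) d' g0 g0 =
          ∑ y : ι × δ, g0 y.1 y.2 • Om (J.map (algebraMap K L)) d'
            ((P y).map (algebraMap K L)) g0 := by
        conv_lhs => rw [hg0e]
        rw [Om_sum_left, ← hg0e]
      have e2 : ∀ y, Om (J.map (algebraMap K L)) d' ((P y).map (algebraMap K L)) g0 =
          ∑ z : ι × δ, g0 z.1 z.2 • (Om J d (P y) (P z)).map (algebraMap K L) := by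
        intro y
        conv_lhs => rw [hg0e]
        rw [Om_sum_right d' Finset.univ _ _ hPL (hPL y)]
        refine Finset.sum_congr rfl fun z _ => ?_
        rw [Om_dir hN hW hr hr' (hP1 z).1 (hP1 y)]
      rw [e1, map_sum, Matrix.sum_apply]
      refine Finset.sum_congr rfl fun y _ => ?_
      rw [e2, map_sum, Matrix.smul_apply, Matrix.sum_apply, Finset.smul_sum]
      refine Finset.sum_congr rfl fun z _ => ?_
      rw [map_mul, map_mul, MvPolynomial.aeval_C, MvPolynomial.aeval_X, MvPolynomial.aeval_X,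
        Matrix.smul_apply, map_apply, smul_eq_mul, smul_eq_mul]
      ring
  obtain ⟨d1', hd1', a1, b1⟩ := hext d1 hd1
  obtain ⟨d2', hd2', a2, b2⟩ := hext d2 hd2
  have hfL := hKi.up f hf
  obtain ⟨c, hc⟩ := hsc _ hfL
  have hOm : ∀ d' : Derivation k L L, IsY k arm (B.map (algebraMap K L)) NL WL d' →
      Om (J.map (algebraMap K L)) d' g0 (f.map (algebraMap K L)) =
        c • Om (J.map (algebraMap K L)) d' g0 g0 := by
    intro d' hd'
    obtain ⟨p, hp, hpf⟩ := Om.exists_NN hC0 hd'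
    rw [hpf _ hfL.1, hpf g0 hg0.1, hc p hp]
  have hzero : MvPolynomial.aeval (fun y : ι × δ => g0 y.1 y.2)
      (Q1 d1 a b * Q2 d2 a' b' - Q1 d2 a' b' * Q2 d1 a b) = 0 := by
    rw [map_sub, map_mul, map_mul, a1, b2, a2, b1, hOm d1' hd1', hOm d2' hd2',
      Matrix.smul_apply, Matrix.smul_apply, smul_eq_mul, smul_eq_mul]
    ring
  have hK := hspec _ hzero g hg
  rw [map_sub, map_mul, map_mul, q1K, q2K, q1K, q2K, sub_eq_zero] at hK
  exact hK

/-- **Descent A**: from `p` generic in `NN g` to all of `NN g`. -/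
theorem uniform_of_generic {g : Matrix ι δ K} (h : Ctx k arm J B N W g) {f : Matrix ι δ K}
    (hf : f ∈ N ⊓ W) {p0 : Matrix ι ι L}
    (hspec : ∀ q : MvPolynomial (ι × ι) K, MvPolynomial.aeval (fun y => p0 y.1 y.2) q = 0 →
      ∀ p ∈ NN arm J N g, MvPolynomial.aeval (fun y => p.1 y.1 y.2) q = 0)
    (hsc : ∃ c : L, (g.map (algebraMap K L))ᵀ * J.map (algebraMap K L) *
        (p0 * f.map (algebraMap K L)) =
      c • ((g.map (algebraMap K L))ᵀ * J.map (algebraMap K L) * (p0 * g.map (algebraMap K L)))) :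
    ∃ c : K, ∀ p ∈ NN arm J N g, gᵀ * J * (p.1 * f) = c • (gᵀ * J * (p.1 * g)) := by
  classical
  obtain ⟨c, hc⟩ := hsc
  apply uniform_of_minors h hf
  intro p hp a b a' b'
  let Q : Matrix ι δ K → δ → δ → MvPolynomial (ι × ι) K := fun F a b =>
    ∑ i, ∑ j, MvPolynomial.C ((gᵀ * J) a i * F j b) * MvPolynomial.X (i, j)
  have qK : ∀ F a b, MvPolynomial.aeval (fun y : ι × ι => p.1 y.1 y.2) (Q F a b) =
      (gᵀ * J * (p.1 * F)) a b := by
    intro F a b
    rw [map_sum, triple_apply]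
    refine Finset.sum_congr rfl fun i _ => ?_
    rw [map_sum]
    refine Finset.sum_congr rfl fun j _ => ?_
    rw [map_mul, MvPolynomial.aeval_C, MvPolynomial.aeval_X]
    rfl
  have qL : ∀ F a b, MvPolynomial.aeval (fun y : ι × ι => p0 y.1 y.2) (Q F a b) =
      ((g.map (algebraMap K L))ᵀ * J.map (algebraMap K L) *
        (p0 * F.map (algebraMap K L))) a b := by
    intro F a b
    rw [map_sum, triple_apply]
    refine Finset.sum_congr rfl fun i _ => ?_
    rw [map_sum]
    refine Finset.sum_congr rfl fun j _ => ?_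
    rw [map_mul, MvPolynomial.aeval_C, MvPolynomial.aeval_X, map_mul, map_apply,
      ← Matrix.transpose_map, ← Matrix.map_mul, map_apply]
  have hzero : MvPolynomial.aeval (fun y : ι × ι => p0 y.1 y.2)
      (Q f a b * Q g a' b' - Q f a' b' * Q g a b) = 0 := by
    rw [map_sub, map_mul, map_mul, qL, qL, qL, qL, hc, Matrix.smul_apply, Matrix.smul_apply,
      smul_eq_mul, smul_eq_mul]
    ring
  have hK := hspec _ hzero p hp
  rw [map_sub, map_mul, map_mul, qK, qK, qK, qK, sub_eq_zero] at hK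
  exact hK

end two

end Crest.Agent.R172.SpS
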