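import Crest.Agent.R172.Qt8
import Crest.Agent.R172.GenQ
import Crest.Agent.R172.IndGen4
import Crest.Agent.R172.IndSt2
import Crest.Agent.R172.SpS9

/-!
Row 172 (S0260), node G1.2, part 5: the final alternative and P3
(`𝒦 ≠ 𝒦iso ⇒ ZZ = 𝒦iso` outside tame).
-/

set_option autoImplicit false
set_option linter.unusedSectionVars false
set_option linter.unusedFintypeInType false
set_option linter.unusedDecidableInType false

namespace Crest.Agent.R172.Qt

open Matrix Module Crest.Agent.R172.FO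
open Crest.Agent.R172.CF Crest.Agent.R172.CSys
open Crest.Agent.R172.Gen (Jm Ix emb IsSo)
open Crest.Agent.R172.Ind (GI)

variable {n : ℕ} {a : Fin 3 → Fin n → ℤ} {c : Cfg n a} {K : Type} [Field K] [Algebra ℂ K]
variable {q : SPol c}

/-- the operators `Φ_s = M_s(G,G) J X` on `S = im G` -/
def Phi (c : Cfg n a) (G : Matrix (Ix n) c.δ K) (X : Matrix (Ix n) (Ix n) K) (s : Fin 3) :
    End K (Sg G) := Mop c.arm (c.B K) G s ∘ₗ eta (Jm n K) G X

/-- **the mixed tame alternative** (core of `(S^⊥, M_s(f,f)J)` against core of `(S, M_s(G)φ)`) -/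
def TameMix (c : Cfg n a) (G f : Matrix (Ix n) c.δ K) (X : Matrix (Ix n) (Ix n) K) : Prop :=
  ∃ hf : Gᵀ * Jm n K * f = 0,
    0 < finrank K (Mix.Cor (aop c.arm (Jm n K) (c.B K) G f hf)) ∧
    0 < finrank K (Mix.Cor (Phi c G X)) ∧
    Mix.TameData (Mix.ac (aop c.arm (Jm n K) (c.B K) G f hf)) (Mix.ac (Phi c G X))

theorem aop_words {G f : Matrix (Ix n) c.δ K} (hf : Gᵀ * Jm n K * f = 0) (l : List (Fin 3))
    (v : Sp (Jm n K) G) :
    (((l.map (aop c.arm (Jm n K) (c.B K) G f hf)).prod v : Sp (Jm n K) G) : Ix n → K) =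
      Core.wd (ThX.MM (pU c K) (adjU c K) (Matrix.toLin' f) (Matrix.toLin' f)) l
        (v : Ix n → K) := by
  induction l with
  | nil => simp [Core.wd]
  | cons s l ih =>
    rw [List.map_cons, List.prod_cons, Module.End.mul_apply, ThX.wd_cons, ← ih, aop_coe,
      MM_toLin]

theorem aop_nil (R : Ranked c) {g : Fin 3 → Matrix (Ix n) (Ix n) K}
    (hg : ∀ s, (g s)ᵀ * Jm n K * g s = Jm n K) {G f : Matrix (Ix n) c.δ K} (hfN : f ∈ c.N g)
    (hf : Gᵀ * Jm n K * f = 0) : ∃ k, ∀ s, (aop c.arm (Jm n K) (c.B K) G f hf s) ^ k = 0 := by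
  obtain ⟨k, hk⟩ := MM_nil R hg hfN
  refine ⟨k, fun s => LinearMap.ext fun v => ?_⟩
  apply Subtype.ext
  have h1 := aop_words hf (List.replicate k s) v
  rw [List.map_replicate, List.prod_replicate, Core.wd, List.map_replicate,
    List.prod_replicate, hk] at h1
  exact h1

theorem aop_sum {N W : Submodule K (Matrix (Ix n) c.δ K)}
    (hD : FO.Data ℂ c.arm (Jm n K) (c.B K) N W) {G f : Matrix (Ix n) c.δ K} (hfW : f ∈ W)
    (hf : Gᵀ * Jm n K * f = 0) (v : Sp (Jm n K) G) :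
    ∑ s, aop c.arm (Jm n K) (c.B K) G f hf s v = 0 := by
  apply Subtype.ext
  rw [Submodule.coe_sum]
  refine Eq.trans (Finset.sum_congr rfl fun s _ => ?_) (MM_sum hD hfW (v : Ix n → K))
  rw [aop_coe, MM_toLin]

/-- if the core of `(S^⊥, M_s(f,f) J)` vanishes, `f` is isotropic -/
theorem iso_of_T (R : Ranked c) (hR : PosR R q) {g : Fin 3 → Matrix (Ix n) (Ix n) K}
    {H : Matrix (Fin q.toPol.m) (Fin q.toPol.m) K} (hG : GI c q.toPol K g H)
    {G f : Matrix (Ix n) c.δ K} (hf' : f ∈ c.N g ⊓ VL (q.toPol.LH H))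
    (hf : Gᵀ * Jm n K * f = 0) (hT : St.T (aop c.arm (Jm n K) (c.B K) G f hf) = ⊤) :
    fᵀ * Jm n K * f = 0 := by
  obtain ⟨m, hm⟩ := Mix.T_eq_top_iff.1 hT
  have hD := Ind.GI.data hG
  have h1 := nil_pair R hR hG.orth hG.skew (Ind.GI.hgen hG) hD (Matrix.toLin' f) ⟨f, hf', rfl⟩
    (Matrix.toLin' f) ⟨f, hf', rfl⟩ ⟨m + 1, fun l hl v => ?_⟩
  · refine (Ext.form_zero_iff f f).1 fun u u' => ?_
    exact h1 u u'
  · -- `l = l₁ ++ l₂ ++ [s]`
    obtain ⟨l1, l2, s, rfl, hl2⟩ : ∃ l1 l2 : List (Fin 3), ∃ s, l = l1 ++ (l2 ++ [s]) ∧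
        l2.length = m := by
      have e : l = l.take (l.length - (m + 1)) ++ l.drop (l.length - (m + 1)) :=
        (List.take_append_drop _ _).symm
      have hlen : (l.drop (l.length - (m + 1))).length = m + 1 := by
        rw [List.length_drop]; omega
      generalize l.take (l.length - (m + 1)) = l1 at e
      generalize l.drop (l.length - (m + 1)) = l3 at e hlen
      rcases List.eq_nil_or_concat l3 with h | ⟨l2, s, h⟩
      · rw [h] at hlen; simp at hlen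
      · refine ⟨l1, l2, s, ?_, ?_⟩
        · rw [e, h]; simp
        · rw [h] at hlen; simpa using hlen
    rw [Core.wd_append, Core.wd_append]
    have h2 : Core.wd (ThX.MM (pU c K) (adjU c K) (Matrix.toLin' f) (Matrix.toLin' f)) [s] v
        ∈ Sp (Jm n K) G := by
      rw [ThX.wd_cons, ThX.wd_nil, MM_toLin, mem_Sp, mulVec_mulVec]
      have : Gᵀ * Jm n K * (FO.M c.arm (c.B K) s f f * Jm n K) = 0 := by
        unfold FO.M
        have e : Gᵀ * Jm n K * (f * E K c.arm s * c.B K * fᵀ * Jm n K)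
            = (Gᵀ * Jm n K * f) * (E K c.arm s * c.B K * fᵀ * Jm n K) := by
          simp only [Matrix.mul_assoc]
        rw [e, hf, Matrix.zero_mul]
      rw [this, zero_mulVec]
    have h3 := aop_words hf l2 ⟨_, h2⟩
    rw [hm l2 hl2] at h3
    rw [← h3]
    simp

/-- **The final alternative of G1.2.** -/
theorem mix_final (R : Ranked c) (hR : PosR R q) {g : Fin 3 → Matrix (Ix n) (Ix n) K}
    {H : Matrix (Fin q.toPol.m) (Fin q.toPol.m) K} (hG : GI c q.toPol K g H)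
    {G f : Matrix (Ix n) c.δ K}
    (hC : Ctx ℂ c.arm (Jm n K) (c.B K) (c.N g) (VL (q.toPol.LH H)) G)
    (hc : Glue ℂ c.arm (Jm n K) (c.N g) (VL (q.toPol.LH H)) G)
    (hf : f ∈ c.N g ⊓ VL (q.toPol.LH H))
    {p : Matrix (Ix n) (Ix n) K × (Fin 3 → Matrix (Ix n) (Ix n) K)}
    (hp : p ∈ NN c.arm (Jm n K) (c.N g) G) :
    fᵀ * Jm n K * f = 0 ∨ Gᵀ * Jm n K * (p.1 * G) = 0 ∨ TameMix c G f p.1 := by
  have hfG := hC.perp f hf
  have hcl := hC.mixClaim (maxN hG.orth) (maxW q.toPol hG.skew) hc hf hp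
  have hB : Mix.Brd (eta (Jm n K) G p.1) (Phi c G p.1)
      (fun s => eta (Jm n K) G p.1 ∘ₗ Mop c.arm (c.B K) G s) :=
    { comm := fun s v => rfl
      ker := fun s v hv => by
        change Mop c.arm (c.B K) G s (eta (Jm n K) G p.1 v) = 0
        rw [hv, map_zero]
      range := fun s w => ⟨Mop c.arm (c.B K) G s w, rfl⟩ }
  obtain ⟨k1, hk1⟩ := aop_nil (G := G) R hG.orth hf.1 hfG
  obtain ⟨k2, hk2⟩ := Phi_nil R hG.orth hC hp
  rcases Mix.mix_alt hB hcl (fun s => ⟨k1, hk1 s⟩) (fun s => ⟨k2, hk2 s⟩)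
    (fun v => aop_sum hC.data hf.2 hfG v) (fun v => Phi_sum hC p.1 v) with h | h | h
  · exact Or.inl (iso_of_T R hR hG hf hfG h)
  · exact Or.inr (Or.inl (eta_zero_of_T R q.toPol hG.orth hG.skew (Ind.GI.hgen hG) hC hp h))
  · exact Or.inr (Or.inr ⟨hfG, h⟩)

/-- `Glue` for an element of `𝒦iso` with all vertical derivations. -/
theorem glue_of {g : Fin 3 → Matrix (Ix n) (Ix n) K}
    {H : Matrix (Fin q.toPol.m) (Fin q.toPol.m) K} (hG : GI c q.toPol K g H)
    {G : Matrix (Ix n) c.δ K}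
    (hC : Ctx ℂ c.arm (Jm n K) (c.B K) (c.N g) (VL (q.toPol.LH H)) G)
    (hiso : ∀ w ∈ c.N g ⊓ VL (q.toPol.LH H), wᵀ * Jm n K * w = 0 →
      w ∈ Om.Kiso (Jm n K) (c.N g) (VL (q.toPol.LH H)))
    (hV : ∀ w ∈ Om.Kiso (Jm n K) (c.N g) (VL (q.toPol.LH H)), GenQ.VertH c g H G w) :
    Glue ℂ c.arm (Jm n K) (c.N g) (VL (q.toPol.LH H)) G := by
  intro R hR hRG
  obtain ⟨D0, h0, h0H⟩ := hG.dir R hR 0 (by simp)
  have hW0 : ∀ F ∈ (VL (q.toPol.LH H) : Submodule K (Matrix (Ix n) c.δ K)),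
      F.map D0 - F * (0 : Matrix c.δ c.δ K)ᵀ ∈
        (VL (q.toPol.LH H) : Submodule K (Matrix (Ix n) c.δ K)) := by
    intro F hF
    refine FO3.onW q.toPol hG.skew D0 ?_ hF
    rw [h0H, FO3.dirH, Matrix.mul_zero, Matrix.zero_mul]
  have hw := Ind.w_iso hC hR hRG h0 (fun F hF => by
    have := hW0 F hF
    rwa [transpose_zero, Matrix.mul_zero, sub_zero] at this)
  obtain ⟨D1, h1, h1H, h1G⟩ := hV _ (hiso _ hw.1 hw.2)
  refine ⟨D0 - D1, ⟨fun F hF => ?_, fun F hF => ?_⟩, ?_⟩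
  · have h2 := h1 F hF
    rw [act_zero, sub_zero] at h2
    have e : F.map (D0 - D1) - act c.arm R F = (F.map D0 - act c.arm R F) - F.map D1 := by
      ext i j
      simp [sub_right_comm]
    change F.map (D0 - D1) - act c.arm R F ∈ _
    rw [e]
    exact (c.N g).sub_mem (h0 F hF) h2
  · have h2 := (GenQ.realises_of q.toPol hG.skew h1 h1H).onW F hF
    have h3 := hW0 F hF
    have e : F.map (D0 - D1) - F * (0 : Matrix c.δ c.δ K)ᵀ
        = (F.map D0 - F * (0 : Matrix c.δ c.δ K)ᵀ) - (F.map D1 - F * (0 : Matrix c.δ c.δ K)ᵀ) := by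
      rw [transpose_zero, Matrix.mul_zero, sub_zero, sub_zero, sub_zero]
      ext i j
      simp
    change F.map (D0 - D1) - F * (0 : Matrix c.δ c.δ K)ᵀ ∈ _
    rw [e]
    exact Submodule.sub_mem _ h3 h2
  · ext i j
    have h2 := congrFun (congrFun h1G i) j
    rw [map_apply, map_apply] at h2
    simp [h2]

end Crest.Agent.R172.Qt
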