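import Crest.Agent.R172.QCore2
import Crest.Agent.R172.QCore3
import Crest.Agent.R172.Qt9

/-!
Row 172 (S0260), node Q-Core, part 4 (helper28): `TameMix c G f X` unpacked as `QC.Pair`.
-/

set_option autoImplicit false
set_option linter.unusedSectionVars false
set_option linter.unusedFintypeInType false
set_option linter.unusedDecidableInType false

namespace Crest.Agent.R172.QC

open Matrix Module Crest.Agent.R172.FO Crest.Agent.R172.Qt
open Crest.Agent.R172.CF
open Crest.Agent.R172.Gen (Jm Ix)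
open Crest.Agent.R172.Mix

variable {n : ℕ} {a : Fin 3 → Fin n → ℤ} {c : Cfg n a} {K : Type} [Field K] [Algebra ℂ K]

/-- **`TameMix` as a `Pair`** -/
theorem tameMix_pair {W : Submodule K (Matrix (Ix n) c.δ K)}
    {g : Fin 3 → Matrix (Ix n) (Ix n) K} {G f : Matrix (Ix n) c.δ K}
    (hC : Ctx ℂ c.arm (Jm n K) (c.B K) (c.N g) W G) (hf : f ∈ c.N g ⊓ W)
    {X : Matrix (Ix n) (Ix n) K} (hX : Skw (Jm n K) X) (h : TameMix c G f X) :
    ∃ hf0 : Gᵀ * Jm n K * f = 0, ∃ l : Fin 3 → ℕ,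
      Pair (aop c.arm (Jm n K) (c.B K) G f hf0) (omP (Jm n K) G) (Phi c G X)
        (eta (Jm n K) G X) l := by
  obtain ⟨hf0, h1, h2, h3⟩ := h
  refine ⟨hf0, ?_⟩
  refine exists_pair (sideP hC.data.J_symm hC.data.B_symm hC.data.B_arm hf0)
    (sideQ hC.data.J_symm hC.data.B_symm hC.data.B_arm hX) ?_ ?_ h1 h2 h3
  · exact fun v => aop_sum hC.data hf.2 hf0 v
  · exact fun v => Phi_sum hC X v

end Crest.Agent.R172.QC
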