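import Crest.Agent.R172.TameEnd1

/-!
Row 172, ending of the tame case, part 2: arbitrary position, by semicontinuity.
-/

set_option autoImplicit false

namespace Crest.Agent.R172.TE

open Module LinearMap

variable {K : Type*} [Field K]
variable {V : Type*} [AddCommGroup V] [Module K V] [FiniteDimensional K V]

/-- the index type of adapted bases -/
abbrev I3 (m : ℕ) : Type := Fin m ⊕ (Fin m ⊕ Fin m)

/-- adapted basis of a flag of dimensions `m, 2m, 3m` -/
theorem exists_adapted {P P' : Submodule K V} {m : ℕ} (hV : finrank K V = 3 * m)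
    (hP : finrank K P = m) (hP' : finrank K P' = 2 * m) (hle : P ≤ P') :
    ∃ b : Basis (I3 m) K V, P = Submodule.span K (Set.range fun i => b (Sum.inl i)) ∧
      P' = Submodule.span K (Set.range fun i => b (Sum.inl i)) ⊔
        Submodule.span K (Set.range fun i => b (Sum.inr (Sum.inl i))) := by
  obtain ⟨E, hE⟩ := Submodule.exists_isCompl P
  obtain ⟨D, hD⟩ := Submodule.exists_isCompl P'
  set C : Submodule K V := E ⊓ P' with hC
  have hPC : P ⊔ C = P' := by
    rw [hC, ← sup_inf_assoc_of_le E hle, hE.sup_eq_top, top_inf_eq]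
  have hPC0 : P ⊓ C = ⊥ := by
    rw [hC, ← inf_assoc, hE.inf_eq_bot, bot_inf_eq]
  have hCd : finrank K C = m := by
    have := Submodule.finrank_sup_add_finrank_inf_eq P C
    rw [hPC, hPC0, finrank_bot] at this
    omega
  have hDd : finrank K D = m := by
    have := Submodule.finrank_add_eq_of_isCompl hD
    omega
  let p : Basis (Fin m) K P := Module.finBasisOfFinrankEq K P hP
  let c : Basis (Fin m) K C := Module.finBasisOfFinrankEq K C hCd
  let d : Basis (Fin m) K D := Module.finBasisOfFinrankEq K D hDd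
  let f : I3 m → V := Sum.elim (fun i => (p i : V)) (Sum.elim (fun i => (c i : V)) fun i => (d i : V))
  have sp : ∀ (W : Submodule K V) (w : Basis (Fin m) K W),
      Submodule.span K (Set.range fun i => ((w i : W) : V)) = W := by
    intro W w
    have h1 : (Set.range fun i => ((w i : W) : V)) = W.subtype '' Set.range w := by
      rw [← Set.range_comp]; rfl
    rw [h1, ← Submodule.map_span, w.span_eq, Submodule.map_top, Submodule.range_subtype]
  have htop : ⊤ ≤ Submodule.span K (Set.range f) := by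
    have h1 : Set.range f = (Set.range fun i => (p i : V)) ∪ ((Set.range fun i => (c i : V)) ∪
        Set.range fun i => (d i : V)) := by
      rw [Set.Sum.elim_range, Set.Sum.elim_range]
    rw [h1, Submodule.span_union, Submodule.span_union, sp P p, sp C c, sp D d, ← sup_assoc, hPC,
      hD.sup_eq_top]
  have hcard : Fintype.card (I3 m) = finrank K V := by
    rw [Fintype.card_sum, Fintype.card_sum, Fintype.card_fin, hV]; ring
  refine ⟨basisOfTopLeSpanOfCardEqFinrank f htop hcard, ?_, ?_⟩
  · simp only [coe_basisOfTopLeSpanOfCardEqFinrank]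
    exact (sp P p).symm
  · simp only [coe_basisOfTopLeSpanOfCardEqFinrank]
    have h1 : Submodule.span K (Set.range fun i => f (Sum.inl i)) = P := sp P p
    have h2 : Submodule.span K (Set.range fun i => f (Sum.inr (Sum.inl i))) = C := sp C c
    rw [h1, h2, hPC]

/-- transport of flags -/
theorem exists_iso {V₀ : Type*} [AddCommGroup V₀] [Module K V₀] [FiniteDimensional K V₀]
    {P P' : Submodule K V} {R R' : Submodule K V₀} {m : ℕ}
    (hV : finrank K V = 3 * m) (hP : finrank K P = m) (hP' : finrank K P' = 2 * m) (hle : P ≤ P')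
    (hV₀ : finrank K V₀ = 3 * m) (hR : finrank K R = m) (hR' : finrank K R' = 2 * m)
    (hle' : R ≤ R') :
    ∃ e : V ≃ₗ[K] V₀, P.map (e : V →ₗ[K] V₀) = R ∧ P'.map (e : V →ₗ[K] V₀) = R' := by
  obtain ⟨b, hb1, hb2⟩ := exists_adapted hV hP hP' hle
  obtain ⟨b', hb1', hb2'⟩ := exists_adapted hV₀ hR hR' hle'
  refine ⟨b.equiv b' (Equiv.refl _), ?_, ?_⟩
  · rw [hb1, hb1', Submodule.map_span, ← Set.range_comp]
    congr 2
    funext i
    simp
  · rw [hb2, hb2', Submodule.map_sup, Submodule.map_span, Submodule.map_span, ← Set.range_comp,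
      ← Set.range_comp]
    congr 3
    · funext i
      simp
    · funext i
      simp

/-! ### The standard triple -/

section Std

variable (K) (m : ℕ)

abbrev W0 : Type _ := Fin m → K
abbrev V0 : Type _ := W0 K m × W0 K m × W0 K m

/-- the maps defining the standard lines -/
def q (s : Fin 3) : W0 K m →ₗ[K] V0 K m :=
  match s with
  | 0 => LinearMap.id.prod (LinearMap.prod 0 0)
  | 1 => LinearMap.prod 0 (LinearMap.id.prod 0)
  | 2 => LinearMap.prod 0 (LinearMap.prod 0 LinearMap.id)

/-- the standard lines -/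
def R (s : Fin 3) : Submodule K (V0 K m) := LinearMap.range (q K m s)

/-- the maps `W² → V₀` defining the standard planes -/
def q' (s : Fin 3) : (W0 K m × W0 K m) →ₗ[K] V0 K m :=
  match s with
  | 0 => (LinearMap.fst K _ _).prod ((LinearMap.snd K _ _).prod (LinearMap.snd K _ _))
  | 1 => (LinearMap.fst K _ _).prod ((LinearMap.snd K _ _).prod (LinearMap.fst K _ _))
  | 2 => (LinearMap.fst K _ _).prod ((LinearMap.fst K _ _).prod (LinearMap.snd K _ _))

def R' (s : Fin 3) : Submodule K (V0 K m) := LinearMap.range (q' K m s)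

theorem q_inj (s : Fin 3) : Function.Injective (q K m s) := by
  intro a b h
  fin_cases s <;> simpa [q] using h

theorem q'_inj (s : Fin 3) : Function.Injective (q' K m s) := by
  rintro ⟨a, a'⟩ ⟨b, b'⟩ h
  fin_cases s <;> simp [q'] at h <;> simp_all

theorem finrank_V0 : finrank K (V0 K m) = 3 * m := by
  rw [Module.finrank_prod, Module.finrank_prod, Module.finrank_fintype_fun_eq_card,
    Fintype.card_fin]
  ring

theorem finrank_R (s : Fin 3) : finrank K (R K m s) = m := by
  rw [R, LinearMap.finrank_range_of_inj (q_inj K m s), Module.finrank_fintype_fun_eq_card,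
    Fintype.card_fin]

theorem finrank_R' (s : Fin 3) : finrank K (R' K m s) = 2 * m := by
  rw [R', LinearMap.finrank_range_of_inj (q'_inj K m s), Module.finrank_prod,
    Module.finrank_fintype_fun_eq_card, Fintype.card_fin]
  ring

theorem R_le (s : Fin 3) : R K m s ≤ R' K m s := by
  rintro _ ⟨a, rfl⟩
  fin_cases s
  · exact ⟨(a, 0), by simp [q, q']⟩
  · exact ⟨(0, a), by simp [q, q']⟩
  · exact ⟨(0, a), by simp [q, q']⟩

theorem R_disj (s t : Fin 3) (h : s ≠ t) {x : V0 K m} (h1 : x ∈ R' K m s) (h2 : x ∈ R K m t) :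
    x = 0 := by
  obtain ⟨⟨a, b⟩, rfl⟩ := h1
  obtain ⟨c, hc⟩ := h2
  have key : a = 0 ∧ b = 0 := by
    fin_cases s <;> fin_cases t <;> simp [q, q'] at hc h
    · obtain ⟨h1, h2, h3⟩ := hc
      exact ⟨h1.symm, h3.symm⟩
    · obtain ⟨h1, h2, h3⟩ := hc
      exact ⟨h1.symm, h2.symm⟩
    · obtain ⟨h1, h2, h3⟩ := hc
      exact ⟨h3.symm, h2.symm⟩
    · obtain ⟨h1, h2, h3⟩ := hc
      exact ⟨h1.symm, h2.symm⟩
    · obtain ⟨h1, h2, h3⟩ := hc
      exact ⟨h2.symm, h3.symm⟩
    · obtain ⟨h1, h2, h3⟩ := hc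
      exact ⟨h1.symm, h3.symm⟩
  rw [key.1, key.2]
  exact map_zero _

theorem R_ind (x : V0 K m) (hx : x ∈ R K m 0) (y : V0 K m) (hy : y ∈ R K m 1) (z : V0 K m)
    (hz : z ∈ R K m 2) (h : x + y + z = 0) : x = 0 ∧ y = 0 ∧ z = 0 := by
  obtain ⟨a, rfl⟩ := hx
  obtain ⟨b, rfl⟩ := hy
  obtain ⟨c, rfl⟩ := hz
  simp [q] at h ⊢
  exact h

end Std

end Crest.Agent.R172.TE
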