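import Crest.Agent.R172.TameCount4
import Crest.Agent.R172.TameEnd2

/-!
Row 172: three isotropic `m`-dimensional subspaces of a `3m`-dimensional quadratic space, `m ≥ 2`,
in ARBITRARY position have a common nonzero infinitesimal stabiliser in `so(V)`.
-/

set_option autoImplicit false

namespace Crest.Agent.R172.TC

open Module LinearMap
open Crest.Agent.R172.Core (NS Tame)

variable {K : Type*} [Field K] {V : Type*} [AddCommGroup V] [Module K V]

variable {B : LinearMap.BilinForm K V}

/-- skew operators -/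
def So (B : LinearMap.BilinForm K V) : Submodule K (End K V) where
  carrier := {X | ∀ v w, B (X v) w = - B v (X w)}
  add_mem' := by
    intro a b ha hb v w
    rw [LinearMap.add_apply, LinearMap.add_apply, map_add, map_add, LinearMap.add_apply, ha, hb]
    ring
  zero_mem' := by intro v w; simp
  smul_mem' := by
    intro c a ha v w
    rw [LinearMap.smul_apply, LinearMap.smul_apply, map_smul, map_smul, LinearMap.smul_apply, ha]
    simp

theorem So.alt [CharZero K] (hB : NS B) {X : End K V} (h : X ∈ So B) (v : V) : B (X v) v = 0 := by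
  have h1 : B (X v) v = - B v (X v) := h v v
  rw [hB.symm v] at h1
  have h2 : (2 : K) * B (X v) v = 0 := by linear_combination h1
  simpa using h2

theorem So.swap (hB : NS B) {X : End K V} (h : X ∈ So B) (v w : V) :
    B (X v) w = - B (X w) v := by
  rw [hB.symm (X w) v]; exact h v w

/-- the operator of `f ∧ g` -/
noncomputable def wop [FiniteDimensional K V] (hB : NS B) (f g : Module.Dual K V) : End K V :=
  LinearMap.smulRight f ((B.toDual hB.nondeg).symm g) -
    LinearMap.smulRight g ((B.toDual hB.nondeg).symm f)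

theorem wop_apply [FiniteDimensional K V] (hB : NS B) (f g : Module.Dual K V) (x y : V) :
    B (wop hB f g x) y = f x * g y - g x * f y := by
  have h1 : ∀ (f : Module.Dual K V) (y : V), B ((B.toDual hB.nondeg).symm f) y = f y :=
    fun f y => LinearMap.BilinForm.apply_toDual_symm_apply _ _
  rw [wop, LinearMap.sub_apply, LinearMap.smulRight_apply, LinearMap.smulRight_apply, map_sub,
    map_smul, map_smul, LinearMap.sub_apply, LinearMap.smul_apply, LinearMap.smul_apply, h1, h1,
    smul_eq_mul, smul_eq_mul]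

theorem wop_mem [FiniteDimensional K V] (hB : NS B) (f g : Module.Dual K V) :
    wop hB f g ∈ So B := by
  intro x y
  rw [wop_apply, hB.symm x, wop_apply]
  ring

theorem finrank_So [FiniteDimensional K V] (hB : NS B) {α : Type*} [Fintype α] [LinearOrder α]
    (e : Basis α K V) : Fintype.card {p : α × α // p.1 < p.2} ≤ finrank K (So B) := by
  classical
  let L : ({p : α × α // p.1 < p.2} → K) →ₗ[K] So B :=
    { toFun := fun c => ∑ p, c p • ⟨wop hB (e.coord p.1.1) (e.coord p.1.2), wop_mem hB _ _⟩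
      map_add' := by
        intro c c'
        simp only [Pi.add_apply, add_smul, Finset.sum_add_distrib]
      map_smul' := by
        intro a c
        simp only [Pi.smul_apply, smul_eq_mul, RingHom.id_apply, Finset.smul_sum, mul_smul] }
  have hL : ∀ c x y, B (((L c : So B) : End K V) x) y =
      ∑ p, c p * (e.coord p.1.1 x * e.coord p.1.2 y - e.coord p.1.2 x * e.coord p.1.1 y) := by
    intro c x y
    change B (((∑ p, c p • ⟨wop hB (e.coord p.1.1) (e.coord p.1.2), wop_mem hB _ _⟩ : So B) :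
      End K V) x) y = _
    simp only [Submodule.coe_sum, Submodule.coe_smul, LinearMap.sum_apply, LinearMap.smul_apply,
      map_sum, map_smul, smul_eq_mul, wop_apply]
  have hinj : Function.Injective L := by
    rw [← LinearMap.ker_eq_bot, LinearMap.ker_eq_bot']
    intro c hc
    funext p
    have h1 := hL c (e p.1.1) (e p.1.2)
    rw [hc] at h1
    rw [Finset.sum_eq_single p] at h1
    · simp only [Basis.coord_apply, Basis.repr_self, Finsupp.single_eq_same] at h1
      rw [Finsupp.single_apply, if_neg (ne_of_lt p.2)] at h1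
      simpa using h1.symm
    · intro q _ hq
      simp only [Basis.coord_apply, Basis.repr_self, Finsupp.single_apply]
      have : ¬ (p.1.1 = q.1.1 ∧ p.1.2 = q.1.2) := by
        rintro ⟨h1, h2⟩
        exact hq (Subtype.ext (Prod.ext h1.symm h2.symm))
      have h3 : ¬ (p.1.1 = q.1.2 ∧ p.1.2 = q.1.1) := by
        rintro ⟨h1, h2⟩
        have ha := p.2
        have hb := q.2
        rw [h1, h2] at ha
        exact lt_asymm ha hb
      by_cases ha : p.1.1 = q.1.1
      · have hb : p.1.2 ≠ q.1.2 := fun h => this ⟨ha, h⟩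
        by_cases hc : p.1.1 = q.1.2
        · have hd : p.1.2 ≠ q.1.1 := fun h => h3 ⟨hc, h⟩
          simp [hb, hd]
        · simp [hb, hc]
      · by_cases hc : p.1.1 = q.1.2
        · have hd : p.1.2 ≠ q.1.1 := fun h => h3 ⟨hc, h⟩
          simp [ha, hd]
        · simp [ha, hc]
    · intro h
      exact absurd (Finset.mem_univ _) h
  have := LinearMap.finrank_le_finrank_of_injective hinj
  rwa [Module.finrank_fintype_fun_eq_card] at this

/-- skew operators with `B (X P) P' = 0` -/
def Sv (B : LinearMap.BilinForm K V) (P P' : Submodule K V) : Submodule K (End K V) where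
  carrier := {X | X ∈ So B ∧ ∀ x ∈ P, ∀ y ∈ P', B (X x) y = 0}
  add_mem' := by
    rintro a b ⟨ha', ha⟩ ⟨hb', hb⟩
    refine ⟨(So B).add_mem ha' hb', fun x hx y hy => ?_⟩
    rw [LinearMap.add_apply, map_add, LinearMap.add_apply, ha x hx y hy, hb x hx y hy, add_zero]
  zero_mem' := ⟨(So B).zero_mem, fun x _ y _ => by simp⟩
  smul_mem' := by
    rintro c a ⟨ha', ha⟩
    refine ⟨(So B).smul_mem c ha', fun x hx y hy => ?_⟩
    rw [LinearMap.smul_apply, map_smul, LinearMap.smul_apply, ha x hx y hy, smul_zero]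

theorem Sv_le (P P' : Submodule K V) : Sv B P P' ≤ So B := fun _ h => h.1

/-- codimension of `Sv` -/
theorem codim_Sv [FiniteDimensional K V] [CharZero K] (hB : NS B) {P P' : Submodule K V} {m : ℕ}
    (hV : finrank K V = 3 * m) (hP : finrank K P = m) (hP' : finrank K P' = 2 * m)
    (hle : P ≤ P') :
    2 * finrank K (So B) + m ≤ 2 * finrank K (Sv B P P') + 3 * m ^ 2 := by
  classical
  obtain ⟨b, hb1, hb2⟩ := TE.exists_adapted hV hP hP' hle
  let T := {p : Fin m × Fin m // p.1 < p.2} ⊕ (Fin m × Fin m)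
  let L : So B →ₗ[K] (T → K) :=
    { toFun := fun X t => Sum.elim
        (fun p : {p : Fin m × Fin m // p.1 < p.2} =>
          B ((X : End K V) (b (Sum.inl p.1.1))) (b (Sum.inl p.1.2)))
        (fun p : Fin m × Fin m =>
          B ((X : End K V) (b (Sum.inl p.1))) (b (Sum.inr (Sum.inl p.2)))) t
      map_add' := by
        intro a c
        funext t
        rcases t with t | t <;> simp
      map_smul' := by
        intro a c
        funext t
        rcases t with t | t <;> simp }
  have hker : (LinearMap.ker L).map (So B).subtype ≤ Sv B P P' := by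
    rintro _ ⟨X, hω, rfl⟩
    rw [SetLike.mem_coe, LinearMap.mem_ker] at hω
    have h1 : ∀ i j : Fin m, i < j →
        B ((X : End K V) (b (Sum.inl i))) (b (Sum.inl j)) = 0 := fun i j hij =>
      congrFun hω (Sum.inl ⟨(i, j), hij⟩)
    have h2 : ∀ i j : Fin m,
        B ((X : End K V) (b (Sum.inl i))) (b (Sum.inr (Sum.inl j))) = 0 := fun i j =>
      congrFun hω (Sum.inr (i, j))
    have h3 : ∀ i j : Fin m,
        B ((X : End K V) (b (Sum.inl i))) (b (Sum.inl j)) = 0 := by
      intro i j
      rcases lt_trichotomy i j with h | h | h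
      · exact h1 i j h
      · rw [h]; exact So.alt hB X.2 _
      · rw [So.swap hB X.2, h1 j i h, neg_zero]
    refine ⟨X.2, fun x hx y hy => ?_⟩
    change B ((X : End K V) x) y = 0
    -- `y`
    have hyb : ∀ i : Fin m, B ((X : End K V) (b (Sum.inl i))) y = 0 := by
      intro i
      rw [hb2] at hy
      obtain ⟨y1, hy1, y2, hy2, rfl⟩ := Submodule.mem_sup.1 hy
      rw [map_add]
      have e1 : B ((X : End K V) (b (Sum.inl i))) y1 = 0 := by
        have hle : Submodule.span K (Set.range fun i => b (Sum.inl i)) ≤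
            LinearMap.ker (B ((X : End K V) (b (Sum.inl i)))) := by
          rw [Submodule.span_le]
          rintro _ ⟨j, rfl⟩
          exact h3 i j
        exact hle hy1
      have e2 : B ((X : End K V) (b (Sum.inl i))) y2 = 0 := by
        have hle : Submodule.span K (Set.range fun i => b (Sum.inr (Sum.inl i))) ≤
            LinearMap.ker (B ((X : End K V) (b (Sum.inl i)))) := by
          rw [Submodule.span_le]
          rintro _ ⟨j, rfl⟩
          exact h2 i j
        exact hle hy2
      rw [e1, e2, add_zero]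
    have hle : P ≤ LinearMap.ker (B.flip y ∘ₗ (X : End K V)) := by
      rw [hb1, Submodule.span_le]
      rintro _ ⟨i, rfl⟩
      exact hyb i
    exact hle hx
  have h1 := LinearMap.finrank_range_add_finrank_ker L
  have h2 : finrank K (LinearMap.range L) ≤ Fintype.card T := by
    have := Submodule.finrank_le (LinearMap.range L)
    rwa [Module.finrank_fintype_fun_eq_card] at this
  have h3 := Submodule.finrank_mono hker
  have h3' : finrank K ((LinearMap.ker L).map (So B).subtype) = finrank K (LinearMap.ker L) :=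
    (Submodule.equivMapOfInjective (So B).subtype (Submodule.injective_subtype _)
      (LinearMap.ker L)).finrank_eq.symm
  have h4 : 2 * Fintype.card T + m = 3 * m ^ 2 := by
    have h5 : Fintype.card T = Fintype.card {p : Fin m × Fin m // p.1 < p.2} + m * m := by
      rw [Fintype.card_sum, Fintype.card_prod, Fintype.card_fin]
    have h6 := card_lt_pairs m
    rw [h5, mul_add, h6]
    rcases m with _ | m
    · simp
    · simp only [Nat.add_sub_cancel]
      ring
  omega

section Any

open Crest.Agent.R172.St (wedge wedge_apply wedge_sk)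

variable [FiniteDimensional K V] [CharZero K]

/-- the orthogonal as a submodule -/
local notation "⟪" B ", " P "⟫" => LinearMap.BilinForm.orthogonal B P

theorem orth_mem (hB : NS B) {P : Submodule K V} {y : V} :
    y ∈ B.orthogonal P ↔ ∀ x ∈ P, B x y = 0 := Iff.rfl

/-- preservation of `P` from vanishing on `P × P^⊥` -/
theorem Sv_pres (hB : NS B) {P : Submodule K V} {X : End K V} (h : X ∈ Sv B P (B.orthogonal P)) :
    ∀ x ∈ P, X x ∈ P := by
  intro x hx
  rw [← hB.oo P]
  intro y hy
  rw [hB.symm]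
  exact h.2 x hx y hy

/-- dimension argument -/
theorem dep {S A C D : Submodule K (End K V)} (hA : A ≤ S) (hC : C ≤ S) (hD : D ≤ S)
    (hsum : 2 * finrank K S ≤ finrank K A + finrank K C + finrank K D)
    (h : finrank K (A ⊔ C : Submodule K (End K V)) < finrank K S ∨
      finrank K ((A ⊓ C) ⊔ D : Submodule K (End K V)) < finrank K S) :
    ∃ X ∈ A, X ∈ C ∧ X ∈ D ∧ X ≠ 0 := by
  have h1 := Submodule.finrank_sup_add_finrank_inf_eq A C
  have h2 := Submodule.finrank_sup_add_finrank_inf_eq (A ⊓ C) D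
  have h3 := Submodule.finrank_mono (sup_le hA hC)
  have h4 := Submodule.finrank_mono (sup_le (inf_le_left.trans hA : A ⊓ C ≤ S) hD)
  have h5 : 0 < finrank K ((A ⊓ C) ⊓ D : Submodule K (End K V)) := by
    rcases h with h | h <;> omega
  have h6 : ((A ⊓ C) ⊓ D : Submodule K (End K V)) ≠ ⊥ := by
    intro h0
    rw [h0, finrank_bot] at h5
    exact lt_irrefl _ h5
  obtain ⟨X, hX, hX0⟩ := (Submodule.ne_bot_iff _).1 h6
  exact ⟨X, hX.1.1, hX.1.2, hX.2, hX0⟩

/-- a functional not vanishing on `So` -/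
theorem finrank_lt_of (hB : NS B) {x y : V} (hxy : ∀ c : K, y ≠ c • x) (hx0 : x ≠ 0)
    {A : Submodule K (End K V)} (hA : A ≤ So B) (h : ∀ X ∈ A, B (X x) y = 0) :
    finrank K A < finrank K (So B) := by
  apply Submodule.finrank_lt_finrank_of_lt
  refine lt_of_le_of_ne hA ?_
  intro heq
  obtain ⟨b, hb1, hb2⟩ := exists_test2 hB hxy
  obtain ⟨a, ha⟩ := exists_test hB hx0
  have h1 : wedge B b a ∈ A := by
    rw [heq]
    exact wedge_skew hB b a
  have h2 := h _ h1
  rw [wedge_apply, ha, hb1] at h2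
  simp only [one_smul, zero_smul, sub_zero] at h2
  rw [h2] at hb2
  exact zero_ne_one hb2

/-- the data of three isotropic subspaces -/
structure Tri (B : LinearMap.BilinForm K V) (m : ℕ) (P Q R : Submodule K V) : Prop where
  hP : finrank K P = m
  hQ : finrank K Q = m
  hR : finrank K R = m
  iP : ∀ x ∈ P, ∀ y ∈ P, B x y = 0
  iQ : ∀ x ∈ Q, ∀ y ∈ Q, B x y = 0
  iR : ∀ x ∈ R, ∀ y ∈ R, B x y = 0

def Goal (B : LinearMap.BilinForm K V) (P Q R : Submodule K V) : Prop :=
  ∃ X : End K V, X ≠ 0 ∧ (∀ v w, B (X v) w = - B v (X w)) ∧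
    (∀ x ∈ P, X x ∈ P) ∧ (∀ x ∈ Q, X x ∈ Q) ∧ (∀ x ∈ R, X x ∈ R)

omit [FiniteDimensional K V] [CharZero K] in
theorem Goal.rot {P Q R : Submodule K V} (h : Goal B P Q R) : Goal B Q R P := by
  obtain ⟨X, h0, h1, h2, h3, h4⟩ := h
  exact ⟨X, h0, h1, h3, h4, h2⟩

omit [FiniteDimensional K V] [CharZero K] in
theorem Goal.sw {P Q R : Submodule K V} (h : Goal B P Q R) : Goal B Q P R := by
  obtain ⟨X, h0, h1, h2, h3, h4⟩ := h
  exact ⟨X, h0, h1, h3, h2, h4⟩

omit [FiniteDimensional K V] [CharZero K] in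
theorem Tri.rot {m : ℕ} {P Q R : Submodule K V} (h : Tri B m P Q R) : Tri B m Q R P :=
  ⟨h.hQ, h.hR, h.hP, h.iQ, h.iR, h.iP⟩

omit [FiniteDimensional K V] [CharZero K] in
theorem Tri.sw {m : ℕ} {P Q R : Submodule K V} (h : Tri B m P Q R) : Tri B m Q P R :=
  ⟨h.hQ, h.hP, h.hR, h.iQ, h.iP, h.iR⟩

theorem finrank_orth (hB : NS B) (P : Submodule K V) :
    finrank K (B.orthogonal P) = finrank K V - finrank K P :=
  LinearMap.BilinForm.finrank_orthogonal hB.nondeg P

/-- the count for three isotropic subspaces -/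
theorem Tri.count (hB : NS B) {m : ℕ} {P Q R : Submodule K V} (h : Tri B m P Q R)
    (hV : finrank K V = 3 * m) :
    2 * finrank K (So B) ≤ finrank K (Sv B P (B.orthogonal P)) +
      finrank K (Sv B Q (B.orthogonal Q)) + finrank K (Sv B R (B.orthogonal R)) := by
  have key : ∀ P : Submodule K V, finrank K P = m → (∀ x ∈ P, ∀ y ∈ P, B x y = 0) →
      2 * finrank K (So B) + m ≤ 2 * finrank K (Sv B P (B.orthogonal P)) + 3 * m ^ 2 := by
    intro P hP iP
    refine codim_Sv hB hV hP ?_ ?_
    · rw [finrank_orth hB, hV, hP]; omega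
    · intro x hx y hy
      exact iP y hy x hx
  have h1 := key P h.hP h.iP
  have h2 := key Q h.hQ h.iQ
  have h3 := key R h.hR h.iR
  have h4 : 9 * m ^ 2 ≤ 2 * finrank K (So B) + 3 * m := by
    have h5 := finrank_So hB (Module.finBasisOfFinrankEq K V hV)
    have h6 := card_lt_pairs (3 * m)
    have h7 : 3 * m * (3 * m - 1) + 3 * m = 9 * m ^ 2 := by
      rcases m with _ | m
      · simp
      · have : 3 * (m + 1) - 1 = 3 * m + 2 := by omega
        rw [this]
        ring
    omega
  nlinarith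

theorem goal_of (hB : NS B) {P Q R : Submodule K V} {X : End K V}
    (h1 : X ∈ Sv B P (B.orthogonal P)) (h2 : X ∈ Sv B Q (B.orthogonal Q))
    (h3 : X ∈ Sv B R (B.orthogonal R)) (h0 : X ≠ 0) : Goal B P Q R :=
  ⟨X, h0, h1.1, Sv_pres hB h1, Sv_pres hB h2, Sv_pres hB h3⟩

/-- case A: a degenerate pairing -/
theorem caseA (hB : NS B) {m : ℕ} (hm : 1 ≤ m) {P Q R : Submodule K V} (h : Tri B m P Q R)
    (hV : finrank K V = 3 * m) {x : V} (hx : x ∈ P) (hx0 : x ≠ 0) (hxQ : ∀ y ∈ Q, B x y = 0) :
    Goal B P Q R := by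
  have main : ∀ y : V, (∀ c : K, y ≠ c • x) →
      (∀ X ∈ Sv B P (B.orthogonal P), B (X x) y = 0) →
      (∀ X ∈ Sv B Q (B.orthogonal Q), B (X x) y = 0) → Goal B P Q R := by
    intro y hy h1 h2
    obtain ⟨X, hX1, hX2, hX3, hX0⟩ := dep (Sv_le (B := B) P (B.orthogonal P))
      (Sv_le Q (B.orthogonal Q)) (Sv_le R (B.orthogonal R)) (h.count hB hV) (Or.inl (by
        refine finrank_lt_of hB hy hx0 (sup_le (Sv_le _ _) (Sv_le _ _)) ?_
        intro X hX
        obtain ⟨X1, hX1, X2, hX2, rfl⟩ := Submodule.mem_sup.1 hX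
        rw [LinearMap.add_apply, map_add, LinearMap.add_apply, h1 X1 hX1, h2 X2 hX2, add_zero]))
    exact goal_of hB hX1 hX2 hX3 hX0
  obtain ⟨y, hy, hy0, hyP⟩ := exists_other (by rw [h.hP, h.hQ]) hx hx0 hxQ
  by_cases hc : ∃ c : K, y = c • x
  · obtain ⟨c, rfl⟩ := hc
    have hcne : c ≠ 0 := fun h => hy0 (by rw [h, zero_smul])
    have hxQ' : x ∈ Q := by
      have := Q.smul_mem c⁻¹ hy
      rwa [smul_smul, inv_mul_cancel₀ hcne, one_smul] at this
    -- a vector of `(P + Q)^⊥` independent of `x`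
    have hex : ∃ y' ∈ B.orthogonal (P ⊔ Q), ∀ c : K, y' ≠ c • x := by
      by_contra hno
      push Not at hno
      have h1 : B.orthogonal (P ⊔ Q) ≤ Submodule.span K {x} := by
        intro y hy
        obtain ⟨c, hc⟩ := hno y hy
        exact Submodule.mem_span_singleton.2 ⟨c, hc.symm⟩
      have h2 := Submodule.finrank_mono h1
      have h3 : finrank K (Submodule.span K {x}) ≤ 1 := by
        have := finrank_span_le_card (R := K) ({x} : Set V)
        simpa using this
      have h4 := finrank_orth hB (P ⊔ Q)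
      have h5 := Submodule.finrank_sup_add_finrank_inf_eq P Q
      have h6 : 0 < finrank K (P ⊓ Q : Submodule K V) := by
        rw [Nat.pos_iff_ne_zero]
        intro h0
        rw [Submodule.finrank_eq_zero] at h0
        apply hx0
        rw [← Submodule.mem_bot K, ← h0]
        exact ⟨hx, hxQ'⟩
      rw [h.hP, h.hQ] at h5
      omega
    obtain ⟨y', hy', hy'c⟩ := hex
    refine main y' hy'c ?_ ?_
    · intro X hX
      exact hX.2 x hx y' fun z hz => hy' z (Submodule.mem_sup_left hz)
    · intro X hX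
      exact hX.2 x hxQ' y' fun z hz => hy' z (Submodule.mem_sup_right hz)
  · push Not at hc
    refine main y hc ?_ ?_
    · intro X hX
      exact hX.2 x hx y fun z hz => hyP z hz
    · intro X hX
      rw [So.swap hB hX.1, hX.2 y hy x fun z hz => by rw [hB.symm]; exact hxQ z hz, neg_zero]

/-- case B: a linear relation -/
theorem caseB (hB : NS B) {m : ℕ} {P Q R : Submodule K V} (h : Tri B m P Q R)
    (hV : finrank K V = 3 * m) {x y z : V} (hx : x ∈ P) (hy : y ∈ Q) (hz : z ∈ R)
    (hxyz : x + y + z = 0) (hxQ : ¬ ∀ y ∈ Q, B x y = 0) {z0 : V} (hz0 : z0 ≠ 0)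
    (hzP : ∀ v ∈ P, B v z0 = 0) (hzQ : ∀ v ∈ Q, B v z0 = 0) (hzR : ∀ v ∈ R, B v z0 = 0) :
    Goal B P Q R := by
  have hx0 : x ≠ 0 := by
    rintro rfl
    apply hxQ
    intro y _
    simp
  have hind : ∀ c : K, z0 ≠ c • x := by
    intro c hc
    have hcne : c ≠ 0 := fun h => hz0 (by rw [hc, h, zero_smul])
    apply hxQ
    intro v hv
    have h1 := hzQ v hv
    rw [hc, map_smul, smul_eq_mul] at h1
    rw [hB.symm]
    exact (mul_eq_zero.1 h1).resolve_left hcne
  obtain ⟨X, hX2, hX3, hX1, hX0⟩ := dep (Sv_le (B := B) Q (B.orthogonal Q))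
    (Sv_le R (B.orthogonal R)) (Sv_le P (B.orthogonal P)) (h.rot.count hB hV) (Or.inr (by
      refine finrank_lt_of hB hind hx0 (sup_le (inf_le_left.trans (Sv_le _ _)) (Sv_le _ _)) ?_
      intro X hX
      obtain ⟨X1, hX1, X2, hX2, rfl⟩ := Submodule.mem_sup.1 hX
      have h1 : B (X2 x) z0 = 0 := hX2.2 x hx z0 hzP
      have h2 : B (X1 x) z0 = 0 := by
        have h3 : x = -(y + z) := by
          rw [eq_neg_iff_add_eq_zero, ← add_assoc]; exact hxyz
        have h4 : B (X1 y) z0 = 0 := hX1.1.2 y hy z0 hzQ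
        have h5 : B (X1 z) z0 = 0 := hX1.2.2 z hz z0 hzR
        rw [h3]
        simp only [map_neg, map_add, LinearMap.neg_apply, LinearMap.add_apply, h4, h5, add_zero,
          neg_zero]
      rw [LinearMap.add_apply, map_add, LinearMap.add_apply, h1, h2, add_zero]))
  exact goal_of hB hX1 hX2 hX3 hX0

/-- **three isotropic `m`-spaces in a `3m`-space, arbitrary position** -/
theorem goal_any (hB : NS B) {m : ℕ} (hm : 2 ≤ m) {P Q R : Submodule K V} (h : Tri B m P Q R)
    (hV : finrank K V = 3 * m) : Goal B P Q R := by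
  by_cases hPQ : ∃ x ∈ P, x ≠ 0 ∧ ∀ y ∈ Q, B x y = 0
  · obtain ⟨x, hx, hx0, hxQ⟩ := hPQ
    exact caseA hB (by omega) h hV hx hx0 hxQ
  by_cases hQR : ∃ x ∈ Q, x ≠ 0 ∧ ∀ y ∈ R, B x y = 0
  · obtain ⟨x, hx, hx0, hxQ⟩ := hQR
    exact (caseA hB (by omega) h.rot hV hx hx0 hxQ).rot.rot
  by_cases hRP : ∃ x ∈ R, x ≠ 0 ∧ ∀ y ∈ P, B x y = 0
  · obtain ⟨x, hx, hx0, hxQ⟩ := hRP
    exact (caseA hB (by omega) h.rot.rot hV hx hx0 hxQ).rot
  by_cases hQP : ∃ x ∈ Q, x ≠ 0 ∧ ∀ y ∈ P, B x y = 0
  · obtain ⟨x, hx, hx0, hxQ⟩ := hQP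
    exact (caseA hB (by omega) h.sw hV hx hx0 hxQ).sw
  by_cases hRQ : ∃ x ∈ R, x ≠ 0 ∧ ∀ y ∈ Q, B x y = 0
  · obtain ⟨x, hx, hx0, hxQ⟩ := hRQ
    exact (caseA hB (by omega) h.rot.sw hV hx hx0 hxQ).sw.rot.rot
  push Not at hPQ hQR hRP hQP hRQ
  by_cases hind : ∀ x ∈ P, ∀ y ∈ Q, ∀ z ∈ R, x + y + z = 0 → x = 0 ∧ y = 0 ∧ z = 0
  · obtain ⟨X, h0, h1, h2, h3, h4⟩ := exists_skew_three hB hm h.hP h.hQ h.hR hV h.iP h.iQ h.iR
      (by
        intro y hy hyP
        by_contra hy0
        obtain ⟨z, hz, hz0⟩ := hQP y hy hy0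
        exact hz0 (by rw [hB.symm]; exact hyP z hz))
      (by
        intro y hy hyP
        by_contra hy0
        obtain ⟨z, hz, hz0⟩ := hRP y hy hy0
        exact hz0 (by rw [hB.symm]; exact hyP z hz))
      (by
        intro y hy hyP
        by_contra hy0
        obtain ⟨z, hz, hz0⟩ := hRQ y hy hy0
        exact hz0 (by rw [hB.symm]; exact hyP z hz)) hind
    exact ⟨X, h0, h1, h2, h3, h4⟩
  · push Not at hind
    obtain ⟨x, hx, y, hy, z, hz, hxyz, hne⟩ := hind
    -- the vector `z0`
    have hz0 : ∃ z0, z0 ≠ 0 ∧ (∀ v ∈ P, B v z0 = 0) ∧ (∀ v ∈ Q, B v z0 = 0) ∧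
        ∀ v ∈ R, B v z0 = 0 := by
      have hlt : finrank K (P ⊔ Q ⊔ R : Submodule K V) < finrank K V := by
        have h1 := Submodule.finrank_sup_add_finrank_inf_eq P Q
        have h2 := Submodule.finrank_sup_add_finrank_inf_eq (P ⊔ Q) R
        rw [h.hP, h.hQ] at h1
        rw [h.hR] at h2
        by_cases hz0 : z = 0
        · have hy' : y = -x := by
            rw [hz0, add_zero] at hxyz
            rw [eq_neg_iff_add_eq_zero, add_comm]; exact hxyz
          have hx0 : x ≠ 0 := by
            intro hx0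
            rw [hx0, neg_zero] at hy'
            exact hne hx0 hy' hz0
          have h3 : 0 < finrank K (P ⊓ Q : Submodule K V) := by
            rw [Nat.pos_iff_ne_zero]
            intro h0
            rw [Submodule.finrank_eq_zero] at h0
            apply hx0
            rw [← Submodule.mem_bot K, ← h0]
            refine ⟨hx, ?_⟩
            have : x = -y := by rw [hy', neg_neg]
            rw [this]
            exact Q.neg_mem hy
          omega
        · have h3 : 0 < finrank K ((P ⊔ Q) ⊓ R : Submodule K V) := by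
            rw [Nat.pos_iff_ne_zero]
            intro h0
            rw [Submodule.finrank_eq_zero] at h0
            apply hz0
            rw [← Submodule.mem_bot K, ← h0]
            refine ⟨?_, hz⟩
            have : z = -(x + y) := by
              rw [eq_neg_iff_add_eq_zero, add_comm]; exact hxyz
            rw [this]
            exact Submodule.neg_mem _ (Submodule.add_mem_sup hx hy)
          omega
      have h1 := finrank_orth hB (P ⊔ Q ⊔ R)
      have h2 : (B.orthogonal (P ⊔ Q ⊔ R)) ≠ ⊥ := by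
        intro h0
        rw [h0, finrank_bot] at h1
        omega
      obtain ⟨z0, hz0, hne⟩ := (Submodule.ne_bot_iff _).1 h2
      exact ⟨z0, hne, fun v hv => hz0 v (Submodule.mem_sup_left (Submodule.mem_sup_left hv)),
        fun v hv => hz0 v (Submodule.mem_sup_left (Submodule.mem_sup_right hv)),
        fun v hv => hz0 v (Submodule.mem_sup_right hv)⟩
    obtain ⟨z0, hz0, hzP, hzQ, hzR⟩ := hz0
    by_cases hx0 : x = 0
    · by_cases hy0 : y = 0
      · have hz1 := hne hx0 hy0
        have h1 := caseB hB h.rot.rot hV hz hx hy (by rw [← hxyz]; abel) (by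
          intro hall
          obtain ⟨w, hw, hw0⟩ := hRP z hz hz1
          exact hw0 (hall w hw)) hz0 hzR hzP hzQ
        exact h1.rot
      · have h1 := caseB hB h.rot hV hy hz hx (by rw [← hxyz]; abel) (by
          intro hall
          obtain ⟨w, hw, hw0⟩ := hQR y hy hy0
          exact hw0 (hall w hw)) hz0 hzQ hzR hzP
        exact h1.rot.rot
    · exact caseB hB h hV hx hy hz hxyz (by
        intro hall
        obtain ⟨w, hw, hw0⟩ := hPQ x hx hx0
        exact hw0 (hall w hw)) hz0 hzP hzQ hzR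

/-- **Step (4) without any position hypothesis.** -/
theorem exists_skew_any (hB : NS B) (Φ : Fin 3 → End K V)
    (hΦ : ∀ s v w, B (Φ s v) w = B v (Φ s w)) (l : Fin 3 → ℕ) (h1 : ∀ s, 1 ≤ l s)
    (hsum : ∑ s, (1 - 1 / (l s : ℚ)) = 2) (hl : ∀ s, Φ s ^ l s = 0)
    (hfree : ∀ s, l s * finrank K (ker (Φ s)) = finrank K V) (hpos : 0 < finrank K V)
    (h333 : (∀ s, l s = 3) → 3 < finrank K V) :
    ∃ X : End K V, X ≠ 0 ∧ (∀ v w, B (X v) w = - B v (X w)) ∧
      ∀ (s : Fin 3) (j : ℕ), ∀ x ∈ range (Φ s ^ j), X x ∈ range (Φ s ^ j) := by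
  by_cases hc : ∀ s, l s = 3
  · have hm := h333 hc
    have hker : ∀ s, finrank K (range (Φ s ^ 2)) = finrank K V / 3 := by
      intro s
      have e1 := ker_eq_range (hl s) (hfree s) (v := 1) (by rw [hc]; omega)
      rw [hc, pow_one] at e1
      have e2 := hfree s
      rw [hc, e1] at e2
      have : (3 - 1 : ℕ) = 2 := rfl
      rw [this] at e2
      omega
    have h3 : finrank K V = 3 * (finrank K V / 3) := by
      have e2 := hfree 0
      rw [hc] at e2
      omega
    have hpow : ∀ s (j : ℕ) (a b : V), B ((Φ s ^ j) a) b = B a ((Φ s ^ j) b) := by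
      intro s j
      induction j with
      | zero => intro a b; rfl
      | succ j ih =>
        intro a b
        rw [pow_succ, Module.End.mul_apply, ih, hΦ, ← Module.End.mul_apply, ← pow_succ', pow_succ]
    have hbig : ∀ s n, 3 ≤ n → Φ s ^ n = 0 := fun s n hn => by
      have := hl s
      rw [hc] at this
      rw [← Nat.sub_add_cancel hn, pow_add, this, mul_zero]
    have hiso : ∀ s, ∀ x ∈ range (Φ s ^ 2), ∀ y ∈ range (Φ s ^ 2), B x y = 0 := by
      rintro s _ ⟨a, rfl⟩ _ ⟨b, rfl⟩
      rw [hpow, ← Module.End.mul_apply, ← pow_add, hbig s _ (by norm_num)]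
      simp
    obtain ⟨X, hX0, hXs, hXP, hXQ, hXR⟩ := goal_any hB (m := finrank K V / 3) (by omega)
      (P := range (Φ 0 ^ 2)) (Q := range (Φ 1 ^ 2)) (R := range (Φ 2 ^ 2))
      ⟨hker 0, hker 1, hker 2, hiso 0, hiso 1, hiso 2⟩ h3
    have hX : ∀ s, ∀ x ∈ range (Φ s ^ 2), X x ∈ range (Φ s ^ 2) := by
      intro s
      fin_cases s
      · exact hXP
      · exact hXQ
      · exact hXR
    refine ⟨X, hX0, hXs, ?_⟩
    intro s j x hx
    rcases Nat.lt_or_ge j 3 with hj | hj
    · interval_cases j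
      · rw [pow_zero]; exact ⟨X x, rfl⟩
      · rw [pow_one] at hx ⊢
        have := range_eq_orth hB (hΦ s) 1 (y := X x) (by
          intro z hz
          have e1 := ker_eq_range (hl s) (hfree s) (v := 1) (by rw [hc]; omega)
          rw [hc] at e1
          rw [e1] at hz
          have hz' : z ∈ range (Φ s ^ 2) := hz
          have h4 := hX s z hz'
          obtain ⟨x', rfl⟩ := hx
          obtain ⟨z', hz'⟩ := h4
          have h5 : B (X z) (Φ s x') = 0 := by
            rw [← hz', hpow, ← Module.End.mul_apply, ← pow_succ, hbig s _ (by norm_num)]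
            simp
          rw [hXs] at h5
          exact neg_eq_zero.1 h5)
        rwa [pow_one] at this
      · exact hX s x hx
    · obtain ⟨x', rfl⟩ := hx
      rw [hbig s j hj]
      simp
  · push Not at hc
    exact exists_skew_tame hB Φ hΦ l h1 hsum hl hfree hpos hc

/-- **Step (4) from `Tame`, no position hypothesis.** -/
theorem exists_skew_of_tame' (hB : NS B) (Φ : Fin 3 → End K V)
    (hΦ : ∀ s v w, B (Φ s v) w = B v (Φ s w)) {D : End K V}
    (hDΦ : ∀ s v, D (Φ s v) = Φ s (D v)) (hD : ⨆ ν, D.maxGenEigenspace ν = ⊤)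
    (h : Tame Φ D) :
    ∃ X : End K V, X ≠ 0 ∧ (∀ v w, B (X v) w = - B v (X w)) ∧
      ∀ (s : Fin 3) (j : ℕ), ∀ x ∈ range (Φ s ^ j), X x ∈ range (Φ s ^ j) := by
  obtain ⟨l, h1, h2, h3, h4, h5, h6⟩ := free_of_tame hDΦ hD h
  refine exists_skew_any hB Φ hΦ l h1 h2 h3 h4 h5 fun hl => ?_
  have := h6 0
  rwa [hl] at this

end Any

end Crest.Agent.R172.TC
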