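import Crest.Agent.R172.SpCount
import Crest.Agent.R172.TL1
import Crest.Agent.R172.TameCount5

/-!
Row 172 (S0260), abstract END of both sides of the mixed tame case (t3), in tensor form, with an
arbitrary radical `R`.

* `exists_sp_333`: type `(3,3,3)`, symplectic: there is a nonzero `X ∈ sp` filtered at all arms.
* `tensor_mem`: a tensor in `P ⊗ P` whose operator on `P ⧸ R` is filtered at an arm is a sum of
  `φ^i p ⊗ φ^j p'`, `i + j + 1 = l`, modulo `R ⊗ P + P ⊗ R`.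
* `P_end`, `Q_end`: the ends.
-/

set_option autoImplicit false
set_option linter.unusedSectionVars false

namespace Crest.Agent.R172.SPE

open Module LinearMap
open scoped TensorProduct

section sp

variable {K : Type*} [Field K] {V : Type*} [AddCommGroup V] [Module K V]
  [FiniteDimensional K V] {w : LinearMap.BilinForm K V}

/-- a nonzero filtered element of `sp`, type `(3,3,3)` -/
theorem exists_sp_333 [CharZero K] (hs : ∀ x y, w x y = - w y x)
    (hn : ∀ x, (∀ y, w x y = 0) → x = 0) (Φ : Fin 3 → End K V)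
    (hsp : ∀ s x y, w (Φ s x) y = - w x (Φ s y)) (h3 : ∀ s, Φ s ^ 3 = 0)
    (hfree : ∀ s, 3 * finrank K (ker (Φ s)) = finrank K V) (hsum : ∑ s, Φ s = 0)
    (htop : (⨆ s, range (Φ s)) = ⊤) (hV : 0 < finrank K V) :
    ∃ X : End K V, X ≠ 0 ∧ (∀ x y, w (X x) y = - w x (X y)) ∧
      ∀ (s : Fin 3) (j : ℕ), ∀ x ∈ range (Φ s ^ j), X x ∈ range (Φ s ^ j) := by
  by_contra hcon
  refine SPC.false_333 hs hn Φ hsp h3 hfree hsum htop hV ?_
  intro X hX hXj s
  have h0 : X = 0 := by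
    by_contra hX0
    exact hcon ⟨X, hX0, hX, hXj⟩
  rw [h0]
  simp

end sp

section tensor

variable {K : Type*} [Field K] {P : Type*} [AddCommGroup P] [Module K P]
variable {E : Type*} [AddCommGroup E] [Module K E]

/-- contraction of a tensor with `w · x`, `w · y` -/
noncomputable def ct (w : P →ₗ[K] P →ₗ[K] K) (x y : P) : P ⊗[K] P →ₗ[K] K :=
  LinearMap.mul' K K ∘ₗ TensorProduct.map (w.flip x) (w.flip y)

theorem ct_tmul (w : P →ₗ[K] P →ₗ[K] K) (x y a b : P) :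
    ct w x y (a ⊗ₜ[K] b) = w a x * w b y := by
  simp [ct]

theorem ct_comm (w : P →ₗ[K] P →ₗ[K] K) (x y : P) (T : P ⊗[K] P) :
    ct w x y (TensorProduct.comm K P P T) = ct w y x T := by
  induction T using TensorProduct.induction_on with
  | zero => simp
  | tmul a b => rw [TensorProduct.comm_tmul, ct_tmul, ct_tmul, mul_comm]
  | add a b ha hb => rw [map_add, map_add, map_add, ha, hb]

variable {R : Submodule K P} {w : P →ₗ[K] P →ₗ[K] K} {wq : LinearMap.BilinForm K (P ⧸ R)}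

theorem ct_map (hwq : ∀ x y, wq (R.mkQ x) (R.mkQ y) = w x y) (x y : P) (T : P ⊗[K] P) :
    ct wq (R.mkQ x) (R.mkQ y) (TensorProduct.map R.mkQ R.mkQ T) = ct w x y T := by
  induction T using TensorProduct.induction_on with
  | zero => simp
  | tmul a b => rw [TensorProduct.map_tmul, ct_tmul, ct_tmul, hwq, hwq]
  | add a b ha hb => rw [map_add, map_add, map_add, ha, hb]

variable [FiniteDimensional K P]

/-- a tensor with vanishing contractions vanishes modulo the radical -/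
theorem map_eq_zero (hn : ∀ x, (∀ y, wq y x = 0) → x = 0)
    (hwq : ∀ x y, wq (R.mkQ x) (R.mkQ y) = w x y) {T : P ⊗[K] P}
    (hT : ∀ x y, ct w x y T = 0) : TensorProduct.map R.mkQ R.mkQ T = 0 := by
  classical
  set U := TensorProduct.map R.mkQ R.mkQ T with hU
  let b := Module.finBasis K (P ⧸ R)
  have h1 : ∀ p, ∃ x : P, wq.flip (R.mkQ x) = b.coord p := by
    intro p
    obtain ⟨x, hx⟩ := SPC.w_surj (w := wq.flip) (by
      intro x hx
      exact hn x fun y => hx y) (b.coord p)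
    obtain ⟨x', rfl⟩ := R.mkQ_surjective x
    exact ⟨x', hx⟩
  choose d hd using h1
  apply (b.tensorProduct b).repr.injective
  rw [map_zero]
  ext p
  have h2 : ∀ W : (P ⧸ R) ⊗[K] (P ⧸ R), (b.tensorProduct b).repr W p =
      ct wq (R.mkQ (d p.1)) (R.mkQ (d p.2)) W := by
    intro W
    induction W using TensorProduct.induction_on with
    | zero => simp
    | tmul a c =>
      have e1 : ∀ (p) (a : P ⧸ R), wq a (R.mkQ (d p)) = b.repr a p := by
        intro p a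
        have := LinearMap.congr_fun (hd p) a
        exact this
      rw [ct_tmul, e1, e1]
      obtain ⟨i, j⟩ := p
      rw [Basis.tensorProduct_repr_tmul_apply, smul_eq_mul, mul_comm]
    | add a c ha hc => rw [map_add, Finsupp.add_apply, map_add, ha, hc]
  rw [h2, hU, ct_map hwq, hT]
  rfl

/-- elements of the kernel are killed modulo `S` -/
theorem lift_mem_of_map_zero {q : P →ₗ[K] P →ₗ[K] E} {S : Submodule K E}
    (hq1 : ∀ r ∈ R, ∀ p, q r p ∈ S) (hq2 : ∀ r ∈ R, ∀ p, q p r ∈ S) {T : P ⊗[K] P}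
    (hT : TensorProduct.map R.mkQ R.mkQ T = 0) : TensorProduct.lift q T ∈ S := by
  have hex : Function.Exact R.subtype R.mkQ := by
    intro x
    rw [Submodule.mkQ_apply, Submodule.Quotient.mk_eq_zero]
    constructor
    · intro h
      exact ⟨⟨x, h⟩, rfl⟩
    · rintro ⟨y, rfl⟩
      exact y.2
  have h1 : T ∈ ker (TensorProduct.map R.mkQ R.mkQ) := hT
  rw [TensorProduct.map_ker hex R.mkQ_surjective hex R.mkQ_surjective] at h1
  obtain ⟨a, ⟨a', ha'⟩, b, ⟨b', hb'⟩, hab⟩ := Submodule.mem_sup.1 h1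
  rw [← hab, map_add]
  refine S.add_mem ?_ ?_
  · rw [← ha']
    clear ha'
    induction a' using TensorProduct.induction_on with
    | zero => simp
    | tmul p r =>
      rw [LinearMap.lTensor_tmul, TensorProduct.lift.tmul]
      exact hq2 r r.2 p
    | add a c ha hc => rw [map_add, map_add]; exact S.add_mem ha hc
  · rw [← hb']
    clear hb'
    induction b' using TensorProduct.induction_on with
    | zero => simp
    | tmul r p =>
      rw [LinearMap.rTensor_tmul, TensorProduct.lift.tmul]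
      exact hq1 r r.2 p
    | add a c ha hc => rw [map_add, map_add]; exact S.add_mem ha hc

/-- **a tensor whose operator modulo the radical is filtered is good** -/
theorem tensor_mem (hn : ∀ x, (∀ y, wq x y = 0) → x = 0) (hn' : ∀ x, (∀ y, wq y x = 0) → x = 0)
    (hwq : ∀ x y, wq (R.mkQ x) (R.mkQ y) = w x y) {φ : End K P} {φq : End K (P ⧸ R)} {l : ℕ}
    {ε : K} (hφq : ∀ x, φq (R.mkQ x) = R.mkQ (φ x)) (hφ : ∀ x y, wq (φq x) y = ε * wq x (φq y))
    (hl : φq ^ l = 0) (hfree : l * finrank K (ker φq) = finrank K (P ⧸ R))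
    {q : P →ₗ[K] P →ₗ[K] E} {S : Submodule K E}
    (hq1 : ∀ r ∈ R, ∀ p, q r p ∈ S) (hq2 : ∀ r ∈ R, ∀ p, q p r ∈ S)
    (hq3 : ∀ i j, i + j + 1 = l → ∀ p p', q ((φ ^ i) p) ((φ ^ j) p') ∈ S)
    {X : End K (P ⧸ R)} (hX : ∀ j : ℕ, ∀ x ∈ range (φq ^ j), X x ∈ range (φq ^ j))
    {T : P ⊗[K] P} (hT : ∀ x y, ct w x y T = wq (X (R.mkQ x)) (R.mkQ y)) :
    TensorProduct.lift q T ∈ S := by
  classical
  obtain ⟨e, b, hb⟩ := TC.exists_adapted hl hfree
  choose d hd using fun p => SPC.w_surj hn (b.coord p)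
  have hpow : ∀ (j : ℕ) (x y : P ⧸ R), wq ((φq ^ j) x) y = ε ^ j * wq x ((φq ^ j) y) := by
    intro j
    induction j with
    | zero => intro x y; simp
    | succ j ih =>
      intro x y
      rw [pow_succ' φq j, Module.End.mul_apply, hφ, ih, ← Module.End.mul_apply, ← pow_succ,
        pow_succ' φq j, pow_succ' ε j, mul_assoc]
  have hpq : ∀ (j : ℕ) (x : P), (φq ^ j) (R.mkQ x) = R.mkQ ((φ ^ j) x) := by
    intro j
    induction j with
    | zero => intro x; rfl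
    | succ j ih =>
      intro x
      rw [pow_succ', pow_succ', Module.End.mul_apply, Module.End.mul_apply, ih, hφq]
  have hdr : ∀ p, d p ∈ range (φq ^ (l - 1 - (p.1 : ℕ))) := by
    intro p
    have hp := p.1.2
    have h1 := TC.ker_eq_range hl hfree (v := (p.1 : ℕ) + 1) (by omega)
    have h2 : l - ((p.1 : ℕ) + 1) = l - 1 - (p.1 : ℕ) := by omega
    rw [h2] at h1
    rw [← h1, LinearMap.mem_ker]
    refine hn _ fun y => ?_
    rw [hpow, hd]
    have h3 : (b.coord p) ∘ₗ (φq ^ ((p.1 : ℕ) + 1)) = 0 := by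
      refine b.ext fun t => ?_
      rw [LinearMap.comp_apply, LinearMap.zero_apply, hb, ← Module.End.mul_apply, ← pow_add]
      by_cases ht : (p.1 : ℕ) + 1 + (t.1 : ℕ) < l
      · have h9 : (φq ^ ((p.1 : ℕ) + 1 + (t.1 : ℕ))) (e t.2) =
            b (⟨(p.1 : ℕ) + 1 + t.1, ht⟩, t.2) := by
          rw [hb]
        rw [h9, Basis.coord_apply, Basis.repr_self, Finsupp.single_eq_of_ne]
        intro hh
        have := congrArg (fun q : Fin l × Fin (finrank K (ker φq)) => (q.1 : ℕ)) hh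
        simp only at this
        omega
      · obtain ⟨r, hr⟩ := Nat.exists_eq_add_of_le (show l ≤ (p.1 : ℕ) + 1 + (t.1 : ℕ) by omega)
        rw [hr, pow_add, hl, zero_mul]
        simp
    have h4 := LinearMap.congr_fun h3 y
    rw [LinearMap.comp_apply, LinearMap.zero_apply] at h4
    rw [h4, mul_zero]
  have hx1 : ∀ p, ∃ x : P, R.mkQ ((φ ^ (l - 1 - (p.1 : ℕ))) x) = d p := by
    intro p
    obtain ⟨x, hx⟩ := hdr p
    obtain ⟨x', rfl⟩ := R.mkQ_surjective x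
    exact ⟨x', by rw [← hx, hpq]⟩
  have hy1 : ∀ p, ∃ y : P, R.mkQ ((φ ^ (p.1 : ℕ)) y) = X (b p) := by
    intro p
    obtain ⟨y, hy⟩ := hX (p.1 : ℕ) (b p) ⟨e p.2, (hb p).symm⟩
    obtain ⟨y', rfl⟩ := R.mkQ_surjective y
    exact ⟨y', by rw [← hy, hpq]⟩
  choose xx hxx using hx1
  choose yy hyy using hy1
  let T' : P ⊗[K] P := ∑ p, ((φ ^ (l - 1 - (p.1 : ℕ))) (xx p)) ⊗ₜ[K] ((φ ^ (p.1 : ℕ)) (yy p))
  have hT' : TensorProduct.lift q T' ∈ S := by
    change TensorProduct.lift q (∑ p, _) ∈ S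
    rw [map_sum]
    refine S.sum_mem fun p _ => ?_
    rw [TensorProduct.lift.tmul]
    have hp := p.1.2
    exact hq3 _ _ (by omega) _ _
  have hct : ∀ x y, ct w x y T' = wq (X (R.mkQ x)) (R.mkQ y) := by
    intro x y
    change ct w x y (∑ p, _) = _
    rw [map_sum]
    have h1 : ∀ p, ct w x y (((φ ^ (l - 1 - (p.1 : ℕ))) (xx p)) ⊗ₜ[K] ((φ ^ (p.1 : ℕ)) (yy p)))
        = b.repr (R.mkQ x) p * wq (X (b p)) (R.mkQ y) := by
      intro p
      rw [ct_tmul, ← hwq, ← hwq, hxx, hyy, hd]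
      rfl
    rw [Finset.sum_congr rfl fun p _ => h1 p]
    have h2 : R.mkQ x = ∑ p, b.repr (R.mkQ x) p • b p := (b.sum_repr _).symm
    conv_rhs => rw [h2]
    rw [map_sum, map_sum, LinearMap.sum_apply]
    refine Finset.sum_congr rfl fun p _ => ?_
    rw [map_smul, map_smul, LinearMap.smul_apply, smul_eq_mul]
  have h5 : TensorProduct.map R.mkQ R.mkQ (T - T') = 0 := by
    refine map_eq_zero hn' hwq fun x y => ?_
    rw [map_sub, hT, hct, sub_self]
  have h6 := lift_mem_of_map_zero hq1 hq2 h5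
  rw [map_sub] at h6
  have h7 := S.add_mem h6 hT'
  rwa [sub_add_cancel] at h7

/-- existence of a tensor with a given operator and symmetry -/
theorem exists_tensor (h2 : (2 : K) ≠ 0) (hn : ∀ x, (∀ y, wq x y = 0) → x = 0)
    (hwq : ∀ x y, wq (R.mkQ x) (R.mkQ y) = w x y) {η : K} (hη : η * η = 1)
    {X : End K (P ⧸ R)} (hX : ∀ x y, wq (X x) y = η * wq (X y) x) :
    ∃ T : P ⊗[K] P, TensorProduct.comm K P P T = η • T ∧
      ∀ x y, ct w x y T = wq (X (R.mkQ x)) (R.mkQ y) := by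
  classical
  let b := Module.finBasis K (P ⧸ R)
  have hx1 : ∀ p, ∃ x : P, wq (R.mkQ x) = b.coord p := by
    intro p
    obtain ⟨x, hx⟩ := SPC.w_surj hn (b.coord p)
    obtain ⟨x', rfl⟩ := R.mkQ_surjective x
    exact ⟨x', hx⟩
  choose xx hxx using hx1
  choose yy hyy using fun p => R.mkQ_surjective (X (b p))
  let T0 : P ⊗[K] P := ∑ p, (xx p) ⊗ₜ[K] (yy p)
  have hct : ∀ x y, ct w x y T0 = wq (X (R.mkQ x)) (R.mkQ y) := by
    intro x y
    change ct w x y (∑ p, _) = _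
    rw [map_sum]
    have h1 : ∀ p, ct w x y ((xx p) ⊗ₜ[K] (yy p))
        = b.repr (R.mkQ x) p * wq (X (b p)) (R.mkQ y) := by
      intro p
      rw [ct_tmul, ← hwq, ← hwq, hxx, hyy]
      rfl
    rw [Finset.sum_congr rfl fun p _ => h1 p]
    have h2 : R.mkQ x = ∑ p, b.repr (R.mkQ x) p • b p := (b.sum_repr _).symm
    conv_rhs => rw [h2]
    rw [map_sum, map_sum, LinearMap.sum_apply]
    refine Finset.sum_congr rfl fun p _ => ?_
    rw [map_smul, map_smul, LinearMap.smul_apply, smul_eq_mul]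
  have hcc : ∀ T : P ⊗[K] P, TensorProduct.comm K P P (TensorProduct.comm K P P T) = T := by
    intro T
    induction T using TensorProduct.induction_on with
    | zero => simp
    | tmul a b => rw [TensorProduct.comm_tmul, TensorProduct.comm_tmul]
    | add a b ha hb => rw [map_add, map_add, ha, hb]
  refine ⟨(2 : K)⁻¹ • (T0 + η • TensorProduct.comm K P P T0), ?_, ?_⟩
  · rw [map_smul, map_add, map_smul, hcc]
    have e1 : TensorProduct.comm K P P T0 + η • T0 =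
        η • (T0 + η • TensorProduct.comm K P P T0) := by
      rw [smul_add, smul_smul, hη, one_smul, add_comm]
    rw [e1, smul_comm]
  · intro x y
    rw [map_smul, map_add, map_smul, ct_comm, hct, hct, smul_eq_mul, smul_eq_mul,
      hX (R.mkQ y), ← mul_assoc, hη, one_mul, ← two_mul, ← mul_assoc, inv_mul_cancel₀ h2, one_mul]

/-- **the common END** -/
theorem tensor_end (h2 : (2 : K) ≠ 0) (hn : ∀ x, (∀ y, wq x y = 0) → x = 0)
    (hn' : ∀ x, (∀ y, wq y x = 0) → x = 0)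
    (hwq : ∀ x y, wq (R.mkQ x) (R.mkQ y) = w x y) {Φ : Fin 3 → End K P}
    {Φq : Fin 3 → End K (P ⧸ R)} {l : Fin 3 → ℕ} {ε : K}
    (hΦq : ∀ s x, Φq s (R.mkQ x) = R.mkQ (Φ s x))
    (hΦ : ∀ s x y, wq (Φq s x) y = ε * wq x (Φq s y))
    (hl : ∀ s, Φq s ^ l s = 0) (hfree : ∀ s, l s * finrank K (ker (Φq s)) = finrank K (P ⧸ R))
    {q : Fin 3 → P →ₗ[K] P →ₗ[K] E} {S : Submodule K E}
    (hq1 : ∀ s, ∀ r ∈ R, ∀ p, q s r p ∈ S) (hq2 : ∀ s, ∀ r ∈ R, ∀ p, q s p r ∈ S)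
    (hq3 : ∀ s i j, i + j + 1 = l s → ∀ p p', q s ((Φ s ^ i) p) ((Φ s ^ j) p') ∈ S)
    {η : K} (hη : η * η = 1) {X : End K (P ⧸ R)} (hX0 : X ≠ 0)
    (hXη : ∀ x y, wq (X x) y = η * wq (X y) x)
    (hX : ∀ (s : Fin 3) (j : ℕ), ∀ x ∈ range (Φq s ^ j), X x ∈ range (Φq s ^ j)) :
    ∃ T : P ⊗[K] P, TensorProduct.comm K P P T = η • T ∧ (∃ x y, ct w x y T ≠ 0) ∧
      ∀ s, TensorProduct.lift (q s) T ∈ S := by
  obtain ⟨T, hT1, hT2⟩ := exists_tensor (w := w) h2 hn hwq hη hXη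
  refine ⟨T, hT1, ?_, fun s => ?_⟩
  · by_contra hcon
    push Not at hcon
    apply hX0
    ext x
    rw [LinearMap.comp_apply, LinearMap.comp_apply, LinearMap.zero_apply]
    refine hn _ fun y => ?_
    obtain ⟨y', rfl⟩ := R.mkQ_surjective y
    rw [← hT2]
    exact hcon x y'
  · exact tensor_mem hn hn' hwq (hΦq s) (hΦ s) (hl s) (hfree s) (hq1 s) (hq2 s) (hq3 s)
      (fun j => hX s j) hT2

/-- the form induced on `P ⧸ R` -/
theorem exists_wq (w : P →ₗ[K] P →ₗ[K] K) {η : K} (hs : ∀ x y, w x y = η * w y x)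
    (hR : ∀ x, x ∈ R ↔ ∀ y, w x y = 0) :
    ∃ wq : LinearMap.BilinForm K (P ⧸ R), (∀ x y, wq (R.mkQ x) (R.mkQ y) = w x y) ∧
      (∀ x, (∀ y, wq x y = 0) → x = 0) ∧ (∀ x y, wq x y = η * wq y x) := by
  have h1 : ∀ x ∈ R, w x = 0 := fun x hx => LinearMap.ext fun y => (hR x).1 hx y
  have h2 : ∀ x ∈ R, w.flip x = 0 := fun x hx => LinearMap.ext fun y => by
    rw [LinearMap.flip_apply, hs, h1 x hx]
    simp
  let w1 : (P ⧸ R) →ₗ[K] P →ₗ[K] K := R.liftQ w (fun x hx => h1 x hx)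
  have hw1 : ∀ x y, w1 (R.mkQ x) y = w x y := fun x y => rfl
  let w2 : (P ⧸ R) →ₗ[K] (P ⧸ R) →ₗ[K] K := R.liftQ w1.flip (by
    intro x hx
    rw [LinearMap.mem_ker]
    ext y
    exact LinearMap.congr_fun (h2 x hx) y)
  have hw2 : ∀ x y, w2.flip (R.mkQ x) (R.mkQ y) = w x y := fun x y => rfl
  refine ⟨w2.flip, hw2, ?_, ?_⟩
  · intro x hx
    obtain ⟨x, rfl⟩ := R.mkQ_surjective x
    rw [Submodule.mkQ_apply, Submodule.Quotient.mk_eq_zero, hR]
    intro y
    rw [← hw2]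
    exact hx _
  · intro x y
    obtain ⟨x, rfl⟩ := R.mkQ_surjective x
    obtain ⟨y, rfl⟩ := R.mkQ_surjective y
    rw [hw2, hw2, hs]

/-- **P-side END**: a skew tensor, nonzero modulo the radical, good at all arms. -/
theorem P_end [CharZero K] (w : P →ₗ[K] P →ₗ[K] K) (hs : ∀ x y, w x y = w y x)
    (hR : ∀ x, x ∈ R ↔ ∀ y, w x y = 0) {Φ : Fin 3 → End K P}
    (hΦ : ∀ s x y, w (Φ s x) y = w x (Φ s y)) {Φq : Fin 3 → End K (P ⧸ R)}
    (hΦq : ∀ s x, Φq s (R.mkQ x) = R.mkQ (Φ s x)) {l : Fin 3 → ℕ} (h1 : ∀ s, 1 ≤ l s)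
    (hsum : ∑ s, (1 - 1 / (l s : ℚ)) = 2)
    (hl : ∀ s, Φq s ^ l s = 0) (hfree : ∀ s, l s * finrank K (ker (Φq s)) = finrank K (P ⧸ R))
    (hpos : 0 < finrank K (P ⧸ R)) (h333 : (∀ s, l s = 3) → 3 < finrank K (P ⧸ R))
    {q : Fin 3 → P →ₗ[K] P →ₗ[K] E} {S : Submodule K E}
    (hq1 : ∀ s, ∀ r ∈ R, ∀ p, q s r p ∈ S) (hq2 : ∀ s, ∀ r ∈ R, ∀ p, q s p r ∈ S)
    (hq3 : ∀ s i j, i + j + 1 = l s → ∀ p p', q s ((Φ s ^ i) p) ((Φ s ^ j) p') ∈ S) :
    ∃ T : P ⊗[K] P, TensorProduct.comm K P P T = -T ∧ (∃ x y, ct w x y T ≠ 0) ∧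
      ∀ s, TensorProduct.lift (q s) T ∈ S := by
  obtain ⟨wq, hwq, hn, hsq⟩ := exists_wq (R := R) w (η := 1) (fun x y => by rw [one_mul, hs]) hR
  have hsq' : ∀ x y, wq x y = wq y x := fun x y => by rw [hsq, one_mul]
  have hΦ' : ∀ s x y, wq (Φq s x) y = wq x (Φq s y) := by
    intro s x y
    obtain ⟨x, rfl⟩ := R.mkQ_surjective x
    obtain ⟨y, rfl⟩ := R.mkQ_surjective y
    rw [hΦq, hΦq, hwq, hwq, hΦ]
  have hns : Core.NS wq := ⟨hsq', hn⟩
  obtain ⟨X, hX0, hX1, hX2⟩ := TC.exists_skew_any hns Φq hΦ' l h1 hsum hl hfree hpos h333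
  obtain ⟨T, hT1, hT2, hT3⟩ := tensor_end (w := w) (η := -1) (ε := 1) (two_ne_zero) hn
    (fun x hx => hn x fun y => by rw [hsq']; exact hx y) hwq hΦq
    (fun s x y => by rw [one_mul, hΦ']) hl hfree hq1 hq2 hq3 (by norm_num) hX0
    (fun x y => by rw [hX1, hsq' x]; ring) hX2
  exact ⟨T, by rw [hT1, neg_one_smul], hT2, hT3⟩

/-- **Q-side END**, type `(3,3,3)`: a symmetric tensor, nonzero modulo the radical, good at all
arms. -/
theorem Q_end [CharZero K] (w : P →ₗ[K] P →ₗ[K] K) (hs : ∀ x y, w x y = - w y x)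
    (hR : ∀ x, x ∈ R ↔ ∀ y, w x y = 0) {Φ : Fin 3 → End K P}
    (hΦ : ∀ s x y, w (Φ s x) y = - w x (Φ s y)) {Φq : Fin 3 → End K (P ⧸ R)}
    (hΦq : ∀ s x, Φq s (R.mkQ x) = R.mkQ (Φ s x)) (hl : ∀ s, Φq s ^ 3 = 0)
    (hfree : ∀ s, 3 * finrank K (ker (Φq s)) = finrank K (P ⧸ R))
    (hsum : ∀ x, ∑ s, Φ s x = 0) (hperf : ∀ p, ∃ f : Fin 3 → P, p = ∑ s, Φ s (f s))
    (hpos : 0 < finrank K (P ⧸ R))
    {q : Fin 3 → P →ₗ[K] P →ₗ[K] E} {S : Submodule K E}
    (hq1 : ∀ s, ∀ r ∈ R, ∀ p, q s r p ∈ S) (hq2 : ∀ s, ∀ r ∈ R, ∀ p, q s p r ∈ S)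
    (hq3 : ∀ s i j, i + j + 1 = 3 → ∀ p p', q s ((Φ s ^ i) p) ((Φ s ^ j) p') ∈ S) :
    ∃ T : P ⊗[K] P, TensorProduct.comm K P P T = T ∧ (∃ x y, ct w x y T ≠ 0) ∧
      ∀ s, TensorProduct.lift (q s) T ∈ S := by
  obtain ⟨wq, hwq, hn, hsq⟩ := exists_wq (R := R) w (η := -1)
    (fun x y => by rw [hs]; ring) hR
  have hsq' : ∀ x y, wq x y = - wq y x := fun x y => by rw [hsq]; ring
  have hΦ' : ∀ s x y, wq (Φq s x) y = - wq x (Φq s y) := by
    intro s x y
    obtain ⟨x, rfl⟩ := R.mkQ_surjective x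
    obtain ⟨y, rfl⟩ := R.mkQ_surjective y
    rw [hΦq, hΦq, hwq, hwq, hΦ]
  have hsum' : ∑ s, Φq s = 0 := by
    ext x
    rw [LinearMap.comp_apply, LinearMap.comp_apply, LinearMap.sum_apply, LinearMap.zero_apply]
    rw [Finset.sum_congr rfl fun s _ => hΦq s x, ← map_sum, hsum, map_zero]
  have htop : (⨆ s, range (Φq s)) = ⊤ := by
    rw [eq_top_iff]
    intro x _
    obtain ⟨x, rfl⟩ := R.mkQ_surjective x
    obtain ⟨f, hf⟩ := hperf x
    rw [hf, map_sum]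
    refine Submodule.sum_mem _ fun s _ => ?_
    rw [← hΦq]
    exact Submodule.mem_iSup_of_mem s ⟨_, rfl⟩
  obtain ⟨X, hX0, hX1, hX2⟩ := exists_sp_333 hsq' hn Φq hΦ' hl hfree hsum' htop hpos
  obtain ⟨T, hT1, hT2, hT3⟩ := tensor_end (w := w) (η := 1) (ε := -1) (l := fun _ => 3)
    (two_ne_zero) hn
    (fun x hx => hn x fun y => by rw [hsq', hx y, neg_zero]) hwq hΦq
    (fun s x y => by rw [hΦ']; ring) hl hfree hq1 hq2 hq3 (by norm_num) hX0
    (fun x y => by rw [hX1, hsq' x]; ring) hX2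
  exact ⟨T, by rw [hT1, one_smul], hT2, hT3⟩

end tensor

end Crest.Agent.R172.SPE
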