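import Mathlib

/-!
Row 172, T0 with ARBITRARY RADICAL (also t2, t3): the abstract end of the second derivative
(notes 15478, 15596, 15696, 15861, 15867).

`P1, P2` perfect modules for `A_t, B_t`, `R1, R2` nilpotent submodules.  `Ex c x`: `x : τ → P2 ⊗ P1` is
exact at `c`.  `Cor eps c x b`: `b : P2 → R1` is its correction.  `main`: the bilinear relation on
exact families at all `c, c' ∈ Λ` forces all radical tensors and all filtered tensors at every arm
into `Q`.  Proof by explicit Laurent families in `c`.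
-/

set_option autoImplicit false
set_option linter.unusedSectionVars false

namespace Crest.Agent.R172.RJ

open Module TensorProduct

variable {K : Type*} [Field K]

/-! ### Laurent families -/

section laurent

variable {X Y : Type*} [AddCommGroup X] [Module K X] [AddCommGroup Y] [Module K Y]

/-- evaluation of a Laurent family -/
noncomputable def evl (c : K) : (ℤ →₀ X) →ₗ[K] X :=
  Finsupp.lsum K (fun i : ℤ => (c ^ i) • (LinearMap.id : X →ₗ[K] X))

theorem evl_apply (c : K) (x : ℤ →₀ X) : evl c x = x.sum fun i v => c ^ i • v := rfl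

@[simp] theorem evl_single (c : K) (i : ℤ) (v : X) : evl c (Finsupp.single i v) = c ^ i • v := by
  simp [evl]

theorem evl_map (L : X →ₗ[K] Y) (c : K) (x : ℤ →₀ X) :
    evl c (Finsupp.mapRange.linearMap L x) = L (evl c x) := by
  induction x using Finsupp.induction_linear with
  | zero => simp
  | add x y hx hy => simp only [map_add, hx, hy]
  | single i v => simp [Finsupp.mapRange_single]

/-- the shift `(sh x) i = x (i + 1)` -/
noncomputable def sh : (ℤ →₀ X) →ₗ[K] (ℤ →₀ X) := Finsupp.lmapDomain X K (fun i : ℤ => i - 1)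

theorem sh_single (i : ℤ) (v : X) : sh (K := K) (Finsupp.single i v) = Finsupp.single (i - 1) v := by
  simp [sh, Finsupp.lmapDomain_apply, Finsupp.mapDomain_single]

theorem sh_apply (x : ℤ →₀ X) (i : ℤ) : sh (K := K) x i = x (i + 1) := by
  have h := Finsupp.mapDomain_apply (f := fun i : ℤ => i - 1) (sub_left_injective) x (i + 1)
  simp only [add_sub_cancel_right] at h
  exact h

theorem evl_sh {c : K} (hc : c ≠ 0) (x : ℤ →₀ X) : evl c (sh (K := K) x) = c⁻¹ • evl c x := by
  induction x using Finsupp.induction_linear with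
  | zero => simp
  | add x y hx hy => simp only [map_add, hx, hy, smul_add]
  | single i v =>
    rw [sh_single, evl_single, evl_single, smul_smul, zpow_sub_one₀ hc, mul_comm]

theorem evl_mem (Q : Submodule K X) (c : K) (x : ℤ →₀ X) (h : ∀ i, x i ∈ Q) : evl c x ∈ Q := by
  rw [evl_apply]
  exact Submodule.sum_mem _ fun i _ => Q.smul_mem _ (h i)

theorem evl_coeff {Λ : Set K} (hΛ : Λ.Infinite) (h0 : (0 : K) ∉ Λ) (Q : Submodule K X)
    (x : ℤ →₀ X) (h : ∀ c ∈ Λ, evl c x ∈ Q) (i : ℤ) : x i ∈ Q := by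
  classical
  by_cases hi : i ∈ x.support
  swap
  · rw [Finsupp.notMem_support_iff] at hi
    rw [hi]
    exact Q.zero_mem
  rw [← Submodule.Quotient.mk_eq_zero, ← Module.forall_dual_apply_eq_zero_iff K]
  intro φ
  obtain ⟨n, hn⟩ : ∃ n : ℕ, ∀ j ∈ x.support, 0 ≤ j + (n : ℤ) := by
    refine ⟨∑ j ∈ x.support, j.natAbs, fun j hj => ?_⟩
    have h1 : j.natAbs ≤ ∑ j ∈ x.support, j.natAbs :=
      Finset.single_le_sum (f := fun j : ℤ => j.natAbs) (fun _ _ => Nat.zero_le _) hj
    omega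
  let p : Polynomial K := ∑ j ∈ x.support,
    Polynomial.monomial (j + (n : ℤ)).toNat (φ (Submodule.Quotient.mk (x j)))
  have hroot : ∀ c ∈ Λ, p.IsRoot c := by
    intro c hc
    have hc0 : c ≠ 0 := fun h => h0 (h ▸ hc)
    have h1 := h c hc
    rw [← Submodule.Quotient.mk_eq_zero] at h1
    have h2 : φ (Submodule.Quotient.mk (evl c x) : X ⧸ Q) = 0 := by rw [h1, map_zero]
    rw [Polynomial.IsRoot.def]
    simp only [p, Polynomial.eval_finsetSum, Polynomial.eval_monomial]
    rw [evl_apply, Finsupp.sum, ← Submodule.mkQ_apply, map_sum, map_sum] at h2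
    have h3 : ∑ j ∈ x.support, φ (Submodule.Quotient.mk (x j)) * c ^ (j + (n : ℤ)).toNat
        = c ^ n * ∑ j ∈ x.support, φ (Q.mkQ (c ^ j • x j)) := by
      rw [Finset.mul_sum]
      refine Finset.sum_congr rfl fun j hj => ?_
      rw [map_smul, map_smul, smul_eq_mul]
      have h4 : c ^ (j + (n : ℤ)).toNat = c ^ n * c ^ j := by
        rw [← zpow_natCast c (j + (n : ℤ)).toNat, Int.toNat_of_nonneg (hn j hj), zpow_add₀ hc0,
          zpow_natCast]
        ring
      rw [h4, Submodule.mkQ_apply]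
      ring
    rw [h3, h2, mul_zero]
  have hp : p = 0 := Polynomial.eq_zero_of_infinite_isRoot p (hΛ.mono hroot)
  have h3 : p.coeff (i + (n : ℤ)).toNat = φ (Submodule.Quotient.mk (x i)) := by
    simp only [p, Polynomial.finsetSum_coeff, Polynomial.coeff_monomial]
    rw [Finset.sum_eq_single i]
    · simp
    · intro j hj hji
      rw [if_neg]
      intro hij
      have h5 := hn j hj
      have h6 := hn i hi
      omega
    · intro hni
      exact absurd hi hni
  rw [← h3, hp, Polynomial.coeff_zero]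

end laurent

/-! ### exact families -/

variable {τ : Type*} [Fintype τ] [DecidableEq τ]
variable {P1 P2 E : Type*} [AddCommGroup P1] [Module K P1] [AddCommGroup P2] [Module K P2]
  [AddCommGroup E] [Module K E]

/-- `R ⊗ P1` -/
def RT (R : Submodule K P2) : Submodule K (P2 ⊗[K] P1) :=
  Submodule.span K {z | ∃ r ∈ R, ∃ p : P1, z = r ⊗ₜ[K] p}

/-- `P2 ⊗ R` -/
def TR (R : Submodule K P1) : Submodule K (P2 ⊗[K] P1) :=
  Submodule.span K {z | ∃ p : P2, ∃ r ∈ R, z = p ⊗ₜ[K] r}

/-- the operator `1 ⊗ A_t - c B_t ⊗ 1` -/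
noncomputable def DD (A : τ → End K P1) (B : τ → End K P2) (c : K) (t : τ) :
    P2 ⊗[K] P1 →ₗ[K] P2 ⊗[K] P1 :=
  (A t).lTensor P2 - c • (B t).rTensor P1

/-- exact families at `c` -/
structure Ex (A : τ → End K P1) (B : τ → End K P2) (R1 : Submodule K P1) (R2 : Submodule K P2)
    (c : K) (x : τ → P2 ⊗[K] P1) : Prop where
  sum : ∑ t, DD A B c t (x t) = 0
  arm : ∀ t, DD A B c t (x t) ∈ (RT R2 ⊔ TR R1 : Submodule K (P2 ⊗[K] P1))

/-- the transpose `p2 ⊗ p1 ↦ (p ↦ g p2 p • p1)` -/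
noncomputable def ev (g : P2 →ₗ[K] P2 →ₗ[K] K) : P2 ⊗[K] P1 →ₗ[K] (P2 →ₗ[K] P1) :=
  TensorProduct.lift (LinearMap.mk₂ K (fun p2 p1 => (g p2).smulRight p1)
    (fun a b p => by ext q; simp [add_smul]) (fun a b p => by ext q; simp [mul_smul])
    (fun a p p' => by ext q; simp) (fun a b p => by
      ext q
      simp only [LinearMap.smulRight_apply, LinearMap.smul_apply]
      rw [smul_comm]))

/-- `b` is the correction of `x` at `c` -/
structure Cor (A : τ → End K P1) (B : τ → End K P2) (R1 : Submodule K P1)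
    (g : P2 →ₗ[K] P2 →ₗ[K] K) (eps c : K) (x : τ → P2 ⊗[K] P1) (b : P2 →ₗ[K] P1) : Prop where
  mem : ∀ p, b p ∈ R1
  eq : ∀ t p, A t (b p) - (eps * c) • b (B t p)
    = A t (ev g (x t) p) - (eps * c) • ev g (x t) (B t p)

@[simp] theorem ev_tmul (g : P2 →ₗ[K] P2 →ₗ[K] K) (p2 : P2) (p1 : P1) (p : P2) :
    ev g (p2 ⊗ₜ[K] p1) p = g p2 p • p1 := by
  simp [ev]


/-! ### chains -/

section chains

/-- `x ↦ ∑ (1 ⊗ A_t) x_t` -/
noncomputable def SA (P2 : Type*) [AddCommGroup P2] [Module K P2] (A : τ → End K P1) :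
    (τ → P2 ⊗[K] P1) →ₗ[K] P2 ⊗[K] P1 :=
  ∑ t, (A t).lTensor P2 ∘ₗ LinearMap.proj t

/-- `x ↦ ∑ (B_t ⊗ 1) x_t` -/
noncomputable def SB (P1 : Type*) [AddCommGroup P1] [Module K P1] (B : τ → End K P2) :
    (τ → P2 ⊗[K] P1) →ₗ[K] P2 ⊗[K] P1 :=
  ∑ t, (B t).rTensor P1 ∘ₗ LinearMap.proj t

theorem SA_apply (A : τ → End K P1) (x : τ → P2 ⊗[K] P1) :
    SA P2 A x = ∑ t, (A t).lTensor P2 (x t) := by
  simp [SA]

theorem SB_apply (B : τ → End K P2) (x : τ → P2 ⊗[K] P1) :
    SB P1 B x = ∑ t, (B t).rTensor P1 (x t) := by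
  simp [SB]

theorem SA_single (A : τ → End K P1) (t : τ) (z : P2 ⊗[K] P1) :
    SA P2 A (Pi.single t z) = (A t).lTensor P2 z := by
  rw [SA_apply, Finset.sum_eq_single t]
  · rw [Pi.single_eq_same]
  · intro u _ hu
    rw [Pi.single_eq_of_ne hu, map_zero]
  · intro h
    exact absurd (Finset.mem_univ t) h

theorem SB_single (B : τ → End K P2) (t : τ) (z : P2 ⊗[K] P1) :
    SB P1 B (Pi.single t z) = (B t).rTensor P1 z := by
  rw [SB_apply, Finset.sum_eq_single t]
  · rw [Pi.single_eq_same]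
  · intro u _ hu
    rw [Pi.single_eq_of_ne hu, map_zero]
  · intro h
    exact absurd (Finset.mem_univ t) h

theorem tmul_RT {R : Submodule K P2} {r : P2} (hr : r ∈ R) (p : P1) : r ⊗ₜ[K] p ∈ RT (P1 := P1) R :=
  Submodule.subset_span ⟨r, hr, p, rfl⟩

theorem tmul_TR {R : Submodule K P1} {r : P1} (hr : r ∈ R) (p : P2) : p ⊗ₜ[K] r ∈ TR (P2 := P2) R :=
  Submodule.subset_span ⟨p, r, hr, rfl⟩

theorem RT_mono {R R' : Submodule K P2} (h : R ≤ R') : RT (P1 := P1) R ≤ RT R' := by
  refine Submodule.span_mono ?_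
  rintro z ⟨r, hr, p, rfl⟩
  exact ⟨r, h hr, p, rfl⟩

theorem TR_mono {R R' : Submodule K P1} (h : R ≤ R') : TR (P2 := P2) R ≤ TR R' := by
  refine Submodule.span_mono ?_
  rintro z ⟨p, r, hr, rfl⟩
  exact ⟨p, r, h hr, rfl⟩

theorem lT_RT {R : Submodule K P2} (f : End K P1) {z : P2 ⊗[K] P1} (hz : z ∈ RT (P1 := P1) R) :
    f.lTensor P2 z ∈ RT (P1 := P1) R := by
  have h : RT (P1 := P1) R ≤ (RT R).comap (f.lTensor P2) := by
    refine Submodule.span_le.2 ?_
    rintro z ⟨r, hr, p, rfl⟩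
    exact tmul_RT hr _
  exact h hz

theorem rT_RT {R R' : Submodule K P2} (f : End K P2) (hf : ∀ r ∈ R, f r ∈ R') {z : P2 ⊗[K] P1}
    (hz : z ∈ RT (P1 := P1) R) : f.rTensor P1 z ∈ RT (P1 := P1) R' := by
  have h : RT (P1 := P1) R ≤ (RT R').comap (f.rTensor P1) := by
    refine Submodule.span_le.2 ?_
    rintro z ⟨r, hr, p, rfl⟩
    exact tmul_RT (hf r hr) _
  exact h hz

theorem rT_TR {R : Submodule K P1} (f : End K P2) {z : P2 ⊗[K] P1} (hz : z ∈ TR (P2 := P2) R) :
    f.rTensor P1 z ∈ TR (P2 := P2) R := by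
  have h : TR (P2 := P2) R ≤ (TR R).comap (f.rTensor P1) := by
    refine Submodule.span_le.2 ?_
    rintro z ⟨p, r, hr, rfl⟩
    exact tmul_TR hr _
  exact h hz

theorem lT_TR {R R' : Submodule K P1} (f : End K P1) (hf : ∀ r ∈ R, f r ∈ R') {z : P2 ⊗[K] P1}
    (hz : z ∈ TR (P2 := P2) R) : f.lTensor P2 z ∈ TR (P2 := P2) R' := by
  have h : TR (P2 := P2) R ≤ (TR R').comap (f.lTensor P2) := by
    refine Submodule.span_le.2 ?_
    rintro z ⟨p, r, hr, rfl⟩
    exact tmul_TR (hf r hr) _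
  exact h hz

theorem SA_RT {A : τ → End K P1} {R : Submodule K P2} {y : τ → P2 ⊗[K] P1}
    (hy : ∀ t, y t ∈ RT (P1 := P1) R) : SA P2 A y ∈ RT (P1 := P1) R := by
  rw [SA_apply]
  exact Submodule.sum_mem _ fun t _ => lT_RT _ (hy t)

theorem SB_RT {B : τ → End K P2} {R R' : Submodule K P2} (hR : ∀ t, ∀ r ∈ R, B t r ∈ R')
    {y : τ → P2 ⊗[K] P1} (hy : ∀ t, y t ∈ RT (P1 := P1) R) : SB P1 B y ∈ RT (P1 := P1) R' := by
  rw [SB_apply]
  exact Submodule.sum_mem _ fun t _ => rT_RT _ (hR t) (hy t)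

theorem SB_TR {B : τ → End K P2} {R : Submodule K P1} {y : τ → P2 ⊗[K] P1}
    (hy : ∀ t, y t ∈ TR (P2 := P2) R) : SB P1 B y ∈ TR (P2 := P2) R := by
  rw [SB_apply]
  exact Submodule.sum_mem _ fun t _ => rT_TR _ (hy t)

theorem SA_TR {A : τ → End K P1} {R R' : Submodule K P1} (hR : ∀ t, ∀ r ∈ R, A t r ∈ R')
    {y : τ → P2 ⊗[K] P1} (hy : ∀ t, y t ∈ TR (P2 := P2) R) : SA P2 A y ∈ TR (P2 := P2) R' := by
  rw [SA_apply]
  exact Submodule.sum_mem _ fun t _ => lT_TR _ (hR t) (hy t)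

/-- families in a submodule -/
def pis (R : Submodule K (P2 ⊗[K] P1)) : Submodule K (τ → P2 ⊗[K] P1) :=
  Submodule.pi Set.univ fun _ => R

theorem mem_pis {R : Submodule K (P2 ⊗[K] P1)} {y : τ → P2 ⊗[K] P1} :
    y ∈ pis R ↔ ∀ t, y t ∈ R := by
  simp [pis, Submodule.mem_pi]

theorem single_pis {R : Submodule K (P2 ⊗[K] P1)} {z : P2 ⊗[K] P1} (hz : z ∈ R) (t : τ) :
    Pi.single t z ∈ pis (τ := τ) R := by
  rw [mem_pis]
  intro u
  by_cases h : u = t
  · subst h
    rw [Pi.single_eq_same]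
    exact hz
  · rw [Pi.single_eq_of_ne h]
    exact R.zero_mem

theorem surjA {A : τ → End K P1} (hA : ⨆ t, LinearMap.range (A t) = ⊤) (R : Submodule K P2)
    {z : P2 ⊗[K] P1} (hz : z ∈ RT (P1 := P1) R) :
    ∃ y : τ → P2 ⊗[K] P1, (∀ t, y t ∈ RT (P1 := P1) R) ∧ SA P2 A y = z := by
  have h : RT (P1 := P1) R ≤ (pis (τ := τ) (RT R)).map (SA P2 A) := by
    refine Submodule.span_le.2 ?_
    rintro z ⟨r, hr, p, rfl⟩
    have h1 : (⊤ : Submodule K P1) ≤
        ((pis (τ := τ) (RT (P1 := P1) R)).map (SA P2 A)).comap (TensorProduct.mk K P2 P1 r) := by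
      rw [← hA]
      refine iSup_le fun t => ?_
      rintro _ ⟨u, rfl⟩
      exact ⟨Pi.single t (r ⊗ₜ u), single_pis (tmul_RT hr u) t, by
        rw [SA_single, LinearMap.lTensor_tmul]; rfl⟩
    exact h1 (Submodule.mem_top : p ∈ ⊤)
  obtain ⟨y, hy, rfl⟩ := h hz
  exact ⟨y, mem_pis.1 hy, rfl⟩

theorem surjB {B : τ → End K P2} (hB : ⨆ t, LinearMap.range (B t) = ⊤) (R : Submodule K P1)
    {z : P2 ⊗[K] P1} (hz : z ∈ TR (P2 := P2) R) :
    ∃ y : τ → P2 ⊗[K] P1, (∀ t, y t ∈ TR (P2 := P2) R) ∧ SB P1 B y = z := by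
  have h : TR (P2 := P2) R ≤ (pis (τ := τ) (TR R)).map (SB P1 B) := by
    refine Submodule.span_le.2 ?_
    rintro z ⟨p, r, hr, rfl⟩
    have h1 : (⊤ : Submodule K P2) ≤
        ((pis (τ := τ) (TR (P2 := P2) R)).map (SB P1 B)).comap
          ((TensorProduct.mk K P2 P1).flip r) := by
      rw [← hB]
      refine iSup_le fun t => ?_
      rintro _ ⟨u, rfl⟩
      exact ⟨Pi.single t (u ⊗ₜ r), single_pis (tmul_TR hr u) t, by
        rw [SB_single, LinearMap.rTensor_tmul]; rfl⟩
    exact h1 (Submodule.mem_top : p ∈ ⊤)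
  obtain ⟨y, hy, rfl⟩ := h hz
  exact ⟨y, mem_pis.1 hy, rfl⟩

theorem surjBk {B : τ → End K P2} (R : Submodule K P2) {z : P2 ⊗[K] P1}
    (hz : z ∈ RT (P1 := P1) (⨆ t, R.map (B t))) :
    ∃ y : τ → P2 ⊗[K] P1, (∀ t, y t ∈ RT (P1 := P1) R) ∧ SB P1 B y = z := by
  have h : RT (P1 := P1) (⨆ t, R.map (B t)) ≤ (pis (τ := τ) (RT R)).map (SB P1 B) := by
    refine Submodule.span_le.2 ?_
    rintro z ⟨r, hr, p, rfl⟩
    have h1 : (⨆ t, R.map (B t)) ≤
        ((pis (τ := τ) (RT (P1 := P1) R)).map (SB P1 B)).comap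
          ((TensorProduct.mk K P2 P1).flip p) := by
      refine iSup_le fun t => ?_
      rintro _ ⟨u, hu, rfl⟩
      exact ⟨Pi.single t (u ⊗ₜ p), single_pis (tmul_RT hu p) t, by
        rw [SB_single, LinearMap.rTensor_tmul]; rfl⟩
    exact h1 hr
  obtain ⟨y, hy, rfl⟩ := h hz
  exact ⟨y, mem_pis.1 hy, rfl⟩

/-- elements of `R` killed by all words of length `j` -/
def Nk {P : Type*} [AddCommGroup P] [Module K P] (A : τ → End K P) (R : Submodule K P) (j : ℕ) :
    Submodule K P where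
  carrier := {r | r ∈ R ∧ ∀ w : List τ, w.length = j → (w.map A).prod r = 0}
  add_mem' := by
    rintro a b ⟨h1, h2⟩ ⟨h3, h4⟩
    exact ⟨R.add_mem h1 h3, fun w hw => by rw [map_add, h2 w hw, h4 w hw, add_zero]⟩
  zero_mem' := ⟨R.zero_mem, fun w _ => map_zero _⟩
  smul_mem' := by
    rintro c a ⟨h1, h2⟩
    exact ⟨R.smul_mem c h1, fun w hw => by rw [map_smul, h2 w hw, smul_zero]⟩

theorem Nk_zero {P : Type*} [AddCommGroup P] [Module K P] (A : τ → End K P) (R : Submodule K P) :
    Nk A R 0 = ⊥ := by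
  rw [eq_bot_iff]
  rintro r ⟨_, h⟩
  have := h [] rfl
  simpa using this

theorem Nk_le {P : Type*} [AddCommGroup P] [Module K P] (A : τ → End K P) (R : Submodule K P)
    (j : ℕ) : Nk A R j ≤ R := fun _ h => h.1

theorem Nk_step {P : Type*} [AddCommGroup P] [Module K P] {A : τ → End K P} {R : Submodule K P}
    (hR : ∀ t, ∀ r ∈ R, A t r ∈ R) {j : ℕ} (t : τ) : ∀ r ∈ Nk A R (j + 1), A t r ∈ Nk A R j := by
  rintro r ⟨h1, h2⟩
  refine ⟨hR t r h1, fun w hw => ?_⟩
  have := h2 (w ++ [t]) (by simp [hw])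
  rw [List.map_append, List.prod_append, List.map_singleton, List.prod_singleton] at this
  exact this

theorem Nk_top {P : Type*} [AddCommGroup P] [Module K P] {A : τ → End K P} {R : Submodule K P}
    {m : ℕ} (h : ∀ w : List τ, w.length = m → ∀ r ∈ R, (w.map A).prod r = 0) : R ≤ Nk A R m :=
  fun r hr => ⟨hr, fun w hw => h w hw r hr⟩

theorem RT_bot : RT (P1 := P1) (⊥ : Submodule K P2) = ⊥ := by
  rw [eq_bot_iff]
  refine Submodule.span_le.2 ?_
  rintro z ⟨r, hr, p, rfl⟩
  rw [Submodule.mem_bot] at hr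
  subst hr
  simp

theorem TR_bot : TR (P2 := P2) (⊥ : Submodule K P1) = ⊥ := by
  rw [eq_bot_iff]
  refine Submodule.span_le.2 ?_
  rintro z ⟨p, r, hr, rfl⟩
  rw [Submodule.mem_bot] at hr
  subst hr
  simp

/-- the defect of a Laurent family -/
noncomputable def dfc (A : τ → End K P1) (B : τ → End K P2) :
    (ℤ →₀ (τ → P2 ⊗[K] P1)) →ₗ[K] (ℤ →₀ P2 ⊗[K] P1) :=
  Finsupp.mapRange.linearMap (SB P1 B) - sh ∘ₗ Finsupp.mapRange.linearMap (SA P2 A)

theorem dfc_single (A : τ → End K P1) (B : τ → End K P2) (i : ℤ) (y : τ → P2 ⊗[K] P1) :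
    dfc A B (Finsupp.single i y)
      = Finsupp.single i (SB P1 B y) - Finsupp.single (i - 1) (SA P2 A y) := by
  simp [dfc, Finsupp.mapRange_single, sh_single]

variable {A : τ → End K P1} {B : τ → End K P2} {R1 : Submodule K P1} {R2 : Submodule K P2}

/-- ascending chains in `R2 ⊗ P1` -/
theorem up (hA : ⨆ t, LinearMap.range (A t) = ⊤) (hR2 : ∀ t, ∀ r ∈ R2, B t r ∈ R2) (j : ℕ) :
    ∀ (k : ℤ) (y : τ → P2 ⊗[K] P1), (∀ t, y t ∈ RT (P1 := P1) (Nk B R2 j)) →
      ∃ x : ℤ →₀ (τ → P2 ⊗[K] P1), (∀ i, i < k → x i = 0) ∧ x k = y ∧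
        (∀ i t, x i t ∈ RT (P1 := P1) R2) ∧
        dfc A B x = - Finsupp.single (k - 1) (SA P2 A y) := by
  induction j with
  | zero =>
    intro k y hy
    have hy0 : y = 0 := by
      funext t
      have := hy t
      rw [Nk_zero, RT_bot, Submodule.mem_bot] at this
      exact this
    subst hy0
    exact ⟨0, fun _ _ => rfl, rfl, fun _ _ => Submodule.zero_mem _, by simp⟩
  | succ j ih =>
    intro k y hy
    obtain ⟨y', hy', hs⟩ := surjA hA (Nk B R2 j) (SB_RT (B := B) (Nk_step hR2) hy)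
    obtain ⟨x', h1, h2, h3, h4⟩ := ih (k + 1) y' hy'
    refine ⟨Finsupp.single k y + x', fun i hi => ?_, ?_, fun i t => ?_, ?_⟩
    · rw [Finsupp.add_apply, Finsupp.single_eq_of_ne (ne_of_lt hi), h1 i (by omega), add_zero]
    · rw [Finsupp.add_apply, Finsupp.single_eq_same, h1 k (by omega), add_zero]
    · rw [Finsupp.add_apply, Pi.add_apply]
      refine Submodule.add_mem _ ?_ (h3 i t)
      by_cases hik : i = k
      · subst hik
        rw [Finsupp.single_eq_same]
        exact RT_mono (Nk_le _ _ _) (hy t)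
      · rw [Finsupp.single_eq_of_ne hik]
        exact Submodule.zero_mem _
    · rw [map_add, dfc_single, h4, hs, add_sub_cancel_right]
      abel

/-- descending chains in `P2 ⊗ R1` -/
theorem down (hB : ⨆ t, LinearMap.range (B t) = ⊤) (hR1 : ∀ t, ∀ r ∈ R1, A t r ∈ R1) (j : ℕ) :
    ∀ (k : ℤ) (y : τ → P2 ⊗[K] P1), (∀ t, y t ∈ TR (P2 := P2) (Nk A R1 j)) →
      ∃ x : ℤ →₀ (τ → P2 ⊗[K] P1), (∀ i, k < i → x i = 0) ∧ x k = y ∧
        (∀ i t, x i t ∈ TR (P2 := P2) R1) ∧
        dfc A B x = Finsupp.single k (SB P1 B y) := by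
  induction j with
  | zero =>
    intro k y hy
    have hy0 : y = 0 := by
      funext t
      have := hy t
      rw [Nk_zero, TR_bot, Submodule.mem_bot] at this
      exact this
    subst hy0
    exact ⟨0, fun _ _ => rfl, rfl, fun _ _ => Submodule.zero_mem _, by simp⟩
  | succ j ih =>
    intro k y hy
    obtain ⟨y', hy', hs⟩ := surjB hB (Nk A R1 j) (SA_TR (A := A) (Nk_step hR1) hy)
    obtain ⟨x', h1, h2, h3, h4⟩ := ih (k - 1) y' hy'
    refine ⟨Finsupp.single k y + x', fun i hi => ?_, ?_, fun i t => ?_, ?_⟩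
    · rw [Finsupp.add_apply, Finsupp.single_eq_of_ne (ne_of_gt hi), h1 i (by omega), add_zero]
    · rw [Finsupp.add_apply, Finsupp.single_eq_same, h1 k (by omega), add_zero]
    · rw [Finsupp.add_apply, Pi.add_apply]
      refine Submodule.add_mem _ ?_ (h3 i t)
      by_cases hik : i = k
      · subst hik
        rw [Finsupp.single_eq_same]
        exact TR_mono (Nk_le _ _ _) (hy t)
      · rw [Finsupp.single_eq_of_ne hik]
        exact Submodule.zero_mem _
    · rw [map_add, dfc_single, h4, hs]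
      abel

end chains


/-! ### Laurent families -/

section fam

variable {A : τ → End K P1} {B : τ → End K P2} {R1 : Submodule K P1} {R2 : Submodule K P2}

/-- the defects arm by arm are radical -/
def ArmS (A : τ → End K P1) (B : τ → End K P2) (R1 : Submodule K P1) (R2 : Submodule K P2) :
    Submodule K (ℤ →₀ (τ → P2 ⊗[K] P1)) where
  carrier := {x | ∀ t i, (B t).rTensor P1 (x i t) - (A t).lTensor P2 (x (i + 1) t) ∈
    (RT R2 ⊔ TR R1 : Submodule K (P2 ⊗[K] P1))}
  add_mem' := by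
    intro x y hx hy t i
    have := Submodule.add_mem _ (hx t i) (hy t i)
    simp only [Finsupp.add_apply, Pi.add_apply, map_add]
    convert this using 1
    abel
  zero_mem' := by
    intro t i
    simp
  smul_mem' := by
    intro c x hx t i
    have := Submodule.smul_mem _ c (hx t i)
    simp only [Finsupp.smul_apply, Pi.smul_apply, map_smul]
    rw [smul_sub] at this
    exact this

theorem arm_of_J (hR1 : ∀ t, ∀ r ∈ R1, A t r ∈ R1) (hR2 : ∀ t, ∀ r ∈ R2, B t r ∈ R2)
    {x : ℤ →₀ (τ → P2 ⊗[K] P1)}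
    (hx : ∀ i t, x i t ∈ (RT R2 ⊔ TR R1 : Submodule K (P2 ⊗[K] P1))) :
    x ∈ ArmS A B R1 R2 := by
  intro t i
  have h1 : ∀ z ∈ (RT R2 ⊔ TR R1 : Submodule K (P2 ⊗[K] P1)),
      (B t).rTensor P1 z ∈ (RT R2 ⊔ TR R1 : Submodule K (P2 ⊗[K] P1)) := by
    intro z hz
    obtain ⟨a, ha, b, hb, rfl⟩ := Submodule.mem_sup.1 hz
    rw [map_add]
    exact Submodule.add_mem_sup (rT_RT _ (hR2 t) ha) (rT_TR _ hb)
  have h2 : ∀ z ∈ (RT R2 ⊔ TR R1 : Submodule K (P2 ⊗[K] P1)),
      (A t).lTensor P2 z ∈ (RT R2 ⊔ TR R1 : Submodule K (P2 ⊗[K] P1)) := by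
    intro z hz
    obtain ⟨a, ha, b, hb, rfl⟩ := Submodule.mem_sup.1 hz
    rw [map_add]
    exact Submodule.add_mem_sup (lT_RT _ ha) (lT_TR _ (hR1 t) hb)
  exact Submodule.sub_mem _ (h1 _ (hx i t)) (h2 _ (hx (i + 1) t))

/-- evaluation of exact Laurent families -/
theorem ex_of {c : K} (hc : c ≠ 0) {x : ℤ →₀ (τ → P2 ⊗[K] P1)} (hx : dfc A B x = 0)
    (hx' : x ∈ ArmS A B R1 R2) : Ex A B R1 R2 c (evl c x) := by
  constructor
  · have h1 : evl c (dfc A B x) = 0 := by rw [hx, map_zero]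
    simp only [dfc, LinearMap.sub_apply, LinearMap.comp_apply, map_sub] at h1
    rw [evl_map, evl_sh hc, evl_map] at h1
    have h2 : ∑ t, DD A B c t (evl c x t) = SA P2 A (evl c x) - c • SB P1 B (evl c x) := by
      rw [SA_apply, SB_apply, Finset.smul_sum, ← Finset.sum_sub_distrib]
      rfl
    rw [h2, sub_eq_zero.1 h1, smul_smul, mul_inv_cancel₀ hc, one_smul, sub_self]
  · intro t
    let z : ℤ →₀ P2 ⊗[K] P1 :=
      Finsupp.mapRange.linearMap ((B t).rTensor P1 ∘ₗ LinearMap.proj t) x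
        - sh (K := K) (Finsupp.mapRange.linearMap ((A t).lTensor P2 ∘ₗ LinearMap.proj t) x)
    have hz : ∀ i, z i ∈ (RT R2 ⊔ TR R1 : Submodule K (P2 ⊗[K] P1)) := by
      intro i
      have h3 : z i = (B t).rTensor P1 (x i t) - (A t).lTensor P2 (x (i + 1) t) := by
        simp only [z, Finsupp.sub_apply, sh_apply]
        rfl
      rw [h3]
      exact hx' t i
    have h4 := evl_mem _ c z hz
    simp only [z, map_sub] at h4
    rw [evl_map, evl_sh hc, evl_map] at h4
    have h5 := Submodule.smul_mem _ (-c) h4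
    have h6 : DD A B c t (evl c x t) = (-c) • ((((B t).rTensor P1 ∘ₗ LinearMap.proj t) (evl c x))
        - c⁻¹ • (((A t).lTensor P2 ∘ₗ LinearMap.proj t) (evl c x))) := by
      rw [smul_sub, smul_smul, neg_mul, mul_inv_cancel₀ hc]
      simp only [DD, LinearMap.sub_apply, LinearMap.smul_apply, LinearMap.comp_apply,
        LinearMap.proj_apply]
      module
    rw [h6]
    exact h5

/-- the core chain -/
theorem core (s : τ) (n : ℕ) (v : P2) (p : P1) (h1 : (A s ^ n) p ∈ R1) (h2 : (B s ^ n) v ∈ R2) :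
    ∃ x : ℤ →₀ (τ → P2 ⊗[K] P1), x ∈ ArmS A B R1 R2 ∧ (∀ i, 0 ≤ i → x i = 0) ∧
      (∀ i : ℤ, i < -(n : ℤ) → x i = 0) ∧
      (∀ i : ℕ, i < n → x ((i : ℤ) - n) = Pi.single s (((B s ^ i) v) ⊗ₜ ((A s ^ (n - 1 - i)) p))) ∧
      dfc A B x = Finsupp.single (-1) (((B s ^ n) v) ⊗ₜ p)
        - Finsupp.single (-(n : ℤ) - 1) (v ⊗ₜ ((A s ^ n) p)) := by
  classical
  let f : ℕ → P2 ⊗[K] P1 := fun i => ((B s ^ i) v) ⊗ₜ ((A s ^ (n - 1 - i)) p)
  let x : ℤ →₀ (τ → P2 ⊗[K] P1) :=
    ∑ i ∈ Finset.range n, Finsupp.single ((i : ℤ) - n) (Pi.single s (f i))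
  have hd : dfc A B x = Finsupp.single (-1) (((B s ^ n) v) ⊗ₜ p)
        - Finsupp.single (-(n : ℤ) - 1) (v ⊗ₜ ((A s ^ n) p)) := by
    simp only [x]
    rw [map_sum]
    have h3 : ∀ i ∈ Finset.range n, dfc A B (Finsupp.single ((i : ℤ) - n) (Pi.single s (f i)))
        = Finsupp.single (((i + 1 : ℕ) : ℤ) - n - 1) (((B s ^ (i + 1)) v) ⊗ₜ ((A s ^ (n - (i + 1))) p))
          - Finsupp.single ((i : ℤ) - n - 1) (((B s ^ i) v) ⊗ₜ ((A s ^ (n - i)) p)) := by
      intro i hi
      rw [Finset.mem_range] at hi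
      rw [dfc_single, SB_single, SA_single]
      simp only [f]
      rw [LinearMap.rTensor_tmul, LinearMap.lTensor_tmul]
      have h4 : (A s) ((A s ^ (n - 1 - i)) p) = (A s ^ (n - i)) p := by
        rw [show n - i = (n - 1 - i) + 1 by omega, pow_succ']
        rfl
      have h5 : (B s) ((B s ^ i) v) = (B s ^ (i + 1)) v := by
        rw [pow_succ']
        rfl
      rw [h4, h5, show n - (i + 1) = n - 1 - i by omega]
      congr 2
      push_cast
      ring
    rw [Finset.sum_congr rfl h3, Finset.sum_range_sub (fun i : ℕ =>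
      Finsupp.single ((i : ℤ) - n - 1) (((B s ^ i) v) ⊗ₜ[K] ((A s ^ (n - i)) p)))]
    congr 2
    · ring
    · simp
    · push_cast
      ring
  have hx : ∀ j : ℤ, x j = ∑ i ∈ Finset.range n,
      (if (i : ℤ) - n = j then Pi.single s (f i) else 0) := by
    intro j
    simp only [x]
    rw [Finsupp.finsetSum_apply]
    refine Finset.sum_congr rfl fun i _ => ?_
    rw [Finsupp.single_apply]
  have hs : ∀ j : ℤ, ∀ t, t ≠ s → x j t = 0 := by
    intro j t ht
    rw [hx, Finset.sum_apply]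
    refine Finset.sum_eq_zero fun i _ => ?_
    split_ifs
    · rw [Pi.single_eq_of_ne ht]
    · rfl
  refine ⟨x, ?_, ?_, ?_, ?_, hd⟩
  · intro t i
    by_cases ht : t = s
    · subst ht
      have h3 : ∀ j : ℤ, x j = Pi.single t (x j t) := by
        intro j
        funext u
        by_cases hu : u = t
        · subst hu
          rw [Pi.single_eq_same]
        · rw [Pi.single_eq_of_ne hu, hs j u hu]
      have h4 : dfc A B x i = (B t).rTensor P1 (x i t) - (A t).lTensor P2 (x (i + 1) t) := by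
        simp only [dfc, LinearMap.sub_apply, LinearMap.comp_apply, Finsupp.sub_apply, sh_apply,
          Finsupp.mapRange.linearMap_apply, Finsupp.mapRange_apply]
        conv_lhs => rw [h3 i, h3 (i + 1)]
        rw [SB_single, SA_single]
      rw [← h4, hd, Finsupp.sub_apply]
      refine Submodule.sub_mem _ ?_ ?_
      · rw [Finsupp.single_apply]
        split_ifs
        · exact Submodule.mem_sup_left (tmul_RT h2 p)
        · exact Submodule.zero_mem _
      · rw [Finsupp.single_apply]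
        split_ifs
        · exact Submodule.mem_sup_right (tmul_TR h1 v)
        · exact Submodule.zero_mem _
    · rw [hs i t ht, hs (i + 1) t ht, map_zero, map_zero, sub_zero]
      exact Submodule.zero_mem _
  · intro j hj
    rw [hx]
    refine Finset.sum_eq_zero fun i hi => ?_
    rw [Finset.mem_range] at hi
    rw [if_neg (by omega)]
  · intro j hj
    rw [hx]
    refine Finset.sum_eq_zero fun i hi => ?_
    rw [if_neg (by omega)]
  · intro j hj
    rw [hx, Finset.sum_eq_single j]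
    · rw [if_pos rfl]
    · intro i _ hij
      rw [if_neg (by omega)]
    · intro h
      exact absurd (Finset.mem_range.2 hj) h

/-- the full family of a core element, with prescribed first descending term -/
theorem famA (hA : ⨆ t, LinearMap.range (A t) = ⊤) (hB : ⨆ t, LinearMap.range (B t) = ⊤)
    (hR1 : ∀ t, ∀ r ∈ R1, A t r ∈ R1) (hR2 : ∀ t, ∀ r ∈ R2, B t r ∈ R2) {m : ℕ}
    (hN1 : ∀ w : List τ, w.length = m → ∀ r ∈ R1, (w.map A).prod r = 0)
    (hN2 : ∀ w : List τ, w.length = m → ∀ r ∈ R2, (w.map B).prod r = 0)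
    (s : τ) (n : ℕ) (κ : τ → P2) (p : P1) (h1 : (A s ^ n) p ∈ R1)
    (h2 : (B s ^ n) (∑ t, B t (κ t)) ∈ R2) :
    ∃ x : ℤ →₀ (τ → P2 ⊗[K] P1), dfc A B x = 0 ∧ x ∈ ArmS A B R1 R2 ∧
      (∀ i, 0 ≤ i → ∀ t, x i t ∈ RT (P1 := P1) R2) ∧
      (∀ i : ℕ, i < n → x ((i : ℤ) - n)
        = Pi.single s (((B s ^ i) (∑ t, B t (κ t))) ⊗ₜ ((A s ^ (n - 1 - i)) p))) ∧
      x (-(n : ℤ) - 1) = fun t => κ t ⊗ₜ ((A s ^ n) p) := by
  obtain ⟨x0, hx0, hx1, hx2, hx3, hx4⟩ := core (A := A) (B := B) (R1 := R1) (R2 := R2) s n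
    (∑ t, B t (κ t)) p h1 h2
  obtain ⟨y, hy, hy1⟩ := surjA hA R2 (tmul_RT h2 p)
  obtain ⟨u, hu1, hu2, hu3, hu4⟩ := up hA hR2 m 0 y (fun t => RT_mono (Nk_top hN2) (hy t))
  have hκ : ∀ t, κ t ⊗ₜ[K] ((A s ^ n) p) ∈ TR (P2 := P2) (Nk A R1 m) :=
    fun t => TR_mono (Nk_top hN1) (tmul_TR h1 _)
  obtain ⟨d, hd1, hd2, hd3, hd4⟩ := down hB hR1 m (-(n : ℤ) - 1)
    (fun t => κ t ⊗ₜ[K] ((A s ^ n) p)) hκ
  refine ⟨x0 + u + d, ?_, ?_, ?_, ?_, ?_⟩
  · rw [map_add, map_add, hx4, hu4, hd4, hy1]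
    have h3 : SB P1 B (fun t => κ t ⊗ₜ[K] ((A s ^ n) p))
        = (∑ t, B t (κ t)) ⊗ₜ[K] ((A s ^ n) p) := by
      rw [SB_apply, TensorProduct.sum_tmul]
      rfl
    rw [h3, zero_sub]
    abel
  · refine Submodule.add_mem _ (Submodule.add_mem _ hx0 ?_) ?_
    · exact arm_of_J hR1 hR2 fun i t => Submodule.mem_sup_left (hu3 i t)
    · exact arm_of_J hR1 hR2 fun i t => Submodule.mem_sup_right (hd3 i t)
  · intro i hi t
    rw [Finsupp.add_apply, Finsupp.add_apply, hx1 i hi, hd1 i (by omega), zero_add, add_zero]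
    exact hu3 i t
  · intro i hi
    rw [Finsupp.add_apply, Finsupp.add_apply, hx3 i hi, hd1 _ (by omega), hu1 _ (by omega),
      add_zero, add_zero]
  · rw [Finsupp.add_apply, Finsupp.add_apply, hx2 _ (by omega), hd2, hu1 _ (by omega),
      add_zero, zero_add]

/-- the layers of `R2` -/
def Rk (B : τ → End K P2) (l : τ → ℕ) : ℕ → Submodule K P2
  | 0 => ⨆ s, LinearMap.range (B s ^ l s)
  | k + 1 => ⨆ t, (Rk B l k).map (B t)

theorem Rk_le {l : τ → ℕ} (hR2 : ∀ t, ∀ r ∈ R2, B t r ∈ R2) (hl2 : ∀ s p, (B s ^ l s) p ∈ R2)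
    (k : ℕ) : Rk B l k ≤ R2 := by
  induction k with
  | zero =>
    refine iSup_le fun s => ?_
    rintro _ ⟨p, rfl⟩
    exact hl2 s p
  | succ k ih =>
    refine iSup_le fun t => ?_
    rintro _ ⟨p, hp, rfl⟩
    exact hR2 t p (ih hp)

/-- descending half families -/
def LowS (A : τ → End K P1) (B : τ → End K P2) (R1 : Submodule K P1) (R2 : Submodule K P2)
    (k : ℤ) : Submodule K (ℤ →₀ (τ → P2 ⊗[K] P1)) where
  carrier := {x | x ∈ ArmS A B R1 R2 ∧ (∀ i, k ≤ i → x i = 0) ∧
    (∀ i, 0 ≤ i → ∀ t, x i t ∈ RT (P1 := P1) R2)}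
  add_mem' := by
    rintro x y ⟨h1, h2, h3⟩ ⟨h4, h5, h6⟩
    refine ⟨Submodule.add_mem _ h1 h4, fun i hi => ?_, fun i hi t => ?_⟩
    · rw [Finsupp.add_apply, h2 i hi, h5 i hi, add_zero]
    · exact Submodule.add_mem _ (h3 i hi t) (h6 i hi t)
  zero_mem' := ⟨Submodule.zero_mem _, fun _ _ => rfl, fun _ _ _ => Submodule.zero_mem _⟩
  smul_mem' := by
    rintro c x ⟨h1, h2, h3⟩
    refine ⟨Submodule.smul_mem _ _ h1, fun i hi => ?_, fun i hi t => ?_⟩
    · rw [Finsupp.smul_apply, h2 i hi, smul_zero]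
    · exact Submodule.smul_mem _ _ (h3 i hi t)

theorem low (hB : ⨆ t, LinearMap.range (B t) = ⊤)
    (hR1 : ∀ t, ∀ r ∈ R1, A t r ∈ R1) (hR2 : ∀ t, ∀ r ∈ R2, B t r ∈ R2) {m : ℕ}
    (hN1 : ∀ w : List τ, w.length = m → ∀ r ∈ R1, (w.map A).prod r = 0)
    {l : τ → ℕ} (hl1 : ∀ s p, (A s ^ l s) p ∈ R1) (hl2 : ∀ s p, (B s ^ l s) p ∈ R2) (k : ℕ) :
    ∀ z ∈ RT (P1 := P1) (Rk B l k),
      ∃ x ∈ LowS A B R1 R2 (k : ℤ), dfc A B x = Finsupp.single ((k : ℤ) - 1) z := by
  induction k with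
  | zero =>
    have h : RT (P1 := P1) (Rk B l 0) ≤ ((LowS A B R1 R2 (0 : ℤ)).map (dfc A B)).comap
        (Finsupp.lsingle (R := K) ((0 : ℤ) - 1)) := by
      refine Submodule.span_le.2 ?_
      rintro z ⟨r, hr, p, rfl⟩
      have h1 : Rk B l 0 ≤ (((LowS A B R1 R2 (0 : ℤ)).map (dfc A B)).comap
          (Finsupp.lsingle (R := K) ((0 : ℤ) - 1))).comap ((TensorProduct.mk K P2 P1).flip p) := by
        refine iSup_le fun s => ?_
        rintro _ ⟨v, rfl⟩
        obtain ⟨x0, hx0, hx1, hx2, hx3, hx4⟩ := core (A := A) (B := B) (R1 := R1) (R2 := R2) s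
          (l s) v p (hl1 s p) (hl2 s v)
        obtain ⟨y, hy, hy1⟩ := surjB hB (Nk A R1 m) (TR_mono (Nk_top hN1) (tmul_TR (hl1 s p) v))
        obtain ⟨d, hd1, hd2, hd3, hd4⟩ := down hB hR1 m (-(l s : ℤ) - 1) y hy
        refine ⟨x0 + d, ⟨Submodule.add_mem _ hx0 ?_, fun i hi => ?_, fun i hi t => ?_⟩, ?_⟩
        · exact arm_of_J hR1 hR2 fun i t => Submodule.mem_sup_right (hd3 i t)
        · rw [Finsupp.add_apply, hx1 i hi, hd1 i (by omega), add_zero]
        · rw [Finsupp.add_apply, hx1 i hi, hd1 i (by omega), add_zero]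
          exact Submodule.zero_mem _
        · rw [map_add, hx4, hd4, hy1]
          simp
      exact h1 hr
    intro z hz
    obtain ⟨x, hx, hx'⟩ := h hz
    exact ⟨x, hx, hx'⟩
  | succ k ih =>
    intro z hz
    obtain ⟨y, hy, rfl⟩ := surjBk (P1 := P1) (B := B) (Rk B l k) hz
    obtain ⟨x', ⟨h1, h2, h3⟩, h4⟩ := ih (SA P2 A y) (SA_RT hy)
    have hyR : ∀ t, y t ∈ RT (P1 := P1) R2 := fun t => RT_mono (Rk_le hR2 hl2 k) (hy t)
    refine ⟨Finsupp.single (k : ℤ) y + x', ⟨Submodule.add_mem _ ?_ h1, fun i hi => ?_,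
      fun i hi t => ?_⟩, ?_⟩
    · refine arm_of_J hR1 hR2 fun i t => Submodule.mem_sup_left ?_
      rw [Finsupp.single_apply]
      split_ifs
      · exact hyR t
      · exact Submodule.zero_mem _
    · rw [Finsupp.add_apply, Finsupp.single_eq_of_ne (by push_cast at hi; omega),
        h2 i (by push_cast at hi; omega), add_zero]
    · rw [Finsupp.add_apply, Pi.add_apply]
      refine Submodule.add_mem _ ?_ (h3 i hi t)
      rw [Finsupp.single_apply]
      split_ifs
      · exact hyR t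
      · exact Submodule.zero_mem _
    · rw [map_add, dfc_single, h4]
      push_cast
      rw [add_sub_cancel_right]
      abel

/-- full families with prescribed term in `R2 ⊗ P1` -/
theorem famR (hA : ⨆ t, LinearMap.range (A t) = ⊤) (hB : ⨆ t, LinearMap.range (B t) = ⊤)
    (hR1 : ∀ t, ∀ r ∈ R1, A t r ∈ R1) (hR2 : ∀ t, ∀ r ∈ R2, B t r ∈ R2) {m : ℕ}
    (hN1 : ∀ w : List τ, w.length = m → ∀ r ∈ R1, (w.map A).prod r = 0)
    (hN2 : ∀ w : List τ, w.length = m → ∀ r ∈ R2, (w.map B).prod r = 0)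
    {l : τ → ℕ} (hl1 : ∀ s p, (A s ^ l s) p ∈ R1) (hl2 : ∀ s p, (B s ^ l s) p ∈ R2) (k : ℕ)
    (y : τ → P2 ⊗[K] P1) (hy : ∀ t, y t ∈ RT (P1 := P1) (Rk B l k)) :
    ∃ x : ℤ →₀ (τ → P2 ⊗[K] P1), dfc A B x = 0 ∧ x ∈ ArmS A B R1 R2 ∧
      (∀ i, 0 ≤ i → ∀ t, x i t ∈ RT (P1 := P1) R2) ∧ x (k : ℤ) = y := by
  obtain ⟨x, ⟨h1, h2, h3⟩, h4⟩ := low (A := A) hB hR1 hR2 hN1 hl1 hl2 k (SA P2 A y) (SA_RT hy)
  obtain ⟨u, hu1, hu2, hu3, hu4⟩ := up hA hR2 m (k : ℤ) y
    (fun t => RT_mono ((Rk_le hR2 hl2 k).trans (Nk_top hN2)) (hy t))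
  refine ⟨x + u, ?_, Submodule.add_mem _ h1 ?_, fun i hi t => ?_, ?_⟩
  · rw [map_add, h4, hu4]
    abel
  · exact arm_of_J hR1 hR2 fun i t => Submodule.mem_sup_left (hu3 i t)
  · exact Submodule.add_mem _ (h3 i hi t) (hu3 i t)
  · rw [Finsupp.add_apply, h2 _ le_rfl, hu2, zero_add]

end fam


/-! ### the correction is a Laurent family -/

section corr

variable {A : τ → End K P1} {B : τ → End K P2} {R1 : Submodule K P1} {R2 : Submodule K P2}
  {g : P2 →ₗ[K] P2 →ₗ[K] K} {eps : K}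

/-- the inverse shift -/
noncomputable def sh' {X : Type*} [AddCommGroup X] [Module K X] : (ℤ →₀ X) →ₗ[K] (ℤ →₀ X) :=
  Finsupp.lmapDomain X K (fun i : ℤ => i + 1)

theorem sh'_apply {X : Type*} [AddCommGroup X] [Module K X] (x : ℤ →₀ X) (i : ℤ) :
    sh' (K := K) x i = x (i - 1) := by
  have h := Finsupp.mapDomain_apply (f := fun i : ℤ => i + 1) (add_left_injective 1) x (i - 1)
  simp only [sub_add_cancel] at h
  exact h

theorem evl_sh' {X : Type*} [AddCommGroup X] [Module K X] {c : K} (hc : c ≠ 0) (x : ℤ →₀ X) :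
    evl c (sh' (K := K) x) = c • evl c x := by
  induction x using Finsupp.induction_linear with
  | zero => simp
  | add x y hx hy => simp only [map_add, hx, hy, smul_add]
  | single i v =>
    simp only [sh', Finsupp.lmapDomain_apply, Finsupp.mapDomain_single]
    rw [evl_single, evl_single, smul_smul, zpow_add_one₀ hc, mul_comm]

/-- composition on both sides, as a linear map of the middle term -/
noncomputable def sw {P Q : Type*} [AddCommGroup P] [Module K P] [AddCommGroup Q] [Module K Q]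
    (f : End K Q) (h : End K P) : (P →ₗ[K] Q) →ₗ[K] (P →ₗ[K] Q) where
  toFun b := f ∘ₗ b ∘ₗ h
  map_add' := by
    intro b b'
    ext p
    simp
  map_smul' := by
    intro c b
    ext p
    simp

theorem sw_apply {P Q : Type*} [AddCommGroup P] [Module K P] [AddCommGroup Q] [Module K Q]
    (f : End K Q) (h : End K P) (b : P →ₗ[K] Q) (p : P) : sw f h b p = f (b (h p)) := rfl

theorem exists_section {B : τ → End K P2} (hB : ⨆ t, LinearMap.range (B t) = ⊤) :
    ∃ σ : τ → End K P2, ∀ p, ∑ t, B t (σ t p) = p := by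
  let L : (τ → P2) →ₗ[K] P2 := ∑ t, (B t) ∘ₗ LinearMap.proj t
  have hL : LinearMap.range L = ⊤ := by
    rw [eq_top_iff, ← hB]
    refine iSup_le fun t => ?_
    rintro _ ⟨u, rfl⟩
    refine ⟨Pi.single t u, ?_⟩
    simp only [L, LinearMap.sum_apply, LinearMap.comp_apply, LinearMap.proj_apply]
    rw [Finset.sum_eq_single t]
    · rw [Pi.single_eq_same]
    · intro v _ hv
      rw [Pi.single_eq_of_ne hv, map_zero]
    · intro h
      exact absurd (Finset.mem_univ t) h
  obtain ⟨r, hr⟩ := L.exists_rightInverse_of_surjective hL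
  refine ⟨fun t => LinearMap.proj t ∘ₗ r, fun p => ?_⟩
  have := LinearMap.congr_fun hr p
  simp only [L, LinearMap.comp_apply, LinearMap.sum_apply, LinearMap.proj_apply,
    LinearMap.id_apply] at this ⊢
  exact this

/-- the correction of a Laurent family is a Laurent family -/
theorem lau (hB : ⨆ t, LinearMap.range (B t) = ⊤) (hR1 : ∀ t, ∀ r ∈ R1, A t r ∈ R1) {m : ℕ}
    (hN1 : ∀ w : List τ, w.length = m → ∀ r ∈ R1, (w.map A).prod r = 0) (heps : eps ≠ 0)
    {Λ : Set K} (hΛ : Λ.Infinite) (h0 : (0 : K) ∉ Λ)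
    (hex : ∀ c ∈ Λ, ∀ x, Ex A B R1 R2 c x → ∃ b, Cor A B R1 g eps c x b)
    (x : ℤ →₀ (τ → P2 ⊗[K] P1)) (hx : dfc A B x = 0) (hx' : x ∈ ArmS A B R1 R2) :
    ∃ β : ℤ →₀ (P2 →ₗ[K] P1), (∀ c ∈ Λ, ∀ b, Cor A B R1 g eps c (evl c x) b → evl c β = b) ∧
      (∀ i t p, A t (β i p) - eps • β (i - 1) (B t p)
        = A t (ev g (x i t) p) - eps • ev g (x (i - 1) t) (B t p)) ∧
      (∀ n : ℤ, (∀ i, n < i → ∀ t p, A t (ev g (x i t) p) - eps • ev g (x (i - 1) t) (B t p) = 0) →
        ∀ i, n ≤ i → β i = 0) := by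
  classical
  obtain ⟨σ, hσ⟩ := exists_section hB
  let T : (P2 →ₗ[K] P1) →ₗ[K] (P2 →ₗ[K] P1) := ∑ t, sw (A t) (σ t)
  have hTa : ∀ b p, T b p = ∑ t, A t (b (σ t p)) := by
    intro b p
    simp only [T, LinearMap.sum_apply, sw_apply]
  have hTn : ∀ j : ℕ, ∀ b : P2 →ₗ[K] P1, (∀ p, b p ∈ Nk A R1 j) → (T ^ j) b = 0 := by
    intro j
    induction j with
    | zero =>
      intro b hb
      rw [pow_zero]
      ext p
      have := hb p
      rw [Nk_zero, Submodule.mem_bot] at this
      exact this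
    | succ j ih =>
      intro b hb
      rw [pow_succ]
      refine ih (T b) fun p => ?_
      rw [hTa]
      exact Submodule.sum_mem _ fun t _ => Nk_step hR1 t _ (hb _)
  let LA : (τ → P2 ⊗[K] P1) →ₗ[K] (P2 →ₗ[K] P1) := ∑ t, sw (A t) (σ t) ∘ₗ ev g ∘ₗ LinearMap.proj t
  let LB : (τ → P2 ⊗[K] P1) →ₗ[K] (P2 →ₗ[K] P1) :=
    ∑ t, sw LinearMap.id (B t ∘ₗ σ t) ∘ₗ ev g ∘ₗ LinearMap.proj t
  have hLA : ∀ X p, LA X p = ∑ t, A t (ev g (X t) (σ t p)) := by
    intro X p
    simp only [LA, LinearMap.sum_apply, LinearMap.comp_apply, sw_apply, LinearMap.proj_apply]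
  have hLB : ∀ X p, LB X p = ∑ t, ev g (X t) (B t (σ t p)) := by
    intro X p
    simp only [LB, LinearMap.sum_apply, LinearMap.comp_apply, sw_apply, LinearMap.proj_apply,
      LinearMap.id_apply]
  let Δ : ℤ →₀ (P2 →ₗ[K] P1) := Finsupp.mapRange.linearMap LA x
    - eps • sh' (K := K) (Finsupp.mapRange.linearMap LB x)
  have hΔ : ∀ i, Δ i = LA (x i) - eps • LB (x (i - 1)) := by
    intro i
    simp only [Δ, Finsupp.sub_apply, Finsupp.smul_apply, sh'_apply]
    rfl
  have hΔc : ∀ c, c ≠ 0 → evl c Δ = LA (evl c x) - (eps * c) • LB (evl c x) := by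
    intro c hc
    simp only [Δ, map_sub, map_smul]
    rw [evl_map, evl_sh' hc, evl_map, smul_smul]
  let β : ℤ →₀ (P2 →ₗ[K] P1) := - ∑ k ∈ Finset.range m,
    (eps⁻¹ ^ (k + 1)) • (sh (K := K) ^ (k + 1)) (Finsupp.mapRange.linearMap (T ^ k) Δ)
  have hshp : ∀ (k : ℕ) (z : ℤ →₀ (P2 →ₗ[K] P1)) (i : ℤ), (sh (K := K) ^ k) z i = z (i + k) := by
    intro k
    induction k with
    | zero => intro z i; simp
    | succ k ih =>
      intro z i
      rw [pow_succ, Module.End.mul_apply, ih, sh_apply]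
      congr 1
      push_cast
      ring
  have hshc : ∀ (c : K), c ≠ 0 → ∀ (k : ℕ) (z : ℤ →₀ (P2 →ₗ[K] P1)),
      evl c ((sh (K := K) ^ k) z) = c⁻¹ ^ k • evl c z := by
    intro c hc k
    induction k with
    | zero => intro z; simp
    | succ k ih =>
      intro z
      rw [pow_succ, Module.End.mul_apply, ih, evl_sh hc, smul_smul, ← pow_succ]
  have hβ0 : ∀ n : ℤ, (∀ i, n < i → ∀ t p,
      A t (ev g (x i t) p) - eps • ev g (x (i - 1) t) (B t p) = 0) → ∀ i, n ≤ i → β i = 0 := by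
    intro n hn i hi
    have hΔ0 : ∀ j, n < j → Δ j = 0 := by
      intro j hj
      rw [hΔ]
      ext p
      rw [LinearMap.sub_apply, LinearMap.smul_apply, hLA, hLB, Finset.smul_sum,
        ← Finset.sum_sub_distrib, LinearMap.zero_apply]
      exact Finset.sum_eq_zero fun t _ => hn j hj t _
    simp only [β, Finsupp.neg_apply, Finsupp.finsetSum_apply, Finsupp.smul_apply, hshp]
    rw [Finset.sum_eq_zero, neg_zero]
    intro k _
    rw [Finsupp.mapRange.linearMap_apply, Finsupp.mapRange_apply,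
      hΔ0 _ (by push_cast; omega), map_zero, smul_zero]
  have hβc : ∀ c ∈ Λ, ∀ b, Cor A B R1 g eps c (evl c x) b → evl c β = b := by
    intro c hc b hb
    have hc0 : c ≠ 0 := fun h => h0 (h ▸ hc)
    have hec : eps * c ≠ 0 := mul_ne_zero heps hc0
    have h1 : T b - (eps * c) • b = evl c Δ := by
      rw [hΔc c hc0]
      ext p
      rw [LinearMap.sub_apply, LinearMap.sub_apply, LinearMap.smul_apply, LinearMap.smul_apply,
        hTa, hLA, hLB]
      have h2 : b p = ∑ t, b (B t (σ t p)) := by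
        rw [← map_sum, hσ]
      rw [h2, Finset.smul_sum, Finset.smul_sum, ← Finset.sum_sub_distrib,
        ← Finset.sum_sub_distrib]
      exact Finset.sum_congr rfl fun t _ => hb.eq t (σ t p)
    have h3 : ∀ n : ℕ, b = ((eps * c)⁻¹ ^ n) • (T ^ n) b
        - ∑ k ∈ Finset.range n, ((eps * c)⁻¹ ^ (k + 1)) • (T ^ k) (evl c Δ) := by
      intro n
      induction n with
      | zero => simp
      | succ n ih =>
        rw [Finset.sum_range_succ]
        have h4 : (T ^ n) b = (eps * c)⁻¹ • (T ^ (n + 1)) b - (eps * c)⁻¹ • (T ^ n) (evl c Δ) := by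
          rw [← h1, map_sub, map_smul, pow_succ, Module.End.mul_apply, smul_sub, smul_smul,
            inv_mul_cancel₀ hec, one_smul]
          abel
        conv_lhs => rw [ih, h4]
        rw [smul_sub, smul_smul, smul_smul, ← pow_succ]
        abel
    have h5 := h3 m
    rw [hTn m b (fun p => Nk_top hN1 (hb.mem p)), smul_zero, zero_sub] at h5
    rw [h5]
    simp only [β, map_neg, map_sum, map_smul]
    congr 1
    refine Finset.sum_congr rfl fun k _ => ?_
    rw [hshc c hc0, evl_map, smul_smul, mul_inv, mul_pow]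
  refine ⟨β, hβc, ?_, hβ0⟩
  intro i t
  let Z : ℤ →₀ (P2 →ₗ[K] P1) :=
    Finsupp.mapRange.linearMap (sw (A t) LinearMap.id) β
      - eps • sh' (K := K) (Finsupp.mapRange.linearMap (sw LinearMap.id (B t)) β)
      - (Finsupp.mapRange.linearMap (sw (A t) LinearMap.id ∘ₗ ev g ∘ₗ LinearMap.proj t) x
        - eps • sh' (K := K)
          (Finsupp.mapRange.linearMap (sw LinearMap.id (B t) ∘ₗ ev g ∘ₗ LinearMap.proj t) x))
  have hZ : ∀ c ∈ Λ, evl c Z ∈ (⊥ : Submodule K (P2 →ₗ[K] P1)) := by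
    intro c hc
    have hc0 : c ≠ 0 := fun h => h0 (h ▸ hc)
    obtain ⟨b, hb⟩ := hex c hc _ (ex_of hc0 hx hx')
    have h1 := hβc c hc b hb
    rw [Submodule.mem_bot]
    simp only [Z, map_sub, map_smul]
    rw [evl_map, evl_map, evl_sh' hc0, evl_sh' hc0, evl_map, evl_map, h1]
    ext p
    have h2 := hb.eq t p
    simp only [LinearMap.sub_apply, LinearMap.smul_apply, LinearMap.comp_apply, sw_apply,
      LinearMap.id_apply, LinearMap.proj_apply, LinearMap.zero_apply, smul_smul]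
    rw [h2, sub_self]
  have h3 := evl_coeff hΛ h0 ⊥ Z hZ i
  rw [Submodule.mem_bot] at h3
  intro p
  have h4 := LinearMap.congr_fun h3 p
  simp only [Z, Finsupp.sub_apply, Finsupp.smul_apply, sh'_apply,
    Finsupp.mapRange.linearMap_apply, Finsupp.mapRange_apply, LinearMap.sub_apply,
    LinearMap.smul_apply, LinearMap.comp_apply, sw_apply, LinearMap.id_apply,
    LinearMap.proj_apply, LinearMap.zero_apply] at h4
  exact sub_eq_zero.1 h4

end corr

section main

variable {A : τ → End K P1} {B : τ → End K P2} {R1 : Submodule K P1} {R2 : Submodule K P2}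
  {l : τ → ℕ} {g : P2 →ₗ[K] P2 →ₗ[K] K} {eps : K}


theorem ev_R2 (gR2 : ∀ r ∈ R2, ∀ p, g p r = 0) (z : P2 ⊗[K] P1) {r : P2} (hr : r ∈ R2) :
    ev g z r = 0 := by
  induction z using TensorProduct.induction_on with
  | zero => simp
  | tmul a b => rw [ev_tmul, gR2 r hr, zero_smul]
  | add a b ha hb => rw [map_add, LinearMap.add_apply, ha, hb, add_zero]

theorem ev_RT (gR1 : ∀ r ∈ R2, ∀ p, g r p = 0) {z : P2 ⊗[K] P1} (hz : z ∈ RT (P1 := P1) R2) :
    ev g z = 0 := by
  have h : RT (P1 := P1) R2 ≤ LinearMap.ker (ev (P1 := P1) g) := by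
    refine Submodule.span_le.2 ?_
    rintro z ⟨r, hr, p, rfl⟩
    change ev g (r ⊗ₜ[K] p) = 0
    ext v
    rw [ev_tmul, gR1 r hr, zero_smul, LinearMap.zero_apply]
  exact h hz

theorem lift_RT_zero (q : P1 →ₗ[K] P1 →ₗ[K] E) (f : P2 →ₗ[K] P1) (hf : ∀ r ∈ R2, f r = 0)
    {z : P2 ⊗[K] P1} (hz : z ∈ RT (P1 := P1) R2) : TensorProduct.lift (q ∘ₗ f) z = 0 := by
  have h : RT (P1 := P1) R2 ≤ LinearMap.ker (TensorProduct.lift (q ∘ₗ f)) := by
    refine Submodule.span_le.2 ?_
    rintro z ⟨r, hr, p, rfl⟩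
    change TensorProduct.lift (q ∘ₗ f) (r ⊗ₜ[K] p) = 0
    rw [TensorProduct.lift.tmul, LinearMap.comp_apply, hf r hr, map_zero, LinearMap.zero_apply]
  exact h hz

theorem lift_mem (q : P1 →ₗ[K] P1 →ₗ[K] E) (f : P2 →ₗ[K] P1) (Q : Submodule K E)
    (h : ∀ p v, q (f p) v ∈ Q) (z : P2 ⊗[K] P1) : TensorProduct.lift (q ∘ₗ f) z ∈ Q := by
  induction z using TensorProduct.induction_on with
  | zero => simp
  | tmul a b =>
    rw [TensorProduct.lift.tmul, LinearMap.comp_apply]
    exact h a b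
  | add a b ha hb =>
    rw [map_add]
    exact Q.add_mem ha hb

theorem g_pow (gB : ∀ t p p', g (B t p) p' = eps * g p (B t p')) (s : τ) (n : ℕ) :
    ∀ p p', g ((B s ^ n) p) p' = eps ^ n * g p ((B s ^ n) p') := by
  induction n with
  | zero => intro p p'; simp
  | succ n ih =>
    intro p p'
    rw [pow_succ', Module.End.mul_apply, gB, ih, pow_succ', ← mul_assoc, Module.End.mul_apply]
    congr 2
    rw [← Module.End.mul_apply, ← Module.End.mul_apply, ← pow_succ', ← pow_succ]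

/-- **The abstract end with arbitrary radical.** -/
theorem main (hA : ⨆ t, LinearMap.range (A t) = ⊤) (hB : ⨆ t, LinearMap.range (B t) = ⊤)
    (hR1 : ∀ t, ∀ r ∈ R1, A t r ∈ R1) (hR2 : ∀ t, ∀ r ∈ R2, B t r ∈ R2) {m : ℕ}
    (hN1 : ∀ w : List τ, w.length = m → ∀ r ∈ R1, (w.map A).prod r = 0)
    (hN2 : ∀ w : List τ, w.length = m → ∀ r ∈ R2, (w.map B).prod r = 0)
    (hl : ∀ s, 1 ≤ l s)
    (hl1 : ∀ s p, (A s ^ l s) p ∈ R1) (hl2 : ∀ s p, (B s ^ l s) p ∈ R2)
    (gen1 : ∀ S : Submodule K P1, (∀ t, ∀ v ∈ S, A t v ∈ S) → (∀ s p, (A s ^ l s) p ∈ S) → R1 ≤ S)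
    (gen2 : ∀ S : Submodule K P2, (∀ t, ∀ v ∈ S, B t v ∈ S) → (∀ s p, (B s ^ l s) p ∈ S) → R2 ≤ S)
    (heps : eps ≠ 0) (gR1 : ∀ r ∈ R2, ∀ p, g r p = 0) (gR2 : ∀ r ∈ R2, ∀ p, g p r = 0)
    (gB : ∀ t p p', g (B t p) p' = eps * g p (B t p'))
    (gtop : ∀ s, ∃ p p', g ((B s ^ (l s - 1)) p) p' ≠ 0)
    {Λ : Set K} (hΛ : Λ.Infinite) (h0 : (0 : K) ∉ Λ)
    (q : τ → P1 →ₗ[K] P1 →ₗ[K] E) (Q : Submodule K E) {a1 a2 a3 : K}
    (ha1 : a1 ≠ 0) (ha2 : a2 ≠ 0) (ha3 : a3 ≠ 0)
    (hex : ∀ c ∈ Λ, ∀ x, Ex A B R1 R2 c x → ∃ b, Cor A B R1 g eps c x b)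
    (hrel : ∀ c ∈ Λ, ∀ c' ∈ Λ, ∀ x b x' b', Ex A B R1 R2 c x → Cor A B R1 g eps c x b →
      Ex A B R1 R2 c' x' → Cor A B R1 g eps c' x' b' →
      ∑ t, (a1 • TensorProduct.lift ((q t) ∘ₗ b') (x t)
        + a2 • TensorProduct.lift ((q t).flip ∘ₗ b) (x' t)
        + a3 • TensorProduct.lift ((q t) ∘ₗ (ev g (x' t))) (x t)) ∈ Q) :
    (∀ t, ∀ r ∈ R1, ∀ p, q t r p ∈ Q ∧ q t p r ∈ Q) ∧
      (∀ s i j, i + j + 1 = l s → ∀ p p', q s ((A s ^ i) p) ((A s ^ j) p') ∈ Q) := by
  classical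
  -- the relations `Dx` vanish in the ascending part
  have hDx : ∀ x : ℤ →₀ (τ → P2 ⊗[K] P1), (∀ i, 0 ≤ i → ∀ t, x i t ∈ RT (P1 := P1) R2) →
      ∀ i : ℤ, 0 < i → ∀ t p, A t (ev g (x i t) p) - eps • ev g (x (i - 1) t) (B t p) = 0 := by
    intro x hx i hi t p
    rw [ev_RT gR1 (hx i hi.le t), ev_RT gR1 (hx (i - 1) (by omega) t)]
    simp
  -- the two radical relations
  have hI : ∀ c' ∈ Λ, ∀ x' b', Ex A B R1 R2 c' x' → Cor A B R1 g eps c' x' b' →
      ∀ t, ∀ r ∈ R2, ∀ p, q t (b' r) p ∈ Q := by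
    intro c' hc' x' b' hx' hb' t r hr p
    have hk : ∀ k : ℕ, Rk B l k ≤ Q.comap ((q t).flip p ∘ₗ b') := by
      intro k r hr
      obtain ⟨X, hX1, hX2, hX3, hX4⟩ := famR hA hB hR1 hR2 hN1 hN2 hl1 hl2 k
        (Pi.single t (r ⊗ₜ[K] p)) (mem_pis.1 (single_pis (tmul_RT hr p) t))
      obtain ⟨β, hβ1, -, hβ3⟩ := lau hB hR1 hN1 heps hΛ h0 hex X hX1 hX2
      have hβk : β (k : ℤ) = 0 := hβ3 0 (hDx X hX3) _ (by positivity)
      let L1 : (τ → P2 ⊗[K] P1) →ₗ[K] E := ∑ u,
        (a1 • TensorProduct.lift ((q u) ∘ₗ b') + a3 • TensorProduct.lift ((q u) ∘ₗ (ev g (x' u))))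
          ∘ₗ LinearMap.proj u
      let L2 : (P2 →ₗ[K] P1) →ₗ[K] E :=
        { toFun := fun b => ∑ u, a2 • TensorProduct.lift ((q u).flip ∘ₗ b) (x' u)
          map_add' := by
            intro b b''
            rw [← Finset.sum_add_distrib]
            refine Finset.sum_congr rfl fun u _ => ?_
            rw [← smul_add]
            congr 1
            rw [LinearMap.comp_add]
            induction x' u using TensorProduct.induction_on with
            | zero => simp
            | tmul a b => simp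
            | add a b ha hb => rw [map_add, map_add, map_add, ha, hb]; abel
          map_smul' := by
            intro c b
            rw [RingHom.id_apply, Finset.smul_sum]
            refine Finset.sum_congr rfl fun u _ => ?_
            rw [smul_comm c a2]
            congr 1
            rw [LinearMap.comp_smul]
            induction x' u using TensorProduct.induction_on with
            | zero => simp
            | tmul a b => simp
            | add a b ha hb => rw [map_add, map_add, smul_add, ha, hb] }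
      let Z : ℤ →₀ E := Finsupp.mapRange.linearMap L1 X + Finsupp.mapRange.linearMap L2 β
      have hZ : ∀ c ∈ Λ, evl c Z ∈ Q := by
        intro c hc
        have hc0 : c ≠ 0 := fun h => h0 (h ▸ hc)
        obtain ⟨b, hb⟩ := hex c hc _ (ex_of hc0 hX1 hX2)
        have h1 := hrel c hc c' hc' _ b x' b' (ex_of hc0 hX1 hX2) hb hx' hb'
        simp only [Z, map_add]
        rw [evl_map, evl_map, hβ1 c hc b hb]
        convert h1 using 1
        simp only [L1, L2, LinearMap.sum_apply, LinearMap.comp_apply, LinearMap.add_apply,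
          LinearMap.smul_apply, LinearMap.proj_apply, LinearMap.coe_mk, AddHom.coe_mk]
        rw [← Finset.sum_add_distrib]
        refine Finset.sum_congr rfl fun u _ => ?_
        abel
      have h2 := evl_coeff hΛ h0 Q Z hZ (k : ℤ)
      simp only [Z, Finsupp.add_apply, Finsupp.mapRange.linearMap_apply,
        Finsupp.mapRange_apply] at h2
      rw [hβk, map_zero, add_zero, hX4] at h2
      simp only [L1, LinearMap.sum_apply, LinearMap.comp_apply, LinearMap.add_apply,
        LinearMap.smul_apply, LinearMap.proj_apply] at h2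
      rw [Finset.sum_eq_single t] at h2
      · rw [Pi.single_eq_same, TensorProduct.lift.tmul, TensorProduct.lift.tmul,
          LinearMap.comp_apply, LinearMap.comp_apply, ev_R2 gR2 _ (Rk_le hR2 hl2 k hr), map_zero,
          LinearMap.zero_apply, smul_zero, add_zero] at h2
        have h3 := Q.smul_mem a1⁻¹ h2
        rwa [smul_smul, inv_mul_cancel₀ ha1, one_smul] at h3
      · intro u _ hu
        rw [Pi.single_eq_of_ne hu, map_zero, map_zero, smul_zero, smul_zero, add_zero]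
      · intro h
        exact absurd (Finset.mem_univ t) h
    have hall : R2 ≤ ⨆ k, Rk B l k := by
      refine gen2 _ ?_ ?_
      · intro t v hv
        have h1 : (⨆ k, Rk B l k) ≤ (⨆ k, Rk B l k).comap (B t) := by
          refine iSup_le fun k => ?_
          intro w hw
          exact le_iSup (Rk B l) (k + 1) (le_iSup (fun t => (Rk B l k).map (B t)) t ⟨w, hw, rfl⟩)
        exact h1 hv
      · intro s p
        exact le_iSup (Rk B l) 0 (le_iSup (fun s => LinearMap.range (B s ^ l s)) s ⟨p, rfl⟩)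
    exact (hall.trans (iSup_le hk)) hr
  have hII : ∀ c ∈ Λ, ∀ x b, Ex A B R1 R2 c x → Cor A B R1 g eps c x b →
      ∀ t, ∀ r ∈ R2, ∀ p, q t p (b r) ∈ Q := by
    intro c hc x b hx hb t r hr p
    have hk : ∀ k : ℕ, Rk B l k ≤ Q.comap (q t p ∘ₗ b) := by
      intro k r hr
      obtain ⟨X, hX1, hX2, hX3, hX4⟩ := famR hA hB hR1 hR2 hN1 hN2 hl1 hl2 k
        (Pi.single t (r ⊗ₜ[K] p)) (mem_pis.1 (single_pis (tmul_RT hr p) t))
      obtain ⟨β, hβ1, -, hβ3⟩ := lau hB hR1 hN1 heps hΛ h0 hex X hX1 hX2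
      have hβk : β (k : ℤ) = 0 := hβ3 0 (hDx X hX3) _ (by positivity)
      let L1 : (τ → P2 ⊗[K] P1) →ₗ[K] E :=
        { toFun := fun y => ∑ u, (a2 • TensorProduct.lift ((q u).flip ∘ₗ b) (y u)
            + a3 • TensorProduct.lift ((q u) ∘ₗ (ev g (y u))) (x u))
          map_add' := by
            intro y y'
            rw [← Finset.sum_add_distrib]
            refine Finset.sum_congr rfl fun u _ => ?_
            have h1 : TensorProduct.lift ((q u) ∘ₗ (ev g ((y + y') u))) (x u)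
                = TensorProduct.lift ((q u) ∘ₗ (ev g (y u))) (x u)
                  + TensorProduct.lift ((q u) ∘ₗ (ev g (y' u))) (x u) := by
              rw [Pi.add_apply, map_add, LinearMap.comp_add]
              induction x u using TensorProduct.induction_on with
              | zero => simp
              | tmul a b => simp
              | add a b ha hb => rw [map_add, map_add, map_add, ha, hb]; abel
            rw [h1, Pi.add_apply, map_add, smul_add, smul_add]
            abel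
          map_smul' := by
            intro c y
            rw [RingHom.id_apply, Finset.smul_sum]
            refine Finset.sum_congr rfl fun u _ => ?_
            have h1 : TensorProduct.lift ((q u) ∘ₗ (ev g ((c • y) u))) (x u)
                = c • TensorProduct.lift ((q u) ∘ₗ (ev g (y u))) (x u) := by
              rw [Pi.smul_apply, map_smul, LinearMap.comp_smul]
              induction x u using TensorProduct.induction_on with
              | zero => simp
              | tmul a b => simp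
              | add a b ha hb => rw [map_add, map_add, smul_add, ha, hb]
            rw [h1, Pi.smul_apply, map_smul, smul_add, smul_comm c a2, smul_comm c a3] }
      let L2 : (P2 →ₗ[K] P1) →ₗ[K] E :=
        { toFun := fun b' => ∑ u, a1 • TensorProduct.lift ((q u) ∘ₗ b') (x u)
          map_add' := by
            intro b b''
            rw [← Finset.sum_add_distrib]
            refine Finset.sum_congr rfl fun u _ => ?_
            rw [← smul_add]
            congr 1
            rw [LinearMap.comp_add]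
            induction x u using TensorProduct.induction_on with
            | zero => simp
            | tmul a b => simp
            | add a b ha hb => rw [map_add, map_add, map_add, ha, hb]; abel
          map_smul' := by
            intro c b
            rw [RingHom.id_apply, Finset.smul_sum]
            refine Finset.sum_congr rfl fun u _ => ?_
            rw [smul_comm c a1]
            congr 1
            rw [LinearMap.comp_smul]
            induction x u using TensorProduct.induction_on with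
            | zero => simp
            | tmul a b => simp
            | add a b ha hb => rw [map_add, map_add, smul_add, ha, hb] }
      let Z : ℤ →₀ E := Finsupp.mapRange.linearMap L1 X + Finsupp.mapRange.linearMap L2 β
      have hZ : ∀ c' ∈ Λ, evl c' Z ∈ Q := by
        intro c' hc'
        have hc0 : c' ≠ 0 := fun h => h0 (h ▸ hc')
        obtain ⟨b', hb'⟩ := hex c' hc' _ (ex_of hc0 hX1 hX2)
        have h1 := hrel c hc c' hc' x b _ b' hx hb (ex_of hc0 hX1 hX2) hb'
        simp only [Z, map_add]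
        rw [evl_map, evl_map, hβ1 c' hc' b' hb']
        convert h1 using 1
        simp only [L1, L2, LinearMap.coe_mk, AddHom.coe_mk]
        rw [← Finset.sum_add_distrib]
        refine Finset.sum_congr rfl fun u _ => ?_
        abel
      have h2 := evl_coeff hΛ h0 Q Z hZ (k : ℤ)
      simp only [Z, Finsupp.add_apply, Finsupp.mapRange.linearMap_apply,
        Finsupp.mapRange_apply] at h2
      rw [hβk, map_zero, add_zero, hX4] at h2
      simp only [L1, LinearMap.coe_mk, AddHom.coe_mk] at h2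
      rw [Finset.sum_eq_single t] at h2
      · rw [Pi.single_eq_same, TensorProduct.lift.tmul, LinearMap.comp_apply,
          ev_RT gR1 (tmul_RT (Rk_le hR2 hl2 k hr) p), LinearMap.comp_zero] at h2
        have h4 : TensorProduct.lift (0 : P2 →ₗ[K] P1 →ₗ[K] E) (x t) = 0 := by
          induction x t using TensorProduct.induction_on with
          | zero => simp
          | tmul a b => simp
          | add a b ha hb => rw [map_add, ha, hb, add_zero]
        rw [h4, smul_zero, add_zero, LinearMap.flip_apply] at h2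
        have h3 := Q.smul_mem a2⁻¹ h2
        rwa [smul_smul, inv_mul_cancel₀ ha2, one_smul] at h3
      · intro u _ hu
        rw [Pi.single_eq_of_ne hu, map_zero, map_zero, LinearMap.comp_zero, smul_zero, zero_add]
        have h4 : TensorProduct.lift (0 : P2 →ₗ[K] P1 →ₗ[K] E) (x u) = 0 := by
          induction x u using TensorProduct.induction_on with
          | zero => simp
          | tmul a b => simp
          | add a b ha hb => rw [map_add, ha, hb, add_zero]
        rw [h4, smul_zero]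
      · intro h
        exact absurd (Finset.mem_univ t) h
    have hall : R2 ≤ ⨆ k, Rk B l k := by
      refine gen2 _ ?_ ?_
      · intro t v hv
        have h1 : (⨆ k, Rk B l k) ≤ (⨆ k, Rk B l k).comap (B t) := by
          refine iSup_le fun k => ?_
          intro w hw
          exact le_iSup (Rk B l) (k + 1) (le_iSup (fun t => (Rk B l k).map (B t)) t ⟨w, hw, rfl⟩)
        exact h1 hv
      · intro s p
        exact le_iSup (Rk B l) 0 (le_iSup (fun s => LinearMap.range (B s ^ l s)) s ⟨p, rfl⟩)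
    exact (hall.trans (iSup_le hk)) hr
  -- the span of the corrections is `R1`
  let S1 : Submodule K P1 := Submodule.span K {v | ∃ c ∈ Λ, ∃ x b, Ex A B R1 R2 c x ∧
    Cor A B R1 g eps c x b ∧ ∃ r ∈ R2, v = b r}
  have hS : R1 ≤ S1 := by
    refine gen1 S1 ?_ ?_
    · intro t v hv
      have h1 : S1 ≤ S1.comap (A t) := by
        refine Submodule.span_le.2 ?_
        rintro v ⟨c, hc, x, b, hx, hb, r, hr, rfl⟩
        have h2 := hb.eq t r
        rw [ev_R2 gR2 _ hr, ev_R2 gR2 _ (hR2 t r hr), map_zero, smul_zero, sub_zero,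
          sub_eq_zero] at h2
        change A t (b r) ∈ S1
        rw [h2]
        exact S1.smul_mem _ (Submodule.subset_span ⟨c, hc, x, b, hx, hb, _, hR2 t r hr, rfl⟩)
      exact h1 hv
    · intro s p
      obtain ⟨u0, v0, hv⟩ := gtop s
      have hl' := hl s
      rw [g_pow gB] at hv
      have hv' : g u0 ((B s ^ (l s - 1)) v0) ≠ 0 := right_ne_zero_of_mul hv
      have h1 : ∃ t w, g (B t w) ((B s ^ (l s - 1)) v0) ≠ 0 := by
        by_contra hcon
        have hcon' : ∀ t w, g (B t w) ((B s ^ (l s - 1)) v0) = 0 := fun t w => by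
          by_contra h
          exact hcon ⟨t, w, h⟩
        have h2 : (⊤ : Submodule K P2) ≤ LinearMap.ker (g.flip ((B s ^ (l s - 1)) v0)) := by
          rw [← hB]
          refine iSup_le fun t => ?_
          rintro _ ⟨w, rfl⟩
          exact hcon' t w
        exact hv' (h2 (Submodule.mem_top : u0 ∈ ⊤))
      obtain ⟨t0, w, hw⟩ := h1
      have hBl : B s ((B s ^ (l s - 1)) v0) = (B s ^ l s) v0 := by
        rw [← Module.End.mul_apply, ← pow_succ', show l s - 1 + 1 = l s by omega]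
      have hts : t0 ≠ s := by
        rintro rfl
        apply hw
        rw [gB, hBl, gR2 _ (hl2 _ _), mul_zero]
      have hsum : ∑ t, B t ((Pi.single t0 w : τ → P2) t) = B t0 w := by
        rw [Finset.sum_eq_single t0]
        · rw [Pi.single_eq_same]
        · intro u _ hu
          rw [Pi.single_eq_of_ne hu, map_zero]
        · intro h
          exact absurd (Finset.mem_univ t0) h
      obtain ⟨X, hX1, hX2, hX3, hX4, hX5⟩ := famA hA hB hR1 hR2 hN1 hN2 s (l s)
        (Pi.single t0 w) p (hl1 s p) (hl2 s _)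
      rw [hsum] at hX4
      obtain ⟨β, hβ1, hβ2, hβ3⟩ := lau hB hR1 hN1 heps hΛ h0 hex X hX1 hX2
      have hD : ∀ i : ℤ, -(l s : ℤ) < i → ∀ t p',
          A t (ev g (X i t) p') - eps • ev g (X (i - 1) t) (B t p') = 0 := by
        intro i hi t p'
        have hj : ∀ j : ℕ, j < l s → ∀ p', ev g (X ((j : ℤ) - l s) t) p' =
            if t = s then g ((B s ^ j) (B t0 w)) p' • (A s ^ (l s - 1 - j)) p else 0 := by
          intro j hj p'
          rw [hX4 j hj]
          split_ifs with hts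
          · subst hts
            rw [Pi.single_eq_same, ev_tmul]
          · rw [Pi.single_eq_of_ne hts, map_zero, LinearMap.zero_apply]
        rcases lt_trichotomy 0 i with h | h | h
        · exact hDx X hX3 i h t p'
        · subst h
          rw [ev_RT gR1 (hX3 0 le_rfl t), LinearMap.zero_apply, map_zero, zero_sub, neg_eq_zero]
          have h2 := hj (l s - 1) (by omega) (B t p')
          rw [show ((l s - 1 : ℕ) : ℤ) - l s = 0 - 1 by omega] at h2
          rw [h2]
          split_ifs with hts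
          · subst hts
            have h3 : eps * g ((B t ^ (l t - 1)) (B t0 w)) (B t p') = 0 := by
              rw [← gB, ← Module.End.mul_apply, ← pow_succ',
                show l t - 1 + 1 = l t by omega, gR1 _ (hl2 _ _)]
            rw [(mul_eq_zero.1 h3).resolve_left heps, zero_smul, smul_zero]
          · rw [smul_zero]
        · obtain ⟨j, hj1⟩ : ∃ j : ℕ, i = ((j + 1 : ℕ) : ℤ) - l s :=
            ⟨(i + l s - 1).toNat, by push_cast; omega⟩
          subst hj1
          rw [hj (j + 1) (by push_cast at h; omega),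
            show ((j + 1 : ℕ) : ℤ) - l s - 1 = (j : ℤ) - l s by push_cast; ring,
            hj j (by push_cast at h; omega)]
          split_ifs with hts
          · subst hts
            have e1 : (B t) ((B t ^ j) ((B t0) w)) = (B t ^ (j + 1)) ((B t0) w) := by
              rw [pow_succ']
              rfl
            have e2 : (A t) ((A t ^ (l t - 1 - (j + 1))) p) = (A t ^ (l t - 1 - j)) p := by
              rw [show l t - 1 - j = (l t - 1 - (j + 1)) + 1 by push_cast at h; omega, pow_succ']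
              rfl
            rw [map_smul, smul_smul, ← gB, e1, e2, sub_self]
          · rw [map_zero, smul_zero, sub_zero]
      have hβ0 : β (-(l s : ℤ)) = 0 := hβ3 _ hD _ le_rfl
      have h2 := hβ2 (-(l s : ℤ)) s ((B s ^ (l s - 1)) v0)
      have h3 : X (-(l s : ℤ)) = Pi.single s ((B t0 w) ⊗ₜ ((A s ^ (l s - 1)) p)) := by
        have := hX4 0 (by omega)
        rw [Nat.cast_zero, zero_sub, pow_zero, Nat.sub_zero] at this
        exact this
      rw [hβ0, LinearMap.zero_apply, map_zero, zero_sub, h3, hX5, Pi.single_eq_same, ev_tmul,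
        map_smul] at h2
      beta_reduce at h2
      rw [ev_tmul, Pi.single_eq_of_ne hts.symm, map_zero, LinearMap.zero_apply, zero_smul,
        smul_zero, sub_zero, hBl, ← Module.End.mul_apply, ← pow_succ',
        show l s - 1 + 1 = l s by omega] at h2
      have h4 : β (-(l s : ℤ) - 1) ((B s ^ l s) v0) ∈ S1 := by
        let Z : ℤ →₀ P1 := Finsupp.mapRange.linearMap (LinearMap.applyₗ ((B s ^ l s) v0)) β
        have hZ : ∀ c ∈ Λ, evl c Z ∈ S1 := by
          intro c hc
          have hc0 : c ≠ 0 := fun h => h0 (h ▸ hc)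
          obtain ⟨b, hb⟩ := hex c hc _ (ex_of hc0 hX1 hX2)
          simp only [Z]
          rw [evl_map, hβ1 c hc b hb]
          exact Submodule.subset_span ⟨c, hc, _, b, ex_of hc0 hX1 hX2, hb, _, hl2 s v0, rfl⟩
        exact evl_coeff hΛ h0 S1 Z hZ _
      have h5 := S1.smul_mem (-eps) h4
      rw [neg_smul, h2] at h5
      have h6 := S1.smul_mem (g (B t0 w) ((B s ^ (l s - 1)) v0))⁻¹ h5
      rwa [smul_smul, inv_mul_cancel₀ hw, one_smul] at h6
  have hR : ∀ t, ∀ r ∈ R1, ∀ p, q t r p ∈ Q ∧ q t p r ∈ Q := by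
    intro t r hr p
    have h1 : S1 ≤ Q.comap ((q t).flip p) := by
      refine Submodule.span_le.2 ?_
      rintro v ⟨c, hc, x, b, hx, hb, r, hr, rfl⟩
      exact hI c hc x b hx hb t r hr p
    have h2 : S1 ≤ Q.comap (q t p) := by
      refine Submodule.span_le.2 ?_
      rintro v ⟨c, hc, x, b, hx, hb, r, hr, rfl⟩
      exact hII c hc x b hx hb t r hr p
    exact ⟨h1 (hS hr), h2 (hS hr)⟩
  refine ⟨hR, ?_⟩
  intro s i j hij p p'
  obtain ⟨u0, v0, hv⟩ := gtop s
  obtain ⟨σ, hσ⟩ := exists_section hB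
  obtain ⟨X', hX1', hX2', -, hX4', -⟩ := famA hA hB hR1 hR2 hN1 hN2 s (l s)
    (fun t => σ t u0) p (hl1 s p) (hl2 s _)
  obtain ⟨X, hX1, hX2, -, hX4, -⟩ := famA hA hB hR1 hR2 hN1 hN2 s (l s)
    (fun t => σ t v0) p' (hl1 s p') (hl2 s _)
  rw [hσ] at hX4 hX4'
  -- products of all exact pairs
  have hprod : ∀ c ∈ Λ, ∀ c' ∈ Λ,
      ∑ t, TensorProduct.lift ((q t) ∘ₗ (ev g (evl c' X' t))) (evl c X t) ∈ Q := by
    intro c hc c' hc'
    have hc0 : c ≠ 0 := fun h => h0 (h ▸ hc)
    have hc0' : c' ≠ 0 := fun h => h0 (h ▸ hc')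
    obtain ⟨b, hb⟩ := hex c hc _ (ex_of hc0 hX1 hX2)
    obtain ⟨b', hb'⟩ := hex c' hc' _ (ex_of hc0' hX1' hX2')
    have h1 := hrel c hc c' hc' _ b _ b' (ex_of hc0 hX1 hX2) hb (ex_of hc0' hX1' hX2') hb'
    have h2 : ∑ t, (a1 • TensorProduct.lift ((q t) ∘ₗ b') (evl c X t)
        + a2 • TensorProduct.lift ((q t).flip ∘ₗ b) (evl c' X' t)) ∈ Q := by
      refine Q.sum_mem fun t _ => Q.add_mem (Q.smul_mem _ ?_) (Q.smul_mem _ ?_)
      · exact lift_mem _ _ Q (fun p v => (hR t _ (hb'.mem p) v).1) _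
      · exact lift_mem _ _ Q (fun p v => (hR t _ (hb.mem p) v).2) _
    have h3 := Q.sub_mem h1 h2
    rw [← Finset.sum_sub_distrib] at h3
    have h4 := Q.smul_mem a3⁻¹ h3
    rw [Finset.smul_sum] at h4
    convert h4 using 1
    refine Finset.sum_congr rfl fun t _ => ?_
    rw [add_sub_cancel_left, smul_smul, inv_mul_cancel₀ ha3, one_smul]
  have hcoef1 : ∀ c' ∈ Λ, ∀ a : ℤ,
      ∑ t, TensorProduct.lift ((q t) ∘ₗ (ev g (evl c' X' t))) (X a t) ∈ Q := by
    intro c' hc' a
    let L : (τ → P2 ⊗[K] P1) →ₗ[K] E :=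
      ∑ t, TensorProduct.lift ((q t) ∘ₗ (ev g (evl c' X' t))) ∘ₗ LinearMap.proj t
    have hL : ∀ y, L y = ∑ t, TensorProduct.lift ((q t) ∘ₗ (ev g (evl c' X' t))) (y t) := by
      intro y
      simp only [L, LinearMap.sum_apply, LinearMap.comp_apply, LinearMap.proj_apply]
    have h1 : ∀ c ∈ Λ, evl c (Finsupp.mapRange.linearMap L X) ∈ Q := by
      intro c hc
      rw [evl_map, hL]
      exact hprod c hc c' hc'
    have h2 := evl_coeff hΛ h0 Q _ h1 a
    rw [Finsupp.mapRange.linearMap_apply, Finsupp.mapRange_apply, hL] at h2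
    exact h2
  have hcoef2 : ∀ a a' : ℤ,
      ∑ t, TensorProduct.lift ((q t) ∘ₗ (ev g (X' a' t))) (X a t) ∈ Q := by
    intro a a'
    let L : (τ → P2 ⊗[K] P1) →ₗ[K] E :=
      { toFun := fun y => ∑ u, TensorProduct.lift ((q u) ∘ₗ (ev g (y u))) (X a u)
        map_add' := by
          intro y y'
          rw [← Finset.sum_add_distrib]
          refine Finset.sum_congr rfl fun u _ => ?_
          rw [Pi.add_apply, map_add, LinearMap.comp_add]
          induction X a u using TensorProduct.induction_on with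
          | zero => simp
          | tmul a b => simp
          | add a b ha hb => rw [map_add, map_add, map_add, ha, hb]; abel
        map_smul' := by
          intro c y
          rw [RingHom.id_apply, Finset.smul_sum]
          refine Finset.sum_congr rfl fun u _ => ?_
          rw [Pi.smul_apply, map_smul, LinearMap.comp_smul]
          induction X a u using TensorProduct.induction_on with
          | zero => simp
          | tmul a b => simp
          | add a b ha hb => rw [map_add, map_add, smul_add, ha, hb] }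
    have h1 : ∀ c ∈ Λ, evl c (Finsupp.mapRange.linearMap L X') ∈ Q := by
      intro c hc
      rw [evl_map]
      exact hcoef1 c hc a
    exact evl_coeff hΛ h0 Q _ h1 a'
  have h1 := hcoef2 ((i : ℤ) - l s) ((j : ℤ) - l s)
  rw [hX4 i (by omega), hX4' j (by omega), Finset.sum_eq_single s] at h1
  · rw [Pi.single_eq_same, Pi.single_eq_same, TensorProduct.lift.tmul, LinearMap.comp_apply,
      ev_tmul, map_smul, LinearMap.smul_apply, show l s - 1 - j = i by omega,
      show l s - 1 - i = j by omega] at h1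
    have h2 : g ((B s ^ j) u0) ((B s ^ i) v0) ≠ 0 := by
      rw [show l s - 1 = i + j by omega, pow_add, Module.End.mul_apply, g_pow gB] at hv
      exact right_ne_zero_of_mul hv
    have h3 := Q.smul_mem (g ((B s ^ j) u0) ((B s ^ i) v0))⁻¹ h1
    rwa [smul_smul, inv_mul_cancel₀ h2, one_smul] at h3
  · intro u _ hu
    rw [Pi.single_eq_of_ne hu, Pi.single_eq_of_ne hu, map_zero]
  · intro h
    exact absurd (Finset.mem_univ s) h

end main

end Crest.Agent.R172.RJ
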