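import Crest.Agent.R172.QCore3
import Crest.Agent.R172.QBlk2
import Crest.Agent.R172.PushQ
import Crest.Agent.R172.RJ1
import Crest.Agent.R172.SpEx

/-!
Row 172 (S0260), node Q-Core (helper28): `Half` = a perfect module with form, nilpotent radical and
free core, everything that `RJ.main`, `SPE.P_end`, `SPE.Q_end` want, stable under `PushQ.Push`;
the composition of `RJ.main` with the two abstract ends.
-/

set_option autoImplicit false
set_option linter.unusedSectionVars false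
set_option linter.unusedFintypeInType false
set_option linter.unusedDecidableInType false

namespace Crest.Agent.R172.QC

open Module TensorProduct
open Crest.Agent.R172.Mix
open Crest.Agent.R172.QBlk (PSide)
open Crest.Agent.R172.PushQ (Push)

variable {K : Type*} [Field K] {P1 P2 : Type*} [AddCommGroup P1] [Module K P1]
  [AddCommGroup P2] [Module K P2]

/-- a perfect module with a form, nilpotent radical, free core -/
structure Half (A : Fin 3 → End K P1) (R1 : Submodule K P1) (w : P1 →ₗ[K] P1 →ₗ[K] K)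
    (e e₂ : K) (l : Fin 3 → ℕ) (d : ℕ) : Prop where
  side : PSide A R1 l
  sum : ∀ v, ∑ s, A s v = 0
  symm : ∀ x y, w x y = e * w y x
  sq : e * e = 1
  adj : ∀ s x y, w (A s x) y = e₂ * w x (A s y)
  sq₂ : e₂ * e₂ = 1
  rad : ∀ x, x ∈ R1 ↔ ∀ y, w x y = 0
  q : ∃ Aq : Fin 3 → End K (P1 ⧸ R1), (∀ s x, Aq s (R1.mkQ x) = R1.mkQ (A s x)) ∧
    (∀ s, Aq s ^ l s = 0) ∧ (∀ s, l s * finrank K (LinearMap.ker (Aq s)) = finrank K (P1 ⧸ R1))
  fin : finrank K (P1 ⧸ R1) = d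
  S2 : ∑ s, (1 - 1 / (l s : ℚ)) = 2
  pos : 0 < d

section pair

variable {X : Type*} [AddCommGroup X] [Module K X] {S : Type*} [AddCommGroup S] [Module K S]
variable {a : Fin 3 → End K X} {wa : X →ₗ[K] X →ₗ[K] K}
  {Φ : Fin 3 → End K S} {wb : S →ₗ[K] S →ₗ[K] K} {l : Fin 3 → ℕ}

theorem Pair.halfA [FiniteDimensional K X] (h : Pair a wa Φ wb l) :
    Half (QBlk.ap a) (TP a) (Pform a wa) 1 1 l (finrank K (Cor a)) where
  side := PSide.of_core h.sumA h.l1 h.powA h.freeA h.S2 h.posA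
  sum := h.apsumA
  symm x y := by rw [one_mul, h.Cor_symmA]
  sq := one_mul 1
  adj s x y := by rw [one_mul, h.adjA]
  sq₂ := one_mul 1
  rad := h.radA
  q := ⟨ac a, fun s x => rfl, h.nilA, h.freeA⟩
  fin := rfl
  S2 := h.S2
  pos := h.posA

theorem Pair.halfB [FiniteDimensional K S] (h : Pair a wa Φ wb l) :
    Half (QBlk.ap Φ) (TP Φ) (Pform Φ wb) (-1) (-1) l (finrank K (Cor Φ)) where
  side := PSide.of_core h.sumB h.l1 h.powB h.freeB h.S2 h.posB
  sum := h.apsumB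
  symm x y := by rw [neg_one_mul, h.Cor_symmB]
  sq := by ring
  adj s x y := by rw [neg_one_mul, h.adjB]
  sq₂ := by ring
  rad := h.radB
  q := ⟨ac Φ, fun s x => rfl, h.nilB, h.freeB⟩
  fin := rfl
  S2 := h.S2
  pos := h.posB

end pair

namespace Half

variable {A : Fin 3 → End K P1} {R1 : Submodule K P1} {w : P1 →ₗ[K] P1 →ₗ[K] K}
  {e e₂ : K} {l : Fin 3 → ℕ} {d : ℕ}
variable {B : Fin 3 → End K P2} {R2 : Submodule K P2} {g : P2 →ₗ[K] P2 →ₗ[K] K}
  {e' e₂' : K} {d' : ℕ}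

/-- push along a surjection with kernel in the radical -/
theorem push (h : Half A R1 w e e₂ l d) {θ : P1 →ₗ[K] P2} (hp : Push A R1 B R2 θ)
    (hg : ∀ x y, g (θ x) (θ y) = w x y) : Half B R2 g e e₂ l d := by
  obtain ⟨Aq, hq1, hq2, hq3⟩ := h.q
  have hst : ∀ t, ∀ r ∈ R2, B t r ∈ R2 := hp.stable h.side.stable
  obtain ⟨Bq, hB⟩ := PushQ.exists_q hst
  exact
  { side :=
      { top := hp.top h.side.top
        stable := hst
        kills := by
          obtain ⟨m, hm⟩ := h.side.kills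
          refine ⟨m, fun w' hw' r hr => ?_⟩
          obtain ⟨r, rfl⟩ := hp.surj r
          rw [← hp.word, hm w' hw' r (hp.mem_iff.1 hr), map_zero]
        one_le := h.side.one_le
        pow := fun s p => hp.pow_mem (h.side.pow s) p
        gen := fun S h1 h2 => hp.gen (fun S h1 h2 => h.side.gen S h2 h1) S h2 h1
        pow_not := fun s => hp.notMem (h.side.pow_not s)
        two := fun t u htu => hp.two_arm (h.side.two t u htu) }
    sum := hp.sum h.sum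
    symm := fun x y => by
      obtain ⟨x, rfl⟩ := hp.surj x
      obtain ⟨y, rfl⟩ := hp.surj y
      rw [hg, hg, h.symm]
    sq := h.sq
    adj := fun s x y => by
      obtain ⟨x, rfl⟩ := hp.surj x
      obtain ⟨y, rfl⟩ := hp.surj y
      rw [← hp.comm, ← hp.comm, hg, hg, h.adj]
    sq₂ := h.sq₂
    rad := hp.rad w g hg h.rad
    q := ⟨Bq, hB, fun s => hp.q_pow hq1 hB (hq2 s), fun s => hp.q_free hq1 hB (hq3 s)⟩
    fin := by rw [hp.finrank_quot, h.fin]
    S2 := h.S2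
    pos := h.pos }

theorem e_ne (h : Half A R1 w e e₂ l d) : e ≠ 0 := by
  intro h0; have := h.sq; rw [h0] at this; simp at this

theorem e₂_ne (h : Half A R1 w e e₂ l d) : e₂ ≠ 0 := by
  intro h0; have := h.sq₂; rw [h0] at this; simp at this

theorem rad_left (h : Half A R1 w e e₂ l d) : ∀ r ∈ R1, ∀ p, w r p = 0 :=
  fun r hr => (h.rad r).1 hr

theorem rad_right (h : Half A R1 w e e₂ l d) : ∀ r ∈ R1, ∀ p, w p r = 0 := fun r hr p => by
  rw [h.symm, h.rad_left r hr, mul_zero]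

theorem gtop (h : Half A R1 w e e₂ l d) (s : Fin 3) :
    ∃ p p', w ((A s ^ (l s - 1)) p) p' ≠ 0 := by
  obtain ⟨p, hp⟩ := h.side.pow_not s
  rw [h.rad] at hp
  push Not at hp
  exact ⟨p, hp⟩

/-- **`RJ.main` for two halves** -/
theorem rj (h1 : Half A R1 w e e₂ l d) (h2 : Half B R2 g e' e₂' l d')
    {E : Type*} [AddCommGroup E] [Module K E]
    {Λ : Set K} (hΛ : Λ.Infinite) (h0 : (0 : K) ∉ Λ)
    (q : Fin 3 → P1 →ₗ[K] P1 →ₗ[K] E) (Q : Submodule K E) {a1 a2 a3 : K}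
    (ha1 : a1 ≠ 0) (ha2 : a2 ≠ 0) (ha3 : a3 ≠ 0)
    (hex : ∀ c ∈ Λ, ∀ x, RJ.Ex A B R1 R2 c x → ∃ b, RJ.Cor A B R1 g e₂' c x b)
    (hrel : ∀ c ∈ Λ, ∀ c' ∈ Λ, ∀ x b x' b', RJ.Ex A B R1 R2 c x → RJ.Cor A B R1 g e₂' c x b →
      RJ.Ex A B R1 R2 c' x' → RJ.Cor A B R1 g e₂' c' x' b' →
      ∑ t, (a1 • TensorProduct.lift ((q t) ∘ₗ b') (x t)
        + a2 • TensorProduct.lift ((q t).flip ∘ₗ b) (x' t)
        + a3 • TensorProduct.lift ((q t) ∘ₗ (RJ.ev g (x' t))) (x t)) ∈ Q) :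
    (∀ t, ∀ r ∈ R1, ∀ p, q t r p ∈ Q ∧ q t p r ∈ Q) ∧
      (∀ s i j, i + j + 1 = l s → ∀ p p', q s ((A s ^ i) p) ((A s ^ j) p') ∈ Q) := by
  obtain ⟨m1, hm1⟩ := h1.side.kills_le
  obtain ⟨m2, hm2⟩ := h2.side.kills_le
  exact RJ.main h1.side.top h2.side.top h1.side.stable h2.side.stable (m := max m1 m2)
    (hm1 _ (le_max_left _ _)) (hm2 _ (le_max_right _ _)) h1.side.one_le h1.side.pow h2.side.pow
    h1.side.gen h2.side.gen h2.e₂_ne h2.rad_left h2.rad_right h2.adj h2.gtop hΛ h0 q Q ha1 ha2 ha3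
    hex hrel

/-- the abstract P-side end -/
theorem P_end [FiniteDimensional K P1] [CharZero K] (h : Half A R1 w 1 1 l d)
    (h333 : (∀ s, l s = 3) → 3 < d) {E : Type*} [AddCommGroup E] [Module K E]
    {q : Fin 3 → P1 →ₗ[K] P1 →ₗ[K] E} {Q : Submodule K E}
    (hq : (∀ t, ∀ r ∈ R1, ∀ p, q t r p ∈ Q ∧ q t p r ∈ Q) ∧
      (∀ s i j, i + j + 1 = l s → ∀ p p', q s ((A s ^ i) p) ((A s ^ j) p') ∈ Q)) :
    ∃ T : P1 ⊗[K] P1, TensorProduct.comm K P1 P1 T = -T ∧ (∃ x y, SPE.ct w x y T ≠ 0) ∧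
      ∀ s, TensorProduct.lift (q s) T ∈ Q := by
  obtain ⟨Aq, hq1, hq2, hq3⟩ := h.q
  exact SPE.P_end w (fun x y => by rw [h.symm, one_mul]) h.rad
    (fun s x y => by rw [h.adj, one_mul]) hq1 h.side.one_le h.S2 hq2 hq3
    (by rw [h.fin]; exact h.pos) (by rw [h.fin]; exact h333)
    (fun s r hr p => (hq.1 s r hr p).1) (fun s r hr p => (hq.1 s r hr p).2) hq.2

/-- the abstract Q-side end, type `(3,3,3)` -/
theorem Q_end [FiniteDimensional K P1] [CharZero K] (h : Half A R1 w (-1) (-1) l d)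
    (h3 : ∀ s, l s = 3) {E : Type*} [AddCommGroup E] [Module K E]
    {q : Fin 3 → P1 →ₗ[K] P1 →ₗ[K] E} {Q : Submodule K E}
    (hq : (∀ t, ∀ r ∈ R1, ∀ p, q t r p ∈ Q ∧ q t p r ∈ Q) ∧
      (∀ s i j, i + j + 1 = l s → ∀ p p', q s ((A s ^ i) p) ((A s ^ j) p') ∈ Q)) :
    ∃ T : P1 ⊗[K] P1, TensorProduct.comm K P1 P1 T = T ∧ (∃ x y, SPE.ct w x y T ≠ 0) ∧
      ∀ s, TensorProduct.lift (q s) T ∈ Q := by
  obtain ⟨Aq, hq1, hq2, hq3⟩ := h.q
  exact SPE.Q_end w (fun x y => by rw [h.symm, neg_one_mul]) h.rad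
    (fun s x y => by rw [h.adj, neg_one_mul]) hq1 (fun s => by rw [← h3 s]; exact hq2 s)
    (fun s => by rw [← h3 s]; exact hq3 s) h.sum
    (QBlk.exists_sum_of_top h.side.top) (by rw [h.fin]; exact h.pos)
    (fun s r hr p => (hq.1 s r hr p).1) (fun s r hr p => (hq.1 s r hr p).2)
    (fun s i j hij p p' => hq.2 s i j (by rw [h3 s]; exact hij) p p')

end Half

end Crest.Agent.R172.QC
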