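import Crest.Agent.R172.QEndP2
import Crest.Agent.R172.QEndQ2
import Crest.Agent.R172.QCore4
import Crest.Agent.R172.QHalf
import Crest.Agent.R172.Fin7

/-!
Row 172 (S0260), node Q-Asm: the two ends put together.
-/

set_option autoImplicit false
set_option linter.unusedSectionVars false
set_option linter.unusedFintypeInType false
set_option linter.unusedDecidableInType false
set_option maxHeartbeats 800000

namespace Crest.Agent.R172.QAsm

open Matrix Module Crest.Agent.R172.FO Crest.Agent.R172.Qt Crest.Agent.R172.Mix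
open Crest.Agent.R172.QC
open scoped TensorProduct

section gen

variable {ι : Type*} [Fintype ι] [DecidableEq ι] {δ : Type*} [Fintype δ] [DecidableEq δ]
variable {k K : Type*} [Field k] [Field K] [Algebra k K]
variable {arm : δ → Fin 3} {J : Matrix ι ι K} {B : Matrix δ δ K}
  {N W : Submodule K (Matrix ι δ K)} {g f : Matrix ι δ K}

/-- `Φ_s = M_s(g,g) J X` on `S` -/
abbrev PhS (arm : δ → Fin 3) (J : Matrix ι ι K) (B : Matrix δ δ K) (g : Matrix ι δ K)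
    (X : Matrix ι ι K) (s : Fin 3) : End K (Sg g) := Mop arm B g s ∘ₗ eta J g X

/-- `θ p = gᵀ J X p` on `P_S` -/
def th (arm : δ → Fin 3) (J : Matrix ι ι K) (B : Matrix δ δ K) (g : Matrix ι δ K)
    (X : Matrix ι ι K) : Pinf (PhS arm J B g X) →ₗ[K] (δ → K) :=
  (gᵀ * J * X).mulVecLin ∘ₗ (Sg g).subtype ∘ₗ (Pinf (PhS arm J B g X)).subtype

theorem th_apply (X : Matrix ι ι K) (p : Pinf (PhS arm J B g X)) :
    th arm J B g X p = (gᵀ * J * X) *ᵥ ((p : Sg g) : ι → K) := rfl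

/-- `U = {u | g u ∈ P_S}` -/
def UU (arm : δ → Fin 3) (J : Matrix ι ι K) (B : Matrix δ δ K) (g : Matrix ι δ K)
    (X : Matrix ι ι K) : Submodule K (δ → K) :=
  ((Pinf (PhS arm J B g X)).map (Sg g).subtype).comap g.mulVecLin

theorem mem_UU {X : Matrix ι ι K} {u : δ → K} :
    u ∈ UU arm J B g X ↔ ∃ p : Pinf (PhS arm J B g X), ((p : Sg g) : ι → K) = g *ᵥ u := by
  constructor
  · rintro ⟨y, hy, hy'⟩
    exact ⟨⟨y, hy⟩, hy'⟩
  · rintro ⟨p, hp⟩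
    exact ⟨p, p.2, hp⟩

/-- the output of the Q-side bridge -/
structure BrQ (arm : δ → Fin 3) (J : Matrix ι ι K) (B : Matrix δ δ K)
    (N : Submodule K (Matrix ι δ K)) (g : Matrix ι δ K) (X : Matrix ι ι K) (l : Fin 3 → ℕ) :
    Prop where
  q1 : ∀ s, ∀ r ∈ TP (PhS arm J B g X), ∀ p,
    (Pi.single s (vecMulVec (th arm J B g X r) (th arm J B g X p)) : Fin 3 → Matrix δ δ K)
      ∈ QEndQ.TT arm J N g (UU arm J B g X)
  q2 : ∀ s, ∀ r ∈ TP (PhS arm J B g X), ∀ p,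
    (Pi.single s (vecMulVec (th arm J B g X p) (th arm J B g X r)) : Fin 3 → Matrix δ δ K)
      ∈ QEndQ.TT arm J N g (UU arm J B g X)
  q3 : ∀ s i j, i + j + 1 = l s → ∀ p p' : Pinf (PhS arm J B g X),
    (Pi.single s (vecMulVec (th arm J B g X ((QBlk.ap (PhS arm J B g X) s ^ i) p))
      (th arm J B g X ((QBlk.ap (PhS arm J B g X) s ^ j) p'))) : Fin 3 → Matrix δ δ K)
      ∈ QEndQ.TT arm J N g (UU arm J B g X)

/-- the output of the P-side bridge -/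
structure BrP (arm : δ → Fin 3) (J : Matrix ι ι K) (B : Matrix δ δ K)
    (N W : Submodule K (Matrix ι δ K)) (g f : Matrix ι δ K) (hf : gᵀ * J * f = 0)
    (l : Fin 3 → ℕ) : Prop where
  q1 : ∀ s, ∀ r ∈ TP (aop arm J B g f hf), ∀ p,
      QEndP.mt J g (Pinf (aop arm J B g f hf)) (r ⊗ₜ p) * f * E K arm s
        ∈ QEndP.SSp arm J B N W g f hf
  q2 : ∀ s, ∀ r ∈ TP (aop arm J B g f hf), ∀ p,
      QEndP.mt J g (Pinf (aop arm J B g f hf)) (p ⊗ₜ r) * f * E K arm s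
        ∈ QEndP.SSp arm J B N W g f hf
  q3 : ∀ s i j, i + j + 1 = l s → ∀ p p',
      QEndP.mt J g (Pinf (aop arm J B g f hf))
        (((QEndP.ap (aop arm J B g f hf) s ^ i) p) ⊗ₜ
          ((QEndP.ap (aop arm J B g f hf) s ^ j) p')) * f * E K arm s
        ∈ QEndP.SSp arm J B N W g f hf

/-- Q-side end, abstract module form -/
theorem false_Q_abs [CharZero K] (h : Ctx k arm J B N W g) {X' S : Type*} [AddCommGroup X']
    [Module K X'] [AddCommGroup S] [Module K S] [FiniteDimensional K S]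
    {a : Fin 3 → End K X'} {wa : X' →ₗ[K] X' →ₗ[K] K} {Φ : Fin 3 → End K S}
    {wb : S →ₗ[K] S →ₗ[K] K} {l : Fin 3 → ℕ} (hp : Pair a wa Φ wb l) (hl : ∀ s, l s = 3)
    {U : Submodule K (δ → K)} (θ : Pinf Φ →ₗ[K] (δ → K))
    (hθ : ∀ p, ∃ v : ι → K, θ p = (gᵀ * J) *ᵥ v)
    (hw : ∀ y : Pinf Φ, ∃ u ∈ U, ∀ a : Pinf Φ, wb a y = u ⬝ᵥ θ a)
    (q1 : ∀ s, ∀ r ∈ TP Φ, ∀ p,
      (Pi.single s (vecMulVec (θ r) (θ p)) : Fin 3 → Matrix δ δ K) ∈ QEndQ.TT arm J N g U)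
    (q2 : ∀ s, ∀ r ∈ TP Φ, ∀ p,
      (Pi.single s (vecMulVec (θ p) (θ r)) : Fin 3 → Matrix δ δ K) ∈ QEndQ.TT arm J N g U)
    (q3 : ∀ s i j, i + j + 1 = l s → ∀ p p' : Pinf Φ,
      (Pi.single s (vecMulVec (θ ((QBlk.ap Φ s ^ i) p)) (θ ((QBlk.ap Φ s ^ j) p'))) :
        Fin 3 → Matrix δ δ K) ∈ QEndQ.TT arm J N g U) : False := by
  have hq : (∀ t, ∀ r ∈ TP Φ, ∀ p, QEndQ.qt θ t r p ∈ QEndQ.TT arm J N g U ∧
        QEndQ.qt θ t p r ∈ QEndQ.TT arm J N g U) ∧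
      (∀ s i j, i + j + 1 = l s → ∀ p p' : Pinf Φ,
        QEndQ.qt θ s ((QBlk.ap Φ s ^ i) p) ((QBlk.ap Φ s ^ j) p') ∈ QEndQ.TT arm J N g U) := by
    refine ⟨fun t r hr p => ⟨?_, ?_⟩, fun s i j hij p p' => ?_⟩
    · rw [QEndQ.qt_apply]; exact q1 t r hr p
    · rw [QEndQ.qt_apply]; exact q2 t r hr p
    · rw [QEndQ.qt_apply]; exact q3 s i j hij p p'
  obtain ⟨T, hT1, hT2, hT3⟩ := Half.Q_end hp.halfB hl hq
  exact QEndQ.endQ h two_ne_zero hθ (w := Pform Φ wb) (fun y => by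
    obtain ⟨u, hu, h1⟩ := hw y
    exact ⟨u, hu, fun a => by rw [Pform_apply]; exact h1 a⟩) hT1 hT2 hT3

/-- **Q-side end.** -/
theorem false_Q [CharZero K] (h : Ctx k arm J B N W g) {hf0 : gᵀ * J * f = 0}
    {X : Matrix ι ι K} {l : Fin 3 → ℕ}
    (hp : Pair (aop arm J B g f hf0) (omP J g) (PhS arm J B g X) (eta J g X) l)
    (hl : ∀ s, l s = 3) (hQ : BrQ arm J B N g X l) : False := by
  have hθ : ∀ p : Pinf (PhS arm J B g X), ∃ v : ι → K, th arm J B g X p = (gᵀ * J) *ᵥ v :=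
    fun p => ⟨X *ᵥ ((p : Sg g) : ι → K), by rw [th_apply, mulVec_mulVec]⟩
  have hw : ∀ y : Pinf (PhS arm J B g X), ∃ u ∈ UU arm J B g X, ∀ a : Pinf (PhS arm J B g X),
      eta J g X a y = u ⬝ᵥ th arm J B g X a := by
    intro y
    obtain ⟨u, hu⟩ := (y : Sg g).2
    have hu' : g *ᵥ u = ((y : Sg g) : ι → K) := hu
    refine ⟨u, mem_UU.2 ⟨y, hu'.symm⟩, fun a => ?_⟩
    rw [eta_apply, th_apply, ← hu']
    have e1 : (g *ᵥ u) ⬝ᵥ ((J * X) *ᵥ ((a : Sg g) : ι → K))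
        = u ⬝ᵥ (gᵀ *ᵥ ((J * X) *ᵥ ((a : Sg g) : ι → K))) := by
      rw [← vecMul_transpose, ← dotProduct_mulVec]
    rw [e1, mulVec_mulVec, ← Matrix.mul_assoc]
  exact false_Q_abs h hp hl (th arm J B g X) hθ hw hQ.q1 hQ.q2 hQ.q3

/-- **P-side end.** -/
theorem false_P [CharZero K] (h : Ctx k arm J B N W g)
    (hNm : ∀ F, (∀ F' ∈ N, pair J B F' F = 0) → F ∈ N)
    (hWm : ∀ F, (∀ F' ∈ W, pair J B F' F = 0) → F ∈ W) (hf : f ∈ N ⊓ W)
    {X : Matrix ι ι K} {l : Fin 3 → ℕ}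
    (hp : Pair (aop arm J B g f (h.perp f hf)) (omP J g) (PhS arm J B g X) (eta J g X) l)
    (hl : ¬ ∀ s, l s = 3) (hP : BrP arm J B N W g f (h.perp f hf) l) : False :=
  QEndP.endP_span h hNm hWm hf l hp.l1 hp.S2 hp.nilA hp.freeA hp.posA
    (fun h3 => absurd h3 hl) hP.q1 hP.q2 hP.q3

/-- **both ends.** -/
theorem false_of_bridges [CharZero K] (h : Ctx k arm J B N W g)
    (hNm : ∀ F, (∀ F' ∈ N, pair J B F' F = 0) → F ∈ N)
    (hWm : ∀ F, (∀ F' ∈ W, pair J B F' F = 0) → F ∈ W) (hf : f ∈ N ⊓ W)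
    {X : Matrix ι ι K} {l : Fin 3 → ℕ}
    (hp : Pair (aop arm J B g f (h.perp f hf)) (omP J g) (PhS arm J B g X) (eta J g X) l)
    (hP : (¬ ∀ s, l s = 3) → BrP arm J B N W g f (h.perp f hf) l)
    (hQ : (∀ s, l s = 3) → BrQ arm J B N g X l) : False := by
  by_cases hl : ∀ s, l s = 3
  · exact false_Q h hp hl (hQ hl)
  · exact false_P h hNm hWm hf hp hl (hP hl)

end gen

open Crest.AlgebraR.SpinSaturation Crest.Agent.R172.SoGrade Crest.Agent.R172.Sp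
open Crest.Agent.R172.CF Crest.Agent.R172.CSys
open Crest.Agent.R172.Gen (Jm Ix emb IsSo)
open Crest.Agent.R172.GenP
open Crest.Agent.R172.GenQ
open Crest.Agent.R172.Om (Kiso Scal)
open Crest.Agent.R172.Ind (GI Inst)

variable {n : ℕ} {a : Fin 3 → Fin n → ℤ} {c : Cfg n a} {q : SPol c}

/-- the two bridges, as one statement on `Ctx` (over `ℂ`) -/
def Bridge : Prop :=
  ∀ (ι δ : Type) [Fintype ι] [DecidableEq ι] [Fintype δ] [DecidableEq δ]
    (K : Type) [Field K] [Algebra ℂ K] [IsAlgClosed K] (arm : δ → Fin 3) (J : Matrix ι ι K)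
    (B : Matrix δ δ K) (N W : Submodule K (Matrix ι δ K)) (g f : Matrix ι δ K)
    (h : Ctx ℂ arm J B N W g) (hf : f ∈ N ⊓ W),
    (∀ F, (∀ F' ∈ N, pair J B F' F = 0) → F ∈ N) →
    (∀ F, (∀ F' ∈ W, pair J B F' F = 0) → F ∈ W) →
    Glue ℂ arm J N W g →
    ∀ p ∈ NN arm J N g, gᵀ * J * (p.1 * f) = 0 → ∀ l : Fin 3 → ℕ,
      Pair (aop arm J B g f (h.perp f hf)) (omP J g) (PhS arm J B g p.1) (eta J g p.1) l →
      ((¬ ∀ s, l s = 3) → BrP arm J B N W g f (h.perp f hf) l) ∧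
        ((∀ s, l s = 3) → BrQ arm J B N g p.1 l)

/-- **(t3)** from the bridges. -/
theorem noTameQ1' (hbr : Bridge) (R : Ranked c) : Fin7.NoTameQ1' c q R := by
  intro L _ _ _ g H hI h1K G hG hV f hf hfn p hp hp0 hpG hT
  have hC := hI.ctx hG
  have : CharZero L := charZero_of_injective_algebraMap (algebraMap ℂ L).injective
  have hglue := Qt.glue_of hI.gi hC (fun w hw hw0 => hI.isoK hw hw0) hV
  have hNm := maxN hI.gi.orth (c := c)
  have hWm := maxW q.toPol hI.gi.skew (H := H)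
  obtain ⟨hf0, l, hpair⟩ := tameMix_pair hC hf hp.1 hT
  have h1 := hbr (Ix n) c.δ L c.arm (Jm n L) (c.B L) (c.N g) (VL (q.toPol.LH H)) G f hC hf hNm hWm
    hglue p hp hp0 l hpair
  exact false_of_bridges hC hNm hWm hf hpair h1.1 h1.2

end Crest.Agent.R172.QAsm
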