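import Crest.Agent.R172.QCore3
import Crest.Agent.R172.SpEx

/-!
Row 172 (S0260), t3, assembly: `SPE.P_end`, `SPE.Q_end` for the data `QC.Pair`.
-/

set_option autoImplicit false
set_option linter.unusedSectionVars false
set_option linter.unusedFintypeInType false
set_option linter.unusedDecidableInType false

namespace Crest.Agent.R172.QAsm

open Matrix Module TensorProduct Crest.Agent.R172.Mix

variable {K : Type*} [Field K] {X : Type*} [AddCommGroup X] [Module K X]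
  {S : Type*} [AddCommGroup S] [Module K S] {E : Type*} [AddCommGroup E] [Module K E]
variable {a : Fin 3 → End K X} {wa : X →ₗ[K] X →ₗ[K] K}
  {Φ : Fin 3 → End K S} {wb : S →ₗ[K] S →ₗ[K] K} {l : Fin 3 → ℕ}

theorem ac_mkQ (s : Fin 3) (x : Pinf a) :
    ac a s ((TP a).mkQ x) = (TP a).mkQ (QBlk.ap a s x) := rfl

theorem P_end [FiniteDimensional K X] [CharZero K] (hP : QC.Pair a wa Φ wb l)
    (h333 : (∀ s, l s = 3) → 3 < finrank K (Cor a))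
    {q : Fin 3 → Pinf a →ₗ[K] Pinf a →ₗ[K] E} {SS : Submodule K E}
    (hq1 : ∀ t, ∀ r ∈ TP a, ∀ p, q t r p ∈ SS ∧ q t p r ∈ SS)
    (hq2 : ∀ s i j, i + j + 1 = l s → ∀ p p',
      q s ((QBlk.ap a s ^ i) p) ((QBlk.ap a s ^ j) p') ∈ SS) :
    ∃ T : Pinf a ⊗[K] Pinf a, TensorProduct.comm K _ _ T = -T ∧
      (∃ x y, SPE.ct (QC.Pform a wa) x y T ≠ 0) ∧ ∀ s, TensorProduct.lift (q s) T ∈ SS := by
  have h1 : ∀ x y, QC.Pform a wa x y = QC.Pform a wa y x := fun x y => hP.Cor_symmA x y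
  have h2 : ∀ x, x ∈ TP a ↔ ∀ y, QC.Pform a wa x y = 0 := fun x => hP.radA x
  have h3 : ∀ s x y, QC.Pform a wa (QBlk.ap a s x) y = QC.Pform a wa x (QBlk.ap a s y) :=
    fun s x y => hP.adjA s x y
  have h4 := SPE.P_end (K := K) (P := Pinf a) (E := E) (R := TP a) (QC.Pform a wa) h1 h2
    (Φ := QBlk.ap a) h3 (Φq := ac a) ac_mkQ (l := l)
  exact h4 hP.l1 hP.S2 hP.nilA hP.freeA hP.posA h333 (fun s r hr p => (hq1 s r hr p).1)
    (fun s r hr p => (hq1 s r hr p).2) hq2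

theorem Q_end [FiniteDimensional K S] [CharZero K] (hP : QC.Pair a wa Φ wb l)
    (hl : ∀ s, l s = 3)
    {q : Fin 3 → Pinf Φ →ₗ[K] Pinf Φ →ₗ[K] E} {SS : Submodule K E}
    (hq1 : ∀ t, ∀ r ∈ TP Φ, ∀ p, q t r p ∈ SS ∧ q t p r ∈ SS)
    (hq2 : ∀ s i j, i + j + 1 = l s → ∀ p p',
      q s ((QBlk.ap Φ s ^ i) p) ((QBlk.ap Φ s ^ j) p') ∈ SS) :
    ∃ T : Pinf Φ ⊗[K] Pinf Φ, TensorProduct.comm K _ _ T = T ∧
      (∃ x y, SPE.ct (QC.Pform Φ wb) x y T ≠ 0) ∧ ∀ s, TensorProduct.lift (q s) T ∈ SS := by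
  have h1 : ∀ x y, QC.Pform Φ wb x y = - QC.Pform Φ wb y x := fun x y => hP.Cor_symmB x y
  have h2 : ∀ x, x ∈ TP Φ ↔ ∀ y, QC.Pform Φ wb x y = 0 := fun x => hP.radB x
  have h3 : ∀ s x y, QC.Pform Φ wb (QBlk.ap Φ s x) y = - QC.Pform Φ wb x (QBlk.ap Φ s y) :=
    fun s x y => hP.adjB s x y
  have h4 := SPE.Q_end (K := K) (P := Pinf Φ) (E := E) (R := TP Φ) (QC.Pform Φ wb) h1 h2
    (Φ := QBlk.ap Φ) h3 (Φq := ac Φ) ac_mkQ
  have h5 : ∀ s, ac Φ s ^ 3 = 0 := fun s => by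
    have := hP.nilB s
    rwa [hl s] at this
  have h6 : ∀ s, 3 * finrank K (LinearMap.ker (ac Φ s)) = finrank K (Cor Φ) := fun s => by
    have := hP.freeB s
    rwa [hl s] at this
  exact h4 h5 h6 hP.apsumB (QBlk.ap_perf Φ) hP.posB (fun s r hr p => (hq1 s r hr p).1)
    (fun s r hr p => (hq1 s r hr p).2) (fun s i j hij => hq2 s i j (by rw [hij, hl s]))

/-- `P_end` with the antisymmetry in terms of contractions -/
theorem P_end' [FiniteDimensional K X] [CharZero K] (hP : QC.Pair a wa Φ wb l)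
    (h333 : (∀ s, l s = 3) → 3 < finrank K (Cor a))
    {q : Fin 3 → Pinf a →ₗ[K] Pinf a →ₗ[K] E} {SS : Submodule K E}
    (hq1 : ∀ t, ∀ r ∈ TP a, ∀ p, q t r p ∈ SS ∧ q t p r ∈ SS)
    (hq2 : ∀ s i j, i + j + 1 = l s → ∀ p p',
      q s ((QBlk.ap a s ^ i) p) ((QBlk.ap a s ^ j) p') ∈ SS) :
    ∃ T : Pinf a ⊗[K] Pinf a, (∀ x y, SPE.ct (QC.Pform a wa) y x T
        = - SPE.ct (QC.Pform a wa) x y T) ∧
      (∃ x y, SPE.ct (QC.Pform a wa) x y T ≠ 0) ∧ ∀ s, TensorProduct.lift (q s) T ∈ SS := by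
  obtain ⟨T, h1, h2, h3⟩ := P_end hP h333 hq1 hq2
  refine ⟨T, fun x y => ?_, h2, h3⟩
  rw [← SPE.ct_comm, h1, map_neg]

end Crest.Agent.R172.QAsm
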