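import Crest.Agent.R172.Fin7
import Crest.Agent.R172.QCore4
import Crest.Agent.R172.IndSt2

/-!
Row 172 (S0260), t3, assembly: `NoTameQ1'` from the two halves (statements at the level of `Ctx`).
-/

set_option autoImplicit false
set_option linter.unusedSectionVars false
set_option linter.unusedFintypeInType false
set_option linter.unusedDecidableInType false
set_option maxHeartbeats 400000

namespace Crest.Agent.R172.QAsm

open Matrix Module Crest.Agent.R172.FO
open Crest.AlgebraR.SpinSaturation Crest.Agent.R172.SoGrade Crest.Agent.R172.Sp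
open Crest.Agent.R172.CF Crest.Agent.R172.CSys
open Crest.Agent.R172.Gen (Jm Ix emb IsSo)
open Crest.Agent.R172.GenP
open Crest.Agent.R172.GenQ
open Crest.Agent.R172.SpS
open Crest.Agent.R172.Qt
open Crest.Agent.R172.Om (Kiso Scal)
open Crest.Agent.R172.Ind (GI Inst)

variable {n : ℕ} {a : Fin 3 → Fin n → ℤ} {c : Cfg n a} {q : SPol c}

/-- **`NoTameQ1'` from the P-half (type not `(3,3,3)`) and the Q-half (type `(3,3,3)`).** -/
theorem noTameQ1'_of {R : Ranked c}
    (H : ∀ (L : Type) [Field L] [Algebra ℂ L] [IsAlgClosed L] [CharZero L] [Infinite L]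
      (g : Fin 3 → Matrix (Ix n) (Ix n) L) (H : Matrix (Fin q.toPol.m) (Fin q.toPol.m) L)
      (G f : Matrix (Ix n) c.δ L),
      Ctx ℂ c.arm (Jm n L) (c.B L) (c.N g) (VL (q.toPol.LH H)) G →
      (∀ F, (∀ F' ∈ c.N g, pair (Jm n L) (c.B L) F' F = 0) → F ∈ c.N g) →
      (∀ F, (∀ F' ∈ VL (q.toPol.LH H), pair (Jm n L) (c.B L) F' F = 0) →
        F ∈ VL (q.toPol.LH H)) →
      Glue ℂ c.arm (Jm n L) (c.N g) (VL (q.toPol.LH H)) G →
      f ∈ c.N g ⊓ VL (q.toPol.LH H) →
      ∀ p ∈ NN c.arm (Jm n L) (c.N g) G, Gᵀ * Jm n L * (p.1 * f) = 0 →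
      Gᵀ * Jm n L * (p.1 * G) ≠ 0 →
      ∀ (hf0 : Gᵀ * Jm n L * f = 0) (l : Fin 3 → ℕ),
        QC.Pair (aop c.arm (Jm n L) (c.B L) G f hf0) (QC.omP (Jm n L) G) (Phi c G p.1)
          (eta (Jm n L) G p.1) l → False) :
    Fin7.NoTameQ1' c q R := by
  intro L _ _ _ g Hm hI h1 G hG hV f hf hfn p hp hpf hpG hTM
  have : CharZero L := charZero_of_injective_algebraMap (algebraMap ℂ L).injective
  have hC := hI.ctx hG
  have hc := glue_of hI.gi hC (fun w hw hw0 => hI.isoK hw hw0) hV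
  have hX : Skw (Jm n L) p.1 := hp.1
  obtain ⟨hf0, l, hP⟩ := QC.tameMix_pair hC hf hX hTM
  exact H L g Hm G f hC (maxN hI.gi.orth) (maxW q.toPol hI.gi.skew) hc hf p hp hpf hpG hf0 l hP

end Crest.Agent.R172.QAsm
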