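import Crest.Agent.R172.QEndP
import Crest.Agent.R172.QAsmA

/-!
Row 172 (S0260), t3, assembly: the P-half.  From the single-arm memberships (conclusion of
`RJM.main` on the P-side) to `False`, except type `(3,3,3)` with a core of dimension `3`.
-/

set_option autoImplicit false
set_option linter.unusedSectionVars false
set_option linter.unusedFintypeInType false
set_option linter.unusedDecidableInType false
set_option maxHeartbeats 800000

namespace Crest.Agent.R172.QAsm

open Matrix Module TensorProduct Crest.Agent.R172.FO Crest.Agent.R172.Qt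
open Crest.Agent.R172.Mix Crest.Agent.R172.QEndP

variable {ι : Type*} [Fintype ι] [DecidableEq ι] {δ : Type*} [Fintype δ] [DecidableEq δ]
variable {k K : Type*} [Field k] [Field K] [Algebra k K]
variable {arm : δ → Fin 3} {J : Matrix ι ι K} {B : Matrix δ δ K}
  {N W : Submodule K (Matrix ι δ K)} {g f : Matrix ι δ K}

/-- `(p, p') ↦ p p'ᵀ J f E_t` -/
noncomputable def qP (arm : δ → Fin 3) (J : Matrix ι ι K) (g f : Matrix ι δ K)
    (P : Submodule K (Sp J g)) (t : Fin 3) : P →ₗ[K] P →ₗ[K] Matrix ι δ K :=
  LinearMap.mk₂ K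
    (fun x y => vecMulVec ((x : Sp J g) : ι → K) ((y : Sp J g) : ι → K) * J * f * E K arm t)
    (by intro x x' y
        simp only [← Matrix.add_mul]
        congr 4
        ext i j; simp [vecMulVec_apply, add_mul])
    (by intro c x y
        simp only [← Matrix.smul_mul]
        congr 4
        ext i j; simp [vecMulVec_apply, mul_assoc])
    (by intro x y y'
        simp only [← Matrix.add_mul]
        congr 4
        ext i j; simp [vecMulVec_apply, mul_add])
    (by intro c x y
        simp only [← Matrix.smul_mul]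
        congr 4
        ext i j
        simp only [vecMulVec_apply, Matrix.smul_apply, Submodule.coe_smul, Pi.smul_apply,
          smul_eq_mul]
        ring)

theorem qP_apply (P : Submodule K (Sp J g)) (t : Fin 3) (x y : P) :
    qP arm J g f P t x y
      = vecMulVec ((x : Sp J g) : ι → K) ((y : Sp J g) : ι → K) * J * f * E K arm t := rfl

theorem lift_qP (P : Submodule K (Sp J g)) (t : Fin 3) (T : P ⊗[K] P) :
    TensorProduct.lift (qP arm J g f P t) T = mt J g P T * f * E K arm t := by
  induction T using TensorProduct.induction_on with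
  | zero => simp
  | tmul a b => rw [TensorProduct.lift.tmul, qP_apply, mt_tmul]
  | add a b ha hb => rw [map_add, map_add, ha, hb, Matrix.add_mul, Matrix.add_mul]

/-- the contraction of `T` and the operator `ev T` -/
theorem ct_ev {a : Fin 3 → End K (Sp J g)} (T : Pinf a ⊗[K] Pinf a) (x y : Pinf a) :
    BP (bS J g) a (ev (bS J g) a T x) y = SPE.ct (BP (bS J g) a) y x T := by
  induction T using TensorProduct.induction_on with
  | zero => simp
  | tmul u v =>
    rw [ev_tmul, SPE.ct_tmul, map_smul, LinearMap.smul_apply, smul_eq_mul, mul_comm]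
    rfl
  | add u v hu hv =>
    rw [map_add, map_add, LinearMap.add_apply, map_add, LinearMap.add_apply, hu, hv]

/-- the operator `ev T` on the core -/
theorem ev_stable {a : Fin 3 → End K (Sp J g)} (hF : FH (bS J g) a) (T : Pinf a ⊗[K] Pinf a) :
    TP a ≤ (TP a).comap (ev (bS J g) a T) := by
  intro r hr
  have h0 : ∀ y : Pinf a, bS J g y r = 0 := by
    intro y
    rw [hF.symm]
    exact hF.mem_T_iff.1 (mem_TP.1 hr) y y.2
  have h1 : ev (bS J g) a T r = 0 := by
    induction T using TensorProduct.induction_on with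
    | zero => simp
    | tmul u v => rw [ev_tmul, h0 v, zero_smul]
    | add u v hu hv => rw [map_add, LinearMap.add_apply, hu, hv, add_zero]
  rw [Submodule.mem_comap, h1]
  exact Submodule.zero_mem _

/-- **P-half, abstract.** -/
theorem endP_abs [CharZero K] {a : Fin 3 → End K (Sp J g)} (hF : FH (bS J g) a)
    {S : Type*} [AddCommGroup S] [Module K S]
    {Φ : Fin 3 → End K S} {wb : S →ₗ[K] S →ₗ[K] K} {l : Fin 3 → ℕ}
    (hP : QC.Pair a (bS J g) Φ wb l) (h333 : (∀ s, l s = 3) → 3 < finrank K (Cor a))
    {SS : Submodule K (Matrix ι δ K)}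
    (hsym : ∀ T : Pinf a ⊗[K] Pinf a, mt J g (Pinf a) T * f ∈ SS → ∀ x y : Pinf a,
      BP (bS J g) a (ev (bS J g) a T x) y = BP (bS J g) a x (ev (bS J g) a T y))
    (hq1 : ∀ t, ∀ r ∈ TP a, ∀ p, qP arm J g f (Pinf a) t r p ∈ SS ∧
      qP arm J g f (Pinf a) t p r ∈ SS)
    (hq2 : ∀ s i j, i + j + 1 = l s → ∀ p p',
      qP arm J g f (Pinf a) s ((QBlk.ap a s ^ i) p) ((QBlk.ap a s ^ j) p') ∈ SS) : False := by
  obtain ⟨T, hT1, ⟨x, y, hT2⟩, hT3⟩ := P_end' hP h333 (q := qP arm J g f (Pinf a)) hq1 hq2
  have hmem : mt J g (Pinf a) T * f ∈ SS := by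
    have e1 : mt J g (Pinf a) T * f = ∑ s, mt J g (Pinf a) T * f * E K arm s := by
      rw [← Matrix.mul_sum, sum_E, Matrix.mul_one]
    rw [e1]
    refine Submodule.sum_mem _ fun s _ => ?_
    rw [← lift_qP]
    exact hT3 s
  have e1 := hsym T hmem x y
  have e2 : BP (bS J g) a x (ev (bS J g) a T y) = BP (bS J g) a (ev (bS J g) a T y) x := by
    rw [BP_apply, BP_apply, hF.symm]
  rw [e2, ct_ev, ct_ev] at e1
  have e3 : SPE.ct (BP (bS J g) a) y x T = - SPE.ct (BP (bS J g) a) x y T := hT1 x y
  rw [e3] at e1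
  apply hT2
  have h2 : (2 : K) * SPE.ct (BP (bS J g) a) x y T = 0 := by
    linear_combination -e1
  exact (mul_eq_zero.1 h2).resolve_left two_ne_zero

end Crest.Agent.R172.QAsm
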