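import Crest.Agent.R172.Qt6
import Crest.Agent.R172.Mix3

/-!
Row 172 (S0260), node G1.2, part 3: the claim in 342's form `Mix.Claim`, for `X = S^⊥` with the
operators `M_s(f,f) J`, `S = im g`, `S' = S^*`, `φ = φ_p`.
-/

set_option autoImplicit false
set_option linter.unusedSectionVars false
set_option linter.unusedFintypeInType false
set_option linter.unusedDecidableInType false

namespace Crest.Agent.R172.Qt

open Matrix Module Crest.Agent.R172.FO

variable {ι : Type*} [Fintype ι] [DecidableEq ι] {δ : Type*} [Fintype δ] [DecidableEq δ]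
variable {k K : Type*} [Field k] [Field K] [Algebra k K]
variable {arm : δ → Fin 3} {J : Matrix ι ι K} {B : Matrix δ δ K}
  {N W : Submodule K (Matrix ι δ K)} {g : Matrix ι δ K}

theorem ext_mulVec {α β : Type*} [Fintype β] [DecidableEq β] {A A' : Matrix α β K}
    (h : ∀ w : β → K, A *ᵥ w = A' *ᵥ w) : A = A' := by
  ext i j
  have := congrFun (h (Pi.single j 1)) i
  simpa using this

/-- `S = im g` -/
abbrev Sg (g : Matrix ι δ K) : Submodule K (ι → K) := LinearMap.range g.mulVecLin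

/-- `S^⊥` -/
abbrev Sp (J : Matrix ι ι K) (g : Matrix ι δ K) : Submodule K (ι → K) :=
  LinearMap.ker (gᵀ * J).mulVecLin

theorem mem_Sp {v : ι → K} : v ∈ Sp J g ↔ (gᵀ * J) *ᵥ v = 0 := Iff.rfl

/-- values of a functional on the columns of `g` -/
def ev (g : Matrix ι δ K) : Dual K (Sg g) →ₗ[K] (δ → K) where
  toFun ζ := fun d => ζ ⟨g *ᵥ Pi.single d 1, ⟨_, rfl⟩⟩
  map_add' _ _ := rfl
  map_smul' _ _ := rfl

/-- `M_s(g,g) : S^* → S` -/
def Mop (arm : δ → Fin 3) (B : Matrix δ δ K) (g : Matrix ι δ K) (s : Fin 3) :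
    Dual K (Sg g) →ₗ[K] Sg g :=
  (g.mulVecLin.rangeRestrict) ∘ₗ (E K arm s * B).mulVecLin ∘ₗ ev g

/-- the form `η_X(x,y) = yᵀ J X x` on `S` -/
def eta (J : Matrix ι ι K) (g : Matrix ι δ K) (X : Matrix ι ι K) :
    Sg g →ₗ[K] Dual K (Sg g) where
  toFun x :=
    { toFun := fun y => (y : ι → K) ⬝ᵥ (J * X) *ᵥ (x : ι → K)
      map_add' := by intro y y'; rw [Submodule.coe_add, add_dotProduct]
      map_smul' := by
        intro t y; rw [Submodule.coe_smul, smul_dotProduct, RingHom.id_apply] }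
  map_add' := by
    intro x x'
    ext y
    change (y : ι → K) ⬝ᵥ (J * X) *ᵥ ((x + x' : Sg g) : ι → K) = _
    rw [Submodule.coe_add, mulVec_add, dotProduct_add]; rfl
  map_smul' := by
    intro t x
    ext y
    change (y : ι → K) ⬝ᵥ (J * X) *ᵥ ((t • x : Sg g) : ι → K) = _
    rw [Submodule.coe_smul, mulVec_smul, dotProduct_smul]; rfl

theorem eta_apply (X : Matrix ι ι K) (x y : Sg g) :
    eta J g X x y = (y : ι → K) ⬝ᵥ (J * X) *ᵥ (x : ι → K) := rfl

/-- the operator `M_s(f,f) J` on `S^⊥` -/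
def aop (arm : δ → Fin 3) (J : Matrix ι ι K) (B : Matrix δ δ K) (g f : Matrix ι δ K)
    (hf : gᵀ * J * f = 0) (s : Fin 3) : End K (Sp J g) :=
  (M arm B s f f * J).mulVecLin.restrict (fun v _ => by
    rw [mem_Sp, mulVecLin_apply, mulVec_mulVec]
    have : gᵀ * J * (M arm B s f f * J) = 0 := by
      unfold M
      have e : gᵀ * J * (f * E K arm s * B * fᵀ * J) = (gᵀ * J * f) * (E K arm s * B * fᵀ * J) := by
        simp only [Matrix.mul_assoc]
      rw [e, hf, Matrix.zero_mul]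
    rw [this, zero_mulVec])

theorem aop_coe {f : Matrix ι δ K} (hf : gᵀ * J * f = 0) (s : Fin 3) (v : Sp J g) :
    ((aop arm J B g f hf s v : Sp J g) : ι → K) = (M arm B s f f * J) *ᵥ (v : ι → K) := rfl

theorem Mop_coe (s : Fin 3) (ζ : Dual K (Sg g)) :
    ((Mop arm B g s ζ : Sg g) : ι → K) = g *ᵥ ((E K arm s * B) *ᵥ (ev g ζ)) := rfl

/-- if `ζ(y) = yᵀ J w` then `M_s ζ = M_s(g,g) J w` -/
theorem Mop_of_rep (s : Fin 3) {ζ : Dual K (Sg g)} {w : ι → K}
    (h : ∀ y : Sg g, ζ y = (y : ι → K) ⬝ᵥ J *ᵥ w) :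
    ((Mop arm B g s ζ : Sg g) : ι → K) = (M arm B s g g * J) *ᵥ w := by
  have h1 : ev g ζ = gᵀ *ᵥ (J *ᵥ w) := by
    ext d
    change ζ ⟨g *ᵥ Pi.single d 1, _⟩ = _
    rw [h]
    change (g *ᵥ Pi.single d 1) ⬝ᵥ J *ᵥ w = _
    rw [mulVec_single_one]
    rfl
  rw [Mop_coe, h1]
  unfold M
  simp only [mulVec_mulVec, Matrix.mul_assoc]

theorem Mop_eta (s : Fin 3) (X : Matrix ι ι K) (x : Sg g) :
    ((Mop arm B g s (eta J g X x) : Sg g) : ι → K) = (M arm B s g g * J) *ᵥ (X *ᵥ (x : ι → K)) :=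
  Mop_of_rep s (fun y => by rw [eta_apply, mulVec_mulVec])

/-- the form `x ↦ (y ↦ yᵀ J Z x)` on `S^⊥ × S` -/
def yop (J : Matrix ι ι K) (g : Matrix ι δ K) (Z : Matrix ι ι K) : Sp J g →ₗ[K] Dual K (Sg g) where
  toFun x :=
    { toFun := fun y => (y : ι → K) ⬝ᵥ (J * Z) *ᵥ (x : ι → K)
      map_add' := by intro y y'; rw [Submodule.coe_add, add_dotProduct]
      map_smul' := by
        intro t y; rw [Submodule.coe_smul, smul_dotProduct, RingHom.id_apply] }
  map_add' := by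
    intro x x'
    ext y
    change (y : ι → K) ⬝ᵥ (J * Z) *ᵥ ((x + x' : Sp J g) : ι → K) = _
    rw [Submodule.coe_add, mulVec_add, dotProduct_add]; rfl
  map_smul' := by
    intro t x
    ext y
    change (y : ι → K) ⬝ᵥ (J * Z) *ᵥ ((t • x : Sp J g) : ι → K) = _
    rw [Submodule.coe_smul, mulVec_smul, dotProduct_smul]; rfl

theorem yop_apply (Z : Matrix ι ι K) (x : Sp J g) (y : Sg g) :
    yop J g Z x y = (y : ι → K) ⬝ᵥ (J * Z) *ᵥ (x : ι → K) := rfl

/-- a functional on `S` is determined by `gᵀ`. -/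
theorem dual_eq_of {ζ ζ' : Dual K (Sg g)} {w w' : ι → K}
    (h : ∀ y : Sg g, ζ y = (y : ι → K) ⬝ᵥ J *ᵥ w) (h' : ∀ y : Sg g, ζ' y = (y : ι → K) ⬝ᵥ J *ᵥ w')
    (he : (gᵀ * J) *ᵥ w = (gᵀ * J) *ᵥ w') : ζ = ζ' := by
  ext y
  rw [h, h']
  obtain ⟨u, hu⟩ := y.2
  rw [← hu, mulVecLin_apply, dotProduct_comm, dotProduct_comm (g *ᵥ u), dotProduct_mulVec,
    dotProduct_mulVec, ← mulVec_transpose, ← mulVec_transpose, mulVec_mulVec, mulVec_mulVec, he]

/-- **The claim in 342's form.** -/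
theorem Ctx.mixClaim (h : Ctx k arm J B N W g)
    (hNm : ∀ F, (∀ F' ∈ N, pair J B F' F = 0) → F ∈ N)
    (hWm : ∀ F, (∀ F' ∈ W, pair J B F' F = 0) → F ∈ W)
    (hc : Glue k arm J N W g) {f : Matrix ι δ K} (hf : f ∈ N ⊓ W)
    {p : Matrix ι ι K × (Fin 3 → Matrix ι ι K)} (hp : p ∈ NN arm J N g) :
    Mix.Claim (aop arm J B g f (h.perp f hf)) (eta J g p.1)
      (fun s => Mop arm B g s ∘ₗ eta J g p.1) (fun s => eta J g p.1 ∘ₗ Mop arm B g s) := by
  have hD := h.data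
  have hfp := h.perp f hf
  intro xi _ hxT hxsum
  obtain ⟨G, hG⟩ := exists_pinv g
  obtain ⟨Pi, hPi, hPi'⟩ := exists_proj hD.J_unit g
  obtain ⟨Ji, hJi⟩ := hD.J_unit.exists_right_inv
  have hJi' : Ji * J = 1 := by
    rw [mul_eq_one_comm] at hJi; exact hJi
  have hJit : Jiᵀ = Ji := by
    have h0 : J * Jiᵀ = 1 := by
      have := congrArg transpose hJi'
      rw [transpose_mul, transpose_one, hD.J_symm] at this
      exact this
    calc Jiᵀ = (Ji * J) * Jiᵀ := by rw [hJi', Matrix.one_mul]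
      _ = Ji := by rw [Matrix.mul_assoc, h0, Matrix.mul_one]
  have hPv : ∀ v : ι → K, Pi *ᵥ v ∈ Sp J g := by
    intro v; rw [mem_Sp, mulVec_mulVec, hPi, zero_mulVec]
  have hPv' : ∀ v ∈ Sp J g, Pi *ᵥ v = v := by
    intro v hv
    have h1 : gᵀ * J * (Matrix.of fun i (_ : Unit) => v i) = 0 := by
      ext a b
      have := congrFun (mem_Sp.1 hv) a
      rw [mul_apply]
      exact this
    have h2 := hPi' _ h1
    ext i
    have h3 := congrFun (congrFun h2 i) ()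
    rw [mul_apply] at h3
    exact h3
  -- extend `xi s`
  choose x' hx' using fun s => ((Sg g).subtype ∘ₗ xi s).exists_extend
  let x : Fin 3 → Matrix ι ι K := fun s => LinearMap.toMatrix' (x' s)
  have hx : ∀ s (v : Sp J g), x s *ᵥ (v : ι → K) = (xi s v : Sg g) := by
    intro s v
    have h1 : x s *ᵥ (v : ι → K) = x' s v := by
      change (LinearMap.toMatrix' (x' s)) *ᵥ (v : ι → K) = _
      rw [← Matrix.toLin'_apply, Matrix.toLin'_toMatrix']
    rw [h1]
    exact LinearMap.congr_fun (hx' s) v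
  let R : Fin 3 → Matrix ι ι K := fun s => x s * Pi - Ji * (x s * Pi)ᵀ * J
  have hR : ∀ s, Skw J (R s) := by
    intro s
    change Skw J (x s * Pi - Ji * (x s * Pi)ᵀ * J)
    generalize x s * Pi = Z
    unfold Skw
    have e1 : (Ji * Zᵀ * J)ᵀ = J * Z * Ji := by
      rw [transpose_mul, transpose_mul, transpose_transpose, hJit, hD.J_symm, Matrix.mul_assoc]
    have e2 : J * Z * Ji * J = J * Z := by rw [Matrix.mul_assoc, hJi', Matrix.mul_one]
    have e3 : J * (Ji * Zᵀ * J) = Zᵀ * J := by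
      rw [← Matrix.mul_assoc, ← Matrix.mul_assoc, hJi, Matrix.one_mul]
    rw [transpose_sub, e1, Matrix.mul_sub, e3, Matrix.sub_mul, e2]
    abel
  -- `x s * Pi` has values in `S`
  have hxP : ∀ s, g * G * (x s * Pi) = x s * Pi := by
    intro s
    refine ext_mulVec fun w => ?_
    have h1 := hx s ⟨Pi *ᵥ w, hPv w⟩
    obtain ⟨u, hu⟩ := (xi s ⟨Pi *ᵥ w, hPv w⟩).2
    have h2 : (x s * Pi) *ᵥ w = g *ᵥ u := by rw [← mulVec_mulVec, h1, ← hu]; rfl
    rw [← mulVec_mulVec, h2, mulVec_mulVec, hG]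
  have hRv : ∀ s (v : Sp J g), R s *ᵥ (v : ι → K) = (xi s v : Sg g) := by
    intro s v
    change (x s * Pi - Ji * (x s * Pi)ᵀ * J) *ᵥ (v : ι → K) = _
    have h1 : Ji * (x s * Pi)ᵀ * J = Ji * (G * (x s * Pi))ᵀ * (gᵀ * J) := by
      conv_lhs => rw [← hxP s]
      rw [Matrix.mul_assoc g G, transpose_mul g]
      simp only [Matrix.mul_assoc]
    rw [sub_mulVec, h1, ← mulVec_mulVec _ (Ji * (G * (x s * Pi))ᵀ) (gᵀ * J), mem_Sp.1 v.2,
      mulVec_zero, sub_zero, ← mulVec_mulVec, hPv' _ v.2, hx]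
  -- `S ⊆ T a`
  have hgS : ∀ u : δ → K, g *ᵥ u ∈ Sp J g := by
    intro u; rw [mem_Sp, mulVec_mulVec, h.iso, zero_mulVec]
  have hfgt : fᵀ * J * g = 0 := by
    have := congrArg transpose hfp
    rw [transpose_mul, transpose_mul, transpose_transpose, hD.J_symm, transpose_zero,
      ← Matrix.mul_assoc] at this
    exact this
  have hxS : ∀ s (u : δ → K), xi s ⟨g *ᵥ u, hgS u⟩ = 0 := by
    intro s u
    apply hxT
    refine St.mem_T.2 ⟨1, ?_⟩
    rw [St.mem_Nk_succ]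
    intro t
    rw [St.mem_Nk_zero]
    apply Subtype.ext
    rw [aop_coe]
    change (M arm B t f f * J) *ᵥ (g *ᵥ u) = 0
    rw [mulVec_mulVec]
    have : M arm B t f f * J * g = 0 := by
      unfold M
      have e : f * E K arm t * B * fᵀ * J * g = f * E K arm t * B * (fᵀ * J * g) := by
        simp only [Matrix.mul_assoc]
      rw [e, hfgt, Matrix.mul_zero]
    rw [this, zero_mulVec]
  have hRg : ∀ s, R s * g = 0 := by
    intro s
    refine ext_mulVec fun u => ?_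
    rw [← mulVec_mulVec, hRv s ⟨g *ᵥ u, hgS u⟩, hxS, zero_mulVec]
    rfl
  have hRP : ∀ s, g * G * (R s * Pi) = R s * Pi := by
    intro s
    refine ext_mulVec fun w => ?_
    have h1 := hRv s ⟨Pi *ᵥ w, hPv w⟩
    obtain ⟨u, hu⟩ := (xi s ⟨Pi *ᵥ w, hPv w⟩).2
    have h2 : (R s * Pi) *ᵥ w = g *ᵥ u := by
      rw [← mulVec_mulVec]
      change R s *ᵥ ((⟨Pi *ᵥ w, hPv w⟩ : Sp J g) : ι → K) = _
      rw [h1, ← hu]; rfl
    rw [← mulVec_mulVec, h2, mulVec_mulVec, hG]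
  have hPm : ∀ v : Matrix ι ι K, gᵀ * J * v = 0 → Pi * v = v := by
    intro v hv
    refine ext_mulVec fun w => ?_
    rw [← mulVec_mulVec]
    exact hPv' _ (by rw [mem_Sp, mulVec_mulVec, hv, zero_mulVec])
  obtain ⟨Z, hZ, hZg, hcl⟩ := h.claim hNm hWm hc hf hp hR hRg
    (by
      intro s v hv
      refine ⟨G * (R s * Pi) * v, ?_⟩
      calc R s * v = (R s * Pi) * v := by rw [Matrix.mul_assoc, hPm v hv]
        _ = (g * G * (R s * Pi)) * v := by rw [hRP]
        _ = _ := by simp only [Matrix.mul_assoc])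
    (by
      intro v hv
      refine ext_mulVec fun w => ?_
      rw [zero_mulVec]
      have hvw : v *ᵥ w ∈ Sp J g := by rw [mem_Sp, mulVec_mulVec, hv, zero_mulVec]
      have h1 := congrArg (fun y : Sg g => (y : ι → K)) (hxsum ⟨v *ᵥ w, hvw⟩)
      simp only [Submodule.coe_sum, Submodule.coe_sub, Submodule.coe_zero] at h1
      have h2 : ∀ s, (M arm B s g g * J * (p.1 * (R s * v)) - R s * (M arm B s f f * J * v)) *ᵥ w
          = - (((xi s (aop arm J B g f hfp s ⟨v *ᵥ w, hvw⟩) : Sg g) : ι → K)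
            - ((Mop arm B g s (eta J g p.1 (xi s ⟨v *ᵥ w, hvw⟩)) : Sg g) : ι → K)) := by
        intro s
        rw [Mop_eta, ← hRv, ← hRv, aop_coe, sub_mulVec, neg_sub]
        congr 1
        · simp only [← mulVec_mulVec]
        · simp only [← mulVec_mulVec]
      have h3 : (∑ s, (M arm B s g g * J * (p.1 * (R s * v)) - R s * (M arm B s f f * J * v))) *ᵥ w
          = ∑ s, (M arm B s g g * J * (p.1 * (R s * v)) - R s * (M arm B s f f * J * v)) *ᵥ w := by
        simp only [Fin.sum_univ_three, add_mulVec]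
      rw [h3, Finset.sum_congr rfl fun s _ => h2 s, Finset.sum_neg_distrib, neg_eq_zero]
      exact h1)
  refine ⟨yop J g Z, fun s v => ?_⟩
  -- both sides are represented
  have hA : ∀ y : Sg g, (eta J g p.1 (xi s v) - yop J g Z v) y
      = (y : ι → K) ⬝ᵥ J *ᵥ (p.1 *ᵥ (R s *ᵥ (v : ι → K)) - Z *ᵥ (v : ι → K)) := by
    intro y
    rw [LinearMap.sub_apply, eta_apply, yop_apply, ← hRv, ← dotProduct_sub, mulVec_sub,
      ← mulVec_mulVec, ← mulVec_mulVec]
  have hL : ∀ y : Sg g, ((eta J g p.1 ∘ₗ Mop arm B g s) (eta J g p.1 (xi s v) - yop J g Z v)) y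
      = (y : ι → K) ⬝ᵥ J *ᵥ (p.1 *ᵥ ((M arm B s g g * J) *ᵥ
        (p.1 *ᵥ (R s *ᵥ (v : ι → K)) - Z *ᵥ (v : ι → K)))) := by
    intro y
    rw [LinearMap.comp_apply, eta_apply, Mop_of_rep s hA, ← mulVec_mulVec _ J p.1]
  have hRr : ∀ y : Sg g, (eta J g p.1 (xi s (aop arm J B g f hfp s v))
        - yop J g Z (aop arm J B g f hfp s v)) y
      = (y : ι → K) ⬝ᵥ J *ᵥ (p.1 *ᵥ (R s *ᵥ ((M arm B s f f * J) *ᵥ (v : ι → K)))
        - Z *ᵥ ((M arm B s f f * J) *ᵥ (v : ι → K))) := by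
    intro y
    rw [LinearMap.sub_apply, eta_apply, yop_apply, ← hRv, ← dotProduct_sub, mulVec_sub,
      ← mulVec_mulVec, ← mulVec_mulVec, aop_coe]
  refine dual_eq_of hL hRr ?_
  have h1 := congrArg (fun A : Matrix δ ι K => A *ᵥ (v : ι → K)) (hcl s Pi hPi)
  simp only [← mulVec_mulVec, sub_mulVec, hPv' _ v.2] at h1
  simp only [← mulVec_mulVec]
  exact h1

end Crest.Agent.R172.Qt
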