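import Crest.Agent.R172.QCore
import Crest.Agent.R172.Qt7

/-!
Row 172 (S0260), node Q-Core, concrete part (helper28): the two sides of the mixed pair as
`QC.Side`:
(P) `X = S^⊥`, `a = aop`, `ω x y = xᵀ J y`;  (Q) `X = S = im g`, `a = Mop ∘ eta`, `ω = eta`.
-/

set_option autoImplicit false
set_option linter.unusedSectionVars false
set_option linter.unusedFintypeInType false
set_option linter.unusedDecidableInType false

namespace Crest.Agent.R172.QC

open Matrix Module Crest.Agent.R172.FO Crest.Agent.R172.Qt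
open Crest.Agent.R172.St (T)
open Crest.Agent.R172.Mix

variable {ι : Type*} [Fintype ι] [DecidableEq ι] {δ : Type*} [Fintype δ] [DecidableEq δ]
variable {k K : Type*} [Field k] [Field K] [Algebra k K]
variable {arm : δ → Fin 3} {J : Matrix ι ι K} {B : Matrix δ δ K}
  {N W : Submodule K (Matrix ι δ K)} {g f : Matrix ι δ K}

theorem mulVec_dot {m n : Type*} [Fintype m] [Fintype n] (A : Matrix m n K) (x : n → K)
    (z : m → K) : (A *ᵥ x) ⬝ᵥ z = x ⬝ᵥ Aᵀ *ᵥ z := by
  rw [dotProduct_mulVec, vecMul_transpose]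

theorem dot_mulVec_symm {A : Matrix ι ι K} (x y : ι → K) : x ⬝ᵥ A *ᵥ y = y ⬝ᵥ Aᵀ *ᵥ x := by
  rw [← mulVec_dot, dotProduct_comm]

/-! ### P-side -/

/-- the form `xᵀ J y` on `S^⊥` -/
def omP (J : Matrix ι ι K) (g : Matrix ι δ K) : Sp J g →ₗ[K] Sp J g →ₗ[K] K :=
  LinearMap.mk₂ K (fun x y => (x : ι → K) ⬝ᵥ J *ᵥ (y : ι → K))
    (fun x x' y => by rw [Submodule.coe_add, add_dotProduct])
    (fun t x y => by rw [Submodule.coe_smul, smul_dotProduct])
    (fun x y y' => by rw [Submodule.coe_add, mulVec_add, dotProduct_add])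
    (fun t x y => by rw [Submodule.coe_smul, mulVec_smul, dotProduct_smul])

theorem omP_apply (x y : Sp J g) : omP J g x y = (x : ι → K) ⬝ᵥ J *ᵥ (y : ι → K) := rfl

theorem EB_symm (hB : Bᵀ = B) (hBs : ∀ s, E K arm s * B = B * E K arm s) (s : Fin 3) :
    (E K arm s * B)ᵀ = E K arm s * B := by
  rw [transpose_mul, hB, E_transpose, hBs]

theorem Ms_symm (hB : Bᵀ = B) (hBs : ∀ s, E K arm s * B = B * E K arm s) (s : Fin 3)
    (f : Matrix ι δ K) : (M arm B s f f)ᵀ = M arm B s f f := by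
  unfold M
  rw [Matrix.mul_assoc f, transpose_mul, transpose_mul, transpose_transpose, EB_symm hB hBs]
  simp only [Matrix.mul_assoc]

/-- **the P-side** -/
theorem sideP (hJ : Jᵀ = J) (hB : Bᵀ = B) (hBs : ∀ s, E K arm s * B = B * E K arm s)
    (hf : gᵀ * J * f = 0) : Side (aop arm J B g f hf) (omP J g) 1 1 where
  symm x y := by
    rw [omP_apply, omP_apply, one_mul, dot_mulVec_symm, hJ]
  sq := one_mul 1
  adj s x y := by
    rw [omP_apply, omP_apply, one_mul, aop_coe, aop_coe, mulVec_dot, transpose_mul, hJ,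
      Ms_symm hB hBs, mulVec_mulVec, mulVec_mulVec]
    simp only [Matrix.mul_assoc]
  sq₂ := one_mul 1
  rad v hv s := by
    apply Subtype.ext
    rw [aop_coe, Submodule.coe_zero]
    have h1 : fᵀ *ᵥ (J *ᵥ (v : ι → K)) = 0 := by
      ext d
      have hm : f *ᵥ Pi.single d 1 ∈ Sp J g := by
        rw [mem_Sp, mulVec_mulVec, hf, zero_mulVec]
      have h2 := hv ⟨_, hm⟩
      rw [omP_apply, dot_mulVec_symm, hJ, mulVec_dot] at h2
      simpa using h2
    have e : (M arm B s f f * J) *ᵥ (v : ι → K)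
        = (f * E K arm s * B) *ᵥ (fᵀ *ᵥ (J *ᵥ (v : ι → K))) := by
      unfold M
      simp only [mulVec_mulVec, Matrix.mul_assoc]
    rw [e, h1, mulVec_zero]

/-! ### Q-side -/

theorem apply_mulVec (ζ : Dual K (Sg g)) (w : δ → K) (hw : g *ᵥ w ∈ Sg g) :
    ζ ⟨g *ᵥ w, hw⟩ = w ⬝ᵥ ev g ζ := by
  have h1 : (⟨g *ᵥ w, hw⟩ : Sg g)
      = ∑ d, w d • (⟨g *ᵥ Pi.single d 1, ⟨_, rfl⟩⟩ : Sg g) := by
    apply Subtype.ext
    rw [Submodule.coe_sum]
    change g *ᵥ w = ∑ d, w d • (g *ᵥ Pi.single d 1)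
    ext i
    rw [Finset.sum_apply]
    simp [mulVec, dotProduct, mul_comm]
  rw [h1, map_sum]
  refine Finset.sum_congr rfl fun d _ => ?_
  rw [map_smul]
  rfl

/-- `M_s : S^* → S` is symmetric -/
theorem Mop_symm (hB : Bᵀ = B) (hBs : ∀ s, E K arm s * B = B * E K arm s) (s : Fin 3)
    (ζ ζ' : Dual K (Sg g)) : ζ (Mop arm B g s ζ') = ζ' (Mop arm B g s ζ) := by
  have h1 : ∀ η η' : Dual K (Sg g), η (Mop arm B g s η')
      = ((E K arm s * B) *ᵥ ev g η') ⬝ᵥ ev g η := fun η η' => apply_mulVec η _ _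
  rw [h1, h1, mulVec_dot, EB_symm hB hBs, dotProduct_comm]

theorem eta_skew (hJ : Jᵀ = J) {X : Matrix ι ι K} (hX : Skw J X) (x y : Sg g) :
    eta J g X x y = - eta J g X y x := by
  rw [eta_apply, eta_apply, dot_mulVec_symm, transpose_mul, hJ, hX.eq, neg_mulVec,
    dotProduct_neg]

/-- **the Q-side** -/
theorem sideQ (hJ : Jᵀ = J) (hB : Bᵀ = B) (hBs : ∀ s, E K arm s * B = B * E K arm s)
    {X : Matrix ι ι K} (hX : Skw J X) :
    Side (fun s => Mop arm B g s ∘ₗ eta J g X) (eta J g X) (-1) (-1) where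
  symm x y := by rw [eta_skew hJ hX, neg_one_mul]
  sq := by ring
  adj s x y := by
    rw [neg_one_mul, LinearMap.comp_apply, LinearMap.comp_apply, eta_skew hJ hX,
      Mop_symm hB hBs]
  sq₂ := by ring
  rad v hv s := by
    have : eta J g X v = 0 := LinearMap.ext hv
    rw [LinearMap.comp_apply, this, map_zero]

end Crest.Agent.R172.QC
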