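import Crest.Agent.R172.QEndQ2
import Crest.Agent.R172.QAsmA
import Crest.Agent.R172.QCore2

/-!
Row 172 (S0260), t3, assembly: the Q-half.  From the single-arm memberships (conclusion of
`RJM.main` on the Q-side, pulled back to `P_S`) to `False`, type `(3,3,3)`.
-/

set_option autoImplicit false
set_option linter.unusedSectionVars false
set_option linter.unusedFintypeInType false
set_option linter.unusedDecidableInType false
set_option maxHeartbeats 400000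

namespace Crest.Agent.R172.QAsm

open Matrix Module TensorProduct Crest.Agent.R172.FO Crest.Agent.R172.Qt
open Crest.Agent.R172.Mix Crest.Agent.R172.QEndQ Crest.Agent.R172.QC

variable {ι : Type*} [Fintype ι] [DecidableEq ι] {δ : Type*} [Fintype δ] [DecidableEq δ]
variable {k K : Type*} [Field k] [Field K] [Algebra k K]
variable {arm : δ → Fin 3} {J : Matrix ι ι K} {B : Matrix δ δ K}
  {N W : Submodule K (Matrix ι δ K)} {g f : Matrix ι δ K}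

/-- `p ↦ gᵀ J X p` -/
def thQ (J : Matrix ι ι K) (g : Matrix ι δ K) (X : Matrix ι ι K) (P : Submodule K (Sg g)) :
    P →ₗ[K] (δ → K) :=
  (gᵀ * J * X).mulVecLin ∘ₗ (Sg g).subtype ∘ₗ P.subtype

theorem thQ_apply (X : Matrix ι ι K) (P : Submodule K (Sg g)) (p : P) :
    thQ J g X P p = (gᵀ * J * X) *ᵥ ((p : Sg g) : ι → K) := rfl

/-- the vectors `u` with `g u ∈ P` -/
def UQ (g : Matrix ι δ K) (P : Submodule K (Sg g)) : Submodule K (δ → K) :=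
  (P.map (Sg g).subtype).comap g.mulVecLin

theorem mem_UQ {P : Submodule K (Sg g)} {u : δ → K} :
    u ∈ UQ g P ↔ ∃ p : P, ((p : Sg g) : ι → K) = g *ᵥ u := by
  unfold UQ
  rw [Submodule.mem_comap, Submodule.mem_map]
  constructor
  · rintro ⟨x, hx, he⟩
    exact ⟨⟨x, hx⟩, he⟩
  · rintro ⟨p, hp⟩
    exact ⟨p.1, p.2, hp⟩

/-- **Q-half, abstract.** -/
theorem endQ_abs [CharZero K] (h : Ctx k arm J B N W g)
    {S : Type*} [AddCommGroup S] [Module K S] [FiniteDimensional K S]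
    {Y : Type*} [AddCommGroup Y] [Module K Y] {a : Fin 3 → End K Y}
    {wa : Y →ₗ[K] Y →ₗ[K] K} {Φ : Fin 3 → End K S} {wb : S →ₗ[K] S →ₗ[K] K} {l : Fin 3 → ℕ}
    (hP : QC.Pair a wa Φ wb l) (hl : ∀ s, l s = 3) {U : Submodule K (δ → K)}
    {θ : Pinf Φ →ₗ[K] (δ → K)} (hθ : ∀ p : Pinf Φ, ∃ v : ι → K, θ p = (gᵀ * J) *ᵥ v)
    (hw : ∀ y : Pinf Φ, ∃ u ∈ U, ∀ b : Pinf Φ, Pform Φ wb b y = u ⬝ᵥ θ b)
    (hq1 : ∀ t, ∀ r ∈ TP Φ, ∀ p : Pinf Φ,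
      qt θ t r p ∈ TT arm J N g U ∧ qt θ t p r ∈ TT arm J N g U)
    (hq2 : ∀ s i j, i + j + 1 = l s → ∀ p p' : Pinf Φ,
      qt θ s ((QBlk.ap Φ s ^ i) p) ((QBlk.ap Φ s ^ j) p') ∈ TT arm J N g U) : False := by
  obtain ⟨T, hT1, hT2, hT3⟩ := Q_end hP hl (q := fun t => qt θ t) hq1 hq2
  exact endQ h two_ne_zero hθ hw hT1 hT2 hT3

/-- **Q-half.** -/
theorem endQ_of_mem [CharZero K] (h : Ctx k arm J B N W g) {X : Matrix ι ι K}
    {Y : Type*} [AddCommGroup Y] [Module K Y] {a : Fin 3 → End K Y}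
    {wa : Y →ₗ[K] Y →ₗ[K] K} {Φ : Fin 3 → End K (Sg g)} {l : Fin 3 → ℕ}
    (hP : QC.Pair a wa Φ (eta J g X) l) (hl : ∀ s, l s = 3) {θ : Pinf Φ →ₗ[K] (δ → K)}
    (hθ : ∀ p : Pinf Φ, θ p = (gᵀ * J * X) *ᵥ ((p : Sg g) : ι → K))
    (hq1 : ∀ t, ∀ r ∈ TP Φ, ∀ p : Pinf Φ, qt θ t r p ∈ TT arm J N g (UQ g (Pinf Φ)) ∧
      qt θ t p r ∈ TT arm J N g (UQ g (Pinf Φ)))
    (hq2 : ∀ s i j, i + j + 1 = l s → ∀ p p' : Pinf Φ,
      qt θ s ((QBlk.ap Φ s ^ i) p) ((QBlk.ap Φ s ^ j) p') ∈ TT arm J N g (UQ g (Pinf Φ))) :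
    False := by
  have hθ' : ∀ p : Pinf Φ, ∃ v : ι → K, θ p = (gᵀ * J) *ᵥ v := fun p =>
    ⟨X *ᵥ ((p : Sg g) : ι → K), by rw [hθ, mulVec_mulVec]⟩
  have hw : ∀ y : Pinf Φ, ∃ u ∈ UQ g (Pinf Φ), ∀ b : Pinf Φ,
      Pform Φ (eta J g X) b y = u ⬝ᵥ θ b := by
    intro y
    obtain ⟨u, hu⟩ := (y : Sg g).2
    refine ⟨u, mem_UQ.2 ⟨y, hu.symm⟩, fun b => ?_⟩
    rw [Pform_apply, hθ]
    change ((y : Sg g) : ι → K) ⬝ᵥ (J * X) *ᵥ ((b : Sg g) : ι → K) = _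
    have hu' : ((y : Sg g) : ι → K) = g *ᵥ u := hu.symm
    rw [hu', ← vecMul_transpose, ← dotProduct_mulVec, mulVec_mulVec]
    simp only [Matrix.mul_assoc]
  exact endQ_abs h hP hl hθ' hw hq1 hq2

end Crest.Agent.R172.QAsm
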