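import Crest.Agent.R172.QBrQ1

/-!
Row 172 (S0260), (Q1)/(t3): the bridge, part 2: exact lifts and `hsum`.
-/

set_option autoImplicit false
set_option linter.unusedSectionVars false
set_option linter.unusedFintypeInType false
set_option linter.unusedDecidableInType false
set_option maxHeartbeats 800000

namespace Crest.Agent.R172.QBrQ

open Matrix Module Crest.Agent.R172.FO Crest.Agent.R172.Qt
open scoped TensorProduct

section lift

variable {K : Type*} [Field K]
variable {P2 Ph P1 : Type*} [AddCommGroup P2] [Module K P2] [AddCommGroup Ph] [Module K Ph]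
  [AddCommGroup P1] [Module K P1]

theorem exact_lift {π : Ph →ₗ[K] P1} (hπ : Function.Surjective π) {Φ : Fin 3 → End K Ph}
    {A : Fin 3 → End K P1} {Bo : Fin 3 → End K P2} (hA : ∀ s v, π (Φ s v) = A s (π v))
    (hker : ∀ s v, π v = 0 → Φ s v = 0) (hperf : ∀ p : P2, ∃ f : Fin 3 → P2, p = ∑ t, Bo t (f t))
    {c : K} (hc : c ≠ 0) {x : Fin 3 → P2 ⊗[K] P1}
    (hx : ∑ t, ((A t).lTensor P2 - c • (Bo t).rTensor P1) (x t) = 0) :
    ∃ xh : Fin 3 → P2 ⊗[K] Ph, (∀ t, π.lTensor P2 (xh t) = x t) ∧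
      ∑ t, ((Φ t).lTensor P2 - c • (Bo t).rTensor Ph) (xh t) = 0 := by
  have hsurj := LinearMap.lTensor_surjective P2 hπ
  choose x0 hx0 using fun t => hsurj (x t)
  have hcomm : ∀ t (y : P2 ⊗[K] Ph), π.lTensor P2 (((Φ t).lTensor P2 - c • (Bo t).rTensor Ph) y)
      = ((A t).lTensor P2 - c • (Bo t).rTensor P1) (π.lTensor P2 y) := by
    intro t y
    induction y using TensorProduct.induction_on with
    | zero => simp
    | add a b ha hb => rw [map_add, map_add, map_add, map_add, ha, hb]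
    | tmul p v => simp [hA]
  set E0 := ∑ t, ((Φ t).lTensor P2 - c • (Bo t).rTensor Ph) (x0 t) with hE0
  have h0 : π.lTensor P2 E0 = 0 := by
    rw [hE0, map_sum]
    simp only [hcomm, hx0]
    exact hx
  have hexact : Function.Exact ((LinearMap.ker π).subtype.lTensor P2) (π.lTensor P2) :=
    lTensor_exact P2 (LinearMap.exact_subtype_ker_map π) hπ
  obtain ⟨z, hz⟩ := (hexact E0).1 h0
  have key : ∀ z : P2 ⊗[K] (LinearMap.ker π), ∃ y : Fin 3 → P2 ⊗[K] Ph,
      (∀ t, π.lTensor P2 (y t) = 0) ∧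
      ∑ t, ((Φ t).lTensor P2 - c • (Bo t).rTensor Ph) (y t)
        = - (LinearMap.ker π).subtype.lTensor P2 z := by
    intro z
    induction z using TensorProduct.induction_on with
    | zero => exact ⟨0, by simp, by simp⟩
    | add a b ha hb =>
      obtain ⟨y, hy, hy'⟩ := ha
      obtain ⟨y2, hy2, hy2'⟩ := hb
      refine ⟨fun t => y t + y2 t, fun t => by rw [map_add, hy, hy2, add_zero], ?_⟩
      simp only [map_add]
      rw [Finset.sum_add_distrib, hy', hy2', neg_add]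
    | tmul p v =>
      obtain ⟨f, hf⟩ := hperf p
      refine ⟨fun t => c⁻¹ • (f t ⊗ₜ[K] (v : Ph)), fun t => ?_, ?_⟩
      · rw [map_smul, LinearMap.lTensor_tmul, LinearMap.mem_ker.1 v.2]
        simp
      · have h1 : ∀ t, ((Φ t).lTensor P2 - c • (Bo t).rTensor Ph) (c⁻¹ • (f t ⊗ₜ[K] (v : Ph)))
            = - ((Bo t (f t)) ⊗ₜ[K] (v : Ph)) := by
          intro t
          rw [map_smul, LinearMap.sub_apply, LinearMap.lTensor_tmul, LinearMap.smul_apply,
            LinearMap.rTensor_tmul, hker t _ (LinearMap.mem_ker.1 v.2), TensorProduct.tmul_zero,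
            zero_sub, smul_neg, smul_smul, inv_mul_cancel₀ hc, one_smul]
        simp only [h1]
        rw [Finset.sum_neg_distrib, ← TensorProduct.sum_tmul, ← hf]
        simp
  obtain ⟨y, hy, hy'⟩ := key z
  refine ⟨fun t => x0 t + y t, fun t => by rw [map_add, hx0, hy, add_zero], ?_⟩
  simp only [map_add]
  rw [Finset.sum_add_distrib, hy', ← hE0, hz, add_neg_cancel]

end lift

variable {ι : Type*} [Fintype ι] [DecidableEq ι] {δ : Type*} [Fintype δ] [DecidableEq δ]
variable {k K : Type*} [Field k] [Field K] [Algebra k K]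
variable {arm : δ → Fin 3} {J : Matrix ι ι K} {B : Matrix δ δ K}
  {N W : Submodule K (Matrix ι δ K)} {g f : Matrix ι δ K} {X : Matrix ι ι K}
variable {P2 Ph P1 : Type*} [AddCommGroup P2] [Module K P2] [AddCommGroup Ph] [Module K Ph]
  [AddCommGroup P1] [Module K P1]
variable {i2 : P2 →ₗ[K] (ι → K)} {Bo : Fin 3 → End K P2}
  {i1 : Ph →ₗ[K] (ι → K)} {Φ : Fin 3 → End K Ph} {π : Ph →ₗ[K] P1} {θ : P1 →ₗ[K] (δ → K)}
  {A : Fin 3 → End K P1}

theorem ext_vec {α β : Type*} [Fintype β] [DecidableEq β] {C D : Matrix α β K}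
    (h : ∀ w, C *ᵥ w = D *ᵥ w) : C = D :=
  Matrix.mulVec_injective (funext h)

theorem M_tr (hD : Data k arm J B N W) (f : Matrix ι δ K) (s : Fin 3) :
    (M arm B s f f)ᵀ = M arm B s f f := by
  unfold M
  rw [transpose_mul, transpose_mul, transpose_mul, transpose_transpose, hD.B_symm, E_transpose]
  calc f * (B * (E K arm s * fᵀ)) = f * (B * E K arm s) * fᵀ := by simp only [Matrix.mul_assoc]
    _ = f * (E K arm s * B) * fᵀ := by rw [hD.B_arm]
    _ = _ := by simp only [Matrix.mul_assoc]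

theorem hsum_of (hD : Data k arm J B N W) (hgf : gᵀ * J * f = 0)
    (hS : Su arm J B g f X i2 Bo i1 Φ π θ A) {c : K} (hc : c ≠ 0) {xh : Fin 3 → P2 ⊗[K] Ph}
    (hx : ∑ t, ((Φ t).lTensor P2 - c • (Bo t).rTensor Ph) (xh t) = 0)
    (v : Matrix ι ι K) (hv : gᵀ * J * v = 0) :
    ∑ s, (M arm B s g g * J * ((c⁻¹ • X) * (RR J i2 i1 (xh s) * v))
      - RR J i2 i1 (xh s) * (M arm B s f f * J * v)) = 0 := by
  apply ext_vec
  intro w0
  set w := v *ᵥ w0 with hw
  have hw0 : (gᵀ * J) *ᵥ w = 0 := by rw [hw, mulVec_mulVec, hv, zero_mulVec]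
  have hMw : ∀ s, (gᵀ * J) *ᵥ ((M arm B s f f * J) *ᵥ w) = 0 := by
    intro s
    rw [mulVec_mulVec]
    have : gᵀ * J * (M arm B s f f * J) = 0 := by
      unfold M
      calc gᵀ * J * (f * E K arm s * B * fᵀ * J) = (gᵀ * J * f) * (E K arm s * B * fᵀ * J) := by
            simp only [Matrix.mul_assoc]
        _ = 0 := by rw [hgf, Matrix.zero_mul]
    rw [this, zero_mulVec]
  have h1 : ∀ s, (M arm B s g g * J * ((c⁻¹ • X) * (RR J i2 i1 (xh s) * v))
      - RR J i2 i1 (xh s) * (M arm B s f f * J * v)) *ᵥ w0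
      = c⁻¹ • i1 (eva J i2 w (((Φ s).lTensor P2 - c • (Bo s).rTensor Ph) (xh s))) := by
    intro s
    rw [sub_mulVec]
    have e1 : (M arm B s g g * J * ((c⁻¹ • X) * (RR J i2 i1 (xh s) * v))) *ᵥ w0
        = c⁻¹ • ((M arm B s g g * J * X) *ᵥ (RR J i2 i1 (xh s) *ᵥ w)) := by
      rw [hw, mulVec_mulVec, mulVec_mulVec, ← smul_mulVec]
      congr 1
      simp only [Matrix.smul_mul, Matrix.mul_smul, Matrix.mul_assoc]
    have e2 : (RR J i2 i1 (xh s) * (M arm B s f f * J * v)) *ᵥ w0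
        = RR J i2 i1 (xh s) *ᵥ ((M arm B s f f * J) *ᵥ w) := by
      rw [hw, mulVec_mulVec, mulVec_mulVec, ]
      simp only [Matrix.mul_assoc]
    rw [e1, e2, RR_vec hD.J_symm hS.hi1 _ _ hw0, RR_vec hD.J_symm hS.hi1 _ _ (hMw s),
      eva_B (M_tr hD f) hD.J_symm hS.hB, ← hS.hΦ, LinearMap.sub_apply, map_sub, map_sub,
      LinearMap.smul_apply, map_smul, map_smul, smul_sub, smul_smul c⁻¹ c, inv_mul_cancel₀ hc,
      one_smul]
    congr 2
    congr 1
    have := eva_Φ (J := J) (i2 := i2) (1 : K) (Φ := Φ) s (xh s) w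
    rw [one_smul, one_smul] at this
    exact this
  rw [Matrix.zero_mulVec, Matrix.sum_mulVec]
  rw [Finset.sum_congr rfl fun s _ => h1 s, ← Finset.smul_sum, ← map_sum, ← map_sum, hx, map_zero,
    map_zero, smul_zero]

end Crest.Agent.R172.QBrQ
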