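import Crest.Agent.R172.QEndP
import Crest.Agent.R172.SpEx

/-!
Row 172 (S0260), node Q-ENDP, part 2: the END of the P-side of (t3) in the interface of the span
lemmas (`RJ1.main`, `Span2`): `q_r(p, p') = (p p'ᵀ J) f E_r`, `Q = SSp`.
-/

set_option autoImplicit false
set_option linter.unusedSectionVars false
set_option linter.unusedFintypeInType false
set_option linter.unusedDecidableInType false

namespace Crest.Agent.R172.QEndP

open Matrix Module TensorProduct Crest.Agent.R172.FO Crest.Agent.R172.Qt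
open Crest.Agent.R172.Mix
open Crest.Agent.R172.St (T)

section abs

variable {K : Type*} [Field K] {X : Type*} [AddCommGroup X] [Module K X] {ι : Type*}
variable {b : LinearMap.BilinForm K X} {a : ι → End K X}

theorem ev_TP [FiniteDimensional K X] (h : FH b a) (t : Pinf a ⊗[K] Pinf a) {r : Pinf a}
    (hr : r ∈ TP a) : ev b a t r = 0 := by
  induction t using TensorProduct.induction_on with
  | zero => simp
  | tmul x y =>
    have h1 : BP b a y r = 0 := by
      rw [BP_apply, h.symm]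
      exact h.mem_T_iff.1 hr y y.2
    rw [ev_tmul, ← BP_apply, h1, zero_smul]
  | add x y hx hy => rw [map_add, LinearMap.add_apply, hx, hy, add_zero]

theorem exists_lifts [FiniteDimensional K X] (h : FH b a) (t : Pinf a ⊗[K] Pinf a) :
    ∃ A : End K (Cor a), Lifts (ev b a t) A :=
  ⟨(TP a).liftQ ((TP a).mkQ ∘ₗ ev b a t) (fun r hr => by
    rw [LinearMap.mem_ker, LinearMap.comp_apply, ev_TP h t hr, map_zero]), fun _ => rfl⟩

theorem ct_ev (x y : Pinf a) (t : Pinf a ⊗[K] Pinf a) :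
    SPE.ct (BP b a) x y t = BP b a (ev b a t y) x := by
  induction t using TensorProduct.induction_on with
  | zero => simp
  | tmul p q =>
    rw [SPE.ct_tmul, ev_tmul, map_smul, LinearMap.smul_apply, smul_eq_mul, mul_comm, BP_apply]
  | add p q hp hq => rw [map_add, map_add, hp, hq, LinearMap.add_apply, map_add,
      LinearMap.add_apply]

/-- abstract form of the END: an alternating tensor, in `S` at all arms, whose operator is not
symmetric -/
theorem P_end_abs [FiniteDimensional K X] [CharZero K] {a : Fin 3 → End K X} (h : FH b a)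
    {l : Fin 3 → ℕ} (h1 : ∀ s, 1 ≤ l s) (hsum : ∑ s, (1 - 1 / (l s : ℚ)) = 2)
    (hl : ∀ s, ac a s ^ l s = 0)
    (hfree : ∀ s, l s * finrank K (LinearMap.ker (ac a s)) = finrank K (Cor a))
    (hpos : 0 < finrank K (Cor a)) (h333 : (∀ s, l s = 3) → 3 < finrank K (Cor a))
    {E : Type*} [AddCommGroup E] [Module K E] (q : Fin 3 → (Pinf a ⊗[K] Pinf a) →ₗ[K] E)
    (S : Submodule K E)
    (hq1 : ∀ s, ∀ r ∈ TP a, ∀ p : Pinf a, q s (r ⊗ₜ p) ∈ S)
    (hq2 : ∀ s, ∀ r ∈ TP a, ∀ p : Pinf a, q s (p ⊗ₜ r) ∈ S)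
    (hq3 : ∀ s i j, i + j + 1 = l s → ∀ p p' : Pinf a,
      q s (((ap a s ^ i) p) ⊗ₜ ((ap a s ^ j) p')) ∈ S) :
    ∃ t : Pinf a ⊗[K] Pinf a, (∀ s, q s t ∈ S) ∧
      ¬ ∀ x y : Pinf a, BP b a (ev b a t x) y = BP b a x (ev b a t y) := by
  obtain ⟨t, ht1, ⟨x, y, hxy⟩, ht3⟩ := SPE.P_end (P := Pinf a) (R := TP a) (BP b a)
    (fun x y => by rw [BP_apply, BP_apply, h.symm])
    (fun x => by
      rw [mem_TP, h.mem_T_iff]
      exact ⟨fun hx y => hx y y.2, fun hx z hz => hx ⟨z, hz⟩⟩)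
    (Φ := ap a)
    (fun s x y => by rw [BP_apply, BP_apply, ap_coe, ap_coe, h.sa])
    (Φq := ac a) (fun s x => rfl) h1 hsum hl hfree hpos h333
    (q := fun s => (TensorProduct.mk K _ _).compr₂ (q s)) (S := S)
    (fun s r hr p => hq1 s r hr p) (fun s r hr p => hq2 s r hr p)
    (fun s i j hij p p' => hq3 s i j hij p p')
  refine ⟨t, fun s => ?_, fun h5 => ?_⟩
  · have h3 := ht3 s
    rw [TensorProduct.lift_mk_compr₂] at h3
    exact h3
  have h6 := SPE.ct_comm (BP b a) x y t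
  rw [ht1, map_neg, ct_ev, ct_ev] at h6
  have h8 : BP b a (ev b a t y) x = BP b a (ev b a t x) y := by
    rw [h5, BP_apply, BP_apply, h.symm]
  have h7 : (2 : K) * BP b a (ev b a t y) x = 0 := by
    linear_combination -h6 + h8
  apply hxy
  rw [ct_ev, (mul_eq_zero.1 h7).resolve_left two_ne_zero]

end abs

variable {ι : Type*} [Fintype ι] [DecidableEq ι] {δ : Type*} [Fintype δ] [DecidableEq δ]
variable {k K : Type*} [Field k] [Field K] [Algebra k K]
variable {arm : δ → Fin 3} {J : Matrix ι ι K} {B : Matrix δ δ K}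
  {N W : Submodule K (Matrix ι δ K)} {g f : Matrix ι δ K}

/-- tensors `t` with `t f ∈ 𝒮` are symmetric modulo the radical -/
theorem symm_ev (h : Ctx k arm J B N W g)
    (hNm : ∀ F, (∀ F' ∈ N, pair J B F' F = 0) → F ∈ N)
    (hWm : ∀ F, (∀ F' ∈ W, pair J B F' F = 0) → F ∈ W) (hf : f ∈ N ⊓ W)
    {t : Pinf (aop arm J B g f (h.perp f hf)) ⊗[K] Pinf (aop arm J B g f (h.perp f hf))}
    (ht : mt J g _ t * f ∈ SSp arm J B N W g f (h.perp f hf))
    (p q : Pinf (aop arm J B g f (h.perp f hf))) :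
    BP (bS J g) _ (ev (bS J g) _ t p) q = BP (bS J g) _ p (ev (bS J g) _ t q) := by
  obtain ⟨A, hA⟩ := exists_lifts (FHS h hf) t
  have h1 := symm_of_SSp h hNm hWm hf hA ht (Submodule.Quotient.mk p) (Submodule.Quotient.mk q)
  rw [← hA p, ← hA q, BC_mk, BC_mk] at h1
  exact h1

/-- `t ↦ t f E_s` -/
noncomputable def Lm (arm : δ → Fin 3) (J : Matrix ι ι K) (g f : Matrix ι δ K)
    (P : Submodule K (Sp J g)) (s : Fin 3) : (P ⊗[K] P) →ₗ[K] Matrix ι δ K where
  toFun t := mt J g P t * f * E K arm s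
  map_add' t t' := by rw [map_add, Matrix.add_mul, Matrix.add_mul]
  map_smul' c t := by rw [map_smul, Matrix.smul_mul, Matrix.smul_mul]; rfl

theorem Lm_apply (P : Submodule K (Sp J g)) (s : Fin 3) (t : P ⊗[K] P) :
    Lm arm J g f P s t = mt J g P t * f * E K arm s := rfl

/-- **END of the P-side of (t3), the interface of the span lemmas.** -/
theorem endP_span [CharZero K] (h : Ctx k arm J B N W g)
    (hNm : ∀ F, (∀ F' ∈ N, pair J B F' F = 0) → F ∈ N)
    (hWm : ∀ F, (∀ F' ∈ W, pair J B F' F = 0) → F ∈ W) (hf : f ∈ N ⊓ W)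
    (l : Fin 3 → ℕ) (h1 : ∀ s, 1 ≤ l s) (hsum : ∑ s, (1 - 1 / (l s : ℚ)) = 2)
    (hl : ∀ s, ac (aop arm J B g f (h.perp f hf)) s ^ l s = 0)
    (hfree : ∀ s, l s * finrank K (LinearMap.ker (ac (aop arm J B g f (h.perp f hf)) s))
      = finrank K (Cor (aop arm J B g f (h.perp f hf))))
    (hpos : 0 < finrank K (Cor (aop arm J B g f (h.perp f hf))))
    (h333 : (∀ s, l s = 3) → 3 < finrank K (Cor (aop arm J B g f (h.perp f hf))))
    (hq1 : ∀ s, ∀ r ∈ TP (aop arm J B g f (h.perp f hf)), ∀ p,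
      mt J g (Pinf (aop arm J B g f (h.perp f hf))) (r ⊗ₜ p) * f * E K arm s
        ∈ SSp arm J B N W g f (h.perp f hf))
    (hq2 : ∀ s, ∀ r ∈ TP (aop arm J B g f (h.perp f hf)), ∀ p,
      mt J g (Pinf (aop arm J B g f (h.perp f hf))) (p ⊗ₜ r) * f * E K arm s
        ∈ SSp arm J B N W g f (h.perp f hf))
    (hq3 : ∀ s i j, i + j + 1 = l s → ∀ p p',
      mt J g (Pinf (aop arm J B g f (h.perp f hf)))
        (((ap (aop arm J B g f (h.perp f hf)) s ^ i) p) ⊗ₜ
          ((ap (aop arm J B g f (h.perp f hf)) s ^ j) p')) * f * E K arm s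
        ∈ SSp arm J B N W g f (h.perp f hf)) : False := by
  obtain ⟨t, ht3, h5⟩ := P_end_abs (FHS h hf) h1 hsum hl hfree hpos h333
    (Lm arm J g f (Pinf (aop arm J B g f (h.perp f hf))))
    (SSp arm J B N W g f (h.perp f hf)) hq1 hq2 hq3
  have ht4 : mt J g (Pinf (aop arm J B g f (h.perp f hf))) t * f
      ∈ SSp arm J B N W g f (h.perp f hf) := by
    have e1 : mt J g (Pinf (aop arm J B g f (h.perp f hf))) t * f
        = ∑ s, mt J g (Pinf (aop arm J B g f (h.perp f hf))) t * f * E K arm s := by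
      rw [← Matrix.mul_sum, sum_E, Matrix.mul_one]
    rw [e1]
    exact Submodule.sum_mem _ fun s _ => ht3 s
  exact h5 (symm_ev h hNm hWm hf ht4)

end Crest.Agent.R172.QEndP
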