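import Crest.Agent.R172.Qt11

/-!
Row 172 (S0260), (Q1)/(t3): the product formulas of two gluing families, P-side and Q-side.
-/

set_option autoImplicit false
set_option linter.unusedSectionVars false
set_option linter.unusedFintypeInType false
set_option linter.unusedDecidableInType false
set_option maxHeartbeats 800000

namespace Crest.Agent.R172.Qt

open Matrix Module Crest.Agent.R172.FO

variable {ι : Type*} [Fintype ι] [DecidableEq ι] {δ : Type*} [Fintype δ] [DecidableEq δ]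
variable {k K : Type*} [Field k] [Field K] [Algebra k K]
variable {arm : δ → Fin 3} {J : Matrix ι ι K} {B : Matrix δ δ K}
  {N W : Submodule K (Matrix ι δ K)} {g : Matrix ι δ K}

/-- every `κ : S → S^⊥` is the restriction of a skew map -/
theorem Ctx.skew_ext (h : Ctx k arm J B N W g) {κ : Matrix ι ι K}
    (hκ : gᵀ * J * (κ * g) = 0) : ∃ X : Matrix ι ι K, Skw J X ∧ X * g = κ * g := by
  have hD := h.data
  obtain ⟨G, hG⟩ := exists_pinv g
  obtain ⟨Ji, hJi⟩ := hD.J_unit.exists_right_inv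
  have hJi' : Ji * J = 1 := by
    rw [mul_eq_one_comm] at hJi; exact hJi
  refine ⟨κ * (g * G) - Ji * (κ * (g * G))ᵀ * J, ?_, ?_⟩
  · unfold Skw
    rw [transpose_sub, transpose_mul (Ji * _), transpose_mul Ji, transpose_transpose, hD.J_symm]
    have hJit : J * Jiᵀ = 1 := by
      have := congrArg transpose hJi'
      rw [transpose_mul, transpose_one, hD.J_symm] at this
      exact this
    have hJit' : Jiᵀ * J = 1 := by
      rw [mul_eq_one_comm] at hJit; exact hJit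
    generalize κ * (g * G) = Y
    rw [Matrix.sub_mul, Matrix.mul_sub]
    have e1 : J * (Y * Jiᵀ) * J = J * Y := by
      calc J * (Y * Jiᵀ) * J = J * Y * (Jiᵀ * J) := by simp only [Matrix.mul_assoc]
        _ = _ := by rw [hJit', Matrix.mul_one]
    have e2 : J * (Ji * Yᵀ * J) = Yᵀ * J := by
      calc J * (Ji * Yᵀ * J) = (J * Ji) * Yᵀ * J := by simp only [Matrix.mul_assoc]
        _ = _ := by rw [hJi, Matrix.one_mul]
    rw [e1, e2]
    abel
  · have h1 : κ * (g * G) * g = κ * g := by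
      rw [Matrix.mul_assoc, hG]
    have h2 : (κ * (g * G))ᵀ * J * g = Gᵀ * (gᵀ * J * (κ * g))ᵀ := by
      rw [transpose_mul (gᵀ * J), transpose_mul gᵀ, transpose_transpose, hD.J_symm,
        transpose_mul κ g, transpose_mul κ, transpose_mul g]
      simp only [Matrix.mul_assoc]
    rw [Matrix.sub_mul, h1, Matrix.mul_assoc (Ji * _), Matrix.mul_assoc Ji,
      ← Matrix.mul_assoc _ J g, h2, hκ, transpose_zero, Matrix.mul_zero, Matrix.mul_zero, sub_zero]

/-- **HARM**: a family `κ_s : S → S^⊥` perpendicular to `E₁` is harmless. -/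
theorem Ctx.harm (h : Ctx k arm J B N W g) {κ : Fin 3 → Matrix ι ι K}
    (hκ : ∀ s, gᵀ * J * (κ s * g) = 0)
    (hq : ∀ q ∈ NN arm J N g, gᵀ * J * (q.1 * g) = 0 → pair J B (q.1 * g) (act arm κ g) = 0) :
    ∃ (v0 : Matrix ι ι K), gᵀ * J * (v0 * g) = 0 ∧ ∃ n ∈ N, ∃ C : Matrix δ δ K,
      act arm κ g = v0 * g + n + g * C := by
  choose X hX hXg using fun s => h.skew_ext (hκ s)
  have hact : act arm X g = act arm κ g := by
    unfold act
    refine Finset.sum_congr rfl fun s _ => ?_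
    rw [hXg]
  obtain ⟨Z, Q, hZ, hZg, hQ, hC⟩ := h.h1 hX (fun s => by rw [hXg]; exact hκ s)
    (fun q hq1 hq0 => by rw [hact]; exact hq q hq1 hq0)
  choose C hC using hC
  refine ⟨Z, hZg, - act arm Q g, N.neg_mem (hQ.pres g h.memN), - ∑ s, C s * E K arm s, ?_⟩
  rw [← hact]
  have h1 : act arm (fun s => Z - X s - Q s) g = g * ∑ s, C s * E K arm s :=
    act_mul_const arm _ g hC
  rw [act_sub_left arm (fun s => Z - X s) Q, act_sub_left arm (fun _ => Z) X, act_const] at h1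
  rw [Matrix.mul_neg, ← h1]
  abel

/-- `z₁ M_s = 0` for the `E₁`-part of a gluing family. -/
theorem Ctx.z1M (h : Ctx k arm J B N W g) {f : Matrix ι δ K} (hf : f ∈ N ⊓ W)
    {R : Fin 3 → Matrix ι ι K} (hR : ∀ s, Skw J (R s)) (hRg : ∀ s, R s * g = 0)
    (hRf : ∃ C : Matrix δ δ K, act arm R f = g * C)
    {p1 : Matrix ι ι K × (Fin 3 → Matrix ι ι K)} (hp1 : p1 ∈ NN arm J N g)
    {e : Matrix ι δ K} (heW : e ∈ W) (heS : ∃ C : Matrix δ δ K, e = g * C)
    (hν : e - act arm R f + Pg arm g p1 ∈ N)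
    (s : Fin 3) {v : Matrix ι ι K} (hv : gᵀ * J * v = 0) :
    M arm B s g g * J * p1.1 * v = 0 := by
  have hD := h.data
  refine h.test (N' := M arm B s g g * J * p1.1) (A' := E K arm s * B * gᵀ * J * p1.1) ?_ ?_ hv
  · unfold M; simp only [Matrix.mul_assoc]
  · intro X0 hX0 hX0g
    -- the one-arm direction
    set X : Fin 3 → Matrix ι ι K := Pi.single s X0 with hX
    have hXs : ∀ t, Skw J (X t) := by
      intro t
      rcases eq_or_ne t s with rfl | hts
      · rw [hX, Pi.single_eq_same]; exact hX0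
      · rw [hX, Pi.single_eq_of_ne hts]; exact Skw.zero
    have hXS : ∀ t, gᵀ * J * (X t * g) = 0 := by
      intro t
      rcases eq_or_ne t s with rfl | hts
      · rw [hX, Pi.single_eq_same]; exact hX0g
      · rw [hX, Pi.single_eq_of_ne hts]; simp
    have hpt := h.pair_trace hp1.1 X
    have hsum : ∑ t, trace (M arm B t g g * J * p1.1 * X t)
        = trace (M arm B s g g * J * p1.1 * X0) := by
      rw [Finset.sum_eq_single s]
      · rw [hX, Pi.single_eq_same]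
      · intro t _ hts
        rw [hX, Pi.single_eq_of_ne hts, Matrix.mul_zero, trace_zero]
      · intro hs; exact absurd (Finset.mem_univ s) hs
    rw [hsum] at hpt
    rw [← neg_eq_zero, ← hpt]
    obtain ⟨d, hd⟩ := hD.dir X 0 hXs (by simp)
    obtain ⟨Y, hY, hYN, hYg⟩ := h.frame d
    have haW : g.map d ∈ W := by
      have h8 := hd.onW g h.memW
      rw [transpose_zero, Matrix.mul_zero, sub_zero] at h8
      exact h8
    have hνN : g.map d - act arm X g ∈ N := hd.onN g h.memN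
    have hXg : gᵀ * J * act arm X g = 0 := by
      unfold act
      rw [Matrix.mul_sum]
      refine Finset.sum_eq_zero fun t _ => ?_
      rw [← Matrix.mul_assoc, hXS, Matrix.zero_mul]
    obtain ⟨C0, hC0⟩ := hYg 0
    obtain ⟨CR, hCR⟩ := hRf
    obtain ⟨Ce, hCe⟩ := heS
    set ν' : Matrix ι δ K := g.map d - act arm X g with hν'
    have hactX : act arm X g = g.map d - ν' := by rw [hν']; abel
    have e1 : pair J B (p1.1 * g) (act arm X g) = - pair J B (p1.1 * g) ν' := by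
      rw [hactX, pair_sub_right, pair_W hD (h.W_mul _ h.memW) haW, zero_sub]
    have e2 : p1.1 * g = Pg arm g p1 + act arm p1.2 g := by unfold Pg; abel
    have e3 : pair J B (p1.1 * g) ν' = pair J B (Pg arm g p1) ν' := by
      rw [e2, pair_add_left, h.pair_N (hp1.2.1.pres g h.memN) hνN, add_zero]
    have e4 : Pg arm g p1 = (e - act arm R f + Pg arm g p1) - e + act arm R f := by abel
    have e5 : pair J B (Pg arm g p1) ν' = - pair J B e ν' + pair J B (act arm R f) ν' := by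
      rw [e4, pair_add_left, pair_sub_left, h.pair_N hν hνN, zero_sub]
    have e6 : pair J B e ν' = 0 := by
      rw [hν', pair_sub_right, pair_W hD heW haW, zero_sub, hCe, pair_S hXg, neg_zero]
    have e7 : pair J B (act arm R f) ν' = pair J B (act arm R f) (Y 0 * g) := by
      have h1 : gᵀ * J * (ν' - Y 0 * g) = 0 := by
        have h2 : ν' - Y 0 * g = g * C0 - act arm X g := by rw [hν', ← hC0]; abel
        rw [h2, Matrix.mul_sub, hXg, sub_zero, ← Matrix.mul_assoc, h.iso, Matrix.zero_mul]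
      have h3 : pair J B (act arm R f) (ν' - Y 0 * g) = 0 := by
        rw [hCR]; exact pair_S h1 CR
      rw [pair_sub_right, sub_eq_zero] at h3
      exact h3
    have e8 : pair J B (act arm R f) (Y 0 * g) = 0 := by
      unfold act
      rw [Ctx.pair_sum_left]
      refine Finset.sum_eq_zero fun t _ => ?_
      have hgJR : gᵀ * J * R t = 0 := gJR (hR t) (hRg t)
      have hsy : M arm B t f g = M arm B t g f := hD.symm_arm hf h.mem t
      have h1 : (R t * f * E K arm t)ᵀ * J = - (E K arm t * fᵀ * J * R t) := by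
        rw [transpose_mul, transpose_mul, E_transpose]
        calc E K arm t * (fᵀ * (R t)ᵀ) * J = E K arm t * fᵀ * ((R t)ᵀ * J) := by
              simp only [Matrix.mul_assoc]
          _ = _ := by rw [(hR t).eq]; simp only [Matrix.mul_neg, Matrix.mul_assoc]
      unfold pair
      rw [h1, Matrix.neg_mul, Matrix.neg_mul, trace_neg, neg_eq_zero]
      have h2 : E K arm t * fᵀ * J * R t * (Y 0 * g) * B
          = E K arm t * (fᵀ * J * R t * Y 0 * (g * B)) := by
        simp only [Matrix.mul_assoc]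
      rw [h2, trace_mul_comm]
      have h3 : fᵀ * J * R t * Y 0 * (g * B) * E K arm t
          = fᵀ * (J * R t * Y 0 * (g * (B * E K arm t))) := by
        simp only [Matrix.mul_assoc]
      rw [h3, trace_mul_comm, ← hD.B_arm]
      have h4 : J * R t * Y 0 * (g * (E K arm t * B)) * fᵀ
          = J * R t * Y 0 * M arm B t g f := by
        unfold M; simp only [Matrix.mul_assoc]
      rw [h4, ← hsy]
      have h5 : J * R t * Y 0 * M arm B t f g
          = (J * R t * Y 0 * (f * E K arm t * B)) * gᵀ := by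
        unfold M; simp only [Matrix.mul_assoc]
      rw [h5, trace_mul_comm]
      have h6 : gᵀ * (J * R t * Y 0 * (f * E K arm t * B))
          = (gᵀ * J * R t) * (Y 0 * (f * E K arm t * B)) := by
        simp only [Matrix.mul_assoc]
      rw [h6, hgJR, Matrix.zero_mul, trace_zero]
    rw [e1, e3, e5, e6, e7, e8]
    simp

/-- `(S^⊥)^⊥ = S` -/
theorem Ctx.perp_perp (h : Ctx k arm J B N W g) {α : Type*} {Y : Matrix ι α K}
    (hY : ∀ v : Matrix ι ι K, gᵀ * J * v = 0 → vᵀ * J * Y = 0) :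
    ∃ D : Matrix δ α K, Y = g * D := by
  have hD := h.data
  obtain ⟨G, hG⟩ := exists_pinv g
  obtain ⟨Ji, hJi⟩ := hD.J_unit.exists_right_inv
  have hJi' : Ji * J = 1 := by
    rw [mul_eq_one_comm] at hJi; exact hJi
  have hJit : J * Jiᵀ = 1 := by
    have := congrArg transpose hJi'
    rw [transpose_mul, transpose_one, hD.J_symm] at this
    exact this
  have hJit' : Jiᵀ * J = 1 := by
    rw [mul_eq_one_comm] at hJit; exact hJit
  have hPi : gᵀ * J * (1 - Ji * (Gᵀ * (gᵀ * J))) = 0 := by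
    have h1 : gᵀ * J * (Ji * (Gᵀ * (gᵀ * J))) = gᵀ * J := by
      calc gᵀ * J * (Ji * (Gᵀ * (gᵀ * J))) = gᵀ * (J * Ji) * Gᵀ * gᵀ * J := by
            simp only [Matrix.mul_assoc]
        _ = (g * G * g)ᵀ * J := by
            rw [hJi, Matrix.mul_one, transpose_mul, transpose_mul]; simp only [Matrix.mul_assoc]
        _ = _ := by rw [hG]
    rw [Matrix.mul_sub, Matrix.mul_one, h1, sub_self]
  have h1 := hY _ hPi
  refine ⟨G * Y, ?_⟩
  have h2 : (1 - Ji * (Gᵀ * (gᵀ * J)))ᵀ * J * Y = J * Y - J * (g * (G * Y)) := by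
    rw [transpose_sub, transpose_one, transpose_mul, transpose_mul, transpose_mul,
      transpose_transpose, transpose_transpose, hD.J_symm, Matrix.sub_mul, Matrix.sub_mul,
      Matrix.one_mul]
    congr 1
    calc J * g * G * Jiᵀ * J * Y = J * g * G * (Jiᵀ * J) * Y := by
          simp only [Matrix.mul_assoc]
      _ = _ := by rw [hJit', Matrix.mul_one]; simp only [Matrix.mul_assoc]
  rw [h2, sub_eq_zero] at h1
  calc Y = Ji * (J * Y) := by rw [← Matrix.mul_assoc, hJi', Matrix.one_mul]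
    _ = Ji * (J * (g * (G * Y))) := by rw [h1]
    _ = _ := by rw [← Matrix.mul_assoc Ji, hJi', Matrix.one_mul]

/-- the second part of `κ` is perpendicular to `E₁` (one arm). -/
theorem Ctx.kapB (h : Ctx k arm J B N W g)
    {q p1 : Matrix ι ι K × (Fin 3 → Matrix ι ι K)} (hq : q ∈ NN arm J N g)
    (hq0 : gᵀ * J * (q.1 * g) = 0) (hp1 : p1 ∈ NN arm J N g)
    {Q2 : Fin 3 → Matrix ι ι K} (hQ2 : Stb arm J N Q2) (s : Fin 3)
    (hQ2g : gᵀ * J * (Q2 s * g) = 0) {w : Matrix ι ι K}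
    (hw : ∃ C : Matrix δ δ K, w * g = Q2 s * g + g * C)
    (hM : ∃ D : Matrix δ ι K, p1.1 * M arm B s g g = g * D) :
    trace (M arm B s g g * J * q.1 * w * p1.2 s) = 0 := by
  have hD := h.data
  obtain ⟨C2, hC2⟩ := hw
  obtain ⟨D, hD1⟩ := hM
  obtain ⟨CP, hCP⟩ := hp1.2.2 s
  obtain ⟨Cq, hCq⟩ := hq.2.2 s
  obtain ⟨G, hG⟩ := exists_pinv g
  have hGt : gᵀ * Gᵀ * gᵀ = gᵀ := by
    have := congrArg transpose hG
    rw [transpose_mul, transpose_mul, ← Matrix.mul_assoc] at this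
    exact this
  -- `b M = g D' gᵀ`
  obtain ⟨D', hD'⟩ : ∃ D' : Matrix δ δ K, p1.2 s * g * E K arm s * B * gᵀ = g * D' * gᵀ := by
    refine ⟨D * Gᵀ - CP * E K arm s * B, ?_⟩
    have e1 : p1.2 s * g * E K arm s * B * gᵀ
        = p1.1 * M arm B s g g - (p1.1 - p1.2 s) * g * E K arm s * B * gᵀ := by
      unfold M
      simp only [Matrix.sub_mul, Matrix.mul_assoc]
      abel
    have e2 : p1.1 * M arm B s g g = g * D * Gᵀ * gᵀ := by
      have e3 : p1.1 * M arm B s g g = p1.1 * M arm B s g g * Gᵀ * gᵀ := by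
        unfold M
        conv_lhs => rw [← hGt]
        simp only [Matrix.mul_assoc]
      rw [e3, hD1]
    rw [e1, e2, hCP, Matrix.mul_sub, Matrix.sub_mul]
    simp only [Matrix.mul_assoc]
  -- step 1
  have s1 : trace (M arm B s g g * J * q.1 * w * p1.2 s)
      = trace (g * D' * gᵀ * J * q.1 * w) := by
    rw [trace_mul_comm, ← hD']
    congr 1
    unfold M
    simp only [Matrix.mul_assoc]
  have s2 : trace (g * D' * gᵀ * J * q.1 * w) = trace (g * D' * gᵀ * J * q.1 * Q2 s) := by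
    have e1 : g * D' * gᵀ * J * q.1 * w = g * (D' * gᵀ * J * q.1 * w) := by
      simp only [Matrix.mul_assoc]
    have e2 : g * D' * gᵀ * J * q.1 * Q2 s = g * (D' * gᵀ * J * q.1 * Q2 s) := by
      simp only [Matrix.mul_assoc]
    rw [e1, e2, trace_mul_comm g, trace_mul_comm g]
    have e3 : D' * gᵀ * J * q.1 * w * g = D' * gᵀ * J * q.1 * Q2 s * g
        + D' * (gᵀ * J * (q.1 * g)) * C2 := by
      rw [Matrix.mul_assoc _ w g, hC2, Matrix.mul_add]
      simp only [Matrix.mul_assoc]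
    rw [e3, hq0, Matrix.mul_zero, Matrix.zero_mul, add_zero]
  have s3 : trace (g * D' * gᵀ * J * q.1 * Q2 s)
      = - trace ((q.1 * g)ᵀ * J * (Q2 s * p1.2 s * g) * (E K arm s * B)) := by
    rw [← hD']
    have e1 : p1.2 s * g * E K arm s * B * gᵀ * J * q.1 * Q2 s
        = (p1.2 s * g * (E K arm s * B)) * (gᵀ * J * q.1 * Q2 s) := by
      simp only [Matrix.mul_assoc]
    have e2 : gᵀ * J * q.1 = - ((q.1 * g)ᵀ * J) := by
      rw [transpose_mul, Matrix.mul_assoc gᵀ (q.1)ᵀ, hq.1.eq, Matrix.mul_neg, neg_neg,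
        Matrix.mul_assoc]
    rw [e1, trace_mul_comm, e2, ← trace_neg]
    congr 1
    simp only [Matrix.neg_mul, Matrix.mul_assoc]
  have hbN : Q2 s * p1.2 s * g * E K arm s ∈ N := by
    have h1 := hD.N_arm _ (hQ2.pres _ (hp1.2.1.pres g h.memN)) s
    rw [act_act', act_mul_E] at h1
    exact h1
  have hqN : q.2 s * g * E K arm s ∈ N := by
    have h1 := hD.N_arm _ (hq.2.1.pres g h.memN) s
    rw [act_mul_E] at h1
    exact h1
  have s4 : trace ((q.2 s * g)ᵀ * J * (Q2 s * p1.2 s * g) * (E K arm s * B)) = 0 := by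
    have h1 := hD.N_iso _ hqN _ hbN
    rw [pair_E hD.B_arm, Matrix.mul_assoc _ (E K arm s) (E K arm s)] at h1
    rw [E_mul_self] at h1
    unfold pair at h1
    have e : (q.2 s * g)ᵀ * J * (Q2 s * p1.2 s * g) * (E K arm s * B)
        = (q.2 s * g)ᵀ * J * (Q2 s * p1.2 s * g * E K arm s) * B := by
      simp only [Matrix.mul_assoc]
    rw [e]
    exact h1
  have s5 : trace (((q.1 - q.2 s) * g)ᵀ * J * (Q2 s * p1.2 s * g) * (E K arm s * B)) = 0 := by
    have e1 : ((q.1 - q.2 s) * g)ᵀ * J * (Q2 s * p1.2 s * g) * (E K arm s * B)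
        = gᵀ * ((q.1 - q.2 s)ᵀ * J * Q2 s * (p1.2 s * g * E K arm s * B)) := by
      rw [transpose_mul]; simp only [Matrix.mul_assoc]
    rw [e1, trace_mul_comm]
    have e2 : (q.1 - q.2 s)ᵀ * J * Q2 s * (p1.2 s * g * E K arm s * B) * gᵀ
        = ((q.1 - q.2 s)ᵀ * (J * (Q2 s * g) * D')) * gᵀ := by
      have : (q.1 - q.2 s)ᵀ * J * Q2 s * (p1.2 s * g * E K arm s * B) * gᵀ
          = (q.1 - q.2 s)ᵀ * J * Q2 s * (p1.2 s * g * E K arm s * B * gᵀ) := by
        simp only [Matrix.mul_assoc]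
      rw [this, hD']
      simp only [Matrix.mul_assoc]
    rw [e2, trace_mul_comm, ← Matrix.mul_assoc gᵀ, ← transpose_mul, hCq, transpose_mul]
    have e3 : Cqᵀ * gᵀ * (J * (Q2 s * g) * D') = Cqᵀ * (gᵀ * J * (Q2 s * g)) * D' := by
      simp only [Matrix.mul_assoc]
    rw [e3, hQ2g, Matrix.mul_zero, Matrix.zero_mul, trace_zero]
  rw [s1, s2, s3]
  have e : (q.1 * g)ᵀ = (q.2 s * g)ᵀ + ((q.1 - q.2 s) * g)ᵀ := by
    rw [← transpose_add]
    congr 1
    rw [Matrix.sub_mul]; abel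
  rw [e, Matrix.add_mul, Matrix.add_mul, Matrix.add_mul, trace_add, s4, s5]
  simp

/-- **Q-SIDE PRODUCT**: `(x,y) ↦ ⟨Q_s x, Q2_s y⟩` on `S`. -/
theorem Ctx.prodQ_form (h : Ctx k arm J B N W g) {p p2 Z Z2 : Matrix ι ι K}
    {R R2 Q Q2 : Matrix ι ι K} (hp : Skw J p) (hR : Skw J R) (hRg : R * g = 0)
    (hR2 : Skw J R2) (hR2g : R2 * g = 0) (hZ : Skw J Z) (hZg : gᵀ * J * (Z * g) = 0)
    (hZ2g : gᵀ * J * (Z2 * g) = 0) (hQ : Skw J Q)
    (hfl : ∃ C : Matrix δ δ K, (Z - (R * p - p * R) - Q) * g = g * C)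
    (hfl2 : ∃ C : Matrix δ δ K, (Z2 - (R2 * p2 - p2 * R2) - Q2) * g = g * C) :
    gᵀ * J * (Q * Q2 * g) = gᵀ * J * ((Z + p * R) * (Z2 - R2 * p2) * g) := by
  obtain ⟨C, hC⟩ := hfl
  obtain ⟨C2, hC2⟩ := hfl2
  have hg0 : ∀ C : Matrix δ δ K, gᵀ * J * (g * C) = 0 := by
    intro C; rw [← Matrix.mul_assoc, h.iso, Matrix.zero_mul]
  have hgJR : gᵀ * J * R = 0 := gJR hR hRg
  have hgJR2 : gᵀ * J * R2 = 0 := gJR hR2 hR2g
  have hQ2g : Q2 * g = Z2 * g - R2 * (p2 * g) - g * C2 := by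
    rw [← hC2]
    have : p2 * R2 * g = 0 := by rw [Matrix.mul_assoc, hR2g, Matrix.mul_zero]
    simp only [Matrix.sub_mul, this, Matrix.mul_assoc]
    abel
  have hperp : gᵀ * J * (Q2 * g) = 0 := by
    rw [hQ2g, Matrix.mul_sub, Matrix.mul_sub, hZ2g, ← Matrix.mul_assoc _ R2, hgJR2,
      Matrix.zero_mul, hg0]
    simp
  -- `Pp = Z - (R p - p R) - Q` preserves `S^⊥`
  have hPp : Skw J (Z - (R * p - p * R) - Q) := (hZ.sub (hR.comm hp)).sub hQ
  have h1 := perp_stable hPp hC hperp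
  have h2 : gᵀ * J * (Q * Q2 * g) = gᵀ * J * ((Z + p * R) * (Q2 * g)) := by
    have e : (Z + p * R) * (Q2 * g) = (Z - (R * p - p * R) - Q) * (Q2 * g)
        + R * (p * (Q2 * g)) + Q * Q2 * g := by
      simp only [Matrix.sub_mul, Matrix.add_mul, Matrix.mul_assoc]
      abel
    rw [e, Matrix.mul_add, Matrix.mul_add, h1, ← Matrix.mul_assoc _ R, hgJR, Matrix.zero_mul]
    simp
  have h3 : gᵀ * J * ((Z + p * R) * (g * C2)) = 0 := by
    have e : (Z + p * R) * (g * C2) = Z * g * C2 := by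
      have : p * R * (g * C2) = p * (R * g) * C2 := by simp only [Matrix.mul_assoc]
      rw [Matrix.add_mul, this, hRg, Matrix.mul_zero, Matrix.zero_mul, add_zero,
        ← Matrix.mul_assoc]
    rw [e, ← Matrix.mul_assoc, hZg, Matrix.zero_mul]
  rw [h2, hQ2g, Matrix.mul_sub (Z + p * R) _ (g * C2), Matrix.mul_sub (gᵀ * J) _ _, h3, sub_zero]
  congr 1
  simp only [Matrix.mul_sub, Matrix.sub_mul, Matrix.add_mul, Matrix.mul_add, Matrix.mul_assoc]

/-- **Q-SIDE PRODUCT** for two families. -/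
theorem Ctx.prodQ (h : Ctx k arm J B N W g) {f f2 : Matrix ι δ K}
    {p p1 pm p3 p4 p2 q1 qm q3 q4 : Matrix ι ι K × (Fin 3 → Matrix ι ι K)}
    {R R2 : Fin 3 → Matrix ι ι K} {Z Z2 : Matrix ι ι K} {Q Q2 : Fin 3 → Matrix ι ι K}
    {e kk e2 kk2 : Matrix ι δ K} (hp : p ∈ NN arm J N g)
    (hF : Fam arm J B N W g f p R Z Q e p1 pm p3 p4 kk)
    (hF2 : Fam arm J B N W g f2 p2 R2 Z2 Q2 e2 q1 qm q3 q4 kk2)
    (hR : ∀ s, Skw J (R s)) (hRg : ∀ s, R s * g = 0)
    (hR2 : ∀ s, Skw J (R2 s)) (hR2g : ∀ s, R2 s * g = 0) :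
    act arm (fun s => Q s * Q2 s) g ∈ N ∧
    ∀ s, gᵀ * J * (Q s * Q2 s * g) = gᵀ * J * ((Z + p.1 * R s) * (Z2 - R2 s * p2.1) * g) := by
  refine ⟨?_, fun s => h.prodQ_form hp.1 (hR s) (hRg s) (hR2 s) (hR2g s) hF.skw hF.Zg hF2.Zg
    (hF.stb.skw s) (hF.flag s) (hF2.flag s)⟩
  rw [← act_act']
  exact hF.stb.pres _ (hF2.stb.pres g h.memN)

/-- **P-SIDE PRODUCT** for two families; the `E₁`-term is a global correction `v0 g`. -/
theorem Ctx.prodP (h : Ctx k arm J B N W g) {f f2 : Matrix ι δ K} (hf : f ∈ N ⊓ W)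
    {p p1 pm p3 p4 p2 q1 qm q3 q4 : Matrix ι ι K × (Fin 3 → Matrix ι ι K)}
    {R R2 : Fin 3 → Matrix ι ι K} {Z Z2 : Matrix ι ι K} {Q Q2 : Fin 3 → Matrix ι ι K}
    {e kk e2 kk2 : Matrix ι δ K}
    (hF : Fam arm J B N W g f p R Z Q e p1 pm p3 p4 kk)
    (hF2 : Fam arm J B N W g f2 p2 R2 Z2 Q2 e2 q1 qm q3 q4 kk2)
    (hR : ∀ s, Skw J (R s)) (hRg : ∀ s, R s * g = 0)
    (hRS : ∀ s, ∀ v : Matrix ι ι K, gᵀ * J * v = 0 → ∃ C : Matrix δ ι K, R s * v = g * C)
    (hR2 : ∀ s, Skw J (R2 s)) (hR2g : ∀ s, R2 s * g = 0)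
    (hR2S : ∀ s, ∀ v : Matrix ι ι K, gᵀ * J * v = 0 → ∃ C : Matrix δ ι K, R2 s * v = g * C)
    (hR2f : ∀ s, ∃ C C' : Matrix δ ι K, R2 s = f * C + g * C')
    {c c2 : K} (hc : c ≠ 0) (hc2 : c2 ≠ 0) {X0 u u2 : Matrix ι ι K} (hpX : p.1 = c • X0)
    (hp2X : p2.1 = c2 • X0) (hu : Z = c • u) (hu2 : Z2 = c2 • u2) :
    ∃ v0 : Matrix ι ι K, gᵀ * J * (v0 * g) = 0 ∧ ∃ n ∈ N, ∃ C : Matrix δ δ K,
      act arm (fun s => R2 s * X0 * R s + R2 s * u - u2 * R s) f
        = v0 * g - u2 * e + n + g * C := by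
  have hD := h.data
  have hfp := h.perp f hf
  have hgJR : ∀ s, gᵀ * J * R s = 0 := fun s => gJR (hR s) (hRg s)
  have hgJR2 : ∀ s, gᵀ * J * R2 s = 0 := fun s => gJR (hR2 s) (hR2g s)
  have hg0 : ∀ C : Matrix δ δ K, gᵀ * J * (g * C) = 0 := by
    intro C; rw [← Matrix.mul_assoc, h.iso, Matrix.zero_mul]
  obtain ⟨Pi, hPi, hPi'⟩ := exists_proj hD.J_unit g
  have hPF : ∀ F : Matrix ι δ K, gᵀ * J * F = 0 → Pi * F = F := by
    intro F hF
    ext i j
    have h1 : gᵀ * J * (Matrix.of fun i (_ : Unit) => F i j) = 0 := by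
      ext a b
      have := congrFun (congrFun hF a) j
      rw [mul_apply] at this ⊢
      exact this
    have h2 := congrFun (congrFun (hPi' _ h1) i) ()
    rw [mul_apply] at h2 ⊢
    exact h2
  have hS : ∀ (T : Fin 3 → Matrix ι ι K), (∀ s, ∀ v : Matrix ι ι K, gᵀ * J * v = 0 →
      ∃ C : Matrix δ ι K, T s * v = g * C) → ∀ s, ∀ F : Matrix ι δ K, gᵀ * J * F = 0 →
      ∃ C : Matrix δ δ K, T s * F = g * C := by
    intro T hT s F hF
    obtain ⟨C, hC⟩ := hT s Pi hPi
    refine ⟨C * F, ?_⟩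
    calc T s * F = T s * (Pi * F) := by rw [hPF F hF]
      _ = (T s * Pi) * F := by rw [Matrix.mul_assoc]
      _ = _ := by rw [hC, Matrix.mul_assoc]
  have hRS' := hS R hRS
  have hR2S' := hS R2 hR2S
  have hRf : ∃ C : Matrix δ δ K, act arm R f = g * C := by
    choose C hC using fun s => hRS' s f hfp
    exact ⟨_, act_mul_const arm R f hC⟩
  -- the `κ` family
  set P1 : Fin 3 → Matrix ι ι K := fun s => p1.1 - p1.2 s with hP1
  set κ : Fin 3 → Matrix ι ι K := fun s =>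
    c⁻¹ • (R2 s * (p3.1 + p4.1 + p.1 * p1.1)) + (u2 - R2 s * X0) * P1 s with hκdef
  have hu2g : gᵀ * J * (u2 * g) = 0 := by
    have h1 := hF2.Zg
    rw [hu2, Matrix.smul_mul, Matrix.mul_smul] at h1
    exact (smul_eq_zero.1 h1).resolve_left hc2
  choose CP hCP using hF.p1N.2.2
  have hκ : ∀ s, gᵀ * J * (κ s * g) = 0 := by
    intro s
    have h1 : gᵀ * J * (R2 s * (p3.1 + p4.1 + p.1 * p1.1) * g) = 0 := by
      rw [Matrix.mul_assoc (R2 s), ← Matrix.mul_assoc _ (R2 s), hgJR2, Matrix.zero_mul]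
    have h2 : (u2 - R2 s * X0) * P1 s * g = u2 * g * CP s - R2 s * (X0 * (g * CP s)) := by
      rw [Matrix.mul_assoc _ (P1 s), hP1]
      simp only []
      rw [hCP]
      simp only [Matrix.sub_mul, Matrix.mul_assoc]
    rw [hκdef]
    simp only []
    rw [Matrix.add_mul, Matrix.smul_mul, Matrix.mul_add, Matrix.mul_smul, h1, smul_zero, zero_add,
      h2, Matrix.mul_sub, ← Matrix.mul_assoc _ (u2 * g), hu2g, Matrix.zero_mul,
      ← Matrix.mul_assoc _ (R2 s), hgJR2, Matrix.zero_mul, sub_zero]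
  -- harmless
  have hharm := h.harm hκ (by
    intro q hq hq0
    rw [h.pair_trace hq.1, neg_eq_zero]
    -- `gᵀ J q R2_s = 0`
    have hqf : gᵀ * J * (q.1 * f) = 0 := h.tf_zero hf hq hq0
    have hqR2 : ∀ s, gᵀ * J * q.1 * R2 s = 0 := by
      intro s
      obtain ⟨C, C', hC⟩ := hR2f s
      rw [hC, Matrix.mul_add, ← Matrix.mul_assoc, ← Matrix.mul_assoc, Matrix.mul_assoc _ q.1 f,
        Matrix.mul_assoc _ q.1 g, hqf, hq0, Matrix.zero_mul, Matrix.zero_mul, add_zero]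
    have hMq : ∀ s, M arm B s g g * J * q.1 * R2 s = 0 := by
      intro s
      have : M arm B s g g * J * q.1 * R2 s = g * E K arm s * B * (gᵀ * J * q.1 * R2 s) := by
        unfold M; simp only [Matrix.mul_assoc]
      rw [this, hqR2, Matrix.mul_zero]
    -- reduce each term
    have hterm : ∀ s, trace (M arm B s g g * J * q.1 * κ s)
        = c2⁻¹ * trace (M arm B s g g * J * q.1 * (Z2 - R2 s * p2.1) * P1 s) := by
      intro s
      have e1 : M arm B s g g * J * q.1 * κ s = c2⁻¹ • (M arm B s g g * J * q.1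
          * (Z2 - R2 s * p2.1) * P1 s) := by
        rw [hκdef]
        simp only []
        rw [Matrix.mul_add, Matrix.mul_smul, ← Matrix.mul_assoc _ (R2 s), hMq, Matrix.zero_mul,
          smul_zero, zero_add, hu2, hp2X]
        have e2 : c2⁻¹ • (M arm B s g g * J * q.1 * (c2 • u2 - R2 s * c2 • X0) * P1 s)
            = M arm B s g g * J * q.1 * ((u2 - R2 s * X0) * P1 s) := by
          rw [Matrix.mul_smul (R2 s), ← smul_sub, Matrix.mul_smul, Matrix.smul_mul, smul_smul,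
            inv_mul_cancel₀ hc2, one_smul]
          simp only [Matrix.mul_assoc]
        rw [e2]
      rw [e1, trace_smul, smul_eq_mul]
    rw [Finset.sum_congr rfl fun s _ => hterm s, ← Finset.mul_sum]
    have hpM : ∀ s, ∃ D : Matrix δ ι K, p1.1 * M arm B s g g = g * D := by
      intro s
      refine h.perp_perp fun v hv => ?_
      have h1 := h.z1M hf hR hRg hRf hF.p1N hF.eW hF.eS hF.nu s hv
      have h2 := congrArg transpose h1
      have hMt : (M arm B s g g)ᵀ = M arm B s g g := by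
        unfold M
        rw [transpose_mul, transpose_mul, transpose_mul, transpose_transpose, E_transpose,
          hD.B_symm]
        simp only [Matrix.mul_assoc]
        rw [← Matrix.mul_assoc B, ← hD.B_arm, Matrix.mul_assoc]
      rw [transpose_mul, transpose_mul, transpose_mul, hMt, hD.J_symm, transpose_zero] at h2
      have h3 : vᵀ * (p1.1ᵀ * (J * M arm B s g g)) = - (vᵀ * J * (p1.1 * M arm B s g g)) := by
        rw [← Matrix.mul_assoc (p1.1ᵀ), hF.p1N.1.eq]
        simp only [Matrix.neg_mul, Matrix.mul_neg, Matrix.mul_assoc]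
      rw [h3, neg_eq_zero] at h2
      exact h2
    choose C2 hC2 using hF2.flag
    have hw : ∀ s, (Z2 - R2 s * p2.1) * g = Q2 s * g + g * C2 s := by
      intro s
      rw [← hC2]
      have : p2.1 * R2 s * g = 0 := by rw [Matrix.mul_assoc, hR2g, Matrix.mul_zero]
      simp only [Matrix.sub_mul, this]
      abel
    have hQ2g : ∀ s, gᵀ * J * (Q2 s * g) = 0 := by
      intro s
      have h1 : Q2 s * g = (Z2 - R2 s * p2.1) * g - g * C2 s := by rw [hw]; abel
      rw [h1, Matrix.sub_mul, Matrix.mul_sub, Matrix.mul_sub, hF2.Zg, Matrix.mul_assoc (R2 s),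
        ← Matrix.mul_assoc _ (R2 s), hgJR2, Matrix.zero_mul, hg0]
      simp
    have hA : ∀ s, trace (M arm B s g g * J * q.1 * (Z2 - R2 s * p2.1) * P1 s)
        = trace (M arm B s g g * J * q.1 * Z2 * p1.1) := by
      intro s
      have h1 := h.kapB hq hq0 hF.p1N hF2.stb s (hQ2g s) (w := Z2 - R2 s * p2.1) ⟨C2 s, hw s⟩
        (hpM s)
      have h2 : M arm B s g g * J * q.1 * (Z2 - R2 s * p2.1) * P1 s
          = M arm B s g g * J * q.1 * Z2 * p1.1
            - (M arm B s g g * J * q.1 * R2 s) * p2.1 * p1.1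
            - M arm B s g g * J * q.1 * (Z2 - R2 s * p2.1) * p1.2 s := by
        rw [hP1]
        simp only [Matrix.mul_sub, Matrix.sub_mul, Matrix.mul_assoc]
      rw [h2, trace_sub, trace_sub, hMq, h1]
      simp
    rw [Finset.sum_congr rfl fun s _ => hA s, ← trace_sum, ← Matrix.sum_mul, ← Matrix.sum_mul,
      ← Matrix.sum_mul, ← Matrix.sum_mul]
    have hM0 : ∑ s, M arm B s g g = 0 := by
      rw [sum_M]; exact hD.W_iso g h.memW g h.memW
    rw [hM0]
    simp)
  obtain ⟨v0, hv0, n0, hn0, C0, hact⟩ := hharm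
  obtain ⟨n, hn, C, hprod⟩ := hF.prod (R2 := R2) (Z2 := Z2) (Q2 := Q2) (p2 := p2) hRf hR2g
    hF2.stb hF2.flag
  -- `R2_s (p e + Z f + p3 g + p4 g + p p1 g) ∈ S`
  have hx : gᵀ * J * (p.1 * e + Z * f + (p3.1 + p4.1 + p.1 * p1.1) * g) = 0 := by
    have h1 := hF.rel
    rw [Matrix.mul_add, Matrix.mul_add, h1]
    simp only [Matrix.add_mul, Matrix.mul_add, Matrix.mul_assoc]
    abel
  choose Cx hCx using fun s => hR2S' s _ hx
  refine ⟨- v0, by rw [Matrix.neg_mul, Matrix.mul_neg, hv0, neg_zero],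
    c2⁻¹ • n - n0, N.sub_mem (N.smul_mem _ hn) hn0,
    c2⁻¹ • C - C0 + c⁻¹ • ∑ s, Cx s * E K arm s, ?_⟩
  have hterm : ∀ s, (Z2 - R2 s * p2.1) * ((e - act arm R f + Pg arm g p1) * E K arm s)
      = c2 • (u2 * e * E K arm s) - c2 • (c⁻¹ • (g * (Cx s * E K arm s)))
        + c2 • (κ s * g * E K arm s)
        + c2 • ((R2 s * X0 * R s + R2 s * u - u2 * R s) * f * E K arm s) := by
    intro s
    have hRf1 : act arm R f * E K arm s = R s * f * E K arm s := act_mul_E arm R f s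
    have hPgE : Pg arm g p1 * E K arm s = P1 s * g * E K arm s := by
      rw [Pg_eq, act_mul_E]
    have e1 : (e - act arm R f + Pg arm g p1) * E K arm s
        = e * E K arm s - R s * f * E K arm s + P1 s * g * E K arm s := by
      rw [Matrix.add_mul, Matrix.sub_mul, hRf1, hPgE]
    have e2 : c⁻¹ • (R2 s * (p.1 * e)) = c⁻¹ • (g * Cx s) - R2 s * (u * f)
        - c⁻¹ • (R2 s * ((p3.1 + p4.1 + p.1 * p1.1) * g)) := by
      rw [← hCx, Matrix.mul_add, Matrix.mul_add, hu, Matrix.smul_mul, Matrix.mul_smul, smul_add,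
        smul_add, smul_smul, inv_mul_cancel₀ hc, one_smul]
      abel
    have e3 : c⁻¹ • (R2 s * (p.1 * e)) = R2 s * (X0 * e) := by
      rw [hpX, Matrix.smul_mul, Matrix.mul_smul, smul_smul, inv_mul_cancel₀ hc, one_smul]
    rw [e3] at e2
    have e4 : R2 s * (X0 * e) * E K arm s = c⁻¹ • (g * (Cx s * E K arm s))
        - R2 s * (u * f) * E K arm s
        - c⁻¹ • (R2 s * ((p3.1 + p4.1 + p.1 * p1.1) * g)) * E K arm s := by
      rw [e2, Matrix.sub_mul, Matrix.sub_mul, Matrix.smul_mul, Matrix.mul_assoc g]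
    rw [e1, hu2, hp2X, Matrix.mul_smul (R2 s), ← smul_sub, Matrix.smul_mul]
    rw [← smul_sub, ← smul_add, ← smul_add]
    congr 1
    have e5 : (u2 - R2 s * X0) * (e * E K arm s - R s * f * E K arm s + P1 s * g * E K arm s)
        = u2 * e * E K arm s - R2 s * (X0 * e) * E K arm s - u2 * R s * f * E K arm s
          + R2 s * X0 * R s * f * E K arm s + (u2 - R2 s * X0) * P1 s * g * E K arm s := by
      simp only [Matrix.sub_mul, Matrix.mul_sub, Matrix.mul_add, Matrix.mul_assoc]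
      abel
    have e6 : κ s * g * E K arm s = c⁻¹ • (R2 s * ((p3.1 + p4.1 + p.1 * p1.1) * g)) * E K arm s
        + (u2 - R2 s * X0) * P1 s * g * E K arm s := by
      rw [hκdef]
      simp only [Matrix.add_mul, Matrix.smul_mul, Matrix.mul_assoc]
    rw [e5, e4, e6]
    simp only [Matrix.add_mul, Matrix.sub_mul, Matrix.mul_assoc]
    abel
  rw [Finset.sum_congr rfl fun s _ => hterm s] at hprod
  simp only [Finset.sum_add_distrib, Finset.sum_sub_distrib, ← Finset.smul_sum] at hprod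
  have f1 : ∑ s, u2 * e * E K arm s = u2 * e := by
    rw [← Matrix.mul_sum, sum_E, Matrix.mul_one]
  have f2 : ∑ s, κ s * g * E K arm s = v0 * g + n0 + g * C0 := hact
  have f3 : ∑ s, (R2 s * X0 * R s + R2 s * u - u2 * R s) * f * E K arm s
      = act arm (fun s => R2 s * X0 * R s + R2 s * u - u2 * R s) f := rfl
  have f4 : ∑ s, g * (Cx s * E K arm s) = g * ∑ s, Cx s * E K arm s := by
    rw [Matrix.mul_sum]
  rw [f1, f2, f3, f4, ← smul_sub, ← smul_add, ← smul_add] at hprod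
  have f5 : u2 * e - c⁻¹ • (g * ∑ s, Cx s * E K arm s) + (v0 * g + n0 + g * C0)
      + act arm (fun s => R2 s * X0 * R s + R2 s * u - u2 * R s) f
      = c2⁻¹ • (n + g * C) := by
    rw [← hprod, smul_smul, inv_mul_cancel₀ hc2, one_smul]
  have f6 : act arm (fun s => R2 s * X0 * R s + R2 s * u - u2 * R s) f
      = c2⁻¹ • (n + g * C) - (u2 * e - c⁻¹ • (g * ∑ s, Cx s * E K arm s)
        + (v0 * g + n0 + g * C0)) := by
    rw [← f5]; abel
  rw [f6, smul_add, Matrix.mul_add, Matrix.mul_sub, Matrix.mul_smul, Matrix.mul_smul,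
    Matrix.neg_mul]
  abel

/-- the correction `v0 g` is invisible: `v0 g E_s B fᵀ J v = 0` for `v ∈ S^⊥`. -/
theorem Ctx.corr_v0 (h : Ctx k arm J B N W g) {f : Matrix ι δ K} (hf : f ∈ N ⊓ W)
    (v0 : Matrix ι ι K) (s : Fin 3) {α : Type*} {v : Matrix ι α K} (hv : gᵀ * J * v = 0) :
    v0 * g * E K arm s * B * fᵀ * J * v = 0 := by
  have h1 := h.gf_zero hf s hv
  unfold M at h1
  have h2 : v0 * g * E K arm s * B * fᵀ * J * v
      = v0 * (g * E K arm s * B * fᵀ * J * v) := by simp only [Matrix.mul_assoc]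
  rw [h2, h1, Matrix.mul_zero]

/-- `φ e f_sᵀ = - Z Φ'_s` on `S^⊥`. -/
theorem Fam.rel' {f : Matrix ι δ K} {p p1 pm p3 p4 : Matrix ι ι K × (Fin 3 → Matrix ι ι K)}
    {R : Fin 3 → Matrix ι ι K} {Z : Matrix ι ι K} {Q : Fin 3 → Matrix ι ι K}
    {e kk : Matrix ι δ K} (hF : Fam arm J B N W g f p R Z Q e p1 pm p3 p4 kk)
    (s : Fin 3) {v : Matrix ι ι K} (hv : gᵀ * J * v = 0) :
    gᵀ * J * (p.1 * (e * E K arm s * B * fᵀ * J * v))
      = - (gᵀ * J * (Z * (M arm B s f f * J * v))) := by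
  have h1 := hF.interφ s v hv
  have h2 := hF.inter s v hv
  have h3 : e * E K arm s * B * fᵀ * J * v
      = R s * (M arm B s f f * J * v) - M arm B s g g * J * (p.1 * (R s * v) + Z * v) := by
    rw [← h2]; abel
  rw [h3, Matrix.mul_sub, Matrix.mul_sub, h1]
  simp only [Matrix.mul_add]
  abel

/-- the correction `Z2 e` tested on `v, v'`. -/
theorem Fam.corr_e {f : Matrix ι δ K} (hJ : Jᵀ = J)
    {p p1 pm p3 p4 : Matrix ι ι K × (Fin 3 → Matrix ι ι K)}
    {R : Fin 3 → Matrix ι ι K} {Z : Matrix ι ι K} {Q : Fin 3 → Matrix ι ι K}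
    {e kk : Matrix ι δ K} (hp : Skw J p.1)
    (hF : Fam arm J B N W g f p R Z Q e p1 pm p3 p4 kk)
    {Z2 : Matrix ι ι K} (hZ2 : Skw J Z2) {α : Type*} {v : Matrix ι α K} {C : Matrix δ α K}
    (hv : gᵀ * J * (Z2 * v) = gᵀ * J * (p.1 * (g * C)))
    (s : Fin 3) {v' : Matrix ι ι K} (hv' : gᵀ * J * v' = 0) :
    vᵀ * J * (Z2 * e * E K arm s * B * fᵀ * J * v')
      = (Z * (g * C))ᵀ * J * (M arm B s f f * J * v') := by
  obtain ⟨Ce, hCe⟩ := hF.eS
  have hJg : (gᵀ * J)ᵀ = J * g := by rw [transpose_mul, transpose_transpose, hJ]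
  have hvt : (Z2 * v)ᵀ * (J * g) = (p.1 * (g * C))ᵀ * (J * g) := by
    have h1 := congrArg transpose hv
    rw [transpose_mul (gᵀ * J), transpose_mul (gᵀ * J), hJg] at h1
    exact h1
  have e1 : vᵀ * J * (Z2 * e * E K arm s * B * fᵀ * J * v')
      = - ((Z2 * v)ᵀ * (J * g) * (Ce * E K arm s * B * fᵀ * J * v')) := by
    have : vᵀ * J * Z2 = - ((Z2 * v)ᵀ * J) := by
      rw [transpose_mul, Matrix.mul_assoc vᵀ (Z2)ᵀ, hZ2.eq, Matrix.mul_neg, neg_neg,
        Matrix.mul_assoc]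
    calc vᵀ * J * (Z2 * e * E K arm s * B * fᵀ * J * v')
        = (vᵀ * J * Z2) * (e * E K arm s * B * fᵀ * J * v') := by simp only [Matrix.mul_assoc]
      _ = _ := by rw [this, hCe]; simp only [Matrix.neg_mul, Matrix.mul_assoc]
  have e2 : (p.1 * (g * C))ᵀ * (J * g) * (Ce * E K arm s * B * fᵀ * J * v')
      = - (Cᵀ * (gᵀ * J * (p.1 * (e * E K arm s * B * fᵀ * J * v')))) := by
    have : (p.1 * (g * C))ᵀ * J = - (Cᵀ * (gᵀ * J * p.1)) := by
      rw [transpose_mul, transpose_mul, Matrix.mul_assoc _ p.1ᵀ, hp.eq, Matrix.mul_neg]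
      simp only [Matrix.mul_assoc]
    calc (p.1 * (g * C))ᵀ * (J * g) * (Ce * E K arm s * B * fᵀ * J * v')
        = ((p.1 * (g * C))ᵀ * J) * (g * Ce * E K arm s * B * fᵀ * J * v') := by
          simp only [Matrix.mul_assoc]
      _ = _ := by rw [this, ← hCe]; simp only [Matrix.neg_mul, Matrix.mul_assoc]
  have e3 : (Z * (g * C))ᵀ * J = - (Cᵀ * (gᵀ * J * Z)) := by
    rw [transpose_mul, transpose_mul, Matrix.mul_assoc _ Zᵀ, hF.skw.eq, Matrix.mul_neg]
    simp only [Matrix.mul_assoc]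
  rw [e1, hvt, e2, hF.rel' s hv', e3]
  simp only [Matrix.neg_mul, Matrix.mul_neg, neg_neg, Matrix.mul_assoc]

end Crest.Agent.R172.Qt
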