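import Crest.Agent.R172.QTen
import Crest.Agent.R172.QBlk
import Crest.Agent.R172.Qt12
import Crest.Agent.R172.RJ1
import Crest.Agent.R172.QEndP2

/-!
Row 172 (S0260), t3, P-side bridge: the data of a gluing family (`Qt.Fam`) give the corrections and
the bilinear relation of the abstract end `RJ.main`.
-/

set_option autoImplicit false
set_option linter.unusedSectionVars false
set_option linter.unusedFintypeInType false
set_option linter.unusedDecidableInType false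
set_option linter.unusedSimpArgs false
set_option maxHeartbeats 800000

namespace Crest.Agent.R172.QBr

open Matrix Module TensorProduct Crest.Agent.R172.FO Crest.Agent.R172.Qt

variable {ι : Type*} [Fintype ι] [DecidableEq ι] {δ : Type*} [Fintype δ] [DecidableEq δ]
variable {K : Type*} [Field K]
variable {P1 P2 : Type*} [AddCommGroup P1] [Module K P1] [AddCommGroup P2] [Module K P2]

/-- `g2 p2 s = (X i2 s)ᵀ J i2 p2` -/
noncomputable def g2 (J X : Matrix ι ι K) (i2 : P2 →ₗ[K] (ι → K)) : P2 →ₗ[K] P2 →ₗ[K] K :=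
  LinearMap.mk₂ K (fun p2 s => (X *ᵥ i2 s) ⬝ᵥ J *ᵥ i2 p2)
    (fun a b p => by simp only [map_add, mulVec_add, dotProduct_add])
    (fun t a p => by simp only [map_smul, mulVec_smul, dotProduct_smul])
    (fun a p p' => by simp only [map_add, mulVec_add, add_dotProduct])
    (fun t a p => by simp only [map_smul, mulVec_smul, smul_dotProduct])

theorem g2_apply (J X : Matrix ι ι K) (i2 : P2 →ₗ[K] (ι → K)) (p2 s : P2) :
    g2 J X i2 p2 s = (X *ᵥ i2 s) ⬝ᵥ J *ᵥ i2 p2 := rfl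

/-- `ev1 g (p2 ⊗ p1) p = g p2 p • p1` -/
noncomputable abbrev ev1 (G : P2 →ₗ[K] P2 →ₗ[K] K) : P2 ⊗[K] P1 →ₗ[K] (P2 →ₗ[K] P1) :=
  RJ.ev G

theorem ev1_tmul (G : P2 →ₗ[K] P2 →ₗ[K] K) (p2 : P2) (p1 : P1) (p : P2) :
    ev1 G (p2 ⊗ₜ[K] p1) p = G p2 p • p1 := RJ.ev_tmul G p2 p1 p

/-- `ev2 (p2 ⊗ p1) p = (p1ᵀ J p) • p2` -/
noncomputable def ev2 (J : Matrix ι ι K) (i1 : P1 →ₗ[K] (ι → K)) :
    P2 ⊗[K] P1 →ₗ[K] (P1 →ₗ[K] P2) :=
  TensorProduct.lift (LinearMap.mk₂ K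
    (fun p2 p1 =>
      { toFun := fun p => (i1 p1 ⬝ᵥ J *ᵥ i1 p) • p2
        map_add' := fun p p' => by rw [map_add, mulVec_add, dotProduct_add, add_smul]
        map_smul' := fun t p => by
          rw [map_smul, mulVec_smul, dotProduct_smul, smul_eq_mul, mul_smul]; rfl })
    (fun a b p => by ext q; simp)
    (fun t a p => by
      ext q
      simp only [LinearMap.coe_mk, AddHom.coe_mk, LinearMap.smul_apply]
      rw [smul_comm])
    (fun a p p' => by ext q; simp [add_dotProduct, add_smul])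
    (fun t a p => by
      ext q
      simp only [LinearMap.coe_mk, AddHom.coe_mk, LinearMap.smul_apply, map_smul,
        smul_dotProduct, smul_eq_mul, mul_smul]))

theorem ev2_tmul (J : Matrix ι ι K) (i1 : P1 →ₗ[K] (ι → K)) (p2 : P2) (p1 p : P1) :
    ev2 J i1 (p2 ⊗ₜ[K] p1) p = (i1 p1 ⬝ᵥ J *ᵥ i1 p) • p2 := by
  simp [ev2]

theorem vec_of {J : Matrix ι ι K} {g : Matrix ι δ K} {γ : Type*} [Fintype γ]
    {T T' : Matrix γ ι K}
    (hT : ∀ v : Matrix ι ι K, gᵀ * J * v = 0 → T * v = T' * v) {v : ι → K}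
    (hv : (gᵀ * J) *ᵥ v = 0) : T *ᵥ v = T' *ᵥ v := by
  rcases isEmpty_or_nonempty ι with hι | ⟨⟨j⟩⟩
  · funext i
    simp [mulVec, dotProduct]
  · have h1 := hT (Matrix.of fun i (_ : ι) => v i) (by
      ext a b
      exact congrFun hv a)
    funext i
    exact congrFun (congrFun h1 i) j

variable {arm : δ → Fin 3} {J : Matrix ι ι K} {B : Matrix δ δ K} {g f : Matrix ι δ K}
  {X : Matrix ι ι K} {A : Fin 3 → End K P1} {Bo : Fin 3 → End K P2}
  {i1 : P1 →ₗ[K] (ι → K)} {i2 : P2 →ₗ[K] (ι → K)}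

/-- radical tensors -/
def Rad (R1 : Submodule K P1) (R2 : Submodule K P2) : Submodule K (P2 ⊗[K] P1) :=
  RJ.RT R2 ⊔ RJ.TR R1

theorem rad_le {R1 : Submodule K P1} {R2 : Submodule K P2} {G : Submodule K (P2 ⊗[K] P1)}
    (h1 : ∀ r ∈ R2, ∀ p : P1, r ⊗ₜ[K] p ∈ G) (h2 : ∀ r ∈ R1, ∀ p : P2, p ⊗ₜ[K] r ∈ G) :
    Rad R1 R2 ≤ G := by
  refine sup_le (Submodule.span_le.2 ?_) (Submodule.span_le.2 ?_)
  · rintro _ ⟨r, hr, p, rfl⟩
    exact h1 r hr p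
  · rintro _ ⟨p, r, hr, rfl⟩
    exact h2 r hr p

/-- the vector form of `Fam.interφ` at arm `s` -/
def Inter (arm : δ → Fin 3) (J : Matrix ι ι K) (B : Matrix δ δ K) (g f : Matrix ι δ K)
    (X : Matrix ι ι K) (c : K) (R Z : Matrix ι ι K) (s : Fin 3) : Prop :=
  ∀ v : ι → K, (gᵀ * J) *ᵥ v = 0 →
    (gᵀ * J) *ᵥ (c • X *ᵥ ((M arm B s g g * J) *ᵥ (c • X *ᵥ (R *ᵥ v) + Z *ᵥ v)))
      = (gᵀ * J) *ᵥ (c • X *ᵥ (R *ᵥ ((M arm B s f f * J) *ᵥ v))
        + Z *ᵥ ((M arm B s f f * J) *ᵥ v))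

theorem inter_of {c : K} {R Z : Matrix ι ι K} {s : Fin 3}
    (h : ∀ v : Matrix ι ι K, gᵀ * J * v = 0 →
      gᵀ * J * ((c • X) * (M arm B s g g * J * ((c • X) * (R * v) + Z * v)))
        = gᵀ * J * ((c • X) * (R * (M arm B s f f * J * v)) + Z * (M arm B s f f * J * v))) :
    Inter arm J B g f X c R Z s := by
  intro v hv
  have h1 := vec_of (J := J) (g := g)
    (T := gᵀ * J * ((c • X) * (M arm B s g g * J * ((c • X) * R + Z))))
    (T' := gᵀ * J * ((c • X) * (R * (M arm B s f f * J)) + Z * (M arm B s f f * J)))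
    (fun v hv => by
      have h2 := h v hv
      have e1 : gᵀ * J * ((c • X) * (M arm B s g g * J * ((c • X) * R + Z))) * v
          = gᵀ * J * ((c • X) * (M arm B s g g * J * ((c • X) * (R * v) + Z * v))) := by
        simp only [Matrix.mul_assoc, Matrix.add_mul, Matrix.mul_add]
      have e2 : gᵀ * J * ((c • X) * (R * (M arm B s f f * J)) + Z * (M arm B s f f * J)) * v
          = gᵀ * J * ((c • X) * (R * (M arm B s f f * J * v)) + Z * (M arm B s f f * J * v)) := by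
        simp only [Matrix.mul_assoc, Matrix.add_mul, Matrix.mul_add]
      rw [e1, e2, h2]) hv
  simp only [← mulVec_mulVec, add_mulVec, mulVec_add, smul_mulVec, mulVec_smul, smul_add] at h1 ⊢
  exact h1

namespace Side

variable (h : Side arm J B g f X A Bo i1 i2)

include h

theorem g2_adj (t : Fin 3) (p p' : P2) :
    g2 J X i2 (Bo t p) p' = - g2 J X i2 p (Bo t p') := by
  rw [g2_apply, g2_apply, h.B2, h.B2, h.skw_adj h.X_skw (v := (M arm B t g g * J) *ᵥ _), neg_neg,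
    h.M_adj]

theorem S_dot {v : ι → K} (u : δ → K) (hv : (gᵀ * J) *ᵥ v = 0) : (g *ᵥ u) ⬝ᵥ J *ᵥ v = 0 := by
  have : g *ᵥ u ⬝ᵥ J *ᵥ v = u ⬝ᵥ (gᵀ * J) *ᵥ v := by
    rw [← vecMul_transpose, ← dotProduct_mulVec, mulVec_mulVec]
  rw [this, hv, dotProduct_zero]

theorem dot_S {v : ι → K} (u : δ → K) (hv : (gᵀ * J) *ᵥ v = 0) : v ⬝ᵥ J *ᵥ (g *ᵥ u) = 0 := by
  rw [h.J_comm, h.S_dot u hv]

theorem A_dot (t : Fin 3) (p : P1) {v : ι → K} (hv : (gᵀ * J) *ᵥ v = 0) :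
    i1 (A t p) ⬝ᵥ J *ᵥ v = ((M arm B t f f * J) *ᵥ i1 p) ⬝ᵥ J *ᵥ v := by
  obtain ⟨u, hu⟩ := h.A1 t p
  rw [hu, add_dotProduct, h.S_dot u hv, add_zero]

theorem A_adj (t : Fin 3) (p p' : P1) :
    i1 (A t p) ⬝ᵥ J *ᵥ i1 p' = i1 p ⬝ᵥ J *ᵥ i1 (A t p') := by
  rw [h.A_dot t p (h.J1 p'), h.M_adj, h.J_comm, ← h.A_dot t p' (h.J1 p), h.J_comm]

/-- `ev` of a defect -/
theorem ev1_defect (c : K) (t : Fin 3) (x : P2 ⊗[K] P1) (a : P2) :
    ev1 (g2 J X i2) ((A t).lTensor P2 x - c • (Bo t).rTensor P1 x) a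
      = A t (ev1 (g2 J X i2) x a) + c • ev1 (g2 J X i2) x (Bo t a) := by
  induction x using TensorProduct.induction_on with
  | zero => simp
  | tmul p2 p1 =>
    rw [LinearMap.lTensor_tmul, LinearMap.rTensor_tmul, map_sub, map_smul, LinearMap.sub_apply,
      LinearMap.smul_apply, ev1_tmul, ev1_tmul, ev1_tmul, ev1_tmul, map_smul, h.g2_adj, neg_smul,
      smul_neg, sub_neg_eq_add]
  | add x y hx hy =>
    have e : (A t).lTensor P2 (x + y) - c • (Bo t).rTensor P1 (x + y)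
        = ((A t).lTensor P2 x - c • (Bo t).rTensor P1 x)
          + ((A t).lTensor P2 y - c • (Bo t).rTensor P1 y) := by
      rw [map_add, map_add, smul_add]; abel
    rw [e, map_add, LinearMap.add_apply, hx, hy, map_add, LinearMap.add_apply, LinearMap.add_apply,
      map_add, smul_add]
    abel

theorem ev2_defect (c : K) (t : Fin 3) (x : P2 ⊗[K] P1) (p : P1) :
    ev2 J i1 ((A t).lTensor P2 x - c • (Bo t).rTensor P1 x) p
      = ev2 J i1 x (A t p) - c • Bo t (ev2 J i1 x p) := by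
  induction x using TensorProduct.induction_on with
  | zero => simp
  | tmul p2 p1 =>
    rw [LinearMap.lTensor_tmul, LinearMap.rTensor_tmul, map_sub, map_smul, LinearMap.sub_apply,
      LinearMap.smul_apply, ev2_tmul, ev2_tmul, ev2_tmul, ev2_tmul, map_smul, h.A_adj]
  | add x y hx hy =>
    have e : (A t).lTensor P2 (x + y) - c • (Bo t).rTensor P1 (x + y)
        = ((A t).lTensor P2 x - c • (Bo t).rTensor P1 x)
          + ((A t).lTensor P2 y - c • (Bo t).rTensor P1 y) := by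
      rw [map_add, map_add, smul_add]; abel
    rw [e, map_add, LinearMap.add_apply, hx, hy, map_add, LinearMap.add_apply, LinearMap.add_apply,
      map_add, smul_add]
    abel

/-- `(X a)ᵀ J R v = ev(x)(a)ᵀ J v` -/
theorem X_ten (x : P2 ⊗[K] P1) (a : P2) {v : ι → K} (hv : (gᵀ * J) *ᵥ v = 0) :
    (X *ᵥ i2 a) ⬝ᵥ J *ᵥ (ten J i1 i2 x *ᵥ v) = i1 (ev1 (g2 J X i2) x a) ⬝ᵥ J *ᵥ v := by
  induction x using TensorProduct.induction_on with
  | zero => simp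
  | tmul p2 p1 =>
    rw [h.ten_tmul_mulVec _ _ hv, ev1_tmul, map_smul, mulVec_smul, dotProduct_smul,
      smul_dotProduct, g2_apply, smul_eq_mul, smul_eq_mul, mul_comm]
  | add x y hx hy =>
    simp only [map_add, add_mulVec, mulVec_add, dotProduct_add, add_dotProduct,
      LinearMap.add_apply] at hx hy ⊢
    rw [hx, hy]

theorem ten_i1 (x : P2 ⊗[K] P1) (p : P1) : ten J i1 i2 x *ᵥ i1 p = i2 (ev2 J i1 x p) := by
  induction x using TensorProduct.induction_on with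
  | zero => simp
  | tmul p2 p1 => rw [h.ten_tmul_mulVec _ _ (h.J1 p), ev2_tmul, map_smul]
  | add x y hx hy => rw [map_add, add_mulVec, hx, hy, map_add, LinearMap.add_apply, map_add]

/-- **the relation for `Z|P2` modulo `S`** -/
theorem rel1 {c : K} {x : P2 ⊗[K] P1} {Z : Matrix ι ι K} (hZ : Skw J Z) {s : Fin 3}
    (hφ : Inter arm J B g f X c (ten J i1 i2 x) Z s) (a : P2) :
    ∃ u, (c ^ 2) • i1 (ev1 (g2 J X i2) x (Bo s a)) + c • (Z *ᵥ i2 (Bo s a))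
      + c • ((M arm B s f f * J) *ᵥ i1 (ev1 (g2 J X i2) x a))
      + (M arm B s f f * J) *ᵥ (Z *ᵥ i2 a) = g *ᵥ u := by
  refine h.mem_S fun v hv => ?_
  obtain ⟨u, hu⟩ := h.J2 a
  have h1 := congrArg (fun y => u ⬝ᵥ y) (hφ v hv)
  have e0 : ∀ w : ι → K, u ⬝ᵥ (gᵀ * J) *ᵥ w = i2 a ⬝ᵥ J *ᵥ w := by
    intro w
    rw [hu, ← mulVec_mulVec, dotProduct_mulVec, vecMul_transpose]
  simp only [e0] at h1
  have hX : ∀ a w, i2 a ⬝ᵥ J *ᵥ (X *ᵥ w) = - ((X *ᵥ i2 a) ⬝ᵥ J *ᵥ w) := fun a w => by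
    rw [h.skw_adj h.X_skw, neg_neg]
  have hZ' : ∀ a w, i2 a ⬝ᵥ J *ᵥ (Z *ᵥ w) = - ((Z *ᵥ i2 a) ⬝ᵥ J *ᵥ w) := fun a w => by
    rw [h.skw_adj hZ, neg_neg]
  set R := ten J i1 i2 x with hR
  -- left hand side
  have l1 : i2 a ⬝ᵥ J *ᵥ (c • X *ᵥ ((M arm B s g g * J) *ᵥ (c • X *ᵥ (R *ᵥ v) + Z *ᵥ v)))
      = (c ^ 2) * (i1 (ev1 (g2 J X i2) x (Bo s a)) ⬝ᵥ J *ᵥ v)
        + c * ((Z *ᵥ i2 (Bo s a)) ⬝ᵥ J *ᵥ v) := by
    rw [mulVec_smul, dotProduct_smul, hX, ← h.M_adj, ← h.B2, mulVec_add, dotProduct_add,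
      mulVec_smul, dotProduct_smul, hX, hZ', hR, h.X_ten x _ hv]
    simp only [smul_eq_mul]
    ring
  have l2 : i2 a ⬝ᵥ J *ᵥ (c • X *ᵥ (R *ᵥ ((M arm B s f f * J) *ᵥ v))
        + Z *ᵥ ((M arm B s f f * J) *ᵥ v))
      = - (c * (((M arm B s f f * J) *ᵥ i1 (ev1 (g2 J X i2) x a)) ⬝ᵥ J *ᵥ v))
        - ((M arm B s f f * J) *ᵥ (Z *ᵥ i2 a)) ⬝ᵥ J *ᵥ v := by
    rw [mulVec_add, dotProduct_add, mulVec_smul, dotProduct_smul, hX, hZ', hR,
      h.X_ten x _ (h.Mf_perp s v), h.M_adj, h.M_adj]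
    simp only [smul_eq_mul]
    ring
  rw [l1, l2] at h1
  simp only [add_dotProduct, smul_dotProduct, smul_eq_mul]
  linear_combination h1

/-- values in a stable subspace -/
theorem val {c : K} (hc : c ≠ 0) (Q0 : Submodule K (ι → K))
    (hst : ∀ s, ∀ w ∈ Q0, (M arm B s f f * J) *ᵥ w ∈ Q0)
    (hcx : c⁻¹ ∉ {c : K | ∃ x : P2 →ₗ[K] ((ι → K) ⧸ Q0), x ≠ 0 ∧ ∀ s, x ∘ₗ Bo s =
      -(c • ((Q0.mapQ Q0 (M arm B s f f * J).mulVecLin (fun w hw => hst s w hw)) ∘ₗ x))})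
    (β : P2 →ₗ[K] (ι → K))
    (hβ : ∀ s a, (M arm B s f f * J) *ᵥ β a + c • β (Bo s a) ∈ Q0) (a : P2) : β a ∈ Q0 := by
  by_contra hne
  refine hcx ⟨Q0.mkQ ∘ₗ β, fun h0 => hne ?_, fun s => ?_⟩
  · have := LinearMap.congr_fun h0 a
    rwa [LinearMap.comp_apply, LinearMap.zero_apply, Submodule.mkQ_apply,
      Submodule.Quotient.mk_eq_zero] at this
  · ext a
    have h1 := hβ s a
    have h2 : Q0.mkQ ((M arm B s f f * J) *ᵥ β a) + c • Q0.mkQ (β (Bo s a)) = 0 := by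
      rw [← map_smul, ← map_add, Submodule.mkQ_apply, Submodule.Quotient.mk_eq_zero]
      exact h1
    have h3 : Q0.mkQ (β (Bo s a)) = - (c⁻¹ • Q0.mkQ ((M arm B s f f * J) *ᵥ β a)) := by
      have h4 : c • Q0.mkQ (β (Bo s a)) = - Q0.mkQ ((M arm B s f f * J) *ᵥ β a) :=
        eq_neg_of_add_eq_zero_right h2
      calc Q0.mkQ (β (Bo s a)) = c⁻¹ • (c • Q0.mkQ (β (Bo s a))) := by
            rw [smul_smul, inv_mul_cancel₀ hc, one_smul]
        _ = _ := by rw [h4, smul_neg]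
    exact h3


/-- the stable subspace `S + i1 R1` -/
def Q1 (g : Matrix ι δ K) (i1 : P1 →ₗ[K] (ι → K)) (R1 : Submodule K P1) :
    Submodule K (ι → K) := LinearMap.range g.mulVecLin ⊔ R1.map i1

omit h in
theorem S_mem_Q1 (R1 : Submodule K P1) (u : δ → K) : g *ᵥ u ∈ Q1 g i1 R1 :=
  Submodule.mem_sup_left ⟨u, rfl⟩

omit h in
theorem R1_mem_Q1 {R1 : Submodule K P1} {r : P1} (hr : r ∈ R1) : i1 r ∈ Q1 g i1 R1 :=
  Submodule.mem_sup_right ⟨r, hr, rfl⟩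

theorem Q1_stable {R1 : Submodule K P1} (hR : ∀ t, ∀ r ∈ R1, A t r ∈ R1) (s : Fin 3) :
    ∀ w ∈ Q1 g i1 R1, (M arm B s f f * J) *ᵥ w ∈ Q1 g i1 R1 := by
  have : Q1 g i1 R1 ≤ (Q1 g i1 R1).comap (M arm B s f f * J).mulVecLin := by
    refine sup_le ?_ ?_
    · rintro _ ⟨u, rfl⟩
      rw [Submodule.mem_comap, mulVecLin_apply, mulVecLin_apply, h.Mf_g]
      exact Submodule.zero_mem _
    · rintro _ ⟨r, hr, rfl⟩
      obtain ⟨u, hu⟩ := h.A1 s r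
      rw [Submodule.mem_comap, mulVecLin_apply, hu]
      exact Submodule.add_mem _ (R1_mem_Q1 (hR s r hr)) (S_mem_Q1 R1 u)
  exact fun w hw => this hw

theorem S_stable (s : Fin 3) : ∀ w ∈ (LinearMap.range g.mulVecLin : Submodule K (ι → K)),
    (M arm B s f f * J) *ᵥ w ∈ (LinearMap.range g.mulVecLin : Submodule K (ι → K)) := by
  rintro _ ⟨u, rfl⟩
  rw [mulVecLin_apply, h.Mf_g]
  exact Submodule.zero_mem _

/-- the exceptional parameters for `P2 → V ⧸ (S + i1 R1)` -/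
def Exc (h : Side arm J B g f X A Bo i1 i2) (Q0 : Submodule K (ι → K))
    (hst : ∀ s, ∀ w ∈ Q0, (M arm B s f f * J) *ᵥ w ∈ Q0) : Set K :=
  {c : K | ∃ x : P2 →ₗ[K] ((ι → K) ⧸ Q0), x ≠ 0 ∧ ∀ s, x ∘ₗ Bo s =
      -(c • ((Q0.mapQ Q0 (M arm B s f f * J).mulVecLin (fun w hw => hst s w hw)) ∘ₗ x))}

/-- **`Z|P2` has values in `S + i1 R1`** -/
theorem val1 {c : K} (hc : c ≠ 0) {R1 : Submodule K P1} {R2 : Submodule K P2}
    (hR : ∀ t, ∀ r ∈ R1, A t r ∈ R1) (hgR : ∀ r ∈ R2, ∀ p, g2 J X i2 r p = 0)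
    (hcx : c⁻¹ ∉ h.Exc (Q1 g i1 R1) (h.Q1_stable hR)) {x : Fin 3 → P2 ⊗[K] P1}
    (harm : ∀ t, (A t).lTensor P2 (x t) - c • (Bo t).rTensor P1 (x t) ∈ Rad R1 R2)
    {Z : Matrix ι ι K} (hZ : Skw J Z)
    (hφ : ∀ s, Inter arm J B g f X c (ten J i1 i2 (x s)) Z s) (a : P2) :
    Z *ᵥ i2 a ∈ Q1 g i1 R1 := by
  refine h.val hc (Q1 g i1 R1) (h.Q1_stable hR) hcx (Z.mulVecLin ∘ₗ i2) (fun s a => ?_) a
  obtain ⟨u, hu⟩ := h.rel1 hZ (hφ s) a
  obtain ⟨u', hu'⟩ := h.A1 s (ev1 (g2 J X i2) (x s) a)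
  have h1 : ev1 (g2 J X i2) ((A s).lTensor P2 (x s) - c • (Bo s).rTensor P1 (x s)) a ∈ R1 := by
    have hle : Rad R1 R2 ≤ R1.comap (LinearMap.applyₗ a ∘ₗ ev1 (g2 J X i2)) := by
      refine rad_le (fun r hr p => ?_) (fun r hr p => ?_)
      · rw [Submodule.mem_comap, LinearMap.comp_apply, LinearMap.applyₗ_apply_apply, ev1_tmul,
          hgR r hr, zero_smul]
        exact R1.zero_mem
      · rw [Submodule.mem_comap, LinearMap.comp_apply, LinearMap.applyₗ_apply_apply, ev1_tmul]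
        exact R1.smul_mem _ hr
    exact hle (harm s)
  rw [h.ev1_defect] at h1
  have h2 : (M arm B s f f * J) *ᵥ (Z.mulVecLin ∘ₗ i2) a + c • (Z.mulVecLin ∘ₗ i2) (Bo s a)
      = g *ᵥ u - c • g *ᵥ u'
        - c • i1 (A s (ev1 (g2 J X i2) (x s) a) + c • ev1 (g2 J X i2) (x s) (Bo s a)) := by
    rw [LinearMap.comp_apply, LinearMap.comp_apply, mulVecLin_apply, mulVecLin_apply, ← hu,
      hu', map_add, map_smul]
    simp only [smul_add, smul_smul, pow_two]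
    abel
  rw [h2]
  exact Submodule.sub_mem _ (Submodule.sub_mem _ (S_mem_Q1 R1 u)
    (Submodule.smul_mem _ _ (S_mem_Q1 R1 u'))) (Submodule.smul_mem _ _ (R1_mem_Q1 h1))

omit h in
/-- choice of `b` -/
theorem exists_b {c : K} (hc : c ≠ 0) {R1 : Submodule K P1} {Z : Matrix ι ι K}
    (hZ : ∀ a, Z *ᵥ i2 a ∈ Q1 g i1 R1) :
    ∃ b : P2 →ₗ[K] P1, (∀ p, b p ∈ R1) ∧ ∀ p, ∃ u, Z *ᵥ i2 p = -(c • i1 (b p)) + g *ᵥ u := by
  let ρ : (R1 × (δ → K)) →ₗ[K] (Q1 g i1 R1) :=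
    LinearMap.codRestrict _ ((i1 ∘ₗ R1.subtype).coprod g.mulVecLin) (fun z =>
      Submodule.add_mem _ (R1_mem_Q1 z.1.2) (S_mem_Q1 R1 z.2))
  have hρ : Function.Surjective ρ := by
    rintro ⟨w, hw⟩
    obtain ⟨w1, ⟨u, hu⟩, w2, ⟨r, hr, hr2⟩, rfl⟩ := Submodule.mem_sup.1 hw
    refine ⟨(⟨r, hr⟩, u), ?_⟩
    apply Subtype.ext
    change i1 r + g *ᵥ u = w1 + w2
    rw [← hu, ← hr2, mulVecLin_apply, add_comm]
  obtain ⟨hh, hhh⟩ := Module.projective_lifting_property ρ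
    (LinearMap.codRestrict (Q1 g i1 R1) (Z.mulVecLin ∘ₗ i2) hZ) hρ
  refine ⟨-(c⁻¹ • (R1.subtype ∘ₗ LinearMap.fst K R1 (δ → K) ∘ₗ hh)), fun p => ?_, fun p => ?_⟩
  · exact R1.neg_mem (R1.smul_mem _ (hh p).1.2)
  · refine ⟨(hh p).2, ?_⟩
    have h1 := congrArg Subtype.val (LinearMap.congr_fun hhh p)
    have h2 : i1 ((hh p).1 : P1) + g *ᵥ (hh p).2 = Z *ᵥ i2 p := h1
    rw [← h2]
    congr 1
    change i1 ((hh p).1 : P1) = -(c • i1 (-(c⁻¹ • ((hh p).1 : P1))))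
    rw [map_neg, map_smul, smul_neg, neg_neg, smul_smul, mul_inv_cancel₀ hc, one_smul]

/-- the relation for `b`, modulo `Zs = {p | i1 p ∈ S}` -/
theorem cor_of {c : K} (hc : c ≠ 0) {x : P2 ⊗[K] P1} {Z : Matrix ι ι K} (hZ : Skw J Z) {s : Fin 3}
    (hφ : Inter arm J B g f X c (ten J i1 i2 x) Z s) {b : P2 →ₗ[K] P1}
    (hb : ∀ p, ∃ u, Z *ᵥ i2 p = -(c • i1 (b p)) + g *ᵥ u) (a : P2) :
    ∃ u, i1 ((A s (b a) + c • b (Bo s a)) - (A s (ev1 (g2 J X i2) x a)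
      + c • ev1 (g2 J X i2) x (Bo s a))) = g *ᵥ u := by
  obtain ⟨u, hu⟩ := h.rel1 hZ hφ a
  obtain ⟨u1, hu1⟩ := h.A1 s (ev1 (g2 J X i2) x a)
  obtain ⟨u2, hu2⟩ := h.A1 s (b a)
  obtain ⟨u3, hu3⟩ := hb a
  obtain ⟨u4, hu4⟩ := hb (Bo s a)
  have h3 : (M arm B s f f * J) *ᵥ (Z *ᵥ i2 a) = -(c • i1 (A s (b a))) - c • g *ᵥ u2 := by
    rw [hu3, mulVec_add, mulVec_neg, mulVec_smul, h.Mf_g, hu2, add_zero, smul_add, neg_add,
      sub_eq_add_neg]
  rw [h3, hu1, hu4] at hu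
  -- multiply by `- c⁻¹`
  refine ⟨-(c⁻¹ • u) - u2 + u1 + u4, ?_⟩
  have h5 : c • i1 ((A s (b a) + c • b (Bo s a)) - (A s (ev1 (g2 J X i2) x a)
      + c • ev1 (g2 J X i2) x (Bo s a))) = c • (g *ᵥ (-(c⁻¹ • u) - u2 + u1 + u4)) := by
    rw [mulVec_add, mulVec_add, mulVec_sub, mulVec_neg, mulVec_smul, smul_add, smul_add, smul_sub,
      smul_neg, smul_smul c c⁻¹, mul_inv_cancel₀ hc, one_smul, ← hu]
    simp only [map_sub, map_add, map_smul, smul_add, smul_sub, smul_neg, smul_smul, pow_two]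
    abel
  have h6 := congrArg (fun y => c⁻¹ • y) h5
  simpa only [smul_smul, inv_mul_cancel₀ hc, one_smul] using h6


omit h in
/-- `θ = gᵀ J X i2` -/
noncomputable def th (J : Matrix ι ι K) (g : Matrix ι δ K) (X : Matrix ι ι K)
    (i2 : P2 →ₗ[K] (ι → K)) : P2 →ₗ[K] (δ → K) := (gᵀ * J * X).mulVecLin ∘ₗ i2

omit h in
/-- the operator `gᵀ J X g E_s B` on `δ → K` -/
noncomputable def ad (arm : δ → Fin 3) (J : Matrix ι ι K) (B : Matrix δ δ K) (g : Matrix ι δ K)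
    (X : Matrix ι ι K) (s : Fin 3) : End K (δ → K) := (gᵀ * J * X * g * E K arm s * B).mulVecLin

omit h in
theorem ad_g (s : Fin 3) (w : ι → K) : ad arm J B g X s ((gᵀ * J) *ᵥ w)
    = (gᵀ * J) *ᵥ (X *ᵥ ((M arm B s g g * J) *ᵥ w)) := by
  unfold ad M
  rw [mulVecLin_apply]
  simp only [mulVec_mulVec, Matrix.mul_assoc]

theorem ad_th (s : Fin 3) (r : P2) : ad arm J B g X s (th J g X i2 r) = th J g X i2 (Bo s r) := by
  have h1 : ∀ w, (gᵀ * J * X) *ᵥ w = (gᵀ * J) *ᵥ (X *ᵥ w) := fun w => by rw [mulVec_mulVec]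
  unfold th
  rw [LinearMap.comp_apply, LinearMap.comp_apply, mulVecLin_apply, mulVecLin_apply, h1, ad_g, h.B2,
    h1]

theorem R2_stable {R2 : Submodule K P2} (hR : ∀ t, ∀ r ∈ R2, Bo t r ∈ R2) (s : Fin 3) :
    ∀ w ∈ R2.map (th J g X i2), ad arm J B g X s w ∈ R2.map (th J g X i2) := by
  rintro _ ⟨r, hr, rfl⟩
  rw [h.ad_th]
  exact ⟨_, hR s r hr, rfl⟩

/-- the exceptional parameters for `P1 → S^* ⧸ θ R2` -/
def Exc2 (h : Side arm J B g f X A Bo i1 i2) {R2 : Submodule K P2}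
    (hR : ∀ t, ∀ r ∈ R2, Bo t r ∈ R2) : Set K :=
  {c : K | ∃ x : P1 →ₗ[K] ((δ → K) ⧸ R2.map (th J g X i2)), x ≠ 0 ∧ ∀ s, x ∘ₗ A s =
      c • (((R2.map (th J g X i2)).mapQ (R2.map (th J g X i2)) (ad arm J B g X s)
        (fun w hw => h.R2_stable hR s w hw)) ∘ₗ x)}

theorem rel2 {c : K} {x : P2 ⊗[K] P1} {Z : Matrix ι ι K} (hZg : gᵀ * J * (Z * g) = 0) {s : Fin 3}
    (hφ : Inter arm J B g f X c (ten J i1 i2 x) Z s) (p : P1) :
    (gᵀ * J) *ᵥ (Z *ᵥ i1 (A s p)) - c • ad arm J B g X s ((gᵀ * J) *ᵥ (Z *ᵥ i1 p))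
      = - (c • th J g X i2 (ev2 J i1 ((A s).lTensor P2 x - c • (Bo s).rTensor P1 x) p)) := by
  have h1 := hφ (i1 p) (h.J1 p)
  obtain ⟨u, hu⟩ := h.A1 s p
  have hZu : (gᵀ * J) *ᵥ (Z *ᵥ (g *ᵥ u)) = 0 := by
    rw [mulVec_mulVec, mulVec_mulVec, Matrix.mul_assoc (gᵀ * J) Z g, hZg, zero_mulVec]
  have e0 : ∀ r, (gᵀ * J) *ᵥ (X *ᵥ i2 r) = th J g X i2 r := by
    intro r
    unfold th
    rw [LinearMap.comp_apply, mulVecLin_apply, mulVec_mulVec]
  have l1 : ∀ y : P2, (gᵀ * J) *ᵥ (c • X *ᵥ ((M arm B s g g * J) *ᵥ (c • X *ᵥ i2 y + Z *ᵥ i1 p)))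
      = c • (c • th J g X i2 (Bo s y) + ad arm J B g X s ((gᵀ * J) *ᵥ (Z *ᵥ i1 p))) := by
    intro y
    rw [mulVec_smul, ← ad_g, mulVec_add, mulVec_smul, e0, map_add, map_smul, h.ad_th]
  have l2 : ∀ y : P2, (gᵀ * J) *ᵥ (c • X *ᵥ i2 y + (Z *ᵥ i1 (A s p) + Z *ᵥ (g *ᵥ u)))
      = c • th J g X i2 y + (gᵀ * J) *ᵥ (Z *ᵥ i1 (A s p)) := by
    intro y
    rw [mulVec_add, mulVec_smul, e0, mulVec_add, hZu, add_zero]
  rw [hu, mulVec_add (ten J i1 i2 x), h.ten_g_mulVec, add_zero, h.ten_i1, h.ten_i1,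
    mulVec_add Z, l1, l2] at h1
  rw [h.ev2_defect, map_sub, map_smul]
  have h2 : (gᵀ * J) *ᵥ (Z *ᵥ i1 (A s p))
      = c • (c • th J g X i2 (Bo s (ev2 J i1 x p)) + ad arm J B g X s ((gᵀ * J) *ᵥ (Z *ᵥ i1 p)))
        - c • th J g X i2 (ev2 J i1 x (A s p)) := by
    rw [h1]; abel
  rw [h2, smul_sub, smul_add]
  abel

/-- **values of `Z|P1`** -/
theorem val2 {c : K} {R1 : Submodule K P1} {R2 : Submodule K P2}
    (hR : ∀ t, ∀ r ∈ R2, Bo t r ∈ R2) (horth : ∀ r ∈ R1, ∀ p, i1 r ⬝ᵥ J *ᵥ i1 p = 0)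
    (hcx : c ∉ h.Exc2 hR) {x : Fin 3 → P2 ⊗[K] P1}
    (harm : ∀ t, (A t).lTensor P2 (x t) - c • (Bo t).rTensor P1 (x t) ∈ Rad R1 R2)
    {Z : Matrix ι ι K} (hZg : gᵀ * J * (Z * g) = 0)
    (hφ : ∀ s, Inter arm J B g f X c (ten J i1 i2 (x s)) Z s) (p : P1) :
    ∃ r ∈ R2, (gᵀ * J) *ᵥ (Z *ᵥ i1 p) = (gᵀ * J) *ᵥ (X *ᵥ i2 r) := by
  by_contra hne
  refine hcx ⟨(R2.map (th J g X i2)).mkQ ∘ₗ ((gᵀ * J).mulVecLin ∘ₗ Z.mulVecLin ∘ₗ i1),
    fun h0 => hne ?_, fun s => ?_⟩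
  · have h1 := LinearMap.congr_fun h0 p
    rw [LinearMap.comp_apply, LinearMap.zero_apply, Submodule.mkQ_apply,
      Submodule.Quotient.mk_eq_zero] at h1
    obtain ⟨r, hr, h2⟩ := h1
    refine ⟨r, hr, ?_⟩
    have h3 : (gᵀ * J * X) *ᵥ i2 r = (gᵀ * J) *ᵥ (Z *ᵥ i1 p) := h2
    rw [← h3, mulVec_mulVec]
  · ext1 p
    have h1 := h.rel2 hZg (hφ s) p
    have h2 : ev2 J i1 ((A s).lTensor P2 (x s) - c • (Bo s).rTensor P1 (x s)) p ∈ R2 := by
      have hle : Rad R1 R2 ≤ R2.comap (LinearMap.applyₗ p ∘ₗ ev2 J i1) := by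
        refine rad_le (fun r hr p' => ?_) (fun r hr p' => ?_)
        · rw [Submodule.mem_comap, LinearMap.comp_apply, LinearMap.applyₗ_apply_apply, ev2_tmul]
          exact R2.smul_mem _ hr
        · rw [Submodule.mem_comap, LinearMap.comp_apply, LinearMap.applyₗ_apply_apply, ev2_tmul,
            horth r hr, zero_smul]
          exact R2.zero_mem
      exact hle (harm s)
    have h3 : (R2.map (th J g X i2)).mkQ ((gᵀ * J) *ᵥ (Z *ᵥ i1 (A s p)))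
        = c • (R2.map (th J g X i2)).mkQ (ad arm J B g X s ((gᵀ * J) *ᵥ (Z *ᵥ i1 p))) := by
      rw [← map_smul, ← sub_eq_zero, ← map_sub, h1, Submodule.mkQ_apply,
        Submodule.Quotient.mk_eq_zero]
      exact Submodule.neg_mem _ (Submodule.smul_mem _ _ ⟨_, h2, rfl⟩)
    exact h3


/-! ### the product in tensor form -/

omit h in
theorem vmv_add_left (a a' b : ι → K) : vecMulVec (a + a') b = vecMulVec a b + vecMulVec a' b := by
  ext i j; simp [vecMulVec_apply, add_mul]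

omit h in
theorem vmv_S (u : δ → K) (b : ι → K) (F : Matrix ι δ K) :
    ∃ C : Matrix δ δ K, vecMulVec (g *ᵥ u) b * F = g * C := by
  refine ⟨vecMulVec u (b ᵥ* F), ?_⟩
  rw [vmv_mul]
  ext i j
  simp only [vecMulVec_apply, Matrix.mul_apply, mulVec, dotProduct, Finset.sum_mul, mul_assoc]

theorem vm_gf (u : δ → K) : (g *ᵥ u) ᵥ* (J * f) = 0 := by
  have h1 : (J * f)ᵀ *ᵥ (g *ᵥ u) = 0 := by
    rw [transpose_mul, h.J_symm, mulVec_mulVec]
    have h2 : fᵀ * J * g = 0 := by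
      have := congrArg transpose h.gf
      rw [transpose_mul, transpose_mul, transpose_transpose, h.J_symm, transpose_zero,
        ← Matrix.mul_assoc] at this
      exact this
    rw [h2, zero_mulVec]
  rwa [mulVec_transpose] at h1

/-- `(p1 ᵀ J f)` killed if `p1 ∈ S` -/
theorem vmv_gf (a : ι → K) (u : δ → K) : vecMulVec a (g *ᵥ u) * (J * f) = 0 := by
  rw [vmv_mul, h.vm_gf]
  ext i j
  simp [vecMulVec_apply]

/-- `ten x * f` -/
theorem ten_f (p2 : P2) (p1 : P1) :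
    ten J i1 i2 (p2 ⊗ₜ[K] p1) * f = vecMulVec (i2 p2) (i1 p1) * (J * f) := by
  obtain ⟨u, hu⟩ := h.J2 p2
  rw [ten_tmul, Matrix.sub_mul, Matrix.mul_assoc, Matrix.mul_assoc (vecMulVec (i1 p1) (i2 p2)),
    hu, h.vmv_gf, sub_zero]

/-- **the product formula in tensor form** -/
theorem tprod {x x' : P2 ⊗[K] P1} {u u' : Matrix ι ι K} (hu : Skw J u)
    {b b' : P2 →ₗ[K] P1} (hb : ∀ p, ∃ z, u *ᵥ i2 p = - i1 (b p) + g *ᵥ z)
    (hb' : ∀ p, ∃ z, u' *ᵥ i2 p = - i1 (b' p) + g *ᵥ z)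
    (q : P1 →ₗ[K] P1 →ₗ[K] Matrix ι δ K)
    (hq : ∀ a a', q a a' = vecMulVec (i1 a) (i1 a') * (J * f)) :
    ∃ C : Matrix δ δ K, (ten J i1 i2 x' * X * ten J i1 i2 x + ten J i1 i2 x' * u
        - u' * ten J i1 i2 x) * f
      = TensorProduct.lift (q ∘ₗ b') x - TensorProduct.lift (q.flip ∘ₗ b) x'
        - TensorProduct.lift (q ∘ₗ ev1 (g2 J X i2) x') x + g * C := by
  -- third term
  have t3 : ∃ C : Matrix δ δ K, u' * ten J i1 i2 x * f
      = - TensorProduct.lift (q ∘ₗ b') x + g * C := by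
    induction x using TensorProduct.induction_on with
    | zero => exact ⟨0, by simp⟩
    | tmul p2 p1 =>
      obtain ⟨z, hz⟩ := hb' p2
      obtain ⟨C, hC⟩ := vmv_S (g := g) z (i1 p1) (J * f)
      refine ⟨C, ?_⟩
      rw [Matrix.mul_assoc, h.ten_f, ← Matrix.mul_assoc, ← hC]
      have e1 : u' * vecMulVec (i2 p2) (i1 p1) = vecMulVec (u' *ᵥ i2 p2) (i1 p1) := by
        ext i j
        simp [Matrix.mul_apply, vecMulVec_apply, mulVec, dotProduct, Finset.sum_mul, mul_assoc]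
      rw [e1, hz, vmv_add_left, Matrix.add_mul, TensorProduct.lift.tmul, LinearMap.comp_apply, hq]
      congr 1
      rw [← Matrix.neg_mul]
      congr 1
      ext i j
      simp [vecMulVec_apply]
    | add x y hx hy =>
      obtain ⟨C, hC⟩ := hx
      obtain ⟨C', hC'⟩ := hy
      refine ⟨C + C', ?_⟩
      rw [map_add, Matrix.mul_add, Matrix.add_mul, hC, hC', map_add, Matrix.mul_add]
      abel
  -- second term
  have t2 : ∃ C : Matrix δ δ K, ten J i1 i2 x' * u * f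
      = - TensorProduct.lift (q.flip ∘ₗ b) x' + g * C := by
    clear t3
    induction x' using TensorProduct.induction_on with
    | zero => exact ⟨0, by simp⟩
    | tmul p2 p1 =>
      obtain ⟨z, hz⟩ := hb p2
      obtain ⟨v, hv⟩ := h.J2 p2
      obtain ⟨C, hC⟩ := vmv_S (g := g) v (i1 p1) (J * u * f)
      refine ⟨C, ?_⟩
      rw [← hC, ← hv, TensorProduct.lift.tmul, LinearMap.comp_apply, LinearMap.flip_apply, hq]
      have e1 : vecMulVec (i1 p1) (i2 p2) * (J * u * f)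
          = vecMulVec (i1 p1) (i1 (b p2)) * (J * f) := by
        have h1 : i2 p2 ᵥ* (J * u * f) = - ((u *ᵥ i2 p2) ᵥ* (J * f)) := by
          have e2 : J * u = - (uᵀ * J) := by rw [hu.eq, neg_neg]
          rw [e2, Matrix.neg_mul, vecMul_neg, Matrix.mul_assoc, ← vecMul_vecMul,
            vecMul_transpose]
        have h2 : (u *ᵥ i2 p2) ᵥ* (J * f) = - (i1 (b p2) ᵥ* (J * f)) := by
          rw [hz, add_vecMul, h.vm_gf, add_zero, neg_vecMul]
        rw [vmv_mul, vmv_mul, h1, h2, neg_neg]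
      rw [ten_tmul, Matrix.sub_mul, Matrix.sub_mul]
      have e3 : vecMulVec (i1 p1) (i2 p2) * J * u * f
          = vecMulVec (i1 p1) (i1 (b p2)) * (J * f) := by
        rw [← e1]; simp only [Matrix.mul_assoc]
      rw [e3]
      simp only [Matrix.mul_assoc]
      abel
    | add x y hx hy =>
      obtain ⟨C, hC⟩ := hx
      obtain ⟨C', hC'⟩ := hy
      refine ⟨C + C', ?_⟩
      rw [map_add, Matrix.add_mul, Matrix.add_mul, hC, hC', map_add, Matrix.mul_add]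
      abel
  -- first term
  have t1 : ∃ C : Matrix δ δ K, ten J i1 i2 x' * X * ten J i1 i2 x * f
      = - TensorProduct.lift (q ∘ₗ ev1 (g2 J X i2) x') x + g * C := by
    clear t2 t3
    induction x using TensorProduct.induction_on with
    | zero => exact ⟨0, by simp⟩
    | tmul p2 p1 =>
      have key : ∃ z : δ → K, ten J i1 i2 x' *ᵥ (X *ᵥ i2 p2)
          = - i1 (ev1 (g2 J X i2) x' p2) + g *ᵥ z := by
        induction x' using TensorProduct.induction_on with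
        | zero => exact ⟨0, by simp⟩
        | tmul p2' p1' =>
          obtain ⟨v, hv⟩ := h.J2 p2'
          refine ⟨(i1 p1' ⬝ᵥ J *ᵥ (X *ᵥ i2 p2)) • v, ?_⟩
          rw [ten_tmul, sub_mulVec, ← mulVec_mulVec, ← mulVec_mulVec, vmv_mulVec, vmv_mulVec,
            ev1_tmul, map_smul, g2_apply, mulVec_smul, ← hv, h.J_comm (i2 p2')]
          abel
        | add x y hx hy =>
          obtain ⟨z, hz⟩ := hx
          obtain ⟨z', hz'⟩ := hy
          refine ⟨z + z', ?_⟩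
          rw [map_add, add_mulVec, hz, hz', map_add, LinearMap.add_apply, map_add, mulVec_add]
          abel
      obtain ⟨z, hz⟩ := key
      obtain ⟨C, hC⟩ := vmv_S (g := g) z (i1 p1) (J * f)
      refine ⟨C, ?_⟩
      rw [Matrix.mul_assoc, h.ten_f, ← Matrix.mul_assoc, ← hC]
      have e1 : ten J i1 i2 x' * X * vecMulVec (i2 p2) (i1 p1)
          = vecMulVec (ten J i1 i2 x' *ᵥ (X *ᵥ i2 p2)) (i1 p1) := by
        rw [mulVec_mulVec]
        ext i j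
        simp only [Matrix.mul_apply, vecMulVec_apply, mulVec, dotProduct, Finset.sum_mul, mul_assoc]
      rw [e1, hz, vmv_add_left, Matrix.add_mul, TensorProduct.lift.tmul, LinearMap.comp_apply, hq]
      congr 1
      rw [← Matrix.neg_mul]
      congr 1
      ext i j
      simp [vecMulVec_apply]
    | add x y hx hy =>
      obtain ⟨C, hC⟩ := hx
      obtain ⟨C', hC'⟩ := hy
      refine ⟨C + C', ?_⟩
      rw [map_add, Matrix.mul_add, Matrix.add_mul, hC, hC', map_add, Matrix.mul_add]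
      abel
  obtain ⟨C1, h1⟩ := t1
  obtain ⟨C2, h2⟩ := t2
  obtain ⟨C3, h3⟩ := t3
  refine ⟨C1 + C2 - C3, ?_⟩
  rw [Matrix.sub_mul, Matrix.add_mul, h1, h2, h3, Matrix.mul_sub, Matrix.mul_add]
  abel

end Side

end Crest.Agent.R172.QBr
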