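import Crest.Agent.R172.QBr

/-!
Row 172 (S0260), t3: the P-side bridge and the P-half of the end.
-/

set_option autoImplicit false
set_option linter.unusedSectionVars false
set_option linter.unusedFintypeInType false
set_option linter.unusedDecidableInType false
set_option linter.unusedSimpArgs false
set_option maxHeartbeats 800000

namespace Crest.Agent.R172.QBr

open Matrix Module TensorProduct Crest.Agent.R172.FO Crest.Agent.R172.Qt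
open Crest.Agent.R172.Mix
open Crest.Agent.R172.QEndP (mt SSp)

section abs

variable {ι : Type*} [Fintype ι] [DecidableEq ι] {δ : Type*} [Fintype δ] [DecidableEq δ]
variable {K : Type*} [Field K]
variable {P1 P2 : Type*} [AddCommGroup P1] [Module K P1] [AddCommGroup P2] [Module K P2]
variable {arm : δ → Fin 3} {J : Matrix ι ι K} {B : Matrix δ δ K} {g f : Matrix ι δ K}
  {X : Matrix ι ι K} {A : Fin 3 → End K P1} {Bo : Fin 3 → End K P2}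
  {i1 : P1 →ₗ[K] (ι → K)} {i2 : P2 →ₗ[K] (ι → K)}

namespace Side

variable (h : Side arm J B g f X A Bo i1 i2)

include h

/-- every correction is the class of `Z` -/
theorem b_of {c : K} (hc : c ≠ 0)
    (hcx : c⁻¹ ∉ h.Exc (LinearMap.range g.mulVecLin) h.S_stable)
    {x : Fin 3 → P2 ⊗[K] P1} {Z : Matrix ι ι K} (hZ : Skw J Z)
    (hφ : ∀ s, Inter arm J B g f X c (ten J i1 i2 (x s)) Z s) {b : P2 →ₗ[K] P1}
    (hb : ∀ s a, i1 ((A s (b a) + c • b (Bo s a)) - (A s (ev1 (g2 J X i2) (x s) a)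
      + c • ev1 (g2 J X i2) (x s) (Bo s a))) ∈ LinearMap.range g.mulVecLin) (a : P2) :
    ∃ u, Z *ᵥ i2 a = -(c • i1 (b a)) + g *ᵥ u := by
  have h1 := h.val hc (LinearMap.range g.mulVecLin) h.S_stable hcx
    (Z.mulVecLin ∘ₗ i2 + c • (i1 ∘ₗ b)) (fun s a => ?_) a
  · obtain ⟨u, hu⟩ := h1
    refine ⟨u, ?_⟩
    have h2 : g *ᵥ u = Z *ᵥ i2 a + c • i1 (b a) := hu
    rw [h2]; abel
  · obtain ⟨u, hu⟩ := h.rel1 hZ (hφ s) a
    obtain ⟨u1, hu1⟩ := h.A1 s (ev1 (g2 J X i2) (x s) a)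
    obtain ⟨u2, hu2⟩ := h.A1 s (b a)
    obtain ⟨u3, hu3⟩ := hb s a
    refine ⟨u - c • u1 + c • u2 + c • u3, ?_⟩
    have h3 : g *ᵥ u3 = i1 ((A s (b a) + c • b (Bo s a)) - (A s (ev1 (g2 J X i2) (x s) a)
      + c • ev1 (g2 J X i2) (x s) (Bo s a))) := hu3
    change g *ᵥ (u - c • u1 + c • u2 + c • u3) =
      (M arm B s f f * J) *ᵥ (Z *ᵥ i2 a + c • i1 (b a))
        + c • (Z *ᵥ i2 (Bo s a) + c • i1 (b (Bo s a)))
    rw [mulVec_add, mulVec_add, mulVec_sub, mulVec_smul, mulVec_smul, mulVec_smul, h3, ← hu,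
      mulVec_add (M arm B s f f * J), mulVec_smul (M arm B s f f * J), hu2, hu1]
    simp only [map_sub, map_add, map_smul, smul_add, smul_sub, smul_smul, pow_two]
    abel

/-- **the correction `Z' e` pairs to zero with `P1`** -/
theorem u2e {c : K} (hc : c ≠ 0) {R1 : Submodule K P1} {R2 : Submodule K P2}
    (horth : ∀ r ∈ R1, ∀ p, i1 r ⬝ᵥ J *ᵥ i1 p = 0)
    {Z Z' : Matrix ι ι K} (hZ : Skw J Z) (hZ' : Skw J Z')
    {b : P2 →ₗ[K] P1} (hbR : ∀ p, b p ∈ R1)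
    (hb : ∀ p, ∃ u, Z *ᵥ i2 p = -(c • i1 (b p)) + g *ᵥ u)
    (hv2 : ∀ p : P1, ∃ r ∈ R2, (gᵀ * J) *ᵥ (Z' *ᵥ i1 p) = (gᵀ * J) *ᵥ (X *ᵥ i2 r))
    {e : Matrix ι δ K} (heS : ∃ C : Matrix δ δ K, e = g * C) (r : Fin 3) (q : P1)
    (hrel : (gᵀ * J) *ᵥ (c • X *ᵥ (e *ᵥ ((E K arm r * B * fᵀ * J) *ᵥ i1 q)))
      = - ((gᵀ * J) *ᵥ (Z *ᵥ ((M arm B r f f * J) *ᵥ i1 q))))
    (p : P1) :
    i1 p ⬝ᵥ (J *ᵥ (Z' *ᵥ (e *ᵥ ((E K arm r * B * fᵀ * J) *ᵥ i1 q)))) = 0 := by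
  obtain ⟨C, hC⟩ := heS
  set y : δ → K := (E K arm r * B * fᵀ * J) *ᵥ i1 q with hy
  have hey : e *ᵥ y = g *ᵥ (C *ᵥ y) :=
    (congrArg (fun T : Matrix ι δ K => T *ᵥ y) hC).trans (mulVec_mulVec y g C).symm
  obtain ⟨r2, hr2, h2⟩ := hv2 p
  obtain ⟨u, hu⟩ := h.J2 r2
  have hdotg : ∀ (w : ι → K) (z : δ → K), w ⬝ᵥ J *ᵥ (g *ᵥ z) = ((gᵀ * J) *ᵥ w) ⬝ᵥ z := by
    intro w z
    rw [mulVec_mulVec, dotProduct_mulVec, ← mulVec_transpose, transpose_mul, h.J_symm]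
  have hgd : ∀ (w : ι → K), (g *ᵥ u) ⬝ᵥ J *ᵥ w = u ⬝ᵥ (gᵀ * J) *ᵥ w := by
    intro w
    rw [← vecMul_transpose, ← dotProduct_mulVec, mulVec_mulVec]
  have s1 : i1 p ⬝ᵥ J *ᵥ (Z' *ᵥ (e *ᵥ y)) = - ((X *ᵥ i2 r2) ⬝ᵥ J *ᵥ (e *ᵥ y)) := by
    have := h.skw_adj hZ' (i1 p) (e *ᵥ y)
    rw [eq_neg_iff_add_eq_zero, add_comm, ← eq_neg_iff_add_eq_zero] at this
    rw [this, hey, hdotg, h2, ← hdotg]
  have s2 : (X *ᵥ i2 r2) ⬝ᵥ J *ᵥ (e *ᵥ y) = - (u ⬝ᵥ (gᵀ * J) *ᵥ (X *ᵥ (e *ᵥ y))) := by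
    rw [h.skw_adj h.X_skw, hu, hgd]
  have s3 : c * (u ⬝ᵥ (gᵀ * J) *ᵥ (X *ᵥ (e *ᵥ y))) = 0 := by
    have h3 := congrArg (fun z => u ⬝ᵥ z) hrel
    simp only [mulVec_smul, dotProduct_smul, dotProduct_neg, smul_eq_mul] at h3
    rw [h3, ← hgd, ← hu]
    have h4 := h.skw_adj hZ (i2 r2) ((M arm B r f f * J) *ᵥ i1 q)
    obtain ⟨z, hz⟩ := hb r2
    rw [← h4, hz, add_dotProduct, h.S_dot z (h.Mf_perp r (i1 q)), add_zero, neg_dotProduct,
      smul_dotProduct, ← h.M_adj, ← h.A_dot r (b r2) (h.J1 q), h.A_adj, horth _ (hbR r2), smul_zero,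
      neg_zero]
  have s4 : u ⬝ᵥ (gᵀ * J) *ᵥ (X *ᵥ (e *ᵥ y)) = 0 := by
    rcases mul_eq_zero.1 s3 with h0 | h0
    · exact absurd h0 hc
    · exact h0
  rw [s1, s2, s4, neg_zero, neg_zero]

end Side

end abs

variable {ι : Type*} [Fintype ι] [DecidableEq ι] {δ : Type*} [Fintype δ] [DecidableEq δ]
variable {k K : Type*} [Field k] [Field K] [Algebra k K]
variable {arm : δ → Fin 3} {J : Matrix ι ι K} {B : Matrix δ δ K}
  {N W : Submodule K (Matrix ι δ K)} {g f : Matrix ι δ K}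


section tens

variable {P1 P2 : Type*} [AddCommGroup P1] [Module K P1] [AddCommGroup P2] [Module K P2]

/-- the bilinear maps `q t a a' = (a a'ᵀ J) f E_t` -/
noncomputable def qf (arm : δ → Fin 3) (J : Matrix ι ι K) (f : Matrix ι δ K)
    (i1 : P1 →ₗ[K] (ι → K)) (t : Fin 3) : P1 →ₗ[K] P1 →ₗ[K] Matrix ι δ K :=
  LinearMap.mk₂ K (fun a a' => vecMulVec (i1 a) (i1 a') * (J * f) * E K arm t)
    (fun a b c => by rw [map_add, add_vecMulVec, Matrix.add_mul, Matrix.add_mul])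
    (fun t a c => by rw [map_smul, smul_vecMulVec, Matrix.smul_mul, Matrix.smul_mul])
    (fun a b c => by rw [map_add, vecMulVec_add, Matrix.add_mul, Matrix.add_mul])
    (fun t a c => by rw [map_smul, vecMulVec_smul, Matrix.smul_mul, Matrix.smul_mul])

/-- without the arm -/
noncomputable def q0 (J : Matrix ι ι K) (f : Matrix ι δ K)
    (i1 : P1 →ₗ[K] (ι → K)) : P1 →ₗ[K] P1 →ₗ[K] Matrix ι δ K :=
  LinearMap.mk₂ K (fun a a' => vecMulVec (i1 a) (i1 a') * (J * f))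
    (fun a b c => by rw [map_add, add_vecMulVec, Matrix.add_mul])
    (fun t a c => by rw [map_smul, smul_vecMulVec, Matrix.smul_mul])
    (fun a b c => by rw [map_add, vecMulVec_add, Matrix.add_mul])
    (fun t a c => by rw [map_smul, vecMulVec_smul, Matrix.smul_mul])

theorem q0_apply (i1 : P1 →ₗ[K] (ι → K)) (a a' : P1) :
    q0 J f i1 a a' = vecMulVec (i1 a) (i1 a') * (J * f) := rfl

theorem qf_eq (i1 : P1 →ₗ[K] (ι → K)) (t : Fin 3) (a a' : P1) :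
    qf arm J f i1 t a a' = q0 J f i1 a a' * E K arm t := rfl

theorem lift_qf (i1 : P1 →ₗ[K] (ι → K)) (t : Fin 3) (b : P2 →ₗ[K] P1) (x : P2 ⊗[K] P1) :
    TensorProduct.lift (qf arm J f i1 t ∘ₗ b) x
      = TensorProduct.lift (q0 J f i1 ∘ₗ b) x * E K arm t := by
  induction x using TensorProduct.induction_on with
  | zero => simp
  | tmul p2 p1 =>
    rw [TensorProduct.lift.tmul, TensorProduct.lift.tmul, LinearMap.comp_apply,
      LinearMap.comp_apply, qf_eq]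
  | add x y hx hy => rw [map_add, hx, hy, map_add, Matrix.add_mul]

theorem lift_qf_flip (i1 : P1 →ₗ[K] (ι → K)) (t : Fin 3) (b : P2 →ₗ[K] P1) (x : P2 ⊗[K] P1) :
    TensorProduct.lift ((qf arm J f i1 t).flip ∘ₗ b) x
      = TensorProduct.lift ((q0 J f i1).flip ∘ₗ b) x * E K arm t := by
  induction x using TensorProduct.induction_on with
  | zero => simp
  | tmul p2 p1 =>
    rw [TensorProduct.lift.tmul, TensorProduct.lift.tmul, LinearMap.comp_apply,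
      LinearMap.comp_apply, LinearMap.flip_apply, LinearMap.flip_apply, qf_eq]
  | add x y hx hy => rw [map_add, hx, hy, map_add, Matrix.add_mul]

end tens

/-- membership in `SSp` of the correction terms -/
theorem v0_mem (h : Ctx k arm J B N W g) (hf : f ∈ N ⊓ W) {v0 : Matrix ι ι K}
    (hv0 : gᵀ * J * (v0 * g) = 0) : v0 * g ∈ SSp arm J B N W g f (h.perp f hf) := by
  refine ⟨v0 * g, h.W_mul _ h.memW, hv0, fun p q r => ?_, 0, by simp⟩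
  have h1 := vec_of (J := J) (g := g) (T := v0 * g * E K arm r * B * fᵀ * J) (T' := 0)
    (fun v hv => by rw [h.corr_v0 hf v0 r hv, Matrix.zero_mul]) (v := ((q : Sp J g) : ι → K)) q.1.2
  have h2 : (J * (v0 * g) * E K arm r * B * fᵀ * J) *ᵥ ((q : Sp J g) : ι → K)
      = J *ᵥ ((v0 * g * E K arm r * B * fᵀ * J) *ᵥ ((q : Sp J g) : ι → K)) := by
    rw [mulVec_mulVec]
    congr 1
    simp only [Matrix.mul_assoc]
  rw [h2, h1, zero_mulVec, mulVec_zero, dotProduct_zero]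

section bridge

variable {P1 P2 : Type*} [AddCommGroup P1] [Module K P1] [AddCommGroup P2] [Module K P2]
  {X : Matrix ι ι K} {A : Fin 3 → End K P1} {Bo : Fin 3 → End K P2}
  {i1 : P1 →ₗ[K] (ι → K)} {i2 : P2 →ₗ[K] (ι → K)} {R1 : Submodule K P1} {R2 : Submodule K P2}

/-- the good parameters -/
def Lam (hS : Side arm J B g f X A Bo i1 i2) (hR1 : ∀ t, ∀ r ∈ R1, A t r ∈ R1)
    (hR2 : ∀ t, ∀ r ∈ R2, Bo t r ∈ R2) : Set K :=
  {c | c ≠ 0 ∧ c⁻¹ ∉ hS.Exc (Side.Q1 g i1 R1) (hS.Q1_stable hR1) ∧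
    c⁻¹ ∉ hS.Exc (LinearMap.range g.mulVecLin) hS.S_stable ∧ c ∉ hS.Exc2 hR2}

theorem Lam_infinite [Infinite K] [FiniteDimensional K P1] [FiniteDimensional K P2]
    (hS : Side arm J B g f X A Bo i1 i2) (hR1 : ∀ t, ∀ r ∈ R1, A t r ∈ R1)
    (hR2 : ∀ t, ∀ r ∈ R2, Bo t r ∈ R2) (hA : ⨆ t, LinearMap.range (A t) = ⊤)
    (hB : ⨆ t, LinearMap.range (Bo t) = ⊤) : (Lam hS hR1 hR2).Infinite := by
  have h1 : (hS.Exc (Side.Q1 g i1 R1) (hS.Q1_stable hR1)).Finite :=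
    QBlk.twist_finite_neg (α := Bo) (fun s => (Side.Q1 g i1 R1).mapQ (Side.Q1 g i1 R1)
      (M arm B s f f * J).mulVecLin (fun w hw => hS.Q1_stable hR1 s w hw)) hB
  have h2 : (hS.Exc (LinearMap.range g.mulVecLin) hS.S_stable).Finite :=
    QBlk.twist_finite_neg (α := Bo) (fun s => (LinearMap.range g.mulVecLin).mapQ
      (LinearMap.range g.mulVecLin)
      (M arm B s f f * J).mulVecLin (fun w hw => hS.S_stable s w hw)) hB
  have h3 : (hS.Exc2 hR2).Finite :=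
    QBlk.twist_finite (α := A) (fun s => (R2.map (Side.th J g X i2)).mapQ
      (R2.map (Side.th J g X i2)) (Side.ad arm J B g X s)
        (fun w hw => hS.R2_stable hR2 s w hw)) hA
  have hfin : ((Lam hS hR1 hR2)ᶜ).Finite := by
    refine ((((Set.finite_singleton (0 : K)).union (h1.image (fun c => c⁻¹))).union
      (h2.image (fun c => c⁻¹))).union h3).subset ?_
    intro c hc
    by_contra hcon
    apply hc
    refine ⟨fun h0 => hcon (Or.inl (Or.inl (Or.inl h0))), fun h0 => hcon ?_, fun h0 => hcon ?_,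
      fun h0 => hcon (Or.inr h0)⟩
    · exact Or.inl (Or.inl (Or.inr ⟨_, h0, inv_inv c⟩))
    · exact Or.inl (Or.inr ⟨_, h0, inv_inv c⟩)
  exact Set.infinite_of_finite_compl hfin

/-- **the data of an exact family** -/
theorem fam_data (h : Ctx k arm J B N W g)
    (hNm : ∀ F, (∀ F' ∈ N, pair J B F' F = 0) → F ∈ N)
    (hWm : ∀ F, (∀ F' ∈ W, pair J B F' F = 0) → F ∈ W)
    (hG : Glue k arm J N W g) (hf : f ∈ N ⊓ W)
    {p : Matrix ι ι K × (Fin 3 → Matrix ι ι K)} (hp : p ∈ NN arm J N g) (hpX : p.1 = X)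
    (hp0 : gᵀ * J * (p.1 * f) = 0)
    (hS : Side arm J B g f X A Bo i1 i2) (hR1 : ∀ t, ∀ r ∈ R1, A t r ∈ R1)
    (hR2 : ∀ t, ∀ r ∈ R2, Bo t r ∈ R2)
    (horth : ∀ r ∈ R1, ∀ q, i1 r ⬝ᵥ J *ᵥ i1 q = 0)
    (hgR : ∀ r ∈ R2, ∀ q, g2 J X i2 r q = 0)
    {c : K} (hc : c ∈ Lam hS hR1 hR2)
    {x : Fin 3 → P2 ⊗[K] P1} (hx : RJ.Ex A Bo R1 R2 c x) :
    ∃ (Z : Matrix ι ι K) (Q : Fin 3 → Matrix ι ι K) (e : Matrix ι δ K)
      (p1 pm p3 p4 : Matrix ι ι K × (Fin 3 → Matrix ι ι K)) (kk : Matrix ι δ K),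
      Fam arm J B N W g f (c • p) (fun s => ten J i1 i2 (x s)) Z Q e p1 pm p3 p4 kk ∧
      (∀ s, Inter arm J B g f X c (ten J i1 i2 (x s)) Z s) ∧
      (∀ a, Z *ᵥ i2 a ∈ Side.Q1 g i1 R1) ∧
      (∀ q, ∃ r ∈ R2, (gᵀ * J) *ᵥ (Z *ᵥ i1 q) = (gᵀ * J) *ᵥ (X *ᵥ i2 r)) := by
  subst hpX
  obtain ⟨Z, Q, e, p1, pm, p3, p4, kk, hF⟩ := h.fam hNm hWm hG hf
    (p := c • p) ((NN arm J N g).smul_mem c hp)
    (by
      change gᵀ * J * ((c • p.1) * f) = 0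
      rw [Matrix.smul_mul, Matrix.mul_smul, hp0, smul_zero])
    (R := fun s => ten J i1 i2 (x s))
    (fun s => ten_skw h.data.J_symm _) (fun s => hS.ten_g _) (fun s v hv => hS.ten_S _ v hv)
    (hS.hsum (c := c) (x := x) hx.sum)
  have hφ : ∀ s, Inter arm J B g f p.1 c (ten J i1 i2 (x s)) Z s :=
    fun s => inter_of (fun v hv => hF.interφ s v hv)
  have harm : ∀ t, (A t).lTensor P2 (x t) - c • (Bo t).rTensor P1 (x t) ∈ Rad R1 R2 := hx.arm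
  exact ⟨Z, Q, e, p1, pm, p3, p4, kk, hF, hφ,
    hS.val1 hc.1 hR1 hgR hc.2.1 harm hF.skw hφ,
    hS.val2 hR2 horth hc.2.2.2 harm hF.Zg hφ⟩

end bridge

end Crest.Agent.R172.QBr
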