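import Crest.Agent.R172.Qt11
import Crest.Agent.R172.Qt7
import Mathlib.LinearAlgebra.TensorProduct.Basic
import Mathlib.LinearAlgebra.TensorProduct.Map

/-!
Row 172 (S0260), t3: the tensors `p2 ⊗ p1` as gluing matrices `a bᵀ J - b aᵀ J`
(`a = i2 p2 ∈ S`, `b = i1 p1 ∈ S^⊥`).
-/

set_option autoImplicit false
set_option linter.unusedSectionVars false
set_option linter.unusedFintypeInType false
set_option linter.unusedDecidableInType false
set_option maxHeartbeats 800000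

namespace Crest.Agent.R172.QBr

open Matrix Module TensorProduct Crest.Agent.R172.FO Crest.Agent.R172.Qt

variable {ι : Type*} [Fintype ι] [DecidableEq ι] {δ : Type*} [Fintype δ] [DecidableEq δ]
variable {K : Type*} [Field K]
variable {P1 P2 : Type*} [AddCommGroup P1] [Module K P1] [AddCommGroup P2] [Module K P2]

/-- the two sides: `i1 : P1 → S^⊥` (compatible modulo `S`), `i2 : P2 → S`. -/
structure Side (arm : δ → Fin 3) (J : Matrix ι ι K) (B : Matrix δ δ K) (g f : Matrix ι δ K)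
    (X : Matrix ι ι K) (A : Fin 3 → End K P1) (Bo : Fin 3 → End K P2)
    (i1 : P1 →ₗ[K] (ι → K)) (i2 : P2 →ₗ[K] (ι → K)) : Prop where
  J_symm : Jᵀ = J
  B_symm : Bᵀ = B
  B_arm : ∀ s, E K arm s * B = B * E K arm s
  J_unit : IsUnit J
  gg : gᵀ * J * g = 0
  gf : gᵀ * J * f = 0
  X_skw : Skw J X
  J1 : ∀ p, (gᵀ * J) *ᵥ (i1 p) = 0
  A1 : ∀ t p, ∃ u, (M arm B t f f * J) *ᵥ (i1 p) = i1 (A t p) + g *ᵥ u
  J2 : ∀ p, ∃ u, i2 p = g *ᵥ u
  B2 : ∀ t p, i2 (Bo t p) = (M arm B t g g * J) *ᵥ (X *ᵥ (i2 p))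

/-- `p2 ⊗ p1 ↦ a bᵀ J - b aᵀ J` -/
noncomputable def ten (J : Matrix ι ι K) (i1 : P1 →ₗ[K] (ι → K)) (i2 : P2 →ₗ[K] (ι → K)) :
    P2 ⊗[K] P1 →ₗ[K] Matrix ι ι K :=
  TensorProduct.lift (LinearMap.mk₂ K
    (fun p2 p1 => vecMulVec (i2 p2) (i1 p1) * J - vecMulVec (i1 p1) (i2 p2) * J)
    (fun a b p => by
      simp only [map_add, add_vecMulVec, vecMulVec_add, Matrix.add_mul]; abel)
    (fun t a p => by
      simp only [map_smul, smul_vecMulVec, vecMulVec_smul, Matrix.smul_mul, smul_sub])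
    (fun a p p' => by
      simp only [map_add, add_vecMulVec, vecMulVec_add, Matrix.add_mul]; abel)
    (fun t a p => by
      simp only [map_smul, smul_vecMulVec, vecMulVec_smul, Matrix.smul_mul, smul_sub]))

theorem ten_tmul (J : Matrix ι ι K) (i1 : P1 →ₗ[K] (ι → K)) (i2 : P2 →ₗ[K] (ι → K))
    (p2 : P2) (p1 : P1) : ten J i1 i2 (p2 ⊗ₜ[K] p1) =
      vecMulVec (i2 p2) (i1 p1) * J - vecMulVec (i1 p1) (i2 p2) * J := by
  simp [ten]

theorem vmv_mul (a b : ι → K) {γ : Type*} [Fintype γ] (F : Matrix ι γ K) :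
    vecMulVec a b * F = vecMulVec a (b ᵥ* F) := by
  ext i j
  simp [Matrix.mul_apply, vecMulVec_apply, Matrix.vecMul, dotProduct, Finset.mul_sum, mul_assoc]

theorem vmv_mulVec (a b v : ι → K) : vecMulVec a b *ᵥ v = (b ⬝ᵥ v) • a := by
  ext i
  simp [Matrix.mulVec, vecMulVec_apply, dotProduct, Finset.mul_sum, Finset.sum_mul, mul_comm,
    mul_left_comm]

variable {arm : δ → Fin 3} {J : Matrix ι ι K} {B : Matrix δ δ K} {g f : Matrix ι δ K}
  {X : Matrix ι ι K} {A : Fin 3 → End K P1} {Bo : Fin 3 → End K P2}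
  {i1 : P1 →ₗ[K] (ι → K)} {i2 : P2 →ₗ[K] (ι → K)}

theorem ten_skw (hJ : Jᵀ = J) (x : P2 ⊗[K] P1) : Skw J (ten J i1 i2 x) := by
  induction x using TensorProduct.induction_on with
  | zero => rw [map_zero]; exact Skw.zero
  | tmul a b =>
    rw [ten_tmul]
    unfold Skw
    rw [transpose_sub, transpose_mul, transpose_mul, transpose_vecMulVec, transpose_vecMulVec, hJ]
    simp only [Matrix.sub_mul, Matrix.mul_sub, Matrix.mul_assoc]
    abel
  | add x y hx hy => rw [map_add]; exact hx.add hy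

namespace Side

variable (h : Side arm J B g f X A Bo i1 i2)

include h

theorem i2_perp (p2 : P2) {v : ι → K} (hv : (gᵀ * J) *ᵥ v = 0) : i2 p2 ⬝ᵥ J *ᵥ v = 0 := by
  obtain ⟨u, hu⟩ := h.J2 p2
  rw [hu]
  have : g *ᵥ u ⬝ᵥ J *ᵥ v = u ⬝ᵥ (gᵀ * J) *ᵥ v := by
    rw [← vecMul_transpose, ← dotProduct_mulVec, mulVec_mulVec]
  rw [this, hv, dotProduct_zero]

theorem i1_perp (p1 : P1) (u : δ → K) : i1 p1 ⬝ᵥ J *ᵥ (g *ᵥ u) = 0 := by
  have h1 := h.J1 p1
  have : i1 p1 ⬝ᵥ J *ᵥ (g *ᵥ u) = ((gᵀ * J) *ᵥ i1 p1) ⬝ᵥ u := by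
    rw [mulVec_mulVec, dotProduct_mulVec, ← mulVec_transpose, transpose_mul, h.J_symm]
  rw [this, h1, zero_dotProduct]

theorem S_perp (u : δ → K) : (gᵀ * J) *ᵥ (g *ᵥ u) = 0 := by
  rw [mulVec_mulVec, h.gg, zero_mulVec]

/-- value of a gluing matrix on `S^⊥` -/
theorem ten_tmul_mulVec (p2 : P2) (p1 : P1) {v : ι → K} (hv : (gᵀ * J) *ᵥ v = 0) :
    ten J i1 i2 (p2 ⊗ₜ[K] p1) *ᵥ v = (i1 p1 ⬝ᵥ J *ᵥ v) • i2 p2 := by
  rw [ten_tmul, sub_mulVec, ← mulVec_mulVec, ← mulVec_mulVec, vmv_mulVec, vmv_mulVec,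
    h.i2_perp p2 hv, zero_smul, sub_zero]

/-- `R v ∈ S` for `v ∈ S^⊥` -/
theorem ten_mem (x : P2 ⊗[K] P1) {v : ι → K} (hv : (gᵀ * J) *ᵥ v = 0) :
    ∃ u, ten J i1 i2 x *ᵥ v = g *ᵥ u := by
  induction x using TensorProduct.induction_on with
  | zero => exact ⟨0, by simp⟩
  | tmul a b =>
    obtain ⟨u, hu⟩ := h.J2 a
    exact ⟨(i1 b ⬝ᵥ J *ᵥ v) • u, by rw [h.ten_tmul_mulVec a b hv, hu, mulVec_smul]⟩
  | add x y hx hy =>
    obtain ⟨u, hu⟩ := hx
    obtain ⟨u', hu'⟩ := hy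
    exact ⟨u + u', by rw [map_add, add_mulVec, hu, hu', mulVec_add]⟩

/-- `R g = 0` -/
theorem ten_g_mulVec (x : P2 ⊗[K] P1) (u : δ → K) : ten J i1 i2 x *ᵥ (g *ᵥ u) = 0 := by
  induction x using TensorProduct.induction_on with
  | zero => simp
  | tmul a b =>
    rw [h.ten_tmul_mulVec a b (h.S_perp u), h.i1_perp, zero_smul]
  | add x y hx hy => rw [map_add, add_mulVec, hx, hy, add_zero]

theorem ten_g (x : P2 ⊗[K] P1) : ten J i1 i2 x * g = 0 := by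
  refine Qt.ext_mulVec fun u => ?_
  rw [← mulVec_mulVec, h.ten_g_mulVec, zero_mulVec]


theorem M_symm' (F : Matrix ι δ K) (s : Fin 3) : (M arm B s F F)ᵀ = M arm B s F F := by
  unfold M
  rw [transpose_mul, transpose_mul, transpose_mul, transpose_transpose, E_transpose, h.B_symm]
  simp only [Matrix.mul_assoc]
  rw [← Matrix.mul_assoc B, ← h.B_arm, Matrix.mul_assoc]

/-- `M_s(F,F) J` is self-adjoint -/
theorem M_adj (F : Matrix ι δ K) (s : Fin 3) (v w : ι → K) :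
    ((M arm B s F F * J) *ᵥ v) ⬝ᵥ J *ᵥ w = v ⬝ᵥ J *ᵥ ((M arm B s F F * J) *ᵥ w) := by
  have h1 : (M arm B s F F * J)ᵀ * J = J * (M arm B s F F * J) := by
    rw [transpose_mul, h.J_symm, h.M_symm', Matrix.mul_assoc]
  calc ((M arm B s F F * J) *ᵥ v) ⬝ᵥ J *ᵥ w
      = v ⬝ᵥ ((M arm B s F F * J)ᵀ * J) *ᵥ w := by
        rw [← vecMul_transpose, ← dotProduct_mulVec, mulVec_mulVec]
    _ = _ := by rw [h1, mulVec_mulVec]

theorem skw_adj {Z : Matrix ι ι K} (hZ : Skw J Z) (v w : ι → K) :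
    (Z *ᵥ v) ⬝ᵥ J *ᵥ w = - (v ⬝ᵥ J *ᵥ (Z *ᵥ w)) := by
  have h1 : Zᵀ * J = -(J * Z) := hZ.eq
  calc (Z *ᵥ v) ⬝ᵥ J *ᵥ w = v ⬝ᵥ (Zᵀ * J) *ᵥ w := by
        rw [← vecMul_transpose, ← dotProduct_mulVec, mulVec_mulVec]
    _ = _ := by rw [h1, neg_mulVec, dotProduct_neg, mulVec_mulVec]

theorem J_comm (v w : ι → K) : v ⬝ᵥ J *ᵥ w = w ⬝ᵥ J *ᵥ v := by
  rw [dotProduct_mulVec, ← mulVec_transpose, h.J_symm, dotProduct_comm]

theorem Mf_perp (s : Fin 3) (v : ι → K) : (gᵀ * J) *ᵥ ((M arm B s f f * J) *ᵥ v) = 0 := by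
  rw [mulVec_mulVec]
  have : gᵀ * J * (M arm B s f f * J) = 0 := by
    unfold M
    have e : gᵀ * J * (f * E K arm s * B * fᵀ * J)
        = (gᵀ * J * f) * (E K arm s * B * fᵀ * J) := by simp only [Matrix.mul_assoc]
    rw [e, h.gf, Matrix.zero_mul]
  rw [this, zero_mulVec]

/-- `M_s(f,f) J` kills `S` -/
theorem Mf_g (s : Fin 3) (u : δ → K) : (M arm B s f f * J) *ᵥ (g *ᵥ u) = 0 := by
  rw [mulVec_mulVec]
  have h1 : fᵀ * J * g = 0 := by
    have := congrArg transpose h.gf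
    rw [transpose_mul, transpose_mul, transpose_transpose, h.J_symm, transpose_zero,
      ← Matrix.mul_assoc] at this
    exact this
  have : M arm B s f f * J * g = 0 := by
    unfold M
    have e : f * E K arm s * B * fᵀ * J * g = f * E K arm s * B * (fᵀ * J * g) := by
      simp only [Matrix.mul_assoc]
    rw [e, h1, Matrix.mul_zero]
  rw [this, zero_mulVec]

/-- **exactness**: the defect of `ten x` is `ten` of the defect of `x`. -/
theorem ten_defect (c : K) (t : Fin 3) (x : P2 ⊗[K] P1) {v : ι → K} (hv : (gᵀ * J) *ᵥ v = 0) :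
    c • ((M arm B t g g * J) *ᵥ (X *ᵥ (ten J i1 i2 x *ᵥ v)))
        - ten J i1 i2 x *ᵥ ((M arm B t f f * J) *ᵥ v)
      = - (ten J i1 i2 ((A t).lTensor P2 x - c • (Bo t).rTensor P1 x) *ᵥ v) := by
  induction x using TensorProduct.induction_on with
  | zero => simp
  | tmul a b =>
    obtain ⟨u, hu⟩ := h.A1 t b
    have h1 : i1 b ⬝ᵥ J *ᵥ ((M arm B t f f * J) *ᵥ v) = i1 (A t b) ⬝ᵥ J *ᵥ v := by
      rw [← h.M_adj, hu, add_dotProduct]
      have : g *ᵥ u ⬝ᵥ J *ᵥ v = u ⬝ᵥ (gᵀ * J) *ᵥ v := by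
        rw [← vecMul_transpose, ← dotProduct_mulVec, mulVec_mulVec]
      rw [this, hv, dotProduct_zero, add_zero]
    rw [LinearMap.lTensor_tmul, LinearMap.rTensor_tmul, map_sub, map_smul, sub_mulVec, smul_mulVec,
      h.ten_tmul_mulVec _ _ hv, h.ten_tmul_mulVec _ _ hv, h.ten_tmul_mulVec _ _ hv,
      h.ten_tmul_mulVec _ _ (h.Mf_perp t v), h1, mulVec_smul, mulVec_smul, ← h.B2, neg_sub]
  | add x y hx hy =>
    simp only [map_add, add_mulVec, mulVec_add, smul_add] at hx hy ⊢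
    rw [add_sub_add_comm, hx, hy]
    simp only [map_sub, map_add, add_mulVec, sub_mulVec]
    abel

/-- `Ex.sum` gives the exactness hypothesis of `Ctx.fam` for `(c • X, ten x)` -/
theorem hsum {c : K} {x : Fin 3 → P2 ⊗[K] P1}
    (hx : ∑ t, ((A t).lTensor P2 (x t) - c • (Bo t).rTensor P1 (x t)) = 0)
    (v : Matrix ι ι K) (hv : gᵀ * J * v = 0) :
    ∑ s, (M arm B s g g * J * ((c • X) * (ten J i1 i2 (x s) * v))
      - ten J i1 i2 (x s) * (M arm B s f f * J * v)) = 0 := by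
  refine Qt.ext_mulVec fun w => ?_
  have hv' : (gᵀ * J) *ᵥ (v *ᵥ w) = 0 := by rw [mulVec_mulVec, hv, zero_mulVec]
  rw [zero_mulVec, Matrix.sum_mulVec]
  have h1 : ∀ s, (M arm B s g g * J * ((c • X) * (ten J i1 i2 (x s) * v))
      - ten J i1 i2 (x s) * (M arm B s f f * J * v)) *ᵥ w
      = - (ten J i1 i2 ((A s).lTensor P2 (x s) - c • (Bo s).rTensor P1 (x s)) *ᵥ (v *ᵥ w)) := by
    intro s
    rw [← h.ten_defect c s (x s) hv', sub_mulVec]
    congr 1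
    · simp only [← mulVec_mulVec, smul_mulVec, mulVec_smul]
    · simp only [← mulVec_mulVec]
  rw [Finset.sum_congr rfl fun s _ => h1 s, Finset.sum_neg_distrib, ← Matrix.sum_mulVec, ← map_sum,
    hx, map_zero, zero_mulVec, neg_zero]

theorem ten_S (x : P2 ⊗[K] P1) (v : Matrix ι ι K) (hv : gᵀ * J * v = 0) :
    ∃ C : Matrix δ ι K, ten J i1 i2 x * v = g * C := by
  have h1 : ∀ j : ι, ∃ u, ten J i1 i2 x *ᵥ (v *ᵥ Pi.single j 1) = g *ᵥ u := fun j =>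
    h.ten_mem x (by rw [mulVec_mulVec, hv, zero_mulVec])
  choose u hu using h1
  refine ⟨Matrix.of fun d j => u j d, ?_⟩
  ext i j
  have h2 := congrFun (hu j) i
  rw [mulVec_mulVec, mulVec_single_one] at h2
  rw [show (ten J i1 i2 x * v) i j = _ from h2]
  simp [Matrix.mul_apply, Matrix.mulVec, dotProduct]

/-- `S^⊥⊥ = S` -/
theorem mem_S {w : ι → K} (hw : ∀ v : ι → K, (gᵀ * J) *ᵥ v = 0 → w ⬝ᵥ J *ᵥ v = 0) :
    ∃ u, w = g *ᵥ u := by
  let φ : Dual K (ι → K) := Fintype.linearCombination K (fun i => (J *ᵥ w) i)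
  have hφ : ∀ v, φ v = w ⬝ᵥ J *ᵥ v := by
    intro v
    rw [h.J_comm]
    simp [φ, Fintype.linearCombination_apply, dotProduct]
  have h1 : φ ∈ (LinearMap.ker (gᵀ * J).mulVecLin).dualAnnihilator := by
    rw [Submodule.mem_dualAnnihilator]
    intro v hv
    rw [hφ]
    exact hw v hv
  rw [← LinearMap.range_dualMap_eq_dualAnnihilator_ker] at h1
  obtain ⟨ψ, hψ⟩ := h1
  refine ⟨fun d => ψ (Pi.single d 1), ?_⟩
  have h2 : ∀ y : δ → K, ψ y = (fun d => ψ (Pi.single d 1)) ⬝ᵥ y := by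
    intro y
    have h3 : y = ∑ d, y d • (Pi.single d 1 : δ → K) := by
      funext d
      simp [Finset.sum_apply, Pi.single_apply]
    conv_lhs => rw [h3]
    rw [map_sum]
    simp [dotProduct, mul_comm]
  set u : δ → K := fun d => ψ (Pi.single d 1) with hu
  have h3 : ∀ v, w ⬝ᵥ J *ᵥ v = (g *ᵥ u) ⬝ᵥ J *ᵥ v := by
    intro v
    rw [← hφ, ← hψ]
    change ψ ((gᵀ * J) *ᵥ v) = _
    rw [h2, ← mulVec_mulVec, dotProduct_mulVec, vecMul_transpose]
  obtain ⟨Ji, hJi⟩ := h.J_unit.exists_right_inv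
  have h4 : ∀ y : ι → K, w ⬝ᵥ y = (g *ᵥ u) ⬝ᵥ y := by
    intro y
    have := h3 (Ji *ᵥ y)
    rwa [mulVec_mulVec, hJi, one_mulVec] at this
  funext i
  have := h4 (Pi.single i 1)
  simpa using this

end Side

end Crest.Agent.R172.QBr
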