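import Crest.Agent.R172.QCore2
import Crest.Agent.R172.QHalf
import Crest.Agent.R172.QTen

/-!
Row 172 (S0260), node Q-Core, part 5 (helper28): `P1 = P' / (P' ∩ S)` with a linear section
`i1 : P1 → (ι → K)`, `P2 = P_S`, the structure `QBr.Side`, and `Half`.
-/

set_option autoImplicit false
set_option linter.unusedSectionVars false
set_option linter.unusedFintypeInType false
set_option linter.unusedDecidableInType false

namespace Crest.Agent.R172.QC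

open Module
open Crest.Agent.R172.St (T)
open Crest.Agent.R172.Mix
open Crest.Agent.R172.PushQ (Push)

section abs

universe u
variable {K : Type*} [Field K] {X : Type u} [AddCommGroup X] [Module K X]

/-- the part of `Pinf a` in `Z` -/
def YZ (a : Fin 3 → End K X) (Z : Submodule K X) : Submodule K (Pinf a) :=
  Z.comap (Pinf a).subtype

theorem mem_YZ {a : Fin 3 → End K X} {Z : Submodule K X} {p : Pinf a} :
    p ∈ YZ a Z ↔ (p : X) ∈ Z := Iff.rfl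

theorem YZ_kill {a : Fin 3 → End K X} {Z : Submodule K X} (hZ : ∀ s, ∀ z ∈ Z, a s z = 0)
    (t : Fin 3) {p : Pinf a} (hp : p ∈ YZ a Z) : QBlk.ap a t p = 0 :=
  Subtype.ext (hZ t _ hp)

theorem YZ_le {a : Fin 3 → End K X} {Z : Submodule K X} (hZ : ∀ s, ∀ z ∈ Z, a s z = 0)
    {p : Pinf a} (hp : p ∈ YZ a Z) : p ∈ TP a := by
  rw [mem_TP]
  refine St.Nk_le_T _ 1 ?_
  rw [St.mem_Nk_succ]
  intro s
  rw [St.mem_Nk_zero]
  exact hZ s _ hp

/-- the operators on `Pinf a ⧸ YZ a Z` -/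
def AZ {a : Fin 3 → End K X} {Z : Submodule K X} (hZ : ∀ s, ∀ z ∈ Z, a s z = 0) (t : Fin 3) :
    End K (Pinf a ⧸ YZ a Z) :=
  (YZ a Z).mapQ (YZ a Z) (QBlk.ap a t) (fun p hp => by
    rw [Submodule.mem_comap, YZ_kill hZ t hp]
    exact Submodule.zero_mem _)

theorem pushZ {a : Fin 3 → End K X} {Z : Submodule K X} (hZ : ∀ s, ∀ z ∈ Z, a s z = 0) :
    Push (QBlk.ap a) (TP a) (AZ hZ) ((TP a).map (YZ a Z).mkQ) (YZ a Z).mkQ where
  surj := Submodule.mkQ_surjective _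
  comm s p := rfl
  ker p hp := YZ_le hZ ((Submodule.Quotient.mk_eq_zero _).1 hp)
  eq := rfl

/-- **quotient of `Pinf a` by the part in `Z`**, with a linear section `i` -/
theorem exists_quot [FiniteDimensional K X] {a : Fin 3 → End K X} {wa : X →ₗ[K] X →ₗ[K] K}
    {e e₂ : K} {l : Fin 3 → ℕ} {d : ℕ} (h : Half (QBlk.ap a) (TP a) (Pform a wa) e e₂ l d)
    {Z : Submodule K X} (hZ : ∀ s, ∀ z ∈ Z, a s z = 0) (hw : ∀ z ∈ Z, ∀ x, wa z x = 0)
    (hw' : ∀ z ∈ Z, ∀ x, wa x z = 0) :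
    ∃ (P1 : Type u) (_ : AddCommGroup P1) (_ : Module K P1) (A : Fin 3 → End K P1)
      (R1 : Submodule K P1) (w : P1 →ₗ[K] P1 →ₗ[K] K) (i : P1 →ₗ[K] X),
      FiniteDimensional K P1 ∧ Half A R1 w e e₂ l d ∧ (∀ x y, w x y = wa (i x) (i y)) ∧
      (∀ t p, ∃ z ∈ Z, a t (i p) = i (A t p) + z) ∧ (∀ p, i p ∈ Pinf a) ∧
      (∀ p, i p ∈ Z → p = 0) ∧ (∀ p ∈ Pinf a, ∃ q, ∃ z ∈ Z, p = i q + z) ∧
      (∀ p, p ∈ R1 ↔ i p ∈ T a) := by
  have hp := pushZ (a := a) hZ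
  obtain ⟨σ, hσ⟩ := (YZ a Z).mkQ.exists_rightInverse_of_surjective
    (LinearMap.range_eq_top.2 (Submodule.mkQ_surjective _))
  have hσ' : ∀ v, (YZ a Z).mkQ (σ v) = v := fun v => LinearMap.congr_fun hσ v
  have hσp : ∀ p : Pinf a, ∃ z ∈ Z, (p : X) = (σ ((YZ a Z).mkQ p) : Pinf a) + z := by
    intro p
    have h1 : (YZ a Z).mkQ (p - σ ((YZ a Z).mkQ p)) = 0 := by
      rw [map_sub, hσ', sub_self]
    refine ⟨(p : X) - (σ ((YZ a Z).mkQ p) : Pinf a), ?_, by abel⟩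
    have h2 : p - σ ((YZ a Z).mkQ p) ∈ YZ a Z := (Submodule.Quotient.mk_eq_zero _).1 h1
    exact h2
  let i : (Pinf a ⧸ YZ a Z) →ₗ[K] X := (Pinf a).subtype ∘ₗ σ
  have hi : ∀ v, i v = (σ v : Pinf a) := fun v => rfl
  refine ⟨Pinf a ⧸ YZ a Z, inferInstance, inferInstance, AZ hZ, (TP a).map (YZ a Z).mkQ,
    wa.compl₁₂ i i, i, inferInstance, h.push hp ?_, fun x y => rfl, ?_, ?_, ?_, ?_, ?_⟩
  · intro x y
    obtain ⟨z, hz, hxz⟩ := hσp x
    obtain ⟨z', hz', hyz⟩ := hσp y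
    rw [LinearMap.compl₁₂_apply, hi, hi, Pform_apply, hxz, hyz, map_add, map_add,
      LinearMap.add_apply, LinearMap.add_apply, hw z hz, hw z hz, hw' z' hz']
    simp
  · intro t v
    obtain ⟨z, hz, hvz⟩ := hσp (QBlk.ap a t (σ v))
    refine ⟨z, hz, ?_⟩
    have h2 : (YZ a Z).mkQ (QBlk.ap a t (σ v)) = AZ hZ t v := by
      have := hp.comm t (σ v)
      rw [hσ'] at this
      exact this
    rw [h2] at hvz
    rw [hi, hi, ← hvz]
    rfl
  · intro v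
    exact (σ v).2
  · intro v hv
    have h1 : (YZ a Z).mkQ (σ v) = 0 := (Submodule.Quotient.mk_eq_zero _).2 hv
    rw [hσ'] at h1
    exact h1
  · intro p hpp
    obtain ⟨z, hz, hpz⟩ := hσp ⟨p, hpp⟩
    exact ⟨_, z, hz, hpz⟩
  · intro v
    rw [hi, ← mem_TP, ← hp.mem_iff (p := σ v), hσ']

end abs

section conc

open Matrix Crest.Agent.R172.FO Crest.Agent.R172.Qt

universe u
variable {ι δ K : Type u} [Fintype ι] [DecidableEq ι] [Fintype δ] [DecidableEq δ] [Field K]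
variable {arm : δ → Fin 3} {J : Matrix ι ι K} {B : Matrix δ δ K}
  {g f : Matrix ι δ K}

theorem fJg' (hJ : Jᵀ = J) (hf : gᵀ * J * f = 0) : fᵀ * J * g = 0 := by
  have h1 := congrArg transpose hf
  rw [transpose_mul, transpose_mul, transpose_transpose, hJ, transpose_zero,
    ← Matrix.mul_assoc] at h1
  exact h1

/-- **the data of the P-side**: `QBr.Side` and `Half` for `P1 = P'/(P' ∩ S)`, `P2 = P_S`. -/
theorem exists_sideP (hJ : Jᵀ = J) (hJu : IsUnit J) (hB : Bᵀ = B)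
    (hBs : ∀ s, E K arm s * B = B * E K arm s) (hg : gᵀ * J * g = 0) (hf : gᵀ * J * f = 0)
    {X : Matrix ι ι K} (hX : Skw J X) {l : Fin 3 → ℕ}
    (h : Pair (aop arm J B g f hf) (omP J g) (fun s => Mop arm B g s ∘ₗ eta J g X)
      (eta J g X) l) :
    ∃ (P1 : Type u) (_ : AddCommGroup P1) (_ : Module K P1) (A : Fin 3 → End K P1)
      (R1 : Submodule K P1) (w : P1 →ₗ[K] P1 →ₗ[K] K) (i1 : P1 →ₗ[K] (ι → K))
      (P2 : Type u) (_ : AddCommGroup P2) (_ : Module K P2) (Bo : Fin 3 → End K P2)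
      (R2 : Submodule K P2) (g2 : P2 →ₗ[K] P2 →ₗ[K] K) (i2 : P2 →ₗ[K] (ι → K)),
      FiniteDimensional K P1 ∧ FiniteDimensional K P2 ∧
      QBr.Side arm J B g f X A Bo i1 i2 ∧
      Half A R1 w 1 1 l (finrank K (Cor (aop arm J B g f hf))) ∧
      Half Bo R2 g2 (-1) (-1) l (finrank K (Cor (fun s => Mop arm B g s ∘ₗ eta J g X))) ∧
      (∀ x y, w x y = i1 x ⬝ᵥ J *ᵥ i1 y) ∧
      (∀ x y, g2 x y = i2 y ⬝ᵥ (J * X) *ᵥ i2 x) ∧
      (∀ p, (∃ u, i1 p = g *ᵥ u) → p = 0) ∧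
      (∀ v : Sp J g, v ∈ Pinf (aop arm J B g f hf) → ∃ q u, (v : ι → K) = i1 q + g *ᵥ u) ∧
      (∀ p, ∃ v : Sp J g, v ∈ Pinf (aop arm J B g f hf) ∧ i1 p = (v : ι → K)) ∧
      (∀ p, p ∈ R1 ↔ ∃ v : Sp J g, v ∈ Pinf (aop arm J B g f hf) ⊓ T (aop arm J B g f hf) ∧
        i1 p = (v : ι → K)) ∧
      (∀ p, ∃ v : Sg g, v ∈ Pinf (fun s => Mop arm B g s ∘ₗ eta J g X) ∧ i2 p = (v : ι → K)) ∧
      (∀ v : Sg g, v ∈ Pinf (fun s => Mop arm B g s ∘ₗ eta J g X) → ∃ p, i2 p = (v : ι → K)) ∧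
      (∀ p, p ∈ R2 ↔ ∃ v : Sg g, v ∈ Pinf (fun s => Mop arm B g s ∘ₗ eta J g X) ⊓
        T (fun s => Mop arm B g s ∘ₗ eta J g X) ∧ i2 p = (v : ι → K)) := by
  have hgf := fJg' hJ hf
  -- `S` inside `S^⊥`
  have hZ : ∀ s, ∀ z ∈ (Sg g).comap (Sp J g).subtype, aop arm J B g f hf s z = 0 := by
    rintro s z ⟨u, hu⟩
    apply Subtype.ext
    rw [aop_coe]
    change (M arm B s f f * J) *ᵥ ((Sp J g).subtype z) = 0
    rw [← hu]
    have e : M arm B s f f * J * g = 0 := by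
      unfold M
      calc f * E K arm s * B * fᵀ * J * g = f * E K arm s * B * (fᵀ * J * g) := by
            simp only [Matrix.mul_assoc]
        _ = 0 := by rw [hgf, Matrix.mul_zero]
    rw [mulVecLin_apply, mulVec_mulVec, e, zero_mulVec]
  have hw : ∀ z ∈ (Sg g).comap (Sp J g).subtype, ∀ x, omP J g z x = 0 := by
    rintro z ⟨u, hu⟩ x
    rw [omP_apply]
    change ((Sp J g).subtype z) ⬝ᵥ J *ᵥ (x : ι → K) = 0
    rw [← hu, mulVecLin_apply, mulVec_dot, mulVec_mulVec, mem_Sp.1 x.2, dotProduct_zero]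
  have hw' : ∀ z ∈ (Sg g).comap (Sp J g).subtype, ∀ x, omP J g x z = 0 := by
    intro z hz x
    rw [h.sideA.symm, hw z hz, mul_zero]
  obtain ⟨P1, i1a, i1b, A, R1, w, i, hfd, hH, hwi, hAi, hiP, hi0, his, hiR⟩ :=
    exists_quot h.halfA hZ hw hw'
  refine ⟨P1, i1a, i1b, A, R1, w, (Sp J g).subtype ∘ₗ i,
    Pinf (fun s => Mop arm B g s ∘ₗ eta J g X), inferInstance, inferInstance,
    QBlk.ap (fun s => Mop arm B g s ∘ₗ eta J g X), TP (fun s => Mop arm B g s ∘ₗ eta J g X),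
    Pform (fun s => Mop arm B g s ∘ₗ eta J g X) (eta J g X),
    (Sg g).subtype ∘ₗ (Pinf (fun s => Mop arm B g s ∘ₗ eta J g X)).subtype, hfd, inferInstance,
    ?_, hH, h.halfB, hwi, fun x y => rfl, ?_, ?_, ?_, ?_, ?_, ?_, ?_⟩
  · refine ⟨hJ, hB, hBs, hJu, hg, hf, hX, fun p => mem_Sp.1 (i p).2, ?_, ?_, ?_⟩
    · intro t p
      obtain ⟨z, ⟨u, hu⟩, hz⟩ := hAi t p
      refine ⟨u, ?_⟩
      have h1 := congrArg (Sp J g).subtype hz
      rw [map_add, ← hu] at h1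
      exact h1
    · intro p
      obtain ⟨u, hu⟩ := ((p : Pinf (fun s => Mop arm B g s ∘ₗ eta J g X)) : Sg g).2
      exact ⟨u, hu.symm⟩
    · intro t p
      exact Mop_eta t X ((p : Pinf (fun s => Mop arm B g s ∘ₗ eta J g X)) : Sg g)
  · rintro p ⟨u, hu⟩
    exact hi0 p ⟨u, hu.symm⟩
  · intro v hv
    obtain ⟨q, z, ⟨u, hu⟩, hz⟩ := his v hv
    refine ⟨q, u, ?_⟩
    have h1 := congrArg (Sp J g).subtype hz
    rw [map_add, ← hu] at h1
    exact h1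
  · intro p
    exact ⟨i p, hiP p, rfl⟩
  · intro p
    rw [hiR]
    constructor
    · intro hT
      exact ⟨i p, ⟨hiP p, hT⟩, rfl⟩
    · rintro ⟨v, hv, hpv⟩
      have : i p = v := Subtype.ext hpv
      rw [this]
      exact hv.2
  · intro p
    exact ⟨p, p.2, rfl⟩
  · intro v hv
    exact ⟨⟨v, hv⟩, rfl⟩
  · intro p
    rw [mem_TP]
    constructor
    · intro hT
      exact ⟨p, ⟨p.2, hT⟩, rfl⟩
    · rintro ⟨v, hv, hpv⟩
      have : ((p : Pinf (fun s => Mop arm B g s ∘ₗ eta J g X)) : Sg g) = v := Subtype.ext hpv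
      rw [this]
      exact hv.2

end conc

end Crest.Agent.R172.QC
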