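import Crest.Agent.R172.QBr2
import Crest.Agent.R172.QCore5
import Crest.Agent.R172.QHalf

/-!
Row 172 (S0260), t3: the P-side bridge, and the P-half of the end.
-/

set_option autoImplicit false
set_option linter.unusedSectionVars false
set_option linter.unusedFintypeInType false
set_option linter.unusedDecidableInType false
set_option linter.unusedSimpArgs false
set_option maxHeartbeats 800000

namespace Crest.Agent.R172.QBr

open Matrix Module TensorProduct Crest.Agent.R172.FO Crest.Agent.R172.Qt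
open Crest.Agent.R172.Mix
open Crest.Agent.R172.QEndP (mt SSp)

variable {ι : Type*} [Fintype ι] [DecidableEq ι] {δ : Type*} [Fintype δ] [DecidableEq δ]
variable {k K : Type*} [Field k] [Field K] [Algebra k K]
variable {arm : δ → Fin 3} {J : Matrix ι ι K} {B : Matrix δ δ K}
  {N W : Submodule K (Matrix ι δ K)} {g f : Matrix ι δ K}

section bridge

variable {P1 P2 : Type*} [AddCommGroup P1] [Module K P1] [AddCommGroup P2] [Module K P2]
  {X : Matrix ι ι K} {A : Fin 3 → End K P1} {Bo : Fin 3 → End K P2}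
  {i1 : P1 →ₗ[K] (ι → K)} {i2 : P2 →ₗ[K] (ι → K)} {R1 : Submodule K P1} {R2 : Submodule K P2}

theorem u2e_mem (h : Ctx k arm J B N W g) (hf : f ∈ N ⊓ W)
    (hS : Side arm J B g f X A Bo i1 i2)
    (hcov : ∀ v : Pinf (aop arm J B g f (h.perp f hf)), ∃ q u,
      ((v : Sp J g) : ι → K) = i1 q + g *ᵥ u)
    {c c2 : K} (hc : c ≠ 0) (horth : ∀ r ∈ R1, ∀ p, i1 r ⬝ᵥ J *ᵥ i1 p = 0)
    {p p1 pm p3 p4 : Matrix ι ι K × (Fin 3 → Matrix ι ι K)} (hpX : p.1 = c • X)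
    {R Q : Fin 3 → Matrix ι ι K} {Z Z' : Matrix ι ι K} {e kk : Matrix ι δ K}
    (hF : Fam arm J B N W g f p R Z Q e p1 pm p3 p4 kk)
    (hZ' : Skw J Z') (hZ'g : gᵀ * J * (Z' * g) = 0)
    {b : P2 →ₗ[K] P1} (hbR : ∀ p, b p ∈ R1)
    (hb : ∀ p, ∃ u, Z *ᵥ i2 p = -(c • i1 (b p)) + g *ᵥ u)
    (hv2 : ∀ p, ∃ r ∈ R2, (gᵀ * J) *ᵥ (Z' *ᵥ i1 p) = (gᵀ * J) *ᵥ (X *ᵥ i2 r)) :
    c2⁻¹ • Z' * e ∈ SSp arm J B N W g f (h.perp f hf) := by
  rw [Matrix.smul_mul]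
  refine Submodule.smul_mem _ _ ?_
  have hW0 : gᵀ * J * (Z' * e) = 0 := by
    obtain ⟨C, hC⟩ := hF.eS
    rw [hC, ← Matrix.mul_assoc Z', ← Matrix.mul_assoc, hZ'g, Matrix.zero_mul]
  refine ⟨Z' * e, h.W_mul _ hF.eW, hW0, fun p' q r => ?_, 0, by simp⟩
  obtain ⟨q1, u1, hq1⟩ := hcov q
  obtain ⟨p1', u2, hp1⟩ := hcov p'
  have h1 := vec_of (J := J) (g := g)
    (T := gᵀ * J * (p.1 * (e * E K arm r * B * fᵀ * J)))
    (T' := - (gᵀ * J * (Z * (M arm B r f f * J))))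
    (fun v hv => by
      have h2 := hF.rel' r hv
      have e1 : gᵀ * J * (p.1 * (e * E K arm r * B * fᵀ * J)) * v
          = gᵀ * J * (p.1 * (e * E K arm r * B * fᵀ * J * v)) := by
        simp only [Matrix.mul_assoc]
      have e2 : -(gᵀ * J * (Z * (M arm B r f f * J))) * v
          = -(gᵀ * J * (Z * (M arm B r f f * J * v))) := by
        simp only [Matrix.mul_assoc, Matrix.neg_mul]
      rw [e1, e2, h2]) (v := i1 q1) (hS.J1 q1)
  have h3 : (gᵀ * J) *ᵥ (c • X *ᵥ (e *ᵥ ((E K arm r * B * fᵀ * J) *ᵥ i1 q1)))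
      = - ((gᵀ * J) *ᵥ (Z *ᵥ ((M arm B r f f * J) *ᵥ i1 q1))) := by
    have e1 : (gᵀ * J) *ᵥ (c • X *ᵥ (e *ᵥ ((E K arm r * B * fᵀ * J) *ᵥ i1 q1)))
        = (gᵀ * J * (p.1 * (e * E K arm r * B * fᵀ * J))) *ᵥ i1 q1 := by
      rw [hpX, ← smul_mulVec]
      simp only [mulVec_mulVec, Matrix.mul_assoc]
    have e2 : (gᵀ * J) *ᵥ (Z *ᵥ ((M arm B r f f * J) *ᵥ i1 q1))
        = (gᵀ * J * (Z * (M arm B r f f * J))) *ᵥ i1 q1 := by
      simp only [mulVec_mulVec, Matrix.mul_assoc]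
    rw [e1, e2, h1, neg_mulVec]
  have h4 := hS.u2e hc horth hF.skw hZ' hbR hb hv2 hF.eS r q1 h3 p1'
  have hfg : fᵀ * J * g = 0 := QEndP.fJg h hf
  have h5 : (J * (Z' * e) * E K arm r * B * fᵀ * J) *ᵥ ((q : Sp J g) : ι → K)
      = J *ᵥ ((Z' * e) *ᵥ ((E K arm r * B * fᵀ * J) *ᵥ i1 q1)) := by
    rw [hq1, mulVec_add]
    have e1 : (J * (Z' * e) * E K arm r * B * fᵀ * J) *ᵥ (g *ᵥ u1) = 0 := by
      rw [mulVec_mulVec]
      have : J * (Z' * e) * E K arm r * B * fᵀ * J * g = 0 := by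
        calc J * (Z' * e) * E K arm r * B * fᵀ * J * g
            = J * (Z' * e) * E K arm r * B * (fᵀ * J * g) := by simp only [Matrix.mul_assoc]
          _ = 0 := by rw [hfg, Matrix.mul_zero]
      rw [this, zero_mulVec]
    rw [e1, add_zero]
    simp only [mulVec_mulVec, Matrix.mul_assoc]
  rw [h5, hp1, add_dotProduct]
  have h6 : (g *ᵥ u2) ⬝ᵥ J *ᵥ ((Z' * e) *ᵥ ((E K arm r * B * fᵀ * J) *ᵥ i1 q1)) = 0 := by
    refine hS.S_dot u2 ?_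
    rw [mulVec_mulVec, hW0, zero_mulVec]
  rw [h6, add_zero, ← mulVec_mulVec (M := Z')]
  exact h4

/-- **existence of the correction** -/
theorem hexP (h : Ctx k arm J B N W g)
    (hNm : ∀ F, (∀ F' ∈ N, pair J B F' F = 0) → F ∈ N)
    (hWm : ∀ F, (∀ F' ∈ W, pair J B F' F = 0) → F ∈ W)
    (hG : Glue k arm J N W g) (hf : f ∈ N ⊓ W)
    {p : Matrix ι ι K × (Fin 3 → Matrix ι ι K)} (hp : p ∈ NN arm J N g) (hpX : p.1 = X)
    (hp0 : gᵀ * J * (p.1 * f) = 0)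
    (hS : Side arm J B g f X A Bo i1 i2) (hR1 : ∀ t, ∀ r ∈ R1, A t r ∈ R1)
    (hR2 : ∀ t, ∀ r ∈ R2, Bo t r ∈ R2)
    (horth : ∀ r ∈ R1, ∀ q, i1 r ⬝ᵥ J *ᵥ i1 q = 0)
    (hgR : ∀ r ∈ R2, ∀ q, g2 J X i2 r q = 0)
    (hinj : ∀ p, (∃ u, i1 p = g *ᵥ u) → p = 0)
    {c : K} (hc : c ∈ Lam hS hR1 hR2)
    {x : Fin 3 → P2 ⊗[K] P1} (hx : RJ.Ex A Bo R1 R2 c x) :
    ∃ b, RJ.Cor A Bo R1 (g2 J X i2) (-1) c x b := by
  obtain ⟨Z, Q, e, p1, pm, p3, p4, kk, hF, hφ, h1, h2⟩ :=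
    fam_data h hNm hWm hG hf hp hpX hp0 hS hR1 hR2 horth hgR hc hx
  obtain ⟨b, hbR, hb⟩ := Side.exists_b hc.1 h1
  refine ⟨b, hbR, fun t a => ?_⟩
  have h3 := hinj _ (hS.cor_of hc.1 hF.skw (hφ t) hb a)
  rw [sub_eq_zero] at h3
  rw [neg_one_mul, neg_smul, neg_smul, sub_neg_eq_add, sub_neg_eq_add]
  exact h3

/-- **the bilinear relation** -/
theorem hrelP (h : Ctx k arm J B N W g)
    (hNm : ∀ F, (∀ F' ∈ N, pair J B F' F = 0) → F ∈ N)
    (hWm : ∀ F, (∀ F' ∈ W, pair J B F' F = 0) → F ∈ W)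
    (hG : Glue k arm J N W g) (hf : f ∈ N ⊓ W)
    {p : Matrix ι ι K × (Fin 3 → Matrix ι ι K)} (hp : p ∈ NN arm J N g) (hpX : p.1 = X)
    (hp0 : gᵀ * J * (p.1 * f) = 0)
    (hS : Side arm J B g f X A Bo i1 i2) (hR1 : ∀ t, ∀ r ∈ R1, A t r ∈ R1)
    (hR2 : ∀ t, ∀ r ∈ R2, Bo t r ∈ R2)
    (horth : ∀ r ∈ R1, ∀ q, i1 r ⬝ᵥ J *ᵥ i1 q = 0)
    (hgR : ∀ r ∈ R2, ∀ q, g2 J X i2 r q = 0)
    (hcov : ∀ v : Pinf (aop arm J B g f (h.perp f hf)), ∃ q u,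
      ((v : Sp J g) : ι → K) = i1 q + g *ᵥ u)
    (him : ∀ q, ∃ u, i1 q = f *ᵥ u)
    {c c' : K} (hc : c ∈ Lam hS hR1 hR2) (hc' : c' ∈ Lam hS hR1 hR2)
    {x x' : Fin 3 → P2 ⊗[K] P1} {b b' : P2 →ₗ[K] P1} (hx : RJ.Ex A Bo R1 R2 c x)
    (hb : RJ.Cor A Bo R1 (g2 J X i2) (-1) c x b) (hx' : RJ.Ex A Bo R1 R2 c' x')
    (hb' : RJ.Cor A Bo R1 (g2 J X i2) (-1) c' x' b') :
    ∑ t, ((1 : K) • TensorProduct.lift ((qf arm J f i1 t) ∘ₗ b') (x t)
        + (-1 : K) • TensorProduct.lift ((qf arm J f i1 t).flip ∘ₗ b) (x' t)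
        + (-1 : K) • TensorProduct.lift ((qf arm J f i1 t) ∘ₗ (RJ.ev (g2 J X i2) (x' t))) (x t))
      ∈ SSp arm J B N W g f (h.perp f hf) := by
  obtain ⟨Z, Q, e, p1, pm, p3, p4, kk, hF, hφ, h1, h2⟩ :=
    fam_data h hNm hWm hG hf hp hpX hp0 hS hR1 hR2 horth hgR hc hx
  obtain ⟨Z', Q', e', p1', pm', p3', p4', kk', hF', hφ', h1', h2'⟩ :=
    fam_data h hNm hWm hG hf hp hpX hp0 hS hR1 hR2 horth hgR hc' hx'
  have hcor : ∀ {c : K} {x : Fin 3 → P2 ⊗[K] P1} {b : P2 →ₗ[K] P1},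
      RJ.Cor A Bo R1 (g2 J X i2) (-1) c x b → ∀ s a,
      i1 ((A s (b a) + c • b (Bo s a)) - (A s (ev1 (g2 J X i2) (x s) a)
        + c • ev1 (g2 J X i2) (x s) (Bo s a))) ∈ LinearMap.range g.mulVecLin := by
    intro c x b hb s a
    have h3 := hb.eq s a
    rw [neg_one_mul, neg_smul, neg_smul, sub_neg_eq_add, sub_neg_eq_add] at h3
    rw [h3]
    have : A s (RJ.ev (g2 J X i2) (x s) a) + c • RJ.ev (g2 J X i2) (x s) (Bo s a)
        - (A s (ev1 (g2 J X i2) (x s) a) + c • ev1 (g2 J X i2) (x s) (Bo s a)) = 0 := sub_self _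
    rw [this, map_zero]
    exact Submodule.zero_mem _
  have hbZ := hS.b_of hc.1 hc.2.2.1 hF.skw hφ (hcor hb)
  have hbZ' := hS.b_of hc'.1 hc'.2.2.1 hF'.skw hφ' (hcor hb')
  -- normalised `u`
  have hscal : ∀ {c : K} {Z : Matrix ι ι K} {b : P2 →ₗ[K] P1}, c ≠ 0 →
      (∀ a, ∃ u, Z *ᵥ i2 a = -(c • i1 (b a)) + g *ᵥ u) →
      ∀ a, ∃ z, (c⁻¹ • Z) *ᵥ i2 a = - i1 (b a) + g *ᵥ z := by
    intro c Z b hc0 hb a
    obtain ⟨u, hu⟩ := hb a
    refine ⟨c⁻¹ • u, ?_⟩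
    rw [smul_mulVec, hu, smul_add, smul_neg, smul_smul, inv_mul_cancel₀ hc0, one_smul,
      mulVec_smul]
  have hu := hscal hc.1 hbZ
  have hu' := hscal hc'.1 hbZ'
  obtain ⟨v0, hv0, n, hn, C, hprod⟩ := h.prodP hf hF hF' (fun s => ten_skw h.data.J_symm _)
    (fun s => hS.ten_g _) (fun s v hv => hS.ten_S _ v hv) (fun s => ten_skw h.data.J_symm _)
    (fun s => hS.ten_g _) (fun s v hv => hS.ten_S _ v hv)
    (fun s => by
      generalize x' s = y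
      induction y using TensorProduct.induction_on with
      | zero => exact ⟨0, 0, by simp⟩
      | tmul a b0 =>
        obtain ⟨u1, hu1⟩ := him b0
        obtain ⟨u2, hu2⟩ := hS.J2 a
        refine ⟨-(vecMulVec u1 (i2 a) * J), vecMulVec u2 (i1 b0) * J, ?_⟩
        rw [ten_tmul, hu1]
        have e1 : vecMulVec (f *ᵥ u1) (i2 a) = f * vecMulVec u1 (i2 a) := by
          ext i j
          simp only [vecMulVec_apply, Matrix.mul_apply, mulVec, dotProduct, Finset.sum_mul,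
            mul_assoc]
        have e2 : vecMulVec (i2 a) (i1 b0) = g * vecMulVec u2 (i1 b0) := by
          rw [hu2]
          ext i j
          simp only [vecMulVec_apply, Matrix.mul_apply, mulVec, dotProduct, Finset.sum_mul,
            mul_assoc]
        rw [← hu1, e2, hu1, e1, Matrix.mul_neg, ← Matrix.mul_assoc, ← Matrix.mul_assoc]
        abel
      | add y z hy hz =>
        obtain ⟨C1, C2, h3⟩ := hy
        obtain ⟨C3, C4, h4⟩ := hz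
        refine ⟨C1 + C3, C2 + C4, ?_⟩
        rw [map_add, h3, h4, Matrix.mul_add, Matrix.mul_add]
        abel)
    hc.1 hc'.1 (X0 := X) (u := c⁻¹ • Z) (u2 := c'⁻¹ • Z')
    (by change c • p.1 = c • X; rw [hpX]) (by change c' • p.1 = c' • X; rw [hpX])
    (by rw [smul_smul, mul_inv_cancel₀ hc.1, one_smul])
    (by rw [smul_smul, mul_inv_cancel₀ hc'.1, one_smul])
  -- tensor form
  have ht : ∀ t, ∃ C : Matrix δ δ K,
      ((1 : K) • TensorProduct.lift ((qf arm J f i1 t) ∘ₗ b') (x t)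
        + (-1 : K) • TensorProduct.lift ((qf arm J f i1 t).flip ∘ₗ b) (x' t)
        + (-1 : K) • TensorProduct.lift ((qf arm J f i1 t) ∘ₗ (RJ.ev (g2 J X i2) (x' t))) (x t))
      = (ten J i1 i2 (x' t) * X * ten J i1 i2 (x t) + ten J i1 i2 (x' t) * (c⁻¹ • Z)
        - (c'⁻¹ • Z') * ten J i1 i2 (x t)) * f * E K arm t + g * C := by
    intro t
    obtain ⟨C, hC⟩ := hS.tprod (x := x t) (x' := x' t) (hF.skw.smul c⁻¹) hu hu' (q0 J f i1)
      (fun a a' => rfl)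
    refine ⟨-(C * E K arm t), ?_⟩
    rw [hC, Matrix.add_mul, Matrix.sub_mul, Matrix.sub_mul, lift_qf, lift_qf_flip, lift_qf,
      one_smul, neg_one_smul, neg_one_smul, Matrix.mul_neg, ← Matrix.mul_assoc g]
    abel
  choose Ct hCt using ht
  rw [Finset.sum_congr rfl fun t _ => hCt t, Finset.sum_add_distrib, ← Matrix.mul_sum]
  have hact : ∑ t, (ten J i1 i2 (x' t) * X * ten J i1 i2 (x t) + ten J i1 i2 (x' t) * (c⁻¹ • Z)
        - (c'⁻¹ • Z') * ten J i1 i2 (x t)) * f * E K arm t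
      = act arm (fun s => ten J i1 i2 (x' s) * X * ten J i1 i2 (x s)
        + ten J i1 i2 (x' s) * (c⁻¹ • Z) - (c'⁻¹ • Z') * ten J i1 i2 (x s)) f := rfl
  rw [hact, hprod]
  refine Submodule.add_mem _ (Submodule.add_mem _ (Submodule.add_mem _ (Submodule.sub_mem _ ?_ ?_)
    ?_) ?_) ?_
  · exact v0_mem h hf hv0
  · exact u2e_mem h hf hS hcov hc.1 horth (by change c • p.1 = c • X; rw [hpX]) hF hF'.skw hF'.Zg
      hb.mem hbZ h2'
  · exact QEndP.N_le_SSp _ hn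
  · exact QEndP.gC_mem_SSp _ _
  · exact QEndP.gC_mem_SSp _ _

end bridge

end Crest.Agent.R172.QBr
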