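import Crest.Agent.R172.CorForm
import Crest.Agent.R172.Qt7
import Crest.Agent.R172.TameCount5

/-!
Row 172 (S0260), node Q-ENDP (notes 15379, 15555, 15859 (2)): the END of the P-side of (t3).

`P' = Pinf a`, `R' = TP a`, `M₁ = Cor a` for `a = aop` (the operators `M_s(f,f) J` on `S^⊥`).

* `f1`: `x ∈ W`, `gᵀ J x = 0`, `x = ν + g C`, `ν ∈ N` ⟹ `fᵀ J x` is symmetric (F1 on `V'`);
* `SSp`: the space `𝒮` of note 15859 (in the weakest form which is needed);
* `endP`, `endP_arm`: if all filtered skew maps of `M₁` have lifts with `T f ∈ 𝒮`: contradiction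
  unless `M₁` is of type (3,3,3) and of dimension 3.
-/

set_option autoImplicit false
set_option linter.unusedSectionVars false
set_option linter.unusedFintypeInType false
set_option linter.unusedDecidableInType false

namespace Crest.Agent.R172.QEndP

open Matrix Module TensorProduct Crest.Agent.R172.FO Crest.Agent.R172.Qt
open Crest.Agent.R172.Mix
open Crest.Agent.R172.St (T)
open Crest.Agent.R172.Core (NS)

variable {ι : Type*} [Fintype ι] [DecidableEq ι] {δ : Type*} [Fintype δ] [DecidableEq δ]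
variable {k K : Type*} [Field k] [Field K] [Algebra k K]
variable {arm : δ → Fin 3} {J : Matrix ι ι K} {B : Matrix δ δ K}
  {N W : Submodule K (Matrix ι δ K)} {g f : Matrix ι δ K}

theorem fJg (h : Ctx k arm J B N W g) (hf : f ∈ N ⊓ W) : fᵀ * J * g = 0 := by
  have h1 := congrArg transpose (h.perp f hf)
  rw [transpose_mul, transpose_mul, transpose_transpose, h.data.J_symm, transpose_zero,
    ← Matrix.mul_assoc] at h1
  exact h1

/-- **F1 on `V'`** -/
theorem f1 (h : Ctx k arm J B N W g)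
    (hNm : ∀ F, (∀ F' ∈ N, pair J B F' F = 0) → F ∈ N)
    (hWm : ∀ F, (∀ F' ∈ W, pair J B F' F = 0) → F ∈ W) (hf : f ∈ N ⊓ W)
    {x ν : Matrix ι δ K} (hx : x ∈ W) (hxS : gᵀ * J * x = 0) (hν : ν ∈ N) {C : Matrix δ δ K}
    (hxν : x = ν + g * C) : (fᵀ * J * x)ᵀ = fᵀ * J * x := by
  obtain ⟨f0, hf0, p, hp, hp0, C', rfl⟩ := h.KV hNm hWm hx hxS hν hxν
  have h1 := fJg h hf
  have h2 : fᵀ * J * (p.1 * g) = 0 := by
    have h3 := h.tf_zero hf hp hp0
    have e : (fᵀ * J * (p.1 * g))ᵀ = -(gᵀ * J * (p.1 * f)) := by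
      rw [transpose_mul, transpose_mul, transpose_mul, transpose_transpose, h.data.J_symm]
      calc gᵀ * p.1ᵀ * (J * f) = gᵀ * (p.1ᵀ * J) * f := by simp only [Matrix.mul_assoc]
        _ = _ := by
          rw [Skw.eq hp.1]
          simp only [Matrix.mul_neg, Matrix.neg_mul, Matrix.mul_assoc]
    rw [h3, neg_zero] at e
    have := congrArg transpose e
    rwa [transpose_transpose, transpose_zero] at this
  have h4 := h.data.symm_U hf hf0
  have e5 : fᵀ * J * (f0 + p.1 * g + g * C') = fᵀ * J * f0 := by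
    rw [Matrix.mul_add, Matrix.mul_add, h2, ← Matrix.mul_assoc _ g C', h1, Matrix.zero_mul,
      add_zero, add_zero]
  rw [e5, transpose_mul, transpose_mul, transpose_transpose, h.data.J_symm, ← Matrix.mul_assoc]
  exact h4

/-- the form on `S^⊥` -/
noncomputable def bS (J : Matrix ι ι K) (g : Matrix ι δ K) : LinearMap.BilinForm K (Sp J g) :=
  (Matrix.toBilin' J).restrict (Sp J g)

theorem bS_apply (v w : Sp J g) : bS J g v w = (v : ι → K) ⬝ᵥ (J *ᵥ (w : ι → K)) := by
  change Matrix.toBilin' J _ _ = _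
  rw [Matrix.toBilin'_apply']
  rfl

theorem dot_adj {A A' : Matrix ι ι K} (h : Aᵀ * J = J * A') (v w : ι → K) :
    (A *ᵥ v) ⬝ᵥ (J *ᵥ w) = v ⬝ᵥ (J *ᵥ (A' *ᵥ w)) := by
  rw [dotProduct_comm, dotProduct_mulVec, ← Matrix.transpose_transpose A, vecMul_transpose,
    mulVec_mulVec, h, ← mulVec_mulVec, dotProduct_comm]

theorem dot_symm (hJ : Jᵀ = J) (v w : ι → K) : v ⬝ᵥ (J *ᵥ w) = w ⬝ᵥ (J *ᵥ v) := by
  rw [dotProduct_mulVec, ← hJ, vecMul_transpose, hJ, dotProduct_comm]

theorem M_symm (hD : Data k arm J B N W) (f : Matrix ι δ K) (s : Fin 3) :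
    (M arm B s f f)ᵀ = M arm B s f f := by
  unfold M
  rw [transpose_mul, transpose_mul, transpose_mul, transpose_transpose, E_transpose, hD.B_symm]
  simp only [Matrix.mul_assoc]
  rw [← Matrix.mul_assoc B, ← hD.B_arm, Matrix.mul_assoc]

theorem fJv {α : Type*} {v : ι → K} (_ : α)
    (hv : ∀ w : Sp J g, (v : ι → K) ⬝ᵥ (J *ᵥ (w : ι → K)) = 0) (hJ : Jᵀ = J)
    (hf : gᵀ * J * f = 0) : (fᵀ * J) *ᵥ v = 0 := by
  ext d
  have h1 : f *ᵥ Pi.single d 1 ∈ Sp J g := by
    rw [mem_Sp, mulVec_mulVec, hf, zero_mulVec]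
  have h2 := hv ⟨_, h1⟩
  rw [dot_symm hJ] at h2
  have h3 : ((fᵀ * J) *ᵥ v) d = (f *ᵥ Pi.single d 1) ⬝ᵥ (J *ᵥ v) := by
    rw [← mulVec_mulVec, mulVec_single_one]
    rfl
  rw [h3, h2]
  rfl

theorem FHS (h : Ctx k arm J B N W g) (hf : f ∈ N ⊓ W) :
    FH (bS J g) (aop arm J B g f (h.perp f hf)) where
  symm v w := by rw [bS_apply, bS_apply, dot_symm h.data.J_symm]
  sa s v w := by
    rw [bS_apply, bS_apply, aop_coe, aop_coe]
    refine dot_adj ?_ _ _
    rw [transpose_mul, M_symm h.data, h.data.J_symm, Matrix.mul_assoc]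
  rad v hv s := by
    have h1 : (fᵀ * J) *ᵥ (v : ι → K) = 0 :=
      fJv () (fun w => by rw [← bS_apply]; exact hv w) h.data.J_symm (h.perp f hf)
    apply Subtype.ext
    rw [aop_coe]
    have e : M arm B s f f * J = f * E K arm s * B * (fᵀ * J) := by
      unfold M
      simp only [Matrix.mul_assoc]
    rw [e, ← mulVec_mulVec, h1, mulVec_zero]
    rfl

/-- every element of `P'` is of the form `f u`, `u = ∑ E_r B fᵀ J q_r`, `q_r ∈ P'` -/
theorem exists_u (hfp : gᵀ * J * f = 0) (p : Pinf (aop arm J B g f hfp)) :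
    ∃ q : Fin 3 → Pinf (aop arm J B g f hfp),
      f *ᵥ (∑ r, (E K arm r * B * fᵀ * J) *ᵥ ((q r : Sp J g) : ι → K))
        = ((p : Sp J g) : ι → K) := by
  have h1 : (p : Sp J g) ∈ ⨆ s, (Pinf (aop arm J B g f hfp)).map (aop arm J B g f hfp s) := by
    rw [Pinf_eq_iSup]; exact p.2
  have key : ∀ x : Sp J g,
      x ∈ ⨆ s, (Pinf (aop arm J B g f hfp)).map (aop arm J B g f hfp s) →
      ∃ q : Fin 3 → Pinf (aop arm J B g f hfp),
        f *ᵥ (∑ r, (E K arm r * B * fᵀ * J) *ᵥ ((q r : Sp J g) : ι → K)) = (x : ι → K) := ?_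
  · exact key _ h1
  intro x hx
  induction hx using Submodule.iSup_induction' with
  | mem s y hy =>
    obtain ⟨z, hz, rfl⟩ := hy
    refine ⟨fun r => if r = s then ⟨z, hz⟩ else 0, ?_⟩
    rw [Finset.sum_eq_single s]
    · dsimp only
      rw [if_pos rfl, aop_coe, mulVec_mulVec]
      unfold M
      simp only [Matrix.mul_assoc]
    · intro r _ hr
      dsimp only
      rw [if_neg hr]
      change _ *ᵥ (0 : ι → K) = 0
      rw [mulVec_zero]
    · intro hs; exact absurd (Finset.mem_univ s) hs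
  | zero =>
    refine ⟨fun _ => 0, ?_⟩
    rw [Finset.sum_eq_zero, mulVec_zero]
    · rfl
    · intro r _
      change _ *ᵥ (0 : ι → K) = 0
      rw [mulVec_zero]
  | add x y _ _ hx hy =>
    obtain ⟨u, hu⟩ := hx
    obtain ⟨u', hu'⟩ := hy
    refine ⟨fun r => u r + u' r, ?_⟩
    have e : ∀ r, (E K arm r * B * fᵀ * J) *ᵥ (((u r + u' r : Pinf (aop arm J B g f hfp)) :
        Sp J g) : ι → K) = (E K arm r * B * fᵀ * J) *ᵥ ((u r : Sp J g) : ι → K)
          + (E K arm r * B * fᵀ * J) *ᵥ ((u' r : Sp J g) : ι → K) := fun r => by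
      rw [← mulVec_add]; rfl
    rw [Finset.sum_congr rfl fun r _ => e r, Finset.sum_add_distrib, mulVec_add, hu, hu']
    rfl

/-- **the space `𝒮`** -/
def SSp (arm : δ → Fin 3) (J : Matrix ι ι K) (B : Matrix δ δ K) (N W : Submodule K (Matrix ι δ K))
    (g f : Matrix ι δ K) (hfp : gᵀ * J * f = 0) : Submodule K (Matrix ι δ K) where
  carrier := {Y | ∃ w ∈ W, gᵀ * J * w = 0 ∧
    (∀ (p q : Pinf (aop arm J B g f hfp)) (r : Fin 3), ((p : Sp J g) : ι → K) ⬝ᵥ
      ((J * w * E K arm r * B * fᵀ * J) *ᵥ ((q : Sp J g) : ι → K)) = 0) ∧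
    ∃ C : Matrix δ δ K, Y - w - g * C ∈ N}
  add_mem' := by
    rintro Y Y' ⟨w, h1, h2, h3, C, h4⟩ ⟨w', h1', h2', h3', C', h4'⟩
    refine ⟨w + w', W.add_mem h1 h1', by rw [Matrix.mul_add, h2, h2', add_zero], ?_, C + C', ?_⟩
    · intro p q r
      have e : J * (w + w') * E K arm r * B * fᵀ * J
          = J * w * E K arm r * B * fᵀ * J + J * w' * E K arm r * B * fᵀ * J := by
        simp only [Matrix.mul_add, Matrix.add_mul]
      rw [e, add_mulVec, dotProduct_add, h3 p q r, h3' p q r, add_zero]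
    · have : Y + Y' - (w + w') - g * (C + C') = (Y - w - g * C) + (Y' - w' - g * C') := by
        rw [Matrix.mul_add]; abel
      rw [this]
      exact N.add_mem h4 h4'
  zero_mem' := ⟨0, W.zero_mem, by simp, by intro p q r; simp, 0, by simp⟩
  smul_mem' := by
    rintro c Y ⟨w, h1, h2, h3, C, h4⟩
    refine ⟨c • w, W.smul_mem c h1, by rw [Matrix.mul_smul, h2, smul_zero], ?_, c • C, ?_⟩
    · intro p q r
      have e : J * (c • w) * E K arm r * B * fᵀ * J
          = c • (J * w * E K arm r * B * fᵀ * J) := by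
        simp only [Matrix.mul_smul, Matrix.smul_mul]
      rw [e, smul_mulVec, dotProduct_smul, h3 p q r, smul_zero]
    · have : c • Y - c • w - g * (c • C) = c • (Y - w - g * C) := by
        rw [Matrix.mul_smul, smul_sub, smul_sub]
      rw [this]
      exact N.smul_mem c h4

/-- `N ≤ 𝒮` -/
theorem N_le_SSp (hfp : gᵀ * J * f = 0) : N ≤ SSp arm J B N W g f hfp := fun Y hY =>
  ⟨0, W.zero_mem, by simp, by intro p q r; simp, 0, by simpa using hY⟩

/-- `S ⊗ U ≤ 𝒮` -/
theorem gC_mem_SSp (hfp : gᵀ * J * f = 0) (C : Matrix δ δ K) :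
    g * C ∈ SSp arm J B N W g f hfp :=
  ⟨0, W.zero_mem, by simp, by intro p q r; simp, C, by simp⟩

/-- `WW ≤ 𝒮`: the condition of 15859, `wᵀ P' ⊆ fᵀ R'`. -/
theorem WW_mem_SSp (h : Ctx k arm J B N W g) (hf : f ∈ N ⊓ W) {w : Matrix ι δ K} (hw : w ∈ W)
    (hw0 : gᵀ * J * w = 0)
    (hwR : ∀ p : Pinf (aop arm J B g f (h.perp f hf)),
      ∃ r : Pinf (aop arm J B g f (h.perp f hf)), r ∈ TP (aop arm J B g f (h.perp f hf)) ∧
        (wᵀ * J) *ᵥ ((p : Sp J g) : ι → K) = (fᵀ * J) *ᵥ ((r : Sp J g) : ι → K)) :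
    w ∈ SSp arm J B N W g f (h.perp f hf) := by
  refine ⟨w, hw, hw0, ?_, 0, by simp⟩
  intro p q r
  obtain ⟨z, hz, hpz⟩ := hwR p
  have key : ∀ (y : Matrix ι δ K) (v : ι → K),
      v ⬝ᵥ ((J * y * E K arm r * B * fᵀ * J) *ᵥ ((q : Sp J g) : ι → K))
        = ((E K arm r * B * fᵀ * J) *ᵥ ((q : Sp J g) : ι → K)) ⬝ᵥ ((yᵀ * J) *ᵥ v) := by
    intro y v
    have e : J * y * E K arm r * B * fᵀ * J = (J * y) * (E K arm r * B * fᵀ * J) := by
      simp only [Matrix.mul_assoc]
    have e2 : yᵀ * J = (J * y)ᵀ := by rw [transpose_mul, h.data.J_symm]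
    rw [e, ← mulVec_mulVec, e2, mulVec_transpose, dotProduct_mulVec v, dotProduct_comm]
  rw [key, hpz, ← key]
  have h1 := (FHS h hf).mem_T_iff.1 hz
    (aop arm J B g f (h.perp f hf) r q) (Pinf_stable r q.2)
  rw [bS_apply, aop_coe, mulVec_mulVec] at h1
  have e : J * f * E K arm r * B * fᵀ * J = J * (M arm B r f f * J) := by
    unfold M
    simp only [Matrix.mul_assoc]
  rw [e]
  exact h1

/-- `p ⊗ p' ↦ p p'ᵀ J` -/
noncomputable def mt (J : Matrix ι ι K) (g : Matrix ι δ K) (P : Submodule K (Sp J g)) :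
    (P ⊗[K] P) →ₗ[K] Matrix ι ι K :=
  TensorProduct.lift (LinearMap.mk₂ K
    (fun x y => vecMulVec ((x : Sp J g) : ι → K) ((y : Sp J g) : ι → K) * J)
    (by intro x x' y; rw [← Matrix.add_mul]; congr 1; ext i j; simp [vecMulVec_apply, add_mul])
    (by intro c x y; rw [← Matrix.smul_mul]; congr 1; ext i j; simp [vecMulVec_apply, mul_assoc])
    (by intro x y y'; rw [← Matrix.add_mul]; congr 1; ext i j; simp [vecMulVec_apply, mul_add])
    (by intro c x y; rw [← Matrix.smul_mul]; congr 1; ext i j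
        simp only [vecMulVec_apply, Matrix.smul_apply, Submodule.coe_smul, Pi.smul_apply,
          smul_eq_mul]
        ring))

theorem mt_tmul (P : Submodule K (Sp J g)) (x y : P) :
    mt J g P (x ⊗ₜ y) = vecMulVec ((x : Sp J g) : ι → K) ((y : Sp J g) : ι → K) * J := rfl

theorem vmv_mulVec (x y v : ι → K) : (vecMulVec x y) *ᵥ v = (y ⬝ᵥ v) • x := by
  ext i
  simp only [mulVec, dotProduct, vecMulVec_apply, Pi.smul_apply, smul_eq_mul, Finset.sum_mul]
  exact Finset.sum_congr rfl fun j _ => by ring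

theorem mt_mulVec {a : Fin 3 → End K (Sp J g)} (t : Pinf a ⊗[K] Pinf a) (v : Pinf a) :
    mt J g (Pinf a) t *ᵥ ((v : Sp J g) : ι → K) = ((ev (bS J g) a t v : Sp J g) : ι → K) := by
  induction t using TensorProduct.induction_on with
  | zero => simp
  | tmul x y =>
    rw [mt_tmul, ev_tmul, ← mulVec_mulVec, vmv_mulVec]
    change _ = (bS J g (y : Sp J g) (v : Sp J g)) • ((x : Sp J g) : ι → K)
    rw [bS_apply]
  | add x y hx hy =>
    rw [map_add, map_add, add_mulVec, hx, hy]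
    rfl

theorem gJ_mt {a : Fin 3 → End K (Sp J g)} (t : Pinf a ⊗[K] Pinf a) :
    gᵀ * J * mt J g (Pinf a) t = 0 := by
  induction t using TensorProduct.induction_on with
  | zero => simp
  | tmul x y =>
    rw [mt_tmul, ← Matrix.mul_assoc]
    have h1 : gᵀ * J * vecMulVec ((x : Sp J g) : ι → K) ((y : Sp J g) : ι → K) = 0 := by
      have h2 : (gᵀ * J) *ᵥ ((x : Sp J g) : ι → K) = 0 := mem_Sp.1 (x : Sp J g).2
      ext i j
      rw [Matrix.mul_apply]
      simp only [vecMulVec_apply]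
      have h3 := congrFun h2 i
      simp only [mulVec, dotProduct, Pi.zero_apply] at h3
      simp only [← mul_assoc]
      rw [← Finset.sum_mul, h3, zero_mul]
      rfl
    rw [h1, Matrix.zero_mul]
  | add x y hx hy => rw [map_add, Matrix.mul_add, hx, hy, add_zero]

/-- a lift with `T f ∈ 𝒮` is self-adjoint -/
theorem symm_of_SSp (h : Ctx k arm J B N W g)
    (hNm : ∀ F, (∀ F' ∈ N, pair J B F' F = 0) → F ∈ N)
    (hWm : ∀ F, (∀ F' ∈ W, pair J B F' F = 0) → F ∈ W) (hf : f ∈ N ⊓ W)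
    {A : End K (Cor (aop arm J B g f (h.perp f hf)))}
    {t : Pinf (aop arm J B g f (h.perp f hf)) ⊗[K] Pinf (aop arm J B g f (h.perp f hf))}
    (hA : Lifts (ev (bS J g) _ t) A)
    (ht : mt J g _ t * f ∈ SSp arm J B N W g f (h.perp f hf)) (v w : Cor _) :
    BC (FHS h hf) (A v) w = BC (FHS h hf) v (A w) := by
  obtain ⟨w0, hw0, hw1, hw2, C, hC⟩ := ht
  have hx : mt J g _ t * f - w0 ∈ W := W.sub_mem (h.data.W_left _ hf.2 _) hw0
  have hxS : gᵀ * J * (mt J g _ t * f - w0) = 0 := by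
    rw [Matrix.mul_sub, hw1, sub_zero, ← Matrix.mul_assoc, gJ_mt, Matrix.zero_mul]
  have hsym := f1 h hNm hWm hf hx hxS hC (C := C) (by abel)
  induction v using Submodule.Quotient.induction_on with
  | _ p =>
    induction w using Submodule.Quotient.induction_on with
    | _ q =>
      obtain ⟨x, hx⟩ := exists_u _ p
      obtain ⟨x', hx'⟩ := exists_u _ q
      have key : ∀ (p q : Pinf (aop arm J B g f (h.perp f hf)))
          (x x' : Fin 3 → Pinf (aop arm J B g f (h.perp f hf))),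
          f *ᵥ (∑ r, (E K arm r * B * fᵀ * J) *ᵥ ((x r : Sp J g) : ι → K))
            = ((p : Sp J g) : ι → K) →
          f *ᵥ (∑ r, (E K arm r * B * fᵀ * J) *ᵥ ((x' r : Sp J g) : ι → K))
            = ((q : Sp J g) : ι → K) →
          (∑ r, (E K arm r * B * fᵀ * J) *ᵥ ((x r : Sp J g) : ι → K)) ⬝ᵥ
            ((fᵀ * J * (mt J g _ t * f - w0)) *ᵥ
              (∑ r, (E K arm r * B * fᵀ * J) *ᵥ ((x' r : Sp J g) : ι → K)))
            = bS J g p (ev (bS J g) _ t q) := by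
        intro p q x x' hu hu'
        generalize hU : (∑ r, (E K arm r * B * fᵀ * J) *ᵥ ((x r : Sp J g) : ι → K)) = u at hu ⊢
        have hw3 : ((p : Sp J g) : ι → K) ⬝ᵥ (J *ᵥ (w0 *ᵥ
            (∑ r, (E K arm r * B * fᵀ * J) *ᵥ ((x' r : Sp J g) : ι → K)))) = 0 := by
          rw [mulVec_sum, mulVec_sum, dotProduct_sum]
          refine Finset.sum_eq_zero fun r _ => ?_
          have h5 := hw2 p (x' r) r
          rw [mulVec_mulVec, mulVec_mulVec]
          have e : J * w0 * (E K arm r * B * fᵀ * J) = J * w0 * E K arm r * B * fᵀ * J := by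
            simp only [Matrix.mul_assoc]
          rw [e]
          exact h5
        have e1 : ∀ u' : δ → K, u ⬝ᵥ ((fᵀ * J * (mt J g _ t * f - w0)) *ᵥ u')
            = (f *ᵥ u) ⬝ᵥ (J *ᵥ ((mt J g _ t * f - w0) *ᵥ u')) := by
          intro u'
          rw [Matrix.mul_assoc, ← mulVec_mulVec, ← mulVec_mulVec, dotProduct_mulVec u,
            vecMul_transpose]
        rw [e1, hu, sub_mulVec, mulVec_sub, dotProduct_sub, hw3, sub_zero,
          ← mulVec_mulVec, hu', mt_mulVec, bS_apply]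
      have e2 := key p q x x' hx hx'
      have e3 := key q p x' x hx' hx
      have e4 : ∀ u u' : δ → K, u ⬝ᵥ ((fᵀ * J * (mt J g _ t * f - w0)) *ᵥ u')
          = u' ⬝ᵥ ((fᵀ * J * (mt J g _ t * f - w0)) *ᵥ u) := by
        intro u u'
        conv_lhs => rw [← hsym]
        rw [dotProduct_mulVec, vecMul_transpose, dotProduct_comm]
      rw [e4, e3] at e2
      have e4 := e2.symm
      rw [← hA p, ← hA q, BC_mk, BC_mk, (FHS h hf).symm]
      exact e4.symm

/-- **END of the P-side of (t3).** -/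
theorem endP [CharZero K] (h : Ctx k arm J B N W g)
    (hNm : ∀ F, (∀ F' ∈ N, pair J B F' F = 0) → F ∈ N)
    (hWm : ∀ F, (∀ F' ∈ W, pair J B F' F = 0) → F ∈ W) (hf : f ∈ N ⊓ W)
    (l : Fin 3 → ℕ) (h1 : ∀ s, 1 ≤ l s) (hsum : ∑ s, (1 - 1 / (l s : ℚ)) = 2)
    (hl : ∀ s, ac (aop arm J B g f (h.perp f hf)) s ^ l s = 0)
    (hfree : ∀ s, l s * finrank K (LinearMap.ker (ac (aop arm J B g f (h.perp f hf)) s))
      = finrank K (Cor (aop arm J B g f (h.perp f hf))))
    (hpos : 0 < finrank K (Cor (aop arm J B g f (h.perp f hf))))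
    (h333 : (∀ s, l s = 3) → 3 < finrank K (Cor (aop arm J B g f (h.perp f hf))))
    (hext : ∀ A : End K (Cor (aop arm J B g f (h.perp f hf))),
      (∀ (s : Fin 3) (j : ℕ), ∀ x ∈ LinearMap.range (ac (aop arm J B g f (h.perp f hf)) s ^ j),
        A x ∈ LinearMap.range (ac (aop arm J B g f (h.perp f hf)) s ^ j)) →
      (∀ v w, BC (FHS h hf) (A v) w = - BC (FHS h hf) v (A w)) →
      ∃ t, Lifts (ev (bS J g) _ t) A ∧
        mt J g (Pinf (aop arm J B g f (h.perp f hf))) t * f ∈ SSp arm J B N W g f (h.perp f hf)) :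
    False := by
  obtain ⟨X, hX0, hXs, hXr⟩ := TC.exists_skew_any (BC_NS (FHS h hf)) _
    (fun s v w => BC_sa (FHS h hf) s v w) l h1 hsum hl hfree hpos h333
  obtain ⟨t, ht1, ht2⟩ := hext X hXr hXs
  have h2 := symm_of_SSp h hNm hWm hf ht1 ht2
  apply hX0
  refine LinearMap.ext fun v => ?_
  refine (BC_NS (FHS h hf)).nd _ fun w => ?_
  have h3 := h2 v w
  rw [hXs v w] at h3 ⊢
  have h4 : (2 : K) * BC (FHS h hf) v (X w) = 0 := by linear_combination -h3
  rw [(mul_eq_zero.1 h4).resolve_left two_ne_zero, neg_zero]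

/-- the restriction of `a s` to `P'` -/
def ap {X : Type*} [AddCommGroup X] [Module K X] (a : Fin 3 → End K X) (s : Fin 3) :
    End K (Pinf a) :=
  (a s).restrict fun _ hv => Pinf_stable s hv

theorem ap_coe {X : Type*} [AddCommGroup X] [Module K X] (a : Fin 3 → End K X) (s : Fin 3)
    (p : Pinf a) : ((ap a s p : Pinf a) : X) = a s p := rfl

theorem mk_ap_pow {X : Type*} [AddCommGroup X] [Module K X] (a : Fin 3 → End K X) (s : Fin 3)
    (j : ℕ) (p : Pinf a) : (Submodule.Quotient.mk ((ap a s ^ j) p) : Cor a)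
      = (ac a s ^ j) (Submodule.Quotient.mk p) := by
  induction j with
  | zero => rfl
  | succ j ih =>
    rw [pow_succ', pow_succ', Module.End.mul_apply, Module.End.mul_apply, ← ih]
    rfl

/-- **END of the P-side of (t3), arm by arm**, in the interface of the span lemmas: `ev t` maps
`A_s^j P'` into `A_s^j P' + R'`. -/
theorem endP_arm [CharZero K] (h : Ctx k arm J B N W g)
    (hNm : ∀ F, (∀ F' ∈ N, pair J B F' F = 0) → F ∈ N)
    (hWm : ∀ F, (∀ F' ∈ W, pair J B F' F = 0) → F ∈ W) (hf : f ∈ N ⊓ W)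
    (l : Fin 3 → ℕ) (h1 : ∀ s, 1 ≤ l s) (hsum : ∑ s, (1 - 1 / (l s : ℚ)) = 2)
    (hl : ∀ s, ac (aop arm J B g f (h.perp f hf)) s ^ l s = 0)
    (hfree : ∀ s, l s * finrank K (LinearMap.ker (ac (aop arm J B g f (h.perp f hf)) s))
      = finrank K (Cor (aop arm J B g f (h.perp f hf))))
    (hpos : 0 < finrank K (Cor (aop arm J B g f (h.perp f hf))))
    (h333 : (∀ s, l s = 3) → 3 < finrank K (Cor (aop arm J B g f (h.perp f hf))))
    (hext : ∀ (s : Fin 3) (t : Pinf (aop arm J B g f (h.perp f hf)) ⊗[K]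
        Pinf (aop arm J B g f (h.perp f hf))),
      (∀ (j : ℕ) (p : Pinf (aop arm J B g f (h.perp f hf))),
        ∃ q r : Pinf (aop arm J B g f (h.perp f hf)),
          r ∈ TP (aop arm J B g f (h.perp f hf)) ∧
          ev (bS J g) _ t ((ap (aop arm J B g f (h.perp f hf)) s ^ j) p)
            = (ap (aop arm J B g f (h.perp f hf)) s ^ j) q + r) →
      mt J g (Pinf (aop arm J B g f (h.perp f hf))) t * f * E K arm s
        ∈ SSp arm J B N W g f (h.perp f hf)) :
    False := by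
  refine endP h hNm hWm hf l h1 hsum hl hfree hpos h333 fun A hA _ => ?_
  obtain ⟨t, ht⟩ := exists_lift (FHS h hf) A
  refine ⟨t, ht, ?_⟩
  have e1 : mt J g (Pinf (aop arm J B g f (h.perp f hf))) t * f
      = ∑ s, mt J g (Pinf (aop arm J B g f (h.perp f hf))) t * f * E K arm s := by
    rw [← Matrix.mul_sum, sum_E, Matrix.mul_one]
  rw [e1]
  refine Submodule.sum_mem _ fun s _ => hext s t fun j p => ?_
  have h2 := hA s j ((ac (aop arm J B g f (h.perp f hf)) s ^ j) (Submodule.Quotient.mk p))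
    ⟨_, rfl⟩
  obtain ⟨y, hy⟩ := h2
  obtain ⟨q, rfl⟩ := Submodule.Quotient.mk_surjective _ y
  refine ⟨q, ev (bS J g) _ t ((ap (aop arm J B g f (h.perp f hf)) s ^ j) p)
    - (ap (aop arm J B g f (h.perp f hf)) s ^ j) q, ?_, by abel⟩
  refine mem_TP.2 ((mk_eq_zero (a := aop arm J B g f (h.perp f hf))).1 ?_)
  rw [Submodule.Quotient.mk_sub, ht, mk_ap_pow, mk_ap_pow, ← hy, sub_self]

end Crest.Agent.R172.QEndP
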