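import Crest.Agent.R172.QTen
import Crest.Agent.R172.Qt12
import Crest.Agent.R172.QEndP
import Crest.Agent.R172.RJM

/-!
Row 172 (S0260), t3, P-side: the product formula in tensor form (`hrel` of `RJM.main`).
-/

set_option autoImplicit false
set_option linter.unusedSectionVars false
set_option linter.unusedFintypeInType false
set_option linter.unusedDecidableInType false
set_option maxHeartbeats 800000

namespace Crest.Agent.R172.QBr

open Matrix Module TensorProduct Crest.Agent.R172.FO Crest.Agent.R172.Qt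

variable {ι : Type*} [Fintype ι] [DecidableEq ι] {δ : Type*} [Fintype δ] [DecidableEq δ]
variable {k K : Type*} [Field k] [Field K] [Algebra k K]
variable {P1 P2 : Type*} [AddCommGroup P1] [Module K P1] [AddCommGroup P2] [Module K P2]

/-- `q_t(a, a') = (a a'ᵀ J) f E_t` -/
noncomputable def qf (arm : δ → Fin 3) (J : Matrix ι ι K) (f : Matrix ι δ K)
    (i1 : P1 →ₗ[K] (ι → K)) (t : Fin 3) : P1 →ₗ[K] P1 →ₗ[K] Matrix ι δ K :=
  LinearMap.mk₂ K (fun a a' => vecMulVec (i1 a) (i1 a') * J * f * E K arm t)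
    (fun a b p => by simp only [map_add, add_vecMulVec, Matrix.add_mul])
    (fun c a p => by simp only [map_smul, smul_vecMulVec, Matrix.smul_mul])
    (fun a p p' => by simp only [map_add, vecMulVec_add, Matrix.add_mul])
    (fun c a p => by simp only [map_smul, vecMulVec_smul, Matrix.smul_mul])

theorem qf_apply (arm : δ → Fin 3) (J : Matrix ι ι K) (f : Matrix ι δ K)
    (i1 : P1 →ₗ[K] (ι → K)) (t : Fin 3) (a a' : P1) :
    qf arm J f i1 t a a' = vecMulVec (i1 a) (i1 a') * J * f * E K arm t := rfl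

/-- `φ(a, a') = aᵀ J X a'` on `P2` -/
noncomputable def g2H (J X : Matrix ι ι K) (i2 : P2 →ₗ[K] (ι → K)) : P2 →ₗ[K] P2 →ₗ[K] K :=
  LinearMap.mk₂ K (fun a a' => i2 a ⬝ᵥ J *ᵥ (X *ᵥ i2 a'))
    (fun a b p => by simp only [map_add, add_dotProduct])
    (fun c a p => by simp only [map_smul, smul_dotProduct])
    (fun a p p' => by simp only [map_add, mulVec_add, dotProduct_add])
    (fun c a p => by simp only [map_smul, mulVec_smul, dotProduct_smul])

theorem g2H_apply (J X : Matrix ι ι K) (i2 : P2 →ₗ[K] (ι → K)) (a a' : P2) :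
    g2H J X i2 a a' = i2 a ⬝ᵥ J *ᵥ (X *ᵥ i2 a') := rfl

theorem vmv_add_left' (a b : ι → K) (v : ι → K) :
    vecMulVec (a + b) v = vecMulVec a v + vecMulVec b v := add_vecMulVec a b v

theorem mul_vmv {γ : Type*} (F : Matrix ι ι K) (a : ι → K) (b : γ → K) :
    F * vecMulVec a b = vecMulVec (F *ᵥ a) b := by
  ext i j
  simp [Matrix.mul_apply, vecMulVec_apply, Matrix.mulVec, dotProduct, Finset.sum_mul, mul_assoc]

theorem gmul_vmv {γ : Type*} (g : Matrix ι δ K) (u : δ → K) (b : γ → K) :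
    vecMulVec (g *ᵥ u) b = g * vecMulVec u b := by
  ext i j
  simp [Matrix.mul_apply, vecMulVec_apply, Matrix.mulVec, dotProduct, Finset.sum_mul, mul_assoc]

variable {arm : δ → Fin 3} {J : Matrix ι ι K} {B : Matrix δ δ K} {g f : Matrix ι δ K}
  {X : Matrix ι ι K} {A : Fin 3 → End K P1} {Bo : Fin 3 → End K P2}
  {i1 : P1 →ₗ[K] (ι → K)} {i2 : P2 →ₗ[K] (ι → K)}

namespace Side

variable (h : Side arm J B g f X A Bo i1 i2)

include h

/-- `(i2 a)ᵀ J f = 0` -/
theorem i2_Jf (a : P2) : (i2 a) ᵥ* (J * f) = 0 := by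
  obtain ⟨u, hu⟩ := h.J2 a
  rw [hu, ← vecMul_transpose, vecMul_vecMul, ← Matrix.mul_assoc, h.gf, vecMul_zero]

theorem g_Jf (u : δ → K) : (g *ᵥ u) ᵥ* (J * f) = 0 := by
  rw [← vecMul_transpose, vecMul_vecMul, ← Matrix.mul_assoc, h.gf, vecMul_zero]

theorem ten_tmul_f (a : P2) (p : P1) : ten J i1 i2 (a ⊗ₜ[K] p) * f
    = vecMulVec (i2 a) (i1 p) * J * f := by
  rw [ten_tmul, Matrix.sub_mul]
  have : vecMulVec (i1 p) (i2 a) * J * f = 0 := by
    rw [Matrix.mul_assoc, vmv_mul, h.i2_Jf]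
    ext i j
    simp [vecMulVec_apply]
  rw [this, sub_zero]

/-- `Z2 R f E_t = -c2 q_t(b' ⊗ 1)(x) + g C` -/
theorem partA {Z2 : Matrix ι ι K} {c2 : K} {b' : P2 →ₗ[K] P1}
    (hb' : ∀ q, ∃ u, Z2 *ᵥ (i2 q) = -(c2 • i1 (b' q)) + g *ᵥ u) (t : Fin 3)
    (x : P2 ⊗[K] P1) : ∃ C : Matrix δ δ K,
      Z2 * ten J i1 i2 x * f * E K arm t
        = -(c2 • TensorProduct.lift ((qf arm J f i1 t) ∘ₗ b') x) + g * C := by
  induction x using TensorProduct.induction_on with
  | zero => exact ⟨0, by simp⟩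
  | tmul a p =>
    obtain ⟨u, hu⟩ := hb' a
    refine ⟨vecMulVec u (i1 p) * J * f * E K arm t, ?_⟩
    rw [Matrix.mul_assoc Z2, h.ten_tmul_f, TensorProduct.lift.tmul, LinearMap.comp_apply, qf_apply]
    have e1 : Z2 * (vecMulVec (i2 a) (i1 p) * J * f) * E K arm t
        = Z2 * vecMulVec (i2 a) (i1 p) * J * f * E K arm t := by simp only [Matrix.mul_assoc]
    rw [e1, mul_vmv, hu, vmv_add_left', gmul_vmv, neg_vecMulVec, smul_vecMulVec]
    simp only [Matrix.add_mul, Matrix.neg_mul, Matrix.smul_mul, Matrix.mul_assoc]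
  | add x y hx hy =>
    obtain ⟨C, hC⟩ := hx
    obtain ⟨C', hC'⟩ := hy
    refine ⟨C + C', ?_⟩
    rw [map_add, map_add, Matrix.mul_add, Matrix.add_mul, Matrix.add_mul, hC, hC', Matrix.mul_add,
      smul_add]
    abel

/-- `R Z f E_t = -c q_t^flip(b ⊗ 1)(x) + g C` -/
theorem partB {Z : Matrix ι ι K} (hZ : Skw J Z) {c : K} {b : P2 →ₗ[K] P1}
    (hb : ∀ q, ∃ u, Z *ᵥ (i2 q) = -(c • i1 (b q)) + g *ᵥ u) (t : Fin 3)
    (x : P2 ⊗[K] P1) : ∃ C : Matrix δ δ K,
      ten J i1 i2 x * Z * f * E K arm t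
        = -(c • TensorProduct.lift ((qf arm J f i1 t).flip ∘ₗ b) x) + g * C := by
  induction x using TensorProduct.induction_on with
  | zero => exact ⟨0, by simp⟩
  | tmul a p =>
    obtain ⟨u, hu⟩ := hb a
    obtain ⟨ua, hua⟩ := h.J2 a
    refine ⟨vecMulVec ua (i1 p) * J * Z * f * E K arm t, ?_⟩
    rw [TensorProduct.lift.tmul, LinearMap.comp_apply, LinearMap.flip_apply, qf_apply, ten_tmul]
    -- `(i2 a)ᵀ J Z f = c (i1 (b a))ᵀ J f`
    have e0 : (i2 a) ᵥ* (J * Z * f) = c • ((i1 (b a)) ᵥ* (J * f)) := by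
      have e1 : J * Z = - (Zᵀ * J) := by rw [hZ.eq, neg_neg]
      rw [e1, Matrix.neg_mul, vecMul_neg, Matrix.mul_assoc, ← vecMul_vecMul, vecMul_transpose, hu,
        add_vecMul, h.g_Jf, add_zero, neg_vecMul, smul_vecMul, neg_neg]
    have e2 : vecMulVec (i1 p) (i2 a) * J * Z * f
        = c • (vecMulVec (i1 p) (i1 (b a)) * J * f) := by
      have : vecMulVec (i1 p) (i2 a) * J * Z * f = vecMulVec (i1 p) (i2 a) * (J * Z * f) := by
        simp only [Matrix.mul_assoc]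
      rw [this, vmv_mul, e0, vecMulVec_smul, ← vmv_mul]
      simp only [Matrix.mul_assoc]
    have e3 : vecMulVec (i2 a) (i1 p) * J * Z * f * E K arm t
        = g * (vecMulVec ua (i1 p) * J * Z * f * E K arm t) := by
      rw [hua, gmul_vmv]; simp only [Matrix.mul_assoc]
    rw [Matrix.sub_mul, Matrix.sub_mul, Matrix.sub_mul, e2, e3, Matrix.smul_mul]
    abel
  | add x y hx hy =>
    obtain ⟨C, hC⟩ := hx
    obtain ⟨C', hC'⟩ := hy
    refine ⟨C + C', ?_⟩
    rw [map_add, map_add, Matrix.add_mul, Matrix.add_mul, Matrix.add_mul, hC, hC', Matrix.mul_add,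
      smul_add]
    abel

/-- value of `ten y` modulo `S` -/
theorem ten_val (y : P2 ⊗[K] P1) (a : P2) :
    ∃ u, ten J i1 i2 y *ᵥ (X *ᵥ i2 a) = -(i1 (RJM.ev (g2H J X i2) y a)) + g *ᵥ u := by
  induction y using TensorProduct.induction_on with
  | zero => exact ⟨0, by simp⟩
  | tmul a' p' =>
    obtain ⟨u, hu⟩ := h.J2 a'
    refine ⟨(i1 p' ⬝ᵥ J *ᵥ (X *ᵥ i2 a)) • u, ?_⟩
    rw [ten_tmul, sub_mulVec, ← mulVec_mulVec, ← mulVec_mulVec, vmv_mulVec, vmv_mulVec,
      RJM.ev_tmul, g2H_apply, map_smul, mulVec_smul, ← hu]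
    abel
  | add x y hx hy =>
    obtain ⟨u, hu⟩ := hx
    obtain ⟨u', hu'⟩ := hy
    refine ⟨u + u', ?_⟩
    rw [map_add, add_mulVec, hu, hu', map_add, LinearMap.add_apply, map_add, mulVec_add]
    abel

/-- `R2 X R f E_t = - q_t(ev x' ⊗ 1)(x) + g C` -/
theorem partC (t : Fin 3) (x y : P2 ⊗[K] P1) : ∃ C : Matrix δ δ K,
      ten J i1 i2 y * X * ten J i1 i2 x * f * E K arm t
        = -(TensorProduct.lift ((qf arm J f i1 t) ∘ₗ (RJM.ev (g2H J X i2) y)) x) + g * C := by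
  induction x using TensorProduct.induction_on with
  | zero => exact ⟨0, by simp⟩
  | tmul a p =>
    obtain ⟨u, hu⟩ := h.ten_val y a
    refine ⟨vecMulVec u (i1 p) * J * f * E K arm t, ?_⟩
    rw [TensorProduct.lift.tmul, LinearMap.comp_apply, qf_apply]
    have e1 : ten J i1 i2 y * X * ten J i1 i2 (a ⊗ₜ[K] p) * f * E K arm t
        = ten J i1 i2 y * (X * vecMulVec (i2 a) (i1 p)) * J * f * E K arm t := by
      have : ten J i1 i2 y * X * ten J i1 i2 (a ⊗ₜ[K] p) * f * E K arm t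
          = ten J i1 i2 y * X * (ten J i1 i2 (a ⊗ₜ[K] p) * f) * E K arm t := by
        simp only [Matrix.mul_assoc]
      rw [this, h.ten_tmul_f]
      simp only [Matrix.mul_assoc]
    rw [e1, mul_vmv, mul_vmv, hu, vmv_add_left', gmul_vmv, neg_vecMulVec]
    simp only [Matrix.add_mul, Matrix.neg_mul, Matrix.mul_assoc]
  | add x y hx hy =>
    obtain ⟨C, hC⟩ := hx
    obtain ⟨C', hC'⟩ := hy
    refine ⟨C + C', ?_⟩
    rw [map_add, map_add, Matrix.mul_add, Matrix.add_mul, Matrix.add_mul, hC, hC', Matrix.mul_add]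
    abel

/-- **the product in tensor form** (no `Fam` needed) -/
theorem prod_tensor {Z Z2 : Matrix ι ι K} (hZ : Skw J Z) {c c2 : K} (hc : c ≠ 0) (hc2 : c2 ≠ 0)
    {b b' : P2 →ₗ[K] P1}
    (hb : ∀ q, ∃ u, Z *ᵥ (i2 q) = -(c • i1 (b q)) + g *ᵥ u)
    (hb' : ∀ q, ∃ u, Z2 *ᵥ (i2 q) = -(c2 • i1 (b' q)) + g *ᵥ u)
    {u u2 : Matrix ι ι K} (hu : Z = c • u) (hu2 : Z2 = c2 • u2)
    (x x' : Fin 3 → P2 ⊗[K] P1) : ∃ C : Matrix δ δ K,
    ∑ t, ((1 : K) • TensorProduct.lift ((qf arm J f i1 t) ∘ₗ b') (x t)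
        + (-1 : K) • TensorProduct.lift ((qf arm J f i1 t).flip ∘ₗ b) (x' t)
        + (-1 : K) • TensorProduct.lift ((qf arm J f i1 t) ∘ₗ (RJM.ev (g2H J X i2) (x' t))) (x t))
      = act arm (fun s => ten J i1 i2 (x' s) * X * ten J i1 i2 (x s)
          + ten J i1 i2 (x' s) * u - u2 * ten J i1 i2 (x s)) f + g * C := by
  choose CA hCA using fun t => h.partA hb' t (x t)
  choose CB hCB using fun t => h.partB hZ hb t (x' t)
  choose CC hCC using fun t => h.partC t (x t) (x' t)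
  refine ⟨∑ t, (c2⁻¹ • CA t - c⁻¹ • CB t - CC t), ?_⟩
  unfold act
  rw [Matrix.mul_sum, ← Finset.sum_add_distrib]
  refine Finset.sum_congr rfl fun t _ => ?_
  have hA : u2 * ten J i1 i2 (x t) * f * E K arm t
      = -(TensorProduct.lift ((qf arm J f i1 t) ∘ₗ b') (x t)) + c2⁻¹ • (g * CA t) := by
    have h1 := hCA t
    rw [hu2, Matrix.smul_mul, Matrix.smul_mul, Matrix.smul_mul] at h1
    have h2 := congrArg (fun M => c2⁻¹ • M) h1
    simp only [smul_add, smul_neg, smul_smul, inv_mul_cancel₀ hc2, one_smul] at h2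
    exact h2
  have hB : ten J i1 i2 (x' t) * u * f * E K arm t
      = -(TensorProduct.lift ((qf arm J f i1 t).flip ∘ₗ b) (x' t)) + c⁻¹ • (g * CB t) := by
    have h1 := hCB t
    rw [hu, Matrix.mul_smul, Matrix.smul_mul, Matrix.smul_mul] at h1
    have h2 := congrArg (fun M => c⁻¹ • M) h1
    simp only [smul_add, smul_neg, smul_smul, inv_mul_cancel₀ hc, one_smul] at h2
    exact h2
  rw [Matrix.sub_mul, Matrix.sub_mul, Matrix.add_mul, Matrix.add_mul, hA, hB, hCC t,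
    Matrix.mul_sub, Matrix.mul_sub, Matrix.mul_smul, Matrix.mul_smul, one_smul, neg_smul,
    neg_smul, one_smul, one_smul]
  abel

end Side

end Crest.Agent.R172.QBr
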