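import Crest.Agent.R172.QEndP2
import Crest.Agent.R172.Qt12

/-!
Row 172 (S0260): the product of two gluing families on the P-side of (t3) lies in `SSp`.
-/

set_option autoImplicit false
set_option linter.unusedSectionVars false
set_option linter.unusedFintypeInType false
set_option linter.unusedDecidableInType false

namespace Crest.Agent.R172.QEndP

open Matrix Module TensorProduct Crest.Agent.R172.FO Crest.Agent.R172.Qt
open Crest.Agent.R172.Mix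

variable {ι : Type*} [Fintype ι] [DecidableEq ι] {δ : Type*} [Fintype δ] [DecidableEq δ]
variable {k K : Type*} [Field k] [Field K] [Algebra k K]
variable {arm : δ → Fin 3} {J : Matrix ι ι K} {B : Matrix δ δ K}
  {N W : Submodule K (Matrix ι δ K)} {g f : Matrix ι δ K}

theorem colMat_mul {α β : Type*} [Fintype β] (A : Matrix α β K) (v : β → K) (γ : Type*) :
    A * (Matrix.of fun i (_ : γ) => v i) = Matrix.of fun i (_ : γ) => (A *ᵥ v) i := by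
  ext i j
  simp [Matrix.mul_apply, Matrix.mulVec, dotProduct]

/-- the correction `v0 g` of `prodP` in vector form -/
theorem corr_v0_vec (h : Ctx k arm J B N W g) (hf : f ∈ N ⊓ W) (v0 : Matrix ι ι K) (s : Fin 3)
    {v : ι → K} (hv : (gᵀ * J) *ᵥ v = 0) : (v0 * g * E K arm s * B * fᵀ * J) *ᵥ v = 0 := by
  have h1 := h.corr_v0 hf v0 s (v := Matrix.of fun i (_ : Unit) => v i) (by
    rw [colMat_mul, hv]; rfl)
  rw [colMat_mul] at h1
  ext i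
  exact congrFun (congrFun h1 i) ()

/-- the correction `Z2 e` of `prodP` in vector form -/
theorem corr_e_vec (h : Ctx k arm J B N W g)
    {p p1 pm p3 p4 : Matrix ι ι K × (Fin 3 → Matrix ι ι K)}
    {R : Fin 3 → Matrix ι ι K} {Z : Matrix ι ι K} {Q : Fin 3 → Matrix ι ι K}
    {e kk : Matrix ι δ K} (hp : Skw J p.1)
    (hF : Fam arm J B N W g f p R Z Q e p1 pm p3 p4 kk)
    {Z2 : Matrix ι ι K} (hZ2 : Skw J Z2) {v : ι → K} {c : δ → K}
    (hv : (gᵀ * J) *ᵥ (Z2 *ᵥ v) = (gᵀ * J) *ᵥ (p.1 *ᵥ (g *ᵥ c)))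
    (s : Fin 3) {v' : ι → K} (hv' : (gᵀ * J) *ᵥ v' = 0) :
    v ⬝ᵥ ((J * (Z2 * e) * E K arm s * B * fᵀ * J) *ᵥ v')
      = (Z *ᵥ (g *ᵥ c)) ⬝ᵥ (J *ᵥ ((M arm B s f f * J) *ᵥ v')) := by
  rcases isEmpty_or_nonempty ι with hι | ⟨⟨i0⟩⟩
  · simp [dotProduct]
  have h1 := hF.corr_e h.data.J_symm hp hZ2 (v := Matrix.of fun i (_ : Unit) => v i)
    (C := Matrix.of fun i (_ : Unit) => c i) (by
      rw [colMat_mul, colMat_mul, colMat_mul, colMat_mul, colMat_mul, hv]) s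
    (v' := Matrix.of fun i (_ : ι) => v' i) (by
      rw [colMat_mul, hv']; rfl)
  rw [colMat_mul (Z2 * e * E K arm s * B * fᵀ * J), colMat_mul g, colMat_mul Z,
    colMat_mul (M arm B s f f * J)] at h1
  have h2 := congrFun (congrFun h1 ()) i0
  have e1 : ∀ (x : ι → K) (y : ι → K),
      ((Matrix.of fun i (_ : Unit) => x i)ᵀ * J * (Matrix.of fun i (_ : ι) => y i)) () i0
        = x ⬝ᵥ (J *ᵥ y) := by
    intro x y
    rw [Matrix.mul_assoc, colMat_mul]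
    simp [Matrix.mul_apply, dotProduct]
  rw [e1, e1] at h2
  have e2 : (J * (Z2 * e) * E K arm s * B * fᵀ * J) *ᵥ v'
      = J *ᵥ ((Z2 * e * E K arm s * B * fᵀ * J) *ᵥ v') := by
    rw [mulVec_mulVec]; simp only [Matrix.mul_assoc]
  rw [e2]
  exact h2

/-- **the corrections of the product formula lie in `SSp`** -/
theorem corr_mem_SSp (h : Ctx k arm J B N W g) (hf : f ∈ N ⊓ W)
    {p p1 pm p3 p4 : Matrix ι ι K × (Fin 3 → Matrix ι ι K)}
    {R : Fin 3 → Matrix ι ι K} {Z Z2 : Matrix ι ι K} {Q : Fin 3 → Matrix ι ι K}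
    {e kk : Matrix ι δ K} (hp : Skw J p.1)
    (hF : Fam arm J B N W g f p R Z Q e p1 pm p3 p4 kk)
    (hZ2 : Skw J Z2) (hZ2g : gᵀ * J * (Z2 * g) = 0)
    {c c2 : K} (hc : c ≠ 0) (hc2 : c2 ≠ 0) {X0 u u2 : Matrix ι ι K} (hpX : p.1 = c • X0)
    (hu : Z = c • u) (hu2 : Z2 = c2 • u2)
    (hb : ∀ v : Pinf (aop arm J B g f (h.perp f hf)), ∃ b : δ → K,
      (gᵀ * J) *ᵥ (u2 *ᵥ ((v : Sp J g) : ι → K)) = (gᵀ * J) *ᵥ (X0 *ᵥ (g *ᵥ b)) ∧
      ∀ (w : Pinf (aop arm J B g f (h.perp f hf))) (s : Fin 3),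
        (u *ᵥ (g *ᵥ b)) ⬝ᵥ (J *ᵥ ((M arm B s f f * J) *ᵥ ((w : Sp J g) : ι → K))) = 0)
    {v0 : Matrix ι ι K} (hv0 : gᵀ * J * (v0 * g) = 0) {n : Matrix ι δ K} (hn : n ∈ N)
    {C : Matrix δ δ K} {Y : Matrix ι δ K} (hY : Y = v0 * g - u2 * e + n + g * C) :
    Y ∈ SSp arm J B N W g f (h.perp f hf) := by
  obtain ⟨Ce, hCe⟩ := hF.eS
  have hZ2g : gᵀ * J * (u2 * e) = 0 := by
    rw [hu2, Matrix.smul_mul, Matrix.mul_smul] at hZ2g
    have h2 : gᵀ * J * (u2 * g) = 0 := (smul_eq_zero.1 hZ2g).resolve_left hc2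
    rw [hCe, ← Matrix.mul_assoc u2, ← Matrix.mul_assoc, h2, Matrix.zero_mul]
  refine ⟨v0 * g - u2 * e, W.sub_mem (h.data.W_left _ h.memW _) (h.data.W_left _ hF.eW _),
    by rw [Matrix.mul_sub, hv0, hZ2g, sub_zero], ?_, C, ?_⟩
  · intro v w s
    obtain ⟨b, hb1, hb2⟩ := hb v
    have e1 : J * (v0 * g - u2 * e) * E K arm s * B * fᵀ * J
        = J * (v0 * g * E K arm s * B * fᵀ * J) - J * (u2 * e) * E K arm s * B * fᵀ * J := by
      simp only [Matrix.mul_sub, Matrix.sub_mul, Matrix.mul_assoc]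
    have e3 := corr_e_vec h hp hF hZ2 (v := ((v : Sp J g) : ι → K))
      (c := (c⁻¹ * c2) • b) (by
        rw [hu2, hpX, mulVec_smul g, smul_mulVec, smul_mulVec, mulVec_smul, hb1]
        rw [mulVec_smul X0, mulVec_smul, mulVec_smul, smul_smul, ← mul_assoc,
          mul_inv_cancel₀ hc, one_mul]) s (v' := ((w : Sp J g) : ι → K)) (w : Sp J g).2
    have e4 : (Z *ᵥ (g *ᵥ ((c⁻¹ * c2) • b))) ⬝ᵥ
        (J *ᵥ ((M arm B s f f * J) *ᵥ ((w : Sp J g) : ι → K))) = 0 := by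
      rw [hu, mulVec_smul, mulVec_smul, smul_mulVec, smul_smul, smul_dotProduct, hb2 w s,
        smul_zero]
    rw [e4] at e3
    have e5 : J * (Z2 * e) * E K arm s * B * fᵀ * J
        = c2 • (J * (u2 * e) * E K arm s * B * fᵀ * J) := by
      rw [hu2]; simp only [Matrix.smul_mul, Matrix.mul_smul]
    rw [e5, smul_mulVec, dotProduct_smul, smul_eq_mul] at e3
    rw [e1, sub_mulVec, dotProduct_sub, ← mulVec_mulVec,
      corr_v0_vec h hf v0 s (w : Sp J g).2, mulVec_zero, dotProduct_zero,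
      (mul_eq_zero.1 e3).resolve_left hc2, sub_zero]
  · rw [hY]
    have : v0 * g - u2 * e + n + g * C - (v0 * g - u2 * e) - g * C = n := by abel
    rw [this]
    exact hn

/-- **the product of two families lies in `SSp`** -/
theorem prodP_mem_SSp (h : Ctx k arm J B N W g) {f2 : Matrix ι δ K} (hf : f ∈ N ⊓ W)
    {p p1 pm p3 p4 p2 q1 qm q3 q4 : Matrix ι ι K × (Fin 3 → Matrix ι ι K)}
    {R R2 : Fin 3 → Matrix ι ι K} {Z Z2 : Matrix ι ι K} {Q Q2 : Fin 3 → Matrix ι ι K}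
    {e kk e2 kk2 : Matrix ι δ K} (hp : Skw J p.1)
    (hF : Fam arm J B N W g f p R Z Q e p1 pm p3 p4 kk)
    (hF2 : Fam arm J B N W g f2 p2 R2 Z2 Q2 e2 q1 qm q3 q4 kk2)
    (hR : ∀ s, Skw J (R s)) (hRg : ∀ s, R s * g = 0)
    (hRS : ∀ s, ∀ v : Matrix ι ι K, gᵀ * J * v = 0 → ∃ C : Matrix δ ι K, R s * v = g * C)
    (hR2 : ∀ s, Skw J (R2 s)) (hR2g : ∀ s, R2 s * g = 0)
    (hR2S : ∀ s, ∀ v : Matrix ι ι K, gᵀ * J * v = 0 → ∃ C : Matrix δ ι K, R2 s * v = g * C)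
    (hR2f : ∀ s, ∃ C C' : Matrix δ ι K, R2 s = f * C + g * C')
    {c c2 : K} (hc : c ≠ 0) (hc2 : c2 ≠ 0) {X0 u u2 : Matrix ι ι K} (hpX : p.1 = c • X0)
    (hp2X : p2.1 = c2 • X0) (hu : Z = c • u) (hu2 : Z2 = c2 • u2)
    (hb : ∀ v : Pinf (aop arm J B g f (h.perp f hf)), ∃ b : δ → K,
      (gᵀ * J) *ᵥ (u2 *ᵥ ((v : Sp J g) : ι → K)) = (gᵀ * J) *ᵥ (X0 *ᵥ (g *ᵥ b)) ∧
      ∀ (w : Pinf (aop arm J B g f (h.perp f hf))) (s : Fin 3),
        (u *ᵥ (g *ᵥ b)) ⬝ᵥ (J *ᵥ ((M arm B s f f * J) *ᵥ ((w : Sp J g) : ι → K))) = 0) :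
    act arm (fun s => R2 s * X0 * R s + R2 s * u - u2 * R s) f
      ∈ SSp arm J B N W g f (h.perp f hf) := by
  obtain ⟨v0, hv0, n, hn, C, hprod⟩ :=
    h.prodP hf hF hF2 hR hRg hRS hR2 hR2g hR2S hR2f hc hc2 hpX hp2X hu hu2
  exact corr_mem_SSp h hf hp hF hF2.skw hF2.Zg hc hc2 hpX hu hu2 hb hv0 hn hprod

end Crest.Agent.R172.QEndP
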