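import Crest.Agent.R172.QCore5
import Crest.Agent.R172.QBr
import Crest.Agent.R172.QSS
import Crest.Agent.R172.QHrelP
import Crest.Agent.R172.CorU
import Crest.Agent.R172.QEndP2

/-!
Row 172 (S0260), part Q, P-side (helper28): second copy of the P-side bridge, on the quotient
`P1 = P'/(P' ∩ S)` (`QC.exists_sideP`), `P2 = P_S`.
-/

set_option autoImplicit false
set_option linter.unusedSectionVars false
set_option linter.unusedFintypeInType false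
set_option linter.unusedDecidableInType false
set_option maxHeartbeats 800000

namespace Crest.Agent.R172.QC

open Matrix Module TensorProduct Crest.Agent.R172.FO Crest.Agent.R172.Qt
open Crest.Agent.R172.St (T)
open Crest.Agent.R172.Mix
open Crest.Agent.R172.QBr (ten g2 ev1 Rad Inter qf)
open Crest.Agent.R172.QEndP (SSp mt)

/-! ### `RJM.main` for two halves -/

section rjm

variable {K : Type*} [Field K] {P1 P2 : Type*} [AddCommGroup P1] [Module K P1]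
  [AddCommGroup P2] [Module K P2]
variable {A : Fin 3 → End K P1} {R1 : Submodule K P1} {w : P1 →ₗ[K] P1 →ₗ[K] K}
  {e e₂ : K} {l : Fin 3 → ℕ} {d : ℕ}
variable {B : Fin 3 → End K P2} {R2 : Submodule K P2} {g : P2 →ₗ[K] P2 →ₗ[K] K}
  {e' e₂' : K} {d' : ℕ}

/-- change the form by a nonzero factor -/
theorem Half.congr (h : Half A R1 w e e₂ l d) {w' : P1 →ₗ[K] P1 →ₗ[K] K} {c : K} (hc : c ≠ 0)
    (hw : ∀ x y, w' x y = c * w x y) : Half A R1 w' e e₂ l d where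
  side := h.side
  sum := h.sum
  symm x y := by rw [hw, hw, h.symm]; ring
  sq := h.sq
  adj s x y := by rw [hw, hw, h.adj]; ring
  sq₂ := h.sq₂
  rad x := by
    rw [h.rad]
    refine forall_congr' fun y => ?_
    rw [hw]
    constructor
    · intro h0; rw [h0, mul_zero]
    · intro h0; exact (mul_eq_zero.1 h0).resolve_left hc
  q := h.q
  fin := h.fin
  S2 := h.S2
  pos := h.pos

/-- **`RJM.main` for two halves** -/
theorem Half.rjm (h1 : Half A R1 w e e₂ l d) (h2 : Half B R2 g e' e₂' l d')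
    {E : Type*} [AddCommGroup E] [Module K E]
    {Λ : Set K} (hΛ : Λ.Infinite) (h0 : (0 : K) ∉ Λ)
    (q : Fin 3 → P1 →ₗ[K] P1 →ₗ[K] E) (Q : Submodule K E) {a1 a2 a3 : K}
    (ha1 : a1 ≠ 0) (ha2 : a2 ≠ 0) (ha3 : a3 ≠ 0)
    (hex : ∀ c ∈ Λ, ∀ x, RJM.Ex A B R1 R2 c x → ∃ b, RJM.Cor A B R1 g e₂' c x b)
    (hrel : ∀ c ∈ Λ, ∀ c' ∈ Λ, ∀ x b x' b', RJM.Ex A B R1 R2 c x → RJM.Cor A B R1 g e₂' c x b →
      RJM.Ex A B R1 R2 c' x' → RJM.Cor A B R1 g e₂' c' x' b' →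
      ∑ t, (a1 • TensorProduct.lift ((q t) ∘ₗ b') (x t)
        + a2 • TensorProduct.lift ((q t).flip ∘ₗ b) (x' t)
        + a3 • TensorProduct.lift ((q t) ∘ₗ (RJM.ev g (x' t))) (x t)) ∈ Q) :
    (∀ t, ∀ r ∈ R1, ∀ p, q t r p ∈ Q ∧ q t p r ∈ Q) ∧
      (∀ s i j, i + j + 1 = l s → ∀ p p', q s ((A s ^ i) p) ((A s ^ j) p') ∈ Q) := by
  obtain ⟨m1, hm1⟩ := h1.side.kills_le
  obtain ⟨m2, hm2⟩ := h2.side.kills_le
  exact RJM.main h1.side.top h2.side.top h1.side.stable h2.side.stable (m := max m1 m2)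
    (hm1 _ (le_max_left _ _)) (hm2 _ (le_max_right _ _)) h1.side.one_le h1.side.pow h2.side.pow
    h1.side.gen h2.side.gen h2.e₂_ne h2.rad_left h2.rad_right h2.adj h2.gtop hΛ h0 q Q ha1 ha2 ha3
    hex hrel

end rjm

section conc

variable {ι : Type*} [Fintype ι] [DecidableEq ι] {δ : Type*} [Fintype δ] [DecidableEq δ]
variable {k K : Type*} [Field k] [Field K] [Algebra k K]
variable {P1 P2 : Type*} [AddCommGroup P1] [Module K P1] [FiniteDimensional K P1]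
  [AddCommGroup P2] [Module K P2] [FiniteDimensional K P2]
variable {arm : δ → Fin 3} {J : Matrix ι ι K} {B : Matrix δ δ K}
  {N W : Submodule K (Matrix ι δ K)} {g f : Matrix ι δ K}
  {A : Fin 3 → End K P1} {Bo : Fin 3 → End K P2}
  {i1 : P1 →ₗ[K] (ι → K)} {i2 : P2 →ₗ[K] (ι → K)} {R1 : Submodule K P1} {R2 : Submodule K P2}

theorem g2_eq {X : Matrix ι ι K} (hJ : Jᵀ = J) : g2 J X i2 = QBr.g2H J X i2 := by
  apply LinearMap.ext; intro a
  apply LinearMap.ext; intro b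
  rw [QBr.g2_apply, QBr.g2H_apply, dot_mulVec_symm, hJ]

/-- `c • p ∈ NN` with its gluing family -/
theorem fam_of (h : Ctx k arm J B N W g)
    (hNm : ∀ F, (∀ F' ∈ N, pair J B F' F = 0) → F ∈ N)
    (hWm : ∀ F, (∀ F' ∈ W, pair J B F' F = 0) → F ∈ W)
    (hc : Glue k arm J N W g) (hf : f ∈ N ⊓ W)
    {p : Matrix ι ι K × (Fin 3 → Matrix ι ι K)} (hp : p ∈ NN arm J N g)
    (hp0 : gᵀ * J * (p.1 * f) = 0) (hS : QBr.Side arm J B g f p.1 A Bo i1 i2) {c : K}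
    {x : Fin 3 → P2 ⊗[K] P1} (hx : RJM.Ex A Bo R1 R2 c x) :
    ∃ (Z : Matrix ι ι K) (Q : Fin 3 → Matrix ι ι K) (e : Matrix ι δ K)
      (p1 pm p3 p4 : Matrix ι ι K × (Fin 3 → Matrix ι ι K)) (kk : Matrix ι δ K),
      Fam arm J B N W g f (c • p) (fun s => ten J i1 i2 (x s)) Z Q e p1 pm p3 p4 kk := by
  refine h.fam hNm hWm hc hf ((NN arm J N g).smul_mem c hp) ?_
    (fun s => QBr.ten_skw h.data.J_symm _) (fun s => hS.ten_g _) (fun s v hv => hS.ten_S _ v hv)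
    (fun v hv => hS.hsum hx.sum v hv)
  rw [Prod.smul_fst, Matrix.smul_mul, Matrix.mul_smul, hp0, smul_zero]

/-- the correction of an exact family, from its gluing family -/
theorem hex28 {X : Matrix ι ι K} (hS : QBr.Side arm J B g f X A Bo i1 i2)
    (hi0 : ∀ p, (∃ u, i1 p = g *ᵥ u) → p = 0)
    (hR1 : ∀ t, ∀ r ∈ R1, A t r ∈ R1) (hgR : ∀ r ∈ R2, ∀ p, g2 J X i2 r p = 0)
    {c : K} (hc : c ≠ 0) (hcx : c⁻¹ ∉ hS.Exc (QBr.Side.Q1 g i1 R1) (hS.Q1_stable hR1))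
    {x : Fin 3 → P2 ⊗[K] P1} (hx : RJM.Ex A Bo R1 R2 c x)
    {Z : Matrix ι ι K} (hZ : Skw J Z)
    (hφ : ∀ s, Inter arm J B g f X c (ten J i1 i2 (x s)) Z s) :
    ∃ b, RJM.Cor A Bo R1 (g2 J X i2) (-1) c x b ∧
      ∀ p, ∃ u, Z *ᵥ i2 p = -(c • i1 (b p)) + g *ᵥ u := by
  have h1 := hS.val1 hc hR1 hgR hcx (fun t => hx.arm t) hZ hφ
  obtain ⟨b, hb1, hb2⟩ := QBr.Side.exists_b hc h1
  refine ⟨b, ⟨hb1, fun t p => ?_⟩, hb2⟩
  have h2 := hi0 _ (hS.cor_of hc hZ (hφ t) hb2 p)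
  rw [sub_eq_zero] at h2
  rw [neg_one_mul, neg_smul, neg_smul, sub_neg_eq_add, sub_neg_eq_add]
  exact h2

/-- columns of `ten` in `im f + im g` -/
theorem ten_fg {X : Matrix ι ι K} (hS : QBr.Side arm J B g f X A Bo i1 i2)
    (hif : ∀ p, ∃ u u', i1 p = f *ᵥ u + g *ᵥ u') (x : P2 ⊗[K] P1) :
    ∃ C C' : Matrix δ ι K, ten J i1 i2 x = f * C + g * C' := by
  have hcol : ∀ (F : Matrix ι δ K) (u : δ → K) (z : ι → K),
      vecMulVec (F *ᵥ u) z = F * vecMulVec u z := by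
    intro F u z
    ext i j
    simp [Matrix.mul_apply, vecMulVec_apply, mulVec, dotProduct, Finset.sum_mul, mul_assoc]
  induction x using TensorProduct.induction_on with
  | zero => exact ⟨0, 0, by simp⟩
  | tmul a b =>
    obtain ⟨u, hu⟩ := hS.J2 a
    obtain ⟨v, v', hv⟩ := hif b
    refine ⟨-(vecMulVec v (i2 a) * J), vecMulVec u (i1 b) * J - vecMulVec v' (i2 a) * J, ?_⟩
    rw [QBr.ten_tmul, hv, add_vecMulVec, hcol, hcol, ← hv, Matrix.mul_sub, Matrix.mul_neg,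
      ← Matrix.mul_assoc, ← Matrix.mul_assoc, ← Matrix.mul_assoc]
    conv_lhs => rw [show vecMulVec (i2 a) (i1 b) = g * vecMulVec u (i1 b) by rw [hu, hcol]]
    rw [Matrix.add_mul]
    abel
  | add x y hx hy =>
    obtain ⟨C, C', h1⟩ := hx
    obtain ⟨D, D', h2⟩ := hy
    exact ⟨C + D, C' + D', by rw [map_add, h1, h2, Matrix.mul_add, Matrix.mul_add]; abel⟩

theorem inter28 {p p1 pm p3 p4 : Matrix ι ι K × (Fin 3 → Matrix ι ι K)} {c : K}
    {x : Fin 3 → P2 ⊗[K] P1} {Z : Matrix ι ι K} {Q : Fin 3 → Matrix ι ι K} {e kk : Matrix ι δ K}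
    (hF : Fam arm J B N W g f (c • p) (fun s => ten J i1 i2 (x s)) Z Q e p1 pm p3 p4 kk)
    (s : Fin 3) : Inter arm J B g f p.1 c (ten J i1 i2 (x s)) Z s :=
  QBr.inter_of (fun v hv => hF.interφ s v hv)

/-- **the second derivative** -/
theorem hrel28 (h : Ctx k arm J B N W g)
    (hNm : ∀ F, (∀ F' ∈ N, pair J B F' F = 0) → F ∈ N)
    (hWm : ∀ F, (∀ F' ∈ W, pair J B F' F = 0) → F ∈ W)
    (hcG : Glue k arm J N W g) (hf : f ∈ N ⊓ W)
    {p : Matrix ι ι K × (Fin 3 → Matrix ι ι K)} (hp : p ∈ NN arm J N g)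
    (hp0 : gᵀ * J * (p.1 * f) = 0) (hS : QBr.Side arm J B g f p.1 A Bo i1 i2)
    (hi0 : ∀ p, (∃ u, i1 p = g *ᵥ u) → p = 0)
    (hif : ∀ p, ∃ u u', i1 p = f *ᵥ u + g *ᵥ u')
    (hsurj : ∀ v : Pinf (aop arm J B g f (h.perp f hf)), ∃ q u,
      ((v : Sp J g) : ι → K) = i1 q + g *ᵥ u)
    (hR1 : ∀ t, ∀ r ∈ R1, A t r ∈ R1) (hR2 : ∀ t, ∀ r ∈ R2, Bo t r ∈ R2)
    (hgR : ∀ r ∈ R2, ∀ y, g2 J p.1 i2 r y = 0)
    (horth : ∀ r ∈ R1, ∀ y, i1 r ⬝ᵥ J *ᵥ i1 y = 0)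
    (hperf : ∀ y : P2, ∃ z : Fin 3 → P2, y = ∑ t, Bo t (z t))
    (hkill : ∃ m, ∀ w : List (Fin 3), m ≤ w.length → ∀ r ∈ R1, (w.map A).prod r = 0)
    {c c' : K} (hc : c ≠ 0) (hc' : c' ≠ 0)
    (hcx : c⁻¹ ∉ hS.Exc (QBr.Side.Q1 g i1 R1) (hS.Q1_stable hR1))
    (hcx' : c'⁻¹ ∉ hS.Exc (QBr.Side.Q1 g i1 R1) (hS.Q1_stable hR1))
    (hcy' : c' ∉ hS.Exc2 hR2)
    {x x' : Fin 3 → P2 ⊗[K] P1} {b b' : P2 →ₗ[K] P1}
    (hx : RJM.Ex A Bo R1 R2 c x) (hb : RJM.Cor A Bo R1 (g2 J p.1 i2) (-1) c x b)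
    (hx' : RJM.Ex A Bo R1 R2 c' x') (hb' : RJM.Cor A Bo R1 (g2 J p.1 i2) (-1) c' x' b') :
    ∑ t, ((1 : K) • TensorProduct.lift ((qf arm J f i1 t) ∘ₗ b') (x t)
        + (-1 : K) • TensorProduct.lift ((qf arm J f i1 t).flip ∘ₗ b) (x' t)
        + (-1 : K) • TensorProduct.lift ((qf arm J f i1 t) ∘ₗ (RJM.ev (g2 J p.1 i2) (x' t)))
          (x t)) ∈ SSp arm J B N W g f (h.perp f hf) := by
  have hJ := h.data.J_symm
  obtain ⟨Z, Q, e, p1, pm, p3, p4, kk, hF⟩ := fam_of h hNm hWm hcG hf hp hp0 hS hx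
  obtain ⟨Z2, Q2, e2, q1, qm, q3, q4, kk2, hF2⟩ := fam_of h hNm hWm hcG hf hp hp0 hS hx'
  obtain ⟨b0, hb0, hz⟩ := hex28 hS hi0 hR1 hgR hc hcx hx hF.skw (fun s => inter28 hF s)
  obtain ⟨b0', hb0', hz'⟩ := hex28 hS hi0 hR1 hgR hc' hcx' hx' hF2.skw (fun s => inter28 hF2 s)
  have eb : b = b0 := CorU.cor_unique (by simpa using hc) hb hb0 hperf hR1 hkill
  have eb' : b' = b0' := CorU.cor_unique (by simpa using hc') hb' hb0' hperf hR1 hkill
  subst eb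
  subst eb'
  have hu : Z = c • (c⁻¹ • Z) := by rw [smul_smul, mul_inv_cancel₀ hc, one_smul]
  have hu2 : Z2 = c' • (c'⁻¹ • Z2) := by rw [smul_smul, mul_inv_cancel₀ hc', one_smul]
  obtain ⟨C, hC⟩ := hS.prod_tensor hF.skw hc hc' hz hz' hu hu2 x x'
  rw [g2_eq hJ, hC]
  refine Submodule.add_mem _ ?_ (QEndP.gC_mem_SSp _ C)
  refine QEndP.prodP_mem_SSp h hf (c := c) (c2 := c') ?_ hF hF2
    (fun s => QBr.ten_skw hJ _) (fun s => hS.ten_g _) (fun s v hv => hS.ten_S _ v hv)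
    (fun s => QBr.ten_skw hJ _) (fun s => hS.ten_g _) (fun s v hv => hS.ten_S _ v hv)
    (fun s => ten_fg hS hif _) hc hc' rfl rfl hu hu2 ?_
  · exact hp.1.smul c
  · intro v
    obtain ⟨q, u0, hv⟩ := hsurj v
    obtain ⟨r, hr, hrv⟩ := hS.val2 hR2 horth hcy' (fun t => hx'.arm t) hF2.Zg
      (fun s => inter28 hF2 s) q
    obtain ⟨u1, hu1⟩ := hS.J2 r
    refine ⟨c'⁻¹ • u1, ?_, ?_⟩
    · have hZg : (gᵀ * J) *ᵥ (Z2 *ᵥ (g *ᵥ u0)) = 0 := by
        rw [mulVec_mulVec, mulVec_mulVec, Matrix.mul_assoc (gᵀ * J) Z2 g, hF2.Zg, zero_mulVec]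
      rw [hv, smul_mulVec, mulVec_smul, mulVec_add, mulVec_add, hZg, add_zero, hrv, mulVec_smul,
        mulVec_smul, mulVec_smul, ← hu1]
    · intro w s
      obtain ⟨qw, u3, hw⟩ := hsurj w
      obtain ⟨u4, hu4⟩ := hS.A1 s qw
      obtain ⟨u5, hu5⟩ := hz r
      have e1 : (M arm B s f f * J) *ᵥ ((w : Sp J g) : ι → K) = i1 (A s qw) + g *ᵥ u4 := by
        rw [hw, mulVec_add, hS.Mf_g, add_zero, hu4]
      have hJ1 := hS.J1 (A s qw)
      have hbr := hb.mem r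
      rw [mulVec_smul, mulVec_smul, smul_mulVec, ← hu1, hu5, e1, smul_dotProduct, smul_dotProduct,
        mulVec_add, dotProduct_add, add_dotProduct, add_dotProduct, neg_dotProduct,
        neg_dotProduct, smul_dotProduct, smul_dotProduct, horth _ hbr, hS.S_dot u5 hJ1,
        hS.dot_S u4 (hS.J1 _), hS.S_dot u5 (hS.S_perp u4)]
      simp

theorem mt_congr (hgf : gᵀ * J * f = 0) {v v1 w w1 : ι → K} {u u' : δ → K}
    (hv : v = v1 + g *ᵥ u) (hw : w = w1 + g *ᵥ u') (s : Fin 3) :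
    ∃ C : Matrix δ δ K, vecMulVec v w * J * f * E K arm s
      = vecMulVec v1 w1 * J * f * E K arm s + g * C := by
  refine ⟨vecMulVec u w * J * f * E K arm s, ?_⟩
  have h1 : vecMulVec (g *ᵥ u) w = g * vecMulVec u w := by
    ext i j
    simp [Matrix.mul_apply, vecMulVec_apply, mulVec, dotProduct, Finset.sum_mul, mul_assoc]
  have h2 : vecMulVec v1 (g *ᵥ u') * J * f = 0 := by
    rw [Matrix.mul_assoc, QBr.vmv_mul]
    have h3 : (g *ᵥ u') ᵥ* (J * f) = 0 := by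
      rw [← mulVec_transpose, mulVec_mulVec]
      have h4 : (J * f)ᵀ * g = (gᵀ * J * f)ᵀ := by
        rw [transpose_mul (gᵀ * J) f, transpose_mul gᵀ J, transpose_transpose, transpose_mul,
          Matrix.mul_assoc]
      rw [h4, hgf, transpose_zero, zero_mulVec]
    rw [h3]
    ext i j
    simp [vecMulVec_apply]
  have h5 : vecMulVec v w = vecMulVec v1 w1 + vecMulVec v1 (g *ᵥ u') + g * vecMulVec u w := by
    rw [← h1]
    conv_lhs => rw [hv, add_vecMulVec, hw, vecMulVec_add]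
    rw [← hw]
  rw [h5]
  simp only [Matrix.add_mul, h2, add_zero, Matrix.mul_assoc]

end conc

section final

universe u
variable {ι δ K : Type u} [Fintype ι] [DecidableEq ι] [Fintype δ] [DecidableEq δ] [Field K]
variable {k : Type*} [Field k] [Algebra k K]
variable {arm : δ → Fin 3} {J : Matrix ι ι K} {B : Matrix δ δ K}
  {N W : Submodule K (Matrix ι δ K)} {g f : Matrix ι δ K}

/-- **the P-side bridge** -/
theorem bridgeP28 [CharZero K] (h : Ctx k arm J B N W g)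
    (hNm : ∀ F, (∀ F' ∈ N, pair J B F' F = 0) → F ∈ N)
    (hWm : ∀ F, (∀ F' ∈ W, pair J B F' F = 0) → F ∈ W)
    (hcG : Glue k arm J N W g) (hf : f ∈ N ⊓ W)
    {p : Matrix ι ι K × (Fin 3 → Matrix ι ι K)} (hp : p ∈ NN arm J N g)
    (hp0 : gᵀ * J * (p.1 * f) = 0) {l : Fin 3 → ℕ}
    (hP : Pair (aop arm J B g f (h.perp f hf)) (omP J g)
      (fun s => Mop arm B g s ∘ₗ eta J g p.1) (eta J g p.1) l) :
    (∀ s, ∀ r ∈ TP (aop arm J B g f (h.perp f hf)), ∀ p,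
      mt J g (Pinf (aop arm J B g f (h.perp f hf))) (r ⊗ₜ p) * f * E K arm s
        ∈ SSp arm J B N W g f (h.perp f hf)) ∧
    (∀ s, ∀ r ∈ TP (aop arm J B g f (h.perp f hf)), ∀ p,
      mt J g (Pinf (aop arm J B g f (h.perp f hf))) (p ⊗ₜ r) * f * E K arm s
        ∈ SSp arm J B N W g f (h.perp f hf)) ∧
    (∀ s i j, i + j + 1 = l s → ∀ p p',
      mt J g (Pinf (aop arm J B g f (h.perp f hf)))
        (((QEndP.ap (aop arm J B g f (h.perp f hf)) s ^ i) p) ⊗ₜ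
          ((QEndP.ap (aop arm J B g f (h.perp f hf)) s ^ j) p')) * f * E K arm s
        ∈ SSp arm J B N W g f (h.perp f hf)) := by
  have hD := h.data
  have hgf := h.perp f hf
  obtain ⟨P1, i1a, i1b, A, R1, w, i1, P2, i2a, i2b, Bo, R2, g2', i2, hfd1, hfd2, hS, H1, H2,
    hw, hg2', hi0, hsurj, hvalP, hR1i, -, -, -⟩ :=
    exists_sideP hD.J_symm hD.J_unit hD.B_symm hD.B_arm h.iso (h.perp f hf) hp.1 hP
  have hsurj' : ∀ v : Pinf (aop arm J B g f (h.perp f hf)), ∃ q u,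
      ((v : Sp J g) : ι → K) = i1 q + g *ᵥ u := fun v => hsurj v v.2
  have hg2 : ∀ x y, g2 J p.1 i2 x y = (-1) * g2' x y := by
    intro x y
    rw [hg2', QBr.g2_apply, mulVec_dot, mulVec_mulVec, hp.1.eq, neg_mulVec, dotProduct_neg,
      neg_one_mul]
  have H2' := H2.congr (w' := g2 J p.1 i2) (neg_ne_zero.2 one_ne_zero) hg2
  have hif : ∀ p, ∃ u u', i1 p = f *ᵥ u + g *ᵥ u' := by
    intro p
    obtain ⟨v, hv, hpv⟩ := hvalP p
    obtain ⟨q, hq⟩ := QEndP.exists_u (h.perp f hf) ⟨v, hv⟩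
    refine ⟨∑ r, (E K arm r * B * fᵀ * J) *ᵥ ((q r : Sp J g) : ι → K), 0, ?_⟩
    rw [mulVec_zero, add_zero, hpv]
    exact hq.symm
  have horth : ∀ r ∈ R1, ∀ y, i1 r ⬝ᵥ J *ᵥ i1 y = 0 := by
    intro r hr y
    rw [← hw]
    exact H1.rad_left r hr y
  have hperf : ∀ y : P2, ∃ z : Fin 3 → P2, y = ∑ t, Bo t (z t) :=
    QBlk.exists_sum_of_top H2.side.top
  have hkill : ∃ m, ∀ w : List (Fin 3), m ≤ w.length → ∀ r ∈ R1, (w.map A).prod r = 0 := by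
    obtain ⟨m, hm⟩ := H1.side.kills_le
    exact ⟨m, fun w hw r hr => hm _ hw w rfl r hr⟩
  let Λ : Set K := {c | c ≠ 0 ∧ c⁻¹ ∉ hS.Exc (QBr.Side.Q1 g i1 R1) (hS.Q1_stable H1.side.stable) ∧
    c ∉ hS.Exc2 H2.side.stable}
  have hfin1 : (hS.Exc (QBr.Side.Q1 g i1 R1) (hS.Q1_stable H1.side.stable)).Finite :=
    QBlk.twist_finite_neg _ H2.side.top
  have hfin2 : (hS.Exc2 H2.side.stable).Finite := QBlk.twist_finite _ H1.side.top
  have hΛ : Λ.Infinite := by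
    have hcompl : Λᶜ.Finite := by
      refine ((Set.finite_singleton (0 : K)).union ((hfin1.preimage
        (f := fun c : K => c⁻¹) (inv_injective.injOn)).union hfin2)).subset ?_
      intro c hc
      by_contra hcon
      apply hc
      simp only [Set.mem_union, Set.mem_singleton_iff, Set.mem_preimage, not_or] at hcon
      exact ⟨hcon.1, hcon.2.1, hcon.2.2⟩
    exact Set.infinite_of_finite_compl hcompl
  have h0 : (0 : K) ∉ Λ := fun h => h.1 rfl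
  have key := H1.rjm H2' hΛ h0 (qf arm J f i1) (SSp arm J B N W g f (h.perp f hf))
    (a1 := 1) (a2 := -1) (a3 := -1) one_ne_zero (neg_ne_zero.2 one_ne_zero)
    (neg_ne_zero.2 one_ne_zero)
    (fun c hc x hx => by
      obtain ⟨Z, Q, e, p1, pm, p3, p4, kk, hF⟩ := fam_of h hNm hWm hcG hf hp hp0 hS hx
      obtain ⟨b0, hb0, -⟩ := hex28 hS hi0 H1.side.stable H2'.rad_left hc.1 hc.2.1 hx hF.skw
        (fun s => inter28 hF s)
      exact ⟨b0, hb0⟩)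
    (fun c hc c' hc' x b x' b' hx hb hx' hb' =>
      hrel28 h hNm hWm hcG hf hp hp0 hS hi0 hif hsurj' H1.side.stable H2.side.stable
        H2'.rad_left horth hperf hkill hc.1 hc'.1 hc.2.1 hc'.2.1 hc'.2.2 hx hb hx' hb')
  -- transfer to `Pinf`
  have htr : ∀ (v w : Pinf (aop arm J B g f (h.perp f hf))) (q q' : P1) (u u' : δ → K) (s : Fin 3),
      ((v : Sp J g) : ι → K) = i1 q + g *ᵥ u → ((w : Sp J g) : ι → K) = i1 q' + g *ᵥ u' →
      qf arm J f i1 s q q' ∈ SSp arm J B N W g f (h.perp f hf) →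
      mt J g (Pinf (aop arm J B g f (h.perp f hf))) (v ⊗ₜ w) * f * E K arm s
        ∈ SSp arm J B N W g f (h.perp f hf) := by
    intro v w q q' u u' s hv hw hq
    rw [QEndP.mt_tmul]
    obtain ⟨C, hC⟩ := mt_congr (arm := arm) hgf hv hw s
    rw [hC]
    exact Submodule.add_mem _ hq (QEndP.gC_mem_SSp _ C)
  have hrad : ∀ r ∈ TP (aop arm J B g f (h.perp f hf)), ∃ q ∈ R1, ∃ u,
      ((r : Sp J g) : ι → K) = i1 q + g *ᵥ u := by
    intro r hr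
    obtain ⟨q, u, hq⟩ := hsurj' r
    refine ⟨q, ?_, u, hq⟩
    rw [hR1i]
    obtain ⟨v, hv, hqv⟩ := hvalP q
    refine ⟨v, ⟨hv, ?_⟩, hqv⟩
    have h1 : (r : Sp J g) - v ∈ T (aop arm J B g f (h.perp f hf)) := by
      refine St.Nk_le_T _ 1 ?_
      rw [St.mem_Nk_succ]
      intro s
      rw [St.mem_Nk_zero]
      apply Subtype.ext
      rw [aop_coe, Submodule.coe_sub, hq, hqv, add_sub_cancel_left, hS.Mf_g]
      rfl
    have h2 : (r : Sp J g) ∈ T (aop arm J B g f (h.perp f hf)) := hr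
    have h3 := Submodule.sub_mem _ h2 h1
    rwa [sub_sub_cancel] at h3
  have hpow : ∀ (s : Fin 3) (n : ℕ) (v : Pinf (aop arm J B g f (h.perp f hf))) (q : P1)
      (u : δ → K), ((v : Sp J g) : ι → K) = i1 q + g *ᵥ u → ∃ u',
      ((((QEndP.ap (aop arm J B g f (h.perp f hf)) s ^ n) v : Pinf _) : Sp J g) : ι → K)
        = i1 ((A s ^ n) q) + g *ᵥ u' := by
    intro s n
    induction n with
    | zero => intro v q u hv; exact ⟨u, hv⟩
    | succ n ih =>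
      intro v q u hv
      obtain ⟨u', hu'⟩ := ih v q u hv
      obtain ⟨u4, hu4⟩ := hS.A1 s ((A s ^ n) q)
      refine ⟨u4, ?_⟩
      rw [pow_succ', pow_succ', Module.End.mul_apply, Module.End.mul_apply, QEndP.ap_coe, aop_coe,
        hu', mulVec_add, hS.Mf_g, add_zero, hu4]
  refine ⟨fun s r hr v => ?_, fun s r hr v => ?_, fun s i j hij v w => ?_⟩
  · obtain ⟨q, hq, u, hr'⟩ := hrad r hr
    obtain ⟨q', u', hv⟩ := hsurj' v
    exact htr _ _ _ _ _ _ s hr' hv (key.1 s q hq q').1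
  · obtain ⟨q, hq, u, hr'⟩ := hrad r hr
    obtain ⟨q', u', hv⟩ := hsurj' v
    exact htr _ _ _ _ _ _ s hv hr' (key.1 s q hq q').2
  · obtain ⟨q, u, hv⟩ := hsurj' v
    obtain ⟨q', u', hw⟩ := hsurj' w
    obtain ⟨u1, h1⟩ := hpow s i v q u hv
    obtain ⟨u2, h2⟩ := hpow s j w q' u' hw
    exact htr _ _ _ _ _ _ s h1 h2 (key.2 s i j hij q q')

/-- **the P-side: only `(3,3,3)` with `dim C' ≤ 3` survives** -/
theorem false_P28 [CharZero K] (h : Ctx k arm J B N W g)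
    (hNm : ∀ F, (∀ F' ∈ N, pair J B F' F = 0) → F ∈ N)
    (hWm : ∀ F, (∀ F' ∈ W, pair J B F' F = 0) → F ∈ W)
    (hcG : Glue k arm J N W g) (hf : f ∈ N ⊓ W)
    {p : Matrix ι ι K × (Fin 3 → Matrix ι ι K)} (hp : p ∈ NN arm J N g)
    (hp0 : gᵀ * J * (p.1 * f) = 0) {l : Fin 3 → ℕ}
    (hP : Pair (aop arm J B g f (h.perp f hf)) (omP J g)
      (fun s => Mop arm B g s ∘ₗ eta J g p.1) (eta J g p.1) l) :
    (∀ s, l s = 3) ∧ finrank K (Cor (aop arm J B g f (h.perp f hf))) ≤ 3 := by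
  by_contra hcon
  obtain ⟨h1, h2, h3⟩ := bridgeP28 h hNm hWm hcG hf hp hp0 hP
  refine QEndP.endP_span h hNm hWm hf l hP.l1 hP.S2 hP.nilA hP.freeA hP.posA ?_ h1 h2 h3
  intro h333
  by_contra hle
  exact hcon ⟨h333, not_lt.1 hle⟩

end final

end Crest.Agent.R172.QC
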