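import Crest.Agent.R172.Qt11

/-!
Row 172 (S0260), (Q1)/(t3): the bridge, part 1: gluing families from tensors.
-/

set_option autoImplicit false
set_option linter.unusedSectionVars false
set_option linter.unusedFintypeInType false
set_option linter.unusedDecidableInType false
set_option maxHeartbeats 800000

namespace Crest.Agent.R172.QBrQ

open Matrix Module Crest.Agent.R172.FO Crest.Agent.R172.Qt
open scoped TensorProduct

variable {ι : Type*} [Fintype ι] [DecidableEq ι] {δ : Type*} [Fintype δ] [DecidableEq δ]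
variable {k K : Type*} [Field k] [Field K] [Algebra k K]
variable {arm : δ → Fin 3} {J : Matrix ι ι K} {B : Matrix δ δ K}
  {N W : Submodule K (Matrix ι δ K)} {g f : Matrix ι δ K} {X : Matrix ι ι K}
variable {P2 Ph P1 : Type*} [AddCommGroup P2] [Module K P2] [AddCommGroup Ph] [Module K Ph]
  [AddCommGroup P1] [Module K P1]

/-- The set-up: `P2 → S^⊥` with `B_s = M_s(f)J`, `Ph → S` with `Φ_s = M_s(g) J X`,
`π : Ph → P1` onto, `θ : P1 → K^δ` injective, `θ π = gᵀ J X`. -/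
structure Su (arm : δ → Fin 3) (J : Matrix ι ι K) (B : Matrix δ δ K) (g f : Matrix ι δ K)
    (X : Matrix ι ι K) (i2 : P2 →ₗ[K] (ι → K)) (Bo : Fin 3 → End K P2)
    (i1 : Ph →ₗ[K] (ι → K)) (Φ : Fin 3 → End K Ph) (π : Ph →ₗ[K] P1) (θ : P1 →ₗ[K] (δ → K))
    (A : Fin 3 → End K P1) : Prop where
  hi2 : ∀ p, (gᵀ * J) *ᵥ i2 p = 0
  hB : ∀ s p, i2 (Bo s p) = (M arm B s f f * J) *ᵥ i2 p
  hi1 : ∀ v, ∃ u, i1 v = g *ᵥ u
  inj1 : Function.Injective i1
  hΦ : ∀ s v, i1 (Φ s v) = (M arm B s g g * J * X) *ᵥ i1 v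
  hπ : Function.Surjective π
  hθπ : ∀ v, θ (π v) = (gᵀ * J * X) *ᵥ i1 v
  hθ : Function.Injective θ
  hA : ∀ s v, π (Φ s v) = A s (π v)

/-- `p2 ⊗ v ↦ v p2ᵀJ - p2 vᵀJ` -/
def ten (J : Matrix ι ι K) (i2 : P2 →ₗ[K] (ι → K)) (i1 : Ph →ₗ[K] (ι → K)) :
    P2 →ₗ[K] Ph →ₗ[K] Matrix ι ι K :=
  LinearMap.mk₂ K (fun p v => vecMulVec (i1 v) (J *ᵥ i2 p) - vecMulVec (i2 p) (J *ᵥ i1 v))
    (fun a b v => by
      rw [map_add, mulVec_add, vecMulVec_add, add_vecMulVec]; abel)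
    (fun c a v => by
      rw [map_smul, mulVec_smul, vecMulVec_smul, smul_vecMulVec, smul_sub])
    (fun a v v' => by
      rw [map_add, mulVec_add, vecMulVec_add, add_vecMulVec]; abel)
    (fun c a v => by
      rw [map_smul, mulVec_smul, vecMulVec_smul, smul_vecMulVec, smul_sub])

theorem ten_apply (J : Matrix ι ι K) (i2 : P2 →ₗ[K] (ι → K)) (i1 : Ph →ₗ[K] (ι → K)) (p : P2)
    (v : Ph) : ten J i2 i1 p v = vecMulVec (i1 v) (J *ᵥ i2 p) - vecMulVec (i2 p) (J *ᵥ i1 v) := rfl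

/-- the skew element of a tensor -/
noncomputable def RR (J : Matrix ι ι K) (i2 : P2 →ₗ[K] (ι → K)) (i1 : Ph →ₗ[K] (ι → K))
    (x : P2 ⊗[K] Ph) : Matrix ι ι K := TensorProduct.lift (ten J i2 i1) x

theorem RR_tmul (J : Matrix ι ι K) (i2 : P2 →ₗ[K] (ι → K)) (i1 : Ph →ₗ[K] (ι → K)) (p : P2)
    (v : Ph) : RR J i2 i1 (p ⊗ₜ[K] v)
      = vecMulVec (i1 v) (J *ᵥ i2 p) - vecMulVec (i2 p) (J *ᵥ i1 v) := by
  rw [RR, TensorProduct.lift.tmul, ten_apply]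

theorem RR_add (J : Matrix ι ι K) (i2 : P2 →ₗ[K] (ι → K)) (i1 : Ph →ₗ[K] (ι → K))
    (x y : P2 ⊗[K] Ph) : RR J i2 i1 (x + y) = RR J i2 i1 x + RR J i2 i1 y := map_add _ _ _

theorem RR_zero (J : Matrix ι ι K) (i2 : P2 →ₗ[K] (ι → K)) (i1 : Ph →ₗ[K] (ι → K)) :
    RR J i2 i1 (0 : P2 ⊗[K] Ph) = 0 := map_zero _

variable {i2 : P2 →ₗ[K] (ι → K)} {Bo : Fin 3 → End K P2}
  {i1 : Ph →ₗ[K] (ι → K)} {Φ : Fin 3 → End K Ph} {π : Ph →ₗ[K] P1} {θ : P1 →ₗ[K] (δ → K)}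
  {A : Fin 3 → End K P1}

theorem vmz {α β : Type*} (w : α → K) : vecMulVec w (0 : β → K) = 0 := by
  ext i j; simp [vecMulVec_apply]

theorem RR_skw (hJ : Jᵀ = J) (x : P2 ⊗[K] Ph) : Skw J (RR J i2 i1 x) := by
  induction x using TensorProduct.induction_on with
  | zero => rw [RR_zero]; exact Skw.zero
  | add x y hx hy => rw [RR_add]; exact hx.add hy
  | tmul p v =>
    rw [RR_tmul]
    unfold Skw
    rw [transpose_sub, transpose_vecMulVec, transpose_vecMulVec, Matrix.sub_mul, Matrix.mul_sub,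
      mul_vecMulVec, mul_vecMulVec, vecMulVec_mul, vecMulVec_mul]
    have e : ∀ w : ι → K, w ᵥ* J = J *ᵥ w := by
      intro w
      conv_rhs => rw [← hJ]
      rw [mulVec_transpose]
    rw [e, e]; abel

theorem RR_g (hJ : Jᵀ = J) (hiso : gᵀ * J * g = 0) (hi2 : ∀ p, (gᵀ * J) *ᵥ i2 p = 0)
    (hi1 : ∀ v, ∃ u, i1 v = g *ᵥ u) (x : P2 ⊗[K] Ph) : RR J i2 i1 x * g = 0 := by
  have e : ∀ w : ι → K, (gᵀ * J) *ᵥ w = 0 → (J *ᵥ w) ᵥ* g = 0 := by
    intro w hw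
    rw [← mulVec_transpose, mulVec_mulVec]; exact hw
  induction x using TensorProduct.induction_on with
  | zero => rw [RR_zero, Matrix.zero_mul]
  | add x y hx hy => rw [RR_add, Matrix.add_mul, hx, hy, add_zero]
  | tmul p v =>
    obtain ⟨u, hu⟩ := hi1 v
    rw [RR_tmul, Matrix.sub_mul, vecMulVec_mul, vecMulVec_mul, e _ (hi2 p), e (i1 v), vmz, vmz,
      sub_zero]
    rw [hu, mulVec_mulVec, hiso, zero_mulVec]

theorem RR_S (hJ : Jᵀ = J) (hi1 : ∀ v, ∃ u, i1 v = g *ᵥ u) (x : P2 ⊗[K] Ph)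
    {β : Type*} [Fintype β] (v : Matrix ι β K) (hv : gᵀ * J * v = 0) :
    ∃ C : Matrix δ β K, RR J i2 i1 x * v = g * C := by
  induction x using TensorProduct.induction_on with
  | zero => exact ⟨0, by rw [RR_zero, Matrix.zero_mul, Matrix.mul_zero]⟩
  | add x y hx hy =>
    obtain ⟨C, hC⟩ := hx
    obtain ⟨D, hD⟩ := hy
    exact ⟨C + D, by rw [RR_add, Matrix.add_mul, hC, hD, Matrix.mul_add]⟩
  | tmul p w =>
    obtain ⟨u, hu⟩ := hi1 w
    refine ⟨vecMulVec u ((J *ᵥ i2 p) ᵥ* v), ?_⟩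
    rw [RR_tmul, Matrix.sub_mul, vecMulVec_mul, vecMulVec_mul]
    have h1 : (J *ᵥ i1 w) ᵥ* v = 0 := by
      rw [hu, mulVec_mulVec, ← vecMul_transpose, transpose_mul, hJ, vecMul_vecMul, hv, vecMul_zero]
    rw [h1, hu, mul_vecMulVec, vmz, sub_zero]

/-- evaluation of a tensor at `w` -/
noncomputable def eva (J : Matrix ι ι K) (i2 : P2 →ₗ[K] (ι → K)) (w : ι → K) :
    P2 ⊗[K] Ph →ₗ[K] Ph :=
  TensorProduct.lift (LinearMap.mk₂ K (fun p v => (i2 p ⬝ᵥ (J *ᵥ w)) • v)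
    (fun a b v => by rw [map_add, add_dotProduct, add_smul])
    (fun c a v => by rw [map_smul, smul_dotProduct, smul_assoc])
    (fun a v v' => by rw [smul_add]) (fun c a v => by rw [smul_comm]))

theorem eva_tmul (w : ι → K) (p : P2) (v : Ph) :
    eva J i2 w (p ⊗ₜ[K] v) = (i2 p ⬝ᵥ (J *ᵥ w)) • v := by
  rw [eva, TensorProduct.lift.tmul]; rfl

theorem RR_vec (hJ : Jᵀ = J) (hi1 : ∀ v, ∃ u, i1 v = g *ᵥ u) (x : P2 ⊗[K] Ph) (w : ι → K)
    (hw : (gᵀ * J) *ᵥ w = 0) : RR J i2 i1 x *ᵥ w = i1 (eva J i2 w x) := by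
  induction x using TensorProduct.induction_on with
  | zero => rw [RR_zero, zero_mulVec, map_zero, map_zero]
  | add x y hx hy => rw [RR_add, add_mulVec, hx, hy, map_add, map_add]
  | tmul p v =>
    obtain ⟨u, hu⟩ := hi1 v
    rw [RR_tmul, sub_mulVec, vecMulVec_mulVec, vecMulVec_mulVec, eva_tmul, map_smul]
    have h1 : (J *ᵥ i1 v) ⬝ᵥ w = 0 := by
      rw [hu, mulVec_mulVec, ← vecMul_transpose, ← dotProduct_mulVec, transpose_mul, hJ, hw,
        dotProduct_zero]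
    have h2 : (J *ᵥ i2 p) ⬝ᵥ w = i2 p ⬝ᵥ (J *ᵥ w) := by
      rw [← vecMul_transpose, hJ, ← dotProduct_mulVec]
    rw [h1, h2]
    simp

theorem eva_B (hMt : ∀ s, (M arm B s f f)ᵀ = M arm B s f f) (hJ : Jᵀ = J)
    (hB : ∀ s p, i2 (Bo s p) = (M arm B s f f * J) *ᵥ i2 p) (s : Fin 3) (x : P2 ⊗[K] Ph)
    (w : ι → K) : eva J i2 ((M arm B s f f * J) *ᵥ w) x
      = eva J i2 w ((Bo s).rTensor Ph x) := by
  induction x using TensorProduct.induction_on with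
  | zero => rw [map_zero, map_zero, map_zero]
  | add x y hx hy => rw [map_add, map_add, map_add, hx, hy]
  | tmul p v =>
    rw [LinearMap.rTensor_tmul, eva_tmul, eva_tmul, hB]
    congr 1
    rw [mulVec_mulVec, dotProduct_mulVec, dotProduct_mulVec, ← vecMul_transpose (M arm B s f f * J),
      transpose_mul, hMt, hJ, vecMul_vecMul]
    simp only [Matrix.mul_assoc]

theorem eva_Φ (c : K) (s : Fin 3) (x : P2 ⊗[K] Ph) (w : ι → K) :
    c • Φ s (eva J i2 w x) = eva J i2 w (c • (Φ s).lTensor P2 x) := by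
  induction x using TensorProduct.induction_on with
  | zero => simp
  | add x y hx hy => rw [map_add, map_add, smul_add, hx, hy, map_add, smul_add, map_add]
  | tmul p v =>
    rw [LinearMap.lTensor_tmul, map_smul, eva_tmul, eva_tmul, map_smul]

end Crest.Agent.R172.QBrQ
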