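import Crest.Agent.R172.QBQe

/-!
Row 172 (S0260), (Q1)/(t3): the bridge, part 3: the package of an exact family (Q-side).
-/

set_option autoImplicit false
set_option linter.unusedSectionVars false
set_option linter.unusedFintypeInType false
set_option linter.unusedDecidableInType false
set_option maxHeartbeats 800000

namespace Crest.Agent.R172.QBrQ

open Matrix Module Crest.Agent.R172.FO Crest.Agent.R172.Qt
open scoped TensorProduct

variable {ι : Type*} [Fintype ι] [DecidableEq ι] {δ : Type*} [Fintype δ] [DecidableEq δ]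
variable {k K : Type*} [Field k] [Field K] [Algebra k K]
variable {arm : δ → Fin 3} {J : Matrix ι ι K} {B : Matrix δ δ K}
  {N W : Submodule K (Matrix ι δ K)} {g f : Matrix ι δ K} {X : Matrix ι ι K}
variable {P2 Ph P1 : Type*} [AddCommGroup P2] [Module K P2] [AddCommGroup Ph] [Module K Ph]
  [AddCommGroup P1] [Module K P1]
variable {i2 : P2 →ₗ[K] (ι → K)} {Bo : Fin 3 → End K P2}
  {i1 : Ph →ₗ[K] (ι → K)} {Φ : Fin 3 → End K Ph} {π : Ph →ₗ[K] P1} {θ : P1 →ₗ[K] (δ → K)}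
  {A : Fin 3 → End K P1}

section abs

variable {K : Type*} [Field K]
variable {P2 P1 : Type*} [AddCommGroup P2] [Module K P2] [AddCommGroup P1] [Module K P1]

/-- evaluation `p2 ⊗ p1 ↦ g2 p2 p • p1` -/
noncomputable def evl (g2 : P2 →ₗ[K] P2 →ₗ[K] K) (p : P2) : P2 ⊗[K] P1 →ₗ[K] P1 :=
  TensorProduct.lift (LinearMap.mk₂ K (fun p2 p1 => (g2 p2 p) • p1)
    (fun a b v => by rw [map_add, LinearMap.add_apply, add_smul])
    (fun c a v => by rw [map_smul, LinearMap.smul_apply, smul_assoc])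
    (fun a v v' => by rw [smul_add]) (fun c a v => by rw [smul_comm]))

theorem evl_tmul (g2 : P2 →ₗ[K] P2 →ₗ[K] K) (p p2 : P2) (p1 : P1) :
    evl g2 p (p2 ⊗ₜ[K] p1) = (g2 p2 p) • p1 := by
  rw [evl, TensorProduct.lift.tmul]; rfl

theorem evl_DD {g2 : P2 →ₗ[K] P2 →ₗ[K] K} {At : End K P1} {Bt : End K P2}
    (hg : ∀ p p', g2 (Bt p) p' = g2 p (Bt p')) (c : K) (p : P2) (x : P2 ⊗[K] P1) :
    evl g2 p ((At.lTensor P2 - c • Bt.rTensor P1) x) = At (evl g2 p x) - c • evl g2 (Bt p) x := by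
  induction x using TensorProduct.induction_on with
  | zero => simp
  | add x y hx hy => rw [map_add, map_add, hx, hy, map_add, map_add, map_add, smul_add]; abel
  | tmul p2 p1 =>
    rw [LinearMap.sub_apply, LinearMap.smul_apply, LinearMap.lTensor_tmul,
      LinearMap.rTensor_tmul, map_sub, map_smul, evl_tmul, evl_tmul, evl_tmul, evl_tmul, hg,
      map_smul]

theorem evl_mem {g2 : P2 →ₗ[K] P2 →ₗ[K] K} {R1 : Submodule K P1} {R2 : Submodule K P2}
    (hg : ∀ r ∈ R2, ∀ p, g2 r p = 0) (p : P2) {x : P2 ⊗[K] P1}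
    (hx : x ∈ (Submodule.span K {z | ∃ r ∈ R2, ∃ p : P1, z = r ⊗ₜ[K] p} ⊔
      Submodule.span K {z | ∃ p : P2, ∃ r ∈ R1, z = p ⊗ₜ[K] r} : Submodule K (P2 ⊗[K] P1))) :
    evl g2 p x ∈ R1 := by
  have hle : (Submodule.span K {z | ∃ r ∈ R2, ∃ p : P1, z = r ⊗ₜ[K] p} ⊔
      Submodule.span K {z | ∃ p : P2, ∃ r ∈ R1, z = p ⊗ₜ[K] r} : Submodule K (P2 ⊗[K] P1))
      ≤ R1.comap (evl g2 p) := by
    refine sup_le (Submodule.span_le.2 ?_) (Submodule.span_le.2 ?_)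
    · rintro _ ⟨r, hr, q, rfl⟩
      change evl g2 p (r ⊗ₜ[K] q) ∈ R1
      rw [evl_tmul, hg r hr, zero_smul]; exact R1.zero_mem
    · rintro _ ⟨q, r, hr, rfl⟩
      change evl g2 p (q ⊗ₜ[K] r) ∈ R1
      rw [evl_tmul]; exact R1.smul_mem _ hr
  exact hle hx

/-- evaluation `p2 ⊗ p1 ↦ l p1 • p2` -/
noncomputable def evr (l : P1 →ₗ[K] K) : P2 ⊗[K] P1 →ₗ[K] P2 :=
  TensorProduct.lift (LinearMap.mk₂ K (fun p2 p1 => (l p1) • p2)
    (fun a b v => by rw [smul_add]) (fun c a v => by rw [smul_comm])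
    (fun a v v' => by rw [map_add, add_smul]) (fun c a v => by rw [map_smul, smul_assoc]))

theorem evr_tmul (l : P1 →ₗ[K] K) (p2 : P2) (p1 : P1) :
    evr l (p2 ⊗ₜ[K] p1) = (l p1) • p2 := by
  rw [evr, TensorProduct.lift.tmul]; rfl

theorem evr_mem {l : P1 →ₗ[K] K} {R1 : Submodule K P1} {R2 : Submodule K P2}
    (hl : ∀ r ∈ R1, l r = 0) {x : P2 ⊗[K] P1}
    (hx : x ∈ (Submodule.span K {z | ∃ r ∈ R2, ∃ p : P1, z = r ⊗ₜ[K] p} ⊔
      Submodule.span K {z | ∃ p : P2, ∃ r ∈ R1, z = p ⊗ₜ[K] r} : Submodule K (P2 ⊗[K] P1))) :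
    evr l x ∈ R2 := by
  have hle : (Submodule.span K {z | ∃ r ∈ R2, ∃ p : P1, z = r ⊗ₜ[K] p} ⊔
      Submodule.span K {z | ∃ p : P2, ∃ r ∈ R1, z = p ⊗ₜ[K] r} : Submodule K (P2 ⊗[K] P1))
      ≤ R2.comap (evr l) := by
    refine sup_le (Submodule.span_le.2 ?_) (Submodule.span_le.2 ?_)
    · rintro _ ⟨r, hr, q, rfl⟩
      change evr l (r ⊗ₜ[K] q) ∈ R2
      rw [evr_tmul]; exact R2.smul_mem _ hr
    · rintro _ ⟨q, r, hr, rfl⟩
      change evr l (q ⊗ₜ[K] r) ∈ R2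
      rw [evr_tmul, hl r hr, zero_smul]; exact R2.zero_mem
  exact hle hx

end abs

/-- `S^{⊥⊥}` -/
def SS (J : Matrix ι ι K) (g : Matrix ι δ K) : Submodule K (ι → K) where
  carrier := {y | ∀ w, (gᵀ * J) *ᵥ w = 0 → y ⬝ᵥ (J *ᵥ w) = 0}
  zero_mem' := fun w _ => by simp
  add_mem' := fun {a b} ha hb w hw => by rw [add_dotProduct, ha w hw, hb w hw, add_zero]
  smul_mem' := fun c a ha w hw => by rw [smul_dotProduct, ha w hw, smul_zero]

/-- vector form of `interφ` -/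
theorem inter_vec {Z R X' : Matrix ι ι K} {s : Fin 3}
    (hi : ∀ v : Matrix ι ι K, gᵀ * J * v = 0 →
      gᵀ * J * (X' * (M arm B s g g * J * (X' * (R * v) + Z * v)))
        = gᵀ * J * (X' * (R * (M arm B s f f * J * v)) + Z * (M arm B s f f * J * v)))
    (w : ι → K) (hw : (gᵀ * J) *ᵥ w = 0) :
    (gᵀ * J * X' * (M arm B s g g * J) * (X' * R + Z)) *ᵥ w
      = (gᵀ * J * (X' * R + Z) * (M arm B s f f * J)) *ᵥ w := by
  rcases isEmpty_or_nonempty ι with he | ⟨⟨i⟩⟩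
  · have : w = 0 := Subsingleton.elim _ _
    rw [this, mulVec_zero, mulVec_zero]
  · have h1 := hi (vecMulVec w (fun _ => 1)) (by
      rw [mul_vecMulVec, hw]; ext a b; simp [vecMulVec_apply])
    have e1 : gᵀ * J * (X' * (M arm B s g g * J * (X' * (R * vecMulVec w (fun _ => 1))
        + Z * vecMulVec w (fun _ => 1))))
        = vecMulVec ((gᵀ * J * X' * (M arm B s g g * J) * (X' * R + Z)) *ᵥ w)
          (fun _ : ι => (1 : K)) := by
      rw [← mul_vecMulVec]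
      simp only [Matrix.mul_assoc, Matrix.add_mul, Matrix.mul_add]
    have e2 : gᵀ * J * (X' * (R * (M arm B s f f * J * vecMulVec w (fun _ => 1)))
        + Z * (M arm B s f f * J * vecMulVec w (fun _ => 1)))
        = vecMulVec ((gᵀ * J * (X' * R + Z) * (M arm B s f f * J)) *ᵥ w)
          (fun _ : ι => (1 : K)) := by
      rw [← mul_vecMulVec]
      simp only [Matrix.mul_assoc, Matrix.add_mul, Matrix.mul_add]
    rw [e1, e2] at h1
    funext d
    have := congrFun (congrFun h1 d) i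
    simpa [vecMulVec_apply] using this

theorem π_eva {g2 : P2 →ₗ[K] P2 →ₗ[K] K} (hg2 : ∀ p p', g2 p p' = i2 p ⬝ᵥ (J *ᵥ i2 p'))
    (q : P2) (x : P2 ⊗[K] Ph) : π (eva J i2 (i2 q) x) = evl g2 q (π.lTensor P2 x) := by
  induction x using TensorProduct.induction_on with
  | zero => simp
  | add x y hx hy => rw [map_add, map_add, hx, hy, map_add, map_add]
  | tmul p v => rw [eva_tmul, LinearMap.lTensor_tmul, evl_tmul, map_smul, hg2]

theorem g_mem_SS (hJ : Jᵀ = J) (u : δ → K) : g *ᵥ u ∈ SS J g := by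
  intro w hw
  rw [← vecMul_transpose, ← dotProduct_mulVec, mulVec_mulVec, hw, dotProduct_zero]

theorem MJ_SS (hgf : gᵀ * J * f = 0) (hJ : Jᵀ = J) (s : Fin 3) {y : ι → K} (hy : y ∈ SS J g) :
    (M arm B s f f * J) *ᵥ y = 0 := by
  have h1 : (fᵀ * J) *ᵥ y = 0 := by
    funext d
    have h2 := hy (f *ᵥ (Pi.single d 1)) (by rw [mulVec_mulVec, hgf, zero_mulVec])
    have h3 : ((fᵀ * J) *ᵥ y) d = y ⬝ᵥ (J *ᵥ (f *ᵥ (Pi.single d 1))) := by
      rw [mulVec_mulVec, dotProduct_mulVec]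
      have : fᵀ * J = (J * f)ᵀ := by rw [transpose_mul, hJ]
      rw [this, mulVec_transpose]
      simp
    rw [h3, h2]; rfl
  have e : M arm B s f f * J = f * E K arm s * B * (fᵀ * J) := by
    unfold M; simp only [Matrix.mul_assoc]
  rw [e, ← mulVec_mulVec, h1, mulVec_zero]

/-- the functional `q ↦ θ q ⬝ u` -/
def lu (θ : P1 →ₗ[K] (δ → K)) (u : δ → K) : P1 →ₗ[K] K where
  toFun q := θ q ⬝ᵥ u
  map_add' a b := by rw [map_add, add_dotProduct]
  map_smul' c a := by rw [map_smul, smul_dotProduct]; rfl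

theorem lu_apply (u : δ → K) (q : P1) : lu θ u q = θ q ⬝ᵥ u := rfl

theorem RXa (hJ : Jᵀ = J) (hX : Skw J X) (hi1 : ∀ v, ∃ u, i1 v = g *ᵥ u)
    (hθπ : ∀ v, θ (π v) = (gᵀ * J * X) *ᵥ i1 v) (u : δ → K) (x : P2 ⊗[K] Ph) :
    RR J i2 i1 x *ᵥ (X *ᵥ (g *ᵥ u)) - i2 (evr (lu θ u) (π.lTensor P2 x)) ∈ SS J g := by
  induction x using TensorProduct.induction_on with
  | zero =>
    rw [RR_zero, zero_mulVec, map_zero, map_zero, map_zero, sub_zero]; exact (SS J g).zero_mem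
  | add x y hx hy =>
    have := (SS J g).add_mem hx hy
    rw [RR_add, add_mulVec, map_add, map_add, map_add]
    convert this using 1
    abel
  | tmul p v =>
    obtain ⟨u', hu'⟩ := hi1 v
    rw [RR_tmul, sub_mulVec, vecMulVec_mulVec, vecMulVec_mulVec, LinearMap.lTensor_tmul, evr_tmul,
      map_smul, lu_apply, hθπ]
    have h1 : (J *ᵥ i1 v) ⬝ᵥ (X *ᵥ (g *ᵥ u)) = - (((gᵀ * J * X) *ᵥ i1 v) ⬝ᵥ u) := by
      rw [dotProduct_mulVec, dotProduct_mulVec, ← mulVec_transpose, ← mulVec_transpose,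
        mulVec_mulVec, mulVec_mulVec]
      have : gᵀ * Xᵀ * J = - (gᵀ * J * X) := by
        rw [Matrix.mul_assoc, hX.eq, Matrix.mul_neg, Matrix.mul_assoc]
      rw [this, neg_mulVec, neg_dotProduct]
    rw [h1]
    have h2 : ((MulOpposite.op ((J *ᵥ i2 p) ⬝ᵥ (X *ᵥ (g *ᵥ u)))) • i1 v
        - (MulOpposite.op (-(((gᵀ * J * X) *ᵥ i1 v) ⬝ᵥ u))) • i2 p)
        - (((gᵀ * J * X) *ᵥ i1 v) ⬝ᵥ u) • i2 p
        = ((J *ᵥ i2 p) ⬝ᵥ (X *ᵥ (g *ᵥ u))) • i1 v := by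
      simp only [op_smul_eq_smul, neg_smul]
      abel
    rw [h2, hu']
    exact (SS J g).smul_mem _ (g_mem_SS hJ u')

theorem evr_A (l : P1 →ₗ[K] K) (At : End K P1) (x : P2 ⊗[K] P1) :
    evr l (At.lTensor P2 x) = evr (l ∘ₗ At) x := by
  induction x using TensorProduct.induction_on with
  | zero => simp
  | add x y hx hy => rw [map_add, map_add, map_add, hx, hy]
  | tmul p q => rw [LinearMap.lTensor_tmul, evr_tmul, evr_tmul]; rfl

theorem evr_B (l : P1 →ₗ[K] K) (Bt : End K P2) (x : P2 ⊗[K] P1) :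
    evr l (Bt.rTensor P1 x) = Bt (evr l x) := by
  induction x using TensorProduct.induction_on with
  | zero => simp
  | add x y hx hy => rw [map_add, map_add, map_add, hx, hy, map_add]
  | tmul p q => rw [LinearMap.rTensor_tmul, evr_tmul, evr_tmul, map_smul]

/-- the package of an exact family -/
structure Pk (arm : δ → Fin 3) (J : Matrix ι ι K) (N : Submodule K (Matrix ι δ K))
    (g : Matrix ι δ K) (X : Matrix ι ι K) (i2 : P2 →ₗ[K] (ι → K)) (i1 : Ph →ₗ[K] (ι → K))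
    (π : Ph →ₗ[K] P1) (θ : P1 →ₗ[K] (δ → K)) (R2 : Submodule K P2) (c : K)
    (x : Fin 3 → P2 ⊗[K] P1) (b : P2 → P1) (Z : Matrix ι ι K)
    (Q : Fin 3 → Matrix ι ι K) (xh : Fin 3 → P2 ⊗[K] Ph) : Prop where
  skw : Skw J Z
  Zg : gᵀ * J * (Z * g) = 0
  stb : Stb arm J N Q
  flag : ∀ s, ∃ C : Matrix δ δ K, (Z - (RR J i2 i1 (xh s) * (c⁻¹ • X)
    - (c⁻¹ • X) * RR J i2 i1 (xh s)) - Q s) * g = g * C
  lft : ∀ t, π.lTensor P2 (xh t) = x t
  val : ∀ p, (gᵀ * J * Z) *ᵥ i2 p = - (c⁻¹ • θ (b p))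
  valS : ∀ v, Z *ᵥ i1 v ∈ SS J g ⊔ R2.map i2

/-- **the package exists.** -/
theorem hexQ (h : Ctx k arm J B N W g)
    (hNm : ∀ F, (∀ F' ∈ N, pair J B F' F = 0) → F ∈ N)
    (hWm : ∀ F, (∀ F' ∈ W, pair J B F' F = 0) → F ∈ W)
    (hgl : Glue k arm J N W g) (hf : f ∈ N ⊓ W)
    {p0 : Matrix ι ι K × (Fin 3 → Matrix ι ι K)} (hp : p0 ∈ NN arm J N g)
    (hp0 : gᵀ * J * (p0.1 * f) = 0)
    (hS : Su arm J B g f p0.1 i2 Bo i1 Φ π θ A) {g2 : P2 →ₗ[K] P2 →ₗ[K] K}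
    (hg2 : ∀ p p', g2 p p' = i2 p ⬝ᵥ (J *ᵥ i2 p'))
    (hperf : ∀ p : P2, ∃ f : Fin 3 → P2, p = ∑ t, Bo t (f t))
    {R1 : Submodule K P1} {R2 : Submodule K P2}
    (hR1 : ∀ t, ∀ r ∈ R1, A t r ∈ R1) (hR2 : ∀ t, ∀ r ∈ R2, Bo t r ∈ R2)
    (hgR : ∀ r ∈ R2, ∀ p, g2 r p = 0)
    (hθR : ∀ r ∈ R1, ∀ v u, i1 v = g *ᵥ u → θ r ⬝ᵥ u = 0)
    {c : K} (hc : c ≠ 0)
    (tw1 : ∀ x : P2 →ₗ[K] ((δ → K) ⧸ R1.map θ),
      (∀ s p y, (R1.map θ).mkQ y = x p →
        (R1.map θ).mkQ ((gᵀ * J * p0.1 * g * E K arm s * B) *ᵥ y) = c • x (Bo s p)) → x = 0)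
    (tw2 : ∀ x : Ph →ₗ[K] ((ι → K) ⧸ (SS J g ⊔ R2.map i2)),
      (∀ s v y, (SS J g ⊔ R2.map i2).mkQ y = x v →
        (SS J g ⊔ R2.map i2).mkQ ((M arm B s f f * J) *ᵥ y) = - (c⁻¹ • x (Φ s v))) → x = 0)
    {x : Fin 3 → P2 ⊗[K] P1}
    (hx : ∑ t, ((A t).lTensor P2 - c • (Bo t).rTensor P1) (x t) = 0)
    (hxa : ∀ t, ((A t).lTensor P2 - c • (Bo t).rTensor P1) (x t) ∈
      (Submodule.span K {z | ∃ r ∈ R2, ∃ p : P1, z = r ⊗ₜ[K] p} ⊔
      Submodule.span K {z | ∃ p : P2, ∃ r ∈ R1, z = p ⊗ₜ[K] r} : Submodule K (P2 ⊗[K] P1))) :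
    ∃ (b : P2 →ₗ[K] P1) (Z : Matrix ι ι K) (Q : Fin 3 → Matrix ι ι K)
      (xh : Fin 3 → P2 ⊗[K] Ph), (∀ p, b p ∈ R1) ∧
      (∀ t p, A t (b p) - c • b (Bo t p)
        = A t (evl g2 p (x t)) - c • evl g2 (Bo t p) (x t)) ∧
      Pk arm J N g p0.1 i2 i1 π θ R2 c x b Z Q xh := by
  have hD := h.data
  have hgf := h.perp f hf
  have hfg : fᵀ * J * g = 0 := by
    have := congrArg transpose hgf
    rw [transpose_mul, transpose_mul, transpose_transpose, hD.J_symm, transpose_zero,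
      ← Matrix.mul_assoc] at this
    exact this
  have hJvec : ∀ w w' : ι → K, (J *ᵥ w) ⬝ᵥ w' = w ⬝ᵥ (J *ᵥ w') := by
    intro w w'
    rw [← vecMul_transpose, hD.J_symm, ← dotProduct_mulVec]
  have hker : ∀ s v, π v = 0 → Φ s v = 0 := by
    intro s v hv
    apply hS.inj1
    rw [hS.hΦ, map_zero]
    have h1 : (gᵀ * J * p0.1) *ᵥ i1 v = 0 := by rw [← hS.hθπ, hv, map_zero]
    have e : M arm B s g g * J * p0.1 = g * E K arm s * B * (gᵀ * J * p0.1) := by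
      unfold M; simp only [Matrix.mul_assoc]
    rw [e, ← mulVec_mulVec, h1, mulVec_zero]
  obtain ⟨xh, hlft, hxh⟩ := exact_lift hS.hπ hS.hA hker hperf hc hx
  have hXs : Skw J p0.1 := hp.1
  have hp' : c⁻¹ • p0 ∈ NN arm J N g := (NN arm J N g).smul_mem _ hp
  have hRskw : ∀ s, Skw J (RR J i2 i1 (xh s)) := fun s => RR_skw hD.J_symm _
  have hRg : ∀ s, RR J i2 i1 (xh s) * g = 0 := fun s =>
    RR_g hD.J_symm h.iso hS.hi2 hS.hi1 _
  obtain ⟨Z, Q, e, p1, pm, p3, p4, kk, hF⟩ := h.fam hNm hWm hgl hf hp' (by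
      rw [Prod.smul_fst, Matrix.smul_mul, Matrix.mul_smul, hp0, smul_zero]) hRskw hRg
    (fun s v hv => RR_S hD.J_symm hS.hi1 _ v hv)
    (fun v hv => hsum_of hD hgf hS hc hxh v hv)
  have hint := fun s w hw => inter_vec (X' := (c⁻¹ • p0).1) (R := RR J i2 i1 (xh s)) (Z := Z)
    (s := s) (f := f) (g := g) (J := J) (B := B) (arm := arm) (fun v hv => hF.interφ s v hv) w hw
  simp only [Prod.smul_fst] at hint
  set X := p0.1 with hX
  -- `θ A_s = AY_s θ`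
  have hAY : ∀ s q, θ (A s q) = (gᵀ * J * X * g * E K arm s * B) *ᵥ θ q := by
    intro s q
    obtain ⟨v, rfl⟩ := hS.hπ q
    rw [← hS.hA, hS.hθπ, hS.hθπ, hS.hΦ, mulVec_mulVec, mulVec_mulVec]
    congr 1
    unfold M; simp only [Matrix.mul_assoc]
  have hMf : ∀ s p, (M arm B s f f * J) *ᵥ i2 p = i2 (Bo s p) := fun s p => (hS.hB s p).symm
  have hself : ∀ s p p', g2 (Bo s p) p' = g2 p (Bo s p') := by
    intro s p p'
    rw [hg2, hg2, hS.hB, hS.hB, mulVec_mulVec, dotProduct_mulVec, dotProduct_mulVec,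
      ← vecMul_transpose (M arm B s f f * J), transpose_mul, M_tr hD, hD.J_symm, vecMul_vecMul]
    simp only [Matrix.mul_assoc]
  -- `b0`
  set b0 : P2 →ₗ[K] (δ → K) := -(c • ((gᵀ * J * Z).mulVecLin ∘ₗ i2)) with hb0
  have hb0' : ∀ p, b0 p = -(c • ((gᵀ * J * Z) *ᵥ i2 p)) := fun p => rfl
  have hζ : ∀ s q, (gᵀ * J * ((c⁻¹ • X) * RR J i2 i1 (xh s) + Z)) *ᵥ i2 q
      = c⁻¹ • (θ (evl g2 q (x s)) - b0 q) := by
    intro s q
    have e1 : gᵀ * J * ((c⁻¹ • X) * RR J i2 i1 (xh s) + Z)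
        = c⁻¹ • ((gᵀ * J * X) * RR J i2 i1 (xh s)) + gᵀ * J * Z := by
      rw [Matrix.mul_add]
      simp only [Matrix.smul_mul, Matrix.mul_smul, Matrix.mul_assoc]
    rw [e1, add_mulVec, smul_mulVec, ← mulVec_mulVec, RR_vec hD.J_symm hS.hi1 _ _ (hS.hi2 q),
      ← hS.hθπ, π_eva hg2, hlft, hb0', smul_sub, smul_neg, smul_smul, inv_mul_cancel₀ hc,
      one_smul, sub_neg_eq_add]
  have hrel : ∀ s p, (gᵀ * J * X * g * E K arm s * B) *ᵥ (b0 p) - c • b0 (Bo s p)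
      = θ (A s (evl g2 p (x s)) - c • evl g2 (Bo s p) (x s)) := by
    intro s p
    have h1 := hint s (i2 p) (hS.hi2 p)
    have e1 : gᵀ * J * (c⁻¹ • X) * (M arm B s g g * J) * ((c⁻¹ • X) * RR J i2 i1 (xh s) + Z)
        = (c⁻¹ • (gᵀ * J * X * g * E K arm s * B)) *
          (gᵀ * J * ((c⁻¹ • X) * RR J i2 i1 (xh s) + Z)) := by
      unfold M
      simp only [Matrix.smul_mul, Matrix.mul_smul, Matrix.mul_assoc]
    have l1 : (gᵀ * J * (c⁻¹ • X) * (M arm B s g g * J) * ((c⁻¹ • X) * RR J i2 i1 (xh s) + Z))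
        *ᵥ i2 p = (c⁻¹ • (gᵀ * J * X * g * E K arm s * B)) *ᵥ
          (c⁻¹ • (θ (evl g2 p (x s)) - b0 p)) := by
      rw [e1, ← mulVec_mulVec, hζ]
    have l2 : (gᵀ * J * ((c⁻¹ • X) * RR J i2 i1 (xh s) + Z) * (M arm B s f f * J)) *ᵥ i2 p
        = c⁻¹ • (θ (evl g2 (Bo s p) (x s)) - b0 (Bo s p)) := by
      rw [← mulVec_mulVec, hMf, hζ]
    rw [l1, l2, smul_mulVec, mulVec_smul] at h1
    have h2 := congrArg (fun y => (c * c) • y) h1
    simp only [smul_smul] at h2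
    have e2 : c * c * (c⁻¹ * c⁻¹) = 1 := by field_simp
    have e3 : c * c * c⁻¹ = c := by field_simp
    rw [e2, e3, one_smul, mulVec_sub, smul_sub, ← hAY] at h2
    rw [map_sub, map_smul]
    have h3 : (gᵀ * J * X * g * E K arm s * B) *ᵥ b0 p
        = θ (A s (evl g2 p (x s))) - (c • θ (evl g2 (Bo s p) (x s)) - c • b0 (Bo s p)) := by
      rw [← h2]; abel
    rw [h3]; abel
  have hrel' : ∀ s p, A s (evl g2 p (x s)) - c • evl g2 (Bo s p) (x s) ∈ R1 := by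
    intro s p
    rw [← evl_DD (hself s)]
    exact evl_mem hgR p (hxa s)
  -- values
  have hval : ∀ p, b0 p ∈ R1.map θ := by
    have h0 : (R1.map θ).mkQ ∘ₗ b0 = 0 := by
      apply tw1
      intro s p y hy
      have hy' : y - b0 p ∈ R1.map θ := by
        rw [← Submodule.Quotient.mk_eq_zero]
        have : (R1.map θ).mkQ (y - b0 p) = 0 := by
          rw [map_sub, hy]; exact sub_self _
        exact this
      obtain ⟨r, hr, hry⟩ := hy'
      have e1 : (gᵀ * J * X * g * E K arm s * B) *ᵥ y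
          = θ (A s r) + θ (A s (evl g2 p (x s)) - c • evl g2 (Bo s p) (x s))
            + c • b0 (Bo s p) := by
        rw [← hrel, hAY, hry, mulVec_sub]; abel
      rw [e1, map_add, map_add, map_smul]
      have z1 : (R1.map θ).mkQ (θ (A s r)) = 0 :=
        (Submodule.Quotient.mk_eq_zero _).2 ⟨_, hR1 s r hr, rfl⟩
      have z2 : (R1.map θ).mkQ (θ (A s (evl g2 p (x s)) - c • evl g2 (Bo s p) (x s))) = 0 :=
        (Submodule.Quotient.mk_eq_zero _).2 ⟨_, hrel' s p, rfl⟩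
      rw [z1, z2, zero_add, zero_add]
      rfl
    intro p
    have := LinearMap.congr_fun h0 p
    exact (Submodule.Quotient.mk_eq_zero _).1 this
  choose b' hb'1 hb'2 using hval
  let b : P2 →ₗ[K] P1 :=
    { toFun := b'
      map_add' := fun p q => hS.hθ (by rw [hb'2, map_add, map_add, hb'2, hb'2])
      map_smul' := fun t p => hS.hθ (by rw [hb'2, map_smul, map_smul, hb'2]; rfl) }
  have hb : ∀ p, θ (b p) = b0 p := hb'2
  refine ⟨b, Z, Q, xh, hb'1, fun s p => hS.hθ ?_, ⟨hF.skw, hF.Zg, hF.stb, hF.flag, hlft,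
    fun p => ?_, ?_⟩⟩
  · rw [map_sub, map_smul, hAY, hb, hb]; exact hrel s p
  · rw [hb, hb0', smul_neg, neg_neg, smul_smul, inv_mul_cancel₀ hc, one_smul]
  -- `valS`
  · set T2 := SS J g ⊔ R2.map i2 with hT2
    have hT2M : ∀ s y, y ∈ T2 → (M arm B s f f * J) *ᵥ y ∈ T2 := by
      intro s y hy
      obtain ⟨y1, hy1, y2, hy2, rfl⟩ := Submodule.mem_sup.1 hy
      obtain ⟨r, hr, rfl⟩ := hy2
      rw [mulVec_add, MJ_SS hgf hD.J_symm s hy1, zero_add, hMf]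
      exact (le_sup_right : R2.map i2 ≤ T2) ⟨_, hR2 s r hr, rfl⟩
    have hadj : ∀ a w : ι → K, (Z *ᵥ a) ⬝ᵥ (J *ᵥ w) = - (a ⬝ᵥ (J *ᵥ (Z *ᵥ w))) := by
      intro a w
      rw [← vecMul_transpose, ← dotProduct_mulVec, mulVec_mulVec, hF.skw.eq, neg_mulVec,
        dotProduct_neg, mulVec_mulVec]
    have hadjX : ∀ a w : ι → K, (X *ᵥ a) ⬝ᵥ (J *ᵥ w) = - (a ⬝ᵥ (J *ᵥ (X *ᵥ w))) := by
      intro a w
      rw [← vecMul_transpose, ← dotProduct_mulVec, mulVec_mulVec, hXs.eq, neg_mulVec,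
        dotProduct_neg, mulVec_mulVec]
    have hadjR : ∀ s, ∀ a w : ι → K, (RR J i2 i1 (xh s) *ᵥ a) ⬝ᵥ (J *ᵥ w)
        = - (a ⬝ᵥ (J *ᵥ (RR J i2 i1 (xh s) *ᵥ w))) := by
      intro s a w
      rw [← vecMul_transpose, ← dotProduct_mulVec, mulVec_mulVec, (hRskw s).eq, neg_mulVec,
        dotProduct_neg, mulVec_mulVec]
    have hadjM : ∀ (F : Matrix ι δ K) s, ∀ a w : ι → K, ((M arm B s F F * J) *ᵥ a) ⬝ᵥ (J *ᵥ w)
        = a ⬝ᵥ (J *ᵥ ((M arm B s F F * J) *ᵥ w)) := by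
      intro F s a w
      rw [← vecMul_transpose, ← dotProduct_mulVec, mulVec_mulVec, mulVec_mulVec, transpose_mul,
        M_tr hD, hD.J_symm]
      simp only [Matrix.mul_assoc]
    have h0 : T2.mkQ ∘ₗ (Z.mulVecLin ∘ₗ i1) = 0 := by
      apply tw2
      intro s v y hy
      obtain ⟨u, hu⟩ := hS.hi1 v
      set R := RR J i2 i1 (xh s) with hR
      have hy' : y - Z *ᵥ i1 v ∈ T2 := by
        rw [← Submodule.Quotient.mk_eq_zero]
        have : T2.mkQ (y - Z *ᵥ i1 v) = 0 := by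
          rw [map_sub, hy]; exact sub_self _
        exact this
      -- the adjoint identity
      have hy0 : (M arm B s f f * J) *ᵥ (R *ᵥ ((c⁻¹ • X) *ᵥ i1 v) - Z *ᵥ i1 v)
          + (R *ᵥ ((c⁻¹ • X) *ᵥ (c⁻¹ • i1 (Φ s v))) - Z *ᵥ (c⁻¹ • i1 (Φ s v))) ∈ SS J g := by
        intro w hw
        have hX' : ∀ a w : ι → K, ((c⁻¹ • X) *ᵥ a) ⬝ᵥ (J *ᵥ w)
            = - (a ⬝ᵥ (J *ᵥ ((c⁻¹ • X) *ᵥ w))) := by
          intro a w
          rw [smul_mulVec, smul_mulVec, smul_dotProduct, hadjX, mulVec_smul, dotProduct_smul,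
            smul_neg]
        have hRZ : ∀ a w : ι → K, (R *ᵥ ((c⁻¹ • X) *ᵥ a) - Z *ᵥ a) ⬝ᵥ (J *ᵥ w)
            = a ⬝ᵥ (J *ᵥ (((c⁻¹ • X) * R + Z) *ᵥ w)) := by
          intro a w
          rw [sub_dotProduct, hR, hadjR, hX', hadj, neg_neg, sub_neg_eq_add, add_mulVec,
            mulVec_add, dotProduct_add, ← mulVec_mulVec]
        have ha1 : c⁻¹ • i1 (Φ s v) = (M arm B s g g * J) *ᵥ ((c⁻¹ • X) *ᵥ i1 v) := by
          rw [hS.hΦ, smul_mulVec, mulVec_smul, mulVec_mulVec]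
        have h1 := hint s w hw
        rw [← hR] at h1
        rw [add_dotProduct, hadjM, hRZ, hRZ, ha1, hadjM, hX', hu]
        have h2 : ∀ y : ι → K, (g *ᵥ u) ⬝ᵥ (J *ᵥ y) = u ⬝ᵥ ((gᵀ * J) *ᵥ y) := by
          intro y
          rw [← vecMul_transpose, ← dotProduct_mulVec, mulVec_mulVec]
        rw [h2, h2, ← sub_eq_add_neg, ← dotProduct_sub]
        have h3 : (gᵀ * J) *ᵥ (((c⁻¹ • X) * R + Z) *ᵥ ((M arm B s f f * J) *ᵥ w))
            = (gᵀ * J) *ᵥ ((c⁻¹ • X) *ᵥ ((M arm B s g g * J) *ᵥ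
              (((c⁻¹ • X) * R + Z) *ᵥ w))) := by
          rw [mulVec_mulVec, mulVec_mulVec, mulVec_mulVec, mulVec_mulVec, mulVec_mulVec, ← h1]
        rw [h3, sub_self, dotProduct_zero]
      -- the `R` parts
      have hRa : R *ᵥ ((c⁻¹ • X) *ᵥ i1 v) - c⁻¹ • i2 (evr (lu θ u) (x s)) ∈ SS J g := by
        have := (SS J g).smul_mem c⁻¹ (RXa (i2 := i2) hD.J_symm hXs hS.hi1 hS.hθπ u (xh s))
        rw [hlft, ← hu, smul_sub, ← hR, ← mulVec_smul, ← smul_mulVec] at this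
        exact this
      set us := (E K arm s * B) *ᵥ ((gᵀ * J * X) *ᵥ i1 v) with hus
      have hu2 : i1 (Φ s v) = g *ᵥ us := by
        rw [hS.hΦ, hus, mulVec_mulVec, mulVec_mulVec]
        congr 1
        unfold M; simp only [Matrix.mul_assoc]
      have hRb : R *ᵥ ((c⁻¹ • X) *ᵥ (c⁻¹ • i1 (Φ s v)))
          - (c⁻¹ * c⁻¹) • i2 (evr (lu θ us) (x s)) ∈ SS J g := by
        have := (SS J g).smul_mem (c⁻¹ * c⁻¹) (RXa (i2 := i2) hD.J_symm hXs hS.hi1 hS.hθπ us (xh s))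
        rw [hlft, ← hu2, smul_sub, ← hR] at this
        rw [mulVec_smul, smul_mulVec, mulVec_smul, mulVec_smul, smul_smul]
        exact this
      have hlus : lu θ u ∘ₗ A s = - lu θ us := by
        ext q
        rw [LinearMap.comp_apply, lu_apply, LinearMap.neg_apply, lu_apply, hAY]
        have hsk : (gᵀ * J * (X * g))ᵀ = - (gᵀ * J * (X * g)) := skew_gXg hD.J_symm hXs g
        rw [dotProduct_comm, dotProduct_mulVec, dotProduct_comm, hus, hu, ← mulVec_transpose]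
        have e5 : (gᵀ * J * X * g * E K arm s * B)ᵀ
            = - ((E K arm s * B) * (gᵀ * J * X * g)) := by
          have e6 : gᵀ * J * X * g * E K arm s * B = (gᵀ * J * (X * g)) * (E K arm s * B) := by
            simp only [Matrix.mul_assoc]
          rw [e6, transpose_mul, hsk, transpose_mul, hD.B_symm, E_transpose, ← hD.B_arm,
            Matrix.mul_neg]
          simp only [Matrix.mul_assoc]
        rw [e5, neg_mulVec, dotProduct_neg, mulVec_mulVec, mulVec_mulVec]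
        simp only [Matrix.mul_assoc]
      have hfin : c⁻¹ • i2 (Bo s (evr (lu θ u) (x s)))
          + (c⁻¹ * c⁻¹) • i2 (evr (lu θ us) (x s)) ∈ T2 := by
        have e7 : evr (lu θ us) (x s) = - evr (lu θ u) ((A s).lTensor P2 (x s)) := by
          rw [evr_A, hlus]
          have : ∀ z : P2 ⊗[K] P1, evr (- lu θ us) z = - evr (lu θ us) z := by
            intro z
            induction z using TensorProduct.induction_on with
            | zero => simp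
            | add x y hx hy => rw [map_add, map_add, hx, hy, neg_add]
            | tmul p q => rw [evr_tmul, evr_tmul, LinearMap.neg_apply, neg_smul]
          rw [this, neg_neg]
        have e8 : c⁻¹ • i2 (Bo s (evr (lu θ u) (x s)))
            + (c⁻¹ * c⁻¹) • i2 (evr (lu θ us) (x s))
            = i2 (-(c⁻¹ * c⁻¹) • evr (lu θ u)
              (((A s).lTensor P2 - c • (Bo s).rTensor P1) (x s))) := by
          have e9 : evr (lu θ u) (((A s).lTensor P2 - c • (Bo s).rTensor P1) (x s))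
              = evr (lu θ u) ((A s).lTensor P2 (x s)) - c • (Bo s (evr (lu θ u) (x s))) := by
            rw [LinearMap.sub_apply, LinearMap.smul_apply, map_sub (evr (lu θ u)),
              map_smul (evr (lu θ u)), evr_B]
          rw [e7, e9, ← map_smul i2, ← map_smul i2, ← map_add i2]
          congr 1
          rw [smul_sub, smul_smul, neg_mul, mul_assoc, inv_mul_cancel₀ hc, mul_one, smul_neg,
            neg_smul, neg_smul, sub_neg_eq_add, add_comm]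
        rw [e8]
        refine (le_sup_right : R2.map i2 ≤ T2) ⟨_, R2.smul_mem _ (evr_mem ?_ (hxa s)), rfl⟩
        intro r hr
        exact hθR r hr v u hu
      -- conclusion
      have hMR : (M arm B s f f * J) *ᵥ (R *ᵥ ((c⁻¹ • X) *ᵥ i1 v))
          = c⁻¹ • i2 (Bo s (evr (lu θ u) (x s))) := by
        have := MJ_SS (arm := arm) (B := B) hgf hD.J_symm s hRa
        rw [mulVec_sub, sub_eq_zero, mulVec_smul, hMf] at this
        exact this
      have hgoal : (M arm B s f f * J) *ᵥ y + c⁻¹ • (Z *ᵥ i1 (Φ s v)) ∈ T2 := by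
        have a1 := hT2M s _ hy'
        have a2 := (le_sup_left : SS J g ≤ T2) hy0
        have a3 := (le_sup_left : SS J g ≤ T2) hRb
        have a4 := T2.sub_mem (T2.add_mem (T2.add_mem a1 hfin) a3) a2
        convert a4 using 1
        rw [mulVec_sub, mulVec_sub, hMR, mulVec_smul Z]
        abel
      have := (Submodule.Quotient.mk_eq_zero T2).2 hgoal
      have h9 : T2.mkQ ((M arm B s f f * J) *ᵥ y) + c⁻¹ • T2.mkQ (Z *ᵥ i1 (Φ s v)) = 0 := by
        rw [← map_smul, ← map_add]; exact this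
      exact eq_neg_of_add_eq_zero_left h9
    intro v
    have := LinearMap.congr_fun h0 v
    exact (Submodule.Quotient.mk_eq_zero _).1 this

end Crest.Agent.R172.QBrQ
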