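import Crest.Agent.R172.QBrQ3
import Crest.Agent.R172.QEndQ2
import Crest.Agent.R172.RJM

/-!
Row 172 (S0260), (Q1)/(t3): the bridge, part 4: the Q-side product and the application of `RJM.main`.
-/

set_option autoImplicit false
set_option linter.unusedSectionVars false
set_option linter.unusedFintypeInType false
set_option linter.unusedDecidableInType false
set_option maxHeartbeats 1600000

namespace Crest.Agent.R172.QBrQ

open Matrix Module Crest.Agent.R172.FO Crest.Agent.R172.Qt Crest.Agent.R172.QEndQ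
open scoped TensorProduct

variable {ι : Type*} [Fintype ι] [DecidableEq ι] {δ : Type*} [Fintype δ] [DecidableEq δ]
variable {k K : Type*} [Field k] [Field K] [Algebra k K]
variable {arm : δ → Fin 3} {J : Matrix ι ι K} {B : Matrix δ δ K}
  {N W : Submodule K (Matrix ι δ K)} {g f : Matrix ι δ K} {X : Matrix ι ι K}
variable {P2 Ph P1 : Type*} [AddCommGroup P2] [Module K P2] [AddCommGroup Ph] [Module K Ph]
  [AddCommGroup P1] [Module K P1]
variable {i2 : P2 →ₗ[K] (ι → K)} {Bo : Fin 3 → End K P2}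
  {i1 : Ph →ₗ[K] (ι → K)} {Φ : Fin 3 → End K Ph} {π : Ph →ₗ[K] P1} {θ : P1 →ₗ[K] (δ → K)}
  {A : Fin 3 → End K P1}

/-- `p2 ⊗ p1 ↦ p2 (θ p1)ᵀ` -/
noncomputable def nn (i2 : P2 →ₗ[K] (ι → K)) (θ : P1 →ₗ[K] (δ → K)) :
    P2 ⊗[K] P1 →ₗ[K] Matrix ι δ K :=
  TensorProduct.lift (LinearMap.mk₂ K (fun p q => vecMulVec (i2 p) (θ q))
    (fun a b v => by rw [map_add, add_vecMulVec]) (fun c a v => by rw [map_smul, smul_vecMulVec])
    (fun a v v' => by rw [map_add, vecMulVec_add])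
    (fun c a v => by rw [map_smul, vecMulVec_smul]))

theorem nn_tmul (p : P2) (q : P1) : nn i2 θ (p ⊗ₜ[K] q) = vecMulVec (i2 p) (θ q) := by
  rw [nn, TensorProduct.lift.tmul]; rfl

theorem gJ_nn (hi2 : ∀ p, (gᵀ * J) *ᵥ i2 p = 0) (x : P2 ⊗[K] P1) :
    gᵀ * J * nn i2 θ x = 0 := by
  induction x using TensorProduct.induction_on with
  | zero => rw [map_zero, Matrix.mul_zero]
  | add x y hx hy => rw [map_add, Matrix.mul_add, hx, hy, add_zero]
  | tmul p q =>
    rw [nn_tmul, mul_vecMulVec, hi2]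
    ext a b; simp [vecMulVec_apply]

theorem RR_Xg (hJ : Jᵀ = J) (hX : Skw J X) (hi1 : ∀ v, ∃ u, i1 v = g *ᵥ u)
    (hθπ : ∀ v, θ (π v) = (gᵀ * J * X) *ᵥ i1 v) (x : P2 ⊗[K] Ph) :
    ∃ C : Matrix δ δ K, RR J i2 i1 x * (X * g) = nn i2 θ (π.lTensor P2 x) + g * C := by
  induction x using TensorProduct.induction_on with
  | zero => exact ⟨0, by rw [RR_zero, Matrix.zero_mul, map_zero, map_zero, Matrix.mul_zero,
      add_zero]⟩
  | add x y hx hy =>
    obtain ⟨C, hC⟩ := hx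
    obtain ⟨D, hD⟩ := hy
    exact ⟨C + D, by rw [RR_add, Matrix.add_mul, hC, hD, map_add, map_add, Matrix.mul_add]; abel⟩
  | tmul p v =>
    obtain ⟨u', hu'⟩ := hi1 v
    refine ⟨vecMulVec u' ((J *ᵥ i2 p) ᵥ* (X * g)), ?_⟩
    rw [RR_tmul, Matrix.sub_mul, vecMulVec_mul, vecMulVec_mul, LinearMap.lTensor_tmul, nn_tmul,
      hθπ]
    have h1 : (J *ᵥ i1 v) ᵥ* (X * g) = - ((gᵀ * J * X) *ᵥ i1 v) := by
      rw [← mulVec_transpose, mulVec_mulVec, transpose_mul]
      have : gᵀ * Xᵀ * J = - (gᵀ * J * X) := by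
        rw [Matrix.mul_assoc, hX.eq, Matrix.mul_neg, Matrix.mul_assoc]
      rw [this, neg_mulVec]
    have h2 : vecMulVec (i1 v) ((J *ᵥ i2 p) ᵥ* (X * g))
        = g * vecMulVec u' ((J *ᵥ i2 p) ᵥ* (X * g)) := by
      rw [mul_vecMulVec, ← hu']
    rw [h1, ← h2]
    ext a b
    simp [vecMulVec_apply]
    ring

/-- `-W'ᵀ J W` in tensor form -/
theorem form_eq (hJ : Jᵀ = J) {g2 : P2 →ₗ[K] P2 →ₗ[K] K}
    (hg2 : ∀ p p', g2 p p' = i2 p ⬝ᵥ (J *ᵥ i2 p')) {Z Z' : Matrix ι ι K} (hZ' : Skw J Z')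
    (hZ : Skw J Z)
    {b b' : P2 →ₗ[K] P1} {c c' : K}
    (hb : ∀ p, (gᵀ * J * Z) *ᵥ i2 p = - (c⁻¹ • θ (b p)))
    (hb' : ∀ p, (gᵀ * J * Z') *ᵥ i2 p = - (c'⁻¹ • θ (b' p))) (x x' : P2 ⊗[K] P1) :
    (Z' * g - c'⁻¹ • nn i2 θ x')ᵀ * J * (Z * g - c⁻¹ • nn i2 θ x)
      = (Z' * g)ᵀ * J * (Z * g)
        - (c⁻¹ * c'⁻¹) • (TensorProduct.lift ((mm θ) ∘ₗ b') x
          + TensorProduct.lift ((mm θ).flip ∘ₗ b) x'
          - TensorProduct.lift ((mm θ) ∘ₗ (RJM.ev g2 x')) x) := by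
  have e1 : ∀ x : P2 ⊗[K] P1, (Z' * g)ᵀ * J * nn i2 θ x
      = c'⁻¹ • TensorProduct.lift ((mm θ) ∘ₗ b') x := by
    intro x
    induction x using TensorProduct.induction_on with
    | zero => rw [map_zero, map_zero, Matrix.mul_zero, smul_zero]
    | add x y hx hy => rw [map_add, map_add, Matrix.mul_add, hx, hy, smul_add]
    | tmul p q =>
      rw [nn_tmul, mul_vecMulVec, TensorProduct.lift.tmul, LinearMap.comp_apply, mm_apply]
      have h1 : ((Z' * g)ᵀ * J) *ᵥ i2 p = c'⁻¹ • θ (b' p) := by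
        have : (Z' * g)ᵀ * J = - (gᵀ * J * Z') := by
          rw [transpose_mul, Matrix.mul_assoc, hZ'.eq, Matrix.mul_neg, Matrix.mul_assoc]
        rw [this, neg_mulVec, hb', neg_neg]
      rw [h1, smul_vecMulVec]
  have e2 : ∀ x : P2 ⊗[K] P1, (nn i2 θ x)ᵀ * J * (Z * g)
      = c⁻¹ • TensorProduct.lift ((mm θ).flip ∘ₗ b) x := by
    intro x
    induction x using TensorProduct.induction_on with
    | zero => rw [map_zero, map_zero, transpose_zero, Matrix.zero_mul, Matrix.zero_mul, smul_zero]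
    | add x y hx hy =>
      rw [map_add, map_add, transpose_add, Matrix.add_mul, Matrix.add_mul, hx, hy, smul_add]
    | tmul p q =>
      rw [nn_tmul, transpose_vecMulVec, TensorProduct.lift.tmul, LinearMap.comp_apply,
        LinearMap.flip_apply, mm_apply, vecMulVec_mul, vecMulVec_mul]
      have h1 : (i2 p ᵥ* J) ᵥ* (Z * g) = c⁻¹ • θ (b p) := by
        rw [vecMul_vecMul, ← mulVec_transpose]
        have : (J * (Z * g))ᵀ = - (gᵀ * J * Z) := by
          rw [transpose_mul, transpose_mul, hJ, Matrix.mul_assoc, hZ.eq, Matrix.mul_neg,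
            Matrix.mul_assoc]
        rw [this, neg_mulVec, hb, neg_neg]
      rw [h1, vecMulVec_smul]
  have e3 : ∀ x x' : P2 ⊗[K] P1, (nn i2 θ x')ᵀ * J * nn i2 θ x
      = TensorProduct.lift ((mm θ) ∘ₗ (RJM.ev g2 x')) x := by
    intro x x'
    induction x using TensorProduct.induction_on with
    | zero => rw [map_zero, map_zero, Matrix.mul_zero]
    | add x y hx hy => rw [map_add, map_add, Matrix.mul_add, hx, hy]
    | tmul p q =>
      induction x' using TensorProduct.induction_on with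
      | zero =>
        rw [map_zero, map_zero, transpose_zero, Matrix.zero_mul, Matrix.zero_mul]
        simp
      | add x y hx hy =>
        rw [map_add, transpose_add, Matrix.add_mul, Matrix.add_mul, hx, hy, map_add,
          LinearMap.comp_add]
        rw [TensorProduct.lift.tmul, TensorProduct.lift.tmul, TensorProduct.lift.tmul,
          LinearMap.add_apply, LinearMap.add_apply]
      | tmul p' q' =>
        rw [nn_tmul, nn_tmul, transpose_vecMulVec, TensorProduct.lift.tmul,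
          LinearMap.comp_apply, RJM.ev_tmul, mm_apply, hg2, map_smul, vecMulVec_mul,
          vecMulVec_mul_vecMulVec, smul_vecMulVec]
        rw [vecMulVec_smul, dotProduct_mulVec]
  rw [transpose_sub, transpose_smul, Matrix.sub_mul, Matrix.sub_mul, Matrix.mul_sub,
    Matrix.mul_sub]
  simp only [Matrix.mul_smul, Matrix.smul_mul]
  rw [e1, e2, e3]
  simp only [smul_smul, smul_sub, smul_add]
  rw [mul_comm c'⁻¹ c⁻¹]
  abel

/-- **the Q-side product.** -/
theorem hrelQ (h : Ctx k arm J B N W g) {X : Matrix ι ι K} (hX : Skw J X)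
    (hS : Su arm J B g f X i2 Bo i1 Φ π θ A) {g2 : P2 →ₗ[K] P2 →ₗ[K] K}
    (hg2 : ∀ p p', g2 p p' = i2 p ⬝ᵥ (J *ᵥ i2 p')) {R2 : Submodule K P2}
    (hgR : ∀ r ∈ R2, ∀ p, g2 r p = 0)
    {U : Submodule K (δ → K)} (hU : ∀ u ∈ U, ∃ v, i1 v = g *ᵥ u)
    {c c' : K} (hc : c ≠ 0) (hc' : c' ≠ 0) {x x' : Fin 3 → P2 ⊗[K] P1} {b b' : P2 →ₗ[K] P1}
    {Z Z' : Matrix ι ι K} {Q Q' : Fin 3 → Matrix ι ι K} {xh xh' : Fin 3 → P2 ⊗[K] Ph}
    (hP : Pk arm J N g X i2 i1 π θ R2 c x b Z Q xh)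
    (hP' : Pk arm J N g X i2 i1 π θ R2 c' x' b' Z' Q' xh') :
    ∑ t, ((1 : K) • TensorProduct.lift ((qt θ t) ∘ₗ b') (x t)
        + (1 : K) • TensorProduct.lift ((qt θ t).flip ∘ₗ b) (x' t)
        + (-1 : K) • TensorProduct.lift ((qt θ t) ∘ₗ (RJM.ev g2 (x' t))) (x t))
      ∈ TT arm J N g U := by
  have hD := h.data
  -- `Q_s g`
  have hQg : ∀ {c : K} {x : Fin 3 → P2 ⊗[K] P1} {b : P2 → P1} {Z : Matrix ι ι K}
      {Q : Fin 3 → Matrix ι ι K} {xh : Fin 3 → P2 ⊗[K] Ph}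
      (_ : Pk arm J N g X i2 i1 π θ R2 c x b Z Q xh) (s : Fin 3),
      ∃ D : Matrix δ δ K, Q s * g = (Z * g - c⁻¹ • nn i2 θ (x s)) + g * D := by
    intro c x b Z Q xh hP s
    obtain ⟨C, hC⟩ := hP.flag s
    obtain ⟨D, hD'⟩ := RR_Xg hD.J_symm hX hS.hi1 hS.hθπ (xh s)
    rw [hP.lft] at hD'
    refine ⟨- (C + c⁻¹ • D), ?_⟩
    have h1 : (Z - (RR J i2 i1 (xh s) * (c⁻¹ • X) - (c⁻¹ • X) * RR J i2 i1 (xh s)) - Q s) * g
        = Z * g - c⁻¹ • (RR J i2 i1 (xh s) * (X * g)) - Q s * g := by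
      have h2 : RR J i2 i1 (xh s) * g = 0 := RR_g hD.J_symm h.iso hS.hi2 hS.hi1 _
      rw [Matrix.sub_mul, Matrix.sub_mul, Matrix.sub_mul, Matrix.mul_assoc (c⁻¹ • X), h2,
        Matrix.mul_zero, sub_zero, Matrix.mul_smul, Matrix.smul_mul, Matrix.mul_assoc]
    rw [h1, hD', smul_add] at hC
    rw [Matrix.mul_neg, Matrix.mul_add, Matrix.mul_smul, ← hC]
    abel
  choose D hDD using hQg hP
  choose D' hDD' using hQg hP'
  have hgW : ∀ {c : K} {b : P2 → P1} {x : Fin 3 → P2 ⊗[K] P1} {Z : Matrix ι ι K}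
      {Q : Fin 3 → Matrix ι ι K} {xh : Fin 3 → P2 ⊗[K] Ph}
      (_ : Pk arm J N g X i2 i1 π θ R2 c x b Z Q xh) (y : P2 ⊗[K] P1),
      gᵀ * J * (Z * g - c⁻¹ • nn i2 θ y) = 0 := by
    intro c b x Z Q xh hP y
    rw [Matrix.mul_sub, hP.Zg, Matrix.mul_smul, gJ_nn hS.hi2, smul_zero, sub_zero]
  have hprod : ∀ s, gᵀ * J * (Q' s * Q s * g)
      = - ((Z' * g - c'⁻¹ • nn i2 θ (x' s))ᵀ * J * (Z * g - c⁻¹ • nn i2 θ (x s))) := by
    intro s
    have h1 : gᵀ * J * (Q' s * Q s * g) = - ((Q' s * g)ᵀ * J * (Q s * g)) := by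
      rw [transpose_mul, Matrix.mul_assoc gᵀ (Q' s)ᵀ, (hP'.stb.skw s).eq]
      simp only [Matrix.mul_neg, Matrix.neg_mul, Matrix.mul_assoc, neg_neg]
    rw [h1, hDD, hDD']
    congr 1
    have h2 := hgW hP (x s)
    have h3 := hgW hP' (x' s)
    have h4 : (Z' * g - c'⁻¹ • nn i2 θ (x' s))ᵀ * J * g = 0 := by
      have := congrArg transpose h3
      rw [transpose_mul (gᵀ * J), transpose_mul gᵀ, transpose_transpose, hD.J_symm,
        transpose_zero, ← Matrix.mul_assoc] at this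
      exact this
    rw [transpose_add, Matrix.add_mul, Matrix.add_mul, Matrix.mul_add, Matrix.mul_add,
      ← Matrix.mul_assoc _ g (D s), h4, Matrix.zero_mul, add_zero, transpose_mul]
    have h5 : (D' s)ᵀ * gᵀ * J * (Z * g - c⁻¹ • nn i2 θ (x s)) = 0 := by
      rw [Matrix.mul_assoc (D' s)ᵀ, Matrix.mul_assoc (D' s)ᵀ, h2, Matrix.mul_zero]
    have h6 : (D' s)ᵀ * gᵀ * J * (g * D s) = 0 := by
      calc (D' s)ᵀ * gᵀ * J * (g * D s) = (D' s)ᵀ * ((gᵀ * J * g) * D s) := by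
            simp only [Matrix.mul_assoc]
        _ = 0 := by rw [h.iso, Matrix.zero_mul, Matrix.mul_zero]
    rw [h5, h6, add_zero, add_zero]
  refine ⟨(c * c') • (Z' * Z), fun s => (c * c') • (Q' s * Q s), ?_, ?_, ?_⟩
  · have h1 : act arm (fun s => (c * c') • (Q' s * Q s)) g
        = (c * c') • act arm Q' (act arm Q g) := by
      rw [act_act', ← act_smul_left]
    rw [h1]
    exact N.smul_mem _ (hP'.stb.pres _ (hP.stb.pres _ h.memN))
  · intro u hu u' hu'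
    obtain ⟨v, hv⟩ := hU u hu
    obtain ⟨v', hv'⟩ := hU u' hu'
    have hZZ : u ⬝ᵥ ((gᵀ * J * (Z' * Z * g)) *ᵥ u')
        = - ((Z' *ᵥ i1 v) ⬝ᵥ (J *ᵥ (Z *ᵥ i1 v'))) := by
      have h1 : gᵀ * J * (Z' * Z * g) = - ((Z' * g)ᵀ * J * (Z * g)) := by
        rw [transpose_mul, Matrix.mul_assoc gᵀ Z'ᵀ, hP'.skw.eq]
        simp only [Matrix.mul_neg, Matrix.neg_mul, Matrix.mul_assoc, neg_neg]
      rw [h1, neg_mulVec, dotProduct_neg, hv, hv']
      congr 1
      rw [← mulVec_mulVec, ← mulVec_mulVec, dotProduct_mulVec, vecMul_transpose]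
      simp only [mulVec_mulVec, Matrix.mul_assoc]
    have hz : (Z' *ᵥ i1 v) ⬝ᵥ (J *ᵥ (Z *ᵥ i1 v')) = 0 := by
      obtain ⟨y', hy', y2', ⟨r', hr', rfl⟩, e'⟩ := Submodule.mem_sup.1 (hP'.valS v)
      obtain ⟨y, hy, y2, ⟨r, hr, rfl⟩, e⟩ := Submodule.mem_sup.1 (hP.valS v')
      have hZv : (gᵀ * J) *ᵥ (Z *ᵥ i1 v') = 0 := by
        rw [hv', mulVec_mulVec, mulVec_mulVec, ]
        have : gᵀ * J * Z * g = 0 := by
          rw [Matrix.mul_assoc (gᵀ * J), hP.Zg]
        rw [this, zero_mulVec]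
      have hyS : (gᵀ * J) *ᵥ y = 0 := by
        have : y = Z *ᵥ i1 v' - i2 r := by rw [← e]; abel
        rw [this, mulVec_sub, hZv, hS.hi2, sub_zero]
      rw [← e', add_dotProduct, hy' _ hZv, zero_add, ← e, mulVec_add, dotProduct_add, ← hg2,
        hgR r' hr', add_zero]
      have h1 := hy (i2 r') (hS.hi2 r')
      rw [← h1, dotProduct_mulVec, ← mulVec_transpose, hD.J_symm, dotProduct_comm]
    rw [Matrix.smul_mul, Matrix.mul_smul, Matrix.smul_mulVec, dotProduct_smul, hZZ, hz, neg_zero,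
      smul_zero]
  · intro s
    have hform := form_eq (g := g) hD.J_symm hg2 hP'.skw hP.skw hP.val hP'.val (x s) (x' s)
    have h7 := hprod s
    rw [hform] at h7
    have hl : ∀ (β : P2 →ₗ[K] P1) (t : Fin 3) (z : P2 ⊗[K] P1),
        TensorProduct.lift ((qt θ t) ∘ₗ β) z
          = Pi.single t (TensorProduct.lift ((mm θ) ∘ₗ β) z) := by
      intro β t z
      induction z using TensorProduct.induction_on with
      | zero => simp
      | tmul a b => simp
      | add a b ha hb => rw [map_add, map_add, ha, hb, Pi.single_add]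
    have hl' : ∀ (β : P2 →ₗ[K] P1) (t : Fin 3) (z : P2 ⊗[K] P1),
        TensorProduct.lift ((qt θ t).flip ∘ₗ β) z
          = Pi.single t (TensorProduct.lift ((mm θ).flip ∘ₗ β) z) := by
      intro β t z
      induction z using TensorProduct.induction_on with
      | zero => simp
      | tmul a b => simp
      | add a b ha hb => rw [map_add, map_add, ha, hb, Pi.single_add]
    set Y : Fin 3 → Matrix δ δ K := fun s => TensorProduct.lift ((mm θ) ∘ₗ b') (x s)
          + TensorProduct.lift ((mm θ).flip ∘ₗ b) (x' s)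
          - TensorProduct.lift ((mm θ) ∘ₗ (RJM.ev g2 (x' s))) (x s) with hY
    have h8 : (∑ t, ((1 : K) • TensorProduct.lift ((qt θ t) ∘ₗ b') (x t)
        + (1 : K) • TensorProduct.lift ((qt θ t).flip ∘ₗ b) (x' t)
        + (-1 : K) • TensorProduct.lift ((qt θ t) ∘ₗ (RJM.ev g2 (x' t))) (x t))) s = Y s := by
      have h9 : ∀ t, ((1 : K) • TensorProduct.lift ((qt θ t) ∘ₗ b') (x t)
        + (1 : K) • TensorProduct.lift ((qt θ t).flip ∘ₗ b) (x' t)
        + (-1 : K) • TensorProduct.lift ((qt θ t) ∘ₗ (RJM.ev g2 (x' t))) (x t))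
          = Pi.single t (Y t) := by
        intro t
        rw [hl, hl', hl, one_smul, one_smul, neg_one_smul, ← Pi.single_neg, ← Pi.single_add,
          ← Pi.single_add, hY, ← sub_eq_add_neg]
      rw [Finset.sum_congr rfl fun t _ => h9 t, Finset.sum_apply, Finset.sum_pi_single]
      simp
    rw [h8]
    have h10 : (Z' * g)ᵀ * J * (Z * g) = - (gᵀ * J * (Z' * Z * g)) := by
      rw [transpose_mul, Matrix.mul_assoc gᵀ Z'ᵀ, hP'.skw.eq]
      simp only [Matrix.mul_neg, Matrix.neg_mul, Matrix.mul_assoc]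
    have h11 : c * c' * (c⁻¹ * c'⁻¹) = 1 := by field_simp
    simp only [Matrix.smul_mul, Matrix.mul_smul]
    have hYs : Y s = TensorProduct.lift ((mm θ) ∘ₗ b') (x s)
          + TensorProduct.lift ((mm θ).flip ∘ₗ b) (x' s)
          - TensorProduct.lift ((mm θ) ∘ₗ (RJM.ev g2 (x' s))) (x s) := rfl
    rw [← hYs] at h7
    rw [h7, h10, neg_sub, smul_sub, smul_smul, h11, one_smul, smul_neg, sub_eq_add_neg, neg_neg]

end Crest.Agent.R172.QBrQ
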