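import Crest.Agent.R172.Mix3

/-!
Row 172 (S0260), node Q-Core (helper28): the concrete data of `TameMix c G f X`.

Abstract part: operators `a : ι → End X` with a form `ω` (`ω x y = e ω y x`, `e = ± 1`,
`ω (a x) y = e₂ ω x (a y)`, `e₂ = ± 1`, `rad ω` killed by all `a s`):
`T a` = orthogonal of `Pinf a`, the form on the core is non-degenerate, the core operators are
`e₂`-adjoint.

Concrete part: (P) `X = S^⊥`, `a = aop`, `ω x y = xᵀ J y`, `e = e₂ = 1`;
(Q) `X = S = im G`, `a = Phi`, `ω = eta`, `e = e₂ = -1`.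
-/

set_option autoImplicit false
set_option linter.unusedSectionVars false
set_option linter.unusedFintypeInType false
set_option linter.unusedDecidableInType false

namespace Crest.Agent.R172.QC

open Module
open Crest.Agent.R172.St (T Nk mem_T T_stable T_closed mem_Nk_succ mem_Nk_zero Nk_le_T T_eq_Nk
  Nk_mono Nk_le_succ)
open Crest.Agent.R172.Mix

section abs

variable {K : Type*} [Field K] {X : Type*} [AddCommGroup X] [Module K X] {ι : Type*}

/-- one side of the mixed pair: a form `ω` with `ω x y = e ω y x`, `ω (a x) y = e₂ ω x (a y)`,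
`rad ω` killed by the operators. -/
structure Side (a : ι → End K X) (ω : X →ₗ[K] X →ₗ[K] K) (e e₂ : K) : Prop where
  symm : ∀ x y, ω x y = e * ω y x
  sq : e * e = 1
  adj : ∀ s x y, ω (a s x) y = e₂ * ω x (a s y)
  sq₂ : e₂ * e₂ = 1
  rad : ∀ v, (∀ y, ω v y = 0) → ∀ s, a s v = 0

variable {a : ι → End K X} {ω : X →ₗ[K] X →ₗ[K] K} {e e₂ : K}

theorem Side.e_ne (h : Side a ω e e₂) : e ≠ 0 := by
  intro h0; have := h.sq; rw [h0] at this; simp at this

theorem Side.e₂_ne (h : Side a ω e e₂) : e₂ ≠ 0 := by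
  intro h0; have := h.sq₂; rw [h0] at this; simp at this

theorem Side.adj' (h : Side a ω e e₂) (s : ι) (x y : X) : ω x (a s y) = e₂ * ω (a s x) y := by
  rw [h.adj, ← mul_assoc, h.sq₂, one_mul]

theorem Side.zero_comm (h : Side a ω e e₂) {x y : X} : ω x y = 0 ↔ ω y x = 0 := by
  rw [h.symm x y]
  constructor
  · intro h1
    rcases mul_eq_zero.1 h1 with h2 | h2
    · exact absurd h2 h.e_ne
    · exact h2
  · intro h1; rw [h1, mul_zero]

theorem Side.Nk_Rg (h : Side a ω e e₂) (k : ℕ) : ∀ v ∈ Nk a k, ∀ p ∈ Rg a k, ω v p = 0 := by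
  induction k with
  | zero => intro v hv p _; rw [mem_Nk_zero] at hv; rw [hv]; simp
  | succ k ih =>
    intro v hv p hp
    rw [mem_Nk_succ] at hv
    have hle : ⨆ s, (Rg a k).map (a s) ≤ LinearMap.ker (ω v) := by
      refine iSup_le fun s => ?_
      rintro _ ⟨q, hq, rfl⟩
      rw [LinearMap.mem_ker, h.adj', ih _ (hv s) q hq, mul_zero]
    exact hle hp

theorem Side.Rg_Nk (h : Side a ω e e₂) (k : ℕ) :
    ∀ v, (∀ p ∈ Rg a k, ω v p = 0) → v ∈ Nk a (k + 1) := by
  induction k with
  | zero =>
    intro v hv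
    rw [mem_Nk_succ]
    intro s
    rw [mem_Nk_zero]
    exact h.rad v (fun y => hv y trivial) s
  | succ k ih =>
    intro v hv
    rw [mem_Nk_succ]
    intro s
    refine ih _ fun p hp => ?_
    rw [h.adj, hv _ (map_mem_Rg s hp), mul_zero]

/-- **`T` is the orthogonal of the perfect part** -/
theorem Side.mem_T_iff [FiniteDimensional K X] (h : Side a ω e e₂) {v : X} :
    v ∈ T a ↔ ∀ p ∈ Pinf a, ω v p = 0 := by
  constructor
  · intro hv p hp
    obtain ⟨k, hk⟩ := mem_T.1 hv
    exact h.Nk_Rg k v hk p (mem_Pinf.1 hp k)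
  · intro hv
    obtain ⟨k, hk⟩ := exists_Pinf_eq a
    refine Nk_le_T a (k + 1) (h.Rg_Nk k v fun p hp => hv p ?_)
    rw [← hk k le_rfl]; exact hp

theorem Side.mem_T_iff' [FiniteDimensional K X] (h : Side a ω e e₂) {v : X} :
    v ∈ T a ↔ ∀ p ∈ Pinf a, ω p v = 0 := by
  rw [h.mem_T_iff]
  exact forall₂_congr fun p _ => h.zero_comm

/-- the radical of the form on `Pinf a` is `TP a = Pinf a ⊓ T a` -/
theorem Side.mem_TP_iff [FiniteDimensional K X] (h : Side a ω e e₂) {p : Pinf a} :
    p ∈ TP a ↔ ∀ q : Pinf a, ω p q = 0 := by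
  rw [mem_TP, h.mem_T_iff]
  exact ⟨fun h1 q => h1 q q.2, fun h1 q hq => h1 ⟨q, hq⟩⟩

theorem Side.T_Pinf [FiniteDimensional K X] (h : Side a ω e e₂) {t p : X} (ht : t ∈ T a)
    (hp : p ∈ Pinf a) : ω t p = 0 := h.mem_T_iff.1 ht p hp

theorem Side.Pinf_T [FiniteDimensional K X] (h : Side a ω e e₂) {t p : X} (ht : t ∈ T a)
    (hp : p ∈ Pinf a) : ω p t = 0 := h.mem_T_iff'.1 ht p hp

/-! ### the perfect module `P = Pinf a` with its operators -/

/-- the operators on `Pinf a` -/
def Po (a : ι → End K X) (s : ι) : End K (Pinf a) :=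
  (a s).restrict fun _ hv => Pinf_stable s hv

theorem Po_coe (a : ι → End K X) (s : ι) (p : Pinf a) : ((Po a s p : Pinf a) : X) = a s p := rfl

theorem Po_pow_coe (a : ι → End K X) (s : ι) (j : ℕ) (p : Pinf a) :
    (((Po a s ^ j) p : Pinf a) : X) = (a s ^ j) p := by
  induction j with
  | zero => rfl
  | succ j ih => rw [pow_succ', pow_succ', Module.End.mul_apply, Po_coe, ih]; rfl

theorem Po_words_coe (a : ι → End K X) (w : List ι) (p : Pinf a) :
    ((((w.map (Po a)).prod) p : Pinf a) : X) = (w.map a).prod p := by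
  induction w with
  | nil => rfl
  | cons s w ih =>
    rw [List.map_cons, List.prod_cons, List.map_cons, List.prod_cons, Module.End.mul_apply,
      Po_coe, ih]
    rfl

/-- perfect, in coordinates -/
theorem Po_perfect [FiniteDimensional K X] [Fintype ι] (a : ι → End K X) (p : Pinf a) :
    ∃ q : ι → Pinf a, p = ∑ s, Po a s (q s) := by
  classical
  have h : (p : X) ∈ ⨆ s, (Pinf a).map (a s) := by rw [Pinf_eq_iSup]; exact p.2
  rw [Submodule.mem_iSup_iff_exists_finsupp] at h
  obtain ⟨f, hf, hfv⟩ := h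
  choose q hq hqe using hf
  refine ⟨fun s => ⟨q s, hq s⟩, Subtype.ext ?_⟩
  rw [Submodule.coe_sum, ← hfv, Finsupp.sum_fintype _ _ (fun _ => rfl)]
  exact Finset.sum_congr rfl fun s _ => by rw [Po_coe]; exact (hqe s).symm

theorem Po_range [FiniteDimensional K X] [Fintype ι] (a : ι → End K X) :
    ⨆ s, LinearMap.range (Po a s) = ⊤ := by
  rw [eq_top_iff]
  intro p _
  obtain ⟨q, rfl⟩ := Po_perfect a p
  exact Submodule.sum_mem _ fun s _ => Submodule.mem_iSup_of_mem s ⟨q s, rfl⟩

theorem Po_TP (a : ι → End K X) (s : ι) {p : Pinf a} (hp : p ∈ TP a) : Po a s p ∈ TP a :=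
  T_stable s hp

/-- long words kill the radical -/
theorem words_TP [FiniteDimensional K X] (a : ι → End K X) :
    ∃ m, ∀ r ∈ TP a, ∀ w : List ι, w.length = m → (w.map (Po a)).prod r = 0 := by
  obtain ⟨k, hk⟩ := T_eq_Nk a
  have key : ∀ k (v : X), v ∈ Nk a k → ∀ w : List ι, w.length = k → (w.map a).prod v = 0 := by
    intro k
    induction k with
    | zero =>
      intro v hv w _
      rw [mem_Nk_zero] at hv
      rw [hv, map_zero]
    | succ k ih =>
      intro v hv w hw
      obtain ⟨w', s, rfl⟩ : ∃ w' s, w = w' ++ [s] := by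
        rcases List.eq_nil_or_concat w with h0 | ⟨w', s, h0⟩
        · rw [h0] at hw; simp at hw
        · exact ⟨w', s, by rw [h0, List.concat_eq_append]⟩
      rw [List.map_append, List.prod_append]
      simp only [List.map_cons, List.map_nil, List.prod_cons, List.prod_nil, mul_one]
      rw [Module.End.mul_apply]
      rw [mem_Nk_succ] at hv
      exact ih _ (hv s) w' (by simpa using hw)
  refine ⟨k, fun r hr w hw => Subtype.ext ?_⟩
  rw [Po_words_coe]
  refine key k r ?_ w hw
  rw [← hk]; exact hr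

/-- `(a s)^l p ∈ TP a` if `(ac a s)^l = 0` -/
theorem Po_pow_mem {s : ι} {l : ℕ} (h : ac a s ^ l = 0) (p : Pinf a) : (Po a s ^ l) p ∈ TP a := by
  obtain ⟨h1, h2⟩ := ac_pow (a := a) s l p
  rw [h, LinearMap.zero_apply] at h2
  have h3 := mk_eq_zero.1 h2.symm
  rw [mem_TP, Po_pow_coe]
  exact h3

/-- `(a s)^j P ⊄ TP a` if `(ac a s)^j ≠ 0` -/
theorem exists_pow_notMem {s : ι} {j : ℕ} (h : ac a s ^ j ≠ 0) : ∃ p, (Po a s ^ j) p ∉ TP a := by
  by_contra hcon
  push Not at hcon
  apply h
  apply LinearMap.ext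
  intro v
  induction v using Submodule.Quotient.induction_on with
  | _ p =>
    obtain ⟨h1, h2⟩ := ac_pow (a := a) s j p
    rw [h2, LinearMap.zero_apply, mk_eq_zero]
    have h3 := hcon p
    rw [mem_TP, Po_pow_coe] at h3
    exact h3

/-! ### the form on the core -/

/-- the form on `Pinf a` -/
def Pform (a : ι → End K X) (ω : X →ₗ[K] X →ₗ[K] K) : Pinf a →ₗ[K] Pinf a →ₗ[K] K :=
  (ω.domRestrict (Pinf a)).compl₂ (Pinf a).subtype |>.comp LinearMap.id

theorem Pform_apply (p q : Pinf a) : Pform a ω p q = ω p q := rfl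

/-- half lift of the form -/
def Aform [FiniteDimensional K X] (h : Side a ω e e₂) : Cor a →ₗ[K] Pinf a →ₗ[K] K :=
  (TP a).liftQ (Pform a ω) (fun p hp => by
    rw [LinearMap.mem_ker]
    apply LinearMap.ext
    intro r
    rw [Pform_apply, LinearMap.zero_apply]
    exact h.T_Pinf (mem_TP.1 hp) r.2)

theorem Aform_mk [FiniteDimensional K X] (h : Side a ω e e₂) (p q : Pinf a) :
    Aform h (Submodule.Quotient.mk p) q = ω p q := rfl

/-- the form on the core -/
def Cform [FiniteDimensional K X] (h : Side a ω e e₂) : Cor a →ₗ[K] Cor a →ₗ[K] K :=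
  ((TP a).liftQ (Aform h).flip (fun p hp => by
    rw [LinearMap.mem_ker]
    apply LinearMap.ext
    intro v
    induction v using Submodule.Quotient.induction_on with
    | _ r =>
      rw [LinearMap.flip_apply, Aform_mk, LinearMap.zero_apply]
      exact h.Pinf_T (mem_TP.1 hp) r.2)).flip

theorem Cform_mk [FiniteDimensional K X] (h : Side a ω e e₂) (p q : Pinf a) :
    Cform h (Submodule.Quotient.mk p) (Submodule.Quotient.mk q) = ω p q := rfl

theorem Cform_symm [FiniteDimensional K X] (h : Side a ω e e₂) (x y : Cor a) :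
    Cform h x y = e * Cform h y x := by
  induction x using Submodule.Quotient.induction_on with
  | _ p =>
    induction y using Submodule.Quotient.induction_on with
    | _ q => rw [Cform_mk, Cform_mk]; exact h.symm _ _

theorem Cform_adj [FiniteDimensional K X] (h : Side a ω e e₂) (s : ι) (x y : Cor a) :
    Cform h (ac a s x) y = e₂ * Cform h x (ac a s y) := by
  induction x using Submodule.Quotient.induction_on with
  | _ p =>
    induction y using Submodule.Quotient.induction_on with
    | _ q => rw [ac_mk, ac_mk, Cform_mk, Cform_mk]; exact h.adj s _ _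

theorem Cform_nondeg [FiniteDimensional K X] (h : Side a ω e e₂) (x : Cor a)
    (hx : ∀ y, Cform h x y = 0) : x = 0 := by
  induction x using Submodule.Quotient.induction_on with
  | _ p =>
    rw [mk_eq_zero, ← mem_TP, h.mem_TP_iff]
    intro q
    exact hx (Submodule.Quotient.mk q)

/-! ### no common factor after a twist -/

section twist

variable {Y : Type*} [AddCommGroup Y] [Module K Y]

/-- `x : X → Y` with `x ∘ α s = t • β s ∘ x` for all `s` -/
def Tw (α : ι → End K X) (β : ι → End K Y) (t : K) : Submodule K (X →ₗ[K] Y) where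
  carrier := {x | ∀ s v, x (α s v) = t • β s (x v)}
  add_mem' := by
    intro x y hx hy s v
    rw [LinearMap.add_apply, LinearMap.add_apply, hx, hy, map_add, smul_add]
  zero_mem' := by intro s v; simp
  smul_mem' := by
    intro r x hx s v
    rw [LinearMap.smul_apply, LinearMap.smul_apply, hx, map_smul, smul_comm]

theorem mem_Tw {α : ι → End K X} {β : ι → End K Y} {t : K} {x : X →ₗ[K] Y} :
    x ∈ Tw α β t ↔ ∀ s v, x (α s v) = t • β s (x v) := Iff.rfl

/-- the twisted `Hom` spaces are independent, if the joint kernel of `β` is zero -/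
theorem Tw_indep {α : ι → End K X} {β : ι → End K Y} (hβ : ∀ v, (∀ s, β s v = 0) → v = 0)
    (F : Finset K) (x : K → (X →ₗ[K] Y)) (hx : ∀ t ∈ F, x t ∈ Tw α β t)
    (h0 : ∑ t ∈ F, x t = 0) : ∀ t ∈ F, x t = 0 := by
  classical
  -- strong induction over the number of elements
  induction F using Finset.induction_on generalizing x with
  | empty => intro t ht; simp at ht
  | insert t₀ F ht₀ ih =>
    -- apply the operators: `∑ t • x t = 0`
    have h1 : ∑ t ∈ insert t₀ F, t • x t = 0 := by
      apply LinearMap.ext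
      intro v
      apply hβ
      intro s
      have h2 : (∑ t ∈ insert t₀ F, x t) (α s v) = 0 := by rw [h0]; rfl
      rw [LinearMap.sum_apply] at h2
      rw [LinearMap.sum_apply, map_sum, ← h2]
      refine Finset.sum_congr rfl fun t ht => ?_
      rw [LinearMap.smul_apply, map_smul, mem_Tw.1 (hx t ht)]
    have h3 : ∑ t ∈ F, (t - t₀) • x t = 0 := by
      have h4 : ∑ t ∈ insert t₀ F, (t - t₀) • x t = 0 := by
        simp only [sub_smul]
        rw [Finset.sum_sub_distrib, h1, ← Finset.smul_sum, h0, smul_zero, sub_zero]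
      rw [Finset.sum_insert ht₀, sub_self, zero_smul, zero_add] at h4
      exact h4
    have h5 := ih (fun t => (t - t₀) • x t)
      (fun t ht => Submodule.smul_mem _ _ (hx t (Finset.mem_insert_of_mem ht))) h3
    have h6 : ∀ t ∈ F, x t = 0 := by
      intro t ht
      rcases smul_eq_zero.1 (h5 t ht) with h | h
      · rw [sub_eq_zero] at h
        rw [h] at ht
        exact absurd ht ht₀
      · exact h
    intro t ht
    rcases Finset.mem_insert.1 ht with rfl | ht
    · rw [Finset.sum_insert ht₀, Finset.sum_eq_zero h6, add_zero] at h0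
      exact h0
    · exact h6 t ht

/-- **no common factor for almost all twists** -/
theorem Tw_finite [FiniteDimensional K X] [FiniteDimensional K Y] {α : ι → End K X}
    {β : ι → End K Y} (hβ : ∀ v, (∀ s, β s v = 0) → v = 0) :
    {t : K | Tw α β t ≠ ⊥}.Finite := by
  classical
  by_contra hinf
  have hinf : {t : K | Tw α β t ≠ ⊥}.Infinite := hinf
  obtain ⟨F, hF, hc⟩ := hinf.exists_subset_card_eq (finrank K (X →ₗ[K] Y) + 1)
  have h1 : ∀ t : K, ∃ x : X →ₗ[K] Y, (t ∈ F → x ∈ Tw α β t ∧ x ≠ 0) := by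
    intro t
    by_cases ht : t ∈ F
    · have h2 : Tw α β t ≠ ⊥ := hF ht
      obtain ⟨x, hx, hx0⟩ := (Submodule.ne_bot_iff _).1 h2
      exact ⟨x, fun _ => ⟨hx, hx0⟩⟩
    · exact ⟨0, fun h => absurd h ht⟩
  choose x hx using h1
  have hli : LinearIndependent K (fun t : F => x t) := by
    rw [Fintype.linearIndependent_iff]
    intro r hr i
    have h3 : ∑ t ∈ F, (if ht : t ∈ F then r ⟨t, ht⟩ else 0) • x t = 0 := by
      rw [← hr, ← Finset.sum_coe_sort F]
      refine Finset.sum_congr rfl fun t _ => ?_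
      rw [dif_pos t.2]
    have h4 := Tw_indep hβ F (fun t => (if ht : t ∈ F then r ⟨t, ht⟩ else 0) • x t)
      (fun t ht => Submodule.smul_mem _ _ (hx t ht).1) h3 i i.2
    rw [dif_pos i.2] at h4
    rcases smul_eq_zero.1 h4 with h | h
    · exact h
    · exact absurd h (hx i i.2).2
  have := hli.fintype_card_le_finrank
  rw [Fintype.card_coe, hc] at this
  omega

/-- maps from a perfect module to a module with nilpotent part `R`, intertwining modulo `R`, have
values in `R` if there is no common factor -/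
theorem le_of_Tw {Q : Type*} [AddCommGroup Q] [Module K Q] {α : ι → End K X} {β : ι → End K Q}
    {t : K} (h : Tw α β t = ⊥) {x : X →ₗ[K] Q} (hx : ∀ s v, x (α s v) = t • β s (x v)) : x = 0 := by
  have : x ∈ Tw α β t := hx
  rwa [h, Submodule.mem_bot] at this

end twist

end abs

end Crest.Agent.R172.QC
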