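import Crest.Agent.R172.QEndP2

/-!
Row 172 (S0260): END of the P-side of (t3) in the form of `QC.Half.P_end` / `QC.exists_sideP`
(`P1 = P' / (P' ∩ S)` with a linear section `i1`).
-/

set_option autoImplicit false
set_option linter.unusedSectionVars false
set_option linter.unusedFintypeInType false
set_option linter.unusedDecidableInType false

namespace Crest.Agent.R172.QEndP

open Matrix Module TensorProduct Crest.Agent.R172.FO Crest.Agent.R172.Qt
open Crest.Agent.R172.Mix

section abs

variable {K : Type*} [Field K] {X : Type*} [AddCommGroup X] [Module K X] {ι : Type*}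
variable {b : LinearMap.BilinForm K X} {a : ι → End K X}

/-- an alternating tensor whose operator is symmetric has zero contractions -/
theorem ct_zero_of_symm [CharZero K] (h : FH b a) {t : Pinf a ⊗[K] Pinf a}
    (ht : TensorProduct.comm K (Pinf a) (Pinf a) t = -t)
    (h5 : ∀ x y : Pinf a, BP b a (ev b a t x) y = BP b a x (ev b a t y)) (x y : Pinf a) :
    SPE.ct (BP b a) x y t = 0 := by
  have h6 := SPE.ct_comm (BP b a) x y t
  rw [ht, map_neg, ct_ev, ct_ev] at h6
  have h8 : BP b a (ev b a t y) x = BP b a (ev b a t x) y := by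
    rw [h5, BP_apply, BP_apply, h.symm]
  have h7 : (2 : K) * BP b a (ev b a t y) x = 0 := by
    linear_combination -h6 + h8
  rw [ct_ev, (mul_eq_zero.1 h7).resolve_left two_ne_zero]

theorem ct_zero_of_map [CharZero K] (h : FH b a) {P1 : Type*} [AddCommGroup P1] [Module K P1]
    (j : P1 →ₗ[K] Pinf a) {w : P1 →ₗ[K] P1 →ₗ[K] K}
    (hw : ∀ x y, w x y = b (j x : Pinf a) (j y : Pinf a)) {t : P1 ⊗[K] P1}
    (ht : TensorProduct.comm K P1 P1 t = -t)
    (h5 : ∀ x y : Pinf a, BP b a (ev b a (TensorProduct.map j j t) x) y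
      = BP b a x (ev b a (TensorProduct.map j j t) y)) (x y : P1) :
    SPE.ct w x y t = 0 := by
  have e1 : ∀ u : P1 ⊗[K] P1, TensorProduct.comm K _ _ (TensorProduct.map j j u)
      = TensorProduct.map j j (TensorProduct.comm K P1 P1 u) := by
    intro u
    induction u using TensorProduct.induction_on with
    | zero => simp
    | tmul a b => simp
    | add a b ha hb => rw [map_add, map_add, ha, hb, map_add, map_add]
  have e3 : ∀ u : P1 ⊗[K] P1, SPE.ct w x y u
      = SPE.ct (BP b a) (j x) (j y) (TensorProduct.map j j u) := by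
    intro u
    induction u using TensorProduct.induction_on with
    | zero => simp
    | tmul a b =>
      rw [TensorProduct.map_tmul, SPE.ct_tmul, SPE.ct_tmul, BP_apply, BP_apply, hw, hw]
    | add a b ha hb => rw [map_add, map_add, map_add, ha, hb]
  rw [e3]
  exact ct_zero_of_symm h (by rw [e1, ht, map_neg]) h5 _ _

end abs

variable {ι : Type*} [Fintype ι] [DecidableEq ι] {δ : Type*} [Fintype δ] [DecidableEq δ]
variable {k K : Type*} [Field k] [Field K] [Algebra k K]
variable {arm : δ → Fin 3} {J : Matrix ι ι K} {B : Matrix δ δ K}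
  {N W : Submodule K (Matrix ι δ K)} {g f : Matrix ι δ K}

/-- **END of the P-side of (t3)**, for a linear map `i1 : P1 → P' ⊂ S^⊥`. -/
theorem endP_side [CharZero K] (h : Ctx k arm J B N W g)
    (hNm : ∀ F, (∀ F' ∈ N, pair J B F' F = 0) → F ∈ N)
    (hWm : ∀ F, (∀ F' ∈ W, pair J B F' F = 0) → F ∈ W) (hf : f ∈ N ⊓ W)
    {P1 : Type*} [AddCommGroup P1] [Module K P1] (i1 : P1 →ₗ[K] (ι → K))
    (hi1 : ∀ p, ∃ v : Sp J g, v ∈ Pinf (aop arm J B g f (h.perp f hf)) ∧ i1 p = (v : ι → K))
    {w : P1 →ₗ[K] P1 →ₗ[K] K} (hw : ∀ x y, w x y = i1 x ⬝ᵥ J *ᵥ i1 y)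
    {q : Fin 3 → P1 →ₗ[K] P1 →ₗ[K] Matrix ι δ K}
    (hq : ∀ s x y, q s x y = vecMulVec (i1 x) (i1 y) * J * f * E K arm s)
    {t : P1 ⊗[K] P1} (ht : TensorProduct.comm K P1 P1 t = -t)
    (hne : ∃ x y, SPE.ct w x y t ≠ 0)
    (hmem : ∀ s, TensorProduct.lift (q s) t ∈ SSp arm J B N W g f (h.perp f hf)) : False := by
  obtain ⟨x, y, hxy⟩ := hne
  apply hxy
  have hj1 : ∀ p, i1 p ∈ Sp J g := fun p => by
    obtain ⟨v, -, hv⟩ := hi1 p
    rw [hv]; exact v.2
  have hj2 : ∀ p, (LinearMap.codRestrict (Sp J g) i1 hj1) p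
      ∈ Pinf (aop arm J B g f (h.perp f hf)) := fun p => by
    obtain ⟨v, hv, hpv⟩ := hi1 p
    have : (LinearMap.codRestrict (Sp J g) i1 hj1) p = v := Subtype.ext hpv
    rw [this]; exact hv
  obtain ⟨j, hj⟩ : ∃ j : P1 →ₗ[K] Pinf (aop arm J B g f (h.perp f hf)),
      ∀ p, (((j p : Pinf _) : Sp J g) : ι → K) = i1 p :=
    ⟨LinearMap.codRestrict _ (LinearMap.codRestrict (Sp J g) i1 hj1) hj2, fun p => rfl⟩
  have e2 : ∀ (s : Fin 3) (u : P1 ⊗[K] P1),
      mt J g (Pinf (aop arm J B g f (h.perp f hf))) (TensorProduct.map j j u) * f * E K arm s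
        = TensorProduct.lift (q s) u := by
    intro s u
    induction u using TensorProduct.induction_on with
    | zero => simp
    | tmul a b =>
      rw [TensorProduct.map_tmul, mt_tmul, TensorProduct.lift.tmul, hq, hj, hj]
    | add a b ha hb =>
      rw [map_add, map_add, Matrix.add_mul, Matrix.add_mul, ha, hb, map_add]
  have ht4 : mt J g (Pinf (aop arm J B g f (h.perp f hf))) (TensorProduct.map j j t) * f
      ∈ SSp arm J B N W g f (h.perp f hf) := by
    have e4 : mt J g (Pinf (aop arm J B g f (h.perp f hf))) (TensorProduct.map j j t) * f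
        = ∑ s, mt J g (Pinf (aop arm J B g f (h.perp f hf))) (TensorProduct.map j j t) * f
          * E K arm s := by
      rw [← Matrix.mul_sum, sum_E, Matrix.mul_one]
    rw [e4]
    exact Submodule.sum_mem _ fun s _ => by rw [e2]; exact hmem s
  exact ct_zero_of_map (FHS h hf) j (fun x y => by rw [bS_apply, hj, hj, hw]) ht
    (symm_ev h hNm hWm hf ht4) x y

end Crest.Agent.R172.QEndP
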