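import Crest.Agent.R172.Qt5

/-!
Row 172 (S0260), (Q1)/(t3): Q-side END, part 1.  Every flag compatible `ψ : S → S^*` is skew.
-/

set_option autoImplicit false
set_option linter.unusedSectionVars false
set_option linter.unusedFintypeInType false
set_option linter.unusedDecidableInType false
set_option maxHeartbeats 800000

namespace Crest.Agent.R172.QEndQ

open Matrix Module Crest.Agent.R172.FO Crest.Agent.R172.Qt

variable {ι : Type*} [Fintype ι] [DecidableEq ι] {δ : Type*} [Fintype δ] [DecidableEq δ]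
variable {k K : Type*} [Field k] [Field K] [Algebra k K]
variable {arm : δ → Fin 3} {J : Matrix ι ι K} {B : Matrix δ δ K}
  {N W : Submodule K (Matrix ι δ K)} {g : Matrix ι δ K}

/-- a map `S → S^⊥` extends to `so(V)`. -/
theorem ext_so (hJ : Jᵀ = J) (hJu : IsUnit J) (g : Matrix ι δ K) {T : Matrix ι ι K}
    (hT : gᵀ * J * (T * g) = 0) : ∃ X : Matrix ι ι K, Skw J X ∧ X * g = T * g := by
  obtain ⟨G, hG⟩ := exists_pinv g
  obtain ⟨Ji, hJi⟩ := hJu.exists_right_inv
  have hJi' : Ji * J = 1 := by rw [mul_eq_one_comm] at hJi; exact hJi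
  have hJit : Jiᵀ = Ji := by
    have h1 : Jiᵀ * J = 1 := by
      have := congrArg transpose hJi
      rwa [transpose_mul, hJ, transpose_one] at this
    calc Jiᵀ = Jiᵀ * (J * Ji) := by rw [hJi, Matrix.mul_one]
      _ = (Jiᵀ * J) * Ji := by rw [Matrix.mul_assoc]
      _ = Ji := by rw [h1, Matrix.one_mul]
  -- `A = T g G`, `X = A - Ji Aᵀ J`
  refine ⟨T * g * G - Ji * (T * g * G)ᵀ * J, ?_, ?_⟩
  · unfold Skw
    rw [transpose_sub, Matrix.sub_mul, Matrix.mul_sub]
    have e1 : (Ji * (T * g * G)ᵀ * J)ᵀ * J = J * (T * g * G) := by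
      rw [transpose_mul, transpose_mul, transpose_transpose, hJ, hJit]
      calc J * (T * g * G * Ji) * J = J * (T * g * G) * (Ji * J) := by
            simp only [Matrix.mul_assoc]
        _ = _ := by rw [hJi', Matrix.mul_one]
    have e2 : J * (Ji * (T * g * G)ᵀ * J) = (T * g * G)ᵀ * J := by
      calc J * (Ji * (T * g * G)ᵀ * J) = (J * Ji) * (T * g * G)ᵀ * J := by
            simp only [Matrix.mul_assoc]
        _ = _ := by rw [hJi, Matrix.one_mul]
    rw [e1, e2]; abel
  · have h1 : (T * g)ᵀ * J * g = 0 := by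
      have h0 : (gᵀ * J * (T * g))ᵀ = (T * g)ᵀ * J * g := by
        rw [transpose_mul (gᵀ * J) (T * g), transpose_mul gᵀ J, transpose_transpose, hJ,
          Matrix.mul_assoc]
      rw [← h0, hT, transpose_zero]
    rw [Matrix.sub_mul]
    have e1 : T * g * G * g = T * g := by
      calc T * g * G * g = T * (g * G * g) := by simp only [Matrix.mul_assoc]
        _ = _ := by rw [hG]
    have e2 : Ji * (T * g * G)ᵀ * J * g = 0 := by
      calc Ji * (T * g * G)ᵀ * J * g = Ji * (Gᵀ * ((T * g)ᵀ * J * g)) := by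
            rw [transpose_mul (T * g) G]; simp only [Matrix.mul_assoc]
        _ = 0 := by rw [h1, Matrix.mul_zero, Matrix.mul_zero]
    rw [e1, e2, sub_zero]

/-- `H¹(so(V)/p_S) = 0` in frame form. -/
theorem frame_dir (h : Ctx k arm J B N W g) {X : Fin 3 → Matrix ι ι K} (hX : ∀ s, Skw J (X s)) :
    ∃ (Z : Matrix ι ι K) (Q : Fin 3 → Matrix ι ι K), Skw J Z ∧ Stb arm J N Q ∧
      ∀ s, ∃ C : Matrix δ δ K, (Z - X s - Q s) * g = g * C := by
  obtain ⟨d, hd⟩ := h.data.dir X 0 hX (by simp)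
  obtain ⟨Y, hY, hYN, hYg⟩ := h.frame d
  obtain ⟨C0, hC0⟩ := hYg 0
  refine ⟨Y 0, fun s => Y s - X s, hY 0, ⟨fun s => (hY s).sub (hX s), fun F hF => ?_⟩,
    fun s => ?_⟩
  · have h1 : act arm (fun s => Y s - X s) F
        = (F.map d - act arm X F) - (F.map d - act arm Y F) := by
      rw [act_sub_left]; abel
    rw [h1]
    exact N.sub_mem (hd.onN F hF) (hYN F hF)
  · obtain ⟨C1, hC1⟩ := hYg s
    refine ⟨C1 - C0, ?_⟩
    rw [Matrix.mul_sub, ← hC0, ← hC1]
    simp only [Matrix.sub_mul]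
    abel

/-- **every flag compatible form `ψ : S → S^*` is skew.** -/
theorem flag_skew (h : Ctx k arm J B N W g) {Ψ : Matrix ι ι K} {b : Fin 3 → Matrix ι ι K}
    (hb : act arm b g ∈ N) (hΨ : ∀ s, gᵀ * J * ((Ψ - b s) * g) = 0) :
    (gᵀ * J * (Ψ * g))ᵀ = - (gᵀ * J * (Ψ * g)) := by
  have hD := h.data
  choose X hX hXg using fun s => ext_so hD.J_symm hD.J_unit g (hΨ s)
  obtain ⟨Z, Q, hZ, hQ, hC⟩ := frame_dir h hX
  choose C hC using hC
  have ha : (Ψ - Z) * g ∈ W := h.W_mul _ h.memW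
  have hν : act arm b g - act arm Q g ∈ N := N.sub_mem hb (hQ.pres g h.memN)
  have hs : ∀ s, (Ψ - Z - (b s - Q s)) * g = g * (- C s) := by
    intro s
    have h1 := hC s
    have h2 := hXg s
    rw [Matrix.mul_neg, ← h1]
    have h3 : (Z - X s - Q s) * g = Z * g - X s * g - Q s * g := by simp only [Matrix.sub_mul]
    rw [h3, h2]
    simp only [Matrix.sub_mul]
    abel
  have hC' : (Ψ - Z) * g = (act arm b g - act arm Q g) + g * ∑ s, (- C s) * E K arm s := by
    have h1 : act arm (fun s => Ψ - Z - (b s - Q s)) g = g * ∑ s, (- C s) * E K arm s :=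
      act_mul_const arm (fun s => Ψ - Z - (b s - Q s)) g hs
    rw [act_sub_left arm (fun _ => Ψ - Z) (fun s => b s - Q s), act_const,
      act_sub_left arm b Q] at h1
    rw [← h1]; abel
  have hsk := h.Qskew ha hν hC'
  have hZs := skew_gXg hD.J_symm hZ g
  have e : gᵀ * J * (Ψ * g) = gᵀ * J * ((Ψ - Z) * g) + gᵀ * J * (Z * g) := by
    rw [← Matrix.mul_add]; congr 1
    rw [← Matrix.add_mul]; congr 1; abel
  rw [e, transpose_add, hsk, hZs, neg_add]

end Crest.Agent.R172.QEndQ
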