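import Crest.Agent.R172.QHalfQ
import Crest.Agent.R172.QBrQ2
import Crest.Agent.R172.QCore2

/-!
Row 172 (S0260), (t3), Q-side: the instance of `QBrQ2.bridgeQ` from the tame pair.
-/

set_option autoImplicit false
set_option linter.unusedSectionVars false
set_option linter.unusedFintypeInType false
set_option linter.unusedDecidableInType false
set_option maxHeartbeats 800000

namespace Crest.Agent.R172.QHQ

open Matrix Module TensorProduct
open Crest.Agent.R172.FO Crest.Agent.R172.Qt Crest.Agent.R172.Mix Crest.Agent.R172.QC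
open Crest.Agent.R172.PushQ (Push)

/-- factorisation of operators through a second space -/
theorem Pinf_le_factor {K X Y τ : Type*} [Field K] [AddCommGroup X] [Module K X]
    [AddCommGroup Y] [Module K Y] [FiniteDimensional K Y] {a : τ → End K X} {b : τ → End K Y}
    (Θ : Y →ₗ[K] X) (ρ : τ → X →ₗ[K] Y) (h1 : ∀ s x, a s x = Θ (ρ s x))
    (h2 : ∀ s y, ρ s (Θ y) = b s y) : Pinf a ≤ (Pinf b).map Θ := by
  have key : ∀ k, Rg a (k + 1) ≤ (Rg b k).map Θ := by
    intro k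
    induction k with
    | zero =>
      rw [Rg_succ]
      refine iSup_le fun s => ?_
      rintro _ ⟨x, -, rfl⟩
      exact ⟨ρ s x, by rw [Rg_zero]; trivial, (h1 s x).symm⟩
    | succ k ih =>
      rw [Rg_succ a (k + 1)]
      refine iSup_le fun s => ?_
      rintro _ ⟨x, hx, rfl⟩
      obtain ⟨y, hy, rfl⟩ := ih hx
      exact ⟨b s y, map_mem_Rg s hy, by rw [h1, h2]⟩
  obtain ⟨k, hk⟩ := exists_Pinf_eq b
  intro x hx
  have h3 := key k (mem_Pinf.1 hx (k + 1))
  rwa [hk k le_rfl] at h3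

variable {ι : Type*} [Fintype ι] [DecidableEq ι] {δ : Type*} [Fintype δ] [DecidableEq δ]
variable {k K : Type*} [Field k] [Field K] [Algebra k K]
variable {arm : δ → Fin 3} {J : Matrix ι ι K} {B : Matrix δ δ K}
  {N W : Submodule K (Matrix ι δ K)} {g f : Matrix ι δ K} {X : Matrix ι ι K}

theorem pinf_At : Pinf (fun t => (QBrQ2.At arm J B g X t).mulVecLin)
    ≤ LinearMap.range (PQ arm J B g X).subtype := by
  have h1 := Pinf_le_factor (a := fun t => (QBrQ2.At arm J B g X t).mulVecLin)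
    (b := PhS arm J B g X) ((gᵀ * J * X).mulVecLin ∘ₗ (Sg g).subtype)
    (fun t => g.mulVecLin.rangeRestrict ∘ₗ (E K arm t * B).mulVecLin)
    (fun s x => by
      change (QBrQ2.At arm J B g X s) *ᵥ x = (gᵀ * J * X) *ᵥ (g *ᵥ ((E K arm s * B) *ᵥ x))
      unfold QBrQ2.At
      simp only [mulVec_mulVec, Matrix.mul_assoc])
    (fun s y => by
      apply Subtype.ext
      rw [show ((PhS arm J B g X s y : Sg g) : ι → K)
        = (M arm B s g g * J) *ᵥ (X *ᵥ (y : ι → K)) from Mop_eta s X y]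
      change g *ᵥ ((E K arm s * B) *ᵥ ((gᵀ * J * X) *ᵥ (y : ι → K))) = _
      unfold M
      simp only [mulVec_mulVec, Matrix.mul_assoc])
  rw [Submodule.range_subtype]
  refine h1.trans ?_
  rintro _ ⟨x, hx, rfl⟩
  exact ⟨⟨x, hx⟩, rfl⟩

theorem pinf_Mf (hf : gᵀ * J * f = 0) : Pinf (fun t => (M arm B t f f * J).mulVecLin)
    ≤ LinearMap.range ((Sp J g).subtype ∘ₗ (Pinf (aop arm J B g f hf)).subtype) := by
  have hM : ∀ s, gᵀ * J * (M arm B s f f * J) = 0 := by
    intro s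
    unfold M
    have e : gᵀ * J * (f * E K arm s * B * fᵀ * J) = (gᵀ * J * f) * (E K arm s * B * fᵀ * J) := by
      simp only [Matrix.mul_assoc]
    rw [e, hf, Matrix.zero_mul]
  have h1 := Pinf_le_factor (a := fun t => (M arm B t f f * J).mulVecLin)
    (b := aop arm J B g f hf) (Sp J g).subtype
    (fun t => (M arm B t f f * J).mulVecLin.codRestrict (Sp J g) (fun v => by
      rw [mem_Sp, mulVecLin_apply, mulVec_mulVec, hM, zero_mulVec]))
    (fun s x => rfl) (fun s y => rfl)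
  refine h1.trans ?_
  rintro _ ⟨x, hx, rfl⟩
  exact ⟨⟨x, hx⟩, rfl⟩

theorem th'_zero (t : Fin 3) (y : Pinf (PhS arm J B g X)) (hy : th' arm J B g X y = 0) :
    QBlk.ap (PhS arm J B g X) t y = 0 := by
  have h1 : th arm J B g X y = 0 := by rw [← th'_coe, hy]; rfl
  apply Subtype.ext
  apply Subtype.ext
  have h2 : ((PhS arm J B g X t (y : Sg g) : Sg g) : ι → K)
      = (M arm B t g g * J) *ᵥ (X *ᵥ ((y : Sg g) : ι → K)) := Mop_eta t X (y : Sg g)
  change ((PhS arm J B g X t (y : Sg g) : Sg g) : ι → K) = _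
  rw [h2]
  have h3 : (M arm B t g g * J) *ᵥ (X *ᵥ ((y : Sg g) : ι → K))
      = (g * E K arm t * B) *ᵥ th arm J B g X y := by
    rw [th_apply]
    unfold M
    simp only [mulVec_mulVec, Matrix.mul_assoc]
  rw [h3, h1, mulVec_zero]
  rfl

/-- the instance of `QS` -/
theorem qs (h : Ctx k arm J B N W g) (hf : f ∈ N ⊓ W) (hX : Skw J X) {l : Fin 3 → ℕ}
    (hp : Pair (aop arm J B g f (h.perp f hf)) (omP J g) (PhS arm J B g X) (eta J g X) l) :
    QBrQ2.QS (V1 := ↥(Pinf (aop arm J B g f (h.perp f hf)))) (V2 := ↥(Pinf (PhS arm J B g X)))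
      (V3 := ↥(PQ arm J B g X)) arm J B g f X (QBlk.ap (aop arm J B g f (h.perp f hf)))
      (QBlk.ap (PhS arm J B g X)) (Aq arm J B g X)
      ((Sp J g).subtype ∘ₗ (Pinf (aop arm J B g f (h.perp f hf))).subtype)
      ((Sg g).subtype ∘ₗ (Pinf (PhS arm J B g X)).subtype)
      (th' arm J B g X) (PQ arm J B g X).subtype
      (TP (aop arm J B g f (h.perp f hf))) (R1 arm J B g X)
      (Pform (aop arm J B g f (h.perp f hf)) (omP J g)) where
  side :=
    { J_symm := h.data.J_symm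
      B_symm := h.data.B_symm
      B_arm := h.data.B_arm
      J_unit := h.data.J_unit
      gg := h.iso
      gf := h.perp f hf
      X_skw := hX
      J1 := fun p => (p : Sp J g).2
      A1 := fun t p => ⟨0, by rw [mulVec_zero, add_zero]; rfl⟩
      J2 := fun p => by
        obtain ⟨u, hu⟩ := (p : Sg g).2
        exact ⟨u, hu.symm⟩
      B2 := fun t p => Mop_eta t X (p : Sg g) }
  surj := (push arm J B g X).surj
  πF := (push arm J B g X).comm
  ker := th'_zero
  θπ := fun y => by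
    rw [mulVec_mulVec]; rfl
  θinj := Subtype.val_injective
  top1 := hp.halfA.side.top
  top2 := hp.halfB.side.top
  hPΘ := pinf_At
  hPf := (pinf_Mf (h.perp f hf)).trans le_sup_left
  hrad := by
    rintro _ ⟨r, hr, rfl⟩ y u hyu
    have h1 : Pform (PhS arm J B g X) (eta J g X) r y = 0 := hp.halfB.rad_left r hr y
    rw [Pform_apply, eta_apply] at h1
    have hyu' : ((y : Sg g) : ι → K) = g *ᵥ u := hyu
    rw [hyu', ← vecMul_transpose, ← dotProduct_mulVec, mulVec_mulVec, ← Matrix.mul_assoc] at h1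
    exact h1
  st3 := by
    obtain ⟨w1, -, hH⟩ := exists_w hp
    exact hH.side.stable
  hgf := fun v v' => rfl
  gR := fun r hr v => hp.halfA.rad_left r hr v

/-- `U = {u | g u ∈ P_S}` -/
def UU (arm : δ → Fin 3) (J : Matrix ι ι K) (B : Matrix δ δ K) (g : Matrix ι δ K)
    (X : Matrix ι ι K) : Submodule K (δ → K) :=
  ((Pinf (PhS arm J B g X)).map (Sg g).subtype).comap g.mulVecLin

theorem mem_UU {u : δ → K} : u ∈ UU arm J B g X ↔
    ∃ p : Pinf (PhS arm J B g X), ((p : Sg g) : ι → K) = g *ᵥ u := by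
  constructor
  · rintro ⟨x, hx, hxu⟩
    exact ⟨⟨x, hx⟩, hxu⟩
  · rintro ⟨p, hp⟩
    exact ⟨p, p.2, hp⟩

/-- **the Q-side memberships.** -/
theorem brQ_main [Infinite K] (h : Ctx k arm J B N W g)
    (hNm : ∀ F, (∀ F' ∈ N, pair J B F' F = 0) → F ∈ N)
    (hWm : ∀ F, (∀ F' ∈ W, pair J B F' F = 0) → F ∈ W)
    (hc : Glue k arm J N W g) (hf : f ∈ N ⊓ W)
    {p : Matrix ι ι K × (Fin 3 → Matrix ι ι K)} (hpN : p ∈ NN arm J N g)
    (hp0 : gᵀ * J * (p.1 * f) = 0) {l : Fin 3 → ℕ}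
    (hp : Pair (aop arm J B g f (h.perp f hf)) (omP J g) (PhS arm J B g p.1) (eta J g p.1) l) :
    (∀ s, ∀ r ∈ TP (PhS arm J B g p.1), ∀ v,
      (Pi.single s (vecMulVec (th arm J B g p.1 r) (th arm J B g p.1 v)) :
        Fin 3 → Matrix δ δ K) ∈ QEndQ.TT arm J N g (UU arm J B g p.1)) ∧
    (∀ s, ∀ r ∈ TP (PhS arm J B g p.1), ∀ v,
      (Pi.single s (vecMulVec (th arm J B g p.1 v) (th arm J B g p.1 r)) :
        Fin 3 → Matrix δ δ K) ∈ QEndQ.TT arm J N g (UU arm J B g p.1)) ∧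
    (∀ s i j, i + j + 1 = l s → ∀ v v',
      (Pi.single s (vecMulVec (th arm J B g p.1 ((QBlk.ap (PhS arm J B g p.1) s ^ i) v))
        (th arm J B g p.1 ((QBlk.ap (PhS arm J B g p.1) s ^ j) v'))) :
        Fin 3 → Matrix δ δ K) ∈ QEndQ.TT arm J N g (UU arm J B g p.1)) := by
  obtain ⟨w1, -, hH⟩ := exists_w hp
  obtain ⟨h1, h2⟩ := QBrQ2.bridgeQ h hNm hWm hc hf hpN hp0 (qs h hf hpN.1 hp) hH.side
    hp.halfA.side hp.halfA.gtop (U := UU arm J B g p.1)
    (fun u hu => by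
      obtain ⟨y, hy⟩ := mem_UU.1 hu
      exact ⟨y, hy⟩)
  refine ⟨fun s r hr v => (h1 s _ ⟨r, hr, rfl⟩ (th' arm J B g p.1 v)).1,
    fun s r hr v => (h1 s _ ⟨r, hr, rfl⟩ (th' arm J B g p.1 v)).2, fun s i j hij v v' => ?_⟩
  have h3 := h2 s i j hij (th' arm J B g p.1 v) (th' arm J B g p.1 v')
  rw [← (push arm J B g p.1).pow, ← (push arm J B g p.1).pow] at h3
  exact h3

end Crest.Agent.R172.QHQ
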