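import Crest.Agent.R172.QPH
import Crest.Agent.R172.QInsQ
import Crest.Agent.R172.QAsmI
import Crest.Agent.R172.QAsm659

/-!
Row 172 (S0260): (t3) closed: `Fin7.NoTameQ1'` and `InQ1`.
-/

set_option autoImplicit false

namespace Crest.Agent.R172.QFin178

open Matrix Module Crest.Agent.R172.FO Crest.Agent.R172.Qt
open Crest.Agent.R172.CF Crest.Agent.R172.CSys

section

variable {ι δ k K : Type} [Fintype ι] [DecidableEq ι] [Fintype δ] [DecidableEq δ]
variable [Field k] [Field K] [Algebra k K]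
variable {arm : δ → Fin 3} {J : Matrix ι ι K} {B : Matrix δ δ K}
  {N W : Submodule K (Matrix ι δ K)} {g f : Matrix ι δ K}

/-- **THE Q-HALF OF (t3)** -/
theorem Q_false [CharZero K] (h : Ctx k arm J B N W g)
    (hNm : ∀ F, (∀ F' ∈ N, pair J B F' F = 0) → F ∈ N)
    (hWm : ∀ F, (∀ F' ∈ W, pair J B F' F = 0) → F ∈ W)
    (hG : Glue k arm J N W g) (hf : f ∈ N ⊓ W)
    {p : Matrix ι ι K × (Fin 3 → Matrix ι ι K)} (hp : p ∈ NN arm J N g)
    (hp0 : gᵀ * J * (p.1 * f) = 0) {l : Fin 3 → ℕ}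
    (hpair : QC.Pair (aop arm J B g f (h.perp f hf)) (QC.omP J g)
      (fun s => Mop arm B g s ∘ₗ eta J g p.1) (eta J g p.1) l)
    (hl : ∀ s, l s = 3) : False := by
  have : Infinite K := CharZero.infinite K
  obtain ⟨h1, h2, h3⟩ := QHQ.brQ_main h hNm hWm hG hf hp hp0 hpair
  exact QAsm.false_Q h hpair hl ⟨h1, h2, h3⟩

end

variable {n : ℕ} {a : Fin 3 → Fin n → ℤ} {c : Cfg n a} {q : SPol c}

/-- **(t3)** -/
theorem noTameQ1' (R : Ranked c) : Fin7.NoTameQ1' c q R := by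
  refine QAsm.noTameQ1'_of ?_
  intro L _ _ _ _ _ g H G f hC hNm hWm hc hf p hp hpf _ hf0 l hP
  by_cases hl : ∀ s, l s = 3
  · exact Q_false hC hNm hWm hc hf hp hpf hP hl
  · exact QBr.P_false hC hNm hWm hc hf hp hpf hP (fun h => absurd h hl)

/-- **(Q1)** -/
theorem inQ1 : Ind.InQ1 := Fin7.inQ1_of' fun _ _ _ _ R => noTameQ1' R

end Crest.Agent.R172.QFin178
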