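import Crest.Agent.R172.QAsm659
import Crest.Agent.R172.QBrP28
import Crest.Agent.R172.QInsQ

/-!
Row 172 (S0260), node Q-Asm: (t3) and `InQ1`.
-/

set_option autoImplicit false
set_option linter.unusedSectionVars false
set_option linter.unusedFintypeInType false
set_option linter.unusedDecidableInType false
set_option maxHeartbeats 400000

namespace Crest.Agent.R172.QFin

open Matrix Module Crest.Agent.R172.FO Crest.Agent.R172.Qt Crest.Agent.R172.Mix
open Crest.Agent.R172.CF Crest.Agent.R172.CSys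

/-- the two bridges of `QAsm659` -/
theorem bridge : QAsm.Bridge := by
  intro ι δ _ _ _ _ K _ _ _ arm J B N W g f h hf hNm hWm hG p hp hp0 l hP
  have : CharZero K := charZero_of_injective_algebraMap (algebraMap ℂ K).injective
  refine ⟨fun _ => ?_, fun _ => ?_⟩
  · obtain ⟨q1, q2, q3⟩ := QC.bridgeP28 h hNm hWm hG hf hp hp0 hP
    exact ⟨q1, q2, q3⟩
  · obtain ⟨q1, q2, q3⟩ := QHQ.brQ_main h hNm hWm hG hf hp hp0 hP
    exact ⟨q1, q2, q3⟩

variable {n : ℕ} {a : Fin 3 → Fin n → ℤ} {c : Cfg n a} {q : SPol c}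

/-- **(t3)** -/
theorem noTameQ1' (R : Ranked c) : Fin7.NoTameQ1' c q R := QAsm.noTameQ1' bridge R

/-- **(Q1)** -/
theorem inQ1 : Ind.InQ1 := Fin7.inQ1_of' fun _ _ _ _ R => noTameQ1' R

end Crest.Agent.R172.QFin
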