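import Crest.Agent.R172.QInsQ
import Crest.Agent.R172.QBrP28
import Crest.Agent.R172.QAsm659

/-!
Row 172 (S0260): **(t3)** = `Fin7.NoTameQ1'`, hence `Ind.InQ1`.
-/

set_option autoImplicit false

namespace Crest.Agent.R172.QFin860

open Matrix Module Crest.Agent.R172.FO Crest.Agent.R172.Qt Crest.Agent.R172.QAsm

theorem bridge : QAsm.Bridge := by
  intro ι δ _ _ _ _ K _ _ _ arm J B N W g f h hf hNm hWm hc p hp hp0 l hP
  have : CharZero K := charZero_of_injective_algebraMap (algebraMap ℂ K).injective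
  refine ⟨fun _ => ?_, fun _ => ?_⟩
  · obtain ⟨h1, h2, h3⟩ := QC.bridgeP28 h hNm hWm hc hf hp hp0 hP
    exact ⟨h1, h2, h3⟩
  · obtain ⟨h1, h2, h3⟩ := QHQ.brQ_main h hNm hWm hc hf hp hp0 hP
    exact ⟨h1, h2, h3⟩

theorem inQ1 : Ind.InQ1 := Fin7.inQ1_of' fun _ _ _ _ R => QAsm.noTameQ1' bridge R

end Crest.Agent.R172.QFin860
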