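import Crest.Agent.R172.QHalf
import Crest.Agent.R172.QEndQ2
import Crest.Agent.R172.Qt7

/-!
Row 172 (S0260), (t3), Q-side: the module `P1 = θ(P_S) ≤ K^δ`, `θ x = gᵀ J X x`, as a `Half`;
the span memberships from `hex`, `hrel`.
-/

set_option autoImplicit false
set_option linter.unusedSectionVars false
set_option linter.unusedFintypeInType false
set_option linter.unusedDecidableInType false
set_option maxHeartbeats 800000

namespace Crest.Agent.R172.QHQ

open Matrix Module TensorProduct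
open Crest.Agent.R172.FO Crest.Agent.R172.Qt Crest.Agent.R172.Mix Crest.Agent.R172.QC
open Crest.Agent.R172.PushQ (Push)

variable {ι : Type*} [Fintype ι] [DecidableEq ι] {δ : Type*} [Fintype δ] [DecidableEq δ]
variable {K : Type*} [Field K]

section defs

variable (arm : δ → Fin 3) (J : Matrix ι ι K) (B : Matrix δ δ K) (g : Matrix ι δ K)
  (X : Matrix ι ι K)

/-- `Φ_s = M_s φ` on `S` -/
abbrev PhS (s : Fin 3) : End K (Sg g) := Mop arm B g s ∘ₗ eta J g X

/-- `θ x = gᵀ J X x` on `P_S` -/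
def th : Pinf (PhS arm J B g X) →ₗ[K] (δ → K) :=
  (gᵀ * J * X).mulVecLin ∘ₗ (Sg g).subtype ∘ₗ (Pinf (PhS arm J B g X)).subtype

theorem th_apply (p : Pinf (PhS arm J B g X)) :
    th arm J B g X p = (gᵀ * J * X) *ᵥ ((p : Sg g) : ι → K) := rfl

/-- `P1 = θ(P_S)` -/
abbrev PQ : Submodule K (δ → K) := LinearMap.range (th arm J B g X)

theorem th_ap (s : Fin 3) (p : Pinf (PhS arm J B g X)) :
    th arm J B g X (QBlk.ap (PhS arm J B g X) s p)
      = (gᵀ * J * X * g * E K arm s * B) *ᵥ th arm J B g X p := by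
  rw [th_apply, th_apply]
  have h1 : ((QBlk.ap (PhS arm J B g X) s p : Sg g) : ι → K)
      = (M arm B s g g * J) *ᵥ (X *ᵥ ((p : Sg g) : ι → K)) := Mop_eta s X (p : Sg g)
  rw [h1]
  unfold M
  simp only [mulVec_mulVec, Matrix.mul_assoc]

/-- the operators on `P1` -/
def Aq (s : Fin 3) : End K (PQ arm J B g X) :=
  (gᵀ * J * X * g * E K arm s * B).mulVecLin.restrict (p := PQ arm J B g X) (q := PQ arm J B g X)
    (by
      rintro _ ⟨p, rfl⟩
      refine ⟨QBlk.ap (PhS arm J B g X) s p, ?_⟩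
      rw [mulVecLin_apply, th_ap])

/-- `θ' : P_S → P1` -/
def th' : Pinf (PhS arm J B g X) →ₗ[K] PQ arm J B g X := (th arm J B g X).rangeRestrict

theorem th'_coe (p : Pinf (PhS arm J B g X)) :
    ((th' arm J B g X p : PQ arm J B g X) : δ → K) = th arm J B g X p := rfl

/-- the radical of `P1` -/
def R1 : Submodule K (PQ arm J B g X) := (TP (PhS arm J B g X)).map (th' arm J B g X)

theorem push : Push (P := ↥(Pinf (PhS arm J B g X))) (P1 := ↥(PQ arm J B g X))
    (QBlk.ap (PhS arm J B g X)) (TP (PhS arm J B g X)) (Aq arm J B g X)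
    (R1 arm J B g X) (th' arm J B g X) where
  surj := LinearMap.surjective_rangeRestrict _
  comm s p := by
    apply Subtype.ext
    rw [th'_coe, th_ap]
    rfl
  ker p hp := by
    have h1 : th arm J B g X p = 0 := by
      rw [← th'_coe, hp]; rfl
    rw [mem_TP]
    refine St.Nk_le_T _ 1 ?_
    rw [St.mem_Nk_succ]
    intro s
    rw [St.mem_Nk_zero]
    apply Subtype.ext
    have h2 : ((PhS arm J B g X s (p : Sg g) : Sg g) : ι → K)
        = (M arm B s g g * J) *ᵥ (X *ᵥ ((p : Sg g) : ι → K)) := Mop_eta s X (p : Sg g)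
    rw [h2]
    have h3 : (M arm B s g g * J) *ᵥ (X *ᵥ ((p : Sg g) : ι → K))
        = (g * E K arm s * B) *ᵥ th arm J B g X p := by
      rw [th_apply]
      unfold M
      simp only [mulVec_mulVec, Matrix.mul_assoc]
    rw [h3, h1, mulVec_zero]
    rfl
  eq := rfl

end defs

variable {arm : δ → Fin 3} {J : Matrix ι ι K} {B : Matrix δ δ K} {g : Matrix ι δ K}
  {X : Matrix ι ι K}

/-- the form on `P1` -/
theorem exists_w {V : Type*} [AddCommGroup V] [Module K V] {a : Fin 3 → End K V}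
    {wa : V →ₗ[K] V →ₗ[K] K} {l : Fin 3 → ℕ}
    (h : Pair a wa (PhS arm J B g X) (eta J g X) l) :
    ∃ w1 : PQ arm J B g X →ₗ[K] PQ arm J B g X →ₗ[K] K,
      (∀ x y, w1 (th' arm J B g X x) (th' arm J B g X y) = eta J g X (x : Sg g) (y : Sg g)) ∧
      Half (Aq arm J B g X) (R1 arm J B g X) w1 (-1) (-1) l
        (finrank K (Cor (PhS arm J B g X))) := by
  have hB := h.halfB
  have h1 : ∀ x y : Pinf (PhS arm J B g X), th' arm J B g X x = 0 →
      Pform (PhS arm J B g X) (eta J g X) x y = 0 := by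
    intro x y hx
    have h2 : th arm J B g X x = 0 := by rw [← th'_coe, hx]; rfl
    rw [Pform_apply, eta_apply]
    obtain ⟨u, hu⟩ := (y : Sg g).2
    rw [← hu, mulVecLin_apply, ← vecMul_transpose, ← dotProduct_mulVec]
    rw [th_apply] at h2
    have h3 : gᵀ *ᵥ ((J * X) *ᵥ ((x : Sg g) : ι → K)) = 0 := by
      rw [mulVec_mulVec, ← Matrix.mul_assoc]; exact h2
    rw [h3, dotProduct_zero]
  have h2 : ∀ x y : Pinf (PhS arm J B g X), th' arm J B g X y = 0 →
      Pform (PhS arm J B g X) (eta J g X) x y = 0 := by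
    intro x y hy
    rw [hB.symm, h1 y x hy, mul_zero]
  obtain ⟨w1, hw1⟩ := PushQ.exists_form (P := ↥(Pinf (PhS arm J B g X)))
    (P1 := ↥(PQ arm J B g X)) (θ := th' arm J B g X) (push arm J B g X).surj
    (Pform (PhS arm J B g X) (eta J g X)) h1 h2
  exact ⟨w1, fun x y => hw1 x y, hB.push (push arm J B g X) hw1⟩

/-- the memberships of the Q-side END from `hex` and `hrel`. -/
theorem brQ {V : Type*} [AddCommGroup V] [Module K V] [FiniteDimensional K V]
    {a : Fin 3 → End K V} {wa : V →ₗ[K] V →ₗ[K] K} {l : Fin 3 → ℕ}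
    (h : Pair a wa (PhS arm J B g X) (eta J g X) l)
    {E : Type*} [AddCommGroup E] [Module K E]
    {Λ : Set K} (hΛ : Λ.Infinite) (h0 : (0 : K) ∉ Λ)
    (q : Fin 3 → PQ arm J B g X →ₗ[K] PQ arm J B g X →ₗ[K] E) (Q : Submodule K E) {a1 a2 a3 : K}
    (ha1 : a1 ≠ 0) (ha2 : a2 ≠ 0) (ha3 : a3 ≠ 0)
    (hex : ∀ c ∈ Λ, ∀ x, RJ.Ex (Aq arm J B g X) (QBlk.ap a) (R1 arm J B g X) (TP a) c x →
      ∃ b, RJ.Cor (Aq arm J B g X) (QBlk.ap a) (R1 arm J B g X) (Pform a wa) 1 c x b)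
    (hrel : ∀ c ∈ Λ, ∀ c' ∈ Λ, ∀ x b x' b',
      RJ.Ex (Aq arm J B g X) (QBlk.ap a) (R1 arm J B g X) (TP a) c x →
      RJ.Cor (Aq arm J B g X) (QBlk.ap a) (R1 arm J B g X) (Pform a wa) 1 c x b →
      RJ.Ex (Aq arm J B g X) (QBlk.ap a) (R1 arm J B g X) (TP a) c' x' →
      RJ.Cor (Aq arm J B g X) (QBlk.ap a) (R1 arm J B g X) (Pform a wa) 1 c' x' b' →
      ∑ t, (a1 • TensorProduct.lift ((q t) ∘ₗ b') (x t)
        + a2 • TensorProduct.lift ((q t).flip ∘ₗ b) (x' t)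
        + a3 • TensorProduct.lift ((q t) ∘ₗ (RJ.ev (Pform a wa) (x' t))) (x t)) ∈ Q) :
    (∀ t, ∀ r ∈ TP (PhS arm J B g X), ∀ p,
      q t (th' arm J B g X r) (th' arm J B g X p) ∈ Q ∧
      q t (th' arm J B g X p) (th' arm J B g X r) ∈ Q) ∧
    (∀ s i j, i + j + 1 = l s → ∀ p p',
      q s (th' arm J B g X ((QBlk.ap (PhS arm J B g X) s ^ i) p))
        (th' arm J B g X ((QBlk.ap (PhS arm J B g X) s ^ j) p')) ∈ Q) := by
  obtain ⟨w1, -, hH⟩ := exists_w h
  obtain ⟨h1, h2⟩ := hH.rj h.halfA hΛ h0 q Q ha1 ha2 ha3 hex hrel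
  refine ⟨fun t r hr p => h1 t _ ⟨r, hr, rfl⟩ _, fun s i j hij p p' => ?_⟩
  rw [(push arm J B g X).pow, (push arm J B g X).pow]
  exact h2 s i j hij _ _

end Crest.Agent.R172.QHQ
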