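import Crest.Agent.R172.QBrQ2
import Crest.Agent.R172.QAsmQ
import Crest.Agent.R172.QHalf

/-!
Row 172 (S0260), (Q1)/(t3): the Q-half.  Instance of `QBrQ2.QS` from `QC.Pair`; the single-arm
memberships on `P_S`; `False` in type `(3,3,3)`.
-/

set_option autoImplicit false
set_option linter.unusedSectionVars false
set_option linter.unusedFintypeInType false
set_option linter.unusedDecidableInType false
set_option maxHeartbeats 800000

namespace Crest.Agent.R172.QInsQ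

open Matrix Module TensorProduct Crest.Agent.R172.FO Crest.Agent.R172.Qt
open Crest.Agent.R172.Mix Crest.Agent.R172.QC
open Crest.Agent.R172.QEndQ (TT qt mm)
open Crest.Agent.R172.QBrQ2 (QS At)
open Crest.Agent.R172.QAsm (thQ UQ mem_UQ thQ_apply)

variable {ι : Type*} [Fintype ι] [DecidableEq ι] {δ : Type*} [Fintype δ] [DecidableEq δ]
variable {k K : Type*} [Field k] [Field K] [Algebra k K]
variable {arm : δ → Fin 3} {J : Matrix ι ι K} {B : Matrix δ δ K}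
  {N W : Submodule K (Matrix ι δ K)} {g f : Matrix ι δ K} {X : Matrix ι ι K}

/-- the operators on `S` -/
abbrev Ph (arm : δ → Fin 3) (J : Matrix ι ι K) (B : Matrix δ δ K) (g : Matrix ι δ K)
    (X : Matrix ι ι K) (s : Fin 3) : End K (Sg g) := Mop arm B g s ∘ₗ eta J g X

/-- `v ↦ gᵀ J X v` on `S` -/
def t0 (J : Matrix ι ι K) (g : Matrix ι δ K) (X : Matrix ι ι K) : Sg g →ₗ[K] (δ → K) :=
  (gᵀ * J * X).mulVecLin ∘ₗ (Sg g).subtype

theorem t0_apply (v : Sg g) : t0 J g X v = (gᵀ * J * X) *ᵥ (v : ι → K) := rfl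

theorem Ph_coe (s : Fin 3) (v : Sg g) :
    ((Ph arm J B g X s v : Sg g) : ι → K) = g *ᵥ ((E K arm s * B) *ᵥ (t0 J g X v)) := by
  have h1 := Mop_eta (arm := arm) (B := B) (J := J) s X v
  have h2 : ((Ph arm J B g X s v : Sg g) : ι → K)
      = ((Mop arm B g s (eta J g X v) : Sg g) : ι → K) := rfl
  rw [h2, h1, t0_apply]
  simp only [mulVec_mulVec]
  congr 1
  unfold M
  simp only [Matrix.mul_assoc]

theorem brd_Q : Brd (t0 J g X) (Ph arm J B g X) (fun t => (At arm J B g X t).mulVecLin) where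
  comm s v := by
    rw [t0_apply, Ph_coe, mulVecLin_apply]
    simp only [mulVec_mulVec]
    congr 1
    unfold At
    simp only [Matrix.mul_assoc]
  ker s v hv := by
    apply Subtype.ext
    rw [Ph_coe, hv, mulVec_zero, mulVec_zero]
    rfl
  range s w := by
    refine ⟨⟨g.mulVecLin ((E K arm s * B) *ᵥ w), ⟨_, rfl⟩⟩, ?_⟩
    change (gᵀ * J * X) *ᵥ (g *ᵥ ((E K arm s * B) *ᵥ w)) = At arm J B g X s *ᵥ w
    simp only [mulVec_mulVec]
    congr 1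
    unfold At
    simp only [Matrix.mul_assoc]

theorem brd_P (hf : gᵀ * J * f = 0) : Brd (Sp J g).subtype (aop arm J B g f hf)
    (fun t => (M arm B t f f * J).mulVecLin) where
  comm s v := rfl
  ker s v hv := by
    have : v = 0 := Subtype.ext hv
    rw [this, map_zero]
  range s w := by
    refine ⟨⟨(M arm B s f f * J) *ᵥ w, ?_⟩, rfl⟩
    rw [mem_Sp, mulVec_mulVec]
    have : gᵀ * J * (M arm B s f f * J) = 0 := by
      unfold M
      have e : gᵀ * J * (f * E K arm s * B * fᵀ * J) = (gᵀ * J * f) * (E K arm s * B * fᵀ * J) := by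
        simp only [Matrix.mul_assoc]
      rw [e, hf, Matrix.zero_mul]
    rw [this, zero_mulVec]

/-- `bridgeQ` with `P1 = P_S / ker` built in -/
theorem bridgeQ' [Infinite K] {V1 V2 : Type*} [AddCommGroup V1] [Module K V1] [AddCommGroup V2]
    [Module K V2] {Ap : Fin 3 → End K V1} {F : Fin 3 → End K V2} {i1 : V1 →ₗ[K] (ι → K)}
    {i2 : V2 →ₗ[K] (ι → K)} {th : V2 →ₗ[K] (δ → K)} {R1 : Submodule K V1} {R2 : Submodule K V2}
    {gf : V1 →ₗ[K] V1 →ₗ[K] K} (hctx : Ctx k arm J B N W g)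
    (hNm : ∀ F, (∀ F' ∈ N, pair J B F' F = 0) → F ∈ N)
    (hWm : ∀ F, (∀ F' ∈ W, pair J B F' F = 0) → F ∈ W)
    (hc : Glue k arm J N W g) (hf : f ∈ N ⊓ W)
    {p : Matrix ι ι K × (Fin 3 → Matrix ι ι K)} (hp : p ∈ NN arm J N g)
    (hp0 : gᵀ * J * (p.1 * f) = 0) [FiniteDimensional K V1] [FiniteDimensional K V2]
    (side : QBr.Side arm J B g f p.1 Ap F i1 i2)
    (hth : ∀ y, th y = (gᵀ * J) *ᵥ (p.1 *ᵥ i2 y)) (hker : ∀ t y, th y = 0 → F t y = 0)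
    (hYR : LinearMap.ker th ≤ R2)
    (hPΘ : Mix.Pinf (fun t => (At arm J B g p.1 t).mulVecLin) ≤ LinearMap.range th)
    (hPf : Mix.Pinf (fun t => (M arm B t f f * J).mulVecLin)
      ≤ LinearMap.range i1 ⊔ LinearMap.range g.mulVecLin)
    (hrad : ∀ r ∈ R2, ∀ y u, i2 y = g *ᵥ u → u ⬝ᵥ th r = 0)
    (hgf : ∀ v v', gf v v' = i1 v ⬝ᵥ J *ᵥ i1 v') (gR : ∀ r ∈ R1, ∀ v, gf r v = 0)
    {l : Fin 3 → ℕ} (h2 : QBlk.PSide F R2 l) (h1 : QBlk.PSide Ap R1 l)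
    (gtop : ∀ s, ∃ v v', gf ((Ap s ^ (l s - 1)) v) v' ≠ 0)
    {U : Submodule K (δ → K)} (hU : ∀ u ∈ U, ∃ y, i2 y = g *ᵥ u) :
    (∀ t, ∀ r ∈ R2, ∀ v, qt th t r v ∈ TT arm J N g U ∧ qt th t v r ∈ TT arm J N g U) ∧
      (∀ s i j, i + j + 1 = l s → ∀ v v',
        qt th s ((F s ^ i) v) ((F s ^ j) v') ∈ TT arm J N g U) := by
  classical
  have hY : ∀ t, ∀ y ∈ LinearMap.ker th, F t y ∈ LinearMap.ker th := by
    intro t y hy
    rw [hker t y hy]
    exact Submodule.zero_mem _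
  have h3 := h2.quot hYR hY
  let θ : (V2 ⧸ LinearMap.ker th) →ₗ[K] (δ → K) := (LinearMap.ker th).liftQ th le_rfl
  have hθ : ∀ y, θ ((LinearMap.ker th).mkQ y) = th y := fun y => rfl
  have hQS : QS arm J B g f p.1 Ap F (QBlk.Aq F (LinearMap.ker th) hY)
      i1 i2 (LinearMap.ker th).mkQ θ R1 (R2.map (LinearMap.ker th).mkQ) gf :=
    { side := side
      surj := Submodule.mkQ_surjective _
      πF := fun t y => rfl
      ker := fun t y hy => hker t y ((Submodule.Quotient.mk_eq_zero _).1 hy)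
      θπ := fun y => by rw [hθ, hth]
      θinj := by
        rw [← LinearMap.ker_eq_bot]
        exact Submodule.ker_liftQ_eq_bot _ _ _ le_rfl
      top1 := h1.top
      top2 := h2.top
      hPΘ := by
        refine hPΘ.trans ?_
        rintro _ ⟨v, rfl⟩
        exact ⟨(LinearMap.ker th).mkQ v, rfl⟩
      hPf := hPf
      hrad := by
        rintro _ ⟨r, hr, rfl⟩ y u hu
        rw [hθ]
        exact hrad r hr y u hu
      st3 := h3.stable
      hgf := hgf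
      gR := gR }
  obtain ⟨c1, c2⟩ := QBrQ2.bridgeQ hctx hNm hWm hc hf hp hp0 hQS h3 h1 gtop hU
  refine ⟨fun t r hr v => ?_, fun s i j hij v v' => ?_⟩
  · have := c1 t ((LinearMap.ker th).mkQ r) ⟨r, hr, rfl⟩ ((LinearMap.ker th).mkQ v)
    simp only [QEndQ.qt_apply, hθ] at this ⊢
    exact this
  · have := c2 s i j hij ((LinearMap.ker th).mkQ v) ((LinearMap.ker th).mkQ v')
    have e : ∀ i v, (QBlk.Aq F (LinearMap.ker th) hY s ^ i) ((LinearMap.ker th).mkQ v)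
        = (LinearMap.ker th).mkQ ((F s ^ i) v) := fun i v => QBlk.Aq_pow_mk s i v
    rw [e, e] at this
    simp only [QEndQ.qt_apply, hθ] at this ⊢
    exact this

/-- **single-arm memberships, abstract modules** -/
theorem memQ_abs [Infinite K] (hctx : Ctx k arm J B N W g)
    (hNm : ∀ F, (∀ F' ∈ N, pair J B F' F = 0) → F ∈ N)
    (hWm : ∀ F, (∀ F' ∈ W, pair J B F' F = 0) → F ∈ W)
    (hc : Glue k arm J N W g) (hf : f ∈ N ⊓ W) (hf0 : gᵀ * J * f = 0)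
    {p : Matrix ι ι K × (Fin 3 → Matrix ι ι K)} (hp : p ∈ NN arm J N g)
    (hp0 : gᵀ * J * (p.1 * f) = 0)
    {Y : Type*} [AddCommGroup Y] [Module K Y] [FiniteDimensional K Y]
    {S : Type*} [AddCommGroup S] [Module K S] [FiniteDimensional K S]
    {a : Fin 3 → End K Y} {wa : Y →ₗ[K] Y →ₗ[K] K} {Φ : Fin 3 → End K S}
    {wb : S →ₗ[K] S →ₗ[K] K} {l : Fin 3 → ℕ} (hP : QC.Pair a wa Φ wb l)
    {jY : Y →ₗ[K] (ι → K)} {jS : S →ₗ[K] (ι → K)} {tS : S →ₗ[K] (δ → K)}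
    (hJ1 : ∀ y, (gᵀ * J) *ᵥ jY y = 0)
    (hA1 : ∀ t y, (M arm B t f f * J) *ᵥ jY y = jY (a t y))
    (hJ2 : ∀ v, ∃ u, jS v = g *ᵥ u)
    (hB2 : ∀ t v, jS (Φ t v) = (M arm B t g g * J) *ᵥ (p.1 *ᵥ (jS v)))
    (hth : ∀ v, tS v = (gᵀ * J) *ᵥ (p.1 *ᵥ jS v)) (hker : ∀ t v, tS v = 0 → Φ t v = 0)
    (hPΘ : Mix.Pinf (fun t => (At arm J B g p.1 t).mulVecLin) ≤ (Pinf Φ).map tS)
    (hPf : Mix.Pinf (fun t => (M arm B t f f * J).mulVecLin) ≤ (Pinf a).map jY)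
    (hwa : ∀ v v', wa v v' = jY v ⬝ᵥ J *ᵥ jY v')
    (hwb : ∀ v v', wb v v' = jS v' ⬝ᵥ (J * p.1) *ᵥ jS v)
    {U : Submodule K (δ → K)} (hU : ∀ u ∈ U, ∃ y : Pinf Φ, jS y = g *ᵥ u) :
    (∀ t, ∀ r ∈ TP Φ, ∀ v : Pinf Φ,
      qt (tS ∘ₗ (Pinf Φ).subtype) t r v ∈ TT arm J N g U ∧
      qt (tS ∘ₗ (Pinf Φ).subtype) t v r ∈ TT arm J N g U) ∧
    (∀ s i j, i + j + 1 = l s → ∀ v v' : Pinf Φ,
      qt (tS ∘ₗ (Pinf Φ).subtype) s ((QBlk.ap Φ s ^ i) v) ((QBlk.ap Φ s ^ j) v')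
        ∈ TT arm J N g U) := by
  have hJ := hctx.data.J_symm
  have heta' : ∀ (y v : Pinf Φ) (u : δ → K), jS v = g *ᵥ u →
      Pform Φ wb y v = u ⬝ᵥ (tS ∘ₗ (Pinf Φ).subtype) y := by
    intro y v u hu
    rw [Pform_apply, hwb, hu, LinearMap.comp_apply, Submodule.subtype_apply, hth,
      ← vecMul_transpose, ← dotProduct_mulVec, mulVec_mulVec, mulVec_mulVec]
    simp only [Matrix.mul_assoc]
  have hker' : ∀ t (y : Pinf Φ),
      (tS ∘ₗ (Pinf Φ).subtype) y = 0 → QBlk.ap Φ t y = 0 := by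
    intro t y hy
    apply Subtype.ext
    rw [QBlk.ap_coe]
    exact hker t _ hy
  refine bridgeQ' (Ap := QBlk.ap a) (F := QBlk.ap Φ) (i1 := jY ∘ₗ (Pinf a).subtype)
    (i2 := jS ∘ₗ (Pinf Φ).subtype) (R1 := TP a) (gf := Pform a wa)
    hctx hNm hWm hc hf hp hp0 ?_ ?_ hker' ?_ ?_ ?_ ?_ (fun v v' => hwa v v')
    (fun r hr v => (hP.radA r).1 hr v) (hP.halfB.side) (hP.halfA.side) (hP.halfA.gtop) ?_
  · exact ⟨hJ, hctx.data.B_symm, hctx.data.B_arm, hctx.data.J_unit, hctx.iso, hf0, hp.1,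
        fun v => hJ1 v, fun t v => ⟨0, by
          rw [mulVec_zero, add_zero]
          exact hA1 t v⟩, fun v => hJ2 v, fun t v => hB2 t v⟩
  · intro y
    exact hth y
  · intro y hy
    refine (hP.radB y).2 fun v => ?_
    obtain ⟨u, hu⟩ := hJ2 (v : S)
    have h1 := heta' y v u hu
    rw [LinearMap.mem_ker.1 hy, dotProduct_zero] at h1
    exact h1
  · refine hPΘ.trans ?_
    rintro _ ⟨v, hv, rfl⟩
    exact ⟨⟨v, hv⟩, rfl⟩
  · refine hPf.trans (le_trans ?_ le_sup_left)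
    rintro _ ⟨v, hv, rfl⟩
    exact ⟨⟨v, hv⟩, rfl⟩
  · intro r hr y u hu
    rw [← heta' r y u hu]
    exact (hP.radB r).1 hr y
  · intro u hu
    obtain ⟨q, hq⟩ := hU u hu
    exact ⟨q, hq⟩

/-- **THE Q-HALF, type `(3,3,3)`** -/
theorem false_of_pair [CharZero K] (hctx : Ctx k arm J B N W g)
    (hNm : ∀ F, (∀ F' ∈ N, pair J B F' F = 0) → F ∈ N)
    (hWm : ∀ F, (∀ F' ∈ W, pair J B F' F = 0) → F ∈ W)
    (hc : Glue k arm J N W g) (hf : f ∈ N ⊓ W) {hf0 : gᵀ * J * f = 0}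
    {p : Matrix ι ι K × (Fin 3 → Matrix ι ι K)} (hp : p ∈ NN arm J N g)
    (hp0 : gᵀ * J * (p.1 * f) = 0) {l : Fin 3 → ℕ}
    (hP : QC.Pair (aop arm J B g f hf0) (omP J g)
      (fun s => Mop arm B g s ∘ₗ eta J g p.1) (eta J g p.1) l) (hl : ∀ s, l s = 3) : False := by
  have : Infinite K := Infinite.of_injective (fun n : ℕ => (n : K)) Nat.cast_injective
  have hU : ∀ u ∈ UQ g (Pinf (Ph arm J B g p.1)),
      ∃ y : Pinf (Ph arm J B g p.1), (Sg g).subtype y = g *ᵥ u := by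
    intro u hu
    obtain ⟨q, hq⟩ := mem_UQ.1 hu
    exact ⟨q, hq⟩
  obtain ⟨c1, c2⟩ := memQ_abs hctx hNm hWm hc hf hf0 hp hp0 hP (jY := (Sp J g).subtype)
    (jS := (Sg g).subtype) (tS := t0 J g p.1)
    (fun v => mem_Sp.1 v.2) (fun t v => rfl)
    (fun v => by
      obtain ⟨u, hu⟩ := v.2
      exact ⟨u, hu.symm⟩) (fun t v => Mop_eta t p.1 v)
    (fun v => by
      rw [t0_apply, mulVec_mulVec]
      rfl) (fun t v hv => brd_Q.ker t v hv) brd_Q.Pinf_le (brd_P hf0).Pinf_le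
    (fun v v' => rfl) (fun v v' => rfl) hU
  exact QAsm.endQ_of_mem hctx hP hl (fun v => rfl) c1 c2

end Crest.Agent.R172.QInsQ
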