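import Crest.Agent.R172.QBr3
import Crest.Agent.R172.QEndP3

/-!
Row 172 (S0260), t3: THE P-HALF.  A mixed tame pair is of type (3,3,3) (and of dimension 3).
-/

set_option autoImplicit false
set_option linter.unusedSectionVars false
set_option linter.unusedFintypeInType false
set_option linter.unusedDecidableInType false
set_option linter.unusedSimpArgs false
set_option maxHeartbeats 800000

namespace Crest.Agent.R172.QBr

open Matrix Module TensorProduct Crest.Agent.R172.FO Crest.Agent.R172.Qt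
open Crest.Agent.R172.Mix
open Crest.Agent.R172.QEndP (mt SSp)
open Crest.Agent.R172.QC (omP)

variable {ι δ k K : Type} [Fintype ι] [DecidableEq ι] [Fintype δ] [DecidableEq δ]
variable [Field k] [Field K] [Algebra k K]
variable {arm : δ → Fin 3} {J : Matrix ι ι K} {B : Matrix δ δ K}
  {N W : Submodule K (Matrix ι δ K)} {g f : Matrix ι δ K}

/-- **THE P-HALF OF (t3)** -/
theorem P_false [CharZero K] (h : Ctx k arm J B N W g)
    (hNm : ∀ F, (∀ F' ∈ N, pair J B F' F = 0) → F ∈ N)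
    (hWm : ∀ F, (∀ F' ∈ W, pair J B F' F = 0) → F ∈ W)
    (hG : Glue k arm J N W g) (hf : f ∈ N ⊓ W)
    {p : Matrix ι ι K × (Fin 3 → Matrix ι ι K)} (hp : p ∈ NN arm J N g)
    (hp0 : gᵀ * J * (p.1 * f) = 0) {l : Fin 3 → ℕ}
    (hpair : QC.Pair (aop arm J B g f (h.perp f hf)) (omP J g)
      (fun s => Mop arm B g s ∘ₗ eta J g p.1) (eta J g p.1) l)
    (h333 : (∀ s, l s = 3) → 3 < finrank K (Cor (aop arm J B g f (h.perp f hf)))) : False := by
  haveI : Infinite K := CharZero.infinite K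
  obtain ⟨P1, _, _, A, R1, w, i1, P2, _, _, Bo, R2, g', i2, hfd1, hfd2, hS, hH1, hH2, hw, hg',
      hinj, hcov, hv1, hR1m, hv2, hcov2, hR2m⟩ :=
    QC.exists_sideP h.data.J_symm h.data.J_unit h.data.B_symm h.data.B_arm h.iso
      (h.perp f hf) hp.1 hpair
  have hneg : ∀ x y, g2 J p.1 i2 x y = - g' x y := by
    intro x y
    rw [g2_apply, hg', hS.skw_adj hp.1, mulVec_mulVec]
  have hH2' : QC.Half Bo R2 (g2 J p.1 i2) (-1) (-1) l
      (finrank K (Cor (fun s => Mop arm B g s ∘ₗ eta J g p.1))) :=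
    { side := hH2.side
      sum := hH2.sum
      symm := fun x y => by rw [hneg, hneg, hH2.symm x y]; ring
      sq := hH2.sq
      adj := fun s x y => by rw [hneg, hneg, hH2.adj s x y]; ring
      sq₂ := hH2.sq₂
      rad := fun x => by
        rw [hH2.rad x]
        refine forall_congr' fun y => ?_
        rw [hneg, neg_eq_zero]
      q := hH2.q
      fin := hH2.fin
      S2 := hH2.S2
      pos := hH2.pos }
  have hR1 : ∀ t, ∀ r ∈ R1, A t r ∈ R1 := hH1.side.stable
  have hR2 : ∀ t, ∀ r ∈ R2, Bo t r ∈ R2 := hH2.side.stable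
  have horth : ∀ r ∈ R1, ∀ q, i1 r ⬝ᵥ J *ᵥ i1 q = 0 := fun r hr q => by
    rw [← hw]; exact (hH1.rad r).1 hr q
  have hgR : ∀ r ∈ R2, ∀ q, g2 J p.1 i2 r q = 0 := fun r hr q => (hH2'.rad r).1 hr q
  have hcov' : ∀ v : Pinf (aop arm J B g f (h.perp f hf)), ∃ q u,
      ((v : Sp J g) : ι → K) = i1 q + g *ᵥ u := fun v => hcov v v.2
  have him : ∀ q, ∃ u, i1 q = f *ᵥ u := by
    intro q
    obtain ⟨v, hv, hq⟩ := hv1 q
    obtain ⟨z, hz⟩ := QEndP.exists_u (h.perp f hf) ⟨v, hv⟩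
    exact ⟨_, by rw [hq]; exact hz.symm⟩
  have hq := hH1.rj hH2' (Lam_infinite hS hR1 hR2 hH1.side.top hH2.side.top)
    (fun h0 => h0.1 rfl) (qf arm J f i1) (SSp arm J B N W g f (h.perp f hf))
    (a1 := 1) (a2 := -1) (a3 := -1) one_ne_zero (neg_ne_zero.2 one_ne_zero)
    (neg_ne_zero.2 one_ne_zero)
    (fun c hc x hx => hexP h hNm hWm hG hf hp rfl hp0 hS hR1 hR2 horth hgR hinj hc hx)
    (fun c hc c' hc' x b x' b' hx hb hx' hb' =>
      hrelP h hNm hWm hG hf hp rfl hp0 hS hR1 hR2 horth hgR hcov' him hc hc' hx hb hx' hb')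
  obtain ⟨T, hT, hne, hmem⟩ := hH1.P_end h333 hq
  exact QEndP.endP_side h hNm hWm hf i1 hv1 hw
    (fun s x y => by
      rw [qf_eq, q0_apply, ← Matrix.mul_assoc (vecMulVec _ _) J f]) hT hne hmem

end Crest.Agent.R172.QBr
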