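import Crest.Agent.R172.QSS2
import Crest.Agent.R172.QEndP3
import Crest.Agent.R172.QCore5

/-!
Row 172 (S0260), (t3): the whole P-side: no pair, except type `(3,3,3)` with a core of dimension
`≤ 3`.
-/

set_option autoImplicit false
set_option linter.unusedSectionVars false
set_option linter.unusedFintypeInType false
set_option linter.unusedDecidableInType false
set_option maxHeartbeats 800000

namespace Crest.Agent.R172.QPF

open Matrix Module TensorProduct Crest.Agent.R172.FO Crest.Agent.R172.Qt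
open Crest.Agent.R172.Mix Crest.Agent.R172.QEndP
open Crest.Agent.R172.QBr (Side ten g2)
open Crest.Agent.R172.RJ (Ex Cor)

section unique

variable {K : Type*} [Field K] {P1 P2 : Type*} [AddCommGroup P1] [Module K P1]
  [AddCommGroup P2] [Module K P2]

theorem kill_top {B : Fin 3 → End K P2} (hB : ⨆ t, LinearMap.range (B t) = ⊤)
    (d : P2 →ₗ[K] P1) : ∀ n : ℕ, (∀ w : List (Fin 3), w.length = n → ∀ v,
      d ((w.map B).prod v) = 0) → d = 0 := by
  intro n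
  induction n with
  | zero =>
    intro h
    ext v
    exact h [] rfl v
  | succ n ih =>
    intro h
    refine ih fun w hw v => ?_
    obtain ⟨f, hf⟩ := QBlk.exists_sum_of_top hB v
    rw [hf, map_sum, map_sum]
    refine Finset.sum_eq_zero fun t _ => ?_
    have h1 := h (w ++ [t]) (by simp [hw]) (f t)
    rwa [List.map_append, List.prod_append, Module.End.mul_apply, List.map_singleton,
      List.prod_singleton] at h1

theorem cor_unique {A : Fin 3 → End K P1} {B : Fin 3 → End K P2} {R : Submodule K P1}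
    {g2 : P2 →ₗ[K] P2 →ₗ[K] K} {eps c : K} (hec : eps * c ≠ 0) {x : Fin 3 → P2 ⊗[K] P1}
    {b b' : P2 →ₗ[K] P1} (hb : Cor A B R g2 eps c x b) (hb' : Cor A B R g2 eps c x b')
    (hB : ⨆ t, LinearMap.range (B t) = ⊤) {m : ℕ}
    (hN : ∀ w : List (Fin 3), w.length = m → ∀ r ∈ R, (w.map A).prod r = 0) : b = b' := by
  have hd : ∀ t v, A t ((b - b') v) = (eps * c) • (b - b') (B t v) := by
    intro t v
    have h1 := hb.eq t v
    rw [← hb'.eq t v] at h1
    rw [LinearMap.sub_apply, LinearMap.sub_apply, map_sub, smul_sub]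
    rw [sub_eq_iff_eq_add] at h1
    rw [h1]
    abel
  have hw : ∀ w : List (Fin 3), ∀ v, (w.map A).prod ((b - b') v)
      = (eps * c) ^ w.length • (b - b') ((w.map B).prod v) := by
    intro w
    induction w with
    | nil => intro v; simp
    | cons s w ih =>
      intro v
      rw [List.map_cons, List.prod_cons, Module.End.mul_apply, ih, map_smul, hd, smul_smul,
        List.map_cons, List.prod_cons, Module.End.mul_apply, List.length_cons, pow_succ]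
  refine sub_eq_zero.1 (kill_top hB (b - b') m fun w hwl v => ?_)
  have h1 := hw w v
  rw [hN w hwl _ (by rw [LinearMap.sub_apply]; exact R.sub_mem (hb.mem v) (hb'.mem v))] at h1
  exact (smul_eq_zero.1 h1.symm).resolve_left (pow_ne_zero _ hec)

end unique

section conc

variable {ι : Type*} [Fintype ι] [DecidableEq ι] {δ : Type*} [Fintype δ] [DecidableEq δ]
variable {k K : Type*} [Field k] [Field K] [Algebra k K]
variable {P1 P2 : Type*} [AddCommGroup P1] [Module K P1] [AddCommGroup P2] [Module K P2]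
variable {arm : δ → Fin 3} {J : Matrix ι ι K} {B : Matrix δ δ K}
  {N W : Submodule K (Matrix ι δ K)} {g f : Matrix ι δ K}
  {X : Matrix ι ι K} {A : Fin 3 → End K P1} {Bo : Fin 3 → End K P2}
  {i1 : P1 →ₗ[K] (ι → K)} {i2 : P2 →ₗ[K] (ι → K)}

theorem vmv_g (g : Matrix ι δ K) (u : δ → K) (v : ι → K) :
    vecMulVec (g *ᵥ u) v = g * vecMulVec u v := by
  ext i j
  simp [Matrix.mul_apply, vecMulVec_apply, Matrix.mulVec, dotProduct, Finset.sum_mul, mul_assoc]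

/-- `i1 P1 ⊆ im f + im g` -/
theorem i1_fS (h : Side arm J B g f X A Bo i1 i2) (hA : ⨆ t, LinearMap.range (A t) = ⊤) (p : P1) :
    ∃ a b : δ → K, i1 p = f *ᵥ a + g *ᵥ b := by
  obtain ⟨y, hy⟩ := QBlk.exists_sum_of_top hA p
  choose u hu using fun t => h.A1 t (y t)
  refine ⟨∑ t, (E K arm t * B * fᵀ * J) *ᵥ i1 (y t), -∑ t, u t, ?_⟩
  have e : ∀ t, i1 (A t (y t)) = f *ᵥ ((E K arm t * B * fᵀ * J) *ᵥ i1 (y t)) - g *ᵥ u t := by
    intro t
    have h1 := hu t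
    have h2 : (M arm B t f f * J) *ᵥ i1 (y t) = f *ᵥ ((E K arm t * B * fᵀ * J) *ᵥ i1 (y t)) := by
      rw [mulVec_mulVec]; unfold M; simp only [Matrix.mul_assoc]
    rw [← h2, h1]; abel
  rw [hy, map_sum, Finset.sum_congr rfl fun t _ => e t, Finset.sum_sub_distrib, mulVec_neg,
    mulVec_sum, mulVec_sum, sub_eq_add_neg]

theorem ten_fS (h : Side arm J B g f X A Bo i1 i2) (hA : ⨆ t, LinearMap.range (A t) = ⊤)
    (x : P2 ⊗[K] P1) : ∃ C C' : Matrix δ ι K, ten J i1 i2 x = f * C + g * C' := by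
  induction x using TensorProduct.induction_on with
  | zero => exact ⟨0, 0, by simp⟩
  | tmul a p =>
    obtain ⟨u, hu⟩ := h.J2 a
    obtain ⟨y, z, hyz⟩ := i1_fS h hA p
    refine ⟨-(vecMulVec y (i2 a) * J), vecMulVec u (i1 p) * J - vecMulVec z (i2 a) * J, ?_⟩
    rw [QBr.ten_tmul, hyz]
    have e1 : vecMulVec (f *ᵥ y + g *ᵥ z) (i2 a)
        = f * vecMulVec y (i2 a) + g * vecMulVec z (i2 a) := by
      rw [add_vecMulVec, vmv_g, vmv_g]
    have e2 : vecMulVec (i2 a) (f *ᵥ y + g *ᵥ z) = g * vecMulVec u (f *ᵥ y + g *ᵥ z) := by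
      rw [hu, vmv_g]
    rw [e1, e2, Matrix.mul_neg, Matrix.mul_sub, Matrix.add_mul]
    simp only [Matrix.mul_assoc]
    abel
  | add x y hx hy =>
    obtain ⟨C, C', hC⟩ := hx
    obtain ⟨D, D', hD⟩ := hy
    exact ⟨C + D, C' + D', by rw [map_add, hC, hD, Matrix.mul_add, Matrix.mul_add]; abel⟩

/-- **THE P-SIDE BRIDGE** -/
theorem bridgeP [Infinite K] (hctx : Ctx k arm J B N W g)
    (hNm : ∀ F, (∀ F' ∈ N, pair J B F' F = 0) → F ∈ N)
    (hWm : ∀ F, (∀ F' ∈ W, pair J B F' F = 0) → F ∈ W)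
    (hc : Glue k arm J N W g) (hf : f ∈ N ⊓ W)
    {p : Matrix ι ι K × (Fin 3 → Matrix ι ι K)} (hp : p ∈ NN arm J N g)
    (hp0 : gᵀ * J * (p.1 * f) = 0) [FiniteDimensional K P1] [FiniteDimensional K P2]
    (h : Side arm J B g f p.1 A Bo i1 i2) {R1 : Submodule K P1} {R2 : Submodule K P2}
    {l : Fin 3 → ℕ} (h1 : QBlk.PSide A R1 l) (h2 : QBlk.PSide Bo R2 l)
    (hR1 : ∀ r ∈ R1, ∀ a, i1 r ⬝ᵥ J *ᵥ i1 a = 0)
    (hgR : ∀ r ∈ R2, ∀ a, g2 J p.1 i2 r a = 0) (hgR' : ∀ r ∈ R2, ∀ a, g2 J p.1 i2 a r = 0)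
    (gtop : ∀ s, ∃ v v', g2 J p.1 i2 ((Bo s ^ (l s - 1)) v) v' ≠ 0)
    (hi0 : ∀ a, (∃ u, i1 a = g *ᵥ u) → a = 0)
    (hsec : ∀ v : Sp J g, v ∈ Pinf (aop arm J B g f (hctx.perp f hf)) →
      ∃ q u, (v : ι → K) = i1 q + g *ᵥ u)
    (q : Fin 3 → P1 →ₗ[K] P1 →ₗ[K] Matrix ι δ K)
    (hq : ∀ s a a', q s a a' = vecMulVec (i1 a) (i1 a') * J * f * E K arm s) :
    (∀ t, ∀ r ∈ R1, ∀ a, q t r a ∈ SSp arm J B N W g f (hctx.perp f hf) ∧
        q t a r ∈ SSp arm J B N W g f (hctx.perp f hf)) ∧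
      (∀ s i j, i + j + 1 = l s → ∀ a a',
        q s ((A s ^ i) a) ((A s ^ j) a') ∈ SSp arm J B N W g f (hctx.perp f hf)) := by
  classical
  set Bad : Set K := {0} ∪ (h.Exc2 h2.stable ∪
    (fun c : K => c⁻¹) ⁻¹' (h.Exc (Side.Q1 g i1 R1) (h.Q1_stable h1.stable))) with hBad
  have hfin : Bad.Finite := by
    refine (Set.finite_singleton 0).union (Set.Finite.union ?_ ?_)
    · exact QBlk.twist_finite _ h1.top
    · exact (QBlk.twist_finite_neg _ h2.top).preimage (inv_injective.injOn)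
  have hΛ : (Badᶜ : Set K).Infinite := hfin.infinite_compl
  have h0 : (0 : K) ∉ (Badᶜ : Set K) := fun hh => hh (Or.inl rfl)
  have hne : ∀ c ∈ (Badᶜ : Set K), c ≠ 0 := fun c hh h' => hh (Or.inl h')
  have hfam : ∀ c ∈ (Badᶜ : Set K), ∀ x, Ex A Bo R1 R2 c x →
      ∃ (b : P2 →ₗ[K] P1) (Z : Matrix ι ι K) (Q : Fin 3 → Matrix ι ι K) (e : Matrix ι δ K)
        (p1 pm p3 p4 : Matrix ι ι K × (Fin 3 → Matrix ι ι K)) (kk : Matrix ι δ K),
        Cor A Bo R1 (g2 J p.1 i2) (-1) c x b ∧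
        Fam arm J B N W g f (c • p) (fun s => ten J i1 i2 (x s)) Z Q e p1 pm p3 p4 kk ∧
        (∀ a, Z *ᵥ i2 a ∈ Side.Q1 g i1 R1) ∧
        (∀ a : P1, ∃ r : P2, (gᵀ * J) *ᵥ (Z *ᵥ i1 a) = (gᵀ * J) *ᵥ (p.1 *ᵥ i2 r)) ∧
        (∀ a, ∃ u, Z *ᵥ i2 a = -(c • i1 (b a)) + g *ᵥ u) := by
    intro c hcΛ x hx
    have hc0 := hne c hcΛ
    have hcx2 : c ∉ h.Exc2 h2.stable := fun hh => hcΛ (Or.inr (Or.inl hh))
    have hcx1 : c⁻¹ ∉ h.Exc (Side.Q1 g i1 R1) (h.Q1_stable h1.stable) :=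
      fun hh => hcΛ (Or.inr (Or.inr hh))
    obtain ⟨Z, Q, e, p1, pm, p3, p4, kk, hF⟩ := hctx.fam hNm hWm hc hf
      (p := c • p) ((NN arm J N g).smul_mem _ hp)
      (by
        change gᵀ * J * ((c • p.1) * f) = 0
        rw [Matrix.smul_mul, Matrix.mul_smul, hp0, smul_zero])
      (R := fun s => ten J i1 i2 (x s)) (fun s => QBr.ten_skw h.J_symm (x s))
      (fun s => h.ten_g (x s)) (fun s v hv => h.ten_S (x s) v hv)
      (fun v hv => h.hsum hx.sum v hv)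
    have harm : ∀ t, (A t).lTensor P2 (x t) - c • (Bo t).rTensor P1 (x t) ∈ QBr.Rad R1 R2 :=
      fun t => hx.arm t
    have hφ : ∀ s, QBr.Inter arm J B g f p.1 c (ten J i1 i2 (x s)) Z s :=
      fun s => QBr.inter_of (hF.interφ s)
    have hv1 := h.val1 hc0 h1.stable hgR hcx1 harm hF.skw hφ
    have hv2 := h.val2 h2.stable hR1 hcx2 harm hF.Zg hφ
    obtain ⟨b, hbm, hb⟩ := QBr.Side.exists_b hc0 hv1
    refine ⟨b, Z, Q, e, p1, pm, p3, p4, kk, ⟨hbm, fun t a => ?_⟩, hF, hv1, fun a => ?_, hb⟩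
    · have e1 := hi0 _ (h.cor_of hc0 hF.skw (hφ t) hb a)
      rw [sub_eq_zero] at e1
      rw [neg_one_mul, neg_smul, neg_smul, sub_neg_eq_add, sub_neg_eq_add]
      exact e1
    · obtain ⟨r, -, hr⟩ := hv2 a
      exact ⟨r, hr⟩
  obtain ⟨m1, hm1⟩ := h1.kills_le
  obtain ⟨m2, hm2⟩ := h2.kills_le
  refine RJ.main (A := A) (B := Bo) (R1 := R1) (R2 := R2) (m := max m1 m2) (l := l)
    (g := g2 J p.1 i2) (eps := -1) h1.top h2.top h1.stable h2.stable (hm1 _ (le_max_left _ _))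
    (hm2 _ (le_max_right _ _)) h1.one_le h1.pow h2.pow h1.gen h2.gen
    (neg_ne_zero.2 one_ne_zero) hgR hgR'
    (fun t a a' => by rw [h.g2_adj, neg_one_mul]) gtop hΛ h0 q
    (SSp arm J B N W g f (hctx.perp f hf))
    (a1 := 1) (a2 := -1) (a3 := -1) one_ne_zero (neg_ne_zero.2 one_ne_zero)
    (neg_ne_zero.2 one_ne_zero)
    (fun c hcΛ x hx => ?_) (fun c hcΛ c' hcΛ' x b x' b' hx hb hx' hb' => ?_)
  · obtain ⟨b, _, _, _, _, _, _, _, _, hb, -⟩ := hfam c hcΛ x hx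
    exact ⟨b, hb⟩
  · obtain ⟨b1, Z, Q, e, p1, pm, p3, p4, kk, hb1, hF, hv1, hv2, hbb⟩ := hfam c hcΛ x hx
    obtain ⟨b1', Z', Q', e', p1', pm', p3', p4', kk', hb1', hF', hv1', hv2', hbb'⟩ :=
      hfam c' hcΛ' x' hx'
    have hn : ∀ c ∈ (Badᶜ : Set K), (-1 : K) * c ≠ 0 := fun c hh =>
      mul_ne_zero (neg_ne_zero.2 one_ne_zero) (hne c hh)
    have e1 : b = b1 := cor_unique (hn c hcΛ) hb hb1 h2.top (hm1 _ (le_refl _))
    have e2 : b' = b1' := cor_unique (hn c' hcΛ') hb' hb1' h2.top (hm1 _ (le_refl _))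
    subst e1
    subst e2
    exact QSS.hrelP h hctx hf hR1 hsec hF hF' (fun s => ten_fS h h1.top (x' s)) (hne c hcΛ)
      (hne c' hcΛ') rfl rfl hv1 hv2' hbb hbb' q hq

end conc

section final

universe u
variable {ι δ K : Type u} [Fintype ι] [DecidableEq ι] [Fintype δ] [DecidableEq δ] [Field K]
variable {k : Type*} [Field k] [Algebra k K]
variable {arm : δ → Fin 3} {J : Matrix ι ι K} {B : Matrix δ δ K}
  {N W : Submodule K (Matrix ι δ K)} {g f : Matrix ι δ K}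

/-- **(t3), P-SIDE** -/
theorem P_false [CharZero K] (hctx : Ctx k arm J B N W g)
    (hNm : ∀ F, (∀ F' ∈ N, pair J B F' F = 0) → F ∈ N)
    (hWm : ∀ F, (∀ F' ∈ W, pair J B F' F = 0) → F ∈ W)
    (hc : Glue k arm J N W g) (hf : f ∈ N ⊓ W)
    {p : Matrix ι ι K × (Fin 3 → Matrix ι ι K)} (hp : p ∈ NN arm J N g)
    (hp0 : gᵀ * J * (p.1 * f) = 0) {l : Fin 3 → ℕ}
    (hpair : QC.Pair (aop arm J B g f (hctx.perp f hf)) (QC.omP J g)
      (fun s => Mop arm B g s ∘ₗ eta J g p.1) (eta J g p.1) l)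
    (h333 : (∀ s, l s = 3) → 3 < finrank K (Mix.Cor (aop arm J B g f (hctx.perp f hf)))) :
    False := by
  have hD := hctx.data
  obtain ⟨P1, _, _, A, R1, w, i1, P2, _, _, Bo, R2, g2', i2, hfd1, hfd2, hS, hH1, hH2, hw, hg2,
    hi0, hsec, hi1P, hR1m, hi2P, hi2s, hR2m⟩ :=
    QC.exists_sideP hD.J_symm hD.J_unit hD.B_symm hD.B_arm hctx.iso (hctx.perp f hf) hp.1 hpair
  haveI : Infinite K := inferInstance
  have hgg : ∀ x y, g2 J p.1 i2 x y = - g2' x y := by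
    intro x y
    rw [QBr.g2_apply, hg2]
    have e1 : (p.1 *ᵥ i2 y) ⬝ᵥ J *ᵥ i2 x = (i2 y) ⬝ᵥ ((p.1ᵀ * J) *ᵥ i2 x) := by
      rw [← vecMul_transpose, ← dotProduct_mulVec, mulVec_mulVec]
    rw [e1, Skw.eq hp.1, neg_mulVec, dotProduct_neg]
  let q : Fin 3 → P1 →ₗ[K] P1 →ₗ[K] Matrix ι δ K := fun s => LinearMap.mk₂ K
    (fun a a' => vecMulVec (i1 a) (i1 a') * J * f * E K arm s)
    (fun a b p => by simp only [map_add, add_vecMulVec, Matrix.add_mul])
    (fun c a p => by simp only [map_smul, smul_vecMulVec, Matrix.smul_mul])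
    (fun a p p' => by simp only [map_add, vecMulVec_add, Matrix.add_mul])
    (fun c a p => by simp only [map_smul, vecMulVec_smul, Matrix.smul_mul])
  have hq : ∀ s a a', q s a a' = vecMulVec (i1 a) (i1 a') * J * f * E K arm s :=
    fun s a a' => rfl
  have hmain := bridgeP hctx hNm hWm hc hf hp hp0 hS hH1.side hH2.side
    (fun r hr a => by rw [← hw]; exact hH1.rad_left r hr a)
    (fun r hr a => by rw [hgg, hH2.rad_left r hr a, neg_zero])
    (fun r hr a => by rw [hgg, hH2.rad_right r hr a, neg_zero])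
    (fun s => by
      obtain ⟨v, v', hv⟩ := hH2.gtop s
      exact ⟨v, v', by rw [hgg]; exact neg_ne_zero.2 hv⟩)
    hi0 hsec q hq
  obtain ⟨T, hT, hne, hmem⟩ := hH1.P_end h333 hmain
  exact endP_side hctx hNm hWm hf i1 hi1P hw hq hT hne hmem

end final

end Crest.Agent.R172.QPF
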