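import Crest.Agent.R172.Qt5

/-!
Row 172 (S0260), t3, node Q-ENDQ: the end of the Q-side.

`Ctx.psi_skew`: a form `ψ : S → S^*` (`S = im g`, given by a matrix `X`) which is flag compatible
at every arm, with flag compatible lifts `T_s : S → V`, is skew.  No hypothesis on `E₁`.
-/

set_option autoImplicit false
set_option linter.unusedSectionVars false
set_option linter.unusedFintypeInType false
set_option linter.unusedDecidableInType false

namespace Crest.Agent.R172.Qt

open Matrix Module Crest.Agent.R172.FO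

variable {ι : Type*} [Fintype ι] [DecidableEq ι] {δ : Type*} [Fintype δ] [DecidableEq δ]
variable {k K : Type*} [Field k] [Field K] [Algebra k K]
variable {arm : δ → Fin 3} {J : Matrix ι ι K} {B : Matrix δ δ K}
  {N W : Submodule K (Matrix ι δ K)} {g : Matrix ι δ K}

/-- an element of `NN₁` perpendicular to all directions `S → S^⊥` satisfies
`M_s X₀ᵀ J u = 0` for `u ∈ S^⊥`. -/
theorem Ctx.M_zero (h : Ctx k arm J B N W g) {P : Matrix ι ι K}
    (hP : ∀ X ∈ XX J g, pair J B (P * g) (act arm X g) = 0) (s : Fin 3)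
    {α : Type*} {u : Matrix ι α K} (hu : gᵀ * J * u = 0) :
    M arm B s g g * Pᵀ * J * u = 0 := by
  have hJ := h.data.J_symm
  have hBt := h.data.B_symm
  obtain ⟨Ji, hJi⟩ := h.data.J_unit.exists_right_inv
  have hJi' : Ji * J = 1 := by rw [mul_eq_one_comm] at hJi; exact hJi
  have hut : uᵀ * J * g = 0 := by
    have := congrArg transpose hu
    rw [transpose_mul, transpose_mul, transpose_transpose, hJ, transpose_zero,
      ← Matrix.mul_assoc] at this
    exact this
  have hJM : J * (M arm B s g g * Pᵀ * J * u) = 0 := by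
    ext i a
    -- the direction `X = u_a e_iᵀ J... `
    let ua : Matrix ι Unit K := fun x _ => u x a
    have hua : gᵀ * J * ua = 0 := by
      ext d y
      have := congrFun (congrFun hu d) a
      rw [Matrix.mul_apply] at this ⊢
      simpa using this
    have huat : uaᵀ * J * g = 0 := by
      have := congrArg transpose hua
      rw [transpose_mul, transpose_mul, transpose_transpose, hJ, transpose_zero,
        ← Matrix.mul_assoc] at this
      exact this
    let v : Matrix ι Unit K := fun x _ => if x = i then 1 else 0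
    let Y0 : Matrix ι ι K := ua * vᵀ * J - v * uaᵀ * J
    have hY0 : Skw J Y0 := by
      unfold Skw
      simp only [Y0]
      rw [transpose_sub, transpose_mul, transpose_mul, transpose_mul, transpose_mul,
        transpose_transpose, transpose_transpose, hJ, Matrix.sub_mul, Matrix.mul_sub]
      simp only [Matrix.mul_assoc]
      abel
    have hY0g : Y0 * g = ua * (vᵀ * J * g) := by
      simp only [Y0]
      rw [Matrix.sub_mul]
      have : v * uaᵀ * J * g = v * (uaᵀ * J * g) := by simp only [Matrix.mul_assoc]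
      rw [this, huat, Matrix.mul_zero, sub_zero]
      simp only [Matrix.mul_assoc]
    have hY0p : gᵀ * J * (Y0 * g) = 0 := by
      rw [hY0g, ← Matrix.mul_assoc, hua, Matrix.zero_mul]
    let Y : Fin 3 → Matrix ι ι K := fun t => if t = s then Y0 else 0
    have hY : Y ∈ XX J g := by
      intro t
      by_cases ht : t = s
      · simp only [Y, ht, if_true]; exact ⟨hY0, hY0p⟩
      · simp only [Y, ht, if_false]; exact ⟨Skw.zero, by simp⟩
    have h1 := hP Y hY
    have h2 : act arm Y g = Y0 * g * E K arm s := by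
      unfold act
      rw [Finset.sum_eq_single s]
      · simp only [Y, if_true]
      · intro t _ ht; simp only [Y, ht, if_false]; simp
      · intro h'; exact absurd (Finset.mem_univ s) h'
    rw [h2, hY0g] at h1
    unfold pair at h1
    have h3 : (P * g)ᵀ * J * (ua * (vᵀ * J * g) * E K arm s) * B
        = ((P * g)ᵀ * J * ua) * (vᵀ * J * g * E K arm s * B) := by
      simp only [Matrix.mul_assoc]
    rw [h3, trace_mul_comm] at h1
    have h4 : vᵀ * J * g * E K arm s * B * ((P * g)ᵀ * J * ua)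
        = vᵀ * (J * (M arm B s g g * Pᵀ * J * ua)) := by
      unfold M
      rw [transpose_mul]
      simp only [Matrix.mul_assoc]
    rw [h4] at h1
    have h5 : trace (vᵀ * (J * (M arm B s g g * Pᵀ * J * ua)))
        = (J * (M arm B s g g * Pᵀ * J * u)) i a := by
      have h6 : ∀ x, (J * (M arm B s g g * Pᵀ * J * ua)) x () =
          (J * (M arm B s g g * Pᵀ * J * u)) x a := by
        intro x
        have e1 : J * (M arm B s g g * Pᵀ * J * ua) = (J * (M arm B s g g * Pᵀ * J)) * ua := by
          simp only [Matrix.mul_assoc]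
        have e2 : J * (M arm B s g g * Pᵀ * J * u) = (J * (M arm B s g g * Pᵀ * J)) * u := by
          simp only [Matrix.mul_assoc]
        rw [e1, e2]
        rfl
      have e3 : trace (vᵀ * (J * (M arm B s g g * Pᵀ * J * ua)))
          = ∑ x, v x () * (J * (M arm B s g g * Pᵀ * J * ua)) x () := by
        rw [Matrix.trace, Finset.univ_unique, Finset.sum_singleton, Matrix.diag_apply,
          Matrix.mul_apply]
        rfl
      rw [e3, ← h6 i]
      simp only [v, ite_mul, one_mul, zero_mul, Finset.sum_ite_eq', Finset.mem_univ, if_true]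
    rw [h5] at h1
    exact h1
  calc M arm B s g g * Pᵀ * J * u = Ji * (J * (M arm B s g g * Pᵀ * J * u)) := by
        rw [← Matrix.mul_assoc, hJi', Matrix.one_mul]
    _ = 0 := by rw [hJM, Matrix.mul_zero]

/-- the obstruction of a flag compatible form on the elements of `NN₁` -/
theorem Ctx.b_psi (h : Ctx k arm J B N W g) {X : Matrix ι ι K} {T : Fin 3 → Matrix ι ι K}
    (hT : act arm T g ∈ N) (hTX : ∀ s, gᵀ * J * (T s * g) = gᵀ * J * (X * g))
    {p : Matrix ι ι K × (Fin 3 → Matrix ι ι K)} (hp : p ∈ NN arm J N g)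
    (hq : ∀ Y ∈ XX J g, pair J B (p.1 * g) (act arm Y g) = 0) :
    pair J B (Pg arm g p) (act arm T g) = 0 := by
  obtain ⟨G, hG⟩ := exists_pinv g
  have hD := h.data
  have e1 : pair J B (Pg arm g p) (act arm T g)
      = pair J B (p.1 * g) (act arm (fun s => T s - X) g) := by
    unfold Pg
    rw [act_sub_left, act_const, pair_sub_left, h.pair_N (hp.2.1.pres g h.memN) hT, sub_zero,
      pair_sub_right, pair_W hD (h.W_mul _ h.memW) (h.W_mul _ h.memW), sub_zero]
  rw [e1]
  unfold act
  rw [Ctx.pair_sum_right]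
  refine Finset.sum_eq_zero fun s _ => ?_
  have h1 : gᵀ * J * ((T s - X) * g) = 0 := by
    rw [Matrix.sub_mul, Matrix.mul_sub, hTX, sub_self]
  have h2 := h.M_zero hq s h1
  unfold pair
  have h3 : (p.1 * g)ᵀ * J * ((T s - X) * g * E K arm s) * B
      = (p.1 * g)ᵀ * J * ((T s - X) * g) * G * (g * E K arm s * B) := by
    have : (T s - X) * g = (T s - X) * g * G * g := by
      calc (T s - X) * g = (T s - X) * (g * G * g) := by rw [hG]
        _ = _ := by simp only [Matrix.mul_assoc]
    calc (p.1 * g)ᵀ * J * ((T s - X) * g * E K arm s) * B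
        = (p.1 * g)ᵀ * J * ((T s - X) * g) * (E K arm s * B) := by simp only [Matrix.mul_assoc]
      _ = (p.1 * g)ᵀ * J * ((T s - X) * g * G * g) * (E K arm s * B) := by rw [← this]
      _ = _ := by simp only [Matrix.mul_assoc]
  rw [h3, trace_mul_comm]
  have h4 : g * E K arm s * B * ((p.1 * g)ᵀ * J * ((T s - X) * g) * G)
      = (M arm B s g g * p.1ᵀ * J * ((T s - X) * g)) * G := by
    unfold M
    rw [transpose_mul]
    simp only [Matrix.mul_assoc]
  rw [h4, h2, Matrix.zero_mul, trace_zero]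

/-- the pairing of `XX` with `NN₁` -/
def LX (arm : δ → Fin 3) (J : Matrix ι ι K) (B : Matrix δ δ K) (N : Submodule K (Matrix ι δ K))
    (g : Matrix ι δ K) : XX J g →ₗ[K] Dual K (NN1 arm J N g) :=
  (LL arm J B N g).flip

/-- the functional `⟨P g, ν⟩` on `NN₁` -/
def bn (arm : δ → Fin 3) (J : Matrix ι ι K) (B : Matrix δ δ K) (N : Submodule K (Matrix ι δ K))
    (g ν : Matrix ι δ K) : Dual K (NN1 arm J N g) :=
  (fn arm J B N g ν) ∘ₗ (Submodule.inclusion (fun _ hp => hp.1))

/-- **A flag compatible form `S → S^*` is skew.** -/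
theorem Ctx.psi_skew (h : Ctx k arm J B N W g) {X : Matrix ι ι K} {T : Fin 3 → Matrix ι ι K}
    (hT : act arm T g ∈ N) (hTX : ∀ s, gᵀ * J * (T s * g) = gᵀ * J * (X * g)) :
    (gᵀ * J * (X * g))ᵀ = - (gᵀ * J * (X * g)) := by
  have hD := h.data
  -- the functional is in the range of `LX`
  have hmem : bn arm J B N g (act arm T g) ∈ LinearMap.range (LX arm J B N g) := by
    rw [← Subspace.dualCoannihilator_dualAnnihilator_eq (W := LinearMap.range (LX arm J B N g)),
      Submodule.mem_dualAnnihilator]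
    intro p hp
    rw [Submodule.mem_dualCoannihilator] at hp
    exact h.b_psi hT hTX p.2.1 (fun Y hY => hp _ ⟨⟨Y, hY⟩, rfl⟩)
  obtain ⟨Y, hY⟩ := hmem
  have hYp : ∀ q ∈ NN arm J N g, gᵀ * J * (q.1 * g) = 0 →
      pair J B (q.1 * g) (act arm Y.1 g) = pair J B (Pg arm g q) (act arm T g) := by
    intro q hq hq0
    exact LinearMap.congr_fun hY ⟨q, hq, hq0⟩
  obtain ⟨d, hd⟩ := hD.dir (fun s => -(Y.1 s)) 0 (fun s => (Y.2 s).1.neg) (by simp)
  have haW : g.map d ∈ W := by
    have h8 := hd.onW g h.memW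
    rw [transpose_zero, Matrix.mul_zero, sub_zero] at h8
    exact h8
  have hact : act arm (fun s => -(Y.1 s)) g = - act arm Y.1 g := act_neg_left arm Y.1 g
  have hνN : g.map d + act arm Y.1 g ∈ N := by
    have := hd.onN g h.memN
    rw [hact, sub_neg_eq_add] at this
    exact this
  have hYg : gᵀ * J * act arm Y.1 g = 0 := by
    unfold act
    rw [Matrix.mul_sum]
    refine Finset.sum_eq_zero fun s _ => ?_
    rw [← Matrix.mul_assoc, (Y.2 s).2, Matrix.zero_mul]
  have hTg : gᵀ * J * act arm T g = gᵀ * J * (X * g) := by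
    unfold act
    rw [Matrix.mul_sum]
    have : ∀ s, gᵀ * J * (T s * g * E K arm s) = gᵀ * J * (X * g) * E K arm s := by
      intro s
      rw [← hTX s]; simp only [Matrix.mul_assoc]
    rw [Finset.sum_congr rfl fun s _ => this s, ← Matrix.mul_sum, sum_E, Matrix.mul_one]
  obtain ⟨p, hp, hpe⟩ := h.lift (a := X * g - g.map d)
    (ν := act arm T g - (g.map d + act arm Y.1 g))
    (W.sub_mem (h.W_mul _ h.memW) haW) (N.sub_mem hT hνN)
    (by rw [Matrix.mul_sub, Matrix.mul_sub, Matrix.mul_add, hYg, add_zero, hTg]) (by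
      intro q hq hq0
      have hNq := hq.2.1.pres g h.memN
      have e0 : Pg arm g q = q.1 * g - act arm q.2 g := rfl
      have e1 : pair J B (Pg arm g q) (g.map d + act arm Y.1 g)
          = pair J B (q.1 * g) (act arm Y.1 g) := by
        rw [e0, pair_sub_left, h.pair_N hNq hνN, sub_zero, pair_add_right,
          pair_W hD (h.W_mul _ h.memW) haW, zero_add]
      rw [pair_sub_right, e1, hYp q hq hq0, sub_self])
  have hskd : (gᵀ * J * (g.map d))ᵀ = - (gᵀ * J * (g.map d)) := by
    have h0 : (gᵀ * J * g).map d = (0 : Matrix δ δ K).map d := by rw [h.iso]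
    rw [map_mul_der, map_mul_der, hD.J_const d, Matrix.mul_zero, add_zero,
      map_transpose_der] at h0
    have h1 : (g.map d)ᵀ * J * g + gᵀ * J * g.map d = 0 := by
      rw [h0]; ext i j; simp
    have h2 : (gᵀ * J * g.map d)ᵀ = (g.map d)ᵀ * J * g := by
      rw [transpose_mul, transpose_mul, transpose_transpose, hD.J_symm, ← Matrix.mul_assoc]
    rw [h2]
    exact eq_neg_of_add_eq_zero_left h1
  have hfin : gᵀ * J * (X * g) = gᵀ * J * (p.1 * g) + gᵀ * J * g.map d := by
    rw [← hpe, Matrix.mul_sub]; abel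
  rw [hfin, transpose_add, skew_gXg hD.J_symm hp.1 g, hskd, neg_add]

/-- the same for a subspace of `S`: a flag compatible form which is symmetric on `P × P`,
`P ≤ S`, vanishes there. -/
theorem Ctx.psi_zero (h : Ctx k arm J B N W g) (h2 : (2 : K) ≠ 0) {X : Matrix ι ι K}
    {T : Fin 3 → Matrix ι ι K} (hT : act arm T g ∈ N)
    (hTX : ∀ s, gᵀ * J * (T s * g) = gᵀ * J * (X * g)) {x y : ι → K} {a b : δ → K}
    (hx : x = g *ᵥ a) (hy : y = g *ᵥ b) (hs : x ⬝ᵥ (J * X) *ᵥ y = y ⬝ᵥ (J * X) *ᵥ x) :
    x ⬝ᵥ (J * X) *ᵥ y = 0 := by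
  have hsk := h.psi_skew hT hTX
  set Ψ := gᵀ * J * (X * g) with hΨ
  have e : ∀ c c' : δ → K, (g *ᵥ c) ⬝ᵥ (J * X) *ᵥ (g *ᵥ c') = c ⬝ᵥ Ψ *ᵥ c' := by
    intro c c'
    rw [hΨ, ← vecMul_transpose, ← dotProduct_mulVec, mulVec_mulVec, mulVec_mulVec]
    congr 2
    simp only [Matrix.mul_assoc]
  have e2 : b ⬝ᵥ Ψ *ᵥ a = - (a ⬝ᵥ Ψ *ᵥ b) := by
    rw [dotProduct_mulVec, ← mulVec_transpose, hsk, neg_mulVec, neg_dotProduct, dotProduct_comm]
  rw [hx, hy, e, e, e2] at hs
  rw [hx, hy, e]
  have h3 : (2 : K) * (a ⬝ᵥ Ψ *ᵥ b) = 0 := by linear_combination hs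
  exact (mul_eq_zero.mp h3).resolve_left h2

end Crest.Agent.R172.Qt
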