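import Crest.Agent.R172.OneArm1

/-!
Row 172, TAME (t1'), the derivation steps of note 14953 (helper880), in the graded form (no `c`).

`Pair`: `F, G ∈ N ⊓ W` with `Fᵀ J G = 0`, `eF, eG` the self-adjoint projectors onto their cores.
`Adm s x a b`: `a = dF`, `b = -dG` for a derivation `d` which moves only the arm `s`, by `x - x'`.
-/

set_option autoImplicit false
set_option linter.unusedSectionVars false

namespace Crest.Agent.R172.VD

open Matrix Crest.Agent.R172.FO Crest.Agent.R172.OneArm

variable {ι : Type*} [Fintype ι] [DecidableEq ι] {δ : Type*} [Fintype δ] [DecidableEq δ]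
variable {k K : Type*} [Field k] [Field K] [Algebra k K]
variable {arm : δ → Fin 3} {J : Matrix ι ι K} {B : Matrix δ δ K}
  {N W : Submodule K (Matrix ι δ K)}

/-- the adjoint for the form `J` -/
noncomputable def adj (J x : Matrix ι ι K) : Matrix ι ι K := J⁻¹ * xᵀ * J

theorem adj_add (J x y : Matrix ι ι K) : adj J (x + y) = adj J x + adj J y := by
  unfold adj
  rw [transpose_add, Matrix.mul_add, Matrix.add_mul]

theorem adj_sub (J x y : Matrix ι ι K) : adj J (x - y) = adj J x - adj J y := by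
  unfold adj
  rw [transpose_sub, Matrix.mul_sub, Matrix.sub_mul]

theorem adj_smul (J : Matrix ι ι K) (c : K) (x : Matrix ι ι K) : adj J (c • x) = c • adj J x := by
  unfold adj
  rw [transpose_smul, Matrix.mul_smul, Matrix.smul_mul]

theorem adj_zero (J : Matrix ι ι K) : adj J 0 = 0 := by
  unfold adj
  rw [transpose_zero, Matrix.mul_zero, Matrix.zero_mul]

section adj

variable (hD : Data k arm J B N W)
include hD

theorem Ji_J : J⁻¹ * J = 1 :=
  Matrix.nonsing_inv_mul J ((Matrix.isUnit_iff_isUnit_det J).1 hD.J_unit)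

theorem J_Ji : J * J⁻¹ = 1 :=
  Matrix.mul_nonsing_inv J ((Matrix.isUnit_iff_isUnit_det J).1 hD.J_unit)

theorem Ji_t : (J⁻¹)ᵀ = J⁻¹ := by
  rw [Matrix.transpose_nonsing_inv, hD.J_symm]

theorem J_adj (x : Matrix ι ι K) : J * adj J x = xᵀ * J := by
  unfold adj
  rw [← Matrix.mul_assoc, ← Matrix.mul_assoc, J_Ji hD, Matrix.one_mul]

theorem adj_J (x : Matrix ι ι K) : (adj J x)ᵀ * J = J * x := by
  unfold adj
  rw [transpose_mul, transpose_mul, transpose_transpose, hD.J_symm, Ji_t hD, Matrix.mul_assoc,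
    Matrix.mul_assoc, Ji_J hD, Matrix.mul_one]

theorem J_cancel {α : Type*} {A C : Matrix ι α K} (h : J * A = J * C) : A = C := by
  have := congrArg (fun Z => J⁻¹ * Z) h
  simpa only [← Matrix.mul_assoc, Ji_J hD, Matrix.one_mul] using this

theorem J_cancel_right {α : Type*} {A C : Matrix α ι K} (h : A * J = C * J) : A = C := by
  have := congrArg (fun Z => Z * J⁻¹) h
  simpa only [Matrix.mul_assoc, J_Ji hD, Matrix.mul_one] using this

theorem adj_mul (x y : Matrix ι ι K) : adj J (x * y) = adj J y * adj J x := by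
  apply J_cancel hD
  rw [J_adj hD, transpose_mul, Matrix.mul_assoc, ← J_adj hD x, ← Matrix.mul_assoc,
    ← J_adj hD y, Matrix.mul_assoc]

theorem adj_adj (x : Matrix ι ι K) : adj J (adj J x) = x := by
  apply J_cancel hD
  rw [J_adj hD, adj_J hD]

theorem adj_of_sa {e : Matrix ι ι K} (h : eᵀ * J = J * e) : adj J e = e := by
  apply J_cancel hD
  rw [J_adj hD, h]

/-- `M_s` is self-adjoint: `Φ_s' = Φ_s` -/
theorem adj_Phi (F : Matrix ι δ K) (s : Fin 3) :
    adj J (Phi arm J B F s) = Phi arm J B F s := by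
  apply adj_of_sa hD
  unfold Phi
  rw [transpose_mul, hD.J_symm, Slack.M_transpose hD F F s, Matrix.mul_assoc]

theorem map_adj (d : Derivation k K K) (x : Matrix ι ι K) :
    (adj J x).map d = adj J (x.map d) := by
  have hJi : (J⁻¹).map d = 0 := by
    have h1 := congrArg (fun A : Matrix ι ι K => A.map d) (Ji_J hD)
    simp only [map_mul_der, hD.J_const, Matrix.mul_zero, add_zero] at h1
    rw [map_one_der] at h1
    have h2 := congrArg (fun Z => Z * J⁻¹) h1
    simpa only [Matrix.mul_assoc, J_Ji hD, Matrix.mul_one, Matrix.zero_mul] using h2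
  unfold adj
  rw [map_mul_der, map_mul_der, hJi, hD.J_const, Matrix.zero_mul, zero_add, Matrix.mul_zero,
    add_zero]
  rfl

end adj

variable (k) in
/-- An orthogonal pair in `N ⊓ W` with the projectors onto the two cores. -/
structure Pair (arm : δ → Fin 3) (J : Matrix ι ι K) (B : Matrix δ δ K)
    (N W : Submodule K (Matrix ι δ K)) (F G : Matrix ι δ K) (eF eG : Matrix ι ι K)
    (uF uG : Matrix δ ι K) : Prop where
  data : Data k arm J B N W
  memF : F ∈ N ⊓ W
  memG : G ∈ N ⊓ W
  FG : Fᵀ * J * G = 0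
  saF : eFᵀ * J = J * eF
  saG : eGᵀ * J = J * eG
  idF : eF * eF = eF
  idG : eG * eG = eG
  comF : ∀ r, eF * Phi arm J B F r = Phi arm J B F r * eF
  comG : ∀ r, eG * Phi arm J B G r = Phi arm J B G r * eG
  FuF : F * uF = eF
  GuF : G * uF = 0
  GuG : G * uG = eG
  FuG : F * uG = 0
  coreF : ∀ v : ι → K, (∀ r, Phi arm J B F r *ᵥ (eF *ᵥ v) = 0) → eF *ᵥ v = 0
  coreG : ∀ v : ι → K, (∀ r, Phi arm J B G r *ᵥ (eG *ᵥ v) = 0) → eG *ᵥ v = 0
  nilF : ∀ z : Matrix ι ι K, eF * z = 0 → z * eF = z →
    (∀ r, z * Phi arm J B F r = Phi arm J B F r * z) → z = 0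
  nilG : ∀ z : Matrix ι ι K, eG * z = 0 → z * eG = z →
    (∀ r, z * Phi arm J B G r = Phi arm J B G r * z) → z = 0

variable {F G : Matrix ι δ K} {eF eG : Matrix ι ι K} {uF uG : Matrix δ ι K}

/-- the direction `x - x'` on the arm `s` -/
noncomputable def XX (J : Matrix ι ι K) (s : Fin 3) (x : Matrix ι ι K) : Fin 3 → Matrix ι ι K :=
  fun u => if u = s then x - adj J x else 0

theorem act_XX (J : Matrix ι ι K) (s : Fin 3) (x : Matrix ι ι K) (F : Matrix ι δ K) :
    act arm (XX J s x) F = (x - adj J x) * F * E K arm s := by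
  unfold act XX
  rw [Finset.sum_eq_single s]
  · rw [if_pos rfl]
  · intro u _ hu
    rw [if_neg hu, Matrix.zero_mul, Matrix.zero_mul]
  · intro hu; exact absurd (Finset.mem_univ s) hu

theorem XX_skew (hD : Data k arm J B N W) (s : Fin 3) (x : Matrix ι ι K) (u : Fin 3) :
    (XX J s x u)ᵀ * J + J * XX J s x u = 0 := by
  unfold XX
  by_cases hu : u = s
  · rw [if_pos hu, transpose_sub, Matrix.sub_mul, Matrix.mul_sub, adj_J hD, J_adj hD]
    abel
  · rw [if_neg hu]; simp

/-- admissible first order data -/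
structure Adm (arm : δ → Fin 3) (J : Matrix ι ι K) (B : Matrix δ δ K)
    (N W : Submodule K (Matrix ι δ K)) (F G : Matrix ι δ K) (eF eG : Matrix ι ι K)
    (s : Fin 3) (x : Matrix ι ι K) (a b : Matrix ι δ K) : Prop where
  aW : a ∈ W
  bW : b ∈ W
  aN : a - x * F * E K arm s ∈ N
  bN : b - adj J x * G * E K arm s ∈ N
  ab : aᵀ * J * G = Fᵀ * J * b
  m1 : ∀ r, eF * (M arm B r a G - M arm B r F b) * J * G = 0
  m2 : ∀ r, eG * (M arm B r b F - M arm B r G a) * J * F = 0

theorem Adm.zero (s : Fin 3) : Adm arm J B N W F G eF eG s 0 0 0 where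
  aW := W.zero_mem
  bW := W.zero_mem
  aN := by simp
  bN := by simp [adj_zero]
  ab := by simp
  m1 := by intro r; simp [M]
  m2 := by intro r; simp [M]

theorem M_add_left (r : Fin 3) (X X' Y : Matrix ι δ K) :
    M arm B r (X + X') Y = M arm B r X Y + M arm B r X' Y := by
  unfold M; rw [Matrix.add_mul, Matrix.add_mul, Matrix.add_mul]

theorem M_add_right (r : Fin 3) (X Y Y' : Matrix ι δ K) :
    M arm B r X (Y + Y') = M arm B r X Y + M arm B r X Y' := by
  unfold M; rw [transpose_add, Matrix.mul_add]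

theorem M_sub_left (r : Fin 3) (X X' Y : Matrix ι δ K) :
    M arm B r (X - X') Y = M arm B r X Y - M arm B r X' Y := by
  unfold M; rw [Matrix.sub_mul, Matrix.sub_mul, Matrix.sub_mul]

theorem M_sub_right (r : Fin 3) (X Y Y' : Matrix ι δ K) :
    M arm B r X (Y - Y') = M arm B r X Y - M arm B r X Y' := by
  unfold M; rw [transpose_sub, Matrix.mul_sub]

theorem M_neg_left (r : Fin 3) (X Y : Matrix ι δ K) :
    M arm B r (-X) Y = - M arm B r X Y := by
  unfold M; rw [Matrix.neg_mul, Matrix.neg_mul, Matrix.neg_mul]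

theorem M_neg_right (r : Fin 3) (X Y : Matrix ι δ K) :
    M arm B r X (-Y) = - M arm B r X Y := by
  unfold M; rw [transpose_neg, Matrix.mul_neg]

theorem M_smul_left (r : Fin 3) (c : K) (X Y : Matrix ι δ K) :
    M arm B r (c • X) Y = c • M arm B r X Y := by
  unfold M; rw [Matrix.smul_mul, Matrix.smul_mul, Matrix.smul_mul]

theorem M_smul_right (r : Fin 3) (c : K) (X Y : Matrix ι δ K) :
    M arm B r X (c • Y) = c • M arm B r X Y := by
  unfold M; rw [transpose_smul, Matrix.mul_smul]

theorem mul_M (r : Fin 3) (A : Matrix ι ι K) (X Y : Matrix ι δ K) :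
    A * M arm B r X Y = M arm B r (A * X) Y := by
  unfold M; simp only [Matrix.mul_assoc]

theorem M_zero_left (r : Fin 3) (Y : Matrix ι δ K) : M arm B r 0 Y = 0 := by
  unfold M; simp

theorem M_zero_right (r : Fin 3) (Y : Matrix ι δ K) : M arm B r Y 0 = 0 := by
  unfold M; simp

/-- `M_r(X,Y) J Z = X E_r B (Yᵀ J Z)` -/
theorem M_J {α : Type*} (r : Fin 3) (X Y : Matrix ι δ K) (Z : Matrix ι α K) :
    M arm B r X Y * J * Z = X * E K arm r * B * (Yᵀ * J * Z) := by
  unfold M; simp only [Matrix.mul_assoc]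

theorem M_E_self (hD : Data k arm J B N W) (s : Fin 3) (X Y : Matrix ι δ K) :
    M arm B s (X * E K arm s) Y = M arm B s X Y := by
  unfold M; rw [Matrix.mul_assoc X, E_mul_self]

theorem M_E_ne (hD : Data k arm J B N W) {r s : Fin 3} (h : r ≠ s) (X Y : Matrix ι δ K) :
    M arm B r (X * E K arm s) Y = 0 := by
  unfold M; rw [Matrix.mul_assoc X, E_mul_ne arm (Ne.symm h)]; simp

theorem map_M_gen (hD : Data k arm J B N W) (d : Derivation k K K) (r : Fin 3)
    (X Y : Matrix ι δ K) :
    (M arm B r X Y).map d = M arm B r (X.map d) Y + M arm B r X (Y.map d) := by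
  unfold M
  rw [map_mul_der, map_mul_der, map_mul_der, hD.B_const, E_map_der, map_transpose_der,
    Matrix.mul_zero, Matrix.mul_zero, add_zero, add_zero]

namespace Adm

variable {s : Fin 3} {x x₁ a b a₁ b₁ : Matrix ι δ K}

end Adm

theorem Adm.sub {s : Fin 3} {x x₁ : Matrix ι ι K} {a b a₁ b₁ : Matrix ι δ K}
    (h : Adm arm J B N W F G eF eG s x a b) (h₁ : Adm arm J B N W F G eF eG s x₁ a₁ b₁) :
    Adm arm J B N W F G eF eG s (x - x₁) (a - a₁) (b - b₁) where
  aW := W.sub_mem h.aW h₁.aW
  bW := W.sub_mem h.bW h₁.bW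
  aN := by
    have e : a - a₁ - (x - x₁) * F * E K arm s = (a - x * F * E K arm s) -
        (a₁ - x₁ * F * E K arm s) := by
      rw [Matrix.sub_mul, Matrix.sub_mul]; abel
    rw [e]; exact N.sub_mem h.aN h₁.aN
  bN := by
    have e : b - b₁ - adj J (x - x₁) * G * E K arm s = (b - adj J x * G * E K arm s) -
        (b₁ - adj J x₁ * G * E K arm s) := by
      rw [adj_sub, Matrix.sub_mul, Matrix.sub_mul]; abel
    rw [e]; exact N.sub_mem h.bN h₁.bN
  ab := by
    rw [transpose_sub, Matrix.sub_mul, Matrix.sub_mul, h.ab, h₁.ab, Matrix.mul_sub]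
  m1 := by
    intro r
    have e1 := h.m1 r
    have e2 := h₁.m1 r
    have e : M arm B r (a - a₁) G - M arm B r F (b - b₁) = (M arm B r a G - M arm B r F b) -
        (M arm B r a₁ G - M arm B r F b₁) := by
      rw [M_sub_left, M_sub_right]; abel
    rw [e, Matrix.mul_sub, Matrix.sub_mul, Matrix.sub_mul, e1, e2, sub_zero]
  m2 := by
    intro r
    have e1 := h.m2 r
    have e2 := h₁.m2 r
    have e : M arm B r (b - b₁) F - M arm B r G (a - a₁) = (M arm B r b F - M arm B r G a) -
        (M arm B r b₁ F - M arm B r G a₁) := by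
      rw [M_sub_left, M_sub_right]; abel
    rw [e, Matrix.mul_sub, Matrix.sub_mul, Matrix.sub_mul, e1, e2, sub_zero]

namespace Pair

variable (h : Pair k arm J B N W F G eF eG uF uG)
include h

theorem GF : Gᵀ * J * F = 0 := by
  have := congrArg transpose h.FG
  rw [transpose_mul, transpose_mul, transpose_transpose, h.data.J_symm, transpose_zero,
    ← Matrix.mul_assoc] at this
  exact this

theorem FeG : Fᵀ * J * eG = 0 := by
  rw [← h.GuG, ← Matrix.mul_assoc, h.FG, Matrix.zero_mul]

theorem GeF : Gᵀ * J * eF = 0 := by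
  rw [← h.FuF, ← Matrix.mul_assoc, h.GF, Matrix.zero_mul]

theorem eGF : eG * F = 0 := by
  apply J_cancel h.data
  rw [← Matrix.mul_assoc, ← h.saG, ← h.GuG, transpose_mul, Matrix.mul_assoc, Matrix.mul_assoc,
    ← Matrix.mul_assoc Gᵀ, h.GF, Matrix.mul_zero, Matrix.mul_zero]

theorem eFG : eF * G = 0 := by
  apply J_cancel h.data
  rw [← Matrix.mul_assoc, ← h.saF, ← h.FuF, transpose_mul, Matrix.mul_assoc, Matrix.mul_assoc,
    ← Matrix.mul_assoc Fᵀ, h.FG, Matrix.mul_zero, Matrix.mul_zero]

theorem eFeG : eF * eG = 0 := by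
  rw [← h.GuG, ← Matrix.mul_assoc, h.eFG, Matrix.zero_mul]

theorem eGeF : eG * eF = 0 := by
  rw [← h.FuF, ← Matrix.mul_assoc, h.eGF, Matrix.zero_mul]

/-- the pair with the roles exchanged -/
theorem swap : Pair k arm J B N W G F eG eF uG uF where
  data := h.data
  memF := h.memG
  memG := h.memF
  FG := h.GF
  saF := h.saG
  saG := h.saF
  idF := h.idG
  idG := h.idF
  comF := h.comG
  comG := h.comF
  FuF := h.GuG
  GuF := h.FuG
  GuG := h.FuF
  FuG := h.GuF
  coreF := h.coreG
  coreG := h.coreF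
  nilF := h.nilG
  nilG := h.nilF

theorem adj_x {x : Matrix ι ι K} (hx : eG * x * eF = x) : eF * adj J x * eG = adj J x := by
  conv_rhs => rw [← hx]
  rw [adj_mul h.data, adj_mul h.data, adj_of_sa h.data h.saF, adj_of_sa h.data h.saG,
    Matrix.mul_assoc]

theorem eFx {x : Matrix ι ι K} (hx : eG * x * eF = x) : eF * x = 0 := by
  rw [← hx, ← Matrix.mul_assoc, ← Matrix.mul_assoc, h.eFeG]; simp

theorem eGx {x : Matrix ι ι K} (hx : eG * x * eF = x) : eG * x = x := by
  conv_lhs => rw [← hx]
  rw [← Matrix.mul_assoc, ← Matrix.mul_assoc, h.idG, hx]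

theorem xeF {x : Matrix ι ι K} (hx : eG * x * eF = x) : x * eF = x := by
  conv_lhs => rw [← hx]
  rw [Matrix.mul_assoc, h.idF, hx]

theorem xeG {x : Matrix ι ι K} (hx : eG * x * eF = x) : x * eG = 0 := by
  rw [← hx, Matrix.mul_assoc, h.eFeG]; simp

theorem xG {x : Matrix ι ι K} (hx : eG * x * eF = x) : x * G = 0 := by
  rw [← hx, Matrix.mul_assoc, h.eFG, Matrix.mul_zero]

theorem x'F {x : Matrix ι ι K} (hx : eG * x * eF = x) : adj J x * F = 0 := by
  rw [← h.adj_x hx, Matrix.mul_assoc, h.eGF, Matrix.mul_zero]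

/-- `Adm` for the exchanged pair -/
theorem adm_swap {s : Fin 3} {x : Matrix ι ι K} {a b : Matrix ι δ K}
    (ha : Adm arm J B N W F G eF eG s x a b) : Adm arm J B N W G F eG eF s (adj J x) b a where
  aW := ha.bW
  bW := ha.aW
  aN := ha.bN
  bN := by
    rw [adj_adj h.data]; exact ha.aN
  ab := by
    have := congrArg transpose ha.ab
    rw [transpose_mul, transpose_mul, transpose_mul, transpose_mul, transpose_transpose,
      transpose_transpose, h.data.J_symm, ← Matrix.mul_assoc, ← Matrix.mul_assoc] at this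
    exact this.symm
  m1 := ha.m2
  m2 := ha.m1

/-- **V-direction.** -/
theorem adm_of_der {s : Fin 3} {x : Matrix ι ι K} (hx : eG * x * eF = x)
    {d : Derivation k K K} (hd : Realises arm N W (XX J s x) 0 d) :
    Adm arm J B N W F G eF eG s x (F.map d) (-(G.map d)) := by
  have hF := hd.onN F h.memF.1
  have hG := hd.onN G h.memG.1
  rw [act_XX, Matrix.sub_mul, h.x'F hx, sub_zero] at hF
  rw [act_XX, Matrix.sub_mul, h.xG hx, zero_sub, Matrix.neg_mul, sub_neg_eq_add] at hG
  have hFW := hd.onW F h.memF.2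
  have hGW := hd.onW G h.memG.2
  rw [transpose_zero, Matrix.mul_zero, sub_zero] at hFW hGW
  have hFG : (F.map d)ᵀ * J * G + Fᵀ * J * G.map d = 0 := by
    have := congrArg (fun A : Matrix δ δ K => A.map d) h.FG
    simp only [map_mul_der, h.data.J_const, Matrix.mul_zero, add_zero, map_transpose_der] at this
    rw [this]
    exact map_zero_der d
  have hm : ∀ r, M arm B r F G = M arm B r G F := fun r => h.data.symm_arm h.memF h.memG r
  refine ⟨hFW, W.neg_mem hGW, hF, ?_, ?_, ?_, ?_⟩
  · have e : -(G.map d) - adj J x * G * E K arm s = -(G.map d + adj J x * G * E K arm s) := by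
      abel
    rw [e]; exact N.neg_mem hG
  · rw [Matrix.mul_neg]; exact eq_neg_of_add_eq_zero_left hFG
  · intro r
    -- `d (Gᵀ J M_r(G,F)) = 0`, i.e. `M_r(F,G) J G = 0`
    have h0 : M arm B r F G * J * G = 0 := by
      rw [hm, M_J, h.FG, Matrix.mul_zero]
    have h1 : (M arm B r F G).map d * J * G + M arm B r F G * J * G.map d = 0 := by
      have := congrArg (fun A : Matrix ι δ K => A.map d) h0
      simp only [map_mul_der, h.data.J_const, Matrix.mul_zero, add_zero] at this
      rw [this]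
      exact map_zero_der d
    rw [map_M_gen h.data] at h1
    have h2 : eF * (M arm B r F G * J * G.map d) = 0 := by
      rw [hm, ← Matrix.mul_assoc, ← Matrix.mul_assoc, mul_M, h.eFG, M_zero_left]; simp
    have h3 := congrArg (fun A : Matrix ι δ K => eF * A) h1
    simp only [Matrix.mul_add, h2, add_zero, Matrix.mul_zero] at h3
    rw [M_neg_right, sub_neg_eq_add]
    rw [← h3]
    simp only [Matrix.mul_assoc]
  · intro r
    have h0 : M arm B r G F * J * F = 0 := by
      rw [← hm, M_J, h.GF, Matrix.mul_zero]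
    have h1 : (M arm B r G F).map d * J * F + M arm B r G F * J * F.map d = 0 := by
      have := congrArg (fun A : Matrix ι δ K => A.map d) h0
      simp only [map_mul_der, h.data.J_const, Matrix.mul_zero, add_zero] at this
      rw [this]
      exact map_zero_der d
    rw [map_M_gen h.data] at h1
    have h2 : eG * (M arm B r G F * J * F.map d) = 0 := by
      rw [← hm, ← Matrix.mul_assoc, ← Matrix.mul_assoc, mul_M, h.eGF, M_zero_left]; simp
    have h3 := congrArg (fun A : Matrix ι δ K => eG * A) h1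
    simp only [Matrix.mul_add, h2, add_zero, Matrix.mul_zero] at h3
    have e : eG * (M arm B r (-(G.map d)) F - M arm B r G (F.map d)) * J * F =
        - (eG * ((M arm B r (G.map d) F + M arm B r G (F.map d)) * J * F)) := by
      rw [M_neg_left]
      simp only [Matrix.mul_assoc, Matrix.mul_sub, Matrix.sub_mul, Matrix.mul_neg, Matrix.neg_mul,
        Matrix.mul_add, Matrix.add_mul]
      abel
    rw [e, h3, neg_zero]

theorem exists_adm {s : Fin 3} {x : Matrix ι ι K} (hx : eG * x * eF = x) :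
    ∃ d : Derivation k K K, Realises arm N W (XX J s x) 0 d ∧
      Adm arm J B N W F G eF eG s x (F.map d) (-(G.map d)) := by
  obtain ⟨d, hd⟩ := h.data.dir (XX J s x) 0 (XX_skew h.data s x) (by simp)
  exact ⟨d, hd, h.adm_of_der hx hd⟩

end Pair

end Crest.Agent.R172.VD
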