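import Crest.Agent.R172.TL1
import Crest.Agent.R172.VD1

/-!
Row 172, TAME (T0): assembly of the Vandermonde steps (node between 824's QQ1 and 102's END).
Part 1: linear algebra for one arm.

`e i` orthogonal self-adjoint idempotent matrices commuting with `Φ`, `C e i` the range,
`ph` the restriction of `Φ`, `up` the extension of a map `C i → C j` by zero.
-/

set_option autoImplicit false
set_option linter.unusedSectionVars false

namespace Crest.Agent.R172.QQ2

open Matrix Module LinearMap Crest.Agent.R172.FO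

variable {ι : Type*} [Fintype ι] [DecidableEq ι]
variable {K : Type*} [Field K]

/-- range of an idempotent -/
def C (e : Matrix ι ι K) : Submodule K (ι → K) := range (toLin' e)

/-- projection -/
def pr (e : Matrix ι ι K) : (ι → K) →ₗ[K] C e := (toLin' e).rangeRestrict

theorem pr_coe (e : Matrix ι ι K) (v : ι → K) : ((pr e v : C e) : ι → K) = e *ᵥ v :=
  toLin'_apply e v

theorem mem_fix {e : Matrix ι ι K} (he : e * e = e) (v : C e) : e *ᵥ (v : ι → K) = v := by
  obtain ⟨u, hu⟩ := v.2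
  rw [toLin'_apply] at hu
  rw [← hu, mulVec_mulVec, he]

theorem pr_fix {e : Matrix ι ι K} (he : e * e = e) (v : C e) : pr e (v : ι → K) = v := by
  apply Subtype.ext
  rw [pr_coe, mem_fix he]

/-- extension by zero -/
noncomputable def up (e f : Matrix ι ι K) : (C e →ₗ[K] C f) →ₗ[K] Matrix ι ι K :=
  LinearMap.toMatrix'.toLinearMap ∘ₗ
    (LinearMap.llcomp K (ι → K) (C f) (ι → K) (C f).subtype ∘ₗ LinearMap.lcomp K (C f) (pr e))

theorem up_mulVec {e f : Matrix ι ι K} (x : C e →ₗ[K] C f) (v : ι → K) :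
    up e f x *ᵥ v = (x (pr e v) : ι → K) := by
  have h : toLin' (up e f x) v = (x (pr e v) : ι → K) := by
    unfold up
    rw [LinearMap.comp_apply, LinearEquiv.coe_coe, Matrix.toLin'_toMatrix']
    rfl
  rw [← h, toLin'_apply]

theorem ext_mulVec {A A' : Matrix ι ι K} (h : ∀ v, A *ᵥ v = A' *ᵥ v) : A = A' := by
  apply Matrix.toLin'.injective
  apply LinearMap.ext
  intro v
  rw [toLin'_apply, toLin'_apply, h]

theorem mul_up {e f : Matrix ι ι K} (hf : f * f = f) (x : C e →ₗ[K] C f) :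
    f * up e f x = up e f x := by
  refine ext_mulVec fun v => ?_
  rw [← mulVec_mulVec, up_mulVec, mem_fix hf]

theorem up_mul {e f : Matrix ι ι K} (he : e * e = e) (x : C e →ₗ[K] C f) :
    up e f x * e = up e f x := by
  refine ext_mulVec fun v => ?_
  rw [← mulVec_mulVec, up_mulVec, up_mulVec]
  congr 2
  apply Subtype.ext
  rw [pr_coe, pr_coe, mulVec_mulVec, he]

theorem up_comp {e f g : Matrix ι ι K} (hf : f * f = f) (x : C e →ₗ[K] C f)
    (y : C f →ₗ[K] C g) : up e g (y ∘ₗ x) = up f g y * up e f x := by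
  refine ext_mulVec fun v => ?_
  rw [← mulVec_mulVec, up_mulVec, up_mulVec, up_mulVec, pr_fix hf]
  rfl

theorem up_inj {e f : Matrix ι ι K} (he : e * e = e) {x y : C e →ₗ[K] C f}
    (h : up e f x = up e f y) : x = y := by
  apply LinearMap.ext
  intro v
  apply Subtype.ext
  have h1 := up_mulVec x (v : ι → K)
  have h2 := up_mulVec y (v : ι → K)
  rw [pr_fix he] at h1 h2
  rw [← h1, ← h2, h]

/-- restriction of a matrix to the blocks -/
def dn (e f y : Matrix ι ι K) : C e →ₗ[K] C f :=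
  pr f ∘ₗ toLin' y ∘ₗ (C e).subtype

theorem up_dn {e f : Matrix ι ι K} (y : Matrix ι ι K) : up e f (dn e f y) = f * y * e := by
  refine ext_mulVec fun v => ?_
  rw [up_mulVec]
  unfold dn
  rw [LinearMap.comp_apply, LinearMap.comp_apply, pr_coe, Submodule.subtype_apply, pr_coe,
    toLin'_apply, ← mulVec_mulVec, ← mulVec_mulVec]

section one

variable {e f Φ : Matrix ι ι K}

/-- the restriction of `Φ` -/
def ph (Φ e : Matrix ι ι K) : End K (C e) := dn e e Φ

theorem up_ph (he : e * e = e) (hc : e * Φ = Φ * e) : up e e (ph Φ e) = Φ * e := by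
  unfold ph
  rw [up_dn, hc, Matrix.mul_assoc, he]

theorem pow_com (hc : e * Φ = Φ * e) (v : ℕ) : e * Φ ^ v = Φ ^ v * e := by
  induction v with
  | zero => simp
  | succ v ih => rw [pow_succ, ← Matrix.mul_assoc, ih, Matrix.mul_assoc, hc, Matrix.mul_assoc]

theorem up_one (he : e * e = e) : up e e (1 : End K (C e)) = e := by
  refine ext_mulVec fun v => ?_
  rw [up_mulVec, Module.End.one_apply, pr_coe]

theorem up_ph_pow (he : e * e = e) (hc : e * Φ = Φ * e) (v : ℕ) :
    up e e (ph Φ e ^ v) = Φ ^ v * e := by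
  induction v with
  | zero => rw [pow_zero, up_one he, pow_zero, Matrix.one_mul]
  | succ v ih =>
    rw [pow_succ, Module.End.mul_eq_comp, up_comp he, ih, up_ph he hc, Matrix.mul_assoc,
      ← Matrix.mul_assoc e, hc, Matrix.mul_assoc, he, ← Matrix.mul_assoc, ← pow_succ]

/-- matrix form of the filtration condition -/
def FM (Φ y : Matrix ι ι K) : Prop := ∀ v : ℕ, ∃ R : Matrix ι ι K, y * Φ ^ v = Φ ^ v * R

theorem FM_of_filt (he : e * e = e) (hf : f * f = f) (hce : e * Φ = Φ * e) (hcf : f * Φ = Φ * f)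
    {y : C e →ₗ[K] C f} (hy : TL.Filt (ph Φ e) (ph Φ f) y) : FM Φ (up e f y) := by
  intro v
  obtain ⟨g, hg⟩ := Module.projective_lifting_property
    ((ph Φ f ^ v).rangeRestrict) ((y ∘ₗ (ph Φ e ^ v)).codRestrict (range (ph Φ f ^ v))
      fun u => hy v _ ⟨u, rfl⟩) (LinearMap.surjective_rangeRestrict _)
  have hg2 : (ph Φ f ^ v) ∘ₗ g = y ∘ₗ (ph Φ e ^ v) := by
    apply LinearMap.ext
    intro u
    have := congrArg Subtype.val (LinearMap.congr_fun hg u)
    exact this
  refine ⟨up e f g, ?_⟩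
  have h1 := congrArg (up e f) hg2
  rw [up_comp hf, up_comp he, up_ph_pow hf hcf, up_ph_pow he hce, Matrix.mul_assoc, mul_up hf,
    ← pow_com hce, ← Matrix.mul_assoc, up_mul he] at h1
  exact h1.symm

theorem filt_of_FM (he : e * e = e) (hf : f * f = f) (hce : e * Φ = Φ * e) (hcf : f * Φ = Φ * f)
    {y : C e →ₗ[K] C f} (hy : FM Φ (up e f y)) : TL.Filt (ph Φ e) (ph Φ f) y := by
  intro v w hw
  obtain ⟨u, rfl⟩ := hw
  obtain ⟨R, hR⟩ := hy v
  refine ⟨pr f (R *ᵥ (u : ι → K)), ?_⟩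
  apply Subtype.ext
  have h1 : ((ph Φ f ^ v) (pr f (R *ᵥ (u : ι → K))) : ι → K)
      = (Φ ^ v * f) *ᵥ (R *ᵥ (u : ι → K)) := by
    rw [← up_ph_pow hf hcf, up_mulVec]
  have h2 : (y ((ph Φ e ^ v) u) : ι → K) = (up e f y * Φ ^ v) *ᵥ (u : ι → K) := by
    have h3 : up e f y * Φ ^ v = up e f (y ∘ₗ (ph Φ e ^ v)) := by
      rw [up_comp he, up_ph_pow he hce, ← pow_com hce, ← Matrix.mul_assoc, up_mul he]
    rw [h3, up_mulVec, pr_fix he]
    rfl
  rw [h1, h2, mulVec_mulVec, ← pow_com hcf, Matrix.mul_assoc, ← hR, ← Matrix.mul_assoc,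
    mul_up hf]

end one

end Crest.Agent.R172.QQ2
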