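import Crest.Agent.R172.QQ2a

/-!
Row 172, TAME (T0): assembly of the Vandermonde steps, part 2: one arm.

`arm_mem`: the two derivative steps (`first`, `second` of 824's QQ1) put every filtered
endomorphism of the core into the submodule `S`.
-/

set_option autoImplicit false
set_option linter.unusedSectionVars false

namespace Crest.Agent.R172.QQ2

open Matrix Module LinearMap Crest.Agent.R172.FO

variable {ι : Type*} [Fintype ι] [DecidableEq ι]
variable {k K : Type*} [Field k] [Field K] [Algebra k K]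

theorem vand_inf {T : Set k} (hT : T.Infinite) {a b : K} (hab : a ≠ b)
    (hb : ∀ t ∈ T, 1 + algebraMap k K t * b ≠ 0) :
    ((fun t : k => (1 + algebraMap k K t * a) / (1 + algebraMap k K t * b)) '' T).Infinite := by
  apply hT.image
  intro t ht u hu h
  simp only at h
  rw [div_eq_div_iff (hb t ht) (hb u hu)] at h
  have h1 : (algebraMap k K t - algebraMap k K u) * (a - b) = 0 := by
    linear_combination h
  rcases mul_eq_zero.1 h1 with h2 | h2
  · exact (algebraMap k K).injective (sub_eq_zero.1 h2)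
  · exact absurd (sub_eq_zero.1 h2) hab

theorem vand {C₁ C₂ E : Type*} [AddCommGroup C₁] [Module K C₁] [AddCommGroup C₂] [Module K C₂]
    [AddCommGroup E] [Module K E] [FiniteDimensional K C₁] [FiniteDimensional K C₂]
    {φ₁ : End K C₁} {φ₂ : End K C₂} {l : ℕ}
    (h₁ : φ₁ ^ l = 0) (hf₁ : l * finrank K (ker φ₁) = finrank K C₁)
    (h₂ : φ₂ ^ l = 0) (hf₂ : l * finrank K (ker φ₂) = finrank K C₂)
    (S : Submodule K E) (ι₁ ι₂ : (C₁ →ₗ[K] C₂) →ₗ[K] E) {T : Set k} (hT : T.Infinite)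
    {a b : K} (hab : a ≠ b) (hb : ∀ t ∈ T, 1 + algebraMap k K t * b ≠ 0)
    (h : ∀ t ∈ T, ∀ x : C₁ →ₗ[K] C₂,
      (1 + algebraMap k K t * a) ^ 2 • (x ∘ₗ φ₁) = (1 + algebraMap k K t * b) ^ 2 • (φ₂ ∘ₗ x) →
        (1 + algebraMap k K t * a) • ι₁ x + (1 + algebraMap k K t * b) • ι₂ x ∈ S)
    {y : C₁ →ₗ[K] C₂} (hy : TL.Filt φ₁ φ₂ y) : ι₁ y ∈ S ∧ ι₂ y ∈ S := by
  refine TL.filt_mem h₁ hf₁ h₂ hf₂ S ι₁ ι₂ (vand_inf hT hab hb) ?_ hy
  rintro _ ⟨t, ht, rfl⟩ x hx
  simp only at hx ⊢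
  have h0 := hb t ht
  have h1 := h t ht x (by
    have h2 := congrArg (fun z => (1 + algebraMap k K t * b) ^ 2 • z) hx
    simp only [smul_smul] at h2
    rw [← h2]
    congr 1
    field_simp)
  have h3 : ((1 + algebraMap k K t * a) / (1 + algebraMap k K t * b)) • ι₁ x + ι₂ x
      = (1 + algebraMap k K t * b)⁻¹ • ((1 + algebraMap k K t * a) • ι₁ x
        + (1 + algebraMap k K t * b) • ι₂ x) := by
    rw [smul_add, smul_smul, smul_smul, inv_mul_cancel₀ h0, one_smul, div_eq_inv_mul]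
  rw [h3]
  exact S.smul_mem _ h1

/-- the adjoint as a linear map -/
noncomputable def adjL (J : Matrix ι ι K) : Matrix ι ι K →ₗ[K] Matrix ι ι K where
  toFun := VD.adj J
  map_add' := VD.adj_add J
  map_smul' c x := VD.adj_smul J c x

section

variable {J Φ e f : Matrix ι ι K}

theorem Ji1 (hJ : IsUnit J) : J⁻¹ * J = 1 :=
  Matrix.nonsing_inv_mul J ((Matrix.isUnit_iff_isUnit_det J).1 hJ)

theorem Ji2 (hJ : IsUnit J) : J * J⁻¹ = 1 :=
  Matrix.mul_nonsing_inv J ((Matrix.isUnit_iff_isUnit_det J).1 hJ)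

theorem J_adj (hJ : IsUnit J) (x : Matrix ι ι K) : J * VD.adj J x = xᵀ * J := by
  unfold VD.adj
  rw [← Matrix.mul_assoc, ← Matrix.mul_assoc, Ji2 hJ, Matrix.one_mul]

theorem J_cancel (hJ : IsUnit J) {A B : Matrix ι ι K} (h : J * A = J * B) : A = B := by
  have := congrArg (fun Z => J⁻¹ * Z) h
  simpa only [← Matrix.mul_assoc, Ji1 hJ, Matrix.one_mul] using this

theorem adj_mul (hJ : IsUnit J) (x y : Matrix ι ι K) :
    VD.adj J (x * y) = VD.adj J y * VD.adj J x := by
  apply J_cancel hJ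
  rw [J_adj hJ, transpose_mul, Matrix.mul_assoc, ← J_adj hJ x, ← Matrix.mul_assoc,
    ← J_adj hJ y, Matrix.mul_assoc]

theorem adj_of_sa (hJ : IsUnit J) (h : eᵀ * J = J * e) : VD.adj J e = e := by
  apply J_cancel hJ
  rw [J_adj hJ, h]

theorem adj_adj (hJ : IsUnit J) (hJs : Jᵀ = J) (x : Matrix ι ι K) :
    VD.adj J (VD.adj J x) = x := by
  apply J_cancel hJ
  rw [J_adj hJ]
  unfold VD.adj
  rw [transpose_mul, transpose_mul, transpose_transpose, hJs, Matrix.transpose_nonsing_inv, hJs,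
    Matrix.mul_assoc, Matrix.mul_assoc, Ji1 hJ, Matrix.mul_one]

theorem adj_pow (hJ : IsUnit J) (hΦ : Φᵀ * J = J * Φ) (v : ℕ) : VD.adj J (Φ ^ v) = Φ ^ v := by
  induction v with
  | zero =>
    rw [pow_zero]
    apply J_cancel hJ
    rw [J_adj hJ, transpose_one, Matrix.one_mul, Matrix.mul_one]
  | succ v ih =>
    rw [pow_succ, adj_mul hJ, ih, adj_of_sa hJ hΦ, ← pow_succ', pow_succ]

theorem up_adj (hJ : IsUnit J) (he : e * e = e) (hf : f * f = f)
    (hse : eᵀ * J = J * e) (hsf : fᵀ * J = J * f) (z : C f →ₗ[K] C e) :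
    up e f (dn e f (VD.adj J (up f e z))) = VD.adj J (up f e z) := by
  have h1 : VD.adj J (e * up f e z * f) = f * VD.adj J (up f e z) * e := by
    rw [adj_mul hJ, adj_mul hJ, adj_of_sa hJ hse, adj_of_sa hJ hsf, Matrix.mul_assoc]
  rw [mul_up he, up_mul hf] at h1
  rw [up_dn, ← h1]

theorem ph_pow_coe (he : e * e = e) (hc : e * Φ = Φ * e) (v : ℕ) (u : C e) :
    ((ph Φ e ^ v) u : ι → K) = Φ ^ v *ᵥ (u : ι → K) := by
  have h := up_mulVec (ph Φ e ^ v) (u : ι → K)
  rw [pr_fix he, up_ph_pow he hc, ← mulVec_mulVec, mem_fix he] at h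
  exact h.symm

/-- the adjoint of a filtered map between free blocks is filtered -/
theorem filt_adj (hJ : IsUnit J) (hΦ : Φᵀ * J = J * Φ) (he : e * e = e) (hf : f * f = f)
    (hse : eᵀ * J = J * e) (hsf : fᵀ * J = J * f)
    (hce : e * Φ = Φ * e) (hcf : f * Φ = Φ * f) {l : ℕ}
    (hl : ph Φ e ^ l = 0)
    (hlf : ph Φ f ^ l = 0) (hff : l * finrank K (ker (ph Φ f)) = finrank K (C f))
    {z : C f →ₗ[K] C e} (hz : TL.Filt (ph Φ f) (ph Φ e) z) :
    TL.Filt (ph Φ e) (ph Φ f) (dn e f (VD.adj J (up f e z))) := by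
  intro v w hw
  obtain ⟨u, rfl⟩ := hw
  by_cases hv : v ≤ l
  · have hr : range (ph Φ f ^ v) = ker (ph Φ f ^ (l - v)) := by
      rw [TC.ker_eq_range hlf hff (Nat.sub_le l v), Nat.sub_sub_self hv]
    rw [hr, LinearMap.mem_ker]
    apply Subtype.ext
    rw [ph_pow_coe hf hcf]
    obtain ⟨R, hR⟩ := FM_of_filt hf he hcf hce hz (l - v)
    have hR' := congrArg (VD.adj J) hR
    rw [adj_mul hJ, adj_mul hJ, adj_pow hJ hΦ] at hR'
    have h1 : (dn e f (VD.adj J (up f e z)) ((ph Φ e ^ v) u) : ι → K)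
        = VD.adj J (up f e z) *ᵥ (Φ ^ v *ᵥ (u : ι → K)) := by
      have h2 := up_mulVec (dn e f (VD.adj J (up f e z))) (((ph Φ e ^ v) u : C e) : ι → K)
      rw [pr_fix he, up_adj hJ he hf hse hsf, ph_pow_coe he hce] at h2
      exact h2.symm
    rw [h1, mulVec_mulVec, hR', mulVec_mulVec, Matrix.mul_assoc, ← pow_add, Nat.sub_add_cancel hv,
      ← mulVec_mulVec]
    have h3 : Φ ^ l *ᵥ (u : ι → K) = 0 := by
      rw [← ph_pow_coe he hce, hl]
      rfl
    rw [h3, mulVec_zero]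
    rfl
  · have h0 : ph Φ e ^ v = 0 := by
      obtain ⟨r, hr⟩ := Nat.exists_eq_add_of_le (le_of_not_ge hv)
      rw [hr, pow_add, hl, zero_mul]
    rw [h0, LinearMap.zero_apply, map_zero]
    exact Submodule.zero_mem _

end

section main

variable {n : Type*} [Fintype n] [DecidableEq n]

/-- **One arm.** The hypotheses `first`, `second` are the outputs of the derivative steps. -/
theorem arm_mem {J Φ : Matrix ι ι K} (hJ : IsUnit J) (hJs : Jᵀ = J) (hΦ : Φᵀ * J = J * Φ)
    {e : n → Matrix ι ι K} {lam : n → K} (hlam : Function.Injective lam)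
    (idem : ∀ i, e i * e i = e i) (orth : ∀ i j, i ≠ j → e i * e j = 0)
    (sa : ∀ i, (e i)ᵀ * J = J * e i) (com : ∀ i, e i * Φ = Φ * e i)
    {l : ℕ} (hl : ∀ i, ph Φ (e i) ^ l = 0)
    (hfree : ∀ i, l * finrank K (ker (ph Φ (e i))) = finrank K (C (e i)))
    (hne : ∀ i, ∃ j, j ≠ i ∧ 0 < finrank K (C (e j)))
    {T : Set k} (hT : T.Infinite) (ha : ∀ t ∈ T, ∀ i, 1 + algebraMap k K t * lam i ≠ 0)
    (S : Submodule K (Matrix ι ι K))
    (first : ∀ t ∈ T, ∀ i j, i ≠ j → ∀ x x' : Matrix ι ι K, e j * x * e i = x → xᵀ * J = J * x' →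
      (1 + algebraMap k K t * lam i) ^ 2 • (x * Φ) = (1 + algebraMap k K t * lam j) ^ 2 • (Φ * x) →
      (1 + algebraMap k K t * lam i) • x + (1 + algebraMap k K t * lam j) • x' ∈ S)
    (second : (∀ i j, i ≠ j → ∀ y, e j * y * e i = y → FM Φ y → y ∈ S) →
      ∀ t ∈ T, ∀ i j, i ≠ j → ∀ x x' y : Matrix ι ι K, e j * x * e i = x → xᵀ * J = J * x' →
      (1 + algebraMap k K t * lam i) ^ 2 • (x * Φ) = (1 + algebraMap k K t * lam j) ^ 2 • (Φ * x) →
      e j * y * e i = y → FM Φ y →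
      (1 + algebraMap k K t * lam i) • (x' * y) - (1 + algebraMap k K t * lam j) • (y * x') ∈ S)
    {A : Matrix ι ι K} (hA : (∑ i, e i) * A * (∑ i, e i) = A) (hfil : FM Φ A) : A ∈ S := by
  classical
  -- exactness in terms of `up`
  have hex : ∀ (i j : n) (p q : K) (x : C (e i) →ₗ[K] C (e j)),
      p • (x ∘ₗ ph Φ (e i)) = q • (ph Φ (e j) ∘ₗ x) →
      p • (up (e i) (e j) x * Φ) = q • (Φ * up (e i) (e j) x) := by
    intro i j p q x h
    have h1 := congrArg (up (e i) (e j)) h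
    rw [map_smul, map_smul, up_comp (idem i), up_comp (idem j), up_ph (idem i) (com i),
      up_ph (idem j) (com j), ← com i, ← Matrix.mul_assoc, up_mul (idem i), Matrix.mul_assoc,
      mul_up (idem j)] at h1
    exact h1
  have hblk : ∀ (i j : n) (x : C (e i) →ₗ[K] C (e j)),
      e j * up (e i) (e j) x * e i = up (e i) (e j) x := by
    intro i j x
    rw [mul_up (idem j), up_mul (idem i)]
  -- first step
  have F1 : ∀ i j, i ≠ j → ∀ y : C (e i) →ₗ[K] C (e j), TL.Filt (ph Φ (e i)) (ph Φ (e j)) y →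
      up (e i) (e j) y ∈ S := by
    intro i j hij y hy
    refine (vand (hl i) (hfree i) (hl j) (hfree j) S (up (e i) (e j))
      (adjL J ∘ₗ up (e i) (e j)) hT (hlam.ne hij) (fun t ht => ha t ht j) ?_ hy).1
    intro t ht x hx
    exact first t ht i j hij _ _ (hblk i j x) (J_adj hJ _).symm (hex i j _ _ x hx)
  have F1' : ∀ i j, i ≠ j → ∀ y, e j * y * e i = y → FM Φ y → y ∈ S := by
    intro i j hij y hy hyf
    have hu : up (e i) (e j) (dn (e i) (e j) y) = y := by rw [up_dn, hy]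
    rw [← hu]
    exact F1 i j hij _ (filt_of_FM (idem i) (idem j) (com i) (com j) (by rw [hu]; exact hyf))
  -- second step
  have F2 : ∀ i j, i ≠ j → ∀ (y : C (e i) →ₗ[K] C (e j)) (z : C (e j) →ₗ[K] C (e i)),
      TL.Filt (ph Φ (e i)) (ph Φ (e j)) y → TL.Filt (ph Φ (e j)) (ph Φ (e i)) z →
      up (e i) (e i) (z ∘ₗ y) ∈ S := by
    intro i j hij y z hy hz
    have hyM := FM_of_filt (idem i) (idem j) (com i) (com j) hy
    have hx := filt_adj hJ hΦ (idem i) (idem j) (sa i) (sa j) (com i) (com j) (hl i) (hl j)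
      (hfree j) hz
    have h1 := (vand (hl i) (hfree i) (hl j) (hfree j) S
      ((LinearMap.mulRight K (up (e i) (e j) y)) ∘ₗ adjL J ∘ₗ up (e i) (e j))
      (-((LinearMap.mulLeft K (up (e i) (e j) y)) ∘ₗ adjL J ∘ₗ up (e i) (e j)))
      hT (hlam.ne hij) (fun t ht => ha t ht j) (by
        intro t ht x hx
        have h2 := second F1' t ht i j hij _ (VD.adj J (up (e i) (e j) x)) _ (hblk i j x)
          (J_adj hJ _).symm (hex i j _ _ x hx) (hblk i j y) hyM
        rw [LinearMap.neg_apply, smul_neg, ← sub_eq_add_neg]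
        exact h2) hx).1
    rw [up_comp (idem j)]
    have h3 : ((LinearMap.mulRight K (up (e i) (e j) y)) ∘ₗ adjL J ∘ₗ up (e i) (e j))
        (dn (e i) (e j) (VD.adj J (up (e j) (e i) z)))
        = VD.adj J (up (e i) (e j) (dn (e i) (e j) (VD.adj J (up (e j) (e i) z)))) *
          up (e i) (e j) y := rfl
    rw [h3, up_adj hJ (idem i) (idem j) (sa i) (sa j), adj_adj hJ hJs] at h1
    exact h1
  -- blocks
  have hAb : ∀ i j, FM Φ (e j * A * e i) := by
    intro i j v
    obtain ⟨R, hR⟩ := hfil v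
    refine ⟨e j * R * e i, ?_⟩
    calc e j * A * e i * Φ ^ v = e j * (A * Φ ^ v) * e i := by
          rw [Matrix.mul_assoc (e j * A), pow_com (com i)]
          simp only [Matrix.mul_assoc]
      _ = (e j * Φ ^ v) * R * e i := by rw [hR]; simp only [Matrix.mul_assoc]
      _ = _ := by rw [pow_com (com j)]; simp only [Matrix.mul_assoc]
  have hb : ∀ i j, e j * A * e i ∈ S := by
    intro i j
    by_cases hij : i = j
    · subst hij
      obtain ⟨j, hji, hj⟩ := hne i
      have hu : up (e i) (e i) (dn (e i) (e i) A) = e i * A * e i := up_dn A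
      have hfi : TL.Filt (ph Φ (e i)) (ph Φ (e i)) (dn (e i) (e i) A) :=
        filt_of_FM (idem i) (idem i) (com i) (com i) (by rw [hu]; exact hAb i i)
      have h1 := TL.span_comp (hl i) (hfree i) (hl j) (hfree j) hj hfi
      rw [← hu]
      have h2 : Submodule.span K {B : C (e i) →ₗ[K] C (e i) |
          ∃ (y : C (e i) →ₗ[K] C (e j)) (z : C (e j) →ₗ[K] C (e i)),
            TL.Filt (ph Φ (e i)) (ph Φ (e j)) y ∧ TL.Filt (ph Φ (e j)) (ph Φ (e i)) z ∧
              B = z ∘ₗ y} ≤ S.comap (up (e i) (e i)) := by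
        rw [Submodule.span_le]
        rintro B ⟨y, z, hy, hz, rfl⟩
        exact F2 i j (Ne.symm hji) y z hy hz
      exact h2 h1
    · refine F1' i j hij _ ?_ (hAb i j)
      calc e j * (e j * A * e i) * e i = (e j * e j) * A * (e i * e i) := by
            simp only [Matrix.mul_assoc]
        _ = _ := by rw [idem, idem]
  rw [← hA]
  have hsum : (∑ i, e i) * A * (∑ i, e i) = ∑ i, ∑ j, e j * A * e i := by
    rw [Matrix.mul_sum]
    refine Finset.sum_congr rfl fun i _ => ?_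
    rw [Matrix.sum_mul, Matrix.sum_mul]
  rw [hsum]
  exact S.sum_mem fun i _ => S.sum_mem fun j _ => hb i j

end main

end Crest.Agent.R172.QQ2
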