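import Crest.Agent.R172.QSS
import Crest.Agent.R172.QBr

/-!
Row 172 (S0260), (t3), P-side: `hrel` of `RJM.main` from 178's `Side` and 860's product, with
`Q = SSp`.
-/

set_option autoImplicit false
set_option linter.unusedSectionVars false
set_option linter.unusedFintypeInType false
set_option linter.unusedDecidableInType false
set_option maxHeartbeats 800000

namespace Crest.Agent.R172.QSS

open Matrix Module TensorProduct Crest.Agent.R172.FO Crest.Agent.R172.Qt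
open Crest.Agent.R172.Mix Crest.Agent.R172.QEndP
open Crest.Agent.R172.QBr (Side ten g2)

variable {ι : Type*} [Fintype ι] [DecidableEq ι] {δ : Type*} [Fintype δ] [DecidableEq δ]
variable {k K : Type*} [Field k] [Field K] [Algebra k K]
variable {P1 P2 : Type*} [AddCommGroup P1] [Module K P1] [AddCommGroup P2] [Module K P2]
variable {arm : δ → Fin 3} {J : Matrix ι ι K} {B : Matrix δ δ K}
  {N W : Submodule K (Matrix ι δ K)} {g f : Matrix ι δ K}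
  {X : Matrix ι ι K} {A : Fin 3 → End K P1} {Bo : Fin 3 → End K P2}
  {i1 : P1 →ₗ[K] (ι → K)} {i2 : P2 →ₗ[K] (ι → K)}

/-- the hypothesis `hb` of `corr_mem_SSp` from the values `val1` (of `u`) and `val2` (of `u2`) -/
theorem hb_of (h : Side arm J B g f X A Bo i1 i2) (hC : Ctx k arm J B N W g) (hf : f ∈ N ⊓ W)
    {R1 : Submodule K P1} (hR1 : ∀ r ∈ R1, ∀ p, i1 r ⬝ᵥ J *ᵥ i1 p = 0)
    (hsec : ∀ v : Sp J g, v ∈ Pinf (aop arm J B g f (hC.perp f hf)) →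
      ∃ q u, (v : ι → K) = i1 q + g *ᵥ u)
    {u u2 : Matrix ι ι K} (hv1 : ∀ a, u *ᵥ i2 a ∈ Side.Q1 g i1 R1)
    (hu2g : gᵀ * J * (u2 * g) = 0)
    (hv2 : ∀ p : P1, ∃ r : P2, (gᵀ * J) *ᵥ (u2 *ᵥ i1 p) = (gᵀ * J) *ᵥ (X *ᵥ i2 r))
    (v : Pinf (aop arm J B g f (hC.perp f hf))) : ∃ b : δ → K,
      (gᵀ * J) *ᵥ (u2 *ᵥ ((v : Sp J g) : ι → K)) = (gᵀ * J) *ᵥ (X *ᵥ (g *ᵥ b)) ∧
      ∀ (w : Pinf (aop arm J B g f (hC.perp f hf))) (s : Fin 3),
        (u *ᵥ (g *ᵥ b)) ⬝ᵥ (J *ᵥ ((M arm B s f f * J) *ᵥ ((w : Sp J g) : ι → K))) = 0 := by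
  obtain ⟨q, c, hq⟩ := hsec v v.2
  obtain ⟨r, hr⟩ := hv2 q
  obtain ⟨b, hb⟩ := h.J2 r
  refine ⟨b, ?_, ?_⟩
  · have h1 : (gᵀ * J) *ᵥ (u2 *ᵥ (g *ᵥ c)) = 0 := by
      rw [mulVec_mulVec, mulVec_mulVec, Matrix.mul_assoc (gᵀ * J), hu2g, zero_mulVec]
    rw [hq, mulVec_add, mulVec_add, h1, add_zero, hr, hb]
  · intro w s
    obtain ⟨q', c', hq'⟩ := hsec w w.2
    rw [← hb]
    obtain ⟨w1, ⟨z, hz⟩, w2, ⟨r1, hr1, hr2⟩, hw⟩ := Submodule.mem_sup.1 (hv1 r)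
    obtain ⟨z2, hz2⟩ := h.A1 s q'
    have e1 : (M arm B s f f * J) *ᵥ ((w : Sp J g) : ι → K) = i1 (A s q') + g *ᵥ z2 := by
      rw [hq', mulVec_add, hz2, h.Mf_g, add_zero]
    rw [← hw, ← hz, ← hr2, mulVecLin_apply, e1, add_dotProduct, mulVec_add, dotProduct_add,
      dotProduct_add, h.i1_perp, hR1 r1 hr1]
    have e2 : g *ᵥ z ⬝ᵥ J *ᵥ i1 (A s q') = 0 := h.S_dot z (h.J1 _)
    have e3 : g *ᵥ z ⬝ᵥ J *ᵥ (g *ᵥ z2) = 0 := h.S_dot z (h.S_perp z2)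
    rw [e2, e3]
    simp

/-- **`hrel` of the P-side of (t3)** with `Q = SSp`, `(a1, a2, a3) = (1, -1, -1)`. -/
theorem hrelP (h : Side arm J B g f X A Bo i1 i2) (hC : Ctx k arm J B N W g) (hf : f ∈ N ⊓ W)
    {R1 : Submodule K P1} (hR1 : ∀ r ∈ R1, ∀ p, i1 r ⬝ᵥ J *ᵥ i1 p = 0)
    (hsec : ∀ v : Sp J g, v ∈ Pinf (aop arm J B g f (hC.perp f hf)) →
      ∃ q u, (v : ι → K) = i1 q + g *ᵥ u)
    {x x' : Fin 3 → P2 ⊗[K] P1} {f2 : Matrix ι δ K}
    {p p1 pm p3 p4 p' q1 qm q3 q4 : Matrix ι ι K × (Fin 3 → Matrix ι ι K)}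
    {Z Z' : Matrix ι ι K} {Q Q' : Fin 3 → Matrix ι ι K} {e kk e' kk' : Matrix ι δ K}
    (hF : Fam arm J B N W g f p (fun s => ten J i1 i2 (x s)) Z Q e p1 pm p3 p4 kk)
    (hF' : Fam arm J B N W g f2 p' (fun s => ten J i1 i2 (x' s)) Z' Q' e' q1 qm q3 q4 kk')
    (hfS : ∀ s, ∃ C C' : Matrix δ ι K, ten J i1 i2 (x' s) = f * C + g * C')
    {c c' : K} (hc : c ≠ 0) (hc' : c' ≠ 0) (hp : p.1 = c • X) (hp' : p'.1 = c' • X)
    (hv1 : ∀ a, Z *ᵥ i2 a ∈ Side.Q1 g i1 R1)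
    (hv2 : ∀ a : P1, ∃ r : P2, (gᵀ * J) *ᵥ (Z' *ᵥ i1 a) = (gᵀ * J) *ᵥ (X *ᵥ i2 r))
    {b b' : P2 →ₗ[K] P1} (hb : ∀ a, ∃ u, Z *ᵥ i2 a = -(c • i1 (b a)) + g *ᵥ u)
    (hb' : ∀ a, ∃ u, Z' *ᵥ i2 a = -(c' • i1 (b' a)) + g *ᵥ u)
    (q : Fin 3 → P1 →ₗ[K] P1 →ₗ[K] Matrix ι δ K)
    (hq : ∀ s a a', q s a a' = vecMulVec (i1 a) (i1 a') * J * f * E K arm s) :
    ∑ t, ((1 : K) • TensorProduct.lift ((q t) ∘ₗ b') (x t)
        + (-1 : K) • TensorProduct.lift ((q t).flip ∘ₗ b) (x' t)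
        + (-1 : K) • TensorProduct.lift ((q t) ∘ₗ (RJ.ev (g2 J X i2) (x' t))) (x t))
      ∈ SSp arm J B N W g f (hC.perp f hf) := by
  -- the undecorated product
  set u : Matrix ι ι K := c⁻¹ • Z with hudef
  set u' : Matrix ι ι K := c'⁻¹ • Z' with hu'def
  have hu : Z = c • u := by rw [hudef, smul_smul, mul_inv_cancel₀ hc, one_smul]
  have hu' : Z' = c' • u' := by rw [hu'def, smul_smul, mul_inv_cancel₀ hc', one_smul]
  have huS : Skw J u := hF.skw.smul _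
  have hbu : ∀ a, ∃ z, u *ᵥ i2 a = - i1 (b a) + g *ᵥ z := by
    intro a
    obtain ⟨z, hz⟩ := hb a
    refine ⟨c⁻¹ • z, ?_⟩
    rw [hudef, smul_mulVec, hz, smul_add, smul_neg, smul_smul, inv_mul_cancel₀ hc, one_smul,
      mulVec_smul]
  have hbu' : ∀ a, ∃ z, u' *ᵥ i2 a = - i1 (b' a) + g *ᵥ z := by
    intro a
    obtain ⟨z, hz⟩ := hb' a
    refine ⟨c'⁻¹ • z, ?_⟩
    rw [hu'def, smul_mulVec, hz, smul_add, smul_neg, smul_smul, inv_mul_cancel₀ hc', one_smul,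
      mulVec_smul]
  let q0 : P1 →ₗ[K] P1 →ₗ[K] Matrix ι δ K := LinearMap.mk₂ K
    (fun a a' => vecMulVec (i1 a) (i1 a') * (J * f))
    (fun a b p => by simp only [map_add, add_vecMulVec, Matrix.add_mul])
    (fun c a p => by simp only [map_smul, smul_vecMulVec, Matrix.smul_mul])
    (fun a p p' => by simp only [map_add, vecMulVec_add, Matrix.add_mul])
    (fun c a p => by simp only [map_smul, vecMulVec_smul, Matrix.smul_mul])
  have hq0 : ∀ a a', q0 a a' = vecMulVec (i1 a) (i1 a') * (J * f) := fun a a' => rfl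
  have hqq : ∀ s a a', q s a a' = q0 a a' * E K arm s := by
    intro s a a'
    rw [hq, hq0]; simp only [Matrix.mul_assoc]
  have hl : ∀ (s : Fin 3) (m : P2 →ₗ[K] P1) (y : P2 ⊗[K] P1),
      TensorProduct.lift ((q s) ∘ₗ m) y = TensorProduct.lift (q0 ∘ₗ m) y * E K arm s := by
    intro s m y
    induction y using TensorProduct.induction_on with
    | zero => simp
    | tmul a a' =>
      rw [TensorProduct.lift.tmul, TensorProduct.lift.tmul, LinearMap.comp_apply,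
        LinearMap.comp_apply, hqq]
    | add y y' hy hy' => rw [map_add, map_add, hy, hy', Matrix.add_mul]
  have hl' : ∀ (s : Fin 3) (m : P2 →ₗ[K] P1) (y : P2 ⊗[K] P1),
      TensorProduct.lift ((q s).flip ∘ₗ m) y
        = TensorProduct.lift (q0.flip ∘ₗ m) y * E K arm s := by
    intro s m y
    induction y using TensorProduct.induction_on with
    | zero => simp
    | tmul a a' =>
      rw [TensorProduct.lift.tmul, TensorProduct.lift.tmul, LinearMap.comp_apply,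
        LinearMap.comp_apply, LinearMap.flip_apply, LinearMap.flip_apply, hqq]
    | add y y' hy hy' => rw [map_add, map_add, hy, hy', Matrix.add_mul]
  have ht : ∀ t, ∃ C : Matrix δ δ K,
      (ten J i1 i2 (x' t) * X * ten J i1 i2 (x t) + ten J i1 i2 (x' t) * u
        - u' * ten J i1 i2 (x t)) * f
      = TensorProduct.lift (q0 ∘ₗ b') (x t) - TensorProduct.lift (q0.flip ∘ₗ b) (x' t)
        - TensorProduct.lift (q0 ∘ₗ RJ.ev (g2 J X i2) (x' t)) (x t) + g * C := fun t =>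
    h.tprod huS hbu hbu' q0 hq0
  choose C hCt using ht
  have hsum : ∑ t, ((1 : K) • TensorProduct.lift ((q t) ∘ₗ b') (x t)
        + (-1 : K) • TensorProduct.lift ((q t).flip ∘ₗ b) (x' t)
        + (-1 : K) • TensorProduct.lift ((q t) ∘ₗ (RJ.ev (g2 J X i2) (x' t))) (x t))
      = act arm (fun s => ten J i1 i2 (x' s) * X * ten J i1 i2 (x s) + ten J i1 i2 (x' s) * u
          - u' * ten J i1 i2 (x s)) f - g * ∑ t, C t * E K arm t := by
    have h1 : act arm (fun s => ten J i1 i2 (x' s) * X * ten J i1 i2 (x s)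
        + ten J i1 i2 (x' s) * u - u' * ten J i1 i2 (x s)) f
        = ∑ s, (ten J i1 i2 (x' s) * X * ten J i1 i2 (x s) + ten J i1 i2 (x' s) * u
          - u' * ten J i1 i2 (x s)) * f * E K arm s := rfl
    rw [h1, Matrix.mul_sum, ← Finset.sum_sub_distrib]
    refine Finset.sum_congr rfl fun t _ => ?_
    rw [hCt, hl, hl', hl, one_smul, neg_one_smul, neg_one_smul, Matrix.add_mul, Matrix.sub_mul,
      Matrix.sub_mul, Matrix.mul_assoc g]
    abel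
  rw [hsum]
  refine Submodule.sub_mem _ ?_ (gC_mem_SSp _ _)
  have hu'g : gᵀ * J * (u' * g) = 0 := by
    rw [hu'def, Matrix.smul_mul, Matrix.mul_smul, hF'.Zg, smul_zero]
  have hX0 : Skw J p.1 := by rw [hp]; exact h.X_skw.smul _
  refine prodP_mem_SSp hC hf hX0 hF hF' (fun s => QBr.ten_skw h.J_symm _) (fun s => h.ten_g _)
    (fun s v hv => ?_) (fun s => QBr.ten_skw h.J_symm _) (fun s => h.ten_g _)
    (fun s v hv => ?_) hfS hc hc' hp hp' hu hu' (hb_of h hC hf hR1 hsec (fun a => ?_) hu'g ?_)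
  · exact h.ten_S _ _ hv
  · exact h.ten_S _ _ hv
  · rw [hudef, smul_mulVec]
    exact Submodule.smul_mem _ _ (hv1 a)
  · intro a
    obtain ⟨r, hr⟩ := hv2 a
    refine ⟨c'⁻¹ • r, ?_⟩
    rw [hu'def, smul_mulVec, mulVec_smul, hr, map_smul, mulVec_smul, mulVec_smul]

end Crest.Agent.R172.QSS
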