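import Crest.Agent.R172.FO1

/-!
Row 172 (S0260), node G1.1 (Q-theory), part 1: the obstruction theory of an isotropic element.

`g ∈ 𝒦 = N ⊓ W` isotropic, `S = im g`.  `S ⊗ U = {g * C}`, `S^⊥ ⊗ U = {F | gᵀ J F = 0}`.
`NN` is the space of pairs `(X₀; X_s)`, `X₀, X_s ∈ so(V)`, `X_s` preserves `N`,
`(X₀ - X_s) S ⊆ S`.
-/

set_option autoImplicit false
set_option linter.unusedSectionVars false
set_option linter.unusedFintypeInType false
set_option linter.unusedDecidableInType false

namespace Crest.Agent.R172.Qt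

open Matrix Module Crest.Agent.R172.FO

variable {ι : Type*} [Fintype ι] [DecidableEq ι] {δ : Type*} [Fintype δ] [DecidableEq δ]
variable {k K : Type*} [Field k] [Field K] [Algebra k K]

/-- `X ∈ so(V)` -/
def Skw (J X : Matrix ι ι K) : Prop := Xᵀ * J + J * X = 0

theorem Skw.eq {J X : Matrix ι ι K} (h : Skw J X) : Xᵀ * J = -(J * X) := eq_neg_of_add_eq_zero_left h

theorem Skw.zero {J : Matrix ι ι K} : Skw J 0 := by simp [Skw]

theorem Skw.add {J X Y : Matrix ι ι K} (hX : Skw J X) (hY : Skw J Y) : Skw J (X + Y) := by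
  unfold Skw at *
  rw [transpose_add, Matrix.add_mul, Matrix.mul_add]
  calc Xᵀ * J + Yᵀ * J + (J * X + J * Y) = (Xᵀ * J + J * X) + (Yᵀ * J + J * Y) := by abel
    _ = 0 := by rw [hX, hY, add_zero]

theorem Skw.neg {J X : Matrix ι ι K} (hX : Skw J X) : Skw J (-X) := by
  unfold Skw at *
  rw [transpose_neg, Matrix.neg_mul, Matrix.mul_neg, ← neg_add, hX, neg_zero]

theorem Skw.sub {J X Y : Matrix ι ι K} (hX : Skw J X) (hY : Skw J Y) : Skw J (X - Y) := by
  rw [sub_eq_add_neg]; exact hX.add hY.neg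

theorem Skw.smul {J X : Matrix ι ι K} (t : K) (hX : Skw J X) : Skw J (t • X) := by
  unfold Skw at *
  rw [transpose_smul, Matrix.smul_mul, Matrix.mul_smul, ← smul_add, hX, smul_zero]

/-- commutator -/
theorem Skw.comm {J X Y : Matrix ι ι K} (hX : Skw J X) (hY : Skw J Y) :
    Skw J (X * Y - Y * X) := by
  unfold Skw
  rw [transpose_sub, transpose_mul, transpose_mul, Matrix.sub_mul, Matrix.mul_assoc,
    Matrix.mul_assoc, hX.eq, hY.eq, Matrix.mul_neg, Matrix.mul_neg, ← Matrix.mul_assoc,
    ← Matrix.mul_assoc, hX.eq, hY.eq, Matrix.mul_sub, Matrix.neg_mul, Matrix.neg_mul,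
    Matrix.mul_assoc, Matrix.mul_assoc]
  abel

theorem Skw.map_der {J X : Matrix ι ι K} (hX : Skw J X) (d : Derivation k K K)
    (hJ : J.map d = 0) : Skw J (X.map d) := by
  have h : (Xᵀ * J + J * X).map d = (0 : Matrix ι ι K).map d := by rw [hX]
  rw [map_add_der, map_mul_der, map_mul_der, hJ, Matrix.mul_zero, Matrix.zero_mul, add_zero,
    zero_add, map_transpose_der] at h
  unfold Skw
  rw [h]
  ext i j; simp

section pair

variable {J : Matrix ι ι K} {B : Matrix δ δ K}

theorem pair_add_left (F G F' : Matrix ι δ K) :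
    pair J B (F + G) F' = pair J B F F' + pair J B G F' := by
  simp [pair, Matrix.add_mul, trace_add]

theorem pair_sub_left (F G F' : Matrix ι δ K) :
    pair J B (F - G) F' = pair J B F F' - pair J B G F' := by
  simp [pair, Matrix.sub_mul, trace_sub]

theorem pair_neg_left (F F' : Matrix ι δ K) : pair J B (-F) F' = - pair J B F F' := by
  simp [pair, trace_neg]

theorem pair_smul_left (t : K) (F F' : Matrix ι δ K) :
    pair J B (t • F) F' = t * pair J B F F' := by
  simp [pair, trace_smul]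

theorem pair_add_right (F G F' : Matrix ι δ K) :
    pair J B F (G + F') = pair J B F G + pair J B F F' := by
  simp [pair, Matrix.mul_add, Matrix.add_mul, trace_add]

theorem pair_sub_right (F G F' : Matrix ι δ K) :
    pair J B F (G - F') = pair J B F G - pair J B F F' := by
  simp [pair, Matrix.mul_sub, Matrix.sub_mul, trace_sub]

theorem pair_neg_right (F F' : Matrix ι δ K) : pair J B F (-F') = - pair J B F F' := by
  simp [pair, trace_neg]

theorem pair_smul_right (t : K) (F F' : Matrix ι δ K) :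
    pair J B F (t • F') = t * pair J B F F' := by
  simp [pair, trace_smul]

theorem pair_zero_left (F' : Matrix ι δ K) : pair J B 0 F' = 0 := by simp [pair]

theorem pair_zero_right (F : Matrix ι δ K) : pair J B F 0 = 0 := by simp [pair]

theorem pair_comm (hJ : Jᵀ = J) (hB : Bᵀ = B) (F F' : Matrix ι δ K) :
    pair J B F F' = pair J B F' F := by
  unfold pair
  rw [← trace_transpose, transpose_mul, transpose_mul, transpose_mul, transpose_transpose, hJ, hB,
    trace_mul_comm]
  simp only [Matrix.mul_assoc]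

theorem pair_skw {X : Matrix ι ι K} (hX : Skw J X) (F F' : Matrix ι δ K) :
    pair J B (X * F) F' = - pair J B F (X * F') := by
  unfold pair
  rw [transpose_mul, Matrix.mul_assoc Fᵀ, hX.eq, Matrix.mul_neg, Matrix.neg_mul, Matrix.neg_mul,
    trace_neg]
  simp only [Matrix.mul_assoc]

theorem pair_E {arm : δ → Fin 3} (hBE : ∀ s, E K arm s * B = B * E K arm s) (s : Fin 3)
    (F F' : Matrix ι δ K) :
    pair J B (F * E K arm s) F' = pair J B F (F' * E K arm s) := by
  unfold pair
  rw [transpose_mul, E_transpose]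
  simp only [Matrix.mul_assoc]
  rw [trace_mul_comm]
  simp only [Matrix.mul_assoc]
  rw [hBE]

theorem pair_act {arm : δ → Fin 3} (hBE : ∀ s, E K arm s * B = B * E K arm s)
    {X : Fin 3 → Matrix ι ι K} (hX : ∀ s, Skw J (X s)) (F F' : Matrix ι δ K) :
    pair J B (act arm X F) F' = - pair J B F (act arm X F') := by
  have h1 : ∀ (T : Finset (Fin 3)), pair J B (∑ s ∈ T, X s * F * E K arm s) F'
      = ∑ s ∈ T, pair J B (X s * F * E K arm s) F' := by
    intro T
    induction T using Finset.induction_on with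
    | empty => simp [pair_zero_left]
    | insert a T ha ih => rw [Finset.sum_insert ha, Finset.sum_insert ha, pair_add_left, ih]
  have h2 : ∀ (T : Finset (Fin 3)), pair J B F (∑ s ∈ T, X s * F' * E K arm s)
      = ∑ s ∈ T, pair J B F (X s * F' * E K arm s) := by
    intro T
    induction T using Finset.induction_on with
    | empty => simp [pair_zero_right]
    | insert a T ha ih => rw [Finset.sum_insert ha, Finset.sum_insert ha, pair_add_right, ih]
  unfold act
  rw [h1, h2, ← Finset.sum_neg_distrib]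
  refine Finset.sum_congr rfl fun s _ => ?_
  rw [pair_E hBE, pair_skw (hX s), Matrix.mul_assoc]

/-- `S ⊗ U ⊥ S^⊥ ⊗ U` -/
theorem pair_S {g F : Matrix ι δ K} (hF : gᵀ * J * F = 0) (C : Matrix δ δ K) :
    pair J B (g * C) F = 0 := by
  unfold pair
  rw [transpose_mul, Matrix.mul_assoc Cᵀ, Matrix.mul_assoc Cᵀ, hF, Matrix.mul_zero,
    Matrix.zero_mul, trace_zero]

/-- the pairing detects `gᵀ J F` -/
theorem perp_of_pair (hBu : IsUnit B) {g F : Matrix ι δ K}
    (h : ∀ C : Matrix δ δ K, pair J B (g * C) F = 0) : gᵀ * J * F = 0 := by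
  obtain ⟨Bi, hBi⟩ := hBu.exists_right_inv
  have h1 : gᵀ * J * F * B = 0 := by
    ext i j
    have h2 := h (Matrix.single i j 1)
    unfold pair at h2
    rw [transpose_mul, transpose_single, Matrix.mul_assoc (Matrix.single j i 1),
      Matrix.mul_assoc (Matrix.single j i 1), Matrix.mul_assoc (Matrix.single j i 1),
      trace_single_mul, one_smul] at h2
    exact h2
  calc gᵀ * J * F = gᵀ * J * F * B * Bi := by rw [Matrix.mul_assoc _ B, hBi, Matrix.mul_one]
    _ = 0 := by rw [h1, Matrix.zero_mul]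

end pair

/-- `X` in `⊕ stab(E_s)`: the family `X` preserves `N`. -/
structure Stb (arm : δ → Fin 3) (J : Matrix ι ι K) (N : Submodule K (Matrix ι δ K))
    (X : Fin 3 → Matrix ι ι K) : Prop where
  skw : ∀ s, Skw J (X s)
  pres : ∀ F ∈ N, act arm X F ∈ N

theorem act_add_left (arm : δ → Fin 3) (X Y : Fin 3 → Matrix ι ι K) (F : Matrix ι δ K) :
    act arm (fun s => X s + Y s) F = act arm X F + act arm Y F := by
  simp [act, Matrix.add_mul, Finset.sum_add_distrib]

theorem act_sub_left (arm : δ → Fin 3) (X Y : Fin 3 → Matrix ι ι K) (F : Matrix ι δ K) :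
    act arm (fun s => X s - Y s) F = act arm X F - act arm Y F := by
  simp [act, Matrix.sub_mul, Finset.sum_sub_distrib]

theorem act_neg_left (arm : δ → Fin 3) (X : Fin 3 → Matrix ι ι K) (F : Matrix ι δ K) :
    act arm (fun s => - X s) F = - act arm X F := by
  simp [act]

theorem act_smul_left (arm : δ → Fin 3) (t : K) (X : Fin 3 → Matrix ι ι K) (F : Matrix ι δ K) :
    act arm (fun s => t • X s) F = t • act arm X F := by
  simp [act, Finset.smul_sum]

theorem act_add_right (arm : δ → Fin 3) (X : Fin 3 → Matrix ι ι K) (F F' : Matrix ι δ K) :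
    act arm X (F + F') = act arm X F + act arm X F' := by
  simp [act, Matrix.add_mul, Matrix.mul_add, Finset.sum_add_distrib]

theorem act_sub_right (arm : δ → Fin 3) (X : Fin 3 → Matrix ι ι K) (F F' : Matrix ι δ K) :
    act arm X (F - F') = act arm X F - act arm X F' := by
  simp [act, Matrix.sub_mul, Matrix.mul_sub, Finset.sum_sub_distrib]

theorem act_const (arm : δ → Fin 3) (X : Matrix ι ι K) (F : Matrix ι δ K) :
    act arm (fun _ => X) F = X * F := by
  unfold act
  rw [← Matrix.mul_sum, sum_E, Matrix.mul_one]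

theorem act_mul_const (arm : δ → Fin 3) (X : Fin 3 → Matrix ι ι K) (F : Matrix ι δ K)
    {C : Fin 3 → Matrix δ δ K} {g : Matrix ι δ K} (h : ∀ s, X s * F = g * C s) :
    act arm X F = g * ∑ s, C s * E K arm s := by
  unfold act
  rw [Matrix.mul_sum]
  refine Finset.sum_congr rfl fun s _ => ?_
  rw [h, Matrix.mul_assoc]

/-- product of actions -/
theorem act_act' (arm : δ → Fin 3) (X Y : Fin 3 → Matrix ι ι K) (F : Matrix ι δ K) :
    act arm X (act arm Y F) = act arm (fun s => X s * Y s) F := by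
  conv_lhs => unfold act
  conv_rhs => unfold act
  refine Finset.sum_congr rfl fun s _ => ?_
  rw [Matrix.mul_assoc (X s)]
  have : (∑ t, Y t * F * E K arm t) * E K arm s = Y s * F * E K arm s := act_mul_E arm Y F s
  rw [this]
  simp only [Matrix.mul_assoc]

/-- **The context**: an isotropic element `g ∈ 𝒦`, perpendicular to `𝒦`. -/
structure Ctx (k : Type*) {K : Type*} [Field k] [Field K] [Algebra k K] (arm : δ → Fin 3)
    (J : Matrix ι ι K) (B : Matrix δ δ K) (N W : Submodule K (Matrix ι δ K))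
    (g : Matrix ι δ K) : Prop where
  data : Data k arm J B N W
  memN : g ∈ N
  memW : g ∈ W
  perp : ∀ f ∈ N ⊓ W, gᵀ * J * f = 0
  frame : ∀ d : Derivation k K K, ∃ Y : Fin 3 → Matrix ι ι K, (∀ s, Skw J (Y s)) ∧
    (∀ F ∈ N, F.map d - act arm Y F ∈ N) ∧ ∀ s, ∃ C : Matrix δ δ K, g.map d - Y s * g = g * C
  lemN : ∀ ν ∈ N, ∀ a ∈ W, gᵀ * J * a = gᵀ * J * ν → (gᵀ * J * a)ᵀ = gᵀ * J * a →
    (∀ s, gᵀ * J * a * (E K arm s * B) * (gᵀ * J * a) = 0) → gᵀ * J * a = 0

section NNsec

variable (arm : δ → Fin 3) (J : Matrix ι ι K) (B : Matrix δ δ K)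
  (N W : Submodule K (Matrix ι δ K)) (g : Matrix ι δ K)

/-- `H⁰(so(V)/p_S)`, with all choices of local lifts. -/
def NN : Submodule K (Matrix ι ι K × (Fin 3 → Matrix ι ι K)) where
  carrier := {p | Skw J p.1 ∧ Stb arm J N p.2 ∧
    ∀ s, ∃ C : Matrix δ δ K, (p.1 - p.2 s) * g = g * C}
  zero_mem' := ⟨Skw.zero, ⟨fun _ => Skw.zero, fun F _ => by
    rw [show act arm (0 : Matrix ι ι K × (Fin 3 → Matrix ι ι K)).2 F = 0 from act_zero arm F]
    exact N.zero_mem⟩, fun s => ⟨0, by simp⟩⟩
  add_mem' := by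
    rintro p q ⟨h1, h2, h3⟩ ⟨h1', h2', h3'⟩
    refine ⟨h1.add h1', ⟨fun s => (h2.skw s).add (h2'.skw s), fun F hF => ?_⟩, fun s => ?_⟩
    · have : act arm (p + q).2 F = act arm p.2 F + act arm q.2 F := act_add_left arm p.2 q.2 F
      rw [this]
      exact N.add_mem (h2.pres F hF) (h2'.pres F hF)
    · obtain ⟨C, hC⟩ := h3 s
      obtain ⟨C', hC'⟩ := h3' s
      refine ⟨C + C', ?_⟩
      rw [Matrix.mul_add, ← hC, ← hC', ← Matrix.add_mul]
      congr 1
      simp only [Prod.fst_add, Prod.snd_add, Pi.add_apply]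
      abel
  smul_mem' := by
    rintro t p ⟨h1, h2, h3⟩
    refine ⟨h1.smul t, ⟨fun s => (h2.skw s).smul t, fun F hF => ?_⟩, fun s => ?_⟩
    · have : act arm (t • p).2 F = t • act arm p.2 F := act_smul_left arm t p.2 F
      rw [this]
      exact N.smul_mem t (h2.pres F hF)
    · obtain ⟨C, hC⟩ := h3 s
      refine ⟨t • C, ?_⟩
      rw [Matrix.mul_smul, ← hC, ← Matrix.smul_mul]
      congr 1
      simp only [Prod.smul_fst, Prod.smul_snd, Pi.smul_apply, smul_sub]

variable {arm J B N W g}

theorem mem_NN {p : Matrix ι ι K × (Fin 3 → Matrix ι ι K)} : p ∈ NN arm J N g ↔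
    Skw J p.1 ∧ Stb arm J N p.2 ∧ ∀ s, ∃ C : Matrix δ δ K, (p.1 - p.2 s) * g = g * C := Iff.rfl

/-- the `S ⊗ U`-part `P g` of `p ∈ NN` -/
def Pg (arm : δ → Fin 3) (g : Matrix ι δ K) (p : Matrix ι ι K × (Fin 3 → Matrix ι ι K)) :
    Matrix ι δ K := p.1 * g - act arm p.2 g

theorem Pg_eq (p : Matrix ι ι K × (Fin 3 → Matrix ι ι K)) :
    Pg arm g p = act arm (fun s => p.1 - p.2 s) g := by
  rw [act_sub_left, act_const]; rfl

theorem Pg_InS {p : Matrix ι ι K × (Fin 3 → Matrix ι ι K)} (hp : p ∈ NN arm J N g) :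
    ∃ C : Matrix δ δ K, Pg arm g p = g * C := by
  choose C hC using hp.2.2
  exact ⟨_, by rw [Pg_eq, act_mul_const arm _ g hC]⟩

/-- the functional `p' ↦ ⟨P' g, ν⟩` on `NN` -/
def fn (arm : δ → Fin 3) (J : Matrix ι ι K) (B : Matrix δ δ K) (N : Submodule K (Matrix ι δ K))
    (g : Matrix ι δ K) : Matrix ι δ K →ₗ[K] Dual K (NN arm J N g) where
  toFun ν :=
    { toFun := fun p => pair J B (Pg arm g p.1) ν
      map_add' := by
        intro p q
        have : Pg arm g (p + q).1 = Pg arm g p.1 + Pg arm g q.1 := by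
          unfold Pg
          rw [show ((p + q).1 : Matrix ι ι K × (Fin 3 → Matrix ι ι K)).2 = fun s => p.1.2 s + q.1.2 s
            from rfl, act_add_left, show ((p + q).1 : Matrix ι ι K × (Fin 3 → Matrix ι ι K)).1
            = p.1.1 + q.1.1 from rfl, Matrix.add_mul]
          abel
        rw [this, pair_add_left]
      map_smul' := by
        intro t p
        have : Pg arm g (t • p).1 = t • Pg arm g p.1 := by
          unfold Pg
          rw [show ((t • p).1 : Matrix ι ι K × (Fin 3 → Matrix ι ι K)).2 = fun s => t • p.1.2 s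
            from rfl, act_smul_left, show ((t • p).1 : Matrix ι ι K × (Fin 3 → Matrix ι ι K)).1
            = t • p.1.1 from rfl, Matrix.smul_mul, smul_sub]
        rw [this, pair_smul_left, RingHom.id_apply, smul_eq_mul] }
  map_add' := by
    intro a b
    ext p
    exact pair_add_right _ _ _
  map_smul' := by
    intro t a
    ext p
    exact pair_smul_right _ _ _

theorem fn_apply (ν : Matrix ι δ K) (p : NN arm J N g) :
    fn arm J B N g ν p = pair J B (Pg arm g p.1) ν := rfl

end NNsec

/-- a functional killing the radical of a skew form is represented. -/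
theorem rep_of_skew {P : Type*} [AddCommGroup P] [Module K P] [FiniteDimensional K P]
    (w : P →ₗ[K] Dual K P) (hw : ∀ p p', w p p' = - w p' p) (l : Dual K P)
    (hl : ∀ p, w p = 0 → l p = 0) : ∃ p, w p = l := by
  have h1 : LinearMap.range w ≤ (LinearMap.ker w).dualAnnihilator := by
    rintro _ ⟨p, rfl⟩
    rw [Submodule.mem_dualAnnihilator]
    intro q hq
    rw [hw, LinearMap.mem_ker.1 hq, LinearMap.zero_apply, neg_zero]
  have h2 : LinearMap.range w = (LinearMap.ker w).dualAnnihilator := by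
    apply Submodule.eq_of_le_of_finrank_eq h1
    have h3 := LinearMap.finrank_range_add_finrank_ker w
    have h4 := Subspace.finrank_add_finrank_dualAnnihilator_eq (LinearMap.ker w)
    omega
  have h5 : l ∈ (LinearMap.ker w).dualAnnihilator := by
    rw [Submodule.mem_dualAnnihilator]
    intro q hq
    exact hl q (LinearMap.mem_ker.1 hq)
  rw [← h2] at h5
  exact h5

end Crest.Agent.R172.Qt
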