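import Crest.Agent.R172.Qt1

/-!
Row 172 (S0260), node G1.1 (Q-theory), part 2: the main facts.

* `Ctx.onto`   : `NN g → H¹(S)` is onto (dual form);
* `Ctx.lift`   : an element of `H⁰(S^*)` perpendicular to `δ(NN₁ g)` is of the form `X₀ g`;
* `Ctx.tf`, `Ctx.tf_zero` : `X₀ f ≡ T_f(φ) g`, and `X₀ f ≡ 0` if `φ = 0`;
* `Ctx.h1`     : `H¹(S^* ⊗ V')^* = {M_s zᵀ}` (dual form);
* `Ctx.KV`     : `K(V') = F + E₁ g`.
-/

set_option autoImplicit false
set_option linter.unusedSectionVars false
set_option linter.unusedFintypeInType false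
set_option linter.unusedDecidableInType false

namespace Crest.Agent.R172.Qt

open Matrix Module Crest.Agent.R172.FO

variable {ι : Type*} [Fintype ι] [DecidableEq ι] {δ : Type*} [Fintype δ] [DecidableEq δ]
variable {k K : Type*} [Field k] [Field K] [Algebra k K]
variable {arm : δ → Fin 3} {J : Matrix ι ι K} {B : Matrix δ δ K}
  {N W : Submodule K (Matrix ι δ K)} {g : Matrix ι δ K}

theorem trace_right {α β : Type*} [Fintype α] [DecidableEq α] [Fintype β] [DecidableEq β]
    (A : Matrix α β K) (h : ∀ C : Matrix β α K, trace (C * A) = 0) : A = 0 := by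
  ext i j
  have h1 := h (Matrix.single j i 1)
  rw [trace_single_mul, one_smul] at h1
  exact h1

theorem pair_W (hD : Data k arm J B N W) {a b : Matrix ι δ K} (ha : a ∈ W) (hb : b ∈ W) :
    pair J B a b = 0 := by
  unfold pair
  rw [Matrix.mul_assoc, Matrix.mul_assoc, trace_mul_comm, Matrix.mul_assoc, hD.W_iso b hb a ha,
    Matrix.mul_zero, trace_zero]

theorem Ctx.mem (h : Ctx k arm J B N W g) : g ∈ N ⊓ W := ⟨h.memN, h.memW⟩

theorem Ctx.iso (h : Ctx k arm J B N W g) : gᵀ * J * g = 0 := h.perp g h.mem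

theorem gJ_const (h : Ctx k arm J B N W g) (d : Derivation k K K) : J.map d = 0 := h.data.J_const d

/-- `g u ∈ W` -/
theorem Ctx.W_mul (h : Ctx k arm J B N W g) (X : Matrix ι ι K) {a : Matrix ι δ K} (ha : a ∈ W) :
    X * a ∈ W := h.data.W_left a ha X

/-- The element of `NN` of a derivation realising `(X, ξ)`, `X ∈ p_S`. -/
theorem mem_NN_of_frame {d : Derivation k K K} {X Y : Fin 3 → Matrix ι ι K} {ξ : Matrix δ δ K}
    (hX : ∀ s, Skw J (X s)) (hXS : ∀ s, ∃ C : Matrix δ δ K, X s * g = g * C)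
    (hR : Realises arm N W X ξ d) (hY : ∀ s, Skw J (Y s))
    (hYN : ∀ F ∈ N, F.map d - act arm Y F ∈ N)
    (hYg : ∀ s, ∃ C : Matrix δ δ K, g.map d - Y s * g = g * C) :
    (Y 0, fun s => Y s - X s) ∈ NN arm J N g := by
  refine ⟨hY 0, ⟨fun s => (hY s).sub (hX s), fun F hF => ?_⟩, fun s => ?_⟩
  · have h1 : act arm (fun s => Y s - X s) F
        = (F.map d - act arm X F) - (F.map d - act arm Y F) := by
      rw [act_sub_left]; abel
    change act arm (fun s => Y s - X s) F ∈ N
    rw [h1]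
    exact N.sub_mem (hR.onN F hF) (hYN F hF)
  · obtain ⟨C0, hC0⟩ := hYg 0
    obtain ⟨C1, hC1⟩ := hYg s
    obtain ⟨C2, hC2⟩ := hXS s
    refine ⟨C1 - C0 + C2, ?_⟩
    change (Y 0 - (Y s - X s)) * g = _
    rw [Matrix.mul_add, Matrix.mul_sub, ← hC0, ← hC1, ← hC2, Matrix.sub_mul, Matrix.sub_mul]
    abel

theorem Ctx.onto (h : Ctx k arm J B N W g) {a ν : Matrix ι δ K} (ha : a ∈ W) (hν : ν ∈ N)
    (haν : gᵀ * J * a = gᵀ * J * ν) (hq : fn arm J B N g ν = 0) : gᵀ * J * a = 0 := by
  have hD := h.data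
  have hperp : gᵀ * J * (a - ν) = 0 := by rw [Matrix.mul_sub, haν, sub_self]
  obtain ⟨Bi, hBi⟩ := hD.B_unit.exists_right_inv
  have hBi' : Bi * B = 1 := by
    rw [mul_eq_one_comm] at hBi; exact hBi
  have hBit : Biᵀ = Bi := by
    have h0 : B * Biᵀ = 1 := by
      have := congrArg transpose hBi'
      rw [transpose_mul, transpose_one, hD.B_symm] at this
      exact this
    calc Biᵀ = (Bi * B) * Biᵀ := by rw [hBi', Matrix.one_mul]
      _ = Bi := by rw [Matrix.mul_assoc, h0, Matrix.mul_one]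
  obtain ⟨Ji, hJi⟩ := hD.J_unit.exists_right_inv
  have hJi' : Ji * J = 1 := by
    rw [mul_eq_one_comm] at hJi; exact hJi
  have hJit : Jiᵀ = Ji := by
    have h0 : J * Jiᵀ = 1 := by
      have := congrArg transpose hJi'
      rw [transpose_mul, transpose_one, hD.J_symm] at this
      exact this
    calc Jiᵀ = (Ji * J) * Jiᵀ := by rw [hJi', Matrix.one_mul]
      _ = Ji := by rw [Matrix.mul_assoc, h0, Matrix.mul_one]
  -- Step A: `gᵀ J a` is symmetric
  have hsymm : (gᵀ * J * a)ᵀ = gᵀ * J * a := by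
    apply symm_of_trace_skew
    intro G hG
    obtain ⟨d, hd⟩ := hD.dir 0 (Bi * G) (by intro s; simp) (by
      rw [transpose_mul, hG, hBit, Matrix.neg_mul, Matrix.neg_mul, Matrix.mul_assoc, hBi',
        Matrix.mul_one, ← Matrix.mul_assoc, hBi, Matrix.one_mul, neg_add_cancel])
    obtain ⟨Y, hY, hYN, hYg⟩ := h.frame d
    have hp : (Y 0, fun s => Y s - (0 : Fin 3 → Matrix ι ι K) s) ∈ NN arm J N g :=
      mem_NN_of_frame (X := 0) (fun s => Skw.zero) (fun s => ⟨0, by simp⟩) hd hY hYN hYg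
    have hfn : pair J B (Pg arm g (Y 0, fun s => Y s - (0 : Fin 3 → Matrix ι ι K) s)) ν = 0 :=
      LinearMap.congr_fun hq ⟨_, hp⟩
    have hst := (mem_NN.1 hp).2.1.pres g h.memN
    obtain ⟨C0, hC0⟩ := hYg 0
    have h1 : pair J B (g.map d - Y 0 * g) (a - ν) = 0 := by rw [hC0]; exact pair_S hperp C0
    have h2 : pair J B (g.map d) ν = 0 := by
      have h3 := hd.onN g h.memN
      rw [act_zero, sub_zero] at h3
      exact hD.N_iso _ h3 _ hν
    have h4 : pair J B (act arm (fun s => Y s - (0 : Fin 3 → Matrix ι ι K) s) g) ν = 0 :=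
      hD.N_iso _ hst _ hν
    have h5 : pair J B (Y 0 * g) ν = 0 := by
      have : Y 0 * g = Pg arm g (Y 0, fun s => Y s - (0 : Fin 3 → Matrix ι ι K) s)
          + act arm (fun s => Y s - (0 : Fin 3 → Matrix ι ι K) s) g := by
        unfold Pg; abel
      rw [this, pair_add_left, hfn, h4, add_zero]
    have h6 : pair J B (Y 0 * g) a = 0 := pair_W hD (h.W_mul _ h.memW) ha
    have h7 : pair J B (g.map d) a = 0 := by
      rw [pair_sub_right, pair_sub_left, pair_sub_left, h2, h5, h6] at h1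
      simpa using h1
    have h8 : pair J B (g.map d - g * (Bi * G)ᵀ) a = 0 := pair_W hD (hd.onW g h.memW) ha
    rw [pair_sub_left, h7, zero_sub, neg_eq_zero] at h8
    unfold pair at h8
    rw [transpose_mul, transpose_transpose] at h8
    have h9 : Bi * G * gᵀ * J * a * B = Bi * (G * (gᵀ * J * a) * B) := by
      simp only [Matrix.mul_assoc]
    rw [h9, trace_mul_comm, Matrix.mul_assoc, hBi, Matrix.mul_one] at h8
    exact h8
  -- Step B: `gᵀ J ν E_s B gᵀ = 0`
  have hzero : ∀ s, gᵀ * J * ν * (E K arm s * B) * gᵀ = 0 := by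
    intro s
    apply trace_right
    intro A
    have hAt : ∀ (A : Matrix δ ι K), Skw J (g * A - Ji * (g * A)ᵀ * J) := by
      intro A
      generalize g * A = Z
      unfold Skw
      have e1 : (Ji * Zᵀ * J)ᵀ = J * Z * Ji := by
        rw [transpose_mul, transpose_mul, transpose_transpose, hJit, hD.J_symm, Matrix.mul_assoc]
      have e2 : J * Z * Ji * J = J * Z := by rw [Matrix.mul_assoc, hJi', Matrix.mul_one]
      have e3 : J * (Ji * Zᵀ * J) = Zᵀ * J := by
        rw [← Matrix.mul_assoc, ← Matrix.mul_assoc, hJi, Matrix.one_mul]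
      rw [transpose_sub, e1, Matrix.mul_sub, e3, Matrix.sub_mul, e2]
      abel
    have hSA : ∀ (A : Matrix δ ι K), (g * A - Ji * (g * A)ᵀ * J) * g = g * (A * g) := by
      intro A
      rw [Matrix.sub_mul, transpose_mul]
      have : Ji * (Aᵀ * gᵀ) * J * g = Ji * Aᵀ * (gᵀ * J * g) := by
        simp only [Matrix.mul_assoc]
      rw [this, h.iso, Matrix.mul_zero, sub_zero, Matrix.mul_assoc]
    -- the family supported on the arm `s`
    have key : pair J B (g * (Aᵀ * g) * E K arm s) ν = 0 := by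
      set P : Matrix ι ι K := g * Aᵀ - Ji * (g * Aᵀ)ᵀ * J with hP
      have hPs : Skw J P := hAt Aᵀ
      have hPg : P * g = g * (Aᵀ * g) := hSA Aᵀ
      let X : Fin 3 → Matrix ι ι K := fun t => if t = s then P else 0
      have hX : ∀ t, Skw J (X t) := by
        intro t
        by_cases ht : t = s
        · simp only [X, ht, if_true]; exact hPs
        · simp only [X, ht, if_false]; exact Skw.zero
      have hXS : ∀ t, ∃ C : Matrix δ δ K, X t * g = g * C := by
        intro t
        by_cases ht : t = s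
        · exact ⟨Aᵀ * g, by simp only [X, ht, if_true]; exact hPg⟩
        · exact ⟨0, by simp only [X, ht, if_false]; simp⟩
      have hXg : act arm X g = g * (Aᵀ * g) * E K arm s := by
        unfold act
        rw [Finset.sum_eq_single s]
        · simp only [X, if_true]; rw [hPg]
        · intro t _ ht; simp only [X, ht, if_false]; simp
        · intro h'; exact absurd (Finset.mem_univ s) h'
      obtain ⟨d, hd⟩ := hD.dir X 0 hX (by simp)
      obtain ⟨Y, hY, hYN, hYg⟩ := h.frame d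
      have hp : (Y 0, fun s => Y s - X s) ∈ NN arm J N g :=
        mem_NN_of_frame hX hXS hd hY hYN hYg
      have hfn : pair J B (Pg arm g (Y 0, fun s => Y s - X s)) ν = 0 :=
        LinearMap.congr_fun hq ⟨_, hp⟩
      have hst := (mem_NN.1 hp).2.1.pres g h.memN
      obtain ⟨C0, hC0⟩ := hYg 0
      have h1 : pair J B (g.map d - Y 0 * g) (a - ν) = 0 := by rw [hC0]; exact pair_S hperp C0
      have h4 : pair J B (act arm (fun s => Y s - X s) g) ν = 0 := hD.N_iso _ hst _ hν
      have h5 : pair J B (Y 0 * g) ν = 0 := by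
        have : Y 0 * g = Pg arm g (Y 0, fun s => Y s - X s) + act arm (fun s => Y s - X s) g := by
          unfold Pg; abel
        rw [this, pair_add_left, hfn, h4, add_zero]
      have h6 : pair J B (Y 0 * g) a = 0 := pair_W hD (h.W_mul _ h.memW) ha
      have h7 : pair J B (g.map d) a = 0 := by
        have h8 := hd.onW g h.memW
        rw [transpose_zero, Matrix.mul_zero, sub_zero] at h8
        exact pair_W hD h8 ha
      have h9 : pair J B (g.map d) ν = 0 := by
        rw [pair_sub_right, pair_sub_left, pair_sub_left, h5, h6, h7] at h1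
        simpa using h1
      have h10 : pair J B (g.map d - act arm X g) ν = 0 := hD.N_iso _ (hd.onN g h.memN) _ hν
      rw [pair_sub_left, h9, zero_sub, neg_eq_zero, hXg] at h10
      exact h10
    unfold pair at key
    rw [transpose_mul, transpose_mul, transpose_mul, transpose_transpose, E_transpose] at key
    have h2 : E K arm s * (gᵀ * A * gᵀ) * J * ν * B = (E K arm s * gᵀ) * (A * (gᵀ * J * ν * B)) := by
      simp only [Matrix.mul_assoc]
    rw [h2, trace_mul_comm] at key
    rw [← key]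
    congr 1
    simp only [Matrix.mul_assoc]
    rw [← Matrix.mul_assoc (E K arm s) B, hD.B_arm, Matrix.mul_assoc]
  apply h.lemN ν hν a ha haν hsymm
  intro s
  have : gᵀ * J * a = gᵀ * (J * a) := Matrix.mul_assoc _ _ _
  conv_lhs => rw [haν]
  calc gᵀ * J * ν * (E K arm s * B) * (gᵀ * J * ν)
      = (gᵀ * J * ν * (E K arm s * B) * gᵀ) * (J * ν) := by simp only [Matrix.mul_assoc]
    _ = 0 := by rw [hzero, Matrix.zero_mul]

/-- `gᵀ J (P g) = 0`. -/
theorem Ctx.perp_Pg (h : Ctx k arm J B N W g) {p : Matrix ι ι K × (Fin 3 → Matrix ι ι K)}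
    (hp : p ∈ NN arm J N g) : gᵀ * J * Pg arm g p = 0 := by
  obtain ⟨C, hC⟩ := Pg_InS hp
  rw [hC, ← Matrix.mul_assoc, h.iso, Matrix.zero_mul]

theorem Ctx.pair_Pg_Pg (h : Ctx k arm J B N W g) {p q : Matrix ι ι K × (Fin 3 → Matrix ι ι K)}
    (hp : p ∈ NN arm J N g) (hq : q ∈ NN arm J N g) :
    pair J B (Pg arm g p) (Pg arm g q) = 0 := by
  obtain ⟨C, hC⟩ := Pg_InS hp
  rw [hC]
  exact pair_S (h.perp_Pg hq) C

theorem Ctx.pair_N (h : Ctx k arm J B N W g) {a b : Matrix ι δ K} (ha : a ∈ N) (hb : b ∈ N) :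
    pair J B a b = 0 := h.data.N_iso a ha b hb

theorem Ctx.skew_w (h : Ctx k arm J B N W g) {p q : Matrix ι ι K × (Fin 3 → Matrix ι ι K)}
    (hp : p ∈ NN arm J N g) (hq : q ∈ NN arm J N g) :
    pair J B (Pg arm g q) (act arm p.2 g) = - pair J B (Pg arm g p) (act arm q.2 g) := by
  have hNp := hp.2.1.pres g h.memN
  have hNq := hq.2.1.pres g h.memN
  have h1 : pair J B (Pg arm g q) (act arm p.2 g) = pair J B (q.1 * g) (act arm p.2 g) := by
    have : Pg arm g q = q.1 * g - act arm q.2 g := rfl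
    rw [this, pair_sub_left, h.pair_N hNq hNp, sub_zero]
  have h2 : pair J B (q.1 * g) (act arm p.2 g) = - pair J B (q.1 * g) (Pg arm g p) := by
    have : act arm p.2 g = p.1 * g - Pg arm g p := by unfold Pg; abel
    rw [this, pair_sub_right, pair_W h.data (h.W_mul _ h.memW) (h.W_mul _ h.memW), zero_sub]
  have h3 : pair J B (Pg arm g p) (act arm q.2 g) = pair J B (Pg arm g p) (q.1 * g) := by
    have : act arm q.2 g = q.1 * g - Pg arm g q := by unfold Pg; abel
    rw [this, pair_sub_right, h.pair_Pg_Pg hp hq, sub_zero]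
  rw [h1, h2, h3, pair_comm h.data.J_symm h.data.B_symm]

/-- Elements of `H⁰(S^*)` perpendicular to `δ(NN₁ g)` are of the form `X₀ g`. -/
theorem Ctx.lift (h : Ctx k arm J B N W g) {a ν : Matrix ι δ K} (ha : a ∈ W) (hν : ν ∈ N)
    (haν : gᵀ * J * a = gᵀ * J * ν)
    (hq : ∀ p ∈ NN arm J N g, gᵀ * J * (p.1 * g) = 0 → pair J B (Pg arm g p) ν = 0) :
    ∃ p ∈ NN arm J N g, gᵀ * J * a = gᵀ * J * (p.1 * g) := by
  let actg : NN arm J N g →ₗ[K] Matrix ι δ K :=
    { toFun := fun p => act arm p.1.2 g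
      map_add' := fun p q => act_add_left arm p.1.2 q.1.2 g
      map_smul' := fun t p => act_smul_left arm t p.1.2 g }
  let w : NN arm J N g →ₗ[K] Dual K (NN arm J N g) := (fn arm J B N g) ∘ₗ actg
  have hw : ∀ p q, w p q = pair J B (Pg arm g q.1) (act arm p.1.2 g) := fun p q => rfl
  have hg2 : ∀ p ∈ NN arm J N g, gᵀ * J * (p.1 * g) = gᵀ * J * (act arm p.2 g) := by
    intro p hp
    have := h.perp_Pg hp
    unfold Pg at this
    rw [Matrix.mul_sub, sub_eq_zero] at this
    exact this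
  obtain ⟨p, hp⟩ := rep_of_skew w (fun p q => by rw [hw, hw]; exact h.skew_w p.2 q.2)
    (fn arm J B N g ν) (fun p hp => by
      rw [fn_apply]
      apply hq p.1 p.2
      exact h.onto (h.W_mul _ h.memW) (p.2.2.1.pres g h.memN) (hg2 p.1 p.2) hp)
  refine ⟨p.1, p.2, ?_⟩
  have h1 : fn arm J B N g (ν - act arm p.1.2 g) = 0 := by
    rw [map_sub, sub_eq_zero]
    exact hp.symm
  have h2 := h.onto (a := a - p.1.1 * g) (W.sub_mem ha (h.W_mul _ h.memW))
    (N.sub_mem hν (p.2.2.1.pres g h.memN)) (by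
      rw [Matrix.mul_sub, Matrix.mul_sub, haν, hg2 p.1 p.2]) h1
  rw [Matrix.mul_sub, sub_eq_zero] at h2
  exact h2

/-- a pseudo-inverse -/
theorem exists_pinv (g : Matrix ι δ K) : ∃ G : Matrix δ ι K, g * G * g = g := by
  obtain ⟨r, hr⟩ := (Matrix.toLin' g).rangeRestrict.exists_rightInverse_of_surjective
    (LinearMap.range_rangeRestrict _)
  obtain ⟨r', hr'⟩ := r.exists_extend
  refine ⟨LinearMap.toMatrix' r', ?_⟩
  have h1 : Matrix.toLin' (g * LinearMap.toMatrix' r' * g) = Matrix.toLin' g := by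
    rw [Matrix.toLin'_mul, Matrix.toLin'_mul, Matrix.toLin'_toMatrix']
    refine LinearMap.ext fun v => ?_
    rw [LinearMap.comp_apply, LinearMap.comp_apply]
    have h2 := LinearMap.congr_fun hr' ((Matrix.toLin' g).rangeRestrict v)
    rw [LinearMap.comp_apply, Submodule.subtype_apply, LinearMap.codRestrict_apply] at h2
    have h3 := LinearMap.congr_fun hr ((Matrix.toLin' g).rangeRestrict v)
    rw [LinearMap.comp_apply, LinearMap.id_apply] at h3
    have h4 := congrArg Subtype.val h3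
    rw [LinearMap.codRestrict_apply, LinearMap.codRestrict_apply, ← h2] at h4
    exact h4
  exact Matrix.toLin'.injective h1

/-- `M_s(f,g) ∈ S ⊗ S` -/
theorem Ctx.psi_SS (h : Ctx k arm J B N W g) {f : Matrix ι δ K} (hf : f ∈ N ⊓ W) (s : Fin 3) :
    ∃ D : Matrix δ δ K, f * E K arm s * B * gᵀ = g * D * gᵀ := by
  obtain ⟨G, hG⟩ := exists_pinv g
  refine ⟨G * (f * E K arm s * B * gᵀ) * Gᵀ, ?_⟩
  have h2 : f * E K arm s * B * gᵀ = g * E K arm s * B * fᵀ := h.data.symm_arm hf h.mem s
  have h3 : g * G * (f * E K arm s * B * gᵀ) = f * E K arm s * B * gᵀ := by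
    rw [h2]
    calc g * G * (g * E K arm s * B * fᵀ) = (g * G * g) * E K arm s * B * fᵀ := by
          simp only [Matrix.mul_assoc]
      _ = _ := by rw [hG]
  have h4 : (f * E K arm s * B * gᵀ) * (Gᵀ * gᵀ) = f * E K arm s * B * gᵀ := by
    have : gᵀ * (Gᵀ * gᵀ) = gᵀ := by
      rw [← transpose_mul, ← transpose_mul, hG]
    rw [Matrix.mul_assoc (f * E K arm s * B), this]
  calc f * E K arm s * B * gᵀ = (g * G * (f * E K arm s * B * gᵀ)) * (Gᵀ * gᵀ) := by rw [h3, h4]
    _ = _ := by simp only [Matrix.mul_assoc]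

end Crest.Agent.R172.Qt
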