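import Crest.Agent.R172.Qt2

/-!
Row 172 (S0260), node G1.1 (Q-theory), part 3: the operators `T_f`, the dual description of
`H¹(S^* ⊗ V')` and `K(V') = F + E₁ g`.
-/

set_option autoImplicit false
set_option linter.unusedSectionVars false
set_option linter.unusedFintypeInType false
set_option linter.unusedDecidableInType false

namespace Crest.Agent.R172.Qt

open Matrix Module Crest.Agent.R172.FO

variable {ι : Type*} [Fintype ι] [DecidableEq ι] {δ : Type*} [Fintype δ] [DecidableEq δ]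
variable {k K : Type*} [Field k] [Field K] [Algebra k K]
variable {arm : δ → Fin 3} {J : Matrix ι ι K} {B : Matrix δ δ K}
  {N W : Submodule K (Matrix ι δ K)} {g : Matrix ι δ K}

/-- `S^⊥` is stable under `p_S`. -/
theorem perp_stable {P : Matrix ι ι K} (hP : Skw J P) {C : Matrix δ δ K} (hPg : P * g = g * C)
    {α : Type*} {F : Matrix ι α K} (hF : gᵀ * J * F = 0) : gᵀ * J * (P * F) = 0 := by
  have h1 : gᵀ * J * P = - (Cᵀ * (gᵀ * J)) := by
    calc gᵀ * J * P = - (gᵀ * (Pᵀ * J)) := by rw [hP.eq, Matrix.mul_neg, neg_neg, Matrix.mul_assoc]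
      _ = - ((P * g)ᵀ * J) := by rw [transpose_mul, Matrix.mul_assoc]
      _ = _ := by rw [hPg, transpose_mul, Matrix.mul_assoc]
  rw [← Matrix.mul_assoc, h1, Matrix.neg_mul, Matrix.mul_assoc, hF, Matrix.mul_zero, neg_zero]

/-- `P f ∈ S^⊥ ⊗ U` for `f ∈ S^⊥ ⊗ U` -/
theorem perp_Pf {p : Matrix ι ι K × (Fin 3 → Matrix ι ι K)} (hp : p ∈ NN arm J N g)
    {f : Matrix ι δ K} (hf : gᵀ * J * f = 0) : gᵀ * J * (p.1 * f - act arm p.2 f) = 0 := by
  have h1 : p.1 * f - act arm p.2 f = act arm (fun s => p.1 - p.2 s) f := by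
    rw [act_sub_left, act_const]
  rw [h1]
  unfold act
  rw [Matrix.mul_sum]
  refine Finset.sum_eq_zero fun s _ => ?_
  obtain ⟨C, hC⟩ := hp.2.2 s
  rw [← Matrix.mul_assoc, perp_stable (hp.1.sub (hp.2.1.skw s)) hC hf, Matrix.zero_mul]

theorem Ctx.pair_sum_left (F' : Matrix ι δ K) (T : Fin 3 → Matrix ι δ K) :
    pair J B (∑ s, T s) F' = ∑ s, pair J B (T s) F' := by
  simp only [Fin.sum_univ_three, pair_add_left]

theorem Ctx.pair_sum_right (F' : Matrix ι δ K) (T : Fin 3 → Matrix ι δ K) :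
    pair J B F' (∑ s, T s) = ∑ s, pair J B F' (T s) := by
  simp only [Fin.sum_univ_three, pair_add_right]

/-- `⟨A g, P_s f⟩` only depends on `A|_S mod S^⊥`. -/
theorem Ctx.pair_X_Pf (h : Ctx k arm J B N W g) {f : Matrix ι δ K} (hf : f ∈ N ⊓ W)
    {p : Matrix ι ι K × (Fin 3 → Matrix ι ι K)} (hp : p ∈ NN arm J N g)
    {A : Matrix ι ι K} (hA : Skw J A) (hA0 : gᵀ * J * (A * g) = 0) :
    pair J B (A * g) (p.1 * f - act arm p.2 f) = 0 := by
  have h1 : p.1 * f - act arm p.2 f = act arm (fun s => p.1 - p.2 s) f := by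
    rw [act_sub_left, act_const]
  rw [h1]
  unfold act
  rw [Ctx.pair_sum_right]
  refine Finset.sum_eq_zero fun s _ => ?_
  obtain ⟨C, hC⟩ := hp.2.2 s
  obtain ⟨D, hD⟩ := h.psi_SS hf s
  have hA1 : (A * g)ᵀ * J = - (gᵀ * J * A) := by
    rw [transpose_mul, Matrix.mul_assoc, hA.eq, Matrix.mul_neg, Matrix.mul_assoc]
  unfold pair
  rw [hA1, Matrix.neg_mul, Matrix.neg_mul, trace_neg, neg_eq_zero]
  have h2 : gᵀ * J * A * ((p.1 - p.2 s) * f * E K arm s) * B
      = gᵀ * (J * A * (p.1 - p.2 s) * (f * E K arm s * B)) := by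
    simp only [Matrix.mul_assoc]
  rw [h2, trace_mul_comm]
  have h3 : J * A * (p.1 - p.2 s) * (f * E K arm s * B) * gᵀ
      = J * A * ((p.1 - p.2 s) * g) * (D * gᵀ) := by
    calc J * A * (p.1 - p.2 s) * (f * E K arm s * B) * gᵀ
        = J * A * (p.1 - p.2 s) * (f * E K arm s * B * gᵀ) := by simp only [Matrix.mul_assoc]
      _ = _ := by rw [hD]; simp only [Matrix.mul_assoc]
  rw [h3, hC]
  have h4 : J * A * (g * C) * (D * gᵀ) = (J * (A * g) * (C * D)) * gᵀ := by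
    simp only [Matrix.mul_assoc]
  rw [h4, trace_mul_comm]
  have h5 : gᵀ * (J * (A * g) * (C * D)) = gᵀ * J * (A * g) * (C * D) := by
    simp only [Matrix.mul_assoc]
  rw [h5, hA0, Matrix.zero_mul, trace_zero]

/-- `⟨P_s g, A f⟩` only depends on `A|_S mod S^⊥`. -/
theorem Ctx.pair_Pg_A (h : Ctx k arm J B N W g) {f : Matrix ι δ K} (hf : f ∈ N ⊓ W)
    {p : Matrix ι ι K × (Fin 3 → Matrix ι ι K)} (hp : p ∈ NN arm J N g)
    {A : Matrix ι ι K} (hA0 : gᵀ * J * (A * g) = 0) :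
    pair J B (Pg arm g p) (A * f) = 0 := by
  rw [Pg_eq]
  unfold act
  rw [Ctx.pair_sum_left]
  refine Finset.sum_eq_zero fun s _ => ?_
  obtain ⟨C, hC⟩ := hp.2.2 s
  obtain ⟨D, hD⟩ := h.psi_SS hf s
  rw [hC, pair_E h.data.B_arm]
  unfold pair
  rw [transpose_mul]
  have h2 : Cᵀ * gᵀ * J * (A * f * E K arm s) * B = Cᵀ * (gᵀ * (J * A * (f * E K arm s * B))) := by
    simp only [Matrix.mul_assoc]
  -- trace (Cᵀ gᵀ J A f E B) ; need `gᵀ` at the right: use `P` again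
  have h3 : trace ((g * C)ᵀ * (J * A * (f * E K arm s * B))) = 0 := by
    rw [← hC, transpose_mul]
    have h4 : gᵀ * (p.1 - p.2 s)ᵀ * (J * A * (f * E K arm s * B))
        = gᵀ * ((p.1 - p.2 s)ᵀ * (J * A) * (f * E K arm s * B)) := by
      simp only [Matrix.mul_assoc]
    rw [h4, trace_mul_comm]
    have h5 : (p.1 - p.2 s)ᵀ * (J * A) * (f * E K arm s * B) * gᵀ
        = (p.1 - p.2 s)ᵀ * (J * A) * (g * D * gᵀ) := by
      rw [← hD]; simp only [Matrix.mul_assoc]
    rw [h5]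
    have h6 : (p.1 - p.2 s)ᵀ * (J * A) * (g * D * gᵀ)
        = ((p.1 - p.2 s)ᵀ * (J * (A * g)) * D) * gᵀ := by
      simp only [Matrix.mul_assoc]
    rw [h6, trace_mul_comm]
    have h7 : gᵀ * ((p.1 - p.2 s)ᵀ * (J * (A * g)) * D)
        = ((p.1 - p.2 s) * g)ᵀ * (J * (A * g)) * D := by
      rw [transpose_mul]; simp only [Matrix.mul_assoc]
    rw [h7, hC, transpose_mul]
    have h8 : Cᵀ * gᵀ * (J * (A * g)) * D = Cᵀ * (gᵀ * J * (A * g)) * D := by
      simp only [Matrix.mul_assoc]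
    rw [h8, hA0, Matrix.mul_zero, Matrix.zero_mul, trace_zero]
  rw [h2]
  rw [transpose_mul] at h3
  rw [← h3]
  congr 1
  simp only [Matrix.mul_assoc]

/-- the pairing `⟨P' g, X f⟩ = - ⟨X₀' g, P f⟩` -/
theorem Ctx.pair_Pg_Xf (h : Ctx k arm J B N W g) {f : Matrix ι δ K} (hf : f ∈ N ⊓ W)
    {p q : Matrix ι ι K × (Fin 3 → Matrix ι ι K)} (hp : p ∈ NN arm J N g)
    (hq : q ∈ NN arm J N g) :
    pair J B (Pg arm g q) (act arm p.2 f) = - pair J B (q.1 * g) (p.1 * f - act arm p.2 f) := by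
  have hNp := hp.2.1.pres f hf.1
  have hNq := hq.2.1.pres g h.memN
  have : Pg arm g q = q.1 * g - act arm q.2 g := rfl
  rw [this, pair_sub_left, h.pair_N hNq hNp, sub_zero, pair_sub_right,
    pair_W h.data (h.W_mul _ h.memW) (h.W_mul _ hf.2), zero_sub, neg_neg]

/-- `X₀ f ≡ T_f(φ) g` -/
theorem Ctx.tf (h : Ctx k arm J B N W g) {f : Matrix ι δ K} (hf : f ∈ N ⊓ W)
    {p : Matrix ι ι K × (Fin 3 → Matrix ι ι K)} (hp : p ∈ NN arm J N g) :
    ∃ p' ∈ NN arm J N g, gᵀ * J * (p.1 * f) = gᵀ * J * (p'.1 * g) := by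
  have hfp := h.perp f hf
  refine h.lift (h.W_mul _ hf.2) (hp.2.1.pres f hf.1) ?_ ?_
  · have := perp_Pf hp hfp
    rw [Matrix.mul_sub, sub_eq_zero] at this
    exact this
  · intro q hq hq0
    rw [h.pair_Pg_Xf hf hp hq, h.pair_X_Pf hf hp hq.1 hq0, neg_zero]

/-- `X₀ f ≡ 0 mod S^⊥` if `φ = 0` -/
theorem Ctx.tf_zero (h : Ctx k arm J B N W g) {f : Matrix ι δ K} (hf : f ∈ N ⊓ W)
    {p : Matrix ι ι K × (Fin 3 → Matrix ι ι K)} (hp : p ∈ NN arm J N g)
    (hp0 : gᵀ * J * (p.1 * g) = 0) : gᵀ * J * (p.1 * f) = 0 := by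
  have hfp := h.perp f hf
  have h1 : gᵀ * J * (p.1 * f) = gᵀ * J * (act arm p.2 f) := by
    have := perp_Pf hp hfp
    rw [Matrix.mul_sub, sub_eq_zero] at this
    exact this
  refine h.onto (h.W_mul _ hf.2) (hp.2.1.pres f hf.1) h1 ?_
  refine LinearMap.ext fun q => ?_
  rw [fn_apply, LinearMap.zero_apply]
  -- ⟨Pg, X f⟩ = ⟨Pg, X₀ f⟩
  have h2 : pair J B (Pg arm g q.1) (p.1 * f - act arm p.2 f) = 0 := by
    obtain ⟨C, hC⟩ := Pg_InS q.2
    rw [hC]
    exact pair_S (perp_Pf hp hfp) C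
  rw [pair_sub_right, sub_eq_zero] at h2
  rw [← h2]
  exact h.pair_Pg_A hf q.2 hp0

/-- **`H¹(S^* ⊗ V')^* = {M_s zᵀ}`**, dual form: if the directions `X_s` with `X_s S ⊆ S^⊥` are
perpendicular to `E₁` then they are locally compatible up to a constant. -/
theorem Ctx.h1 (h : Ctx k arm J B N W g) {X : Fin 3 → Matrix ι ι K} (hX : ∀ s, Skw J (X s))
    (hXS : ∀ s, gᵀ * J * (X s * g) = 0)
    (hq : ∀ p ∈ NN arm J N g, gᵀ * J * (p.1 * g) = 0 → pair J B (p.1 * g) (act arm X g) = 0) :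
    ∃ (Z : Matrix ι ι K) (Q : Fin 3 → Matrix ι ι K), Skw J Z ∧ gᵀ * J * (Z * g) = 0 ∧
      Stb arm J N Q ∧ ∀ s, ∃ C : Matrix δ δ K, (Z - X s - Q s) * g = g * C := by
  have hD := h.data
  obtain ⟨d, hd⟩ := hD.dir X 0 hX (by simp)
  obtain ⟨Y, hY, hYN, hYg⟩ := h.frame d
  have haW : g.map d ∈ W := by
    have h8 := hd.onW g h.memW
    rw [transpose_zero, Matrix.mul_zero, sub_zero] at h8
    exact h8
  have hνN : g.map d - act arm X g ∈ N := hd.onN g h.memN
  have hXg : gᵀ * J * act arm X g = 0 := by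
    unfold act
    rw [Matrix.mul_sum]
    refine Finset.sum_eq_zero fun s _ => ?_
    rw [← Matrix.mul_assoc, hXS, Matrix.zero_mul]
  obtain ⟨p, hp, hpe⟩ := h.lift haW hνN (by rw [Matrix.mul_sub, hXg, sub_zero]) (by
    intro q hq' hq0
    have hNq := hq'.2.1.pres g h.memN
    have : Pg arm g q = q.1 * g - act arm q.2 g := rfl
    rw [this, pair_sub_left, h.pair_N hNq hνN, sub_zero, pair_sub_right,
      pair_W hD (h.W_mul _ h.memW) haW, zero_sub, hq q hq' hq0, neg_zero])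
  obtain ⟨C0, hC0⟩ := hYg 0
  refine ⟨Y 0 - p.1, fun s => (Y s - X s) - p.2 s, (hY 0).sub hp.1, ?_, ⟨fun s =>
    ((hY s).sub (hX s)).sub (hp.2.1.skw s), fun F hF => ?_⟩, fun s => ?_⟩
  · have h1 : Y 0 * g = g.map d - g * C0 := by rw [← hC0]; abel
    have h2 : gᵀ * J * (g * C0) = 0 := by rw [← Matrix.mul_assoc, h.iso, Matrix.zero_mul]
    rw [Matrix.sub_mul, h1, Matrix.mul_sub, Matrix.mul_sub, h2, sub_zero, hpe, sub_self]
  · have h1 : act arm (fun s => (Y s - X s) - p.2 s) F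
        = ((F.map d - act arm X F) - (F.map d - act arm Y F)) - act arm p.2 F := by
      rw [act_sub_left arm (fun s => Y s - X s) p.2, act_sub_left]; abel
    rw [h1]
    exact N.sub_mem (N.sub_mem (hd.onN F hF) (hYN F hF)) (hp.2.1.pres F hF)
  · obtain ⟨C1, hC1⟩ := hYg s
    obtain ⟨C2, hC2⟩ := hp.2.2 s
    refine ⟨C1 - C0 - C2, ?_⟩
    rw [Matrix.mul_sub, Matrix.mul_sub, ← hC0, ← hC1, ← hC2]
    simp only [Matrix.sub_mul]
    abel

/-- if `A` is not in a subspace, it is separated by a pairing. -/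
theorem mem_of_pair (hJu : IsUnit J) (hBu : IsUnit B) (Q : Submodule K (Matrix ι δ K))
    (x : Matrix ι δ K)
    (hx : ∀ y : Matrix ι δ K, (∀ z ∈ Q, pair J B z y = 0) → pair J B x y = 0) : x ∈ Q := by
  by_contra hne
  obtain ⟨l, hl, hlQ⟩ := Submodule.exists_dual_map_eq_bot_of_notMem hne inferInstance
  obtain ⟨Bi, hBi⟩ := hBu.exists_right_inv
  have hBi' : Bi * B = 1 := by
    rw [mul_eq_one_comm] at hBi; exact hBi
  obtain ⟨Ji, hJi⟩ := hJu.exists_right_inv
  -- the functional is `pair · y`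
  let y0 : Matrix ι δ K := Matrix.of fun i d => l (Matrix.single i d 1)
  have hrep : ∀ z : Matrix ι δ K, l z = trace (zᵀ * y0) := by
    intro z
    conv_lhs => rw [matrix_eq_sum_single z]
    rw [map_sum]
    have h1 : ∀ i, l (∑ j, single i j (z i j)) = ∑ j, z i j * l (single i j 1) := by
      intro i
      rw [map_sum]
      refine Finset.sum_congr rfl fun j _ => ?_
      have : (single i j (z i j) : Matrix ι δ K) = z i j • single i j 1 := by
        rw [smul_single, smul_eq_mul, mul_one]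
      rw [this, map_smul, smul_eq_mul]
    simp only [h1]
    simp only [trace, diag_apply, mul_apply, transpose_apply, y0, of_apply]
    exact Finset.sum_comm
  have hy : ∀ z : Matrix ι δ K, pair J B z (Ji * y0 * Bi) = l z := by
    intro z
    rw [hrep]
    unfold pair
    congr 1
    calc zᵀ * J * (Ji * y0 * Bi) * B = zᵀ * (J * Ji) * y0 * (Bi * B) := by
          simp only [Matrix.mul_assoc]
      _ = _ := by rw [hJi, hBi', Matrix.mul_one, Matrix.mul_one]
  apply hl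
  rw [← hy]
  apply hx
  intro z hz
  rw [hy]
  have : l z ∈ Submodule.map l Q := ⟨z, hz, rfl⟩
  rw [hlQ] at this
  exact (Submodule.mem_bot K).1 this

/-- **`K(V') = F + E₁ g`.** -/
theorem Ctx.KV (h : Ctx k arm J B N W g)
    (hNm : ∀ F, (∀ F' ∈ N, pair J B F' F = 0) → F ∈ N)
    (hWm : ∀ F, (∀ F' ∈ W, pair J B F' F = 0) → F ∈ W)
    {x ν : Matrix ι δ K} (hx : x ∈ W) (hxS : gᵀ * J * x = 0) (hν : ν ∈ N) {C : Matrix δ δ K}
    (hxν : x = ν + g * C) :
    ∃ f ∈ N ⊓ W, ∃ p ∈ NN arm J N g, gᵀ * J * (p.1 * g) = 0 ∧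
      ∃ C' : Matrix δ δ K, x = f + p.1 * g + g * C' := by
  have hD := h.data
  -- the submodules
  let A1 : Submodule K (Matrix ι δ K) :=
    { carrier := {y | ∃ p ∈ NN arm J N g, gᵀ * J * (p.1 * g) = 0 ∧ y = p.1 * g}
      zero_mem' := ⟨0, (NN arm J N g).zero_mem, by simp, by simp⟩
      add_mem' := by
        rintro _ _ ⟨p, hp, hp0, rfl⟩ ⟨q, hq, hq0, rfl⟩
        refine ⟨p + q, (NN arm J N g).add_mem hp hq, ?_, ?_⟩
        · rw [Prod.fst_add, Matrix.add_mul, Matrix.mul_add, hp0, hq0, add_zero]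
        · rw [Prod.fst_add, Matrix.add_mul]
      smul_mem' := by
        rintro t _ ⟨p, hp, hp0, rfl⟩
        refine ⟨t • p, (NN arm J N g).smul_mem t hp, ?_, ?_⟩
        · rw [Prod.smul_fst, Matrix.smul_mul, Matrix.mul_smul, hp0, smul_zero]
        · rw [Prod.smul_fst, Matrix.smul_mul] }
  let A2 : Submodule K (Matrix ι δ K) :=
    { carrier := {y | ∃ C : Matrix δ δ K, y = g * C}
      zero_mem' := ⟨0, by simp⟩
      add_mem' := by
        rintro _ _ ⟨C, rfl⟩ ⟨C', rfl⟩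
        exact ⟨C + C', by rw [Matrix.mul_add]⟩
      smul_mem' := by
        rintro t _ ⟨C, rfl⟩
        exact ⟨t • C, by rw [Matrix.mul_smul]⟩ }
  have hmem : x ∈ (N ⊓ W) ⊔ A1 ⊔ A2 := by
    refine mem_of_pair hD.J_unit hD.B_unit _ x fun y hy => ?_
    have hyK : ∀ z ∈ N ⊓ W, pair J B z y = 0 := fun z hz =>
      hy z (Submodule.mem_sup_left (Submodule.mem_sup_left hz))
    have hy1 : ∀ z ∈ A1, pair J B z y = 0 := fun z hz =>
      hy z (Submodule.mem_sup_left (Submodule.mem_sup_right hz))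
    have hy2 : ∀ C : Matrix δ δ K, pair J B (g * C) y = 0 := fun C =>
      hy _ (Submodule.mem_sup_right ⟨C, rfl⟩)
    have hyS : gᵀ * J * y = 0 := perp_of_pair hD.B_unit hy2
    -- `y ∈ N + W`
    have hyNW : y ∈ N ⊔ W := by
      refine mem_of_pair hD.J_unit hD.B_unit _ y fun z hz => ?_
      rw [pair_comm hD.J_symm hD.B_symm]
      exact hyK z ⟨hNm z fun F' hF' => hz F' (Submodule.mem_sup_left hF'),
        hWm z fun F' hF' => hz F' (Submodule.mem_sup_right hF')⟩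
    obtain ⟨n, hn, a', ha', rfl⟩ := Submodule.mem_sup.1 hyNW
    obtain ⟨a, rfl⟩ : ∃ a, a' = -a := ⟨-a', by simp⟩
    have ha : a ∈ W := by simpa using W.neg_mem ha'
    have han : gᵀ * J * a = gᵀ * J * n := by
      rw [← sub_eq_add_neg, Matrix.mul_sub, sub_eq_zero] at hyS
      exact hyS.symm
    obtain ⟨p, hp, hpe⟩ := h.lift ha hn han (by
      intro q hq hq0
      have h1 := hy1 (q.1 * g) ⟨q, hq, hq0, rfl⟩
      rw [pair_add_right, pair_neg_right, pair_W hD (h.W_mul _ h.memW) ha, neg_zero,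
        add_zero] at h1
      have : Pg arm g q = q.1 * g - act arm q.2 g := rfl
      rw [this, pair_sub_left, h1, h.pair_N (hq.2.1.pres g h.memN) hn, sub_zero])
    have e1 : pair J B x (n + -a) = pair J B x n := by
      rw [pair_add_right, pair_neg_right, pair_W hD hx ha, neg_zero, add_zero]
    have e2 : pair J B x n = pair J B (g * C) n := by
      rw [hxν, pair_add_left, h.pair_N hν hn, zero_add]
    have e3 : pair J B (g * C) n = pair J B (g * C) (p.1 * g) := by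
      have : pair J B (g * C) (n - p.1 * g) = 0 :=
        pair_S (by rw [Matrix.mul_sub, ← han, hpe, sub_self]) C
      rw [pair_sub_right, sub_eq_zero] at this
      exact this
    have e4 : pair J B (g * C) (p.1 * g) = - pair J B ν (p.1 * g) := by
      have : g * C = x - ν := by rw [hxν]; abel
      rw [this, pair_sub_left, pair_W hD hx (h.W_mul _ h.memW), zero_sub]
    have e5 : pair J B ν (p.1 * g) = pair J B ν (Pg arm g p) := by
      have : p.1 * g = Pg arm g p + act arm p.2 g := by unfold Pg; abel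
      rw [this, pair_add_right, h.pair_N hν (hp.2.1.pres g h.memN), add_zero]
    have e6 : pair J B ν (Pg arm g p) = 0 := by
      have h1 : ν = x - g * C := by rw [hxν]; abel
      rw [h1, pair_sub_left, pair_S (h.perp_Pg hp), sub_zero, pair_comm hD.J_symm hD.B_symm]
      obtain ⟨C', hC'⟩ := Pg_InS hp
      rw [hC']
      exact pair_S hxS C'
    rw [e1, e2, e3, e4, e5, e6, neg_zero]
  obtain ⟨y, hy, z, ⟨C', rfl⟩, hz⟩ := Submodule.mem_sup.1 hmem
  obtain ⟨f, hf, u, ⟨p, hp, hp0, rfl⟩, hu⟩ := Submodule.mem_sup.1 hy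
  exact ⟨f, hf, p, hp, hp0, C', by rw [← hz, ← hu]⟩

end Crest.Agent.R172.Qt
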