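import Crest.Agent.R172.Qt4

/-!
Row 172 (S0260), node G1.2, part 1: the duality lemma
`{(N_s) ∈ nil_s(S ⊗ V'), Σ N_s = 0} = {(M_s zᵀ)}`.
-/

set_option autoImplicit false
set_option linter.unusedSectionVars false
set_option linter.unusedFintypeInType false
set_option linter.unusedDecidableInType false

namespace Crest.Agent.R172.Qt

open Matrix Module Crest.Agent.R172.FO

variable {ι : Type*} [Fintype ι] [DecidableEq ι] {δ : Type*} [Fintype δ] [DecidableEq δ]
variable {k K : Type*} [Field k] [Field K] [Algebra k K]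
variable {arm : δ → Fin 3} {J : Matrix ι ι K} {B : Matrix δ δ K}
  {N W : Submodule K (Matrix ι δ K)} {g : Matrix ι δ K}

theorem gJR {R : Matrix ι ι K} (hR : Skw J R) (hRg : R * g = 0) : gᵀ * J * R = 0 := by
  have h1 : gᵀ * J * R = - ((R * g)ᵀ * J) := by
    rw [transpose_mul, Matrix.mul_assoc gᵀ, Matrix.mul_assoc gᵀ, hR.eq, Matrix.mul_neg, neg_neg]
  rw [h1, hRg, transpose_zero, Matrix.zero_mul, neg_zero]

/-- projector on `S^⊥` -/
theorem exists_proj (hJu : IsUnit J) (g : Matrix ι δ K) : ∃ Q : Matrix ι ι K, gᵀ * J * Q = 0 ∧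
    ∀ {α : Type} (F : Matrix ι α K), gᵀ * J * F = 0 → Q * F = F := by
  obtain ⟨G, hG⟩ := exists_pinv g
  obtain ⟨Ji, hJi⟩ := hJu.exists_right_inv
  refine ⟨1 - Ji * (Gᵀ * (gᵀ * J)), ?_, fun F hF => ?_⟩
  · have h1 : gᵀ * J * (Ji * (Gᵀ * (gᵀ * J))) = gᵀ * J := by
      calc gᵀ * J * (Ji * (Gᵀ * (gᵀ * J))) = gᵀ * (J * Ji) * Gᵀ * gᵀ * J := by
            simp only [Matrix.mul_assoc]
        _ = (g * G * g)ᵀ * J := by
            rw [hJi, Matrix.mul_one, transpose_mul, transpose_mul]; simp only [Matrix.mul_assoc]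
        _ = _ := by rw [hG]
    rw [Matrix.mul_sub, Matrix.mul_one, h1, sub_self]
  · have h1 : Ji * (Gᵀ * (gᵀ * J)) * F = Ji * (Gᵀ * (gᵀ * J * F)) := by
      simp only [Matrix.mul_assoc]
    rw [Matrix.sub_mul, Matrix.one_mul, h1, hF, Matrix.mul_zero, Matrix.mul_zero, sub_zero]

/-- `tr(gE_sBgᵀ J A)`-form of the pairing -/
theorem Ctx.pair_trace (h : Ctx k arm J B N W g) {A : Matrix ι ι K} (hA : Skw J A)
    (X : Fin 3 → Matrix ι ι K) :
    pair J B (A * g) (act arm X g) = - ∑ s, trace (M arm B s g g * J * A * X s) := by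
  unfold act
  rw [Ctx.pair_sum_right, ← Finset.sum_neg_distrib]
  refine Finset.sum_congr rfl fun s _ => ?_
  have hA1 : (A * g)ᵀ * J = - (gᵀ * J * A) := by
    rw [transpose_mul, Matrix.mul_assoc, hA.eq, Matrix.mul_neg, Matrix.mul_assoc]
  unfold pair M
  rw [hA1, Matrix.neg_mul, Matrix.neg_mul, trace_neg]
  congr 1
  have h1 : gᵀ * J * A * (X s * g * E K arm s) * B = (gᵀ * J * A * X s) * (g * E K arm s * B) := by
    simp only [Matrix.mul_assoc]
  rw [h1, trace_mul_comm]
  congr 1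
  simp only [Matrix.mul_assoc]

/-- test directions -/
theorem Ctx.test (h : Ctx k arm J B N W g) {N' : Matrix ι ι K} {A' : Matrix δ ι K}
    (hA' : N' = g * A')
    (ht : ∀ X : Matrix ι ι K, Skw J X → gᵀ * J * (X * g) = 0 → trace (N' * X) = 0)
    {v : Matrix ι ι K} (hv : gᵀ * J * v = 0) : N' * v = 0 := by
  obtain ⟨G, hG⟩ := exists_pinv g
  obtain ⟨Ji, hJi⟩ := h.data.J_unit.exists_right_inv
  have hJi' : Ji * J = 1 := by
    rw [mul_eq_one_comm] at hJi; exact hJi
  have hvt : vᵀ * J * g = 0 := by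
    have := congrArg transpose hv
    rw [transpose_mul, transpose_mul, transpose_transpose, h.data.J_symm, transpose_zero,
      ← Matrix.mul_assoc] at this
    exact this
  have hJN : J * (N' * v) = 0 := by
    apply trace_right
    intro A
    have hX : Skw J (v * A * J - (v * A)ᵀ * J) := by
      generalize v * A = Y
      unfold Skw
      rw [transpose_sub, transpose_mul, transpose_mul, transpose_transpose, h.data.J_symm,
        Matrix.sub_mul, Matrix.mul_sub]
      simp only [Matrix.mul_assoc]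
      abel
    have hXg : (v * A * J - (v * A)ᵀ * J) * g = v * (A * (J * g)) := by
      rw [Matrix.sub_mul, transpose_mul]
      have : Aᵀ * vᵀ * J * g = Aᵀ * (vᵀ * J * g) := by simp only [Matrix.mul_assoc]
      rw [this, hvt, Matrix.mul_zero, sub_zero]
      simp only [Matrix.mul_assoc]
    have h1 := ht _ hX (by rw [hXg, ← Matrix.mul_assoc, hv, Matrix.zero_mul])
    rw [Matrix.mul_sub, trace_sub] at h1
    have h2 : trace (N' * ((v * A)ᵀ * J)) = 0 := by
      have h3 : N' = g * G * N' := by rw [hA', ← Matrix.mul_assoc, hG]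
      rw [h3]
      have h4 : g * G * N' * ((v * A)ᵀ * J) = g * (G * N' * ((v * A)ᵀ * J)) := by
        simp only [Matrix.mul_assoc]
      rw [h4, trace_mul_comm, transpose_mul]
      have h5 : G * N' * (Aᵀ * vᵀ * J) * g = G * N' * Aᵀ * (vᵀ * J * g) := by
        simp only [Matrix.mul_assoc]
      rw [h5, hvt, Matrix.mul_zero, trace_zero]
    rw [h2, sub_zero] at h1
    have h6 : N' * (v * A * J) = (N' * v * A) * J := by simp only [Matrix.mul_assoc]
    rw [h6, trace_mul_comm, ← Matrix.mul_assoc, trace_mul_comm] at h1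
    exact h1
  calc N' * v = Ji * (J * (N' * v)) := by rw [← Matrix.mul_assoc, hJi', Matrix.one_mul]
    _ = 0 := by rw [hJN, Matrix.mul_zero]

/-- the space of directions `X_s ∈ so(V)`, `X_s S ⊆ S^⊥` -/
def XX (J : Matrix ι ι K) (g : Matrix ι δ K) : Submodule K (Fin 3 → Matrix ι ι K) where
  carrier := {X | ∀ s, Skw J (X s) ∧ gᵀ * J * (X s * g) = 0}
  zero_mem' := fun s => ⟨Skw.zero, by simp⟩
  add_mem' := by
    intro X Y hX hY s
    refine ⟨(hX s).1.add (hY s).1, ?_⟩
    rw [Pi.add_apply, Matrix.add_mul, Matrix.mul_add, (hX s).2, (hY s).2, add_zero]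
  smul_mem' := by
    intro t X hX s
    refine ⟨(hX s).1.smul t, ?_⟩
    rw [Pi.smul_apply, Matrix.smul_mul, Matrix.mul_smul, (hX s).2, smul_zero]

/-- `NN₁` -/
def NN1 (arm : δ → Fin 3) (J : Matrix ι ι K) (N : Submodule K (Matrix ι δ K))
    (g : Matrix ι δ K) : Submodule K (Matrix ι ι K × (Fin 3 → Matrix ι ι K)) where
  carrier := {p | p ∈ NN arm J N g ∧ gᵀ * J * (p.1 * g) = 0}
  zero_mem' := ⟨(NN arm J N g).zero_mem, by simp⟩
  add_mem' := by
    rintro p q ⟨h1, h2⟩ ⟨h1', h2'⟩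
    refine ⟨(NN arm J N g).add_mem h1 h1', ?_⟩
    rw [Prod.fst_add, Matrix.add_mul, Matrix.mul_add, h2, h2', add_zero]
  smul_mem' := by
    rintro t p ⟨h1, h2⟩
    refine ⟨(NN arm J N g).smul_mem t h1, ?_⟩
    rw [Prod.smul_fst, Matrix.smul_mul, Matrix.mul_smul, h2, smul_zero]

/-- the pairing of `NN₁` with `XX` -/
def LL (arm : δ → Fin 3) (J : Matrix ι ι K) (B : Matrix δ δ K) (N : Submodule K (Matrix ι δ K))
    (g : Matrix ι δ K) : NN1 arm J N g →ₗ[K] Dual K (XX J g) where
  toFun p :=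
    { toFun := fun X => pair J B (p.1.1 * g) (act arm X.1 g)
      map_add' := by
        intro X Y
        rw [← pair_add_right]
        congr 1
        exact act_add_left arm X.1 Y.1 g
      map_smul' := by
        intro t X
        rw [RingHom.id_apply, smul_eq_mul, ← pair_smul_right]
        congr 1
        exact act_smul_left arm t X.1 g }
  map_add' := by
    intro p q
    ext X
    change pair J B ((p.1.1 + q.1.1) * g) (act arm X.1 g) = _
    rw [Matrix.add_mul, pair_add_left]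
    rfl
  map_smul' := by
    intro t p
    ext X
    change pair J B ((t • p.1.1) * g) (act arm X.1 g) = _
    rw [Matrix.smul_mul, pair_smul_left]
    rfl

/-- the functional of a family `N_s` -/
def lN (J : Matrix ι ι K) (g : Matrix ι δ K) (Nn : Fin 3 → Matrix ι ι K) : Dual K (XX J g) where
  toFun X := ∑ s, trace (Nn s * X.1 s)
  map_add' := by
    intro X Y
    rw [← Finset.sum_add_distrib]
    refine Finset.sum_congr rfl fun s _ => ?_
    rw [← trace_add, ← Matrix.mul_add]; rfl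
  map_smul' := by
    intro t X
    rw [RingHom.id_apply, Finset.smul_sum]
    refine Finset.sum_congr rfl fun s _ => ?_
    rw [← trace_smul, ← Matrix.mul_smul]; rfl

/-- **Duality**: `(N_s)` strictly compatible with `Σ N_s = 0` is of the form `-(M_s J q₀)`. -/
theorem Ctx.dual (h : Ctx k arm J B N W g) {Nn : Fin 3 → Matrix ι ι K}
    (hS : ∀ s, ∃ A : Matrix δ ι K, Nn s = g * A) (hg : ∀ s, Nn s * g = 0)
    (hsum : ∀ F : Matrix ι δ K, gᵀ * J * F = 0 → ∑ s, Nn s * F = 0)
    (hflag : ∀ Q : Fin 3 → Matrix ι ι K, Stb arm J N Q → (∀ s, gᵀ * J * (Q s * g) = 0) →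
      ∀ s, trace (Nn s * Q s) = 0) :
    ∃ q ∈ NN arm J N g, gᵀ * J * (q.1 * g) = 0 ∧ ∀ s, ∀ v : Matrix ι ι K, gᵀ * J * v = 0 →
      (Nn s + M arm B s g g * J * q.1) * v = 0 := by
  obtain ⟨G, hG⟩ := exists_pinv g
  have hGN : ∀ s, Nn s = g * G * Nn s := by
    intro s
    obtain ⟨A, hA⟩ := hS s
    rw [hA, ← Matrix.mul_assoc, hG]
  have htr : ∀ s (Y : Matrix ι ι K), trace (Nn s * Y) = trace (G * (Nn s * (Y * g))) := by
    intro s Y
    conv_lhs => rw [hGN s]
    have : g * G * Nn s * Y = g * (G * (Nn s * Y)) := by simp only [Matrix.mul_assoc]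
    rw [this, trace_mul_comm]
    simp only [Matrix.mul_assoc]
  have hmem : lN J g Nn ∈ LinearMap.range (LL arm J B N g) := by
    rw [← Subspace.dualCoannihilator_dualAnnihilator_eq (W := LinearMap.range (LL arm J B N g)),
      Submodule.mem_dualAnnihilator]
    intro X hX
    rw [Submodule.mem_dualCoannihilator] at hX
    obtain ⟨Z, Q, hZ, hZg, hQ, hC⟩ := h.h1 (X := X.1) (fun s => (X.2 s).1) (fun s => (X.2 s).2)
      (fun p hp hp0 => hX _ ⟨⟨p, hp, hp0⟩, rfl⟩)
    change ∑ s, trace (Nn s * X.1 s) = 0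
    have hQg : ∀ s, gᵀ * J * (Q s * g) = 0 := by
      intro s
      obtain ⟨C, hC⟩ := hC s
      have e1 : Q s * g = Z * g - X.1 s * g - g * C := by
        rw [← hC]; simp only [Matrix.sub_mul]; abel
      rw [e1, Matrix.mul_sub, Matrix.mul_sub, hZg, (X.2 s).2, ← Matrix.mul_assoc (gᵀ * J) g C,
        h.iso, Matrix.zero_mul, sub_zero, sub_zero]
    have hterm : ∀ s, trace (Nn s * X.1 s) = trace (G * (Nn s * (Z * g))) := by
      intro s
      obtain ⟨C, hC⟩ := hC s
      have h1 : X.1 s * g = Z * g - Q s * g - g * C := by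
        rw [← hC]; simp only [Matrix.sub_mul]; abel
      rw [htr, h1, Matrix.mul_sub, Matrix.mul_sub, Matrix.mul_sub, Matrix.mul_sub, trace_sub,
        trace_sub, ← htr s (Q s), hflag Q hQ hQg s, sub_zero, ← Matrix.mul_assoc (Nn s) g C, hg,
        Matrix.zero_mul, Matrix.mul_zero, trace_zero, sub_zero]
    rw [Finset.sum_congr rfl fun s _ => hterm s, ← trace_sum, ← Matrix.mul_sum,
      hsum _ hZg, Matrix.mul_zero, trace_zero]
  obtain ⟨q, hq⟩ := hmem
  refine ⟨q.1, q.2.1, q.2.2, fun s v hv => ?_⟩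
  obtain ⟨A, hA⟩ := hS s
  refine h.test (A' := A + E K arm s * B * gᵀ * J * q.1.1) (by
    rw [Matrix.mul_add, ← hA]; unfold M; simp only [Matrix.mul_assoc]) ?_ hv
  intro X hX hXg
  let Y : Fin 3 → Matrix ι ι K := fun t => if t = s then X else 0
  have hY : Y ∈ XX J g := by
    intro t
    by_cases ht : t = s
    · simp only [Y, ht, if_true]; exact ⟨hX, hXg⟩
    · simp only [Y, ht, if_false]; exact ⟨Skw.zero, by simp⟩
  have h1 := LinearMap.congr_fun hq ⟨Y, hY⟩
  change pair J B (q.1.1 * g) (act arm Y g) = ∑ t, trace (Nn t * Y t) at h1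
  rw [h.pair_trace q.2.1.1, Finset.sum_eq_single s, Finset.sum_eq_single s] at h1
  · simp only [Y, if_true] at h1
    rw [Matrix.add_mul, trace_add, ← h1, neg_add_cancel]
  · intro t _ ht; simp only [Y, ht, if_false]; simp
  · intro h'; exact absurd (Finset.mem_univ s) h'
  · intro t _ ht; simp only [Y, ht, if_false]; simp
  · intro h'; exact absurd (Finset.mem_univ s) h'

end Crest.Agent.R172.Qt
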