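import Crest.Agent.R172.Qt5

/-!
Row 172 (S0260), node G1.2, part 2: the CLAIM of step 1 of note 14005, matrix form.
-/

set_option autoImplicit false
set_option linter.unusedSectionVars false
set_option linter.unusedFintypeInType false
set_option linter.unusedDecidableInType false

namespace Crest.Agent.R172.Qt

open Matrix Module Crest.Agent.R172.FO

variable {ι : Type*} [Fintype ι] [DecidableEq ι] {δ : Type*} [Fintype δ] [DecidableEq δ]
variable {k K : Type*} [Field k] [Field K] [Algebra k K]
variable {arm : δ → Fin 3} {J : Matrix ι ι K} {B : Matrix δ δ K}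
  {N W : Submodule K (Matrix ι δ K)} {g : Matrix ι δ K}

/-- the gluing directions are realised with `D g = 0`. -/
def Glue (k : Type*) {K : Type*} [Field k] [Field K] [Algebra k K] (arm : δ → Fin 3)
    (J : Matrix ι ι K) (N W : Submodule K (Matrix ι δ K)) (g : Matrix ι δ K) : Prop :=
  ∀ R : Fin 3 → Matrix ι ι K, (∀ s, Skw J (R s)) → (∀ s, R s * g = 0) →
    ∃ d : Derivation k K K, Realises arm N W R (0 : Matrix δ δ K) d ∧ g.map d = 0

theorem act_map (arm : δ → Fin 3) (X : Fin 3 → Matrix ι ι K) (F : Matrix ι δ K)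
    (d : Derivation k K K) :
    (act arm X F).map d = act arm (fun s => (X s).map d) F + act arm X (F.map d) := by
  unfold act
  rw [← Finset.sum_add_distrib]
  have h1 : ∀ (T : Fin 3 → Matrix ι δ K), (∑ s, T s).map d = ∑ s, (T s).map d := by
    intro T
    simp only [Fin.sum_univ_three, map_add_der]
  rw [h1]
  refine Finset.sum_congr rfl fun s _ => ?_
  rw [map_mul_der, map_mul_der, E_map_der, Matrix.mul_zero, add_zero, Matrix.add_mul]

/-- moving an element of `NN` along a gluing direction -/
theorem Ctx.move (h : Ctx k arm J B N W g) {R : Fin 3 → Matrix ι ι K}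
    (hRg : ∀ s, R s * g = 0) {d : Derivation k K K}
    (hd : Realises arm N W R (0 : Matrix δ δ K) d) (hdg : g.map d = 0)
    {p : Matrix ι ι K × (Fin 3 → Matrix ι ι K)} (hp : p ∈ NN arm J N g)
    (hR : ∀ s, Skw J (R s)) {Z : Matrix ι ι K} (hZ : Skw J Z) {Q : Fin 3 → Matrix ι ι K}
    (hQ : Stb arm J N Q)
    (hC : ∀ s, ∃ C : Matrix δ δ K, (Z - (R s * p.1 - p.1 * R s) - Q s) * g = g * C) :
    (p.1.map d - Z, fun s => (p.2 s).map d - (R s * p.2 s - p.2 s * R s) - Q s)
      ∈ NN arm J N g := by
  have hJ := h.data.J_const d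
  refine ⟨(hp.1.map_der d hJ).sub hZ, ⟨fun s => (((hp.2.1.skw s).map_der d hJ).sub
    ((hR s).comm (hp.2.1.skw s))).sub (hQ.skw s), fun F hF => ?_⟩, fun s => ?_⟩
  · have h1 : act arm (fun s => (p.2 s).map d - (R s * p.2 s - p.2 s * R s) - Q s) F
        = ((act arm p.2 F).map d - act arm R (act arm p.2 F))
          - act arm p.2 (F.map d - act arm R F) - act arm Q F := by
      rw [act_sub_left arm (fun s => (p.2 s).map d - (R s * p.2 s - p.2 s * R s)) Q,
        act_sub_left arm (fun s => (p.2 s).map d) (fun s => R s * p.2 s - p.2 s * R s),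
        act_sub_left arm (fun s => R s * p.2 s) (fun s => p.2 s * R s), act_map, act_sub_right,
        act_act', act_act']
      abel
    change act arm (fun s => (p.2 s).map d - (R s * p.2 s - p.2 s * R s) - Q s) F ∈ N
    rw [h1]
    exact N.sub_mem (N.sub_mem (hd.onN _ (hp.2.1.pres F hF)) (hp.2.1.pres _ (hd.onN F hF)))
      (hQ.pres F hF)
  · obtain ⟨C, hC⟩ := hC s
    obtain ⟨D, hD⟩ := hp.2.2 s
    have h1 : (p.1.map d - (p.2 s).map d) * g = g * D.map d := by
      have := congrArg (fun A : Matrix ι δ K => A.map d) hD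
      simp only [map_mul_der, hdg, Matrix.mul_zero, Matrix.zero_mul, add_zero, zero_add,
        map_sub_der] at this
      exact this
    refine ⟨D.map d - C, ?_⟩
    change (p.1.map d - Z - ((p.2 s).map d - (R s * p.2 s - p.2 s * R s) - Q s)) * g = _
    have h2 : R s * p.1 * g = R s * p.2 s * g := by
      have h3 : R s * ((p.1 - p.2 s) * g) = 0 := by
        rw [hD, ← Matrix.mul_assoc, hRg, Matrix.zero_mul]
      rw [Matrix.sub_mul, Matrix.mul_sub, sub_eq_zero] at h3
      rw [Matrix.mul_assoc, Matrix.mul_assoc, h3]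
    have h4 : ∀ A : Matrix ι ι K, A * R s * g = 0 := by
      intro A; rw [Matrix.mul_assoc, hRg, Matrix.mul_zero]
    rw [Matrix.mul_sub, ← h1, ← hC]
    simp only [Matrix.sub_mul, h2, h4]
    abel

/-- **CLAIM of step 1 of note 14005**, matrix form. -/
theorem Ctx.claim (h : Ctx k arm J B N W g)
    (hNm : ∀ F, (∀ F' ∈ N, pair J B F' F = 0) → F ∈ N)
    (hWm : ∀ F, (∀ F' ∈ W, pair J B F' F = 0) → F ∈ W)
    (hc : Glue k arm J N W g) {f : Matrix ι δ K} (hf : f ∈ N ⊓ W)
    {p : Matrix ι ι K × (Fin 3 → Matrix ι ι K)} (hp : p ∈ NN arm J N g)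
    {R : Fin 3 → Matrix ι ι K} (hR : ∀ s, Skw J (R s)) (hRg : ∀ s, R s * g = 0)
    (hRS : ∀ s, ∀ v : Matrix ι ι K, gᵀ * J * v = 0 → ∃ C : Matrix δ ι K, R s * v = g * C)
    (hsum : ∀ v : Matrix ι ι K, gᵀ * J * v = 0 →
      ∑ s, (M arm B s g g * J * (p.1 * (R s * v)) - R s * (M arm B s f f * J * v)) = 0) :
    ∃ Z : Matrix ι ι K, Skw J Z ∧ gᵀ * J * (Z * g) = 0 ∧ ∀ s, ∀ v : Matrix ι ι K,
      gᵀ * J * v = 0 →
      gᵀ * J * (p.1 * (M arm B s g g * J * (p.1 * (R s * v) - Z * v)))
        = gᵀ * J * (p.1 * (R s * (M arm B s f f * J * v)) - Z * (M arm B s f f * J * v)) := by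
  have hD := h.data
  obtain ⟨G, hG⟩ := exists_pinv g
  obtain ⟨Pi, hPi, hPi'⟩ := exists_proj hD.J_unit g
  have hfp := h.perp f hf
  have hfpt : fᵀ * J * g = 0 := by
    have := congrArg transpose hfp
    rw [transpose_mul, transpose_mul, transpose_transpose, hD.J_symm, transpose_zero,
      ← Matrix.mul_assoc] at this
    exact this
  have hgJR : ∀ s, gᵀ * J * R s = 0 := fun s => gJR (hR s) (hRg s)
  -- `ι × δ` versions
  have hPF : ∀ F : Matrix ι δ K, gᵀ * J * F = 0 → Pi * F = F := by
    intro F hF
    obtain ⟨Ji, hJi⟩ := hD.J_unit.exists_right_inv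
    -- columns
    ext i j
    have h1 : gᵀ * J * (Matrix.of fun i (_ : Unit) => F i j) = 0 := by
      ext a b
      have := congrFun (congrFun hF a) j
      rw [mul_apply] at this ⊢
      exact this
    have h2 := congrFun (congrFun (hPi' _ h1) i) ()
    rw [mul_apply] at h2 ⊢
    exact h2
  have hRS' : ∀ s, ∀ F : Matrix ι δ K, gᵀ * J * F = 0 → ∃ C : Matrix δ δ K, R s * F = g * C := by
    intro s F hF
    obtain ⟨C, hC⟩ := hRS s Pi hPi
    refine ⟨C * F, ?_⟩
    calc R s * F = R s * (Pi * F) := by rw [hPF F hF]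
      _ = (R s * Pi) * F := by rw [Matrix.mul_assoc]
      _ = _ := by rw [hC, Matrix.mul_assoc]
  have hsum' : ∀ F : Matrix ι δ K, gᵀ * J * F = 0 →
      ∑ s, (M arm B s g g * J * (p.1 * (R s * F)) - R s * (M arm B s f f * J * F)) = 0 := by
    intro F hF
    have h1 := hsum Pi hPi
    have h2 : ∑ s, (M arm B s g g * J * (p.1 * (R s * F)) - R s * (M arm B s f f * J * F))
        = (∑ s, (M arm B s g g * J * (p.1 * (R s * Pi)) - R s * (M arm B s f f * J * Pi))) * F := by
      rw [Matrix.sum_mul]
      refine Finset.sum_congr rfl fun s _ => ?_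
      conv_lhs => rw [← hPF F hF]
      rw [Matrix.sub_mul]
      simp only [Matrix.mul_assoc]
    rw [h2, h1, Matrix.zero_mul]
  -- `M_s(f) J F = 0` for `fᵀ J F = 0`
  have hMf : ∀ s {α : Type _} (F : Matrix ι α K), fᵀ * J * F = 0 → M arm B s f f * J * F = 0 := by
    intro s α F hF
    unfold M
    have : f * E K arm s * B * fᵀ * J * F = f * E K arm s * B * (fᵀ * J * F) := by
      simp only [Matrix.mul_assoc]
    rw [this, hF, Matrix.mul_zero]
  -- Step (a)
  have hcomm : ∀ s, Skw J (R s * p.1 - p.1 * R s) := fun s => (hR s).comm hp.1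
  have hRpg : ∀ s, (R s * p.1 - p.1 * R s) * g = R s * (p.1 * g) := by
    intro s
    rw [Matrix.sub_mul, Matrix.mul_assoc p.1, hRg, Matrix.mul_zero, sub_zero, Matrix.mul_assoc]
  obtain ⟨Z1, Q2, hZ1, hZ1g, hQ2, hC2⟩ := h.h1 (X := fun s => R s * p.1 - p.1 * R s) hcomm
    (fun s => by rw [hRpg, ← Matrix.mul_assoc, hgJR, Matrix.zero_mul]) (by
      intro q hq hq0
      rw [h.pair_trace hq.1, neg_eq_zero]
      have hqf : gᵀ * J * (q.1 * f) = 0 := h.tf_zero hf hq hq0
      have hfq : fᵀ * J * (q.1 * g) = 0 := by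
        have h1 := congrArg transpose hqf
        rw [transpose_zero, transpose_mul, transpose_mul, transpose_mul, transpose_transpose,
          hD.J_symm] at h1
        have h2 : fᵀ * q.1ᵀ * (J * g) = - (fᵀ * J * (q.1 * g)) := by
          calc fᵀ * q.1ᵀ * (J * g) = fᵀ * (q.1ᵀ * J) * g := by simp only [Matrix.mul_assoc]
            _ = _ := by
              rw [hq.1.eq]; simp only [Matrix.mul_neg, Matrix.neg_mul, Matrix.mul_assoc]
        rw [h2, neg_eq_zero] at h1
        exact h1
      -- each term
      have hterm : ∀ s, trace (M arm B s g g * J * q.1 * (R s * p.1 - p.1 * R s))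
          = - trace (G * (M arm B s g g * J * (p.1 * (R s * (q.1 * g))))) := by
        intro s
        have h1 : M arm B s g g * J * q.1 * (R s * p.1 - p.1 * R s)
            = M arm B s g g * J * q.1 * R s * p.1 - M arm B s g g * J * q.1 * p.1 * R s := by
          rw [Matrix.mul_sub]; simp only [Matrix.mul_assoc]
        -- trace of second : `R_s g = 0`
        have h2 : trace (M arm B s g g * J * q.1 * p.1 * R s) = 0 := by
          rw [trace_mul_comm]
          have : R s * (M arm B s g g * J * q.1 * p.1)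
              = (R s * g) * (E K arm s * B * gᵀ * J * q.1 * p.1) := by
            unfold M; simp only [Matrix.mul_assoc]
          rw [this, hRg, Matrix.zero_mul, trace_zero]
        -- first
        have h3 : trace (M arm B s g g * J * q.1 * R s * p.1)
            = - trace (M arm B s g g * J * p.1 * R s * q.1) := by
          have e1 : (M arm B s g g * J * q.1 * R s * p.1)ᵀ
              = (p.1ᵀ * (R s)ᵀ * q.1ᵀ * J) * M arm B s g g := by
            have hMt : (M arm B s g g)ᵀ = M arm B s g g := by
              unfold M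
              rw [transpose_mul, transpose_mul, transpose_mul, transpose_transpose, E_transpose,
                hD.B_symm]
              simp only [Matrix.mul_assoc]
              rw [← Matrix.mul_assoc B, ← hD.B_arm, Matrix.mul_assoc]
            rw [transpose_mul, transpose_mul, transpose_mul, transpose_mul, hMt, hD.J_symm]
            simp only [Matrix.mul_assoc]
          rw [← trace_transpose, e1, trace_mul_comm]
          have e2 : p.1ᵀ * (R s)ᵀ * q.1ᵀ * J = - (J * p.1 * R s * q.1) := by
            calc p.1ᵀ * (R s)ᵀ * q.1ᵀ * J = p.1ᵀ * ((R s)ᵀ * (q.1ᵀ * J)) := by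
                  simp only [Matrix.mul_assoc]
              _ = - (p.1ᵀ * ((R s)ᵀ * J * q.1)) := by
                  rw [hq.1.eq]; simp only [Matrix.mul_neg, Matrix.mul_assoc]
              _ = p.1ᵀ * J * R s * q.1 := by
                  rw [(hR s).eq]
                  simp only [Matrix.mul_neg, Matrix.neg_mul, neg_neg, Matrix.mul_assoc]
              _ = _ := by rw [hp.1.eq]; simp only [Matrix.neg_mul, Matrix.mul_assoc]
          rw [e2, Matrix.mul_neg, trace_neg]
          simp only [Matrix.mul_assoc]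
        have h4 : trace (M arm B s g g * J * p.1 * R s * q.1)
            = trace (G * (M arm B s g g * J * (p.1 * (R s * (q.1 * g))))) := by
          have e1 : M arm B s g g * J * p.1 * R s * q.1
              = g * (G * (M arm B s g g * J * p.1 * R s * q.1)) := by
            have : M arm B s g g = g * G * M arm B s g g := by
              unfold M
              have : g * G * (g * E K arm s * B * gᵀ) = (g * G * g) * E K arm s * B * gᵀ := by
                simp only [Matrix.mul_assoc]
              rw [this, hG]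
            conv_lhs => rw [this]
            simp only [Matrix.mul_assoc]
          rw [e1, trace_mul_comm]
          simp only [Matrix.mul_assoc]
        rw [h1, trace_sub, h2, sub_zero, h3, h4]
      rw [Finset.sum_congr rfl fun s _ => hterm s, Finset.sum_neg_distrib, ← trace_sum,
        ← Matrix.mul_sum]
      have h5 := hsum' (q.1 * g) hq0
      have h6 : ∀ s, R s * (M arm B s f f * J * (q.1 * g)) = 0 := by
        intro s; rw [hMf s _ hfq, Matrix.mul_zero]
      simp only [h6, sub_zero] at h5
      rw [h5, Matrix.mul_zero, trace_zero, neg_zero])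
  -- Step (b)
  obtain ⟨d, hd, hdg⟩ := hc R hR hRg
  have hJd := hD.J_const d
  have hdW : f.map d ∈ W := by
    have h8 := hd.onW f hf.2
    rw [transpose_zero, Matrix.mul_zero, sub_zero] at h8
    exact h8
  have hdN : f.map d - act arm R f ∈ N := hd.onN f hf.1
  have hdgJ : ∀ (F : Matrix ι δ K), (gᵀ * J * F).map d = gᵀ * J * F.map d := by
    intro F
    rw [map_mul_der, map_mul_der, map_transpose_der, hdg, hJd, transpose_zero, Matrix.zero_mul,
      Matrix.mul_zero, add_zero, Matrix.zero_mul, zero_add]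
  have hdf : gᵀ * J * f.map d = 0 := by
    rw [← hdgJ, hfp]; ext i j; simp
  obtain ⟨CR, hCR⟩ : ∃ C : Matrix δ δ K, act arm R f = g * C := by
    choose C hC using fun s => hRS' s f hfp
    exact ⟨_, act_mul_const arm R f hC⟩
  obtain ⟨kk, hkk, p1, hp1, hp10, C1, hx⟩ := h.KV hNm hWm hdW hdf hdN
    (C := CR) (by rw [← hCR]; abel)
  set e : Matrix ι δ K := f.map d - kk with he
  have heW : e ∈ W := W.sub_mem hdW hkk.2
  have he1 : e = p1.1 * g + g * C1 := by rw [he, hx]; abel
  -- the relation (d')
  obtain ⟨p', hp', hpe'⟩ := h.tf hf hp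
  have hNN2 := h.move hRg hd hdg hp hR hZ1 hQ2 hC2
  obtain ⟨p3, hp3, hpe3⟩ := h.tf hf hNN2
  obtain ⟨p4, hp4, hpe4⟩ := h.tf hkk hp
  have hrel : gᵀ * J * (p.1 * e) = gᵀ * J * ((p'.1.map d - p3.1 - p4.1) * g)
      - gᵀ * J * (Z1 * f) := by
    have h1 := congrArg (fun A : Matrix δ δ K => A.map d) hpe'
    simp only [hdgJ] at h1
    rw [map_mul_der, map_mul_der, hdg, Matrix.mul_zero, add_zero] at h1
    have h2 : gᵀ * J * (p.1 * f.map d) = gᵀ * J * (p'.1.map d * g) - gᵀ * J * (p.1.map d * f) := by
      rw [← h1, Matrix.mul_add]; abel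
    have h3 : gᵀ * J * (p.1.map d * f) = gᵀ * J * (p3.1 * g) + gᵀ * J * (Z1 * f) := by
      rw [← hpe3, ← Matrix.mul_add]
      congr 1
      simp only [Matrix.sub_mul]
      abel
    rw [he, Matrix.mul_sub p.1, Matrix.mul_sub (gᵀ * J), h2, h3, hpe4]
    simp only [Matrix.sub_mul, Matrix.mul_sub]
    abel
  have hfgv : ∀ s, ∀ v : Matrix ι ι K, gᵀ * J * v = 0 → g * E K arm s * B * fᵀ * J * v = 0 := by
    intro s v hv
    exact h.gf_zero hf s hv
  have hd' : ∀ s, ∀ v : Matrix ι ι K, gᵀ * J * v = 0 →
      gᵀ * J * (p.1 * (e * E K arm s * B * fᵀ * J * v))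
        = - (gᵀ * J * (Z1 * (M arm B s f f * J * v))) := by
    intro s v hv
    have h1 : gᵀ * J * (p.1 * (e * E K arm s * B * fᵀ * J * v))
        = (gᵀ * J * (p.1 * e)) * (E K arm s * B * fᵀ * J * v) := by
      simp only [Matrix.mul_assoc]
    have h2 : gᵀ * J * ((p'.1.map d - p3.1 - p4.1) * g) * (E K arm s * B * fᵀ * J * v)
        = gᵀ * J * ((p'.1.map d - p3.1 - p4.1) * (g * E K arm s * B * fᵀ * J * v)) := by
      simp only [Matrix.mul_assoc]
    rw [h1, hrel, Matrix.sub_mul, h2, hfgv s v hv, Matrix.mul_zero, Matrix.mul_zero, zero_sub]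
    congr 1
    unfold M
    simp only [Matrix.mul_assoc]
  -- Step (c)
  set ν : Matrix ι δ K := e - act arm R f - act arm p1.2 g with hν
  have hνN : ν ∈ N := by
    have : ν = (f.map d - act arm R f) - kk - act arm p1.2 g := by rw [hν, he]; abel
    rw [this]
    exact N.sub_mem (N.sub_mem hdN hkk.1) (hp1.2.1.pres g h.memN)
  obtain ⟨C5, hC5⟩ : ∃ C : Matrix δ δ K, ν = g * C := by
    obtain ⟨C6, hC6⟩ := Pg_InS hp1
    refine ⟨C6 + C1 - CR, ?_⟩
    rw [Matrix.mul_sub, Matrix.mul_add, ← hC6, ← hCR, hν, he1]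
    unfold Pg
    abel
  have hνE : ∀ s, ν * E K arm s = e * E K arm s - R s * f * E K arm s - p1.2 s * g * E K arm s := by
    intro s
    rw [hν, Matrix.sub_mul, Matrix.sub_mul, act_mul_E, act_mul_E]
  have hM0 : ∑ s, M arm B s g g = 0 := by
    rw [sum_M]; exact hD.W_iso g h.memW g h.memW
  have hef0 : e * B * fᵀ = 0 := hD.W_iso e heW f hf.2
  -- the key equality on `S^⊥`
  have hNv0 : ∀ s, ν * E K arm s * B * fᵀ * J = e * E K arm s * B * fᵀ * J
      - R s * (M arm B s f f * J) - p1.2 s * (g * E K arm s * B * fᵀ * J) := by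
    intro s
    rw [hνE]
    unfold M
    simp only [Matrix.sub_mul, Matrix.mul_assoc]
  have hNv : ∀ s, ∀ v : Matrix ι ι K, gᵀ * J * v = 0 →
      ν * E K arm s * B * fᵀ * J * v
        = e * E K arm s * B * fᵀ * J * v - R s * (M arm B s f f * J * v) := by
    intro s v hv
    rw [hNv0, Matrix.sub_mul, Matrix.sub_mul, Matrix.mul_assoc (p1.2 s), hfgv s v hv,
      Matrix.mul_zero, sub_zero, Matrix.mul_assoc (R s)]
  set Nn : Fin 3 → Matrix ι ι K := fun s =>
    M arm B s g g * J * (p.1 * R s + Z1) + ν * E K arm s * B * fᵀ * J with hNn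
  obtain ⟨q, hq, hq0, hqv⟩ := h.dual (Nn := Nn) (by
      intro s
      refine ⟨E K arm s * B * gᵀ * J * (p.1 * R s + Z1) + C5 * E K arm s * B * fᵀ * J, ?_⟩
      rw [hNn, Matrix.mul_add, hC5]
      unfold M
      simp only [Matrix.mul_assoc])
    (by
      intro s
      rw [hNn]
      have h1 : (M arm B s g g * J * (p.1 * R s + Z1) + ν * E K arm s * B * fᵀ * J) * g
          = M arm B s g g * J * (p.1 * (R s * g)) + g * E K arm s * B * (gᵀ * J * (Z1 * g))
            + ν * E K arm s * B * (fᵀ * J * g) := by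
        unfold M
        simp only [Matrix.add_mul, Matrix.mul_add, Matrix.mul_assoc]
      rw [h1, hRg, hZ1g, hfpt]
      simp)
    (by
      intro F hF
      have hgfF : ∀ s, g * E K arm s * B * fᵀ * J * F = 0 := by
        intro s
        have h1 : M arm B s g f = M arm B s f g := hD.symm_arm h.mem hf s
        unfold M at h1
        rw [h1]
        have : f * E K arm s * B * gᵀ * J * F = f * E K arm s * B * (gᵀ * J * F) := by
          simp only [Matrix.mul_assoc]
        rw [this, hF, Matrix.mul_zero]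
      have h1 : ∀ s, Nn s * F = (M arm B s g g * J * (p.1 * (R s * F))
          - R s * (M arm B s f f * J * F)) + M arm B s g g * (J * Z1 * F)
            + e * E K arm s * B * fᵀ * J * F := by
        intro s
        have h2 : ν * E K arm s * B * fᵀ * J * F
            = e * E K arm s * B * fᵀ * J * F - R s * (M arm B s f f * J * F) := by
          rw [hNv0, Matrix.sub_mul, Matrix.sub_mul, Matrix.mul_assoc (p1.2 s), hgfF s,
            Matrix.mul_zero, sub_zero, Matrix.mul_assoc (R s)]
        rw [hNn]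
        have h3 : (M arm B s g g * J * (p.1 * R s + Z1) + ν * E K arm s * B * fᵀ * J) * F
            = M arm B s g g * J * (p.1 * (R s * F)) + M arm B s g g * (J * Z1 * F)
              + ν * E K arm s * B * fᵀ * J * F := by
          simp only [Matrix.add_mul, Matrix.mul_add, Matrix.mul_assoc]
        rw [h3, h2]
        abel
      rw [Finset.sum_congr rfl fun s _ => h1 s, Finset.sum_add_distrib, Finset.sum_add_distrib,
        hsum' F hF, ← Matrix.sum_mul, hM0, Matrix.zero_mul, zero_add, zero_add]
      have h4 : ∑ s, e * E K arm s * B * fᵀ * J * F = (e * B * fᵀ) * J * F := by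
        rw [← Matrix.sum_mul, ← Matrix.sum_mul]
        congr 2
        rw [← sum_M arm B]
        rfl
      rw [h4, hef0, Matrix.zero_mul, Matrix.zero_mul])
    (by
      intro Q hQ hQg s
      obtain ⟨C2, hC2s⟩ := hC2 s
      rw [hNn]
      change trace ((M arm B s g g * J * (p.1 * R s + Z1) + ν * E K arm s * B * fᵀ * J) * Q s) = 0
      rw [Matrix.add_mul, trace_add]
      -- second term
      have t2 : trace (ν * E K arm s * B * fᵀ * J * Q s) = 0 := by
        have h1 : trace (ν * E K arm s * B * fᵀ * J * Q s)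
            = pair J B f (Q s * ν * E K arm s) := by
          unfold pair
          have e1 : ν * E K arm s * B * fᵀ * J * Q s = (ν * E K arm s * B) * (fᵀ * J * Q s) := by
            simp only [Matrix.mul_assoc]
          rw [e1, trace_mul_comm]
          congr 1
          simp only [Matrix.mul_assoc]
        have h2 : Q s * ν * E K arm s ∈ N := by
          have := hD.N_arm _ (hQ.pres ν hνN) s
          rw [act_mul_E] at this
          exact this
        rw [h1]
        exact hD.N_iso f hf.1 _ h2
      -- first term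
      have t1 : trace (M arm B s g g * J * (p.1 * R s + Z1) * Q s) = 0 := by
        have hu : gᵀ * J * (Q s * g) = 0 := hQg s
        have e1 : M arm B s g g * J * (p.1 * R s + Z1) * Q s
            = g * (E K arm s * B * (gᵀ * J * (p.1 * R s + Z1) * Q s)) := by
          unfold M; simp only [Matrix.mul_assoc]
        have hP2 : Skw J (Z1 - (R s * p.1 - p.1 * R s) - Q2 s) :=
          (hZ1.sub (hcomm s)).sub (hQ2.skw s)
        have e2 : gᵀ * J * (p.1 * R s + Z1) * (Q s * g) = gᵀ * J * (Q2 s * (Q s * g)) := by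
          have e3 : p.1 * R s + Z1 = R s * p.1 + Q2 s + (Z1 - (R s * p.1 - p.1 * R s) - Q2 s) := by
            abel
          rw [e3]
          have e4 : gᵀ * J * (R s * p.1 + Q2 s + (Z1 - (R s * p.1 - p.1 * R s) - Q2 s))
              * (Q s * g) = (gᵀ * J * R s) * (p.1 * (Q s * g)) + gᵀ * J * (Q2 s * (Q s * g))
                + gᵀ * J * ((Z1 - (R s * p.1 - p.1 * R s) - Q2 s) * (Q s * g)) := by
            simp only [Matrix.add_mul, Matrix.mul_add, Matrix.mul_assoc]
          rw [e4, hgJR, Matrix.zero_mul, zero_add, perp_stable hP2 hC2s hu, add_zero]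
        rw [e1, trace_mul_comm]
        have e5 : E K arm s * B * (gᵀ * J * (p.1 * R s + Z1) * Q s) * g
            = E K arm s * B * (gᵀ * J * (p.1 * R s + Z1) * (Q s * g)) := by
          simp only [Matrix.mul_assoc]
        rw [e5, e2]
        have e6 : trace (E K arm s * B * (gᵀ * J * (Q2 s * (Q s * g))))
            = pair J B g (Q2 s * (Q s * g) * E K arm s) := by
          unfold pair
          rw [trace_mul_comm]
          congr 1
          simp only [Matrix.mul_assoc]
        rw [e6]
        have h2 : Q2 s * (Q s * g) * E K arm s ∈ N := by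
          have := hD.N_arm _ (hQ2.pres _ (hQ.pres g h.memN)) s
          rw [act_act', act_mul_E] at this
          rw [← Matrix.mul_assoc]
          exact this
        exact hD.N_iso g h.memN _ h2
      rw [t1, t2, add_zero])
  -- conclusion
  refine ⟨-(Z1 + q.1), (hZ1.add hq.1).neg, ?_, fun s v hv => ?_⟩
  · rw [Matrix.neg_mul, Matrix.mul_neg, Matrix.add_mul, Matrix.mul_add, hZ1g, hq0, add_zero,
      neg_zero]
  · have h1 := hqv s v hv
    have h2 := hNv s v hv
    have h3 : M arm B s g g * J * (p.1 * (R s * v) + Z1 * v + q.1 * v)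
        + e * E K arm s * B * fᵀ * J * v = R s * (M arm B s f f * J * v) := by
      have h4 : (Nn s + M arm B s g g * J * q.1) * v
          = M arm B s g g * J * (p.1 * (R s * v) + Z1 * v + q.1 * v)
            + ν * E K arm s * B * fᵀ * J * v := by
        rw [hNn]
        simp only [Matrix.add_mul, Matrix.mul_add, Matrix.mul_assoc]
        abel
      rw [h4, h2, add_sub, sub_eq_zero] at h1
      exact h1
    have h5 : gᵀ * J * (q.1 * (M arm B s f f * J * v)) = 0 := by
      have h6 := h.tf_zero hf hq hq0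
      have h7 : gᵀ * J * (q.1 * (M arm B s f f * J * v))
          = (gᵀ * J * (q.1 * f)) * (E K arm s * B * fᵀ * J * v) := by
        unfold M; simp only [Matrix.mul_assoc]
      rw [h7, h6, Matrix.zero_mul]
    have h6 : p.1 * (R s * v) - -(Z1 + q.1) * v = p.1 * (R s * v) + Z1 * v + q.1 * v := by
      rw [Matrix.neg_mul, sub_neg_eq_add, Matrix.add_mul, add_assoc]
    rw [h6]
    have h7 : gᵀ * J * (p.1 * (M arm B s g g * J * (p.1 * (R s * v) + Z1 * v + q.1 * v)))
        = gᵀ * J * (p.1 * (R s * (M arm B s f f * J * v)))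
          - gᵀ * J * (p.1 * (e * E K arm s * B * fᵀ * J * v)) := by
      rw [← h3]
      simp only [Matrix.mul_add]
      abel
    rw [h7, hd' s v hv, sub_neg_eq_add, Matrix.neg_mul, sub_neg_eq_add, Matrix.mul_add,
      Matrix.add_mul, Matrix.mul_add, h5, add_zero]

end Crest.Agent.R172.Qt
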