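import Crest.Agent.R172.Qt7
import Crest.Agent.R172.IndCnt
import Crest.Agent.R172.NilBr5
import Crest.Agent.R172.SN2

/-!
Row 172 (S0260), node G1.2, part 4: the final alternative for a pair `f ∈ 𝒦`, `G` isotropic and
generic, over 630's configurations: `f` isotropic, or `φ = 0`, or tame.
-/

set_option autoImplicit false
set_option linter.unusedSectionVars false
set_option linter.unusedFintypeInType false
set_option linter.unusedDecidableInType false

namespace Crest.Agent.R172.Qt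

open Matrix Module Crest.Agent.R172.FO
open Crest.Agent.R172.CF Crest.Agent.R172.CSys
open Crest.Agent.R172.Gen (Jm Ix)

variable {n : ℕ} {a : Fin 3 → Fin n → ℤ} {c : Cfg n a} {K : Type} [Field K] [Algebra ℂ K]
variable {q : SPol c}

theorem maxN {g : Fin 3 → Matrix (Ix n) (Ix n) K} (hg : ∀ s, (g s)ᵀ * Jm n K * g s = Jm n K) :
    ∀ F : Matrix (Ix n) c.δ K, (∀ F' ∈ c.N g, pair (Jm n K) (c.B K) F' F = 0) → F ∈ c.N g := by
  have dN : finrank K (c.N g) = n * Fintype.card c.δ := c.finrank_N hg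
  have oN : (Ext.om c K).orthogonal (c.N g) = c.N g :=
    Ext.orth_lag (fun F hF G hG => FO3.N_iso c hg hF hG) dN
  intro F hF
  rw [← oN, LinearMap.BilinForm.mem_orthogonal_iff]
  exact hF

theorem maxW (p : Pol c) {H : Matrix (Fin p.m) (Fin p.m) K} (hH : Hᵀ = -H) :
    ∀ F : Matrix (Ix n) c.δ K, (∀ F' ∈ (VL (p.LH H) : Submodule K (Matrix (Ix n) c.δ K)),
      pair (Jm n K) (c.B K) F' F = 0) → F ∈ (VL (p.LH H) : Submodule K (Matrix (Ix n) c.δ K)) := by
  have dW : finrank K (VL (p.LH H) : Submodule K (Matrix (Ix n) c.δ K))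
      = n * Fintype.card c.δ := by
    rw [finrank_VL, ← p.finrank_LH H]; ring
  have oW : (Ext.om c K).orthogonal (VL (p.LH H)) = VL (p.LH H) :=
    Ext.orth_lag (fun F hF G hG => by
      rw [Ext.om_apply, FO.pair, trace_mul_comm, ← Matrix.mul_assoc, ← Matrix.mul_assoc,
        trace_mul_comm, ← Matrix.mul_assoc, ← Matrix.mul_assoc]
      rw [FO3.W_iso p hH hG hF, Matrix.zero_mul, trace_zero]) dW
  intro F hF
  rw [← oW, LinearMap.BilinForm.mem_orthogonal_iff]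
  exact hF

/-- `Φ_s (G u) = G (TT u)` -/
theorem Phi_G {W : Submodule K (Matrix (Ix n) c.δ K)} {g : Fin 3 → Matrix (Ix n) (Ix n) K}
    {G : Matrix (Ix n) c.δ K} (hC : Ctx ℂ c.arm (Jm n K) (c.B K) (c.N g) W G)
    {p : Matrix (Ix n) (Ix n) K × (Fin 3 → Matrix (Ix n) (Ix n) K)}
    (hp : p ∈ NN c.arm (Jm n K) (c.N g) G) (s : Fin 3) (u : c.δ → K) :
    (((Mop c.arm (c.B K) G s ∘ₗ eta (Jm n K) G p.1) ⟨G *ᵥ u, ⟨u, rfl⟩⟩ : Sg G) : Ix n → K)
      = G *ᵥ (TT G (act c.arm p.2 G) s u) := by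
  rw [LinearMap.comp_apply, Mop_eta, TT, Matrix.toLin'_apply]
  have h1 : Gᵀ * Jm n K * act c.arm p.2 G = Gᵀ * Jm n K * (p.1 * G) := by
    have := hC.perp_Pg hp
    unfold Pg at this
    rw [Matrix.mul_sub, sub_eq_zero] at this
    exact this.symm
  have h2 : E K c.arm s * c.B K * Gᵀ * Jm n K * act c.arm p.2 G
      = E K c.arm s * c.B K * Gᵀ * Jm n K * (p.1 * G) := by
    calc E K c.arm s * c.B K * Gᵀ * Jm n K * act c.arm p.2 G
        = E K c.arm s * c.B K * (Gᵀ * Jm n K * act c.arm p.2 G) := by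
          simp only [Matrix.mul_assoc]
      _ = _ := by rw [h1]; simp only [Matrix.mul_assoc]
  rw [h2]
  unfold FO.M
  simp only [mulVec_mulVec, Matrix.mul_assoc]

theorem Phi_words {W : Submodule K (Matrix (Ix n) c.δ K)} {g : Fin 3 → Matrix (Ix n) (Ix n) K}
    {G : Matrix (Ix n) c.δ K} (hC : Ctx ℂ c.arm (Jm n K) (c.B K) (c.N g) W G)
    {p : Matrix (Ix n) (Ix n) K × (Fin 3 → Matrix (Ix n) (Ix n) K)}
    (hp : p ∈ NN c.arm (Jm n K) (c.N g) G) (l : List (Fin 3)) (u : c.δ → K) :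
    (((l.map fun s => Mop c.arm (c.B K) G s ∘ₗ eta (Jm n K) G p.1).prod
      (⟨G *ᵥ u, ⟨u, rfl⟩⟩ : Sg G) : Sg G) : Ix n → K)
      = G *ᵥ ((l.map (TT G (act c.arm p.2 G))).prod u) := by
  induction l with
  | nil => simp
  | cons s l ih =>
    rw [List.map_cons, List.prod_cons, List.map_cons, List.prod_cons, Module.End.mul_apply,
      Module.End.mul_apply]
    have h1 : (l.map fun s => Mop c.arm (c.B K) G s ∘ₗ eta (Jm n K) G p.1).prod
        (⟨G *ᵥ u, ⟨u, rfl⟩⟩ : Sg G)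
        = (⟨G *ᵥ ((l.map (TT G (act c.arm p.2 G))).prod u), ⟨_, rfl⟩⟩ : Sg G) :=
      Subtype.ext ih
    rw [h1, Phi_G hC hp]

theorem Phi_nil (R : Ranked c) {W : Submodule K (Matrix (Ix n) c.δ K)}
    {g : Fin 3 → Matrix (Ix n) (Ix n) K}
    (hg : ∀ s, (g s)ᵀ * Jm n K * g s = Jm n K)
    {G : Matrix (Ix n) c.δ K} (hC : Ctx ℂ c.arm (Jm n K) (c.B K) (c.N g) W G)
    {p : Matrix (Ix n) (Ix n) K × (Fin 3 → Matrix (Ix n) (Ix n) K)}
    (hp : p ∈ NN c.arm (Jm n K) (c.N g) G) :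
    ∃ k, ∀ s, (Mop c.arm (c.B K) G s ∘ₗ eta (Jm n K) G p.1) ^ k = 0 := by
  obtain ⟨k, hk⟩ := TT_nil R hg hC.memN (hp.2.1.pres G hC.memN)
  refine ⟨k, fun s => LinearMap.ext fun x => ?_⟩
  obtain ⟨x, u, rfl⟩ := x
  apply Subtype.ext
  have h1 := Phi_words hC hp (List.replicate k s) u
  rw [List.map_replicate, List.prod_replicate, List.map_replicate, List.prod_replicate, hk] at h1
  change _ = (0 : Ix n → K)
  refine Eq.trans h1 ?_
  rw [LinearMap.zero_apply, mulVec_zero]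

theorem Phi_sum {W : Submodule K (Matrix (Ix n) c.δ K)} {g : Fin 3 → Matrix (Ix n) (Ix n) K}
    {G : Matrix (Ix n) c.δ K} (hC : Ctx ℂ c.arm (Jm n K) (c.B K) (c.N g) W G)
    (X : Matrix (Ix n) (Ix n) K) (x : Sg G) :
    ∑ s, (Mop c.arm (c.B K) G s ∘ₗ eta (Jm n K) G X) x = 0 := by
  apply Subtype.ext
  rw [Submodule.coe_sum]
  have h1 : ∀ s, (((Mop c.arm (c.B K) G s ∘ₗ eta (Jm n K) G X) x : Sg G) : Ix n → K)
      = (FO.M c.arm (c.B K) s G G) *ᵥ (Jm n K *ᵥ (X *ᵥ (x : Ix n → K))) := by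
    intro s
    rw [LinearMap.comp_apply, Mop_eta, mulVec_mulVec _ (FO.M c.arm (c.B K) s G G)]
  rw [Finset.sum_congr rfl fun s _ => h1 s, ← Matrix.sum_mulVec, FO.sum_M,
    hC.data.W_iso G hC.memW G hC.memW, zero_mulVec]
  rfl

/-- if the core of `(S, Φ)` is zero then `φ = 0` (NIL^sp). -/
theorem eta_zero_of_T (R : Ranked c) (p0 : Pol c) {g : Fin 3 → Matrix (Ix n) (Ix n) K}
    (hg : ∀ s, (g s)ᵀ * Jm n K * g s = Jm n K) {H : Matrix (Fin p0.m) (Fin p0.m) K}
    (hH : Hᵀ = -H)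
    (hgen : ∀ G : Matrix (Fin p0.m) (Fin p0.m) K, Gᵀ = -G → ∃ D : Derivation ℂ K K, H.map D = G)
    {G : Matrix (Ix n) c.δ K}
    (hC : Ctx ℂ c.arm (Jm n K) (c.B K) (c.N g) (VL (p0.LH H)) G)
    {p : Matrix (Ix n) (Ix n) K × (Fin 3 → Matrix (Ix n) (Ix n) K)}
    (hp : p ∈ NN c.arm (Jm n K) (c.N g) G)
    (hT : St.T (fun s => Mop c.arm (c.B K) G s ∘ₗ eta (Jm n K) G p.1) = ⊤) :
    Gᵀ * Jm n K * (p.1 * G) = 0 := by
  obtain ⟨m, hm⟩ := Mix.T_eq_top_iff.1 hT
  obtain ⟨X, hX⟩ : ∃ X : Matrix c.δ c.δ K, X = Gᵀ * Jm n K * (p.1 * G) := ⟨_, rfl⟩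
  have hXA : X = Gᵀ * Jm n K * act c.arm p.2 G := by
    have := hC.perp_Pg hp
    unfold Pg at this
    rw [Matrix.mul_sub, sub_eq_zero] at this
    rw [hX]
    exact this
  rw [← hX]
  -- words
  have hTT : ∀ s, TT G (act c.arm p.2 G) s = Matrix.toLin' ((E K c.arm s * c.B K) * X) := by
    intro s
    rw [TT, hXA]
    congr 1
    simp only [Matrix.mul_assoc]
  have hw : ∀ l : List (Fin 3), (l.map (TT G (act c.arm p.2 G))).prod
      = Matrix.toLin' ((l.map fun s => (E K c.arm s * c.B K) * X).prod) := by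
    intro l
    induction l with
    | nil => simp; rfl
    | cons s l ih =>
      rw [List.map_cons, List.prod_cons, List.map_cons, List.prod_cons, ih, hTT]
      exact (Matrix.toLin'_mul _ _).symm
  have hGw : ∀ l : List (Fin 3), l.length = m →
      G * (l.map fun s => (E K c.arm s * c.B K) * X).prod = 0 := by
    intro l hl
    refine ext_mulVec fun u => ?_
    rw [← mulVec_mulVec, zero_mulVec]
    have h1 := Phi_words hC hp l u
    rw [hm l hl, hw, Matrix.toLin'_apply] at h1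
    exact h1.symm
  have hXsk : Xᵀ = -X := by rw [hX]; exact skew_gXg hC.data.J_symm hp.1 G
  refine SN.nil_sp_X R p0 hH hgen X hXsk ?_ ?_ (m + 1) ?_
  · intro d
    have h1 : X = (Gᵀ * Jm n K * p.1) * G := by rw [hX]; simp only [Matrix.mul_assoc]
    rw [h1]
    obtain ⟨Rr, hRr⟩ := p0.mem_VL_iff.1 hC.memW
    rw [hRr]
    refine p0.mem_LH.2 ⟨(Gᵀ * Jm n K * p.1 * Rr) d, ?_⟩
    funext e
    rw [hRr, ← Matrix.mul_assoc, Matrix.mul_apply, mulVec, dotProduct]
    exact Finset.sum_congr rfl fun i _ => mul_comm _ _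
  · intro d e hde hrk
    rw [hXA]
    exact R.col_perp hg hC.memN (hp.2.1.pres G hC.memN) hde hrk
  · intro l hl
    obtain ⟨l', s, rfl⟩ : ∃ l' s, l = l' ++ [s] := by
      rcases List.eq_nil_or_concat l with h | ⟨l', s, h⟩
      · rw [h] at hl; simp at hl
      · exact ⟨l', s, by rw [h]; simp⟩
    have hl' : l'.length = m := by simpa using hl
    rw [List.map_append, List.prod_append, List.map_singleton, List.prod_singleton,
      ← Matrix.mul_assoc]
    have h1 : ∀ l : List (Fin 3), (l.map fun s => X * (E K c.arm s * c.B K)).prod * X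
        = X * (l.map fun s => (E K c.arm s * c.B K) * X).prod := by
      intro l
      induction l with
      | nil => simp
      | cons s l ih =>
        rw [List.map_cons, List.prod_cons, List.map_cons, List.prod_cons, Matrix.mul_assoc, ih]
        simp only [Matrix.mul_assoc]
    rw [h1]
    have h2 : ∀ Y : Matrix c.δ c.δ K, X * Y = Gᵀ * Jm n K * p.1 * (G * Y) := by
      intro Y
      rw [hX]
      simp only [Matrix.mul_assoc]
    rw [h2, hGw l' hl', Matrix.mul_zero, Matrix.zero_mul]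

end Crest.Agent.R172.Qt
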