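import Crest.Agent.R172.FrmB
import Crest.Agent.R172.ZP1
import Crest.Agent.R172.SpEx

/-!
Row 172 (S0260), T0, any radical, any `D`: the END in frame language.

`p : ι × n` is a frame (`F v = p`, `Φ_s p = p al_s`, `g = pᵀ J p`), `M` the core with the
nondegenerate form `β`, `π : K^n → M` onto, `β (π y) (π y') = y · g y'`.

* `end_zero`: `y = (X, X, X)` in `Q3` with correction `z` whose core part is in `ZZ`: the
  operator of `X` on the core is zero.
* `false_of_arms`: single-arm memberships contradict `Core.Tame`.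
-/

set_option autoImplicit false
set_option linter.unusedSectionVars false
set_option linter.unusedVariables false

namespace Crest.Agent.R172.RDEnd

open Matrix Module Crest.Agent.R172.FO Crest.Agent.R172.FrmB
open Crest.Agent.R172.ZP (ZZ)
open Crest.Agent.R172.Core (NS Tame)

variable {ι : Type*} [Fintype ι] [DecidableEq ι] {δ : Type*} [Fintype δ] [DecidableEq δ]
variable {n : Type*} [Fintype n] [DecidableEq n]
variable {k K : Type*} [Field k] [Field K] [Algebra k K]
variable {arm : δ → Fin 3} {J : Matrix ι ι K} {B : Matrix δ δ K}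
  {N W : Submodule K (Matrix ι δ K)} {F : Matrix ι δ K} {p : Matrix ι n K}

section frame

variable {v : Matrix δ n K} {al : Fin 3 → Matrix n n K} {X z : Matrix n n K}
  {w : Matrix ι δ K}

/-- the frame identities of the end -/
theorem frame_end (hD : Data k arm J B N W) (hF : F ∈ N ⊓ W) (hv : F * v = p)
    (hal : ∀ s, Phi arm J B F s * p = p * al s)
    (hN : io arm J F p (fun _ => X) - w ∈ N) (hW : w ∈ W)
    (hz : wᵀ * J * p = Fᵀ * J * p * z) :
    (Xᵀ * (pᵀ * J * p) - z)ᵀ * (pᵀ * J * p) = (pᵀ * J * p) * (Xᵀ * (pᵀ * J * p) - z) ∧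
      ∀ s, (pᵀ * J * p) * (al s * (Xᵀ * (pᵀ * J * p) - z)) =
        (pᵀ * J * p) * ((Xᵀ * (pᵀ * J * p) - z) * al s) := by
  have hX : io arm J F p (fun _ => X) = p * X * pᵀ * J * F := by
    rw [io_eq]
    have : ∀ r : Fin 3, p * (X * (pᵀ * (J * (F * E K arm r)))) = p * X * pᵀ * J * F * E K arm r := by
      intro r; simp only [Matrix.mul_assoc]
    simp only [this]
    rw [← Matrix.mul_sum, sum_E, Matrix.mul_one]
  rw [hX] at hN
  set kk : Matrix ι δ K := p * X * pᵀ * J * F - w with hkk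
  have hkW : kk ∈ W := W.sub_mem (hD.W_left _ hF.2 _) hW
  have hkK : kk ∈ N ⊓ W := ⟨hN, hkW⟩
  set ζ : Matrix n n K := Xᵀ * (pᵀ * J * p) - z with hζ
  set g : Matrix n n K := pᵀ * J * p with hg
  have hk1 : kkᵀ * J * p = Fᵀ * J * p * ζ := by
    rw [hkk, transpose_sub, Matrix.sub_mul, Matrix.sub_mul, hz, hζ, Matrix.mul_sub]
    congr 1
    simp only [transpose_mul, transpose_transpose, hD.J_symm, Matrix.mul_assoc, hg]
  have hk2 : pᵀ * J * kk = ζᵀ * (pᵀ * J * F) := by
    have := congrArg transpose hk1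
    simp only [transpose_mul, transpose_transpose, hD.J_symm] at this
    rw [Matrix.mul_assoc, this]
    simp only [Matrix.mul_assoc]
  have hpF : pᵀ * J * F * v = g := by
    rw [Matrix.mul_assoc, hv]
  have h1 := hD.symm_U hF hkK
  -- `Fᵀ J kk = kkᵀ J F`
  have hsym : ζᵀ * g = g * ζ := by
    have e1 : ζᵀ * g = vᵀ * (Fᵀ * J * kk) * v := by
      have e2 : vᵀ * (Fᵀ * J * kk) * v = (F * v)ᵀ * J * kk * v := by
        rw [transpose_mul]; simp only [Matrix.mul_assoc]
      rw [e2, hv, hk2, Matrix.mul_assoc, hpF]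
    have e3 : g * ζ = vᵀ * (kkᵀ * J * F) * v := by
      have e4 : vᵀ * (kkᵀ * J * F) * v = vᵀ * (kkᵀ * J * p) := by
        rw [← hv]; simp only [Matrix.mul_assoc]
      rw [e4, hk1]
      have e5 : vᵀ * (Fᵀ * J * p * ζ) = (F * v)ᵀ * J * p * ζ := by
        rw [transpose_mul]; simp only [Matrix.mul_assoc]
      rw [e5, hv]
    rw [e1, e3, h1]
  refine ⟨hsym, fun s => ?_⟩
  have h2 := hD.symm_arm hF hkK s
  unfold M at h2
  -- F E B kkᵀ = kk E B Fᵀ
  have e6 : pᵀ * J * (F * E K arm s * B * kkᵀ) * J * p = g * (al s * ζ) := by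
    have e7 : pᵀ * J * (F * E K arm s * B * kkᵀ) * J * p
        = pᵀ * J * (F * E K arm s * B) * (kkᵀ * J * p) := by
      simp only [Matrix.mul_assoc]
    rw [e7, hk1]
    have e8 := hal s
    unfold Phi M at e8
    calc pᵀ * J * (F * E K arm s * B) * (Fᵀ * J * p * ζ)
        = pᵀ * J * (F * E K arm s * B * Fᵀ * J * p) * ζ := by simp only [Matrix.mul_assoc]
      _ = pᵀ * J * (p * al s) * ζ := by rw [e8]
      _ = _ := by rw [hg]; simp only [Matrix.mul_assoc]
  have e9 : pᵀ * J * (kk * E K arm s * B * Fᵀ) * J * p = g * (ζ * al s) := by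
    have e8 := hal s
    unfold Phi M at e8
    calc pᵀ * J * (kk * E K arm s * B * Fᵀ) * J * p
        = (pᵀ * J * kk) * (E K arm s * B * Fᵀ * J * p) := by simp only [Matrix.mul_assoc]
      _ = ζᵀ * (pᵀ * J) * (F * E K arm s * B * Fᵀ * J * p) := by
          rw [hk2]; simp only [Matrix.mul_assoc]
      _ = ζᵀ * (pᵀ * J) * (p * al s) := by rw [e8]
      _ = (ζᵀ * g) * al s := by rw [hg]; simp only [Matrix.mul_assoc]
      _ = _ := by rw [hsym, Matrix.mul_assoc]
  rw [← e6, ← e9, h2]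

end frame

section core

variable {M : Type*} [AddCommGroup M] [Module K M]

/-- the core of a frame -/
structure Cr (J : Matrix ι ι K) (p : Matrix ι n K) (al : Fin 3 → Matrix n n K)
    (β : LinearMap.BilinForm K M) (π : (n → K) →ₗ[K] M) (Ψ : Fin 3 → Module.End K M)
    (T : Module.End K M →ₗ[K] Module.End K M) : Prop where
  ns : NS β
  onto : Function.Surjective π
  form : ∀ y y', β (π y) (π y') = y ⬝ᵥ ((pᵀ * J * p) *ᵥ y')
  op : ∀ s y, Ψ s (π y) = π (al s *ᵥ y)
  sa : ∀ s v w, β (Ψ s v) w = β v (Ψ s w)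
  adj : ∀ A v w, β (T A v) w = β v (A w)
  top : ∀ x : Module.End K M, (∀ r, x * Ψ r = 0) → x = 0

variable {al : Fin 3 → Matrix n n K} {β : LinearMap.BilinForm K M}
  {π : (n → K) →ₗ[K] M} {Ψ : Fin 3 → Module.End K M} {D : Module.End K M}
  {T : Module.End K M →ₗ[K] Module.End K M}

theorem Cr.ext (h : Cr J p al β π Ψ T) {A A' : Module.End K M}
    (hA : ∀ v w, β (A v) w = β (A' v) w) : A = A' := by
  apply LinearMap.ext
  intro v
  rw [← sub_eq_zero]
  apply h.ns.nd
  intro w
  rw [map_sub, LinearMap.sub_apply, hA, sub_self]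

theorem Cr.TT (h : Cr J p al β π Ψ T) (A : Module.End K M) : T (T A) = A := by
  apply h.ext
  intro v w
  rw [h.adj, h.ns.symm, h.adj, h.ns.symm]

theorem dt (A : Matrix n n K) (y u : n → K) : (A *ᵥ y) ⬝ᵥ u = y ⬝ᵥ (Aᵀ *ᵥ u) := by
  rw [dotProduct_mulVec, vecMul_transpose]

/-- a frame element with core correction in `ZZ` and skew operator has zero operator -/
theorem Cr.zero [CharZero K] (h : Cr J p al β π Ψ T) {X z : Matrix n n K}
    {A zb : Module.End K M} (hA : ∀ v w, β (A v) w = - β v (A w))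
    (hX : ∀ y, π ((Xᵀ * (pᵀ * J * p)) *ᵥ y) = - A (π y)) (hzb : ∀ y, π (z *ᵥ y) = zb (π y))
    (hZ : T zb ∈ ZZ T 1 D Ψ)
    (h1 : (Xᵀ * (pᵀ * J * p) - z)ᵀ * (pᵀ * J * p) = (pᵀ * J * p) * (Xᵀ * (pᵀ * J * p) - z))
    (h2 : ∀ s, (pᵀ * J * p) * (al s * (Xᵀ * (pᵀ * J * p) - z)) =
        (pᵀ * J * p) * ((Xᵀ * (pᵀ * J * p) - z) * al s)) : A = 0 := by
  set g : Matrix n n K := pᵀ * J * p with hg
  set ζ : Matrix n n K := Xᵀ * g - z with hζ
  have hform : ∀ y y', β (π y) (π y') = y ⬝ᵥ (g *ᵥ y') := h.form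
  have hζb : ∀ y, π (ζ *ᵥ y) = (- A - zb) (π y) := by
    intro y
    rw [hζ, Matrix.sub_mulVec, map_sub, hX, hzb]
    rfl
  have hsa : ∀ v w, β ((- A - zb) v) w = β v ((- A - zb) w) := by
    intro v w
    obtain ⟨y, rfl⟩ := h.onto v
    obtain ⟨y', rfl⟩ := h.onto w
    rw [← hζb, ← hζb, hform, hform, dt, mulVec_mulVec, mulVec_mulVec, h1]
  have hcomm : ∀ s v, (- A - zb) (Ψ s v) = Ψ s ((- A - zb) v) := by
    intro s v
    obtain ⟨y, rfl⟩ := h.onto v
    rw [h.op, ← hζb, ← hζb, h.op, ← sub_eq_zero]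
    apply h.ns.nd
    intro w
    obtain ⟨y', rfl⟩ := h.onto w
    rw [h.ns.symm, map_sub, hform, hform, mulVec_mulVec, mulVec_mulVec, mulVec_mulVec,
      mulVec_mulVec, Matrix.mul_assoc g ζ, Matrix.mul_assoc g (al s), h2, sub_self]
  have hTz : T (- A - zb) = - A - zb := by
    apply h.ext
    intro v w
    rw [h.adj, ← hsa]
  have hTA : T A = - A := by
    apply h.ext
    intro v w
    rw [h.adj, LinearMap.neg_apply, map_neg, LinearMap.neg_apply, hA, neg_neg]
  have hkey : A - T zb = - A - zb := by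
    have := hTz
    rw [map_sub, map_neg, hTA, neg_neg] at this
    exact this
  let _ : Module ℚ (Module.End K M) := Module.compHom _ (algebraMap ℚ K)
  refine ZP.skew_eq_zero (z := T zb) hZ hTA (mul_one A) (fun x _ hx => h.top x hx) ?_ ?_
  · rw [hkey, hTz]
  · intro r
    rw [hkey]
    apply LinearMap.ext
    intro v
    exact hcomm r v

/-- good families: `Q3` without `img`, with core correction in `ZZ` -/
def Rel (arm : δ → Fin 3) (J : Matrix ι ι K) (N W : Submodule K (Matrix ι δ K))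
    (F : Matrix ι δ K) (p : Matrix ι n K) (π : (n → K) →ₗ[K] M)
    (T : Module.End K M →ₗ[K] Module.End K M) (D : Module.End K M)
    (Ψ : Fin 3 → Module.End K M) : Submodule K (Fin 3 → Matrix n n K) where
  carrier := {y | ∃ (w : Matrix ι δ K) (z : Matrix n n K) (zb : Module.End K M), w ∈ W ∧
    io arm J F p y - w ∈ N ∧ wᵀ * J * p = Fᵀ * J * p * z ∧ (∀ x, π (z *ᵥ x) = zb (π x)) ∧
    T zb ∈ ZZ T 1 D Ψ}
  add_mem' := by
    rintro y y' ⟨w, z, zb, h1, h2, h3, h4, h5⟩ ⟨w', z', zb', h1', h2', h3', h4', h5'⟩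
    refine ⟨w + w', z + z', zb + zb', W.add_mem h1 h1', ?_, ?_, ?_, ?_⟩
    · have e : io arm J F p (y + y') = io arm J F p y + io arm J F p y' := io_add y y'
      rw [e]
      have : io arm J F p y + io arm J F p y' - (w + w') =
        (io arm J F p y - w) + (io arm J F p y' - w') := by abel
      rw [this]; exact N.add_mem h2 h2'
    · rw [transpose_add, Matrix.add_mul, Matrix.add_mul, h3, h3', Matrix.mul_add]
    · intro x
      rw [Matrix.add_mulVec, map_add, h4, h4']; rfl
    · rw [map_add]; exact Submodule.add_mem _ h5 h5'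
  zero_mem' := by
    refine ⟨0, 0, 0, W.zero_mem, ?_, ?_, ?_, ?_⟩
    · have e : io arm J F p (0 : Fin 3 → Matrix n n K) = 0 := by
        rw [io_eq]
        simp
      rw [e, sub_zero]; exact N.zero_mem
    · simp
    · intro x; simp
    · rw [map_zero]; exact Submodule.zero_mem _
  smul_mem' := by
    rintro c y ⟨w, z, zb, h1, h2, h3, h4, h5⟩
    refine ⟨c • w, c • z, c • zb, W.smul_mem c h1, ?_, ?_, ?_, ?_⟩
    · have e : io arm J F p (c • y) = c • io arm J F p y := io_smul c y
      rw [e, ← smul_sub]; exact N.smul_mem c h2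
    · rw [transpose_smul, Matrix.smul_mul, Matrix.smul_mul, h3, Matrix.mul_smul]
    · intro x
      rw [Matrix.smul_mulVec, map_smul, h4]; rfl
    · rw [map_smul]; exact Submodule.smul_mem _ c h5

theorem mem_Rel_of_Q3 {y : Fin 3 → Matrix n n K} {w : Matrix ι δ K} {z : Matrix n n K}
    {zb : Module.End K M} (h : Q3 arm J B N W F p y w z) (h4 : ∀ x, π (z *ᵥ x) = zb (π x))
    (h5 : T zb ∈ ZZ T 1 D Ψ) : y ∈ Rel arm J N W F p π T D Ψ :=
  ⟨w, z, zb, h.memW, h.memN, h.val, h4, h5⟩

/-- single arm family -/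
noncomputable def qs (s : Fin 3) : (n → K) →ₗ[K] (n → K) →ₗ[K] (Fin 3 → Matrix n n K) :=
  LinearMap.mk₂ K (fun y y' => Pi.single s (vecMulVec y y'))
    (fun a b c => by rw [add_vecMulVec, Pi.single_add])
    (fun t a b => by rw [smul_vecMulVec, Pi.single_smul])
    (fun a b c => by rw [vecMulVec_add, Pi.single_add])
    (fun t a b => by rw [vecMulVec_smul, Pi.single_smul])

@[simp] theorem qs_apply (s : Fin 3) (y y' : n → K) :
    qs s y y' = Pi.single s (vecMulVec y y') := rfl

/-- the matrix of a tensor -/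
noncomputable def mt : TensorProduct K (n → K) (n → K) →ₗ[K] Matrix n n K :=
  TensorProduct.lift (LinearMap.mk₂ K (fun y y' => vecMulVec y y')
    (fun a b c => add_vecMulVec _ _ _) (fun t a b => smul_vecMulVec _ _ _)
    (fun a b c => vecMulVec_add _ _ _) (fun t a b => vecMulVec_smul _ _ _))

theorem mt_tmul (y y' : n → K) : mt (y ⊗ₜ[K] y') = vecMulVec y y' := rfl

theorem mt_comm (x : TensorProduct K (n → K) (n → K)) :
    mt (TensorProduct.comm K (n → K) (n → K) x) = (mt x)ᵀ := by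
  induction x using TensorProduct.induction_on with
  | zero => simp
  | tmul a b =>
    rw [TensorProduct.comm_tmul, mt_tmul, mt_tmul]
    ext i j
    simp [vecMulVec_apply, mul_comm]
  | add a b ha hb => rw [map_add, map_add, map_add, transpose_add, ha, hb]

theorem lift_qs (s : Fin 3) (x : TensorProduct K (n → K) (n → K)) :
    TensorProduct.lift (qs s) x = Pi.single s (mt x) := by
  induction x using TensorProduct.induction_on with
  | zero => simp
  | tmul a b => rw [TensorProduct.lift.tmul, mt_tmul, qs_apply]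
  | add a b ha hb => rw [map_add, map_add, ha, hb, Pi.single_add]

theorem ct_mt (g : Matrix n n K) (a b : n → K) (x : TensorProduct K (n → K) (n → K)) :
    SPE.ct (Matrix.toLinearMap₂' K g) a b x = (g *ᵥ a) ⬝ᵥ (mt x *ᵥ (g *ᵥ b)) := by
  induction x using TensorProduct.induction_on with
  | zero => simp
  | tmul y y' =>
    rw [SPE.ct_tmul, mt_tmul, Matrix.toLinearMap₂'_apply', Matrix.toLinearMap₂'_apply',
      vecMulVec_mulVec, dotProduct_smul]
    rw [dotProduct_comm y, op_smul_eq_smul, smul_eq_mul]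
    ring
  | add y y' h1 h2 => rw [map_add, map_add, h1, h2, Matrix.add_mulVec, dotProduct_add]

/-- **END**: single-arm memberships contradict `Core.Tame`. -/
theorem false_of_arms [CharZero K] [FiniteDimensional K M] (hD : Data k arm J B N W)
    (hF : F ∈ N ⊓ W) {v : Matrix δ n K} (hv : F * v = p)
    (hal : ∀ s, Phi arm J B F s * p = p * al s) (h : Cr J p al β π Ψ T)
    {Dm : Module.End K M} (hDΦ : ∀ s v, Dm (Ψ s v) = Ψ s (Dm v))
    (hDs : ⨆ ν, Dm.maxGenEigenspace ν = ⊤) (hT : Tame Ψ Dm) {l : Fin 3 → ℕ}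
    (h1 : ∀ s, 1 ≤ l s) (hsum : ∑ s, (1 - 1 / (l s : ℚ)) = 2) (hl : ∀ s, Ψ s ^ l s = 0)
    (hfree : ∀ s, l s * finrank K (LinearMap.ker (Ψ s)) = finrank K M)
    (hq1 : ∀ s, ∀ r, π r = 0 → ∀ y, (Pi.single s (vecMulVec r y) : Fin 3 → Matrix n n K) ∈
      Rel arm J N W F p π T D Ψ)
    (hq2 : ∀ s, ∀ r, π r = 0 → ∀ y, (Pi.single s (vecMulVec y r) : Fin 3 → Matrix n n K) ∈
      Rel arm J N W F p π T D Ψ)
    (hq3 : ∀ s i j, i + j + 1 = l s → ∀ y y' : n → K,
      (Pi.single s (vecMulVec ((al s ^ i) *ᵥ y) ((al s ^ j) *ᵥ y')) : Fin 3 → Matrix n n K) ∈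
        Rel arm J N W F p π T D Ψ) :
    False := by
  classical
  set g : Matrix n n K := pᵀ * J * p with hg
  obtain ⟨l', -, -, -, h4, h5, h6⟩ := TC.free_of_tame hDΦ hDs hT
  -- the quotient
  let e : ((n → K) ⧸ LinearMap.ker π) ≃ₗ[K] M := π.quotKerEquivOfSurjective h.onto
  have he : ∀ x, e ((LinearMap.ker π).mkQ x) = π x := fun x => rfl
  let Φq : Fin 3 → Module.End K ((n → K) ⧸ LinearMap.ker π) := fun s => e.symm.conj (Ψ s)
  have hpow : ∀ s (j : ℕ), Φq s ^ j = e.symm.conj (Ψ s ^ j) := by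
    intro s j
    induction j with
    | zero => apply LinearMap.ext; intro x; simp [LinearEquiv.conj_apply]
    | succ j ih =>
      rw [pow_succ, ih, pow_succ]
      apply LinearMap.ext; intro x
      simp [Φq, LinearEquiv.conj_apply]
  have hw : ∀ x y, Matrix.toLinearMap₂' K g x y = β (π x) (π y) := by
    intro x y
    rw [Matrix.toLinearMap₂'_apply', h.form]
  obtain ⟨T0, t1, ⟨a, b, t2⟩, t3⟩ := SPE.P_end (R := LinearMap.ker π) (E := Fin 3 → Matrix n n K)
    (S := Rel arm J N W F p π T D Ψ) (q := qs) (Φ := fun s => Matrix.toLin' (al s))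
    (Φq := Φq) (l := l) (Matrix.toLinearMap₂' K g)
    (fun x y => by rw [hw, hw, h.ns.symm])
    (fun x => by
      rw [LinearMap.mem_ker]
      constructor
      · intro hx y; rw [hw, hx, map_zero, LinearMap.zero_apply]
      · intro hx
        apply h.ns.nd
        intro w
        obtain ⟨y, rfl⟩ := h.onto w
        rw [← hw]; exact hx y)
    (fun s x y => by
      rw [hw, hw, Matrix.toLin'_apply, Matrix.toLin'_apply, ← h.op, ← h.op, h.sa])
    (fun s x => by
      apply e.injective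
      change e (e.symm (Ψ s (e ((LinearMap.ker π).mkQ x)))) = _
      rw [LinearEquiv.apply_symm_apply, he, he, Matrix.toLin'_apply, h.op])
    h1 hsum
    (fun s => by rw [hpow, hl s]; apply LinearMap.ext; intro x; simp [LinearEquiv.conj_apply])
    (fun s => by
      have e1 : LinearMap.ker (Φq s) = (LinearMap.ker (Ψ s)).map (e.symm : M →ₗ[K] _) := by
        ext x
        rw [LinearMap.mem_ker, Submodule.mem_map]
        constructor
        · intro hx
          refine ⟨e x, ?_, by simp⟩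
          rw [LinearMap.mem_ker]
          apply e.symm.injective
          rw [map_zero]
          exact hx
        · rintro ⟨m, hm, rfl⟩
          change e.symm (Ψ s (e (e.symm m))) = 0
          rw [LinearEquiv.apply_symm_apply, LinearMap.mem_ker.1 hm, map_zero]
      rw [e1, LinearEquiv.finrank_map_eq, hfree, e.finrank_eq])
    (by rw [e.finrank_eq]; exact h5)
    (fun hl3 => by
      rw [e.finrank_eq]
      have h7 := h6 0
      have h8 := hfree 0
      have h9 := h4 0
      rw [hl3 0] at h8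
      -- the two nilpotency data have the same kernel
      by_contra hcon
      have h10 : finrank K M = 3 := by
        have : 0 < finrank K (LinearMap.ker (Ψ 0)) := by
          rw [Nat.pos_iff_ne_zero]; intro h0; rw [h0] at h8; omega
        omega
      have h11 : finrank K (LinearMap.ker (Ψ 0)) = 1 := by omega
      rw [h11, h10] at h9
      omega)
    (fun s r hr y => hq1 s r (LinearMap.mem_ker.1 hr) y)
    (fun s r hr y => hq2 s r (LinearMap.mem_ker.1 hr) y)
    (fun s i j hij y y' => by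
      rw [qs_apply, ← Matrix.toLin'_pow, ← Matrix.toLin'_pow, Matrix.toLin'_apply,
        Matrix.toLin'_apply]
      exact hq3 s i j hij y y')
  -- the matrix
  set X : Matrix n n K := mt T0 with hXdef
  have hXt : Xᵀ = -X := by
    rw [hXdef, ← mt_comm, t1, map_neg]
  have hXR : (fun _ : Fin 3 => X) ∈ Rel arm J N W F p π T D Ψ := by
    have e1 : (fun _ : Fin 3 => X) = ∑ s, TensorProduct.lift (qs s) T0 := by
      funext r
      rw [Finset.sum_apply, Finset.sum_eq_single r]
      · rw [lift_qs, Pi.single_eq_same]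
      · intro s _ hs
        rw [lift_qs, Pi.single_eq_of_ne (Ne.symm hs)]
      · intro hr; exact absurd (Finset.mem_univ r) hr
    rw [e1]
    exact Submodule.sum_mem _ fun s _ => t3 s
  obtain ⟨w, z, zb, r1, r2, r3, r4, r5⟩ := hXR
  obtain ⟨σ, hσ⟩ := LinearMap.exists_rightInverse_of_surjective π
    (LinearMap.range_eq_top.2 h.onto)
  have hσ' : ∀ m, π (σ m) = m := fun m => LinearMap.congr_fun hσ m
  have hgk : ∀ x, π x = 0 → g *ᵥ x = 0 := by
    intro x hx
    have : ∀ y : n → K, y ⬝ᵥ (g *ᵥ x) = 0 := by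
      intro y
      rw [← h.form, hx, map_zero]
    funext i
    have := this (Pi.single i 1)
    rwa [single_one_dotProduct] at this
  let A : Module.End K M := π ∘ₗ Matrix.toLin' (X * g) ∘ₗ σ
  have hA : ∀ y, A (π y) = π ((X * g) *ᵥ y) := by
    intro y
    change π (Matrix.toLin' (X * g) (σ (π y))) = _
    rw [Matrix.toLin'_apply]
    have h7 : g *ᵥ (σ (π y) - y) = 0 := hgk _ (by rw [map_sub, hσ', sub_self])
    rw [mulVec_sub, sub_eq_zero] at h7
    rw [← mulVec_mulVec, h7, mulVec_mulVec]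
  have hform : ∀ y y', β (π y) (π y') = y ⬝ᵥ (g *ᵥ y') := h.form
  have hgt : gᵀ = g := by
    rw [hg, transpose_mul, transpose_mul, transpose_transpose, hD.J_symm, Matrix.mul_assoc]
  have hAs : ∀ v w, β (A v) w = - β v (A w) := by
    intro v w
    obtain ⟨y, rfl⟩ := h.onto v
    obtain ⟨y', rfl⟩ := h.onto w
    rw [hA, hA, hform, hform, dt, mulVec_mulVec, mulVec_mulVec, transpose_mul, hgt, hXt,
      Matrix.mul_neg, Matrix.neg_mul, neg_mulVec, dotProduct_neg, Matrix.mul_assoc]
  obtain ⟨f1, f2⟩ := frame_end hD hF hv hal r2 r1 r3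
  have hA0 : A = 0 := h.zero hAs (fun y => by
    rw [hXt, Matrix.neg_mul, neg_mulVec, map_neg, hA]) r4 r5 f1 f2
  apply t2
  rw [ct_mt, ← hXdef]
  have e3 : (g *ᵥ a) ⬝ᵥ (X *ᵥ (g *ᵥ b)) = β (π a) (A (π b)) := by
    rw [hA, hform, dt, hgt, mulVec_mulVec, mulVec_mulVec, mulVec_mulVec, Matrix.mul_assoc]
  rw [e3, hA0, LinearMap.zero_apply, map_zero]

end core

end Crest.Agent.R172.RDEnd
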