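import Crest.Agent.R172.ZPL
import Crest.Agent.R172.ZP2
import Crest.Agent.R172.FrmB

/-!
Row 172 (S0260), T0 for arbitrary radical and arbitrary `D`, in a frame: the space of corrections
`HasZ` (twisted self-adjoint on the core `M`) and its stability under the two derivatives.
-/

set_option autoImplicit false
set_option linter.unusedSectionVars false

namespace Crest.Agent.R172.ZFr

open Matrix Module Crest.Agent.R172.FO Crest.Agent.R172.FrmB Crest.Agent.R172.ZP

section Conn

variable {k K : Type*} [Field k] [Field K] [Algebra k K]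
variable {M : Type*} [AddCommGroup M] [Module K M]

/-- a connection over the derivation `d` -/
structure Conn (d : Derivation k K K) (nb : M → M) : Prop where
  add : ∀ x y, nb (x + y) = nb x + nb y
  smul : ∀ (a : K) x, nb (a • x) = d a • x + a • nb x

/-- the derivation induced on endomorphisms -/
def Conn.dE {d : Derivation k K K} {nb : M → M} (h : Conn d nb) (A : End K M) : End K M where
  toFun m := nb (A m) - A (nb m)
  map_add' x y := by
    rw [map_add, h.add, h.add, map_add]; abel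
  map_smul' a x := by
    rw [map_smul, h.smul, h.smul, map_add, map_smul, map_smul, RingHom.id_apply, smul_sub]; abel

variable {d : Derivation k K K} {nb : M → M} (h : Conn d nb)

theorem Conn.dE_apply (A : End K M) (m : M) : h.dE A m = nb (A m) - A (nb m) := rfl

theorem Conn.dE_add (A A' : End K M) : h.dE (A + A') = h.dE A + h.dE A' := by
  ext m
  simp only [Conn.dE_apply, LinearMap.add_apply, h.add]
  abel

theorem Conn.dE_mul (A A' : End K M) : h.dE (A * A') = h.dE A * A' + A * h.dE A' := by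
  ext m
  simp only [Conn.dE_apply, LinearMap.add_apply, Module.End.mul_apply, map_sub]
  abel

theorem Conn.dE_one : h.dE (1 : End K M) = 0 := by
  ext m
  simp [Conn.dE_apply]

theorem Conn.dE_zero : h.dE (0 : End K M) = 0 := by
  have := h.dE_add 0 0
  rw [add_zero] at this
  exact left_eq_add.mp this

theorem Conn.dE_smul_const {a : K} (ha : d a = 0) (A : End K M) :
    h.dE (a • A) = a • h.dE A := by
  ext m
  simp only [Conn.dE_apply, LinearMap.smul_apply, h.smul, ha, zero_smul, zero_add, smul_sub]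

end Conn

section Adj

variable {K : Type*} [Field K] {M : Type*} [AddCommGroup M] [Module K M]

/-- `T` is the adjoint of the nondegenerate symmetric form `β` -/
structure Adj (β : LinearMap.BilinForm K M) (T : End K M →ₗ[K] End K M) : Prop where
  symm : ∀ x y, β x y = β y x
  nondeg : ∀ x, (∀ y, β x y = 0) → x = 0
  adj : ∀ A x y, β (T A x) y = β x (A y)

variable {β : LinearMap.BilinForm K M} {T : End K M →ₗ[K] End K M}

theorem Adj.ext (h : Adj β T) {A A' : End K M} (hA : ∀ x y, β (A x) y = β (A' x) y) : A = A' := by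
  ext x
  rw [← sub_eq_zero]
  apply h.nondeg
  intro y
  rw [map_sub, LinearMap.sub_apply, hA, sub_self]

theorem Adj.mul (h : Adj β T) (A A' : End K M) : T (A * A') = T A' * T A := by
  apply h.ext
  intro x y
  rw [h.adj, Module.End.mul_apply, Module.End.mul_apply, h.adj, h.adj]

theorem Adj.TT (h : Adj β T) (A : End K M) : T (T A) = A := by
  apply h.ext
  intro x y
  rw [h.adj, h.symm, h.adj, h.symm]

theorem Adj.eq_of (h : Adj β T) {A A' : End K M} (hA : ∀ x y, β (A' x) y = β x (A y)) :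
    T A = A' := by
  apply h.ext
  intro x y
  rw [h.adj, hA]

theorem Adj.one (h : Adj β T) : T 1 = 1 := h.eq_of fun _ _ => rfl

end Adj

section Mono

variable {K E κ : Type*} [Field K] [Ring E] [Algebra K E] {T : E →ₗ[K] E} {e D : E} {Φ : κ → E}

theorem ZZ_le_zero : ZZ T e D Φ ≤ ZZ T e 0 Φ := by
  rintro z ⟨h, h1, h2, h3, h4, h5, h6, h7⟩
  refine ⟨h, h1, ⟨1, ?_⟩, h3, h4, h5, h6, h7⟩
  funext k
  simp

theorem nil_zero (x : E) : NilAt (adE (0 : E)) x := ⟨1, by simp⟩

end Mono

section Core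

variable {n : Type*} [Fintype n] [DecidableEq n]
variable {k K : Type*} [Field k] [Field K] [Algebra k K]
variable {M : Type*} [AddCommGroup M] [Module K M]

/-- frame over the core `M` -/
structure CF (β : LinearMap.BilinForm K M) (T : End K M →ₗ[K] End K M) (q : (n → K) →ₗ[K] M)
    (g : Matrix n n K) : Prop where
  adj : Adj β T
  surj : Function.Surjective q
  form : ∀ y y', β (q y) (q y') = y ⬝ᵥ (g *ᵥ y')

variable {β : LinearMap.BilinForm K M} {T : End K M →ₗ[K] End K M} {q : (n → K) →ₗ[K] M}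
  {g : Matrix n n K}

theorem CF.ker (h : CF β T q g) (y : n → K) : q y = 0 ↔ g *ᵥ y = 0 := by
  constructor
  · intro hy
    have h1 : ∀ y', y' ⬝ᵥ (g *ᵥ y) = 0 := by
      intro y'
      rw [← h.form, hy, map_zero]
    exact dotProduct_eq_zero _ (fun w => by rw [dotProduct_comm]; exact h1 w)
  · intro hy
    apply h.adj.nondeg
    intro m
    obtain ⟨y', rfl⟩ := h.surj m
    rw [h.adj.symm, h.form, hy, dotProduct_zero]

/-- `z` lifts `zb` -/
def Lifts (q : (n → K) →ₗ[K] M) (z : Matrix n n K) (zb : End K M) : Prop :=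
  ∀ y, q (z *ᵥ y) = zb (q y)

theorem Lifts.add {z z' : Matrix n n K} {zb zb' : End K M} (h : Lifts q z zb)
    (h' : Lifts q z' zb') : Lifts q (z + z') (zb + zb') := by
  intro y
  rw [Matrix.add_mulVec, map_add, h, h', LinearMap.add_apply]

theorem Lifts.sub {z z' : Matrix n n K} {zb zb' : End K M} (h : Lifts q z zb)
    (h' : Lifts q z' zb') : Lifts q (z - z') (zb - zb') := by
  intro y
  rw [Matrix.sub_mulVec, map_sub, h, h', LinearMap.sub_apply]

theorem Lifts.smul {z : Matrix n n K} {zb : End K M} (a : K) (h : Lifts q z zb) :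
    Lifts q (a • z) (a • zb) := by
  intro y
  rw [Matrix.smul_mulVec, map_smul, h, LinearMap.smul_apply]

theorem Lifts.mul {z z' : Matrix n n K} {zb zb' : End K M} (h : Lifts q z zb)
    (h' : Lifts q z' zb') : Lifts q (z * z') (zb * zb') := by
  intro y
  rw [← Matrix.mulVec_mulVec, h, h', Module.End.mul_apply]

theorem Lifts.one : Lifts q (1 : Matrix n n K) 1 := by
  intro y
  rw [Matrix.one_mulVec, Module.End.one_apply]

theorem Lifts.zero : Lifts q (0 : Matrix n n K) 0 := by
  intro y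
  rw [Matrix.zero_mulVec, map_zero, LinearMap.zero_apply]

theorem Lifts.unique (hq : Function.Surjective q) {z : Matrix n n K} {zb zb' : End K M}
    (h : Lifts q z zb) (h' : Lifts q z zb') : zb = zb' := by
  ext m
  obtain ⟨y, rfl⟩ := hq m
  rw [← h, ← h']

theorem CF.exists_lift (h : CF β T q g) {z N : Matrix n n K} (hz : g * z = N * g) :
    ∃ zb : End K M, Lifts q z zb := by
  have hle : LinearMap.ker q ≤ LinearMap.ker (q ∘ₗ Matrix.toLin' z) := by
    intro y hy
    rw [LinearMap.mem_ker] at hy ⊢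
    rw [LinearMap.comp_apply, Matrix.toLin'_apply, h.ker, Matrix.mulVec_mulVec, hz,
      ← Matrix.mulVec_mulVec, (h.ker y).1 hy, Matrix.mulVec_zero]
  refine ⟨((LinearMap.ker q).liftQ (q ∘ₗ Matrix.toLin' z) hle) ∘ₗ
    (q.quotKerEquivOfSurjective h.surj).symm.toLinearMap, fun y => ?_⟩
  have h1 : (q.quotKerEquivOfSurjective h.surj).symm (q y) = (LinearMap.ker q).mkQ y := by
    rw [LinearEquiv.symm_apply_eq]
    rfl
  rw [LinearMap.comp_apply, LinearEquiv.coe_coe, h1]
  rfl

/-- the lift of the adjoint -/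
theorem CF.T_eq (h : CF β T q g) {z z' : Matrix n n K} {zb zb' : End K M} (hz : Lifts q z zb)
    (hz' : Lifts q z' zb') (he : g * z' = zᵀ * g) : T zb = zb' := by
  apply h.adj.eq_of
  intro x y
  obtain ⟨x, rfl⟩ := h.surj x
  obtain ⟨y, rfl⟩ := h.surj y
  rw [← hz, ← hz', h.adj.symm, h.form, h.form, Matrix.mulVec_mulVec, he]
  rw [← Matrix.mulVec_mulVec, Matrix.dotProduct_mulVec, Matrix.vecMul_transpose]
  have : g *ᵥ (z *ᵥ y) = g *ᵥ (z *ᵥ y) := rfl
  rw [← h.form, ← h.form, h.adj.symm]

/-- equality on the core from equality of the Gram matrices -/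
theorem CF.eq_of_gram (h : CF β T q g) {z z' : Matrix n n K} {zb zb' : End K M}
    (hz : Lifts q z zb) (hz' : Lifts q z' zb') (he : g * z = g * z') : zb = zb' := by
  ext m
  obtain ⟨y, rfl⟩ := h.surj m
  rw [← hz, ← hz', ← sub_eq_zero, ← map_sub, h.ker, Matrix.mulVec_sub, Matrix.mulVec_mulVec,
    Matrix.mulVec_mulVec, he, sub_self]

/-- the frame connection -/
def fr (d : Derivation k K K) (P : Matrix n n K) (y : n → K) : n → K :=
  (fun i => d (y i)) + P *ᵥ y

theorem d_mulVec (d : Derivation k K K) {m : Type*} (A : Matrix m n K) (y : n → K) :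
    (fun i => d ((A *ᵥ y) i)) = (A.map d) *ᵥ y + A *ᵥ (fun i => d (y i)) := by
  funext i
  simp only [Matrix.mulVec, dotProduct, Pi.add_apply, map_sum, Derivation.leibniz, smul_eq_mul,
    Matrix.map_apply, Finset.sum_add_distrib]
  rw [add_comm]
  congr 1
  exact Finset.sum_congr rfl fun j _ => mul_comm _ _

theorem fr_add (d : Derivation k K K) (P : Matrix n n K) (y y' : n → K) :
    fr d P (y + y') = fr d P y + fr d P y' := by
  unfold fr
  rw [Matrix.mulVec_add]
  funext i
  simp only [Pi.add_apply, map_add]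
  abel

theorem fr_smul (d : Derivation k K K) (P : Matrix n n K) (a : K) (y : n → K) :
    fr d P (a • y) = d a • y + a • fr d P y := by
  unfold fr
  rw [Matrix.mulVec_smul]
  funext i
  simp only [Pi.add_apply, Pi.smul_apply, smul_eq_mul, Derivation.leibniz]
  ring

theorem CF.fr_ker (h : CF β T q g) {d : Derivation k K K} {P : Matrix n n K}
    (hg : g.map d = Pᵀ * g + g * P) {y : n → K} (hy : q y = 0) : q (fr d P y) = 0 := by
  rw [h.ker] at hy ⊢
  have h1 := d_mulVec d g y
  rw [hy] at h1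
  have h0 : (fun i => d ((0 : n → K) i)) = 0 := by funext i; simp
  rw [h0, hg, Matrix.add_mulVec, ← Matrix.mulVec_mulVec, hy, Matrix.mulVec_zero, zero_add] at h1
  unfold fr
  rw [Matrix.mulVec_add, Matrix.mulVec_mulVec, add_comm]
  exact h1.symm

/-- the induced connection on the core -/
noncomputable def CF.nb (h : CF β T q g) (d : Derivation k K K) (P : Matrix n n K) (m : M) : M :=
  q (fr d P (Function.surjInv h.surj m))

theorem CF.nb_q (h : CF β T q g) {d : Derivation k K K} {P : Matrix n n K}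
    (hg : g.map d = Pᵀ * g + g * P) (y : n → K) : h.nb d P (q y) = q (fr d P y) := by
  unfold CF.nb
  have h1 : q (Function.surjInv h.surj (q y) - y) = 0 := by
    rw [map_sub, Function.surjInv_eq h.surj, sub_self]
  have h2 := h.fr_ker hg h1
  have h3 : fr d P (Function.surjInv h.surj (q y))
      = fr d P (Function.surjInv h.surj (q y) - y) + fr d P y := by
    rw [← fr_add, sub_add_cancel]
  rw [h3, map_add, h2, zero_add]

theorem CF.conn (h : CF β T q g) {d : Derivation k K K} {P : Matrix n n K}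
    (hg : g.map d = Pᵀ * g + g * P) : Conn d (h.nb d P) where
  add x y := by
    obtain ⟨x, rfl⟩ := h.surj x
    obtain ⟨y, rfl⟩ := h.surj y
    rw [← map_add, h.nb_q hg, h.nb_q hg, h.nb_q hg, fr_add, map_add]
  smul a x := by
    obtain ⟨x, rfl⟩ := h.surj x
    rw [← map_smul, h.nb_q hg, h.nb_q hg, fr_smul, map_add, map_smul, map_smul]

theorem CF.nb_form (h : CF β T q g) {d : Derivation k K K} {P : Matrix n n K}
    (hg : g.map d = Pᵀ * g + g * P) (x y : M) :
    β (h.nb d P x) y + β x (h.nb d P y) = d (β x y) := by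
  obtain ⟨x, rfl⟩ := h.surj x
  obtain ⟨y, rfl⟩ := h.surj y
  rw [h.nb_q hg, h.nb_q hg, h.form, h.form, h.form]
  have hdot : ∀ u v : n → K, d (u ⬝ᵥ v) = (fun i => d (u i)) ⬝ᵥ v + u ⬝ᵥ (fun i => d (v i)) := by
    intro u v
    simp only [dotProduct, map_sum, Derivation.leibniz, smul_eq_mul, Finset.sum_add_distrib]
    rw [add_comm]
    congr 1
    exact Finset.sum_congr rfl fun j _ => mul_comm _ _
  rw [hdot, d_mulVec, hg]
  unfold fr
  have h1 : (P *ᵥ x) ⬝ᵥ (g *ᵥ y) = x ⬝ᵥ ((Pᵀ * g) *ᵥ y) := by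
    rw [← Matrix.mulVec_mulVec, Matrix.dotProduct_mulVec x, Matrix.vecMul_transpose]
  rw [add_dotProduct, h1, Matrix.mulVec_add, Matrix.mulVec_mulVec, dotProduct_add,
    Matrix.add_mulVec, dotProduct_add, dotProduct_add]
  ring

theorem CF.T_dE (h : CF β T q g) {d : Derivation k K K} {P : Matrix n n K}
    (hg : g.map d = Pᵀ * g + g * P) (A : End K M) :
    (h.conn hg).dE (T A) = T ((h.conn hg).dE A) := by
  symm
  apply h.adj.eq_of
  intro x y
  rw [Conn.dE_apply, Conn.dE_apply, map_sub, LinearMap.sub_apply, map_sub, h.adj.adj]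
  have h1 := h.nb_form hg (T A x) y
  have h2 := h.nb_form hg x (A y)
  rw [h.adj.adj, h.adj.adj] at h1
  have h3 : β (h.nb d P (T A x)) y = d (β x (A y)) - β x (A (h.nb d P y)) := by
    rw [← h1]; ring
  rw [h3, ← h2]; ring

/-- lift of the induced derivation -/
theorem CF.lifts_dE (h : CF β T q g) {d : Derivation k K K} {P : Matrix n n K}
    (hg : g.map d = Pᵀ * g + g * P) {z : Matrix n n K} {zb : End K M} (hz : Lifts q z zb) :
    Lifts q (z.map d + P * z - z * P) ((h.conn hg).dE zb) := by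
  intro y
  rw [Conn.dE_apply, ← hz, h.nb_q hg, h.nb_q hg, ← hz, ← map_sub]
  congr 1
  unfold fr
  rw [d_mulVec, Matrix.sub_mulVec, Matrix.add_mulVec, Matrix.mulVec_add, Matrix.mulVec_mulVec,
    Matrix.mulVec_mulVec]
  abel

variable {κ : Type*} {Ψ : κ → End K M} {al : κ → Matrix n n K}

/-- the correction space (right-action convention `wᵀ J p = Fᵀ J p z`) -/
def ZF (T : End K M →ₗ[K] End K M) (q : (n → K) →ₗ[K] M) (Ψ : κ → End K M) :
    Submodule K (Matrix n n K) where
  carrier := {z | ∃ zb : End K M, Lifts q z zb ∧ T zb ∈ ZZ T 1 0 Ψ}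
  add_mem' := by
    rintro z z' ⟨zb, h1, h2⟩ ⟨zb', h1', h2'⟩
    exact ⟨zb + zb', h1.add h1', by rw [map_add]; exact Submodule.add_mem _ h2 h2'⟩
  zero_mem' := ⟨0, Lifts.zero, by rw [map_zero]; exact Submodule.zero_mem _⟩
  smul_mem' := by
    rintro a z ⟨zb, h1, h2⟩
    exact ⟨a • zb, h1.smul a, by rw [map_smul]; exact Submodule.smul_mem _ _ h2⟩

/-- `HasZ z`: membership in the correction space -/
abbrev HasZ (T : End K M →ₗ[K] End K M) (q : (n → K) →ₗ[K] M) (Ψ : κ → End K M)
    (z : Matrix n n K) : Prop := z ∈ ZF T q Ψ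

theorem mem_ZF {z : Matrix n n K} :
    z ∈ ZF T q Ψ ↔ ∃ zb : End K M, Lifts q z zb ∧ T zb ∈ ZZ T 1 0 Ψ := Iff.rfl

/-- radical valued matrices are allowed corrections -/
theorem ZF_of_rad {z : Matrix n n K} (hz : ∀ y, q (z *ᵥ y) = 0) : z ∈ ZF T q Ψ :=
  ⟨0, fun y => by rw [hz, LinearMap.zero_apply], by rw [map_zero]; exact Submodule.zero_mem _⟩

/-- self-adjoint commuting corrections -/
theorem ZF_of_sa {z : Matrix n n K} {zb : End K M} (hz : Lifts q z zb)
    (hs : T zb = zb) (hc : ∀ r, zb * Ψ r = Ψ r * zb) : z ∈ ZF T q Ψ := by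
  refine ⟨zb, hz, ?_⟩
  rw [hs]
  exact mem_ZZ_of_sa hs (mul_one _) (one_mul _) (nil_zero _) hc

/-- **abstract second derivative** -/
theorem ZF_second (h : CF β T q g) {d : Derivation k K K} {P : Matrix n n K}
    (hg : g.map d = Pᵀ * g + g * P) (hΨ : ∀ r, Lifts q (al r) (Ψ r))
    {zY z : Matrix n n K}
    (hv : ∀ r, g * ((al r).map d + P * al r - al r * P) = zYᵀ * g * al r + g * al r * zY)
    (hzY : zY ∈ ZF T q Ψ) (hz : z ∈ ZF T q Ψ) :
    zY * z + z.map d + P * z - z * P ∈ ZF T q Ψ := by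
  obtain ⟨yb, y1, y2⟩ := hzY
  obtain ⟨zb, z1, z2⟩ := hz
  refine ⟨yb * zb + (h.conn hg).dE zb, ?_, ?_⟩
  · have h1 := (y1.mul z1).add (h.lifts_dE hg z1)
    have h2 : zY * z + z.map d + P * z - z * P = zY * z + (z.map d + P * z - z * P) := by abel
    rw [h2]; exact h1
  · rw [map_add, h.adj.mul, ← h.T_dE hg, add_comm]
    refine ZPL.fixed_mem h.adj.mul (h.conn hg).dE (h.conn hg).dE_add (h.conn hg).dE_mul
      (fun x => h.T_dE hg x) (h.conn hg).dE_one (nil_zero _) z2 y2 ?_
    intro r
    rw [h.adj.TT]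
    apply h.adj.ext
    intro x y
    obtain ⟨x, rfl⟩ := h.surj x
    obtain ⟨y, rfl⟩ := h.surj y
    have e1 := h.lifts_dE hg (hΨ r)
    rw [h.adj.symm, ← e1, h.form, Matrix.mulVec_mulVec, hv, LinearMap.add_apply,
      Module.End.mul_apply, Module.End.mul_apply, map_add, LinearMap.add_apply, h.adj.adj,
      ← y1, ← y1, ← hΨ, ← hΨ, h.adj.symm (q (al r *ᵥ x)), h.form,
      h.adj.symm (q (al r *ᵥ (zY *ᵥ x))), h.form, Matrix.add_mulVec, dotProduct_add]
    congr 1
    · rw [Matrix.mul_assoc, ← Matrix.mulVec_mulVec, Matrix.dotProduct_mulVec,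
        Matrix.vecMul_transpose, Matrix.mulVec_mulVec]
    · simp only [Matrix.mulVec_mulVec, Matrix.mul_assoc]

end Core

section Frame

variable {ι : Type*} [Fintype ι] [DecidableEq ι] {δ : Type*} [Fintype δ] [DecidableEq δ]
variable {n : Type*} [Fintype n] [DecidableEq n]
variable {k K : Type*} [Field k] [Field K] [Algebra k K]
variable {arm : δ → Fin 3} {J : Matrix ι ι K} {B : Matrix δ δ K}
  {N W : Submodule K (Matrix ι δ K)} {F G : Matrix ι δ K} {p : Matrix ι n K}
variable {M : Type*} [AddCommGroup M] [Module K M]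
variable {β : LinearMap.BilinForm K M} {T : End K M →ₗ[K] End K M} {q : (n → K) →ₗ[K] M}
variable {Ψ : Fin 3 → End K M} {al : Fin 3 → Matrix n n K}

theorem g_der (hD : Data k arm J B N W) {d : Derivation k K K} {P : Matrix n n K}
    (hp : p.map d = p * P) :
    (pᵀ * J * p).map d = Pᵀ * (pᵀ * J * p) + (pᵀ * J * p) * P := by
  rw [map_mul_der, map_mul_der, map_transpose_der, hp, hD.J_const, Matrix.mul_zero, add_zero,
    transpose_mul]
  simp only [Matrix.mul_assoc]

theorem al_der (hD : Data k arm J B N W) (hal : ∀ r, Phi arm J B F r * p = p * al r)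
    {wY : Matrix ι δ K} {zY : Matrix n n K} (hval : wYᵀ * J * p = Fᵀ * J * p * zY)
    {d : Derivation k K K} (hdF : F.map d = wY) {P : Matrix n n K} (hp : p.map d = p * P)
    (r : Fin 3) :
    (pᵀ * J * p) * ((al r).map d + P * al r - al r * P)
      = zYᵀ * (pᵀ * J * p) * al r + (pᵀ * J * p) * al r * zY := by
  have e1 : (Phi arm J B F r).map d * p =
      wY * E K arm r * B * (Fᵀ * J * p) + F * E K arm r * B * (wYᵀ * J * p) := by
    unfold Phi M
    rw [map_mul_der, map_mul_der, map_mul_der, map_mul_der, hD.J_const, hD.B_const, E_map_der,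
      map_transpose_der, hdF]
    simp only [Matrix.mul_zero, Matrix.add_mul, add_zero, Matrix.mul_assoc]
  have e2 := congrArg (fun A : Matrix ι n K => A.map d) (hal r)
  rw [map_mul_der, map_mul_der, hp, e1, hval] at e2
  have e3 : pᵀ * J * wY = zYᵀ * (pᵀ * J * F) := by
    have h1 := congrArg transpose hval
    simp only [transpose_mul, transpose_transpose, hD.J_symm] at h1
    simpa only [Matrix.mul_assoc] using h1
  have e4 : pᵀ * J * (Phi arm J B F r * p) = pᵀ * J * p * al r := by
    rw [hal]; simp only [Matrix.mul_assoc]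
  have e5 := congrArg (fun A => pᵀ * J * A) e2
  simp only [Matrix.mul_add] at e5
  have e6 : pᵀ * J * (wY * E K arm r * B * (Fᵀ * J * p)) = zYᵀ * (pᵀ * J * p * al r) := by
    rw [← e4]
    unfold Phi M
    calc pᵀ * J * (wY * E K arm r * B * (Fᵀ * J * p))
        = (pᵀ * J * wY) * (E K arm r * (B * (Fᵀ * (J * p)))) := by
          simp only [Matrix.mul_assoc]
      _ = _ := by rw [e3]; simp only [Matrix.mul_assoc]
  have e7 : pᵀ * J * (F * E K arm r * B * (Fᵀ * J * p * zY)) = pᵀ * J * p * al r * zY := by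
    rw [← e4]
    unfold Phi M
    simp only [Matrix.mul_assoc]
  have e8 : pᵀ * J * (Phi arm J B F r * (p * P)) = pᵀ * J * p * al r * P := by
    rw [← e4]
    simp only [Matrix.mul_assoc]
  rw [e6, e7, e8] at e5
  rw [Matrix.mul_sub, Matrix.mul_add]
  have e9 : pᵀ * J * p * (al r).map d + pᵀ * J * p * (P * al r)
      = zYᵀ * (pᵀ * J * p * al r) + pᵀ * J * p * al r * zY + pᵀ * J * p * al r * P := by
    rw [e5]
    simp only [Matrix.mul_assoc]
    abel
  rw [e9]
  simp only [Matrix.mul_assoc]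
  abel

/-- **(b) second derivative in the frame** -/
theorem second (hD : Data k arm J B N W) (h : CF β T q (pᵀ * J * p))
    (hal : ∀ r, Phi arm J B F r * p = p * al r) (hΨ : ∀ r, Lifts q (al r) (Ψ r))
    {wY : Matrix ι δ K} {zY z : Matrix n n K} (hval : wYᵀ * J * p = Fᵀ * J * p * zY)
    {d : Derivation k K K} (hdF : F.map d = wY) {P : Matrix n n K} (hp : p.map d = p * P)
    (hzY : zY ∈ ZF T q Ψ) (hz : z ∈ ZF T q Ψ) :
    zY * z + z.map d + P * z - z * P ∈ ZF T q Ψ :=
  ZF_second h (g_der hD hp) hΨ (al_der hD hal hval hdF hp) hzY hz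

end Frame

end Crest.Agent.R172.ZFr
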