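import Crest.Agent.R172.FC2
import Crest.Agent.R172.FrmP
import Crest.Agent.R172.ZFr
import Crest.Agent.R172.RJM
import Crest.Agent.R172.RDEnd

/-!
Row 172 (S0260), (T0), any radical, any `D`: the data of the final assembly (`RD`).
-/

set_option autoImplicit false
set_option linter.unusedSectionVars false

namespace Crest.Agent.R172.RD

open Matrix Module TensorProduct Crest.Agent.R172.FO Crest.Agent.R172.FrmB
open Crest.Agent.R172.Core (NS Tame)
open Crest.Agent.R172.PL (Wk)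

variable {ι : Type*} [Fintype ι] [DecidableEq ι] {δ : Type*} [Fintype δ] [DecidableEq δ]
variable {n : Type*} [Fintype n] [DecidableEq n]
variable {k K : Type*} [Field k] [Field K] [Algebra k K]
variable {M : Type*} [AddCommGroup M] [Module K M]
variable {m : Type*} [Fintype m] [DecidableEq m]

/-- the frame of the universal cover, with its core, its blocks `e i` and the parameters `TT` -/
structure Fr (k : Type*) {K : Type*} [Field k] [Field K] [Algebra k K]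
    {M : Type*} [AddCommGroup M] [Module K M]
    (arm : δ → Fin 3) (J : Matrix ι ι K) (B : Matrix δ δ K)
    (N W : Submodule K (Matrix ι δ K)) (F G : Matrix ι δ K) (p : Matrix ι n K)
    (al : Fin 3 → Matrix n n K) (tau : Matrix n n K)
    (β : LinearMap.BilinForm K M) (T : Module.End K M →ₗ[K] Module.End K M)
    (Ψ : Fin 3 → Module.End K M) (D : Module.End K M) (π : (n → K) →ₗ[K] M)
    (e : m → Matrix n n K) (lam : m → K) (l : Fin 3 → ℕ) (TT : Set k) : Prop where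
  ctx : FC.Ctx k arm J B N W F G p al tau
  vt : Vt k arm N W F G
  /-- words of `Φ(F)` end in `im p` -/
  wk : ∃ m0 : ℕ, Wk (fun r => Matrix.toLin' (Phi arm J B F r)) m0 ≤ LinearMap.range (toLin' p)
  par : ∀ t ∈ TT, ∃ kap kai, FC.Par k arm J B N W F G p tau (algebraMap k K t) kap kai
  inf : TT.Infinite
  ne0 : (0 : k) ∉ TT
  sum0 : ∑ s, al s = 0
  cr : RDEnd.Cr J p al β π Ψ T
  ptau : ∀ y, π (tau *ᵥ y) = D (π y)
  /-- long words kill the radical `ker π` -/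
  kill : ∃ m0 : ℕ, ∀ w : List (Fin 3), w.length = m0 → ∀ u, π u = 0 → (w.map al).prod *ᵥ u = 0
  /-- the same on `V`: long words of `Φ(F + tG)` kill `v ⟂ im p`-part of `im p` -/
  killV : ∀ t : K, ∃ m0 : ℕ, ∀ w : List (Fin 3), w.length = m0 → ∀ u, π u = 0 →
    (w.map (Phi arm J B (F + t • G))).prod *ᵥ (p *ᵥ u) = 0
  idem : ∀ i, e i * e i = e i
  orth : ∀ i j, i ≠ j → e i * e j = 0
  sumE : ∑ i, e i = 1
  eal : ∀ i s, e i * al s = al s * e i
  etau : ∀ i, e i * tau = tau * e i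
  /-- block adapted basis: the `e i` are constant matrices -/
  eC : ∀ i (d : Derivation k K K), (e i).map d = 0
  eg : ∀ i, (e i)ᵀ * (pᵀ * J * p) = (pᵀ * J * p) * e i
  nil : ∀ i, IsNilpotent ((tau - lam i • (1 : Matrix n n K)) * e i)
  lamInj : Function.Injective lam
  two : ∀ i : m, ∃ j, j ≠ i
  /-- `Hom_A(M_i, M_j) = 0` at `F + tG`, every `t ∈ TT ∪ {0}` -/
  hom : ∀ t : k, (t ∈ TT ∨ t = 0) → ∀ A : Module.End K M,
    (∀ s x, A (Ψ s ((1 + algebraMap k K t • D) ((1 + algebraMap k K t • D) x))) =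
      Ψ s ((1 + algebraMap k K t • D) ((1 + algebraMap k K t • D) (A x)))) →
    ∀ i j, i ≠ j → ∀ x y, β (A (π (e i *ᵥ x))) (π (e j *ᵥ y)) = 0
  lpos : ∀ s, 1 ≤ l s
  lsum : ∑ s, (1 - 1 / (l s : ℚ)) = 2
  lnil : ∀ s, Ψ s ^ l s = 0
  free : ∀ s, l s * finrank K (LinearMap.ker (Ψ s)) = finrank K M
  top : ∀ i s, ∃ u u' : n → K, (e i *ᵥ u) ⬝ᵥ ((pᵀ * J * p) *ᵥ ((al s ^ (l s - 1)) *ᵥ (e i *ᵥ u'))) ≠ 0
  gen : ∀ i (S : Submodule K (n → K)), (∀ s, ∀ v ∈ S, al s *ᵥ v ∈ S) →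
    (∀ s u, (al s ^ l s) *ᵥ (e i *ᵥ u) ∈ S) → ∀ u, π (e i *ᵥ u) = 0 → e i *ᵥ u ∈ S
  /-- corrections exist for scalar exact families (universal cover) -/
  hexS : ∀ i j, i ≠ j → ∀ c : K, c ≠ 0 → ∀ x : Fin 3 → Matrix n n K,
    (∀ r, e j * x r * (e i)ᵀ = x r) → ∑ r, (x r * (al r)ᵀ - c • (al r * x r)) = 0 →
    (∀ r, (pᵀ * J * p) * (x r * (al r)ᵀ - c • (al r * x r)) * (pᵀ * J * p) = 0) →
    ∃ b kk : Matrix n n K, e i * b * e j = b ∧ e j * kk * e i = kk ∧ (∀ u, π (b *ᵥ u) = 0) ∧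
      (∀ u, π (kk *ᵥ u) = 0) ∧
      (∀ r, al r * (b + (x r)ᵀ * (pᵀ * J * p)) = c • ((b + (x r)ᵀ * (pᵀ * J * p)) * al r)) ∧
      (∀ r, (kk - x r * (pᵀ * J * p)) * al r = c • (al r * (kk - x r * (pᵀ * J * p))))

/-- off-diagonal part -/
def off (e : m → Matrix n n K) (A : Matrix n n K) : Matrix n n K := A - ∑ l, e l * A * e l

/-- the family `x ∈ (U_j ⊗ U_i)³` with its corrections `b : U_j → R_i`, `kk : U_i → R_j`, exact for
the operators `P r` (on `U_i`) and `Q r` (on `U_j`) -/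
structure Dec (g : Matrix n n K) (π : (n → K) →ₗ[K] M) (e : m → Matrix n n K) (i j : m)
    (P Q : Fin 3 → Matrix n n K) (x : Fin 3 → Matrix n n K) (b kk : Matrix n n K) : Prop where
  bx : ∀ r, e j * x r * (e i)ᵀ = x r
  bb : e i * b * e j = b
  bk : e j * kk * e i = kk
  rb : ∀ u, π (b *ᵥ u) = 0
  rk : ∀ u, π (kk *ᵥ u) = 0
  sum : ∑ r, (x r * (P r)ᵀ - Q r * x r) = 0
  arm : ∀ r, g * (x r * (P r)ᵀ - Q r * x r) * g = 0
  eb : ∀ r, P r * (b + (x r)ᵀ * g) = (b + (x r)ᵀ * g) * Q r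
  ek : ∀ r, (kk - x r * g) * P r = Q r * (kk - x r * g)

/-- good decorated elements: `y` with correction `z` (core part in `ZF`), off-diagonal parts
`v.2.1` of `z` and `v.2.2 r` of the left action `μ r` prescribed -/
def RS (arm : δ → Fin 3) (J : Matrix ι ι K) (B : Matrix δ δ K) (N W : Submodule K (Matrix ι δ K))
    (F : Matrix ι δ K) (p : Matrix ι n K) (T : Module.End K M →ₗ[K] Module.End K M)
    (Ψ : Fin 3 → Module.End K M) (π : (n → K) →ₗ[K] M) (e : m → Matrix n n K)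
    (y : Fin 3 → Matrix n n K) (z0 : Matrix n n K) (μ0 : Fin 3 → Matrix n n K) : Prop :=
  ∃ (w : Matrix ι δ K) (z : Matrix n n K) (μ : Fin 3 → Matrix n n K), w ∈ W ∧
    io arm J F p y - w ∈ N ∧ wᵀ * J * p = Fᵀ * J * p * z ∧
    (∀ r, w * E K arm r * B * (Fᵀ * J * p) = p * μ r) ∧ z ∈ ZFr.ZF T π Ψ ∧
    off e z = z0 ∧ ∀ r, off e (μ r) = μ0 r

/-- `y` is filtered at the arm `s` on the core -/
def Fil (g : Matrix n n K) (π : (n → K) →ₗ[K] M) (Ψ : Fin 3 → Module.End K M) (s : Fin 3)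
    (y : Matrix n n K) : Prop :=
  ∃ yb : Module.End K M, (∀ u, π (y *ᵥ (g *ᵥ u)) = yb (π u)) ∧
    ∀ (a : ℕ) v, ∃ v', yb ((Ψ s ^ a) v) = (Ψ s ^ a) v'

end Crest.Agent.R172.RD
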