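import Mathlib

/-!
# Row 172, node R-Rk (helper35): rank count on a tame block

`M` a nonzero finite dimensional space, `Phi s` (`s : Fin 3`) with `l s * dim ker (Phi s) = dim M` and
`∑ (1 - 1 / l s) = 2` (the tame numbers `(3,3,3)`, `(2,4,4)`, `(2,3,6)`).

* `two_le` : `2 ≤ l s`;
* `pow_ne` : `Phi s ^ (l s - 1) ≠ 0`;
* `exists_ab` : for `{s,t,u} = {0,1,2}` there are `a b` with `Phi t a + Phi u b = 0`, `Phi t a ≠ 0`;
* `lift_pow`, `lift_ab` : the same on a cover `P → M` (kernel `R`), i.e. the hypotheses of RJ1;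
* `block_*` : versions for a stable submodule `E ≤ M` (a generalized eigenspace), lifts from a
  submodule `P ≤ V` through a linear map defined on `V`.
-/

set_option autoImplicit false

open Module

namespace Crest.Agent.R172.RRk

variable {K : Type*} [Field K]
variable {M : Type*} [AddCommGroup M] [Module K M] [FiniteDimensional K M]

theorem sum_recip {l : Fin 3 → ℕ} (hsum : ∑ s, (1 - 1 / (l s : ℚ)) = 2) :
    ∑ s, 1 / (l s : ℚ) = 1 := by
  simp only [Fin.sum_univ_three] at hsum ⊢
  linarith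

theorem two_le {l : Fin 3 → ℕ} (h1 : ∀ s, 1 ≤ l s) (hsum : ∑ s, (1 - 1 / (l s : ℚ)) = 2) (s : Fin 3) :
    2 ≤ l s := by
  by_contra h
  have hs : l s = 1 := by have := h1 s; omega
  have hpos : ∀ t, 0 < 1 / (l t : ℚ) := fun t => by
    have : (0 : ℚ) < l t := by exact_mod_cast (h1 t)
    positivity
  have h3 := sum_recip hsum
  have h4 : 1 / (l s : ℚ) = 1 := by rw [hs]; norm_num
  have h5 := Finset.add_sum_erase Finset.univ (fun r => 1 / (l r : ℚ)) (Finset.mem_univ s)
  have h6 : 0 < ∑ r ∈ Finset.univ.erase s, 1 / (l r : ℚ) := by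
    refine Finset.sum_pos (fun r _ => hpos r) ?_
    rw [← Finset.card_pos, Finset.card_erase_of_mem (Finset.mem_univ s)]
    simp
  rw [h3, h4] at h5
  linarith

/-- `dim ker (f ^ j) ≤ j * dim ker f` -/
theorem finrank_ker_pow_le (f : End K M) (j : ℕ) :
    finrank K (LinearMap.ker (f ^ j)) ≤ j * finrank K (LinearMap.ker f) := by
  induction j with
  | zero =>
    simp [Module.End.one_eq_id]
  | succ j ih =>
    have h1 : finrank K (LinearMap.ker (f ^ (j + 1))) ≤
        finrank K (LinearMap.ker (f ^ j)) + finrank K (LinearMap.ker f) := by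
      -- `f ^ j` maps `ker (f ^ (j+1))` into `ker f` with kernel inside `ker (f ^ j)`
      let g : LinearMap.ker (f ^ (j + 1)) →ₗ[K] LinearMap.ker f :=
        LinearMap.codRestrict _ ((f ^ j).domRestrict _) (by
          rintro ⟨x, hx⟩
          rw [LinearMap.mem_ker] at hx ⊢
          rw [LinearMap.domRestrict_apply]
          rw [pow_succ'] at hx
          exact hx)
      have h2 := LinearMap.finrank_range_add_finrank_ker g
      have h3 : finrank K (LinearMap.range g) ≤ finrank K (LinearMap.ker f) :=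
        Submodule.finrank_le _
      have h4 : finrank K (LinearMap.ker g) ≤ finrank K (LinearMap.ker (f ^ j)) := by
        let e : LinearMap.ker g →ₗ[K] LinearMap.ker (f ^ j) :=
          LinearMap.codRestrict _ ((LinearMap.ker (f ^ (j + 1))).subtype ∘ₗ (LinearMap.ker g).subtype) (by
            rintro ⟨⟨x, hx⟩, hx'⟩
            rw [LinearMap.mem_ker] at hx' ⊢
            have := congrArg Subtype.val hx'
            simpa [g] using this)
        refine LinearMap.finrank_le_finrank_of_injective (f := e) ?_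
        intro x y hxy
        have := congrArg Subtype.val hxy
        apply Subtype.ext
        apply Subtype.ext
        simpa [e] using this
      omega
    calc _ ≤ _ := h1
      _ ≤ j * finrank K (LinearMap.ker f) + finrank K (LinearMap.ker f) := by omega
      _ = _ := by ring

theorem pow_ne (hM : 0 < finrank K M) {f : End K M} {l : ℕ} (h1 : 1 ≤ l)
    (hfree : l * finrank K (LinearMap.ker f) = finrank K M) : f ^ (l - 1) ≠ 0 := by
  intro h
  have h2 := finrank_ker_pow_le f (l - 1)
  rw [h, LinearMap.ker_zero, finrank_top, ← hfree] at h2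
  have h3 : 0 < finrank K (LinearMap.ker f) := by
    rcases Nat.eq_zero_or_pos (finrank K (LinearMap.ker f)) with h4 | h4
    · rw [h4, Nat.mul_zero] at hfree
      omega
    · exact h4
  have h5 : (l - 1) * finrank K (LinearMap.ker f) < l * finrank K (LinearMap.ker f) :=
    Nat.mul_lt_mul_of_pos_right (by omega) h3
  omega

/-- Two arms have ranges which meet. -/
theorem exists_ab_of_rank {f g : End K M}
    (h : finrank K M < finrank K (LinearMap.range f) + finrank K (LinearMap.range g)) :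
    ∃ a b : M, f a + g b = 0 ∧ f a ≠ 0 := by
  by_contra hcon
  push Not at hcon
  have hdis : Disjoint (LinearMap.range f) (LinearMap.range g) := by
    rw [Submodule.disjoint_def]
    rintro x ⟨a, rfl⟩ ⟨b, hb⟩
    refine hcon a (-b) ?_
    rw [map_neg, hb]
    exact add_neg_cancel _
  have h2 := Submodule.finrank_add_finrank_le_of_disjoint hdis
  omega

theorem rank_add {l : Fin 3 → ℕ} {Phi : Fin 3 → End K M} (hM : 0 < finrank K M) (h1 : ∀ s, 1 ≤ l s)
    (hfree : ∀ s, l s * finrank K (LinearMap.ker (Phi s)) = finrank K M)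
    (hsum : ∑ s, (1 - 1 / (l s : ℚ)) = 2) {s t u : Fin 3} (hst : s ≠ t) (hsu : s ≠ u) (htu : t ≠ u) :
    finrank K M < finrank K (LinearMap.range (Phi t)) + finrank K (LinearMap.range (Phi u)) := by
  have hr : ∀ r, finrank K (LinearMap.range (Phi r)) + finrank K (LinearMap.ker (Phi r)) =
      finrank K M := fun r => LinearMap.finrank_range_add_finrank_ker (Phi r)
  have hpos : ∀ r, (0 : ℚ) < l r := fun r => by exact_mod_cast (h1 r)
  have hk : ∀ r, (finrank K (LinearMap.ker (Phi r)) : ℚ) = finrank K M * (1 / (l r : ℚ)) := by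
    intro r
    have h2 : (l r : ℚ) * finrank K (LinearMap.ker (Phi r)) = finrank K M := by
      exact_mod_cast hfree r
    have h3 := hpos r
    field_simp
    linarith
  have hS : 1 / (l s : ℚ) + 1 / (l t : ℚ) + 1 / (l u : ℚ) = 1 := by
    have h3 := sum_recip hsum
    simp only [Fin.sum_univ_three] at h3
    fin_cases s <;> fin_cases t <;> fin_cases u <;> simp_all <;> linarith
  have hMq : (0 : ℚ) < finrank K M := by exact_mod_cast hM
  have h5 : (finrank K (LinearMap.ker (Phi t)) : ℚ) + finrank K (LinearMap.ker (Phi u)) <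
      finrank K M := by
    rw [hk t, hk u, ← mul_add]
    have h6 : 0 < 1 / (l s : ℚ) := by have := hpos s; positivity
    have h7 : 1 / (l t : ℚ) + 1 / (l u : ℚ) < 1 := by linarith
    nlinarith
  have h8 : finrank K (LinearMap.ker (Phi t)) + finrank K (LinearMap.ker (Phi u)) < finrank K M := by
    exact_mod_cast h5
  have ht := hr t
  have hu := hr u
  omega

theorem exists_ab {l : Fin 3 → ℕ} {Phi : Fin 3 → End K M} (hM : 0 < finrank K M) (h1 : ∀ s, 1 ≤ l s)
    (hfree : ∀ s, l s * finrank K (LinearMap.ker (Phi s)) = finrank K M)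
    (hsum : ∑ s, (1 - 1 / (l s : ℚ)) = 2) {s t u : Fin 3} (hst : s ≠ t) (hsu : s ≠ u) (htu : t ≠ u) :
    ∃ a b : M, Phi t a + Phi u b = 0 ∧ Phi t a ≠ 0 :=
  exists_ab_of_rank (rank_add hM h1 hfree hsum hst hsu htu)

/-! ### Lifts -/

variable {P : Type*} [AddCommGroup P] [Module K P]

theorem lift_pow {l : ℕ} {f : End K M} {B : End K P} (hM : 0 < finrank K M) (h1 : 1 ≤ l)
    (hfree : l * finrank K (LinearMap.ker f) = finrank K M)
    (π : P →ₗ[K] M) (hπ : Function.Surjective π) (hB : ∀ p, π (B p) = f (π p))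
    {R : Submodule K P} (hR : ∀ p, p ∈ R → π p = 0) : ∃ p, (B ^ (l - 1)) p ∉ R := by
  by_contra hcon
  push Not at hcon
  refine pow_ne hM h1 hfree ?_
  ext m
  obtain ⟨p, rfl⟩ := hπ m
  have h2 : ∀ j : ℕ, ∀ p, π ((B ^ j) p) = (f ^ j) (π p) := by
    intro j
    induction j with
    | zero => intro p; simp
    | succ j ih =>
      intro p
      rw [pow_succ', pow_succ']
      change π (B ((B ^ j) p)) = f ((f ^ j) (π p))
      rw [hB, ih]
  rw [← h2, hR _ (hcon p)]
  rfl

theorem lift_ab {l : Fin 3 → ℕ} {Phi : Fin 3 → End K M} {B : Fin 3 → End K P}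
    (hM : 0 < finrank K M) (h1 : ∀ s, 1 ≤ l s)
    (hfree : ∀ s, l s * finrank K (LinearMap.ker (Phi s)) = finrank K M)
    (hsum : ∑ s, (1 - 1 / (l s : ℚ)) = 2)
    (π : P →ₗ[K] M) (hπ : Function.Surjective π) (hB : ∀ s p, π (B s p) = Phi s (π p))
    {R : Submodule K P} (hR : ∀ p, p ∈ R ↔ π p = 0)
    {s t u : Fin 3} (hst : s ≠ t) (hsu : s ≠ u) (htu : t ≠ u) :
    ∃ a b : P, B t a + B u b ∈ R ∧ B t a ∉ R := by
  obtain ⟨a, b, h2, h3⟩ := exists_ab hM h1 hfree hsum hst hsu htu
  obtain ⟨a, rfl⟩ := hπ a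
  obtain ⟨b, rfl⟩ := hπ b
  refine ⟨a, b, ?_, ?_⟩
  · rw [hR, map_add, hB, hB, h2]
  · rw [hR, hB]
    exact h3

/-! ### Blocks: a stable submodule `E` of `M` -/

section Block

variable {E : Submodule K M} {Phi : Fin 3 → End K M} {l : Fin 3 → ℕ}

omit [FiniteDimensional K M] in
theorem finrank_ker_restrict {f : End K M} (hst : ∀ x ∈ E, f x ∈ E) :
    finrank K (LinearMap.ker (f.restrict hst)) = finrank K (LinearMap.ker f ⊓ E : Submodule K M) := by
  have h1 : (LinearMap.ker f ⊓ E : Submodule K M) = (LinearMap.ker (f.restrict hst)).map E.subtype := by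
    ext x
    constructor
    · rintro ⟨hx, hxE⟩
      refine ⟨⟨x, hxE⟩, ?_, rfl⟩
      rw [SetLike.mem_coe, LinearMap.mem_ker]
      apply Subtype.ext
      simpa using hx
    · rintro ⟨⟨y, hy⟩, hy', rfl⟩
      rw [SetLike.mem_coe, LinearMap.mem_ker] at hy'
      have := congrArg Subtype.val hy'
      exact ⟨by simpa using this, hy⟩
  rw [h1, Submodule.finrank_map_subtype_eq]

theorem block_pow {f : End K M} {l : ℕ} (hst : ∀ x ∈ E, f x ∈ E) (hE : E ≠ ⊥) (h1 : 1 ≤ l)
    (hfree : l * finrank K (LinearMap.ker f ⊓ E : Submodule K M) = finrank K E) :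
    ∃ v ∈ E, (f ^ (l - 1)) v ≠ 0 := by
  have hM : 0 < finrank K E := by
    rw [Nat.pos_iff_ne_zero]
    intro h
    exact hE (Submodule.finrank_eq_zero.1 h)
  rw [← finrank_ker_restrict hst] at hfree
  have h2 := pow_ne hM h1 hfree
  by_contra hcon
  push Not at hcon
  refine h2 ?_
  ext ⟨x, hx⟩
  rw [Module.End.pow_restrict _ hst]
  simpa using hcon x hx

theorem block_ab (hst : ∀ s, ∀ x ∈ E, Phi s x ∈ E) (hE : E ≠ ⊥) (h1 : ∀ s, 1 ≤ l s)
    (hfree : ∀ s, l s * finrank K (LinearMap.ker (Phi s) ⊓ E : Submodule K M) = finrank K E)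
    (hsum : ∑ s, (1 - 1 / (l s : ℚ)) = 2)
    {s t u : Fin 3} (hs_t : s ≠ t) (hsu : s ≠ u) (htu : t ≠ u) :
    ∃ a ∈ E, ∃ b ∈ E, Phi t a + Phi u b = 0 ∧ Phi t a ≠ 0 := by
  have hM : 0 < finrank K E := by
    rw [Nat.pos_iff_ne_zero]
    intro h
    exact hE (Submodule.finrank_eq_zero.1 h)
  have hfree' : ∀ s, l s * finrank K (LinearMap.ker ((Phi s).restrict (hst s))) = finrank K E :=
    fun s => by rw [finrank_ker_restrict]; exact hfree s
  obtain ⟨⟨a, ha⟩, ⟨b, hb⟩, h2, h3⟩ :=
    exists_ab (Phi := fun s => (Phi s).restrict (hst s)) hM h1 hfree' hsum hs_t hsu htu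
  refine ⟨a, ha, b, hb, ?_, ?_⟩
  · have := congrArg Subtype.val h2
    simpa using this
  · intro h4
    apply h3
    apply Subtype.ext
    simpa using h4

end Block

end Crest.Agent.R172.RRk
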