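import Crest.Agent.R172.RGen
import Crest.Agent.R172.RRk
import Crest.Agent.R172.QBlk2
import Crest.Agent.R172.N5a

/-!
Row 172, TAME (T0), arbitrary radical, arbitrary `τ`: the eigenblocks of the cover, with all the
one-sided hypotheses (`QBlk.PSide`) of the span lemmas.
-/

set_option autoImplicit false
set_option linter.unusedSectionVars false
set_option maxHeartbeats 400000

namespace Crest.Agent.R172.RDBlk

open Module LinearMap

variable {K : Type*} [Field K] {U : Type*} [AddCommGroup U] [Module K U]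
  {M : Type*} [AddCommGroup M] [Module K M]
  {A : Fin 3 → End K U} {D : End K U} {Ψ : Fin 3 → End K M} {τ : End K M} {q : U →ₗ[K] M}

/-- the cover `q : U → M` with commuting operators -/
structure Abs (A : Fin 3 → End K U) (D : End K U) (Ψ : Fin 3 → End K M) (τ : End K M)
    (q : U →ₗ[K] M) : Prop where
  comm : ∀ s y, A s (D y) = D (A s y)
  sum : ∑ s, A s = 0
  perf : ⨆ s, range (A s) = ⊤
  qA : ∀ s y, q (A s y) = Ψ s (q y)
  qD : ∀ y, q (D y) = τ (q y)
  qsurj : Function.Surjective q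
  words : ∃ m, ∀ w : List (Fin 3), w.length = m → ∀ y, q y = 0 → (w.map A).prod y = 0

namespace Abs

variable (h : Abs A D Ψ τ q)
include h

theorem stable {ν : K} (s : Fin 3) {y : U} (hy : y ∈ D.maxGenEigenspace ν) :
    A s y ∈ D.maxGenEigenspace ν :=
  Module.End.mapsTo_maxGenEigenspace_of_comm
    (show Commute D (A s) from LinearMap.ext fun y => (h.comm s y).symm) ν hy

theorem stableD {ν : K} {y : U} (hy : y ∈ D.maxGenEigenspace ν) :
    D y ∈ D.maxGenEigenspace ν :=
  Module.End.mapsTo_maxGenEigenspace_of_comm (Commute.refl D) ν hy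

theorem nil : ∃ m, ∀ m', m ≤ m' → ker q ≤ St.Nk A m' := by
  obtain ⟨m, hm⟩ := h.words
  refine ⟨m, fun m' hm' => le_trans ?_ (St.Nk_mono A hm')⟩
  intro y hy
  rw [Core.mem_Nk_iff]
  exact fun l hl => hm l hl y hy

theorem blk_perf [FiniteDimensional K U] (hDs : ⨆ ν, D.maxGenEigenspace ν = ⊤) {ν : K} {y : U}
    (hy : y ∈ D.maxGenEigenspace ν) :
    ∃ f : Fin 3 → U, (∀ s, f s ∈ D.maxGenEigenspace ν) ∧ ∑ s, A s (f s) = y := by
  classical
  by_cases hν : D.maxGenEigenspace ν = ⊥
  · rw [hν, Submodule.mem_bot] at hy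
    exact ⟨fun _ => 0, fun _ => Submodule.zero_mem _, by simp [hy]⟩
  · obtain ⟨m, lam, π, hinj, h1, h2, h3, h4, -, h6, h7, h8⟩ :=
      N5.exists_spec (B := (0 : LinearMap.BilinForm K U)) D hDs (fun v w => by simp)
    obtain ⟨i, rfl⟩ := h8 ν hν
    obtain ⟨g, hg⟩ := RG.exists_sum A h.perf y
    refine ⟨fun s => π i (g s), fun s => h1 i _, ?_⟩
    have e : π i y = y := h2 i y hy
    rw [← e, ← hg, map_sum]
    refine Finset.sum_congr rfl fun s _ => ?_
    rw [h6 (A s) (fun v => (h.comm s v).symm) i]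

theorem q_mem {ν : K} {y : U} (hy : y ∈ D.maxGenEigenspace ν) : q y ∈ τ.maxGenEigenspace ν := by
  rw [Module.End.mem_maxGenEigenspace] at hy ⊢
  obtain ⟨k, hk⟩ := hy
  refine ⟨k, ?_⟩
  have key : ∀ (k : ℕ) (y : U), ((τ - ν • (1 : End K M)) ^ k) (q y) =
      q (((D - ν • (1 : End K U)) ^ k) y) := by
    intro k
    induction k with
    | zero => intro y; rfl
    | succ k ih =>
      intro y
      rw [pow_succ, Module.End.mul_apply, pow_succ, Module.End.mul_apply, ← ih]
      congr 1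
      simp [h.qD]
  rw [key, hk, map_zero]

theorem map_blk [FiniteDimensional K U] (hDs : ⨆ ν, D.maxGenEigenspace ν = ⊤) {ν : K} :
    (D.maxGenEigenspace ν).map q = τ.maxGenEigenspace ν := by
  classical
  refine le_antisymm ?_ ?_
  · rintro _ ⟨y, hy, rfl⟩
    exact h.q_mem hy
  · intro x hx
    obtain ⟨m, lam, π, hinj, h1, h2, h3, h4, -, h6, h7, h8⟩ :=
      N5.exists_spec (B := (0 : LinearMap.BilinForm K U)) D hDs (fun v w => by simp)
    obtain ⟨y, rfl⟩ := h.qsurj x
    have hind := Module.End.independent_maxGenEigenspace τ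
    have hsum : q y = ∑ i, q (π i y) := by rw [← map_sum, h4]
    by_cases hν : ∃ i, lam i = ν
    · obtain ⟨i, rfl⟩ := hν
      have h9 : q y - q (π i y) ∈ ⨆ j, ⨆ (_ : j ≠ lam i), τ.maxGenEigenspace j := by
        rw [hsum, ← Finset.add_sum_erase _ _ (Finset.mem_univ i), add_sub_cancel_left]
        refine Submodule.sum_mem _ fun j hj => ?_
        have hj' := Finset.ne_of_mem_erase hj
        exact Submodule.mem_iSup_of_mem (lam j)
          (Submodule.mem_iSup_of_mem (fun e => hj' (hinj e)) (h.q_mem (h1 j y)))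
      have h10 : q y - q (π i y) = 0 :=
        (Submodule.disjoint_def.1 (hind (lam i))) _ (Submodule.sub_mem _ hx (h.q_mem (h1 i y))) h9
      exact ⟨π i y, h1 i y, (sub_eq_zero.1 h10).symm⟩
    · have h9 : q y ∈ ⨆ j, ⨆ (_ : j ≠ ν), τ.maxGenEigenspace j := by
        rw [hsum]
        refine Submodule.sum_mem _ fun j hj => ?_
        exact Submodule.mem_iSup_of_mem (lam j)
          (Submodule.mem_iSup_of_mem (fun e => hν ⟨j, e⟩) (h.q_mem (h1 j y)))
      have h10 : q y = 0 := (Submodule.disjoint_def.1 (hind ν)) _ hx h9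
      rw [h10]
      exact Submodule.zero_mem _

theorem blk_eq_bot [FiniteDimensional K U] (hDs : ⨆ ν, D.maxGenEigenspace ν = ⊤) {ν : K}
    (hν : τ.maxGenEigenspace ν = ⊥) : D.maxGenEigenspace ν = ⊥ := by
  obtain ⟨m, hm⟩ := h.nil
  rw [eq_bot_iff]
  have h1 : D.maxGenEigenspace ν ≤ ker q := by
    intro y hy
    have h2 := h.q_mem hy
    rw [hν, Submodule.mem_bot] at h2
    exact h2
  refine RG.nak (A := A) (S := ⊥) (fun s v hv => ?_) (h1.trans (hm m le_rfl)) ?_
  · rw [Submodule.mem_bot] at hv ⊢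
    rw [hv, map_zero]
  · intro y hy
    obtain ⟨f, hf, rfl⟩ := h.blk_perf hDs hy
    refine Submodule.mem_sup_right (Submodule.sum_mem _ fun s _ => ?_)
    exact Submodule.mem_iSup_of_mem s ⟨f s, hf s, rfl⟩

/-- the operators on the block `ν` -/
def Ab (ν : K) (s : Fin 3) : End K (D.maxGenEigenspace ν) :=
  (A s).restrict fun _ hy => h.stable s hy

/-- the nilpotent part of `D` on the block `ν` -/
def Db (ν : K) : End K (D.maxGenEigenspace ν) :=
  D.restrict fun _ hy => h.stableD hy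

/-- the radical of the block `ν` -/
def Rb (_h : Abs A D Ψ τ q) (ν : K) : Submodule K (D.maxGenEigenspace ν) :=
  (ker q).comap (D.maxGenEigenspace ν).subtype

theorem Ab_coe (ν : K) (s : Fin 3) (y : D.maxGenEigenspace ν) :
    ((h.Ab ν s y : D.maxGenEigenspace ν) : U) = A s y := rfl

theorem Ab_pow_coe (ν : K) (s : Fin 3) (k : ℕ) (y : D.maxGenEigenspace ν) :
    (((h.Ab ν s ^ k) y : D.maxGenEigenspace ν) : U) = (A s ^ k) y := by
  induction k with
  | zero => rfl
  | succ k ih => rw [pow_succ', Module.End.mul_apply, h.Ab_coe, ih, pow_succ', Module.End.mul_apply]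

theorem Ab_words_coe (ν : K) (w : List (Fin 3)) (y : D.maxGenEigenspace ν) :
    (((w.map (h.Ab ν)).prod y : D.maxGenEigenspace ν) : U) = (w.map A).prod y := by
  induction w with
  | nil => simp
  | cons s w ih =>
    rw [List.map_cons, List.prod_cons, Module.End.mul_apply, h.Ab_coe, ih, List.map_cons,
      List.prod_cons, Module.End.mul_apply]

theorem Ab_Db (ν : K) (s : Fin 3) : Commute (h.Ab ν s) (h.Db ν) := by
  refine LinearMap.ext fun y => Subtype.ext ?_
  exact h.comm s y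

theorem sub_nil (ν : K) [FiniteDimensional K U] :
    ∃ k, (h.Db ν - algebraMap K _ ν) ^ k = 0 := by
  refine ⟨finrank K U, ?_⟩
  refine LinearMap.ext fun y => Subtype.ext ?_
  have h1 : ∀ (k : ℕ) (y : D.maxGenEigenspace ν),
      ((((h.Db ν - algebraMap K _ ν) ^ k) y : D.maxGenEigenspace ν) : U) =
        ((D - ν • (1 : End K U)) ^ k) y := by
    intro k
    induction k with
    | zero => intro y; rfl
    | succ k ih =>
      intro y
      rw [pow_succ, Module.End.mul_apply, ih, pow_succ, Module.End.mul_apply]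
      rfl
  have h2 : ∀ u ∈ D.maxGenEigenspace ν, ((D - ν • (1 : End K U)) ^ finrank K U) u = 0 := by
    intro u hu
    rw [Module.End.maxGenEigenspace_eq_genEigenspace_finrank,
      Module.End.mem_genEigenspace_nat] at hu
    exact hu
  rw [h1]
  exact h2 y y.2

theorem pside [FiniteDimensional K U] [FiniteDimensional K M]
    (hDs : ⨆ ν, D.maxGenEigenspace ν = ⊤) {l : Fin 3 → ℕ} (hl1 : ∀ s, 1 ≤ l s)
    (hq : ∑ s, (1 - 1 / (l s : ℚ)) = 2)
    (hker : ∀ m : M, (∀ s, Ψ s m = 0) → m = 0)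
    {ν : K} (hν : D.maxGenEigenspace ν ≠ ⊥)
    (hst : ∀ s, ∀ m ∈ τ.maxGenEigenspace ν, Ψ s m ∈ τ.maxGenEigenspace ν)
    (hnil : ∀ s, ∀ m ∈ τ.maxGenEigenspace ν, (Ψ s ^ l s) m = 0)
    (hfree : ∀ s, l s * finrank K (ker (Ψ s) ⊓ τ.maxGenEigenspace ν : Submodule K M) =
      finrank K (τ.maxGenEigenspace ν)) :
    QBlk.PSide (h.Ab ν) (h.Rb ν) l := by
  classical
  have hMν : τ.maxGenEigenspace ν ≠ ⊥ := fun e => hν (h.blk_eq_bot hDs e)
  let E := τ.maxGenEigenspace ν
  let P := D.maxGenEigenspace ν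
  let Ψν : Fin 3 → End K E := fun s => (Ψ s).restrict (hst s)
  let qν : P →ₗ[K] E := q.restrict fun _ hy => h.q_mem hy
  have hqν : ∀ s p, qν (h.Ab ν s p) = Ψν s (qν p) := fun s p => Subtype.ext (h.qA s p)
  have hsurj : Function.Surjective qν := by
    rintro ⟨x, hx⟩
    have hx' : x ∈ (D.maxGenEigenspace ν).map q := by rw [h.map_blk hDs]; exact hx
    obtain ⟨y, hy, rfl⟩ := hx'
    exact ⟨⟨y, hy⟩, rfl⟩
  have hR : ∀ p : P, p ∈ h.Rb ν ↔ qν p = 0 := by
    intro p
    constructor
    · intro hp; exact Subtype.ext hp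
    · intro hp; exact congrArg Subtype.val hp
  have hpow : ∀ s (k : ℕ) (x : E), (((Ψν s ^ k) x : E) : M) = (Ψ s ^ k) x := by
    intro s k x
    induction k with
    | zero => rfl
    | succ k ih =>
      rw [pow_succ', Module.End.mul_apply, pow_succ', Module.End.mul_apply, ← ih]
      rfl
  have hνnil : ∀ s, Ψν s ^ l s = 0 := by
    intro s
    refine LinearMap.ext fun x => Subtype.ext ?_
    rw [hpow, hnil s x x.2]
    rfl
  have hνfree : ∀ s, l s * finrank K (ker (Ψν s)) = finrank K E := by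
    intro s
    rw [← hfree s]
    congr 1
    exact RRk.finrank_ker_restrict (hst s)
  have hνker : ∀ m : E, (∀ s, Ψν s m = 0) → m = 0 := by
    intro m hm
    exact Subtype.ext (hker m fun s => congrArg Subtype.val (hm s))
  have hperf : ⨆ s, range (h.Ab ν s) = ⊤ := by
    rw [eq_top_iff]
    rintro ⟨y, hy⟩ -
    obtain ⟨f, hf, hfy⟩ := h.blk_perf hDs hy
    have e : (⟨y, hy⟩ : P) = ∑ s, h.Ab ν s ⟨f s, hf s⟩ := by
      apply Subtype.ext
      rw [AddSubmonoidClass.coe_finsetSum]
      exact hfy.symm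
    rw [e]
    exact Submodule.sum_mem _ fun s _ => Submodule.mem_iSup_of_mem s ⟨_, rfl⟩
  have hAsum : ∑ s, h.Ab ν s = 0 := by
    refine LinearMap.ext fun y => Subtype.ext ?_
    rw [LinearMap.sum_apply, AddSubmonoidClass.coe_finsetSum]
    have := LinearMap.congr_fun h.sum (y : U)
    rw [LinearMap.sum_apply] at this
    exact this
  obtain ⟨m, hm⟩ := h.words
  have hwk : ∀ w : List (Fin 3), w.length = m → ∀ r ∈ h.Rb ν, (w.map (h.Ab ν)).prod r = 0 := by
    intro w hw r hr
    apply Subtype.ext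
    rw [h.Ab_words_coe]
    exact hm w hw r hr
  have hkerR : ker qν = h.Rb ν := by
    ext p
    rw [hR p]
    rfl
  have hNk : ker qν ≤ St.Nk (h.Ab ν) m := by
    rw [hkerR]
    intro y hy
    rw [Core.mem_Nk_iff]
    exact fun l hl => hwk l hl y hy
  have hpos : 0 < finrank K E := by
    rw [Nat.pos_iff_ne_zero]
    intro e
    exact hMν (Submodule.finrank_eq_zero.1 e)
  refine ⟨hperf, ?_, ⟨m, hwk⟩, hl1, ?_, ?_, ?_, ?_⟩
  · intro t r hr
    rw [hR] at hr ⊢
    rw [hqν, hr, map_zero]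
  · intro s p
    rw [hR, RG.pi_pow (h.Ab ν) Ψν qν hqν, hνnil]
    rfl
  · intro S hS hSl
    rw [← hkerR]
    exact RG.gen (h.Ab ν) Ψν qν hqν (LinearMap.range_eq_top.2 hsurj) hAsum hperf hNk hνker l hl1
      hνnil hνfree hq S hS hSl
  · intro s
    exact RRk.lift_pow hpos (hl1 s) (hνfree s) qν hsurj (fun p => hqν s p)
      (fun p hp => (hR p).1 hp)
  · intro t u htu
    obtain ⟨s, hst', hsu⟩ : ∃ s : Fin 3, s ≠ t ∧ s ≠ u := by
      fin_cases t <;> fin_cases u <;> first
        | exact absurd rfl htu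
        | exact ⟨0, by decide, by decide⟩
        | exact ⟨1, by decide, by decide⟩
        | exact ⟨2, by decide, by decide⟩
    exact RRk.lift_ab hpos hl1 hνfree hq qν hsurj hqν hR hst' hsu htu

end Abs

end Crest.Agent.R172.RDBlk
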