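import Crest.Agent.R172.ZPL
import Crest.Agent.R172.FC2
import Crest.Agent.R172.EndZ

/-!
Row 172 (S0260), T0 for arbitrary radical and arbitrary `D` (node RD-ZZ): the connection on the core
`M` in a frame, and the corrections of `FC.firstQ` and `FrmB.second` lie in 644's `ZZ`.
-/

set_option autoImplicit false
set_option linter.unusedSectionVars false

namespace Crest.Agent.R172.RDZ

open Matrix Module Crest.Agent.R172.FO Crest.Agent.R172.Core
open Crest.Agent.R172.FC (nab)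
open Crest.Agent.R172.ZP (NilAt adE Gau)

section conn

variable {k K : Type*} [Field k] [Field K] [Algebra k K]
variable {n : Type*} [Fintype n] [DecidableEq n]
variable {M : Type*} [AddCommGroup M] [Module K M]

/-- `∇ y = ∂ y + θ y` -/
def nb (d : Derivation k K K) (θ : Matrix n n K) (y : n → K) : n → K :=
  (fun i => d (y i)) + θ *ᵥ y

variable {d : Derivation k K K} {θ : Matrix n n K}

theorem nb_add (y y' : n → K) : nb d θ (y + y') = nb d θ y + nb d θ y' := by
  unfold nb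
  rw [mulVec_add]
  funext i
  simp only [Pi.add_apply, map_add]
  ring

theorem nb_smul (c : K) (y : n → K) : nb d θ (c • y) = d c • y + c • nb d θ y := by
  unfold nb
  rw [mulVec_smul]
  funext i
  simp only [Pi.add_apply, Pi.smul_apply, smul_eq_mul, Derivation.leibniz]
  ring

theorem d_mulVec (z : Matrix n n K) (y : n → K) :
    (fun i => d ((z *ᵥ y) i)) = z.map d *ᵥ y + z *ᵥ (fun i => d (y i)) := by
  funext i
  simp only [mulVec, dotProduct, Pi.add_apply, map_sum, Derivation.leibniz, smul_eq_mul,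
    Matrix.map_apply]
  rw [← Finset.sum_add_distrib]
  refine Finset.sum_congr rfl fun j _ => ?_
  ring

theorem nb_mulVec (z : Matrix n n K) (y : n → K) :
    nb d θ (z *ᵥ y) = nab d θ z *ᵥ y + z *ᵥ nb d θ y := by
  unfold nb nab
  rw [d_mulVec, sub_mulVec, add_mulVec, mulVec_add, mulVec_mulVec, mulVec_mulVec]
  abel

theorem d_dot (y y' : n → K) :
    d (y ⬝ᵥ y') = (fun i => d (y i)) ⬝ᵥ y' + y ⬝ᵥ (fun i => d (y' i)) := by
  simp only [dotProduct, map_sum, Derivation.leibniz, smul_eq_mul]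
  rw [← Finset.sum_add_distrib]
  refine Finset.sum_congr rfl fun j _ => ?_
  ring

theorem nb_form {γ : Matrix n n K} (hγ : γ.map d = θᵀ * γ + γ * θ) (y y' : n → K) :
    d (y ⬝ᵥ (γ *ᵥ y')) = nb d θ y ⬝ᵥ (γ *ᵥ y') + y ⬝ᵥ (γ *ᵥ nb d θ y') := by
  rw [d_dot, d_mulVec, hγ]
  unfold nb
  rw [add_dotProduct, mulVec_add, dotProduct_add, dotProduct_add, add_mulVec, dotProduct_add]
  have h1 : (θ *ᵥ y) ⬝ᵥ (γ *ᵥ y') = y ⬝ᵥ ((θᵀ * γ) *ᵥ y') := by
    rw [← mulVec_mulVec, dotProduct_mulVec y, vecMul_transpose]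
  rw [h1, mulVec_mulVec _ γ θ]
  ring

/-- a frame `n → K` over the core `M` -/
structure Fr (β : LinearMap.BilinForm K M) (γ : Matrix n n K) (π : (n → K) →ₗ[K] M) : Prop where
  ns : NS β
  sur : Function.Surjective π
  form : ∀ y y', β (π y) (π y') = y ⬝ᵥ (γ *ᵥ y')

/-- `z` descends to the operator `x` of the core -/
def Desc (π : (n → K) →ₗ[K] M) (z : Matrix n n K) (x : End K M) : Prop :=
  ∀ y, π (z *ᵥ y) = x (π y)

variable {β : LinearMap.BilinForm K M} {γ : Matrix n n K} {π : (n → K) →ₗ[K] M}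

theorem Fr.zero_iff (h : Fr β γ π) {y : n → K} : π y = 0 ↔ ∀ y', y' ⬝ᵥ (γ *ᵥ y) = 0 := by
  constructor
  · intro h0 y'
    rw [← h.form, h0, map_zero]
  · intro h0
    refine h.ns.nd _ fun w => ?_
    obtain ⟨y', rfl⟩ := h.sur w
    rw [h.ns.symm, h.form, h0]

theorem Fr.eq_of (h : Fr β γ π) {u v : M} (h1 : ∀ y', β (π y') u = β (π y') v) : u = v := by
  rw [← sub_eq_zero]
  refine h.ns.nd _ fun w => ?_
  obtain ⟨y', rfl⟩ := h.sur w
  rw [h.ns.symm, map_sub, h1, sub_self]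

theorem Fr.exists_sec (h : Fr β γ π) : ∃ σ : M →ₗ[K] (n → K), ∀ m, π (σ m) = m := by
  obtain ⟨σ, hσ⟩ := LinearMap.exists_rightInverse_of_surjective π (LinearMap.range_eq_top.2 h.sur)
  exact ⟨σ, fun m => LinearMap.congr_fun hσ m⟩

/-- a matrix preserving the radical descends -/
theorem Fr.exists_desc (h : Fr β γ π) {z : Matrix n n K} (hz : ∀ y, π y = 0 → π (z *ᵥ y) = 0) :
    ∃ x, Desc π z x := by
  obtain ⟨σ, hσ⟩ := h.exists_sec
  refine ⟨π ∘ₗ Matrix.toLin' z ∘ₗ σ, fun y => ?_⟩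
  have h1 : π (y - σ (π y)) = 0 := by rw [map_sub, hσ, sub_self]
  have h2 := hz _ h1
  rw [mulVec_sub, map_sub, sub_eq_zero] at h2
  exact h2

/-- a `γ`-self-adjoint matrix descends -/
theorem Fr.exists_desc_sa (h : Fr β γ π) {z : Matrix n n K} (hz : γ * z = zᵀ * γ) :
    ∃ x, Desc π z x := by
  refine h.exists_desc fun y hy => ?_
  rw [h.zero_iff] at hy ⊢
  intro y'
  rw [mulVec_mulVec, hz, ← mulVec_mulVec, dotProduct_mulVec, vecMul_transpose]
  exact hy _

namespace Desc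

variable {z z' : Matrix n n K} {x x' : End K M}

theorem add (h : Desc π z x) (h' : Desc π z' x') : Desc π (z + z') (x + x') := fun y => by
  rw [add_mulVec, map_add, h, h', LinearMap.add_apply]

theorem sub (h : Desc π z x) (h' : Desc π z' x') : Desc π (z - z') (x - x') := fun y => by
  rw [sub_mulVec, map_sub, h, h', LinearMap.sub_apply]

theorem smul (c : K) (h : Desc π z x) : Desc π (c • z) (c • x) := fun y => by
  rw [smul_mulVec, map_smul, h, LinearMap.smul_apply]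

theorem mul (h : Desc π z x) (h' : Desc π z' x') : Desc π (z * z') (x * x') := fun y => by
  rw [← mulVec_mulVec, h, h', Module.End.mul_apply]

theorem one : Desc π (1 : Matrix n n K) (1 : End K M) := fun y => by
  rw [one_mulVec, Module.End.one_apply]

theorem unique (f : Fr β γ π) (h : Desc π z x) (h' : Desc π z x') : x = x' := by
  ext m
  obtain ⟨y, rfl⟩ := f.sur m
  rw [← h, h']

theorem eq_of_eq (f : Fr β γ π) (h : Desc π z x) (h' : Desc π z' x') (e : z = z') : x = x' := by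
  subst e; exact h.unique f h'

end Desc

/-- `T` is the adjoint -/
def Adj (β : LinearMap.BilinForm K M) (T : End K M →ₗ[K] End K M) : Prop :=
  ∀ x u v, β (T x u) v = β u (x v)

theorem exists_Adj [FiniteDimensional K M] (h : NS β) : ∃ T : End K M →ₗ[K] End K M, Adj β T := by
  classical
  have hb : Function.Bijective (β : M →ₗ[K] Dual K M) := by
    have hinj : Function.Injective (β : M →ₗ[K] Dual K M) := by
      rw [← LinearMap.ker_eq_bot, LinearMap.ker_eq_bot']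
      intro m hm
      exact h.nd m fun w => by rw [hm]; rfl
    exact ⟨hinj, (LinearMap.injective_iff_surjective_of_finrank_eq_finrank
      (Subspace.dual_finrank_eq).symm).1 hinj⟩
  let e : M ≃ₗ[K] Dual K M := LinearEquiv.ofBijective _ hb
  have he : ∀ (φ : Dual K M) (v : M), β (e.symm φ) v = φ v := by
    intro φ v
    have : e (e.symm φ) = φ := e.apply_symm_apply φ
    exact LinearMap.congr_fun this v
  refine ⟨{ toFun := fun x => e.symm.toLinearMap ∘ₗ (Module.Dual.transpose (R := K) x) ∘ₗ β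
            map_add' := ?_
            map_smul' := ?_ }, ?_⟩
  · intro x y
    ext m
    simp only [LinearMap.comp_apply, LinearMap.add_apply, map_add]
  · intro c x
    ext m
    simp only [LinearMap.comp_apply, LinearMap.smul_apply, map_smul, RingHom.id_apply]
  · intro x u v
    change β (e.symm _) v = _
    rw [he]
    rfl

namespace Adj

variable {T : End K M →ₗ[K] End K M}

theorem mul (hT : Adj β T) (h : NS β) (x y : End K M) : T (x * y) = T y * T x := by
  ext u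
  rw [← sub_eq_zero]
  refine h.nd _ fun v => ?_
  rw [map_sub, LinearMap.sub_apply, hT, Module.End.mul_apply, Module.End.mul_apply, hT, hT,
    sub_self]

theorem inv (hT : Adj β T) (h : NS β) (x : End K M) : T (T x) = x := by
  ext u
  rw [← sub_eq_zero]
  refine h.nd _ fun v => ?_
  rw [map_sub, LinearMap.sub_apply, hT, h.symm, hT, h.symm, sub_self]

theorem eq_of_sa (hT : Adj β T) (h : NS β) {x : End K M} (hx : ∀ u v, β (x u) v = β u (x v)) :
    T x = x := by
  ext u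
  rw [← sub_eq_zero]
  refine h.nd _ fun v => ?_
  rw [map_sub, LinearMap.sub_apply, hT, hx, sub_self]

/-- adjoints in the frame -/
theorem of_desc (hT : Adj β T) (f : Fr β γ π) {z z' : Matrix n n K} {x x' : End K M}
    (hz : Desc π z x) (hz' : Desc π z' x') (e : γ * z' = zᵀ * γ) : x' = T x := by
  ext m
  obtain ⟨y, rfl⟩ := f.sur m
  refine f.eq_of fun y' => ?_
  rw [← hz', f.form, f.ns.symm (π y') (T x (π y)), hT, f.ns.symm, ← hz, f.form, mulVec_mulVec, e,
    ← mulVec_mulVec, dotProduct_mulVec, vecMul_transpose]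

end Adj

/-- a connection on the core -/
structure Conn (d : Derivation k K K) (θ : Matrix n n K) (π : (n → K) →ₗ[K] M)
    (β : LinearMap.BilinForm K M) (D : M → M) : Prop where
  add : ∀ u v, D (u + v) = D u + D v
  smul : ∀ (c : K) u, D (c • u) = d c • u + c • D u
  pi : ∀ y, D (π y) = π (nb d θ y)
  form : ∀ u v, d (β u v) = β (D u) v + β u (D v)

theorem Fr.exists_conn (h : Fr β γ π) (hγ : γ.map d = θᵀ * γ + γ * θ) :
    ∃ D : M → M, Conn d θ π β D := by
  obtain ⟨σ, hσ⟩ := h.exists_sec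
  have key : ∀ y, π y = 0 → π (nb d θ y) = 0 := by
    intro y hy
    rw [h.zero_iff] at hy ⊢
    intro y'
    have h1 := nb_form hγ y' y
    rw [hy y', map_zero, hy (nb d θ y'), zero_add] at h1
    exact h1.symm
  have hsub : ∀ y y', nb d θ (y - y') = nb d θ y - nb d θ y' := by
    intro y y'
    have := nb_add (d := d) (θ := θ) (y - y') y'
    rw [sub_add_cancel] at this
    rw [this]; abel
  have hpi : ∀ y, π (nb d θ (σ (π y))) = π (nb d θ y) := by
    intro y
    have h1 : π (σ (π y) - y) = 0 := by rw [map_sub, hσ, sub_self]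
    have h2 := key _ h1
    rw [hsub, map_sub, sub_eq_zero] at h2
    exact h2
  refine ⟨fun m => π (nb d θ (σ m)), ?_, ?_, hpi, ?_⟩
  · intro u v
    rw [map_add, nb_add, map_add]
  · intro c u
    rw [map_smul, nb_smul, map_add, map_smul, map_smul, hσ]
  · intro u v
    obtain ⟨y, rfl⟩ := h.sur u
    obtain ⟨y', rfl⟩ := h.sur v
    rw [hpi, hpi, h.form, h.form, h.form, nb_form hγ]

namespace Conn

variable {D : M → M} (h : Conn d θ π β D)

/-- the derivation of `End M` -/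
def dE (h : Conn d θ π β D) (x : End K M) : End K M where
  toFun m := D (x m) - x (D m)
  map_add' u v := by
    rw [map_add, h.add, h.add, map_add]; abel
  map_smul' c u := by
    rw [map_smul, h.smul, h.smul, map_add, map_smul, map_smul, RingHom.id_apply, smul_sub]
    abel

theorem dE_apply (x : End K M) (m : M) : h.dE x m = D (x m) - x (D m) := rfl

theorem dE_add (x y : End K M) : h.dE (x + y) = h.dE x + h.dE y := by
  ext m
  simp only [dE_apply, LinearMap.add_apply, h.add]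
  abel

theorem dE_mul (x y : End K M) : h.dE (x * y) = h.dE x * y + x * h.dE y := by
  ext m
  simp only [dE_apply, LinearMap.add_apply, Module.End.mul_apply, map_sub]
  abel

theorem dE_one : h.dE (1 : End K M) = 0 := by
  ext m
  simp [dE_apply]

theorem dE_T {T : End K M →ₗ[K] End K M} (hT : Adj β T) (hns : NS β) (x : End K M) :
    h.dE (T x) = T (h.dE x) := by
  ext u
  rw [← sub_eq_zero]
  refine hns.nd _ fun v => ?_
  rw [map_sub, LinearMap.sub_apply, hT, dE_apply, dE_apply, map_sub, LinearMap.sub_apply, map_sub,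
    hT]
  have h1 := h.form (T x u) v
  rw [hT] at h1
  have h2 := h.form u (x v)
  rw [h1, hT] at h2
  have h3 : β (D (T x u)) v = β (D u) (x v) + β u (D (x v)) - β u (x (D v)) := by
    rw [← h2]; ring
  rw [h3]
  ring

theorem desc {z : Matrix n n K} {x : End K M} (hz : Desc π z x) :
    Desc π (nab d θ z) (h.dE x) := by
  intro y
  rw [dE_apply, ← hz, h.pi, h.pi, ← hz, nb_mulVec, map_add]
  abel

end Conn

theorem Fr.desc_zero (f : Fr β γ π) {z : Matrix n n K} {x : End K M} (hz : Desc π z x)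
    (h0 : γ * z = 0) : x = 0 := by
  ext m
  obtain ⟨y, rfl⟩ := f.sur m
  refine f.eq_of fun y' => ?_
  rw [← hz, f.form, mulVec_mulVec, h0, zero_mulVec, dotProduct_zero, LinearMap.zero_apply, map_zero]

/-- **(Z1) in a frame**: the correction of the first derivative lies in `ZZ`. -/
theorem first_ZZ (f : Fr β γ π) {Dn : M → M} (con : Conn d θ π β Dn) {T : End K M →ₗ[K] End K M}
    (hT : Adj β T) {al : Fin 3 → Matrix n n K} {Ψ : Fin 3 → End K M}
    (hΨ : ∀ s, Desc π (al s) (Ψ s)) {τ : Matrix n n K} {DM : End K M} (hDM : Desc π τ DM) {c : K}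
    {kap kai : Matrix n n K} (hkap : kap = 1 + c • τ) (hmul : kap * kai = 1)
    (hkai : γ * kai = kaiᵀ * γ) (hcomm : ∀ s, kap * al s = al s * kap)
    (hsa : γ * nab d θ τ = (nab d θ τ)ᵀ * γ)
    (hnab : ∀ s, γ * nab d θ (al s * (kap * kap)) = 0)
    (hnil : ∀ x : End K M, (∀ s, x * ((1 + c • DM) * (1 + c • DM) * Ψ s) =
      ((1 + c • DM) * (1 + c • DM) * Ψ s) * x) → NilAt (adE DM) x) :
    ∃ zM, Desc π (c • (nab d θ τ * kai)) zM ∧ T zM ∈ ZP.ZZ T 1 DM Ψ := by
  obtain ⟨kM, hkM⟩ := f.exists_desc_sa hkai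
  obtain ⟨cM, hcM⟩ : ∃ cM : End K M, cM = 1 + c • DM := ⟨_, rfl⟩
  rw [← hcM] at hnil
  have hcMd : Desc π kap cM := by
    rw [hkap, hcM]; exact Desc.one.add (hDM.smul c)
  have e1 : cM * kM = 1 := (hcMd.mul hkM).eq_of_eq f Desc.one hmul
  have e2 : kM * cM = 1 := (hkM.mul hcMd).eq_of_eq f Desc.one (mul_eq_one_comm.1 hmul)
  have hcΨ : ∀ s, cM * Ψ s = Ψ s * cM := fun s =>
    (hcMd.mul (hΨ s)).eq_of_eq f ((hΨ s).mul hcMd) (hcomm s)
  have TkM : T kM = kM := (hT.of_desc f hkM hkM hkai).symm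
  have Tδ : T (con.dE DM) = con.dE DM := (hT.of_desc f (con.desc hDM) (con.desc hDM) hsa).symm
  have hcD : cM * DM = DM * cM := by
    rw [hcM]; simp only [add_mul, mul_add, one_mul, mul_one, smul_mul_assoc, mul_smul_comm]
  have hDΨ : ∀ s, c • (DM * Ψ s) = c • (Ψ s * DM) := by
    intro s
    have := hcΨ s
    rw [hcM] at this
    simpa only [add_mul, mul_add, one_mul, mul_one, smul_mul_assoc, mul_smul_comm,
      add_right_inj] using this
  have hd0 : ∀ s, con.dE (cM * cM * Ψ s) = 0 := by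
    intro s
    refine f.desc_zero (con.desc ((hcMd.mul hcMd).mul (hΨ s))) ?_
    have : kap * kap * al s = al s * (kap * kap) := by
      rw [Matrix.mul_assoc, hcomm, ← Matrix.mul_assoc, hcomm, Matrix.mul_assoc]
    rw [this]; exact hnab s
  by_cases hc : c = 0
  · refine ⟨0, ?_, ?_⟩
    · rw [hc, zero_smul]
      intro y
      rw [zero_mulVec, map_zero, LinearMap.zero_apply]
    · rw [map_zero]; exact Submodule.zero_mem _
  have hDΨ' : ∀ s, DM * Ψ s = Ψ s * DM := fun s => by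
    have := congrArg (fun x => c⁻¹ • x) (hDΨ s)
    simpa only [smul_smul, inv_mul_cancel₀ hc, one_smul] using this
  have hδc : ∀ s, con.dE DM * (cM * cM * Ψ s) = (cM * cM * Ψ s) * con.dE DM := by
    intro s
    have h1 : DM * (cM * cM * Ψ s) = (cM * cM * Ψ s) * DM := by
      have a1 : Commute DM cM := hcD.symm
      exact ((a1.mul_right a1).mul_right (hDΨ' s)).eq
    have h2 := congrArg con.dE h1
    rw [con.dE_mul DM, con.dE_mul (cM * cM * Ψ s) DM, hd0, mul_zero, add_zero, zero_mul,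
      zero_add] at h2
    exact h2
  refine ⟨c • (con.dE DM * kM), ((con.desc hDM).mul hkM).smul c, ?_⟩
  rw [map_smul, hT.mul f.ns, TkM, Tδ]
  refine Submodule.smul_mem _ _ (ZP.first_mem (t := c) (fun x y => hT.mul f.ns x y) ⟨e1, e2, ?_⟩ TkM
    (by rw [mul_one, one_mul]) hcΨ Tδ (mul_one _) (one_mul _) (hnil _ hδc) hδc)
  intro x
  rw [hcM]
  simp only [add_mul, mul_add, one_mul, mul_one, smul_mul_assoc, mul_smul_comm, smul_sub]
  abel

/-- **(Z2') in a frame**: the correction of the second derivative (`L` fixed) lies in `ZZ`. -/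
theorem second_ZZ (f : Fr β γ π) {Dn : M → M} (con : Conn d θ π β Dn) {T : End K M →ₗ[K] End K M}
    (hT : Adj β T) {al : Fin 3 → Matrix n n K} {Ψ : Fin 3 → End K M}
    (hΨ : ∀ s, Desc π (al s) (Ψ s)) {DM : End K M} {z zY : Matrix n n K} {zM zYM : End K M}
    (hz : Desc π z zM) (hzY : Desc π zY zYM) (mz : T zM ∈ ZP.ZZ T 1 DM Ψ)
    (mzY : T zYM ∈ ZP.ZZ T 1 DM Ψ)
    (hnab : ∀ s, γ * nab d θ (al s) = zYᵀ * γ * al s + γ * al s * zY)
    (hnilD : NilAt (adE DM) (con.dE DM)) :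
    Desc π (zY * z + z.map d + θ * z - z * θ) (zYM * zM + con.dE zM) ∧
      T (zYM * zM + con.dE zM) ∈ ZP.ZZ T 1 DM Ψ := by
  constructor
  · have e : zY * z + z.map d + θ * z - z * θ = zY * z + nab d θ z := by
      unfold nab; abel
    rw [e]
    exact (hzY.mul hz).add (con.desc hz)
  · have e : T (zYM * zM + con.dE zM) = con.dE (T zM) + T zM * T zYM := by
      rw [map_add, hT.mul f.ns, con.dE_T hT f.ns, add_comm]
    rw [e]
    refine ZPL.fixed_mem (fun x y => hT.mul f.ns x y) con.dE con.dE_add con.dE_mul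
      (fun x => con.dE_T hT f.ns x) con.dE_one hnilD mz mzY ?_
    intro s
    rw [hT.inv f.ns]
    ext m
    obtain ⟨y, rfl⟩ := f.sur m
    refine f.eq_of fun y' => ?_
    rw [← con.desc (hΨ s), f.form, mulVec_mulVec, hnab, LinearMap.add_apply, map_add,
      Module.End.mul_apply, Module.End.mul_apply, add_mulVec, dotProduct_add]
    congr 1
    · rw [f.ns.symm (π y') (T zYM _), hT, f.ns.symm, ← hzY, ← hΨ, f.form, Matrix.mul_assoc,
        ← mulVec_mulVec, ← mulVec_mulVec, dotProduct_mulVec, vecMul_transpose]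
    · rw [← hzY, ← hΨ, f.form, mulVec_mulVec, mulVec_mulVec]

end conn

section geo

variable {ι : Type*} [Fintype ι] [DecidableEq ι] {δ : Type*} [Fintype δ] [DecidableEq δ]
variable {a : Type*} [Fintype a] [DecidableEq a]
variable {k K : Type*} [Field k] [Field K] [Algebra k K]
variable {arm : δ → Fin 3} {J : Matrix ι ι K} {B : Matrix δ δ K}
  {N W : Submodule K (Matrix ι δ K)} {F G : Matrix ι δ K} {p : Matrix ι a K}
  {al : Fin 3 → Matrix a a K} {τ : Matrix a a K}
variable {M : Type*} [AddCommGroup M] [Module K M] {β : LinearMap.BilinForm K M}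
  {π : (a → K) →ₗ[K] M} {T : End K M →ₗ[K] End K M} {Ψ : Fin 3 → End K M} {DM : End K M}

/-- the frame derivative of the Gram matrix, from `Data` alone -/
theorem der_gam (hD : Data k arm J B N W) {d : Derivation k K K} {θ : Matrix a a K}
    (hθ : p.map d = p * θ) :
    (pᵀ * J * p).map d = θᵀ * (pᵀ * J * p) + (pᵀ * J * p) * θ := by
  rw [map_mul_der, map_mul_der, map_transpose_der, hθ, hD.J_const, Matrix.mul_zero,
    add_zero, transpose_mul]
  simp only [Matrix.mul_assoc]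

/-- `γ ∇(al_s) = zYᵀ γ al_s + γ al_s zY` when `∂F = wY` with `wYᵀ J p = Fᵀ J p zY` -/
theorem gam_nab_al (hD : Data k arm J B N W) (hal : ∀ s, Phi arm J B F s * p = p * al s)
    {d : Derivation k K K} {θ : Matrix a a K} (hθ : p.map d = p * θ)
    {zY : Matrix a a K} (hwY : (F.map d)ᵀ * J * p = Fᵀ * J * p * zY) (s : Fin 3) :
    (pᵀ * J * p) * nab d θ (al s) =
      zYᵀ * (pᵀ * J * p) * al s + (pᵀ * J * p) * al s * zY := by
  have g0 : (pᵀ * J * p) * al s = (Fᵀ * J * p)ᵀ * (E K arm s * B * (Fᵀ * J * p)) := by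
    rw [Matrix.mul_assoc, ← hal, transpose_mul, transpose_mul, transpose_transpose, hD.J_symm]
    unfold Phi M
    simp only [Matrix.mul_assoc]
  have g1 : (Fᵀ * J * p).map d = (Fᵀ * J * p) * (zY + θ) := by
    rw [map_mul_der, map_mul_der, map_transpose_der, hθ, hD.J_const, Matrix.mul_zero, add_zero,
      hwY, Matrix.mul_add]
    simp only [Matrix.mul_assoc]
  have g2 := congrArg (fun A : Matrix a a K => A.map d) g0
  simp only [map_mul_der _ (Fᵀ * J * p)ᵀ, map_mul_der _ (E K arm s * B), map_mul_der _ (E K arm s) B,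
    map_transpose_der, g1, E_map_der, hD.B_const, map_mul_der _ (pᵀ * J * p) (al s),
    der_gam hD hθ] at g2
  obtain ⟨γ, hγ⟩ : ∃ γ : Matrix a a K, γ = pᵀ * J * p := ⟨_, rfl⟩
  rw [← hγ] at g0 g2 ⊢
  have g3 : (Fᵀ * J * p)ᵀ * (E K arm s * B * ((Fᵀ * J * p) * (zY + θ))) =
      γ * al s * (zY + θ) := by
    rw [g0]; simp only [Matrix.mul_assoc]
  have g4 : ((Fᵀ * J * p) * (zY + θ))ᵀ * (E K arm s * B * (Fᵀ * J * p)) =
      (zY + θ)ᵀ * (γ * al s) := by
    rw [g0, transpose_mul]; simp only [Matrix.mul_assoc]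
  rw [Matrix.zero_mul, Matrix.mul_zero, add_zero, Matrix.zero_mul, zero_add, g3, g4] at g2
  unfold nab
  have g5 : γ * (al s).map d = (zY + θ)ᵀ * (γ * al s) + γ * al s * (zY + θ) -
      (θᵀ * γ + γ * θ) * al s := by
    rw [← g2]; abel
  rw [Matrix.mul_sub, Matrix.mul_add, g5, transpose_add]
  simp only [Matrix.add_mul, Matrix.mul_add, Matrix.mul_assoc]
  abel

/-- **(Z1), geometric form**: the correction of `FC.Ctx.firstQ`. -/
theorem firstQ_ZZ (h : FC.Ctx k arm J B N W F G p al τ) {c : K} {kap kai : Matrix a a K}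
    (hp : FC.Par k arm J B N W F G p τ c kap kai) (f : Fr β (pᵀ * J * p) π) (hT : Adj β T)
    (hΨ : ∀ s, Desc π (al s) (Ψ s)) (hDM : Desc π τ DM)
    (hnil : ∀ x : End K M, (∀ s, x * ((1 + c • DM) * (1 + c • DM) * Ψ s) =
      ((1 + c • DM) * (1 + c • DM) * Ψ s) * x) → NilAt (adE DM) x)
    {χ : Fin 3 → Matrix a a K}
    (hχ0 : ∀ s, (pᵀ * J * p) * (χ s * (pᵀ * J * p) * (al s * (kap * kap)) -
      al s * (kap * kap) * (χ s * (pᵀ * J * p))) = 0)
    {d : Derivation k K K} {θ : Matrix a a K} (hθ : p.map d = p * θ)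
    (hsa : (pᵀ * J * p) * nab d θ τ = (nab d θ τ)ᵀ * (pᵀ * J * p))
    (hnab : ∀ s, p * nab d θ (al s * (kap * kap)) =
      p * (χ s * (pᵀ * J * p) * (al s * (kap * kap)) -
        al s * (kap * kap) * (χ s * (pᵀ * J * p)))) :
    ∃ zM, Desc π (c • (nab d θ τ * kai)) zM ∧ T zM ∈ ZP.ZZ T 1 DM Ψ := by
  obtain ⟨Dn, con⟩ := f.exists_conn (h.der_gam hp hθ)
  refine first_ZZ f con hT hΨ hDM hp.kap_eq hp.mul (h.kai_sa hp) (h.kap_al hp) hsa ?_ hnil
  intro s
  have h1 := hnab s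
  have h2 := hχ0 s
  rw [Matrix.mul_assoc (pᵀ * J) p, ← h1] at h2
  rw [Matrix.mul_assoc (pᵀ * J) p]
  exact h2

/-- exactness on the core is automatic if `γ χ γ = 0` (one leg in the radical) -/
theorem hchi0 {γ χ al kk : Matrix a a K} (h0 : γ * χ * γ = 0) (hs : γ * (al * kk) = (al * kk)ᵀ * γ) :
    γ * (χ * γ * (al * kk) - al * kk * (χ * γ)) = 0 := by
  have e1 : γ * (χ * γ * (al * kk)) = (γ * χ * γ) * (al * kk) := by
    simp only [Matrix.mul_assoc]
  have e2 : γ * (al * kk * (χ * γ)) = (al * kk)ᵀ * (γ * χ * γ) := by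
    rw [← Matrix.mul_assoc γ (al * kk), hs]; simp only [Matrix.mul_assoc]
  rw [Matrix.mul_sub, e1, e2, h0, Matrix.zero_mul, Matrix.mul_zero, sub_zero]

/-- **(Z2'), geometric form**: the correction of `FrmB.second`. -/
theorem secondQ_ZZ (hD : Data k arm J B N W) (hal : ∀ s, Phi arm J B F s * p = p * al s)
    (f : Fr β (pᵀ * J * p) π) (hT : Adj β T) (hΨ : ∀ s, Desc π (al s) (Ψ s))
    {Y : Fin 3 → Matrix a a K} {wY : Matrix ι δ K} {zY : Matrix a a K}
    (hQ : FrmB.Q3 arm J B N W F p Y wY zY) {d : Derivation k K K} (hdF : F.map d = wY)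
    {θ : Matrix a a K} (hθ : p.map d = p * θ) {z : Matrix a a K} {zM zYM : End K M}
    (hz : Desc π z zM) (hzY : Desc π zY zYM) (mz : T zM ∈ ZP.ZZ T 1 DM Ψ)
    (mzY : T zYM ∈ ZP.ZZ T 1 DM Ψ)
    (hnilD : ∀ (Dn : M → M) (con : Conn d θ π β Dn), NilAt (adE DM) (con.dE DM)) :
    ∃ z₂ : End K M, Desc π (zY * z + z.map d + θ * z - z * θ) z₂ ∧ T z₂ ∈ ZP.ZZ T 1 DM Ψ := by
  obtain ⟨Dn, con⟩ := f.exists_conn (der_gam hD hθ)
  have hw := hQ.val
  rw [← hdF] at hw
  obtain ⟨h1, h2⟩ := second_ZZ f con hT hΨ hz hzY mz mzY (gam_nab_al hD hal hθ hw) (hnilD _ con)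
  exact ⟨_, h1, h2⟩

end geo

section core

open Crest.Agent.R172.TG

variable {ι : Type*} [Fintype ι] [DecidableEq ι] {δ : Type*} [Fintype δ] [DecidableEq δ]
variable {a : Type*} [Fintype a] [DecidableEq a]
variable {K : Type*} [Field K]
variable {J : Matrix ι ι K} {W : Submodule K (Matrix ι δ K)} {F : Matrix ι δ K}
  {P : Submodule K (ι → K)} {e : Matrix ι ι K} {M : Submodule K (ι → K)} {p : Matrix ι a K}

/-- the projection of the frame `p` of `P` to the core `M = im e` -/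
def pi (e : Matrix ι ι K) (hM : ∀ v, v ∈ M ↔ ∃ w, v = e *ᵥ w) (p : Matrix ι a K) :
    (a → K) →ₗ[K] M := prM e hM ∘ₗ Matrix.mulVecLin p

theorem pi_apply (hM : ∀ v, v ∈ M ↔ ∃ w, v = e *ᵥ w) (y : a → K) :
    pi e hM p y = prM e hM (p *ᵥ y) := rfl

theorem Fr_core (hJ : Jᵀ = J) (hJu : IsUnit J) (he : e * e = e) (heJ : eᵀ * J = J * e)
    (hM : ∀ v, v ∈ M ↔ ∃ w, v = e *ᵥ w) (hP : ∀ v, v ∈ P ↔ ∃ y, v = p *ᵥ y)
    (hPM : ∀ m ∈ M, ∃ q ∈ P, e *ᵥ q = m)
    (hPe : ∀ q ∈ P, ∀ q' ∈ P, (e *ᵥ q) ⬝ᵥ (J *ᵥ q') = q ⬝ᵥ (J *ᵥ q')) :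
    Fr (frm J M) (pᵀ * J * p) (pi e hM p) where
  ns := frm_NS hJ hJu he heJ hM
  sur m := by
    obtain ⟨q, hq, h1⟩ := hPM m m.2
    obtain ⟨y, rfl⟩ := (hP q).1 hq
    exact ⟨y, Subtype.ext (by rw [pi_apply, prM_coe, h1])⟩
  form y y' := by
    rw [pi_apply, pi_apply, frm_apply, prM_coe, prM_coe]
    have h1 := hPe (p *ᵥ y) ((hP _).2 ⟨y, rfl⟩) (p *ᵥ y') ((hP _).2 ⟨y', rfl⟩)
    have h2 : (e *ᵥ (p *ᵥ y)) ⬝ᵥ (J *ᵥ (e *ᵥ (p *ᵥ y'))) =
        (e *ᵥ (p *ᵥ y)) ⬝ᵥ (J *ᵥ (p *ᵥ y')) := by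
      rw [mulVec_mulVec _ J e, ← heJ, ← mulVec_mulVec, dotProduct_mulVec _ eᵀ, vecMul_transpose,
        mulVec_mulVec _ e e, he]
    rw [h2, h1, ← mulVec_mulVec, ← mulVec_mulVec, dotProduct_mulVec y, vecMul_transpose]

/-- a correction `wᵀ J p = Fᵀ J p z` with `z` descending to `zM` gives `SyZ` membership for `T zM` -/
theorem mem_SyZ (hJ : Jᵀ = J) (hJu : IsUnit J) (he : e * e = e) (heJ : eᵀ * J = J * e)
    (hM : ∀ v, v ∈ M ↔ ∃ w, v = e *ᵥ w) (hP : ∀ v, v ∈ P ↔ ∃ y, v = p *ᵥ y)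
    (hPM : ∀ m ∈ M, ∃ q ∈ P, e *ᵥ q = m)
    (hPe : ∀ q ∈ P, ∀ q' ∈ P, (e *ᵥ q) ⬝ᵥ (J *ᵥ q') = q ⬝ᵥ (J *ᵥ q'))
    {T : End K M →ₗ[K] End K M} (hT : Adj (frm J M) T) {w : Matrix ι δ K} (hw : w ∈ W)
    {z : Matrix a a K} (hval : wᵀ * J * p = Fᵀ * J * p * z) {zM : End K M}
    (hz : Desc (pi e hM p) z zM) {ZZ : Submodule K (End K M)} (mz : T zM ∈ ZZ) :
    w ∈ EndP.SyZ J W F P e hM ZZ := by
  have f := Fr_core hJ hJu he heJ hM hP hPM hPe
  refine ⟨hw, T zM, mz, fun u u' hu hu' => ?_⟩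
  obtain ⟨y, hy⟩ := (hP _).1 hu
  obtain ⟨y', hy'⟩ := (hP _).1 hu'
  rw [hy, hy', ← pi_apply hM, ← pi_apply hM, f.ns.symm, hT, f.ns.symm, ← hz, f.form]
  have h1 : (p *ᵥ y) ⬝ᵥ (J *ᵥ (w *ᵥ u')) = u' ⬝ᵥ ((wᵀ * J * p) *ᵥ y) := by
    rw [← mulVec_mulVec, ← mulVec_mulVec, dotProduct_mulVec u', vecMul_transpose,
      dotProduct_mulVec (p *ᵥ y), ← mulVec_transpose, hJ, dotProduct_comm]
  rw [h1, hval]
  have h2 : u' ⬝ᵥ ((Fᵀ * J * p * z) *ᵥ y) = (F *ᵥ u') ⬝ᵥ (J *ᵥ (p *ᵥ (z *ᵥ y))) := by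
    rw [← mulVec_mulVec, ← mulVec_mulVec, ← mulVec_mulVec, dotProduct_mulVec u', vecMul_transpose]
  rw [h2, hy', ← mulVec_mulVec, ← mulVec_mulVec, dotProduct_mulVec (z *ᵥ y), vecMul_transpose,
    dotProduct_mulVec (p *ᵥ y'), ← mulVec_transpose, hJ, dotProduct_comm]

end core

end Crest.Agent.R172.RDZ
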