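import Crest.Agent.R172.RD0
import Crest.Agent.R172.RDZ
import Crest.Agent.R172.ZP2

/-!
Row 172 (S0260), T0, any radical, any `D`: the first derivative, decorated (`RD.first`), from `pick`.
-/

set_option autoImplicit false
set_option linter.unusedSectionVars false

namespace Crest.Agent.R172.RDF1

open Matrix Module TensorProduct Crest.Agent.R172.FO Crest.Agent.R172.FrmB
open Crest.Agent.R172.RD
open Crest.Agent.R172.Core (NS Tame)
open Crest.Agent.R172.PL (Wk)
open Crest.Agent.R172.FC (nab)
open Crest.Agent.R172.ZP (NilAt adE)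

variable {ι : Type*} [Fintype ι] [DecidableEq ι] {δ : Type*} [Fintype δ] [DecidableEq δ]
variable {n : Type*} [Fintype n] [DecidableEq n]
variable {k K : Type*} [Field k] [Field K] [Algebra k K]
variable {M : Type*} [AddCommGroup M] [Module K M]
variable {m : Type*} [Fintype m] [DecidableEq m]

theorem sub_swap {A : Type*} [AddCommGroup A] {x y u v : A} (h : x - u = y - v) :
    x - y = u - v := by
  have : x = y - v + u := by rw [← h]; abel
  rw [this]; abel

section off

variable {e : m → Matrix n n K}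

theorem off_add (A A' : Matrix n n K) : off e (A + A') = off e A + off e A' := by
  unfold off
  simp only [Matrix.mul_add, Matrix.add_mul, Finset.sum_add_distrib]
  abel

theorem off_sub (A A' : Matrix n n K) : off e (A - A') = off e A - off e A' := by
  unfold off
  simp only [Matrix.mul_sub, Matrix.sub_mul, Finset.sum_sub_distrib]
  abel

theorem off_smul (c : K) (A : Matrix n n K) : off e (c • A) = c • off e A := by
  unfold off
  simp only [Matrix.mul_smul, Matrix.smul_mul, ← Finset.smul_sum, smul_sub]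

theorem off_mul_right {X : Matrix n n K} (hX : ∀ l, e l * X = X * e l) (A : Matrix n n K) :
    off e (A * X) = off e A * X := by
  unfold off
  rw [Matrix.sub_mul, Matrix.sum_mul]
  congr 1
  refine Finset.sum_congr rfl fun l _ => ?_
  simp only [Matrix.mul_assoc, hX]

theorem off_mul_left {X : Matrix n n K} (hX : ∀ l, e l * X = X * e l) (A : Matrix n n K) :
    off e (X * A) = X * off e A := by
  unfold off
  rw [Matrix.mul_sub, Matrix.mul_sum]
  congr 1
  refine Finset.sum_congr rfl fun l _ => ?_
  rw [← Matrix.mul_assoc, ← Matrix.mul_assoc, hX]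
  simp only [Matrix.mul_assoc]

theorem off_comm (idem : ∀ i, e i * e i = e i) (sumE : ∑ i, e i = 1) {X : Matrix n n K}
    (hX : ∀ l, e l * X = X * e l) : off e X = 0 := by
  unfold off
  have : ∀ l, e l * X * e l = X * e l := fun l => by rw [hX, Matrix.mul_assoc, idem]
  simp only [this]
  rw [← Matrix.mul_sum, sumE, Matrix.mul_one, sub_self]

theorem off_blk (orth : ∀ i j, i ≠ j → e i * e j = 0) {i j : m} (hij : i ≠ j) {A : Matrix n n K}
    (hA : e i * A * e j = A) : off e A = A := by
  unfold off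
  have : ∀ l, e l * A * e l = 0 := by
    intro l
    by_cases hl : l = i
    · subst hl
      rw [← hA, Matrix.mul_assoc, Matrix.mul_assoc _ (e j), orth j l (fun h => hij h.symm),
        Matrix.mul_zero, Matrix.mul_zero]
    · rw [← hA, Matrix.mul_assoc (e i), ← Matrix.mul_assoc (e l), orth l i hl, Matrix.zero_mul,
        Matrix.zero_mul]
  simp only [this, Finset.sum_const_zero, sub_zero]

theorem map_comm_e {d : Derivation k K K} (eC : ∀ i, (e i).map d = 0) {X : Matrix n n K}
    (hX : ∀ l, e l * X = X * e l) (l : m) : e l * X.map d = X.map d * e l := by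
  have h1 := congrArg (fun A : Matrix n n K => A.map d) (hX l)
  simp only [map_mul_der, eC, Matrix.zero_mul, Matrix.mul_zero, add_zero, zero_add] at h1
  exact h1

end off

variable {arm : δ → Fin 3} {J : Matrix ι ι K} {B : Matrix δ δ K}
  {N W : Submodule K (Matrix ι δ K)} {F G : Matrix ι δ K} {p : Matrix ι n K}
  {al : Fin 3 → Matrix n n K} {tau : Matrix n n K}
  {β : LinearMap.BilinForm K M} {T : Module.End K M →ₗ[K] Module.End K M}
  {Ψ : Fin 3 → Module.End K M} {D : Module.End K M} {π : (n → K) →ₗ[K] M}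
  {e : m → Matrix n n K} {lam : m → K} {l : Fin 3 → ℕ} {TT : Set k}

/-- the frame in the sense of `RDZ` -/
theorem fr (h : Fr k arm J B N W F G p al tau β T Ψ D π e lam l TT) :
    RDZ.Fr β (pᵀ * J * p) π := ⟨h.cr.ns, h.cr.onto, h.cr.form⟩

theorem adj (h : Fr k arm J B N W F G p al tau β T Ψ D π e lam l TT) : RDZ.Adj β T := h.cr.adj

/-- block diagonal operators of the core are ad-nilpotent -/
theorem nilAt (h : Fr k arm J B N W F G p al tau β T Ψ D π e lam l TT) {A : Module.End K M}
    (hA : ∀ i j, i ≠ j → ∀ x y, β (A (π (e i *ᵥ x))) (π (e j *ᵥ y)) = 0) : NilAt (adE D) A := by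
  have f := fr h
  have hE : ∀ i, ∃ x, RDZ.Desc π (e i) x := fun i => f.exists_desc_sa (h.eg i).symm
  choose E hE using hE
  have hD : RDZ.Desc π tau D := h.ptau
  have E1 : ∀ i, E i * E i = E i := fun i => ((hE i).mul (hE i)).eq_of_eq f (hE i) (h.idem i)
  have E0 : ∀ i j, i ≠ j → E i * E j = 0 := fun i j hij => by
    refine ((hE i).mul (hE j)).eq_of_eq f (z' := 0) ?_ (h.orth i j hij)
    intro y
    rw [zero_mulVec, map_zero, LinearMap.zero_apply]
  have dsum : ∀ (f' : m → Matrix n n K) (x' : m → Module.End K M) (S : Finset m),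
      (∀ i, RDZ.Desc π (f' i) (x' i)) → RDZ.Desc π (∑ i ∈ S, f' i) (∑ i ∈ S, x' i) := by
    intro f' x' S hf
    classical
    induction S using Finset.induction_on with
    | empty =>
      intro y
      rw [Finset.sum_empty, Finset.sum_empty, zero_mulVec, map_zero, LinearMap.zero_apply]
    | insert a S ha ih =>
      rw [Finset.sum_insert ha, Finset.sum_insert ha]
      exact (hf a).add ih
  have Es : ∑ i, E i = 1 := (dsum e E _ hE).eq_of_eq f RDZ.Desc.one h.sumE
  have ED : ∀ i, E i * D = D * E i := fun i =>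
    ((hE i).mul hD).eq_of_eq f (hD.mul (hE i)) (h.etau i)
  have Eadj : ∀ i u v, β (E i u) v = β u (E i v) := by
    intro i u v
    have := (adj h).of_desc f (hE i) (hE i) (h.eg i).symm
    rw [this, (adj h), ← this]
  -- `A` commutes with the `E i`
  have hA0 : ∀ i j, i ≠ j → E j * A * E i = 0 := by
    intro i j hij
    ext u
    refine f.ns.nd _ fun v => ?_
    obtain ⟨x, rfl⟩ := f.sur u
    obtain ⟨y, rfl⟩ := f.sur v
    rw [Module.End.mul_apply, Module.End.mul_apply, Eadj, ← hE, ← hE]
    exact hA i j hij x y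
  have hAE : ∀ i, A * E i = E i * A := by
    intro i
    have e1 : A * E i = E i * A * E i := by
      calc A * E i = (∑ j, E j) * (A * E i) := by rw [Es, one_mul]
        _ = ∑ j, E j * A * E i := by
          rw [Finset.sum_mul]; simp only [mul_assoc]
        _ = _ := by
          rw [Finset.sum_eq_single i]
          · intro j _ hj
            exact hA0 i j (fun h => hj h.symm)
          · intro h; exact absurd (Finset.mem_univ i) h
    have e2 : E i * A = E i * A * E i := by
      calc E i * A = (E i * A) * ∑ j, E j := by rw [Es, mul_one]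
        _ = ∑ j, E i * A * E j := by rw [Finset.mul_sum]
        _ = _ := by
          rw [Finset.sum_eq_single i]
          · intro j _ hj
            exact hA0 j i hj
          · intro h; exact absurd (Finset.mem_univ i) h
    rw [e1, ← e2]
  -- the nilpotent part
  obtain ⟨Nn, hNn⟩ : ∃ Nn : m → Module.End K M, Nn = fun i => (D - lam i • (1 : End K M)) * E i :=
    ⟨_, rfl⟩
  have hN : ∀ i, IsNilpotent (Nn i) := by
    intro i
    obtain ⟨r, hr⟩ := h.nil i
    have hd : RDZ.Desc π ((tau - lam i • (1 : Matrix n n K)) * e i) (Nn i) := by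
      rw [hNn]
      exact (hD.sub (RDZ.Desc.one.smul (lam i))).mul (hE i)
    have hpw : ∀ r : ℕ, RDZ.Desc π (((tau - lam i • (1 : Matrix n n K)) * e i) ^ r) (Nn i ^ r) := by
      intro r
      induction r with
      | zero => rw [pow_zero, pow_zero]; exact RDZ.Desc.one
      | succ r ih => rw [pow_succ, pow_succ]; exact ih.mul hd
    refine ⟨r, (hpw r).eq_of_eq f (z' := 0) ?_ hr⟩
    intro y
    rw [zero_mulVec, map_zero, LinearMap.zero_apply]
  have hNc : ∀ i j, Commute (Nn i) (Nn j) := by
    intro i j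
    by_cases hij : i = j
    · subst hij; exact Commute.refl _
    · have z1 : ∀ i j, i ≠ j → Nn i * Nn j = 0 := by
        intro i j hij
        have c1 : E i * (D - lam j • (1 : End K M)) = (D - lam j • (1 : End K M)) * E i := by
          rw [mul_sub, sub_mul, ED, mul_smul_comm, smul_mul_assoc, mul_one, one_mul]
        rw [hNn]
        change (D - lam i • (1 : End K M)) * E i * ((D - lam j • (1 : End K M)) * E j) = 0
        rw [mul_assoc, ← mul_assoc (E i), c1, mul_assoc _ (E i), E0 i j hij, mul_zero, mul_zero]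
      change Nn i * Nn j = Nn j * Nn i
      rw [z1 i j hij, z1 j i (fun h => hij h.symm)]
  have hNs : IsNilpotent (∑ i, Nn i) :=
    Commute.isNilpotent_sum (fun i _ => hN i) (fun i j _ _ => hNc i j)
  obtain ⟨Dn, hDn⟩ : ∃ Dn, Dn = ∑ i, Nn i := ⟨_, rfl⟩
  obtain ⟨Ds, hDs⟩ : ∃ Ds : Module.End K M, Ds = ∑ i, lam i • E i := ⟨_, rfl⟩
  have hsum : D = Dn + Ds := by
    rw [hDn, hDs, ← Finset.sum_add_distrib]
    have : ∀ i, Nn i + lam i • E i = D * E i := by
      intro i
      rw [hNn]
      change (D - lam i • (1 : End K M)) * E i + lam i • E i = _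
      rw [sub_mul, smul_mul_assoc, one_mul, sub_add_cancel]
    simp only [this]
    rw [← Finset.mul_sum, Es, mul_one]
  have hDsD : Commute D Ds := by
    rw [hDs]
    refine Commute.sum_right _ _ _ fun i _ => ?_
    exact ((show Commute D (E i) from (ED i).symm).smul_right (lam i))
  have hDsN : Commute Dn Ds := by
    have : Dn = D - Ds := by rw [hsum]; abel
    rw [this]
    exact hDsD.sub_left (Commute.refl Ds)
  have hDsA : Commute Ds A := by
    rw [hDs]
    refine Commute.sum_left _ _ _ fun i _ => ?_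
    exact ((show Commute (E i) A from (hAE i).symm).smul_left (lam i))
  have had : adE D = adE Dn + adE Ds := by
    refine AddMonoidHom.ext fun x => ?_
    change D * x - x * D = (Dn * x - x * Dn) + (Ds * x - x * Ds)
    rw [hsum]
    noncomm_ring
  rw [had]
  refine NilAt.add_op ?_ ?_ ⟨1, ?_⟩
  · change adE Dn * adE Ds = adE Ds * adE Dn
    refine AddMonoidHom.ext fun x => ?_
    change Dn * (Ds * x - x * Ds) - (Ds * x - x * Ds) * Dn =
      Ds * (Dn * x - x * Dn) - (Dn * x - x * Dn) * Ds
    have c := hDsN.eq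
    calc Dn * (Ds * x - x * Ds) - (Ds * x - x * Ds) * Dn
        = (Dn * Ds) * x - Dn * x * Ds - Ds * x * Dn + x * (Ds * Dn) := by noncomm_ring
      _ = (Ds * Dn) * x - Dn * x * Ds - Ds * x * Dn + x * (Dn * Ds) := by rw [c]
      _ = _ := by noncomm_ring
  · exact ZPM.nil_ad_of_nilpotent (hDn ▸ hNs) A
  · rw [pow_one]
    change Ds * A - A * Ds = 0
    rw [hDsA.eq, sub_self]


/-- **RD1**: FIRST, decorated, from the choice of the connection -/
theorem first_core [CharZero K] (h : Fr k arm J B N W F G p al tau β T Ψ D π e lam l TT)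
    {i j : m} (hij : i ≠ j) {t : k} (ht : t ∈ TT) {kap kai : Matrix n n K}
    (hp : FC.Par k arm J B N W F G p tau (algebraMap k K t) kap kai)
    {x : Fin 3 → Matrix n n K} {b kk : Matrix n n K}
    (hx : Dec (pᵀ * J * p) π e i j (fun r => al r * (kap * kap)) (fun r => al r * (kap * kap)) x
      b kk)
    (hpick : ∀ (d : Derivation k K K) (θ0 : Matrix n n K), p.map d = p * θ0 →
      ∀ (U : Fin 3 → Matrix n n K), (∀ s, p * FC.nab d θ0 (al s * (kap * kap)) = p * U s) →
      ∀ (C : Matrix n n K), off e C = C → (∀ u, π (C *ᵥ u) = 0) →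
      (∀ s, off e (U s) = C * (al s * (kap * kap)) - al s * (kap * kap) * C) →
      ∃ θ, p.map d = p * θ ∧ off e θ = C) :
    RS arm J B N W F p T Ψ π e
      (fun r => kai * (x r - (x r)ᵀ) * kapᵀ - (x r - (x r)ᵀ))
      ((b - kap * b * kai) + (kk - kap * kk * kai))
      (fun r => (kai * b * kap - b) * al r + (kai * kk * kap - kk) * al r) := by
  obtain ⟨c, hc⟩ : ∃ c : K, c = algebraMap k K t := ⟨_, rfl⟩
  rw [← hc] at hp
  obtain ⟨χ, hχd⟩ : ∃ χ : Fin 3 → Matrix n n K, χ = fun r => x r - (x r)ᵀ := ⟨_, rfl⟩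
  have hχr : ∀ r, χ r = x r - (x r)ᵀ := fun r => by rw [hχd]
  have hχ : ∀ s, (χ s)ᵀ = - χ s := by
    intro s
    rw [hχr, transpose_sub, transpose_transpose, neg_sub]
  have hex : ∑ s, (χ s * (kap * kap)ᵀ * (al s)ᵀ - al s * (kap * kap) * χ s) = 0 := by
    have h1 := hx.sum
    have h2 := congrArg transpose h1
    rw [transpose_sum, transpose_zero] at h2
    rw [← sub_zero (0 : Matrix n n K)]
    nth_rw 1 [← h1]
    rw [← neg_zero, ← h2, ← Finset.sum_neg_distrib, ← Finset.sum_sub_distrib]
    refine Finset.sum_congr rfl fun r _ => ?_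
    rw [hχr]
    simp only [transpose_sub, transpose_mul, transpose_transpose, Matrix.mul_sub, Matrix.sub_mul,
      Matrix.mul_assoc]
    abel
  obtain ⟨d, ξ, θ0, hreal, hθ0, -, hdH, hW, hleft, hdbs, -, hβ⟩ := h.ctx.first0 hp χ hχ hex
  obtain ⟨γ, hγ⟩ : ∃ γ : Matrix n n K, γ = pᵀ * J * p := ⟨_, rfl⟩
  obtain ⟨Q, hQ⟩ : ∃ Q : Matrix δ n K, Q = Fᵀ * J * p := ⟨_, rfl⟩
  obtain ⟨C, hCd⟩ : ∃ C : Matrix n n K, C = b + kk := ⟨_, rfl⟩
  -- `χ γ P - P χ γ = C P - P C`
  have hU : ∀ s, χ s * γ * (al s * (kap * kap)) - al s * (kap * kap) * (χ s * γ) =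
      C * (al s * (kap * kap)) - al s * (kap * kap) * C := by
    intro s
    have h1 := hx.eb s
    have h2 := hx.ek s
    rw [← hγ] at h1 h2
    rw [hχr, hCd]
    simp only [Matrix.mul_add, Matrix.add_mul, Matrix.mul_sub, Matrix.sub_mul] at h1 h2 ⊢
    have h3 : (x s)ᵀ * γ * (al s * (kap * kap)) = al s * (kap * kap) * b +
        al s * (kap * kap) * ((x s)ᵀ * γ) - b * (al s * (kap * kap)) := by
      rw [h1]; abel
    have h4 : x s * γ * (al s * (kap * kap)) = kk * (al s * (kap * kap)) -
        (al s * (kap * kap) * kk - al s * (kap * kap) * (x s * γ)) := by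
      rw [← h2]; abel
    rw [h3, h4]
    abel
  have hCo : off e C = C := by
    rw [hCd, off_add, off_blk h.orth hij hx.bb, off_blk h.orth (fun h => hij h.symm) hx.bk]
  have hCr : ∀ u, π (C *ᵥ u) = 0 := by
    intro u
    rw [hCd, Matrix.add_mulVec, map_add, hx.rb, hx.rk, add_zero]
  have hek : ∀ l, e l * kap = kap * e l := by
    intro l
    rw [hp.kap_eq, Matrix.mul_add, Matrix.add_mul, Matrix.mul_one, Matrix.one_mul,
      Matrix.mul_smul, Matrix.smul_mul, h.etau]
  have heki : ∀ l, e l * kai = kai * e l := by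
    intro l
    have h1 : kai * (e l * kap) * kai = kai * (kap * e l) * kai := by rw [hek]
    rw [← Matrix.mul_assoc kai kap, h.ctx.mul' hp, Matrix.one_mul, Matrix.mul_assoc kai,
      Matrix.mul_assoc (e l), hp.mul, Matrix.mul_one] at h1
    exact h1.symm
  have heP : ∀ s l, e l * (al s * (kap * kap)) = al s * (kap * kap) * e l := by
    intro s l
    rw [← Matrix.mul_assoc, h.eal, Matrix.mul_assoc, ← Matrix.mul_assoc (e l), hek,
      Matrix.mul_assoc kap, hek]
    simp only [Matrix.mul_assoc]
  obtain ⟨θ, hθ, hoff⟩ := hpick d θ0 hθ0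
    (fun s => χ s * (pᵀ * J * p) * (al s * (kap * kap)) -
      al s * (kap * kap) * (χ s * (pᵀ * J * p))) hβ C hCo hCr (by
      intro s
      rw [← hγ, hU, off_sub, off_mul_right (heP s), off_mul_left (heP s), hCo])
  -- from `θ0` to `θ`
  have hpθ : p * (θ - θ0) = 0 := by rw [Matrix.mul_sub, ← hθ, ← hθ0, sub_self]
  have hQθ : Q * (θ - θ0) = 0 := by rw [hQ, Matrix.mul_assoc, hpθ, Matrix.mul_zero]
  have hQτ : Q * (tau * (θ - θ0)) = 0 := by
    rw [← Matrix.mul_assoc, hQ, ← h.ctx.hτ, Matrix.mul_assoc, hpθ, Matrix.mul_zero]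
  have hQn : Q * nab d θ tau = Q * nab d θ0 tau := by
    rw [← sub_eq_zero, ← Matrix.mul_sub]
    have : nab d θ tau - nab d θ0 tau = (θ - θ0) * tau - tau * (θ - θ0) := by
      unfold nab
      rw [Matrix.sub_mul, Matrix.mul_sub]; abel
    rw [this, Matrix.mul_sub, hQτ, ← Matrix.mul_assoc, hQθ, Matrix.zero_mul, sub_zero]
  obtain ⟨z, hz⟩ : ∃ z : Matrix n n K, z = c • (nab d θ tau * kai) := ⟨_, rfl⟩
  have hQz : Q * (c • (nab d θ0 tau * kai)) = Q * z := by
    rw [hz, Matrix.mul_smul, Matrix.mul_smul, ← Matrix.mul_assoc, ← Matrix.mul_assoc, hQn]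
  have hbsQ : ∀ s (X : Matrix n n K), FC.bs arm J B F p s * X = E K arm s * B * (Q * X) := by
    intro s X
    unfold FC.bs
    rw [hQ]; simp only [Matrix.mul_assoc]
  -- `w`
  obtain ⟨w, hw⟩ : ∃ w : Matrix ι δ K,
    w = io arm J F p (fun s => kai * χ s * kapᵀ) - F.map d := ⟨_, rfl⟩
  obtain ⟨μ, hμ⟩ : ∃ μ : Fin 3 → Matrix n n K, μ = fun s => kai * χ s * kapᵀ * (γ * al s) -
    al s * (kap * (χ s * (γ * kai))) - nab d θ (al s) - al s * z := ⟨_, rfl⟩
  have hkap := h.ctx.kap_sa hp
  rw [← hγ] at hkap
  refine ⟨w, z, μ, ?_, ?_, ?_, ?_, ?_, ?_, ?_⟩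
  · -- `w ∈ W`
    rw [hw, ← FC.Ctx.famio]
    have := W.neg_mem hW
    rwa [neg_sub] at this
  · -- mod `N`
    have h1 := hreal.onN F h.ctx.memF.1
    rw [FC.act_opF] at h1
    have e0 : (fun r => kai * (x r - (x r)ᵀ) * kapᵀ - (x r - (x r)ᵀ)) =
        fun s => kai * χ s * kapᵀ - χ s := by
      funext r; rw [hχr]
    rw [e0, hw, ← FC.Ctx.famio, ← FC.Ctx.famio, ← FC.fam_sub (fun s => kai * χ s * kapᵀ) χ]
    have e : FC.fam arm J F p (fun s => kai * χ s * kapᵀ) - FC.fam arm J F p χ -
        (FC.fam arm J F p (fun s => kai * χ s * kapᵀ) - F.map d) =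
        F.map d - FC.fam arm J F p χ := by abel
    rw [e]
    exact h1
  · -- the right value
    rw [hw, ← FC.Ctx.famio]
    have e : FC.fam arm J F p (fun s => kai * χ s * kapᵀ) - F.map d =
        -(F.map d - FC.fam arm J F p (fun s => kai * χ s * kapᵀ)) := by abel
    rw [e, transpose_neg, Matrix.neg_mul, Matrix.neg_mul, hleft, Matrix.mul_neg, neg_neg, ← hQ,
      hQz]
  · -- the left action
    intro s
    have h1 := congrArg (fun A : Matrix ι n K => A.map d) (h.ctx.Fbs s)
    simp only [map_mul_der, hdbs s, hθ] at h1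
    have hb : FC.bs arm J B F p s * (kap * ((χ s)ᵀ * ((pᵀ * J * p) * kai)) +
        -(c • (nab d θ0 tau * kai)) + θ0) = FC.bs arm J B F p s *
        (kap * ((χ s)ᵀ * (γ * kai)) - z + θ) := by
      rw [hbsQ, hbsQ]
      congr 1
      rw [Matrix.mul_add, Matrix.mul_add, Matrix.mul_neg, hQz, Matrix.mul_add, Matrix.mul_sub,
        ← hγ]
      have : Q * θ = Q * θ0 := by
        rw [← sub_eq_zero, ← Matrix.mul_sub, hQθ]
      rw [this]; abel
    rw [hb, ← Matrix.mul_assoc F, h.ctx.Fbs] at h1
    have h2 : F.map d * FC.bs arm J B F p s = p * θ * al s + p * (al s).map d -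
        p * al s * (kap * ((χ s)ᵀ * (γ * kai)) - z + θ) := by
      rw [← h1]; abel
    have e : w * E K arm s * B * (Fᵀ * J * p) = FC.fam arm J F p (fun s => kai * χ s * kapᵀ) *
        FC.bs arm J B F p s - F.map d * FC.bs arm J B F p s := by
      rw [hw, ← FC.Ctx.famio]
      unfold FC.bs
      simp only [Matrix.sub_mul, Matrix.mul_assoc]
    rw [e, FC.fam_bs h.ctx.data, h2, h.ctx.Fbs, hμ, hχ]
    have e3 : pᵀ * J * (p * al s) = γ * al s := by rw [hγ, ← Matrix.mul_assoc]
    rw [e3]
    unfold nab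
    simp only [Matrix.mul_add, Matrix.mul_sub, Matrix.mul_assoc, Matrix.neg_mul, Matrix.mul_neg]
    abel
  · -- the correction space
    have hsa := h.ctx.nab_tau_sa hp hθ
    have hD : RDZ.Desc π tau D := h.ptau
    have hΨ : ∀ s, RDZ.Desc π (al s) (Ψ s) := fun s y => (h.cr.op s y).symm
    have hDΨ : ∀ s, D * Ψ s = Ψ s * D := fun s =>
      (hD.mul (hΨ s)).eq_of_eq (fr h) ((hΨ s).mul hD) (h.ctx.comm s)
    have g0 : ∀ X : Matrix n n K, (∀ u, π (X *ᵥ u) = 0) → γ * X = 0 := by
      intro X hX
      ext a b'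
      have := h.cr.form (Pi.single a 1) (X *ᵥ Pi.single b' 1)
      rw [hX, map_zero, ← hγ, mulVec_mulVec, single_one_dotProduct, mulVec_single_one] at this
      exact this.symm
    have hχ0 : ∀ s, (pᵀ * J * p) * (χ s * (pᵀ * J * p) * (al s * (kap * kap)) -
        al s * (kap * kap) * (χ s * (pᵀ * J * p))) = 0 := by
      intro s
      rw [← hγ, hU, Matrix.mul_sub, ← Matrix.mul_assoc, g0 C hCr, Matrix.zero_mul]
      rw [g0 _ (fun u => ?_), sub_zero]
      have hk : RDZ.Desc π kap (1 + c • D) := by
        rw [hp.kap_eq]; exact RDZ.Desc.one.add (hD.smul c)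
      have := ((hΨ s).mul (hk.mul hk)) (C *ᵥ u)
      rw [mulVec_mulVec] at this
      rw [this, hCr, map_zero]
    have hnab : ∀ s, p * nab d θ (al s * (kap * kap)) =
        p * (χ s * (pᵀ * J * p) * (al s * (kap * kap)) -
          al s * (kap * kap) * (χ s * (pᵀ * J * p))) := by
      intro s
      rw [← hβ s, ← sub_eq_zero, ← Matrix.mul_sub]
      have e1 : nab d θ (al s * (kap * kap)) - nab d θ0 (al s * (kap * kap)) =
          (θ - θ0) * (al s * (kap * kap)) - al s * (kap * kap) * (θ - θ0) := by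
        unfold nab
        rw [Matrix.sub_mul, Matrix.mul_sub]; abel
      rw [e1, Matrix.mul_sub, ← Matrix.mul_assoc, hpθ, Matrix.zero_mul, ← Matrix.mul_assoc p,
        ← h.ctx.PhiHp hp, Matrix.mul_assoc, hpθ, Matrix.mul_zero, sub_zero]
    have hnil : ∀ y : End K M, (∀ s, y * ((1 + c • D) * (1 + c • D) * Ψ s) =
        ((1 + c • D) * (1 + c • D) * Ψ s) * y) → NilAt (adE D) y := by
      intro y hy
      refine nilAt h (h.hom t (Or.inl ht) y fun s u => ?_)
      rw [← hc]
      have hcom : (1 + c • D) * (1 + c • D) * Ψ s = Ψ s * ((1 + c • D) * (1 + c • D)) := by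
        have c1 : Commute (1 + c • D) (Ψ s) :=
          (Commute.one_left _).add_left ((show Commute D (Ψ s) from hDΨ s).smul_left c)
        exact (c1.mul_left c1).eq
      have h1 := hy s
      rw [hcom] at h1
      exact LinearMap.congr_fun h1 u
    obtain ⟨zM, z1, z2⟩ := RDZ.firstQ_ZZ h.ctx hp (fr h) (adj h) hΨ hD hnil hχ0 hθ hsa hnab
    rw [hz]
    exact ⟨zM, z1, ZFr.ZZ_le_zero z2⟩
  · -- off-diagonal part of `z`
    have e1 : off e (nab d θ tau) = C * tau - tau * C := by
      unfold nab
      rw [off_sub, off_add, off_comm h.idem h.sumE (map_comm_e (fun i => h.eC i d) h.etau),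
        off_mul_right h.etau, off_mul_left h.etau, hoff, zero_add]
    have e2 : c • (C * tau - tau * C) = C * kap - kap * C := by
      rw [hp.kap_eq, Matrix.mul_add, Matrix.add_mul, Matrix.mul_one, Matrix.one_mul,
        Matrix.mul_smul, Matrix.smul_mul, smul_sub]
      abel
    rw [hz, off_smul, off_mul_right heki, e1, ← Matrix.smul_mul, e2, Matrix.sub_mul,
      Matrix.mul_assoc, hp.mul, Matrix.mul_one, hCd]
    simp only [Matrix.mul_add, Matrix.add_mul]
    abel
  · -- off-diagonal part of `μ`
    intro s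
    have ez : off e z = C - kap * C * kai := by
      have e1 : off e (nab d θ tau) = C * tau - tau * C := by
        unfold nab
        rw [off_sub, off_add, off_comm h.idem h.sumE (map_comm_e (fun i => h.eC i d) h.etau),
          off_mul_right h.etau, off_mul_left h.etau, hoff, zero_add]
      have e2 : c • (C * tau - tau * C) = C * kap - kap * C := by
        rw [hp.kap_eq, Matrix.mul_add, Matrix.add_mul, Matrix.mul_one, Matrix.one_mul,
          Matrix.mul_smul, Matrix.smul_mul, smul_sub]
        abel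
      rw [hz, off_smul, off_mul_right heki, e1, ← Matrix.smul_mul, e2, Matrix.sub_mul,
        Matrix.mul_assoc, hp.mul, Matrix.mul_one]
    have en : off e (nab d θ (al s)) = C * al s - al s * C := by
      unfold nab
      rw [off_sub, off_add, off_comm h.idem h.sumE (map_comm_e (fun i => h.eC i d)
        (fun l => h.eal l s)), off_mul_right (fun l => h.eal l s), off_mul_left (fun l => h.eal l s),
        hoff, zero_add]
    have hχo : off e (χ s * γ) = χ s * γ := by
      have c1 : e j * (x s * γ) * e i = x s * γ := by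
        have h1 := hx.bx s
        calc e j * (x s * γ) * e i = e j * x s * (γ * e i) := by simp only [Matrix.mul_assoc]
          _ = (e j * x s * (e i)ᵀ) * γ := by rw [hγ, ← h.eg]; simp only [Matrix.mul_assoc]
          _ = _ := by rw [h1]
      have c2 : e i * ((x s)ᵀ * γ) * e j = (x s)ᵀ * γ := by
        have h1 : e i * (x s)ᵀ * (e j)ᵀ = (x s)ᵀ := by
          conv_rhs => rw [← hx.bx s]
          simp only [transpose_mul, transpose_transpose, Matrix.mul_assoc]
        calc e i * ((x s)ᵀ * γ) * e j = e i * (x s)ᵀ * (γ * e j) := by simp only [Matrix.mul_assoc]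
          _ = (e i * (x s)ᵀ * (e j)ᵀ) * γ := by rw [hγ, ← h.eg]; simp only [Matrix.mul_assoc]
          _ = _ := by rw [h1]
      rw [hχr, Matrix.sub_mul, off_sub, off_blk h.orth (fun h => hij h.symm) c1,
        off_blk h.orth hij c2]
    have hka : ∀ l, e l * (kap * al s) = kap * al s * e l := by
      intro l
      rw [← Matrix.mul_assoc, hek, Matrix.mul_assoc, h.eal, Matrix.mul_assoc]
    have hal : ∀ l, e l * (al s * kap) = al s * kap * e l := by
      intro l
      rw [← Matrix.mul_assoc, h.eal, Matrix.mul_assoc, hek, Matrix.mul_assoc]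
    have e0 : μ s = kai * ((χ s * γ) * (kap * al s)) - al s * kap * ((χ s * γ) * kai) -
        nab d θ (al s) - al s * z := by
      rw [hμ]
      have : kapᵀ * (γ * al s) = γ * (kap * al s) := by
        rw [← Matrix.mul_assoc, ← hkap, Matrix.mul_assoc]
      simp only [Matrix.mul_assoc] at this ⊢
      rw [this]
    have hQ' : (χ s * γ - C) * (al s * (kap * kap)) = al s * (kap * kap) * (χ s * γ - C) := by
      have := hU s
      rw [Matrix.sub_mul, Matrix.mul_sub]
      exact sub_swap this
    have hka2 : kap * al s = al s * kap := h.ctx.kap_al hp s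
    have hfin : kai * ((χ s * γ - C) * (kap * al s)) = al s * kap * ((χ s * γ - C) * kai) := by
      obtain ⟨R, hR⟩ : ∃ R : Matrix n n K, R = χ s * γ - C := ⟨_, rfl⟩
      rw [← hR] at hQ' ⊢
      have k1 : R * (kap * al s) * kap = kap * (al s * kap) * R := by
        have e5 : R * (kap * al s) * kap = R * (al s * (kap * kap)) := by
          rw [hka2]; simp only [Matrix.mul_assoc]
        have e6 : kap * (al s * kap) * R = al s * (kap * kap) * R := by
          rw [← Matrix.mul_assoc kap, hka2]; simp only [Matrix.mul_assoc]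
        rw [e5, e6, hQ']
      calc kai * (R * (kap * al s)) = kai * (R * (kap * al s) * kap) * kai := by
            simp only [Matrix.mul_assoc]
            rw [hp.mul, Matrix.mul_one]
        _ = kai * (kap * (al s * kap) * R) * kai := by rw [k1]
        _ = (kai * kap) * (al s * kap * (R * kai)) := by simp only [Matrix.mul_assoc]
        _ = _ := by rw [h.ctx.mul' hp, Matrix.one_mul]
    have e7 : off e (μ s) = kai * ((χ s * γ) * (kap * al s)) - al s * kap * ((χ s * γ) * kai) -
        (C * al s - al s * C) - al s * (C - kap * C * kai) := by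
      rw [e0, off_sub, off_sub, off_sub, off_mul_left heki, off_mul_right hka, hχo,
        off_mul_left hal, off_mul_right heki, hχo, en, off_mul_left (fun l => h.eal l s), ez]
    have e8 : kai * ((χ s * γ) * (kap * al s)) - al s * kap * ((χ s * γ) * kai) =
        kai * (C * (kap * al s)) - al s * kap * (C * kai) := by
      have := hfin
      simp only [Matrix.sub_mul, Matrix.mul_sub] at this
      exact sub_swap this
    rw [e7, e8]
    change _ = (kai * b * kap - b) * al s + (kai * kk * kap - kk) * al s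
    have e9 : (kai * b * kap - b) * al s + (kai * kk * kap - kk) * al s =
        (kai * C * kap - C) * al s := by
      rw [hCd]; simp only [Matrix.mul_add, Matrix.add_mul, Matrix.sub_mul]; abel
    rw [e9]
    simp only [Matrix.mul_sub, Matrix.sub_mul, Matrix.mul_assoc]
    abel

end Crest.Agent.R172.RDF1
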