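import Crest.Agent.R172.RDP
import Crest.Agent.R172.RDfirst1
import Crest.Agent.R172.BConn895

/-!
Row 172 (S0260), T0, any radical, any `D`: the choice of the connection (`pick`) and the first
derivative, decorated (`FirstP`).
-/

set_option autoImplicit false
set_option linter.unusedSectionVars false

namespace Crest.Agent.R172.RDF1

open Matrix Module TensorProduct Crest.Agent.R172.FO Crest.Agent.R172.FrmB
open Crest.Agent.R172.RD
open Crest.Agent.R172.Core (NS Tame)
open Crest.Agent.R172.PL (Wk)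
open Crest.Agent.R172.FC (nab)
open Crest.Agent.R172.ZP (NilAt adE)

variable {ι : Type*} [Fintype ι] [DecidableEq ι] {δ : Type*} [Fintype δ] [DecidableEq δ]
variable {n : Type*} [Fintype n] [DecidableEq n]
variable {k K : Type*} [Field k] [Field K] [Algebra k K]
variable {M : Type*} [AddCommGroup M] [Module K M]
variable {m : Type*} [Fintype m] [DecidableEq m]
variable {arm : δ → Fin 3} {J : Matrix ι ι K} {B : Matrix δ δ K}
  {N W : Submodule K (Matrix ι δ K)} {F G : Matrix ι δ K} {p : Matrix ι n K}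
  {al : Fin 3 → Matrix n n K} {tau : Matrix n n K}
  {β : LinearMap.BilinForm K M} {T : Module.End K M →ₗ[K] Module.End K M}
  {Ψ : Fin 3 → Module.End K M} {D : Module.End K M} {π : (n → K) →ₗ[K] M}
  {e : m → Matrix n n K} {lam : m → K} {l : Fin 3 → ℕ} {TT : Set k}

/-- `Φ(F + c G) p = p al κ²`, without `Par` -/
theorem Phi_p (h : FC.Ctx k arm J B N W F G p al tau) {c : K} {kap : Matrix n n K}
    (hk : kap = 1 + c • tau) (s : Fin 3) :
    Phi arm J B (F + c • G) s * p = p * (al s * (kap * kap)) := by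
  have h1 : (F + c • G)ᵀ * J * p = Fᵀ * J * p * kap := by
    rw [hk, transpose_add, transpose_smul, Matrix.add_mul, Matrix.add_mul,
      Matrix.smul_mul, Matrix.smul_mul, h.hτ, Matrix.mul_add, Matrix.mul_one, Matrix.mul_smul]
  have h2 : (F + c • G) * FC.bs arm J B F p s = p * kap * al s := by
    rw [hk, Matrix.add_mul, Matrix.smul_mul, h.Fbs, h.Gbs, Matrix.mul_add, Matrix.mul_one,
      Matrix.add_mul, Matrix.mul_smul, Matrix.smul_mul]
  have h3 : kap * al s = al s * kap := by
    rw [hk, Matrix.add_mul, Matrix.mul_add, Matrix.one_mul, Matrix.mul_one,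
      Matrix.smul_mul, Matrix.mul_smul, h.comm]
  have e : Phi arm J B (F + c • G) s * p =
      (F + c • G) * (E K arm s * B * ((F + c • G)ᵀ * J * p)) := by
    unfold Phi FO.M
    simp only [Matrix.mul_assoc]
  rw [e, h1]
  have e2 : (F + c • G) * (E K arm s * B * (Fᵀ * J * p * kap)) =
      ((F + c • G) * FC.bs arm J B F p s) * kap := by
    unfold FC.bs
    simp only [Matrix.mul_assoc]
  rw [e2, h2, Matrix.mul_assoc p, h3]
  simp only [Matrix.mul_assoc]

theorem gam_zero (h : Fr k arm J B N W F G p al tau β T Ψ D π e lam l TT) {X : Matrix n n K}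
    (hX : ∀ u, π (X *ᵥ u) = 0) : (pᵀ * J * p) * X = 0 := by
  ext a b'
  have := h.cr.form (Pi.single a 1) (X *ᵥ Pi.single b' 1)
  rw [hX, map_zero, mulVec_mulVec, single_one_dotProduct, mulVec_single_one] at this
  exact this.symm

theorem pi_zero (h : Fr k arm J B N W F G p al tau β T Ψ D π e lam l TT) {y : n → K} :
    π y = 0 ↔ (pᵀ * J * p) *ᵥ y = 0 := by
  rw [(fr h).zero_iff]
  constructor
  · intro h0
    funext a
    have := h0 (Pi.single a 1)
    rwa [single_one_dotProduct] at this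
  · intro h0 y'
    rw [h0, dotProduct_zero]

/-- **RD1a (PICK)**: the connection can be chosen with off-diagonal part `C` -/
theorem pick [CharZero K] (h : Fr k arm J B N W F G p al tau β T Ψ D π e lam l TT)
    {t : k} (ht : t ∈ TT ∨ t = 0) {kap : Matrix n n K} (hk : kap = 1 + algebraMap k K t • tau)
    {d : Derivation k K K} {θ0 : Matrix n n K} (hθ : p.map d = p * θ0)
    {U : Fin 3 → Matrix n n K}
    (hU : ∀ s, p * FC.nab d θ0 (al s * (kap * kap)) = p * U s)
    {C : Matrix n n K} (hC : off e C = C) (hCr : ∀ u, π (C *ᵥ u) = 0)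
    (hoff : ∀ s, off e (U s) = C * (al s * (kap * kap)) - al s * (kap * kap) * C) :
    ∃ θ, p.map d = p * θ ∧ off e θ = C := by
  obtain ⟨c, hc⟩ : ∃ c : K, c = algebraMap k K t := ⟨_, rfl⟩
  rw [← hc] at hk
  -- `kap` is invertible
  obtain ⟨kai, hkk⟩ : ∃ kai, kap * kai = 1 := by
    rcases ht with ht | ht
    · obtain ⟨kap', kai, hp⟩ := h.par t ht
      refine ⟨kai, ?_⟩
      have : kap = kap' := by rw [hk, hp.kap_eq, hc]
      rw [this, hp.mul]
    · refine ⟨1, ?_⟩
      rw [hk, hc, ht, map_zero, zero_smul, add_zero, Matrix.mul_one]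
  have hkk' : kai * kap = 1 := mul_eq_one_comm.1 hkk
  obtain ⟨ρ, hρ⟩ := h.ctx.perf
  have hρ' : ∑ r, al r * (kap * kap) * (kai * kai * ρ r) = 1 := by
    rw [← hρ]
    refine Finset.sum_congr rfl fun r _ => ?_
    have : kap * kap * (kai * kai * ρ r) = ρ r := by
      calc kap * kap * (kai * kai * ρ r) = kap * (kap * kai) * kai * ρ r := by
            simp only [Matrix.mul_assoc]
        _ = _ := by rw [hkk, Matrix.mul_one, hkk, Matrix.one_mul]
    rw [Matrix.mul_assoc, this]
  have hek : ∀ l, e l * kap = kap * e l := by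
    intro l
    rw [hk, Matrix.mul_add, Matrix.add_mul, Matrix.mul_one, Matrix.one_mul,
      Matrix.mul_smul, Matrix.smul_mul, h.etau]
  have heP : ∀ l s, e l * (al s * (kap * kap)) = al s * (kap * kap) * e l := by
    intro l s
    rw [← Matrix.mul_assoc, h.eal, Matrix.mul_assoc, ← Matrix.mul_assoc (e l), hek,
      Matrix.mul_assoc kap, hek]
    simp only [Matrix.mul_assoc]
  have hΦ : ∀ r, Phi arm J B (F + c • G) r * p = p * (al r * (kap * kap)) := Phi_p h.ctx hk
  have hD : RDZ.Desc π tau D := h.ptau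
  have hΨ : ∀ s, RDZ.Desc π (al s) (Ψ s) := fun s y => (h.cr.op s y).symm
  have hkd : RDZ.Desc π kap (1 + c • D) := by
    rw [hk]; exact RDZ.Desc.one.add (hD.smul c)
  have hPd : ∀ s, RDZ.Desc π (al s * (kap * kap)) (Ψ s * ((1 + c • D) * (1 + c • D))) :=
    fun s => (hΨ s).mul (hkd.mul hkd)
  have gC : (pᵀ * J * p) * C = 0 := gam_zero h hCr
  have gPC : ∀ s, (pᵀ * J * p) * (al s * (kap * kap) * C) = 0 := by
    intro s
    refine gam_zero h fun u => ?_
    have := (hPd s) (C *ᵥ u)
    rw [mulVec_mulVec] at this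
    rw [this, hCr, map_zero]
  -- `e_i U e_j`
  have hblk : ∀ i j, i ≠ j → ∀ s, e i * U s * e j =
      e i * (C * (al s * (kap * kap)) - al s * (kap * kap) * C) * e j := by
    intro i j hij s
    rw [← hoff s]
    have h0 : e i * (∑ l, e l * U s * e l) * e j = 0 := by
      rw [Matrix.mul_sum, Matrix.sum_mul]
      refine Finset.sum_eq_zero fun l _ => ?_
      by_cases hl : l = j
      · subst hl
        rw [← Matrix.mul_assoc, ← Matrix.mul_assoc, h.orth i l hij, Matrix.zero_mul,
          Matrix.zero_mul, Matrix.zero_mul]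
      · rw [Matrix.mul_assoc, Matrix.mul_assoc (e l * U s), h.orth l j hl, Matrix.mul_zero,
          Matrix.mul_zero]
    unfold off
    rw [Matrix.mul_sub, Matrix.sub_mul, h0, sub_zero]
  have hcR : ∀ i j, i ≠ j → ∀ r, (pᵀ * J * p) * (e i * U r * e j) = 0 := by
    intro i j hij r
    rw [hblk i j hij r, ← Matrix.mul_assoc, ← Matrix.mul_assoc, ← h.eg, Matrix.mul_assoc (e i)ᵀ,
      Matrix.mul_sub, ← Matrix.mul_assoc _ C, gC, Matrix.zero_mul, gPC, sub_zero, Matrix.mul_zero,
      Matrix.zero_mul]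
  have hcd : ∀ r, (Phi arm J B (F + c • G) r).map d * p = p * U r := by
    intro r
    have h1 : (Phi arm J B (F + c • G) r * p).map d = (p * (al r * (kap * kap))).map d := by
      rw [hΦ]
    rw [map_mul_der, map_mul_der _ p, hθ, ← Matrix.mul_assoc _ p θ0, hΦ] at h1
    have h2 := hU r
    unfold FC.nab at h2
    rw [Matrix.mul_sub, Matrix.mul_add] at h2
    rw [← h2, ← Matrix.mul_assoc p θ0, ← Matrix.mul_assoc p _ θ0]
    have h3 : (Phi arm J B (F + c • G) r).map d * p =
        (p * θ0 * (al r * (kap * kap)) + p * ((al r * (kap * kap)).map d)) -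
          p * (al r * (kap * kap)) * θ0 := by
      rw [← h1]; abel
    rw [h3]; abel
  have hom' : ∀ i j, i ≠ j → ∀ z : Matrix n n K, e i * z * e j = z →
      (∀ y : n → K, (pᵀ * J * p) *ᵥ y = 0 → (pᵀ * J * p) *ᵥ (z *ᵥ y) = 0) →
      (∀ r, (pᵀ * J * p) * (z * (al r * (kap * kap)) - al r * (kap * kap) * z) = 0) →
      (pᵀ * J * p) * z = 0 := by
    intro i j hij z hz hker hcom
    obtain ⟨A, hA⟩ := (fr h).exists_desc (z := z) fun y hy => (pi_zero h).2 (hker y ((pi_zero h).1 hy))
    have hAc : ∀ s x, A (Ψ s ((1 + algebraMap k K t • D) ((1 + algebraMap k K t • D) x))) =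
        Ψ s ((1 + algebraMap k K t • D) ((1 + algebraMap k K t • D) (A x))) := by
      intro s x
      rw [← hc]
      have h1 : A * (Ψ s * ((1 + c • D) * (1 + c • D))) - Ψ s * ((1 + c • D) * (1 + c • D)) * A
          = 0 := (fr h).desc_zero ((hA.mul (hPd s)).sub ((hPd s).mul hA)) (hcom s)
      rw [sub_eq_zero] at h1
      exact LinearMap.congr_fun h1 x
    have h2 := h.hom t ht A hAc j i (fun h => hij h.symm)
    refine gam_zero h fun u => ?_
    refine (fr h).eq_of fun y' => ?_
    rw [map_zero]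
    have h3 := h2 u y'
    rw [← hA] at h3
    have h4 : (z *ᵥ (e j *ᵥ u)) = z *ᵥ u := by
      rw [mulVec_mulVec]
      conv_rhs => rw [← hz]
      conv_lhs => rw [← hz]
      rw [Matrix.mul_assoc (e i * z), h.idem]
    have h5 : e i *ᵥ (z *ᵥ u) = z *ᵥ u := by
      rw [mulVec_mulVec]
      conv_rhs => rw [← hz]
      conv_lhs => rw [← hz]
      rw [← Matrix.mul_assoc, ← Matrix.mul_assoc, h.idem]
    rw [h4] at h3
    calc β (π y') (π (z *ᵥ u)) = β (π y') (π (e i *ᵥ (z *ᵥ u))) := by rw [h5]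
      _ = y' ⬝ᵥ (((pᵀ * J * p) * e i) *ᵥ (z *ᵥ u)) := by
        rw [h.cr.form, mulVec_mulVec (z *ᵥ u)]
      _ = (e i *ᵥ y') ⬝ᵥ ((pᵀ * J * p) *ᵥ (z *ᵥ u)) := by
        rw [← h.eg, ← mulVec_mulVec (z *ᵥ u), dotProduct_mulVec, vecMul_transpose]
      _ = (z *ᵥ u) ⬝ᵥ ((pᵀ * J * p) *ᵥ (e i *ᵥ y')) := by
        rw [dotProduct_mulVec, ← mulVec_transpose, h.ctx.gam_symm, dotProduct_comm]
      _ = β (π (z *ᵥ u)) (π (e i *ᵥ y')) := by rw [h.cr.form]
      _ = 0 := h3
  have hθR := BConn.offdiag_zero (h.ctx.data.J_const d) hΦ heP h.idem h.orth (fun i => h.eC i d)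
    (fun i => (h.eg i).symm) hθ hcd hcR hom'
  obtain ⟨m0, hm0⟩ := h.killV c
  obtain ⟨D', hD1, hD2⟩ := BConn.exists_conn (m := m0) hΦ hρ' heP h.idem h.orth h.sumE
    (fun i => h.eC i d) (fun i => (h.eg i).symm) hθ hcd gC
    (fun i j hij r => (hblk i j hij r).symm) hθR (by
      intro w hw y hy
      have h1 : ∀ u : n → K, (p * ((w.map fun r => al r * (kap * kap)).prod * y)) *ᵥ u = 0 := by
        intro u
        have h2 : π (y *ᵥ u) = 0 := by
          rw [(pi_zero h), mulVec_mulVec, hy, zero_mulVec]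
        have h3 := hm0 w hw (y *ᵥ u) h2
        rw [mulVec_mulVec, BConn.word_mul hΦ, mulVec_mulVec, Matrix.mul_assoc] at h3
        exact h3
      ext a b'
      have := congrFun (h1 (Pi.single b' 1)) a
      rw [mulVec_single_one] at this
      exact this)
  refine ⟨D' + C, hD2, ?_⟩
  rw [off_add, off_comm h.idem h.sumE hD1, zero_add, hC]

/-- **RD1**: FIRST, decorated -/
theorem first [CharZero K] (h : Fr k arm J B N W F G p al tau β T Ψ D π e lam l TT)
    {i j : m} (hij : i ≠ j) {t : k} (ht : t ∈ TT) {kap kai : Matrix n n K}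
    (hp : FC.Par k arm J B N W F G p tau (algebraMap k K t) kap kai)
    {x : Fin 3 → Matrix n n K} {b kk : Matrix n n K}
    (hx : Dec (pᵀ * J * p) π e i j (fun r => al r * (kap * kap)) (fun r => al r * (kap * kap)) x
      b kk) :
    RS arm J B N W F p T Ψ π e
      (fun r => kai * (x r - (x r)ᵀ) * kapᵀ - (x r - (x r)ᵀ))
      ((b - kap * b * kai) + (kk - kap * kk * kai))
      (fun r => (kai * b * kap - b) * al r + (kai * kk * kap - kk) * al r) :=
  first_core h hij ht hp hx fun _ _ hθ _ hU _ hC hCr hoff =>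
    pick h (Or.inl ht) hp.kap_eq hθ hU hC hCr hoff

/-- `FirstP` holds -/
theorem firstP [CharZero K] (h : Fr k arm J B N W F G p al tau β T Ψ D π e lam l TT)
    {i j : m} (hij : i ≠ j) :
    FirstP k arm J B N W F G p al tau T Ψ π e TT i j :=
  fun _ ht _ _ hp _ _ _ hx => first h hij ht hp hx

/-- the field `first` of `RD.Five`, literally -/
theorem five_first {ι δ n m : Type} [Fintype ι] [DecidableEq ι] [Fintype δ] [DecidableEq δ]
    [Fintype n] [DecidableEq n] [Fintype m] [DecidableEq m] {K M : Type} [Field K] [Algebra ℂ K]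
    [CharZero K] [AddCommGroup M] [Module K M] [FiniteDimensional K M] {arm : δ → Fin 3}
    {J : Matrix ι ι K} {B : Matrix δ δ K} {N W : Submodule K (Matrix ι δ K)} {F G : Matrix ι δ K}
    {p : Matrix ι n K} {al : Fin 3 → Matrix n n K} {tau : Matrix n n K}
    {β : LinearMap.BilinForm K M} {T : Module.End K M →ₗ[K] Module.End K M}
    {Ψ : Fin 3 → Module.End K M} {D : Module.End K M} {π : (n → K) →ₗ[K] M}
    {e : m → Matrix n n K} {lam : m → K} {l : Fin 3 → ℕ} {TT : Set ℂ}
    (h : Fr ℂ arm J B N W F G p al tau β T Ψ D π e lam l TT)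
    (_hDΦ : ∀ s v, D (Ψ s v) = Ψ s (D v)) (_hDs : ⨆ ν, D.maxGenEigenspace ν = ⊤)
    (i j : m) (hij : i ≠ j) : FirstP ℂ arm J B N W F G p al tau T Ψ π e TT i j :=
  firstP h hij

end Crest.Agent.R172.RDF1
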