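import Crest.Agent.R172.RD0

/-!
Row 172 (S0260), `RD`: the statements of the skeleton as propositions (so that the files do not
wait for each other).
-/

set_option autoImplicit false
set_option linter.unusedSectionVars false

namespace Crest.Agent.R172.RD

open Matrix Module TensorProduct Crest.Agent.R172.FO Crest.Agent.R172.FrmB
open Crest.Agent.R172.Core (NS Tame)

variable {ι : Type*} [Fintype ι] [DecidableEq ι] {δ : Type*} [Fintype δ] [DecidableEq δ]
variable {n : Type*} [Fintype n] [DecidableEq n]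
variable {K : Type*} [Field K]
variable {M : Type*} [AddCommGroup M] [Module K M]
variable {m : Type*} [Fintype m] [DecidableEq m]

/-- `first` -/
def FirstP (k : Type*) [Field k] [Algebra k K] (arm : δ → Fin 3) (J : Matrix ι ι K)
    (B : Matrix δ δ K)
    (N W : Submodule K (Matrix ι δ K)) (F G : Matrix ι δ K) (p : Matrix ι n K)
    (al : Fin 3 → Matrix n n K) (tau : Matrix n n K)
    (T : Module.End K M →ₗ[K] Module.End K M) (Ψ : Fin 3 → Module.End K M)
    (π : (n → K) →ₗ[K] M) (e : m → Matrix n n K) (TT : Set k) (i j : m) : Prop :=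
  ∀ t ∈ TT, ∀ kap kai : Matrix n n K, FC.Par k arm J B N W F G p tau (algebraMap k K t) kap kai →
    ∀ (x : Fin 3 → Matrix n n K) (b kk : Matrix n n K),
    Dec (pᵀ * J * p) π e i j (fun r => al r * (kap * kap)) (fun r => al r * (kap * kap)) x b kk →
    RS arm J B N W F p T Ψ π e
      (fun r => kai * (x r - (x r)ᵀ) * kapᵀ - (x r - (x r)ᵀ))
      ((b - kap * b * kai) + (kk - kap * kk * kai))
      (fun r => (kai * b * kap - b) * al r + (kai * kk * kap - kk) * al r)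

/-- `halves` -/
def HalvesP (arm : δ → Fin 3) (J : Matrix ι ι K) (B : Matrix δ δ K)
    (N W : Submodule K (Matrix ι δ K)) (F : Matrix ι δ K) (p : Matrix ι n K)
    (al : Fin 3 → Matrix n n K)
    (T : Module.End K M →ₗ[K] Module.End K M) (Ψ : Fin 3 → Module.End K M)
    (π : (n → K) →ₗ[K] M) (e : m → Matrix n n K) (i j : m) : Prop :=
  ∃ S : Set K, S.Finite ∧ ∀ c ∉ S, ∀ (x : Fin 3 → Matrix n n K) (b kk : Matrix n n K),
    Dec (pᵀ * J * p) π e i j (fun r => al r) (fun r => c • al r) x b kk →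
    RS arm J B N W F p T Ψ π e x (-b) (fun r => kk * al r) ∧
    RS arm J B N W F p T Ψ π e (fun r => (x r)ᵀ) kk (fun r => -(b * al r))

/-- `offdiag` -/
def OffP (arm : δ → Fin 3) (J : Matrix ι ι K)
    (N W : Submodule K (Matrix ι δ K)) (F : Matrix ι δ K) (p : Matrix ι n K)
    (T : Module.End K M →ₗ[K] Module.End K M) (Ψ : Fin 3 → Module.End K M)
    (π : (n → K) →ₗ[K] M) (e : m → Matrix n n K) (i j : m) : Prop :=
  ∀ (s : Fin 3) (y : Matrix n n K), e j * y * (e i)ᵀ = y → Fil (pᵀ * J * p) π Ψ s y →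
    (Pi.single s y : Fin 3 → Matrix n n K) ∈ RDEnd.Rel arm J N W F p π T 0 Ψ

/-- `second` -/
def SecondP (arm : δ → Fin 3) (J : Matrix ι ι K) (B : Matrix δ δ K)
    (N W : Submodule K (Matrix ι δ K)) (F : Matrix ι δ K) (p : Matrix ι n K)
    (al : Fin 3 → Matrix n n K)
    (T : Module.End K M →ₗ[K] Module.End K M) (Ψ : Fin 3 → Module.End K M)
    (π : (n → K) →ₗ[K] M) (e : m → Matrix n n K) (i j : m) : Prop :=
  ∀ (c c' : K), c ≠ 0 → c' ≠ 0 → ∀ (x y : Fin 3 → Matrix n n K) (b kk b' kk' : Matrix n n K),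
    Dec (pᵀ * J * p) π e i j (fun r => al r) (fun r => c • al r) x b kk →
    Dec (pᵀ * J * p) π e i j (fun r => al r) (fun r => c' • al r) y b' kk' →
    RS arm J B N W F p T Ψ π e x (-b) (fun r => kk * al r) →
    RS arm J B N W F p T Ψ π e (fun r => (x r)ᵀ) kk (fun r => -(b * al r)) →
    RS arm J B N W F p T Ψ π e y (-b') (fun r => kk' * al r) →
    (fun r => b * y r + (x r)ᵀ * (pᵀ * J * p) * y r + (x r)ᵀ * b'ᵀ) ∈
      RDEnd.Rel arm J N W F p π T 0 Ψ

/-- `diag` -/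
def DiagP (arm : δ → Fin 3) (J : Matrix ι ι K)
    (N W : Submodule K (Matrix ι δ K)) (F : Matrix ι δ K) (p : Matrix ι n K)
    (al : Fin 3 → Matrix n n K)
    (T : Module.End K M →ₗ[K] Module.End K M) (Ψ : Fin 3 → Module.End K M)
    (π : (n → K) →ₗ[K] M) (e : m → Matrix n n K) (l : Fin 3 → ℕ) (i : m) : Prop :=
  (∀ s, ∀ r, π (e i *ᵥ r) = 0 → ∀ y,
      (Pi.single s (vecMulVec (e i *ᵥ r) (e i *ᵥ y)) : Fin 3 → Matrix n n K) ∈
        RDEnd.Rel arm J N W F p π T 0 Ψ ∧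
      (Pi.single s (vecMulVec (e i *ᵥ y) (e i *ᵥ r)) : Fin 3 → Matrix n n K) ∈
        RDEnd.Rel arm J N W F p π T 0 Ψ) ∧
    (∀ s a a', a + a' + 1 = l s → ∀ y y' : n → K,
      (Pi.single s (vecMulVec ((al s ^ a) *ᵥ (e i *ᵥ y)) ((al s ^ a') *ᵥ (e i *ᵥ y'))) :
        Fin 3 → Matrix n n K) ∈ RDEnd.Rel arm J N W F p π T 0 Ψ)

end Crest.Agent.R172.RD
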