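import Crest.Agent.R172.RDoff795
import Crest.Agent.R172.RDP

/-!
Row 172 (S0260), RD5 `diag` (copy of helper795): the diagonal blocks, from `RJM.main`.
Also the `HalvesP → OffP` form of RD4.
-/

set_option autoImplicit false
set_option linter.unusedSectionVars false

namespace Crest.Agent.R172.RD795

open Matrix Module TensorProduct Crest.Agent.R172.FO Crest.Agent.R172.FrmB Crest.Agent.R172.RD
open Crest.Agent.R172.Core (NS Tame)
open Crest.Agent.R172.PL (Wk)

variable {ι : Type*} [Fintype ι] [DecidableEq ι] {δ : Type*} [Fintype δ] [DecidableEq δ]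
variable {n : Type*} [Fintype n] [DecidableEq n]
variable {k K : Type*} [Field k] [Field K] [Algebra k K]
variable {M : Type*} [AddCommGroup M] [Module K M]
variable {m : Type*} [Fintype m] [DecidableEq m]
variable {arm : δ → Fin 3} {J : Matrix ι ι K} {B : Matrix δ δ K}
  {N W : Submodule K (Matrix ι δ K)} {F G : Matrix ι δ K} {p : Matrix ι n K}
  {al : Fin 3 → Matrix n n K} {tau : Matrix n n K}
  {β : LinearMap.BilinForm K M} {T : Module.End K M →ₗ[K] Module.End K M}
  {Ψ : Fin 3 → Module.End K M} {D : Module.End K M} {π : (n → K) →ₗ[K] M}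
  {e : m → Matrix n n K} {lam : m → K} {l : Fin 3 → ℕ} {TT : Set k}

/-- **RD4** -/
theorem offdiag [CharZero K] (h : Fr k arm J B N W F G p al tau β T Ψ D π e lam l TT)
    {i j : m} (hij : i ≠ j) (hh : HalvesP arm J B N W F p al T Ψ π e i j) :
    OffP arm J N W F p T Ψ π e i j := by
  obtain ⟨S, hS, hh⟩ := hh
  intro s y hy hf
  exact offdiag_of h hij hS (fun c hc x b kk hx => RS_rel (hh c hc x b kk hx).1) s y hy hf

/-! ### facts on the blocks -/

theorem b_perf (h : Fr k arm J B N W F G p al tau β T Ψ D π e lam l TT) (i : m)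
    (u : LinearMap.range (toLin' (e i))) :
    ∃ f : Fin 3 → LinearMap.range (toLin' (e i)), u = ∑ t, ab h i t (f t) := by
  obtain ⟨ρ, hρ⟩ := h.ctx.perf
  obtain ⟨_, u, rfl⟩ := u
  refine ⟨fun t => ⟨toLin' (e i) (ρ t *ᵥ u), ⟨_, rfl⟩⟩, ?_⟩
  apply Subtype.ext
  rw [AddSubmonoidClass.coe_finsetSum]
  simp only [ab_coe, toLin'_apply, mulVec_mulVec]
  have h1 : ∀ t, al t * (e i * ρ t) = e i * (al t * ρ t) := by
    intro t
    rw [← Matrix.mul_assoc, ← h.eal, Matrix.mul_assoc]
  simp only [h1]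
  rw [← Matrix.sum_mulVec, ← Matrix.mul_sum, hρ, Matrix.mul_one]

theorem b_top (h : Fr k arm J B N W F G p al tau β T Ψ D π e lam l TT) (i : m) :
    ⨆ t, LinearMap.range (ab h i t) = ⊤ := by
  rw [eq_top_iff]
  intro u _
  obtain ⟨f, hf⟩ := b_perf h i u
  rw [hf]
  exact Submodule.sum_mem _ fun t _ => Submodule.mem_iSup_of_mem t ⟨f t, rfl⟩

theorem b_stab (h : Fr k arm J B N W F G p al tau β T Ψ D π e lam l TT) (i : m) (t : Fin 3) :
    ∀ r ∈ Rb π e i, ab h i t r ∈ Rb π e i := by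
  intro r hr
  rw [mem_Rb] at hr ⊢
  rw [ab_coe, ← h.cr.op, hr, map_zero]

theorem b_l (h : Fr k arm J B N W F G p al tau β T Ψ D π e lam l TT) (i : m) (s : Fin 3)
    (u : LinearMap.range (toLin' (e i))) : (ab h i s ^ l s) u ∈ Rb π e i := by
  rw [mem_Rb, ab_pow, al_pow h, h.lnil]; rfl

theorem b_gen (h : Fr k arm J B N W F G p al tau β T Ψ D π e lam l TT) (i : m)
    (S : Submodule K (LinearMap.range (toLin' (e i)))) (h2 : ∀ t, ∀ r ∈ S, ab h i t r ∈ S)
    (h1 : ∀ s u, (ab h i s ^ l s) u ∈ S) : Rb π e i ≤ S := by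
  rintro ⟨_, u, rfl⟩ hr
  rw [mem_Rb] at hr
  have h3 := h.gen i (S.map (LinearMap.range (toLin' (e i))).subtype) (by
    rintro s _ ⟨v, hv, rfl⟩
    exact ⟨ab h i s v, h2 s v hv, rfl⟩) (by
    intro s u
    exact ⟨(ab h i s ^ l s) ⟨toLin' (e i) u, ⟨u, rfl⟩⟩, h1 s _, by
      rw [Submodule.coe_subtype, ab_pow]; rfl⟩) u hr
  obtain ⟨v, hv, hvu⟩ := h3
  have h4 : v = ⟨toLin' (e i) u, ⟨u, rfl⟩⟩ := Subtype.ext hvu
  rw [← h4]; exact hv

theorem e_mem (h : Fr k arm J B N W F G p al tau β T Ψ D π e lam l TT) (i : m)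
    (u : LinearMap.range (toLin' (e i))) : e i *ᵥ (u : n → K) = u := by
  obtain ⟨_, u, rfl⟩ := u
  simp only [toLin'_apply, mulVec_mulVec, h.idem]

/-- the matrix of a map between blocks -/
noncomputable def mh (e : m → Matrix n n K) (i j : m)
    (b : LinearMap.range (toLin' (e j)) →ₗ[K] LinearMap.range (toLin' (e i))) : Matrix n n K :=
  LinearMap.toMatrix' ((LinearMap.range (toLin' (e i))).subtype ∘ₗ b ∘ₗ
    (toLin' (e j)).rangeRestrict)

theorem mh_apply (i j : m)
    (b : LinearMap.range (toLin' (e j)) →ₗ[K] LinearMap.range (toLin' (e i))) (u : n → K) :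
    mh e i j b *ᵥ u = (b ⟨toLin' (e j) u, ⟨u, rfl⟩⟩ : n → K) := by
  unfold mh
  rw [← toLin'_apply, toLin'_toMatrix']
  rfl

theorem mh_coe (h : Fr k arm J B N W F G p al tau β T Ψ D π e lam l TT) (i j : m)
    (b : LinearMap.range (toLin' (e j)) →ₗ[K] LinearMap.range (toLin' (e i)))
    (u : LinearMap.range (toLin' (e j))) : mh e i j b *ᵥ (u : n → K) = (b u : n → K) := by
  rw [mh_apply]
  congr 2
  apply Subtype.ext
  exact e_mem h j u

theorem ext_vec {A C : Matrix n n K} (hA : ∀ u, A *ᵥ u = C *ᵥ u) : A = C := by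
  apply toLin'.injective
  apply LinearMap.ext
  intro u
  rw [toLin'_apply, toLin'_apply, hA]

/-- the form on a block -/
noncomputable def gb (g : Matrix n n K) (e : m → Matrix n n K) (j : m) :
    LinearMap.range (toLin' (e j)) →ₗ[K] LinearMap.range (toLin' (e j)) →ₗ[K] K :=
  (Matrix.toLinearMap₂' K g).domRestrict₁₂ (LinearMap.range (toLin' (e j)))
    (LinearMap.range (toLin' (e j)))

theorem gb_apply (g : Matrix n n K) (j : m) (u v : LinearMap.range (toLin' (e j))) :
    gb g e j u v = (u : n → K) ⬝ᵥ (g *ᵥ (v : n → K)) := by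
  unfold gb
  rw [LinearMap.domRestrict₁₂_apply, Matrix.toLinearMap₂'_apply']

theorem ev_eq (g : Matrix n n K) (i j : m)
    (x : (LinearMap.range (toLin' (e j))) ⊗[K] (LinearMap.range (toLin' (e i))))
    (u : LinearMap.range (toLin' (e j))) :
    ((RJM.ev (gb g e j) x u : LinearMap.range (toLin' (e i))) : n → K) =
      ((mb e i j x)ᵀ * g) *ᵥ (u : n → K) := by
  induction x using TensorProduct.induction_on with
  | zero => simp
  | tmul a b =>
    rw [RJM.ev_tmul, mb_tmul, gb_apply, ← mulVec_mulVec, transpose_vecMulVec, vecMulVec_mulVec,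
      op_smul_eq_smul]
    rfl
  | add a b ha hb =>
    rw [map_add, LinearMap.add_apply, Submodule.coe_add, ha, hb, map_add, transpose_add,
      Matrix.add_mul, Matrix.add_mulVec]

/-- the single arm map on the block `i` -/
noncomputable def qb (e : m → Matrix n n K) (i : m) (t : Fin 3) :
    LinearMap.range (toLin' (e i)) →ₗ[K] LinearMap.range (toLin' (e i)) →ₗ[K]
      (Fin 3 → Matrix n n K) :=
  (RDEnd.qs (K := K) (n := n) t).domRestrict₁₂ (LinearMap.range (toLin' (e i)))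
    (LinearMap.range (toLin' (e i)))

theorem qb_apply (i : m) (t : Fin 3) (u v : LinearMap.range (toLin' (e i))) :
    qb e i t u v = Pi.single t (vecMulVec (u : n → K) (v : n → K)) := rfl

theorem lift1 (h : Fr k arm J B N W F G p al tau β T Ψ D π e lam l TT) (i j : m) (t : Fin 3)
    (b : LinearMap.range (toLin' (e j)) →ₗ[K] LinearMap.range (toLin' (e i)))
    (z : (LinearMap.range (toLin' (e j))) ⊗[K] (LinearMap.range (toLin' (e i)))) :
    TensorProduct.lift ((qb e i t) ∘ₗ b) z = Pi.single t (mh e i j b * mb e i j z) := by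
  induction z using TensorProduct.induction_on with
  | zero => simp
  | tmul u v =>
    rw [TensorProduct.lift.tmul, LinearMap.comp_apply, qb_apply, mb_tmul, mul_vecMulVec,
      mh_coe h]
  | add a b ha hb => rw [map_add, ha, hb, map_add, Matrix.mul_add, Pi.single_add]

theorem lift2 (h : Fr k arm J B N W F G p al tau β T Ψ D π e lam l TT) (i j : m) (t : Fin 3)
    (b : LinearMap.range (toLin' (e j)) →ₗ[K] LinearMap.range (toLin' (e i)))
    (z : (LinearMap.range (toLin' (e j))) ⊗[K] (LinearMap.range (toLin' (e i)))) :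
    TensorProduct.lift ((qb e i t).flip ∘ₗ b) z =
      Pi.single t ((mb e i j z)ᵀ * (mh e i j b)ᵀ) := by
  induction z using TensorProduct.induction_on with
  | zero => simp
  | tmul u v =>
    rw [TensorProduct.lift.tmul, LinearMap.comp_apply, LinearMap.flip_apply, qb_apply, mb_tmul,
      transpose_vecMulVec, vecMulVec_mul, vecMul_transpose, mh_coe h]
  | add a b ha hb =>
    rw [map_add, ha, hb, map_add, transpose_add, Matrix.add_mul, Pi.single_add]

theorem lift3 (i j : m) (t : Fin 3)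
    (g : Matrix n n K)
    (z' z : (LinearMap.range (toLin' (e j))) ⊗[K] (LinearMap.range (toLin' (e i)))) :
    TensorProduct.lift ((qb e i t) ∘ₗ (RJM.ev (gb g e j) z')) z =
      Pi.single t ((mb e i j z')ᵀ * g * mb e i j z) := by
  induction z using TensorProduct.induction_on with
  | zero => simp
  | tmul u v =>
    rw [TensorProduct.lift.tmul, LinearMap.comp_apply, qb_apply, mb_tmul, mul_vecMulVec,
      ev_eq]
  | add a b ha hb => rw [map_add, ha, hb, map_add, Matrix.mul_add, Pi.single_add]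

/-- exact families give `Dec` for every correction `b` of `RJM` -/
theorem dec_of (h : Fr k arm J B N W F G p al tau β T Ψ D π e lam l TT) {i j : m} (hij : i ≠ j)
    {c : K} (hc : c ≠ 0)
    {x : Fin 3 → (LinearMap.range (toLin' (e j))) ⊗[K] (LinearMap.range (toLin' (e i)))}
    (hx : RJM.Ex (ab h i) (ab h j) (Rb π e i) (Rb π e j) c x)
    {b : LinearMap.range (toLin' (e j)) →ₗ[K] LinearMap.range (toLin' (e i))}
    (hb : RJM.Cor (ab h i) (ab h j) (Rb π e i) (gb (pᵀ * J * p) e j) 1 c x b) :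
    ∃ kk, Dec (pᵀ * J * p) π e i j (fun r => al r) (fun r => c • al r) (fun r => mb e i j (x r))
      (-(mh e i j b)) kk := by
  have s1 : ∑ r, (mb e i j (x r) * (al r)ᵀ - c • (al r * mb e i j (x r))) = 0 := by
    simp only [← mb_defect h]
    have := hx.sum
    change ∑ t, Dual.defect (ab h i t) (ab h j t) c (x t) = 0 at this
    rw [← map_sum, this, map_zero]
  have s2 : ∀ r, (pᵀ * J * p) * (mb e i j (x r) * (al r)ᵀ - c • (al r * mb e i j (x r))) *
      (pᵀ * J * p) = 0 := by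
    intro r
    rw [← mb_defect h]
    exact mb_rad h i j _ (hx.arm r)
  obtain ⟨b0, kk, b1, b2, b3, b4, b5, b6⟩ := h.hexS i j hij c hc (fun r => mb e i j (x r))
    (fun r => mb_block h i j (x r)) s1 s2
  refine ⟨kk, ⟨fun r => mb_block h i j (x r), ?_, b2, ?_, b4, ?_, ?_, ?_, ?_⟩⟩
  · rw [Matrix.mul_neg, Matrix.neg_mul]
    congr 1
    apply ext_vec
    intro u
    rw [← mulVec_mulVec, ← mulVec_mulVec, mh_apply, mh_apply, e_mem h]
    congr 2
    apply Subtype.ext
    simp only [toLin'_apply, mulVec_mulVec, h.idem]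
  · intro u
    rw [Matrix.neg_mulVec, map_neg, mh_apply, mem_Rb.1 (hb.mem _), neg_zero]
  · simpa only [Matrix.smul_mul] using s1
  · simpa only [Matrix.smul_mul] using s2
  · intro r
    apply ext_vec
    intro u
    have h1 := congrArg Subtype.val (hb.eq r ⟨toLin' (e j) u, ⟨u, rfl⟩⟩)
    simp only [Submodule.coe_sub, Submodule.coe_smul, ab_coe, ev_eq, one_mul] at h1
    have h2 : ((mb e i j (x r))ᵀ * (pᵀ * J * p)) *ᵥ u =
        ((mb e i j (x r))ᵀ * (pᵀ * J * p)) *ᵥ (e j *ᵥ u) := by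
      rw [mulVec_mulVec]
      congr 1
      have h3 := congrArg transpose (mb_block h i j (x r))
      rw [transpose_mul, transpose_mul, transpose_transpose] at h3
      conv_lhs => rw [← h3]
      conv_rhs => rw [← h3]
      have h4 := h.eg j
      have h5 : (e j)ᵀ * (pᵀ * J * p) * e j = (e j)ᵀ * (pᵀ * J * p) := by
        rw [h4, Matrix.mul_assoc, h.idem]
      simp only [Matrix.mul_assoc] at h5 ⊢
      rw [h5]
    have h6 : ((mb e i j (x r))ᵀ * (pᵀ * J * p)) *ᵥ (al r *ᵥ u) =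
        ((mb e i j (x r))ᵀ * (pᵀ * J * p)) *ᵥ (al r *ᵥ (e j *ᵥ u)) := by
      have h3 := congrArg transpose (mb_block h i j (x r))
      rw [transpose_mul, transpose_mul, transpose_transpose] at h3
      have h4 := h.eg j
      have h5 : (e j)ᵀ * (pᵀ * J * p) * (al r * e j) = (e j)ᵀ * (pᵀ * J * p) * al r := by
        rw [← h.eal, h4, ← Matrix.mul_assoc, Matrix.mul_assoc _ (e j) (e j), h.idem]
      rw [mulVec_mulVec, mulVec_mulVec, mulVec_mulVec]
      congr 1
      rw [← h3]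
      simp only [Matrix.mul_assoc] at h5 ⊢
      rw [h5]
    have h7 : mh e i j b *ᵥ (al r *ᵥ u) =
        (b (ab h j r ⟨toLin' (e j) u, ⟨u, rfl⟩⟩) : n → K) := by
      rw [mh_apply]
      congr 2
      apply Subtype.ext
      rw [ab_coe]
      simp only [toLin'_apply, mulVec_mulVec, h.eal]
    have h8 : mh e i j b *ᵥ u = (b ⟨toLin' (e j) u, ⟨u, rfl⟩⟩ : n → K) := mh_apply i j b u
    rw [← mulVec_mulVec, ← mulVec_mulVec, Matrix.add_mulVec, Matrix.add_mulVec,
      Matrix.neg_mulVec, Matrix.neg_mulVec, Matrix.smul_mulVec, mulVec_smul, mulVec_smul, h7, h8,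
      h6, h2, mulVec_add, mulVec_neg]
    have h9 : al r *ᵥ ((b ⟨toLin' (e j) u, ⟨u, rfl⟩⟩ : LinearMap.range (toLin' (e i))) : n → K) -
        c • ((b (ab h j r ⟨toLin' (e j) u, ⟨u, rfl⟩⟩) : LinearMap.range (toLin' (e i))) : n → K) =
        al r *ᵥ (((mb e i j (x r))ᵀ * (pᵀ * J * p)) *ᵥ (e j *ᵥ u)) -
        c • (((mb e i j (x r))ᵀ * (pᵀ * J * p)) *ᵥ (al r *ᵥ (e j *ᵥ u))) := h1
    have h10 : ∀ a b' c' d' : n → K, (-a + c') - (-b' + d') = -((a - b') - (c' - d')) := by
      intro a b' c' d'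
      abel
    rw [← sub_eq_zero, h10, sub_eq_zero.2 h9, neg_zero]
  · intro r
    rw [Matrix.smul_mul]; exact b6 r

/-- `hex` -/
theorem cor_of (h : Fr k arm J B N W F G p al tau β T Ψ D π e lam l TT) {i j : m} (hij : i ≠ j)
    {c : K} (hc : c ≠ 0)
    {x : Fin 3 → (LinearMap.range (toLin' (e j))) ⊗[K] (LinearMap.range (toLin' (e i)))}
    (hx : RJM.Ex (ab h i) (ab h j) (Rb π e i) (Rb π e j) c x) :
    ∃ b, RJM.Cor (ab h i) (ab h j) (Rb π e i) (gb (pᵀ * J * p) e j) 1 c x b := by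
  have s1 : ∑ r, (mb e i j (x r) * (al r)ᵀ - c • (al r * mb e i j (x r))) = 0 := by
    simp only [← mb_defect h]
    have := hx.sum
    change ∑ t, Dual.defect (ab h i t) (ab h j t) c (x t) = 0 at this
    rw [← map_sum, this, map_zero]
  have s2 : ∀ r, (pᵀ * J * p) * (mb e i j (x r) * (al r)ᵀ - c • (al r * mb e i j (x r))) *
      (pᵀ * J * p) = 0 := by
    intro r
    rw [← mb_defect h]
    exact mb_rad h i j _ (hx.arm r)
  obtain ⟨b0, kk, b1, b2, b3, b4, b5, b6⟩ := h.hexS i j hij c hc (fun r => mb e i j (x r))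
    (fun r => mb_block h i j (x r)) s1 s2
  have hb0 : ∀ u : n → K, b0 *ᵥ u = e i *ᵥ (b0 *ᵥ (e j *ᵥ u)) := by
    intro u
    conv_lhs => rw [← b1]
    rw [← mulVec_mulVec, ← mulVec_mulVec]
  let bb : LinearMap.range (toLin' (e j)) →ₗ[K] LinearMap.range (toLin' (e i)) :=
    ((toLin' b0) ∘ₗ (LinearMap.range (toLin' (e j))).subtype).codRestrict _ (by
      intro u
      refine ⟨b0 *ᵥ (e j *ᵥ (u : n → K)), ?_⟩
      change e i *ᵥ (b0 *ᵥ (e j *ᵥ (u : n → K))) = b0 *ᵥ (u : n → K)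
      rw [← hb0])
  have hbb : ∀ u, ((bb u : LinearMap.range (toLin' (e i))) : n → K) = b0 *ᵥ (u : n → K) :=
    fun u => rfl
  refine ⟨-bb, ⟨fun u => ?_, fun r u => ?_⟩⟩
  · rw [mem_Rb, LinearMap.neg_apply, Submodule.coe_neg, map_neg, hbb, b3, neg_zero]
  · apply Subtype.ext
    obtain ⟨X, hX⟩ : ∃ X, X = (mb e i j (x r))ᵀ * (pᵀ * J * p) := ⟨_, rfl⟩
    have h0 := b5 r
    simp only [← hX] at h0
    have h1 : al r *ᵥ (b0 *ᵥ (u : n → K)) + al r *ᵥ (X *ᵥ (u : n → K)) =
        c • (b0 *ᵥ (al r *ᵥ (u : n → K)) + X *ᵥ (al r *ᵥ (u : n → K))) := by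
      have h2 := congrArg (fun A : Matrix n n K => A *ᵥ (u : n → K)) h0
      simp only [Matrix.mul_add, Matrix.add_mul, Matrix.add_mulVec, Matrix.smul_mulVec,
        ← mulVec_mulVec] at h2
      exact h2
    rw [Submodule.coe_sub, Submodule.coe_smul, Submodule.coe_sub, Submodule.coe_smul, ab_coe,
      ab_coe, ev_eq, ev_eq, LinearMap.neg_apply, LinearMap.neg_apply, Submodule.coe_neg,
      Submodule.coe_neg, hbb, hbb, ab_coe, one_mul, mulVec_neg, smul_neg, ← hX]
    have h10 : ∀ a b' c' d' : n → K, a + b' = c • (c' + d') →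
        -a - -(c • c') = b' - c • d' := by
      intro a b' c' d' h
      rw [smul_add] at h
      have : b' = c • c' + c • d' - a := by rw [← h]; abel
      rw [this]; abel
    exact h10 _ _ _ _ h1

/-- **RD5** -/
theorem diag [CharZero K] (h : Fr k arm J B N W F G p al tau β T Ψ D π e lam l TT)
    {i j : m} (hij : i ≠ j) (hh : HalvesP arm J B N W F p al T Ψ π e i j)
    (hs : SecondP arm J B N W F p al T Ψ π e i j) :
    DiagP arm J N W F p al T Ψ π e l i := by
  obtain ⟨S, hS, hh⟩ := hh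
  have hinf : ({c : K | c ∉ S ∧ c ≠ 0}).Infinite := by
    have h1 : (S ∪ {0}).Finite := hS.union (Set.finite_singleton 0)
    refine h1.infinite_compl.mono ?_
    intro c hc
    rw [Set.mem_compl_iff, Set.mem_union, not_or] at hc
    exact ⟨hc.1, hc.2⟩
  obtain ⟨m0, hm0⟩ := h.kill
  have kl : ∀ i : m, ∀ w : List (Fin 3), w.length = m0 → ∀ r ∈ Rb π e i,
      (w.map (ab h i)).prod r = 0 := by
    intro i w hw r hr
    apply Subtype.ext
    rw [ab_word, hm0 w hw _ (mem_Rb.1 hr)]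
    rfl
  have hgt := gt h
  obtain ⟨r1, r2⟩ := RJM.main (A := ab h i) (B := ab h j) (R1 := Rb π e i)
    (R2 := Rb π e j) (l := l) (g := gb (pᵀ * J * p) e j) (eps := 1) (b_top h i) (b_top h j)
    (b_stab h i) (b_stab h j) (kl i) (kl j) h.lpos (b_l h i) (b_l h j)
    (fun S h1 h2 => b_gen h i S h1 h2) (fun S h1 h2 => b_gen h j S h1 h2) one_ne_zero
    (by
      intro r hr u
      rw [gb_apply, dotProduct_comm, RDEnd.dt, hgt, (ker_iff h _).1 (mem_Rb.1 hr),
        dotProduct_zero])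
    (by
      intro r hr u
      rw [gb_apply, (ker_iff h _).1 (mem_Rb.1 hr), dotProduct_zero])
    (by
      intro t u u'
      rw [one_mul, gb_apply, gb_apply, ab_coe, ab_coe, ← h.cr.form, ← h.cr.form, ← h.cr.op,
        ← h.cr.op, h.cr.sa])
    (by
      intro s
      obtain ⟨u, u', hu⟩ := h.top j s
      refine ⟨⟨toLin' (e j) u', ⟨u', rfl⟩⟩, ⟨toLin' (e j) u, ⟨u, rfl⟩⟩, ?_⟩
      rw [gb_apply, ab_pow, ← h.cr.form, h.cr.ns.symm, h.cr.form]
      exact hu)
    hinf (fun h0 => h0.2 rfl) (qb e i) (RDEnd.Rel arm J N W F p π T 0 Ψ)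
    (a1 := -1) (a2 := -1) (a3 := 1) (by norm_num) (by norm_num) one_ne_zero
    (fun c hc x hx => cor_of h hij hc.2 hx)
    (by
      intro c hc c' hc' x b x' b' hx hb hx' hb'
      obtain ⟨kk, hd⟩ := dec_of h hij hc.2 hx hb
      obtain ⟨kk', hd'⟩ := dec_of h hij hc'.2 hx' hb'
      obtain ⟨f1, -⟩ := hh c hc.1 _ _ _ hd
      obtain ⟨f1', f2'⟩ := hh c' hc'.1 _ _ _ hd'
      have h1 := hs c' c hc'.2 hc.2 _ _ _ _ _ _ hd' hd f1' f2' f1
      have e1 : ∑ t, ((-1 : K) • TensorProduct.lift ((qb e i t) ∘ₗ b') (x t)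
          + (-1 : K) • TensorProduct.lift ((qb e i t).flip ∘ₗ b) (x' t)
          + (1 : K) • TensorProduct.lift ((qb e i t) ∘ₗ (RJM.ev (gb (pᵀ * J * p) e j) (x' t)))
            (x t)) = (fun r => -(mh e i j b') * mb e i j (x r) +
              (mb e i j (x' r))ᵀ * (pᵀ * J * p) * mb e i j (x r) +
              (mb e i j (x' r))ᵀ * (-(mh e i j b))ᵀ) := by
        simp only [lift3]
        simp only [lift1 h, lift2 h]
        funext r
        rw [Finset.sum_apply, Finset.sum_eq_single r]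
        · simp only [neg_smul, one_smul, Pi.add_apply, Pi.neg_apply, Pi.single_eq_same,
            transpose_neg, Matrix.neg_mul, Matrix.mul_neg]
          abel
        · intro s _ hs
          simp [Pi.single_eq_of_ne (Ne.symm hs)]
        · intro hr; exact absurd (Finset.mem_univ r) hr
      rw [e1]
      exact h1)
  refine ⟨fun s r hr y => ?_, fun s a a' haa y y' => ?_⟩
  · exact r1 s ⟨toLin' (e i) r, ⟨r, rfl⟩⟩ hr ⟨toLin' (e i) y, ⟨y, rfl⟩⟩
  · have h1 := r2 s a a' haa ⟨toLin' (e i) y, ⟨y, rfl⟩⟩ ⟨toLin' (e i) y', ⟨y', rfl⟩⟩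
    rw [qb_apply, ab_pow, ab_pow] at h1
    exact h1

end Crest.Agent.R172.RD795
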