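import Crest.Agent.R172.RDP
import Crest.Agent.R172.DualD

/-!
Row 172 (S0260), (T0): RD2 `halves` (transfer of FIRST to scalar exact decorated families), given
FIRST (`first` of the skeleton) as hypothesis.
-/

set_option maxHeartbeats 400000
set_option autoImplicit false
set_option linter.unusedSectionVars false

namespace Crest.Agent.R172.RDh267

open Matrix Module TensorProduct Crest.Agent.R172.FO Crest.Agent.R172.FrmB Crest.Agent.R172.RD
open Crest.Agent.R172.Core (NS Tame)
open Crest.Agent.R172.PL (Wk)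

variable {ι : Type*} [Fintype ι] [DecidableEq ι] {δ : Type*} [Fintype δ] [DecidableEq δ]
variable {n : Type*} [Fintype n] [DecidableEq n]
variable {k K : Type*} [Field k] [Field K] [Algebra k K]
variable {M : Type*} [AddCommGroup M] [Module K M]
variable {m : Type*} [Fintype m] [DecidableEq m]

/-- solving `(c₂ - c₁) X = Y` inside a stable subspace -/
theorem solve {V : Type*} [AddCommGroup V] [Module K V] [FiniteDimensional K V] {a b : End K V}
    (hab : Commute a b) (ha : IsNilpotent a) (hb : IsNilpotent b) {la1 la2 s : K} (hs0 : s ≠ 0)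
    (hla : la1 ≠ la2) (E : Submodule K V) (hEa : ∀ X ∈ E, a X ∈ E) (hEb : ∀ X ∈ E, b X ∈ E)
    (Y : V) (hY : Y ∈ E) :
    ∃ X ∈ E, ((1 + s * la2) • X + s • a X) - ((1 + s * la1) • X + s • b X) = Y := by
  have hd : la2 - la1 ≠ 0 := sub_ne_zero.2 (Ne.symm hla)
  have hval : ∀ X : V, ((1 + s * la2) • X + s • a X) - ((1 + s * la1) • X + s • b X) =
      s • ((la2 - la1) • X - (b X - a X)) := by
    intro X
    rw [smul_sub, smul_sub, smul_smul, add_smul, add_smul, mul_sub, sub_smul]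
    abel
  have hEd : ∀ X ∈ E, s • ((la2 - la1) • X - (b X - a X)) ∈ E := fun X hX =>
    E.smul_mem _ (E.sub_mem (E.smul_mem _ hX) (E.sub_mem (hEb X hX) (hEa X hX)))
  let f : End K V := s • ((la2 - la1) • (1 : End K V) - (b - a))
  have hf : ∀ X, f X = s • ((la2 - la1) • X - (b X - a X)) := fun X => rfl
  let dd : E →ₗ[K] E := f.restrict fun X hX => by rw [hf]; exact hEd X hX
  have hdi : Function.Injective dd := by
    rw [injective_iff_map_eq_zero]
    intro X hX
    have h1 : s • ((la2 - la1) • (X : V) - (b (X : V) - a (X : V))) = 0 :=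
      congrArg Subtype.val hX
    have h2 : (la2 - la1) • (X : V) = b (X : V) - a (X : V) := by
      rcases smul_eq_zero.1 h1 with h3 | h3
      · exact absurd h3 hs0
      · exact sub_eq_zero.1 h3
    have hnil : IsNilpotent ((la2 - la1)⁻¹ • (b - a)) := by
      have h4 : IsNilpotent (b - a) := Commute.isNilpotent_sub hab.symm hb ha
      exact h4.smul _
    have h1 : (X : V) = ((la2 - la1)⁻¹ • (b - a)) (X : V) := by
      rw [LinearMap.smul_apply, LinearMap.sub_apply, ← h2, smul_smul, inv_mul_cancel₀ hd,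
        one_smul]
    obtain ⟨q, hq⟩ := hnil
    have h5 : ∀ q : ℕ, (X : V) = (((la2 - la1)⁻¹ • (b - a)) ^ q) (X : V) := by
      intro q
      induction q with
      | zero => simp
      | succ q ih => rw [pow_succ, End.mul_apply, ← h1, ← ih]
    apply Subtype.ext
    rw [h5 q, hq, LinearMap.zero_apply]
    rfl
  obtain ⟨X, hX⟩ := (LinearMap.injective_iff_surjective.1 hdi) ⟨Y, hY⟩
  refine ⟨X, X.2, ?_⟩
  rw [hval]
  exact congrArg Subtype.val hX

/-- decorated families -/
abbrev Tr (n K : Type*) : Type _ := (Fin 3 → Matrix n n K) × Matrix n n K × Matrix n n K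

/-- action on the `U_j` side -/
def opA (A : Matrix n n K) : End K (Tr n K) where
  toFun X := (fun r => A * X.1 r, X.2.1 * A, A * X.2.2)
  map_add' X Y := by
    ext1
    · funext r; simp [mul_add]
    · ext1 <;> simp [mul_add, add_mul]
  map_smul' c X := by
    ext1
    · funext r; simp
    · ext1 <;> simp

/-- action on the `U_i` side -/
def opB (A : Matrix n n K) : End K (Tr n K) where
  toFun X := (fun r => X.1 r * Aᵀ, A * X.2.1, X.2.2 * A)
  map_add' X Y := by
    ext1
    · funext r; simp [add_mul]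
    · ext1 <;> simp [mul_add, add_mul]
  map_smul' c X := by
    ext1
    · funext r; simp
    · ext1 <;> simp

theorem opA_apply (A : Matrix n n K) (X : Tr n K) :
    opA A X = (fun r => A * X.1 r, X.2.1 * A, A * X.2.2) := rfl

theorem opB_apply (A : Matrix n n K) (X : Tr n K) :
    opB A X = (fun r => X.1 r * Aᵀ, A * X.2.1, X.2.2 * A) := rfl

theorem opA_opB (A A' : Matrix n n K) (X : Tr n K) : opA A (opB A' X) = opB A' (opA A X) := by
  rw [opA_apply, opB_apply, opA_apply, opB_apply]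
  simp only [Matrix.mul_assoc]

theorem opA_mul (A A' : Matrix n n K) (X : Tr n K) (h : A * A' = A' * A) :
    opA A (opA A' X) = opA (A * A') X := by
  refine Prod.ext (funext fun r => ?_) (Prod.ext ?_ ?_)
  · show A * (A' * X.1 r) = A * A' * X.1 r
    rw [Matrix.mul_assoc]
  · show X.2.1 * A' * A = X.2.1 * (A * A')
    rw [Matrix.mul_assoc, h]
  · show A * (A' * X.2.2) = A * A' * X.2.2
    rw [Matrix.mul_assoc]

theorem opB_mul (A A' : Matrix n n K) (X : Tr n K) (h : A * A' = A' * A) :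
    opB A (opB A' X) = opB (A * A') X := by
  refine Prod.ext (funext fun r => ?_) (Prod.ext ?_ ?_)
  · show X.1 r * A'ᵀ * Aᵀ = X.1 r * (A * A')ᵀ
    rw [Matrix.mul_assoc, ← Matrix.transpose_mul]
  · show A * (A' * X.2.1) = A * A' * X.2.1
    rw [Matrix.mul_assoc]
  · show X.2.2 * A' * A = X.2.2 * (A * A')
    rw [Matrix.mul_assoc, h]

theorem opA_one (X : Tr n K) : opA (1 : Matrix n n K) X = X := by
  rw [opA_apply]; simp

theorem opB_one (X : Tr n K) : opB (1 : Matrix n n K) X = X := by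
  rw [opB_apply]; simp

theorem opA_lin (c t : K) (A : Matrix n n K) (X : Tr n K) :
    opA (c • (1 : Matrix n n K) + t • A) X = c • X + t • opA A X := by
  rw [opA_apply, opA_apply]
  ext1
  · funext r; simp [add_mul]
  · ext1 <;> simp [mul_add, add_mul]

theorem opB_lin (c t : K) (A : Matrix n n K) (X : Tr n K) :
    opB (c • (1 : Matrix n n K) + t • A) X = c • X + t • opB A X := by
  rw [opB_apply, opB_apply]
  ext1
  · funext r; simp [mul_add]
  · ext1 <;> simp [mul_add, add_mul]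

/-- the block conditions -/
def VV (π : (n → K) →ₗ[K] M) (e : m → Matrix n n K) (i j : m) : Submodule K (Tr n K) where
  carrier := {X | (∀ r, e j * X.1 r * (e i)ᵀ = X.1 r) ∧ e i * X.2.1 * e j = X.2.1 ∧
    e j * X.2.2 * e i = X.2.2 ∧ (∀ u, π (X.2.1 *ᵥ u) = 0) ∧ ∀ u, π (X.2.2 *ᵥ u) = 0}
  add_mem' := by
    rintro X Y ⟨a1, a2, a3, a4, a5⟩ ⟨b1, b2, b3, b4, b5⟩
    refine ⟨fun r => ?_, ?_, ?_, fun u => ?_, fun u => ?_⟩
    · rw [Prod.fst_add, Pi.add_apply, mul_add, add_mul, a1, b1]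
    · rw [Prod.snd_add, Prod.fst_add, mul_add, add_mul, a2, b2]
    · rw [Prod.snd_add, Prod.snd_add, mul_add, add_mul, a3, b3]
    · rw [Prod.snd_add, Prod.fst_add, add_mulVec, map_add, a4, b4, add_zero]
    · rw [Prod.snd_add, Prod.snd_add, add_mulVec, map_add, a5, b5, add_zero]
  zero_mem' := by
    refine ⟨fun r => ?_, ?_, ?_, fun u => ?_, fun u => ?_⟩ <;> simp
  smul_mem' := by
    rintro c X ⟨a1, a2, a3, a4, a5⟩
    refine ⟨fun r => ?_, ?_, ?_, fun u => ?_, fun u => ?_⟩
    · rw [Prod.smul_fst, Pi.smul_apply, mul_smul_comm, smul_mul_assoc, a1]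
    · rw [Prod.smul_snd, Prod.smul_fst, mul_smul_comm, smul_mul_assoc, a2]
    · rw [Prod.smul_snd, Prod.smul_snd, mul_smul_comm, smul_mul_assoc, a3]
    · rw [Prod.smul_snd, Prod.smul_fst, smul_mulVec, map_smul, a4, smul_zero]
    · rw [Prod.smul_snd, Prod.smul_snd, smul_mulVec, map_smul, a5, smul_zero]

theorem VV_opA {π : (n → K) →ₗ[K] M} {e : m → Matrix n n K} {i j : m} {A : Matrix n n K}
    (hA : ∀ l, e l * A = A * e l) (hπ : ∀ v, π v = 0 → π (A *ᵥ v) = 0) {X : Tr n K}
    (hX : X ∈ VV π e i j) : opA A X ∈ VV π e i j := by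
  obtain ⟨a1, a2, a3, a4, a5⟩ := hX
  rw [opA_apply]
  refine ⟨fun r => ?_, ?_, ?_, fun u => ?_, fun u => ?_⟩
  · simp only
    rw [← Matrix.mul_assoc, hA, Matrix.mul_assoc A, Matrix.mul_assoc A, a1]
  · simp only
    rw [← Matrix.mul_assoc, Matrix.mul_assoc, ← hA, ← Matrix.mul_assoc, a2]
  · simp only
    rw [← Matrix.mul_assoc, hA, Matrix.mul_assoc A, Matrix.mul_assoc A, a3]
  · simp only
    rw [← mulVec_mulVec]
    exact a4 _
  · simp only
    rw [← mulVec_mulVec]
    exact hπ _ (a5 u)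

theorem VV_opB {π : (n → K) →ₗ[K] M} {e : m → Matrix n n K} {i j : m} {A : Matrix n n K}
    (hA : ∀ l, e l * A = A * e l) (hπ : ∀ v, π v = 0 → π (A *ᵥ v) = 0) {X : Tr n K}
    (hX : X ∈ VV π e i j) : opB A X ∈ VV π e i j := by
  obtain ⟨a1, a2, a3, a4, a5⟩ := hX
  rw [opB_apply]
  refine ⟨fun r => ?_, ?_, ?_, fun u => ?_, fun u => ?_⟩
  · simp only
    rw [← Matrix.mul_assoc, Matrix.mul_assoc, ← Matrix.transpose_mul, hA, Matrix.transpose_mul,
      ← Matrix.mul_assoc, a1]
  · simp only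
    rw [← Matrix.mul_assoc, hA, Matrix.mul_assoc A, Matrix.mul_assoc A, a2]
  · simp only
    rw [← Matrix.mul_assoc, Matrix.mul_assoc, ← hA, ← Matrix.mul_assoc, a3]
  · simp only
    rw [← mulVec_mulVec]
    exact hπ _ (a4 u)
  · simp only
    rw [← mulVec_mulVec]
    exact a5 _

/-- target of the pencil -/
abbrev Tg (n K : Type*) : Type _ :=
  Matrix n n K × (Fin 3 → Matrix n n K) × (Fin 3 → Matrix n n K) × (Fin 3 → Matrix n n K)

def L0 (g : Matrix n n K) (al : Fin 3 → Matrix n n K) : Tr n K →ₗ[K] Tg n K where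
  toFun X := (∑ r, X.1 r * (al r)ᵀ, fun r => g * (X.1 r * (al r)ᵀ) * g,
    fun r => al r * (X.2.1 + (X.1 r)ᵀ * g), fun r => (X.2.2 - X.1 r * g) * al r)
  map_add' X Y := by
    refine Prod.ext ?_ (Prod.ext ?_ (Prod.ext ?_ ?_))
    · simp [add_mul, Finset.sum_add_distrib]
    · funext r; simp [add_mul, mul_add]
    · funext r; simp only [Prod.snd_add, Prod.fst_add, Pi.add_apply, transpose_add]; noncomm_ring
    · funext r; simp only [Prod.snd_add, Prod.fst_add, Pi.add_apply]; noncomm_ring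
  map_smul' c X := by
    refine Prod.ext ?_ (Prod.ext ?_ (Prod.ext ?_ ?_))
    · simp [Finset.smul_sum]
    · funext r; simp
    · funext r; simp [mul_add]
    · funext r; simp [sub_mul, smul_sub]

def L1 (g : Matrix n n K) (al : Fin 3 → Matrix n n K) : Tr n K →ₗ[K] Tg n K where
  toFun X := (∑ r, al r * X.1 r, fun r => g * (al r * X.1 r) * g,
    fun r => (X.2.1 + (X.1 r)ᵀ * g) * al r, fun r => al r * (X.2.2 - X.1 r * g))
  map_add' X Y := by
    refine Prod.ext ?_ (Prod.ext ?_ (Prod.ext ?_ ?_))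
    · simp [mul_add, Finset.sum_add_distrib]
    · funext r; simp [add_mul, mul_add]
    · funext r; simp only [Prod.snd_add, Prod.fst_add, Pi.add_apply, transpose_add]; noncomm_ring
    · funext r; simp only [Prod.snd_add, Prod.fst_add, Pi.add_apply]; noncomm_ring
  map_smul' c X := by
    refine Prod.ext ?_ (Prod.ext ?_ (Prod.ext ?_ ?_))
    · simp [Finset.smul_sum]
    · funext r; simp
    · funext r; simp [add_mul]
    · funext r; simp [mul_sub, smul_sub]

theorem LL_iff {g : Matrix n n K} {al : Fin 3 → Matrix n n K} {X Y : Tr n K} :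
    L0 g al X = L1 g al Y ↔ (∑ r, X.1 r * (al r)ᵀ = ∑ r, al r * Y.1 r) ∧
      (∀ r, g * (X.1 r * (al r)ᵀ) * g = g * (al r * Y.1 r) * g) ∧
      (∀ r, al r * (X.2.1 + (X.1 r)ᵀ * g) = (Y.2.1 + (Y.1 r)ᵀ * g) * al r) ∧
      ∀ r, (X.2.2 - X.1 r * g) * al r = al r * (Y.2.2 - Y.1 r * g) := by
  constructor
  · intro h
    have h1 := congrArg Prod.fst h
    have h2 := congrArg (fun z => z.2.1) h
    have h3 := congrArg (fun z => z.2.2.1) h
    have h4 := congrArg (fun z => z.2.2.2) h
    exact ⟨h1, fun r => congrFun h2 r, fun r => congrFun h3 r, fun r => congrFun h4 r⟩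
  · rintro ⟨h1, h2, h3, h4⟩
    exact Prod.ext h1 (Prod.ext (funext h2) (Prod.ext (funext h3) (funext h4)))

theorem LL_opA {g : Matrix n n K} {al : Fin 3 → Matrix n n K} {A : Matrix n n K}
    (hal : ∀ r, A * al r = al r * A) (hg : g * A = Aᵀ * g) {X Y : Tr n K}
    (h : L0 g al X = L1 g al Y) : L0 g al (opA A X) = L1 g al (opA A Y) := by
  rw [LL_iff] at h ⊢
  obtain ⟨h1, h2, h3, h4⟩ := h
  rw [opA_apply, opA_apply]
  refine ⟨?_, fun r => ?_, fun r => ?_, fun r => ?_⟩
  · simp only [Matrix.mul_assoc]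
    rw [← Matrix.mul_sum, h1, Matrix.mul_sum]
    refine Finset.sum_congr rfl fun r _ => ?_
    rw [← Matrix.mul_assoc, hal, Matrix.mul_assoc]
  · simp only
    have e1 : g * (A * X.1 r * (al r)ᵀ) * g = Aᵀ * (g * (X.1 r * (al r)ᵀ) * g) := by
      calc _ = (g * A) * (X.1 r * (al r)ᵀ) * g := by simp only [Matrix.mul_assoc]
        _ = _ := by rw [hg]; simp only [Matrix.mul_assoc]
    have e2 : g * (al r * (A * Y.1 r)) * g = Aᵀ * (g * (al r * Y.1 r) * g) := by
      calc _ = g * (al r * A) * Y.1 r * g := by simp only [Matrix.mul_assoc]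
        _ = (g * A) * al r * Y.1 r * g := by rw [← hal]; simp only [Matrix.mul_assoc]
        _ = _ := by rw [hg]; simp only [Matrix.mul_assoc]
    rw [e1, e2, h2]
  · simp only
    have e1 : al r * (X.2.1 * A + (A * X.1 r)ᵀ * g) = al r * (X.2.1 + (X.1 r)ᵀ * g) * A := by
      rw [Matrix.transpose_mul, Matrix.mul_assoc (X.1 r)ᵀ, ← hg]
      noncomm_ring
    have e2 : (Y.2.1 * A + (A * Y.1 r)ᵀ * g) * al r = (Y.2.1 + (Y.1 r)ᵀ * g) * al r * A := by
      rw [Matrix.transpose_mul, Matrix.mul_assoc (Y.1 r)ᵀ, ← hg,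
        show Y.2.1 * A + (Y.1 r)ᵀ * (g * A) = (Y.2.1 + (Y.1 r)ᵀ * g) * A by noncomm_ring,
        Matrix.mul_assoc, hal, Matrix.mul_assoc]
    rw [e1, e2, h3]
  · simp only
    have e1 : (A * X.2.2 - A * X.1 r * g) * al r = A * ((X.2.2 - X.1 r * g) * al r) := by
      noncomm_ring
    have e2 : al r * (A * Y.2.2 - A * Y.1 r * g) = A * (al r * (Y.2.2 - Y.1 r * g)) := by
      rw [show A * Y.2.2 - A * Y.1 r * g = A * (Y.2.2 - Y.1 r * g) by noncomm_ring,
        ← Matrix.mul_assoc, ← hal, Matrix.mul_assoc]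
    rw [e1, e2, h4]

theorem LL_opB {g : Matrix n n K} {al : Fin 3 → Matrix n n K} {A : Matrix n n K}
    (hal : ∀ r, A * al r = al r * A) (hg : g * A = Aᵀ * g) {X Y : Tr n K}
    (h : L0 g al X = L1 g al Y) : L0 g al (opB A X) = L1 g al (opB A Y) := by
  rw [LL_iff] at h ⊢
  obtain ⟨h1, h2, h3, h4⟩ := h
  rw [opB_apply, opB_apply]
  have halT : ∀ r, Aᵀ * (al r)ᵀ = (al r)ᵀ * Aᵀ := fun r => by
    rw [← Matrix.transpose_mul, ← hal, Matrix.transpose_mul]
  refine ⟨?_, fun r => ?_, fun r => ?_, fun r => ?_⟩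
  · simp only
    have e1 : ∑ r, X.1 r * Aᵀ * (al r)ᵀ = (∑ r, X.1 r * (al r)ᵀ) * Aᵀ := by
      rw [Matrix.sum_mul]
      refine Finset.sum_congr rfl fun r _ => ?_
      rw [Matrix.mul_assoc, halT, ← Matrix.mul_assoc]
    have e2 : ∑ r, al r * (Y.1 r * Aᵀ) = (∑ r, al r * Y.1 r) * Aᵀ := by
      rw [Matrix.sum_mul]
      refine Finset.sum_congr rfl fun r _ => ?_
      rw [← Matrix.mul_assoc]
    rw [e1, e2, h1]
  · simp only
    have e1 : g * (X.1 r * Aᵀ * (al r)ᵀ) * g = g * (X.1 r * (al r)ᵀ) * g * A := by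
      rw [Matrix.mul_assoc (X.1 r), halT]
      calc _ = g * (X.1 r * (al r)ᵀ) * (Aᵀ * g) := by simp only [Matrix.mul_assoc]
        _ = _ := by rw [← hg]; simp only [Matrix.mul_assoc]
    have e2 : g * (al r * (Y.1 r * Aᵀ)) * g = g * (al r * Y.1 r) * g * A := by
      calc _ = g * (al r * Y.1 r) * (Aᵀ * g) := by simp only [Matrix.mul_assoc]
        _ = _ := by rw [← hg]; simp only [Matrix.mul_assoc]
    rw [e1, e2, h2]
  · simp only
    have e1 : al r * (A * X.2.1 + (X.1 r * Aᵀ)ᵀ * g) = A * (al r * (X.2.1 + (X.1 r)ᵀ * g)) := by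
      rw [Matrix.transpose_mul, Matrix.transpose_transpose,
        show A * X.2.1 + A * (X.1 r)ᵀ * g = A * (X.2.1 + (X.1 r)ᵀ * g) by noncomm_ring,
        ← Matrix.mul_assoc, ← hal, Matrix.mul_assoc]
    have e2 : (A * Y.2.1 + (Y.1 r * Aᵀ)ᵀ * g) * al r = A * ((Y.2.1 + (Y.1 r)ᵀ * g) * al r) := by
      rw [Matrix.transpose_mul, Matrix.transpose_transpose]
      noncomm_ring
    rw [e1, e2, h3]
  · simp only
    have e1 : (X.2.2 * A - X.1 r * Aᵀ * g) * al r = (X.2.2 - X.1 r * g) * al r * A := by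
      rw [Matrix.mul_assoc (X.1 r), ← hg,
        show X.2.2 * A - X.1 r * (g * A) = (X.2.2 - X.1 r * g) * A by noncomm_ring,
        Matrix.mul_assoc, hal, Matrix.mul_assoc]
    have e2 : al r * (Y.2.2 * A - Y.1 r * Aᵀ * g) = al r * (Y.2.2 - Y.1 r * g) * A := by
      rw [Matrix.mul_assoc (Y.1 r), ← hg]
      noncomm_ring
    rw [e1, e2, h4]

section RSS

variable {arm : δ → Fin 3} {J : Matrix ι ι K} {B : Matrix δ δ K}
  {N W : Submodule K (Matrix ι δ K)} {F G : Matrix ι δ K} {p : Matrix ι n K}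
  {al : Fin 3 → Matrix n n K} {tau : Matrix n n K}
  {β : LinearMap.BilinForm K M} {T : Module.End K M →ₗ[K] Module.End K M}
  {Ψ : Fin 3 → Module.End K M} {D : Module.End K M} {π : (n → K) →ₗ[K] M}
  {e : m → Matrix n n K} {lam : m → K} {l : Fin 3 → ℕ} {TT : Set k}

theorem off_add (A A' : Matrix n n K) : off e (A + A') = off e A + off e A' := by
  unfold off
  simp only [mul_add, add_mul, Finset.sum_add_distrib]
  abel

theorem off_smul (c : K) (A : Matrix n n K) : off e (c • A) = c • off e A := by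
  unfold off
  simp only [mul_smul_comm, smul_mul_assoc, ← Finset.smul_sum, smul_sub]

variable (arm J B N W F p T Ψ π e) in
/-- `RS` as a submodule -/
def RSS : Submodule K ((Fin 3 → Matrix n n K) × Matrix n n K × (Fin 3 → Matrix n n K)) where
  carrier := {v | RS arm J B N W F p T Ψ π e v.1 v.2.1 v.2.2}
  add_mem' := by
    rintro X Y ⟨w, z, μ, h1, h2, h3, h4, h5, h6, h7⟩ ⟨w', z', μ', h1', h2', h3', h4', h5', h6', h7'⟩
    refine ⟨w + w', z + z', fun r => μ r + μ' r, W.add_mem h1 h1', ?_, ?_, fun r => ?_,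
      Submodule.add_mem _ h5 h5', ?_, fun r => ?_⟩
    · rw [Prod.fst_add, show (X.1 + Y.1) = fun r => X.1 r + Y.1 r from rfl, io_add,
        show io arm J F p X.1 + io arm J F p Y.1 - (w + w') =
          (io arm J F p X.1 - w) + (io arm J F p Y.1 - w') by abel]
      exact N.add_mem h2 h2'
    · rw [Matrix.transpose_add, Matrix.add_mul, Matrix.add_mul, h3, h3', Matrix.mul_add]
    · rw [Matrix.add_mul, Matrix.add_mul, Matrix.add_mul, h4, h4', ← Matrix.mul_add]
    · rw [off_add, h6, h6']; rfl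
    · rw [off_add, h7, h7']; rfl
  zero_mem' := by
    refine ⟨0, 0, fun _ => 0, W.zero_mem, ?_, ?_, fun r => ?_, Submodule.zero_mem _, ?_,
      fun r => ?_⟩
    · have : io arm J F p (fun _ => (0 : Matrix n n K)) = 0 := by
        have h0 := io_smul (arm := arm) (J := J) (F := F) (p := p) (0 : K)
          (0 : Fin 3 → Matrix n n K)
        simpa using h0
      show io arm J F p (fun _ => (0 : Matrix n n K)) - 0 ∈ N
      rw [this, sub_zero]
      exact N.zero_mem
    · simp
    · simp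
    · simp [off]
    · simp [off]
  smul_mem' := by
    rintro c X ⟨w, z, μ, h1, h2, h3, h4, h5, h6, h7⟩
    refine ⟨c • w, c • z, fun r => c • μ r, W.smul_mem c h1, ?_, ?_, fun r => ?_,
      Submodule.smul_mem _ c h5, ?_, fun r => ?_⟩
    · rw [Prod.smul_fst, show (c • X.1) = fun r => c • X.1 r from rfl, io_smul, ← smul_sub]
      exact N.smul_mem c h2
    · rw [Matrix.transpose_smul, Matrix.smul_mul, Matrix.smul_mul, h3, Matrix.mul_smul]
    · rw [Matrix.smul_mul, Matrix.smul_mul, Matrix.smul_mul, h4, ← Matrix.mul_smul]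
    · rw [off_smul, h6]; rfl
    · rw [off_smul, h7]; rfl

/-- the two symbols -/
def Sy (al : Fin 3 → Matrix n n K) : Tr n K × Tr n K →ₗ[K]
    ((Fin 3 → Matrix n n K) × Matrix n n K × (Fin 3 → Matrix n n K)) where
  toFun V := (fun r => V.1.1 r + (V.2.1 r)ᵀ, -V.1.2.1 + V.2.2.2,
    fun r => V.1.2.2 * al r - V.2.2.1 * al r)
  map_add' X Y := by
    refine Prod.ext ?_ (Prod.ext ?_ ?_)
    · funext r; simp; abel
    · simp; abel
    · funext r; simp [add_mul]; abel
  map_smul' c X := by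
    refine Prod.ext ?_ (Prod.ext ?_ ?_)
    · funext r; simp
    · simp
    · funext r; simp [smul_sub]

theorem halves_of [CharZero K] (h : Fr k arm J B N W F G p al tau β T Ψ D π e lam l TT)
    {i j : m} (hij : i ≠ j)
    (hfirst : ∀ {t : k} (_ : t ∈ TT) {kap kai : Matrix n n K}
      (_ : FC.Par k arm J B N W F G p tau (algebraMap k K t) kap kai)
      {x : Fin 3 → Matrix n n K} {b kk : Matrix n n K}
      (_ : Dec (pᵀ * J * p) π e i j (fun r => al r * (kap * kap)) (fun r => al r * (kap * kap)) x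
        b kk),
      RS arm J B N W F p T Ψ π e
        (fun r => kai * (x r - (x r)ᵀ) * kapᵀ - (x r - (x r)ᵀ))
        ((b - kap * b * kai) + (kk - kap * kk * kai))
        (fun r => (kai * b * kap - b) * al r + (kai * kk * kap - kk) * al r)) :
    ∃ S : Set K, S.Finite ∧ ∀ c ∉ S, ∀ (x : Fin 3 → Matrix n n K)
      (b kk : Matrix n n K),
      Dec (pᵀ * J * p) π e i j (fun r => al r) (fun r => c • al r) x b kk →
      RS arm J B N W F p T Ψ π e x (-b) (fun r => kk * al r) ∧
      RS arm J B N W F p T Ψ π e (fun r => (x r)ᵀ) kk (fun r => -(b * al r)) := by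
  classical
  have hlam : lam i ≠ lam j := fun hh => hij (h.lamInj hh)
  obtain ⟨g, hgdef⟩ : ∃ g, g = pᵀ * J * p := ⟨_, rfl⟩
  have htg : g * tau = tauᵀ * g := by rw [hgdef]; exact h.ctx.tau_sa
  -- `tau - la` operators
  have key : ∀ la : K, (∀ r, (tau - la • (1 : Matrix n n K)) * al r =
      al r * (tau - la • (1 : Matrix n n K))) ∧
      g * (tau - la • (1 : Matrix n n K)) = (tau - la • (1 : Matrix n n K))ᵀ * g ∧
      (∀ l, e l * (tau - la • (1 : Matrix n n K)) = (tau - la • (1 : Matrix n n K)) * e l) ∧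
      ∀ v, π v = 0 → π ((tau - la • (1 : Matrix n n K)) *ᵥ v) = 0 := by
    intro la
    refine ⟨fun r => ?_, ?_, fun l => ?_, fun v hv => ?_⟩
    · rw [sub_mul, mul_sub, h.ctx.comm]; simp
    · rw [mul_sub, transpose_sub, sub_mul, htg]; simp
    · rw [sub_mul, mul_sub, h.etau]; simp
    · rw [sub_mulVec, map_sub, h.ptau, hv, map_zero, smul_mulVec, one_mulVec, map_smul, hv,
        smul_zero, sub_zero]
  obtain ⟨Ni, hNi⟩ : ∃ Ni, Ni = tau - lam i • (1 : Matrix n n K) := ⟨_, rfl⟩
  obtain ⟨Nj, hNj⟩ : ∃ Nj, Nj = tau - lam j • (1 : Matrix n n K) := ⟨_, rfl⟩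
  obtain ⟨ki1, ki2, ki3, ki4⟩ := key (lam i)
  obtain ⟨kj1, kj2, kj3, kj4⟩ := key (lam j)
  rw [← hNi] at ki1 ki2 ki3 ki4
  rw [← hNj] at kj1 kj2 kj3 kj4
  let V := VV π e i j
  let a : End K V := (opA Nj).restrict fun X hX => VV_opA kj3 kj4 hX
  let b' : End K V := (opB Ni).restrict fun X hX => VV_opB ki3 ki4 hX
  have ha_coe : ∀ X : V, ((a X : V) : Tr n K) = opA Nj X := fun X => rfl
  have hb_coe : ∀ X : V, ((b' X : V) : Tr n K) = opB Ni X := fun X => rfl
  have hab : Commute a b' := by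
    refine LinearMap.ext fun X => Subtype.ext ?_
    rw [End.mul_apply, End.mul_apply, ha_coe, hb_coe, hb_coe, ha_coe, opA_opB]
  -- nilpotency
  have hpow : ∀ (A : Matrix n n K) (q : ℕ) (X : Tr n K), ((opA A) ^ q) X =
      (fun r => A ^ q * X.1 r, X.2.1 * A ^ q, A ^ q * X.2.2) := by
    intro A q
    induction q with
    | zero => intro X; simp
    | succ q ih =>
      intro X
      rw [pow_succ', End.mul_apply, ih, opA_apply, pow_succ']
      simp only [Matrix.mul_assoc]
      refine Prod.ext rfl (Prod.ext ?_ rfl)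
      simp only
      rw [← pow_succ, ← pow_succ']
  have hpowB : ∀ (A : Matrix n n K) (q : ℕ) (X : Tr n K), ((opB A) ^ q) X =
      (fun r => X.1 r * (A ^ q)ᵀ, A ^ q * X.2.1, X.2.2 * A ^ q) := by
    intro A q
    induction q with
    | zero => intro X; simp
    | succ q ih =>
      intro X
      rw [pow_succ', End.mul_apply, ih, opB_apply]
      refine Prod.ext ?_ (Prod.ext ?_ ?_)
      · funext r
        simp only
        rw [Matrix.mul_assoc, ← Matrix.transpose_mul, ← pow_succ']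
      · simp only
        rw [← Matrix.mul_assoc, ← pow_succ']
      · simp only
        rw [Matrix.mul_assoc, ← pow_succ]
  have hnilE : ∀ (o : m) (A : Matrix n n K), A = tau - lam o • (1 : Matrix n n K) →
      ∃ q : ℕ, A ^ q * e o = 0 := by
    intro o A hA
    obtain ⟨q, hq⟩ := h.nil o
    have hc : e o * A = A * e o := by rw [hA]; exact (key (lam o)).2.2.1 o
    have hp : ∀ q : ℕ, (A * e o) ^ (q + 1) = A ^ (q + 1) * e o := by
      intro q
      induction q with
      | zero => simp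
      | succ q ih =>
        rw [pow_succ, ih]
        calc A ^ (q + 1) * e o * (A * e o) = A ^ (q + 1) * (e o * A) * e o := by
              simp only [Matrix.mul_assoc]
          _ = A ^ (q + 1) * A * (e o * e o) := by rw [hc]; simp only [Matrix.mul_assoc]
          _ = _ := by rw [h.idem, ← pow_succ]
    refine ⟨q + 1, ?_⟩
    rw [← hp, hA, pow_succ, hq, zero_mul]
  have ha_nil : IsNilpotent a := by
    obtain ⟨q, hq⟩ := hnilE j Nj hNj
    refine ⟨q, LinearMap.ext fun X => Subtype.ext ?_⟩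
    have h1 : ∀ (q : ℕ) (X : V), (((a ^ q) X : V) : Tr n K) = ((opA Nj) ^ q) (X : Tr n K) := by
      intro q
      induction q with
      | zero => intro X; simp
      | succ q ih => intro X; rw [pow_succ, End.mul_apply, ih, ha_coe, pow_succ, End.mul_apply]
    obtain ⟨X, hX⟩ := X
    obtain ⟨a1, a2, a3, a4, a5⟩ := hX
    have hcj : Nj ^ q * e j = e j * Nj ^ q := by
      have : Commute (e j) Nj := kj3 j
      exact (this.pow_right q).eq.symm
    rw [h1, hpow]
    show ((fun r => Nj ^ q * X.1 r, X.2.1 * Nj ^ q, Nj ^ q * X.2.2) : Tr n K) = 0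
    have z1 : ∀ r, Nj ^ q * X.1 r = 0 := fun r => by
      rw [← a1 r, ← Matrix.mul_assoc, ← Matrix.mul_assoc, hq, zero_mul, zero_mul]
    have z2 : X.2.1 * Nj ^ q = 0 := by
      rw [← a2, Matrix.mul_assoc, ← hcj, hq, mul_zero]
    have z3 : Nj ^ q * X.2.2 = 0 := by
      rw [← a3, ← Matrix.mul_assoc, ← Matrix.mul_assoc, hq, zero_mul, zero_mul]
    exact Prod.ext (funext z1) (Prod.ext z2 z3)
  have hb_nil : IsNilpotent b' := by
    obtain ⟨q, hq⟩ := hnilE i Ni hNi
    refine ⟨q, LinearMap.ext fun X => Subtype.ext ?_⟩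
    have h1 : ∀ (q : ℕ) (X : V), (((b' ^ q) X : V) : Tr n K) = ((opB Ni) ^ q) (X : Tr n K) := by
      intro q
      induction q with
      | zero => intro X; simp
      | succ q ih => intro X; rw [pow_succ, End.mul_apply, ih, hb_coe, pow_succ, End.mul_apply]
    obtain ⟨X, hX⟩ := X
    obtain ⟨a1, a2, a3, a4, a5⟩ := hX
    have hci : Ni ^ q * e i = e i * Ni ^ q := by
      have : Commute (e i) Ni := ki3 i
      exact (this.pow_right q).eq.symm
    rw [h1, hpowB]
    show ((fun r => X.1 r * (Ni ^ q)ᵀ, Ni ^ q * X.2.1, X.2.2 * Ni ^ q) : Tr n K) = 0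
    have z1 : ∀ r, X.1 r * (Ni ^ q)ᵀ = 0 := fun r => by
      rw [← a1 r, Matrix.mul_assoc, ← Matrix.transpose_mul, hq, Matrix.transpose_zero, mul_zero]
    have z2 : Ni ^ q * X.2.1 = 0 := by
      rw [← a2, ← Matrix.mul_assoc, ← Matrix.mul_assoc, hq, zero_mul, zero_mul]
    have z3 : X.2.2 * Ni ^ q = 0 := by
      rw [← a3, Matrix.mul_assoc, ← hci, hq, mul_zero]
    exact Prod.ext (funext z1) (Prod.ext z2 z3)
  let l0 : V →ₗ[K] Tg n K := (L0 g al).domRestrict V
  let l1 : V →ₗ[K] Tg n K := (L1 g al).domRestrict V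
  let c1 : K → End K V := fun t => (1 + t * lam i) • (1 : End K V) + t • b'
  let c2 : K → End K V := fun t => (1 + t * lam j) • (1 : End K V) + t • a
  have hc1 : ∀ t x, c1 t x = (1 + t * lam i) • x + t • b' x := fun t x => rfl
  have hc2 : ∀ t x, c2 t x = (1 + t * lam j) • x + t • a x := fun t x => rfl
  have hLa : ∀ y z, l0 y = l1 z → l0 (a y) = l1 (a z) := fun y z hyz => LL_opA kj1 kj2 hyz
  have hLb : ∀ y z, l0 y = l1 z → l0 (b' y) = l1 (b' z) := fun y z hyz => LL_opB ki1 ki2 hyz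
  have hTT : ((algebraMap k K) '' TT).Infinite := h.inf.image (algebraMap k K).injective.injOn
  obtain ⟨S, hS, htr⟩ := Dual.transfer l0 l1 hab ha_nil hb_nil hLa hLb hlam hTT c1 c2 hc1 hc2
  refine ⟨S, hS, fun c hc x b kk hx => ?_⟩
  rw [← hgdef] at hx
  let X0 : V := ⟨(x, b, kk), hx.bx, hx.bb, hx.bk, hx.rb, hx.rk⟩
  have hX0 : l0 X0 = c • l1 X0 := by
    have h1 : L0 g al (x, b, kk) = L1 g al (c • (x, b, kk)) := by
      rw [LL_iff]
      refine ⟨?_, fun r => ?_, fun r => ?_, fun r => ?_⟩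
      · have := hx.sum
        rw [Finset.sum_sub_distrib, sub_eq_zero] at this
        simpa using this
      · have := hx.arm r
        rw [mul_sub, sub_mul, sub_eq_zero] at this
        simpa using this
      · have := hx.eb r
        simpa [add_mul, smul_add] using this
      · have := hx.ek r
        simpa [mul_sub, smul_sub] using this
    rw [map_smul] at h1
    exact h1
  let Mm : Submodule K (V × V) := (RSS arm J B N W F p T Ψ π e).comap
    (Sy al ∘ₗ (V.subtype.prodMap V.subtype))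
  have hfin := htr c hc X0 hX0 Mm ?_
  · obtain ⟨m1, m2⟩ := hfin
    constructor
    · have h1 : RS arm J B N W F p T Ψ π e (fun r => x r + (0 : Matrix n n K)ᵀ)
        (-b + 0) (fun r => kk * al r - 0 * al r) := m1
      simpa using h1
    · have h1 : RS arm J B N W F p T Ψ π e (fun r => (0 : Matrix n n K) + (x r)ᵀ)
        (-0 + kk) (fun r => 0 * al r - b * al r) := m2
      simpa using h1
  -- FIRST
  rintro _ ⟨t, ht, rfl⟩ X' hX'
  obtain ⟨kap, kai, hp⟩ := h.par t ht
  obtain ⟨s, hs⟩ : ∃ s, s = algebraMap k K t := ⟨_, rfl⟩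
  rw [← hs] at hX' ⊢
  have hs0 : s ≠ 0 := by
    rw [hs]
    intro h0
    have : t = 0 := (algebraMap k K).injective (by rw [h0, map_zero])
    exact h.ne0 (this ▸ ht)
  have hkap : kap = 1 + s • tau := by rw [hs]; exact hp.kap_eq
  have hkapi : kap = (1 + s * lam i) • (1 : Matrix n n K) + s • Ni := by
    rw [hkap, hNi, smul_sub, add_smul, one_smul, smul_smul]; abel
  have hkapj : kap = (1 + s * lam j) • (1 : Matrix n n K) + s • Nj := by
    rw [hkap, hNj, smul_sub, add_smul, one_smul, smul_smul]; abel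
  have hc1o : ∀ X : V, ((c1 s X : V) : Tr n K) = opB kap X := by
    intro X
    rw [hkapi, opB_lin]; rfl
  have hc2o : ∀ X : V, ((c2 s X : V) : Tr n K) = opA kap X := by
    intro X
    rw [hkapj, opA_lin]; rfl
  -- the exact subspace
  let Et : Submodule K V := LinearMap.ker (l0 ∘ₗ (c1 s) ∘ₗ (c1 s) - l1 ∘ₗ (c2 s) ∘ₗ (c2 s))
  have hEt : ∀ X : V, X ∈ Et ↔ l0 (c1 s (c1 s X)) = l1 (c2 s (c2 s X)) := by
    intro X
    rw [LinearMap.mem_ker, LinearMap.sub_apply, sub_eq_zero]
    rfl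
  have ac1 : ∀ X, a (c1 s X) = c1 s (a X) := fun X => by
    rw [hc1, hc1, map_add, map_smul, map_smul]
    congr 2
    exact LinearMap.congr_fun hab X
  have ac2 : ∀ X, a (c2 s X) = c2 s (a X) := fun X => by
    rw [hc2, hc2, map_add, map_smul, map_smul]
  have bc1 : ∀ X, b' (c1 s X) = c1 s (b' X) := fun X => by
    rw [hc1, hc1, map_add, map_smul, map_smul]
  have bc2 : ∀ X, b' (c2 s X) = c2 s (b' X) := fun X => by
    rw [hc2, hc2, map_add, map_smul, map_smul]
    congr 2
    exact (LinearMap.congr_fun hab X).symm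
  have hEa : ∀ X ∈ Et, a X ∈ Et := by
    intro X hX
    rw [hEt] at hX ⊢
    rw [← ac1, ← ac1, ← ac2, ← ac2]
    exact hLa _ _ hX
  have hEb : ∀ X ∈ Et, b' X ∈ Et := by
    intro X hX
    rw [hEt] at hX ⊢
    rw [← bc1, ← bc1, ← bc2, ← bc2]
    exact hLb _ _ hX
  have hEc1 : ∀ X ∈ Et, c1 s X ∈ Et := fun X hX => by
    rw [hc1]; exact Et.add_mem (Et.smul_mem _ hX) (Et.smul_mem _ (hEb X hX))
  have hEc2 : ∀ X ∈ Et, c2 s X ∈ Et := fun X hX => by
    rw [hc2]; exact Et.add_mem (Et.smul_mem _ hX) (Et.smul_mem _ (hEa X hX))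
  -- `c2 - c1` is bijective on `Et`
  obtain ⟨X, hXE, hXd⟩ : ∃ X ∈ Et, c2 s X - c1 s X = -(c1 s (c2 s X')) :=
    solve hab ha_nil hb_nil hs0 hlam Et hEa hEb _
      (Et.neg_mem (hEc1 _ (hEc2 _ ((hEt X').2 hX'))))
  have hXE' := (hEt X).1 hXE
  -- `Dec` at `t`
  have hkal : ∀ r, kap * al r = al r * kap := fun r => by
    rw [hkap, add_mul, mul_add, smul_mul_assoc, mul_smul_comm, h.ctx.comm, one_mul, mul_one]
  have hkg : g * kap = kapᵀ * g := by
    rw [hkap, mul_add, transpose_add, add_mul, mul_smul_comm, transpose_smul, smul_mul_assoc, htg]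
    simp
  have hkk' : kap * kai = 1 := hp.mul
  have hkk'' : kai * kap = 1 := mul_eq_one_comm.1 hp.mul
  obtain ⟨XX, hXXm⟩ := X
  have hXX1 : L0 g al (opB kap (opB kap XX)) = L1 g al (opA kap (opA kap XX)) := by
    have h1 := hXE'
    have e1 : ((c1 s (c1 s ⟨XX, hXXm⟩) : V) : Tr n K) = opB kap (opB kap XX) := by
      rw [hc1o, hc1o]
    have e2 : ((c2 s (c2 s ⟨XX, hXXm⟩) : V) : Tr n K) = opA kap (opA kap XX) := by
      rw [hc2o, hc2o]
    rw [← e1, ← e2]
    exact h1
  have hdec : Dec g π e i j (fun r => al r * (kap * kap)) (fun r => al r * (kap * kap)) XX.1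
      XX.2.1 XX.2.2 := by
    obtain ⟨a1, a2, a3, a4, a5⟩ := hXXm
    rw [LL_iff] at hXX1
    simp only [opA_apply, opB_apply] at hXX1
    obtain ⟨b1, b2, b3, b4⟩ := hXX1
    have hPT : ∀ r, (al r * (kap * kap))ᵀ = kapᵀ * kapᵀ * (al r)ᵀ := fun r => by
      rw [transpose_mul, transpose_mul]
    have hQ : ∀ r, al r * (kap * kap) = (kap * kap) * al r := fun r => by
      rw [Matrix.mul_assoc, hkal, ← Matrix.mul_assoc kap, hkal, Matrix.mul_assoc]
    refine ⟨a1, a2, a3, a4, a5, ?_, fun r => ?_, fun r => ?_, fun r => ?_⟩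
    · rw [Finset.sum_sub_distrib, sub_eq_zero]
      have h1 : ∑ r, XX.1 r * (al r * (kap * kap))ᵀ = ∑ r, XX.1 r * kapᵀ * kapᵀ * (al r)ᵀ := by
        refine Finset.sum_congr rfl fun r _ => ?_
        rw [hPT]; simp only [Matrix.mul_assoc]
      rw [h1, b1]
      refine Finset.sum_congr rfl fun r _ => ?_
      simp only [Matrix.mul_assoc]
    · rw [mul_sub, sub_mul, sub_eq_zero]
      have h1 := b2 r
      rw [hPT]
      simp only [Matrix.mul_assoc] at h1 ⊢
      exact h1
    · have h1 := b3 r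
      simp only [transpose_mul, transpose_transpose] at h1
      have e1 : al r * (kap * kap) * (XX.2.1 + (XX.1 r)ᵀ * g) =
          al r * (kap * (kap * XX.2.1) + kap * (kap * (XX.1 r)ᵀ) * g) := by noncomm_ring
      have e2 : (XX.2.1 + (XX.1 r)ᵀ * g) * (al r * (kap * kap)) =
          (XX.2.1 * kap * kap + (XX.1 r)ᵀ * kapᵀ * kapᵀ * g) * al r := by
        have e3 : (XX.1 r)ᵀ * kapᵀ * kapᵀ * g = (XX.1 r)ᵀ * g * kap * kap := by
          calc _ = (XX.1 r)ᵀ * kapᵀ * (kapᵀ * g) := by simp only [Matrix.mul_assoc]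
            _ = (XX.1 r)ᵀ * kapᵀ * (g * kap) := by rw [hkg]
            _ = (XX.1 r)ᵀ * (kapᵀ * g) * kap := by simp only [Matrix.mul_assoc]
            _ = (XX.1 r)ᵀ * (g * kap) * kap := by rw [hkg]
            _ = _ := by simp only [Matrix.mul_assoc]
        rw [e3, hQ]
        simp only [Matrix.add_mul, Matrix.mul_assoc]
      rw [e1, e2]
      exact h1
    · have h1 := b4 r
      have e1 : (XX.2.2 - XX.1 r * g) * (al r * (kap * kap)) =
          (XX.2.2 * kap * kap - XX.1 r * kapᵀ * kapᵀ * g) * al r := by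
        have e3 : XX.1 r * kapᵀ * kapᵀ * g = XX.1 r * g * kap * kap := by
          calc _ = XX.1 r * kapᵀ * (kapᵀ * g) := by simp only [Matrix.mul_assoc]
            _ = XX.1 r * kapᵀ * (g * kap) := by rw [hkg]
            _ = XX.1 r * (kapᵀ * g) * kap := by simp only [Matrix.mul_assoc]
            _ = XX.1 r * (g * kap) * kap := by rw [hkg]
            _ = _ := by simp only [Matrix.mul_assoc]
        rw [e3, hQ]
        simp only [Matrix.sub_mul, Matrix.mul_assoc]
      have e2 : al r * (kap * kap) * (XX.2.2 - XX.1 r * g) =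
          al r * (kap * (kap * XX.2.2) - kap * (kap * XX.1 r) * g) := by noncomm_ring
      rw [e1, e2]
      exact h1
  rw [hgdef] at hdec
  have hRS := hfirst ht hp hdec
  -- identify
  have hd : opA kap XX - opB kap XX = -(opB kap (opA kap (X' : Tr n K))) := by
    have h1 := congrArg Subtype.val hXd
    have e1 : ((c2 s ⟨XX, hXXm⟩ - c1 s ⟨XX, hXXm⟩ : V) : Tr n K) = opA kap XX - opB kap XX := by
      rw [Submodule.coe_sub, hc2o, hc1o]
    have e2 : ((-(c1 s (c2 s X')) : V) : Tr n K) = -(opB kap (opA kap (X' : Tr n K))) := by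
      rw [Submodule.coe_neg, hc1o, hc2o]
    rw [← e1, ← e2]
    exact h1
  have hcom : kap * kai = kai * kap := by rw [hkk', hkk'']
  have hA1 : ∀ Z : Tr n K, opA kai (opA kap Z) = Z := fun Z => by
    rw [opA_mul _ _ _ hcom.symm, hkk'', opA_one]
  have hB1 : ∀ Z : Tr n K, opB kai (opB kap Z) = Z := fun Z => by
    rw [opB_mul _ _ _ hcom.symm, hkk'', opB_one]
  have hq1 : opA kai (opB kap XX) - XX = opB kap (X' : Tr n K) := by
    have h1 := congrArg (opA kai) hd
    rw [map_sub, map_neg, hA1, opA_opB kai kap (opA kap (X' : Tr n K)), hA1] at h1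
    rw [← neg_sub, h1, neg_neg]
  have hq2 : XX - opB kai (opA kap XX) = opA kap (X' : Tr n K) := by
    have h1 := congrArg (opB kai) hd
    rw [map_sub, map_neg, hB1, hB1] at h1
    rw [← neg_sub, h1, neg_neg]
  show Sy al (((c1 s X' : V) : Tr n K), ((c2 s X' : V) : Tr n K)) ∈ RSS arm J B N W F p T Ψ π e
  rw [hc1o, hc2o, ← hq1, ← hq2]
  have hval : Sy al (opA kai (opB kap XX) - XX, XX - opB kai (opA kap XX)) =
      ((fun r => kai * (XX.1 r - (XX.1 r)ᵀ) * kapᵀ - (XX.1 r - (XX.1 r)ᵀ),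
        (XX.2.1 - kap * XX.2.1 * kai) + (XX.2.2 - kap * XX.2.2 * kai),
        fun r => (kai * XX.2.1 * kap - XX.2.1) * al r + (kai * XX.2.2 * kap - XX.2.2) * al r) :
        (Fin 3 → Matrix n n K) × Matrix n n K × (Fin 3 → Matrix n n K)) := by
    refine Prod.ext ?_ (Prod.ext ?_ ?_)
    · funext r
      simp only [Sy, LinearMap.coe_mk, AddHom.coe_mk, opA_apply, opB_apply, Prod.fst_sub,
        Pi.sub_apply, transpose_sub, transpose_mul, transpose_transpose]
      noncomm_ring
    · simp only [Sy, LinearMap.coe_mk, AddHom.coe_mk, opA_apply, opB_apply, Prod.fst_sub,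
        Prod.snd_sub]
      noncomm_ring
    · funext r
      simp only [Sy, LinearMap.coe_mk, AddHom.coe_mk, opA_apply, opB_apply, Prod.fst_sub,
        Prod.snd_sub]
      noncomm_ring
  rw [hval]
  exact hRS

/-- **RD2 (halves)**, in the form of the skeleton -/
theorem halves [CharZero K] (h : Fr k arm J B N W F G p al tau β T Ψ D π e lam l TT)
    {i j : m} (hij : i ≠ j) (hf : FirstP k arm J B N W F G p al tau T Ψ π e TT i j) :
    HalvesP arm J B N W F p al T Ψ π e i j :=
  halves_of h hij fun {t} ht {kap kai} hp {x b kk} hx => hf t ht kap kai hp x b kk hx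

end RSS

end Crest.Agent.R172.RDh267
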