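import Crest.Agent.R172.RD0

/-!
Row 172 (S0260), (T0), any radical, any `D`: filtered operators (`FO`) for the final assembly:
closure properties used for the off-diagonal part of the second derivative.
-/

set_option autoImplicit false
set_option linter.unusedSectionVars false

namespace Crest.Agent.R172.RDfo

open Matrix Module Crest.Agent.R172.FO Crest.Agent.R172.FrmB Crest.Agent.R172.ZFr
  Crest.Agent.R172.RD
open Crest.Agent.R172.ZP (ZZ)

variable {n : Type*} [Fintype n] [DecidableEq n]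
variable {k K : Type*} [Field k] [Field K] [Algebra k K]
variable {M : Type*} [AddCommGroup M] [Module K M]
variable {β : LinearMap.BilinForm K M} {T : End K M →ₗ[K] End K M} {π : (n → K) →ₗ[K] M}
  {g : Matrix n n K} {Ψ : Fin 3 → End K M} {al : Fin 3 → Matrix n n K} {s : Fin 3}

/-- `Z` descends to an operator of the core which preserves the flag of `Ψ s` -/
def FO (π : (n → K) →ₗ[K] M) (Ψ : Fin 3 → End K M) (s : Fin 3) (Z : Matrix n n K) : Prop :=
  ∃ zb : End K M, Lifts π Z zb ∧ ∀ (a : ℕ) v, ∃ v', zb ((Ψ s ^ a) v) = (Ψ s ^ a) v'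

theorem fil_iff {y : Matrix n n K} : Fil g π Ψ s y ↔ FO π Ψ s (y * g) := by
  constructor
  · rintro ⟨yb, h1, h2⟩
    exact ⟨yb, fun u => by rw [← Matrix.mulVec_mulVec, h1], h2⟩
  · rintro ⟨yb, h1, h2⟩
    exact ⟨yb, fun u => by rw [Matrix.mulVec_mulVec, h1], h2⟩

namespace FO

variable {Z Z' : Matrix n n K}

theorem add (h : FO π Ψ s Z) (h' : FO π Ψ s Z') : FO π Ψ s (Z + Z') := by
  obtain ⟨z, h1, h2⟩ := h
  obtain ⟨z', h1', h2'⟩ := h'
  refine ⟨z + z', h1.add h1', fun a v => ?_⟩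
  obtain ⟨u, hu⟩ := h2 a v
  obtain ⟨u', hu'⟩ := h2' a v
  exact ⟨u + u', by rw [LinearMap.add_apply, hu, hu', map_add]⟩

theorem smul (c : K) (h : FO π Ψ s Z) : FO π Ψ s (c • Z) := by
  obtain ⟨z, h1, h2⟩ := h
  refine ⟨c • z, h1.smul c, fun a v => ?_⟩
  obtain ⟨u, hu⟩ := h2 a v
  exact ⟨c • u, by rw [LinearMap.smul_apply, hu, map_smul]⟩

theorem neg (h : FO π Ψ s Z) : FO π Ψ s (-Z) := by
  have := h.smul (-1)
  rwa [neg_one_smul] at this

theorem sub (h : FO π Ψ s Z) (h' : FO π Ψ s Z') : FO π Ψ s (Z - Z') := by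
  rw [sub_eq_add_neg]; exact h.add h'.neg

theorem mul (h : FO π Ψ s Z) (h' : FO π Ψ s Z') : FO π Ψ s (Z * Z') := by
  obtain ⟨z, h1, h2⟩ := h
  obtain ⟨z', h1', h2'⟩ := h'
  refine ⟨z * z', h1.mul h1', fun a v => ?_⟩
  obtain ⟨u', hu'⟩ := h2' a v
  obtain ⟨u, hu⟩ := h2 a u'
  exact ⟨u, by rw [Module.End.mul_apply, hu', hu]⟩

end FO

theorem ZZ_pow {h : ℕ → End K M} (h7 : ∀ j (r : Fin 3), h (j + 2) * Ψ r = Ψ r * h j) (s : Fin 3)
    (a j : ℕ) : h (j + 2 * a) * Ψ s ^ a = Ψ s ^ a * h j := by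
  induction a with
  | zero => simp
  | succ a ih =>
    have e : j + 2 * (a + 1) = (j + 2 * a) + 2 := by ring
    rw [e, pow_succ', ← mul_assoc, h7, mul_assoc, ih, ← mul_assoc, ← pow_succ']

theorem T_pow (h : Adj β T) (hsa : T (Ψ s) = Ψ s) (a : ℕ) : T (Ψ s ^ a) = Ψ s ^ a := by
  induction a with
  | zero => rw [pow_zero, h.one]
  | succ a ih => rw [pow_succ, h.mul, ih, hsa, ← pow_succ', ← pow_succ]

/-- both the core part and its adjoint are filtered -/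
theorem zz_fil (h : Adj β T) (hsa : T (Ψ s) = Ψ s) {zb : End K M} (hz : T zb ∈ ZZ T 1 0 Ψ) :
    (∀ (a : ℕ) v, ∃ v', zb ((Ψ s ^ a) v) = (Ψ s ^ a) v') ∧
    ∀ (a : ℕ) v, ∃ v', T zb ((Ψ s ^ a) v) = (Ψ s ^ a) v' := by
  obtain ⟨u, -, -, -, -, h5, h6, h7⟩ := hz
  rw [h.TT] at h5
  have e1 : ∀ a, zb * Ψ s ^ a = Ψ s ^ a * T (u (1 + 2 * a)) := by
    intro a
    have h1 := congrArg T (ZZ_pow h7 s a 1)
    rw [h.mul, h.mul, T_pow h hsa, h6, h.TT] at h1
    exact h1.symm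
  have e2 : ∀ a, T zb * Ψ s ^ a = Ψ s ^ a * T (u (0 + 2 * a)) := by
    intro a
    have h1 := congrArg T (ZZ_pow h7 s a 0)
    rw [h.mul, h.mul, T_pow h hsa, h5] at h1
    exact h1.symm
  refine ⟨fun a v => ⟨T (u (1 + 2 * a)) v, ?_⟩, fun a v => ⟨T (u (0 + 2 * a)) v, ?_⟩⟩
  · have := LinearMap.congr_fun (e1 a) v
    simpa only [Module.End.mul_apply] using this
  · have := LinearMap.congr_fun (e2 a) v
    simpa only [Module.End.mul_apply] using this

theorem FO.of_ZF (h : Adj β T) (hsa : T (Ψ s) = Ψ s) {z : Matrix n n K} (hz : z ∈ ZF T π Ψ) :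
    FO π Ψ s z := by
  obtain ⟨zb, h1, h2⟩ := hz
  exact ⟨zb, h1, (zz_fil h hsa h2).1⟩

/-- lift of `y zᵀ g` -/
theorem lifts_adj (h : CF β T π g) {y z : Matrix n n K} {yb zb : End K M}
    (hy : Lifts π (y * g) yb) (hz : Lifts π z zb) : Lifts π (y * zᵀ * g) (yb * T zb) := by
  intro u
  obtain ⟨u', hu'⟩ := h.surj (T zb (π u))
  have h1 : g *ᵥ u' = (zᵀ * g) *ᵥ u := by
    rw [← sub_eq_zero]
    apply dotProduct_eq_zero
    intro w
    rw [dotProduct_comm, dotProduct_sub, ← h.form, hu', h.adj.symm, h.adj.adj, ← hz,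
      h.adj.symm, h.form, ← Matrix.mulVec_mulVec, Matrix.dotProduct_mulVec w,
      Matrix.vecMul_transpose, sub_self]
  rw [Matrix.mul_assoc, ← Matrix.mulVec_mulVec, ← h1, Matrix.mulVec_mulVec, hy, hu',
    Module.End.mul_apply]

theorem FO.adj_mul (h : CF β T π g) (hsa : T (Ψ s) = Ψ s) {y z : Matrix n n K}
    (hy : FO π Ψ s (y * g)) (hz : z ∈ ZF T π Ψ) : FO π Ψ s (y * zᵀ * g) := by
  obtain ⟨yb, y1, y2⟩ := hy
  obtain ⟨zb, z1, z2⟩ := hz
  refine ⟨yb * T zb, lifts_adj h y1 z1, fun a v => ?_⟩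
  obtain ⟨v1, hv1⟩ := (zz_fil h.adj hsa z2).2 a v
  obtain ⟨v2, hv2⟩ := y2 a v1
  exact ⟨v2, by rw [Module.End.mul_apply, hv1, hv2]⟩

/-- an exact arm is filtered, and so is its transpose -/
theorem FO.arm (h : CF β T π g) (hg : gᵀ = g) (hsa : T (Ψ s) = Ψ s)
    (hΨ : Lifts π (al s) (Ψ s)) (hga : g * al s = (al s)ᵀ * g) {x : Matrix n n K} {c : K}
    (hc : c ≠ 0) (hx : g * (x * (al s)ᵀ - c • (al s * x)) * g = 0) :
    FO π Ψ s (x * g) ∧ FO π Ψ s (xᵀ * g) := by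
  obtain ⟨xb, hxb⟩ := h.exists_lift (z := x * g) (N := g * x) (by rw [Matrix.mul_assoc])
  obtain ⟨xt, hxt⟩ := h.exists_lift (z := xᵀ * g) (N := g * xᵀ) (by rw [Matrix.mul_assoc])
  have hT : T xb = xt := h.T_eq hxb hxt (by
    rw [transpose_mul, hg, Matrix.mul_assoc])
  have r1 : xb * Ψ s = c • (Ψ s * xb) := by
    refine h.eq_of_gram (hxb.mul hΨ) ((hΨ.mul hxb).smul c) ?_
    rw [Matrix.mul_sub, Matrix.sub_mul, sub_eq_zero] at hx
    calc g * (x * g * al s) = g * (x * (g * al s)) := by simp only [Matrix.mul_assoc]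
      _ = g * (x * (al s)ᵀ) * g := by rw [hga]; simp only [Matrix.mul_assoc]
      _ = g * (c • (al s * x)) * g := hx
      _ = g * c • (al s * (x * g)) := by
        rw [Matrix.mul_smul, Matrix.smul_mul, Matrix.mul_smul]
        simp only [Matrix.mul_assoc]
  have r2 : xt * Ψ s = c⁻¹ • (Ψ s * xt) := by
    have h1 := congrArg T r1
    rw [h.adj.mul, map_smul, h.adj.mul, hsa, hT] at h1
    rw [h1, smul_smul, inv_mul_cancel₀ hc, one_smul]
  have key : ∀ (z : End K M) (c : K), z * Ψ s = c • (Ψ s * z) → ∀ (a : ℕ) v,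
      ∃ v', z ((Ψ s ^ a) v) = (Ψ s ^ a) v' := by
    intro z c hz a
    induction a with
    | zero => intro v; exact ⟨z v, by simp⟩
    | succ a ih =>
      intro v
      obtain ⟨v', hv'⟩ := ih v
      refine ⟨c • v', ?_⟩
      rw [pow_succ', Module.End.mul_apply, ← Module.End.mul_apply z, hz, LinearMap.smul_apply,
        Module.End.mul_apply, hv', Module.End.mul_apply, map_smul, map_smul]
  exact ⟨⟨xb, hxb, key xb c r1⟩, ⟨xt, hxt, key xt _ r2⟩⟩

/-- the covariant derivative of a filtered operator is filtered -/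
theorem FO.nab (h : CF β T π g) (hsa : T (Ψ s) = Ψ s) {d : Derivation k K K} {P : Matrix n n K}
    (hg : g.map d = Pᵀ * g + g * P) (hΨ : ∀ r, Lifts π (al r) (Ψ r)) {zY : Matrix n n K}
    (hv : ∀ r, g * ((al r).map d + P * al r - al r * P) = zYᵀ * g * al r + g * al r * zY)
    (hzY : zY ∈ ZF T π Ψ) {Z : Matrix n n K} (hZ : FO π Ψ s Z) :
    FO π Ψ s (Z.map d + P * Z - Z * P) := by
  obtain ⟨yb, y1, y2⟩ := hzY
  obtain ⟨zb, z1, z2⟩ := hZ
  obtain ⟨f1, f2⟩ := zz_fil h.adj hsa y2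
  have hdΨ : (h.conn hg).dE (Ψ s) = T yb * Ψ s + Ψ s * yb := by
    apply h.adj.ext
    intro x y
    obtain ⟨x, rfl⟩ := h.surj x
    obtain ⟨y, rfl⟩ := h.surj y
    have e1 := h.lifts_dE hg (hΨ s)
    rw [h.adj.symm, ← e1, h.form, Matrix.mulVec_mulVec, hv, LinearMap.add_apply,
      Module.End.mul_apply, Module.End.mul_apply, map_add, LinearMap.add_apply, h.adj.adj,
      ← y1, ← y1, ← hΨ, ← hΨ, h.adj.symm (π (al s *ᵥ x)), h.form,
      h.adj.symm (π (al s *ᵥ (zY *ᵥ x))), h.form, Matrix.add_mulVec, dotProduct_add]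
    congr 1
    · rw [Matrix.mul_assoc, ← Matrix.mulVec_mulVec, Matrix.dotProduct_mulVec,
        Matrix.vecMul_transpose, Matrix.mulVec_mulVec]
    · simp only [Matrix.mulVec_mulVec, Matrix.mul_assoc]
  have hnb : ∀ (a : ℕ) v, ∃ v', h.nb d P ((Ψ s ^ a) v) = (Ψ s ^ a) v' := by
    intro a
    induction a with
    | zero => intro v; exact ⟨h.nb d P v, by simp⟩
    | succ a ih =>
      intro v
      obtain ⟨v1, hv1⟩ := f2 (a + 1) v
      obtain ⟨v2, hv2⟩ := f1 a v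
      obtain ⟨v3, hv3⟩ := ih v
      refine ⟨v1 + v2 + v3, ?_⟩
      have e1 := LinearMap.congr_fun hdΨ ((Ψ s ^ a) v)
      rw [Conn.dE_apply, LinearMap.add_apply, Module.End.mul_apply, Module.End.mul_apply,
        sub_eq_iff_eq_add] at e1
      have e2 : (Ψ s ^ (a + 1)) v = Ψ s ((Ψ s ^ a) v) := by
        rw [pow_succ', Module.End.mul_apply]
      rw [e2, e1, hv2, hv3, ← e2, hv1, map_add, map_add]
      simp only [pow_succ', Module.End.mul_apply]
  refine ⟨(h.conn hg).dE zb, h.lifts_dE hg z1, fun a v => ?_⟩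
  obtain ⟨v1, hv1⟩ := z2 a v
  obtain ⟨v2, hv2⟩ := hnb a v1
  obtain ⟨v3, hv3⟩ := hnb a v
  obtain ⟨v4, hv4⟩ := z2 a v3
  exact ⟨v2 - v4, by rw [Conn.dE_apply, hv1, hv2, hv3, hv4, map_sub]⟩

/-- the block idempotents are filtered -/
theorem FO.idem (h : CF β T π g) (hΨ : Lifts π (al s) (Ψ s)) {e : Matrix n n K}
    (heg : eᵀ * g = g * e) (heal : e * al s = al s * e) : FO π Ψ s e := by
  obtain ⟨eb, hb⟩ := h.exists_lift heg.symm
  refine ⟨eb, hb, fun a v => ⟨eb v, ?_⟩⟩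
  have hc : Commute eb (Ψ s) := by
    change eb * Ψ s = Ψ s * eb
    refine Lifts.unique h.surj (hb.mul hΨ) ?_
    rw [heal]
    exact hΨ.mul hb
  have := LinearMap.congr_fun (hc.pow_right a).eq v
  simpa only [Module.End.mul_apply] using this

end Crest.Agent.R172.RDfo
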