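import Crest.Agent.R172.RDP
import Crest.Agent.R172.RDfo
import Crest.Agent.R172.BConn895

/-!
Row 172 (S0260), (T0), any radical, any `D`: `second` of the skeleton (second copy).
-/

set_option autoImplicit false
set_option linter.unusedSectionVars false

namespace Crest.Agent.R172.RDsec898

open Matrix Module Crest.Agent.R172.FO Crest.Agent.R172.FrmB Crest.Agent.R172.ZFr
  Crest.Agent.R172.RD Crest.Agent.R172.RDfo
open Crest.Agent.R172.ZP (ZZ)

variable {ι : Type*} [Fintype ι] [DecidableEq ι] {δ : Type*} [Fintype δ] [DecidableEq δ]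
variable {n : Type*} [Fintype n] [DecidableEq n]
variable {k K : Type*} [Field k] [Field K] [Algebra k K]
variable {M : Type*} [AddCommGroup M] [Module K M]
variable {m : Type*} [Fintype m] [DecidableEq m]

section off

variable {e : m → Matrix n n K}

theorem off_add (A A' : Matrix n n K) : off e (A + A') = off e A + off e A' := by
  simp only [off, Matrix.mul_add, Matrix.add_mul, Finset.sum_add_distrib]
  abel

theorem off_sub (A A' : Matrix n n K) : off e (A - A') = off e A - off e A' := by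
  simp only [off, Matrix.mul_sub, Matrix.sub_mul, Finset.sum_sub_distrib]
  abel

theorem off_block (orth : ∀ i j, i ≠ j → e i * e j = 0) {a b : m} (hab : a ≠ b)
    (A : Matrix n n K) : e a * off e A * e b = e a * A * e b := by
  unfold off
  rw [Matrix.mul_sub, Matrix.sub_mul, sub_eq_self, Matrix.mul_sum, Matrix.sum_mul]
  refine Finset.sum_eq_zero fun l _ => ?_
  by_cases h : a = l
  · subst h
    rw [Matrix.mul_assoc, Matrix.mul_assoc (e a * A), orth a b hab, Matrix.mul_zero,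
      Matrix.mul_zero]
  · rw [← Matrix.mul_assoc, ← Matrix.mul_assoc, orth a l h, Matrix.zero_mul, Matrix.zero_mul,
      Matrix.zero_mul]

/-- `A e_i = e_i A e_i + off(A) e_i` -/
theorem mul_e (idem : ∀ i, e i * e i = e i) (orth : ∀ i j, i ≠ j → e i * e j = 0) (i : m)
    (A : Matrix n n K) : A * e i = e i * A * e i + off e A * e i := by
  have h1 : (∑ l, e l * A * e l) * e i = e i * A * e i := by
    rw [Matrix.sum_mul, Finset.sum_eq_single i]
    · rw [Matrix.mul_assoc _ (e i) (e i), idem]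
    · intro l _ hl
      rw [Matrix.mul_assoc _ (e l) (e i), orth l i hl, Matrix.mul_zero]
    · intro h; exact absurd (Finset.mem_univ i) h
  unfold off
  rw [Matrix.sub_mul, h1]
  abel

end off

variable {arm : δ → Fin 3} {J : Matrix ι ι K} {B : Matrix δ δ K}
  {N W : Submodule K (Matrix ι δ K)} {F G : Matrix ι δ K} {p : Matrix ι n K}
  {al : Fin 3 → Matrix n n K} {tau : Matrix n n K}
  {β : LinearMap.BilinForm K M} {T : Module.End K M →ₗ[K] Module.End K M}
  {Ψ : Fin 3 → Module.End K M} {D : Module.End K M} {π : (n → K) →ₗ[K] M}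
  {e : m → Matrix n n K} {lam : m → K} {l : Fin 3 → ℕ} {TT : Set k}

theorem cf (h : Fr k arm J B N W F G p al tau β T Ψ D π e lam l TT) :
    CF β T π (pᵀ * J * p) where
  adj := ⟨h.cr.ns.symm, h.cr.ns.nd, h.cr.adj⟩
  surj := h.cr.onto
  form := h.cr.form

theorem lifts_al (h : Fr k arm J B N W F G p al tau β T Ψ D π e lam l TT) (r : Fin 3) :
    Lifts π (al r) (Ψ r) := fun y => (h.cr.op r y).symm

theorem T_Psi (h : Fr k arm J B N W F G p al tau β T Ψ D π e lam l TT) (r : Fin 3) :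
    T (Ψ r) = Ψ r := (cf h).adj.eq_of fun x y => h.cr.sa r x y

theorem g_symm (h : Fr k arm J B N W F G p al tau β T Ψ D π e lam l TT) :
    (pᵀ * J * p)ᵀ = pᵀ * J * p := by
  rw [transpose_mul, transpose_mul, transpose_transpose, h.ctx.data.J_symm, Matrix.mul_assoc]

theorem g_al_aux {g a : Matrix n n K} {P : End K M}
    (hform : ∀ y y', β (π y) (π y') = y ⬝ᵥ (g *ᵥ y')) (hop : ∀ y, P (π y) = π (a *ᵥ y))
    (hsa : ∀ x y, β (P x) y = β x (P y)) : g * a = aᵀ * g := by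
  have h1 : ∀ y y' : n → K, y ⬝ᵥ ((g * a) *ᵥ y') = y ⬝ᵥ ((aᵀ * g) *ᵥ y') := by
    intro y y'
    rw [← Matrix.mulVec_mulVec, ← Matrix.mulVec_mulVec, Matrix.dotProduct_mulVec y aᵀ,
      Matrix.vecMul_transpose, ← hform, ← hform, ← hop, ← hop, hsa]
  refine Matrix.ext_of_mulVec_single fun i => ?_
  rw [← sub_eq_zero]
  apply dotProduct_eq_zero
  intro w
  rw [dotProduct_comm, dotProduct_sub, h1, sub_self]

theorem g_al (h : Fr k arm J B N W F G p al tau β T Ψ D π e lam l TT) (r : Fin 3) :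
    (pᵀ * J * p) * al r = (al r)ᵀ * (pᵀ * J * p) :=
  g_al_aux h.cr.form (h.cr.op r) (h.cr.sa r)

/-- the radical in matrix form -/
theorem g_mul_zero (h : Fr k arm J B N W F G p al tau β T Ψ D π e lam l TT) {b : Matrix n n K}
    (hb : ∀ u, π (b *ᵥ u) = 0) : (pᵀ * J * p) * b = 0 := by
  refine Matrix.ext_of_mulVec_single fun i => ?_
  rw [← Matrix.mulVec_mulVec, Matrix.zero_mulVec]
  exact ((cf h).ker _).1 (hb _)

/-- off-diagonal operators commuting with `al` modulo the radical are radical valued -/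
theorem hom0 (h : Fr k arm J B N W F G p al tau β T Ψ D π e lam l TT) (a b : m) (hab : a ≠ b)
    (z : Matrix n n K) (hz : e a * z * e b = z)
    (hk : ∀ y : n → K, (pᵀ * J * p) *ᵥ y = 0 → (pᵀ * J * p) *ᵥ (z *ᵥ y) = 0)
    (hc : ∀ r, (pᵀ * J * p) * (z * al r - al r * z) = 0) : (pᵀ * J * p) * z = 0 := by
  have hcf := cf h
  have hle : LinearMap.ker π ≤ LinearMap.ker (π ∘ₗ Matrix.toLin' z) := by
    intro y hy
    rw [LinearMap.mem_ker] at hy ⊢
    rw [LinearMap.comp_apply, Matrix.toLin'_apply, hcf.ker]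
    exact hk y ((hcf.ker y).1 hy)
  obtain ⟨A, hA⟩ : ∃ A : End K M, Lifts π z A := by
    refine ⟨((LinearMap.ker π).liftQ (π ∘ₗ Matrix.toLin' z) hle) ∘ₗ
      (π.quotKerEquivOfSurjective hcf.surj).symm.toLinearMap, fun y => ?_⟩
    have h1 : (π.quotKerEquivOfSurjective hcf.surj).symm (π y) = (LinearMap.ker π).mkQ y := by
      rw [LinearEquiv.symm_apply_eq]
      rfl
    rw [LinearMap.comp_apply, LinearEquiv.coe_coe, h1]
    rfl
  have hAc : ∀ s, A * Ψ s = Ψ s * A := by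
    intro s
    refine hcf.eq_of_gram (hA.mul (lifts_al h s)) ((lifts_al h s).mul hA) ?_
    rw [← sub_eq_zero, ← Matrix.mul_sub]
    exact hc s
  have h0 := h.hom 0 (Or.inr rfl) A (fun s x => by
    have h1 := LinearMap.congr_fun (hAc s) x
    simpa [map_zero] using h1) b a (Ne.symm hab)
  have hzb : z * e b = z := by
    conv_lhs => rw [← hz]
    rw [Matrix.mul_assoc, h.idem, hz]
  have hza : e a * z = z := by
    conv_lhs => rw [← hz]
    rw [← Matrix.mul_assoc, ← Matrix.mul_assoc, h.idem, hz]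
  refine Matrix.ext_of_mulVec_single fun i => ?_
  rw [Matrix.zero_mulVec]
  apply dotProduct_eq_zero
  intro w
  rw [dotProduct_comm]
  calc w ⬝ᵥ (((pᵀ * J * p) * z) *ᵥ Pi.single i 1)
      = w ⬝ᵥ (((pᵀ * J * p) * (e a * (z * e b))) *ᵥ Pi.single i 1) := by rw [hzb, hza]
    _ = (e a *ᵥ w) ⬝ᵥ ((pᵀ * J * p) *ᵥ (z *ᵥ (e b *ᵥ Pi.single i 1))) := by
        rw [← Matrix.mul_assoc, ← h.eg, Matrix.mul_assoc, ← Matrix.mulVec_mulVec,
          Matrix.dotProduct_mulVec w, Matrix.vecMul_transpose]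
        simp only [Matrix.mulVec_mulVec, Matrix.mul_assoc]
    _ = β (π (e a *ᵥ w)) (A (π (e b *ᵥ Pi.single i 1))) := by rw [← h.cr.form, hA]
    _ = 0 := by rw [h.cr.ns.symm]; exact h0 _ _

/-- derivative of `Φ_r(F)` on the frame -/
theorem phi_der (hD : Data k arm J B N W) (hal : ∀ r, Phi arm J B F r * p = p * al r)
    {wY : Matrix ι δ K} {zY : Matrix n n K} (hval : wYᵀ * J * p = Fᵀ * J * p * zY)
    {μ : Fin 3 → Matrix n n K} (hμ : ∀ r, wY * E K arm r * B * (Fᵀ * J * p) = p * μ r)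
    {d : Derivation k K K} (hdF : F.map d = wY) (r : Fin 3) :
    (Phi arm J B F r).map d * p = p * (μ r + al r * zY) := by
  have e1 : (Phi arm J B F r).map d * p =
      wY * E K arm r * B * (Fᵀ * J * p) + F * E K arm r * B * (wYᵀ * J * p) := by
    unfold Phi M
    rw [map_mul_der, map_mul_der, map_mul_der, map_mul_der, hD.J_const, hD.B_const, E_map_der,
      map_transpose_der, hdF]
    simp only [Matrix.mul_zero, Matrix.add_mul, add_zero, Matrix.mul_assoc]
  have e2 : F * E K arm r * B * (Fᵀ * J * p * zY) = Phi arm J B F r * p * zY := by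
    unfold Phi M
    simp only [Matrix.mul_assoc]
  rw [e1, hμ, hval, e2, hal, Matrix.mul_add, Matrix.mul_assoc]

/-- **the block identity** -/
theorem block_id {e : m → Matrix n n K} (idem : ∀ i, e i * e i = e i)
    (orth : ∀ i j, i ≠ j → e i * e j = 0) {i j : m} (hij : i ≠ j) {d : Derivation k K K}
    (eC : ∀ i, (e i).map d = 0) {g : Matrix n n K} (eg : ∀ i, (e i)ᵀ * g = g * e i)
    {Dg b kk b' zY z3 x y : Matrix n n K} (hDg : ∀ i, e i * Dg = Dg * e i)
    (hx : e j * x * (e i)ᵀ = x) (hy : e j * y * (e i)ᵀ = y) (hb : e i * b * e j = b)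
    (hkk : e j * kk * e i = kk) (hb' : e i * b' * e j = b')
    (hzY : off e zY = -b - kk) (hz3 : off e z3 = -b') :
    y.map d + (Dg + (b + kk)) * y + y * (Dg + (b + kk))ᵀ + y * zYᵀ - (x - xᵀ) * g * y +
        (x - xᵀ) * z3ᵀ =
      (b * y + xᵀ * g * y + xᵀ * b'ᵀ) +
        e j * (y.map d + (Dg + (b + kk)) * y + y * (Dg + (b + kk))ᵀ + y * zYᵀ + x * z3ᵀ) * (e i)ᵀ
        - e i * (xᵀ * z3ᵀ) * (e j)ᵀ := by
  have hji : j ≠ i := Ne.symm hij
  -- one sided identities
  have lx : e j * x = x := by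
    conv_lhs => rw [← hx]
    rw [← Matrix.mul_assoc, ← Matrix.mul_assoc, idem, hx]
  have rx : x * (e i)ᵀ = x := by
    conv_lhs => rw [← hx]
    rw [Matrix.mul_assoc, ← transpose_mul, idem, hx]
  have ly : e j * y = y := by
    conv_lhs => rw [← hy]
    rw [← Matrix.mul_assoc, ← Matrix.mul_assoc, idem, hy]
  have ry : y * (e i)ᵀ = y := by
    conv_lhs => rw [← hy]
    rw [Matrix.mul_assoc, ← transpose_mul, idem, hy]
  have lxT : e i * xᵀ = xᵀ := by
    have := congrArg transpose rx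
    rwa [transpose_mul, transpose_transpose] at this
  have rxT : xᵀ * (e j)ᵀ = xᵀ := by
    have := congrArg transpose lx
    rwa [transpose_mul] at this
  have ejb : e j * b = 0 := by
    rw [← hb, ← Matrix.mul_assoc, ← Matrix.mul_assoc, orth j i hji, Matrix.zero_mul,
      Matrix.zero_mul]
  have bei : b * e i = 0 := by
    rw [← hb, Matrix.mul_assoc, orth j i hji, Matrix.mul_zero]
  have b'ei : b' * e i = 0 := by
    rw [← hb', Matrix.mul_assoc, orth j i hji, Matrix.mul_zero]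
  have b'ej : b' * e j = b' := by
    conv_lhs => rw [← hb']
    rw [Matrix.mul_assoc, idem, hb']
  have kei : kk * e i = kk := by
    conv_lhs => rw [← hkk]
    rw [Matrix.mul_assoc, idem, hkk]
  have kej : kk * e j = 0 := by
    rw [← hkk, Matrix.mul_assoc, orth i j hij, Matrix.mul_zero]
  have ky : kk * y = 0 := by
    rw [← ly, ← Matrix.mul_assoc, kej, Matrix.zero_mul]
  have eik : e i * kk = 0 := by
    rw [← hkk, ← Matrix.mul_assoc, ← Matrix.mul_assoc, orth i j hij, Matrix.zero_mul,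
      Matrix.zero_mul]
  -- (1)
  have q1 : e j * y.map d * (e i)ᵀ = y.map d := by
    have h1 := congrArg (fun A : Matrix n n K => A.map d) hy
    have h2 : ((e i)ᵀ).map d = 0 := by
      rw [map_transpose_der, eC, transpose_zero]
    simp only [map_mul_der, eC, h2, Matrix.zero_mul, Matrix.mul_zero, zero_add, add_zero] at h1
    exact h1
  -- (2)
  have q2 : (Dg + (b + kk)) * y = e j * ((Dg + (b + kk)) * y) * (e i)ᵀ + b * y := by
    have h1 : e j * ((Dg + (b + kk)) * y) * (e i)ᵀ = Dg * y := by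
      rw [Matrix.mul_assoc, Matrix.mul_assoc (Dg + (b + kk)), ry, Matrix.add_mul, Matrix.add_mul,
        ky, add_zero, Matrix.mul_add, ← Matrix.mul_assoc (e j) b, ejb, Matrix.zero_mul, add_zero,
        ← Matrix.mul_assoc, hDg, Matrix.mul_assoc, ly]
    rw [h1, Matrix.add_mul, Matrix.add_mul, ky, add_zero]
  -- (3)
  have q3 : y * (Dg + (b + kk))ᵀ = e j * (y * (Dg + (b + kk))ᵀ) * (e i)ᵀ + y * kkᵀ := by
    have h0 : y * bᵀ = 0 := by
      rw [← ry, Matrix.mul_assoc, ← transpose_mul, bei, transpose_zero, Matrix.mul_zero]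
    have h1 : e j * (y * (Dg + (b + kk))ᵀ) * (e i)ᵀ = y * Dgᵀ := by
      rw [← Matrix.mul_assoc (e j), ly, Matrix.mul_assoc, ← transpose_mul, Matrix.mul_add,
        Matrix.mul_add, eik, add_zero, hDg, transpose_add, transpose_mul, transpose_mul,
        Matrix.mul_add, ← Matrix.mul_assoc, ← Matrix.mul_assoc, ry, h0, Matrix.zero_mul,
        add_zero]
    rw [h1, transpose_add, transpose_add, Matrix.mul_add, Matrix.mul_add, h0, zero_add]
  -- (4)
  have q4 : y * zYᵀ = e j * (y * zYᵀ) * (e i)ᵀ - y * kkᵀ := by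
    have h1 : zY * e i = e i * zY * e i - kk := by
      rw [mul_e idem orth i zY, hzY, Matrix.sub_mul, Matrix.neg_mul, bei, kei, neg_zero, zero_sub,
        ← sub_eq_add_neg]
    have h2 : y * zYᵀ = y * (zY * e i)ᵀ := by
      rw [transpose_mul, ← Matrix.mul_assoc, ry]
    have h3 : e j * (y * zYᵀ) * (e i)ᵀ = y * (e i * zY * e i)ᵀ := by
      rw [← Matrix.mul_assoc (e j), ly, transpose_mul, transpose_mul, ← Matrix.mul_assoc,
        ← Matrix.mul_assoc, ry]
    rw [h3, h2, h1, transpose_sub, Matrix.mul_sub]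
  -- (5)
  have q5 : (x - xᵀ) * g * y = -(xᵀ * g * y) := by
    have h1 : x * g * y = 0 := by
      calc x * g * y = (x * (e i)ᵀ) * g * (e j * y) := by rw [rx, ly]
        _ = x * (((e i)ᵀ * g) * (e j * y)) := by simp only [Matrix.mul_assoc]
        _ = x * (g * ((e i * e j) * y)) := by rw [eg]; simp only [Matrix.mul_assoc]
        _ = 0 := by
          rw [orth i j hij, Matrix.zero_mul, Matrix.mul_zero, Matrix.mul_zero]
    rw [Matrix.sub_mul, Matrix.sub_mul, h1, zero_sub]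
  -- (6)
  have q6 : x * z3ᵀ = e j * (x * z3ᵀ) * (e i)ᵀ := by
    have h1 : z3 * e i = e i * z3 * e i := by
      rw [mul_e idem orth i z3, hz3, Matrix.neg_mul, b'ei, neg_zero, add_zero]
    have h2 : x * z3ᵀ = x * (z3 * e i)ᵀ := by
      rw [transpose_mul, ← Matrix.mul_assoc, rx]
    have h3 : e j * (x * z3ᵀ) * (e i)ᵀ = x * (e i * z3 * e i)ᵀ := by
      rw [← Matrix.mul_assoc (e j), lx, transpose_mul, transpose_mul, ← Matrix.mul_assoc,
        ← Matrix.mul_assoc, rx]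
    rw [h3, h2, h1]
  have q7 : xᵀ * z3ᵀ = e i * (xᵀ * z3ᵀ) * (e j)ᵀ - xᵀ * b'ᵀ := by
    have h1 : z3 * e j = e j * z3 * e j - b' := by
      rw [mul_e idem orth j z3, hz3, Matrix.neg_mul, b'ej, ← sub_eq_add_neg]
    have h2 : xᵀ * z3ᵀ = xᵀ * (z3 * e j)ᵀ := by
      rw [transpose_mul, ← Matrix.mul_assoc, rxT]
    have h3 : e i * (xᵀ * z3ᵀ) * (e j)ᵀ = xᵀ * (e j * z3 * e j)ᵀ := by
      rw [← Matrix.mul_assoc (e i), lxT, transpose_mul, transpose_mul, ← Matrix.mul_assoc,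
        ← Matrix.mul_assoc, rxT]
    rw [h3, h2, h1, transpose_sub, Matrix.mul_sub]
  have q8 : e j * (y.map d + (Dg + (b + kk)) * y + y * (Dg + (b + kk))ᵀ + y * zYᵀ + x * z3ᵀ) *
      (e i)ᵀ = e j * y.map d * (e i)ᵀ + e j * ((Dg + (b + kk)) * y) * (e i)ᵀ +
        e j * (y * (Dg + (b + kk))ᵀ) * (e i)ᵀ + e j * (y * zYᵀ) * (e i)ᵀ +
        e j * (x * z3ᵀ) * (e i)ᵀ := by
    simp only [Matrix.mul_add, Matrix.add_mul, Matrix.mul_assoc]
  have q9 : (x - xᵀ) * z3ᵀ = x * z3ᵀ - xᵀ * z3ᵀ := Matrix.sub_mul _ _ _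
  rw [q8, q1, q9, q5]
  generalize e j * ((Dg + (b + kk)) * y) * (e i)ᵀ = A2 at *
  generalize e j * (y * (Dg + (b + kk))ᵀ) * (e i)ᵀ = A3 at *
  generalize e j * (y * zYᵀ) * (e i)ᵀ = A4 at *
  generalize e j * (x * z3ᵀ) * (e i)ᵀ = A6 at *
  generalize e i * (xᵀ * z3ᵀ) * (e j)ᵀ = A7 at *
  rw [q2, q3, q4, q6, q7]
  abel

/-- **`second`** -/
theorem second (h : Fr k arm J B N W F G p al tau β T Ψ D π e lam l TT) {i j : m}
    (hij : i ≠ j) (hod : ∀ i j, i ≠ j → OffP arm J N W F p T Ψ π e i j) :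
    SecondP arm J B N W F p al T Ψ π e i j := by
  intro c c' hc hc' x y b kk b' kk' hx hy ⟨w1, z1, μ1, w1W, w1N, v1, m1, zf1, oz1, om1⟩
    ⟨w2, z2, μ2, w2W, w2N, v2, m2, zf2, oz2, om2⟩ ⟨w3, z3, μ3, w3W, w3N, v3, m3, zf3, oz3, om3⟩
  have hcf := cf h
  have hYs : ∀ r, (x r - (x r)ᵀ)ᵀ = -(x r - (x r)ᵀ) := by
    intro r
    rw [transpose_sub, transpose_transpose, neg_sub]
  have hval : (w1 - w2)ᵀ * J * p = Fᵀ * J * p * (z1 - z2) := by
    rw [transpose_sub, Matrix.sub_mul, Matrix.sub_mul, v1, v2, ← Matrix.mul_sub]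
  have hμ : ∀ r, (w1 - w2) * E K arm r * B * (Fᵀ * J * p) = p * (μ1 r - μ2 r) := by
    intro r
    rw [Matrix.sub_mul, Matrix.sub_mul, Matrix.sub_mul, m1, m2, ← Matrix.mul_sub]
  have hQY : Q3 arm J B N W F p (fun r => x r - (x r)ᵀ) (w1 - w2) (z1 - z2) := by
    refine ⟨W.sub_mem w1W w2W, ?_, hval, fun r => ⟨_, hμ r⟩⟩
    rw [io_sub]
    have e1 : io arm J F p x - io arm J F p (fun r => (x r)ᵀ) - (w1 - w2) =
        (io arm J F p x - w1) - (io arm J F p (fun r => (x r)ᵀ) - w2) := by abel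
    rw [e1]
    exact N.sub_mem w1N w2N
  obtain ⟨d, hd, hdF⟩ := FrmB.exists_D h.ctx.data h.vt hYs hQY
  obtain ⟨ρ, hρ⟩ := h.ctx.perf
  obtain ⟨m0, hm0⟩ := h.wk
  obtain ⟨θ0, hθ0⟩ := FrmB.persist_Q h.ctx.data h.ctx.hal hρ hm0 hQY hdF
  have hcr := phi_der h.ctx.data h.ctx.hal hval hμ hdF
  have hzYo : off e (z1 - z2) = -b - kk := by rw [off_sub, oz1, oz2]
  have hμo : ∀ r, off e (μ1 r - μ2 r) = (b + kk) * al r := by
    intro r
    rw [off_sub, om1, om2, sub_neg_eq_add, Matrix.add_mul, add_comm]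
  have hblk : ∀ i' j', i' ≠ j' → ∀ r, e i' * ((b + kk) * al r - al r * (b + kk)) * e j' =
      e i' * ((μ1 r - μ2 r) + al r * (z1 - z2)) * e j' := by
    intro i' j' hij' r
    have h1 : e i' * (μ1 r - μ2 r) * e j' = e i' * ((b + kk) * al r) * e j' := by
      rw [← off_block h.orth hij', hμo]
    have h2 : e i' * (al r * (z1 - z2)) * e j' = -(e i' * (al r * (b + kk)) * e j') := by
      rw [← Matrix.mul_assoc (e i') (al r) (z1 - z2), h.eal, Matrix.mul_assoc (al r),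
        Matrix.mul_assoc (al r), ← off_block h.orth hij', hzYo,
        ← Matrix.mul_assoc (e i') (al r) (b + kk), h.eal, Matrix.mul_assoc (al r),
        Matrix.mul_assoc (al r)]
      have : -b - kk = -(b + kk) := by abel
      rw [this, Matrix.mul_neg, Matrix.neg_mul, Matrix.mul_neg]
    rw [Matrix.mul_add (e i') (μ1 r - μ2 r), Matrix.add_mul (e i' * (μ1 r - μ2 r)), h1, h2,
      Matrix.mul_sub (e i'), Matrix.sub_mul (e i' * _), sub_eq_add_neg]
  have hC0 : (pᵀ * J * p) * (b + kk) = 0 := by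
    rw [Matrix.mul_add, g_mul_zero h hx.rb, g_mul_zero h hx.rk, add_zero]
  have hcR : ∀ i' j', i' ≠ j' → ∀ r, (pᵀ * J * p) *
      (e i' * ((μ1 r - μ2 r) + al r * (z1 - z2)) * e j') = 0 := by
    intro i' j' hij' r
    have key := hblk i' j' hij' r
    have hg1 := h.eg i'
    have hg2 := g_al h r
    revert key hg1 hg2 hC0
    generalize (pᵀ * J * p) = g
    intro hC0 key hg1 hg2
    rw [← key, ← Matrix.mul_assoc, ← Matrix.mul_assoc, ← hg1, Matrix.mul_assoc _ g,
      Matrix.mul_sub, ← Matrix.mul_assoc g, ← Matrix.mul_assoc g, hC0, hg2,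
      Matrix.mul_assoc _ g, hC0, Matrix.zero_mul, Matrix.mul_zero, sub_zero, Matrix.mul_zero,
      Matrix.zero_mul]
  have hge : ∀ i, (pᵀ * J * p) * e i = (e i)ᵀ * (pᵀ * J * p) := fun i => (h.eg i).symm
  have hθR := BConn.offdiag_zero (h.ctx.data.J_const d) h.ctx.hal h.eal h.idem h.orth
    (fun i => h.eC i d) hge hθ0 hcr hcR (fun a b hab z hz hk hcc => hom0 h a b hab z hz hk hcc)
  obtain ⟨mk, hmk⟩ := h.kill
  obtain ⟨Dg, hDg, hpd⟩ := BConn.exists_conn h.ctx.hal hρ h.eal h.idem h.orth h.sumE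
    (fun i => h.eC i d) hge hθ0 hcr hC0 hblk hθR (m := mk) (fun w hw Y hY => by
      have h1 : (w.map al).prod * Y = 0 := by
        refine Matrix.ext_of_mulVec_single fun i => ?_
        rw [← Matrix.mulVec_mulVec, Matrix.zero_mulVec]
        refine hmk w hw _ ((hcf.ker _).2 ?_)
        rw [Matrix.mulVec_mulVec, hY, Matrix.zero_mulVec]
      rw [h1, Matrix.mul_zero])
  have hQ3 : Q3 arm J B N W F p y w3 z3 := ⟨w3W, w3N, v3, fun r => ⟨_, m3 r⟩⟩
  have hs := FrmB.second h.ctx.data hQY hd hdF hpd hQ3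
  have zfY : z1 - z2 ∈ ZF T π Ψ := (ZF T π Ψ).sub_mem zf1 zf2
  obtain ⟨zb, hzb1, hzb2⟩ := ZFr.second h.ctx.data hcf h.ctx.hal (lifts_al h) hval hdF hpd zfY zf3
  have hy'' := RDEnd.mem_Rel_of_Q3 (T := T) (D := (0 : End K M)) (Ψ := Ψ) hs hzb1 hzb2
  -- filtered operators
  have hgd : (pᵀ * J * p).map d = (Dg + (b + kk))ᵀ * (pᵀ * J * p) +
      (pᵀ * J * p) * (Dg + (b + kk)) := g_der h.ctx.data hpd
  have hadr := fun r => al_der h.ctx.data h.ctx.hal hval hdF hpd r
  have hjx : ∀ s, FO π Ψ s (x s * (pᵀ * J * p)) ∧ FO π Ψ s ((x s)ᵀ * (pᵀ * J * p)) := by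
    intro s
    refine FO.arm hcf (g_symm h) (T_Psi h s) (lifts_al h s) (g_al h s) hc ?_
    have h1 := hx.arm s
    rwa [Matrix.smul_mul] at h1
  have hjy : ∀ s, FO π Ψ s (y s * (pᵀ * J * p)) := by
    intro s
    refine (FO.arm hcf (g_symm h) (T_Psi h s) (lifts_al h s) (g_al h s) hc' ?_).1
    have h1 := hy.arm s
    rwa [Matrix.smul_mul] at h1
  have hei : ∀ i s, FO π Ψ s (e i) := fun i s =>
    FO.idem hcf (lifts_al h s) (h.eg i) (h.eal i s)
  have hA : ∀ s, FO π Ψ s ((((y s).map d + (Dg + (b + kk)) * y s + y s * (Dg + (b + kk))ᵀ) +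
      y s * (z1 - z2)ᵀ + x s * z3ᵀ) * (pᵀ * J * p)) := by
    intro s
    have h1 := FO.nab hcf (T_Psi h s) hgd (lifts_al h) hadr zfY (hjy s)
    have h2 := FO.adj_mul hcf (T_Psi h s) (hjy s) zfY
    have h3 := FO.adj_mul hcf (T_Psi h s) (hjx s).1 zf3
    have h4 := (h1.add h2).add h3
    have e1 : ((((y s).map d + (Dg + (b + kk)) * y s + y s * (Dg + (b + kk))ᵀ) +
      y s * (z1 - z2)ᵀ + x s * z3ᵀ) * (pᵀ * J * p)) =
      (y s * (pᵀ * J * p)).map d + (Dg + (b + kk)) * (y s * (pᵀ * J * p)) -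
        (y s * (pᵀ * J * p)) * (Dg + (b + kk)) + y s * (z1 - z2)ᵀ * (pᵀ * J * p) +
        x s * z3ᵀ * (pᵀ * J * p) := by
      rw [map_mul_der, hgd]
      generalize (pᵀ * J * p) = g
      generalize (Dg + (b + kk)) = P
      simp only [Matrix.add_mul, Matrix.mul_add, Matrix.mul_assoc]
      abel
    rw [e1]
    exact h4
  have hcut : ∀ (s : Fin 3) (i' j' : m) (A : Matrix n n K), FO π Ψ s (A * (pᵀ * J * p)) →
      Fil (pᵀ * J * p) π Ψ s (e j' * A * (e i')ᵀ) := by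
    intro s i' j' A hFA
    rw [fil_iff]
    have e1 : e j' * A * (e i')ᵀ * (pᵀ * J * p) = e j' * (A * (pᵀ * J * p)) * e i' := by
      rw [Matrix.mul_assoc, h.eg i']
      generalize (pᵀ * J * p) = g
      simp only [Matrix.mul_assoc]
    rw [e1]
    exact ((hei j' s).mul hFA).mul (hei i' s)
  have hcutb : ∀ (i' j' : m) (A : Matrix n n K),
      e j' * (e j' * A * (e i')ᵀ) * (e i')ᵀ = e j' * A * (e i')ᵀ := by
    intro i' j' A
    have h1 : (e i')ᵀ * (e i')ᵀ = (e i')ᵀ := by rw [← transpose_mul, h.idem]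
    have h2 : e j' * (e j' * A * (e i')ᵀ) * (e i')ᵀ = (e j' * e j') * A * ((e i')ᵀ * (e i')ᵀ) := by
      simp only [Matrix.mul_assoc]
    rw [h2, h1, h.idem]
  have hO1 : ∀ s, (Pi.single s (e j * (((y s).map d + (Dg + (b + kk)) * y s +
      y s * (Dg + (b + kk))ᵀ) + y s * (z1 - z2)ᵀ + x s * z3ᵀ) * (e i)ᵀ) :
      Fin 3 → Matrix n n K) ∈ RDEnd.Rel arm J N W F p π T 0 Ψ := fun s =>
    hod i j hij s _ (hcutb i j _) (hcut s i j _ (hA s))
  have hO2 : ∀ s, (Pi.single s (e i * ((x s)ᵀ * z3ᵀ) * (e j)ᵀ) :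
      Fin 3 → Matrix n n K) ∈ RDEnd.Rel arm J N W F p π T 0 Ψ := fun s =>
    hod j i (Ne.symm hij) s _ (hcutb j i _)
      (hcut s j i _ (FO.adj_mul hcf (T_Psi h s) (hjx s).2 zf3))
  have hS1 := (RDEnd.Rel arm J N W F p π T 0 Ψ).sum_mem (t := Finset.univ) fun s _ => hO1 s
  have hS2 := (RDEnd.Rel arm J N W F p π T 0 Ψ).sum_mem (t := Finset.univ) fun s _ => hO2 s
  rw [Finset.univ_sum_single] at hS1 hS2
  have hfin := Submodule.add_mem _ (Submodule.sub_mem _ hy'' hS1) hS2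
  convert hfin using 1
  funext r
  have hid := block_id (k := k) h.idem h.orth hij (fun i => h.eC i d) (g := pᵀ * J * p) h.eg hDg
    (hx.bx r) (hy.bx r) hx.bb hx.bk hy.bb hzYo oz3
  simp only [Pi.add_apply, Pi.sub_apply]
  rw [hid]
  abel

end Crest.Agent.R172.RDsec898
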