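import Crest.Agent.R172.RDGlue2
import Crest.Agent.R172.RDF1
import Crest.Agent.R172.RDhalves267
import Crest.Agent.R172.RDdiag795
import Crest.Agent.R172.RDsec898

/-!
Row 172 (S0260), `RD`: the five statements, and `FalseFr`.
-/

set_option autoImplicit false

namespace Crest.Agent.R172.RDFive267

open Crest.Agent.R172.RD

theorem five : Five where
  first := RDF1.five_first
  halves h i j hij hf := RDh267.halves h hij hf
  off h _ _ _ i j hij hh := RD795.offdiag h hij hh
  second h i j hij ho := RDsec898.second h hij ho
  diag h _ _ _ i j hij hh hs := RD795.diag h hij hh hs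

theorem falseFr : FalseFr := falseFr_of_five five

theorem inT00 (hE : ExFr) : Ind.InT00 := inT00_of_fr hE falseFr

end Crest.Agent.R172.RDFive267
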