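import Crest.Agent.R172.FC1
import Crest.Agent.R172.Cov1
import Crest.Agent.R172.CovF
import Crest.Agent.R172.CoreP3
import Crest.Agent.R172.Pt
import Crest.Agent.R172.N5b
import Crest.Agent.R172.RGen

/-!
Row 172, TAME (T0), arbitrary radical, arbitrary `τ`: from `TameAt F G C τ` to the cover, the frame
`FC.Ctx` and the parameters `FC.Par`.
-/

set_option autoImplicit false
set_option linter.unusedSectionVars false
set_option maxHeartbeats 400000

namespace Crest.Agent.R172.RDFr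

open Module Matrix LinearMap Crest.AlgebraR.SpinSaturation Crest.Agent.R172.SoGrade
  Crest.Agent.R172.CF
open Crest.Agent.R172.Gen (Jm Ix emb Ent ent)
open Crest.Agent.R172.ThX Crest.Agent.R172.CSys
open Crest.Agent.R172.Core (NS cp BM Tame)
open Crest.Agent.R172.CP (pM PP)
open Crest.Agent.R172.N5 (Ph)

variable {n : ℕ} {a : Fin 3 → Fin n → ℤ} {c : Cfg n a} {K : Type} [Field K] [Algebra ℂ K]
variable {N W : Submodule K (Matrix (Ix n) c.δ K)} {F G : Matrix (Ix n) c.δ K}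
variable {C : St.Core (BV n K) (Ph F)} {τ : Module.End K C.M}

/-- `Fᵀ J` as a map -/
noncomputable abbrev stm (F : Matrix (Ix n) c.δ K) : (Ix n → K) →ₗ[K] (c.δ → K) :=
  (Fᵀ * Jm n K).mulVecLin

theorem Ph_sa (hD : FO.Data ℂ c.arm (Jm n K) (c.B K) N W) (hF : F ∈ N ⊓ W) (s : Fin 3) :
    St.Sa (BV n K) (Ph F s) := N5.Ph_sa hD hF s

theorem kill_of_Fs {v : Ix n → K} (h : (Fᵀ * Jm n K) *ᵥ v = 0) (s : Fin 3) : Ph F s v = 0 := by
  rw [N5.Ph_apply]
  have e : FO.Phi c.arm (Jm n K) (c.B K) F s = F * FO.E K c.arm s * c.B K * (Fᵀ * Jm n K) := by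
    rw [CovF.Phi_def']; simp only [Matrix.mul_assoc]
  rw [e, ← mulVec_mulVec, h, mulVec_zero]

theorem mem_T_of_kill {v : Ix n → K} (h : ∀ s, Ph F s v = 0) : v ∈ St.T (Ph F) := by
  refine St.mem_T.2 ⟨1, ?_⟩
  rw [St.mem_Nk_succ]
  intro s
  rw [h s]
  exact Submodule.zero_mem _

theorem PP_top (hD : FO.Data ℂ c.arm (Jm n K) (c.B K) N W) (hF : F ∈ N ⊓ W) :
    PP C ⊤ = St.Tp (BV n K) (Ph F) := by
  refine le_antisymm CP.PP_le_Tp ?_
  exact CP.le_PP le_rfl (fun _ _ => Submodule.mem_top)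
    (CP.Tp_le_Ax BV_ns (Ph_sa hD hF))

/-- the correspondence on `Tp` and `τ` -/
theorem rel_pM (hD : FO.Data ℂ c.arm (Jm n K) (c.B K) N W) (hF : F ∈ N ⊓ W) (hG : G ∈ N ⊓ W)
    (hT : TameAt F G C τ) {v w : Ix n → K} (hv : v ∈ St.Tp (BV n K) (Ph F))
    (hw : w ∈ St.Tp (BV n K) (Ph F)) (h : (Gᵀ * Jm n K) *ᵥ v = (Fᵀ * Jm n K) *ᵥ w) :
    pM C w = τ (pM C v) := by
  rw [← PP_top (C := C) hD hF] at hv
  obtain ⟨d, hd, h1, h2⟩ := CP.exists_D_mat hD hF hG hT.comm hT.rel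
    (Mi := ⊤) (fun _ _ _ => Submodule.mem_top) (fun _ _ => Submodule.mem_top) hv
  rw [← h2]
  have hdT : d ∈ St.Tp (BV n K) (Ph F) := CP.PP_le_Tp hd
  have h3 : (Fᵀ * Jm n K) *ᵥ (w - d) = 0 := by
    rw [mulVec_sub, ← h, h1, sub_self]
  have h4 : w - d ∈ St.T (Ph F) := mem_T_of_kill fun s => kill_of_Fs h3 s
  have h5 : pM C (w - d) = 0 := (CP.pM_eq_zero C (Submodule.sub_mem _ hw hdT)).2 h4
  rwa [map_sub, sub_eq_zero] at h5

theorem exists_rel (hD : FO.Data ℂ c.arm (Jm n K) (c.B K) N W) (hF : F ∈ N ⊓ W) (hG : G ∈ N ⊓ W)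
    (hT : TameAt F G C τ) {v : Ix n → K} (hv : v ∈ St.Tp (BV n K) (Ph F)) :
    ∃ w ∈ St.Tp (BV n K) (Ph F), (Gᵀ * Jm n K) *ᵥ v = (Fᵀ * Jm n K) *ᵥ w := by
  rw [← PP_top (C := C) hD hF] at hv
  obtain ⟨d, hd, h1, -⟩ := CP.exists_D_mat hD hF hG hT.comm hT.rel
    (Mi := ⊤) (fun _ _ _ => Submodule.mem_top) (fun _ _ => Submodule.mem_top) hv
  exact ⟨d, CP.PP_le_Tp hd, h1⟩

/-- **the frame data (module form)** -/
structure Fr (N W : Submodule K (Matrix (Ix n) c.δ K)) (F G : Matrix (Ix n) c.δ K)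
    (C : St.Core (BV n K) (Ph F)) (τ : Module.End K C.M)
    {U : Type} [AddCommGroup U] [Module K U]
    (A : Fin 3 → End K U) (D : End K U) (π : U →ₗ[K] (Ix n → K)) (q : U →ₗ[K] C.M) : Prop where
  comm : ∀ s y, A s (D y) = D (A s y)
  sum : ∑ s, A s = 0
  perf : ⨆ s, range (A s) = ⊤
  piA : ∀ s y, π (A s y) = Ph F s (π y)
  rel : ∀ y, (Gᵀ * Jm n K) *ᵥ (π y) = (Fᵀ * Jm n K) *ᵥ (π (D y))
  rng : range π = St.Tp (BV n K) (Ph F)
  q_coe : ∀ y, (q y : Ix n → K) = C.π (π y)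
  qA : ∀ s y, q (A s y) = cp C (Ph F s) (q y)
  qD : ∀ y, q (D y) = τ (q y)
  qsurj : Function.Surjective q
  form : ∀ y y', BV n K (π y) (π y') = BM C (q y) (q y')
  words : ∃ m, ∀ w : List (Fin 3), w.length = m → ∀ y, q y = 0 → (w.map A).prod y = 0
  faith : ∀ y, (∀ j, π ((D ^ j) y) = 0) → y = 0

theorem words_T (F : Matrix (Ix n) c.δ K) : ∃ m, ∀ w : List (Fin 3), w.length = m →
    ∀ v ∈ St.T (Ph F), (w.map (Ph F)).prod v = 0 := by
  obtain ⟨m, hm⟩ := St.T_eq_Nk (Ph F)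
  refine ⟨m, fun w hw v hv => ?_⟩
  rw [hm] at hv
  exact Core.mem_Nk_iff.1 hv w hw

theorem exists_fr (hD : FO.Data ℂ c.arm (Jm n K) (c.B K) N W) (hF : F ∈ N ⊓ W) (hG : G ∈ N ⊓ W)
    (hT : TameAt F G C τ) (hsum : ∀ v, ∑ s, Ph F s v = 0) :
    ∃ (U : Type) (_ : AddCommGroup U) (_ : Module K U) (_ : FiniteDimensional K U)
      (A : Fin 3 → End K U) (D : End K U) (π : U →ₗ[K] (Ix n → K)) (q : U →ₗ[K] C.M),
      Fr N W F G C τ A D π q := by
  have hΦ := Ph_sa hD hF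
  obtain ⟨U, hU⟩ := Cov.exists_cover (K := K) (V := Ix n → K) (L := c.δ → K) (Φ := Ph F)
    (P := St.Tp (BV n K) (Ph F)) (R := St.Tp (BV n K) (Ph F) ⊓ St.T (Ph F))
    (Fs := stm F) (Gs := stm G)
    (fun s p hp => CP.Φ_Tp hΦ s hp)
    (CP.Tp_le_Ax BV_ns hΦ)
    (fun p hp => exists_rel (C := C) (τ := τ) hD hF hG hT hp)
    (fun s p _ q _ h => by
      have h1 := CovF.move hD hF hG s (p := p) (p' := q) h
      rw [N5.Ph_apply, N5.Ph_apply]
      exact h1)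
    (fun p hp q hq h => by
      refine ⟨hq, ?_⟩
      have h1 := rel_pM hD hF hG hT hp.1 hq h
      rw [(CP.pM_eq_zero C hp.1).2 hp.2, map_zero] at h1
      exact (CP.pM_eq_zero C hq).1 h1)
  have := hU.fin
  have hTp : ∀ y : U, hU.pi y ∈ St.Tp (BV n K) (Ph F) := fun y => hU.pi_mem y
  refine ⟨U, inferInstance, inferInstance, hU.fin, hU.al, hU.tau, hU.pi, pM C ∘ₗ hU.pi, ?_⟩
  refine ⟨fun s y => hU.al_tau s y, ?_, hU.sup_range, fun s y => hU.pi_al s y, ?_, hU.range_pi,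
    fun y => rfl, ?_, ?_, ?_, ?_, ?_, ?_⟩
  · ext1 y
    rw [LinearMap.sum_apply, LinearMap.zero_apply]
    exact hU.sum_al hsum y
  · intro y
    exact hU.rel_pi y
  · intro s y
    rw [LinearMap.comp_apply, LinearMap.comp_apply, hU.pi_al]
    exact CP.pM_Φ hΦ C s (hTp y)
  · intro y
    exact rel_pM hD hF hG hT (hTp y) (hTp _) (hU.rel_pi y)
  · intro m
    have h1 : (m : Ix n → K) ∈ range hU.pi := by rw [hU.range_pi]; exact C.le _ m.2
    obtain ⟨y, hy⟩ := h1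
    refine ⟨y, ?_⟩
    rw [LinearMap.comp_apply, hy, CP.pM_self]
  · intro y y'
    exact CP.form_eq (fun u v => BV_ns.symm u v) C (hTp y) (hTp y')
  · obtain ⟨m, hm⟩ := words_T F
    refine ⟨m, fun w hw y hy => ?_⟩
    refine hU.words_kill (m := m) (fun w hw r hr => hm w hw r hr.2) w hw ?_
    rw [hU.mem_Rt]
    exact ⟨hTp y, (CP.pM_eq_zero C (hTp y)).1 hy⟩
  · intro y hy
    apply Subtype.ext
    funext j
    have h1 : ∀ j, ((hU.tau ^ j) y : ℕ → Ix n → K) 0 = (y : ℕ → Ix n → K) j := by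
      intro j
      induction j generalizing y with
      | zero => rfl
      | succ j ih =>
        rw [pow_succ, Module.End.mul_apply]
        rw [ih (hU.tau y) (fun i => by
          have := hy (i + 1)
          rwa [pow_succ, Module.End.mul_apply] at this)]
        rfl
    rw [← h1 j]
    exact hy j

end Crest.Agent.R172.RDFr
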