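import Crest.Agent.R172.RD0
import Crest.Agent.R172.AsmIn

/-!
Row 172 (S0260), node R-AsmIn: from the frame `RD.Fr` to `Ind.InT00`.
-/

set_option autoImplicit false
set_option linter.unusedSectionVars false

namespace Crest.Agent.R172.RD

open Module Matrix Crest.AlgebraR.SpinSaturation Crest.Agent.R172.SoGrade Crest.Agent.R172.CF
open Crest.Agent.R172.Gen (Jm Ix emb Ent ent)
open Crest.Agent.R172.ThX Crest.Agent.R172.CSys
open Crest.Agent.R172.Ind

/-- **exists_fr**: the frame of the universal cover exists -/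
def ExFr : Prop :=
  ∀ (n : ℕ) (a : Fin 3 → Fin n → ℤ) (c : Cfg n a) (K : Type) [Field K] [Algebra ℂ K]
    [IsAlgClosed K] [CharZero K] (N W : Submodule K (Matrix (Ix n) c.δ K)),
    FO.Data ℂ c.arm (Jm n K) (c.B K) N W →
    (∀ H ∈ N ⊓ W, ∃ k, ∀ s, MM (pU c K) (adjU c K) (Matrix.toLin' H) (Matrix.toLin' H) s ^ k
      = 0) →
    (∀ H ∈ N ⊓ W, ∀ v, ∑ s, MM (pU c K) (adjU c K) (Matrix.toLin' H) (Matrix.toLin' H) s v = 0) →
    Om.Kiso (Jm n K) N W = ⊥ →
    ∀ F G : Matrix (Ix n) c.δ K, FO.GenOver ℂ c.arm N W F G →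
    ∀ (C : St.Core (BV n K) (MM (pU c K) (adjU c K) (Matrix.toLin' F) (Matrix.toLin' F)))
      (τ : Module.End K C.M), TameAt F G C τ →
    ∃ (n0 : Type) (_ : Fintype n0) (_ : DecidableEq n0) (m : Type) (_ : Fintype m)
      (_ : DecidableEq m) (p : Matrix (Ix n) n0 K) (al : Fin 3 → Matrix n0 n0 K)
      (tau : Matrix n0 n0 K) (T : Module.End K C.M →ₗ[K] Module.End K C.M)
      (π : (n0 → K) →ₗ[K] C.M) (e : m → Matrix n0 n0 K) (lam : m → K) (l : Fin 3 → ℕ)
      (TT : Set ℂ),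
      Fr ℂ c.arm (Jm n K) (c.B K) N W F G p al tau (Core.BM C) T
        (fun s => Core.cp C (MM (pU c K) (adjU c K) (Matrix.toLin' F) (Matrix.toLin' F) s)) τ π e
        lam l TT

/-- **false_of_fr** at the type of the final assembly -/
def FalseFr : Prop :=
  ∀ {ι δ n m : Type} [Fintype ι] [DecidableEq ι] [Fintype δ] [DecidableEq δ] [Fintype n]
    [DecidableEq n] [Fintype m] [DecidableEq m] {K M : Type} [Field K] [Algebra ℂ K] [CharZero K]
    [AddCommGroup M] [Module K M] [FiniteDimensional K M] {arm : δ → Fin 3} {J : Matrix ι ι K}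
    {B : Matrix δ δ K} {N W : Submodule K (Matrix ι δ K)} {F G : Matrix ι δ K}
    {p : Matrix ι n K} {al : Fin 3 → Matrix n n K} {tau : Matrix n n K}
    {β : LinearMap.BilinForm K M} {T : Module.End K M →ₗ[K] Module.End K M}
    {Ψ : Fin 3 → Module.End K M} {D : Module.End K M} {π : (n → K) →ₗ[K] M}
    {e : m → Matrix n n K} {lam : m → K} {l : Fin 3 → ℕ} {TT : Set ℂ},
    Fr ℂ arm J B N W F G p al tau β T Ψ D π e lam l TT →
    (∀ s v, D (Ψ s v) = Ψ s (D v)) → ⨆ ν, D.maxGenEigenspace ν = ⊤ → Core.Tame Ψ D → False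

/-- **(T00)** from the frame -/
theorem inT00_of_fr (hE : ExFr) (hF : FalseFr) : InT00 := by
  refine AsmIn.inT00_of ?_
  intro n a c K _ _ _ _ N W hD hnil hsum hK F G hG C τ hT
  obtain ⟨n0, i1, i2, m, i3, i4, p, al, tau, T, π, e, lam, l, TT, h⟩ :=
    hE n a c K N W hD hnil hsum hK F G hG C τ hT
  exact hF h (fun s v => hT.comm s v) (Module.End.iSup_maxGenEigenspace_eq_top τ) hT.tame

end Crest.Agent.R172.RD
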