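import Crest.Agent.R172.RDP

/-!
Row 172 (S0260), (T0), any radical, any `D`: the END of the skeleton `RD0` (lemma RD6).

`RF47.false_of_fr`: the END from the off-diagonal memberships `OffP` (RD4) and the diagonal ones
`DiagP` (RD5).
-/

set_option autoImplicit false
set_option linter.unusedSectionVars false

namespace Crest.Agent.R172.RD

open Matrix Module TensorProduct Crest.Agent.R172.FO Crest.Agent.R172.FrmB
open Crest.Agent.R172.Core (NS Tame)
open Crest.Agent.R172.PL (Wk)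

variable {ι : Type*} [Fintype ι] [DecidableEq ι] {δ : Type*} [Fintype δ] [DecidableEq δ]
variable {n : Type*} [Fintype n] [DecidableEq n]
variable {k K : Type*} [Field k] [Field K] [Algebra k K]
variable {M : Type*} [AddCommGroup M] [Module K M]
variable {m : Type*} [Fintype m] [DecidableEq m]

section lemmas

variable {arm : δ → Fin 3} {J : Matrix ι ι K} {B : Matrix δ δ K}
  {N W : Submodule K (Matrix ι δ K)} {F G : Matrix ι δ K} {p : Matrix ι n K}
  {al : Fin 3 → Matrix n n K} {tau : Matrix n n K}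
  {β : LinearMap.BilinForm K M} {T : Module.End K M →ₗ[K] Module.End K M}
  {Ψ : Fin 3 → Module.End K M} {D : Module.End K M} {π : (n → K) →ₗ[K] M}
  {e : m → Matrix n n K} {lam : m → K} {l : Fin 3 → ℕ} {TT : Set k}

namespace RF47

theorem sum_e [CharZero K] (h : Fr k arm J B N W F G p al tau β T Ψ D π e lam l TT)
    (x : n → K) : x = ∑ i, e i *ᵥ x := by
  rw [← Matrix.sum_mulVec, h.sumE, Matrix.one_mulVec]

theorem g_ker [CharZero K] (h : Fr k arm J B N W F G p al tau β T Ψ D π e lam l TT)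
    {x : n → K} (hx : π x = 0) : (pᵀ * J * p) *ᵥ x = 0 := by
  have hy : ∀ y : n → K, y ⬝ᵥ ((pᵀ * J * p) *ᵥ x) = 0 := by
    intro y
    rw [← h.cr.form, hx, map_zero]
  funext i
  have := hy (Pi.single i 1)
  rwa [single_one_dotProduct] at this

theorem ker_g [CharZero K] (h : Fr k arm J B N W F G p al tau β T Ψ D π e lam l TT)
    {x : n → K} (hx : (pᵀ * J * p) *ᵥ x = 0) : π x = 0 := by
  apply h.cr.ns.nd
  intro w
  obtain ⟨y, rfl⟩ := h.cr.onto w
  rw [h.cr.ns.symm, h.cr.form, hx, dotProduct_zero]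

theorem e_ker [CharZero K] (h : Fr k arm J B N W F G p al tau β T Ψ D π e lam l TT)
    {x : n → K} (hx : π x = 0) (i : m) : π (e i *ᵥ x) = 0 := by
  apply ker_g h
  rw [mulVec_mulVec, ← h.eg, ← mulVec_mulVec, g_ker h hx, mulVec_zero]

theorem pow_op [CharZero K] (h : Fr k arm J B N W F G p al tau β T Ψ D π e lam l TT)
    (s : Fin 3) (a : ℕ) (x : n → K) : π ((al s ^ a) *ᵥ x) = (Ψ s ^ a) (π x) := by
  induction a with
  | zero => simp
  | succ a ih =>
    rw [pow_succ', ← mulVec_mulVec, ← h.cr.op, ih, pow_succ']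
    rfl

theorem pow_e [CharZero K] (h : Fr k arm J B N W F G p al tau β T Ψ D π e lam l TT)
    (s : Fin 3) (a : ℕ) (i : m) : e i * al s ^ a = al s ^ a * e i :=
  (show Commute (e i) (al s) from h.eal i s).pow_right a

theorem pow_sa [CharZero K] (h : Fr k arm J B N W F G p al tau β T Ψ D π e lam l TT)
    (s : Fin 3) (a : ℕ) (x y : M) : β ((Ψ s ^ a) x) y = β x ((Ψ s ^ a) y) := by
  induction a generalizing x y with
  | zero => simp
  | succ a ih =>
    have h1 : (Ψ s ^ (a + 1)) x = Ψ s ((Ψ s ^ a) x) := by rw [pow_succ']; rfl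
    have h2 : (Ψ s ^ (a + 1)) y = (Ψ s ^ a) (Ψ s y) := by rw [pow_succ]; rfl
    rw [h1, h2, h.cr.sa, ih]

theorem pow_nil [CharZero K] (h : Fr k arm J B N W F G p al tau β T Ψ D π e lam l TT)
    (s : Fin 3) {a : ℕ} (ha : l s ≤ a) : Ψ s ^ a = 0 := by
  obtain ⟨b, rfl⟩ := Nat.exists_eq_add_of_le ha
  rw [pow_add, h.lnil, zero_mul]

/-- a family of the two blocks `i, j` from vectors -/
theorem vmv_blk [CharZero K] (_h : Fr k arm J B N W F G p al tau β T Ψ D π e lam l TT)
    (i j : m) (u v : n → K) (hu : e j *ᵥ u = u) (hv : e i *ᵥ v = v) :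
    e j * vecMulVec u v * (e i)ᵀ = vecMulVec u v := by
  ext a b
  have h1 : e j * vecMulVec u v = vecMulVec (e j *ᵥ u) v := by
    ext a b
    simp only [Matrix.mul_apply, vecMulVec_apply, mulVec, dotProduct, Finset.sum_mul, mul_assoc]
  have h2 : vecMulVec u v * (e i)ᵀ = vecMulVec u (e i *ᵥ v) := by
    ext a b
    simp only [Matrix.mul_apply, vecMulVec_apply, mulVec, dotProduct, transpose_apply,
      Finset.mul_sum]
    exact Finset.sum_congr rfl fun x _ => by ring
  rw [h1, hu, h2, hv]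

theorem e_e [CharZero K] (h : Fr k arm J B N W F G p al tau β T Ψ D π e lam l TT)
    (i : m) (x : n → K) : e i *ᵥ (e i *ᵥ x) = e i *ᵥ x := by
  rw [mulVec_mulVec, h.idem]

theorem e_pow_e [CharZero K] (h : Fr k arm J B N W F G p al tau β T Ψ D π e lam l TT)
    (s : Fin 3) (a : ℕ) (i : m) (x : n → K) :
    e i *ᵥ ((al s ^ a) *ᵥ (e i *ᵥ x)) = (al s ^ a) *ᵥ (e i *ᵥ x) := by
  rw [mulVec_mulVec, pow_e h, ← mulVec_mulVec, e_e h]

theorem vmv_mulVec (u v : n → K) (g : Matrix n n K) (x : n → K) :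
    vecMulVec u v *ᵥ (g *ᵥ x) = (v ⬝ᵥ (g *ᵥ x)) • u := by
  rw [vecMulVec_mulVec, op_smul_eq_smul]

/-- split a single-arm rank one family into blocks -/
theorem split [CharZero K] (h : Fr k arm J B N W F G p al tau β T Ψ D π e lam l TT)
    (S : Submodule K (Fin 3 → Matrix n n K)) (s : Fin 3) (f f' : Matrix n n K) (y y' : n → K)
    (hS : ∀ i j, (Pi.single s (vecMulVec (f *ᵥ (e i *ᵥ y)) (f' *ᵥ (e j *ᵥ y'))) :
      Fin 3 → Matrix n n K) ∈ S) :
    (Pi.single s (vecMulVec (f *ᵥ y) (f' *ᵥ y')) : Fin 3 → Matrix n n K) ∈ S := by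
  have h1 : f *ᵥ y = ∑ i, f *ᵥ (e i *ᵥ y) := by
    conv_lhs => rw [sum_e h y]
    rw [mulVec_sum]
  have h2 : f' *ᵥ y' = ∑ i, f' *ᵥ (e i *ᵥ y') := by
    conv_lhs => rw [sum_e h y']
    rw [mulVec_sum]
  have h3 : (Pi.single s (vecMulVec (f *ᵥ y) (f' *ᵥ y')) : Fin 3 → Matrix n n K) =
      ∑ i, ∑ j, RDEnd.qs (K := K) s (f *ᵥ (e i *ᵥ y)) (f' *ᵥ (e j *ᵥ y')) := by
    rw [← RDEnd.qs_apply, h1, h2, map_sum, Finset.sum_comm]
    exact Finset.sum_congr rfl fun i _ => by rw [map_sum, LinearMap.sum_apply]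
  rw [h3]
  exact Submodule.sum_mem _ fun i _ => Submodule.sum_mem _ fun j _ => hS i j

/-- **RD6** from RD4 and RD5 -/
theorem false_of_fr [CharZero K] [FiniteDimensional K M]
    (h : Fr k arm J B N W F G p al tau β T Ψ D π e lam l TT)
    (hDΦ : ∀ s v, D (Ψ s v) = Ψ s (D v)) (hDs : ⨆ ν, D.maxGenEigenspace ν = ⊤)
    (hT : Tame Ψ D)
    (hoff : ∀ i j : m, i ≠ j → OffP arm J N W F p T Ψ π e i j)
    (hdiag : ∀ i : m, DiagP arm J N W F p al T Ψ π e l i) :
    False := by
  classical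
  obtain ⟨ρ, hρ⟩ := h.ctx.perf
  have hv : F * (∑ s, E K arm s * B * Fᵀ * J * p * ρ s) = p := by
    rw [Matrix.mul_sum]
    have : ∀ s : Fin 3, F * (E K arm s * B * Fᵀ * J * p * ρ s) = p * (al s * ρ s) := by
      intro s
      rw [← Matrix.mul_assoc p, ← h.ctx.hal s]
      unfold Phi FO.M
      simp only [Matrix.mul_assoc]
    simp only [this]
    rw [← Matrix.mul_sum, hρ, Matrix.mul_one]
  have hsymm : ∀ x y, β (π x) (π y) = y ⬝ᵥ ((pᵀ * J * p) *ᵥ x) := by
    intro x y
    rw [h.cr.ns.symm, h.cr.form]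
  refine RDEnd.false_of_arms (D := 0) (Dm := D) h.ctx.data h.ctx.memF hv h.ctx.hal h.cr hDΦ hDs hT h.lpos h.lsum
    h.lnil h.free ?_ ?_ ?_
  · intro s r hr y
    have h1 := split h (RDEnd.Rel arm J N W F p π T 0 Ψ) s 1 1 r y (fun i j => by
      rw [Matrix.one_mulVec, Matrix.one_mulVec]
      by_cases hij : i = j
      · subst hij
        exact ((hdiag i).1 s r (e_ker h hr i) y).1
      · refine hoff j i (Ne.symm hij) s _ (vmv_blk h j i _ _ (e_e h i r) (e_e h j y)) ⟨0, ?_, ?_⟩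
        · intro u
          rw [vmv_mulVec, map_smul, e_ker h hr i, smul_zero, LinearMap.zero_apply]
        · intro a v
          exact ⟨0, by rw [LinearMap.zero_apply, map_zero]⟩)
    simpa only [Matrix.one_mulVec] using h1
  · intro s r hr y
    have h1 := split h (RDEnd.Rel arm J N W F p π T 0 Ψ) s 1 1 y r (fun i j => by
      rw [Matrix.one_mulVec, Matrix.one_mulVec]
      by_cases hij : i = j
      · subst hij
        exact ((hdiag i).1 s r (e_ker h hr i) y).2
      · refine hoff j i (Ne.symm hij) s _ (vmv_blk h j i _ _ (e_e h i y) (e_e h j r)) ⟨0, ?_, ?_⟩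
        · intro u
          rw [vmv_mulVec, ← h.cr.form, e_ker h hr j, map_zero, LinearMap.zero_apply, zero_smul,
            map_zero, LinearMap.zero_apply]
        · intro a v
          exact ⟨0, by rw [LinearMap.zero_apply, map_zero]⟩)
    simpa only [Matrix.one_mulVec] using h1
  · intro s a a' haa y y'
    refine split h (RDEnd.Rel arm J N W F p π T 0 Ψ) s (al s ^ a) (al s ^ a') y y' (fun i j => ?_)
    by_cases hij : i = j
    · subst hij
      exact (hdiag i).2 s a a' haa y y'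
    · refine hoff j i (Ne.symm hij) s _
        (vmv_blk h j i _ _ (e_pow_e h s a i y) (e_pow_e h s a' j y'))
        ⟨(β ((Ψ s ^ a') (π (e j *ᵥ y')))).smulRight ((Ψ s ^ a) (π (e i *ᵥ y))), ?_, ?_⟩
      · intro u
        rw [vmv_mulVec, map_smul, LinearMap.smulRight_apply, ← h.cr.form, pow_op h, pow_op h]
      · intro b v
        rw [LinearMap.smulRight_apply]
        by_cases hb : b ≤ a
        · obtain ⟨c, rfl⟩ := Nat.exists_eq_add_of_le hb
          refine ⟨(β ((Ψ s ^ a') (π (e j *ᵥ y')))) ((Ψ s ^ b) v) • (Ψ s ^ c) (π (e i *ᵥ y)), ?_⟩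
          rw [map_smul, pow_add, Module.End.mul_apply]
        · refine ⟨0, ?_⟩
          have h0 : (β ((Ψ s ^ a') (π (e j *ᵥ y')))) ((Ψ s ^ b) v) = 0 := by
            rw [← pow_sa h, ← Module.End.mul_apply, ← pow_add, pow_nil h s (by omega),
              LinearMap.zero_apply, map_zero, LinearMap.zero_apply]
          rw [h0, zero_smul, map_zero]

end RF47

end lemmas

end Crest.Agent.R172.RD
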