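import Crest.Agent.R172.RDGlue
import Crest.Agent.R172.RDfalse47

/-!
Row 172 (S0260), `RD`: `FalseFr` from the five statements.
-/

set_option autoImplicit false
set_option linter.unusedSectionVars false

namespace Crest.Agent.R172.RD

open Matrix Module TensorProduct Crest.Agent.R172.FO Crest.Agent.R172.FrmB
open Crest.Agent.R172.Core (NS Tame)

/-- the five statements at the level of types used by the final assembly -/
structure Five : Prop where
  first : ∀ {ι δ n m : Type} [Fintype ι] [DecidableEq ι] [Fintype δ] [DecidableEq δ] [Fintype n]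
    [DecidableEq n] [Fintype m] [DecidableEq m] {K M : Type} [Field K] [Algebra ℂ K] [CharZero K]
    [AddCommGroup M] [Module K M] [FiniteDimensional K M] {arm : δ → Fin 3} {J : Matrix ι ι K}
    {B : Matrix δ δ K} {N W : Submodule K (Matrix ι δ K)} {F G : Matrix ι δ K}
    {p : Matrix ι n K} {al : Fin 3 → Matrix n n K} {tau : Matrix n n K}
    {β : LinearMap.BilinForm K M} {T : Module.End K M →ₗ[K] Module.End K M}
    {Ψ : Fin 3 → Module.End K M} {D : Module.End K M} {π : (n → K) →ₗ[K] M}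
    {e : m → Matrix n n K} {lam : m → K} {l : Fin 3 → ℕ} {TT : Set ℂ},
    Fr ℂ arm J B N W F G p al tau β T Ψ D π e lam l TT →
    (∀ s v, D (Ψ s v) = Ψ s (D v)) → ⨆ ν, D.maxGenEigenspace ν = ⊤ →
    ∀ i j : m, i ≠ j → FirstP ℂ arm J B N W F G p al tau T Ψ π e TT i j
  halves : ∀ {ι δ n m : Type} [Fintype ι] [DecidableEq ι] [Fintype δ] [DecidableEq δ] [Fintype n]
    [DecidableEq n] [Fintype m] [DecidableEq m] {K M : Type} [Field K] [Algebra ℂ K] [CharZero K]
    [AddCommGroup M] [Module K M] [FiniteDimensional K M] {arm : δ → Fin 3} {J : Matrix ι ι K}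
    {B : Matrix δ δ K} {N W : Submodule K (Matrix ι δ K)} {F G : Matrix ι δ K}
    {p : Matrix ι n K} {al : Fin 3 → Matrix n n K} {tau : Matrix n n K}
    {β : LinearMap.BilinForm K M} {T : Module.End K M →ₗ[K] Module.End K M}
    {Ψ : Fin 3 → Module.End K M} {D : Module.End K M} {π : (n → K) →ₗ[K] M}
    {e : m → Matrix n n K} {lam : m → K} {l : Fin 3 → ℕ} {TT : Set ℂ},
    Fr ℂ arm J B N W F G p al tau β T Ψ D π e lam l TT →
    ∀ i j : m, i ≠ j → FirstP ℂ arm J B N W F G p al tau T Ψ π e TT i j →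
      HalvesP arm J B N W F p al T Ψ π e i j
  off : ∀ {ι δ n m : Type} [Fintype ι] [DecidableEq ι] [Fintype δ] [DecidableEq δ] [Fintype n]
    [DecidableEq n] [Fintype m] [DecidableEq m] {K M : Type} [Field K] [Algebra ℂ K] [CharZero K]
    [AddCommGroup M] [Module K M] [FiniteDimensional K M] {arm : δ → Fin 3} {J : Matrix ι ι K}
    {B : Matrix δ δ K} {N W : Submodule K (Matrix ι δ K)} {F G : Matrix ι δ K}
    {p : Matrix ι n K} {al : Fin 3 → Matrix n n K} {tau : Matrix n n K}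
    {β : LinearMap.BilinForm K M} {T : Module.End K M →ₗ[K] Module.End K M}
    {Ψ : Fin 3 → Module.End K M} {D : Module.End K M} {π : (n → K) →ₗ[K] M}
    {e : m → Matrix n n K} {lam : m → K} {l : Fin 3 → ℕ} {TT : Set ℂ},
    Fr ℂ arm J B N W F G p al tau β T Ψ D π e lam l TT →
    (∀ s v, D (Ψ s v) = Ψ s (D v)) → ⨆ ν, D.maxGenEigenspace ν = ⊤ → Tame Ψ D →
    ∀ i j : m, i ≠ j → HalvesP arm J B N W F p al T Ψ π e i j →
      OffP arm J N W F p T Ψ π e i j
  second : ∀ {ι δ n m : Type} [Fintype ι] [DecidableEq ι] [Fintype δ] [DecidableEq δ] [Fintype n]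
    [DecidableEq n] [Fintype m] [DecidableEq m] {K M : Type} [Field K] [Algebra ℂ K] [CharZero K]
    [AddCommGroup M] [Module K M] [FiniteDimensional K M] {arm : δ → Fin 3} {J : Matrix ι ι K}
    {B : Matrix δ δ K} {N W : Submodule K (Matrix ι δ K)} {F G : Matrix ι δ K}
    {p : Matrix ι n K} {al : Fin 3 → Matrix n n K} {tau : Matrix n n K}
    {β : LinearMap.BilinForm K M} {T : Module.End K M →ₗ[K] Module.End K M}
    {Ψ : Fin 3 → Module.End K M} {D : Module.End K M} {π : (n → K) →ₗ[K] M}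
    {e : m → Matrix n n K} {lam : m → K} {l : Fin 3 → ℕ} {TT : Set ℂ},
    Fr ℂ arm J B N W F G p al tau β T Ψ D π e lam l TT →
    ∀ i j : m, i ≠ j → (∀ i j : m, i ≠ j → OffP arm J N W F p T Ψ π e i j) →
      SecondP arm J B N W F p al T Ψ π e i j
  diag : ∀ {ι δ n m : Type} [Fintype ι] [DecidableEq ι] [Fintype δ] [DecidableEq δ] [Fintype n]
    [DecidableEq n] [Fintype m] [DecidableEq m] {K M : Type} [Field K] [Algebra ℂ K] [CharZero K]
    [AddCommGroup M] [Module K M] [FiniteDimensional K M] {arm : δ → Fin 3} {J : Matrix ι ι K}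
    {B : Matrix δ δ K} {N W : Submodule K (Matrix ι δ K)} {F G : Matrix ι δ K}
    {p : Matrix ι n K} {al : Fin 3 → Matrix n n K} {tau : Matrix n n K}
    {β : LinearMap.BilinForm K M} {T : Module.End K M →ₗ[K] Module.End K M}
    {Ψ : Fin 3 → Module.End K M} {D : Module.End K M} {π : (n → K) →ₗ[K] M}
    {e : m → Matrix n n K} {lam : m → K} {l : Fin 3 → ℕ} {TT : Set ℂ},
    Fr ℂ arm J B N W F G p al tau β T Ψ D π e lam l TT →
    (∀ s v, D (Ψ s v) = Ψ s (D v)) → ⨆ ν, D.maxGenEigenspace ν = ⊤ → Tame Ψ D →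
    ∀ i j : m, i ≠ j → HalvesP arm J B N W F p al T Ψ π e i j →
      SecondP arm J B N W F p al T Ψ π e i j → DiagP arm J N W F p al T Ψ π e l i

theorem falseFr_of_five (H : Five) : FalseFr := by
  intro ι δ n m _ _ _ _ _ _ _ _ K M _ _ _ _ _ _ arm J B N W F G p al tau β T Ψ D π e lam l TT h
    hDΦ hDs hT
  exact glue h (H.first h hDΦ hDs) (H.halves h) (H.off h hDΦ hDs hT) (H.second h)
    (H.diag h hDΦ hDs hT) (fun h1 h2 => RF47.false_of_fr h hDΦ hDs hT h1 h2)

end Crest.Agent.R172.RD
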