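import Crest.Agent.R172.RJM

/-!
Row 172 (S0260), (T0), any radical, any `D`: the MATRIX FORM of `RJM.main` (bridge for `RD.diag`).
Blocks `e`, `e'` (idempotent matrices commuting with `al s`), `P1 = range e`, `P2 = range e'`.
-/

set_option autoImplicit false
set_option linter.unusedSectionVars false

namespace Crest.Agent.R172.RDd719

open Matrix Module TensorProduct

variable {K : Type*} [Field K] {n : Type*} [Fintype n] [DecidableEq n]
variable {M : Type*} [AddCommGroup M] [Module K M]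

/-- the block of `e` -/
abbrev U (e : Matrix n n K) : Submodule K (n → K) := LinearMap.range (toLin' e)

lemma mem_U {e : Matrix n n K} (he : e * e = e) {u : n → K} : u ∈ U e ↔ e *ᵥ u = u := by
  constructor
  · rintro ⟨v, rfl⟩
    rw [toLin'_apply, mulVec_mulVec, he]
  · intro h
    exact ⟨u, by rw [toLin'_apply, h]⟩

lemma U_mem (e : Matrix n n K) (u : n → K) : e *ᵥ u ∈ U e := ⟨u, by rw [toLin'_apply]⟩

/-- restriction of a commuting matrix to the block -/
noncomputable def res {e : Matrix n n K} (A : Matrix n n K) (h : e * A = A * e) : End K (U e) :=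
  (toLin' A).restrict (p := U e) (q := U e) (by
    rintro _ ⟨v, rfl⟩
    refine ⟨A *ᵥ v, ?_⟩
    rw [toLin'_apply, toLin'_apply, toLin'_apply, mulVec_mulVec, mulVec_mulVec, h])

@[simp] lemma res_coe {e : Matrix n n K} (A : Matrix n n K) (h : e * A = A * e) (u : U e) :
    ((res A h u : U e) : n → K) = A *ᵥ (u : n → K) := rfl

lemma res_pow_coe {e : Matrix n n K} (A : Matrix n n K) (h : e * A = A * e) (u : U e) (k : ℕ) :
    (((res A h ^ k) u : U e) : n → K) = (A ^ k) *ᵥ (u : n → K) := by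
  induction k generalizing u with
  | zero => simp
  | succ k ih =>
    have e1 : (res A h ^ (k + 1)) u = (res A h ^ k) (res A h u) := by rw [pow_succ]; rfl
    rw [e1, ih, res_coe, mulVec_mulVec, pow_succ]

lemma res_word_coe {e : Matrix n n K} (al : Fin 3 → Matrix n n K)
    (h : ∀ s, e * al s = al s * e) (w : List (Fin 3)) (u : U e) :
    (((w.map fun s => res (al s) (h s)).prod u : U e) : n → K) =
      (w.map al).prod *ᵥ (u : n → K) := by
  induction w with
  | nil => simp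
  | cons s w ih =>
    have e1 : ((s :: w).map fun s => res (al s) (h s)).prod u =
      res (al s) (h s) ((w.map fun s => res (al s) (h s)).prod u) := by
      simp [List.prod_cons]
    rw [e1, res_coe, ih, mulVec_mulVec, List.map_cons, List.prod_cons]

/-- the matrix of a tensor -/
noncomputable def mat (e' e : Matrix n n K) : (U e') ⊗[K] (U e) →ₗ[K] Matrix n n K :=
  TensorProduct.lift (LinearMap.mk₂ K
    (fun (p2 : U e') (p1 : U e) => vecMulVec (p2 : n → K) (p1 : n → K))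
    (fun a b c => by rw [Submodule.coe_add, add_vecMulVec])
    (fun t a b => by rw [Submodule.coe_smul, smul_vecMulVec])
    (fun a b c => by rw [Submodule.coe_add, vecMulVec_add])
    (fun t a b => by rw [Submodule.coe_smul, vecMulVec_smul]))

@[simp] lemma mat_tmul (e' e : Matrix n n K) (p2 : U e') (p1 : U e) :
    mat e' e (p2 ⊗ₜ p1) = vecMulVec (p2 : n → K) (p1 : n → K) := by
  simp [mat]

lemma vmv_mul (a b : n → K) (A : Matrix n n K) : vecMulVec a b * A = vecMulVec a (Aᵀ *ᵥ b) := by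
  ext i j
  simp only [mul_apply, vecMulVec_apply, mulVec, dotProduct, transpose_apply, Finset.mul_sum]
  exact Finset.sum_congr rfl fun x _ => by ring

lemma mul_vmv (a b : n → K) (A : Matrix n n K) : A * vecMulVec a b = vecMulVec (A *ᵥ a) b := by
  ext i j
  simp only [mul_apply, vecMulVec_apply, mulVec, dotProduct, Finset.sum_mul]
  exact Finset.sum_congr rfl fun x _ => by ring

lemma vmv_T (a b : n → K) : (vecMulVec a b)ᵀ = vecMulVec b a := by
  ext i j
  simp only [transpose_apply, vecMulVec_apply]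
  ring

lemma vmv_mulVec (a b u : n → K) : vecMulVec a b *ᵥ u = (b ⬝ᵥ u) • a := by
  ext i
  simp only [mulVec, dotProduct, vecMulVec_apply, Pi.smul_apply, smul_eq_mul, Finset.sum_mul]
  exact Finset.sum_congr rfl fun x _ => by ring

lemma DD_tmul {P1 P2 τ : Type*} [AddCommGroup P1] [Module K P1] [AddCommGroup P2] [Module K P2]
    (A : τ → End K P1) (B : τ → End K P2) (c : K) (t : τ) (x : P2) (y : P1) :
    RJM.DD A B c t (x ⊗ₜ y) = x ⊗ₜ (A t y) - c • ((B t x) ⊗ₜ y) := by
  simp [RJM.DD]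

variable {e e' : Matrix n n K} {al : Fin 3 → Matrix n n K}

lemma mat_DD (h : ∀ s, e * al s = al s * e) (h' : ∀ s, e' * al s = al s * e') (c : K)
    (t : Fin 3) (z : (U e') ⊗[K] (U e)) :
    mat e' e (RJM.DD (fun s => res (al s) (h s)) (fun s => res (al s) (h' s)) c t z) =
      mat e' e z * (al t)ᵀ - c • (al t * mat e' e z) := by
  induction z using TensorProduct.induction_on with
  | zero => simp
  | tmul x y =>
    rw [DD_tmul, map_sub, map_smul, mat_tmul, mat_tmul, mat_tmul, vmv_mul, mul_vmv,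
      transpose_transpose]
    rfl
  | add x y hx hy =>
    rw [map_add, map_add, hx, hy, map_add, Matrix.add_mul, Matrix.mul_add, smul_add]
    abel

lemma mat_block (he : e * e = e) (he' : e' * e' = e') (z : (U e') ⊗[K] (U e)) :
    e' * mat e' e z * eᵀ = mat e' e z := by
  induction z using TensorProduct.induction_on with
  | zero => simp
  | tmul x y =>
    rw [mat_tmul, mul_vmv, vmv_mul, transpose_transpose, (mem_U he').1 x.2, (mem_U he).1 y.2]
  | add x y hx hy => rw [map_add, Matrix.mul_add, Matrix.add_mul, hx, hy]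

/-- the form on the block -/
noncomputable def gf (e' g : Matrix n n K) : U e' →ₗ[K] U e' →ₗ[K] K :=
  LinearMap.mk₂ K (fun p p' => (p : n → K) ⬝ᵥ (g *ᵥ (p' : n → K)))
    (fun a b c => by rw [Submodule.coe_add, add_dotProduct])
    (fun t a b => by rw [Submodule.coe_smul, smul_dotProduct])
    (fun a b c => by rw [Submodule.coe_add, mulVec_add, dotProduct_add])
    (fun t a b => by rw [Submodule.coe_smul, mulVec_smul, dotProduct_smul])

@[simp] lemma gf_apply (g : Matrix n n K) (p p' : U e') :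
    gf e' g p p' = (p : n → K) ⬝ᵥ (g *ᵥ (p' : n → K)) := rfl

lemma mat_ev (g : Matrix n n K) (z : (U e') ⊗[K] (U e)) (p : U e') :
    ((RJM.ev (gf e' g) z p : U e) : n → K) = (mat e' e z)ᵀ *ᵥ (g *ᵥ (p : n → K)) := by
  induction z using TensorProduct.induction_on with
  | zero => simp
  | tmul x y =>
    rw [RJM.ev_tmul, mat_tmul, vmv_T, vmv_mulVec, Submodule.coe_smul, gf_apply]
  | add x y hx hy =>
    rw [map_add, LinearMap.add_apply, Submodule.coe_add, hx, hy, map_add, transpose_add,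
      add_mulVec]

variable {π : (n → K) →ₗ[K] M} {g : Matrix n n K}

/-- the radical of the block -/
def Rb (e : Matrix n n K) (π : (n → K) →ₗ[K] M) : Submodule K (U e) :=
  LinearMap.ker (π ∘ₗ (U e).subtype)

lemma mem_Rb {u : U e} : u ∈ Rb e π ↔ π (u : n → K) = 0 := by
  simp [Rb]

lemma mat_rad (gs : gᵀ = g) (hg : ∀ u, π u = 0 → g *ᵥ u = 0) {z : (U e') ⊗[K] (U e)}
    (hz : z ∈ (RJM.RT (Rb e' π) ⊔ RJM.TR (Rb e π) : Submodule K ((U e') ⊗[K] (U e)))) :
    g * mat e' e z * g = 0 := by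
  have hle : (RJM.RT (Rb e' π) ⊔ RJM.TR (Rb e π) : Submodule K ((U e') ⊗[K] (U e))) ≤
      LinearMap.ker ((LinearMap.mulRight K g) ∘ₗ (LinearMap.mulLeft K g) ∘ₗ mat e' e) := by
    refine sup_le ?_ ?_
    · rw [RJM.RT, Submodule.span_le]
      rintro _ ⟨r, hr, p, rfl⟩
      show _ ∈ LinearMap.ker _
      rw [LinearMap.mem_ker]
      simp only [LinearMap.comp_apply, mat_tmul, LinearMap.mulLeft_apply,
        LinearMap.mulRight_apply, mul_vmv, hg _ (mem_Rb.1 hr)]
      ext i j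
      simp [vecMulVec_apply, mul_apply]
    · rw [RJM.TR, Submodule.span_le]
      rintro _ ⟨p, r, hr, rfl⟩
      show _ ∈ LinearMap.ker _
      rw [LinearMap.mem_ker]
      simp only [LinearMap.comp_apply, mat_tmul, LinearMap.mulLeft_apply,
        LinearMap.mulRight_apply, mul_vmv, vmv_mul, gs, hg _ (mem_Rb.1 hr)]
      ext i j
      simp [vecMulVec_apply]
  have := hle hz
  rw [LinearMap.mem_ker] at this
  simpa using this

/-- the matrix of a map of blocks -/
noncomputable def mb (b : U e' →ₗ[K] U e) : Matrix n n K :=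
  LinearMap.toMatrix' ((U e).subtype ∘ₗ b ∘ₗ (toLin' e').rangeRestrict)

lemma mb_mulVec (b : U e' →ₗ[K] U e) (u : n → K) :
    mb b *ᵥ u = (b ⟨e' *ᵥ u, U_mem e' u⟩ : n → K) := by
  rw [mb, ← toLin'_apply, toLin'_toMatrix']
  rfl

lemma mb_coe (he' : e' * e' = e') (b : U e' →ₗ[K] U e) (u : U e') :
    mb b *ᵥ (u : n → K) = (b u : n → K) := by
  rw [mb_mulVec]
  congr 2
  exact Subtype.ext ((mem_U he').1 u.2)

lemma mb_block (he : e * e = e) (he' : e' * e' = e') (b : U e' →ₗ[K] U e) :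
    e * mb b * e' = mb b := by
  apply Matrix.ext_of_mulVec_single
  intro i
  rw [← mulVec_mulVec, ← mulVec_mulVec, mb_mulVec, mb_mulVec]
  have e1 : (⟨e' *ᵥ (e' *ᵥ Pi.single i 1), U_mem e' _⟩ : U e') =
      ⟨e' *ᵥ Pi.single i 1, U_mem e' _⟩ := by
    apply Subtype.ext
    show e' *ᵥ (e' *ᵥ Pi.single i 1) = _
    rw [mulVec_mulVec, he']
  rw [e1]
  exact (mem_U he).1 (b _).2

/-- the pairing -/
noncomputable def qq (e : Matrix n n K) (s : Fin 3) :
    U e →ₗ[K] U e →ₗ[K] (Fin 3 → Matrix n n K) :=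
  LinearMap.mk₂ K (fun y y' => Pi.single s (vecMulVec (y : n → K) (y' : n → K)))
    (fun a b c => by rw [Submodule.coe_add, add_vecMulVec, Pi.single_add])
    (fun t a b => by rw [Submodule.coe_smul, smul_vecMulVec, Pi.single_smul])
    (fun a b c => by rw [Submodule.coe_add, vecMulVec_add, Pi.single_add])
    (fun t a b => by rw [Submodule.coe_smul, vecMulVec_smul, Pi.single_smul])

@[simp] lemma qq_apply (s : Fin 3) (y y' : U e) :
    qq e s y y' = Pi.single s (vecMulVec (y : n → K) (y' : n → K)) := rfl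

lemma L1 (he' : e' * e' = e') (t : Fin 3) (b : U e' →ₗ[K] U e) (z : (U e') ⊗[K] (U e)) :
    TensorProduct.lift ((qq e t) ∘ₗ b) z = Pi.single t (mb b * mat e' e z) := by
  induction z using TensorProduct.induction_on with
  | zero => simp
  | tmul x y =>
    rw [TensorProduct.lift.tmul, LinearMap.comp_apply, qq_apply, mat_tmul, mul_vmv,
      mb_coe he']
  | add x y hx hy => rw [map_add, hx, hy, map_add, Matrix.mul_add, Pi.single_add]

lemma L2 (he' : e' * e' = e') (t : Fin 3) (b : U e' →ₗ[K] U e) (z : (U e') ⊗[K] (U e)) :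
    TensorProduct.lift ((qq e t).flip ∘ₗ b) z = Pi.single t ((mat e' e z)ᵀ * (mb b)ᵀ) := by
  induction z using TensorProduct.induction_on with
  | zero => simp
  | tmul x y =>
    rw [TensorProduct.lift.tmul, LinearMap.comp_apply, LinearMap.flip_apply, qq_apply,
      mat_tmul, vmv_T, vmv_mul, transpose_transpose, mb_coe he']
  | add x y hx hy =>
    rw [map_add, hx, hy, map_add, transpose_add, Matrix.add_mul, Pi.single_add]

lemma L3 (t : Fin 3) (z' z : (U e') ⊗[K] (U e)) :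
    TensorProduct.lift ((qq e t) ∘ₗ (RJM.ev (gf e' g) z')) z =
      Pi.single t ((mat e' e z')ᵀ * g * mat e' e z) := by
  induction z using TensorProduct.induction_on with
  | zero => simp
  | tmul x y =>
    rw [TensorProduct.lift.tmul, LinearMap.comp_apply, qq_apply, mat_tmul, mul_vmv, mat_ev,
      mulVec_mulVec]
  | add x y hx hy => rw [map_add, hx, hy, map_add, Matrix.mul_add, Pi.single_add]

/-- exact families, matrix form -/
structure MEx (e e' g : Matrix n n K) (al : Fin 3 → Matrix n n K) (c : K)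
    (x : Fin 3 → Matrix n n K) : Prop where
  bx : ∀ r, e' * x r * eᵀ = x r
  sum : ∑ r, (x r * (al r)ᵀ - c • (al r * x r)) = 0
  arm : ∀ r, g * (x r * (al r)ᵀ - c • (al r * x r)) * g = 0

/-- corrections, matrix form -/
structure MCor (e e' g : Matrix n n K) (π : (n → K) →ₗ[K] M) (al : Fin 3 → Matrix n n K) (c : K)
    (x : Fin 3 → Matrix n n K) (b : Matrix n n K) : Prop where
  bb : e * b * e' = b
  rb : ∀ u, π (b *ᵥ u) = 0
  eb : ∀ r, al r * (b + (x r)ᵀ * g) = c • ((b + (x r)ᵀ * g) * al r)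

lemma symm_form (gs : gᵀ = g) (u v : n → K) : u ⬝ᵥ (g *ᵥ v) = v ⬝ᵥ (g *ᵥ u) := by
  rw [dotProduct_mulVec, ← mulVec_transpose, gs, dotProduct_comm]

lemma surj (he : e * e = e) (hea : ∀ s, e * al s = al s * e) {ρ : Fin 3 → Matrix n n K}
    (perf : ∑ s, al s * ρ s = 1) :
    ⨆ t, LinearMap.range ((fun s => res (al s) (hea s)) t) = ⊤ := by
  rw [eq_top_iff]
  rintro u -
  have h1 : u = ∑ s, res (al s) (hea s) ⟨e *ᵥ (ρ s *ᵥ (u : n → K)), U_mem e _⟩ := by
    apply Subtype.ext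
    rw [Submodule.coe_sum]
    have h2 : ∀ s, ((res (al s) (hea s) ⟨e *ᵥ (ρ s *ᵥ (u : n → K)), U_mem e _⟩ : U e) : n → K) =
        e *ᵥ ((al s * ρ s) *ᵥ (u : n → K)) := by
      intro s
      rw [res_coe]
      show al s *ᵥ (e *ᵥ (ρ s *ᵥ (u : n → K))) = _
      simp only [mulVec_mulVec, ← Matrix.mul_assoc, hea s]
    simp only [h2]
    rw [← mulVec_sum, ← sum_mulVec, perf, one_mulVec, (mem_U he).1 u.2]
  rw [h1]
  exact Submodule.sum_mem _ fun s _ => Submodule.mem_iSup_of_mem s ⟨_, rfl⟩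

lemma gen_U {l : Fin 3 → ℕ} (he : e * e = e) (hea : ∀ s, e * al s = al s * e)
    (gen : ∀ (S : Submodule K (n → K)), (∀ s, ∀ v ∈ S, al s *ᵥ v ∈ S) →
      (∀ s u, (al s ^ l s) *ᵥ (e *ᵥ u) ∈ S) → ∀ u, π (e *ᵥ u) = 0 → e *ᵥ u ∈ S) :
    ∀ S : Submodule K (U e), (∀ t, ∀ v ∈ S, (fun s => res (al s) (hea s)) t v ∈ S) →
      (∀ s p, ((fun s => res (al s) (hea s)) s ^ l s) p ∈ S) → Rb e π ≤ S := by
  intro S h1 h2 r hr
  have h3 := gen (S.map (U e).subtype) (by
    rintro s _ ⟨v, hv, rfl⟩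
    exact ⟨_, h1 s v hv, rfl⟩) (by
    intro s u
    refine ⟨_, h2 s ⟨e *ᵥ u, U_mem e u⟩, ?_⟩
    show ((((fun s => res (al s) (hea s)) s ^ l s) ⟨e *ᵥ u, U_mem e u⟩ : U e) : n → K) = _
    rw [res_pow_coe]) (r : n → K) (by
    rw [(mem_U he).1 r.2]
    exact mem_Rb.1 hr)
  rw [(mem_U he).1 r.2] at h3
  obtain ⟨v, hv, hvr⟩ := h3
  have : v = r := Subtype.ext hvr
  rwa [this] at hv

/-- **matrix form of `RJM.main`** -/
theorem main_mat (he : e * e = e) (he' : e' * e' = e') (hea : ∀ s, e * al s = al s * e)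
    (hea' : ∀ s, e' * al s = al s * e') (eg' : e'ᵀ * g = g * e') (gal : ∀ s, (al s)ᵀ * g = g * al s) (gs : gᵀ = g)
    (hg : ∀ u, π u = 0 → g *ᵥ u = 0) (hπ : ∀ s u, π u = 0 → π (al s *ᵥ u) = 0)
    {ρ : Fin 3 → Matrix n n K} (perf : ∑ s, al s * ρ s = 1) {m0 : ℕ}
    (kill : ∀ w : List (Fin 3), w.length = m0 → ∀ u, π u = 0 → (w.map al).prod *ᵥ u = 0)
    {l : Fin 3 → ℕ} (hl : ∀ s, 1 ≤ l s) (hl0 : ∀ s u, π ((al s ^ l s) *ᵥ u) = 0)
    (gen : ∀ (S : Submodule K (n → K)), (∀ s, ∀ v ∈ S, al s *ᵥ v ∈ S) →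
      (∀ s u, (al s ^ l s) *ᵥ (e *ᵥ u) ∈ S) → ∀ u, π (e *ᵥ u) = 0 → e *ᵥ u ∈ S)
    (gen' : ∀ (S : Submodule K (n → K)), (∀ s, ∀ v ∈ S, al s *ᵥ v ∈ S) →
      (∀ s u, (al s ^ l s) *ᵥ (e' *ᵥ u) ∈ S) → ∀ u, π (e' *ᵥ u) = 0 → e' *ᵥ u ∈ S)
    (top : ∀ s, ∃ u u' : n → K,
      (e' *ᵥ u) ⬝ᵥ (g *ᵥ ((al s ^ (l s - 1)) *ᵥ (e' *ᵥ u'))) ≠ 0)
    {Λ : Set K} (hΛ : Λ.Infinite) (h0 : (0 : K) ∉ Λ) (Q : Submodule K (Fin 3 → Matrix n n K))
    (hex : ∀ c ∈ Λ, ∀ x, MEx e e' g al c x → ∃ b, MCor e e' g π al c x b)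
    (hrel : ∀ c ∈ Λ, ∀ c' ∈ Λ, ∀ x b y b', MEx e e' g al c x → MCor e e' g π al c x b →
      MEx e e' g al c' y → MCor e e' g π al c' y b' →
      (fun r => b * y r + (x r)ᵀ * g * y r + (x r)ᵀ * b'ᵀ) ∈ Q) :
    (∀ s, ∀ r, π (e *ᵥ r) = 0 → ∀ y,
      (Pi.single s (vecMulVec (e *ᵥ r) (e *ᵥ y)) : Fin 3 → Matrix n n K) ∈ Q ∧
      (Pi.single s (vecMulVec (e *ᵥ y) (e *ᵥ r)) : Fin 3 → Matrix n n K) ∈ Q) ∧
    (∀ s a a', a + a' + 1 = l s → ∀ y y' : n → K,
      (Pi.single s (vecMulVec ((al s ^ a) *ᵥ (e *ᵥ y)) ((al s ^ a') *ᵥ (e *ᵥ y'))) :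
        Fin 3 → Matrix n n K) ∈ Q) := by
  -- the dictionary for exact families
  have dEx : ∀ {c : K} {x : Fin 3 → (U e') ⊗[K] (U e)},
      RJM.Ex (fun s => res (al s) (hea s)) (fun s => res (al s) (hea' s)) (Rb e π) (Rb e' π)
        c x → MEx e e' g al c (fun r => mat e' e (x r)) := by
    intro c x hx
    refine ⟨fun r => mat_block he he' _, ?_, fun r => ?_⟩
    · have := congrArg (mat e' e) hx.sum
      rw [map_sum, map_zero] at this
      simpa only [mat_DD] using this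
    · have := mat_rad gs hg (hx.arm r)
      rwa [mat_DD] at this
  have dCor : ∀ {c : K} {x : Fin 3 → (U e') ⊗[K] (U e)} {b : U e' →ₗ[K] U e},
      RJM.Cor (fun s => res (al s) (hea s)) (fun s => res (al s) (hea' s)) (Rb e π)
        (gf e' g) 1 c x b → MEx e e' g al c (fun r => mat e' e (x r)) →
        MCor e e' g π al c (fun r => mat e' e (x r)) (-(mb b)) := by
    intro c x b hb hx
    refine ⟨?_, fun u => ?_, fun r => ?_⟩
    · rw [Matrix.mul_neg, Matrix.neg_mul, mb_block he he']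
    · rw [neg_mulVec, map_neg, mb_mulVec, neg_eq_zero]
      exact mem_Rb.1 (hb.mem _)
    · -- both sides only see the block `e'`
      have hTg : (mat e' e (x r))ᵀ * g = (mat e' e (x r))ᵀ * g * e' := by
        have h1 : (mat e' e (x r))ᵀ = (mat e' e (x r))ᵀ * e'ᵀ := by
          have h2 : e' * mat e' e (x r) = mat e' e (x r) := by
            conv_lhs => rw [← mat_block he he' (x r)]
            rw [← Matrix.mul_assoc, ← Matrix.mul_assoc, he', mat_block he he']
          rw [← transpose_mul, h2]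
        rw [Matrix.mul_assoc, ← eg', ← Matrix.mul_assoc, ← h1]
      have hTu : ∀ u : n → K, (mat e' e (x r))ᵀ *ᵥ (g *ᵥ u) =
          (mat e' e (x r))ᵀ *ᵥ (g *ᵥ (e' *ᵥ u)) := by
        intro u
        rw [mulVec_mulVec, hTg, ← mulVec_mulVec, ← mulVec_mulVec]
      apply Matrix.ext_of_mulVec_single
      intro i
      generalize (Pi.single i 1 : n → K) = u
      have h1 := congrArg (fun z : U e => (z : n → K)) (hb.eq r ⟨e' *ᵥ u, U_mem e' u⟩)
      simp only [Submodule.coe_sub, Submodule.coe_smul, res_coe, mat_ev, one_mul] at h1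
      have h2 : (res (al r) (hea' r) ⟨e' *ᵥ u, U_mem e' u⟩ : U e') =
          ⟨e' *ᵥ (al r *ᵥ u), U_mem e' _⟩ := by
        apply Subtype.ext
        rw [res_coe]
        show al r *ᵥ (e' *ᵥ u) = e' *ᵥ (al r *ᵥ u)
        rw [mulVec_mulVec, mulVec_mulVec, hea' r]
      rw [h2, ← mb_mulVec, ← mb_mulVec] at h1
      have h3 : al r *ᵥ (e' *ᵥ u) = e' *ᵥ (al r *ᵥ u) := by
        rw [mulVec_mulVec, mulVec_mulVec, hea' r]
      rw [h3, ← hTu, ← hTu] at h1
      simp only [← mulVec_mulVec, add_mulVec, neg_mulVec, mulVec_add, mulVec_neg, smul_mulVec,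
        smul_add, smul_neg]
      rw [sub_eq_iff_eq_add] at h1
      rw [h1]
      abel
  have hmain := RJM.main (A := fun s => res (al s) (hea s)) (B := fun s => res (al s) (hea' s))
    (R1 := Rb e π) (R2 := Rb e' π) (l := l) (g := gf e' g) (eps := (1 : K))
    (surj he hea perf) (surj he' hea' perf)
    (fun t r hr => mem_Rb.2 (hπ t _ (mem_Rb.1 hr)))
    (fun t r hr => mem_Rb.2 (hπ t _ (mem_Rb.1 hr)))
    (m := m0)
    (fun w hw r hr => Subtype.ext (by
      rw [res_word_coe al hea]; exact kill w hw _ (mem_Rb.1 hr)))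
    (fun w hw r hr => Subtype.ext (by
      rw [res_word_coe al hea']; exact kill w hw _ (mem_Rb.1 hr)))
    hl
    (fun s p => mem_Rb.2 (by rw [res_pow_coe]; exact hl0 s _))
    (fun s p => mem_Rb.2 (by rw [res_pow_coe]; exact hl0 s _))
    (gen_U he hea gen) (gen_U he' hea' gen')
    one_ne_zero
    (fun r hr p => by
      rw [gf_apply, dotProduct_mulVec, ← mulVec_transpose, gs, hg _ (mem_Rb.1 hr),
        zero_dotProduct])
    (fun r hr p => by
      rw [gf_apply, hg _ (mem_Rb.1 hr), dotProduct_zero])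
    (fun t p p' => by
      rw [gf_apply, gf_apply, one_mul, res_coe, res_coe, mulVec_mulVec, ← gal t,
        ← mulVec_mulVec, dotProduct_mulVec (p : n → K) (al t)ᵀ, ← mulVec_transpose,
        transpose_transpose])
    (fun s => by
      obtain ⟨u, u', hu⟩ := top s
      refine ⟨⟨e' *ᵥ u', U_mem e' u'⟩, ⟨e' *ᵥ u, U_mem e' u⟩, ?_⟩
      rw [gf_apply, res_pow_coe]
      intro h
      apply hu
      rw [← h]
      exact symm_form gs _ _)
    hΛ h0 (qq e) Q (a1 := -1) (a2 := -1) (a3 := 1) (by norm_num) (by norm_num) (by norm_num)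
    (fun c hc x hx => by
      obtain ⟨b, hb⟩ := hex c hc _ (dEx hx)
      have hbm : ∀ u, b *ᵥ u ∈ U e := by
        intro u
        have h1 : b *ᵥ u = e *ᵥ ((b * e') *ᵥ u) := by
          conv_lhs => rw [← hb.bb]
          rw [mulVec_mulVec, Matrix.mul_assoc]
        rw [h1]
        exact U_mem e _
      refine ⟨-(((toLin' b) ∘ₗ (U e').subtype).codRestrict (U e)
        (fun u => by simpa using hbm (u : n → K))), ⟨fun p => ?_, fun r p => ?_⟩⟩
      · rw [mem_Rb]
        show π (-(b *ᵥ (p : n → K))) = 0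
        rw [map_neg, hb.rb, neg_zero]
      · apply Subtype.ext
        have h1 := congrArg (fun Z : Matrix n n K => Z *ᵥ (p : n → K)) (hb.eb r)
        simp only [← mulVec_mulVec, add_mulVec, mulVec_add, smul_mulVec] at h1
        simp only [Submodule.coe_sub, Submodule.coe_smul, res_coe, mat_ev, one_mul]
        show al r *ᵥ (-(b *ᵥ (p : n → K))) - c • (-(b *ᵥ (al r *ᵥ (p : n → K)))) = _
        rw [mulVec_neg, smul_neg]
        have h2 : al r *ᵥ (b *ᵥ (p : n → K)) = c • (b *ᵥ (al r *ᵥ (p : n → K)) +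
          (mat e' e (x r))ᵀ *ᵥ (g *ᵥ (al r *ᵥ (p : n → K)))) -
          al r *ᵥ ((mat e' e (x r))ᵀ *ᵥ (g *ᵥ (p : n → K))) := by
          rw [← h1]
          abel
        rw [h2, smul_add]
        abel)
    (fun c hc c' hc' x b x' b' hx hb hx' hb' => by
      have h1 := hrel c' hc' c hc _ _ _ _ (dEx hx') (dCor hb' (dEx hx')) (dEx hx)
        (dCor hb (dEx hx))
      have h2 : ∑ t, ((-1 : K) • TensorProduct.lift ((qq e t) ∘ₗ b') (x t)
          + (-1 : K) • TensorProduct.lift ((qq e t).flip ∘ₗ b) (x' t)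
          + (1 : K) • TensorProduct.lift ((qq e t) ∘ₗ (RJM.ev (gf e' g) (x' t))) (x t)) =
          (fun r => -(mb b') * mat e' e (x r) + (mat e' e (x' r))ᵀ * g * mat e' e (x r) +
            (mat e' e (x' r))ᵀ * (-(mb b))ᵀ) := by
        rw [← Finset.univ_sum_single (fun r => -(mb b') * mat e' e (x r) +
          (mat e' e (x' r))ᵀ * g * mat e' e (x r) + (mat e' e (x' r))ᵀ * (-(mb b))ᵀ)]
        refine Finset.sum_congr rfl fun t _ => ?_
        rw [L1 he', L2 he', L3, ← Pi.single_smul, ← Pi.single_smul, ← Pi.single_smul,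
          ← Pi.single_add, ← Pi.single_add]
        congr 1
        rw [neg_one_smul, neg_one_smul, one_smul, transpose_neg, Matrix.neg_mul,
          Matrix.mul_neg]
        abel
      rw [h2]
      exact h1)
  refine ⟨fun s r hr y => ?_, fun s a a' haa y y' => ?_⟩
  · have := hmain.1 s ⟨e *ᵥ r, U_mem e r⟩ (mem_Rb.2 hr) ⟨e *ᵥ y, U_mem e y⟩
    simpa only [qq_apply] using this
  · have := hmain.2 s a a' haa ⟨e *ᵥ y, U_mem e y⟩ ⟨e *ᵥ y', U_mem e y'⟩
    rw [qq_apply, res_pow_coe, res_pow_coe] at this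
    exact this

end Crest.Agent.R172.RDd719
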