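import Crest.Agent.R172.RDP
import Crest.Agent.R172.RDd719

/-!
Row 172 (S0260), (T0), any radical, any `D`: `RD5` = the DIAGONAL BLOCKS, from `halves` and
`second` and the corrections of the universal cover (`hexS`), by the matrix form of `RJM.main`.
-/

set_option autoImplicit false
set_option linter.unusedSectionVars false

namespace Crest.Agent.R172.RDd719

open Matrix Module TensorProduct Crest.Agent.R172.FO Crest.Agent.R172.FrmB
open Crest.Agent.R172.Core (NS Tame)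
open Crest.Agent.R172.PL (Wk)
open Crest.Agent.R172.RD

variable {ι : Type*} [Fintype ι] [DecidableEq ι] {δ : Type*} [Fintype δ] [DecidableEq δ]
variable {n : Type*} [Fintype n] [DecidableEq n]
variable {k K : Type*} [Field k] [Field K] [Algebra k K]
variable {M : Type*} [AddCommGroup M] [Module K M]
variable {m : Type*} [Fintype m] [DecidableEq m]

variable {arm : δ → Fin 3} {J : Matrix ι ι K} {B : Matrix δ δ K}
  {N W : Submodule K (Matrix ι δ K)} {F G : Matrix ι δ K} {p : Matrix ι n K}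
  {al : Fin 3 → Matrix n n K} {tau : Matrix n n K}
  {β : LinearMap.BilinForm K M} {T : Module.End K M →ₗ[K] Module.End K M}
  {Ψ : Fin 3 → Module.End K M} {D : Module.End K M} {π : (n → K) →ₗ[K] M}
  {e : m → Matrix n n K} {lam : m → K} {l : Fin 3 → ℕ} {TT : Set k}

theorem gt719 (h : Fr k arm J B N W F G p al tau β T Ψ D π e lam l TT) :
    (pᵀ * J * p)ᵀ = pᵀ * J * p := by
  rw [transpose_mul, transpose_mul, transpose_transpose, h.ctx.data.J_symm, Matrix.mul_assoc]

theorem gz719 (h : Fr k arm J B N W F G p al tau β T Ψ D π e lam l TT) {u : n → K}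
    (hu : π u = 0) : (pᵀ * J * p) *ᵥ u = 0 := by
  have h1 : ∀ y : n → K, y ⬝ᵥ ((pᵀ * J * p) *ᵥ u) = 0 := by
    intro y
    rw [← h.cr.form, hu, map_zero]
  funext a
  have h2 := h1 (Pi.single a 1)
  rwa [single_one_dotProduct] at h2

theorem gal719 (h : Fr k arm J B N W F G p al tau β T Ψ D π e lam l TT) (s : Fin 3) :
    (al s)ᵀ * (pᵀ * J * p) = (pᵀ * J * p) * al s := by
  have h1 : ∀ y y' : n → K, y ⬝ᵥ (((al s)ᵀ * (pᵀ * J * p)) *ᵥ y') =
      y ⬝ᵥ (((pᵀ * J * p) * al s) *ᵥ y') := by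
    intro y y'
    have e1 : ((al s)ᵀ * (pᵀ * J * p)) *ᵥ y' = (al s)ᵀ *ᵥ ((pᵀ * J * p) *ᵥ y') :=
      (mulVec_mulVec _ _ _).symm
    have e2 : ((pᵀ * J * p) * al s) *ᵥ y' = (pᵀ * J * p) *ᵥ (al s *ᵥ y') :=
      (mulVec_mulVec _ _ _).symm
    rw [e1, e2, ← RDEnd.dt, ← h.cr.form, ← h.cr.form, ← h.cr.op, ← h.cr.op, h.cr.sa]
  ext a b
  have h2 := h1 (Pi.single a 1) (Pi.single b 1)
  rwa [single_one_dotProduct, single_one_dotProduct, mulVec_single_one, mulVec_single_one] at h2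

theorem pip719 (h : Fr k arm J B N W F G p al tau β T Ψ D π e lam l TT) (s : Fin 3) (a : ℕ)
    (u : n → K) : π ((al s ^ a) *ᵥ u) = (Ψ s ^ a) (π u) := by
  induction a generalizing u with
  | zero => simp
  | succ a ih =>
    rw [pow_succ, ← mulVec_mulVec, ih, pow_succ, ← h.cr.op]
    rfl

/-- **RD5**: the diagonal block `i`, from `halves` and `second` at `(i, j)` -/
theorem diag [CharZero K] (h : Fr k arm J B N W F G p al tau β T Ψ D π e lam l TT)
    {i j : m} (hij : i ≠ j) (hhal : HalvesP arm J B N W F p al T Ψ π e i j)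
    (hsec : SecondP arm J B N W F p al T Ψ π e i j) :
    DiagP arm J N W F p al T Ψ π e l i := by
  obtain ⟨S, hS, hS2⟩ := hhal
  obtain ⟨ρ, perf⟩ := h.ctx.perf
  obtain ⟨m0, kill⟩ := h.kill
  -- the corrections `kk`
  have hkk : ∀ c : K, c ≠ 0 → ∀ (x : Fin 3 → Matrix n n K) (b : Matrix n n K),
      MEx (e i) (e j) (pᵀ * J * p) al c x → MCor (e i) (e j) (pᵀ * J * p) π al c x b →
      ∃ kk, Dec (pᵀ * J * p) π e i j (fun r => al r) (fun r => c • al r) x b kk := by
    intro c hc x b hx hb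
    obtain ⟨_, kk, _, h2, _, h4, _, h6⟩ := h.hexS i j hij c hc x hx.bx hx.sum hx.arm
    exact ⟨kk, ⟨hx.bx, hb.bb, h2, hb.rb, h4, by simpa only [Matrix.smul_mul] using hx.sum,
      by simpa only [Matrix.smul_mul] using hx.arm,
      by simpa only [Matrix.mul_smul] using hb.eb,
      by simpa only [Matrix.smul_mul] using h6⟩⟩
  refine main_mat (e := e i) (e' := e j) (g := pᵀ * J * p) (ρ := ρ) (m0 := m0)
    (h.idem i) (h.idem j) (h.eal i) (h.eal j) (h.eg j) (gal719 h) (gt719 h)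
    (fun u hu => gz719 h hu) (fun s u hu => by rw [← h.cr.op, hu, map_zero]) perf kill
    h.lpos (fun s u => by rw [pip719 h, h.lnil, LinearMap.zero_apply]) (h.gen i) (h.gen j)
    (h.top j) (Λ := (S ∪ {0})ᶜ) (hS.union (Set.finite_singleton 0)).infinite_compl
    (by simp) _ ?_ ?_
  · intro c hc x hx
    have hc0 : c ≠ 0 := fun h0 => hc (by simp [h0])
    obtain ⟨b, _, h1, _, h3, _, h5, _⟩ := h.hexS i j hij c hc0 x hx.bx hx.sum hx.arm
    exact ⟨b, ⟨h1, h3, h5⟩⟩
  · intro c hc c' hc' x b y b' hx hb hy hb'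
    have hc0 : c ≠ 0 := fun h0 => hc (by simp [h0])
    have hc0' : c' ≠ 0 := fun h0 => hc' (by simp [h0])
    obtain ⟨kk, hD⟩ := hkk c hc0 x b hx hb
    obtain ⟨kk', hD'⟩ := hkk c' hc0' y b' hy hb'
    obtain ⟨hx1, hx2⟩ := hS2 c (fun h0 => hc (Or.inl h0)) x b kk hD
    obtain ⟨hy1, _⟩ := hS2 c' (fun h0 => hc' (Or.inl h0)) y b' kk' hD'
    exact hsec c c' hc0 hc0' x y b kk b' kk' hD hD' hx1 hx2 hy1

end Crest.Agent.R172.RDd719
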