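import Crest.Agent.R172.RDP
import Crest.Agent.R172.Dual1

/-!
Row 172 (S0260), `RD`: the off-diagonal single-arm families are good.
-/

set_option autoImplicit false
set_option linter.unusedSectionVars false
set_option linter.unusedVariables false

namespace Crest.Agent.R172.RD

open Matrix Module TensorProduct Crest.Agent.R172.FO Crest.Agent.R172.FrmB
open Crest.Agent.R172.Core (NS Tame)
open Crest.Agent.R172.PL (Wk)

section gen

variable {K : Type*} [Field K] {n : Type*} [Fintype n] [DecidableEq n]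

/-- the matrix of a tensor in `P2 ⊗ P1` -/
noncomputable def mtt514 (P2 P1 : Submodule K (n → K)) : P2 ⊗[K] P1 →ₗ[K] Matrix n n K :=
  RDEnd.mt ∘ₗ TensorProduct.map P2.subtype P1.subtype

theorem mtt_tmul514 (P2 P1 : Submodule K (n → K)) (a : P2) (b : P1) :
    mtt514 P2 P1 (a ⊗ₜ[K] b) = vecMulVec (a : n → K) (b : n → K) := rfl

theorem exists_mt514 (y : Matrix n n K) : ∃ T : (n → K) ⊗[K] (n → K), RDEnd.mt T = y := by
  refine ⟨∑ a, (Pi.single a (1 : K)) ⊗ₜ[K] (y a), ?_⟩
  rw [map_sum]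
  ext r c
  rw [Matrix.sum_apply, Finset.sum_eq_single r]
  · rw [RDEnd.mt_tmul, vecMulVec_apply, Pi.single_eq_same, one_mul]
  · intro b _ hb
    rw [RDEnd.mt_tmul, vecMulVec_apply, Pi.single_eq_of_ne (Ne.symm hb), zero_mul]
  · intro h; exact absurd (Finset.mem_univ r) h

end gen

variable {ι : Type*} [Fintype ι] [DecidableEq ι] {δ : Type*} [Fintype δ] [DecidableEq δ]
variable {n : Type*} [Fintype n] [DecidableEq n]
variable {k K : Type*} [Field k] [Field K] [Algebra k K]
variable {M : Type*} [AddCommGroup M] [Module K M]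
variable {m : Type*} [Fintype m] [DecidableEq m]
variable {arm : δ → Fin 3} {J : Matrix ι ι K} {B : Matrix δ δ K}
  {N W : Submodule K (Matrix ι δ K)} {F G : Matrix ι δ K} {p : Matrix ι n K}
  {al : Fin 3 → Matrix n n K} {tau : Matrix n n K}
  {β : LinearMap.BilinForm K M} {T : Module.End K M →ₗ[K] Module.End K M}
  {Ψ : Fin 3 → Module.End K M} {D : Module.End K M} {π : (n → K) →ₗ[K] M}
  {e : m → Matrix n n K} {lam : m → K} {l : Fin 3 → ℕ} {TT : Set k}

section basics

variable (h : Fr k arm J B N W F G p al tau β T Ψ D π e lam l TT)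
include h

theorem Fr.gt514 : (pᵀ * J * p)ᵀ = pᵀ * J * p := by
  rw [transpose_mul, transpose_mul, transpose_transpose, h.ctx.data.J_symm, Matrix.mul_assoc]

theorem Fr.g0514 (u : n → K) (hu : π u = 0) : (pᵀ * J * p) *ᵥ u = 0 := by
  have : ∀ y : n → K, y ⬝ᵥ ((pᵀ * J * p) *ᵥ u) = 0 := by
    intro y
    rw [← h.cr.form, hu, map_zero]
  funext i
  have := this (Pi.single i 1)
  rwa [single_one_dotProduct] at this

theorem Fr.pi0514 (u : n → K) (hu : (pᵀ * J * p) *ᵥ u = 0) : π u = 0 := by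
  apply h.cr.ns.nd
  intro w
  obtain ⟨y, rfl⟩ := h.cr.onto w
  rw [h.cr.ns.symm, h.cr.form, hu, dotProduct_zero]

theorem Fr.pe0514 (i : m) (u : n → K) (hu : π u = 0) : π (e i *ᵥ u) = 0 := by
  apply h.pi0514
  rw [mulVec_mulVec, ← h.eg, ← mulVec_mulVec, h.g0514 u hu, mulVec_zero]

theorem Fr.ea514 (i : m) (s : Fin 3) (u : n → K) : al s *ᵥ (e i *ᵥ u) = e i *ᵥ (al s *ᵥ u) := by
  rw [mulVec_mulVec, mulVec_mulVec, h.eal]

theorem Fr.ea_pow514 (i : m) (s : Fin 3) (a : ℕ) (u : n → K) :
    (al s ^ a) *ᵥ (e i *ᵥ u) = e i *ᵥ ((al s ^ a) *ᵥ u) := by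
  have : Commute (e i) (al s ^ a) := (show Commute (e i) (al s) from h.eal i s).pow_right a
  rw [mulVec_mulVec, mulVec_mulVec, this.eq]

theorem Fr.op_pow514 (s : Fin 3) (a : ℕ) (u : n → K) : (Ψ s ^ a) (π u) = π ((al s ^ a) *ᵥ u) := by
  induction a generalizing u with
  | zero => simp
  | succ a ih =>
    rw [pow_succ, pow_succ, Module.End.mul_apply, h.cr.op, ih, mulVec_mulVec]

end basics

section blk514

/-- the block -/
def blk514 (e : m → Matrix n n K) (i : m) : Submodule K (n → K) := LinearMap.range (toLin' (e i))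

variable (h : Fr k arm J B N W F G p al tau β T Ψ D π e lam l TT)
include h

theorem Fr.mem_blk514 (i : m) {u : n → K} : u ∈ blk514 e i ↔ e i *ᵥ u = u := by
  constructor
  · rintro ⟨v, rfl⟩
    rw [toLin'_apply, mulVec_mulVec, h.idem]
  · intro hu
    exact ⟨u, by rw [toLin'_apply, hu]⟩

theorem Fr.blk_st514 (i : m) (s : Fin 3) : ∀ u ∈ blk514 e i, toLin' (al s) u ∈ blk514 e i := by
  rintro _ ⟨v, rfl⟩
  refine ⟨al s *ᵥ v, ?_⟩
  rw [toLin'_apply, toLin'_apply, toLin'_apply, h.ea514]

/-- `al s` on the block -/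
noncomputable def Fr.opb514 (i : m) (s : Fin 3) : Module.End K (blk514 e i) :=
  (toLin' (al s)).restrict (h.blk_st514 i s)

theorem Fr.opb_coe514 (i : m) (s : Fin 3) (u : blk514 e i) :
    ((h.opb514 i s u : blk514 e i) : n → K) = al s *ᵥ (u : n → K) := rfl

theorem Fr.opb_pow514 (i : m) (s : Fin 3) (a : ℕ) (u : blk514 e i) :
    (((h.opb514 i s ^ a) u : blk514 e i) : n → K) = (al s ^ a) *ᵥ (u : n → K) := by
  induction a generalizing u with
  | zero => simp
  | succ a ih => rw [pow_succ, pow_succ, Module.End.mul_apply, ih, h.opb_coe514, mulVec_mulVec]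

theorem Fr.opb_word514 (i : m) (w : List (Fin 3)) (u : blk514 e i) :
    (((w.map (h.opb514 i)).prod u : blk514 e i) : n → K) = (w.map al).prod *ᵥ (u : n → K) := by
  induction w with
  | nil => simp
  | cons s w ih =>
    rw [List.map_cons, List.prod_cons, List.map_cons, List.prod_cons, Module.End.mul_apply,
      h.opb_coe514, ih, mulVec_mulVec]

/-- the radical of the block -/
def rad514 (π : (n → K) →ₗ[K] M) (e : m → Matrix n n K) (i : m) : Submodule K (blk514 e i) :=
  (LinearMap.ker π).comap (blk514 e i).subtype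

end blk514

section span

variable (h : Fr k arm J B N W F G p al tau β T Ψ D π e lam l TT)
include h

theorem vv_eq514 (E : Matrix n n K) (E' : Matrix n n K) (a b : n → K) :
    E * vecMulVec a b * E'ᵀ = vecMulVec (E *ᵥ a) (E' *ᵥ b) := by
  rw [mul_vecMulVec, vecMulVec_mul, vecMul_transpose]

theorem Fr.mtt_e514 (i j : m) (x : blk514 e j ⊗[K] blk514 e i) :
    e j * mtt514 (blk514 e j) (blk514 e i) x * (e i)ᵀ = mtt514 (blk514 e j) (blk514 e i) x := by
  induction x using TensorProduct.induction_on with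
  | zero => simp
  | tmul a b =>
    rw [mtt_tmul514, vv_eq514 h, (h.mem_blk514 j).1 a.2, (h.mem_blk514 i).1 b.2]
  | add a b ha hb => rw [map_add, Matrix.mul_add, Matrix.add_mul, ha, hb]

theorem Fr.mtt_defect514 (i j : m) (s : Fin 3) (c : K) (x : blk514 e j ⊗[K] blk514 e i) :
    mtt514 (blk514 e j) (blk514 e i) (Dual.defect (h.opb514 i s) (h.opb514 j s) c x) =
      mtt514 (blk514 e j) (blk514 e i) x * (al s)ᵀ - c • (al s * mtt514 (blk514 e j) (blk514 e i) x) := by
  induction x using TensorProduct.induction_on with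
  | zero => simp
  | tmul a b =>
    rw [Dual.defect_tmul, map_sub, map_smul, mtt_tmul514, mtt_tmul514, mtt_tmul514, h.opb_coe514, h.opb_coe514,
      mul_vecMulVec, vecMulVec_mul, vecMul_transpose]
  | add a b ha hb =>
    rw [map_add, map_add, map_add, ha, hb, Matrix.add_mul, Matrix.mul_add, smul_add]
    abel

theorem Fr.mtt_rad514 (i j : m) (x : blk514 e j ⊗[K] blk514 e i)
    (hx : x ∈ Dual.Rad (rad514 π e i) (rad514 π e j)) :
    (pᵀ * J * p) * mtt514 (blk514 e j) (blk514 e i) x * (pᵀ * J * p) = 0 := by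
  set g := pᵀ * J * p with hg
  let L : blk514 e j ⊗[K] blk514 e i →ₗ[K] Matrix n n K :=
    { toFun := fun x => g * mtt514 (blk514 e j) (blk514 e i) x * g
      map_add' := fun a b => by rw [map_add, Matrix.mul_add, Matrix.add_mul]
      map_smul' := fun c a => by
        rw [map_smul, Matrix.mul_smul, Matrix.smul_mul]; rfl }
  have hL : ∀ a b, L (a ⊗ₜ[K] b) = vecMulVec (g *ᵥ (a : n → K)) (g *ᵥ (b : n → K)) := by
    intro a b
    change g * mtt514 (blk514 e j) (blk514 e i) (a ⊗ₜ[K] b) * g = _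
    rw [mtt_tmul514]
    have : g = gᵀ := h.gt514.symm
    conv_lhs => rw [this]
    conv_lhs => rw [← this]
    rw [mul_vecMulVec, vecMulVec_mul]
    conv_lhs => rw [this]
    rw [vecMul_transpose]
    conv_lhs => rw [← this]
  have h1 : Dual.Rad (rad514 π e i) (rad514 π e j) ≤ LinearMap.ker L := by
    refine sup_le ?_ ?_
    · rw [Submodule.span_le]
      rintro _ ⟨r, hr, q, rfl⟩
      change _ ∈ LinearMap.ker L
      have hr' : g *ᵥ (r : n → K) = 0 := h.g0514 _ hr
      rw [LinearMap.mem_ker, hL, hr', zero_vecMulVec]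
    · rw [Submodule.span_le]
      rintro _ ⟨q, r, hr, rfl⟩
      change _ ∈ LinearMap.ker L
      have hr' : g *ᵥ (r : n → K) = 0 := h.g0514 _ hr
      rw [LinearMap.mem_ker, hL, hr', vecMulVec_zero]
  exact LinearMap.mem_ker.1 (h1 hx)

theorem Fr.dec_perf514 (i : m) (q : blk514 e i) : ∃ f : Fin 3 → blk514 e i, q = ∑ t, h.opb514 i t (f t) := by
  obtain ⟨ρ, hρ⟩ := h.ctx.perf
  refine ⟨fun t => ⟨e i *ᵥ (ρ t *ᵥ (q : n → K)), (h.mem_blk514 i).2 (by
    rw [mulVec_mulVec, h.idem])⟩, ?_⟩
  apply Subtype.ext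
  rw [AddSubmonoidClass.coe_finsetSum]
  simp only [h.opb_coe514]
  have h1 : ∀ t, al t *ᵥ (e i *ᵥ (ρ t *ᵥ (q : n → K))) = e i *ᵥ ((al t * ρ t) *ᵥ (q : n → K)) := by
    intro t
    rw [h.ea514, ← mulVec_mulVec (q : n → K) (al t) (ρ t)]
  simp only [h1]
  rw [← mulVec_sum, ← Matrix.sum_mulVec, hρ, one_mulVec, (h.mem_blk514 i).1 q.2]

/-- the block generators are good -/
theorem Fr.span_off514 {i j : m} (hij : i ≠ j) [CharZero K]
    (hh : HalvesP arm J B N W F p al T Ψ π e i j) :
    (∀ s a a', a + a' + 1 = l s → ∀ y y' : n → K,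
      (Pi.single s (vecMulVec ((al s ^ a') *ᵥ (e j *ᵥ y)) ((al s ^ a) *ᵥ (e i *ᵥ y'))) :
        Fin 3 → Matrix n n K) ∈ RDEnd.Rel arm J N W F p π T 0 Ψ) ∧
    (∀ s r, π (e j *ᵥ r) = 0 → ∀ y,
      (Pi.single s (vecMulVec (e j *ᵥ r) (e i *ᵥ y)) : Fin 3 → Matrix n n K) ∈
        RDEnd.Rel arm J N W F p π T 0 Ψ) ∧
    (∀ s r, π (e i *ᵥ r) = 0 → ∀ y,
      (Pi.single s (vecMulVec (e j *ᵥ y) (e i *ᵥ r)) : Fin 3 → Matrix n n K) ∈
        RDEnd.Rel arm J N W F p π T 0 Ψ) := by
  classical
  obtain ⟨S, hS, hall⟩ := hh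
  set Λ : Set K := (S ∪ {0})ᶜ with hΛ
  have hSf : (S ∪ {0}).Finite := hS.union (Set.finite_singleton 0)
  have hΛi : Λ.Infinite := hSf.infinite_compl
  have h0 : (0 : K) ∉ Λ := fun h0 => h0 (Or.inr rfl)
  let q : Fin 3 → blk514 e j →ₗ[K] blk514 e i →ₗ[K] (Fin 3 → Matrix n n K) := fun s =>
    (RDEnd.qs s).compl₁₂ (blk514 e j).subtype (blk514 e i).subtype
  have hq : ∀ s a b, q s a b = Pi.single s (vecMulVec (a : n → K) (b : n → K)) := fun s a b => rfl
  have hlift : ∀ s x, TensorProduct.lift (q s) x = Pi.single s (mtt514 (blk514 e j) (blk514 e i) x) := by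
    intro s x
    induction x using TensorProduct.induction_on with
    | zero => simp
    | tmul a b => rw [TensorProduct.lift.tmul, hq, mtt_tmul514]
    | add a b ha hb => rw [map_add, map_add, ha, hb, Pi.single_add]
  have hkey := Dual.span_exact (A := h.opb514 i) (B := h.opb514 j) (R1 := rad514 π e i) (R2 := rad514 π e j)
    (l := l) hΛi h0 (h.dec_perf514 i) (h.dec_perf514 j)
    (fun t r hr => by
      change π _ = 0
      change π _ = 0 at hr
      rw [Submodule.subtype_apply] at hr ⊢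
      rw [h.opb_coe514, ← h.cr.op, hr, map_zero])
    (fun t r hr => by
      change π _ = 0
      change π _ = 0 at hr
      rw [Submodule.subtype_apply] at hr ⊢
      rw [h.opb_coe514, ← h.cr.op, hr, map_zero])
    (by
      obtain ⟨m0, hm0⟩ := h.kill
      refine ⟨m0, fun r hr w hw => ?_⟩
      apply Subtype.ext
      rw [h.opb_word514]
      exact hm0 w hw _ hr)
    (by
      obtain ⟨m0, hm0⟩ := h.kill
      refine ⟨m0, fun r hr w hw => ?_⟩
      apply Subtype.ext
      rw [h.opb_word514]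
      exact hm0 w hw _ hr)
    (fun s u => by
      change π _ = 0
      rw [Submodule.subtype_apply, h.opb_pow514, ← h.op_pow514, h.lnil, LinearMap.zero_apply])
    (fun s u => by
      change π _ = 0
      rw [Submodule.subtype_apply, h.opb_pow514, ← h.op_pow514, h.lnil, LinearMap.zero_apply])
    (fun S' h1 h2 r hr => by
      have h3 := h.gen i (S'.map (blk514 e i).subtype) (by
        rintro s _ ⟨v, hv, rfl⟩
        exact ⟨h.opb514 i s v, h2 s v hv, rfl⟩) (by
        intro s u
        refine ⟨(h.opb514 i s ^ l s) ⟨e i *ᵥ u, ⟨u, rfl⟩⟩, h1 s _, ?_⟩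
        rw [Submodule.subtype_apply, h.opb_pow514]) (r : n → K) (by
        rw [(h.mem_blk514 i).1 r.2]; exact hr)
      rw [(h.mem_blk514 i).1 r.2] at h3
      obtain ⟨v, hv, hv'⟩ := h3
      rwa [← Subtype.ext hv'])
    (fun S' h1 h2 r hr => by
      have h3 := h.gen j (S'.map (blk514 e j).subtype) (by
        rintro s _ ⟨v, hv, rfl⟩
        exact ⟨h.opb514 j s v, h2 s v hv, rfl⟩) (by
        intro s u
        refine ⟨(h.opb514 j s ^ l s) ⟨e j *ᵥ u, ⟨u, rfl⟩⟩, h1 s _, ?_⟩
        rw [Submodule.subtype_apply, h.opb_pow514]) (r : n → K) (by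
        rw [(h.mem_blk514 j).1 r.2]; exact hr)
      rw [(h.mem_blk514 j).1 r.2] at h3
      obtain ⟨v, hv, hv'⟩ := h3
      rwa [← Subtype.ext hv'])
    q (RDEnd.Rel arm J N W F p π T 0 Ψ)
    (by
      intro c hc x hx
      have hcS : c ∉ S := fun h' => hc (Or.inl h')
      have hc0 : c ≠ 0 := fun h' => hc (Or.inr h')
      set X : Fin 3 → Matrix n n K := fun r => mtt514 (blk514 e j) (blk514 e i) (x r) with hX
      have e0 : ∑ t, TensorProduct.lift (q t) (x t) = X := by
        funext r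
        rw [Finset.sum_apply, Finset.sum_eq_single r]
        · rw [hlift, Pi.single_eq_same]
        · intro s _ hs
          rw [hlift, Pi.single_eq_of_ne (Ne.symm hs)]
        · intro hr; exact absurd (Finset.mem_univ r) hr
      have e1 : ∑ r, (X r * (al r)ᵀ - c • (al r * X r)) = 0 := by
        have := congrArg (mtt514 (blk514 e j) (blk514 e i)) hx.1
        rw [map_sum, map_zero] at this
        rw [← this]
        exact Finset.sum_congr rfl fun r _ => (h.mtt_defect514 i j r c (x r)).symm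
      have e2 : ∀ r, (pᵀ * J * p) * (X r * (al r)ᵀ - c • (al r * X r)) * (pᵀ * J * p) = 0 := by
        intro r
        rw [← h.mtt_defect514 i j r c (x r)]
        exact h.mtt_rad514 i j _ (hx.2 r)
      have e3 : ∀ r, e j * X r * (e i)ᵀ = X r := fun r => h.mtt_e514 i j (x r)
      obtain ⟨b, kk, f1, f2, f3, f4, f5, f6⟩ := h.hexS i j hij c hc0 X e3 e1 e2
      have hdec : Dec (pᵀ * J * p) π e i j (fun r => al r) (fun r => c • al r) X b kk :=
        { bx := e3
          bb := f1
          bk := f2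
          rb := f3
          rk := f4
          sum := by
            rw [← e1]
            exact Finset.sum_congr rfl fun r _ => by rw [Matrix.smul_mul]
          arm := fun r => by
            have := e2 r
            rwa [← Matrix.smul_mul] at this
          eb := fun r => by rw [f5 r, Matrix.mul_smul]
          ek := fun r => by rw [f6 r, Matrix.smul_mul] }
      obtain ⟨⟨w, z, μ, g1, g2, g3, -, ⟨zb, g4, g5⟩, -, -⟩, -⟩ := hall c hcS X b kk hdec
      rw [e0]
      exact ⟨w, z, zb, g1, g2, g3, g4, g5⟩)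
  obtain ⟨k1, k2, k3⟩ := hkey
  refine ⟨fun s a a' haa y y' => ?_, fun s r hr y => ?_, fun s r hr y => ?_⟩
  · have := k1 s a a' haa ⟨e j *ᵥ y, ⟨y, rfl⟩⟩ ⟨e i *ᵥ y', ⟨y', rfl⟩⟩
    rwa [hq, h.opb_pow514, h.opb_pow514] at this
  · exact k2 s ⟨e j *ᵥ r, ⟨r, rfl⟩⟩ hr ⟨e i *ᵥ y, ⟨y, rfl⟩⟩
  · exact k3 s ⟨e i *ᵥ r, ⟨r, rfl⟩⟩ hr ⟨e j *ᵥ y, ⟨y, rfl⟩⟩

/-- **filtered off-diagonal single-arm families are good** -/
theorem offdiag {i j : m} (hij : i ≠ j) [CharZero K]
    (hh : HalvesP arm J B N W F p al T Ψ π e i j) : OffP arm J N W F p T Ψ π e i j := by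
  classical
  intro s y hy hfil
  obtain ⟨k1, k2, k3⟩ := h.span_off514 hij hh
  obtain ⟨yb, hyb1, hyb2⟩ := hfil
  have hfd : FiniteDimensional K M := Module.Finite.of_surjective π h.cr.onto
  set g : Matrix n n K := pᵀ * J * p with hg
  -- the quotient
  let eq : ((n → K) ⧸ LinearMap.ker π) ≃ₗ[K] M := π.quotKerEquivOfSurjective h.cr.onto
  have he : ∀ x, eq ((LinearMap.ker π).mkQ x) = π x := fun x => rfl
  let φq : Module.End K ((n → K) ⧸ LinearMap.ker π) := eq.symm.conj (Ψ s)
  have hφq' : ∀ x, φq x = eq.symm (Ψ s (eq x)) := fun x => rfl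
  have hpow : ∀ (a : ℕ) x, (φq ^ a) x = eq.symm ((Ψ s ^ a) (eq x)) := by
    intro a
    induction a with
    | zero => intro x; simp
    | succ a ih =>
      intro x
      rw [pow_succ, Module.End.mul_apply, ih, hφq', LinearEquiv.apply_symm_apply, pow_succ,
        Module.End.mul_apply]
  have hw : ∀ x y, Matrix.toLinearMap₂' K g x y = β (π x) (π y) := by
    intro x y
    rw [Matrix.toLinearMap₂'_apply', h.cr.form]
  obtain ⟨wq, hwq, hn, hsq⟩ := SPE.exists_wq (R := LinearMap.ker π) (Matrix.toLinearMap₂' K g)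
    (η := 1) (fun x y => by rw [one_mul, hw, hw, h.cr.ns.symm])
    (fun x => by
      rw [LinearMap.mem_ker]
      constructor
      · intro hx y; rw [hw, hx, map_zero, LinearMap.zero_apply]
      · intro hx
        apply h.cr.ns.nd
        intro w
        obtain ⟨y, rfl⟩ := h.cr.onto w
        rw [← hw]; exact hx y)
  have hsq' : ∀ x y, wq x y = wq y x := fun x y => by rw [hsq, one_mul]
  have hwb : ∀ x y, wq x y = β (eq x) (eq y) := by
    intro x y
    obtain ⟨x, rfl⟩ := (LinearMap.ker π).mkQ_surjective x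
    obtain ⟨y, rfl⟩ := (LinearMap.ker π).mkQ_surjective y
    rw [hwq, hw, he, he]
  obtain ⟨T0, hT0⟩ := exists_mt514 y
  let q : (n → K) →ₗ[K] (n → K) →ₗ[K] (Fin 3 → Matrix n n K) :=
    ((RDEnd.qs s).compl₁₂ (toLin' (e j)) (toLin' (e i))).flip
  have hq : ∀ a b, q a b = Pi.single s (vecMulVec (e j *ᵥ b) (e i *ᵥ a)) := fun a b => rfl
  have hlift : TensorProduct.lift q (TensorProduct.comm K (n → K) (n → K) T0) =
      Pi.single s (e j * RDEnd.mt T0 * (e i)ᵀ) := by
    clear hT0
    induction T0 using TensorProduct.induction_on with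
    | zero => simp
    | tmul a b =>
      rw [TensorProduct.comm_tmul, TensorProduct.lift.tmul, hq, RDEnd.mt_tmul, vv_eq514 h]
    | add a b ha hb =>
      rw [map_add, map_add, ha, hb, ← Pi.single_add, map_add, Matrix.mul_add, Matrix.add_mul]
  have hmem := SPE.tensor_mem (R := LinearMap.ker π) (w := Matrix.toLinearMap₂' K g) (wq := wq)
    (E := Fin 3 → Matrix n n K) (S := RDEnd.Rel arm J N W F p π T 0 Ψ) (φ := toLin' (al s))
    (φq := φq) (l := l s) (ε := 1) (q := q) (X := eq.symm.conj yb)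
    (T := TensorProduct.comm K (n → K) (n → K) T0)
    hn (fun x hx => hn x fun y => by rw [hsq', hx]) hwq
    (fun x => by
      apply eq.injective
      rw [hφq', LinearEquiv.apply_symm_apply, he, he, toLin'_apply, h.cr.op])
    (fun x y => by
      rw [one_mul, hwb, hwb, hφq', hφq', LinearEquiv.apply_symm_apply,
        LinearEquiv.apply_symm_apply, h.cr.sa])
    (by
      apply LinearMap.ext
      intro x
      rw [hpow, h.lnil, LinearMap.zero_apply, map_zero, LinearMap.zero_apply])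
    (by
      have e1 : LinearMap.ker φq = (LinearMap.ker (Ψ s)).map (eq.symm : M →ₗ[K] _) := by
        ext x
        rw [LinearMap.mem_ker, Submodule.mem_map]
        constructor
        · intro hx
          refine ⟨eq x, ?_, by simp⟩
          rw [LinearMap.mem_ker]
          apply eq.symm.injective
          rw [map_zero]
          exact hx
        · rintro ⟨u, hu, rfl⟩
          change eq.symm (Ψ s (eq (eq.symm u))) = 0
          rw [LinearEquiv.apply_symm_apply, LinearMap.mem_ker.1 hu, map_zero]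
      rw [e1, LinearEquiv.finrank_map_eq, h.free, eq.finrank_eq])
    (fun r hr u => by
      rw [hq]
      exact k3 s r (h.pe0514 i r (LinearMap.mem_ker.1 hr)) u)
    (fun r hr u => by
      rw [hq]
      exact k2 s r (h.pe0514 j r (LinearMap.mem_ker.1 hr)) u)
    (fun a a' haa u u' => by
      rw [hq, ← Matrix.toLin'_pow, ← Matrix.toLin'_pow, Matrix.toLin'_apply,
        Matrix.toLin'_apply, ← h.ea_pow514, ← h.ea_pow514]
      exact k1 s a a' haa u' u)
    (by
      rintro a _ ⟨x, rfl⟩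
      obtain ⟨v', hv'⟩ := hyb2 a (eq x)
      refine ⟨eq.symm v', ?_⟩
      rw [hpow, LinearEquiv.apply_symm_apply, ← hv', hpow]
      change _ = eq.symm (yb (eq (eq.symm _)))
      rw [LinearEquiv.apply_symm_apply])
    (fun x x' => by
      rw [SPE.ct_comm, RDEnd.ct_mt, hT0, hwb]
      change _ = β (eq (eq.symm (yb (eq ((LinearMap.ker π).mkQ x))))) _
      rw [LinearEquiv.apply_symm_apply, he, he, ← hyb1, h.cr.ns.symm, h.cr.form, RDEnd.dt,
        h.gt514])
  rwa [hlift, hT0, hy] at hmem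

end span

end Crest.Agent.R172.RD
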