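import Crest.Agent.R172.RDpick
import Crest.Agent.R172.RDP
import Crest.Agent.R172.FilZ

/-!
Row 172 (S0260), `RD`: `second` (independent copy by helper302).
-/

set_option autoImplicit false
set_option linter.unusedSectionVars false

namespace Crest.Agent.R172.RDS302

open Matrix Module TensorProduct Crest.Agent.R172.FO Crest.Agent.R172.FrmB
open Crest.Agent.R172.Core (NS Tame)
open Crest.Agent.R172.PL (Wk)
open Crest.Agent.R172.RD

variable {ι : Type*} [Fintype ι] [DecidableEq ι] {δ : Type*} [Fintype δ] [DecidableEq δ]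
variable {n : Type*} [Fintype n] [DecidableEq n]
variable {k K : Type*} [Field k] [Field K] [Algebra k K]
variable {M : Type*} [AddCommGroup M] [Module K M]
variable {m : Type*} [Fintype m] [DecidableEq m]

section off

variable {e : m → Matrix n n K}

theorem off_blk (orth : ∀ i j, i ≠ j → e i * e j = 0) {i j : m} (hij : i ≠ j) {A : Matrix n n K}
    (hA : e i * A * e j = A) : off e A = A := by
  unfold off
  have : ∀ l, e l * A * e l = 0 := by
    intro l
    rw [← hA]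
    by_cases hl : l = i
    · subst hl
      simp only [Matrix.mul_assoc]
      rw [orth j l (Ne.symm hij)]
      simp
    · simp only [← Matrix.mul_assoc]
      rw [orth l i hl]
      simp
  simp [this]

theorem off_mul_e (idem : ∀ i, e i * e i = e i) (orth : ∀ i j, i ≠ j → e i * e j = 0)
    (A : Matrix n n K) (i : m) : A * e i = e i * A * e i + off e A * e i := by
  unfold off
  rw [Matrix.sub_mul, Pick.diag_mul idem orth (fun _ => A) i]
  abel

/-- right multiplication by a transpose -/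
theorem rt {Z C ei x : Matrix n n K} (hZ : Z * ei = ei * Z * ei + C) (hx : x * eiᵀ = x) :
    x * Zᵀ = x * Zᵀ * eiᵀ + x * Cᵀ := by
  have h1 := congrArg transpose hZ
  simp only [transpose_mul, transpose_add] at h1
  calc x * Zᵀ = x * eiᵀ * Zᵀ := by rw [hx]
    _ = x * (eiᵀ * Zᵀ) := by rw [Matrix.mul_assoc]
    _ = x * (eiᵀ * (Zᵀ * eiᵀ) + Cᵀ) := by rw [h1]
    _ = x * eiᵀ * Zᵀ * eiᵀ + x * Cᵀ := by simp only [Matrix.mul_add, Matrix.mul_assoc]
    _ = _ := by rw [hx]

end off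

variable {arm : δ → Fin 3} {J : Matrix ι ι K} {B : Matrix δ δ K}
  {N W : Submodule K (Matrix ι δ K)} {F G : Matrix ι δ K} {p : Matrix ι n K}
  {al : Fin 3 → Matrix n n K} {tau : Matrix n n K}
  {β : LinearMap.BilinForm K M} {T : Module.End K M →ₗ[K] Module.End K M}
  {Ψ : Fin 3 → Module.End K M} {D : Module.End K M} {π : (n → K) →ₗ[K] M}
  {e : m → Matrix n n K} {lam : m → K} {l : Fin 3 → ℕ} {TT : Set k}

/-- the derivative of the action, with `p` in front -/
theorem al_der' (hD : Data k arm J B N W) (hal : ∀ r, Phi arm J B F r * p = p * al r)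
    {wY : Matrix ι δ K} {zY : Matrix n n K} (hval : wYᵀ * J * p = Fᵀ * J * p * zY)
    {μ : Fin 3 → Matrix n n K} (hμ : ∀ r, wY * E K arm r * B * (Fᵀ * J * p) = p * μ r)
    {d : Derivation k K K} (hdF : F.map d = wY) {P : Matrix n n K} (hp : p.map d = p * P)
    (r : Fin 3) : p * FC.nab d P (al r) = p * (μ r + al r * zY) := by
  have e1 : (Phi arm J B F r).map d * p =
      wY * E K arm r * B * (Fᵀ * J * p) + F * E K arm r * B * (wYᵀ * J * p) := by
    unfold Phi M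
    rw [map_mul_der, map_mul_der, map_mul_der, map_mul_der, hD.J_const, hD.B_const, E_map_der,
      map_transpose_der, hdF]
    simp only [Matrix.mul_zero, Matrix.add_mul, add_zero, Matrix.mul_assoc]
  have e2 := congrArg (fun A : Matrix ι n K => A.map d) (hal r)
  rw [map_mul_der, map_mul_der, hp, e1, hval, hμ] at e2
  have e3 : F * E K arm r * B * (Fᵀ * J * p * zY) = p * (al r * zY) := by
    have : Phi arm J B F r * p * zY = p * al r * zY := by rw [hal]
    rw [← Matrix.mul_assoc p, ← this]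
    unfold Phi M
    simp only [Matrix.mul_assoc]
  have e4 : Phi arm J B F r * (p * P) = p * (al r * P) := by
    rw [← Matrix.mul_assoc, hal, Matrix.mul_assoc]
  rw [e3, e4] at e2
  unfold FC.nab
  rw [Matrix.mul_sub, Matrix.mul_add, Matrix.mul_add]
  have e5 : p * (al r).map d + p * (P * al r) = p * μ r + p * (al r * zY) + p * (al r * P) := by
    rw [← Matrix.mul_assoc p P, e2]
    abel
  rw [e5]
  abel

/-- **RD3**: SECOND: the bilinear relation -/
theorem second [CharZero K] (h : Fr k arm J B N W F G p al tau β T Ψ D π e lam l TT)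
    {i j : m} (hij : i ≠ j) (hod : ∀ i j : m, i ≠ j → OffP arm J N W F p T Ψ π e i j) :
    SecondP arm J B N W F p al T Ψ π e i j := by
  intro c c' hc hc' x y b kk b' kk' hx hy hx1 hx2 hy1
  obtain ⟨w1, z1, μ1, hw1, hn1, hv1, hm1, hz1, ho1, hq1⟩ := hx1
  obtain ⟨w2, z2, μ2, hw2, hn2, hv2, hm2, hz2, ho2, hq2⟩ := hx2
  obtain ⟨w3, z3, μ3, hw3, hn3, hv3, hm3, hz3, ho3, hq3⟩ := hy1
  have hD := h.ctx.data
  set g : Matrix n n K := pᵀ * J * p with hgdef
  -- the direction `Y = x - xᵀ`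
  have hQ1 : Q3 arm J B N W F p x w1 z1 := ⟨hw1, hn1, hv1, fun r => ⟨_, hm1 r⟩⟩
  have hQ2 : Q3 arm J B N W F p (fun r => (x r)ᵀ) w2 z2 := ⟨hw2, hn2, hv2, fun r => ⟨_, hm2 r⟩⟩
  have hQ3 : Q3 arm J B N W F p y w3 z3 := ⟨hw3, hn3, hv3, fun r => ⟨_, hm3 r⟩⟩
  have hQY : Q3 arm J B N W F p (fun r => x r - (x r)ᵀ) (w1 - w2) (z1 - z2) := by
    have := hQ1.add (hQ2.smul (-1))
    simpa only [neg_one_smul, ← sub_eq_add_neg] using this
  have hzY : z1 - z2 ∈ ZFr.ZF T π Ψ := Submodule.sub_mem _ hz1 hz2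
  have hskew : ∀ r, (x r - (x r)ᵀ)ᵀ = -(x r - (x r)ᵀ) := by
    intro r; rw [transpose_sub, transpose_transpose]; abel
  obtain ⟨ρ, hρ⟩ := h.ctx.perf
  obtain ⟨m0, hwk⟩ := h.wk
  obtain ⟨d, hreal, hdF⟩ := exists_D hD h.vt hskew hQY
  obtain ⟨P0, hP0⟩ := persist_Q hD h.ctx.hal hρ hwk hQY hdF
  have hmY : ∀ r, (w1 - w2) * E K arm r * B * (Fᵀ * J * p) = p * (μ1 r - μ2 r) := by
    intro r
    rw [Matrix.sub_mul, Matrix.sub_mul, Matrix.sub_mul, hm1, hm2, Matrix.mul_sub]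
  -- pick
  obtain ⟨P, hP, hPo⟩ : ∃ P, p.map d = p * P ∧ off e P = b + kk := by
    refine pick h (t := 0) (Or.inr rfl) (kap := 1) (by simp) hP0
      (U := fun r => (μ1 r - μ2 r) + al r * (z1 - z2)) ?_ (C := b + kk) ?_ ?_ ?_
    · intro s
      rw [Matrix.mul_one, Matrix.mul_one]
      exact al_der' hD h.ctx.hal hQY.val hmY hdF hP0 s
    · rw [Pick.off_add, off_blk h.orth hij hx.bb, off_blk h.orth (Ne.symm hij) hx.bk]
    · intro u
      rw [Matrix.add_mulVec, map_add, hx.rb, hx.rk, add_zero]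
    · intro s
      rw [Pick.off_add, Pick.off_sub, Pick.mul_off _ (fun i => h.eal i s), Pick.off_sub, hq1, hq2,
        ho1, ho2, Matrix.mul_one, Matrix.mul_one]
      simp only [Matrix.mul_sub, Matrix.mul_add, Matrix.add_mul, Matrix.mul_neg]
      abel
  have hS := FrmB.second hD hQY hreal hdF hP hQ3
  have hZ := ZFr.second (q := π) hD (FilZ.cf h.cr) h.ctx.hal (fun r u => (h.cr.op r u).symm)
    hQY.val hdF hP hzY hz3
  -- membership of the new family
  have hRel : (fun r => (y r).map d + P * y r + y r * Pᵀ + y r * (z1 - z2)ᵀ -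
      (x r - (x r)ᵀ) * (pᵀ * J * p) * y r + (x r - (x r)ᵀ) * z3ᵀ) ∈
      RDEnd.Rel arm J N W F p π T 0 Ψ := by
    obtain ⟨zb, hl, hzz⟩ := hZ
    exact RDEnd.mem_Rel_of_Q3 hS hl hzz
  -- the filtered parts
  have hgm : (pᵀ * J * p).map d = Pᵀ * (pᵀ * J * p) + (pᵀ * J * p) * P := ZFr.g_der hD hP
  have hv := ZFr.al_der hD h.ctx.hal hQY.val hdF hP
  have hFy : ∀ s, Fil (pᵀ * J * p) π Ψ s (y s) := fun s => by
    refine FilZ.Fil.of_exact h.cr hc' ?_
    have := hy.arm s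
    rwa [Matrix.smul_mul] at this
  have hFx : ∀ s, Fil (pᵀ * J * p) π Ψ s (x s) := fun s => by
    refine FilZ.Fil.of_exact h.cr hc ?_
    have := hx.arm s
    rwa [Matrix.smul_mul] at this
  have hFxt : ∀ s, Fil (pᵀ * J * p) π Ψ s (x s)ᵀ := fun s => by
    refine FilZ.Fil.of_exact_transpose h.cr hc ?_ hD.J_symm
    have := hx.arm s
    rwa [Matrix.smul_mul] at this
  have hV : ∀ s, Fil (pᵀ * J * p) π Ψ s
      ((y s).map d + P * y s + y s * Pᵀ + y s * (z1 - z2)ᵀ + x s * z3ᵀ) := fun s =>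
    FilZ.Fil.add (FilZ.Fil.add (FilZ.Fil.nab h.cr hgm hv hzY (hFy s))
      (FilZ.Fil.mul_ZF (FilZ.cf h.cr) hzY (hFy s))) (FilZ.Fil.mul_ZF (FilZ.cf h.cr) hz3 (hFx s))
  have hV' : ∀ s, Fil (pᵀ * J * p) π Ψ s ((x s)ᵀ * z3ᵀ) := fun s =>
    FilZ.Fil.mul_ZF (FilZ.cf h.cr) hz3 (hFxt s)
  -- cut parts in `Rel`
  have cutmem : ∀ (a c : m), a ≠ c → ∀ V : Fin 3 → Matrix n n K,
      (∀ s, Fil (pᵀ * J * p) π Ψ s (V s)) →
      (fun s => e c * V s * (e a)ᵀ) ∈ RDEnd.Rel arm J N W F p π T 0 Ψ := by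
    intro a c hac V hVf
    have h1 : (fun s => e c * V s * (e a)ᵀ) =
        ∑ s, (Pi.single s (e c * V s * (e a)ᵀ) : Fin 3 → Matrix n n K) := by
      rw [Finset.univ_sum_single]
    rw [h1]
    refine Submodule.sum_mem _ fun s _ => hod a c hac s _ ?_ ?_
    · calc e c * (e c * V s * (e a)ᵀ) * (e a)ᵀ
          = (e c * e c) * V s * ((e a) * (e a))ᵀ := by
            rw [transpose_mul]; simp only [Matrix.mul_assoc]
        _ = _ := by rw [h.idem, h.idem]
    · exact FilZ.Fil.cut h.cr (h.eg c) (h.eal c s) (h.eg a) (h.eal a s) (hVf s)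
  have hR1 := cutmem i j hij _ hV
  have hR2 := cutmem j i (Ne.symm hij) _ hV'
  -- the identity
  have hkey : ∀ r, b * y r + (x r)ᵀ * (pᵀ * J * p) * y r + (x r)ᵀ * b'ᵀ =
      ((y r).map d + P * y r + y r * Pᵀ + y r * (z1 - z2)ᵀ -
      (x r - (x r)ᵀ) * (pᵀ * J * p) * y r + (x r - (x r)ᵀ) * z3ᵀ) -
      e j * ((y r).map d + P * y r + y r * Pᵀ + y r * (z1 - z2)ᵀ + x r * z3ᵀ) * (e i)ᵀ +
      e i * ((x r)ᵀ * z3ᵀ) * (e j)ᵀ := by
    intro r
    have jy : e j * y r = y r := by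
      conv_lhs => rw [← hy.bx r]
      rw [← Matrix.mul_assoc, ← Matrix.mul_assoc, h.idem, hy.bx]
    have yi : y r * (e i)ᵀ = y r := by
      conv_lhs => rw [← hy.bx r]
      rw [Matrix.mul_assoc, ← transpose_mul, h.idem, hy.bx]
    have jx : e j * x r = x r := by
      conv_lhs => rw [← hx.bx r]
      rw [← Matrix.mul_assoc, ← Matrix.mul_assoc, h.idem, hx.bx]
    have xi : x r * (e i)ᵀ = x r := by
      conv_lhs => rw [← hx.bx r]
      rw [Matrix.mul_assoc, ← transpose_mul, h.idem, hx.bx]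
    have xti : e i * (x r)ᵀ = (x r)ᵀ := by
      have := congrArg transpose xi
      rwa [transpose_mul, transpose_transpose] at this
    have xtj : (x r)ᵀ * (e j)ᵀ = (x r)ᵀ := by
      have := congrArg transpose jx
      rwa [transpose_mul] at this
    have bj : b * e j = b := by
      conv_lhs => rw [← hx.bb]
      rw [Matrix.mul_assoc, h.idem, hx.bb]
    have bi : b * e i = 0 := by
      rw [← hx.bb, Matrix.mul_assoc, h.orth j i (Ne.symm hij), Matrix.mul_zero]
    have ki : kk * e i = kk := by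
      conv_lhs => rw [← hx.bk]
      rw [Matrix.mul_assoc, h.idem, hx.bk]
    have kj : kk * e j = 0 := by
      rw [← hx.bk, Matrix.mul_assoc, h.orth i j hij, Matrix.mul_zero]
    have b'j : b' * e j = b' := by
      conv_lhs => rw [← hy.bb]
      rw [Matrix.mul_assoc, h.idem, hy.bb]
    have b'i : b' * e i = 0 := by
      rw [← hy.bb, Matrix.mul_assoc, h.orth j i (Ne.symm hij), Matrix.mul_zero]
    have fPj : P * e j = e j * P * e j + b := by
      rw [off_mul_e h.idem h.orth P j, hPo, Matrix.add_mul, bj, kj, add_zero]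
    have fPi : P * e i = e i * P * e i + kk := by
      rw [off_mul_e h.idem h.orth P i, hPo, Matrix.add_mul, bi, ki, zero_add]
    have fzY : (z1 - z2) * e i = e i * (z1 - z2) * e i + -kk := by
      rw [off_mul_e h.idem h.orth (z1 - z2) i, Pick.off_sub, ho1, ho2, Matrix.sub_mul,
        Matrix.neg_mul, bi, ki, neg_zero, zero_sub]
    have fz3i : z3 * e i = e i * z3 * e i + 0 := by
      rw [off_mul_e h.idem h.orth z3 i, ho3, Matrix.neg_mul, b'i, neg_zero]
    have fz3j : z3 * e j = e j * z3 * e j + -b' := by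
      rw [off_mul_e h.idem h.orth z3 j, ho3, Matrix.neg_mul, b'j]
    -- the five terms
    have t0 : e j * (y r).map d * (e i)ᵀ = (y r).map d := by
      have h1 := congrArg (fun A : Matrix n n K => A.map d) (hy.bx r)
      simp only [map_mul_der, map_transpose_der, h.eC, Matrix.zero_mul, transpose_zero,
        Matrix.mul_zero, zero_add, add_zero] at h1
      exact h1
    have t1 : P * y r = e j * (P * y r) * (e i)ᵀ + b * y r := by
      calc P * y r = P * e j * y r := by rw [Matrix.mul_assoc, jy]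
        _ = e j * P * (e j * y r) + b * y r := by rw [fPj, Matrix.add_mul, Matrix.mul_assoc _ (e j)]
        _ = e j * (P * (y r * (e i)ᵀ)) + b * y r := by rw [jy, yi, Matrix.mul_assoc]
        _ = _ := by simp only [Matrix.mul_assoc]
    have t2 : y r * Pᵀ = e j * (y r * Pᵀ) * (e i)ᵀ + y r * kkᵀ := by
      conv_lhs => rw [rt fPi yi]
      rw [← Matrix.mul_assoc (e j), jy]
    have t3 : y r * (z1 - z2)ᵀ = e j * (y r * (z1 - z2)ᵀ) * (e i)ᵀ - y r * kkᵀ := by
      conv_lhs => rw [rt fzY yi]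
      rw [← Matrix.mul_assoc (e j), jy, transpose_neg, Matrix.mul_neg, ← sub_eq_add_neg]
    have t4 : x r * z3ᵀ = e j * (x r * z3ᵀ) * (e i)ᵀ := by
      conv_lhs => rw [rt fz3i xi]
      rw [← Matrix.mul_assoc (e j), jx, transpose_zero, Matrix.mul_zero, add_zero]
    have t5 : (x r)ᵀ * z3ᵀ = e i * ((x r)ᵀ * z3ᵀ) * (e j)ᵀ - (x r)ᵀ * b'ᵀ := by
      conv_lhs => rw [rt fz3j xtj]
      rw [← Matrix.mul_assoc (e i), xti, transpose_neg, Matrix.mul_neg, ← sub_eq_add_neg]
    have t6 : x r * (pᵀ * J * p) * y r = 0 := by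
      calc x r * (pᵀ * J * p) * y r = x r * (e i)ᵀ * (pᵀ * J * p) * (e j * y r) := by
            rw [xi, jy]
        _ = x r * ((e i)ᵀ * (pᵀ * J * p)) * e j * y r := by simp only [Matrix.mul_assoc]
        _ = x r * (pᵀ * J * p) * (e i * e j) * y r := by rw [h.eg]; simp only [Matrix.mul_assoc]
        _ = 0 := by rw [h.orth i j hij, Matrix.mul_zero, Matrix.zero_mul]
    have t7 : (x r - (x r)ᵀ) * (pᵀ * J * p) * y r = -((x r)ᵀ * (pᵀ * J * p) * y r) := by
      rw [Matrix.sub_mul, Matrix.sub_mul, t6, zero_sub]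
    have t8 : (x r - (x r)ᵀ) * z3ᵀ = x r * z3ᵀ - (x r)ᵀ * z3ᵀ := by rw [Matrix.sub_mul]
    rw [t7, t8]
    have t9 : e j * ((y r).map d + P * y r + y r * Pᵀ + y r * (z1 - z2)ᵀ + x r * z3ᵀ) * (e i)ᵀ =
        e j * (y r).map d * (e i)ᵀ + e j * (P * y r) * (e i)ᵀ + e j * (y r * Pᵀ) * (e i)ᵀ +
        e j * (y r * (z1 - z2)ᵀ) * (e i)ᵀ + e j * (x r * z3ᵀ) * (e i)ᵀ := by
      simp only [Matrix.mul_add, Matrix.add_mul]
    rw [t9, t0, ← t4]
    have u1 : e j * (P * y r) * (e i)ᵀ = P * y r - b * y r := by rw [eq_sub_iff_add_eq, ← t1]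
    have u2 : e j * (y r * Pᵀ) * (e i)ᵀ = y r * Pᵀ - y r * kkᵀ := by
      rw [eq_sub_iff_add_eq, ← t2]
    have u3 : e j * (y r * (z1 - z2)ᵀ) * (e i)ᵀ = y r * (z1 - z2)ᵀ + y r * kkᵀ := by
      rw [← sub_eq_iff_eq_add, ← t3]
    have u5 : e i * ((x r)ᵀ * z3ᵀ) * (e j)ᵀ = (x r)ᵀ * z3ᵀ + (x r)ᵀ * b'ᵀ := by
      rw [← sub_eq_iff_eq_add, ← t5]
    rw [u1, u2, u3, u5]
    abel
  have hfin : (fun r => b * y r + (x r)ᵀ * (pᵀ * J * p) * y r + (x r)ᵀ * b'ᵀ) =
      (fun r => (y r).map d + P * y r + y r * Pᵀ + y r * (z1 - z2)ᵀ -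
      (x r - (x r)ᵀ) * (pᵀ * J * p) * y r + (x r - (x r)ᵀ) * z3ᵀ) -
      (fun r => e j * ((y r).map d + P * y r + y r * Pᵀ + y r * (z1 - z2)ᵀ + x r * z3ᵀ) * (e i)ᵀ) +
      (fun r => e i * ((x r)ᵀ * z3ᵀ) * (e j)ᵀ) := by
    funext r
    exact hkey r
  rw [hfin]
  exact Submodule.add_mem _ (Submodule.sub_mem _ hRel hR1) hR2

end Crest.Agent.R172.RDS302
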