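import Crest.Agent.R172.RDGlue2
import Crest.Agent.R172.RDdiag719
import Crest.Agent.R172.RDoff
import Crest.Agent.R172.RDF1
import Crest.Agent.R172.RDsecond302

/-!
Row 172 (S0260), `RD`: the five statements from `halves` and `second` (integration).
-/

set_option autoImplicit false
set_option linter.unusedSectionVars false

namespace Crest.Agent.R172.RDInt627

open Matrix Module TensorProduct Crest.Agent.R172.FO Crest.Agent.R172.FrmB Crest.Agent.R172.RD
open Crest.Agent.R172.Core (NS Tame)

/-- `halves` for all data -/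
def HalvesAll : Prop :=
  ∀ {ι δ n m : Type} [Fintype ι] [DecidableEq ι] [Fintype δ] [DecidableEq δ] [Fintype n]
    [DecidableEq n] [Fintype m] [DecidableEq m] {K M : Type} [Field K] [Algebra ℂ K] [CharZero K]
    [AddCommGroup M] [Module K M] [FiniteDimensional K M] {arm : δ → Fin 3} {J : Matrix ι ι K}
    {B : Matrix δ δ K} {N W : Submodule K (Matrix ι δ K)} {F G : Matrix ι δ K}
    {p : Matrix ι n K} {al : Fin 3 → Matrix n n K} {tau : Matrix n n K}
    {β : LinearMap.BilinForm K M} {T : Module.End K M →ₗ[K] Module.End K M}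
    {Ψ : Fin 3 → Module.End K M} {D : Module.End K M} {π : (n → K) →ₗ[K] M}
    {e : m → Matrix n n K} {lam : m → K} {l : Fin 3 → ℕ} {TT : Set ℂ},
    Fr ℂ arm J B N W F G p al tau β T Ψ D π e lam l TT →
    ∀ i j : m, i ≠ j → FirstP ℂ arm J B N W F G p al tau T Ψ π e TT i j →
      HalvesP arm J B N W F p al T Ψ π e i j

/-- the five statements -/
theorem five (H1 : HalvesAll) : Five where
  first := RDF1.five_first
  halves h := H1 h
  off h _ _ _ _ _ hij hh := RD.offdiag h hij hh
  second h _ _ hij ho := RDS302.second h hij ho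
  diag h _ _ _ _ _ hij hh hs := RDd719.diag h hij hh hs

theorem falseFr (H1 : HalvesAll) : FalseFr := falseFr_of_five (five H1)

/-- **(T00)** from the existence of the frame and `halves` -/
theorem inT00 (hE : ExFr) (H1 : HalvesAll) : Ind.InT00 :=
  inT00_of_fr hE (falseFr H1)

end Crest.Agent.R172.RDInt627
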