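import Crest.Agent.R172.Cov

/-!
Row 172 (S0260), TAME, arbitrary radical and arbitrary `D`: the universal property of the word
cover (619's tower `X ↦ X × X` of `Cov.lean`): linear maps out of the `N`-th stage may be
prescribed on all words of length `N` in the two letters `0, 1`.
-/

set_option autoImplicit false
set_option linter.unusedSectionVars false

namespace Crest.Agent.R172.RDL

open Module LinearMap Crest.Agent.R172.CovT

universe u v

variable {K : Type*} [Field K]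

section univ

variable {X0 : Type*} [AddCommGroup X0] [Module K X0]

/-- the word `A (w 0) ∘ A (w 1) ∘ ...` -/
def wd {X : Type*} [AddCommGroup X] [Module K X] (A : Fin 3 → End K X) {N : ℕ}
    (w : Fin N → Fin 2) : End K X :=
  ((List.ofFn (Fin.castSucc ∘ w)).map A).prod

/-- **the universal property** -/
def Univ {X : Type u} [AddCommGroup X] [Module K X] (A : Fin 3 → End K X) (pr : X →ₗ[K] X0)
    (N : ℕ) : Prop :=
  ∀ (Y : Type v) [AddCommGroup Y] [Module K Y] (f : (Fin N → Fin 2) → (X →ₗ[K] Y)),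
    (∀ w x, pr x = 0 → f w x = 0) → ∃ δ : X →ₗ[K] Y, ∀ w x, δ (wd A w x) = f w x

variable {X : Type u} [AddCommGroup X] [Module K X]

theorem wd_cons (A : Fin 3 → End K X) {N : ℕ} (r : Fin 2) (w : Fin N → Fin 2) :
    wd A (Fin.cons r w : Fin (N + 1) → Fin 2) = A (Fin.castSucc r) * wd A w := by
  unfold wd
  rw [List.ofFn_succ, List.map_cons, List.prod_cons]
  rfl

theorem Univ.base (A : Fin 3 → End K X) (pr : X →ₗ[K] X0) : Univ.{u, v} A pr 0 := by
  intro Y _ _ f _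
  refine ⟨f Fin.elim0, fun w x => ?_⟩
  have : w = Fin.elim0 := Subsingleton.elim _ _
  subst this
  rfl

theorem pi'_wd {A : Fin 3 → End K X} (hs : ∀ x, A 0 x + A 1 x + A 2 x = 0) {N : ℕ}
    (w : Fin N → Fin 2) : ∀ z : X × X, pi' A (wd (A' A) w z) = wd A w (pi' A z) := by
  induction N with
  | zero => intro z; rfl
  | succ N ih =>
    intro z
    obtain ⟨r, w', rfl⟩ : ∃ (r : Fin 2) (w' : Fin N → Fin 2), w = Fin.cons r w' :=
      ⟨w 0, Fin.tail w, (Fin.cons_self_tail w).symm⟩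
    rw [wd_cons, wd_cons, Module.End.mul_apply, Module.End.mul_apply]
    change pi' A (em K X (Fin.castSucc r) (pi' A (wd (A' A) w' z))) = _
    rw [pi'_em hs, ih w' z]

theorem Univ.step {A : Fin 3 → End K X} {pr : X →ₗ[K] X0} {N : ℕ}
    (hs : ∀ x, A 0 x + A 1 x + A 2 x = 0) (hsur : Function.Surjective (pi' A))
    (h : Univ.{u, v} A pr N) : Univ.{u, v} (A' A) (pr ∘ₗ pi' A) (N + 1) := by
  intro Y _ _ f hf
  obtain ⟨s, hsec⟩ := (pi' A).exists_rightInverse_of_surjective (LinearMap.range_eq_top.2 hsur)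
  have hsec' : ∀ x, pi' A (s x) = x := fun x => LinearMap.congr_fun hsec x
  have h1 : ∀ r : Fin 2, ∃ δ : X →ₗ[K] Y, ∀ (w : Fin N → Fin 2) (x : X),
      δ (wd A w x) = f (Fin.cons r w : Fin (N + 1) → Fin 2) (s x) := by
    intro r
    refine h Y (fun w => (f (Fin.cons r w : Fin (N + 1) → Fin 2)) ∘ₗ s) ?_
    intro w x hx
    refine hf _ _ ?_
    change pr (pi' A (s x)) = 0
    rw [hsec', hx]
  choose δ hδ using h1
  refine ⟨(δ 0).coprod (δ 1), ?_⟩
  intro w z
  obtain ⟨r, w', rfl⟩ : ∃ (r : Fin 2) (w' : Fin N → Fin 2), w = Fin.cons r w' :=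
    ⟨w 0, Fin.tail w, (Fin.cons_self_tail w).symm⟩
  rw [wd_cons, Module.End.mul_apply]
  have h2 : A' A (Fin.castSucc r) (wd (A' A) w' z) =
      em K X (Fin.castSucc r) (wd A w' (pi' A z)) := by
    change em K X (Fin.castSucc r) (pi' A (wd (A' A) w' z)) = _
    rw [pi'_wd hs]
  have h3 : ∀ x : X, ((δ 0).coprod (δ 1)) (em K X (Fin.castSucc r) x) = δ r x := by
    intro x
    fin_cases r
    · simp [CovT.em]
    · simp [CovT.em]
  rw [h2, h3, hδ]
  have h4 : f (Fin.cons r w' : Fin (N + 1) → Fin 2) (s (pi' A z) - z) = 0 := by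
    refine hf _ _ ?_
    change pr (pi' A (s (pi' A z) - z)) = 0
    rw [map_sub, hsec', sub_self, map_zero]
  rw [map_sub, sub_eq_zero] at h4
  exact h4

end univ

section main

variable {V U' M : Type*} {X0 : Type u} [AddCommGroup V] [Module K V] [AddCommGroup U']
  [Module K U'] [AddCommGroup M] [Module K M] [AddCommGroup X0] [Module K X0]
  {Φ Ψ : Fin 3 → End K V} {f g : V →ₗ[K] U'} {F' : Fin 3 → U' →ₗ[K] V} {Tp : Submodule K V}
  {pM : V →ₗ[K] M} {A0 : Fin 3 → End K X0} {D0 : End K X0} {p0 : X0 →ₗ[K] M}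

theorem pi'_surj {X : Type u} [AddCommGroup X] [Module K X] {A : Fin 3 → End K X}
    (hs : ∀ x, A 0 x + A 1 x + A 2 x = 0)
    (hperf : ∀ x, ∃ y : Fin 3 → X, x = ∑ s, A s (y s)) : Function.Surjective (pi' A) := by
  intro x
  obtain ⟨y, hy⟩ := hperf x
  refine ⟨(y 0 - y 2, y 1 - y 2), ?_⟩
  rw [hy, Fin.sum_univ_three]
  simp only [pi', LinearMap.coprod_apply, map_sub]
  have h2 : A 2 (y 2) = -(A 0 (y 2) + A 1 (y 2)) := by
    rw [eq_neg_iff_add_eq_zero, add_comm]; exact hs (y 2)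
  rw [h2]; abel

/-- **The universal cover** with at least `N₀` letters. -/
theorem exists_univ (N₀ : ℕ) (hΦ : ∀ s v, Φ s v = F' s (f v)) (hΨ : ∀ s v, Ψ s v = F' s (g v))
    (hgf : ∀ s v, g (Φ s v) = f (Ψ s v)) (hsum : ∀ v, Φ 0 v + Φ 1 v + Φ 2 v = 0)
    (hTp : ∀ s, ∀ v ∈ Tp, Φ s v ∈ Tp) (hTp' : ∀ s, ∀ v ∈ Tp, Ψ s v ∈ Tp)
    {φ : Fin 3 → End K M} {τ : End K M}
    (hpM : ∀ s, ∀ v ∈ Tp, pM (Φ s v) = φ s (pM v))
    (hpM' : ∀ s, ∀ v ∈ Tp, pM (Ψ s v) = φ s (τ (pM v)))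
    {k : ℕ} (hk : ∀ v ∈ Tp, pM v = 0 → v ∈ Nil Φ k) {sec : M →ₗ[K] V}
    (hsec : ∀ m, sec m ∈ Tp) (hsec' : ∀ m, pM (sec m) = m)
    (hA0 : ∀ x, A0 0 x + A0 1 x + A0 2 x = 0) (hAD : ∀ s x, D0 (A0 s x) = A0 s (D0 x))
    (hperf : ∀ x, ∃ y : Fin 3 → X0, x = ∑ s, A0 s (y s))
    (hp0 : ∀ s x, p0 (A0 s x) = φ s (p0 x)) (hpD : ∀ x, p0 (D0 x) = τ (p0 x)) :
    ∃ (X : Type u) (_ : AddCommGroup X) (_ : Module K X) (A : Fin 3 → End K X) (D : End K X)
      (pr : X →ₗ[K] X0) (l : X →ₗ[K] V) (n : ℕ),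
      Stage Φ f g Tp pM A0 D0 p0 True 0 0 n A D pr l ∧ Univ.{u, v} A pr n ∧ N₀ ≤ n := by
  have h0 := Stage.base (Φ := Φ) (f := f) (g := g) (D0 := D0) hA0 hAD hperf hTp hpM hp0 hk hsec hsec'
  have h1 := Stage.step (e' := k) (F' := F') hΦ hΨ hgf hsum hTp hpM hp0 h0
  have h2 : Stage Φ f g Tp pM A0 D0 p0 True (k - 1) k (0 + 1) (A' A0) (LinearMap.prodMap D0 D0)
      (LinearMap.id ∘ₗ pi' A0) (l' Φ (sec ∘ₗ p0)) :=
    { sumA := h1.sumA
      comm := h1.comm
      prA := h1.prA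
      prD := h1.prD
      surj := h1.surj
      perf := h1.perf
      nil := h1.nil
      lTp := h1.lTp
      lpM := h1.lpM
      errA := h1.errA
      nilD := h1.nilD
      fin := h1.fin
      errG := by
        intro _ z
        refine ⟨(Ψ 0 (sec (p0 z.1)) - Φ 0 (sec (p0 (D0 z.1)))) +
          (Ψ 1 (sec (p0 z.2)) - Φ 1 (sec (p0 (D0 z.2)))), ?_, ?_⟩
        · refine hk _ (Tp.add_mem (Tp.sub_mem (hTp' 0 _ (hsec _)) (hTp 0 _ (hsec _)))
            (Tp.sub_mem (hTp' 1 _ (hsec _)) (hTp 1 _ (hsec _)))) ?_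
          rw [map_add, map_sub, map_sub, hpM' 0 _ (hsec _), hpM' 1 _ (hsec _), hpM 0 _ (hsec _),
            hpM 1 _ (hsec _), hsec', hsec', hsec', hsec', hpD, hpD, sub_self, sub_self, add_zero]
        · simp only [l', LinearMap.coprod_apply, LinearMap.comp_apply]
          rw [map_add, hgf, hgf]
          simp only [map_add, map_sub, LinearMap.prodMap_apply]
          abel }
  have u2 : Univ.{u, v} (A' A0) (LinearMap.id ∘ₗ pi' A0) (0 + 1) :=
    Univ.step hA0 (pi'_surj hA0 hperf) (Univ.base A0 LinearMap.id)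
  clear h0 h1
  -- iterate
  have key : ∀ j : ℕ, ∃ (X : Type u) (_ : AddCommGroup X) (_ : Module K X) (A : Fin 3 → End K X)
      (D : End K X) (pr : X →ₗ[K] X0) (l : X →ₗ[K] V) (n : ℕ),
      Stage Φ f g Tp pM A0 D0 p0 True (k - 1 - j) (k - j) n A D pr l ∧ Univ.{u, v} A pr n ∧
        j ≤ n := by
    intro j
    induction j with
    | zero => exact ⟨_, _, _, _, _, _, _, _, h2, u2, Nat.zero_le _⟩
    | succ j ih =>
      obtain ⟨X, i1, i2, A, D, pr, l, n, h, hu, hn⟩ := ih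
      exact ⟨_, _, _, _, _, _, _, _, Stage.step (F' := F') hΦ hΨ hgf hsum hTp hpM hp0 h,
        Univ.step h.sumA (pi'_surj h.sumA h.perf) hu, Nat.succ_le_succ hn⟩
  obtain ⟨X, i1, i2, A, D, pr, l, n, h, hu, hn⟩ := key (k + N₀)
  refine ⟨X, i1, i2, A, D, pr, l, n, ?_, hu, le_trans (Nat.le_add_left _ _) hn⟩
  have e1 : k - 1 - (k + N₀) = 0 := by omega
  have e2 : k - (k + N₀) = 0 := by omega
  rw [e1, e2] at h
  exact h

end main

section matrix

variable {X0 : Type*} [AddCommGroup X0] [Module K X0]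
variable {X : Type u} [AddCommGroup X] [Module K X]

open Matrix

theorem toMatrix_word {ι : Type*} [Fintype ι] [DecidableEq ι] (b : Basis ι K X)
    (A : Fin 3 → End K X) (w : List (Fin 3)) :
    LinearMap.toMatrix b b (w.map A).prod =
      (w.map (fun s => LinearMap.toMatrix b b (A s))).prod := by
  induction w with
  | nil => simp
  | cons s w ih => rw [List.map_cons, List.prod_cons, List.map_cons, List.prod_cons,
      LinearMap.toMatrix_mul, ih]

/-- the universal property in a basis -/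
theorem Univ.matrix {F : Type v} [Field F] {X0 : Type*} [AddCommGroup X0] [Module F X0]
    {X : Type u} [AddCommGroup X] [Module F X] {ι : Type} [Fintype ι] [DecidableEq ι]
    {A : Fin 3 → End F X}
    {pr : X →ₗ[F] X0} {N : ℕ} (h : Univ.{u, v} A pr N) (b : Basis ι F X)
    (f : (Fin N → Fin 2) → Matrix ι ι F)
    (hf : ∀ w v, pr (b.equivFun.symm v) = 0 → f w *ᵥ v = 0) :
    ∃ δ : Matrix ι ι F, ∀ w : Fin N → Fin 2,
      δ * ((List.ofFn (Fin.castSucc ∘ w)).map
        (fun s => LinearMap.toMatrix b b (A s))).prod = f w := by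
  obtain ⟨δ, hδ⟩ := h (ι → F) (fun w => (Matrix.toLin' (f w)) ∘ₗ (b.equivFun : X →ₗ[F] (ι → F)))
    (by
      intro w x hx
      have h1 := hf w (b.equivFun x) (by rw [LinearEquiv.symm_apply_apply]; exact hx)
      simpa using h1)
  refine ⟨LinearMap.toMatrix' (δ ∘ₗ (b.equivFun.symm : (ι → F) →ₗ[F] X)), fun w => ?_⟩
  rw [← toMatrix_word]
  apply Matrix.ext_of_mulVec_single
  intro i
  rw [← Matrix.mulVec_mulVec]
  have h2 := hδ w (b.equivFun.symm (Pi.single i 1))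
  have h3 : LinearMap.toMatrix b b (wd A w) *ᵥ (Pi.single i 1) =
      b.equivFun (wd A w (b.equivFun.symm (Pi.single i 1))) := by
    have h4 := LinearMap.toMatrix_mulVec_repr b b (wd A w) (b.equivFun.symm (Pi.single i 1))
    have h5 : ⇑(b.repr (b.equivFun.symm (Pi.single i 1))) = (Pi.single i 1 : ι → F) := by
      change b.equivFun (b.equivFun.symm (Pi.single i 1)) = _
      rw [LinearEquiv.apply_symm_apply]
    rw [h5] at h4
    exact h4
  change LinearMap.toMatrix' (δ ∘ₗ (b.equivFun.symm : (ι → F) →ₗ[F] X)) *ᵥ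
    (LinearMap.toMatrix b b (wd A w) *ᵥ (Pi.single i 1)) = _
  rw [h3]
  have h6 : LinearMap.toMatrix' (δ ∘ₗ (b.equivFun.symm : (ι → F) →ₗ[F] X)) *ᵥ
      (b.equivFun (wd A w (b.equivFun.symm (Pi.single i 1)))) =
      δ (wd A w (b.equivFun.symm (Pi.single i 1))) := by
    rw [← Matrix.toLin'_apply, Matrix.toLin'_toMatrix']
    simp
  rw [h6, h2]
  change f w *ᵥ (b.equivFun (b.equivFun.symm (Pi.single i 1))) = f w *ᵥ Pi.single i 1
  rw [LinearEquiv.apply_symm_apply]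

end matrix

end Crest.Agent.R172.RDL
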