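import Crest.Agent.R172.FC2

/-!
Row 172 (S0260), T0, arbitrary `R` and `D`: the LIFT LEMMA of helper255 (21:03): on the universal
two-letter cover the connection `θ` of `FC.firstQ` can be chosen so that the covariant derivative
of `al s * κ²` is exactly `[χ_s γ, al s κ²]`.
-/

set_option autoImplicit false
set_option linter.unusedSectionVars false

namespace Crest.Agent.R172.RDLB

open Matrix Crest.Agent.R172.FO Crest.Agent.R172.FC

section Abs

variable {ι : Type*} [Fintype ι] [DecidableEq ι] {a : Type*} [Fintype a] [DecidableEq a]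
variable {k K : Type*} [Field k] [Field K] [Algebra k K]

/-- the word operator -/
def wd (A : Fin 3 → Matrix a a K) (l : List (Fin 3)) : Matrix a a K := (l.map A).prod

@[simp] theorem wd_nil (A : Fin 3 → Matrix a a K) : wd A [] = 1 := rfl

@[simp] theorem wd_cons (A : Fin 3 → Matrix a a K) (s : Fin 3) (l : List (Fin 3)) :
    wd A (s :: l) = A s * wd A l := by
  simp [wd]

theorem wd_append (A : Fin 3 → Matrix a a K) (l l' : List (Fin 3)) :
    wd A (l ++ l') = wd A l * wd A l' := by
  simp [wd]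

/-- `∑_{l = u s v} A_u E_s A_v` -/
def dw (A E : Fin 3 → Matrix a a K) : List (Fin 3) → Matrix a a K
  | [] => 0
  | s :: l => E s * wd A l + A s * dw A E l

theorem dw_append (A E : Fin 3 → Matrix a a K) (l l' : List (Fin 3)) :
    dw A E (l ++ l') = dw A E l * wd A l' + wd A l * dw A E l' := by
  induction l with
  | nil => simp [dw]
  | cons s l ih =>
    rw [List.cons_append, dw, ih, dw, wd_cons, wd_append, Matrix.add_mul, Matrix.mul_add]
    simp only [Matrix.mul_assoc]
    abel

theorem dw_single (A E : Fin 3 → Matrix a a K) (t : Fin 3) : dw A E [t] = E t := by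
  simp [dw]

theorem dw_sub (A E U : Fin 3 → Matrix a a K) (l : List (Fin 3)) :
    dw A (fun s => E s - U s) l = dw A E l - dw A U l := by
  induction l with
  | nil => simp [dw]
  | cons s l ih =>
    rw [dw, ih, dw, dw, Matrix.sub_mul, Matrix.mul_sub]
    abel

theorem nab_mul (d : Derivation k K K) (θ A A' : Matrix a a K) :
    nab d θ (A * A') = nab d θ A * A' + A * nab d θ A' := by
  unfold nab
  rw [map_mul_der, Matrix.sub_mul, Matrix.add_mul, Matrix.mul_sub, Matrix.mul_add]
  simp only [Matrix.mul_assoc]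
  abel

theorem nab_one (d : Derivation k K K) (θ : Matrix a a K) : nab d θ (1 : Matrix a a K) = 0 := by
  unfold nab
  rw [map_one_d]
  simp

theorem dw_nab (A : Fin 3 → Matrix a a K) (d : Derivation k K K) (θ : Matrix a a K)
    (l : List (Fin 3)) : dw A (fun s => nab d θ (A s)) l = nab d θ (wd A l) := by
  induction l with
  | nil => simp [dw, nab_one]
  | cons s l ih => rw [dw, ih, wd_cons, nab_mul]

/-- the two-letter words of length `N` -/
def Two (N : ℕ) (l : List (Fin 3)) : Prop := l.length = N ∧ ∀ s ∈ l, s ≠ 2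

theorem span_ext {A : Fin 3 → Matrix a a K} {N : ℕ}
    (hspan : ∀ v : a → K, (∀ l, Two N l → vecMul v (wd A l) = 0) → v = 0)
    {b : Type*} (Z : Matrix b a K) (hZ : ∀ l, Two N l → Z * wd A l = 0) : Z = 0 := by
  ext i j
  have h1 : Z i = 0 := by
    apply hspan
    intro l hl
    have h2 := congrFun (hZ l hl) i
    funext j
    exact congrFun h2 j
  rw [h1]
  rfl

/-- **the abstract lift.** -/
theorem lift_abs {p : Matrix ι a K} {γ θ : Matrix a a K} {A U : Fin 3 → Matrix a a K}
    {d : Derivation k K K} {Ps : Fin 3 → Matrix ι ι K} {N : ℕ} (hN : 0 < N)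
    (hker : ∀ v, p *ᵥ v = 0 → γ *ᵥ v = 0)
    (hγd : γ.map d = θᵀ * γ + γ * θ)
    (hPs : ∀ s, p * A s = Ps s * p)
    (hE : ∀ s, p * nab d θ (A s) = p * U s)
    (hA0 : ∑ s, A s = 0) (hUs : ∑ s, U s = 0)
    (hdwU : ∀ l : List (Fin 3), Two N l → ∀ v, γ *ᵥ v = 0 → dw A U l *ᵥ v = 0)
    (hkill : ∀ l : List (Fin 3), Two N l → ∀ v, γ *ᵥ v = 0 → wd A l *ᵥ v = 0)
    (huniv : ∀ f : List (Fin 3) → Matrix a a K,
      (∀ l, Two N l → ∀ v, γ *ᵥ v = 0 → f l *ᵥ v = 0) →
      ∃ D : Matrix a a K, ∀ l, Two N l → D * wd A l = f l)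
    (hspan : ∀ v : a → K, (∀ l, Two N l → vecMul v (wd A l) = 0) → v = 0) :
    ∃ D : Matrix a a K, p * D = 0 ∧ ∀ s, nab d (θ + D) (A s) = U s := by
  classical
  obtain ⟨E, hEdef⟩ : ∃ E : Fin 3 → Matrix a a K, E = fun s => nab d θ (A s) - U s := ⟨_, rfl⟩
  have hpE : ∀ s, p * E s = 0 := by
    intro s
    rw [hEdef]
    simp only [Matrix.mul_sub, hE, sub_self]
  have hγE : ∀ s v, γ *ᵥ (E s *ᵥ v) = 0 := by
    intro s v
    apply hker
    rw [Matrix.mulVec_mulVec, hpE, Matrix.zero_mulVec]
  have hnab0 : ∑ s, nab d θ (A s) = 0 := by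
    have h1 : ∑ s, nab d θ (A s) = nab d θ (∑ s, A s) := by
      unfold nab
      rw [map_sum_d, Finset.sum_sub_distrib, Finset.sum_add_distrib, Matrix.mul_sum,
        Matrix.sum_mul]
    rw [h1, hA0]
    unfold nab
    rw [map_zero_d]
    simp
  have hE0 : ∑ s, E s = 0 := by
    rw [hEdef, Finset.sum_sub_distrib, hnab0, hUs, sub_zero]
  have hdw0 : ∀ l, Two N l → ∀ v, γ *ᵥ v = 0 → dw A E l *ᵥ v = 0 := by
    intro l hl v hv
    rw [hEdef, dw_sub, Matrix.sub_mulVec, hdwU l hl v hv, sub_zero, dw_nab]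
    have h1 := hkill l hl v hv
    -- differentiate
    have h2 : (wd A l).map d *ᵥ v + wd A l *ᵥ (fun i => d (v i)) = 0 := by
      funext i
      have h3 := congrArg d (congrFun h1 i)
      simp only [Matrix.mulVec, dotProduct, Pi.zero_apply, map_zero, map_sum,
        Derivation.leibniz, smul_eq_mul] at h3
      rw [Pi.add_apply, Pi.zero_apply, ← h3]
      simp only [Matrix.mulVec, dotProduct, Matrix.map_apply, Finset.sum_add_distrib]
      rw [add_comm]
      congr 1
      exact Finset.sum_congr rfl fun j _ => mul_comm _ _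
    have h4 : γ *ᵥ ((fun i => d (v i)) + θ *ᵥ v) = 0 := by
      have h5 : γ.map d *ᵥ v + γ *ᵥ (fun i => d (v i)) = 0 := by
        funext i
        have h3 := congrArg d (congrFun hv i)
        simp only [Matrix.mulVec, dotProduct, Pi.zero_apply, map_zero, map_sum,
          Derivation.leibniz, smul_eq_mul] at h3
        rw [Pi.add_apply, Pi.zero_apply, ← h3]
        simp only [Matrix.mulVec, dotProduct, Matrix.map_apply, Finset.sum_add_distrib]
        rw [add_comm]
        congr 1
        exact Finset.sum_congr rfl fun j _ => mul_comm _ _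
      rw [hγd, Matrix.add_mulVec, ← Matrix.mulVec_mulVec, hv, Matrix.mulVec_zero, zero_add,
        ← Matrix.mulVec_mulVec] at h5
      rw [Matrix.mulVec_add, add_comm]
      exact h5
    have h6 := hkill l hl _ h4
    rw [Matrix.mulVec_add] at h6
    unfold nab
    rw [Matrix.sub_mulVec, Matrix.add_mulVec, ← Matrix.mulVec_mulVec, h1, Matrix.mulVec_zero,
      add_zero, ← Matrix.mulVec_mulVec]
    have h7 : (wd A l).map d *ᵥ v = -(wd A l *ᵥ (fun i => d (v i))) :=
      eq_neg_of_add_eq_zero_left h2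
    rw [h7, ← neg_add', h6, neg_zero]
  obtain ⟨D, hD⟩ := huniv (fun l => -dw A E l) (by
    intro l hl v hv
    rw [Matrix.neg_mulVec, hdw0 l hl v hv, neg_zero])
  have hpw : ∀ l, p * dw A E l = 0 := by
    intro l
    induction l with
    | nil => simp [dw]
    | cons s l ih =>
      rw [dw, Matrix.mul_add, ← Matrix.mul_assoc, hpE, Matrix.zero_mul, zero_add,
        ← Matrix.mul_assoc, hPs, Matrix.mul_assoc, ih, Matrix.mul_zero]
  have hpD : p * D = 0 := by
    apply span_ext hspan
    intro l hl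
    rw [Matrix.mul_assoc, hD l hl, Matrix.mul_neg, hpw, neg_zero]
  have hcomm : ∀ s, s ≠ 2 → D * A s - A s * D = -E s := by
    intro s hs
    rw [← sub_eq_zero]
    apply span_ext hspan
    intro l hl
    obtain ⟨u, t, rfl⟩ : ∃ u t, l = u ++ [t] := by
      have hne : l ≠ [] := by
        rintro rfl
        have := hl.1
        simp at this
        omega
      exact ⟨l.dropLast, l.getLast hne, (List.dropLast_append_getLast hne).symm⟩
    have hl2 : Two N (s :: u) := by
      refine ⟨?_, ?_⟩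
      · have := hl.1
        simp only [List.length_append, List.length_cons, List.length_nil] at this ⊢
        omega
      · intro x hx
        rcases List.mem_cons.1 hx with rfl | hx
        · exact hs
        · exact hl.2 x (List.mem_append_left _ hx)
    have e1 : D * A s * wd A (u ++ [t]) = -(dw A E (s :: u) * A t) := by
      rw [Matrix.mul_assoc, ← wd_cons, ← List.cons_append, wd_append, ← Matrix.mul_assoc,
        hD _ hl2, Matrix.neg_mul]
      simp
    have e2 : dw A E (s :: (u ++ [t])) = dw A E (s :: u) * A t + wd A (s :: u) * E t := by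
      rw [← List.cons_append, dw_append, dw_single]
      simp
    have e3 : wd A (s :: u) * E t = 0 := by
      apply Matrix.ext_of_mulVec_single
      intro j
      rw [← Matrix.mulVec_mulVec, hkill _ hl2 _ (hγE t _), Matrix.zero_mulVec]
    have e4 : dw A E (s :: (u ++ [t])) = E s * wd A (u ++ [t]) + A s * dw A E (u ++ [t]) := rfl
    rw [Matrix.sub_mul, Matrix.sub_mul, e1, Matrix.mul_assoc (A s), hD _ hl, Matrix.mul_neg,
      Matrix.neg_mul]
    rw [e3, add_zero] at e2
    rw [e2] at e4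
    rw [e4]
    abel
  have hall : ∀ s, D * A s - A s * D = -E s := by
    intro s
    by_cases hs : s = 2
    · subst hs
      have h1 := hcomm 0 (by decide)
      have h2 := hcomm 1 (by decide)
      rw [Fin.sum_univ_three] at hA0 hE0
      have a0 : A 2 = -(A 0 + A 1) := eq_neg_of_add_eq_zero_right hA0
      have e0 : E 2 = -(E 0 + E 1) := eq_neg_of_add_eq_zero_right hE0
      rw [a0, e0, Matrix.mul_neg, Matrix.mul_add, Matrix.neg_mul, Matrix.add_mul]
      have : -(D * A 0 + D * A 1) - -(A 0 * D + A 1 * D) =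
          -(D * A 0 - A 0 * D) - (D * A 1 - A 1 * D) := by abel
      rw [this, h1, h2]
      abel
    · exact hcomm s hs
  refine ⟨D, hpD, fun s => ?_⟩
  have h1 : nab d (θ + D) (A s) = nab d θ (A s) + (D * A s - A s * D) := by
    unfold nab
    rw [Matrix.add_mul, Matrix.mul_add]
    abel
  rw [h1, hall, hEdef]
  beta_reduce
  abel

/-- the cover data: two letters `0, 1`, `al 2 = -(al 0 + al 1)` -/
structure Uv (al : Fin 3 → Matrix a a K) (γ : Matrix a a K) (N : ℕ) : Prop where
  pos : 0 < N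
  sum : ∑ s, al s = 0
  kill : ∀ l, Two N l → ∀ v, γ *ᵥ v = 0 → wd al l *ᵥ v = 0
  univ : ∀ f : List (Fin 3) → Matrix a a K,
    (∀ l, Two N l → ∀ v, γ *ᵥ v = 0 → f l *ᵥ v = 0) → ∃ D, ∀ l, Two N l → D * wd al l = f l

theorem Two.exists_fn {N : ℕ} {l : List (Fin 3)} (h : Two N l) :
    ∃ w : Fin N → Fin 2, l = List.ofFn fun i => (w i).castSucc := by
  obtain ⟨rfl, h2⟩ := h
  refine ⟨fun i => (l.get i).castPred (h2 _ (List.get_mem l i)), ?_⟩
  conv_lhs => rw [← List.ofFn_get l]
  congr 1

theorem two_ofFn {N : ℕ} (w : Fin N → Fin 2) : Two N (List.ofFn fun i => (w i).castSucc) := by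
  refine ⟨by simp, ?_⟩
  intro s hs
  rw [List.mem_ofFn] at hs
  obtain ⟨i, rfl⟩ := hs
  exact (Fin.castSucc_lt_last (w i)).ne

theorem Uv.of_fn {al : Fin 3 → Matrix a a K} {γ : Matrix a a K} {N : ℕ} (hN : 0 < N)
    (hsum : ∑ s, al s = 0)
    (hkill : ∀ w : Fin N → Fin 2, ∀ v, γ *ᵥ v = 0 →
      (List.ofFn fun i => al (w i).castSucc).prod *ᵥ v = 0)
    (huniv : ∀ f : (Fin N → Fin 2) → Matrix a a K, (∀ w v, γ *ᵥ v = 0 → f w *ᵥ v = 0) →
      ∃ D, ∀ w, D * (List.ofFn fun i => al (w i).castSucc).prod = f w) :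
    Uv al γ N where
  pos := hN
  sum := hsum
  kill l hl v hv := by
    obtain ⟨w, rfl⟩ := hl.exists_fn
    have := hkill w v hv
    unfold wd
    rw [List.map_ofFn]
    exact this
  univ f hf := by
    obtain ⟨D, hD⟩ := huniv (fun w => f (List.ofFn fun i => (w i).castSucc))
      (fun w v hv => hf _ (two_ofFn w) v hv)
    refine ⟨D, fun l hl => ?_⟩
    obtain ⟨w, rfl⟩ := hl.exists_fn
    have := hD w
    unfold wd
    rw [List.map_ofFn]
    exact this

theorem span_of_perf {al : Fin 3 → Matrix a a K} (hsum : ∑ s, al s = 0)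
    {ρ : Fin 3 → Matrix a a K} (hρ : ∑ s, al s * ρ s = 1) (N : ℕ) :
    ∀ v : a → K, (∀ l, Two N l → vecMul v (wd al l) = 0) → v = 0 := by
  induction N with
  | zero =>
    intro v hv
    have := hv [] ⟨rfl, by simp⟩
    simpa using this
  | succ N ih =>
    intro v hv
    have h1 : ∀ s, s ≠ 2 → vecMul v (al s) = 0 := by
      intro s hs
      apply ih
      intro l hl
      have := hv (s :: l) ⟨by simp [hl.1], by
        intro x hx
        rcases List.mem_cons.1 hx with rfl | hx
        · exact hs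
        · exact hl.2 x hx⟩
      rw [wd_cons, ← Matrix.vecMul_vecMul] at this
      exact this
    have h2 : ∀ s, vecMul v (al s) = 0 := by
      intro s
      by_cases hs : s = 2
      · subst hs
        rw [Fin.sum_univ_three] at hsum
        rw [eq_neg_of_add_eq_zero_right hsum, Matrix.vecMul_neg, Matrix.vecMul_add,
          h1 0 (by decide), h1 1 (by decide)]
        simp
      · exact h1 s hs
    have h3 : vecMul v (∑ s, al s * ρ s) = 0 := by
      rw [Matrix.vecMul_sum]
      refine Finset.sum_eq_zero fun s _ => ?_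
      rw [← Matrix.vecMul_vecMul, h2, Matrix.zero_vecMul]
    rw [hρ, Matrix.vecMul_one] at h3
    exact h3

theorem wd_mul_right {al : Fin 3 → Matrix a a K} {c : Matrix a a K}
    (hc : ∀ s, c * al s = al s * c) (l : List (Fin 3)) :
    wd (fun s => al s * c) l = wd al l * c ^ l.length ∧
      ∀ j : ℕ, c ^ j * wd al l = wd al l * c ^ j := by
  have h2 : ∀ l : List (Fin 3), ∀ j : ℕ, c ^ j * wd al l = wd al l * c ^ j := by
    intro l j
    induction l with
    | nil => simp
    | cons s l ih =>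
      rw [wd_cons, ← Matrix.mul_assoc]
      have : c ^ j * al s = al s * c ^ j := (Commute.pow_left (show Commute c (al s) from hc s) j)
      rw [this, Matrix.mul_assoc, ih, Matrix.mul_assoc]
  refine ⟨?_, h2 l⟩
  induction l with
  | nil => simp
  | cons s l ih =>
    rw [wd_cons, ih, wd_cons, List.length_cons, pow_succ']
    have := h2 l 1
    rw [pow_one] at this
    calc al s * c * (wd al l * c ^ l.length) = al s * (c * wd al l) * c ^ l.length := by
          simp only [Matrix.mul_assoc]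
      _ = _ := by rw [this]; simp only [Matrix.mul_assoc]

/-- **the lift lemma**, general right side. -/
theorem lift {p : Matrix ι a K} {γ θ : Matrix a a K} {al C : Fin 3 → Matrix a a K}
    {c ci : Matrix a a K} {d : Derivation k K K} {Ps : Fin 3 → Matrix ι ι K} {N : ℕ}
    (h : Uv al γ N) {ρ : Fin 3 → Matrix a a K} (hρ : ∑ s, al s * ρ s = 1)
    (hc : c * ci = 1) (hcal : ∀ s, c * al s = al s * c) (hγc : γ * c = cᵀ * γ)
    (hγi : γ * ci = ciᵀ * γ)
    (hker : ∀ v, p *ᵥ v = 0 → γ *ᵥ v = 0)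
    (hγd : γ.map d = θᵀ * γ + γ * θ)
    (hPs : ∀ s, p * (al s * c) = Ps s * p)
    (hE : ∀ s, p * nab d θ (al s * c) = p * C s)
    (hC : ∑ s, C s = 0)
    (hdw : ∀ l, Two N l → ∀ v, γ *ᵥ v = 0 → dw (fun s => al s * c) C l *ᵥ v = 0) :
    ∃ D : Matrix a a K, p * D = 0 ∧ ∀ s, nab d (θ + D) (al s * c) = C s := by
  have hcj : ∀ j : ℕ, ∀ v, γ *ᵥ v = 0 → γ *ᵥ (c ^ j *ᵥ v) = 0 := by
    intro j
    induction j with
    | zero => intro v hv; simpa using hv
    | succ j ih =>
      intro v hv
      rw [pow_succ', ← Matrix.mulVec_mulVec, Matrix.mulVec_mulVec _ γ c, hγc,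
        ← Matrix.mulVec_mulVec, ih v hv, Matrix.mulVec_zero]
  have hij : ∀ j : ℕ, ∀ v, γ *ᵥ v = 0 → γ *ᵥ (ci ^ j *ᵥ v) = 0 := by
    intro j
    induction j with
    | zero => intro v hv; simpa using hv
    | succ j ih =>
      intro v hv
      rw [pow_succ', ← Matrix.mulVec_mulVec, Matrix.mulVec_mulVec _ γ ci, hγi,
        ← Matrix.mulVec_mulVec, ih v hv, Matrix.mulVec_zero]
  have hci : ci * c = 1 := mul_eq_one_comm.1 hc
  have hcc : ∀ j : ℕ, ci ^ j * c ^ j = 1 := by
    intro j
    rw [← (show Commute ci c from by rw [Commute, SemiconjBy, hci, hc]).mul_pow, hci, one_pow]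
  refine lift_abs (A := fun s => al s * c) (U := C) (Ps := Ps) h.pos hker hγd hPs hE ?_ hC hdw
    ?_ ?_ ?_
  · rw [← Finset.sum_mul, h.sum, Matrix.zero_mul]
  · intro l hl v hv
    rw [(wd_mul_right hcal l).1, ← Matrix.mulVec_mulVec]
    exact h.kill l hl _ (hcj _ v hv)
  · intro f hf
    obtain ⟨D, hD⟩ := h.univ (fun l => f l * ci ^ N) (by
      intro l hl v hv
      rw [← Matrix.mulVec_mulVec]
      exact hf l hl _ (hij _ v hv))
    refine ⟨D, fun l hl => ?_⟩
    rw [(wd_mul_right hcal l).1, ← Matrix.mul_assoc, hD l hl, hl.1, Matrix.mul_assoc, hcc,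
      Matrix.mul_one]
  · intro v hv
    apply span_of_perf h.sum hρ N
    intro l hl
    have h1 := hv l hl
    rw [(wd_mul_right hcal l).1, hl.1] at h1
    have h2 : vecMul (vecMul v (wd al l * c ^ N)) (ci ^ N) = 0 := by rw [h1, Matrix.zero_vecMul]
    have hcc' : c ^ N * ci ^ N = 1 := by
      rw [← (show Commute c ci from by rw [Commute, SemiconjBy, hci, hc]).mul_pow, hc, one_pow]
    rw [Matrix.vecMul_vecMul, Matrix.mul_assoc, hcc', Matrix.mul_one] at h2
    exact h2

/-- killing `ker γ` -/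
theorem dw_of_kill {γ : Matrix a a K} {A U : Fin 3 → Matrix a a K}
    (hγA : ∀ s, γ * A s = (A s)ᵀ * γ) (hU0 : ∀ s v, γ *ᵥ v = 0 → U s *ᵥ v = 0) :
    ∀ l v, γ *ᵥ v = 0 → dw A U l *ᵥ v = 0 := by
  have hstw : ∀ l v, γ *ᵥ v = 0 → γ *ᵥ (wd A l *ᵥ v) = 0 := by
    intro l
    induction l with
    | nil => intro v hv; simpa using hv
    | cons s l ih =>
      intro v hv
      rw [wd_cons, ← Matrix.mulVec_mulVec, Matrix.mulVec_mulVec _ γ, hγA,
        ← Matrix.mulVec_mulVec, ih v hv, Matrix.mulVec_zero]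
  intro l
  induction l with
  | nil => intro v _; simp [dw]
  | cons s l ih =>
    intro v hv
    rw [dw, Matrix.add_mulVec, ← Matrix.mulVec_mulVec, ← Matrix.mulVec_mulVec,
      hU0 s _ (hstw l v hv), ih v hv, Matrix.mulVec_zero, add_zero]

/-- words that kill `ker γ` still do after covariant differentiation -/
theorem nab_kill {γ θ W : Matrix a a K} {d : Derivation k K K}
    (hγd : γ.map d = θᵀ * γ + γ * θ) (hW : ∀ v, γ *ᵥ v = 0 → W *ᵥ v = 0) :
    ∀ v, γ *ᵥ v = 0 → nab d θ W *ᵥ v = 0 := by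
  intro v hv
  have h1 := hW v hv
  have h2 : W.map d *ᵥ v + W *ᵥ (fun i => d (v i)) = 0 := by
    funext i
    have h3 := congrArg d (congrFun h1 i)
    simp only [Matrix.mulVec, dotProduct, Pi.zero_apply, map_zero, map_sum,
      Derivation.leibniz, smul_eq_mul] at h3
    rw [Pi.add_apply, Pi.zero_apply, ← h3]
    simp only [Matrix.mulVec, dotProduct, Matrix.map_apply, Finset.sum_add_distrib]
    rw [add_comm]
    congr 1
    exact Finset.sum_congr rfl fun j _ => mul_comm _ _
  have h4 : γ *ᵥ ((fun i => d (v i)) + θ *ᵥ v) = 0 := by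
    have h5 : γ.map d *ᵥ v + γ *ᵥ (fun i => d (v i)) = 0 := by
      funext i
      have h3 := congrArg d (congrFun hv i)
      simp only [Matrix.mulVec, dotProduct, Pi.zero_apply, map_zero, map_sum,
        Derivation.leibniz, smul_eq_mul] at h3
      rw [Pi.add_apply, Pi.zero_apply, ← h3]
      simp only [Matrix.mulVec, dotProduct, Matrix.map_apply, Finset.sum_add_distrib]
      rw [add_comm]
      congr 1
      exact Finset.sum_congr rfl fun j _ => mul_comm _ _
    rw [hγd, Matrix.add_mulVec, ← Matrix.mulVec_mulVec, hv, Matrix.mulVec_zero, zero_add,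
      ← Matrix.mulVec_mulVec] at h5
    rw [Matrix.mulVec_add, add_comm]
    exact h5
  have h6 := hW _ h4
  rw [Matrix.mulVec_add] at h6
  unfold nab
  rw [Matrix.sub_mulVec, Matrix.add_mulVec, ← Matrix.mulVec_mulVec, h1, Matrix.mulVec_zero,
    add_zero, ← Matrix.mulVec_mulVec]
  have h7 : W.map d *ᵥ v = -(W *ᵥ (fun i => d (v i))) := eq_neg_of_add_eq_zero_left h2
  rw [h7, ← neg_add', h6, neg_zero]

end Abs

end Crest.Agent.R172.RDLB
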