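import Crest.Agent.R172.RD0
import Crest.Agent.R172.FrU

/-!
Row 172, RD-Asm, node exists_fr: from the module level to the matrix fields of `RD.Fr` in a block
adapted basis.
-/

set_option autoImplicit false
set_option linter.unusedSectionVars false

namespace Crest.Agent.R172.RDMat

open Matrix Module TensorProduct Crest.Agent.R172.FO Crest.Agent.R172.FrmB Crest.Agent.R172.RD
open Crest.Agent.R172.Core (NS Tame)
open Crest.Agent.R172.PL (Wk)
open Crest.Agent.R172.CovF (fr fr_repr toMatrix_equivFun ext_mulVec)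
open Crest.Agent.R172.FrU (pf mf)

section basis

variable {K : Type*} [Field K] {X : Type*} [AddCommGroup X] [Module K X] [FiniteDimensional K X]
variable {m : Type*} [Fintype m] [DecidableEq m]

/-- a basis adapted to orthogonal idempotents -/
theorem exists_adapted (E : m → Module.End K X) (idem : ∀ i, E i * E i = E i)
    (orth : ∀ i j, i ≠ j → E i * E j = 0) (hsum : ∑ i, E i = 1) :
    ∃ (a : ℕ) (b : Module.Basis (Fin a) K X) (κ : Fin a → m),
      ∀ j i, E i (b j) = if κ j = i then b j else 0 := by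
  classical
  have hi : ∀ i x, E i (E i x) = E i x := fun i x => by
    rw [← Module.End.mul_apply, idem]
  have ho : ∀ i j, i ≠ j → ∀ x, E i (E j x) = 0 := fun i j hij x => by
    rw [← Module.End.mul_apply, orth i j hij, LinearMap.zero_apply]
  let f : X →ₗ[K] ((i : m) → LinearMap.range (E i)) := LinearMap.pi fun i => (E i).rangeRestrict
  let g : ((i : m) → LinearMap.range (E i)) →ₗ[K] X :=
    ∑ i, (LinearMap.range (E i)).subtype ∘ₗ LinearMap.proj i
  have hg : ∀ y, g y = ∑ i, (y i : X) := fun y => by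
    simp only [g, LinearMap.sum_apply, LinearMap.comp_apply, LinearMap.proj_apply,
      Submodule.subtype_apply]
  have hf : ∀ x i, ((f x i : LinearMap.range (E i)) : X) = E i x := fun x i => rfl
  have hfg : ∀ y i, ((f (g y) i : LinearMap.range (E i)) : X) = y i := by
    intro y i
    rw [hf, hg, map_sum, Finset.sum_eq_single i]
    · obtain ⟨x, hx⟩ := (y i).2
      rw [← hx, hi]
    · intro j _ hj
      obtain ⟨x, hx⟩ := (y j).2
      rw [← hx, ho i j (Ne.symm hj)]
    · intro h; exact absurd (Finset.mem_univ i) h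
  have hgf : ∀ x, g (f x) = x := by
    intro x
    rw [hg]
    have h1 : (∑ i, E i) x = x := by rw [hsum]; rfl
    rw [LinearMap.sum_apply] at h1
    exact h1
  obtain ⟨φ, hφ⟩ : ∃ φ : ((i : m) → LinearMap.range (E i)) ≃ₗ[K] X, ∀ y, φ y = g y :=
    ⟨LinearEquiv.ofBijective g ⟨fun y y' hyy => by
      funext i
      apply Subtype.ext
      rw [← hfg y i, ← hfg y' i, hyy], fun x => ⟨f x, hgf x⟩⟩, fun y => rfl⟩
  obtain ⟨s, hs⟩ : ∃ s : (i : m) → Module.Basis (Fin (finrank K (LinearMap.range (E i)))) K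
      (LinearMap.range (E i)), s = fun i => Module.finBasis K (LinearMap.range (E i)) := ⟨_, rfl⟩
  clear hs
  obtain ⟨b0, hb0⟩ : ∃ b0 : Module.Basis ((i : m) × Fin (finrank K (LinearMap.range (E i)))) K X,
      ∀ i j, b0 ⟨i, j⟩ = (s i j : X) := by
    refine ⟨(Pi.basis s).map φ, fun i j => ?_⟩
    rw [Module.Basis.map_apply, Pi.basis_apply, hφ, hg, Finset.sum_eq_single i]
    · rw [Pi.single_eq_same]
    · intro j' _ hj
      rw [Pi.single_eq_of_ne hj]; rfl
    · intro h; exact absurd (Finset.mem_univ i) h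
  let σ := Fintype.equivFin ((i : m) × Fin (finrank K (LinearMap.range (E i))))
  refine ⟨_, b0.reindex σ, fun j => (σ.symm j).1, fun j i => ?_⟩
  rw [Module.Basis.reindex_apply]
  change E i (b0 (σ.symm j)) = if (σ.symm j).1 = i then b0 (σ.symm j) else 0
  obtain ⟨⟨i0, j0⟩, h0⟩ : ∃ z, z = σ.symm j := ⟨_, rfl⟩
  rw [← h0, hb0]
  change _ = if i0 = i then _ else 0
  obtain ⟨x, hx⟩ := (s i0 j0).2
  rw [← hx]
  by_cases h : i0 = i
  · subst h
    rw [if_pos rfl, hi]
  · rw [if_neg h, ho i i0 (Ne.symm h)]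

end basis

section mat

variable {ι : Type*} [Fintype ι] [DecidableEq ι] {δ : Type*} [Fintype δ] [DecidableEq δ]
variable {k K : Type*} [Field k] [Field K] [Algebra k K]
variable {M : Type*} [AddCommGroup M] [Module K M]
variable {m : Type*} [Fintype m] [DecidableEq m]
variable {X : Type*} [AddCommGroup X] [Module K X]
variable {a : ℕ} {b : Module.Basis (Fin a) K X}

theorem mf_pow (T : Module.End K X) (i : ℕ) (x : X) :
    (mf b T ^ i) *ᵥ b.equivFun x = b.equivFun ((T ^ i) x) := by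
  induction i generalizing x with
  | zero => simp
  | succ i ih =>
    rw [pow_succ, ← mulVec_mulVec, toMatrix_equivFun, ih, pow_succ, Module.End.mul_apply]

theorem mf_words (A : Fin 3 → Module.End K X) (w : List (Fin 3)) (x : X) :
    (w.map fun s => mf b (A s)).prod *ᵥ b.equivFun x = b.equivFun ((w.map A).prod x) := by
  induction w with
  | nil => simp
  | cons s w ih =>
    rw [List.map_cons, List.prod_cons, ← mulVec_mulVec, ih, toMatrix_equivFun, List.map_cons,
      List.prod_cons, Module.End.mul_apply]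

theorem mf_mul (S T : Module.End K X) : mf b S * mf b T = mf b (S * T) :=
  (LinearMap.toMatrix_mul b S T).symm

/-- block projectors are constant -/
theorem mf_der {E : m → Module.End K X} {κ : Fin a → m}
    (hκ : ∀ j i, E i (b j) = if κ j = i then b j else 0) (i : m) (d : Derivation k K K) :
    (mf b (E i)).map d = 0 := by
  have h1 : mf b (E i) = diagonal fun j => if κ j = i then (1 : K) else 0 := by
    ext r s
    rw [mf, LinearMap.toMatrix_apply, hκ, diagonal_apply]
    by_cases h : κ s = i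
    · rw [if_pos h, Module.Basis.repr_self, Finsupp.single_apply]
      by_cases hrs : r = s
      · subst hrs; rw [if_pos rfl, if_pos rfl, if_pos h]
      · rw [if_neg hrs, if_neg (Ne.symm hrs)]
    · rw [if_neg h, map_zero, Finsupp.zero_apply]
      by_cases hrs : r = s
      · subst hrs; rw [if_pos rfl, if_neg h]
      · rw [if_neg hrs]
  rw [h1]
  ext r s
  rw [map_apply, diagonal_apply, Matrix.zero_apply]
  by_cases hrs : r = s
  · rw [if_pos hrs]
    by_cases h : κ r = i
    · rw [if_pos h]; exact d.map_one_eq_zero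
    · rw [if_neg h]; exact map_zero d
  · rw [if_neg hrs]; exact map_zero d

end mat

section fr

variable {ι : Type*} [Fintype ι] [DecidableEq ι] {δ : Type*} [Fintype δ] [DecidableEq δ]
variable {k K : Type*} [Field k] [Field K] [Algebra k K]
variable {M : Type*} [AddCommGroup M] [Module K M]
variable {m : Type*} [Fintype m] [DecidableEq m]
variable {X : Type*} [AddCommGroup X] [Module K X]
variable {arm : δ → Fin 3} {J : Matrix ι ι K} {B : Matrix δ δ K}
  {N W : Submodule K (Matrix ι δ K)} {F G : Matrix ι δ K}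
  {A : Fin 3 → Module.End K X} {D : Module.End K X} {E : m → Module.End K X}
  {lx : X →ₗ[K] (ι → K)} {q : X →ₗ[K] M}
  {β : LinearMap.BilinForm K M} {T : Module.End K M →ₗ[K] Module.End K M}
  {Ψ : Fin 3 → Module.End K M} {τ : Module.End K M} {lam : m → K} {l : Fin 3 → ℕ} {TT : Set k}

/-- the core projection in coordinates -/
noncomputable abbrev qf {a : ℕ} (b : Module.Basis (Fin a) K X) (q : X →ₗ[K] M) :
    (Fin a → K) →ₗ[K] M := q ∘ₗ (b.equivFun.symm : (Fin a → K) →ₗ[K] X)

theorem qf_repr {a : ℕ} (b : Module.Basis (Fin a) K X) (x : X) :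
    qf b q (b.equivFun x) = q x := by
  rw [qf, LinearMap.comp_apply]
  congr 1
  exact b.equivFun.symm_apply_apply x

/-- the module level data: a cover of the core with blocks -/
structure MC (J : Matrix ι ι K) (A : Fin 3 → Module.End K X) (D : Module.End K X)
    (E : m → Module.End K X) (lx : X →ₗ[K] (ι → K)) (q : X →ₗ[K] M)
    (β : LinearMap.BilinForm K M) (T : Module.End K M →ₗ[K] Module.End K M)
    (Ψ : Fin 3 → Module.End K M) (τ : Module.End K M) (lam : m → K) (l : Fin 3 → ℕ) : Prop where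
  sumA : ∀ x, ∑ s, A s x = 0
  ns : NS β
  onto : Function.Surjective q
  form : ∀ x y, β (q x) (q y) = lx x ⬝ᵥ (J *ᵥ lx y)
  qA : ∀ s x, q (A s x) = Ψ s (q x)
  qD : ∀ x, q (D x) = τ (q x)
  sa : ∀ s v w, β (Ψ s v) w = β v (Ψ s w)
  adj : ∀ A v w, β (T A v) w = β v (A w)
  topM : ∀ x : Module.End K M, (∀ r, x * Ψ r = 0) → x = 0
  kill : ∃ m0 : ℕ, ∀ w : List (Fin 3), w.length = m0 → ∀ x, q x = 0 → (w.map A).prod x = 0
  idem : ∀ i, E i * E i = E i
  orth : ∀ i j, i ≠ j → E i * E j = 0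
  sumE : ∑ i, E i = 1
  EA : ∀ i s, E i * A s = A s * E i
  ED : ∀ i, E i * D = D * E i
  orthE : ∀ i j, i ≠ j → ∀ x y, β (q (E i x)) (q (E j y)) = 0
  nil : ∀ i, IsNilpotent ((D - lam i • (1 : Module.End K X)) * E i)
  lamInj : Function.Injective lam
  two : ∀ i : m, ∃ j, j ≠ i
  lpos : ∀ s, 1 ≤ l s
  lsum : ∑ s, (1 - 1 / (l s : ℚ)) = 2
  lnil : ∀ s, Ψ s ^ l s = 0
  free : ∀ s, l s * finrank K (LinearMap.ker (Ψ s)) = finrank K M
  top : ∀ i s, ∃ x y, β (q (E i x)) (q ((A s ^ (l s - 1)) (E i y))) ≠ 0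
  gen : ∀ i (S : Submodule K X), (∀ s, ∀ v ∈ S, A s v ∈ S) →
    (∀ s x, (A s ^ l s) (E i x) ∈ S) → ∀ x, q (E i x) = 0 → E i x ∈ S

/-- **`Fr` from the module level data** -/
theorem fr_of {a : ℕ} (b : Module.Basis (Fin a) K X) {κ : Fin a → m}
    (hκ : ∀ j i, E i (b j) = if κ j = i then b j else 0)
    (h : MC J A D E lx q β T Ψ τ lam l)
    (ctx : FC.Ctx k arm J B N W F G (pf b lx) (fun s => mf b (A s)) (mf b D))
    (vt : Vt k arm N W F G)
    (wk : ∃ m0 : ℕ, Wk (fun r => Matrix.toLin' (Phi arm J B F r)) m0 ≤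
      LinearMap.range (toLin' (pf b lx)))
    (par : ∀ t ∈ TT, ∃ kap kai, FC.Par k arm J B N W F G (pf b lx) (mf b D) (algebraMap k K t)
      kap kai)
    (inf : TT.Infinite) (ne0 : (0 : k) ∉ TT)
    (killV : ∀ t : K, ∃ m0 : ℕ, ∀ w : List (Fin 3), w.length = m0 → ∀ x, q x = 0 →
      (w.map (Phi arm J B (F + t • G))).prod *ᵥ (lx x) = 0)
    (hom : ∀ t : k, (t ∈ TT ∨ t = 0) → ∀ A' : Module.End K M,
      (∀ s x, A' (Ψ s ((1 + algebraMap k K t • τ) ((1 + algebraMap k K t • τ) x))) =
        Ψ s ((1 + algebraMap k K t • τ) ((1 + algebraMap k K t • τ) (A' x)))) →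
      ∀ i j, i ≠ j → ∀ x y, β (A' (q (E i x))) (q (E j y)) = 0)
    (hexS : ∀ i j, i ≠ j → ∀ c : K, c ≠ 0 → ∀ x : Fin 3 → Matrix (Fin a) (Fin a) K,
      (∀ r, mf b (E j) * x r * (mf b (E i))ᵀ = x r) →
      ∑ r, (x r * (mf b (A r))ᵀ - c • (mf b (A r) * x r)) = 0 →
      (∀ r, ((pf b lx)ᵀ * J * pf b lx) * (x r * (mf b (A r))ᵀ - c • (mf b (A r) * x r)) *
        ((pf b lx)ᵀ * J * pf b lx) = 0) →
      ∃ b' kk : Matrix (Fin a) (Fin a) K, mf b (E i) * b' * mf b (E j) = b' ∧
        mf b (E j) * kk * mf b (E i) = kk ∧ (∀ u, qf b q (b' *ᵥ u) = 0) ∧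
        (∀ u, qf b q (kk *ᵥ u) = 0) ∧
        (∀ r, mf b (A r) * (b' + (x r)ᵀ * ((pf b lx)ᵀ * J * pf b lx)) =
          c • ((b' + (x r)ᵀ * ((pf b lx)ᵀ * J * pf b lx)) * mf b (A r))) ∧
        (∀ r, (kk - x r * ((pf b lx)ᵀ * J * pf b lx)) * mf b (A r) =
          c • (mf b (A r) * (kk - x r * ((pf b lx)ᵀ * J * pf b lx))))) :
    Fr k arm J B N W F G (pf b lx) (fun s => mf b (A s)) (mf b D) β T Ψ τ (qf b q)
      (fun i => mf b (E i)) lam l TT := by
  have hsurj : ∀ y : Fin a → K, ∃ x : X, b.equivFun x = y := fun y =>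
    ⟨b.equivFun.symm y, b.equivFun.apply_symm_apply y⟩
  have hform : ∀ x y : X, β (q x) (q y) =
      b.equivFun x ⬝ᵥ (((pf b lx)ᵀ * J * pf b lx) *ᵥ b.equivFun y) := by
    intro x y
    rw [h.form, ← mulVec_mulVec, ← mulVec_mulVec, fr_repr, dotProduct_mulVec (b.equivFun x),
      vecMul_transpose, fr_repr]
  have hext : ∀ {P Q : Matrix (Fin a) (Fin a) K},
      (∀ x y, b.equivFun x ⬝ᵥ (P *ᵥ b.equivFun y) = b.equivFun x ⬝ᵥ (Q *ᵥ b.equivFun y)) →
      P = Q := by
    intro P Q hPQ
    ext i j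
    obtain ⟨x, hx⟩ := hsurj (Pi.single i 1)
    obtain ⟨y, hy⟩ := hsurj (Pi.single j 1)
    have h1 := hPQ x y
    rw [hx, hy, mulVec_single_one, mulVec_single_one, single_one_dotProduct,
      single_one_dotProduct] at h1
    exact h1
  have hE : ∀ x : X, x = ∑ i, E i x := fun x => by
    have h1 : (∑ i, E i) x = x := by rw [h.sumE]; rfl
    rw [LinearMap.sum_apply] at h1
    exact h1.symm
  have hbl : ∀ i x y, β (q (E i x)) (q y) = β (q (E i x)) (q (E i y)) := by
    intro i x y
    conv_lhs => rw [hE y, map_sum, map_sum, Finset.sum_eq_single i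
      (fun j _ hj => h.orthE i j (Ne.symm hj) x y) (fun hi => absurd (Finset.mem_univ i) hi)]
  refine
    { ctx := ctx
      vt := vt
      wk := wk
      par := par
      inf := inf
      ne0 := ne0
      sum0 := ?_
      cr := ⟨h.ns, ?_, ?_, ?_, h.sa, h.adj, h.topM⟩
      ptau := ?_
      kill := ?_
      killV := ?_
      idem := fun i => by rw [mf_mul, h.idem]
      orth := fun i j hij => by rw [mf_mul, h.orth i j hij]; exact map_zero _
      sumE := ?_
      eal := fun i s => by rw [mf_mul, mf_mul, h.EA]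
      etau := fun i => by rw [mf_mul, mf_mul, h.ED]
      eC := fun i d => mf_der hκ i d
      eg := ?_
      nil := ?_
      lamInj := h.lamInj
      two := h.two
      hom := ?_
      lpos := h.lpos
      lsum := h.lsum
      lnil := h.lnil
      free := h.free
      top := ?_
      gen := ?_
      hexS := hexS }
  · -- sum0
    apply ext_mulVec b
    intro x
    rw [Matrix.sum_mulVec, zero_mulVec, Finset.sum_congr rfl fun s _ => toMatrix_equivFun b (A s) x,
      ← map_sum, h.sumA, map_zero]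
  · intro v
    obtain ⟨x, rfl⟩ := h.onto v
    exact ⟨b.equivFun x, qf_repr b x⟩
  · intro y y'
    obtain ⟨x, rfl⟩ := hsurj y
    obtain ⟨x', rfl⟩ := hsurj y'
    rw [qf_repr, qf_repr, hform]
  · intro s y
    obtain ⟨x, rfl⟩ := hsurj y
    rw [qf_repr, toMatrix_equivFun, qf_repr, h.qA]
  · intro y
    obtain ⟨x, rfl⟩ := hsurj y
    rw [toMatrix_equivFun, qf_repr, qf_repr, h.qD]
  · obtain ⟨m0, hm⟩ := h.kill
    refine ⟨m0, fun w hw u hu => ?_⟩
    obtain ⟨x, rfl⟩ := hsurj u
    rw [qf_repr] at hu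
    rw [mf_words, hm w hw x hu, map_zero]
  · intro t
    obtain ⟨m0, hm⟩ := killV t
    refine ⟨m0, fun w hw u hu => ?_⟩
    obtain ⟨x, rfl⟩ := hsurj u
    rw [qf_repr] at hu
    rw [fr_repr]
    exact hm w hw x hu
  · -- sumE
    apply ext_mulVec b
    intro x
    rw [Matrix.sum_mulVec, one_mulVec, Finset.sum_congr rfl fun i _ => toMatrix_equivFun b (E i) x,
      ← map_sum, ← hE]
  · intro i
    apply hext
    intro x y
    have e1 : ∀ S γ : Matrix (Fin a) (Fin a) K, ∀ u v : Fin a → K,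
        u ⬝ᵥ ((Sᵀ * γ) *ᵥ v) = (S *ᵥ u) ⬝ᵥ (γ *ᵥ v) := fun S γ u v => by
      rw [← mulVec_mulVec, dotProduct_mulVec u, vecMul_transpose]
    have e2 : ∀ S γ : Matrix (Fin a) (Fin a) K, ∀ u v : Fin a → K,
        u ⬝ᵥ ((γ * S) *ᵥ v) = u ⬝ᵥ (γ *ᵥ (S *ᵥ v)) := fun S γ u v => by
      rw [← mulVec_mulVec]
    rw [e1, e2, toMatrix_equivFun, toMatrix_equivFun, ← hform, ← hform]
    calc β (q (E i x)) (q y) = β (q (E i x)) (q (E i y)) := hbl i x y
      _ = β (q (E i y)) (q (E i x)) := h.ns.symm _ _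
      _ = β (q (E i y)) (q x) := (hbl i y x).symm
      _ = β (q x) (q (E i y)) := h.ns.symm _ _
  · intro i
    obtain ⟨r, hr⟩ := h.nil i
    refine ⟨r, ?_⟩
    have e1 : (mf b D - lam i • (1 : Matrix (Fin a) (Fin a) K)) * mf b (E i) =
        mf b ((D - lam i • (1 : Module.End K X)) * E i) := by
      rw [← mf_mul]
      congr 1
      change _ = LinearMap.toMatrix b b (D - lam i • (1 : Module.End K X))
      rw [map_sub, map_smul, LinearMap.toMatrix_one]
    rw [e1]
    apply ext_mulVec b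
    intro x
    rw [mf_pow, hr, LinearMap.zero_apply, map_zero, zero_mulVec]
  · intro t ht A' hA' i j hij x y
    obtain ⟨x, rfl⟩ := hsurj x
    obtain ⟨y, rfl⟩ := hsurj y
    rw [toMatrix_equivFun, toMatrix_equivFun, qf_repr, qf_repr]
    exact hom t ht A' hA' i j hij x y
  · intro i s
    obtain ⟨x, y, hxy⟩ := h.top i s
    refine ⟨b.equivFun x, b.equivFun y, ?_⟩
    rw [toMatrix_equivFun, toMatrix_equivFun, mf_pow, ← hform]
    exact hxy
  · intro i S hS hSl u hu
    obtain ⟨x, rfl⟩ := hsurj u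
    rw [toMatrix_equivFun, qf_repr] at hu
    have h1 := h.gen i (S.comap (b.equivFun : X →ₗ[K] (Fin a → K)))
      (fun s v hv => by
        rw [Submodule.mem_comap] at hv ⊢
        have h2 := hS s _ hv
        change mf b (A s) *ᵥ b.equivFun v ∈ S at h2
        rw [toMatrix_equivFun] at h2
        exact h2)
      (fun s x => by
        rw [Submodule.mem_comap]
        have h2 := hSl s (b.equivFun x)
        rw [toMatrix_equivFun, mf_pow] at h2
        exact h2) x hu
    rw [toMatrix_equivFun]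
    exact h1

end fr

end Crest.Agent.R172.RDMat
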