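import Crest.Agent.R172.N5b
import Crest.Agent.R172.Cov
import Crest.Agent.R172.CovI
import Crest.Agent.R172.CoreP2
import Crest.Agent.R172.RGen

/-!
Row 172 (S0260), T0 for arbitrary radical and arbitrary `D`: the SETUP.

`MC`: the perfect cover `X` of the tame core `M` on which `D` is an honest operator:
`A_s`, `T` on `X`, `l : X → V`, `π : X → M` with `Φ_s l = l A_s`, `Gᵀ J l = Fᵀ J l T`, `π A_s = Ψ_s π`,
`π T = D π`, `π` onto with nilpotent kernel, `range l = T^⊥`.
`exists_MC`: it exists.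
`MC.blk`: the block `X_ν` (generalized eigenspace of `T`) satisfies the module hypotheses of
`RJ1.main` / `RJ2.main_coeff`.
-/

set_option autoImplicit false
set_option linter.unusedSectionVars false
set_option maxHeartbeats 400000

namespace Crest.Agent.R172.RDSet

open Module LinearMap
open Crest.Agent.R172.St

/-- the module cover -/
structure MC {K V U M X : Type*} [Field K] [AddCommGroup V] [Module K V] [AddCommGroup U]
    [Module K U] [AddCommGroup M] [Module K M] [AddCommGroup X] [Module K X]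
    (B : LinearMap.BilinForm K V) (Φ : Fin 3 → End K V) (Fs Gs : V →ₗ[K] U)
    (β : LinearMap.BilinForm K M) (Ψ : Fin 3 → End K M) (D : End K M)
    (A : Fin 3 → End K X) (T : End K X) (l : X →ₗ[K] V) (π : X →ₗ[K] M) (m : ℕ) : Prop where
  sumA : ∑ s, A s = 0
  comm : ∀ s x, T (A s x) = A s (T x)
  perf : ⨆ s, range (A s) = ⊤
  lA : ∀ s x, Φ s (l x) = l (A s x)
  lG : ∀ x, Gs (l x) = Fs (l (T x))
  rng : range l = Tp B Φ
  pA : ∀ s x, π (A s x) = Ψ s (π x)
  pT : ∀ x, π (T x) = D (π x)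
  onto : Function.Surjective π
  nil : ∀ w : List (Fin 3), w.length = m → ∀ x, π x = 0 → (w.map A).prod x = 0
  form : ∀ x y, B (l x) (l y) = β (π x) (π y)

section nil

variable {K X : Type*} [Field K] [AddCommGroup X] [Module K X] {A : Fin 3 → End K X}

theorem nil_words {k : ℕ} {x : X} (h : x ∈ CovT.Nil A k) (w : List (Fin 3)) (hw : w.length = k) :
    (w.map A).prod x = 0 := by
  induction w using List.reverseRecOn generalizing k x with
  | nil =>
    subst hw
    rw [List.length_nil, CovT.mem_Nil_zero] at h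
    rw [h, map_zero]
  | append_singleton w s ih =>
    rw [List.length_append, List.length_singleton] at hw
    subst hw
    rw [List.map_append, List.prod_append, List.map_singleton, List.prod_singleton,
      Module.End.mul_apply]
    exact ih (CovT.mem_Nil_succ.1 h s) rfl

theorem Nk_eq {V : Type*} [AddCommGroup V] [Module K V] (Φ : Fin 3 → End K V) (k : ℕ) :
    Nk Φ k = CovT.Nil Φ k := by
  induction k with
  | zero => rfl
  | succ k ih => change (⨅ s, (Nk Φ k).comap (Φ s)) = ⨅ s, (CovT.Nil Φ k).comap (Φ s); rw [ih]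

end nil

section inst

open Matrix Crest.AlgebraR.SpinSaturation Crest.Agent.R172.SoGrade Crest.Agent.R172.CF
open Crest.Agent.R172.Gen (Jm Ix emb Ent ent)
open Crest.Agent.R172.ThX Crest.Agent.R172.CSys Crest.Agent.R172.TG
open Crest.Agent.R172.Core (NS cp BM Tame Pres pres_Φ)
open Crest.Agent.R172.N5 (Ph)

variable {n : ℕ} {a : Fin 3 → Fin n → ℤ} {c : Cfg n a} {K : Type} [Field K] [Algebra ℂ K]
variable {N W : Submodule K (Matrix (Ix n) c.δ K)} {F G : Matrix (Ix n) c.δ K}

theorem Ph_eq (F : Matrix (Ix n) c.δ K) :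
    Ph F = CovI.Ph (CovI.st (Jm n K) F) (CovI.lo c.arm (c.B K) F) := by
  rw [CovI.Ph_eq]; exact MM_eq F

theorem Ps_eq (F G : Matrix (Ix n) c.δ K) :
    MM (pU c K) (adjU c K) (Matrix.toLin' F) (Matrix.toLin' G) =
      CovI.Ps (CovI.st (Jm n K) G) (CovI.lo c.arm (c.B K) F) := by
  funext s
  refine LinearMap.ext fun v => ?_
  rw [MM_toLin, CovI.Ps_apply, CovI.lo_st_apply]

theorem exists_MC (hD : FO.Data ℂ c.arm (Jm n K) (c.B K) N W) (hF : F ∈ N ⊓ W) (hG : G ∈ N ⊓ W)
    (C : St.Core (BV n K) (Ph F)) {τ : End K C.M} (hT : TameAt F G C τ) :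
    ∃ (X : Type) (_ : AddCommGroup X) (_ : Module K X) (_ : FiniteDimensional K X)
      (A : Fin 3 → End K X) (T : End K X) (l : X →ₗ[K] (Ix n → K)) (π : X →ₗ[K] C.M) (m : ℕ),
      MC (BV n K) (Ph F) (CovI.st (Jm n K) F) (CovI.st (Jm n K) G) (BM C)
        (fun s => cp C (Ph F s)) τ A T l π m := by
  classical
  have hpen := CovI.pen hD hF hG
  have hsa : ∀ s, Sa (BV n K) (Ph F s) := N5.Ph_sa hD hF
  have hB : BV n K = DerG.BJ (Jm n K) := BV_eq
  have hPs : ∀ s v, MM (pU c K) (adjU c K) (Matrix.toLin' F) (Matrix.toLin' G) s v =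
      CovI.lo c.arm (c.B K) F s (CovI.st (Jm n K) G v) := by
    intro s v; rw [Ps_eq]; rfl
  have hPh : ∀ s v, Ph F s v = CovI.lo c.arm (c.B K) F s (CovI.st (Jm n K) F v) := by
    intro s v; rw [Ph_eq]; rfl
  have hPsT : ∀ s, ∀ v ∈ T (Ph F),
      MM (pU c K) (adjU c K) (Matrix.toLin' F) (Matrix.toLin' G) s v ∈ T (Ph F) := by
    intro s v hv
    rw [Ps_eq, Ph_eq] at *
    exact hpen.Ps_T s hv
  have hPssa : ∀ s, Sa (BV n K) (MM (pU c K) (adjU c K) (Matrix.toLin' F) (Matrix.toLin' G) s) := by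
    intro s
    rw [Ps_eq, hB]
    exact hpen.Ps_sa s
  have hpres : ∀ s, Pres (BV n K) (Ph F)
      (MM (pU c K) (adjU c K) (Matrix.toLin' F) (Matrix.toLin' G) s) := by
    intro s
    exact ⟨hPsT s, fun v hv => Tp_stable (hPssa s) (hPsT s) hv⟩
  obtain ⟨k, hk⟩ := St.T_eq_Nk (Ph F)
  have hsum : ∀ v, Ph F 0 v + Ph F 1 v + Ph F 2 v = 0 := by
    intro v
    have h1 := MM_sum hD hF.2 v
    rwa [Fin.sum_univ_three] at h1
  have hpA0 : ∀ x : C.M, ∃ y : Fin 3 → C.M, x = ∑ s, cp C (Ph F s) (y s) := by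
    intro x
    have h1 := Core.iSup_range_eq_top (Core.NS_BM BV_ns C) (Φ := fun s => cp C (Ph F s))
      (fun s v w => Core.cp_sa C (hsa s) v w) (fun v h => Core.cp_ker hsa C v h)
    have h2 : x ∈ ⨆ s, LinearMap.range (cp C (Ph F s)) := by rw [h1]; trivial
    rw [Submodule.mem_iSup_iff_exists_finsupp] at h2
    obtain ⟨f, hf, hfv⟩ := h2
    choose w hw using fun s => hf s
    refine ⟨w, ?_⟩
    rw [← hfv, Finsupp.sum_fintype _ _ (fun _ => rfl)]
    exact Finset.sum_congr rfl fun s _ => (hw s).symm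
  obtain ⟨X, i1, i2, A, T', pr, l, n', h⟩ := CovT.exists_cov
    (Φ := Ph F) (Ψ := fun s => MM (pU c K) (adjU c K) (Matrix.toLin' F) (Matrix.toLin' G) s)
    (f := CovI.st (Jm n K) F) (g := CovI.st (Jm n K) G) (F' := CovI.lo c.arm (c.B K) F)
    (Tp := Tp (BV n K) (Ph F)) (pM := CP.pM C) (A0 := fun s => cp C (Ph F s)) (D0 := τ)
    (p0 := LinearMap.id) hPh hPs
    (by
      intro s v
      rw [hPh, hPs]
      exact (hpen.Gs_Ph s v))
    hsum
    (fun s v hv => CP.Φ_Tp hsa s hv)
    (fun s v hv => (hpres s).Tp v hv)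
    (φ := fun s => cp C (Ph F s)) (τ := τ)
    (fun s v hv => CP.pM_Φ hsa C s hv)
    (fun s v hv => by
      rw [CP.pM_pres (hpres s) C hv]
      exact hT.rel s _)
    (k := k)
    (fun v hv hv0 => by
      rw [← Nk_eq, ← hk]
      exact (CP.pM_eq_zero C hv).1 hv0)
    (sec := C.M.subtype)
    (fun m => C.le _ m.2)
    (fun m => CP.pM_self C m)
    (fun x => by
      have h1 := hsum (x : Ix n → K)
      have h2 : ∀ s, cp C (Ph F s) x = CP.pM C (Ph F s (x : Ix n → K)) := fun s => rfl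
      rw [h2, h2, h2, ← map_add, ← map_add, h1, map_zero])
    (fun s x => hT.comm s x)
    hpA0
    (fun s x => rfl)
    (fun x => rfl)
  have hfin : FiniteDimensional K X := h.fin inferInstance
  have hpm : ∀ x, CP.pM C (l x) = pr x := h.lpM
  refine ⟨X, i1, i2, hfin, A, T', l, pr, n', ?_⟩
  refine
    { sumA := ?_
      comm := h.comm
      perf := ?_
      lA := h.exA
      lG := h.exG
      rng := ?_
      pA := h.prA
      pT := h.prD
      onto := h.surj
      nil := fun w hw x hx => nil_words (h.nil x hx) w hw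
      form := fun x y => by
        rw [CP.form_eq (fun u v => BV_ns.symm u v) C (h.lTp x) (h.lTp y), hpm, hpm] }
  · refine LinearMap.ext fun x => ?_
    rw [LinearMap.sum_apply, Fin.sum_univ_three]
    exact h.sumA x
  · rw [eq_top_iff]
    intro x _
    obtain ⟨y, hy⟩ := h.perf x
    rw [hy]
    exact Submodule.sum_mem _ fun s _ => Submodule.mem_iSup_of_mem s ⟨y s, rfl⟩
  · refine le_antisymm ?_ ?_
    · rintro _ ⟨x, rfl⟩
      exact h.lTp x
    · -- Nakayama
      have hR' : CP.Ax (Ph F) (range l) ≤ range l := by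
        refine CP.Ax_le fun s v hv => ?_
        obtain ⟨x, rfl⟩ := hv
        exact ⟨A s x, (h.exA s x).symm⟩
      have hTpp : Tp (BV n K) (Ph F) ≤ CP.Ax (Ph F) (Tp (BV n K) (Ph F)) :=
        Core.Tp_le_iSup BV_ns hsa
      have hdec : ∀ v ∈ Tp (BV n K) (Ph F), ∃ x, v - l x ∈ Tp (BV n K) (Ph F) ⊓ T (Ph F) := by
        intro v hv
        obtain ⟨x, hx⟩ := h.surj (CP.pM C v)
        refine ⟨x, Submodule.sub_mem _ hv (h.lTp x), ?_⟩
        refine (CP.pM_eq_zero C (Submodule.sub_mem _ hv (h.lTp x))).1 ?_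
        rw [map_sub, hpm, hx, sub_self]
      have hRR : Tp (BV n K) (Ph F) ⊓ T (Ph F) ≤
          range l ⊔ CP.Ax (Ph F) (Tp (BV n K) (Ph F) ⊓ T (Ph F)) := by
        intro v hv
        obtain ⟨q, hq, hqv⟩ := CP.mem_Ax_iff.1 (hTpp hv.1)
        rw [hqv]
        refine Submodule.sum_mem _ fun s _ => ?_
        obtain ⟨x, hx⟩ := hdec _ (hq s)
        have e1 : Ph F s (q s) = l (A s x) + Ph F s (q s - l x) := by
          rw [map_sub, h.exA]; abel
        rw [e1]
        exact Submodule.add_mem_sup ⟨_, rfl⟩ (CP.mem_Ax hx s)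
      have hnk : Tp (BV n K) (Ph F) ⊓ T (Ph F) ≤ range l := by
        refine CP.nak hR' hRR (k := k) ?_
        refine le_trans (CP.It_mono ?_ k) ((CP.It_Nk (Ph F) k).trans bot_le)
        rw [← hk]; exact inf_le_right
      intro v hv
      obtain ⟨x, hx⟩ := hdec v hv
      have h1 := hnk hx
      have e1 : v = (v - l x) + l x := by abel
      rw [e1]
      exact Submodule.add_mem _ h1 ⟨x, rfl⟩

end inst

end Crest.Agent.R172.RDSet
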