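import Crest.Agent.R172.RDSet
import Crest.Agent.R172.RRk

/-!
Row 172 (S0260), T0 for arbitrary radical and arbitrary `D`: the blocks `X_ν = T.maxGenEigenspace ν`
of the cover `MC` satisfy the module hypotheses of `RJM.main` / `RJ1.main` / `RJ2.main_coeff`.
-/

set_option autoImplicit false
set_option linter.unusedSectionVars false
set_option maxHeartbeats 400000

namespace Crest.Agent.R172.RDSet

open Module LinearMap
open Crest.Agent.R172.St
open Crest.Agent.R172.Core (NS Tame gen_stable gen_ortho gen_isCompl co)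

variable {K V U M X : Type*} [Field K] [AddCommGroup V] [Module K V] [AddCommGroup U]
    [Module K U] [AddCommGroup M] [Module K M] [AddCommGroup X] [Module K X]
    {B : LinearMap.BilinForm K V} {Φ : Fin 3 → End K V} {Fs Gs : V →ₗ[K] U}
    {β : LinearMap.BilinForm K M} {Ψ : Fin 3 → End K M} {D : End K M}
    {A : Fin 3 → End K X} {T : End K X} {l : X →ₗ[K] V} {π : X →ₗ[K] M} {m : ℕ}

theorem Nk_of_words {x : X} {k : ℕ}
    (h : ∀ w : List (Fin 3), w.length = k → (w.map A).prod x = 0) : x ∈ Nk A k := by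
  induction k generalizing x with
  | zero => rw [mem_Nk_zero]; simpa using h [] rfl
  | succ k ih =>
    rw [mem_Nk_succ]
    intro s
    refine ih fun w hw => ?_
    have := h (w ++ [s]) (by simp [hw])
    rwa [List.map_append, List.prod_append, List.map_singleton, List.prod_singleton] at this

/-- the operator `A_s` on the block -/
def Ab (hc : ∀ s x, T (A s x) = A s (T x)) (ν : K) (s : Fin 3) :
    End K (T.maxGenEigenspace ν) := (A s).restrict (gen_stable (hc s) ν)

theorem Ab_coe (hc : ∀ s x, T (A s x) = A s (T x)) (ν : K) (s : Fin 3)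
    (x : T.maxGenEigenspace ν) : ((Ab hc ν s x : T.maxGenEigenspace ν) : X) = A s x := rfl

theorem Ab_word (hc : ∀ s x, T (A s x) = A s (T x)) (ν : K) (w : List (Fin 3))
    (x : T.maxGenEigenspace ν) :
    (((w.map (Ab hc ν)).prod x : T.maxGenEigenspace ν) : X) = (w.map A).prod (x : X) := by
  induction w generalizing x with
  | nil => simp
  | cons s w ih =>
    rw [List.map_cons, List.prod_cons, List.map_cons, List.prod_cons, Module.End.mul_apply,
      Module.End.mul_apply, Ab_coe, ih]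

theorem Ab_pow (hc : ∀ s x, T (A s x) = A s (T x)) (ν : K) (s : Fin 3) (j : ℕ)
    (x : T.maxGenEigenspace ν) :
    (((Ab hc ν s ^ j) x : T.maxGenEigenspace ν) : X) = (A s ^ j) (x : X) := by
  induction j generalizing x with
  | zero => rfl
  | succ j ih =>
    rw [pow_succ, pow_succ, Module.End.mul_apply, Module.End.mul_apply, ih, Ab_coe]

/-- the operator `T` on the block -/
def Tb (T : End K X) (ν : K) : End K (T.maxGenEigenspace ν) :=
  T.restrict (gen_stable (fun _ => rfl) ν)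

theorem Tb_coe (ν : K) (x : T.maxGenEigenspace ν) :
    ((Tb T ν x : T.maxGenEigenspace ν) : X) = T x := rfl

theorem Ab_Tb (hc : ∀ s x, T (A s x) = A s (T x)) (ν : K) (s : Fin 3) :
    Commute (Ab hc ν s) (Tb T ν) :=
  LinearMap.ext fun x => Subtype.ext (hc s x).symm

/-- `T - ν` is nilpotent on the block -/
theorem Tb_nil [FiniteDimensional K X] (T : End K X) (ν : K) :
    IsNilpotent (Tb T ν - ν • (1 : End K (T.maxGenEigenspace ν))) := by
  have key : ∀ j (y : T.maxGenEigenspace ν),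
      ((((Tb T ν - ν • (1 : End K (T.maxGenEigenspace ν))) ^ j) y : T.maxGenEigenspace ν) : X) =
        ((T - ν • (1 : End K X)) ^ j) (y : X) := by
    intro j
    induction j with
    | zero => intro y; rfl
    | succ j ih => intro y; rw [pow_succ, pow_succ, Module.End.mul_apply, Module.End.mul_apply, ih]; rfl
  refine ⟨finrank K X, LinearMap.ext fun x => Subtype.ext ?_⟩
  rw [key]
  have h1 := x.2
  have h2 : T.maxGenEigenspace ν = T.genEigenspace ν (finrank K X : ℕ) :=
    Module.End.maxGenEigenspace_eq_genEigenspace_finrank T ν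
  have h3 : (x : X) ∈ T.genEigenspace ν (finrank K X : ℕ) := h2.le h1
  rw [Module.End.mem_genEigenspace_nat] at h3
  exact h3

/-- the radical of the block -/
def Rb (T : End K X) (π : X →ₗ[K] M) (ν : K) : Submodule K (T.maxGenEigenspace ν) :=
  ker (π ∘ₗ (T.maxGenEigenspace ν).subtype)

theorem mem_Rb {ν : K} {x : T.maxGenEigenspace ν} : x ∈ Rb T π ν ↔ π (x : X) = 0 := by
  unfold Rb
  rw [LinearMap.mem_ker]
  rfl

/-- the form `(l x, l y)` on a pair of blocks -/
def gb (B : LinearMap.BilinForm K V) (T : End K X) (l : X →ₗ[K] V) (μ ν : K) :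
    T.maxGenEigenspace μ →ₗ[K] T.maxGenEigenspace ν →ₗ[K] K :=
  B.compl₁₂ (l ∘ₗ (T.maxGenEigenspace μ).subtype) (l ∘ₗ (T.maxGenEigenspace ν).subtype)

theorem gb_apply (μ ν : K) (x : T.maxGenEigenspace μ) (y : T.maxGenEigenspace ν) :
    gb B T l μ ν x y = B (l x) (l y) := rfl

namespace MC

variable (h : MC B Φ Fs Gs β Ψ D A T l π m)
include h

theorem π_mem {ν : K} {x : X} (hx : x ∈ T.maxGenEigenspace ν) : π x ∈ D.maxGenEigenspace ν := by
  rw [Module.End.mem_maxGenEigenspace] at hx ⊢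
  obtain ⟨k, hk⟩ := hx
  refine ⟨k, ?_⟩
  have key : ∀ j y, π (((T - ν • (1 : End K X)) ^ j) y) = ((D - ν • (1 : End K M)) ^ j) (π y) := by
    intro j
    induction j with
    | zero => intro y; rfl
    | succ j ih =>
      intro y
      rw [pow_succ, pow_succ, Module.End.mul_apply, Module.End.mul_apply, ih]
      congr 1
      simp [h.pT]
  rw [← key, hk, map_zero]

theorem Rb_st (ν : K) (s : Fin 3) : ∀ r ∈ Rb T π ν, Ab h.comm ν s r ∈ Rb T π ν := by
  intro r hr
  rw [mem_Rb] at hr ⊢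
  rw [Ab_coe, h.pA, hr, map_zero]

theorem Rb_T (ν : K) : ∀ r ∈ Rb T π ν, Tb T ν r ∈ Rb T π ν := by
  intro r hr
  rw [mem_Rb] at hr ⊢
  rw [Tb_coe, h.pT, hr, map_zero]

theorem Rb_words (ν : K) (w : List (Fin 3)) (hw : w.length = m) :
    ∀ r ∈ Rb T π ν, (w.map (Ab h.comm ν)).prod r = 0 := by
  intro r hr
  rw [mem_Rb] at hr
  apply Subtype.ext
  rw [Ab_word]
  exact h.nil w hw _ hr

theorem gb_R1 {μ ν : K} (r : T.maxGenEigenspace μ) (hr : r ∈ Rb T π μ)
    (p : T.maxGenEigenspace ν) : gb B T l μ ν r p = 0 := by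
  rw [mem_Rb] at hr
  rw [gb_apply, h.form, hr, map_zero, LinearMap.zero_apply]

theorem gb_R2 {μ ν : K} (r : T.maxGenEigenspace μ) (hr : r ∈ Rb T π μ)
    (p : T.maxGenEigenspace ν) : gb B T l ν μ p r = 0 := by
  rw [mem_Rb] at hr
  rw [gb_apply, h.form, hr, map_zero]

theorem gb_A (hΨ : ∀ s v w, β (Ψ s v) w = β v (Ψ s w)) (μ ν : K) (s : Fin 3)
    (p : T.maxGenEigenspace μ) (p' : T.maxGenEigenspace ν) :
    gb B T l μ ν (Ab h.comm μ s p) p' = gb B T l μ ν p (Ab h.comm ν s p') := by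
  rw [gb_apply, gb_apply, Ab_coe, Ab_coe, h.form, h.form, h.pA, h.pA, hΨ]

/-- different blocks are orthogonal -/
theorem gb_orth (hDβ : ∀ v w, β (D v) w = β v (D w)) {μ ν : K} (hne : μ ≠ ν)
    (p : T.maxGenEigenspace μ) (p' : T.maxGenEigenspace ν) : gb B T l μ ν p p' = 0 := by
  rw [gb_apply, h.form]
  exact gen_ortho hDβ hne _ (h.π_mem p.2) _ (h.π_mem p'.2)

section spec

variable [FiniteDimensional K X] [IsAlgClosed K]

/-- the block projectors on the cover -/
theorem exists_e : ∃ e : K → End K X, (∀ ν x, e ν x ∈ T.maxGenEigenspace ν) ∧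
    (∀ ν, ∀ x ∈ T.maxGenEigenspace ν, e ν x = x) ∧ (∀ ν s x, e ν (A s x) = A s (e ν x)) ∧
    (∀ μ ν, μ ≠ ν → ∀ x ∈ T.maxGenEigenspace μ, e ν x = 0) := by
  classical
  have htop : ⨆ ν, T.maxGenEigenspace ν = ⊤ := Module.End.iSup_maxGenEigenspace_eq_top T
  let e : K → End K X := fun ν => (T.maxGenEigenspace ν).projection (co T ν) (gen_isCompl htop ν)
  refine ⟨e, fun ν x => Submodule.projection_apply_mem _ x,
    fun ν x hx => Submodule.projection_apply_of_mem_left _ hx, ?_, ?_⟩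
  · intro ν s x
    have h1 := (gen_isCompl htop ν).sup_eq_top
    have h2 : x ∈ T.maxGenEigenspace ν ⊔ co T ν := by rw [h1]; trivial
    obtain ⟨y, hy, z, hz, rfl⟩ := Submodule.mem_sup.1 h2
    have ey : e ν y = y := Submodule.projection_apply_of_mem_left _ hy
    have ez : e ν z = 0 := (Submodule.projection_apply_eq_zero_iff _).2 hz
    have eAy : e ν (A s y) = A s y :=
      Submodule.projection_apply_of_mem_left _ (gen_stable (h.comm s) ν y hy)
    have eAz : e ν (A s z) = 0 :=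
      (Submodule.projection_apply_eq_zero_iff _).2 (Core.co_stable (h.comm s) ν z hz)
    rw [map_add, map_add, map_add, map_add, ey, ez, eAy, eAz, map_zero]
  · intro μ ν hne x hx
    refine (Submodule.projection_apply_eq_zero_iff _).2 ?_
    exact Submodule.mem_iSup_of_mem μ (Submodule.mem_iSup_of_mem hne hx)

/-- the block is perfect -/
theorem perf_b (ν : K) : ⨆ s, range (Ab h.comm ν s) = ⊤ := by
  obtain ⟨e, e1, e2, e3, -⟩ := h.exists_e
  rw [eq_top_iff]
  rintro x -
  obtain ⟨q, hq⟩ := RG.exists_sum A h.perf (x : X)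
  have h1 : x = ∑ s, Ab h.comm ν s ⟨e ν (q s), e1 ν _⟩ := by
    apply Subtype.ext
    rw [AddSubmonoidClass.coe_finsetSum]
    simp only [Ab_coe]
    rw [← e2 ν x x.2, ← hq, map_sum]
    exact Finset.sum_congr rfl fun s _ => e3 ν s _
  rw [h1]
  exact Submodule.sum_mem _ fun s _ => Submodule.mem_iSup_of_mem s ⟨_, rfl⟩

/-- `π` maps the block onto the block of the core -/
theorem π_onto {ν : K} {v : M} (hv : v ∈ D.maxGenEigenspace ν) :
    ∃ x ∈ T.maxGenEigenspace ν, π x = v := by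
  classical
  obtain ⟨x, rfl⟩ := h.onto v
  have htop : ⨆ ν, T.maxGenEigenspace ν = ⊤ := Module.End.iSup_maxGenEigenspace_eq_top T
  have h2 : x ∈ T.maxGenEigenspace ν ⊔ co T ν := by rw [(gen_isCompl htop ν).sup_eq_top]; trivial
  obtain ⟨y, hy, z, hz, rfl⟩ := Submodule.mem_sup.1 h2
  refine ⟨y, hy, ?_⟩
  have h3 : π z ∈ co D ν := by
    have hle : co T ν ≤ (co D ν).comap π := by
      refine iSup_le fun μ => iSup_le fun hμ => ?_
      intro w hw
      exact Submodule.mem_iSup_of_mem μ (Submodule.mem_iSup_of_mem hμ (h.π_mem hw))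
    exact hle hz
  have h4 : π z ∈ D.maxGenEigenspace ν := by
    rw [map_add] at hv
    have := Submodule.sub_mem _ hv (h.π_mem hy)
    rwa [add_sub_cancel_left] at this
  have h5 : π z = 0 := by
    have hd := Module.End.independent_maxGenEigenspace D ν
    exact (Submodule.disjoint_def.1 hd) _ h4 h3
  rw [map_add, h5, add_zero]

/-- a block over the zero block is zero -/
theorem blk_bot {ν : K} (hν : D.maxGenEigenspace ν = ⊥) : T.maxGenEigenspace ν = ⊥ := by
  have hR : ∀ x : T.maxGenEigenspace ν, x ∈ Rb T π ν := by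
    intro x
    have h1 := h.π_mem x.2
    rw [hν, Submodule.mem_bot] at h1
    exact mem_Rb.2 h1
  have h2 : (⊤ : Submodule K (T.maxGenEigenspace ν)) ≤ ⊥ := by
    refine RG.nak (A := Ab h.comm ν) (k := m) (fun s v hv => by
      rw [Submodule.mem_bot] at hv ⊢; rw [hv, map_zero]) ?_ ?_
    · intro x _
      exact Nk_of_words fun w hw => h.Rb_words ν w hw x (hR x)
    · rw [bot_sup_eq]
      have h5 := h.perf_b ν
      have h6 : ∀ s, (⊤ : Submodule K (T.maxGenEigenspace ν)).map (Ab h.comm ν s) =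
          range (Ab h.comm ν s) := fun s => Submodule.map_top _
      simp only [h6]
      exact h5.ge
  rw [eq_bot_iff]
  intro x hx
  have h3 : (⟨x, hx⟩ : T.maxGenEigenspace ν) ∈ (⊥ : Submodule K (T.maxGenEigenspace ν)) :=
    h2 trivial
  rw [Submodule.mem_bot] at h3 ⊢
  exact congrArg Subtype.val h3

end spec

section tame

variable [FiniteDimensional K X] [FiniteDimensional K M] [IsAlgClosed K]
variable (hβ : NS β) (hΨ : ∀ s v w, β (Ψ s v) w = β v (Ψ s w))
  (hDβ : ∀ v w, β (D v) w = β v (D w))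
  {ll : Fin 3 → ℕ} {ν : K} (hν : D.maxGenEigenspace ν ≠ ⊥) (hl1 : ∀ s, 1 ≤ ll s)
  (hl : ∀ s nu, D.maxGenEigenspace nu ≠ ⊥ →
      (∀ j, (∀ v ∈ D.maxGenEigenspace nu, (Ψ s ^ j) v = 0) ↔ ll s ≤ j) ∧
      ll s * finrank K (ker (Ψ s) ⊓ D.maxGenEigenspace nu : Submodule K M) =
        finrank K (D.maxGenEigenspace nu))
  (hq : ∑ s, (1 - 1 / (ll s : ℚ)) = 2)

omit [FiniteDimensional K X] [FiniteDimensional K M] [IsAlgClosed K] in
theorem π_pow (s : Fin 3) (j : ℕ) (x : X) : π ((A s ^ j) x) = (Ψ s ^ j) (π x) := by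
  induction j generalizing x with
  | zero => rfl
  | succ j ih => rw [pow_succ, pow_succ, Module.End.mul_apply, Module.End.mul_apply, ih, h.pA]

omit [FiniteDimensional K X] [FiniteDimensional K M] [IsAlgClosed K] in
include hν hl in
/-- `A_s ^ l_s` maps the block into its radical -/
theorem pow_Rb (s : Fin 3) (p : T.maxGenEigenspace ν) :
    (Ab h.comm ν s ^ ll s) p ∈ Rb T π ν := by
  rw [mem_Rb, Ab_pow, h.π_pow]
  exact ((hl s ν hν).1 (ll s)).2 le_rfl _ (h.π_mem p.2)

omit [FiniteDimensional K M] in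
include hβ hΨ hDβ hν hl1 hl in
/-- the form does not vanish on the top layer -/
theorem gb_top (s : Fin 3) (hDs : ⨆ ν, D.maxGenEigenspace ν = ⊤) :
    ∃ p p' : T.maxGenEigenspace ν,
      gb B T l ν ν ((Ab h.comm ν s ^ (ll s - 1)) p) p' ≠ 0 := by
  classical
  by_contra hcon
  push Not at hcon
  have h1 : ∀ v ∈ D.maxGenEigenspace ν, (Ψ s ^ (ll s - 1)) v = 0 := by
    intro v hv
    obtain ⟨x, hx, rfl⟩ := h.π_onto hv
    have hmem : (Ψ s ^ (ll s - 1)) (π x) ∈ D.maxGenEigenspace ν := by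
      rw [← h.π_pow]
      exact h.π_mem (by rw [← Ab_pow h.comm ν s _ ⟨x, hx⟩]; exact Subtype.mem _)
    apply hβ.nd
    intro w
    have h2 : w ∈ D.maxGenEigenspace ν ⊔ co D ν := by
      rw [(gen_isCompl hDs ν).sup_eq_top]; trivial
    obtain ⟨y, hy, z, hz, rfl⟩ := Submodule.mem_sup.1 h2
    have hz0 : β ((Ψ s ^ (ll s - 1)) (π x)) z = 0 := by
      have hle : co D ν ≤ ker (β ((Ψ s ^ (ll s - 1)) (π x))) := by
        refine iSup_le fun μ => iSup_le fun hμ => ?_
        intro w hw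
        exact gen_ortho hDβ (Ne.symm hμ) _ hmem _ hw
      exact hle hz
    obtain ⟨y', hy', rfl⟩ := h.π_onto hy
    have h3 := hcon ⟨x, hx⟩ ⟨y', hy'⟩
    rw [gb_apply, Ab_pow, h.form, h.π_pow] at h3
    rw [map_add, hz0, add_zero]
    exact h3
  have h2 := ((hl s ν hν).1 (ll s - 1)).1 h1
  have := hl1 s
  omega

include hν hl1 hl hq in
/-- the radical of the block is generated by the `A_s ^ l_s p` -/
theorem gen_b (hker : ∀ v : M, (∀ s, Ψ s v = 0) → v = 0)
    (S : Submodule K (T.maxGenEigenspace ν)) (hS : ∀ s, ∀ v ∈ S, Ab h.comm ν s v ∈ S)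
    (hSl : ∀ s p, (Ab h.comm ν s ^ ll s) p ∈ S) : Rb T π ν ≤ S := by
  classical
  have hDΨ : ∀ s, ∀ v ∈ D.maxGenEigenspace ν, Ψ s v ∈ D.maxGenEigenspace ν := by
    intro s v hv
    obtain ⟨x, hx, rfl⟩ := h.π_onto hv
    rw [← h.pA]
    exact h.π_mem (gen_stable (h.comm s) ν x hx)
  let Ψb : Fin 3 → End K (D.maxGenEigenspace ν) := fun s => (Ψ s).restrict (hDΨ s)
  let πb : T.maxGenEigenspace ν →ₗ[K] D.maxGenEigenspace ν :=
    (π ∘ₗ (T.maxGenEigenspace ν).subtype).codRestrict _ (fun x => h.π_mem x.2)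
  have hπb : ∀ x, ((πb x : D.maxGenEigenspace ν) : M) = π (x : X) := fun x => rfl
  have hkerb : ker πb = Rb T π ν := by
    ext x
    rw [LinearMap.mem_ker, mem_Rb, ← hπb, ZeroMemClass.coe_eq_zero]
  rw [← hkerb]
  refine RG.gen (Ab h.comm ν) Ψb πb (fun s p => Subtype.ext (by rw [hπb, Ab_coe, h.pA]; rfl))
    ?_ ?_ (h.perf_b ν) (k := m) ?_ ?_ ll hl1 ?_ ?_ hq S hS hSl
  · rw [LinearMap.range_eq_top]
    rintro ⟨v, hv⟩
    obtain ⟨x, hx, hxv⟩ := h.π_onto hv
    exact ⟨⟨x, hx⟩, Subtype.ext hxv⟩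
  · refine LinearMap.ext fun x => Subtype.ext ?_
    have h1 := LinearMap.congr_fun h.sumA (x : X)
    rw [LinearMap.sum_apply] at h1 ⊢
    rw [AddSubmonoidClass.coe_finsetSum]
    exact h1
  · intro x hx
    rw [hkerb] at hx
    exact Nk_of_words fun w hw => h.Rb_words ν w hw x hx
  · intro v hv
    apply Subtype.ext
    exact hker _ fun s => congrArg Subtype.val (hv s)
  · intro s
    refine LinearMap.ext fun v => Subtype.ext ?_
    rw [Module.End.pow_restrict]
    exact ((hl s ν hν).1 (ll s)).2 le_rfl _ v.2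
  · intro s
    rw [show finrank K (ker (Ψb s)) = finrank K (ker (Ψ s) ⊓ D.maxGenEigenspace ν : Submodule K M)
      from RRk.finrank_ker_restrict (hDΨ s)]
    exact (hl s ν hν).2

end tame

end MC

end Crest.Agent.R172.RDSet
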