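import Crest.Agent.R172.RDP
import Crest.Agent.R172.DiagT

/-!
Row 172 (S0260), `RD`: the diagonal blocks (`diag` of the skeleton, note 16775). (helper418)
-/

set_option autoImplicit false
set_option linter.unusedSectionVars false

namespace Crest.Agent.R172.RD418

open Matrix Module TensorProduct Crest.Agent.R172.FO Crest.Agent.R172.RD

variable {ι : Type*} [Fintype ι] [DecidableEq ι] {δ : Type*} [Fintype δ] [DecidableEq δ]
variable {n : Type*} [Fintype n] [DecidableEq n]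
variable {k K : Type*} [Field k] [Field K] [Algebra k K]
variable {M : Type*} [AddCommGroup M] [Module K M]
variable {m : Type*} [Fintype m] [DecidableEq m]
variable {arm : δ → Fin 3} {J : Matrix ι ι K} {B : Matrix δ δ K}
  {N W : Submodule K (Matrix ι δ K)} {F G : Matrix ι δ K} {p : Matrix ι n K}
  {al : Fin 3 → Matrix n n K} {tau : Matrix n n K}
  {β : LinearMap.BilinForm K M} {T : Module.End K M →ₗ[K] Module.End K M}
  {Ψ : Fin 3 → Module.End K M} {D : Module.End K M} {π : (n → K) →ₗ[K] M}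
  {e : m → Matrix n n K} {lam : m → K} {l : Fin 3 → ℕ} {TT : Set k}

theorem pi_al_pow (hop : ∀ s y, Ψ s (π y) = π (al s *ᵥ y)) (s : Fin 3) (a : ℕ) (u : n → K) :
    π ((al s ^ a) *ᵥ u) = (Ψ s ^ a) (π u) := by
  induction a generalizing u with
  | zero => simp
  | succ a ih => rw [pow_succ, ← mulVec_mulVec, ih, ← hop, pow_succ, Module.End.mul_apply]

/-- **`diag`** -/
theorem diag [CharZero K] (h : Fr k arm J B N W F G p al tau β T Ψ D π e lam l TT)
    {i j : m} (hij : i ≠ j)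
    (hh : HalvesP arm J B N W F p al T Ψ π e i j)
    (hs : SecondP arm J B N W F p al T Ψ π e i j) :
    DiagP arm J N W F p al T Ψ π e l i := by
  obtain ⟨S, hS, hhS⟩ := hh
  have hform := h.cr.form
  have hop := h.cr.op
  have gsym : (pᵀ * J * p)ᵀ = pᵀ * J * p := by
    rw [transpose_mul, transpose_mul, transpose_transpose, h.ctx.data.J_symm, Matrix.mul_assoc]
  have hmat : ∀ A C : Matrix n n K, (∀ u v : n → K, u ⬝ᵥ (A *ᵥ v) = u ⬝ᵥ (C *ᵥ v)) → A = C := by
    intro A C hAC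
    ext a b
    have h1 := hAC (Pi.single a 1) (Pi.single b 1)
    rw [mulVec_single_one, mulVec_single_one, single_one_dotProduct,
      single_one_dotProduct] at h1
    exact h1
  have gal : ∀ s, (al s)ᵀ * (pᵀ * J * p) = (pᵀ * J * p) * al s := by
    intro s
    apply hmat
    intro u v
    have e1 : ((al s)ᵀ * (pᵀ * J * p)) *ᵥ v = (al s)ᵀ *ᵥ ((pᵀ * J * p) *ᵥ v) :=
      (mulVec_mulVec _ _ _).symm
    have e2 : ((pᵀ * J * p) * al s) *ᵥ v = (pᵀ * J * p) *ᵥ (al s *ᵥ v) :=
      (mulVec_mulVec _ _ _).symm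
    rw [e1, e2, dotProduct_mulVec _ (al s)ᵀ, vecMul_transpose,
      ← hform, ← hform, ← hop, ← hop, h.cr.sa]
  have hker : ∀ u, π u = 0 → (pᵀ * J * p) *ᵥ u = 0 := by
    intro u hu
    funext a
    have h1 := hform (Pi.single a 1) u
    rw [hu, map_zero, single_one_dotProduct] at h1
    exact h1.symm
  have hinf : {c : K | c ≠ 0 ∧ c ∉ S}.Infinite := by
    have h1 := (hS.union (Set.finite_singleton (0 : K))).infinite_compl
    refine h1.mono ?_
    intro c hc
    rw [Set.mem_compl_iff, Set.mem_union, not_or] at hc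
    exact ⟨fun h0 => hc.2 h0, hc.1⟩
  have mk : ∀ c : K, c ≠ 0 → ∀ (x : Fin 3 → Matrix n n K) (b : Matrix n n K),
      DiagT.DecI (pᵀ * J * p) (e i) (e j) al π c x b →
      ∃ kk, Dec (pᵀ * J * p) π e i j (fun r => al r) (fun r => c • al r) x b kk := by
    intro c hc x b hd
    obtain ⟨b0, kk, -, h2, -, h4, -, h6⟩ := h.hexS i j hij c hc x hd.bx hd.sum hd.arm
    refine ⟨kk, ⟨hd.bx, hd.bb, h2, hd.rb, h4, ?_, ?_, fun r => ?_, fun r => ?_⟩⟩
    · simpa only [Matrix.smul_mul] using hd.sum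
    · simpa only [Matrix.smul_mul] using hd.arm
    · show al r * (b + (x r)ᵀ * (pᵀ * J * p)) = (b + (x r)ᵀ * (pᵀ * J * p)) * (c • al r)
      rw [Matrix.mul_smul]
      exact hd.eb r
    · show (kk - x r * (pᵀ * J * p)) * al r = (c • al r) * (kk - x r * (pᵀ * J * p))
      rw [Matrix.smul_mul]
      exact h6 r
  exact DiagT.diag_abs (g := pᵀ * J * p) (ei := e i) (ej := e j) (al := al) (π := π) (l := l)
    (h.idem i) (h.idem j) (h.eal i) (h.eal j) h.ctx.perf gsym (h.eg j) gal hker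
    (fun s u hu => by rw [← hop, hu, map_zero]) h.kill h.lpos
    (fun s u => by rw [pi_al_pow hop, h.lnil s]; rfl)
    (h.gen i) (h.gen j) (h.top j) hinf (fun h0 => h0.1 rfl)
    (RDEnd.Rel arm J N W F p π T 0 Ψ)
    (by
      intro c hc x h1 h2 h3
      obtain ⟨b, kk, e1, -, e3, -, e5, -⟩ := h.hexS i j hij c hc.1 x h1 h2 h3
      exact ⟨b, ⟨h1, h2, h3, e1, e3, e5⟩⟩)
    (by
      intro c hc c' hc' x y b b' hx hy
      obtain ⟨kk, hX⟩ := mk c hc.1 x b hx
      obtain ⟨kk', hY⟩ := mk c' hc'.1 y b' hy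
      obtain ⟨r1, r2⟩ := hhS c hc.2 x b kk hX
      obtain ⟨r3, -⟩ := hhS c' hc'.2 y b' kk' hY
      exact hs c c' hc.1 hc'.1 x y b kk b' kk' hX hY r1 r2 r3)

end Crest.Agent.R172.RD418
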