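import Crest.Agent.R172.ZFr
import Crest.Agent.R172.FC2

/-!
Row 172 (S0260), T0 for arbitrary radical and arbitrary `D`, in a frame: the FIRST derivative gives
corrections in `ZFr.ZF` (twisted self-adjoint on the core).
-/

set_option autoImplicit false
set_option linter.unusedSectionVars false

namespace Crest.Agent.R172.ZFr

open Matrix Module Crest.Agent.R172.FO Crest.Agent.R172.FrmB Crest.Agent.R172.ZP

section Gen

variable {K : Type*} [Field K] {M : Type*} [AddCommGroup M] [Module K M]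

theorem adE_sub_smul (D : End K M) (ν : K) : adE (D - ν • (1 : End K M)) = adE D := by
  ext x m
  simp only [adE_apply, LinearMap.sub_apply, Module.End.mul_apply, LinearMap.smul_apply,
    Module.End.one_apply, map_sub, map_smul]
  abel

theorem adE_pow_mul {D D' : End K M} (hD : D * D' = D' * D) (N : ℕ) : ∀ y : End K M,
    ((adE D) ^ N) (y * D') = ((adE D) ^ N) y * D' := by
  induction N with
  | zero => intro y; simp
  | succ N ih =>
    intro y
    rw [pow_succ, AddMonoid.End.coe_mul, Function.comp_apply, Function.comp_apply, ← ih]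
    congr 1
    simp only [adE_apply]
    rw [sub_mul, mul_assoc y D' D, ← hD]
    noncomm_ring

theorem adE_pow_kill {D' : End K M} {V : Submodule K M} (hV : ∀ m ∈ V, D' m ∈ V) (N : ℕ) :
    ∀ y : End K M, (∀ m ∈ V, y m = 0) → ∀ m ∈ V, (((adE D') ^ N) y) m = 0 := by
  induction N with
  | zero => intro y hy m hm; simpa using hy m hm
  | succ N ih =>
    intro y hy m hm
    rw [pow_succ, AddMonoid.End.coe_mul, Function.comp_apply]
    apply ih _ _ m hm
    intro m' hm'
    rw [adE_apply, LinearMap.sub_apply, Module.End.mul_apply, Module.End.mul_apply, hy m' hm',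
      map_zero, hy _ (hV _ hm'), sub_zero]

theorem adE_pow_vanish {D' : End K M} {V : Submodule K M} (hV : ∀ m ∈ V, D' m ∈ V) (N : ℕ) :
    ∀ (a b : ℕ) (y : End K M) (m : M), a + b ≤ N → m ∈ V → (∀ m' ∈ V, (D' ^ a) (y m') = 0) →
      (D' ^ b) m = 0 → (((adE D') ^ N) y) m = 0 := by
  induction N with
  | zero =>
    intro a b y m hab hm _ hb
    have : b = 0 := by omega
    subst this
    have : m = 0 := by simpa using hb
    rw [this, map_zero]
  | succ N ih =>
    intro a b y m hab hm ha hb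
    rcases a with _ | a
    · exact adE_pow_kill hV _ y (fun m' hm' => by simpa using ha m' hm') m hm
    rcases b with _ | b
    · have : m = 0 := by simpa using hb
      rw [this, map_zero]
    rw [pow_succ, AddMonoid.End.coe_mul, Function.comp_apply, adE_apply, map_sub,
      LinearMap.sub_apply, adE_pow_mul rfl, Module.End.mul_apply]
    have h1 : (((adE D') ^ N) (D' * y)) m = 0 := by
      apply ih a (b + 1) (D' * y) m (by omega) hm _ hb
      intro m' hm'
      have := ha m' hm'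
      rw [pow_succ, Module.End.mul_apply] at this
      rwa [Module.End.mul_apply]
    have h2 : (((adE D') ^ N) y) (D' m) = 0 := by
      apply ih (a + 1) b y (D' m) (by omega) (hV m hm) ha
      rw [pow_succ, Module.End.mul_apply] at hb
      exact hb
    rw [h1, h2, sub_zero]

/-- endomorphisms preserving the generalised eigenspaces of `D` are `ad D`-nilpotent -/
theorem nilAt_of_gen [FiniteDimensional K M] {D x : End K M}
    (htop : ⨆ μ, D.maxGenEigenspace μ = ⊤)
    (hx : ∀ μ, ∀ m ∈ D.maxGenEigenspace μ, x m ∈ D.maxGenEigenspace μ) : NilAt (adE D) x := by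
  refine ⟨finrank K M + finrank K M, ?_⟩
  apply LinearMap.ext
  intro m
  have hm : m ∈ ⨆ μ, D.maxGenEigenspace μ := by rw [htop]; trivial
  rw [LinearMap.zero_apply]
  induction hm using Submodule.iSup_induction' with
  | mem ν m hm =>
    rw [← adE_sub_smul D ν]
    have hk : ∀ m ∈ D.maxGenEigenspace ν, ((D - ν • (1 : End K M)) ^ finrank K M) m = 0 := by
      intro m hm
      rw [Module.End.maxGenEigenspace_eq_genEigenspace_finrank, Module.End.mem_genEigenspace_nat,
        LinearMap.mem_ker] at hm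
      exact hm
    have hV : ∀ m ∈ D.maxGenEigenspace ν, (D - ν • (1 : End K M)) m ∈ D.maxGenEigenspace ν := by
      intro m hm
      rw [LinearMap.sub_apply, LinearMap.smul_apply, Module.End.one_apply]
      exact Submodule.sub_mem _ (Module.End.mapsTo_maxGenEigenspace_of_comm rfl ν hm)
        (Submodule.smul_mem _ _ hm)
    exact adE_pow_vanish hV _ _ _ x m le_rfl hm (fun m' hm' => hk _ (hx ν m' hm')) (hk m hm)
  | zero => rw [map_zero]
  | add m m' _ _ h1 h2 => rw [map_add, h1, h2, add_zero]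

end Gen

section First

variable {n : Type*} [Fintype n] [DecidableEq n]
variable {k K : Type*} [Field k] [Field K] [Algebra k K]
variable {M : Type*} [AddCommGroup M] [Module K M]
variable {β : LinearMap.BilinForm K M} {T : End K M →ₗ[K] End K M} {q : (n → K) →ₗ[K] M}
  {g : Matrix n n K} {κ : Type*} {Ψ : κ → End K M} {al : κ → Matrix n n K}

/-- **abstract first derivative**: `∇(Ψ_r (1 + c D)^2) = 0` on the core, `∇D` is `ad D`-nilpotent.
Then `c • (∇τ * kai)` is in the space `ZF`. -/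
theorem ZF_first (h : CF β T q g) {d : Derivation k K K} {θ : Matrix n n K}
    (hg : g.map d = θᵀ * g + g * θ) (hΨ : ∀ r, Lifts q (al r) (Ψ r)) {τ : Matrix n n K}
    {Db : End K M} (hτ : Lifts q τ Db) (hτs : g * τ = τᵀ * g) (hcomm : ∀ r, τ * al r = al r * τ)
    {c : K} (hdc : d c = 0) {kap kai : Matrix n n K} (hk : kap = 1 + c • τ)
    (hmul : kap * kai = 1) (hβ : ∀ s, g * FC.nab d θ (al s * (kap * kap)) = 0)
    (hnil : ∀ x : End K M, (∀ r, x * ((1 + c • Db) * (1 + c • Db) * Ψ r) =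
      ((1 + c • Db) * (1 + c • Db) * Ψ r) * x) → NilAt (adE Db) x) :
    c • (FC.nab d θ τ * kai) ∈ ZF T q Ψ := by
  have hmul' : kai * kap = 1 := mul_eq_one_comm.1 hmul
  -- the lift of `kai`
  have hks : g * kap = kapᵀ * g := by
    rw [hk, Matrix.mul_add, Matrix.mul_one, Matrix.mul_smul, hτs, transpose_add, transpose_one,
      transpose_smul, Matrix.add_mul, Matrix.one_mul, Matrix.smul_mul]
  have hkis : g * kai = kaiᵀ * g := by
    have h1 : kaiᵀ * (g * kap) * kai = kaiᵀ * (kapᵀ * g) * kai := by rw [hks]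
    have h2 : kaiᵀ * kapᵀ = 1 := by rw [← transpose_mul, hmul, transpose_one]
    rw [← Matrix.mul_assoc kaiᵀ kapᵀ, h2, Matrix.one_mul, ← Matrix.mul_assoc kaiᵀ,
      Matrix.mul_assoc _ kap kai, hmul, Matrix.mul_one] at h1
    exact h1.symm
  obtain ⟨cb, hcb⟩ : ∃ cb : End K M, cb = 1 + c • Db := ⟨_, rfl⟩
  have lkap : Lifts q kap cb := by rw [hk, hcb]; exact Lifts.one.add (hτ.smul c)
  obtain ⟨ci, lkai⟩ := h.exists_lift hkis
  have m1 : cb * ci = 1 := by
    apply Lifts.unique h.surj (lkap.mul lkai)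
    rw [hmul]; exact Lifts.one
  have m2 : ci * cb = 1 := by
    apply Lifts.unique h.surj (lkai.mul lkap)
    rw [hmul']; exact Lifts.one
  have DΨ : ∀ r, Db * Ψ r = Ψ r * Db := by
    intro r
    apply Lifts.unique h.surj (hτ.mul (hΨ r))
    rw [hcomm]; exact (hΨ r).mul hτ
  have TD : T Db = Db := h.T_eq hτ hτ hτs
  have Tci : T ci = ci := h.T_eq lkai lkai hkis
  have gau : Gau Db cb ci c := by
    refine ⟨m1, m2, ?_⟩
    intro x
    rw [hcb, add_mul, mul_add, one_mul, mul_one, smul_mul_assoc, mul_smul_comm, smul_sub]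
    abel
  have cΨ : ∀ r, cb * Ψ r = Ψ r * cb := by
    intro r
    rw [hcb, add_mul, mul_add, one_mul, mul_one, smul_mul_assoc, mul_smul_comm, DΨ]
  obtain ⟨δ, hδ⟩ : ∃ δ : End K M, δ = (h.conn hg).dE Db := ⟨_, rfl⟩
  rw [← hcb] at hnil
  have Tδ : T δ = δ := by rw [hδ, ← h.T_dE hg, TD]
  have dcb : (h.conn hg).dE cb = c • δ := by
    rw [hcb, Conn.dE_add, Conn.dE_one, zero_add, Conn.dE_smul_const _ hdc, hδ]
  have hinv : ∀ r, (h.conn hg).dE (Ψ r * (cb * cb)) = 0 := by
    intro r
    have l1 := h.lifts_dE hg ((hΨ r).mul (lkap.mul lkap))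
    refine h.eq_of_gram l1 (Lifts.zero (q := q)) ?_
    rw [Matrix.mul_zero]
    exact hβ r
  have lz : Lifts q (c • (FC.nab d θ τ * kai)) (c • (δ * ci)) := by
    rw [hδ]
    exact ((h.lifts_dE hg hτ).mul lkai).smul c
  refine ⟨c • (δ * ci), lz, ?_⟩
  rw [map_smul, h.adj.mul, Tδ, Tci]
  have key : ∀ r, δ * (cb * cb * Ψ r) = (cb * cb * Ψ r) * δ := by
    intro r
    have cc : cb * cb * Ψ r = Ψ r * (cb * cb) := by
      rw [mul_assoc, cΨ, ← mul_assoc, cΨ, mul_assoc]
    have Dc : Db * cb = cb * Db := by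
      rw [hcb, add_mul, mul_add, one_mul, mul_one, smul_mul_assoc, mul_smul_comm]
    have e1 : Db * (Ψ r * (cb * cb)) = (Ψ r * (cb * cb)) * Db :=
      ((show Commute Db (Ψ r) from DΨ r).mul_right
        ((show Commute Db cb from Dc).mul_right (show Commute Db cb from Dc))).eq
    have e2 := congrArg (h.conn hg).dE e1
    rw [Conn.dE_mul _ Db, Conn.dE_mul _ (Ψ r * (cb * cb)) Db, hinv, mul_zero, zero_mul, add_zero,
      zero_add, ← hδ] at e2
    rw [cc]
    exact e2
  exact Submodule.smul_mem _ _ (ZZ_le_zero (D := Db) (first_mem h.adj.mul gau Tci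
    (by rw [mul_one, one_mul]) cΨ Tδ (mul_one _) (one_mul _) (hnil δ key) key))

end First

section Frame

variable {ι : Type*} [Fintype ι] [DecidableEq ι] {δ : Type*} [Fintype δ] [DecidableEq δ]
variable {n : Type*} [Fintype n] [DecidableEq n]
variable {k K : Type*} [Field k] [Field K] [Algebra k K]
variable {arm : δ → Fin 3} {J : Matrix ι ι K} {B : Matrix δ δ K}
  {N W : Submodule K (Matrix ι δ K)} {F G : Matrix ι δ K} {p : Matrix ι n K}
variable {M : Type*} [AddCommGroup M] [Module K M]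
variable {β : LinearMap.BilinForm K M} {T : End K M →ₗ[K] End K M} {q : (n → K) →ₗ[K] M}
variable {Ψ : Fin 3 → End K M} {al : Fin 3 → Matrix n n K} {τ : Matrix n n K}

/-- the correction of `FC.firstQ` is in `ZF` -/
theorem first (hC : FC.Ctx k arm J B N W F G p al τ) {c : K} {kap kai : Matrix n n K}
    (hp : FC.Par k arm J B N W F G p τ c kap kai) (h : CF β T q (pᵀ * J * p))
    (hΨ : ∀ r, Lifts q (al r) (Ψ r)) {Db : End K M} (hτ : Lifts q τ Db)
    (hnil : ∀ x : End K M, (∀ r, x * ((1 + c • Db) * (1 + c • Db) * Ψ r) =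
      ((1 + c • Db) * (1 + c • Db) * Ψ r) * x) → NilAt (adE Db) x)
    {χ : Fin 3 → Matrix n n K}
    (hx : ∀ s, (pᵀ * J * p) * (χ s * (kap * kap)ᵀ * (al s)ᵀ - al s * (kap * kap) * χ s) *
      (pᵀ * J * p) = 0)
    {d : Derivation k K K} {θ : Matrix n n K} (hθ : p.map d = p * θ)
    (hβ : ∀ s, p * FC.nab d θ (al s * (kap * kap)) =
        p * (χ s * (pᵀ * J * p) * (al s * (kap * kap)) -
          al s * (kap * kap) * (χ s * (pᵀ * J * p)))) :
    c • (FC.nab d θ τ * kai) ∈ ZF T q Ψ := by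
  obtain ⟨t, ht⟩ := hp.const
  have hdc : d c = 0 := by rw [← ht]; exact d.map_algebraMap t
  refine ZF_first h (g_der hC.data hθ) hΨ hτ hC.tau_sa hC.comm hdc hp.kap_eq hp.mul ?_ hnil
  intro s
  have sal : (pᵀ * J * p) * al s = (al s)ᵀ * (pᵀ * J * p) := by
    have h1 : pᵀ * J * (Phi arm J B F s * p) = pᵀ * J * p * al s := by
      rw [hC.hal]; simp only [Matrix.mul_assoc]
    have h2 : (pᵀ * J * (Phi arm J B F s * p))ᵀ = pᵀ * J * (Phi arm J B F s * p) := by
      unfold Phi FO.M
      simp only [transpose_mul, transpose_transpose, hC.data.J_symm, hC.data.B_symm, E_transpose]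
      have := hC.data.B_arm s
      simp only [Matrix.mul_assoc]
      rw [← Matrix.mul_assoc B (E K arm s), ← this]
      simp only [Matrix.mul_assoc]
    rw [h1, transpose_mul, hC.gam_symm] at h2
    exact h2.symm
  have skap := hC.kap_sa hp
  have hx' := hx s
  rw [Matrix.mul_sub, Matrix.sub_mul, sub_eq_zero] at hx'
  have e0 : (pᵀ * J * p) * FC.nab d θ (al s * (kap * kap)) =
      pᵀ * J * (p * FC.nab d θ (al s * (kap * kap))) := by simp only [Matrix.mul_assoc]
  rw [e0, hβ s]
  obtain ⟨γ, hγ⟩ : ∃ γ : Matrix n n K, γ = pᵀ * J * p := ⟨_, rfl⟩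
  rw [← hγ] at hx' sal skap ⊢
  have e1 : pᵀ * J * (p * (χ s * γ * (al s * (kap * kap)) - al s * (kap * kap) * (χ s * γ))) =
      γ * χ s * (γ * al s * kap * kap) - γ * (al s * (kap * kap) * χ s) * γ := by
    rw [← Matrix.mul_assoc (pᵀ * J) p, ← hγ, Matrix.mul_sub]
    simp only [Matrix.mul_assoc]
  have e2 : γ * al s * kap * kap = (kap * kap)ᵀ * ((al s)ᵀ * γ) := by
    rw [← sal, Matrix.mul_assoc γ (al s) kap, ← hC.kap_al hp, ← Matrix.mul_assoc γ kap, skap,
      Matrix.mul_assoc (kapᵀ) γ, Matrix.mul_assoc kapᵀ, Matrix.mul_assoc γ (al s) kap,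
      ← hC.kap_al hp, ← Matrix.mul_assoc γ kap, skap, transpose_mul]
    simp only [Matrix.mul_assoc]
  rw [e1, e2, ← hx']
  simp only [Matrix.mul_assoc]
  rw [sub_self]

/-- **(a) FIRST DERIVATIVE**: the family `kai χ kapᵀ - χ` is in `Q3` with a correction in `ZF`. -/
theorem firstQZ (hC : FC.Ctx k arm J B N W F G p al τ) {c : K} {kap kai : Matrix n n K}
    (hp : FC.Par k arm J B N W F G p τ c kap kai) (h : CF β T q (pᵀ * J * p))
    (hΨ : ∀ r, Lifts q (al r) (Ψ r)) {Db : End K M} (hτ : Lifts q τ Db)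
    (hnil : ∀ x : End K M, (∀ r, x * ((1 + c • Db) * (1 + c • Db) * Ψ r) =
      ((1 + c • Db) * (1 + c • Db) * Ψ r) * x) → NilAt (adE Db) x)
    (χ : Fin 3 → Matrix n n K) (hχ : ∀ s, (χ s)ᵀ = - χ s)
    (hex : ∑ s, (χ s * (kap * kap)ᵀ * (al s)ᵀ - al s * (kap * kap) * χ s) = 0)
    (hx : ∀ s, (pᵀ * J * p) * (χ s * (kap * kap)ᵀ * (al s)ᵀ - al s * (kap * kap) * χ s) *
      (pᵀ * J * p) = 0) :
    ∃ (w : Matrix ι δ K) (z : Matrix n n K),
      FrmB.Q3 arm J B N W F p (fun s => kai * χ s * kapᵀ - χ s) w z ∧ z ∈ ZF T q Ψ := by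
  obtain ⟨d, ξ, θ, -, hθ, -, hQ, -, hβ⟩ := hC.firstQ hp χ hχ hex
  exact ⟨_, _, hQ, first hC hp h hΨ hτ hnil hx hθ hβ⟩

end Frame

end Crest.Agent.R172.ZFr
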