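import Crest.Agent.R172.RD0
import Crest.Agent.R172.ZFr2

/-!
Row 172 (S0260), (T0), any radical, any `D`: the correction of the FIRST derivative of a decorated
family is in `ZFr.ZF`.
-/

set_option autoImplicit false
set_option linter.unusedSectionVars false

namespace Crest.Agent.R172.RD

open Matrix Module TensorProduct Crest.Agent.R172.FO Crest.Agent.R172.FrmB

variable {ι : Type*} [Fintype ι] [DecidableEq ι] {δ : Type*} [Fintype δ] [DecidableEq δ]
variable {n : Type*} [Fintype n] [DecidableEq n]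
variable {k K : Type*} [Field k] [Field K] [Algebra k K]
variable {M : Type*} [AddCommGroup M] [Module K M]
variable {m : Type*} [Fintype m] [DecidableEq m]
variable {arm : δ → Fin 3} {J : Matrix ι ι K} {B : Matrix δ δ K}
  {N W : Submodule K (Matrix ι δ K)} {F G : Matrix ι δ K} {p : Matrix ι n K}
  {al : Fin 3 → Matrix n n K} {tau : Matrix n n K}
  {β : LinearMap.BilinForm K M} {T : Module.End K M →ₗ[K] Module.End K M}
  {Ψ : Fin 3 → Module.End K M} {D : Module.End K M} {π : (n → K) →ₗ[K] M}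
  {e : m → Matrix n n K} {lam : m → K} {l : Fin 3 → ℕ} {TT : Set k}

theorem cf_of_cr (h : RDEnd.Cr J p al β π Ψ T) : ZFr.CF β T π (pᵀ * J * p) :=
  ⟨⟨h.ns.symm, h.ns.nd, h.adj⟩, h.onto, h.form⟩

theorem lifts_al (h : RDEnd.Cr J p al β π Ψ T) (r : Fin 3) : ZFr.Lifts π (al r) (Ψ r) :=
  fun y => (h.op r y).symm

/-- endomorphisms of the core commuting with `c² Ψ` are `ad D`-nilpotent -/
theorem nilAt_of_fr (h : Fr k arm J B N W F G p al tau β T Ψ D π e lam l TT)
    {t : k} (ht : t ∈ TT ∨ t = 0) (A : Module.End K M)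
    (hA : ∀ r, A * ((1 + algebraMap k K t • D) * (1 + algebraMap k K t • D) * Ψ r) =
      ((1 + algebraMap k K t • D) * (1 + algebraMap k K t • D) * Ψ r) * A) :
    ZP.NilAt (ZP.adE D) A := by
  have hcf := cf_of_cr h.cr
  obtain ⟨c, hc⟩ : ∃ c : K, c = algebraMap k K t := ⟨_, rfl⟩
  have hhom := h.hom t ht A
  rw [← hc] at hA hhom
  have hτ : ZFr.Lifts π tau D := h.ptau
  have DΨ : ∀ r, D * Ψ r = Ψ r * D := by
    intro r
    apply ZFr.Lifts.unique hcf.surj (hτ.mul (lifts_al h.cr r))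
    rw [h.ctx.comm]; exact (lifts_al h.cr r).mul hτ
  have cΨ : ∀ r, (1 + c • D) * Ψ r = Ψ r * (1 + c • D) := by
    intro r
    rw [add_mul, mul_add, one_mul, mul_one, smul_mul_assoc, mul_smul_comm, DΨ]
  have hb : ∀ i j, i ≠ j → ∀ x y, β (A (π (e i *ᵥ x))) (π (e j *ᵥ y)) = 0 := by
    refine hhom ?_
    intro s x
    have h1 : (1 + c • D) * (1 + c • D) * Ψ s = Ψ s * (1 + c • D) * (1 + c • D) := by
      rw [mul_assoc, cΨ, ← mul_assoc, cΨ]
    have h2 := hA s
    rw [h1] at h2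
    exact LinearMap.congr_fun h2 x
  have hE : ∀ i, ∃ Eb : Module.End K M, ZFr.Lifts π (e i) Eb := fun i =>
    hcf.exists_lift (h.eg i).symm
  choose Eb hEb using hE
  have TE : ∀ i, T (Eb i) = Eb i := fun i => hcf.T_eq (hEb i) (hEb i) (h.eg i).symm
  have EE : ∀ i, Eb i * Eb i = Eb i := by
    intro i
    apply ZFr.Lifts.unique hcf.surj ((hEb i).mul (hEb i))
    rw [h.idem]; exact hEb i
  have ED : ∀ i, Eb i * D = D * Eb i := by
    intro i
    apply ZFr.Lifts.unique hcf.surj ((hEb i).mul hτ)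
    rw [h.etau]; exact hτ.mul (hEb i)
  have Esum : ∀ v, v = ∑ i, Eb i v := by
    intro v
    obtain ⟨y, rfl⟩ := hcf.surj v
    have h1 : ∀ i, Eb i (π y) = π (e i *ᵥ y) := fun i => (hEb i y).symm
    simp only [h1]
    rw [← map_sum, ← Matrix.sum_mulVec, h.sumE, Matrix.one_mulVec]
  have Aoff : ∀ i j, i ≠ j → ∀ v, Eb j (A (Eb i v)) = 0 := by
    intro i j hij v
    obtain ⟨y, rfl⟩ := hcf.surj v
    apply hcf.adj.nondeg
    intro u
    obtain ⟨y', rfl⟩ := hcf.surj u
    have h1 : β (Eb j (A (Eb i (π y)))) (π y') = β (A (Eb i (π y))) (Eb j (π y')) := by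
      have := hcf.adj.adj (Eb j) (A (Eb i (π y))) (π y')
      rwa [TE] at this
    rw [h1, ← hEb, ← hEb]
    exact hb i j hij y y'
  have AE : ∀ i v, A (Eb i v) = Eb i (A (Eb i v)) := by
    intro i v
    have h1 := Esum (A (Eb i v))
    rw [Finset.sum_eq_single i] at h1
    · exact h1
    · intro j _ hj
      exact Aoff i j hj.symm v
    · intro hi
      exact absurd (Finset.mem_univ i) hi
  have hnil : ∀ i, ∃ a : ℕ, ((D - lam i • (1 : Module.End K M)) * Eb i) ^ a = 0 := by
    intro i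
    obtain ⟨a, ha⟩ := h.nil i
    refine ⟨a, ?_⟩
    have hl : ZFr.Lifts π ((tau - lam i • (1 : Matrix n n K)) * e i)
        ((D - lam i • (1 : Module.End K M)) * Eb i) :=
      (hτ.sub (ZFr.Lifts.one.smul (lam i))).mul (hEb i)
    have hp : ∀ a : ℕ, ZFr.Lifts π (((tau - lam i • (1 : Matrix n n K)) * e i) ^ a)
        (((D - lam i • (1 : Module.End K M)) * Eb i) ^ a) := by
      intro a
      induction a with
      | zero => rw [pow_zero, pow_zero]; exact ZFr.Lifts.one
      | succ a ih => rw [pow_succ, pow_succ]; exact ih.mul hl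
    apply ZFr.Lifts.unique hcf.surj (hp a)
    rw [ha]; exact ZFr.Lifts.zero
  choose a ha using hnil
  have hcomm : ∀ i, Commute (D - lam i • (1 : Module.End K M)) (Eb i) := by
    intro i
    change _ * _ = _ * _
    rw [sub_mul, mul_sub, ED, smul_mul_assoc, mul_smul_comm, one_mul, mul_one]
  have hkill : ∀ i v, ((D - lam i • (1 : Module.End K M)) ^ (∑ i, (a i + 1))) (Eb i v) = 0 := by
    intro i v
    have h1 : a i + 1 ≤ ∑ i, (a i + 1) :=
      Finset.single_le_sum (f := fun i => a i + 1) (fun _ _ => Nat.zero_le _) (Finset.mem_univ i)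
    obtain ⟨b, hb⟩ := Nat.exists_eq_add_of_le' h1
    have h2 : Eb i ^ (a i + 1) = Eb i := by
      have : ∀ b : ℕ, Eb i ^ (b + 1) = Eb i := by
        intro b
        induction b with
        | zero => rw [zero_add, pow_one]
        | succ b ih => rw [pow_succ, ih, EE]
      exact this _
    have h3 : (D - lam i • (1 : Module.End K M)) ^ (a i + 1) * Eb i = 0 := by
      have h4 := (hcomm i).mul_pow (a i + 1)
      rw [h2, pow_succ, ha, zero_mul] at h4
      exact h4.symm
    rw [hb, pow_add, Module.End.mul_apply]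
    have h5 := LinearMap.congr_fun h3 v
    rw [Module.End.mul_apply, LinearMap.zero_apply] at h5
    rw [h5, map_zero]
  refine ⟨(∑ i, (a i + 1)) + ∑ i, (a i + 1), ?_⟩
  apply LinearMap.ext
  intro v
  rw [LinearMap.zero_apply, Esum v, map_sum]
  refine Finset.sum_eq_zero fun i _ => ?_
  rw [← ZFr.adE_sub_smul D (lam i)]
  refine ZFr.adE_pow_vanish (V := LinearMap.range (Eb i)) ?_ _ _ _ A (Eb i v) le_rfl ⟨v, rfl⟩ ?_
    (hkill i v)
  · rintro _ ⟨u, rfl⟩
    refine ⟨(D - lam i • (1 : Module.End K M)) u, ?_⟩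
    exact (LinearMap.congr_fun (hcomm i).eq u).symm
  · rintro _ ⟨u, rfl⟩
    rw [AE]
    exact hkill i _

theorem gram_symm (h : FC.Ctx k arm J B N W F G p al tau) : (pᵀ * J * p)ᵀ = pᵀ * J * p :=
  h.gam_symm

/-- exactness of the skew family of a decorated family -/
theorem skew_fam {P X : Matrix n n K} :
    (X - Xᵀ) * Pᵀ - P * (X - Xᵀ) = (X * Pᵀ - P * X) + (X * Pᵀ - P * X)ᵀ := by
  rw [transpose_sub, transpose_mul, transpose_mul, transpose_transpose, Matrix.sub_mul,
    Matrix.mul_sub]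
  abel

theorem hexOf {g : Matrix n n K} {i j : m} {kap : Matrix n n K}
    {x : Fin 3 → Matrix n n K} {b kk : Matrix n n K}
    (hx : Dec g π e i j (fun r => al r * (kap * kap)) (fun r => al r * (kap * kap)) x b kk) :
    ∑ s, ((x s - (x s)ᵀ) * (kap * kap)ᵀ * (al s)ᵀ - al s * (kap * kap) * (x s - (x s)ᵀ)) = 0 := by
  have h1 : ∀ s, (x s - (x s)ᵀ) * (kap * kap)ᵀ * (al s)ᵀ - al s * (kap * kap) * (x s - (x s)ᵀ) =
      (x s * (al s * (kap * kap))ᵀ - al s * (kap * kap) * x s) +
        (x s * (al s * (kap * kap))ᵀ - al s * (kap * kap) * x s)ᵀ := by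
    intro s
    rw [← skew_fam, Matrix.mul_assoc (x s - (x s)ᵀ), ← transpose_mul (al s)]
  simp only [h1]
  rw [Finset.sum_add_distrib, ← transpose_sum, hx.sum, transpose_zero, add_zero]

theorem armOf {g : Matrix n n K} (hg : gᵀ = g) {i j : m} {kap : Matrix n n K}
    {x : Fin 3 → Matrix n n K} {b kk : Matrix n n K}
    (hx : Dec g π e i j (fun r => al r * (kap * kap)) (fun r => al r * (kap * kap)) x b kk)
    (s : Fin 3) :
    g * ((x s - (x s)ᵀ) * (kap * kap)ᵀ * (al s)ᵀ - al s * (kap * kap) * (x s - (x s)ᵀ)) * g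
      = 0 := by
  have h1 : (x s - (x s)ᵀ) * (kap * kap)ᵀ * (al s)ᵀ - al s * (kap * kap) * (x s - (x s)ᵀ) =
      (x s * (al s * (kap * kap))ᵀ - al s * (kap * kap) * x s) +
        (x s * (al s * (kap * kap))ᵀ - al s * (kap * kap) * x s)ᵀ := by
    rw [← skew_fam, Matrix.mul_assoc (x s - (x s)ᵀ), ← transpose_mul (al s)]
  have h2 := hx.arm s
  have h3 := congrArg transpose h2
  rw [transpose_mul, transpose_mul, hg, transpose_zero, ← Matrix.mul_assoc] at h3
  rw [h1, Matrix.mul_add, Matrix.add_mul, h2, h3, add_zero]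

/-- the correction of the FIRST derivative is in `ZF` -/
theorem first_ZF (h : Fr k arm J B N W F G p al tau β T Ψ D π e lam l TT)
    {i j : m} {t : k} (ht : t ∈ TT) {kap kai : Matrix n n K}
    (hp : FC.Par k arm J B N W F G p tau (algebraMap k K t) kap kai)
    {x : Fin 3 → Matrix n n K} {b kk : Matrix n n K}
    (hx : Dec (pᵀ * J * p) π e i j (fun r => al r * (kap * kap)) (fun r => al r * (kap * kap)) x
      b kk) {d : Derivation k K K} {θ : Matrix n n K} (hθ : p.map d = p * θ)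
    (hβ : ∀ s, p * FC.nab d θ (al s * (kap * kap)) =
      p * ((x s - (x s)ᵀ) * (pᵀ * J * p) * (al s * (kap * kap)) -
        al s * (kap * kap) * ((x s - (x s)ᵀ) * (pᵀ * J * p)))) :
    algebraMap k K t • (FC.nab d θ tau * kai) ∈ ZFr.ZF T π Ψ :=
  ZFr.first h.ctx hp (cf_of_cr h.cr) (lifts_al h.cr) (Db := D) h.ptau
    (nilAt_of_fr h (Or.inl ht)) (χ := fun s => x s - (x s)ᵀ)
    (armOf h.ctx.gam_symm hx) hθ hβ

end Crest.Agent.R172.RD
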