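import Crest.Agent.R172.RD0

/-!
Row 172 (S0260), (T0), any radical, any `D`: lemma `pick` of helper460's skeleton (note 16775): the
connection can be chosen with prescribed off-diagonal part.
-/

set_option autoImplicit false
set_option linter.unusedSectionVars false

namespace Crest.Agent.R172.RD

open Matrix Module TensorProduct Crest.Agent.R172.FO Crest.Agent.R172.FrmB
open Crest.Agent.R172.Core (NS Tame)
open Crest.Agent.R172.PL (Wk)

variable {ι : Type*} [Fintype ι] [DecidableEq ι] {δ : Type*} [Fintype δ] [DecidableEq δ]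
variable {n : Type*} [Fintype n] [DecidableEq n]
variable {k K : Type*} [Field k] [Field K] [Algebra k K]
variable {M : Type*} [AddCommGroup M] [Module K M]
variable {m : Type*} [Fintype m] [DecidableEq m]

namespace Pick

section off

variable {e : m → Matrix n n K}

theorem off_add (A A' : Matrix n n K) : off e (A + A') = off e A + off e A' := by
  unfold off
  simp only [Matrix.mul_add, Matrix.add_mul, Finset.sum_add_distrib]
  abel

theorem off_sub (A A' : Matrix n n K) : off e (A - A') = off e A - off e A' := by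
  unfold off
  simp only [Matrix.mul_sub, Matrix.sub_mul, Finset.sum_sub_distrib]
  abel

theorem off_mul (A : Matrix n n K) {C : Matrix n n K} (hC : ∀ i, e i * C = C * e i) :
    off e (A * C) = off e A * C := by
  unfold off
  rw [Matrix.sub_mul, Finset.sum_mul]
  congr 1
  refine Finset.sum_congr rfl fun i _ => ?_
  simp only [Matrix.mul_assoc, hC]

theorem mul_off (A : Matrix n n K) {C : Matrix n n K} (hC : ∀ i, e i * C = C * e i) :
    off e (C * A) = C * off e A := by
  unfold off
  rw [Matrix.mul_sub, Finset.mul_sum]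
  congr 1
  refine Finset.sum_congr rfl fun i _ => ?_
  simp only [← Matrix.mul_assoc, hC]

theorem off_zero (idem : ∀ i, e i * e i = e i) (sumE : ∑ i, e i = 1) {C : Matrix n n K}
    (hC : ∀ i, e i * C = C * e i) : off e C = 0 := by
  unfold off
  have : ∑ i, e i * C * e i = C := by
    calc ∑ i, e i * C * e i = ∑ i, C * e i := by
          refine Finset.sum_congr rfl fun i _ => ?_
          rw [hC, Matrix.mul_assoc, idem]
      _ = C := by rw [← Finset.mul_sum, sumE, Matrix.mul_one]
  rw [this, sub_self]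

theorem diag_mul (idem : ∀ i, e i * e i = e i) (orth : ∀ i j, i ≠ j → e i * e j = 0)
    (A : m → Matrix n n K) (i : m) : (∑ l, e l * A l * e l) * e i = e i * A i * e i := by
  rw [Finset.sum_mul, Finset.sum_eq_single i]
  · rw [Matrix.mul_assoc _ (e i) (e i), idem]
  · intro l _ hl
    rw [Matrix.mul_assoc _ (e l) (e i), orth l i hl, Matrix.mul_zero]
  · intro hi; exact absurd (Finset.mem_univ i) hi

theorem mul_diag (idem : ∀ i, e i * e i = e i) (orth : ∀ i j, i ≠ j → e i * e j = 0)
    (A : m → Matrix n n K) (i : m) : e i * (∑ l, e l * A l * e l) = e i * A i * e i := by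
  rw [Finset.mul_sum, Finset.sum_eq_single i]
  · rw [← Matrix.mul_assoc, ← Matrix.mul_assoc, idem]
  · intro l _ hl
    rw [← Matrix.mul_assoc, ← Matrix.mul_assoc, orth i l (Ne.symm hl), Matrix.zero_mul,
      Matrix.zero_mul]
  · intro hi; exact absurd (Finset.mem_univ i) hi

theorem diag_comm (idem : ∀ i, e i * e i = e i) (orth : ∀ i j, i ≠ j → e i * e j = 0)
    (A : m → Matrix n n K) (i : m) :
    e i * (∑ l, e l * A l * e l) = (∑ l, e l * A l * e l) * e i := by
  rw [mul_diag idem orth, diag_mul idem orth]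

theorem e_off_e (idem : ∀ i, e i * e i = e i) (orth : ∀ i j, i ≠ j → e i * e j = 0)
    (A : Matrix n n K) (i : m) : e i * off e A * e i = 0 := by
  unfold off
  rw [Matrix.mul_sub, mul_diag idem orth (fun _ => A) i, Matrix.sub_mul,
    Matrix.mul_assoc (e i * A), idem, sub_self]

end off

section geom

variable {arm : δ → Fin 3} {J : Matrix ι ι K} {B : Matrix δ δ K}
  {N W : Submodule K (Matrix ι δ K)} {F G : Matrix ι δ K} {p : Matrix ι n K}
  {al : Fin 3 → Matrix n n K} {tau : Matrix n n K}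
  {β : LinearMap.BilinForm K M} {T : Module.End K M →ₗ[K] Module.End K M}
  {Ψ : Fin 3 → Module.End K M} {D : Module.End K M} {π : (n → K) →ₗ[K] M}
  {e : m → Matrix n n K} {lam : m → K} {l : Fin 3 → ℕ} {TT : Set k}

/-- `p x = 0 → π x = 0`; more precisely `γ x = 0 ↔ π x = 0` -/
theorem pi_zero (cr : RDEnd.Cr J p al β π Ψ T) {x : n → K}
    (hx : (pᵀ * J * p) *ᵥ x = 0) : π x = 0 := by
  refine cr.ns.nd _ fun w => ?_
  obtain ⟨y, rfl⟩ := cr.onto w
  rw [cr.ns.symm, cr.form, hx, dotProduct_zero]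

theorem g_zero (cr : RDEnd.Cr J p al β π Ψ T) {x : n → K} (hx : π x = 0) :
    (pᵀ * J * p) *ᵥ x = 0 := by
  have h1 : ∀ y, y ⬝ᵥ ((pᵀ * J * p) *ᵥ x) = 0 := by
    intro y
    rw [← cr.form, hx, map_zero]
  funext i
  have := h1 (Pi.single i 1)
  rwa [single_one_dotProduct] at this

theorem pi_of_p (cr : RDEnd.Cr J p al β π Ψ T) {x : n → K} (hx : p *ᵥ x = 0) : π x = 0 := by
  refine pi_zero cr ?_
  rw [← mulVec_mulVec, hx, mulVec_zero]

theorem pi_e (cr : RDEnd.Cr J p al β π Ψ T)
    (eg : ∀ i, (e i)ᵀ * (pᵀ * J * p) = (pᵀ * J * p) * e i) (i : m) {x : n → K} (hx : π x = 0) :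
    π (e i *ᵥ x) = 0 := by
  refine pi_zero cr ?_
  rw [mulVec_mulVec, ← eg, ← mulVec_mulVec, g_zero cr hx, mulVec_zero]

theorem pi_off (cr : RDEnd.Cr J p al β π Ψ T)
    (eg : ∀ i, (e i)ᵀ * (pᵀ * J * p) = (pᵀ * J * p) * e i) {A : Matrix n n K}
    (hA : ∀ u, π (A *ᵥ u) = 0) (u : n → K) : π (off e A *ᵥ u) = 0 := by
  unfold off
  rw [Matrix.sub_mulVec, map_sub, hA, Matrix.sum_mulVec, map_sum, zero_sub, neg_eq_zero]
  refine Finset.sum_eq_zero fun i _ => ?_
  rw [← mulVec_mulVec, ← mulVec_mulVec]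
  exact pi_e cr eg i (hA _)

theorem map_comm {i : m} {d : Derivation k K K} (he : (e i).map d = 0) {A : Matrix n n K}
    (hA : e i * A = A * e i) : e i * A.map d = A.map d * e i := by
  have h1 := congrArg (fun X : Matrix n n K => X.map d) hA
  simpa only [map_mul_der, he, Matrix.zero_mul, Matrix.mul_zero, zero_add, add_zero] using h1

/-- off-diagonal part of a connection preserves the radical -/
theorem off_skew (hD : Data k arm J B N W)
    (eg : ∀ i, (e i)ᵀ * (pᵀ * J * p) = (pᵀ * J * p) * e i)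
    (idem : ∀ i, e i * e i = e i) (sumE : ∑ i, e i = 1)
    {d : Derivation k K K} (he : ∀ i, (e i).map d = 0) {θ0 : Matrix n n K}
    (hθ : p.map d = p * θ0) :
    (pᵀ * J * p) * off e θ0 = -((off e θ0)ᵀ * (pᵀ * J * p)) := by
  set g := pᵀ * J * p with hg
  have h1 : g.map d = θ0ᵀ * g + g * θ0 := by
    rw [hg]
    simp only [map_mul_der, map_transpose_der, hD.J_const, hθ, transpose_mul, Matrix.zero_mul,
      Matrix.mul_zero, zero_add, add_zero, Matrix.mul_assoc]
  have h2 : ∀ i, (e i)ᵀ * g.map d = g.map d * e i := by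
    intro i
    have h3 := congrArg (fun X : Matrix n n K => X.map d) (eg i)
    simpa only [map_mul_der, map_transpose_der, he, transpose_zero, Matrix.zero_mul,
      Matrix.mul_zero, zero_add, add_zero] using h3
  have h3 : ∑ i, (e i)ᵀ * g.map d * e i = g.map d := by
    calc ∑ i, (e i)ᵀ * g.map d * e i = ∑ i, g.map d * e i := by
          refine Finset.sum_congr rfl fun i _ => ?_
          rw [h2, Matrix.mul_assoc, idem]
      _ = _ := by rw [← Finset.mul_sum, sumE, Matrix.mul_one]
  have h4 : ∑ i, (e i)ᵀ * (g * θ0) * e i = g * ∑ i, e i * θ0 * e i := by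
    rw [Finset.mul_sum]
    refine Finset.sum_congr rfl fun i _ => ?_
    rw [← Matrix.mul_assoc, eg]
    simp only [Matrix.mul_assoc]
  have h5 : ∑ i, (e i)ᵀ * (θ0ᵀ * g) * e i = (∑ i, e i * θ0 * e i)ᵀ * g := by
    rw [transpose_sum, Finset.sum_mul]
    refine Finset.sum_congr rfl fun i _ => ?_
    rw [transpose_mul, transpose_mul]
    simp only [Matrix.mul_assoc]
    rw [eg]
  have h6 : (∑ i, e i * θ0 * e i)ᵀ * g + g * (∑ i, e i * θ0 * e i) = θ0ᵀ * g + g * θ0 := by
    rw [← h4, ← h5, ← Finset.sum_add_distrib, ← h1, ← h3, h1]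
    refine Finset.sum_congr rfl fun i _ => ?_
    rw [Matrix.mul_add, Matrix.add_mul]
  unfold off
  rw [transpose_sub, Matrix.mul_sub, Matrix.sub_mul, neg_sub, sub_eq_sub_iff_add_eq_add]
  rw [h6, add_comm]

theorem core_off (h : Fr k arm J B N W F G p al tau β T Ψ D π e lam l TT)
    {t : k} (ht : t ∈ TT ∨ t = 0) {kap : Matrix n n K} (hk : kap = 1 + algebraMap k K t • tau)
    {d : Derivation k K K} {θ0 : Matrix n n K} (hθ : p.map d = p * θ0)
    {U : Fin 3 → Matrix n n K}
    (hU : ∀ s, p * FC.nab d θ0 (al s * (kap * kap)) = p * U s)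
    {C : Matrix n n K} (hCr : ∀ u, π (C *ᵥ u) = 0)
    (hoff : ∀ s, off e (U s) = C * (al s * (kap * kap)) - al s * (kap * kap) * C)
    (u : n → K) : π (off e θ0 *ᵥ u) = 0 := by
  have hkap : ∀ i, e i * kap = kap * e i := by
    intro i
    rw [hk, Matrix.mul_add, Matrix.add_mul, Matrix.mul_one, Matrix.one_mul, Matrix.mul_smul,
      Matrix.smul_mul, h.etau]
  have hA : ∀ s i, e i * (al s * (kap * kap)) = al s * (kap * kap) * e i := by
    intro s i
    rw [← Matrix.mul_assoc, h.eal, Matrix.mul_assoc, ← Matrix.mul_assoc (e i), hkap,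
      Matrix.mul_assoc kap (e i), hkap]
    simp only [Matrix.mul_assoc]
  have hpk : ∀ v, π (kap *ᵥ v) = (1 + algebraMap k K t • D) (π v) := by
    intro v
    rw [hk, Matrix.add_mulVec, one_mulVec, Matrix.smul_mulVec, map_add, map_smul, h.ptau]
    rfl
  have hpA : ∀ s v, π ((al s * (kap * kap)) *ᵥ v) =
      Ψ s ((1 + algebraMap k K t • D) ((1 + algebraMap k K t • D) (π v))) := by
    intro s v
    rw [← mulVec_mulVec, ← mulVec_mulVec, ← h.cr.op, hpk, hpk]
  have hZA : ∀ s u, π (off e θ0 *ᵥ ((al s * (kap * kap)) *ᵥ u)) =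
      π ((al s * (kap * kap)) *ᵥ (off e θ0 *ᵥ u)) := by
    intro s u
    have h1 : ∀ u, π ((FC.nab d θ0 (al s * (kap * kap)) - U s) *ᵥ u) = 0 := by
      intro u
      refine pi_of_p h.cr ?_
      rw [mulVec_mulVec, Matrix.mul_sub, hU, sub_self, zero_mulVec]
    have h2 := pi_off h.cr h.eg h1 u
    have h3 : off e (FC.nab d θ0 (al s * (kap * kap)) - U s) =
        off e θ0 * (al s * (kap * kap)) - al s * (kap * kap) * off e θ0 -
          (C * (al s * (kap * kap)) - al s * (kap * kap) * C) := by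
      rw [off_sub, hoff]
      unfold FC.nab
      rw [off_sub, off_add, off_mul θ0 (hA s), mul_off θ0 (hA s),
        off_zero h.idem h.sumE (fun i => map_comm (h.eC i d) (hA s i)), zero_add]
    rw [h3, Matrix.sub_mulVec, Matrix.sub_mulVec, Matrix.sub_mulVec, ← mulVec_mulVec _ (off e θ0),
      ← mulVec_mulVec _ _ (off e θ0), ← mulVec_mulVec _ C, ← mulVec_mulVec _ _ C, map_sub, map_sub,
      map_sub, hCr, hpA s (C *ᵥ u), hCr, map_zero, map_zero, map_zero, sub_zero, sub_zero] at h2
    exact sub_eq_zero.1 h2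
  have hZr : ∀ u, π u = 0 → π (off e θ0 *ᵥ u) = 0 := by
    intro u hu
    refine pi_zero h.cr ?_
    rw [mulVec_mulVec, off_skew h.ctx.data h.eg h.idem h.sumE (fun i => h.eC i d) hθ,
      Matrix.neg_mulVec, ← mulVec_mulVec, g_zero h.cr hu, mulVec_zero, neg_zero]
  obtain ⟨σ, hσ⟩ := π.exists_rightInverse_of_surjective (LinearMap.range_eq_top.2 h.cr.onto)
  let A' : Module.End K M := π ∘ₗ (off e θ0).mulVecLin ∘ₗ σ
  have hA' : ∀ u, A' (π u) = π (off e θ0 *ᵥ u) := by
    intro u
    have h1 : π (off e θ0 *ᵥ (σ (π u) - u)) = 0 := by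
      apply hZr
      rw [map_sub, sub_eq_zero]
      exact LinearMap.congr_fun hσ (π u)
    rw [Matrix.mulVec_sub, map_sub, sub_eq_zero] at h1
    exact h1
  have h6 := h.hom t ht A' (by
    intro s x
    obtain ⟨v, rfl⟩ := h.cr.onto x
    rw [← hpA, hA', hA', ← hpA, hZA])
  have h7 : ∀ i u, π (off e θ0 *ᵥ (e i *ᵥ u)) = 0 := by
    intro i u
    refine h.cr.ns.nd _ fun w => ?_
    obtain ⟨y, rfl⟩ := h.cr.onto w
    have hy : y = ∑ j, e j *ᵥ y := by
      rw [← Matrix.sum_mulVec, h.sumE, one_mulVec]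
    rw [hy, map_sum, map_sum]
    refine Finset.sum_eq_zero fun j _ => ?_
    by_cases hij : i = j
    · subst hij
      have e5 : (pᵀ * J * p) *ᵥ (e i *ᵥ y) = (e i)ᵀ *ᵥ ((pᵀ * J * p) *ᵥ y) := by
        rw [mulVec_mulVec, mulVec_mulVec, h.eg]
      rw [h.cr.form, e5, dotProduct_mulVec, vecMul_transpose, mulVec_mulVec, mulVec_mulVec,
        e_off_e h.idem h.orth, zero_mulVec, zero_dotProduct]
    · rw [← hA']
      exact h6 i j hij u y
  have hu : u = ∑ j, e j *ᵥ u := by
    rw [← Matrix.sum_mulVec, h.sumE, one_mulVec]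
  rw [hu, Matrix.mulVec_sum, map_sum]
  exact Finset.sum_eq_zero fun j _ => h7 j u

/-- the operators at `F + tG` on the frame -/
theorem ops (h : Fr k arm J B N W F G p al tau β T Ψ D π e lam l TT)
    {t : k} (ht : t ∈ TT ∨ t = 0) {kap : Matrix n n K} (hk : kap = 1 + algebraMap k K t • tau) :
    (∃ kai, kap * kai = 1) ∧
    ∀ s, Phi arm J B (F + algebraMap k K t • G) s * p = p * (al s * (kap * kap)) := by
  rcases ht with ht | rfl
  · obtain ⟨kap', kai, hp⟩ := h.par t ht
    have e1 : kap' = kap := by rw [hp.kap_eq, hk]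
    subst e1
    exact ⟨⟨kai, hp.mul⟩, fun s => FC.Ctx.PhiHp h.ctx hp s⟩
  · have e1 : kap = 1 := by rw [hk, map_zero, zero_smul, add_zero]
    refine ⟨⟨1, by rw [e1, Matrix.mul_one]⟩, fun s => ?_⟩
    rw [map_zero, zero_smul, add_zero, e1, Matrix.mul_one, Matrix.mul_one]
    exact h.ctx.hal s

end geom

end Pick

section lemmas

variable {arm : δ → Fin 3} {J : Matrix ι ι K} {B : Matrix δ δ K}
  {N W : Submodule K (Matrix ι δ K)} {F G : Matrix ι δ K} {p : Matrix ι n K}
  {al : Fin 3 → Matrix n n K} {tau : Matrix n n K}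
  {β : LinearMap.BilinForm K M} {T : Module.End K M →ₗ[K] Module.End K M}
  {Ψ : Fin 3 → Module.End K M} {D : Module.End K M} {π : (n → K) →ₗ[K] M}
  {e : m → Matrix n n K} {lam : m → K} {l : Fin 3 → ℕ} {TT : Set k}

open Pick

/-- **RD1a (PICK)**: the connection can be chosen with off-diagonal part `C` -/
theorem pick [CharZero K] (h : Fr k arm J B N W F G p al tau β T Ψ D π e lam l TT)
    {t : k} (ht : t ∈ TT ∨ t = 0) {kap : Matrix n n K} (hk : kap = 1 + algebraMap k K t • tau)
    {d : Derivation k K K} {θ0 : Matrix n n K} (hθ : p.map d = p * θ0)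
    {U : Fin 3 → Matrix n n K}
    (hU : ∀ s, p * FC.nab d θ0 (al s * (kap * kap)) = p * U s)
    {C : Matrix n n K} (hC : off e C = C) (hCr : ∀ u, π (C *ᵥ u) = 0)
    (hoff : ∀ s, off e (U s) = C * (al s * (kap * kap)) - al s * (kap * kap) * C) :
    ∃ θ, p.map d = p * θ ∧ off e θ = C := by
  have hZ := core_off h ht hk hθ hU hCr hoff
  obtain ⟨⟨kai, hkk⟩, hPhi⟩ := ops h ht hk
  have hkap : ∀ i, e i * kap = kap * e i := by
    intro i
    rw [hk, Matrix.mul_add, Matrix.add_mul, Matrix.mul_one, Matrix.one_mul, Matrix.mul_smul,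
      Matrix.smul_mul, h.etau]
  have hA : ∀ s i, e i * (al s * (kap * kap)) = al s * (kap * kap) * e i := by
    intro s i
    rw [← Matrix.mul_assoc, h.eal, Matrix.mul_assoc, ← Matrix.mul_assoc (e i), hkap,
      Matrix.mul_assoc kap (e i), hkap]
    simp only [Matrix.mul_assoc]
  obtain ⟨ρ, hρ⟩ := h.ctx.perf
  have hρ' : ∑ s, al s * (kap * kap) * (kai * (kai * ρ s)) = 1 := by
    rw [← hρ]
    refine Finset.sum_congr rfl fun s _ => ?_
    have e1 : kap * kap * (kai * (kai * ρ s)) = ρ s := by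
      rw [Matrix.mul_assoc, ← Matrix.mul_assoc kap kai, hkk, Matrix.one_mul, ← Matrix.mul_assoc,
        hkk, Matrix.one_mul]
    rw [Matrix.mul_assoc, e1]
  have hdc : ∀ (X : Matrix n n K) (i : m), e i * (X - off e X) = (X - off e X) * e i := by
    intro X i
    have e1 : X - off e X = ∑ l, e l * X * e l := by unfold off; rw [sub_sub_cancel]
    rw [e1]
    exact diag_comm h.idem h.orth (fun _ => X) i
  -- the difference
  obtain ⟨Zd, hZd⟩ : ∃ Zd, Zd = off e θ0 - C := ⟨_, rfl⟩
  have hZd0 : ∀ u, π (Zd *ᵥ u) = 0 := by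
    intro u
    rw [hZd, Matrix.sub_mulVec, map_sub, hZ, hCr, sub_zero]
  obtain ⟨S, hS⟩ : ∃ S, S = θ0 - off e θ0 := ⟨_, rfl⟩
  have hSe : ∀ i, e i * S = S * e i := by rw [hS]; exact hdc θ0
  let L : Fin 3 → Matrix n n K := fun s => (U s - off e (U s)) - (al s * (kap * kap)).map d -
    (S * (al s * (kap * kap)) - al s * (kap * kap) * S)
  have hL : ∀ s i, e i * L s = L s * e i := by
    intro s i
    have h1 := hdc (U s) i
    have h2 := map_comm (h.eC i d) (hA s i)
    have h3 : e i * (S * (al s * (kap * kap)) - al s * (kap * kap) * S) =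
        (S * (al s * (kap * kap)) - al s * (kap * kap) * S) * e i := by
      rw [Matrix.mul_sub, Matrix.sub_mul]
      congr 1
      · rw [← Matrix.mul_assoc, hSe, Matrix.mul_assoc, hA, ← Matrix.mul_assoc]
      · rw [← Matrix.mul_assoc, hA, Matrix.mul_assoc, hSe, ← Matrix.mul_assoc]
    change e i * (_ - _ - _) = (_ - _ - _) * e i
    rw [Matrix.mul_sub, Matrix.mul_sub, h1, h2, h3]
    simp only [Matrix.sub_mul]
  have hrel : ∀ s, p * (Zd * (al s * (kap * kap)) - al s * (kap * kap) * Zd) = p * L s := by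
    intro s
    have e1 : Zd * (al s * (kap * kap)) - al s * (kap * kap) * Zd =
        FC.nab d θ0 (al s * (kap * kap)) - ((al s * (kap * kap)).map d +
          (S * (al s * (kap * kap)) - al s * (kap * kap) * S) + off e (U s)) := by
      rw [hoff, hZd, hS]
      unfold FC.nab
      simp only [Matrix.sub_mul, Matrix.mul_sub]
      abel
    rw [e1, Matrix.mul_sub, hU, ← Matrix.mul_sub]
    congr 1
    change _ = (_ - _ - _)
    abel
  -- values
  have key : ∀ j, ∀ x : n → K, (p * (Zd * e j)) *ᵥ x ∈ LinearMap.range (toLin' (p * e j)) := by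
    intro j
    let SN : ℕ → Submodule K (ι → K) := fun N => Submodule.span K
      {v | ∃ w : List (Fin 3), w.length = N ∧ ∃ u, π u = 0 ∧
        v = (w.map (Phi arm J B (F + algebraMap k K t • G))).prod *ᵥ (p *ᵥ u)}
    have hstep : ∀ N s, ∀ v ∈ SN N ⊔ LinearMap.range (toLin' (p * e j)),
        Phi arm J B (F + algebraMap k K t • G) s *ᵥ v ∈
          SN (N + 1) ⊔ LinearMap.range (toLin' (p * e j)) := by
      intro N s v hv
      have hmap : SN N ≤ (SN (N + 1)).comap
          (toLin' (Phi arm J B (F + algebraMap k K t • G) s)) := by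
        refine Submodule.span_le.2 ?_
        rintro _ ⟨w, hw, u, hu, rfl⟩
        change toLin' _ _ ∈ SN (N + 1)
        rw [toLin'_apply]
        refine Submodule.subset_span ⟨s :: w, by rw [List.length_cons, hw], u, hu, ?_⟩
        rw [List.map_cons, List.prod_cons, mulVec_mulVec]
      obtain ⟨a, ha, b, hb, rfl⟩ := Submodule.mem_sup.1 hv
      rw [Matrix.mulVec_add]
      refine Submodule.add_mem _ (Submodule.mem_sup_left ?_) (Submodule.mem_sup_right ?_)
      · have h11 := hmap ha
        rwa [Submodule.mem_comap, toLin'_apply] at h11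
      · obtain ⟨r, rfl⟩ := hb
        rw [toLin'_apply, mulVec_mulVec, ← Matrix.mul_assoc, hPhi, Matrix.mul_assoc, ← hA,
          ← Matrix.mul_assoc, ← mulVec_mulVec]
        exact ⟨_, by rw [toLin'_apply]⟩
    have hind : ∀ N x, (p * (Zd * e j)) *ᵥ x ∈
        SN N ⊔ LinearMap.range (toLin' (p * e j)) := by
      intro N
      induction N with
      | zero =>
        intro x
        refine Submodule.mem_sup_left (Submodule.subset_span ⟨[], rfl, Zd *ᵥ (e j *ᵥ x), hZd0 _, ?_⟩)
        rw [List.map_nil, List.prod_nil, one_mulVec, ← mulVec_mulVec, ← mulVec_mulVec]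
      | succ N ih =>
        intro x
        have hx : x = ∑ s, (al s * (kap * kap)) *ᵥ ((kai * (kai * ρ s)) *ᵥ x) := by
          simp only [mulVec_mulVec]
          rw [← Matrix.sum_mulVec, hρ', one_mulVec]
        rw [hx, Matrix.mulVec_sum]
        refine Submodule.sum_mem _ fun s _ => ?_
        set y := (kai * (kai * ρ s)) *ᵥ x
        have e2 : p * (Zd * e j) * (al s * (kap * kap)) =
            Phi arm J B (F + algebraMap k K t • G) s * (p * (Zd * e j)) + p * e j * L s := by
          have e3 := hrel s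
          rw [Matrix.mul_sub, sub_eq_iff_eq_add] at e3
          calc p * (Zd * e j) * (al s * (kap * kap)) =
              p * (Zd * (al s * (kap * kap))) * e j := by
                rw [Matrix.mul_assoc p, Matrix.mul_assoc Zd, hA]
                simp only [Matrix.mul_assoc]
            _ = (p * L s + p * (al s * (kap * kap) * Zd)) * e j := by rw [e3]
            _ = _ := by
                rw [Matrix.add_mul, Matrix.mul_assoc p (L s), ← hL, ← Matrix.mul_assoc p (e j),
                  ← Matrix.mul_assoc (Phi arm J B _ s), hPhi, add_comm]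
                simp only [Matrix.mul_assoc]
        rw [mulVec_mulVec, e2, Matrix.add_mulVec, ← mulVec_mulVec y (Phi arm J B _ s)]
        refine Submodule.add_mem _ (hstep N s _ (ih y)) (Submodule.mem_sup_right ?_)
        rw [← mulVec_mulVec]
        exact ⟨_, by rw [toLin'_apply]⟩
    obtain ⟨m0, hm0⟩ := h.killV (algebraMap k K t)
    intro x
    have h8 : SN m0 = ⊥ := by
      rw [eq_bot_iff, Submodule.span_le]
      rintro _ ⟨w, hw, u, hu, rfl⟩
      rw [hm0 w hw u hu]
      exact Submodule.zero_mem _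
    have h9 := hind m0 x
    rwa [h8, bot_sup_eq] at h9
  choose R hR using fun j => exists_pi (p := p * e j) (q := p * (Zd * e j)) (key j)
  refine ⟨C + (S + ∑ j, e j * R j * e j), ?_, ?_⟩
  · have h10 : p * ∑ j, e j * R j * e j = p * Zd := by
      rw [Matrix.mul_sum]
      calc ∑ j, p * (e j * R j * e j) = ∑ j, p * Zd * e j := by
            refine Finset.sum_congr rfl fun j _ => ?_
            have := congrArg (fun X => X * e j) (hR j)
            simp only [Matrix.mul_assoc, h.idem] at this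
            simp only [Matrix.mul_assoc]
            exact this.symm
        _ = _ := by rw [← Matrix.mul_sum, h.sumE, Matrix.mul_one]
    rw [Matrix.mul_add, Matrix.mul_add, h10, hθ, ← Matrix.mul_add, ← Matrix.mul_add]
    congr 1
    rw [hS, hZd]
    abel
  · rw [off_add, off_add, hC, off_zero h.idem h.sumE hSe,
      off_zero h.idem h.sumE (diag_comm h.idem h.orth R), add_zero, add_zero]

end lemmas

end Crest.Agent.R172.RD
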