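import Crest.Agent.R172.RDfirst0
import Crest.Agent.R172.RDpick
import Crest.Agent.R172.RDfZ

/-!
Row 172 (S0260), `RD.first`: `Fr → FirstP` (FIRST, decorated).
-/

set_option autoImplicit false
set_option linter.unusedSectionVars false

namespace Crest.Agent.R172.RD195

open Matrix Module TensorProduct Crest.Agent.R172.FO Crest.Agent.R172.FrmB Crest.Agent.R172.RD

variable {ι : Type*} [Fintype ι] [DecidableEq ι] {δ : Type*} [Fintype δ] [DecidableEq δ]
variable {n : Type*} [Fintype n] [DecidableEq n]
variable {k K : Type*} [Field k] [Field K] [Algebra k K]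
variable {M : Type*} [AddCommGroup M] [Module K M]
variable {m : Type*} [Fintype m] [DecidableEq m]
variable {arm : δ → Fin 3} {J : Matrix ι ι K} {B : Matrix δ δ K}
  {N W : Submodule K (Matrix ι δ K)} {F G : Matrix ι δ K} {p : Matrix ι n K}
  {al : Fin 3 → Matrix n n K} {tau : Matrix n n K}
  {β : LinearMap.BilinForm K M} {T : Module.End K M →ₗ[K] Module.End K M}
  {Ψ : Fin 3 → Module.End K M} {D : Module.End K M} {π : (n → K) →ₗ[K] M}
  {e : m → Matrix n n K} {lam : m → K} {l : Fin 3 → ℕ} {TT : Set k}

theorem first [CharZero K] (h : Fr k arm J B N W F G p al tau β T Ψ D π e lam l TT)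
    {i j : m} (hij : i ≠ j) : FirstP k arm J B N W F G p al tau T Ψ π e TT i j := by
  intro t ht kap kai hp x b kk hx
  exact first_of h hij hp hx
    (fun d θ0 hθ U hU C hC hCr hoff => pick h (Or.inl ht) hp.kap_eq hθ hU hC hCr hoff)
    (fun d θ hθ hβ => first_ZF h (i := i) (j := j) ht hp hx hθ hβ)

end Crest.Agent.R172.RD195
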