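import Crest.Agent.R172.RDfrB
import Crest.Agent.R172.HexM

/-!
Row 172 (S0260), (T0), any radical, any `D`: **`RD.ExFr`**, the frame of the universal cover exists.
-/

set_option autoImplicit false
set_option linter.unusedSectionVars false
set_option maxHeartbeats 800000

namespace Crest.Agent.R172.RDfr

open Module Matrix Crest.AlgebraR.SpinSaturation Crest.Agent.R172.SoGrade
  Crest.Agent.R172.CF
open Crest.Agent.R172.Gen (Jm Ix emb Ent ent)
open Crest.Agent.R172.ThX Crest.Agent.R172.CSys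
open Crest.Agent.R172.Core (NS cp BM Tame Pres)
open Crest.Agent.R172.CP (pM PP Nums)
open Crest.Agent.R172.N5 (Ph)
open Crest.Agent.R172.RDTot Crest.Agent.R172.RDfrB

variable {n : ℕ} {a : Fin 3 → Fin n → ℤ} {c : Cfg n a} {K : Type} [Field K] [Algebra ℂ K]
variable {N W : Submodule K (Matrix (Ix n) c.δ K)} {F G : Matrix (Ix n) c.δ K}
variable {C : St.Core (BV n K) (Ph F)} {τ : Module.End K C.M} {l : Fin 3 → ℕ}

section tot

variable {m : ℕ} {X : Fin m → Type} [∀ i, AddCommGroup (X i)] [∀ i, Module K (X i)]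
variable {hl : Nums C τ l} {lam : Fin m → K} {e : Fin m → End K C.M}
  {A : ∀ i, Fin 3 → End K (X i)} {D : ∀ i, End K (X i)}
  {pr : ∀ i, X i →ₗ[K] (τ.maxGenEigenspace (lam i))} {ll : ∀ i, X i →ₗ[K] (Ix n → K)} {h : ℕ}

/-- the form of a block -/
noncomputable def g0 (C : St.Core (BV n K) (Ph F)) (τ : Module.End K C.M) (lam : Fin m → K)
    (i : Fin m) :
    (τ.maxGenEigenspace (lam i)) →ₗ[K] (τ.maxGenEigenspace (lam i)) →ₗ[K] K :=
  (BM C).compl₁₂ (τ.maxGenEigenspace (lam i)).subtype (τ.maxGenEigenspace (lam i)).subtype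

theorem g0_apply (i : Fin m) (x y : τ.maxGenEigenspace (lam i)) :
    g0 C τ lam i x y = BM C (x : C.M) (y : C.M) := rfl

/-- the form of the total cover -/
noncomputable def gX (pr : ∀ i, X i →ₗ[K] (τ.maxGenEigenspace (lam i))) :
    (∀ i, X i) →ₗ[K] (∀ i, X i) →ₗ[K] K :=
  (BM C).compl₁₂ (QQ pr) (QQ pr)

theorem gX_apply (x y : ∀ i, X i) : gX pr x y = BM C (QQ pr x) (QQ pr y) := rfl

theorem QQ_single (i : Fin m) (x : X i) :
    QQ pr (Pi.single i x) = ((pr i x : τ.maxGenEigenspace (lam i)) : C.M) := by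
  have h1 := QQ_EE (pr := pr) i (Pi.single i x)
  rw [EE_apply, Pi.single_eq_same] at h1
  exact h1

theorem AA_single (s : Fin 3) (i : Fin m) (x : X i) :
    AA A s (Pi.single i x) = Pi.single i (A i s x) := by
  have h1 := EE_AA (A := A) i s (Pi.single i x)
  rw [EE_apply, EE_apply, AA_apply, Pi.single_eq_same] at h1
  exact h1.symm

theorem adj0 (hD : FO.Data ℂ c.arm (Jm n K) (c.B K) N W) (hF : F ∈ N ⊓ W)
    (hl : Nums C τ l) (i : Fin m) (s : Fin 3) (x y : τ.maxGenEigenspace (lam i)) :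
    g0 C τ lam i (A0 hl (lam i) s x) y = g0 C τ lam i x (A0 hl (lam i) s y) :=
  Core.cp_sa C (N5.Ph_sa hD hF s) (x : C.M) (y : C.M)

variable (H : Tot N W F G C τ hl lam e A D pr ll h)
include H

theorem ns0 (i : Fin m) (x : τ.maxGenEigenspace (lam i))
    (hx : ∀ y : τ.maxGenEigenspace (lam i), BM C (x : C.M) (y : C.M) = 0) : x = 0 := by
  refine Subtype.ext ((Core.NS_BM BV_ns C).nd _ fun w => ?_)
  have h1 : (x : C.M) = e i x := (H.spec.fix i _ x.2).symm
  rw [h1, H.spec.sa]
  exact hx ⟨e i w, H.spec.mem i w⟩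

theorem blk (hD : FO.Data ℂ c.arm (Jm n K) (c.B K) N W) (hF : F ∈ N ⊓ W) :
    HexM.Blk (AA A) A (fun i => LinearMap.single K X i) (fun i => LinearMap.proj i) pr
      (g0 C τ lam) (gX pr) (QQ pr) where
  pi i x := by
    rw [LinearMap.single_apply, LinearMap.proj_apply, Pi.single_eq_same]
  pA i s x := rfl
  Ai i s x := AA_single s i x
  surj i := (H.fam.st i).surj
  ns i x hx := ns0 H i x hx
  ns' i x hx := ns0 H i x fun y => by rw [BM_symm H]; exact hx y
  gl i x y := by
    have h1 := BM_EE H i (Pi.single i x) y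
    rw [EE_apply, Pi.single_eq_same] at h1
    exact h1
  gr i x y := by
    have h1 := BM_EE H i (Pi.single i x) y
    rw [EE_apply, Pi.single_eq_same, BM_symm H] at h1
    rw [g0_apply, BM_symm H ((pr i ((LinearMap.proj i) y) : τ.maxGenEigenspace (lam i)) : C.M)]
    exact h1
  adj i s x y := by
    rw [(H.fam.st i).prA, (H.fam.st i).prA]
    exact adj0 hD hF hl i s _ _
  qr i x hx := by
    rw [LinearMap.single_apply, QQ_single, hx]
    rfl

end tot

/-- **the frame of the universal cover exists** -/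
theorem exFr : RD.ExFr := by
  intro n a c K _ _ _ _ N W hD hnil hsum hK F G hG C τ hT
  classical
  obtain ⟨l, hl⟩ := CP.nums_of_tame BV_ns (N5.Ph_sa hD hG.mem) C hT.sa hT.comm
    (Module.End.iSup_maxGenEigenspace_eq_top τ) hT.tame
  obtain ⟨m, lam, e, X, i1, i2, A, D, pr, ll, h, H⟩ := exists_tot hD hG.mem hG.memG hT hl
  have htin := tin H hD hnil hG hT
  obtain ⟨T, hTadj⟩ := RDfrA.exists_adj (Core.NS_BM BV_ns C)
  have hfin := H.fin
  obtain ⟨a0, b, bl, hb⟩ := RDfrA.exists_basis htin.idem htin.orth htin.sumE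
  refine ⟨Fin a0, inferInstance, inferInstance, Fin m, inferInstance, inferInstance, _, _, _, T,
    _, _, lam, l, TT lam, RDfrA.fr_of hD hG hG.memG htin hTadj b hb ?_⟩
  intro i j _ c' hc x hx hs harm
  refine HexM.hexS (blk H hD hG.mem) (fun i j c' hc' => H.fam.hex i j (g0 C τ lam j) 1 c'
    (fun t p p' => by rw [one_mul]; exact adj0 hD hG.mem hl j t p p') (by rwa [one_mul]))
    b ?_ ?_ (fun _ => rfl) (fun _ => rfl) ?_ i j c' hc x hx hs harm
  · intro x y
    rw [Matrix.mul_assoc, ← mulVec_mulVec, ← mulVec_mulVec, ← RDfrA.dtr, CovF.fr_repr,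
      CovF.fr_repr, ← BV_apply, H.form]
    rfl
  · rw [transpose_mul, transpose_mul, transpose_transpose, hD.J_symm, Matrix.mul_assoc]
  · intro x
    simp

end Crest.Agent.R172.RDfr
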