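import Crest.Agent.R172.RD0
import Crest.Agent.R172.Dual1
import Crest.Agent.R172.TL1

/-!
Row 172 (S0260), (T0): RD4 `offdiag` of the skeleton RD0, from `halves` (as a hypothesis).
-/

set_option autoImplicit false
set_option linter.unusedSectionVars false
set_option linter.unusedVariables false

namespace Crest.Agent.R172.RDoffB

open Matrix Module TensorProduct Crest.Agent.R172.FO Crest.Agent.R172.FrmB Crest.Agent.R172.RD
open Crest.Agent.R172.RDEnd (qs mt mt_tmul lift_qs)
open Crest.Agent.R172.Core (NS Tame)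

variable {ι : Type*} [Fintype ι] [DecidableEq ι] {δ : Type*} [Fintype δ] [DecidableEq δ]
variable {n : Type*} [Fintype n] [DecidableEq n]
variable {k K : Type*} [Field k] [Field K] [Algebra k K]
variable {M : Type*} [AddCommGroup M] [Module K M]
variable {m : Type*} [Fintype m] [DecidableEq m]

section algebra

theorem mt_map (A B : Matrix n n K) (x : TensorProduct K (n → K) (n → K)) :
    mt (TensorProduct.map (toLin' A) (toLin' B) x) = A * mt x * Bᵀ := by
  induction x using TensorProduct.induction_on with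
  | zero => simp
  | tmul a b =>
    rw [TensorProduct.map_tmul, mt_tmul, mt_tmul, Matrix.mul_vecMulVec, Matrix.vecMulVec_mul,
      Matrix.vecMul_transpose]
    rfl
  | add a b ha hb => rw [map_add, map_add, map_add, ha, hb, Matrix.mul_add, Matrix.add_mul]

theorem mt_defect (A : Matrix n n K) (B : Matrix n n K) (c : K)
    (x : TensorProduct K (n → K) (n → K)) :
    mt (Dual.defect (toLin' A) (toLin' B) c x) = mt x * Aᵀ - c • (B * mt x) := by
  induction x using TensorProduct.induction_on with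
  | zero => simp
  | tmul a b =>
    rw [Dual.defect_tmul, map_sub, map_smul, mt_tmul, mt_tmul, mt_tmul, Matrix.mul_vecMulVec,
      Matrix.vecMulVec_mul, Matrix.vecMul_transpose]
    rfl
  | add a b ha hb =>
    rw [map_add, map_add, map_add, ha, hb, Matrix.mul_add, Matrix.add_mul, smul_add]
    abel

/-- a matrix is the sum of its columns -/
theorem sum_cols (X : Matrix n n K) :
    X = ∑ j, vecMulVec (X *ᵥ Pi.single j 1) (Pi.single j 1) := by
  ext a b
  rw [Matrix.sum_apply, Finset.sum_eq_single b]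
  · simp [vecMulVec_apply]
  · intro j _ hj
    simp [vecMulVec_apply, Pi.single_apply, hj.symm]
  · intro h; exact absurd (Finset.mem_univ b) h

theorem single_sum {E : Type*} [AddCommMonoid E] {α : Type*} (s : Fin 3) (t : Finset α)
    (f : α → E) : (Pi.single s (∑ a ∈ t, f a) : Fin 3 → E) = ∑ a ∈ t, Pi.single s (f a) := by
  classical
  induction t using Finset.induction_on with
  | empty => simp
  | insert a t ha ih => rw [Finset.sum_insert ha, Finset.sum_insert ha, Pi.single_add, ih]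

end algebra

section main

variable {arm : δ → Fin 3} {J : Matrix ι ι K} {B : Matrix δ δ K}
  {N W : Submodule K (Matrix ι δ K)} {F G : Matrix ι δ K} {p : Matrix ι n K}
  {al : Fin 3 → Matrix n n K} {tau : Matrix n n K}
  {β : LinearMap.BilinForm K M} {T : Module.End K M →ₗ[K] Module.End K M}
  {Ψ : Fin 3 → Module.End K M} {D : Module.End K M} {π : (n → K) →ₗ[K] M}
  {e : m → Matrix n n K} {lam : m → K} {l : Fin 3 → ℕ} {TT : Set k}

theorem gsymm (h : Fr k arm J B N W F G p al tau β T Ψ D π e lam l TT) :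
    (pᵀ * J * p)ᵀ = pᵀ * J * p := by
  rw [transpose_mul, transpose_mul, transpose_transpose, h.ctx.data.J_symm, Matrix.mul_assoc]

theorem ker_iff (h : Fr k arm J B N W F G p al tau β T Ψ D π e lam l TT) (u : n → K) :
    π u = 0 ↔ (pᵀ * J * p) *ᵥ u = 0 := by
  constructor
  · intro hu
    funext i
    have h1 := h.cr.form (Pi.single i 1) u
    rw [hu, map_zero] at h1
    rw [single_one_dotProduct] at h1
    exact h1.symm
  · intro hu
    apply h.cr.ns.nd
    intro w
    obtain ⟨y, rfl⟩ := h.cr.onto w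
    rw [h.cr.ns.symm, h.cr.form, hu, dotProduct_zero]

theorem ker_e (h : Fr k arm J B N W F G p al tau β T Ψ D π e lam l TT) (i : m) {u : n → K}
    (hu : π u = 0) : π (e i *ᵥ u) = 0 := by
  rw [ker_iff h] at hu ⊢
  rw [mulVec_mulVec, ← h.eg, ← mulVec_mulVec, hu, mulVec_zero]

theorem pi_pow (h : Fr k arm J B N W F G p al tau β T Ψ D π e lam l TT) (s : Fin 3) (a : ℕ)
    (u : n → K) : π ((al s ^ a) *ᵥ u) = (Ψ s ^ a) (π u) := by
  induction a generalizing u with
  | zero => simp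
  | succ a ih => rw [pow_succ, ← mulVec_mulVec, ih, ← h.cr.op, pow_succ, Module.End.mul_apply]

theorem e_pow (h : Fr k arm J B N W F G p al tau β T Ψ D π e lam l TT) (i : m) (s : Fin 3)
    (a : ℕ) : e i * al s ^ a = al s ^ a * e i := by
  induction a with
  | zero => simp
  | succ a ih => rw [pow_succ, ← Matrix.mul_assoc, ih, Matrix.mul_assoc, h.eal, Matrix.mul_assoc]

theorem e_idem (h : Fr k arm J B N W F G p al tau β T Ψ D π e lam l TT) (i : m) (u : n → K) :
    e i *ᵥ (e i *ᵥ u) = e i *ᵥ u := by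
  rw [mulVec_mulVec, h.idem]

/-- the single arm block tensors are good -/
theorem prods [CharZero K] (h : Fr k arm J B N W F G p al tau β T Ψ D π e lam l TT)
    {i j : m} (hij : i ≠ j)
    (hh : ∃ S : Set K, S.Finite ∧ ∀ c ∉ S, ∀ (x : Fin 3 → Matrix n n K)
      (b kk : Matrix n n K),
      Dec (pᵀ * J * p) π e i j (fun r => al r) (fun r => c • al r) x b kk →
      x ∈ RDEnd.Rel arm J N W F p π T 0 Ψ) :
    (∀ s a b, a + b + 1 = l s → ∀ u v : n → K,
      (Pi.single s (vecMulVec (e j *ᵥ ((al s ^ b) *ᵥ u)) (e i *ᵥ ((al s ^ a) *ᵥ v))) :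
        Fin 3 → Matrix n n K) ∈ RDEnd.Rel arm J N W F p π T 0 Ψ) ∧
    (∀ s, ∀ r, π r = 0 → ∀ v : n → K, (Pi.single s (vecMulVec (e j *ᵥ r) (e i *ᵥ v)) :
        Fin 3 → Matrix n n K) ∈ RDEnd.Rel arm J N W F p π T 0 Ψ) ∧
    (∀ s, ∀ r, π r = 0 → ∀ v : n → K, (Pi.single s (vecMulVec (e j *ᵥ v) (e i *ᵥ r)) :
        Fin 3 → Matrix n n K) ∈ RDEnd.Rel arm J N W F p π T 0 Ψ) := by
  classical
  obtain ⟨S, hS, hh⟩ := hh
  set g : Matrix n n K := pᵀ * J * p with hg
  have hgt : gᵀ = g := gsymm h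
  have hker : ∀ u, π u = 0 ↔ g *ᵥ u = 0 := ker_iff h
  let Q := RDEnd.Rel arm J N W F p π T 0 Ψ
  let q : Fin 3 → (n → K) →ₗ[K] (n → K) →ₗ[K] (Fin 3 → Matrix n n K) := fun t =>
    (qs t).compl₁₂ (toLin' (e j)) (toLin' (e i))
  have hq : ∀ t a b, q t a b = Pi.single t (vecMulVec (e j *ᵥ a) (e i *ᵥ b)) := fun t a b => rfl
  have hlift : ∀ t x, TensorProduct.lift (q t) x = Pi.single t (e j * mt x * (e i)ᵀ) := by
    intro t x
    rw [← mt_map, ← lift_qs]
    induction x using TensorProduct.induction_on with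
    | zero => simp
    | tmul a b => rw [TensorProduct.map_tmul, TensorProduct.lift.tmul, TensorProduct.lift.tmul]; rfl
    | add a b ha hb => rw [map_add, map_add, map_add, ha, hb]
  let Λ : Set K := {c | c ∉ S ∧ c ≠ 0}
  have hΛ : Λ.Infinite := by
    have h1 : (S ∪ {0}).Finite := hS.union (Set.finite_singleton 0)
    have h2 := h1.infinite_compl
    refine h2.mono ?_
    intro c hc
    simp only [Set.mem_compl_iff, Set.mem_union, Set.mem_singleton_iff, not_or] at hc
    exact hc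
  obtain ⟨ρ, hρ⟩ := h.ctx.perf
  have hperf : ∀ u : n → K, ∃ f : Fin 3 → (n → K), u = ∑ t, (toLin' (al t)) (f t) := by
    intro u
    refine ⟨fun t => ρ t *ᵥ u, ?_⟩
    have : u = (∑ s, al s * ρ s) *ᵥ u := by rw [hρ, one_mulVec]
    conv_lhs => rw [this]
    rw [sum_mulVec]
    refine Finset.sum_congr rfl fun t _ => ?_
    rw [toLin'_apply, mulVec_mulVec]
  have hst : ∀ t, ∀ r ∈ LinearMap.ker π, toLin' (al t) r ∈ LinearMap.ker π := by
    intro t r hr
    rw [LinearMap.mem_ker] at hr ⊢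
    rw [toLin'_apply, ← h.cr.op, hr, map_zero]
  obtain ⟨m0, hm0⟩ := h.kill
  have hkill : ∃ N, ∀ r ∈ LinearMap.ker π, Dual.Kills (fun t => toLin' (al t)) N r := by
    refine ⟨m0, fun r hr w hw => ?_⟩
    have h1 := hm0 w hw r (LinearMap.mem_ker.1 hr)
    have h2 : ∀ w : List (Fin 3), (w.map (fun t => toLin' (al t))).prod = toLin' (w.map al).prod := by
      intro w
      induction w with
      | nil => simp [Module.End.one_eq_id, toLin'_one]
      | cons a w ih =>
        rw [List.map_cons, List.prod_cons, ih, List.map_cons, List.prod_cons, toLin'_mul]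
        rfl
    rw [h2, toLin'_apply]
    exact h1
  have hl : ∀ s (u : n → K), ((toLin' (al s)) ^ l s) u ∈ LinearMap.ker π := by
    intro s u
    rw [LinearMap.mem_ker, ← toLin'_pow, toLin'_apply, pi_pow h, h.lnil]
    rfl
  have hgen : ∀ S : Submodule K (n → K), (∀ s u, ((toLin' (al s)) ^ l s) u ∈ S) →
      (∀ t, ∀ r ∈ S, toLin' (al t) r ∈ S) → LinearMap.ker π ≤ S := by
    intro S h1 h2 r hr
    have hr' : r = ∑ i, e i *ᵥ r := by
      rw [← sum_mulVec, h.sumE, one_mulVec]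
    rw [hr']
    refine S.sum_mem fun i _ => ?_
    refine h.gen i S (fun s v hv => ?_) (fun s u => ?_) r (ker_e h i (LinearMap.mem_ker.1 hr))
    · have := h2 s v hv
      rwa [toLin'_apply] at this
    · have := h1 s (e i *ᵥ u)
      rwa [← toLin'_pow, toLin'_apply] at this
  have key := Dual.span_exact (A := fun t => toLin' (al t)) (B := fun t => toLin' (al t))
    (R1 := LinearMap.ker π) (R2 := LinearMap.ker π) (l := l) hΛ (fun h0 => h0.2 rfl) hperf hperf
    hst hst hkill hkill hl hl hgen hgen q Q (by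
      intro c hc x hx
      have hXdef : ∑ t, TensorProduct.lift (q t) (x t) =
          (fun r => e j * mt (x r) * (e i)ᵀ) := by
        funext r
        rw [Finset.sum_apply, Finset.sum_eq_single r]
        · rw [hlift, Pi.single_eq_same]
        · intro t _ ht
          rw [hlift, Pi.single_eq_of_ne (Ne.symm ht)]
        · intro hr; exact absurd (Finset.mem_univ r) hr
      rw [hXdef]
      set X : Fin 3 → Matrix n n K := fun r => e j * mt (x r) * (e i)ᵀ with hX
      have hdef : ∀ r, X r * (al r)ᵀ - c • (al r * X r) =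
          e j * mt (Dual.defect (toLin' (al r)) (toLin' (al r)) c (x r)) * (e i)ᵀ := by
        intro r
        have e1 : (e i)ᵀ * (al r)ᵀ = (al r)ᵀ * (e i)ᵀ := by
          rw [← transpose_mul, ← transpose_mul, h.eal]
        have e2 : al r * e j = e j * al r := (h.eal j r).symm
        rw [mt_defect, hX]
        simp only
        rw [Matrix.mul_assoc (e j * mt (x r)), e1, ← Matrix.mul_assoc (al r),
          ← Matrix.mul_assoc (al r), e2]
        rw [Matrix.mul_sub, Matrix.sub_mul, Matrix.mul_smul, Matrix.smul_mul]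
        simp only [Matrix.mul_assoc]
      have hrad : ∀ z ∈ Dual.Rad (LinearMap.ker π) (LinearMap.ker π),
          g * mt z * g = 0 := by
        intro z hz
        have hle : Dual.Rad (LinearMap.ker π) (LinearMap.ker π) ≤
            LinearMap.ker ((LinearMap.mulLeft K g ∘ₗ LinearMap.mulRight K g) ∘ₗ mt) := by
          unfold Dual.Rad
          refine sup_le (Submodule.span_le.2 ?_) (Submodule.span_le.2 ?_)
          · rintro _ ⟨r, hr, v, rfl⟩
            change g * (mt (r ⊗ₜ v) * g) = 0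
            rw [mt_tmul, ← Matrix.mul_assoc, Matrix.mul_vecMulVec, (hker r).1 hr]
            simp [zero_vecMulVec]
          · rintro _ ⟨v, r, hr, rfl⟩
            change g * (mt (v ⊗ₜ r) * g) = 0
            rw [mt_tmul, Matrix.vecMulVec_mul, ← Matrix.mulVec_transpose, hgt, (hker r).1 hr]
            simp [vecMulVec_zero]
        have := hle hz
        rw [LinearMap.mem_ker] at this
        rw [Matrix.mul_assoc]
        exact this
      have heg : ∀ (A : Matrix n n K), g * (e j * A * (e i)ᵀ) * g =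
          (e j)ᵀ * (g * A * g) * e i := by
        intro A
        have e1 := h.eg j
        have e2 := h.eg i
        rw [← hg] at e1 e2
        calc g * (e j * A * (e i)ᵀ) * g = (g * e j) * A * ((e i)ᵀ * g) := by
              simp only [Matrix.mul_assoc]
          _ = ((e j)ᵀ * g) * A * (g * e i) := by rw [← e1, e2]
          _ = _ := by simp only [Matrix.mul_assoc]
      have hbx : ∀ r, e j * X r * (e i)ᵀ = X r := by
        intro r
        rw [hX]
        simp only
        have e3 : (e i)ᵀ * (e i)ᵀ = (e i)ᵀ := by rw [← transpose_mul, h.idem]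
        rw [← Matrix.mul_assoc, ← Matrix.mul_assoc, h.idem, Matrix.mul_assoc (e j * mt (x r)), e3]
      have hsum : ∑ r, (X r * (al r)ᵀ - c • (al r * X r)) = 0 := by
        rw [Finset.sum_congr rfl fun r _ => hdef r, ← Finset.sum_mul, ← Finset.mul_sum,
          ← map_sum, hx.1, map_zero, Matrix.mul_zero, Matrix.zero_mul]
      have harm : ∀ r, g * (X r * (al r)ᵀ - c • (al r * X r)) * g = 0 := by
        intro r
        rw [hdef, heg, hrad _ (hx.2 r), Matrix.mul_zero, Matrix.zero_mul]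
      obtain ⟨b, kk, h1, h2, h3, h4, h5, h6⟩ := h.hexS i j hij c hc.2 X hbx hsum harm
      refine hh c hc.1 X b kk ⟨hbx, h1, h2, h3, h4, ?_, ?_, ?_, ?_⟩
      · simpa only [Matrix.smul_mul] using hsum
      · intro r
        have := harm r
        simpa only [Matrix.smul_mul] using this
      · intro r
        rw [h5 r, Matrix.mul_smul]
      · intro r
        rw [h6 r, Matrix.smul_mul])
  refine ⟨fun s a b hab u v => ?_, fun s r hr v => ?_, fun s r hr v => ?_⟩
  · have h1 := key.1 s a b hab u v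
    rw [hq, ← toLin'_pow, ← toLin'_pow, toLin'_apply, toLin'_apply] at h1
    exact h1
  · have h1 := key.2.1 s r (LinearMap.mem_ker.2 hr) v
    rw [hq] at h1
    exact h1
  · have h1 := key.2.2 s r (LinearMap.mem_ker.2 hr) v
    rw [hq] at h1
    exact h1

theorem vmv_conj (A C : Matrix n n K) (a b : n → K) :
    A * vecMulVec a b * Cᵀ = vecMulVec (A *ᵥ a) (C *ᵥ b) := by
  rw [Matrix.mul_vecMulVec, Matrix.vecMulVec_mul, Matrix.vecMul_transpose]

/-- filtered block tensors are sums of elementary ones -/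
theorem fil_decomp (h : Fr k arm J B N W F G p al tau β T Ψ D π e lam l TT)
    {i j : m} {s : Fin 3} {y : Matrix n n K} (hy : e j * y * (e i)ᵀ = y)
    (hf : Fil (pᵀ * J * p) π Ψ s y) (Q : Submodule K (Fin 3 → Matrix n n K))
    (h1 : ∀ a b, a + b + 1 = l s → ∀ u v : n → K,
      (Pi.single s (vecMulVec (e j *ᵥ ((al s ^ b) *ᵥ u)) (e i *ᵥ ((al s ^ a) *ᵥ v))) :
        Fin 3 → Matrix n n K) ∈ Q)
    (h2 : ∀ r, π r = 0 → ∀ v : n → K, (Pi.single s (vecMulVec (e j *ᵥ r) (e i *ᵥ v)) :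
        Fin 3 → Matrix n n K) ∈ Q)
    (h3 : ∀ r, π r = 0 → ∀ v : n → K, (Pi.single s (vecMulVec (e j *ᵥ v) (e i *ᵥ r)) :
        Fin 3 → Matrix n n K) ∈ Q) :
    (Pi.single s y : Fin 3 → Matrix n n K) ∈ Q := by
  classical
  have : FiniteDimensional K M := Module.Finite.of_surjective π h.cr.onto
  set g : Matrix n n K := pᵀ * J * p with hg
  have hgt : gᵀ = g := gsymm h
  have hker : ∀ u, π u = 0 ↔ g *ᵥ u = 0 := ker_iff h
  obtain ⟨yb, hyb, hfil⟩ := hf
  obtain ⟨e1, b1, hb1⟩ := TC.exists_adapted (h.lnil s) (h.free s)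
  obtain ⟨w, hw⟩ := TL.filt_sum (φ₂ := Ψ s) (y := yb) b1 hb1 (by
    rintro a v ⟨v', rfl⟩
    obtain ⟨v'', hv⟩ := hfil a v'
    exact ⟨v'', hv.symm⟩)
  -- the coordinate functionals
  have hc : ∀ q : Fin (l s) × Fin (finrank K (LinearMap.ker (Ψ s))), ∃ c : M,
      ∀ u, b1.coord q u = β ((Ψ s ^ (l s - 1 - (q.1 : ℕ))) c) u := by
    intro q
    have hnd := h.cr.ns.nondeg
    set c0 : M := (β.toDual hnd).symm (b1.coord q) with hc0
    have hc0' : ∀ u, β c0 u = b1.coord q u := fun u =>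
      LinearMap.BilinForm.apply_toDual_symm_apply _ _
    have hsaP : ∀ (a : ℕ) v w, β ((Ψ s ^ a) v) w = β v ((Ψ s ^ a) w) := by
      intro a
      induction a with
      | zero => intro v w; rfl
      | succ a ih =>
        intro v w
        rw [pow_succ', Module.End.mul_apply, h.cr.sa, ih, ← Module.End.mul_apply, ← pow_succ,
          pow_succ']
    have hz : (b1.coord q) ∘ₗ (Ψ s ^ ((q.1 : ℕ) + 1)) = 0 := by
      refine b1.ext fun t => ?_
      rw [LinearMap.comp_apply, LinearMap.zero_apply, hb1, ← Module.End.mul_apply, ← pow_add]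
      by_cases ht : ((q.1 : ℕ) + 1) + (t.1 : ℕ) < l s
      · have h9 : (Ψ s ^ (((q.1 : ℕ) + 1) + (t.1 : ℕ))) (e1 t.2) =
            b1 (⟨((q.1 : ℕ) + 1) + t.1, ht⟩, t.2) := by
          rw [hb1]
        rw [h9, Basis.coord_apply, Basis.repr_self, Finsupp.single_eq_of_ne]
        intro hh
        have := congrArg (fun q : Fin (l s) × Fin (finrank K (LinearMap.ker (Ψ s))) =>
          (q.1 : ℕ)) hh
        simp only at this
        omega
      · obtain ⟨r, hr⟩ := Nat.exists_eq_add_of_le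
          (show l s ≤ ((q.1 : ℕ) + 1) + (t.1 : ℕ) by omega)
        rw [hr, pow_add, h.lnil, zero_mul]
        simp
    have hk : c0 ∈ LinearMap.ker (Ψ s ^ ((q.1 : ℕ) + 1)) := by
      rw [LinearMap.mem_ker]
      apply h.cr.ns.nd
      intro u
      rw [hsaP, hc0']
      exact LinearMap.congr_fun hz u
    rw [TC.ker_eq_range (h.lnil s) (h.free s) (by have := q.1.2; omega)] at hk
    obtain ⟨c, hc⟩ := hk
    refine ⟨c, fun u => ?_⟩
    rw [show l s - 1 - (q.1 : ℕ) = l s - ((q.1 : ℕ) + 1) by omega, hc, hc0']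
  choose c hc using hc
  choose ch hch using fun q => h.cr.onto (c q)
  choose wh hwh using fun q => h.cr.onto (w q)
  -- the elementary part
  set y' : Matrix n n K := ∑ q, vecMulVec (e j *ᵥ ((al s ^ (q.1 : ℕ)) *ᵥ wh q))
    (e i *ᵥ ((al s ^ (l s - 1 - (q.1 : ℕ))) *ᵥ ch q)) with hy'
  have hy'Q : (Pi.single s y' : Fin 3 → Matrix n n K) ∈ Q := by
    rw [hy', single_sum]
    exact Q.sum_mem fun q _ => h1 _ _ (by have := q.1.2; omega) _ _
  have hy'e : e j * y' * (e i)ᵀ = y' := by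
    rw [hy', Matrix.mul_sum, Matrix.sum_mul]
    refine Finset.sum_congr rfl fun q _ => ?_
    rw [vmv_conj, e_idem h, e_idem h]
  set X : Matrix n n K := y - y' with hX
  have hXe : e j * X * (e i)ᵀ = X := by
    rw [hX, Matrix.mul_sub, Matrix.sub_mul, hy, hy'e]
  have hXg : ∀ u, π (X *ᵥ (g *ᵥ u)) = 0 := by
    intro u
    have e1 : y *ᵥ (g *ᵥ u) = e j *ᵥ (y *ᵥ (g *ᵥ (e i *ᵥ u))) := by
      have e2 : g * e i = (e i)ᵀ * g := (h.eg i).symm
      conv_lhs => rw [← hy]
      rw [mulVec_mulVec, mulVec_mulVec u g, e2, mulVec_mulVec, mulVec_mulVec]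
      simp only [Matrix.mul_assoc]
    have e3 : y' *ᵥ (g *ᵥ u) = ∑ q, ((e i *ᵥ ((al s ^ (l s - 1 - (q.1 : ℕ))) *ᵥ ch q)) ⬝ᵥ
        (g *ᵥ u)) • (e j *ᵥ ((al s ^ (q.1 : ℕ)) *ᵥ wh q)) := by
      rw [hy', sum_mulVec]
      refine Finset.sum_congr rfl fun q _ => ?_
      rw [vecMulVec_mulVec, op_smul_eq_smul]
    have e4 : ∀ q, (e i *ᵥ ((al s ^ (l s - 1 - (q.1 : ℕ))) *ᵥ ch q)) ⬝ᵥ (g *ᵥ u) =
        ((al s ^ (l s - 1 - (q.1 : ℕ))) *ᵥ ch q) ⬝ᵥ (g *ᵥ (e i *ᵥ u)) := by
      intro q
      have e2 : (e i)ᵀ * g = g * e i := h.eg i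
      rw [RDEnd.dt, mulVec_mulVec, mulVec_mulVec, e2]
    have e5 : π (y *ᵥ (g *ᵥ (e i *ᵥ u)) - ∑ q, (((al s ^ (l s - 1 - (q.1 : ℕ))) *ᵥ ch q) ⬝ᵥ
        (g *ᵥ (e i *ᵥ u))) • ((al s ^ (q.1 : ℕ)) *ᵥ wh q)) = 0 := by
      rw [map_sub, hyb, map_sum, hw, LinearMap.sum_apply, sub_eq_zero]
      refine Finset.sum_congr rfl fun q _ => ?_
      rw [LinearMap.smulRight_apply, map_smul, pi_pow h, hwh, hc, ← hch, ← pi_pow h, h.cr.form]
    have e6 := ker_e h j e5
    rw [hX, sub_mulVec, map_sub, e1, e3, ← map_sub]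
    have e7 : e j *ᵥ (y *ᵥ (g *ᵥ (e i *ᵥ u)) - ∑ q, (((al s ^ (l s - 1 - (q.1 : ℕ))) *ᵥ ch q) ⬝ᵥ
        (g *ᵥ (e i *ᵥ u))) • ((al s ^ (q.1 : ℕ)) *ᵥ wh q)) =
        e j *ᵥ (y *ᵥ (g *ᵥ (e i *ᵥ u))) - ∑ q, ((e i *ᵥ ((al s ^ (l s - 1 - (q.1 : ℕ))) *ᵥ ch q)) ⬝ᵥ
        (g *ᵥ u)) • (e j *ᵥ ((al s ^ (q.1 : ℕ)) *ᵥ wh q)) := by
      rw [mulVec_sub, mulVec_sum]
      congr 1
      refine Finset.sum_congr rfl fun q _ => ?_
      rw [mulVec_smul, e4]
    rw [e7] at e6
    exact e6
  -- the radical part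
  obtain ⟨σ, hσ⟩ := LinearMap.exists_rightInverse_of_surjective π
    (LinearMap.range_eq_top.2 h.cr.onto)
  have hσ' : ∀ v, π (σ v) = v := fun v => LinearMap.congr_fun hσ v
  set S : Matrix n n K := LinearMap.toMatrix' (σ ∘ₗ π) with hS
  have hSv : ∀ v, S *ᵥ v = σ (π v) := by
    intro v
    rw [hS, LinearMap.toMatrix'_mulVec]
    rfl
  have hD1 : ∀ v, π ((X - S * X) *ᵥ v) = 0 := by
    intro v
    rw [sub_mulVec, ← mulVec_mulVec, hSv, map_sub, hσ', sub_self]
  have hD2 : ∀ v, π ((S * X)ᵀ *ᵥ v) = 0 := by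
    intro v
    rw [hker]
    have e1 : S * X * g = 0 := by
      apply Matrix.ext_of_mulVec_single
      intro t
      rw [← mulVec_mulVec, ← mulVec_mulVec, hSv, hXg, map_zero, zero_mulVec]
    have e2 : g * (S * X)ᵀ = 0 := by
      have := congrArg transpose e1
      rwa [transpose_mul, hgt, transpose_zero] at this
    rw [mulVec_mulVec, e2, zero_mulVec]
  have hXsum : X = e j * (X - S * X) * (e i)ᵀ + e j * (S * X) * (e i)ᵀ := by
    rw [← Matrix.add_mul, ← Matrix.mul_add, sub_add_cancel, hXe]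
  have hP1 : (Pi.single s (e j * (X - S * X) * (e i)ᵀ) : Fin 3 → Matrix n n K) ∈ Q := by
    rw [sum_cols (X - S * X), Matrix.mul_sum, Matrix.sum_mul, single_sum]
    refine Q.sum_mem fun t _ => ?_
    rw [vmv_conj]
    exact h2 _ (hD1 _) _
  have hP2 : (Pi.single s (e j * (S * X) * (e i)ᵀ) : Fin 3 → Matrix n n K) ∈ Q := by
    have e1 : S * X = ∑ t, vecMulVec (Pi.single t 1) ((S * X)ᵀ *ᵥ Pi.single t 1) := by
      have := congrArg transpose (sum_cols (S * X)ᵀ)
      rw [transpose_transpose, transpose_sum] at this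
      rw [this]
      refine Finset.sum_congr rfl fun t _ => ?_
      rw [transpose_vecMulVec]
      conv_rhs => rw [← this]
    rw [e1, Matrix.mul_sum, Matrix.sum_mul, single_sum]
    refine Q.sum_mem fun t _ => ?_
    rw [vmv_conj]
    exact h3 _ (hD2 _) _
  have hXQ : (Pi.single s X : Fin 3 → Matrix n n K) ∈ Q := by
    rw [hXsum, Pi.single_add]
    exact Q.add_mem hP1 hP2
  have : y = X + y' := by rw [hX, sub_add_cancel]
  rw [this, Pi.single_add]
  exact Q.add_mem hXQ hy'Q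

theorem rel_of_RS {y : Fin 3 → Matrix n n K} {z0 : Matrix n n K} {μ0 : Fin 3 → Matrix n n K}
    (h : RS arm J B N W F p T Ψ π e y z0 μ0) : y ∈ RDEnd.Rel arm J N W F p π T 0 Ψ := by
  obtain ⟨w, z, μ, h1, h2, h3, h4, ⟨zb, h5, h6⟩, h7, h8⟩ := h
  exact ⟨w, z, zb, h1, h2, h3, h5, h6⟩

/-- **RD4** from the first half of `RD.halves` -/
theorem offdiag_of [CharZero K] (h : Fr k arm J B N W F G p al tau β T Ψ D π e lam l TT)
    {i j : m} (hij : i ≠ j)
    (hh : ∃ S : Set K, S.Finite ∧ ∀ c ∉ S, ∀ (x : Fin 3 → Matrix n n K)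
      (b kk : Matrix n n K),
      Dec (pᵀ * J * p) π e i j (fun r => al r) (fun r => c • al r) x b kk →
      RS arm J B N W F p T Ψ π e x (-b) (fun r => kk * al r) ∧
      RS arm J B N W F p T Ψ π e (fun r => (x r)ᵀ) kk (fun r => -(b * al r)))
    (s : Fin 3) (y : Matrix n n K) (hy : e j * y * (e i)ᵀ = y)
    (hf : Fil (pᵀ * J * p) π Ψ s y) :
    (Pi.single s y : Fin 3 → Matrix n n K) ∈ RDEnd.Rel arm J N W F p π T 0 Ψ := by
  obtain ⟨S, hS, hh⟩ := hh
  obtain ⟨h1, h2, h3⟩ := prods h hij ⟨S, hS, fun c hc x b kk hx => rel_of_RS (hh c hc x b kk hx).1⟩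
  exact fil_decomp h hy hf _ (h1 s) (h2 s) (h3 s)

end main

end Crest.Agent.R172.RDoffB
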