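import Crest.Agent.R172.RDP
import Crest.Agent.R172.FilZ
import Crest.Agent.R172.BConn895

/-!
Row 172 (S0260), (T0), any radical, any `D`: `second` of the skeleton `RD0`/`RDP`.
-/

set_option autoImplicit false
set_option linter.unusedSectionVars false

namespace Crest.Agent.R172.RDs471

open Matrix Module Crest.Agent.R172.FO Crest.Agent.R172.FrmB Crest.Agent.R172.RD
open Crest.Agent.R172.ZFr (CF Lifts ZF)
open Crest.Agent.R172.FilZ

section Alg

variable {n : Type*} [Fintype n] [DecidableEq n] {K : Type*} [Field K]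

/-- the block computation -/
theorem blocks {P Q g D b kk b' x y zY z dy : Matrix n n K}
    (PP : P * P = P) (QQ : Q * Q = Q) (hPQ : P * Q = 0) (hQP : Q * P = 0)
    (hgP : Pᵀ * g = g * P) (hgQ : Qᵀ * g = g * Q)
    (hx : Q * x * Pᵀ = x) (hy : Q * y * Pᵀ = y) (hb : P * b * Q = b) (hk : Q * kk * P = kk)
    (hb' : P * b' * Q = b') (DP : P * D = D * P) (DQ : Q * D = D * Q)
    (hdy : Q * dy * Pᵀ = dy) (hzY : zY * P = P * zY * P - kk) (hzP : z * P = P * z * P)
    (hzQ : z * Q = Q * z * Q - b') :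
    dy + (D + (b + kk)) * y + y * (D + (b + kk))ᵀ + y * zYᵀ - (x - xᵀ) * g * y + (x - xᵀ) * zᵀ =
      (b * y + xᵀ * g * y + xᵀ * b'ᵀ) +
      (Q * (dy + (D + (b + kk)) * y + y * (D + (b + kk))ᵀ) * Pᵀ + Q * (y * zYᵀ) * Pᵀ +
        Q * (x * zᵀ) * Pᵀ) + -(P * (xᵀ * zᵀ) * Qᵀ) := by
  have Qy : Q * y = y := by
    rw [← hy]; simp only [← Matrix.mul_assoc, QQ]
  have Qx : Q * x = x := by
    rw [← hx]; simp only [← Matrix.mul_assoc, QQ]
  have PTPT : Pᵀ * Pᵀ = Pᵀ := by rw [← transpose_mul, PP]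
  have QTQT : Qᵀ * Qᵀ = Qᵀ := by rw [← transpose_mul, QQ]
  have yP : y * Pᵀ = y := by
    rw [← hy]; simp only [Matrix.mul_assoc, PTPT]
  have xP : x * Pᵀ = x := by
    rw [← hx]; simp only [Matrix.mul_assoc, PTPT]
  have PxT : P * xᵀ = xᵀ := by
    have := congrArg transpose xP
    rwa [transpose_mul, transpose_transpose] at this
  have xTQ : xᵀ * Qᵀ = xᵀ := by
    rw [← transpose_mul, Qx]
  have bP : b * P = 0 := by
    rw [← hb, Matrix.mul_assoc, hQP, Matrix.mul_zero]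
  have Qb : Q * b = 0 := by
    rw [← hb, ← Matrix.mul_assoc, ← Matrix.mul_assoc, hQP, Matrix.zero_mul, Matrix.zero_mul]
  have kQ : kk * Q = 0 := by
    rw [← hk, Matrix.mul_assoc, hPQ, Matrix.mul_zero]
  have Pk : P * kk = 0 := by
    rw [← hk, ← Matrix.mul_assoc, ← Matrix.mul_assoc, hPQ, Matrix.zero_mul, Matrix.zero_mul]
  have a1 : kk * y = 0 := by rw [← Qy, ← Matrix.mul_assoc, kQ, Matrix.zero_mul]
  have a2 : y * bᵀ = 0 := by
    rw [← yP, Matrix.mul_assoc, ← transpose_mul, bP, transpose_zero, Matrix.mul_zero]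
  have a3 : y * zYᵀ = y * (zYᵀ * Pᵀ) - y * kkᵀ := by
    have h1 := congrArg transpose hzY
    rw [transpose_mul, transpose_sub, transpose_mul, transpose_mul] at h1
    calc y * zYᵀ = y * (Pᵀ * zYᵀ) := by rw [← Matrix.mul_assoc, yP]
      _ = y * Pᵀ * (zYᵀ * Pᵀ) - y * kkᵀ := by rw [h1, Matrix.mul_sub, Matrix.mul_assoc]
      _ = _ := by rw [yP]
  have a4 : x * (g * y) = 0 := by
    calc x * (g * y) = x * (Pᵀ * (g * (Q * y))) := by rw [Qy, ← Matrix.mul_assoc x Pᵀ (g * y), xP]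
      _ = x * (Pᵀ * g * (Q * y)) := by simp only [Matrix.mul_assoc]
      _ = x * (g * (P * Q) * y) := by rw [hgP]; simp only [Matrix.mul_assoc]
      _ = 0 := by rw [hPQ]; simp
  have a5 : x * zᵀ = x * (zᵀ * Pᵀ) := by
    have h1 := congrArg transpose hzP
    rw [transpose_mul, transpose_mul, transpose_mul] at h1
    calc x * zᵀ = x * (Pᵀ * zᵀ) := by rw [← Matrix.mul_assoc, xP]
      _ = x * Pᵀ * (zᵀ * Pᵀ) := by rw [h1, Matrix.mul_assoc]
      _ = _ := by rw [xP]
  have a6 : xᵀ * zᵀ = xᵀ * (zᵀ * Qᵀ) - xᵀ * b'ᵀ := by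
    have h1 := congrArg transpose hzQ
    rw [transpose_mul, transpose_sub, transpose_mul, transpose_mul] at h1
    calc xᵀ * zᵀ = xᵀ * (Qᵀ * zᵀ) := by rw [← Matrix.mul_assoc, xTQ]
      _ = xᵀ * Qᵀ * (zᵀ * Qᵀ) - xᵀ * b'ᵀ := by rw [h1, Matrix.mul_sub, Matrix.mul_assoc]
      _ = _ := by rw [xTQ]
  have a7 : Q * (dy * Pᵀ) = dy := by rw [← Matrix.mul_assoc, hdy]
  have a8 : Q * (D * y) = D * y := by rw [← Matrix.mul_assoc, DQ, Matrix.mul_assoc, Qy]
  have a9 : Q * (b * y) = 0 := by rw [← Matrix.mul_assoc, Qb, Matrix.zero_mul]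
  have a10 : y * (Dᵀ * Pᵀ) = y * Dᵀ := by
    rw [← transpose_mul, DP, transpose_mul, ← Matrix.mul_assoc, yP]
  have a11 : Q * (y * Dᵀ) = y * Dᵀ := by rw [← Matrix.mul_assoc, Qy]
  have a12 : y * (bᵀ * Pᵀ) = 0 := by rw [← Matrix.mul_assoc, a2, Matrix.zero_mul]
  have a13 : kkᵀ * Pᵀ = 0 := by rw [← transpose_mul, Pk, transpose_zero]
  have a14 : Q * (y * (zYᵀ * Pᵀ)) = y * (zYᵀ * Pᵀ) := by rw [← Matrix.mul_assoc, Qy]
  have a15 : Q * (x * (zᵀ * Pᵀ)) = x * (zᵀ * Pᵀ) := by rw [← Matrix.mul_assoc, Qx]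
  have a16 : P * (xᵀ * (zᵀ * Qᵀ)) = xᵀ * (zᵀ * Qᵀ) := by rw [← Matrix.mul_assoc, PxT]
  simp only [Matrix.add_mul, Matrix.mul_add, Matrix.sub_mul, Matrix.mul_sub, transpose_add,
    Matrix.mul_assoc, a7, yP, a8, a9, a10, a11, a12, a13, a14, a15, a16, a1, a2, a4,
    Matrix.mul_zero, Matrix.zero_mul]
  rw [a3, a5, a6]
  abel

end Alg

section Frame

variable {ι : Type*} [Fintype ι] [DecidableEq ι] {δ : Type*} [Fintype δ] [DecidableEq δ]
variable {n : Type*} [Fintype n] [DecidableEq n]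
variable {k K : Type*} [Field k] [Field K] [Algebra k K]
variable {M : Type*} [AddCommGroup M] [Module K M]
variable {m : Type*} [Fintype m] [DecidableEq m]
variable {arm : δ → Fin 3} {J : Matrix ι ι K} {B : Matrix δ δ K}
  {N W : Submodule K (Matrix ι δ K)} {F G : Matrix ι δ K} {p : Matrix ι n K}
  {al : Fin 3 → Matrix n n K} {tau : Matrix n n K}
  {β : LinearMap.BilinForm K M} {T : Module.End K M →ₗ[K] Module.End K M}
  {Ψ : Fin 3 → Module.End K M} {D : Module.End K M} {π : (n → K) →ₗ[K] M}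
  {e : m → Matrix n n K} {lam : m → K} {l : Fin 3 → ℕ} {TT : Set k}

/-- the off-diagonal part, one block -/
theorem off_blk (idem : ∀ i, e i * e i = e i) (orth : ∀ i j, i ≠ j → e i * e j = 0)
    {A C : Matrix n n K} (h : off e A = C) {i j : m} (hij : i ≠ j) :
    e i * A * e j = e i * C * e j := by
  rw [← h, off, Matrix.mul_sub, Matrix.sub_mul, Matrix.mul_sum, Matrix.sum_mul]
  have : ∑ l, e i * (e l * A * e l) * e j = 0 := by
    refine Finset.sum_eq_zero fun l _ => ?_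
    by_cases hl : l = j
    · subst hl
      rw [← Matrix.mul_assoc, ← Matrix.mul_assoc, orth i l hij]
      simp
    · rw [Matrix.mul_assoc (e i), Matrix.mul_assoc (e l * A), orth l j hl]
      simp
  rw [this, sub_zero]

/-- the columns of block `j` -/
theorem off_col (idem : ∀ i, e i * e i = e i) (orth : ∀ i j, i ≠ j → e i * e j = 0)
    {A C : Matrix n n K} (h : off e A = C) (j : m) : A * e j = e j * A * e j + C * e j := by
  rw [← h, off, Matrix.sub_mul, Matrix.sum_mul]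
  have : ∑ l, e l * A * e l * e j = e j * A * e j := by
    rw [Finset.sum_eq_single j]
    · rw [Matrix.mul_assoc, idem]
    · intro l _ hl
      rw [Matrix.mul_assoc, orth l j hl, Matrix.mul_zero]
    · intro hj; exact absurd (Finset.mem_univ j) hj
  rw [this]; abel

theorem off_sub (A A' : Matrix n n K) : off e (A - A') = off e A - off e A' := by
  unfold off
  simp only [Matrix.mul_sub, Matrix.sub_mul, Finset.sum_sub_distrib]
  abel

/-- off-diagonal blocks of the connection are radical valued -/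
theorem off_zero (h : Fr k arm J B N W F G p al tau β T Ψ D π e lam l TT)
    {d : Derivation k K K} {θ : Matrix n n K} (hθ : p.map d = p * θ)
    {c : Fin 3 → Matrix n n K} (hc : ∀ r, (Phi arm J B F r).map d * p = p * c r)
    (hcz : ∀ i j, i ≠ j → ∀ r, (pᵀ * J * p) * (e i * c r * e j) = 0) :
    ∀ i j, i ≠ j → (pᵀ * J * p) * (e i * θ * e j) = 0 := by
  intro i j hij
  have hf : CF β T π (pᵀ * J * p) := cf h.cr
  have hgd := ZFr.g_der h.ctx.data hθ
  have hge : ∀ i, (pᵀ * J * p) * e i = (e i)ᵀ * (pᵀ * J * p) := fun i => (h.eg i).symm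
  have hder : ∀ r, (pᵀ * J * p) * (θ * al r) =
      (pᵀ * J * p) * (c r + al r * θ - (al r).map d) := by
    intro r
    have h1 := congrArg (fun A : Matrix ι n K => A.map d) (h.ctx.hal r)
    simp only [map_mul_der] at h1
    rw [hc, hθ, ← Matrix.mul_assoc, h.ctx.hal, Matrix.mul_assoc] at h1
    have h2 : p * (θ * al r) = p * (c r + al r * θ - (al r).map d) := by
      rw [Matrix.mul_sub, Matrix.mul_add, h1]
      simp only [Matrix.mul_assoc]
      abel
    rw [Matrix.mul_assoc (pᵀ * J), h2, ← Matrix.mul_assoc]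
  set g := pᵀ * J * p with hgdef
  have hα : ∀ r, e i * (al r).map d * e j = 0 := by
    intro r
    have h1 : e i * al r * e j = 0 := by
      rw [h.eal, Matrix.mul_assoc, h.orth i j hij, Matrix.mul_zero]
    have h2 := congrArg (fun A : Matrix n n K => A.map d) h1
    simp only [map_mul_der, h.eC, Matrix.mul_zero, Matrix.zero_mul, add_zero, zero_add] at h2
    rw [h2]
    ext a b; simp
  set Z := e i * θ * e j with hZ
  have hgij : (e i)ᵀ * (g.map d) * e j = 0 := by
    have h1 : (e i)ᵀ * g * e j = 0 := by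
      rw [h.eg, Matrix.mul_assoc, h.orth i j hij, Matrix.mul_zero]
    have h2 := congrArg (fun A : Matrix n n K => A.map d) h1
    simp only [map_mul_der, map_transpose_der, h.eC, transpose_zero, Matrix.mul_zero,
      Matrix.zero_mul, add_zero, zero_add] at h2
    rw [h2]
    ext a b; simp
  have hgZ : g * Z = -((e i)ᵀ * θᵀ * (e j)ᵀ) * g := by
    have h1 : g * Z = (e i)ᵀ * (g * θ) * e j := by
      rw [hZ, ← Matrix.mul_assoc, ← Matrix.mul_assoc, hge]
      simp only [Matrix.mul_assoc]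
    have h2 : g * θ = g.map d - θᵀ * g := by rw [hgd]; abel
    rw [h1, h2, Matrix.mul_sub, Matrix.sub_mul, hgij, zero_sub, Matrix.neg_mul]
    congr 1
    rw [Matrix.mul_assoc, Matrix.mul_assoc, hge]
    simp only [Matrix.mul_assoc]
  obtain ⟨A, hA⟩ := hf.exists_lift hgZ
  have hcomm : ∀ r, g * (Z * al r - al r * Z) = 0 := by
    intro r
    have h1 : g * (Z * al r) = (e i)ᵀ * (g * (θ * al r)) * e j := by
      rw [hZ]
      calc g * (e i * θ * e j * al r) = (g * e i) * θ * (e j * al r) := by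
            simp only [Matrix.mul_assoc]
        _ = _ := by rw [hge, h.eal]; simp only [Matrix.mul_assoc]
    have h2 : (e i)ᵀ * (g * (c r + al r * θ - (al r).map d)) * e j =
        g * (e i * c r * e j) + g * (al r * Z) - g * (e i * (al r).map d * e j) := by
      have h3 : ∀ X : Matrix n n K, (e i)ᵀ * (g * X) * e j = g * (e i * X * e j) := by
        intro X
        rw [← Matrix.mul_assoc, ← hge]
        simp only [Matrix.mul_assoc]
      rw [h3, Matrix.mul_sub, Matrix.mul_add, Matrix.sub_mul, Matrix.add_mul, Matrix.mul_sub,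
        Matrix.mul_add, hZ]
      congr 3
      rw [← Matrix.mul_assoc (e i), h.eal]
      simp only [Matrix.mul_assoc]
    rw [Matrix.mul_sub, h1, hder, h2, hcz i j hij, hα, Matrix.mul_zero]
    abel
  have hAc : ∀ s x, A (Ψ s x) = Ψ s (A x) := by
    intro s x
    obtain ⟨u, rfl⟩ := hf.surj x
    rw [h.cr.op, ← hA, ← hA, h.cr.op, ← sub_eq_zero, ← map_sub, hf.ker, Matrix.mulVec_mulVec,
      Matrix.mulVec_mulVec, ← Matrix.sub_mulVec, Matrix.mulVec_mulVec, hcomm, Matrix.zero_mulVec]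
  have hhom := h.hom 0 (Or.inr rfl) A (by
    intro s x
    simp only [map_zero, zero_smul, add_zero, Module.End.one_apply]
    exact hAc s x) j i (Ne.symm hij)
  apply Matrix.ext_of_mulVec_single
  intro a
  rw [Matrix.zero_mulVec, ← Matrix.mulVec_mulVec]
  set u : n → K := Pi.single a 1
  refine dotProduct_eq_zero _ fun w => ?_
  rw [dotProduct_comm, ← hf.form]
  have e1 : Z *ᵥ u = e i *ᵥ (Z *ᵥ (e j *ᵥ u)) := by
    rw [Matrix.mulVec_mulVec, Matrix.mulVec_mulVec]
    congr 1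
    rw [hZ, ← Matrix.mul_assoc, ← Matrix.mul_assoc, h.idem, Matrix.mul_assoc (e i * θ), h.idem]
  have e2 : β (π w) (π (e i *ᵥ (Z *ᵥ (e j *ᵥ u)))) =
      β (π (e i *ᵥ w)) (π (Z *ᵥ (e j *ᵥ u))) := by
    rw [hf.form, hf.form, RDEnd.dt, Matrix.mulVec_mulVec, Matrix.mulVec_mulVec (M := (e i)ᵀ),
      h.eg]
  rw [e1, e2, hf.adj.symm, hA]
  exact hhom u w

variable (h : Fr k arm J B N W F G p al tau β T Ψ D π e lam l TT)
include h

theorem kill' : ∃ m0 : ℕ, ∀ w : List (Fin 3), w.length = m0 → ∀ y : Matrix n n K,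
    (pᵀ * J * p) * y = 0 → p * ((w.map al).prod * y) = 0 := by
  obtain ⟨m0, hm⟩ := h.kill
  refine ⟨m0, fun w hw y hy => ?_⟩
  have h1 : (w.map al).prod * y = 0 := by
    apply Matrix.ext_of_mulVec_single
    intro a
    rw [Matrix.zero_mulVec, ← Matrix.mulVec_mulVec]
    apply hm w hw
    rw [(cf h.cr).ker, Matrix.mulVec_mulVec, hy, Matrix.zero_mulVec]
  rw [h1, Matrix.mul_zero]

theorem g_ker {b : Matrix n n K} (hb : ∀ u, π (b *ᵥ u) = 0) : (pᵀ * J * p) * b = 0 := by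
  apply Matrix.ext_of_mulVec_single
  intro a
  rw [Matrix.zero_mulVec, ← Matrix.mulVec_mulVec]
  exact ((cf h.cr).ker _).1 (hb _)

/-- **second** -/
theorem second {i j : m} (hij : i ≠ j)
    (hod : ∀ i j : m, i ≠ j → OffP arm J N W F p T Ψ π e i j) :
    SecondP arm J B N W F p al T Ψ π e i j := by
  intro c c' hc hc' x y b kk b' kk' hx hy hx1 hx2 hy1
  obtain ⟨w1, z1, μ1, W1, N1, V1, U1, ZF1, O1, M1⟩ := hx1
  obtain ⟨w2, z2, μ2, W2, N2, V2, U2, ZF2, O2, M2⟩ := hx2
  obtain ⟨w, z, μ, Ww, Nw, Vw, Uw, ZFw, Ow, Mw⟩ := hy1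
  have hD := h.ctx.data
  have hal := h.ctx.hal
  obtain ⟨ρ, hρ⟩ := h.ctx.perf
  obtain ⟨m0, hm0⟩ := h.wk
  have hf : CF β T π (pᵀ * J * p) := cf h.cr
  have hΨ : ∀ r, Lifts π (al r) (Ψ r) := fun r u => (h.cr.op r u).symm
  -- the direction `Y`
  have hQ : Q3 arm J B N W F p (fun r => x r - (x r)ᵀ) (w1 - w2) (z1 - z2) := by
    refine ⟨W.sub_mem W1 W2, ?_, ?_, fun r => ⟨μ1 r - μ2 r, ?_⟩⟩
    · rw [io_sub]
      have := N.sub_mem N1 N2
      have e1 : io arm J F p (fun r => x r) - io arm J F p (fun r => (x r)ᵀ) - (w1 - w2) =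
          (io arm J F p x - w1) - (io arm J F p (fun r => (x r)ᵀ) - w2) := by
        abel
      rw [e1]; exact this
    · rw [transpose_sub, Matrix.sub_mul, Matrix.sub_mul, V1, V2, Matrix.mul_sub]
    · rw [Matrix.sub_mul, Matrix.sub_mul, Matrix.sub_mul, U1, U2, Matrix.mul_sub]
  have hYs : ∀ r, (x r - (x r)ᵀ)ᵀ = -(x r - (x r)ᵀ) := by
    intro r; rw [transpose_sub, transpose_transpose, neg_sub]
  obtain ⟨d, hd, hdF⟩ := exists_D hD h.vt hYs hQ
  obtain ⟨θ, hθ⟩ := persist_Q hD hal hρ hm0 hQ hdF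
  -- the variation of `Φ`
  have hc0 : ∀ r, (Phi arm J B F r).map d * p = p * ((μ1 r - μ2 r) + al r * (z1 - z2)) := by
    intro r
    have e1 : (Phi arm J B F r).map d * p =
        (w1 - w2) * E K arm r * B * (Fᵀ * J * p) +
          F * E K arm r * B * ((w1 - w2)ᵀ * J * p) := by
      unfold Phi FO.M
      rw [map_mul_der, map_mul_der, map_mul_der, map_mul_der, hD.J_const, hD.B_const, E_map_der,
        map_transpose_der, hdF]
      simp only [Matrix.mul_zero, Matrix.add_mul, add_zero, Matrix.mul_assoc]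
    have e2 : F * E K arm r * B * (Fᵀ * J * p * (z1 - z2)) = p * (al r * (z1 - z2)) := by
      have h1 := hal r
      unfold Phi FO.M at h1
      have h2 := congrArg (fun A => A * (z1 - z2)) h1
      simpa only [Matrix.mul_assoc] using h2
    rw [e1, hQ.val, e2, Matrix.mul_add]
    congr 1
    rw [Matrix.sub_mul, Matrix.sub_mul, Matrix.sub_mul, U1, U2, Matrix.mul_sub]
  have hOz : off e (z1 - z2) = -(b + kk) := by
    rw [off_sub, O1, O2]; abel
  have hOm : ∀ r, off e (μ1 r - μ2 r) = (b + kk) * al r := by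
    intro r
    rw [off_sub, M1, M2]
    change kk * al r - -(b * al r) = _
    rw [Matrix.add_mul, sub_neg_eq_add, add_comm]
  have hbe : ∀ i j, i ≠ j → ∀ r, e i * ((b + kk) * al r - al r * (b + kk)) * e j =
      e i * ((μ1 r - μ2 r) + al r * (z1 - z2)) * e j := by
    intro i j hij r
    have A1 := off_blk h.idem h.orth (hOm r) hij
    have A2 : e i * (al r * (z1 - z2)) * e j = -(e i * (al r * (b + kk)) * e j) := by
      have A3 : ∀ X : Matrix n n K, e i * (al r * X) * e j = al r * (e i * X * e j) := by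
        intro X
        rw [← Matrix.mul_assoc (e i), h.eal]
        simp only [Matrix.mul_assoc]
      rw [A3, A3, off_blk h.idem h.orth hOz hij, Matrix.mul_neg, Matrix.neg_mul, Matrix.mul_neg]
    have A4 : e i * ((μ1 r - μ2 r) + al r * (z1 - z2)) * e j =
        e i * (μ1 r - μ2 r) * e j + e i * (al r * (z1 - z2)) * e j := by
      rw [Matrix.mul_add, Matrix.add_mul]
    rw [A4, A1, A2, Matrix.mul_sub (e i) ((b + kk) * al r), Matrix.sub_mul, sub_eq_add_neg]
  have hbk : ∀ u, π ((b + kk) *ᵥ u) = 0 := by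
    intro u; rw [Matrix.add_mulVec, map_add, hx.rb, hx.rk, add_zero]
  have hgb : (pᵀ * J * p) * (b + kk) = 0 := g_ker h hbk
  have hcz : ∀ i j, i ≠ j → ∀ r,
      (pᵀ * J * p) * (e i * ((μ1 r - μ2 r) + al r * (z1 - z2)) * e j) = 0 := by
    intro i j hij r
    rw [← hbe i j hij r]
    have h2 : (pᵀ * J * p) * (al r * (b + kk)) = 0 := by
      apply g_ker h
      intro u
      rw [← Matrix.mulVec_mulVec, ← h.cr.op, hbk, map_zero]
    have h1 : (pᵀ * J * p) * ((b + kk) * al r - al r * (b + kk)) = 0 := by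
      rw [Matrix.mul_sub, h2, ← Matrix.mul_assoc _ (b + kk), hgb, Matrix.zero_mul, sub_zero]
    rw [← Matrix.mul_assoc, ← Matrix.mul_assoc, ← h.eg, Matrix.mul_assoc (e i)ᵀ (pᵀ * J * p), h1,
      Matrix.mul_zero, Matrix.zero_mul]
  have hoz := off_zero h hθ hc0 hcz
  obtain ⟨mk, hmk⟩ := kill' h
  obtain ⟨D0, hD0, hp0⟩ := BConn.exists_conn hal hρ h.eal h.idem h.orth h.sumE
    (fun i => h.eC i d) (fun i => (h.eg i).symm) hθ hc0 hgb hbe hoz hmk
  -- the second derivative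
  have hQy : Q3 arm J B N W F p y w z := ⟨Ww, Nw, Vw, fun r => ⟨μ r, Uw r⟩⟩
  have h2 := FrmB.second hD hQ hd hdF hp0 hQy
  have hZY : z1 - z2 ∈ ZF T π Ψ := Submodule.sub_mem _ ZF1 ZF2
  have h3 := ZFr.second hD hf hal hΨ hQ.val hdF hp0 hZY ZFw
  obtain ⟨zb, hzb, hzZ⟩ := h3
  have hrel := RDEnd.mem_Rel_of_Q3 (π := π) (T := T) (D := 0) (Ψ := Ψ) h2 hzb hzZ
  -- blocks
  have hgd := ZFr.g_der hD hp0
  have hald := ZFr.al_der hD hal hQ.val hdF hp0
  have hxf : ∀ s, Fil (pᵀ * J * p) π Ψ s (x s) := fun s =>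
    Fil.of_exact h.cr hc (by have := hx.arm s; rwa [Matrix.smul_mul] at this)
  have hyf : ∀ s, Fil (pᵀ * J * p) π Ψ s (y s) := fun s =>
    Fil.of_exact h.cr hc' (by have := hy.arm s; rwa [Matrix.smul_mul] at this)
  have hxTf : ∀ s, Fil (pᵀ * J * p) π Ψ s (x s)ᵀ := fun s =>
    Fil.of_exact_transpose h.cr hc (by have := hx.arm s; rwa [Matrix.smul_mul] at this) hD.J_symm
  set g := pᵀ * J * p with hg
  have hP1 : ∀ s, (Pi.single s (e j * ((y s).map d + (D0 + (b + kk)) * y s +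
      y s * (D0 + (b + kk))ᵀ) * (e i)ᵀ + e j * (y s * (z1 - z2)ᵀ) * (e i)ᵀ +
      e j * (x s * zᵀ) * (e i)ᵀ) : Fin 3 → Matrix n n K) ∈
      RDEnd.Rel arm J N W F p π T 0 Ψ := by
    intro s
    refine hod i j hij s _ ?_ ?_
    · have e1 : ∀ X : Matrix n n K, e j * (e j * X * (e i)ᵀ) * (e i)ᵀ = e j * X * (e i)ᵀ := by
        intro X
        rw [← Matrix.mul_assoc, ← Matrix.mul_assoc, h.idem, Matrix.mul_assoc (e j * X),
          ← transpose_mul, h.idem]
      rw [Matrix.mul_add, Matrix.add_mul, Matrix.mul_add, Matrix.add_mul, e1, e1, e1]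
    · refine Fil.add (Fil.add ?_ ?_) ?_
      · exact Fil.cut h.cr (h.eg j) (h.eal j s) (h.eg i) (h.eal i s)
          (Fil.nab h.cr hgd hald hZY (hyf s))
      · exact Fil.cut h.cr (h.eg j) (h.eal j s) (h.eg i) (h.eal i s)
          (Fil.mul_ZF hf hZY (hyf s))
      · exact Fil.cut h.cr (h.eg j) (h.eal j s) (h.eg i) (h.eal i s)
          (Fil.mul_ZF hf ZFw (hxf s))
  have hP2 : ∀ s, (Pi.single s (-(e i * ((x s)ᵀ * zᵀ) * (e j)ᵀ)) : Fin 3 → Matrix n n K) ∈
      RDEnd.Rel arm J N W F p π T 0 Ψ := by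
    intro s
    refine hod j i (Ne.symm hij) s _ ?_ ?_
    · have e1 : ∀ X : Matrix n n K, e i * (e i * X * (e j)ᵀ) * (e j)ᵀ = e i * X * (e j)ᵀ := by
        intro X
        rw [← Matrix.mul_assoc, ← Matrix.mul_assoc, h.idem, Matrix.mul_assoc (e i * X),
          ← transpose_mul, h.idem]
      rw [Matrix.mul_neg, Matrix.neg_mul, e1]
    · exact Fil.neg (Fil.cut h.cr (h.eg i) (h.eal i s) (h.eg j) (h.eal j s)
        (Fil.mul_ZF hf ZFw (hxTf s)))
  have hsum : (fun r => b * y r + (x r)ᵀ * g * y r + (x r)ᵀ * b'ᵀ) =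
      (fun r => (y r).map d + (D0 + (b + kk)) * y r + y r * (D0 + (b + kk))ᵀ +
        y r * (z1 - z2)ᵀ - (x r - (x r)ᵀ) * g * y r + (x r - (x r)ᵀ) * zᵀ) -
      ∑ s, (Pi.single s (e j * ((y s).map d + (D0 + (b + kk)) * y s +
      y s * (D0 + (b + kk))ᵀ) * (e i)ᵀ + e j * (y s * (z1 - z2)ᵀ) * (e i)ᵀ +
      e j * (x s * zᵀ) * (e i)ᵀ) : Fin 3 → Matrix n n K) -
      ∑ s, (Pi.single s (-(e i * ((x s)ᵀ * zᵀ) * (e j)ᵀ)) : Fin 3 → Matrix n n K) := by
    funext r
    rw [Pi.sub_apply, Pi.sub_apply, Finset.sum_apply, Finset.sum_apply, Finset.sum_pi_single,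
      Finset.sum_pi_single, if_pos (Finset.mem_univ r), if_pos (Finset.mem_univ r)]
    have hzYi : (z1 - z2) * e i = e i * (z1 - z2) * e i - kk := by
      rw [off_col h.idem h.orth hOz i, Matrix.neg_mul, Matrix.add_mul]
      have b1 : b * e i = 0 := by
        rw [← hx.bb, Matrix.mul_assoc, h.orth j i (Ne.symm hij), Matrix.mul_zero]
      have k1 : kk * e i = kk := by
        rw [← hx.bk, Matrix.mul_assoc, h.idem]
      rw [b1, k1]; abel
    have hzi : z * e i = e i * z * e i := by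
      rw [off_col h.idem h.orth Ow i, Matrix.neg_mul]
      have b1 : b' * e i = 0 := by
        rw [← hy.bb, Matrix.mul_assoc, h.orth j i (Ne.symm hij), Matrix.mul_zero]
      rw [b1]; abel
    have hzj : z * e j = e j * z * e j - b' := by
      rw [off_col h.idem h.orth Ow j, Matrix.neg_mul]
      have b1 : b' * e j = b' := by
        rw [← hy.bb, Matrix.mul_assoc, h.idem]
      rw [b1]; abel
    have hdy : e j * (y r).map d * (e i)ᵀ = (y r).map d := by
      have h1 := congrArg (fun A : Matrix n n K => A.map d) (hy.bx r)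
      simpa only [map_mul_der, map_transpose_der, h.eC, transpose_zero, Matrix.mul_zero,
        Matrix.zero_mul, add_zero, zero_add] using h1
    have hblk := blocks (h.idem i) (h.idem j) (h.orth i j hij) (h.orth j i (Ne.symm hij))
      (h.eg i) (h.eg j) (hx.bx r) (hy.bx r) hx.bb hx.bk hy.bb (hD0 i) (hD0 j) hdy hzYi hzi hzj
    rw [hblk]
    abel
  rw [hsum]
  exact Submodule.sub_mem _ (Submodule.sub_mem _ hrel (Submodule.sum_mem _ fun s _ => hP1 s))
    (Submodule.sum_mem _ fun s _ => hP2 s)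

end Frame

end Crest.Agent.R172.RDs471
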