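import Crest.Agent.R172.RDGlue2
import Crest.Agent.R172.RDoff252
import Crest.Agent.R172.RDdiag418
import Crest.Agent.R172.RDfirst195
import Crest.Agent.R172.RDsec471
import Crest.Agent.R172.RDhalves267
import Crest.Agent.R172.RDfr

/-!
Row 172 (S0260): **(T0)** `Ind.InT00`, any radical, any `D`.
-/

set_option autoImplicit false
set_option linter.unusedSectionVars false

namespace Crest.Agent.R172.RD

open Matrix Module TensorProduct Crest.Agent.R172.FO Crest.Agent.R172.FrmB
open Crest.Agent.R172.Core (NS Tame)

theorem five : Five where
  first h _ _ i j hij := RD195.first h hij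
  halves h i j hij hf := RDh267.halves h hij hf
  off h _ _ _ i j hij hh := fun s y hy hf => RDoffB.offdiag_of h hij hh s y hy hf
  second h i j hij ho := RDs471.second h hij ho
  diag h _ _ _ i j hij hh hs := RD418.diag h hij hh hs

/-- **(T0)**: `Ind.InT00`. -/
theorem inT00 : Ind.InT00 := inT00_of_fr RDfr.exFr (falseFr_of_five five)

end Crest.Agent.R172.RD
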