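import Crest.Agent.R172.RDSet
import Crest.Agent.R172.HexU
import Crest.Agent.R172.CoreP3
import Crest.Agent.R172.QBlk2
import Crest.Agent.R172.FrU
import Crest.Agent.R172.RRk

/-!
Row 172, TAME (T0), arbitrary radical, arbitrary `τ`: the universal covers of the eigenblocks of the
core (619's `HexU.exists_fam`) and the total cover (`FrU.ACov`).
-/

set_option autoImplicit false
set_option linter.unusedSectionVars false
set_option maxHeartbeats 800000

namespace Crest.Agent.R172.RDTot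

open Module Matrix LinearMap Crest.AlgebraR.SpinSaturation Crest.Agent.R172.SoGrade
  Crest.Agent.R172.CF
open Crest.Agent.R172.Gen (Jm Ix emb Ent ent)
open Crest.Agent.R172.ThX Crest.Agent.R172.CSys
open Crest.Agent.R172.Core (NS cp BM Tame Pres)
open Crest.Agent.R172.CP (pM PP Nums)
open Crest.Agent.R172.N5 (Ph)

variable {n : ℕ} {a : Fin 3 → Fin n → ℤ} {c : Cfg n a} {K : Type} [Field K] [Algebra ℂ K]
variable {N W : Submodule K (Matrix (Ix n) c.δ K)} {F G : Matrix (Ix n) c.δ K}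
variable {C : St.Core (BV n K) (Ph F)} {τ : Module.End K C.M} {l : Fin 3 → ℕ}

theorem mapsD (τ : Module.End K C.M) (ν : K) :
    ∀ x ∈ τ.maxGenEigenspace ν, τ x ∈ τ.maxGenEigenspace ν :=
  Module.End.mapsTo_maxGenEigenspace_of_comm (Commute.refl τ) ν

/-- the operators on the block `ν` of the core -/
noncomputable def A0 (hl : Nums C τ l) (ν : K) (s : Fin 3) : End K (τ.maxGenEigenspace ν) :=
  (cp C (Ph F s)).restrict (hl.stable ν s)

noncomputable def D0 (τ : Module.End K C.M) (ν : K) : End K (τ.maxGenEigenspace ν) :=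
  τ.restrict (mapsD τ ν)

/-- spectral projectors -/
structure Spec (τ : Module.End K C.M) {m : ℕ} (lam : Fin m → K) (e : Fin m → End K C.M) :
    Prop where
  inj : Function.Injective lam
  mem : ∀ i v, e i v ∈ τ.maxGenEigenspace (lam i)
  fix : ∀ i, ∀ v ∈ τ.maxGenEigenspace (lam i), e i v = v
  zero : ∀ i j, i ≠ j → ∀ v ∈ τ.maxGenEigenspace (lam j), e i v = 0
  sum : ∀ v, ∑ i, e i v = v
  sa : ∀ i v w, BM C (e i v) w = BM C v (e i w)
  comm : ∀ (f : End K C.M), (∀ v, τ (f v) = f (τ v)) → ∀ i v, e i (f v) = f (e i v)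
  ne : ∀ i, τ.maxGenEigenspace (lam i) ≠ ⊥
  all : ∀ ν, τ.maxGenEigenspace ν ≠ ⊥ → ∃ i, lam i = ν

theorem exists_spec [IsAlgClosed K] (hT : TameAt F G C τ) :
    ∃ (m : ℕ) (lam : Fin m → K) (e : Fin m → End K C.M), Spec τ lam e := by
  obtain ⟨m, lam, e, h1, h2, h3, h4, h5, h6, h7, h8, h9⟩ := N5.exists_spec (B := BM C) τ
    (Module.End.iSup_maxGenEigenspace_eq_top τ) hT.sa
  exact ⟨m, lam, e, h1, h2, h3, h4, h5, h6, h7, h8, h9⟩

/-- the family of universal covers -/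
structure Tot (N W : Submodule K (Matrix (Ix n) c.δ K)) (F G : Matrix (Ix n) c.δ K)
    (C : St.Core (BV n K) (Ph F)) (τ : Module.End K C.M) {l : Fin 3 → ℕ} (hl : Nums C τ l)
    {m : ℕ} (lam : Fin m → K) (e : Fin m → End K C.M)
    {X : Fin m → Type} [∀ i, AddCommGroup (X i)] [∀ i, Module K (X i)]
    (A : ∀ i, Fin 3 → End K (X i)) (D : ∀ i, End K (X i))
    (pr : ∀ i, X i →ₗ[K] (τ.maxGenEigenspace (lam i))) (ll : ∀ i, X i →ₗ[K] (Ix n → K))
    (h : ℕ) : Prop where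
  spec : Spec τ lam e
  fin : ∀ i, FiniteDimensional K (X i)
  fam : HexU.Fam (Ph F) (CovI.st (Jm n K) F) (CovI.st (Jm n K) G) (St.Tp (BV n K) (Ph F))
    (CP.pM C) (fun i => A0 hl (lam i)) (fun i => D0 τ (lam i))
    (fun i => (τ.maxGenEigenspace (lam i)).subtype) True 0 0 h A D pr ll

theorem exists_tot [IsAlgClosed K] (hD : FO.Data ℂ c.arm (Jm n K) (c.B K) N W) (hF : F ∈ N ⊓ W)
    (hG : G ∈ N ⊓ W) (hT : TameAt F G C τ) (hl : Nums C τ l) :
    ∃ (m : ℕ) (lam : Fin m → K) (e : Fin m → End K C.M) (X : Fin m → Type)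
      (_ : ∀ i, AddCommGroup (X i)) (_ : ∀ i, Module K (X i))
      (A : ∀ i, Fin 3 → End K (X i)) (D : ∀ i, End K (X i))
      (pr : ∀ i, X i →ₗ[K] (τ.maxGenEigenspace (lam i))) (ll : ∀ i, X i →ₗ[K] (Ix n → K))
      (h : ℕ), Tot N W F G C τ hl lam e A D pr ll h := by
  classical
  obtain ⟨m, lam, e, hsp⟩ := exists_spec hT
  have hpen := CovI.pen hD hF hG
  have hsa : ∀ s, St.Sa (BV n K) (Ph F s) := N5.Ph_sa hD hF
  have hB : BV n K = DerG.BJ (Jm n K) := BV_eq
  have hPs : ∀ s v, MM (pU c K) (adjU c K) (Matrix.toLin' F) (Matrix.toLin' G) s v =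
      CovI.lo c.arm (c.B K) F s (CovI.st (Jm n K) G v) := by
    intro s v; rw [RDSet.Ps_eq]; rfl
  have hPh : ∀ s v, Ph F s v = CovI.lo c.arm (c.B K) F s (CovI.st (Jm n K) F v) := by
    intro s v; rw [RDSet.Ph_eq]; rfl
  have hPsT : ∀ s, ∀ v ∈ St.T (Ph F),
      MM (pU c K) (adjU c K) (Matrix.toLin' F) (Matrix.toLin' G) s v ∈ St.T (Ph F) := by
    intro s v hv
    rw [RDSet.Ps_eq, RDSet.Ph_eq] at *
    exact hpen.Ps_T s hv
  have hPssa : ∀ s, St.Sa (BV n K)
      (MM (pU c K) (adjU c K) (Matrix.toLin' F) (Matrix.toLin' G) s) := by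
    intro s
    rw [RDSet.Ps_eq, hB]
    exact hpen.Ps_sa s
  have hpres : ∀ s, Pres (BV n K) (Ph F)
      (MM (pU c K) (adjU c K) (Matrix.toLin' F) (Matrix.toLin' G) s) := by
    intro s
    exact ⟨hPsT s, fun v hv => St.Tp_stable (hPssa s) (hPsT s) hv⟩
  obtain ⟨k, hk⟩ := St.T_eq_Nk (Ph F)
  have hsum : ∀ v, Ph F 0 v + Ph F 1 v + Ph F 2 v = 0 := by
    intro v
    have h1 := MM_sum hD hF.2 v
    rwa [Fin.sum_univ_three] at h1
  obtain ⟨X, i1, i2, A, D, pr, ll, h, hfam⟩ := HexU.exists_fam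
    (Φ := Ph F) (Ψ := fun s => MM (pU c K) (adjU c K) (Matrix.toLin' F) (Matrix.toLin' G) s)
    (f := CovI.st (Jm n K) F) (gg := CovI.st (Jm n K) G) (F' := CovI.lo c.arm (c.B K) F)
    (Tp := St.Tp (BV n K) (Ph F)) (pM := CP.pM C) (μ := Fin m)
    (X0 := fun i => τ.maxGenEigenspace (lam i))
    (A0 := fun i => A0 hl (lam i)) (D0 := fun i => D0 τ (lam i))
    (p0 := fun i => (τ.maxGenEigenspace (lam i)).subtype) hPh hPs
    (by
      intro s v
      rw [hPh, hPs]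
      exact (hpen.Gs_Ph s v))
    hsum
    (fun s v hv => CP.Φ_Tp hsa s hv)
    (fun s v hv => (hpres s).Tp v hv)
    (φ := fun s => cp C (Ph F s)) (τ := τ)
    (fun s v hv => CP.pM_Φ hsa C s hv)
    (fun s v hv => by
      rw [CP.pM_pres (hpres s) C hv]
      exact hT.rel s _)
    (k := k)
    (fun v hv hv0 => by
      rw [← RDSet.Nk_eq, ← hk]
      exact (CP.pM_eq_zero C hv).1 hv0)
    (sec := C.M.subtype)
    (fun m => C.le _ m.2)
    (fun m => CP.pM_self C m)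
    (fun i x => by
      apply Subtype.ext
      have h1 := hsum ((x : C.M) : Ix n → K)
      have h2 : ∀ s, cp C (Ph F s) (x : C.M) = CP.pM C (Ph F s ((x : C.M) : Ix n → K)) :=
        fun s => rfl
      change cp C (Ph F 0) (x : C.M) + cp C (Ph F 1) (x : C.M) + cp C (Ph F 2) (x : C.M) = 0
      rw [h2, h2, h2, ← map_add, ← map_add, h1, map_zero])
    (fun i s x => Subtype.ext (hT.comm s x))
    (fun i x => by
      obtain ⟨q, hq, hqx⟩ := CP.mem_Ax_iff.1 (hl.perfect (lam i) x.2)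
      refine ⟨fun s => ⟨q s, hq s⟩, ?_⟩
      apply Subtype.ext
      rw [AddSubmonoidClass.coe_finsetSum]
      exact hqx)
    (fun i s x => rfl)
    (fun i x => rfl)
  exact ⟨m, lam, e, X, i1, i2, A, D, pr, ll, h, hsp, fun i => (hfam.st i).fin inferInstance, hfam⟩

section abs

open Crest.Agent.R172.CovT

theorem pside_of {K V U' M X0 X : Type*} [Field K] [AddCommGroup V] [Module K V]
    [AddCommGroup U'] [Module K U'] [AddCommGroup M] [Module K M] [AddCommGroup X0] [Module K X0]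
    [AddCommGroup X] [Module K X] [FiniteDimensional K X0]
    {Φ : Fin 3 → End K V} {f g : V →ₗ[K] U'} {Tp : Submodule K V} {pM : V →ₗ[K] M}
    {A0 : Fin 3 → End K X0} {D0 : End K X0} {p0 : X0 →ₗ[K] M} {P : Prop} {e e' h : ℕ}
    {A : Fin 3 → End K X} {D : End K X} {pr : X →ₗ[K] X0} {ll : X →ₗ[K] V}
    (st : Stage Φ f g Tp pM A0 D0 p0 P e e' h A D pr ll)
    (hker : ∀ v : X0, (∀ s, A0 s v = 0) → v = 0) {l : Fin 3 → ℕ} (hl1 : ∀ s, 1 ≤ l s)
    (hnil : ∀ s, A0 s ^ l s = 0) (hfree : ∀ s, l s * finrank K (ker (A0 s)) = finrank K X0)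
    (hq : ∑ s, (1 - 1 / (l s : ℚ)) = 2) (hpos : 0 < finrank K X0) :
    QBlk.PSide A (ker pr) l := by
  obtain ⟨h1, h2, h3, h4, h5⟩ := HexU.rj st hker hl1 hnil hfree hq
  refine ⟨h1, h2, ⟨h, h3⟩, hl1, h4, h5, ?_, ?_⟩
  · intro s
    exact RRk.lift_pow hpos (hl1 s) (hfree s) pr st.surj (fun p => st.prA s p)
      (fun p hp => LinearMap.mem_ker.1 hp)
  · intro t u htu
    obtain ⟨s, hst', hsu⟩ : ∃ s : Fin 3, s ≠ t ∧ s ≠ u := by
      fin_cases t <;> fin_cases u <;> first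
        | exact absurd rfl htu
        | exact ⟨0, by decide, by decide⟩
        | exact ⟨1, by decide, by decide⟩
        | exact ⟨2, by decide, by decide⟩
    exact RRk.lift_ab hpos hl1 hfree hq pr st.surj st.prA
      (fun p => LinearMap.mem_ker) hst' hsu htu

end abs

section tot

variable {m : ℕ} {X : Fin m → Type} [∀ i, AddCommGroup (X i)] [∀ i, Module K (X i)]

/-- operators on the total cover -/
def AA (A : ∀ i, Fin 3 → End K (X i)) (s : Fin 3) : End K (∀ i, X i) :=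
  LinearMap.pi fun i => A i s ∘ₗ LinearMap.proj i

def DD (D : ∀ i, End K (X i)) : End K (∀ i, X i) :=
  LinearMap.pi fun i => D i ∘ₗ LinearMap.proj i

/-- the map to `V` -/
noncomputable def LL (ll : ∀ i, X i →ₗ[K] (Ix n → K)) : (∀ i, X i) →ₗ[K] (Ix n → K) :=
  ∑ i, ll i ∘ₗ LinearMap.proj i

/-- the map to the core -/
noncomputable def QQ {lam : Fin m → K} (pr : ∀ i, X i →ₗ[K] (τ.maxGenEigenspace (lam i))) :
    (∀ i, X i) →ₗ[K] C.M :=
  ∑ i, ((τ.maxGenEigenspace (lam i)).subtype ∘ₗ pr i) ∘ₗ LinearMap.proj i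

@[simp] theorem AA_apply (A : ∀ i, Fin 3 → End K (X i)) (s : Fin 3) (x : ∀ i, X i) (i : Fin m) :
    AA A s x i = A i s (x i) := rfl

@[simp] theorem DD_apply (D : ∀ i, End K (X i)) (x : ∀ i, X i) (i : Fin m) :
    DD D x i = D i (x i) := rfl

theorem LL_apply (ll : ∀ i, X i →ₗ[K] (Ix n → K)) (x : ∀ i, X i) :
    LL ll x = ∑ i, ll i (x i) := by
  rw [LL, LinearMap.sum_apply]; rfl

theorem QQ_apply {lam : Fin m → K} (pr : ∀ i, X i →ₗ[K] (τ.maxGenEigenspace (lam i)))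
    (x : ∀ i, X i) : QQ pr x = ∑ i, ((pr i (x i) : τ.maxGenEigenspace (lam i)) : C.M) := by
  rw [QQ, LinearMap.sum_apply]; rfl

namespace Tot

variable {hl : Nums C τ l} {lam : Fin m → K} {e : Fin m → End K C.M}
  {A : ∀ i, Fin 3 → End K (X i)} {D : ∀ i, End K (X i)}
  {pr : ∀ i, X i →ₗ[K] (τ.maxGenEigenspace (lam i))} {ll : ∀ i, X i →ₗ[K] (Ix n → K)} {h : ℕ}
  (H : Tot N W F G C τ hl lam e A D pr ll h)
include H

theorem pM_LL (x : ∀ i, X i) : pM C (LL ll x) = QQ pr x := by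
  rw [LL_apply, QQ_apply, map_sum]
  exact Finset.sum_congr rfl fun i _ => (H.fam.st i).lpM (x i)

theorem LL_mem (x : ∀ i, X i) : LL ll x ∈ St.Tp (BV n K) (Ph F) := by
  rw [LL_apply]
  exact Submodule.sum_mem _ fun i _ => (H.fam.st i).lTp (x i)

theorem e_QQ (i : Fin m) (x : ∀ i, X i) : e i (QQ pr x) = ((pr i (x i) :) : C.M) := by
  rw [QQ_apply, map_sum, Finset.sum_eq_single i]
  · exact H.spec.fix i _ (pr i (x i)).2
  · intro j _ hj
    exact H.spec.zero i j (Ne.symm hj) _ (pr j (x j)).2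
  · intro hi
    exact absurd (Finset.mem_univ i) hi

theorem QQ_eq_zero {x : ∀ i, X i} : QQ pr x = 0 ↔ ∀ i, pr i (x i) = 0 := by
  constructor
  · intro h0 i
    have h1 := H.e_QQ i x
    rw [h0, map_zero] at h1
    exact Subtype.ext h1.symm
  · intro h0
    rw [QQ_apply]
    exact Finset.sum_eq_zero fun i _ => by rw [h0 i]; rfl

theorem QQ_AA (s : Fin 3) (x : ∀ i, X i) : QQ pr (AA A s x) = cp C (Ph F s) (QQ pr x) := by
  rw [QQ_apply, QQ_apply, map_sum]
  refine Finset.sum_congr rfl fun i _ => ?_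
  rw [AA_apply, (H.fam.st i).prA]
  rfl

theorem QQ_DD (x : ∀ i, X i) : QQ pr (DD D x) = τ (QQ pr x) := by
  rw [QQ_apply, QQ_apply, map_sum]
  refine Finset.sum_congr rfl fun i _ => ?_
  rw [DD_apply, (H.fam.st i).prD]
  rfl

theorem QQ_surj : Function.Surjective (QQ pr : (∀ i, X i) →ₗ[K] C.M) := by
  intro v
  choose x hx using fun i => (H.fam.st i).surj ⟨e i v, H.spec.mem i v⟩
  refine ⟨x, ?_⟩
  rw [QQ_apply]
  conv_rhs => rw [← H.spec.sum v]
  refine Finset.sum_congr rfl fun i _ => ?_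
  rw [hx]

theorem form (x y : ∀ i, X i) : BV n K (LL ll x) (LL ll y) = BM C (QQ pr x) (QQ pr y) := by
  rw [CP.form_eq (fun u v => BV_ns.symm u v) C (H.LL_mem x) (H.LL_mem y), H.pM_LL, H.pM_LL]

theorem orth {i j : Fin m} (hij : i ≠ j) (x : X i) (y : X j) :
    BM C ((pr i x : τ.maxGenEigenspace (lam i)) : C.M) ((pr j y :) : C.M) = 0 :=
  hl.orth _ _ (fun hh => hij (H.spec.inj hh)) _ (pr i x).2 _ (pr j y).2

theorem words (w : List (Fin 3)) (hw : w.length = h) (x : ∀ i, X i) (hx : QQ pr x = 0) :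
    (w.map (AA A)).prod x = 0 := by
  have key : ∀ (w : List (Fin 3)) (i : Fin m), ((w.map (AA A)).prod x) i =
      (w.map (A i)).prod (x i) := by
    intro w i
    induction w with
    | nil => simp
    | cons s w ih =>
      rw [List.map_cons, List.prod_cons, Module.End.mul_apply, AA_apply, ih, List.map_cons,
        List.prod_cons, Module.End.mul_apply]
  funext i
  rw [key]
  exact RDSet.nil_words ((H.fam.st i).nil _ (H.QQ_eq_zero.1 hx i)) w hw

theorem AA_DD (s : Fin 3) (x : ∀ i, X i) : AA A s (DD D x) = DD D (AA A s x) := by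
  funext i
  exact ((H.fam.st i).comm s (x i)).symm

theorem sumA (x : ∀ i, X i) : ∑ s, AA A s x = 0 := by
  funext i
  rw [Finset.sum_apply, Fin.sum_univ_three]
  exact (H.fam.st i).sumA (x i)

theorem perf (x : ∀ i, X i) : ∃ f : Fin 3 → ∀ i, X i, x = ∑ s, AA A s (f s) := by
  choose f hf using fun i => (H.fam.st i).perf (x i)
  refine ⟨fun s i => f i s, ?_⟩
  funext i
  rw [Finset.sum_apply]
  exact hf i

theorem LL_AA (s : Fin 3) (x : ∀ i, X i) : Ph F s (LL ll x) = LL ll (AA A s x) := by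
  rw [LL_apply, LL_apply, map_sum]
  exact Finset.sum_congr rfl fun i _ => (H.fam.st i).exA s (x i)

theorem LL_DD (x : ∀ i, X i) : (Gᵀ * Jm n K) *ᵥ (LL ll x) = (Fᵀ * Jm n K) *ᵥ (LL ll (DD D x)) := by
  have e1 : ∀ (Z : Matrix (Ix n) c.δ K) (v : Ix n → K), CovI.st (Jm n K) Z v =
      (Zᵀ * Jm n K) *ᵥ v := fun Z v => rfl
  rw [← e1, ← e1, LL_apply, LL_apply, map_sum, map_sum]
  exact Finset.sum_congr rfl fun i _ => (H.fam.st i).exG (x i)

theorem range_LL (hD : FO.Data ℂ c.arm (Jm n K) (c.B K) N W) (hF : F ∈ N ⊓ W) :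
    LinearMap.range (LL ll : (∀ i, X i) →ₗ[K] (Ix n → K)) = St.Tp (BV n K) (Ph F) := by
  have hsa : ∀ s, St.Sa (BV n K) (Ph F s) := N5.Ph_sa hD hF
  obtain ⟨k, hk⟩ := St.T_eq_Nk (Ph F)
  refine le_antisymm ?_ ?_
  · rintro _ ⟨x, rfl⟩
    exact H.LL_mem x
  · have hR' : CP.Ax (Ph F) (range (LL ll)) ≤ range (LL ll) := by
      refine CP.Ax_le fun s v hv => ?_
      obtain ⟨x, rfl⟩ := hv
      exact ⟨AA A s x, (H.LL_AA s x).symm⟩
    have hTpp : St.Tp (BV n K) (Ph F) ≤ CP.Ax (Ph F) (St.Tp (BV n K) (Ph F)) :=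
      Core.Tp_le_iSup BV_ns hsa
    have hdec : ∀ v ∈ St.Tp (BV n K) (Ph F),
        ∃ x, v - LL ll x ∈ St.Tp (BV n K) (Ph F) ⊓ St.T (Ph F) := by
      intro v hv
      obtain ⟨x, hx⟩ := H.QQ_surj (CP.pM C v)
      refine ⟨x, Submodule.sub_mem _ hv (H.LL_mem x), ?_⟩
      refine (CP.pM_eq_zero C (Submodule.sub_mem _ hv (H.LL_mem x))).1 ?_
      rw [map_sub, H.pM_LL, hx, sub_self]
    have hRR : St.Tp (BV n K) (Ph F) ⊓ St.T (Ph F) ≤
        range (LL ll) ⊔ CP.Ax (Ph F) (St.Tp (BV n K) (Ph F) ⊓ St.T (Ph F)) := by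
      intro v hv
      obtain ⟨q, hq, hqv⟩ := CP.mem_Ax_iff.1 (hTpp hv.1)
      rw [hqv]
      refine Submodule.sum_mem _ fun s _ => ?_
      obtain ⟨x, hx⟩ := hdec _ (hq s)
      have e1 : Ph F s (q s) = LL ll (AA A s x) + Ph F s (q s - LL ll x) := by
        rw [map_sub, H.LL_AA]; abel
      rw [e1]
      exact Submodule.add_mem_sup ⟨_, rfl⟩ (CP.mem_Ax hx s)
    have hnk : St.Tp (BV n K) (Ph F) ⊓ St.T (Ph F) ≤ range (LL ll) := by
      refine CP.nak hR' hRR (k := k) ?_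
      refine le_trans (CP.It_mono ?_ k) ((CP.It_Nk (Ph F) k).trans bot_le)
      rw [← hk]; exact inf_le_right
    intro v hv
    obtain ⟨x, hx⟩ := hdec v hv
    have h1 := hnk hx
    have e1 : v = (v - LL ll x) + LL ll x := by abel
    rw [e1]
    exact Submodule.add_mem _ h1 ⟨x, rfl⟩

/-- **the total cover is an abstract cover in the sense of `FrU`** -/
theorem acov (hD : FO.Data ℂ c.arm (Jm n K) (c.B K) N W) (hF : F ∈ N ⊓ W) :
    FrU.ACov c.arm (Jm n K) (c.B K) F G (AA A) (DD D) (LL ll) where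
  piA s x := by rw [← H.LL_AA, N5.Ph_apply]
  rel := H.LL_DD
  comm := H.AA_DD
  perf := H.perf
  range := by
    rw [H.range_LL hD hF, BV_eq, show (Ph F) = DerG.Ph c.arm (Jm n K) (c.B K) F from MM_eq F]

/-- one-sided hypotheses of the span lemmas for the block `i` -/
theorem pside (i : Fin m)
    (hker : ∀ v : C.M, (∀ s, cp C (Ph F s) v = 0) → v = 0) :
    QBlk.PSide (A i) (ker (pr i)) l := by
  have hνfree : ∀ s, l s * finrank K (ker (A0 hl (lam i) s)) =
      finrank K (τ.maxGenEigenspace (lam i)) := by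
    intro s
    rw [← hl.free (lam i) s]
    congr 1
    exact RRk.finrank_ker_restrict (hl.stable (lam i) s)
  have hpow : ∀ s (k : ℕ) (x : τ.maxGenEigenspace (lam i)),
      (((A0 hl (lam i) s ^ k) x : τ.maxGenEigenspace (lam i)) : C.M) = (cp C (Ph F s) ^ k) x := by
    intro s k x
    induction k with
    | zero => rfl
    | succ k ih =>
      rw [pow_succ', Module.End.mul_apply, pow_succ', Module.End.mul_apply, ← ih]
      rfl
  have hnil : ∀ s, A0 hl (lam i) s ^ l s = 0 := by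
    intro s
    refine LinearMap.ext fun x => Subtype.ext ?_
    rw [hpow, hl.nil (lam i) s x x.2]
    rfl
  have hkr : ∀ v : τ.maxGenEigenspace (lam i), (∀ s, A0 hl (lam i) s v = 0) → v = 0 := by
    intro v hv
    exact Subtype.ext (hker v fun s => congrArg Subtype.val (hv s))
  have hpos : 0 < finrank K (τ.maxGenEigenspace (lam i)) := by
    rw [Nat.pos_iff_ne_zero]
    intro e0
    exact H.spec.ne i (Submodule.finrank_eq_zero.1 e0)
  exact pside_of (H.fam.st i) hkr hl.one_le hnil hνfree hl.sum hpos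

end Tot

end tot

end Crest.Agent.R172.RDTot
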