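import Crest.Agent.R172.RDTot
import Crest.Agent.R172.RDLiftA

/-!
Row 172, TAME (T0): the universal covers of the blocks with 255's universal property `RDL.Univ`,
and the universal property of the total cover.
-/

set_option autoImplicit false
set_option linter.unusedSectionVars false
set_option maxHeartbeats 800000

namespace Crest.Agent.R172.RDTot

open Module Matrix LinearMap Crest.AlgebraR.SpinSaturation Crest.Agent.R172.SoGrade
  Crest.Agent.R172.CF
open Crest.Agent.R172.Gen (Jm Ix emb Ent ent)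
open Crest.Agent.R172.ThX Crest.Agent.R172.CSys
open Crest.Agent.R172.Core (NS cp BM Tame Pres)
open Crest.Agent.R172.CP (pM PP Nums)
open Crest.Agent.R172.N5 (Ph)

section family

open Crest.Agent.R172.CovT Crest.Agent.R172.HexU

universe u v

variable {K : Type*} [Field K]
variable {V U' M : Type*} [AddCommGroup V] [Module K V] [AddCommGroup U']
  [Module K U'] [AddCommGroup M] [Module K M]
  {Φ Ψ : Fin 3 → End K V} {f gg : V →ₗ[K] U'} {F' : Fin 3 → U' →ₗ[K] V} {Tp : Submodule K V}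
  {pM : V →ₗ[K] M}
variable {μ : Type*} {X0 : μ → Type u} [∀ i, AddCommGroup (X0 i)] [∀ i, Module K (X0 i)]
    {A0 : ∀ i, Fin 3 → End K (X0 i)} {D0 : ∀ i, End K (X0 i)} {p0 : ∀ i, X0 i →ₗ[K] M}

/-- **The family of covers.** -/
theorem exists_famU (hΦ : ∀ s v, Φ s v = F' s (f v)) (hΨ : ∀ s v, Ψ s v = F' s (gg v))
    (hgf : ∀ s v, gg (Φ s v) = f (Ψ s v)) (hsum : ∀ v, Φ 0 v + Φ 1 v + Φ 2 v = 0)
    (hTp : ∀ s, ∀ v ∈ Tp, Φ s v ∈ Tp) (hTp' : ∀ s, ∀ v ∈ Tp, Ψ s v ∈ Tp)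
    {φ : Fin 3 → End K M} {τ : End K M}
    (hpM : ∀ s, ∀ v ∈ Tp, pM (Φ s v) = φ s (pM v))
    (hpM' : ∀ s, ∀ v ∈ Tp, pM (Ψ s v) = φ s (τ (pM v)))
    {k : ℕ} (hk : ∀ v ∈ Tp, pM v = 0 → v ∈ Nil Φ k) {sec : M →ₗ[K] V}
    (hsec : ∀ m, sec m ∈ Tp) (hsec' : ∀ m, pM (sec m) = m)
    (hA0 : ∀ i x, A0 i 0 x + A0 i 1 x + A0 i 2 x = 0)
    (hAD : ∀ i s x, D0 i (A0 i s x) = A0 i s (D0 i x))
    (hperf : ∀ i x, ∃ y : Fin 3 → X0 i, x = ∑ s, A0 i s (y s))
    (hp0 : ∀ i s x, p0 i (A0 i s x) = φ s (p0 i x)) (hpD : ∀ i x, p0 i (D0 i x) = τ (p0 i x)) :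
    ∃ (X : μ → Type u) (_ : ∀ i, AddCommGroup (X i)) (_ : ∀ i, Module K (X i))
      (A : ∀ i, Fin 3 → End K (X i)) (D : ∀ i, End K (X i))
      (pr : ∀ i, X i →ₗ[K] X0 i) (l : ∀ i, X i →ₗ[K] V) (n : ℕ),
      Fam Φ f gg Tp pM A0 D0 p0 True 0 0 n A D pr l ∧ ∀ i, RDL.Univ.{u, v} (A i) (pr i) n := by
  have h0 : Fam Φ f gg Tp pM A0 D0 p0 False k k 0 A0 D0 (fun i => LinearMap.id)
      (fun i => sec ∘ₗ p0 i) :=
    { st := fun i => Stage.base (hA0 i) (hAD i) (hperf i) hTp hpM (hp0 i) hk hsec hsec'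
      hex := by
        intro i j g0 eps c hg _
        rw [LinearMap.ker_id, LinearMap.ker_id]
        exact base hg }
  have h1 := Fam.step (F' := F') (Ψ := Ψ) hΦ hΨ hgf hsum hTp hpM hp0 h0
  have h2 : Fam Φ f gg Tp pM A0 D0 p0 True (k - 1) k (0 + 1) (X := fun i => X0 i × X0 i)
      (fun i => A' (A0 i)) (fun i => LinearMap.prodMap (D0 i) (D0 i))
      (fun i => LinearMap.id ∘ₗ pi' (A0 i)) (fun i => l' Φ (sec ∘ₗ p0 i)) :=
    { hex := h1.hex
      st := fun i =>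
        { sumA := (h1.st i).sumA
          comm := (h1.st i).comm
          prA := (h1.st i).prA
          prD := (h1.st i).prD
          surj := (h1.st i).surj
          perf := (h1.st i).perf
          nil := (h1.st i).nil
          lTp := (h1.st i).lTp
          lpM := (h1.st i).lpM
          errA := (h1.st i).errA
          nilD := (h1.st i).nilD
          fin := (h1.st i).fin
          errG := by
            intro _ z
            refine ⟨(Ψ 0 (sec (p0 i z.1)) - Φ 0 (sec (p0 i (D0 i z.1)))) +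
              (Ψ 1 (sec (p0 i z.2)) - Φ 1 (sec (p0 i (D0 i z.2)))), ?_, ?_⟩
            · refine hk _ (Tp.add_mem (Tp.sub_mem (hTp' 0 _ (hsec _)) (hTp 0 _ (hsec _)))
                (Tp.sub_mem (hTp' 1 _ (hsec _)) (hTp 1 _ (hsec _)))) ?_
              rw [map_add, map_sub, map_sub, hpM' 0 _ (hsec _), hpM' 1 _ (hsec _),
                hpM 0 _ (hsec _), hpM 1 _ (hsec _), hsec', hsec', hsec', hsec', hpD, hpD,
                sub_self, sub_self, add_zero]
            · simp only [l', LinearMap.coprod_apply, LinearMap.comp_apply,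
                LinearMap.prodMap_apply]
              rw [map_add, hgf, hgf]
              simp only [map_add, map_sub]
              abel } }
  have u2 : ∀ i, RDL.Univ.{u, v} (A' (A0 i)) (LinearMap.id ∘ₗ pi' (A0 i)) (0 + 1) := fun i =>
    RDL.Univ.step (hA0 i) (RDL.pi'_surj (hA0 i) (hperf i)) (RDL.Univ.base (A0 i) LinearMap.id)
  clear h0 h1
  have key : ∀ j : ℕ, ∃ (X : μ → Type u) (_ : ∀ i, AddCommGroup (X i)) (_ : ∀ i, Module K (X i))
      (A : ∀ i, Fin 3 → End K (X i)) (D : ∀ i, End K (X i))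
      (pr : ∀ i, X i →ₗ[K] X0 i) (l : ∀ i, X i →ₗ[K] V) (n : ℕ),
      Fam Φ f gg Tp pM A0 D0 p0 True (k - 1 - j) (k - j) n A D pr l ∧
        ∀ i, RDL.Univ.{u, v} (A i) (pr i) n := by
    intro j
    induction j with
    | zero => exact ⟨_, _, _, _, _, _, _, _, h2, u2⟩
    | succ j ih =>
      obtain ⟨X, i1, i2, A, D, pr, l, n, h, hu⟩ := ih
      exact ⟨_, _, _, _, _, _, _, _,
        Fam.step (F' := F') (Ψ := Ψ) hΦ hΨ hgf hsum hTp hpM hp0 h,
        fun i => RDL.Univ.step (h.st i).sumA (RDL.pi'_surj (h.st i).sumA (h.st i).perf) (hu i)⟩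
  obtain ⟨X, i1, i2, A, D, pr, l, n, h, hu⟩ := key k
  refine ⟨X, i1, i2, A, D, pr, l, n, ?_, hu⟩
  have e1 : k - 1 - k = 0 := by omega
  have e2 : k - k = 0 := by omega
  rw [e1, e2] at h
  exact h

end family

variable {n : ℕ} {a : Fin 3 → Fin n → ℤ} {c : Cfg n a} {K : Type} [Field K] [Algebra ℂ K]
variable {N W : Submodule K (Matrix (Ix n) c.δ K)} {F G : Matrix (Ix n) c.δ K}
variable {C : St.Core (BV n K) (Ph F)} {τ : Module.End K C.M} {l : Fin 3 → ℕ}

theorem exists_totU [IsAlgClosed K] (hD : FO.Data ℂ c.arm (Jm n K) (c.B K) N W) (hF : F ∈ N ⊓ W)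
    (hG : G ∈ N ⊓ W) (hT : TameAt F G C τ) (hl : Nums C τ l) :
    ∃ (m : ℕ) (lam : Fin m → K) (e : Fin m → End K C.M) (X : Fin m → Type)
      (_ : ∀ i, AddCommGroup (X i)) (_ : ∀ i, Module K (X i))
      (A : ∀ i, Fin 3 → End K (X i)) (D : ∀ i, End K (X i))
      (pr : ∀ i, X i →ₗ[K] (τ.maxGenEigenspace (lam i))) (ll : ∀ i, X i →ₗ[K] (Ix n → K))
      (h : ℕ), Tot N W F G C τ hl lam e A D pr ll h ∧
        ∀ i, RDL.Univ.{0, 0} (A i) (pr i) h := by
  classical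
  obtain ⟨m, lam, e, hsp⟩ := exists_spec hT
  have hpen := CovI.pen hD hF hG
  have hsa : ∀ s, St.Sa (BV n K) (Ph F s) := N5.Ph_sa hD hF
  have hB : BV n K = DerG.BJ (Jm n K) := BV_eq
  have hPs : ∀ s v, MM (pU c K) (adjU c K) (Matrix.toLin' F) (Matrix.toLin' G) s v =
      CovI.lo c.arm (c.B K) F s (CovI.st (Jm n K) G v) := by
    intro s v; rw [RDSet.Ps_eq]; rfl
  have hPh : ∀ s v, Ph F s v = CovI.lo c.arm (c.B K) F s (CovI.st (Jm n K) F v) := by
    intro s v; rw [RDSet.Ph_eq]; rfl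
  have hPsT : ∀ s, ∀ v ∈ St.T (Ph F),
      MM (pU c K) (adjU c K) (Matrix.toLin' F) (Matrix.toLin' G) s v ∈ St.T (Ph F) := by
    intro s v hv
    rw [RDSet.Ps_eq, RDSet.Ph_eq] at *
    exact hpen.Ps_T s hv
  have hPssa : ∀ s, St.Sa (BV n K)
      (MM (pU c K) (adjU c K) (Matrix.toLin' F) (Matrix.toLin' G) s) := by
    intro s
    rw [RDSet.Ps_eq, hB]
    exact hpen.Ps_sa s
  have hpres : ∀ s, Pres (BV n K) (Ph F)
      (MM (pU c K) (adjU c K) (Matrix.toLin' F) (Matrix.toLin' G) s) := by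
    intro s
    exact ⟨hPsT s, fun v hv => St.Tp_stable (hPssa s) (hPsT s) hv⟩
  obtain ⟨k, hk⟩ := St.T_eq_Nk (Ph F)
  have hsum : ∀ v, Ph F 0 v + Ph F 1 v + Ph F 2 v = 0 := by
    intro v
    have h1 := MM_sum hD hF.2 v
    rwa [Fin.sum_univ_three] at h1
  obtain ⟨X, i1, i2, A, D, pr, ll, h, hfam, hu⟩ := exists_famU
    (Φ := Ph F) (Ψ := fun s => MM (pU c K) (adjU c K) (Matrix.toLin' F) (Matrix.toLin' G) s)
    (f := CovI.st (Jm n K) F) (gg := CovI.st (Jm n K) G) (F' := CovI.lo c.arm (c.B K) F)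
    (Tp := St.Tp (BV n K) (Ph F)) (pM := CP.pM C) (μ := Fin m)
    (X0 := fun i => τ.maxGenEigenspace (lam i))
    (A0 := fun i => A0 hl (lam i)) (D0 := fun i => D0 τ (lam i))
    (p0 := fun i => (τ.maxGenEigenspace (lam i)).subtype) hPh hPs
    (by
      intro s v
      rw [hPh, hPs]
      exact (hpen.Gs_Ph s v))
    hsum
    (fun s v hv => CP.Φ_Tp hsa s hv)
    (fun s v hv => (hpres s).Tp v hv)
    (φ := fun s => cp C (Ph F s)) (τ := τ)
    (fun s v hv => CP.pM_Φ hsa C s hv)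
    (fun s v hv => by
      rw [CP.pM_pres (hpres s) C hv]
      exact hT.rel s _)
    (k := k)
    (fun v hv hv0 => by
      rw [← RDSet.Nk_eq, ← hk]
      exact (CP.pM_eq_zero C hv).1 hv0)
    (sec := C.M.subtype)
    (fun m => C.le _ m.2)
    (fun m => CP.pM_self C m)
    (fun i x => by
      apply Subtype.ext
      have h1 := hsum ((x : C.M) : Ix n → K)
      have h2 : ∀ s, cp C (Ph F s) (x : C.M) = CP.pM C (Ph F s ((x : C.M) : Ix n → K)) :=
        fun s => rfl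
      change cp C (Ph F 0) (x : C.M) + cp C (Ph F 1) (x : C.M) + cp C (Ph F 2) (x : C.M) = 0
      rw [h2, h2, h2, ← map_add, ← map_add, h1, map_zero])
    (fun i s x => Subtype.ext (hT.comm s x))
    (fun i x => by
      obtain ⟨q, hq, hqx⟩ := CP.mem_Ax_iff.1 (hl.perfect (lam i) x.2)
      refine ⟨fun s => ⟨q s, hq s⟩, ?_⟩
      apply Subtype.ext
      rw [AddSubmonoidClass.coe_finsetSum]
      exact hqx)
    (fun i s x => rfl)
    (fun i x => rfl)
  exact ⟨m, lam, e, X, i1, i2, A, D, pr, ll, h,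
    ⟨hsp, fun i => (hfam.st i).fin inferInstance, hfam⟩, hu⟩


section tot

variable {m : ℕ} {X : Fin m → Type} [∀ i, AddCommGroup (X i)] [∀ i, Module K (X i)]

theorem wd_AA (A : ∀ i, Fin 3 → End K (X i)) {h : ℕ} (w : Fin h → Fin 2) (x : ∀ i, X i)
    (i : Fin m) : RDL.wd (AA A) w x i = RDL.wd (A i) w (x i) := by
  unfold RDL.wd
  generalize List.ofFn (Fin.castSucc ∘ w) = w'
  induction w' with
  | nil => rfl
  | cons s w ih =>
    rw [List.map_cons, List.prod_cons, Module.End.mul_apply, AA_apply, ih, List.map_cons,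
      List.prod_cons, Module.End.mul_apply]

/-- **the universal property of the total cover** -/
theorem Tot.univ {hl : Nums C τ l} {lam : Fin m → K} {e : Fin m → End K C.M}
    {A : ∀ i, Fin 3 → End K (X i)} {D : ∀ i, End K (X i)}
    {pr : ∀ i, X i →ₗ[K] (τ.maxGenEigenspace (lam i))} {ll : ∀ i, X i →ₗ[K] (Ix n → K)} {h : ℕ}
    (H : Tot N W F G C τ hl lam e A D pr ll h) (hU : ∀ i, RDL.Univ.{0, 0} (A i) (pr i) h) :
    RDL.Univ.{0, 0} (AA A) (QQ pr) h := by
  classical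
  intro Y _ _ f hf
  have h1 : ∀ i, ∃ δ : X i →ₗ[K] Y, ∀ (w : Fin h → Fin 2) (x : X i),
      δ (RDL.wd (A i) w x) = f w (LinearMap.single K X i x) := by
    intro i
    refine hU i Y (fun w => f w ∘ₗ LinearMap.single K X i) ?_
    intro w x hx
    refine hf _ _ (H.QQ_eq_zero.2 ?_)
    intro j
    by_cases hj : j = i
    · subst hj; simpa using hx
    · simp [hj]
  choose δ hδ using h1
  refine ⟨∑ i, δ i ∘ₗ LinearMap.proj i, ?_⟩
  intro w x
  rw [LinearMap.sum_apply]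
  have e1 : x = ∑ i, LinearMap.single K X i (x i) := by
    funext j
    rw [Finset.sum_apply]
    simp [LinearMap.single_apply]
  conv_rhs => rw [e1, map_sum]
  refine Finset.sum_congr rfl fun i _ => ?_
  rw [LinearMap.comp_apply, LinearMap.proj_apply, wd_AA, hδ]

end tot

end Crest.Agent.R172.RDTot
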