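import Crest.Agent.R172.FrmA

/-!
Row 172 (S0260), node o2-RD (arbitrary radical, `D` not semisimple): the BLOCKS of the first and of
the second derivative in the frame format (notes 16274 of helper612, 16610 of helper99).

`e1`, `e2` orthogonal idempotents of the frame, commuting with `al r`, `D`, self-adjoint for
`g = pᵀ J p`; `x r` in the block `(2,1)`; `c = 1 + t D`, `ci` its inverse; `π` the exact connection.
* `eqb`, `eqk`: the decorations `b = e1 π e2`, `k = e2 π e1` satisfy the exact equations;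
* `z12`, `z21`, `mu12`, `mu21`: the blocks of the correction of the FIRST derivative;
* `val_of`, `mu_of`: `wᵀ J p` and `w E_r B Fᵀ J p` for ANY `π` with `dp = p π`;
* `second_*`: the blocks of the SECOND derivative (`L` fixed).
-/

set_option autoImplicit false
set_option linter.unusedSectionVars false

namespace Crest.Agent.R172.RDdec

open Matrix

variable {n : Type*} [Fintype n] [DecidableEq n] {K : Type*} [Field K]

/-- the frame algebra of two blocks -/
structure Bk (al : Fin 3 → Matrix n n K) (D g e1 e2 : Matrix n n K) : Prop where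
  i1 : e1 * e1 = e1
  i2 : e2 * e2 = e2
  o12 : e1 * e2 = 0
  o21 : e2 * e1 = 0
  a1 : ∀ r, al r * e1 = e1 * al r
  a2 : ∀ r, al r * e2 = e2 * al r
  D1 : D * e1 = e1 * D
  D2 : D * e2 = e2 * D
  com : ∀ r, al r * D = D * al r
  g1 : g * e1 = e1ᵀ * g
  g2 : g * e2 = e2ᵀ * g
  gD : g * D = Dᵀ * g

variable {al : Fin 3 → Matrix n n K} {D g e1 e2 : Matrix n n K}

theorem Bk.swap (h : Bk al D g e1 e2) : Bk al D g e2 e1 :=
  ⟨h.i2, h.i1, h.o21, h.o12, h.a2, h.a1, h.D2, h.D1, h.com, h.g2, h.g1, h.gD⟩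

/-- `x` in the block `(2,1)` -/
structure In (e1 e2 x : Matrix n n K) : Prop where
  l : e2 * x = x
  r : x * e1ᵀ = x

namespace In

variable {x : Matrix n n K}

theorem e1x (h : Bk al D g e1 e2) (hx : In e1 e2 x) : e1 * x = 0 := by
  rw [← hx.l, ← Matrix.mul_assoc, h.o12, Matrix.zero_mul]

theorem xe2 (h : Bk al D g e1 e2) (hx : In e1 e2 x) : x * e2ᵀ = 0 := by
  rw [← hx.r, Matrix.mul_assoc, ← transpose_mul, h.o21, transpose_zero, Matrix.mul_zero]

theorem tl (hx : In e1 e2 x) : e1 * xᵀ = xᵀ := by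
  have := congrArg transpose hx.r
  rwa [transpose_mul, transpose_transpose] at this

theorem tr (hx : In e1 e2 x) : xᵀ * e2ᵀ = xᵀ := by
  rw [← transpose_mul, hx.l]

theorem te2 (h : Bk al D g e1 e2) (hx : In e1 e2 x) : e2 * xᵀ = 0 := by
  rw [← hx.tl, ← Matrix.mul_assoc, h.o21, Matrix.zero_mul]

theorem te1 (h : Bk al D g e1 e2) (hx : In e1 e2 x) : xᵀ * e1ᵀ = 0 := by
  rw [← transpose_mul, hx.e1x h, transpose_zero]

/-- `e1 (x - xᵀ) g e2 = - xᵀ g` -/
theorem Y12 (h : Bk al D g e1 e2) (hx : In e1 e2 x) : e1 * ((x - xᵀ) * g) * e2 = -(xᵀ * g) := by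
  have e : e1 * ((x - xᵀ) * g) * e2 = (e1 * (x - xᵀ)) * (g * e2) := by
    simp only [Matrix.mul_assoc]
  rw [e, h.g2, Matrix.mul_sub, hx.e1x h, hx.tl, zero_sub, Matrix.neg_mul, ← Matrix.mul_assoc,
    hx.tr]

/-- `e2 (x - xᵀ) g e1 = x g` -/
theorem Y21 (h : Bk al D g e1 e2) (hx : In e1 e2 x) : e2 * ((x - xᵀ) * g) * e1 = x * g := by
  have e : e2 * ((x - xᵀ) * g) * e1 = (e2 * (x - xᵀ)) * (g * e1) := by
    simp only [Matrix.mul_assoc]
  rw [e, h.g1, Matrix.mul_sub, hx.l, hx.te2 h, sub_zero, ← Matrix.mul_assoc, hx.r]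

end In

/-- blocks of a commutator with a block diagonal matrix -/
theorem blk_comm {a u v A A' π X : Matrix n n K} (hAu : A * u = u * A) (hAv : A * v = v * A)
    (h : A' + π * A - A * π = X * A - A * X) (hA' : u * A' * v = 0) (ha : a = u * π * v) :
    a * A - A * a = (u * X * v) * A - A * (u * X * v) := by
  have h1 := congrArg (fun Z => u * Z * v) h
  simp only [Matrix.mul_add, Matrix.add_mul, Matrix.mul_sub, Matrix.sub_mul] at h1
  rw [hA', zero_add] at h1
  have e1 : ∀ Z : Matrix n n K, u * (Z * A) * v = u * Z * v * A := by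
    intro Z
    rw [Matrix.mul_assoc (u * Z) v A, ← hAv]
    simp only [Matrix.mul_assoc]
  have e2 : ∀ Z : Matrix n n K, u * (A * Z) * v = A * (u * Z * v) := by
    intro Z
    rw [← Matrix.mul_assoc u A Z, ← hAu]
    simp only [Matrix.mul_assoc]
  rw [e1, e2, e1, e2] at h1
  rw [ha]
  exact h1

section first

variable {π D' c ci : Matrix n n K} {al' : Fin 3 → Matrix n n K} {x : Fin 3 → Matrix n n K}
variable {t : K}

/-- the equation of `b = e1 π e2` -/
theorem eqb (h : Bk al D g e1 e2) (hx : ∀ r, In e1 e2 (x r))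
    (hc1 : c * e1 = e1 * c) (hc2 : c * e2 = e2 * c) (r : Fin 3) {A' : Matrix n n K}
    (hA' : e1 * A' * e2 = 0)
    (hE : A' + π * (al r * (c * c)) - al r * (c * c) * π =
      (x r - (x r)ᵀ) * g * (al r * (c * c)) - al r * (c * c) * ((x r - (x r)ᵀ) * g)) :
    (e1 * π * e2 + (x r)ᵀ * g) * (al r * (c * c)) =
      al r * (c * c) * (e1 * π * e2 + (x r)ᵀ * g) := by
  have hA1 : al r * (c * c) * e1 = e1 * (al r * (c * c)) := by
    rw [Matrix.mul_assoc, Matrix.mul_assoc c c, hc1, ← Matrix.mul_assoc c e1, hc1,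
      Matrix.mul_assoc e1, ← Matrix.mul_assoc (al r), h.a1, Matrix.mul_assoc]
  have hA2 : al r * (c * c) * e2 = e2 * (al r * (c * c)) := by
    rw [Matrix.mul_assoc, Matrix.mul_assoc c c, hc2, ← Matrix.mul_assoc c e2, hc2,
      Matrix.mul_assoc e2, ← Matrix.mul_assoc (al r), h.a2, Matrix.mul_assoc]
  have h1 := blk_comm hA1 hA2 hE hA' rfl
  rw [(hx r).Y12 h] at h1
  rw [Matrix.add_mul, Matrix.mul_add]
  rw [Matrix.neg_mul, Matrix.mul_neg] at h1
  have h2 : e1 * π * e2 * (al r * (c * c)) =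
      al r * (c * c) * (e1 * π * e2) + (-((x r)ᵀ * g * (al r * (c * c))) -
        -(al r * (c * c) * ((x r)ᵀ * g))) := by
    rw [← h1]; abel
  rw [h2]
  abel

/-- the equation of `k = e2 π e1` -/
theorem eqk (h : Bk al D g e1 e2) (hx : ∀ r, In e1 e2 (x r))
    (hc1 : c * e1 = e1 * c) (hc2 : c * e2 = e2 * c) (r : Fin 3) {A' : Matrix n n K}
    (hA' : e2 * A' * e1 = 0)
    (hE : A' + π * (al r * (c * c)) - al r * (c * c) * π =
      (x r - (x r)ᵀ) * g * (al r * (c * c)) - al r * (c * c) * ((x r - (x r)ᵀ) * g)) :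
    (e2 * π * e1 - x r * g) * (al r * (c * c)) =
      al r * (c * c) * (e2 * π * e1 - x r * g) := by
  have hA1 : al r * (c * c) * e1 = e1 * (al r * (c * c)) := by
    rw [Matrix.mul_assoc, Matrix.mul_assoc c c, hc1, ← Matrix.mul_assoc c e1, hc1,
      Matrix.mul_assoc e1, ← Matrix.mul_assoc (al r), h.a1, Matrix.mul_assoc]
  have hA2 : al r * (c * c) * e2 = e2 * (al r * (c * c)) := by
    rw [Matrix.mul_assoc, Matrix.mul_assoc c c, hc2, ← Matrix.mul_assoc c e2, hc2,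
      Matrix.mul_assoc e2, ← Matrix.mul_assoc (al r), h.a2, Matrix.mul_assoc]
  have h1 := blk_comm hA2 hA1 hE hA' rfl
  rw [(hx r).Y21 h] at h1
  rw [Matrix.sub_mul, Matrix.mul_sub]
  have h2 : e2 * π * e1 * (al r * (c * c)) =
      al r * (c * c) * (e2 * π * e1) + (x r * g * (al r * (c * c)) -
        al r * (c * c) * (x r * g)) := by
    rw [← h1]; abel
  rw [h2]
  abel

/-- off-diagonal block of `z = t (Dπ - πD - D') ci` -/
theorem zblk {u v : Matrix n n K} (hu : D * u = u * D) (hv : D * v = v * D)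
    (hD' : u * D' * v = 0) (hciv : ci * v = v * ci)
    (hc : (1 + t • D) * ci = 1) :
    u * (t • ((D * π - π * D - D') * ci)) * v =
      (1 + t • D) * (u * π * v) * ci - u * π * v := by
  have e1 : u * (t • ((D * π - π * D - D') * ci)) * v =
      t • ((u * (D * π - π * D - D') * v) * ci) := by
    rw [Matrix.mul_smul, Matrix.smul_mul, ← Matrix.mul_assoc u, Matrix.mul_assoc _ ci v, hciv,
      ← Matrix.mul_assoc]
  have e2 : u * (D * π - π * D - D') * v = D * (u * π * v) - (u * π * v) * D := by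
    rw [Matrix.mul_sub, Matrix.mul_sub, Matrix.sub_mul, Matrix.sub_mul, hD', sub_zero,
      ← Matrix.mul_assoc u D π, ← hu, Matrix.mul_assoc (u * π) v D, ← hv]
    simp only [Matrix.mul_assoc]
  have e3 : u * π * v = (u * π * v) * ((1 + t • D) * ci) := by rw [hc, Matrix.mul_one]
  rw [e1, e2]
  conv_rhs => rw [e3]
  rw [hc, Matrix.mul_one, Matrix.add_mul 1 (t • D), Matrix.one_mul, Matrix.smul_mul,
    Matrix.add_mul (u * π * v)]
  have e4 : u * π * v = (u * π * v) * ci + t • ((u * π * v) * D * ci) := by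
    calc u * π * v = (u * π * v) * ((1 + t • D) * ci) := e3
      _ = _ := by
        rw [Matrix.add_mul, Matrix.one_mul, Matrix.mul_add, Matrix.smul_mul, Matrix.mul_smul,
          ← Matrix.mul_assoc (u * π * v) D ci]
  rw [Matrix.sub_mul, smul_sub, Matrix.smul_mul]
  nth_rewrite 5 [e4]
  abel

/-- the explicit left action of the correction -/
def mu (al : Fin 3 → Matrix n n K) (g c ci π z : Matrix n n K) (al' : Fin 3 → Matrix n n K)
    (Y : Fin 3 → Matrix n n K) (r : Fin 3) : Matrix n n K :=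
  π * al r + al' r - ci * Y r * cᵀ * g * al r - al r * z - al r * ((ci * Y r * cᵀ)ᵀ * g) -
    al r * π

/-- `(1,2)` block of `mu` -/
theorem mu12 (h : Bk al D g e1 e2) (hx : ∀ r, In e1 e2 (x r))
    (hcg : g * c = cᵀ * g) (hcig : g * ci = ciᵀ * g) (hca : ∀ r, al r * c = c * al r)
    (hc12 : c * e1 = e1 * c) (hc22 : c * e2 = e2 * c)
    (hci1 : ci * e1 = e1 * ci) (hci2 : ci * e2 = e2 * ci)
    (hc1 : c * ci = 1) (hc2 : ci * c = 1) (r : Fin 3)
    (hal' : e1 * al' r * e2 = 0) {z : Matrix n n K} {b : Matrix n n K} (hb : b = e1 * π * e2)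
    (hz : e1 * z * e2 = c * b * ci - b)
    (heq : (b + (x r)ᵀ * g) * (al r * (c * c)) = al r * (c * c) * (b + (x r)ᵀ * g)) :
    e1 * mu al g c ci π z al' (fun r => x r - (x r)ᵀ) r * e2 = -((ci * b * c - b) * al r) := by
  have t1 : e1 * (π * al r) * e2 = b * al r := by
    rw [hb, Matrix.mul_assoc (e1 * π), ← h.a2]
    simp only [Matrix.mul_assoc]
  have t2 : e1 * (al r * π) * e2 = al r * b := by
    rw [hb, ← Matrix.mul_assoc e1 (al r), ← h.a1]
    simp only [Matrix.mul_assoc]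
  have t3 : e1 * (al r * z) * e2 = al r * (c * b * ci - b) := by
    rw [← hz, ← Matrix.mul_assoc e1 (al r), ← h.a1]
    simp only [Matrix.mul_assoc]
  have t4 : e1 * (ci * (x r - (x r)ᵀ) * cᵀ * g * al r) * e2 = -(ci * ((x r)ᵀ * g) * c * al r) := by
    calc e1 * (ci * (x r - (x r)ᵀ) * cᵀ * g * al r) * e2
        = (e1 * ci) * (x r - (x r)ᵀ) * (cᵀ * g) * (al r * e2) := by simp only [Matrix.mul_assoc]
      _ = (ci * e1) * (x r - (x r)ᵀ) * (g * c) * (e2 * al r) := by rw [hci1, hcg, h.a2]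
      _ = ci * (e1 * ((x r - (x r)ᵀ) * g) * (c * e2)) * al r := by simp only [Matrix.mul_assoc]
      _ = ci * ((e1 * ((x r - (x r)ᵀ) * g) * e2) * c) * al r := by
          rw [hc22]; simp only [Matrix.mul_assoc]
      _ = _ := by
          rw [(hx r).Y12 h]
          simp only [Matrix.neg_mul, Matrix.mul_neg, Matrix.mul_assoc]
  have t5 : e1 * (al r * ((ci * (x r - (x r)ᵀ) * cᵀ)ᵀ * g)) * e2 =
      al r * (c * ((x r)ᵀ * g) * ci) := by
    have e : (ci * (x r - (x r)ᵀ) * cᵀ)ᵀ = -(c * (x r - (x r)ᵀ) * ciᵀ) := by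
      rw [transpose_mul, transpose_mul, transpose_transpose, transpose_sub, transpose_transpose,
        ← neg_sub (x r) (x r)ᵀ]
      simp only [Matrix.neg_mul, Matrix.mul_neg, Matrix.mul_assoc]
    calc e1 * (al r * ((ci * (x r - (x r)ᵀ) * cᵀ)ᵀ * g)) * e2
        = -((e1 * al r) * (c * (x r - (x r)ᵀ) * (ciᵀ * g)) * e2) := by
          rw [e]; simp only [Matrix.neg_mul, Matrix.mul_neg, Matrix.mul_assoc]
      _ = -((al r * e1) * (c * (x r - (x r)ᵀ) * (g * ci)) * e2) := by rw [h.a1, hcig]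
      _ = -(al r * ((e1 * c) * ((x r - (x r)ᵀ) * g) * (ci * e2))) := by
          simp only [Matrix.mul_assoc]
      _ = -(al r * (c * (e1 * ((x r - (x r)ᵀ) * g) * e2) * ci)) := by
          rw [← hc12, hci2]; simp only [Matrix.mul_assoc]
      _ = _ := by
          rw [(hx r).Y12 h]
          simp only [Matrix.neg_mul, Matrix.mul_neg, neg_neg]
  have key : al r * (c * (b + (x r)ᵀ * g) * ci) = ci * (b + (x r)ᵀ * g) * c * al r := by
    have h1 : al r * (c * c) = c * (al r * c) := by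
      calc al r * (c * c) = (al r * c) * c := by rw [Matrix.mul_assoc]
        _ = (c * al r) * c := by rw [hca]
        _ = _ := by rw [Matrix.mul_assoc]
    have h1' : al r * (c * c) = (c * al r) * c := by
      rw [h1, Matrix.mul_assoc]
    calc al r * (c * (b + (x r)ᵀ * g) * ci)
        = (ci * c) * (al r * c) * (b + (x r)ᵀ * g) * ci := by
          rw [hc2, Matrix.one_mul]; simp only [Matrix.mul_assoc]
      _ = ci * (al r * (c * c) * (b + (x r)ᵀ * g)) * ci := by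
          rw [h1]; simp only [Matrix.mul_assoc]
      _ = ci * ((b + (x r)ᵀ * g) * (al r * (c * c))) * ci := by rw [heq]
      _ = ci * (b + (x r)ᵀ * g) * (c * al r) * (c * ci) := by
          rw [h1']
          simp only [Matrix.mul_assoc]
      _ = _ := by rw [hc1, Matrix.mul_one]; simp only [Matrix.mul_assoc]
  have e : e1 * mu al g c ci π z al' (fun r => x r - (x r)ᵀ) r * e2 =
      e1 * (π * al r) * e2 + e1 * al' r * e2 -
        e1 * (ci * (x r - (x r)ᵀ) * cᵀ * g * al r) * e2 - e1 * (al r * z) * e2 -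
        e1 * (al r * ((ci * (x r - (x r)ᵀ) * cᵀ)ᵀ * g)) * e2 - e1 * (al r * π) * e2 := by
    unfold mu
    rw [Matrix.mul_sub e1, Matrix.mul_sub e1, Matrix.mul_sub e1, Matrix.mul_sub e1,
      Matrix.mul_add e1, Matrix.sub_mul _ _ e2, Matrix.sub_mul _ _ e2, Matrix.sub_mul _ _ e2,
      Matrix.sub_mul _ _ e2, Matrix.add_mul _ _ e2]
  rw [e, t1, t2, t3, t4, t5, hal']
  have k2 : al r * (c * b * ci) = ci * (b + (x r)ᵀ * g) * c * al r -
      al r * (c * ((x r)ᵀ * g) * ci) := by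
    rw [← key]
    simp only [Matrix.mul_add, Matrix.add_mul, Matrix.mul_assoc]
    abel
  rw [Matrix.mul_sub (al r), k2]
  simp only [Matrix.mul_add, Matrix.add_mul, Matrix.sub_mul, Matrix.mul_assoc]
  abel

theorem In.neg_tr {x : Matrix n n K} (hx : In e1 e2 x) : In e2 e1 (-xᵀ) where
  l := by rw [Matrix.mul_neg, hx.tl]
  r := by rw [Matrix.neg_mul, hx.tr]

/-- `(2,1)` block of `mu` -/
theorem mu21 (h : Bk al D g e1 e2) (hx : ∀ r, In e1 e2 (x r))
    (hcg : g * c = cᵀ * g) (hcig : g * ci = ciᵀ * g) (hca : ∀ r, al r * c = c * al r)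
    (hc12 : c * e1 = e1 * c) (hc22 : c * e2 = e2 * c)
    (hci1 : ci * e1 = e1 * ci) (hci2 : ci * e2 = e2 * ci)
    (hc1 : c * ci = 1) (hc2 : ci * c = 1) (r : Fin 3)
    (hal' : e2 * al' r * e1 = 0) {z : Matrix n n K} {k : Matrix n n K} (hk : k = e2 * π * e1)
    (hz : e2 * z * e1 = c * k * ci - k)
    (heq : (k - x r * g) * (al r * (c * c)) = al r * (c * c) * (k - x r * g)) :
    e2 * mu al g c ci π z al' (fun r => x r - (x r)ᵀ) r * e1 = (k - ci * k * c) * al r := by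
  have e0 : (fun r => x r - (x r)ᵀ) = fun r => -(x r)ᵀ - (-(x r)ᵀ)ᵀ := by
    funext r
    rw [transpose_neg, transpose_transpose]
    abel
  rw [e0, mu12 h.swap (fun r => (hx r).neg_tr) hcg hcig hca hc22 hc12 hci2 hci1 hc1 hc2 r hal' hk
    hz (by
      rw [transpose_neg, transpose_transpose, Matrix.neg_mul, ← sub_eq_add_neg]
      exact heq), ← Matrix.neg_mul, neg_sub]

/-- the argument of the FIRST derivative: `Y - ci Y cᵀ = xX + xYᵀ` -/
theorem fam (r : Fin 3) : (x r - (x r)ᵀ) - ci * (x r - (x r)ᵀ) * cᵀ =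
    (x r - ci * x r * cᵀ) + (c * x r * ciᵀ - x r)ᵀ := by
  rw [transpose_sub, transpose_mul, transpose_mul, transpose_transpose, Matrix.mul_sub,
    Matrix.sub_mul, ← Matrix.mul_assoc ci (x r)ᵀ cᵀ]
  abel

end first

section second

variable {π zY z : Matrix n n K} {X y y' : Matrix n n K} {b b' k : Matrix n n K}

/-- the SECOND derivative family (one arm) -/
def sec (g π zY z X y y' : Matrix n n K) : Matrix n n K :=
  y' + π * y + y * πᵀ + y * zYᵀ - (X - Xᵀ) * g * y + (X - Xᵀ) * zᵀ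

/-- **`(1,1)` block of the second derivative**: the product -/
theorem sec11 (h : Bk al D g e1 e2) (hX : In e1 e2 X) (hy : In e1 e2 y) (hy' : In e1 e2 y')
    (hπ : e1 * π * e2 = b) (hz : e1 * z * e2 = -b') :
    e1 * sec g π zY z X y y' * e1ᵀ = b * y + Xᵀ * g * y + Xᵀ * b'ᵀ := by
  have t0 : e1 * y' * e1ᵀ = 0 := by rw [hy'.e1x h, Matrix.zero_mul]
  have t1 : e1 * (π * y) * e1ᵀ = b * y := by
    calc e1 * (π * y) * e1ᵀ = e1 * π * (y * e1ᵀ) := by simp only [Matrix.mul_assoc]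
      _ = e1 * π * (e2 * y) := by rw [hy.r, hy.l]
      _ = _ := by rw [← hπ]; simp only [Matrix.mul_assoc]
  have t2 : ∀ Z : Matrix n n K, e1 * (y * Z) * e1ᵀ = 0 := by
    intro Z
    rw [← Matrix.mul_assoc e1, hy.e1x h, Matrix.zero_mul, Matrix.zero_mul]
  have t3 : e1 * ((X - Xᵀ) * g * y) * e1ᵀ = -(Xᵀ * g * y) := by
    calc e1 * ((X - Xᵀ) * g * y) * e1ᵀ = (e1 * X - e1 * Xᵀ) * g * (y * e1ᵀ) := by
          rw [← Matrix.mul_sub]; simp only [Matrix.mul_assoc]
      _ = _ := by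
          rw [hX.e1x h, hX.tl, hy.r, zero_sub, Matrix.neg_mul, Matrix.neg_mul]
  have t4 : e1 * ((X - Xᵀ) * zᵀ) * e1ᵀ = Xᵀ * b'ᵀ := by
    have e : Xᵀ * zᵀ * e1ᵀ = -(Xᵀ * b'ᵀ) := by
      calc Xᵀ * zᵀ * e1ᵀ = (e1 * z * X)ᵀ := by
            simp only [transpose_mul, Matrix.mul_assoc]
        _ = (e1 * z * e2 * X)ᵀ := by rw [Matrix.mul_assoc _ e2, hX.l]
        _ = _ := by rw [hz, transpose_mul, transpose_neg, Matrix.mul_neg]
    calc e1 * ((X - Xᵀ) * zᵀ) * e1ᵀ = (e1 * X - e1 * Xᵀ) * zᵀ * e1ᵀ := by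
          rw [← Matrix.mul_sub]; simp only [Matrix.mul_assoc]
      _ = _ := by
          rw [hX.e1x h, hX.tl, zero_sub, Matrix.neg_mul, Matrix.neg_mul, e, neg_neg]
  unfold sec
  rw [Matrix.mul_add e1, Matrix.mul_sub e1, Matrix.mul_add e1, Matrix.mul_add e1, Matrix.mul_add e1,
    Matrix.add_mul _ _ e1ᵀ, Matrix.sub_mul _ _ e1ᵀ, Matrix.add_mul _ _ e1ᵀ, Matrix.add_mul _ _ e1ᵀ,
    Matrix.add_mul _ _ e1ᵀ, t0, t1, t2, t2, t3, t4]
  abel

/-- `(2,2)` block of the second derivative -/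
theorem sec22 (h : Bk al D g e1 e2) (hX : In e1 e2 X) (hy : In e1 e2 y) (hy' : In e1 e2 y')
    (hπ : e2 * π * e1 = k) (hzY : e2 * zY * e1 = -k) (hz : e2 * z * e1 = 0) :
    e2 * sec g π zY z X y y' * e2ᵀ = 0 := by
  have t0 : e2 * y' * e2ᵀ = 0 := by rw [Matrix.mul_assoc, hy'.xe2 h, Matrix.mul_zero]
  have t1 : ∀ Z : Matrix n n K, e2 * (Z * y) * e2ᵀ = 0 := by
    intro Z
    calc e2 * (Z * y) * e2ᵀ = e2 * Z * (y * e2ᵀ) := by simp only [Matrix.mul_assoc]
      _ = 0 := by rw [hy.xe2 h, Matrix.mul_zero]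
  have t2 : ∀ Z : Matrix n n K, e2 * (y * Zᵀ) * e2ᵀ = y * (e2 * Z * e1)ᵀ := by
    intro Z
    calc e2 * (y * Zᵀ) * e2ᵀ = (e2 * y) * Zᵀ * e2ᵀ := by simp only [Matrix.mul_assoc]
      _ = (y * e1ᵀ) * Zᵀ * e2ᵀ := by rw [hy.l, hy.r]
      _ = _ := by simp only [transpose_mul, Matrix.mul_assoc]
  have t4 : e2 * ((X - Xᵀ) * zᵀ) * e2ᵀ = 0 := by
    calc e2 * ((X - Xᵀ) * zᵀ) * e2ᵀ = (e2 * X - e2 * Xᵀ) * zᵀ * e2ᵀ := by
          rw [← Matrix.mul_sub]; simp only [Matrix.mul_assoc]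
      _ = (X * e1ᵀ) * zᵀ * e2ᵀ := by rw [hX.l, hX.te2 h, hX.r, sub_zero]
      _ = X * (e2 * z * e1)ᵀ := by simp only [transpose_mul, Matrix.mul_assoc]
      _ = 0 := by rw [hz, transpose_zero, Matrix.mul_zero]
  unfold sec
  rw [Matrix.mul_add e2, Matrix.mul_sub e2, Matrix.mul_add e2, Matrix.mul_add e2, Matrix.mul_add e2,
    Matrix.add_mul _ _ e2ᵀ, Matrix.sub_mul _ _ e2ᵀ, Matrix.add_mul _ _ e2ᵀ, Matrix.add_mul _ _ e2ᵀ,
    Matrix.add_mul _ _ e2ᵀ, t0, t1, t1, t2, t2, t4, hπ, hzY, transpose_neg, Matrix.mul_neg]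
  abel

/-- the remaining block of the pair `(2,1)` -/
theorem sec21 (h : Bk al D g e1 e2) (hX : In e1 e2 X) (hy : In e1 e2 y) :
    e2 * sec g π zY z X y y' * e1ᵀ = e2 * y' * e1ᵀ + (e2 * π * e2) * y + y * (e1 * π * e1)ᵀ +
      y * (e1 * zY * e1)ᵀ + X * (e1 * z * e1)ᵀ := by
  have t1 : e2 * (π * y) * e1ᵀ = (e2 * π * e2) * y := by
    calc e2 * (π * y) * e1ᵀ = e2 * π * (y * e1ᵀ) := by simp only [Matrix.mul_assoc]
      _ = e2 * π * (e2 * y) := by rw [hy.r, hy.l]
      _ = _ := by simp only [Matrix.mul_assoc]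
  have t2 : ∀ Z : Matrix n n K, e2 * (y * Zᵀ) * e1ᵀ = y * (e1 * Z * e1)ᵀ := by
    intro Z
    calc e2 * (y * Zᵀ) * e1ᵀ = (e2 * y) * Zᵀ * e1ᵀ := by simp only [Matrix.mul_assoc]
      _ = (y * e1ᵀ) * Zᵀ * e1ᵀ := by rw [hy.l, hy.r]
      _ = _ := by simp only [transpose_mul, Matrix.mul_assoc]
  have t3 : e2 * ((X - Xᵀ) * g * y) * e1ᵀ = 0 := by
    calc e2 * ((X - Xᵀ) * g * y) * e1ᵀ = (e2 * X - e2 * Xᵀ) * g * (y * e1ᵀ) := by
          rw [← Matrix.mul_sub]; simp only [Matrix.mul_assoc]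
      _ = (X * e1ᵀ) * g * y := by rw [hX.l, hX.te2 h, hX.r, hy.r, sub_zero]
      _ = X * (g * e1) * y := by rw [h.g1]; simp only [Matrix.mul_assoc]
      _ = X * g * (e1 * y) := by simp only [Matrix.mul_assoc]
      _ = 0 := by rw [hy.e1x h, Matrix.mul_zero]
  have t4 : e2 * ((X - Xᵀ) * zᵀ) * e1ᵀ = X * (e1 * z * e1)ᵀ := by
    calc e2 * ((X - Xᵀ) * zᵀ) * e1ᵀ = (e2 * X - e2 * Xᵀ) * zᵀ * e1ᵀ := by
          rw [← Matrix.mul_sub]; simp only [Matrix.mul_assoc]
      _ = (X * e1ᵀ) * zᵀ * e1ᵀ := by rw [hX.l, hX.te2 h, hX.r, sub_zero]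
      _ = _ := by simp only [transpose_mul, Matrix.mul_assoc]
  unfold sec
  rw [Matrix.mul_add e2, Matrix.mul_sub e2, Matrix.mul_add e2, Matrix.mul_add e2, Matrix.mul_add e2,
    Matrix.add_mul _ _ e1ᵀ, Matrix.sub_mul _ _ e1ᵀ, Matrix.add_mul _ _ e1ᵀ, Matrix.add_mul _ _ e1ᵀ,
    Matrix.add_mul _ _ e1ᵀ, t1, t2, t2, t3, t4, sub_zero]

end second

section frame

open Crest.Agent.R172.FO Crest.Agent.R172.FrmB

variable {ι : Type*} [Fintype ι] [DecidableEq ι] {δ : Type*} [Fintype δ] [DecidableEq δ]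
variable {k : Type*} [Field k] [Algebra k K]
variable {arm : δ → Fin 3} {J : Matrix ι ι K} {B : Matrix δ δ K}
  {N W : Submodule K (Matrix ι δ K)} {F G : Matrix ι δ K} {p : Matrix ι n K}

/-- the value of the correction does not depend on the choice of `π` in `dp = p π` -/
theorem val_of {π π0 D' ci : Matrix n n K} {t : K} (b1 : Gᵀ * J * p = Fᵀ * J * p * D)
    (hp : p * π = p * π0) :
    Fᵀ * J * p * (t • ((D * π - π * D - D') * ci)) =
      Fᵀ * J * p * (t • ((D * π0 - π0 * D - D') * ci)) := by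
  have e : ∀ ρ : Matrix n n K, Fᵀ * J * p * (t • ((D * ρ - ρ * D - D') * ci)) =
      t • ((Gᵀ * J * (p * ρ) - Fᵀ * J * (p * ρ) * D - Fᵀ * J * p * D') * ci) := by
    intro ρ
    rw [Matrix.mul_smul, ← Matrix.mul_assoc (Fᵀ * J * p), Matrix.mul_sub, Matrix.mul_sub,
      ← Matrix.mul_assoc (Fᵀ * J * p) D ρ, ← b1]
    simp only [Matrix.mul_assoc]
  rw [e, e, hp]

/-- **the explicit left action of the correction `w = dF - F ξᵀ`** for any `π` with `dp = p π` -/
theorem mu_of (hD : Data k arm J B N W) (hal : ∀ r, Phi arm J B F r * p = p * al r)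
    {c ci π z : Matrix n n K} {d : Derivation k K K} {ξ : Matrix δ δ K} {w : Matrix ι δ K}
    {Y : Fin 3 → Matrix n n K}
    (hw : w = F.map d - F * ξᵀ) (hxi : F * ξᵀ = io arm J F p (fun r => ci * Y r * cᵀ))
    (hp : p.map d = p * π) (hv : wᵀ * J * p = Fᵀ * J * p * z) (r : Fin 3) :
    w * E K arm r * B * (Fᵀ * J * p) =
      p * mu al (pᵀ * J * p) c ci π z (fun r => (al r).map d) Y r := by
  have e0 : F * E K arm r * B * (Fᵀ * J * p) = p * al r := by
    rw [← hal]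
    unfold Phi M
    simp only [Matrix.mul_assoc]
  have h1 := congrArg (fun A : Matrix ι n K => A.map d) e0
  simp only [map_mul_der, map_transpose_der, hD.J_const, hD.B_const, E_map_der, hp,
    Matrix.mul_zero, add_zero] at h1
  have e1 : F.map d = w + io arm J F p (fun r => ci * Y r * cᵀ) := by
    rw [← hxi, hw]; abel
  have i1 := FrmA.io_img hal (fun r => ci * Y r * cᵀ) r
  have i2 := FrmA.io_img' hD hal (fun r => ci * Y r * cᵀ) r
  have i3 : F * E K arm r * B * (wᵀ * J * p) = p * (al r * z) := by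
    rw [hv, ← Matrix.mul_assoc _ (Fᵀ * J * p), e0, Matrix.mul_assoc]
  have i4 : F * E K arm r * B * (Fᵀ * J * (p * π)) = p * (al r * π) := by
    rw [← Matrix.mul_assoc (Fᵀ * J), ← Matrix.mul_assoc _ (Fᵀ * J * p), e0, Matrix.mul_assoc]
  rw [e1] at h1
  have h3 : w * E K arm r * B * (Fᵀ * J * p) =
      p * π * al r + p * (al r).map d -
      io arm J F p (fun r => ci * Y r * cᵀ) * E K arm r * B * (Fᵀ * J * p) -
      F * E K arm r * B * (wᵀ * J * p) -
      F * E K arm r * B * ((io arm J F p (fun r => ci * Y r * cᵀ))ᵀ * J * p) -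
      F * E K arm r * B * (Fᵀ * J * (p * π)) := by
    rw [← h1]
    simp only [transpose_add, Matrix.add_mul, Matrix.mul_add]
    abel
  rw [i1, i2, i3, i4] at h3
  rw [h3]
  unfold mu
  simp only [Matrix.mul_add, Matrix.mul_sub, Matrix.mul_assoc]

end frame

end Crest.Agent.R172.RDdec
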