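import Crest.Agent.R172.RD0
import Crest.Agent.R172.RJM

/-!
Row 172 (S0260), (T0), any radical, any `D`: RD5, the diagonal blocks from `RJM.main`.
-/

set_option autoImplicit false
set_option linter.unusedSectionVars false

namespace Crest.Agent.R172.RDd513

open Matrix Module TensorProduct

section abs

variable {K : Type*} [Field K] {n : Type*} [Fintype n] [DecidableEq n]
variable {M : Type*} [AddCommGroup M] [Module K M]

/-- tensors as matrices -/
noncomputable def mx (P2 P1 : Submodule K (n → K)) : P2 ⊗[K] P1 →ₗ[K] Matrix n n K :=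
  TensorProduct.lift (LinearMap.mk₂ K (fun (x : P2) (y : P1) => vecMulVec (x : n → K) (y : n → K))
    (fun x x' y => by rw [Submodule.coe_add, add_vecMulVec])
    (fun c x y => by rw [Submodule.coe_smul, smul_vecMulVec])
    (fun x y y' => by rw [Submodule.coe_add, vecMulVec_add])
    (fun c x y => by rw [Submodule.coe_smul, vecMulVec_smul]))

variable {P2 P1 : Submodule K (n → K)}

@[simp] theorem mx_tmul (x : P2) (y : P1) :
    mx P2 P1 (x ⊗ₜ y) = vecMulVec (x : n → K) (y : n → K) := rfl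

theorem mx_lTensor {A1 : End K P1} {A : Matrix n n K} (hA : ∀ x, (A1 x : n → K) = A *ᵥ x)
    (z : P2 ⊗[K] P1) : mx P2 P1 (LinearMap.lTensor P2 A1 z) = mx P2 P1 z * Aᵀ := by
  induction z using TensorProduct.induction_on with
  | zero => simp
  | tmul x y =>
    rw [LinearMap.lTensor_tmul, mx_tmul, mx_tmul, hA, vecMulVec_mul, vecMul_transpose]
  | add x y hx hy => rw [map_add, map_add, hx, hy, map_add, Matrix.add_mul]

theorem mx_rTensor {A2 : End K P2} {A : Matrix n n K} (hA : ∀ x, (A2 x : n → K) = A *ᵥ x)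
    (z : P2 ⊗[K] P1) : mx P2 P1 (LinearMap.rTensor P1 A2 z) = A * mx P2 P1 z := by
  induction z using TensorProduct.induction_on with
  | zero => simp
  | tmul x y =>
    rw [LinearMap.rTensor_tmul, mx_tmul, mx_tmul, hA, mul_vecMulVec]
  | add x y hx hy => rw [map_add, map_add, hx, hy, map_add, Matrix.mul_add]

theorem mx_DD {A1 : Fin 3 → End K P1} {A2 : Fin 3 → End K P2} {A : Fin 3 → Matrix n n K}
    (h1 : ∀ s x, (A1 s x : n → K) = A s *ᵥ x) (h2 : ∀ s x, (A2 s x : n → K) = A s *ᵥ x)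
    (c : K) (t : Fin 3) (z : P2 ⊗[K] P1) :
    mx P2 P1 (RJM.DD A1 A2 c t z) = mx P2 P1 z * (A t)ᵀ - c • (A t * mx P2 P1 z) := by
  change mx P2 P1 (LinearMap.lTensor P2 (A1 t) z - c • LinearMap.rTensor P1 (A2 t) z) = _
  rw [map_sub, map_smul, mx_lTensor (h1 t), mx_rTensor (h2 t)]

/-- the form of the block -/
noncomputable def gf (P2 : Submodule K (n → K)) (g : Matrix n n K) : P2 →ₗ[K] P2 →ₗ[K] K :=
  LinearMap.mk₂ K (fun (x y : P2) => (x : n → K) ⬝ᵥ (g *ᵥ (y : n → K)))
    (fun x x' y => by rw [Submodule.coe_add, add_dotProduct])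
    (fun c x y => by rw [Submodule.coe_smul, smul_dotProduct])
    (fun x y y' => by rw [Submodule.coe_add, mulVec_add, dotProduct_add])
    (fun c x y => by rw [Submodule.coe_smul, mulVec_smul, dotProduct_smul])

theorem gf_apply (g : Matrix n n K) (x y : P2) : gf P2 g x y = (x : n → K) ⬝ᵥ (g *ᵥ (y : n → K)) :=
  rfl

theorem coe_ev (g : Matrix n n K) (z : P2 ⊗[K] P1) (u : P2) :
    ((RJM.ev (gf P2 g) z u : P1) : n → K) = ((mx P2 P1 z)ᵀ * g) *ᵥ (u : n → K) := by
  induction z using TensorProduct.induction_on with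
  | zero => simp
  | tmul x y =>
    rw [RJM.ev_tmul, Submodule.coe_smul, mx_tmul, gf_apply, ← mulVec_mulVec]
    funext i
    simp only [Pi.smul_apply, smul_eq_mul, mulVec, dotProduct, transpose_apply, vecMulVec_apply,
      Finset.sum_mul]
    refine Finset.sum_congr rfl fun j _ => ?_
    ring
  | add x y hx hy =>
    rw [map_add, LinearMap.add_apply, Submodule.coe_add, hx, hy, map_add, transpose_add,
      Matrix.add_mul, add_mulVec]

/-- single-arm tensors -/
noncomputable def qq (P1 : Submodule K (n → K)) (t : Fin 3) :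
    P1 →ₗ[K] P1 →ₗ[K] (Fin 3 → Matrix n n K) :=
  LinearMap.mk₂ K (fun (x y : P1) => Pi.single t (vecMulVec (x : n → K) (y : n → K)))
    (fun x x' y => by rw [Submodule.coe_add, add_vecMulVec, Pi.single_add])
    (fun c x y => by rw [Submodule.coe_smul, smul_vecMulVec, Pi.single_smul])
    (fun x y y' => by rw [Submodule.coe_add, vecMulVec_add, Pi.single_add])
    (fun c x y => by rw [Submodule.coe_smul, vecMulVec_smul, Pi.single_smul])

theorem qq_apply (t : Fin 3) (x y : P1) :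
    qq P1 t x y = Pi.single t (vecMulVec (x : n → K) (y : n → K)) := rfl

theorem lift_left {b' : P2 →ₗ[K] P1} {b : Matrix n n K} (hb : ∀ x, (b' x : n → K) = b *ᵥ x)
    (t : Fin 3) (z : P2 ⊗[K] P1) :
    TensorProduct.lift ((qq P1 t) ∘ₗ b') z = Pi.single t (b * mx P2 P1 z) := by
  induction z using TensorProduct.induction_on with
  | zero => simp
  | tmul x y =>
    rw [TensorProduct.lift.tmul, LinearMap.comp_apply, qq_apply, hb, mx_tmul, mul_vecMulVec]
  | add x y hx hy => rw [map_add, hx, hy, map_add, Matrix.mul_add, Pi.single_add]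

theorem lift_right {b' : P2 →ₗ[K] P1} {b : Matrix n n K} (hb : ∀ x, (b' x : n → K) = b *ᵥ x)
    (t : Fin 3) (z : P2 ⊗[K] P1) :
    TensorProduct.lift ((qq P1 t).flip ∘ₗ b') z = Pi.single t ((mx P2 P1 z)ᵀ * bᵀ) := by
  induction z using TensorProduct.induction_on with
  | zero => simp
  | tmul x y =>
    rw [TensorProduct.lift.tmul, LinearMap.comp_apply, LinearMap.flip_apply, qq_apply, hb, mx_tmul,
      transpose_vecMulVec, vecMulVec_mul, vecMul_transpose]
  | add x y hx hy =>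
    rw [map_add, hx, hy, map_add, transpose_add, Matrix.add_mul, Pi.single_add]

/-- a family with its correction -/
structure DB (e1 e2 g : Matrix n n K) (al : Fin 3 → Matrix n n K) (π : (n → K) →ₗ[K] M)
    (c : K) (x : Fin 3 → Matrix n n K) (b : Matrix n n K) : Prop where
  bx : ∀ r, e2 * x r * e1ᵀ = x r
  bb : e1 * b * e2 = b
  rb : ∀ u, π (b *ᵥ u) = 0
  sum : ∑ r, (x r * (al r)ᵀ - c • (al r * x r)) = 0
  arm : ∀ r, g * (x r * (al r)ᵀ - c • (al r * x r)) * g = 0
  eb : ∀ r, al r * (b + (x r)ᵀ * g) = c • ((b + (x r)ᵀ * g) * al r)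

theorem mx_blk {e1 e2 : Matrix n n K} (hid1 : e1 * e1 = e1) (hid2 : e2 * e2 = e2)
    (z : LinearMap.range (toLin' e2) ⊗[K] LinearMap.range (toLin' e1)) :
    e2 * mx _ _ z * e1ᵀ = mx _ _ z := by
  induction z using TensorProduct.induction_on with
  | zero => simp
  | tmul x y =>
    obtain ⟨_, ⟨x, rfl⟩⟩ := x
    obtain ⟨_, ⟨y, rfl⟩⟩ := y
    rw [mx_tmul, mul_vecMulVec, vecMulVec_mul, vecMul_transpose]
    simp only [toLin'_apply, mulVec_mulVec, hid1, hid2]
  | add x y hx hy => rw [map_add, Matrix.mul_add, Matrix.add_mul, hx, hy]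

/-- restriction to the block -/
noncomputable def rs (e A : Matrix n n K) (h : e * A = A * e) :
    End K (LinearMap.range (toLin' e)) :=
  (toLin' A).restrict (by
    rintro _ ⟨x, rfl⟩
    exact ⟨A *ᵥ x, by simp only [toLin'_apply, mulVec_mulVec, h]⟩)

theorem rs_coe (e A : Matrix n n K) (h : e * A = A * e) (x : LinearMap.range (toLin' e)) :
    (rs e A h x : n → K) = A *ᵥ (x : n → K) := rfl

theorem rs_pow_coe (e A : Matrix n n K) (h : e * A = A * e) (k : ℕ)
    (x : LinearMap.range (toLin' e)) :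
    (((rs e A h) ^ k) x : n → K) = (A ^ k) *ᵥ (x : n → K) := by
  induction k with
  | zero => simp
  | succ k ih => rw [pow_succ', Module.End.mul_apply, rs_coe, ih, pow_succ', mulVec_mulVec]

theorem rs_words_coe (e : Matrix n n K) (al : Fin 3 → Matrix n n K)
    (h : ∀ s, e * al s = al s * e) (w : List (Fin 3)) (x : LinearMap.range (toLin' e)) :
    (((w.map fun s => rs e (al s) (h s)).prod x : LinearMap.range (toLin' e)) : n → K) =
      (w.map al).prod *ᵥ (x : n → K) := by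
  induction w with
  | nil => simp
  | cons s w ih =>
    rw [List.map_cons, List.prod_cons, Module.End.mul_apply, rs_coe, ih, List.map_cons,
      List.prod_cons, mulVec_mulVec]

theorem coe_of_range {e : Matrix n n K} (hid : e * e = e) (x : LinearMap.range (toLin' e)) :
    e *ᵥ (x : n → K) = x := by
  obtain ⟨_, ⟨x, rfl⟩⟩ := x
  simp only [toLin'_apply, mulVec_mulVec, hid]

/-- `e u` as an element of the block -/
noncomputable def el (e : Matrix n n K) (u : n → K) : LinearMap.range (toLin' e) :=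
  ⟨e *ᵥ u, ⟨u, rfl⟩⟩

theorem el_coe (e : Matrix n n K) (u : n → K) : (el e u : n → K) = e *ᵥ u := rfl

theorem top_of {e : Matrix n n K} {al : Fin 3 → Matrix n n K}
    (h : ∀ s, e * al s = al s * e) {ρ : Fin 3 → Matrix n n K} (hid : e * e = e)
    (hρ : ∑ s, al s * ρ s = 1) :
    ⨆ s, LinearMap.range (rs e (al s) (h s)) = ⊤ := by
  rw [eq_top_iff]
  intro x _
  have e1 : x = ∑ s, rs e (al s) (h s) (el e (ρ s *ᵥ (x : n → K))) := by
    apply Subtype.ext
    rw [Submodule.coe_sum]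
    simp only [rs_coe, el_coe, mulVec_mulVec]
    have e2 : ∀ s, al s * (e * ρ s) = e * (al s * ρ s) := fun s => by
      rw [← Matrix.mul_assoc, ← h s, Matrix.mul_assoc]
    simp only [e2]
    rw [← sum_mulVec, ← Matrix.mul_sum, hρ, Matrix.mul_one, coe_of_range hid]
  rw [e1]
  exact Submodule.sum_mem _ fun s _ => Submodule.mem_iSup_of_mem s ⟨_, rfl⟩

theorem gen_of {e : Matrix n n K} {al : Fin 3 → Matrix n n K} {π : (n → K) →ₗ[K] M}
    {l : Fin 3 → ℕ} (h : ∀ s, e * al s = al s * e) (hid : e * e = e)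
    (gen : ∀ S : Submodule K (n → K), (∀ s, ∀ v ∈ S, al s *ᵥ v ∈ S) →
      (∀ s u, (al s ^ l s) *ᵥ (e *ᵥ u) ∈ S) → ∀ u, π (e *ᵥ u) = 0 → e *ᵥ u ∈ S)
    (S : Submodule K (LinearMap.range (toLin' e))) (hS : ∀ s, ∀ v ∈ S, rs e (al s) (h s) v ∈ S)
    (hl : ∀ s p, ((rs e (al s) (h s)) ^ l s) p ∈ S) :
    (LinearMap.ker π).comap (LinearMap.range (toLin' e)).subtype ≤ S := by
  intro x hx
  have h1 := gen (S.map (LinearMap.range (toLin' e)).subtype)
    (by
      rintro s _ ⟨v, hv, rfl⟩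
      exact ⟨_, hS s v hv, rfl⟩)
    (by
      intro s u
      refine ⟨_, hl s (el e u), ?_⟩
      rw [Submodule.subtype_apply, rs_pow_coe, el_coe])
    (x : n → K)
    (by rw [coe_of_range hid]; exact hx)
  rw [coe_of_range hid] at h1
  obtain ⟨y, hy, hxy⟩ := h1
  have : y = x := Subtype.ext hxy
  rwa [this] at hy

theorem core {e1 e2 g : Matrix n n K} {al : Fin 3 → Matrix n n K} {π : (n → K) →ₗ[K] M}
    {l : Fin 3 → ℕ} {Q : Submodule K (Fin 3 → Matrix n n K)}
    (hid1 : e1 * e1 = e1) (hid2 : e2 * e2 = e2)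
    (c1 : ∀ s, e1 * al s = al s * e1) (c2 : ∀ s, e2 * al s = al s * e2)
    (perf : ∃ ρ : Fin 3 → Matrix n n K, ∑ s, al s * ρ s = 1)
    (hker : ∀ s u, π u = 0 → π (al s *ᵥ u) = 0)
    (kill : ∃ m0 : ℕ, ∀ w : List (Fin 3), w.length = m0 → ∀ u, π u = 0 →
      (w.map al).prod *ᵥ u = 0)
    (hl : ∀ s, 1 ≤ l s) (hnil : ∀ s u, π ((al s ^ l s) *ᵥ u) = 0)
    (gen1 : ∀ S : Submodule K (n → K), (∀ s, ∀ v ∈ S, al s *ᵥ v ∈ S) →
      (∀ s u, (al s ^ l s) *ᵥ (e1 *ᵥ u) ∈ S) → ∀ u, π (e1 *ᵥ u) = 0 → e1 *ᵥ u ∈ S)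
    (gen2 : ∀ S : Submodule K (n → K), (∀ s, ∀ v ∈ S, al s *ᵥ v ∈ S) →
      (∀ s u, (al s ^ l s) *ᵥ (e2 *ᵥ u) ∈ S) → ∀ u, π (e2 *ᵥ u) = 0 → e2 *ᵥ u ∈ S)
    (gk : ∀ u, π u = 0 → g *ᵥ u = 0) (gs : gᵀ = g) (gal : ∀ s, g * al s = (al s)ᵀ * g)
    (ge : e2ᵀ * g = g * e2)
    (top : ∀ s, ∃ u u' : n → K,
      (e2 *ᵥ u) ⬝ᵥ (g *ᵥ ((al s ^ (l s - 1)) *ᵥ (e2 *ᵥ u'))) ≠ 0)
    {Λ : Set K} (hΛ : Λ.Infinite) (h0 : (0 : K) ∉ Λ)
    (hex : ∀ c ∈ Λ, ∀ x : Fin 3 → Matrix n n K, (∀ r, e2 * x r * e1ᵀ = x r) →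
      ∑ r, (x r * (al r)ᵀ - c • (al r * x r)) = 0 →
      (∀ r, g * (x r * (al r)ᵀ - c • (al r * x r)) * g = 0) →
      ∃ b, e1 * b * e2 = b ∧ (∀ u, π (b *ᵥ u) = 0) ∧
        ∀ r, al r * (b + (x r)ᵀ * g) = c • ((b + (x r)ᵀ * g) * al r))
    (hrel : ∀ c ∈ Λ, ∀ c' ∈ Λ, ∀ x y b b', DB e1 e2 g al π c x b → DB e1 e2 g al π c' y b' →
      (fun r => b * y r + (x r)ᵀ * g * y r + (x r)ᵀ * b'ᵀ) ∈ Q) :
    (∀ s r, π (e1 *ᵥ r) = 0 → ∀ y,
      (Pi.single s (vecMulVec (e1 *ᵥ r) (e1 *ᵥ y)) : Fin 3 → Matrix n n K) ∈ Q ∧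
      (Pi.single s (vecMulVec (e1 *ᵥ y) (e1 *ᵥ r)) : Fin 3 → Matrix n n K) ∈ Q) ∧
    (∀ s a a', a + a' + 1 = l s → ∀ y y' : n → K,
      (Pi.single s (vecMulVec ((al s ^ a) *ᵥ (e1 *ᵥ y)) ((al s ^ a') *ᵥ (e1 *ᵥ y'))) :
        Fin 3 → Matrix n n K) ∈ Q) := by
  obtain ⟨ρ, hρ⟩ := perf
  obtain ⟨m0, hm0⟩ := kill
  set P1 := LinearMap.range (toLin' e1) with hP1
  set P2 := LinearMap.range (toLin' e2) with hP2
  set R1 : Submodule K P1 := (LinearMap.ker π).comap P1.subtype with hR1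
  set R2 : Submodule K P2 := (LinearMap.ker π).comap P2.subtype with hR2
  set A1 : Fin 3 → End K P1 := fun s => rs e1 (al s) (c1 s) with hA1
  set A2 : Fin 3 → End K P2 := fun s => rs e2 (al s) (c2 s) with hA2
  have a1c : ∀ s x, (A1 s x : n → K) = al s *ᵥ x := fun s x => rfl
  have a2c : ∀ s x, (A2 s x : n → K) = al s *ᵥ x := fun s x => rfl
  have mR1 : ∀ x : P1, x ∈ R1 ↔ π (x : n → K) = 0 := fun x => Iff.rfl
  have mR2 : ∀ x : P2, x ∈ R2 ↔ π (x : n → K) = 0 := fun x => Iff.rfl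
  -- the defect is killed
  have hrad : ∀ z ∈ (RJM.RT R2 ⊔ RJM.TR R1 : Submodule K (P2 ⊗[K] P1)),
      g * mx P2 P1 z * g = 0 := by
    intro z hz
    have hle : (RJM.RT R2 ⊔ RJM.TR R1 : Submodule K (P2 ⊗[K] P1)) ≤
        LinearMap.ker ((LinearMap.mulRight K g ∘ₗ LinearMap.mulLeft K g) ∘ₗ mx P2 P1) := by
      refine sup_le (Submodule.span_le.2 ?_) (Submodule.span_le.2 ?_)
      · rintro _ ⟨r, hr, y, rfl⟩
        change g * mx P2 P1 (r ⊗ₜ y) * g = 0
        rw [mx_tmul, mul_vecMulVec, gk _ ((mR2 r).1 hr), zero_vecMulVec, Matrix.zero_mul]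
      · rintro _ ⟨y, r, hr, rfl⟩
        change g * mx P2 P1 (y ⊗ₜ r) * g = 0
        rw [mx_tmul, Matrix.mul_assoc, vecMulVec_mul, ← gs, vecMul_transpose,
          gk _ ((mR1 r).1 hr), vecMulVec_zero, Matrix.mul_zero]
    exact hle hz
  have hExM : ∀ c x, RJM.Ex A1 A2 R1 R2 c x →
      (∀ r, e2 * mx P2 P1 (x r) * e1ᵀ = mx P2 P1 (x r)) ∧
      (∑ r, (mx P2 P1 (x r) * (al r)ᵀ - c • (al r * mx P2 P1 (x r))) = 0) ∧
      (∀ r, g * (mx P2 P1 (x r) * (al r)ᵀ - c • (al r * mx P2 P1 (x r))) * g = 0) := by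
    intro c x hx
    refine ⟨fun r => mx_blk hid1 hid2 _, ?_, fun r => ?_⟩
    · have := congrArg (mx P2 P1) hx.sum
      rw [map_sum, map_zero] at this
      rw [← this]
      exact Finset.sum_congr rfl fun r _ => (mx_DD a1c a2c c r (x r)).symm
    · rw [← mx_DD a1c a2c c r (x r)]
      exact hrad _ (hx.arm r)
  have hmain := RJM.main (K := K) (P1 := P1) (P2 := P2) (E := Fin 3 → Matrix n n K) (τ := Fin 3)
    (A := A1) (B := A2) (R1 := R1) (R2 := R2) (m := m0) (l := l) (g := gf P2 g) (eps := 1)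
    (Λ := Λ) (a1 := -1) (a2 := -1) (a3 := 1)
    (top_of c1 hid1 hρ) (top_of c2 hid2 hρ)
    (fun s r hr => hker s _ hr) (fun s r hr => hker s _ hr)
    (fun w hw r hr => Subtype.ext (by rw [rs_words_coe]; exact hm0 w hw _ hr))
    (fun w hw r hr => Subtype.ext (by rw [rs_words_coe]; exact hm0 w hw _ hr))
    hl
    (fun s p => by rw [mR1]; rw [rs_pow_coe]; exact hnil s _)
    (fun s p => by rw [mR2]; rw [rs_pow_coe]; exact hnil s _)
    (gen_of c1 hid1 gen1) (gen_of c2 hid2 gen2)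
    one_ne_zero
    (fun r hr p => by
      rw [gf_apply, dotProduct_mulVec, ← gs, vecMul_transpose, gk _ ((mR2 r).1 hr),
        zero_dotProduct])
    (fun r hr p => by rw [gf_apply, gk _ ((mR2 r).1 hr), dotProduct_zero])
    (fun t p p' => by
      rw [gf_apply, gf_apply, one_mul, a2c, a2c, mulVec_mulVec, gal, ← mulVec_mulVec,
        dotProduct_mulVec (p : n → K) (al t)ᵀ, vecMul_transpose])
    (fun s => by
      obtain ⟨u, u', hu⟩ := top s
      refine ⟨el e2 u', el e2 u, ?_⟩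
      rw [gf_apply, rs_pow_coe, el_coe, el_coe]
      intro h1
      apply hu
      rw [dotProduct_mulVec, ← mulVec_transpose, gs, dotProduct_comm]
      exact h1)
    hΛ h0 (qq P1) Q (neg_ne_zero.2 one_ne_zero) (neg_ne_zero.2 one_ne_zero) one_ne_zero
    (by
      intro c hc x hx
      obtain ⟨h1, h2, h3⟩ := hExM c x hx
      obtain ⟨b, hb1, hb2, hb3⟩ := hex c hc (fun r => mx P2 P1 (x r)) h1 h2 h3
      have hbe : ∀ u : n → K, e1 *ᵥ (b *ᵥ u) = b *ᵥ u := by
        intro u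
        rw [← hb1, mulVec_mulVec, ← Matrix.mul_assoc, ← Matrix.mul_assoc, hid1]
      set b' : P2 →ₗ[K] P1 := ((toLin' (-b)) ∘ₗ P2.subtype).codRestrict P1
        (fun u => ⟨-(b *ᵥ (u : n → K)), by
          simp only [LinearMap.comp_apply, Submodule.subtype_apply, toLin'_apply, neg_mulVec,
            mulVec_neg, hbe]⟩) with hb'
      have cb : ∀ u, (b' u : n → K) = -(b *ᵥ (u : n → K)) := by
        intro u
        simp [hb']
      refine ⟨b', ?_, ?_⟩
      · intro p
        rw [mR1, cb, map_neg, hb2, neg_zero]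
      · intro t p
        apply Subtype.ext
        have h4 := congrArg (fun A => A *ᵥ (p : n → K)) (hb3 t)
        simp only [Matrix.mul_add, Matrix.add_mul, smul_add, add_mulVec, smul_mulVec] at h4
        rw [Submodule.coe_sub, Submodule.coe_sub, Submodule.coe_smul, Submodule.coe_smul, a1c,
          a1c, cb, cb, a2c, coe_ev, coe_ev, a2c, one_mul]
        simp only [mulVec_neg, mulVec_mulVec, smul_neg]
        rw [← sub_eq_zero] at h4 ⊢
        rw [← neg_eq_zero, ← h4]
        simp only [Matrix.mul_assoc]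
        abel)
    (by
      intro c hc c' hc' x b x' b' hx hb hx' hb'
      have key : ∀ {c : K} {x : Fin 3 → P2 ⊗[K] P1} {b : P2 →ₗ[K] P1}, RJM.Ex A1 A2 R1 R2 c x →
          RJM.Cor A1 A2 R1 (gf P2 g) 1 c x b →
          ∃ bm : Matrix n n K, (∀ u, (b u : n → K) = (-bm) *ᵥ u) ∧
            DB e1 e2 g al π c (fun r => mx P2 P1 (x r)) bm := by
        intro c x b hx hb
        obtain ⟨h1, h2, h3⟩ := hExM c x hx
        set bl : (n → K) →ₗ[K] (n → K) := P1.subtype ∘ₗ b ∘ₗ (toLin' e2).rangeRestrict with hbl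
        have hbl' : ∀ u, bl u = (b (el e2 u) : n → K) := fun u => rfl
        have hm : ∀ u, (LinearMap.toMatrix' bl) *ᵥ u = bl u := fun u => by
          rw [← toLin'_apply, toLin'_toMatrix']
        have hel : ∀ u : P2, el e2 (u : n → K) = u := fun u => Subtype.ext (coe_of_range hid2 u)
        have hel2 : ∀ u : n → K, el e2 (e2 *ᵥ u) = el e2 u := fun u => Subtype.ext (by
          rw [el_coe, el_coe, mulVec_mulVec, hid2])
        refine ⟨-(LinearMap.toMatrix' bl), ?_, ?_⟩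
        · intro u
          rw [neg_neg, hm, hbl', hel]
        · refine ⟨h1, ?_, ?_, h2, h3, ?_⟩
          · refine toLin'.injective (LinearMap.ext fun u => ?_)
            rw [toLin'_apply, toLin'_apply, ← mulVec_mulVec, ← mulVec_mulVec, neg_mulVec,
              neg_mulVec, hm, hm, hbl', hbl', mulVec_neg, coe_of_range hid1, hel2]
          · intro u
            rw [neg_mulVec, hm, hbl', map_neg]
            have := hb.mem (el e2 u)
            rw [mR1] at this
            rw [this, neg_zero]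
          · intro r
            refine toLin'.injective (LinearMap.ext fun u => ?_)
            have h5 : (mx P2 P1 (x r))ᵀ * g * e2 = (mx P2 P1 (x r))ᵀ * g := by
              have h6 : e2 * mx P2 P1 (x r) = mx P2 P1 (x r) := by
                conv_lhs => rw [← h1 r]
                rw [← Matrix.mul_assoc, ← Matrix.mul_assoc, hid2, h1 r]
              rw [Matrix.mul_assoc, ← ge, ← Matrix.mul_assoc, ← transpose_mul, h6]
            have h8 : A2 r (el e2 u) = el e2 (al r *ᵥ u) := Subtype.ext (by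
              rw [a2c, el_coe, el_coe, mulVec_mulVec, mulVec_mulVec, c2])
            have h9 : ∀ v : n → K, ((RJM.ev (gf P2 g) (x r) (el e2 v) : P1) : n → K) =
                ((mx P2 P1 (x r))ᵀ * g) *ᵥ v := fun v => by
              rw [coe_ev, el_coe, mulVec_mulVec, h5]
            have h7 := congrArg (fun u : P1 => (u : n → K)) (hb.eq r (el e2 u))
            rw [h8] at h7
            simp only [Submodule.coe_sub, Submodule.coe_smul, a1c, h9, one_mul] at h7
            rw [← hbl', ← hbl', ← hm, ← hm] at h7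
            rw [toLin'_apply, toLin'_apply]
            simp only [Matrix.mul_add, Matrix.add_mul, smul_add, add_mulVec, smul_mulVec,
              ← mulVec_mulVec, neg_mulVec, mulVec_neg, smul_neg]
            simp only [← mulVec_mulVec] at h7
            rw [← sub_eq_zero] at h7 ⊢
            rw [← neg_eq_zero, ← h7]
            abel
      obtain ⟨bm, hbm, dbm⟩ := key hx hb
      obtain ⟨bm', hbm', dbm'⟩ := key hx' hb'
      have hfin := hrel c' hc' c hc _ _ _ _ dbm' dbm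
      have e0 : (∑ t, ((-1 : K) • TensorProduct.lift ((qq P1 t) ∘ₗ b') (x t)
        + (-1 : K) • TensorProduct.lift ((qq P1 t).flip ∘ₗ b) (x' t)
        + (1 : K) • TensorProduct.lift ((qq P1 t) ∘ₗ (RJM.ev (gf P2 g) (x' t))) (x t))) =
          fun r => bm' * mx P2 P1 (x r) + (mx P2 P1 (x' r))ᵀ * g * mx P2 P1 (x r) +
            (mx P2 P1 (x' r))ᵀ * bmᵀ := by
        have e3 : ∀ t : Fin 3, (-1 : K) • TensorProduct.lift ((qq P1 t) ∘ₗ b') (x t)
            + (-1 : K) • TensorProduct.lift ((qq P1 t).flip ∘ₗ b) (x' t)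
            + (1 : K) • TensorProduct.lift ((qq P1 t) ∘ₗ (RJM.ev (gf P2 g) (x' t))) (x t) =
            Pi.single t (bm' * mx P2 P1 (x t) + (mx P2 P1 (x' t))ᵀ * g * mx P2 P1 (x t) +
            (mx P2 P1 (x' t))ᵀ * bmᵀ) := by
          intro t
          rw [lift_left hbm', lift_right hbm, lift_left (coe_ev g (x' t)), Pi.single_add,
            Pi.single_add, transpose_neg, Matrix.neg_mul, Matrix.mul_neg, Pi.single_neg,
            Pi.single_neg]
          simp only [smul_neg, neg_smul, one_smul, neg_neg]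
          abel
        rw [Finset.sum_congr rfl fun t _ => e3 t]
        exact Finset.univ_sum_single _
      rw [e0]
      exact hfin)
  refine ⟨fun s r hr y => ?_, fun s a a' ha y y' => ?_⟩
  · exact hmain.1 s (el e1 r) hr (el e1 y)
  · have := hmain.2 s a a' ha (el e1 y) (el e1 y')
    rw [qq_apply, rs_pow_coe, rs_pow_coe, el_coe, el_coe] at this
    exact this

end abs

end Crest.Agent.R172.RDd513
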