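import Crest.Agent.R172.RDP
import Crest.Agent.R172.RDdiag513

/-!
Row 172 (S0260), (T0), any radical, any `D`: RD5, the diagonal blocks.
-/

set_option autoImplicit false
set_option linter.unusedSectionVars false

namespace Crest.Agent.R172.RD

open Matrix Module TensorProduct Crest.Agent.R172.FO Crest.Agent.R172.FrmB
open Crest.Agent.R172.Core (NS Tame)
open Crest.Agent.R172.PL (Wk)

variable {ι : Type*} [Fintype ι] [DecidableEq ι] {δ : Type*} [Fintype δ] [DecidableEq δ]
variable {n : Type*} [Fintype n] [DecidableEq n]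
variable {k K : Type*} [Field k] [Field K] [Algebra k K]
variable {M : Type*} [AddCommGroup M] [Module K M]
variable {m : Type*} [Fintype m] [DecidableEq m]
variable {arm : δ → Fin 3} {J : Matrix ι ι K} {B : Matrix δ δ K}
  {N W : Submodule K (Matrix ι δ K)} {F G : Matrix ι δ K} {p : Matrix ι n K}
  {al : Fin 3 → Matrix n n K} {tau : Matrix n n K}
  {β : LinearMap.BilinForm K M} {T : Module.End K M →ₗ[K] Module.End K M}
  {Ψ : Fin 3 → Module.End K M} {D : Module.End K M} {π : (n → K) →ₗ[K] M}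
  {e : m → Matrix n n K} {lam : m → K} {l : Fin 3 → ℕ} {TT : Set k}

/-- **RD5**: the diagonal blocks, from `RJM.main` -/
theorem diag [CharZero K] (h : Fr k arm J B N W F G p al tau β T Ψ D π e lam l TT) {i j : m}
    (hij : i ≠ j) (hH : HalvesP arm J B N W F p al T Ψ π e i j)
    (hS : SecondP arm J B N W F p al T Ψ π e i j) :
    DiagP arm J N W F p al T Ψ π e l i := by
  classical
  set g : Matrix n n K := pᵀ * J * p with hg
  obtain ⟨S, hSf, hS1⟩ := hH
  have gs : gᵀ = g := by
    rw [hg, transpose_mul, transpose_mul, transpose_transpose, h.ctx.data.J_symm,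
      Matrix.mul_assoc]
  have gk : ∀ u, π u = 0 → g *ᵥ u = 0 := by
    intro u hu
    have h1 : ∀ y : n → K, y ⬝ᵥ (g *ᵥ u) = 0 := by
      intro y
      rw [← h.cr.form, hu, map_zero]
    funext a
    have := h1 (Pi.single a 1)
    rwa [single_one_dotProduct] at this
  have gal : ∀ s, g * al s = (al s)ᵀ * g := by
    intro s
    have h1 : ∀ y y' : n → K, y ⬝ᵥ ((g * al s) *ᵥ y') = y ⬝ᵥ (((al s)ᵀ * g) *ᵥ y') := by
      intro y y'
      rw [← mulVec_mulVec y' g (al s), ← mulVec_mulVec y' (al s)ᵀ g,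
        dotProduct_mulVec y (al s)ᵀ, vecMul_transpose,
        ← h.cr.form, ← h.cr.form, ← h.cr.op, ← h.cr.op, h.cr.sa]
    refine toLin'.injective (LinearMap.ext fun y' => ?_)
    rw [toLin'_apply, toLin'_apply]
    funext a
    have := h1 (Pi.single a 1) y'
    rwa [single_one_dotProduct, single_one_dotProduct] at this
  have hker : ∀ s u, π u = 0 → π (al s *ᵥ u) = 0 := fun s u hu => by
    rw [← h.cr.op, hu, map_zero]
  have hpow : ∀ s (a : ℕ) u, π ((al s ^ a) *ᵥ u) = (Ψ s ^ a) (π u) := by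
    intro s a
    induction a with
    | zero => intro u; simp
    | succ a ih =>
      intro u
      rw [pow_succ, ← mulVec_mulVec, ih, ← h.cr.op, pow_succ, Module.End.mul_apply]
  refine RDd513.core (e1 := e i) (e2 := e j) (g := g) (al := al) (π := π) (l := l)
    (Q := RDEnd.Rel arm J N W F p π T 0 Ψ) (Λ := (S ∪ {0})ᶜ)
    (h.idem i) (h.idem j) (h.eal i) (h.eal j) h.ctx.perf hker h.kill h.lpos
    (fun s u => by rw [hpow, h.lnil, LinearMap.zero_apply]) (h.gen i) (h.gen j) gk gs gal
    (h.eg j) (h.top j) ?_ ?_ ?_ ?_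
  · exact (hSf.union (Set.finite_singleton 0)).infinite_compl
  · simp
  · intro c hc x h1 h2 h3
    have hc0 : c ≠ 0 := fun hc0 => hc (Or.inr hc0)
    obtain ⟨b, kk, hb1, -, hb2, -, hb3, -⟩ := h.hexS i j hij c hc0 x h1 h2 h3
    exact ⟨b, hb1, hb2, hb3⟩
  · intro c hc c' hc' x y b b' hx hy
    have hc0 : c ≠ 0 := fun hc0 => hc (Or.inr hc0)
    have hc0' : c' ≠ 0 := fun hc0 => hc' (Or.inr hc0)
    have hcS : c ∉ S := fun h => hc (Or.inl h)
    have hcS' : c' ∉ S := fun h => hc' (Or.inl h)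
    have dec : ∀ {c : K} {x : Fin 3 → Matrix n n K} {b : Matrix n n K}, c ≠ 0 →
        RDd513.DB (e i) (e j) g al π c x b →
        ∃ kk, Dec g π e i j (fun r => al r) (fun r => c • al r) x b kk := by
      intro c x b hc hx
      obtain ⟨-, kk, -, hk1, -, hk2, -, hk3⟩ := h.hexS i j hij c hc x hx.bx hx.sum hx.arm
      refine ⟨kk, ⟨hx.bx, hx.bb, hk1, hx.rb, hk2, ?_, ?_, ?_, ?_⟩⟩
      · simpa only [smul_mul_assoc] using hx.sum
      · intro r
        simpa only [smul_mul_assoc] using hx.arm r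
      · intro r
        simpa only [mul_smul_comm] using hx.eb r
      · intro r
        simpa only [smul_mul_assoc] using hk3 r
    obtain ⟨kk, hX⟩ := dec hc0 hx
    obtain ⟨kk', hY⟩ := dec hc0' hy
    exact hS c c' hc0 hc0' x y b kk b' kk' hX hY (hS1 c hcS x b kk hX).1 (hS1 c hcS x b kk hX).2
      (hS1 c' hcS' y b' kk' hY).1

end Crest.Agent.R172.RD
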