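import Crest.Agent.R172.RDoff680

/-!
Row 172 (S0260), (T0), RD5: the diagonal blocks, from `halves`, `second`, `hexS` and `RJM.main`.
-/

set_option autoImplicit false
set_option linter.unusedSectionVars false
set_option linter.unusedVariables false

namespace Crest.Agent.R172.RD.C680

open Matrix Module TensorProduct Crest.Agent.R172.FO Crest.Agent.R172.FrmB
open Crest.Agent.R172.Core (NS Tame)
open Crest.Agent.R172.PL (Wk)

variable {ι : Type*} [Fintype ι] [DecidableEq ι] {δ : Type*} [Fintype δ] [DecidableEq δ]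
variable {n : Type*} [Fintype n] [DecidableEq n]
variable {k K : Type*} [Field k] [Field K] [Algebra k K]
variable {M : Type*} [AddCommGroup M] [Module K M]
variable {m : Type*} [Fintype m] [DecidableEq m]

/-- projection on a block -/
noncomputable def prj (e : Matrix n n K) : (n → K) →ₗ[K] Blk e :=
  (Matrix.toLin' e).codRestrict (Blk e) (fun v => by rw [Matrix.toLin'_apply]; exact e_mem_Blk e v)

theorem prj_coe (e : Matrix n n K) (v : n → K) : ((prj e v : Blk e) : n → K) = e *ᵥ v := by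
  unfold prj
  rw [LinearMap.codRestrict_apply, Matrix.toLin'_apply]

theorem prj_self {e : Matrix n n K} (he : e * e = e) (v : Blk e) : prj e (v : n → K) = v := by
  apply Subtype.ext
  rw [prj_coe, (mem_Blk he).1 v.2]

/-- the matrix of a map between blocks -/
noncomputable def bm (e e' : Matrix n n K) (b : Blk e →ₗ[K] Blk e') : Matrix n n K :=
  LinearMap.toMatrix' ((Blk e').subtype ∘ₗ b ∘ₗ prj e)

theorem bm_mulVec (e e' : Matrix n n K) (b : Blk e →ₗ[K] Blk e') (v : n → K) :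
    bm e e' b *ᵥ v = (b (prj e v) : n → K) := by
  unfold bm
  rw [LinearMap.toMatrix'_mulVec]
  rfl

theorem bm_left {e e' : Matrix n n K} (he' : e' * e' = e') (b : Blk e →ₗ[K] Blk e') :
    e' * bm e e' b = bm e e' b := by
  apply Matrix.toLin'.injective
  apply LinearMap.ext
  intro v
  rw [Matrix.toLin'_apply, Matrix.toLin'_apply, ← Matrix.mulVec_mulVec, bm_mulVec,
    (mem_Blk he').1 (b (prj e v)).2]

theorem bm_right {e e' : Matrix n n K} (he : e * e = e) (b : Blk e →ₗ[K] Blk e') :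
    bm e e' b * e = bm e e' b := by
  apply Matrix.toLin'.injective
  apply LinearMap.ext
  intro v
  rw [Matrix.toLin'_apply, Matrix.toLin'_apply, ← Matrix.mulVec_mulVec, bm_mulVec, bm_mulVec]
  congr 2
  apply Subtype.ext
  rw [prj_coe, prj_coe, Matrix.mulVec_mulVec, he]

/-- the form on a block -/
noncomputable def gf (g e : Matrix n n K) : Blk e →ₗ[K] Blk e →ₗ[K] K :=
  LinearMap.mk₂ K (fun u v => (u : n → K) ⬝ᵥ (g *ᵥ (v : n → K)))
    (fun a b c => by rw [Submodule.coe_add, add_dotProduct])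
    (fun a b c => by rw [Submodule.coe_smul, smul_dotProduct])
    (fun a b c => by rw [Submodule.coe_add, Matrix.mulVec_add, dotProduct_add])
    (fun a b c => by rw [Submodule.coe_smul, Matrix.mulVec_smul, dotProduct_smul])

theorem gf_apply (g e : Matrix n n K) (u v : Blk e) :
    gf g e u v = (u : n → K) ⬝ᵥ (g *ᵥ (v : n → K)) := rfl

theorem lift_b (e e' : Matrix n n K) (he : e * e = e) (t : Fin 3) (b : Blk e →ₗ[K] Blk e')
    (x : (Blk e) ⊗[K] (Blk e')) :
    TensorProduct.lift ((qq e' e' t) ∘ₗ b) x = Pi.single t (bm e e' b * mat e e' x) := by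
  induction x using TensorProduct.induction_on with
  | zero => simp
  | tmul u v =>
    rw [TensorProduct.lift.tmul, LinearMap.comp_apply, qq_apply, mat_tmul, Matrix.mul_vecMulVec,
      bm_mulVec, prj_self he]
  | add a c ha hc => rw [map_add, ha, hc, map_add, Matrix.mul_add, Pi.single_add]

theorem lift_b' (e e' : Matrix n n K) (he : e * e = e) (t : Fin 3) (b : Blk e →ₗ[K] Blk e')
    (x : (Blk e) ⊗[K] (Blk e')) :
    TensorProduct.lift ((qq e' e' t).flip ∘ₗ b) x =
      Pi.single t ((mat e e' x)ᵀ * (bm e e' b)ᵀ) := by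
  induction x using TensorProduct.induction_on with
  | zero => simp
  | tmul u v =>
    rw [TensorProduct.lift.tmul, LinearMap.comp_apply, LinearMap.flip_apply, qq_apply, mat_tmul,
      ← Matrix.transpose_mul, Matrix.mul_vecMulVec, bm_mulVec, prj_self he, transpose_vecMulVec]
  | add a c ha hc =>
    rw [map_add, ha, hc, map_add, Matrix.transpose_add, Matrix.add_mul, Pi.single_add]

theorem ev_coe (g e e' : Matrix n n K) (x : (Blk e) ⊗[K] (Blk e')) (u : Blk e) :
    ((RJM.ev (gf g e) x u : Blk e') : n → K) = (mat e e' x)ᵀ *ᵥ (g *ᵥ (u : n → K)) := by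
  induction x using TensorProduct.induction_on with
  | zero => simp
  | tmul a c =>
    rw [RJM.ev_tmul, Submodule.coe_smul, gf_apply, mat_tmul, transpose_vecMulVec,
      vecMulVec_mulVec, op_smul_eq_smul]
  | add a c ha hc =>
    rw [map_add, LinearMap.add_apply, Submodule.coe_add, ha, hc, map_add, Matrix.transpose_add,
      Matrix.add_mulVec]

theorem lift_ev (g e e' : Matrix n n K) (t : Fin 3) (x x' : (Blk e) ⊗[K] (Blk e')) :
    TensorProduct.lift ((qq e' e' t) ∘ₗ (RJM.ev (gf g e) x')) x =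
      Pi.single t ((mat e e' x')ᵀ * g * mat e e' x) := by
  induction x using TensorProduct.induction_on with
  | zero => simp
  | tmul u v =>
    rw [TensorProduct.lift.tmul, LinearMap.comp_apply, qq_apply, mat_tmul, Matrix.mul_vecMulVec,
      ev_coe, Matrix.mulVec_mulVec]
  | add a c ha hc => rw [map_add, ha, hc, map_add, Matrix.mul_add, Pi.single_add]

section facts

variable {arm : δ → Fin 3} {J : Matrix ι ι K} {B : Matrix δ δ K}
  {N W : Submodule K (Matrix ι δ K)} {F G : Matrix ι δ K} {p : Matrix ι n K}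
  {al : Fin 3 → Matrix n n K} {tau : Matrix n n K}
  {β : LinearMap.BilinForm K M} {T : Module.End K M →ₗ[K] Module.End K M}
  {Ψ : Fin 3 → Module.End K M} {D : Module.End K M} {π : (n → K) →ₗ[K] M}
  {e : m → Matrix n n K} {lam : m → K} {l : Fin 3 → ℕ} {TT : Set k}

theorem ex_of_rjm (h : Fr k arm J B N W F G p al tau β T Ψ D π e lam l TT) {i j : m} {c : K}
    {x : Fin 3 → (Blk (e j)) ⊗[K] (Blk (e i))}
    (hx : RJM.Ex (AA h i) (AA h j) (RR π (e i)) (RR π (e j)) c x) :
    Dual.Exact (AA h i) (AA h j) (RR π (e i)) (RR π (e j)) c x := ⟨hx.sum, hx.arm⟩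

/-- the decoration with a prescribed correction `b` -/
theorem dec_of_cor (h : Fr k arm J B N W F G p al tau β T Ψ D π e lam l TT) {i j : m}
    (hij : i ≠ j) {c : K} (hc : c ≠ 0) {x : Fin 3 → (Blk (e j)) ⊗[K] (Blk (e i))}
    (hx : RJM.Ex (AA h i) (AA h j) (RR π (e i)) (RR π (e j)) c x)
    {b : Blk (e j) →ₗ[K] Blk (e i)}
    (hb : RJM.Cor (AA h i) (AA h j) (RR π (e i)) (gf (pᵀ * J * p) (e j)) 1 c x b) :
    ∃ kk : Matrix n n K, Dec (pᵀ * J * p) π e i j (fun r => al r) (fun r => c • al r)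
      (fun r => mat (e j) (e i) (x r)) (-(bm (e j) (e i) b)) kk := by
  obtain ⟨b0, kk, hd⟩ := exists_dec h hij hc (ex_of_rjm h hx)
  refine ⟨kk, ⟨hd.bx, ?_, hd.bk, ?_, hd.rk, hd.sum, hd.arm, ?_, hd.ek⟩⟩
  · rw [Matrix.mul_neg, Matrix.neg_mul, bm_left (h.idem i), bm_right (h.idem j)]
  · intro u
    rw [Matrix.neg_mulVec, map_neg, bm_mulVec, neg_eq_zero]
    exact hb.mem _
  · intro r
    apply Matrix.toLin'.injective
    apply LinearMap.ext
    intro v
    have hpr : ∀ v : n → K, prj (e j) (al r *ᵥ v) = AA h j r (prj (e j) v) := by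
      intro v
      apply Subtype.ext
      rw [prj_coe, AA_coe, prj_coe, Matrix.mulVec_mulVec, Matrix.mulVec_mulVec, h.eal]
    have hxg : ∀ v : n → K, ((mat (e j) (e i) (x r))ᵀ * (pᵀ * J * p)) *ᵥ v =
        ((RJM.ev (gf (pᵀ * J * p) (e j)) (x r) (prj (e j) v) : Blk (e i)) : n → K) := by
      intro v
      have e1 : (mat (e j) (e i) (x r))ᵀ = (mat (e j) (e i) (x r))ᵀ * (e j)ᵀ := by
        conv_lhs => rw [← mat_blk (h.idem j) (h.idem i) (x r)]
        have : (e j) * ((e j) * mat (e j) (e i) (x r) * (e i)ᵀ) = (e j) * mat (e j) (e i) (x r) *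
            (e i)ᵀ := by
          rw [← Matrix.mul_assoc, ← Matrix.mul_assoc, h.idem]
        have h2 : (mat (e j) (e i) (x r)) = (e j) * (mat (e j) (e i) (x r)) := by
          conv_lhs => rw [← mat_blk (h.idem j) (h.idem i) (x r), ← this]
          rw [mat_blk (h.idem j) (h.idem i)]
        rw [mat_blk (h.idem j) (h.idem i), ← Matrix.transpose_mul, ← h2]
      rw [ev_coe, prj_coe, e1, Matrix.mul_assoc, h.eg j, ← Matrix.mulVec_mulVec,
        ← Matrix.mulVec_mulVec, ← e1]
    rw [Matrix.toLin'_apply, Matrix.toLin'_apply, ← Matrix.mulVec_mulVec, Matrix.add_mulVec,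
      hxg, Matrix.neg_mulVec, bm_mulVec, Matrix.mul_smul, Matrix.smul_mulVec,
      ← Matrix.mulVec_mulVec, Matrix.add_mulVec, hxg, Matrix.neg_mulVec, bm_mulVec, hpr,
      Matrix.mulVec_add, Matrix.mulVec_neg, ← AA_coe h i, ← AA_coe h i]
    have e2 := congrArg (Subtype.val) (hb.eq r (prj (e j) v))
    simp only [one_mul] at e2
    rw [Submodule.coe_sub, Submodule.coe_sub, Submodule.coe_smul, Submodule.coe_smul] at e2
    rw [smul_add, smul_neg]
    rw [neg_add_eq_sub, neg_add_eq_sub]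
    rw [sub_eq_sub_iff_add_eq_add] at e2 ⊢
    rw [← e2, add_comm]

theorem cor_aux {A b x g : Matrix n n K} {c : K}
    (h : A * (b + x * g) = (b + x * g) * (c • A)) (u : n → K) :
    -(A *ᵥ (b *ᵥ u)) - -(c • (b *ᵥ (A *ᵥ u))) =
      A *ᵥ (x *ᵥ (g *ᵥ u)) - c • (x *ᵥ (g *ᵥ (A *ᵥ u))) := by
  have e1 := congrArg (fun Q : Matrix n n K => Q *ᵥ u) h
  simp only [Matrix.mul_smul, Matrix.smul_mulVec, ← Matrix.mulVec_mulVec, Matrix.add_mulVec,
    Matrix.mulVec_add, smul_add] at e1
  rw [sub_neg_eq_add, neg_add_eq_sub, sub_eq_sub_iff_add_eq_add, ← e1]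
  abel

/-- `second` as a hypothesis -/
def Second (_h : Fr k arm J B N W F G p al tau β T Ψ D π e lam l TT) (i j : m) : Prop :=
  ∀ {c c' : K} (hc : c ≠ 0) (hc' : c' ≠ 0) {x y : Fin 3 → Matrix n n K}
    {b kk b' kk' : Matrix n n K}
    (hx : Dec (pᵀ * J * p) π e i j (fun r => al r) (fun r => c • al r) x b kk)
    (hy : Dec (pᵀ * J * p) π e i j (fun r => al r) (fun r => c' • al r) y b' kk')
    (hx1 : RS arm J B N W F p T Ψ π e x (-b) (fun r => kk * al r))
    (hx2 : RS arm J B N W F p T Ψ π e (fun r => (x r)ᵀ) kk (fun r => -(b * al r)))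
    (hy1 : RS arm J B N W F p T Ψ π e y (-b') (fun r => kk' * al r)),
    (fun r => b * y r + (x r)ᵀ * (pᵀ * J * p) * y r + (x r)ᵀ * b'ᵀ) ∈
      RDEnd.Rel arm J N W F p π T 0 Ψ

/-- **RD5** from `halves` and `second` -/
theorem diag_of [CharZero K] (h : Fr k arm J B N W F G p al tau β T Ψ D π e lam l TT) {i j : m}
    (hij : i ≠ j) (hH : Halves h i j) (h2 : Second h i j) :
    (∀ s, ∀ r, π (e i *ᵥ r) = 0 → ∀ y,
      (Pi.single s (vecMulVec (e i *ᵥ r) (e i *ᵥ y)) : Fin 3 → Matrix n n K) ∈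
        RDEnd.Rel arm J N W F p π T 0 Ψ ∧
      (Pi.single s (vecMulVec (e i *ᵥ y) (e i *ᵥ r)) : Fin 3 → Matrix n n K) ∈
        RDEnd.Rel arm J N W F p π T 0 Ψ) ∧
    (∀ s a a', a + a' + 1 = l s → ∀ y y' : n → K,
      (Pi.single s (vecMulVec ((al s ^ a) *ᵥ (e i *ᵥ y)) ((al s ^ a') *ᵥ (e i *ᵥ y'))) :
        Fin 3 → Matrix n n K) ∈ RDEnd.Rel arm J N W F p π T 0 Ψ) := by
  classical
  obtain ⟨S, hS, hH⟩ := hH
  obtain ⟨m0, hm0⟩ := h.kill
  have hkill : ∀ i (w : List (Fin 3)), w.length = m0 → ∀ r ∈ RR π (e i),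
      (w.map (AA h i)).prod r = 0 := by
    intro i w hw r hr
    apply Subtype.ext
    have := res_word (h.idem i) (h.eal i) w r
    change (((w.map (AA h i)).prod r : Blk (e i)) : n → K) = _ at this
    rw [this, hm0 w hw _ (mem_RR.1 hr), Submodule.coe_zero]
  have hrange : ∀ i, ⨆ t, LinearMap.range (AA h i t) = ⊤ := by
    intro i
    rw [eq_top_iff]
    intro v _
    obtain ⟨f, hf⟩ := AA_perf h i v
    rw [hf]
    exact Submodule.sum_mem _ fun t _ => Submodule.mem_iSup_of_mem t ⟨f t, rfl⟩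
  have hβ : ∀ u v : n → K, u ⬝ᵥ ((pᵀ * J * p) *ᵥ v) = v ⬝ᵥ ((pᵀ * J * p) *ᵥ u) := by
    intro u v
    rw [← h.cr.form, ← h.cr.form, h.cr.ns.symm]
  have hΛ : ((S ∪ {0})ᶜ : Set K).Infinite :=
    (hS.union (Set.finite_singleton 0)).infinite_compl
  have key := RJM.main (K := K) (P1 := Blk (e i)) (P2 := Blk (e j)) (τ := Fin 3)
    (E := Fin 3 → Matrix n n K) (A := AA h i) (B := AA h j) (R1 := RR π (e i))
    (R2 := RR π (e j)) (l := l) (g := gf (pᵀ * J * p) (e j)) (eps := 1) (hrange i) (hrange j)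
    (AA_rad h i) (AA_rad h j) (m := m0) (hkill i) (hkill j) h.lpos (AA_l h i) (AA_l h j)
    (fun S h1 h2 => AA_gen h i S h2 h1) (fun S h1 h2 => AA_gen h j S h2 h1) one_ne_zero
    (by
      intro r hr u
      rw [gf_apply, hβ, g_mulVec h (mem_RR.1 hr), dotProduct_zero])
    (by
      intro r hr u
      rw [gf_apply, g_mulVec h (mem_RR.1 hr), dotProduct_zero])
    (by
      intro t u v
      rw [one_mul, gf_apply, gf_apply, AA_coe, AA_coe, ← h.cr.form, ← h.cr.form, ← h.cr.op,
        ← h.cr.op, h.cr.sa])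
    (by
      intro s
      obtain ⟨u, u', hu⟩ := h.top j s
      refine ⟨⟨e j *ᵥ u', e_mem_Blk _ _⟩, ⟨e j *ᵥ u, e_mem_Blk _ _⟩, ?_⟩
      rw [gf_apply, AA_pow, hβ]
      exact hu)
    (Λ := (S ∪ {0})ᶜ) hΛ (by simp) (qq (e i) (e i)) (RDEnd.Rel arm J N W F p π T 0 Ψ)
    (a1 := -1) (a2 := -1) (a3 := 1) (neg_ne_zero.2 one_ne_zero) (neg_ne_zero.2 one_ne_zero)
    one_ne_zero
    (by
      intro c hc x hx
      rw [Set.mem_compl_iff, Set.mem_union, Set.mem_singleton_iff, not_or] at hc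
      obtain ⟨b0, kk, hd⟩ := exists_dec h hij hc.2 (ex_of_rjm h hx)
      have hb0 : ∀ v, b0 *ᵥ v ∈ Blk (e i) := by
        intro v
        rw [← hd.bb, Matrix.mul_assoc, ← Matrix.mulVec_mulVec]
        exact e_mem_Blk _ _
      refine ⟨-(((Matrix.toLin' b0).codRestrict (Blk (e i)) (fun v => by
        rw [Matrix.toLin'_apply]; exact hb0 v)) ∘ₗ (Blk (e j)).subtype), ?_, ?_⟩
      · intro u
        rw [mem_RR, LinearMap.neg_apply, Submodule.coe_neg, map_neg, neg_eq_zero]
        exact hd.rb _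
      · intro t u
        apply Subtype.ext
        have e1 := cor_aux (hd.eb t) (u : n → K)
        simp only [one_mul, LinearMap.neg_apply, map_neg, smul_neg, Submodule.coe_sub,
          Submodule.coe_neg, Submodule.coe_smul, AA_coe, ev_coe, LinearMap.comp_apply,
          LinearMap.codRestrict_apply, Matrix.toLin'_apply, Submodule.subtype_apply]
        exact e1)
    (by
      intro c hc c' hc' x b x' b' hx hb hx' hb'
      rw [Set.mem_compl_iff, Set.mem_union, Set.mem_singleton_iff, not_or] at hc hc'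
      obtain ⟨kk, hd⟩ := dec_of_cor h hij hc.2 hx hb
      obtain ⟨kk', hd'⟩ := dec_of_cor h hij hc'.2 hx' hb'
      have s1 := hH c hc.1 _ _ kk hd
      have s2 := hH c' hc'.1 _ _ kk' hd'
      have s3 := h2 hc'.2 hc.2 hd' hd s2.1 s2.2 s1.1
      have s4 : ∑ t, ((-1 : K) • TensorProduct.lift ((qq (e i) (e i) t) ∘ₗ b') (x t)
          + (-1 : K) • TensorProduct.lift ((qq (e i) (e i) t).flip ∘ₗ b) (x' t)
          + (1 : K) • TensorProduct.lift ((qq (e i) (e i) t) ∘ₗ
            (RJM.ev (gf (pᵀ * J * p) (e j)) (x' t))) (x t)) =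
          fun r => -(bm (e j) (e i) b') * mat (e j) (e i) (x r) +
            (mat (e j) (e i) (x' r))ᵀ * (pᵀ * J * p) * mat (e j) (e i) (x r) +
            (mat (e j) (e i) (x' r))ᵀ * (-(bm (e j) (e i) b))ᵀ := by
        simp only [lift_ev]
        simp only [lift_b _ _ (h.idem j), lift_b' _ _ (h.idem j)]
        funext r
        rw [Finset.sum_apply]
        simp only [Pi.add_apply, Pi.smul_apply]
        rw [Finset.sum_eq_single r]
        · simp only [Pi.single_eq_same, neg_smul, one_smul, Matrix.transpose_neg, Matrix.mul_neg,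
            Matrix.neg_mul]
          abel
        · intro t _ ht
          simp only [Pi.single_eq_of_ne (Ne.symm ht), smul_zero, add_zero]
        · intro hr
          exact absurd (Finset.mem_univ r) hr
      rw [s4]
      exact s3)
  obtain ⟨k1, k2⟩ := key
  constructor
  · intro s r hr y
    have := k1 s ⟨e i *ᵥ r, e_mem_Blk _ _⟩ hr ⟨e i *ᵥ y, e_mem_Blk _ _⟩
    rwa [qq_apply, qq_apply] at this
  · intro s a a' ha y y'
    have := k2 s a a' ha ⟨e i *ᵥ y, e_mem_Blk _ _⟩ ⟨e i *ᵥ y', e_mem_Blk _ _⟩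
    rwa [qq_apply, AA_pow, AA_pow] at this

end facts

end Crest.Agent.R172.RD.C680
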