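import Crest.Agent.R172.RD0

/-!
Row 172 (S0260), T0, `RD6`: the END from the diagonal and off-diagonal memberships.
-/

set_option autoImplicit false
set_option linter.unusedSectionVars false
set_option linter.unusedVariables false

namespace Crest.Agent.R172.RD

open Matrix Module TensorProduct Crest.Agent.R172.FO Crest.Agent.R172.FrmB
open Crest.Agent.R172.Core (NS Tame)
open Crest.Agent.R172.PL (Wk)

variable {ι : Type*} [Fintype ι] [DecidableEq ι] {δ : Type*} [Fintype δ] [DecidableEq δ]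
variable {n : Type*} [Fintype n] [DecidableEq n]
variable {k K : Type*} [Field k] [Field K] [Algebra k K]
variable {M : Type*} [AddCommGroup M] [Module K M]
variable {m : Type*} [Fintype m] [DecidableEq m]

theorem single_sum_mem {S : Submodule K (Fin 3 → Matrix n n K)} {s : Fin 3}
    {f f' : m → (n → K)}
    (h : ∀ i j, (Pi.single s (vecMulVec (f i) (f' j)) : Fin 3 → Matrix n n K) ∈ S) :
    (Pi.single s (vecMulVec (∑ i, f i) (∑ i, f' i)) : Fin 3 → Matrix n n K) ∈ S := by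
  have e : (Pi.single s (vecMulVec (∑ i, f i) (∑ i, f' i)) : Fin 3 → Matrix n n K) =
      ∑ i, ∑ j, RDEnd.qs s (f i) (f' j) := by
    rw [← RDEnd.qs_apply, map_sum (RDEnd.qs s), LinearMap.sum_apply]
    refine Finset.sum_congr rfl fun i _ => ?_
    rw [map_sum]
  rw [e]
  exact Submodule.sum_mem _ fun i _ => Submodule.sum_mem _ fun j _ => h i j

section lemmas

variable {arm : δ → Fin 3} {J : Matrix ι ι K} {B : Matrix δ δ K}
  {N W : Submodule K (Matrix ι δ K)} {F G : Matrix ι δ K} {p : Matrix ι n K}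
  {al : Fin 3 → Matrix n n K} {tau : Matrix n n K}
  {β : LinearMap.BilinForm K M} {T : Module.End K M →ₗ[K] Module.End K M}
  {Ψ : Fin 3 → Module.End K M} {D : Module.End K M} {π : (n → K) →ₗ[K] M}
  {e : m → Matrix n n K} {lam : m → K} {l : Fin 3 → ℕ} {TT : Set k}

theorem Fr.gtr76 (h : Fr k arm J B N W F G p al tau β T Ψ D π e lam l TT) :
    (pᵀ * J * p)ᵀ = pᵀ * J * p := by
  rw [transpose_mul, transpose_mul, transpose_transpose, h.ctx.data.J_symm, Matrix.mul_assoc]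

theorem Fr.g_zero (h : Fr k arm J B N W F G p al tau β T Ψ D π e lam l TT) {u : n → K}
    (hu : π u = 0) : (pᵀ * J * p) *ᵥ u = 0 := by
  have h1 : ∀ y : n → K, y ⬝ᵥ ((pᵀ * J * p) *ᵥ u) = 0 := by
    intro y
    rw [← h.cr.form, hu, map_zero]
  funext a
  have h2 := h1 (Pi.single a 1)
  rwa [single_one_dotProduct] at h2

theorem Fr.pi_zero (h : Fr k arm J B N W F G p al tau β T Ψ D π e lam l TT) {u : n → K}
    (hu : (pᵀ * J * p) *ᵥ u = 0) : π u = 0 := by
  apply h.cr.ns.nd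
  intro w
  obtain ⟨y, rfl⟩ := h.cr.onto w
  rw [h.cr.ns.symm, h.cr.form, hu, dotProduct_zero]

theorem Fr.pi_e (h : Fr k arm J B N W F G p al tau β T Ψ D π e lam l TT) (i : m) {u : n → K}
    (hu : π u = 0) : π (e i *ᵥ u) = 0 := by
  apply h.pi_zero
  rw [mulVec_mulVec, ← h.eg, ← mulVec_mulVec, h.g_zero hu, mulVec_zero]

theorem Fr.sum_e (h : Fr k arm J B N W F G p al tau β T Ψ D π e lam l TT) (u : n → K) :
    ∑ i, e i *ᵥ u = u := by
  rw [← sum_mulVec, h.sumE, one_mulVec]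

theorem Fr.pi_pow (h : Fr k arm J B N W F G p al tau β T Ψ D π e lam l TT) (s : Fin 3) (a : ℕ)
    (u : n → K) : π ((al s ^ a) *ᵥ u) = (Ψ s ^ a) (π u) := by
  induction a generalizing u with
  | zero => simp
  | succ a ih =>
    rw [pow_succ, ← mulVec_mulVec, ih, pow_succ, ← h.cr.op]
    rfl

theorem Fr.e_pow (h : Fr k arm J B N W F G p al tau β T Ψ D π e lam l TT) (i : m) (s : Fin 3)
    (a : ℕ) : e i * al s ^ a = al s ^ a * e i := by
  induction a with
  | zero => simp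
  | succ a ih => rw [pow_succ, ← Matrix.mul_assoc, ih, Matrix.mul_assoc, h.eal, Matrix.mul_assoc]

theorem Fr.sa_pow (h : Fr k arm J B N W F G p al tau β T Ψ D π e lam l TT) (s : Fin 3) (a : ℕ)
    (v w : M) : β ((Ψ s ^ a) v) w = β v ((Ψ s ^ a) w) := by
  induction a generalizing v w with
  | zero => rfl
  | succ a ih =>
    rw [pow_succ, Module.End.mul_apply, ih, h.cr.sa, ← Module.End.mul_apply, ← pow_succ',
      pow_succ]

/-- the middle element of `U` -/
theorem Fr.exists_v (h : Fr k arm J B N W F G p al tau β T Ψ D π e lam l TT) :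
    ∃ v : Matrix δ n K, F * v = p := by
  obtain ⟨ρ, hρ⟩ := h.ctx.perf
  refine ⟨∑ s, E K arm s * B * Fᵀ * J * p * ρ s, ?_⟩
  rw [Matrix.mul_sum]
  calc ∑ s, F * (E K arm s * B * Fᵀ * J * p * ρ s) = ∑ s, p * (al s * ρ s) := by
        refine Finset.sum_congr rfl fun s _ => ?_
        have e1 := h.ctx.hal s
        unfold Phi FO.M at e1
        rw [← Matrix.mul_assoc p, ← e1]
        simp only [Matrix.mul_assoc]
    _ = p := by rw [← Matrix.mul_sum, hρ, Matrix.mul_one]

/-- **RD6**, with `diag` and `offdiag` as hypotheses -/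
theorem false_of_fr_of [CharZero K] [FiniteDimensional K M]
    (h : Fr k arm J B N W F G p al tau β T Ψ D π e lam l TT)
    (hoff : ∀ i j : m, i ≠ j → ∀ (s : Fin 3) (y : Matrix n n K), e j * y * (e i)ᵀ = y →
      Fil (pᵀ * J * p) π Ψ s y →
      (Pi.single s y : Fin 3 → Matrix n n K) ∈ RDEnd.Rel arm J N W F p π T 0 Ψ)
    (hdiag : ∀ i : m,
      (∀ s, ∀ r, π (e i *ᵥ r) = 0 → ∀ y,
        (Pi.single s (vecMulVec (e i *ᵥ r) (e i *ᵥ y)) : Fin 3 → Matrix n n K) ∈
          RDEnd.Rel arm J N W F p π T 0 Ψ ∧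
        (Pi.single s (vecMulVec (e i *ᵥ y) (e i *ᵥ r)) : Fin 3 → Matrix n n K) ∈
          RDEnd.Rel arm J N W F p π T 0 Ψ) ∧
      (∀ s a a', a + a' + 1 = l s → ∀ y y' : n → K,
        (Pi.single s (vecMulVec ((al s ^ a) *ᵥ (e i *ᵥ y)) ((al s ^ a') *ᵥ (e i *ᵥ y'))) :
          Fin 3 → Matrix n n K) ∈ RDEnd.Rel arm J N W F p π T 0 Ψ))
    (hDΦ : ∀ s v, D (Ψ s v) = Ψ s (D v)) (hDs : ⨆ ν, D.maxGenEigenspace ν = ⊤)
    (hT : Tame Ψ D) : False := by
  obtain ⟨v, hv⟩ := h.exists_v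
  have hee : ∀ (i j : m) (a b : n → K), e i *ᵥ a = a → e j *ᵥ b = b →
      e i * vecMulVec a b * (e j)ᵀ = vecMulVec a b := by
    intro i j a b ha hb
    rw [mul_vecMulVec, vecMulVec_mul, vecMul_transpose, ha, hb]
  have hei : ∀ i (u : n → K), e i *ᵥ (e i *ᵥ u) = e i *ᵥ u := by
    intro i u; rw [mulVec_mulVec, h.idem]
  have hep : ∀ i s a (u : n → K), e i *ᵥ ((al s ^ a) *ᵥ (e i *ᵥ u)) = (al s ^ a) *ᵥ (e i *ᵥ u) := by
    intro i s a u
    rw [mulVec_mulVec, h.e_pow, ← mulVec_mulVec, hei]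
  have hap : ∀ (a b : n → K) u, vecMulVec a b *ᵥ ((pᵀ * J * p) *ᵥ u) =
      (b ⬝ᵥ ((pᵀ * J * p) *ᵥ u)) • a := by
    intro a b u
    rw [vecMulVec_mulVec, op_smul_eq_smul]
  refine RDEnd.false_of_arms (D := 0) h.ctx.data h.ctx.memF hv h.ctx.hal h.cr hDΦ hDs hT h.lpos
    h.lsum h.lnil h.free ?_ ?_ ?_
  · intro s r hr y
    rw [← h.sum_e r, ← h.sum_e y]
    apply single_sum_mem
    intro i j
    by_cases hij : i = j
    · subst hij
      exact ((hdiag i).1 s r (h.pi_e i hr) y).1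
    · refine hoff j i (Ne.symm hij) s _ (hee i j _ _ (hei i r) (hei j y)) ⟨0, ?_, ?_⟩
      · intro u
        rw [hap, map_smul, h.pi_e i hr, smul_zero]
        rfl
      · intro a v'
        exact ⟨0, by simp⟩
  · intro s r hr y
    rw [← h.sum_e r, ← h.sum_e y]
    apply single_sum_mem
    intro i j
    by_cases hij : i = j
    · subst hij
      exact ((hdiag i).1 s r (h.pi_e i hr) y).2
    · refine hoff j i (Ne.symm hij) s _ (hee i j _ _ (hei i y) (hei j r)) ⟨0, ?_, ?_⟩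
      · intro u
        rw [hap, ← h.cr.form, h.pi_e j hr, map_zero, LinearMap.zero_apply, zero_smul, map_zero]
        rfl
      · intro a v'
        exact ⟨0, by simp⟩
  · intro s a b hab y y'
    have e1 : (al s ^ a) *ᵥ y = ∑ i, (al s ^ a) *ᵥ (e i *ᵥ y) := by
      rw [← mulVec_sum, h.sum_e]
    have e2 : (al s ^ b) *ᵥ y' = ∑ i, (al s ^ b) *ᵥ (e i *ᵥ y') := by
      rw [← mulVec_sum, h.sum_e]
    rw [e1, e2]
    apply single_sum_mem
    intro i j
    by_cases hij : i = j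
    · subst hij
      exact (hdiag i).2 s a b hab y y'
    · refine hoff j i (Ne.symm hij) s _ (hee i j _ _ (hep i s a y) (hep j s b y'))
        ⟨(β ((Ψ s ^ b) (π (e j *ᵥ y')))).smulRight ((Ψ s ^ a) (π (e i *ᵥ y))), ?_, ?_⟩
      · intro u
        rw [hap, ← h.cr.form, map_smul, h.pi_pow, h.pi_pow]
        rfl
      · intro c v'
        rw [LinearMap.smulRight_apply, h.sa_pow]
        have e3 : (Ψ s ^ b) ((Ψ s ^ c) v') = (Ψ s ^ (b + c)) v' := by
          rw [pow_add]; rfl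
        rw [e3]
        by_cases hc : l s ≤ b + c
        · refine ⟨0, ?_⟩
          have e4 : Ψ s ^ (b + c) = 0 := by
            obtain ⟨d, hd⟩ := Nat.exists_eq_add_of_le hc
            rw [hd, pow_add, h.lnil, zero_mul]
          rw [e4, LinearMap.zero_apply, map_zero, zero_smul, map_zero]
        · have hca : c ≤ a := by omega
          obtain ⟨d, hd⟩ := Nat.exists_eq_add_of_le hca
          refine ⟨(β (π (e j *ᵥ y')) ((Ψ s ^ (b + c)) v')) • (Ψ s ^ d) (π (e i *ᵥ y)), ?_⟩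
          have e5 : (Ψ s ^ a) (π (e i *ᵥ y)) = (Ψ s ^ c) ((Ψ s ^ d) (π (e i *ᵥ y))) := by
            rw [hd, pow_add]; rfl
          rw [e5, map_smul]

end lemmas

end Crest.Agent.R172.RD
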