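import Crest.Agent.R172.RD0

/-!
Row 172 (S0260), RD6 (the END of the `RD` assembly), independent copy (helper689): the statements of
`diag` and `offdiag` are hypotheses.
-/

set_option autoImplicit false
set_option linter.unusedSectionVars false
set_option linter.unusedVariables false

namespace Crest.Agent.R172.RD689

open Matrix Module TensorProduct Crest.Agent.R172.FO Crest.Agent.R172.FrmB
open Crest.Agent.R172.Core (NS Tame)
open Crest.Agent.R172.PL (Wk)
open Crest.Agent.R172.RD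

variable {ι : Type*} [Fintype ι] [DecidableEq ι] {δ : Type*} [Fintype δ] [DecidableEq δ]
variable {n : Type*} [Fintype n] [DecidableEq n]
variable {k K : Type*} [Field k] [Field K] [Algebra k K]
variable {M : Type*} [AddCommGroup M] [Module K M]
variable {m : Type*} [Fintype m] [DecidableEq m]

section lemmas

variable {arm : δ → Fin 3} {J : Matrix ι ι K} {B : Matrix δ δ K}
  {N W : Submodule K (Matrix ι δ K)} {F G : Matrix ι δ K} {p : Matrix ι n K}
  {al : Fin 3 → Matrix n n K} {tau : Matrix n n K}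
  {β : LinearMap.BilinForm K M} {T : Module.End K M →ₗ[K] Module.End K M}
  {Ψ : Fin 3 → Module.End K M} {D : Module.End K M} {π : (n → K) →ₗ[K] M}
  {e : m → Matrix n n K} {lam : m → K} {l : Fin 3 → ℕ} {TT : Set k}

theorem pi_e (h : Fr k arm J B N W F G p al tau β T Ψ D π e lam l TT) (i : m) {r : n → K}
    (hr : π r = 0) : π (e i *ᵥ r) = 0 := by
  apply h.cr.ns.nd
  intro w
  obtain ⟨y, rfl⟩ := h.cr.onto w
  rw [h.cr.form, RDEnd.dt, mulVec_mulVec, h.eg i, ← mulVec_mulVec, ← h.cr.form, hr, map_zero,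
    LinearMap.zero_apply]

theorem e_al_pow (h : Fr k arm J B N W F G p al tau β T Ψ D π e lam l TT) (i : m) (s : Fin 3)
    (a : ℕ) : e i * al s ^ a = al s ^ a * e i := by
  induction a with
  | zero => simp
  | succ a ih => rw [pow_succ, ← Matrix.mul_assoc, ih, Matrix.mul_assoc, h.eal, Matrix.mul_assoc]

theorem pi_pow (h : Fr k arm J B N W F G p al tau β T Ψ D π e lam l TT) (s : Fin 3) (a : ℕ)
    (y : n → K) : π ((al s ^ a) *ᵥ y) = (Ψ s ^ a) (π y) := by
  induction a with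
  | zero => simp
  | succ a ih =>
    rw [pow_succ', ← mulVec_mulVec, ← h.cr.op, ih, pow_succ', Module.End.mul_apply]

theorem sa_pow (h : Fr k arm J B N W F G p al tau β T Ψ D π e lam l TT) (s : Fin 3) (a : ℕ)
    (v w : M) : β ((Ψ s ^ a) v) w = β v ((Ψ s ^ a) w) := by
  induction a generalizing v w with
  | zero => simp
  | succ a ih =>
    rw [pow_succ', Module.End.mul_apply, h.cr.sa, ih, ← Module.End.mul_apply, ← pow_succ,
      ← pow_succ']

theorem sum_e (h : Fr k arm J B N W F G p al tau β T Ψ D π e lam l TT) (y : n → K) :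
    y = ∑ i, e i *ᵥ y := by
  rw [← Matrix.sum_mulVec, h.sumE, one_mulVec]

/-- rank one matrices -/
theorem vec_e (i j : m) (a b : n → K) (h : Fr k arm J B N W F G p al tau β T Ψ D π e lam l TT) :
    e j * vecMulVec (e j *ᵥ a) (e i *ᵥ b) * (e i)ᵀ = vecMulVec (e j *ᵥ a) (e i *ᵥ b) := by
  rw [mul_vecMulVec, vecMulVec_mul, vecMul_transpose, mulVec_mulVec, mulVec_mulVec, h.idem,
    h.idem]

/-- **RD6**: the END -/
theorem false_of_fr [CharZero K] [FiniteDimensional K M]
    (h : Fr k arm J B N W F G p al tau β T Ψ D π e lam l TT)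
    (hoff : ∀ i j : m, i ≠ j → ∀ (s : Fin 3) (y : Matrix n n K), e j * y * (e i)ᵀ = y →
      Fil (pᵀ * J * p) π Ψ s y →
      (Pi.single s y : Fin 3 → Matrix n n K) ∈ RDEnd.Rel arm J N W F p π T 0 Ψ)
    (hdiag : ∀ i : m, (∀ s, ∀ r, π (e i *ᵥ r) = 0 → ∀ y,
      (Pi.single s (vecMulVec (e i *ᵥ r) (e i *ᵥ y)) : Fin 3 → Matrix n n K) ∈
        RDEnd.Rel arm J N W F p π T 0 Ψ ∧
      (Pi.single s (vecMulVec (e i *ᵥ y) (e i *ᵥ r)) : Fin 3 → Matrix n n K) ∈
        RDEnd.Rel arm J N W F p π T 0 Ψ) ∧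
    (∀ s a a', a + a' + 1 = l s → ∀ y y' : n → K,
      (Pi.single s (vecMulVec ((al s ^ a) *ᵥ (e i *ᵥ y)) ((al s ^ a') *ᵥ (e i *ᵥ y'))) :
        Fin 3 → Matrix n n K) ∈ RDEnd.Rel arm J N W F p π T 0 Ψ))
    (hDΦ : ∀ s v, D (Ψ s v) = Ψ s (D v)) (hDs : ⨆ ν, D.maxGenEigenspace ν = ⊤)
    (hT : Tame Ψ D) : False := by
  classical
  set g : Matrix n n K := pᵀ * J * p with hg
  obtain ⟨v, hv, -⟩ := h.ctx.exists_v
  -- value of a rank one matrix
  have hval : ∀ (a b u : n → K), π (vecMulVec a b *ᵥ (g *ᵥ u)) = (β (π b) (π u)) • π a := by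
    intro a b u
    rw [vecMulVec_mulVec, h.cr.form, ← hg, op_smul_eq_smul, map_smul]
  have hfil0 : ∀ s (a b : n → K), (π a = 0 ∨ π b = 0) → Fil g π Ψ s (vecMulVec a b) := by
    intro s a b hab
    refine ⟨0, fun u => ?_, fun c v => ⟨0, by simp⟩⟩
    rw [hval]
    rcases hab with h0 | h0
    · rw [h0, smul_zero]; rfl
    · rw [h0, map_zero, LinearMap.zero_apply, zero_smul]; rfl
  have hsplit : ∀ (s : Fin 3) (a b : n → K),
      (Pi.single s (vecMulVec a b) : Fin 3 → Matrix n n K) =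
        ∑ i : m, ∑ j : m, Pi.single s (vecMulVec (e i *ᵥ a) (e j *ᵥ b)) := by
    intro s a b
    have e1 : (Pi.single s (vecMulVec a b) : Fin 3 → Matrix n n K) = RDEnd.qs s a b := rfl
    conv_lhs => rw [e1, sum_e h a, sum_e h b]
    simp only [map_sum, LinearMap.sum_apply]
    rw [Finset.sum_comm]
    rfl
  refine RDEnd.false_of_arms (D := 0) h.ctx.data h.ctx.memF hv h.ctx.hal h.cr hDΦ hDs hT h.lpos
    h.lsum h.lnil h.free ?_ ?_ ?_
  · intro s r hr y
    rw [hsplit]
    refine Submodule.sum_mem _ fun i _ => Submodule.sum_mem _ fun j _ => ?_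
    by_cases hij : j = i
    · subst hij
      exact ((hdiag j).1 s r (pi_e h j hr) y).1
    · exact hoff j i hij s _ (vec_e j i r y h) (hfil0 s _ _ (Or.inl (pi_e h i hr)))
  · intro s r hr y
    rw [hsplit]
    refine Submodule.sum_mem _ fun i _ => Submodule.sum_mem _ fun j _ => ?_
    by_cases hij : j = i
    · subst hij
      exact ((hdiag j).1 s r (pi_e h j hr) y).2
    · exact hoff j i hij s _ (vec_e j i y r h) (hfil0 s _ _ (Or.inr (pi_e h j hr)))
  · intro s a a' haa y y'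
    rw [hsplit]
    refine Submodule.sum_mem _ fun i _ => Submodule.sum_mem _ fun j _ => ?_
    have c1 : e i *ᵥ ((al s ^ a) *ᵥ y) = (al s ^ a) *ᵥ (e i *ᵥ y) := by
      rw [mulVec_mulVec, e_al_pow h, ← mulVec_mulVec]
    have c2 : e j *ᵥ ((al s ^ a') *ᵥ y') = (al s ^ a') *ᵥ (e j *ᵥ y') := by
      rw [mulVec_mulVec, e_al_pow h, ← mulVec_mulVec]
    by_cases hij : j = i
    · subst hij
      rw [c1, c2]
      exact (hdiag j).2 s a a' haa y y'
    · refine hoff j i hij s _ (vec_e j i _ _ h) ?_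
      refine ⟨(β (π (e j *ᵥ ((al s ^ a') *ᵥ y')))).smulRight (π (e i *ᵥ ((al s ^ a) *ᵥ y))),
        fun u => ?_, fun b w => ?_⟩
      · rw [hval]; rfl
      · rw [LinearMap.smulRight_apply, c1, c2, pi_pow h, pi_pow h, sa_pow h,
          ← Module.End.mul_apply, ← pow_add]
        by_cases hb : b ≤ a
        · refine ⟨(β (π (e j *ᵥ y'))) ((Ψ s ^ (a' + b)) w) • (Ψ s ^ (a - b)) (π (e i *ᵥ y)), ?_⟩
          rw [map_smul, ← Module.End.mul_apply, ← pow_add]
          congr 3
          omega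
        · refine ⟨0, ?_⟩
          have h0 : Ψ s ^ (a' + b) = 0 := by
            obtain ⟨c, hc⟩ : ∃ c, a' + b = l s + c := ⟨a' + b - l s, by omega⟩
            rw [hc, pow_add, h.lnil s, zero_mul]
          rw [h0, LinearMap.zero_apply, map_zero, zero_smul, map_zero]

end lemmas

end Crest.Agent.R172.RD689
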