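import Crest.Agent.R172.RD0

/-!
Row 172 (S0260), (T0), any radical, any `D`: filtered tensors (`RD.Fil`) and the operations of the
second derivative.
-/

set_option autoImplicit false
set_option linter.unusedSectionVars false

namespace Crest.Agent.R172.RDfil

open Matrix Module Crest.Agent.R172.FO Crest.Agent.R172.ZP Crest.Agent.R172.ZFr
open Crest.Agent.R172.RD (Fil)

section seq

variable {E : Type*} [Ring E]

/-- a polynomial sequence lies in the additive group spanned by its tail -/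
theorem mem_of_tail (S : AddSubgroup E) (j0 : ℕ) (d : ℕ) : ∀ h : ℕ → E,
    ((DD : AddMonoid.End (ℕ → E)) ^ d) h = 0 → (∀ j, j0 ≤ j → h j ∈ S) → ∀ k, h k ∈ S := by
  induction d with
  | zero =>
    intro h h0 _ k
    have : h = 0 := by simpa using h0
    rw [this]; exact S.zero_mem
  | succ d ih =>
    intro h h0 hj k
    have hg : ∀ k, DD h k ∈ S := by
      refine ih (DD h) ?_ ?_
      · rw [pow_succ] at h0
        exact h0
      · intro j hj'
        rw [DD_apply]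
        exact S.sub_mem (hj _ (by omega)) (hj _ hj')
    have key : ∀ i, i ≤ j0 → h (j0 - i) ∈ S := by
      intro i
      induction i with
      | zero => intro _; exact hj _ (by omega)
      | succ i ih' =>
        intro hi
        have h1 := hg (j0 - (i + 1))
        rw [DD_apply, show j0 - (i + 1) + 1 = j0 - i by omega] at h1
        have h2 := S.sub_mem (ih' (by omega)) h1
        rwa [sub_sub_cancel] at h2
    by_cases hk : j0 ≤ k
    · exact hj k hk
    · have := key (j0 - k) (by omega)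
      rwa [show j0 - (j0 - k) = k by omega] at this

end seq

section core

variable {K : Type*} [Field K] {M : Type*} [AddCommGroup M] [Module K M]
variable {β : LinearMap.BilinForm K M} {T : End K M →ₗ[K] End K M} {Ψ : Fin 3 → End K M}

/-- endomorphisms preserving `range (Ψ ^ a)` -/
def Pr (Ψ : End K M) (a : ℕ) : AddSubgroup (End K M) where
  carrier := {A | ∀ v, ∃ v', A ((Ψ ^ a) v) = (Ψ ^ a) v'}
  add_mem' := by
    intro A A' hA hA' v
    obtain ⟨x, hx⟩ := hA v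
    obtain ⟨y, hy⟩ := hA' v
    exact ⟨x + y, by rw [LinearMap.add_apply, hx, hy, map_add]⟩
  zero_mem' := fun v => ⟨0, by rw [LinearMap.zero_apply, map_zero]⟩
  neg_mem' := by
    intro A hA v
    obtain ⟨x, hx⟩ := hA v
    exact ⟨-x, by rw [LinearMap.neg_apply, hx, map_neg]⟩

theorem pw_shift {h : ℕ → End K M} {Ψ : End K M} (hh : ∀ k, h (k + 2) * Ψ = Ψ * h k) (a : ℕ) :
    ∀ k, h (k + 2 * a) * Ψ ^ a = Ψ ^ a * h k := by
  induction a with
  | zero => intro k; simp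
  | succ a ih =>
    intro k
    calc h (k + 2 * (a + 1)) * Ψ ^ (a + 1) = h ((k + 2) + 2 * a) * Ψ ^ a * Ψ := by
          rw [pow_succ, ← mul_assoc, show k + 2 * (a + 1) = (k + 2) + 2 * a by ring]
      _ = Ψ ^ a * (h (k + 2) * Ψ) := by rw [ih, mul_assoc]
      _ = Ψ ^ (a + 1) * h k := by rw [hh, pow_succ, mul_assoc]

/-- elements of `ZZ` and their adjoints are filtered -/
theorem ZZ_fil {z : End K M} (hz : z ∈ ZZ T 1 0 Ψ) (s : Fin 3) (a : ℕ) :
    z ∈ Pr (Ψ s) a ∧ T z ∈ Pr (Ψ s) a := by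
  obtain ⟨h, ⟨d, hd⟩, -, -, -, h0, h1, h2⟩ := hz
  have key : ∀ k, h k ∈ Pr (Ψ s) a := by
    refine mem_of_tail (Pr (Ψ s) a) (2 * a) d h hd ?_
    intro j hj v
    have e1 := pw_shift (fun k => h2 k s) a (j - 2 * a)
    rw [show j - 2 * a + 2 * a = j by omega] at e1
    exact ⟨h (j - 2 * a) v, by
      have := LinearMap.congr_fun e1 v
      rwa [Module.End.mul_apply, Module.End.mul_apply] at this⟩
  exact ⟨h1 ▸ key 1, h0 ▸ key 0⟩

end core

section Fil

variable {n : Type*} [Fintype n] [DecidableEq n]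
variable {k K : Type*} [Field k] [Field K] [Algebra k K]
variable {M : Type*} [AddCommGroup M] [Module K M]
variable {β : LinearMap.BilinForm K M} {T : End K M →ₗ[K] End K M} {q : (n → K) →ₗ[K] M}
  {g : Matrix n n K} {Ψ : Fin 3 → End K M} {al : Fin 3 → Matrix n n K}

theorem Fil_iff {s : Fin 3} {y : Matrix n n K} : Fil g q Ψ s y ↔
    ∃ yb : End K M, Lifts q (y * g) yb ∧ ∀ a, yb ∈ Pr (Ψ s) a := by
  constructor
  · rintro ⟨yb, h1, h2⟩
    exact ⟨yb, fun u => by rw [← Matrix.mulVec_mulVec]; exact h1 u, fun a v => h2 a v⟩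
  · rintro ⟨yb, h1, h2⟩
    exact ⟨yb, fun u => by rw [Matrix.mulVec_mulVec]; exact h1 u, fun a v => h2 a v⟩

theorem Fil_add {s : Fin 3} {y y' : Matrix n n K} (h : Fil g q Ψ s y) (h' : Fil g q Ψ s y') :
    Fil g q Ψ s (y + y') := by
  rw [Fil_iff] at h h' ⊢
  obtain ⟨yb, h1, h2⟩ := h
  obtain ⟨yb', h1', h2'⟩ := h'
  refine ⟨yb + yb', ?_, fun a => (Pr (Ψ s) a).add_mem (h2 a) (h2' a)⟩
  rw [Matrix.add_mul]; exact h1.add h1'

theorem Fil_smul {s : Fin 3} {y : Matrix n n K} (c : K) (h : Fil g q Ψ s y) :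
    Fil g q Ψ s (c • y) := by
  rw [Fil_iff] at h ⊢
  obtain ⟨yb, h1, h2⟩ := h
  refine ⟨c • yb, ?_, fun a v => ?_⟩
  · rw [Matrix.smul_mul]; exact h1.smul c
  · obtain ⟨x, hx⟩ := h2 a v
    exact ⟨c • x, by rw [LinearMap.smul_apply, hx, map_smul]⟩

theorem Fil_neg {s : Fin 3} {y : Matrix n n K} (h : Fil g q Ψ s y) : Fil g q Ψ s (-y) := by
  have := Fil_smul (-1 : K) h
  rwa [neg_one_smul] at this

theorem Fil_sub {s : Fin 3} {y y' : Matrix n n K} (h : Fil g q Ψ s y) (h' : Fil g q Ψ s y') :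
    Fil g q Ψ s (y - y') := by
  rw [sub_eq_add_neg]; exact Fil_add h (Fil_neg h')

theorem Fil_zero {s : Fin 3} : Fil g q Ψ s (0 : Matrix n n K) :=
  Fil_iff.2 ⟨0, by rw [Matrix.zero_mul]; exact Lifts.zero, fun a => (Pr (Ψ s) a).zero_mem⟩

/-- exactness at the arm `s` on the core implies filtered -/
theorem fil_of_arm (h : CF β T q g) {s : Fin 3} (hΨ : Lifts q (al s) (Ψ s))
    (hgal : g * al s = (al s)ᵀ * g) {c : K} {y : Matrix n n K}
    (harm : g * (y * (al s)ᵀ - c • (al s * y)) * g = 0) : Fil g q Ψ s y := by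
  obtain ⟨yb, hyb⟩ := h.exists_lift (z := y * g) (N := g * y) (by rw [Matrix.mul_assoc])
  rw [Fil_iff]
  refine ⟨yb, hyb, ?_⟩
  have h1 : yb * Ψ s = c • (Ψ s * yb) := by
    refine h.eq_of_gram (hyb.mul hΨ) ((hΨ.mul hyb).smul c) ?_
    have e1 : g * (y * g * al s) = g * (y * (al s)ᵀ) * g := by
      rw [Matrix.mul_assoc y, hgal]; simp only [Matrix.mul_assoc]
    have e2 : g * (c • (al s * (y * g))) = g * (c • (al s * y)) * g := by
      simp only [Matrix.mul_smul, Matrix.smul_mul, Matrix.mul_assoc]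
    rw [e1, e2, ← sub_eq_zero, ← Matrix.sub_mul, ← Matrix.mul_sub]
    exact harm
  intro a
  have h2 : yb * Ψ s ^ a = c ^ a • (Ψ s ^ a * yb) := by
    induction a with
    | zero => simp
    | succ a ih =>
      rw [pow_succ, ← mul_assoc, ih, smul_mul_assoc, mul_assoc, h1, mul_smul_comm, smul_smul,
        ← mul_assoc, pow_succ]
  intro v
  have h3 := LinearMap.congr_fun h2 v
  refine ⟨c ^ a • yb v, ?_⟩
  rw [Module.End.mul_apply] at h3
  rw [h3, LinearMap.smul_apply, Module.End.mul_apply, map_smul]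

/-- the transposed statement -/
theorem fil_of_arm_tr (h : CF β T q g) (hgs : gᵀ = g) {s : Fin 3} (hΨ : Lifts q (al s) (Ψ s))
    (hgal : g * al s = (al s)ᵀ * g) {c : K} (hc : c ≠ 0) {y : Matrix n n K}
    (harm : g * (y * (al s)ᵀ - c • (al s * y)) * g = 0) : Fil g q Ψ s yᵀ := by
  refine fil_of_arm h hΨ hgal (c := c⁻¹) ?_
  have h1 := congrArg transpose harm
  simp only [transpose_mul, transpose_sub, transpose_smul, transpose_transpose, hgs,
    transpose_zero] at h1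
  have h2 : yᵀ * (al s)ᵀ - c⁻¹ • (al s * yᵀ) = -(c⁻¹ • (al s * yᵀ - c • (yᵀ * (al s)ᵀ))) := by
    rw [smul_sub, smul_smul, inv_mul_cancel₀ hc, one_smul]; abel
  rw [h2, Matrix.mul_neg, Matrix.neg_mul, Matrix.mul_smul, Matrix.smul_mul, Matrix.mul_assoc, h1,
    smul_zero, neg_zero]

/-- left multiplication by a correction -/
theorem fil_zmul (h : CF β T q g) {s : Fin 3} {y z : Matrix n n K} (hy : Fil g q Ψ s y)
    (hz : z ∈ ZF T q Ψ) : Fil g q Ψ s (z * y) := by
  rw [Fil_iff] at hy ⊢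
  obtain ⟨yb, h1, h2⟩ := hy
  obtain ⟨zb, z1, z2⟩ := hz
  refine ⟨zb * yb, by rw [Matrix.mul_assoc]; exact z1.mul h1, fun a v => ?_⟩
  obtain ⟨x, hx⟩ := h2 a v
  obtain ⟨x', hx'⟩ := (ZZ_fil z2 s a).2 x
  rw [h.adj.TT] at hx'
  exact ⟨x', by rw [Module.End.mul_apply, hx, hx']⟩

/-- right multiplication by a transposed correction -/
theorem fil_mulz (h : CF β T q g) {s : Fin 3} {y z : Matrix n n K} (hy : Fil g q Ψ s y)
    (hz : z ∈ ZF T q Ψ) : Fil g q Ψ s (y * zᵀ) := by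
  rw [Fil_iff] at hy ⊢
  obtain ⟨yb, h1, h2⟩ := hy
  obtain ⟨zb, z1, z2⟩ := hz
  refine ⟨yb * T zb, fun u => ?_, fun a v => ?_⟩
  · obtain ⟨u', hu'⟩ := h.surj (T zb (q u))
    have e1 : zᵀ *ᵥ (g *ᵥ u) = g *ᵥ u' := by
      rw [← sub_eq_zero]
      refine dotProduct_eq_zero _ (fun w => ?_)
      rw [sub_dotProduct, sub_eq_zero]
      have g1 : (zᵀ *ᵥ (g *ᵥ u)) ⬝ᵥ w = β (q (z *ᵥ w)) (q u) := by
        rw [h.form, dotProduct_comm, Matrix.dotProduct_mulVec, Matrix.vecMul_transpose]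
      have g2 : (g *ᵥ u') ⬝ᵥ w = β (q w) (q u') := by
        rw [h.form, dotProduct_comm]
      rw [g1, g2, z1, hu', h.adj.symm (q w), h.adj.adj, h.adj.symm]
    rw [Module.End.mul_apply, ← hu', ← h1, ← Matrix.mulVec_mulVec, ← Matrix.mulVec_mulVec,
      ← Matrix.mulVec_mulVec, e1]
  · obtain ⟨x, hx⟩ := (ZZ_fil z2 s a).1 v
    obtain ⟨x', hx'⟩ := h2 a x
    exact ⟨x', by rw [Module.End.mul_apply, hx, hx']⟩

/-- blocks -/
theorem fil_blk (h : CF β T q g) {s : Fin 3} (hΨ : Lifts q (al s) (Ψ s)) {e e' : Matrix n n K}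
    (he : g * e = eᵀ * g) (he' : g * e' = e'ᵀ * g) (hal : e * al s = al s * e)
    (hal' : e' * al s = al s * e') {y : Matrix n n K} (hy : Fil g q Ψ s y) :
    Fil g q Ψ s (e * y * e'ᵀ) := by
  obtain ⟨eb, hb⟩ := h.exists_lift he
  obtain ⟨eb', hb'⟩ := h.exists_lift he'
  have c1 : eb * Ψ s = Ψ s * eb :=
    Lifts.unique h.surj (hb.mul hΨ) (by rw [hal]; exact hΨ.mul hb)
  have c2 : eb' * Ψ s = Ψ s * eb' :=
    Lifts.unique h.surj (hb'.mul hΨ) (by rw [hal']; exact hΨ.mul hb')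
  rw [Fil_iff] at hy ⊢
  obtain ⟨yb, h1, h2⟩ := hy
  refine ⟨eb * (yb * eb'), ?_, fun a v => ?_⟩
  · have e1 : e * y * e'ᵀ * g = e * (y * g * e') := by
      rw [Matrix.mul_assoc _ e'ᵀ, ← he']; simp only [Matrix.mul_assoc]
    rw [e1]; exact hb.mul (h1.mul hb')
  · have d1 : eb * Ψ s ^ a = Ψ s ^ a * eb := (show Commute eb (Ψ s) from c1).pow_right a
    have d2 : eb' * Ψ s ^ a = Ψ s ^ a * eb' := (show Commute eb' (Ψ s) from c2).pow_right a
    have f1 := LinearMap.congr_fun d2 v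
    rw [Module.End.mul_apply, Module.End.mul_apply] at f1
    obtain ⟨x, hx⟩ := h2 a (eb' v)
    have f2 := LinearMap.congr_fun d1 x
    rw [Module.End.mul_apply, Module.End.mul_apply] at f2
    exact ⟨eb x, by rw [Module.End.mul_apply, Module.End.mul_apply, f1, hx, f2]⟩

section nab

variable (h : CF β T q g) {d : Derivation k K K} {P : Matrix n n K}
  (hg : g.map d = Pᵀ * g + g * P) {s : Fin 3} (hΨ : Lifts q (al s) (Ψ s)) {zY : Matrix n n K}
  (hv : g * ((al s).map d + P * al s - al s * P) = zYᵀ * g * al s + g * al s * zY)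
  (hzY : zY ∈ ZF T q Ψ)
include h hg hΨ hv hzY

/-- the connection preserves the flags -/
theorem nb_fil (a : ℕ) (v : M) : ∃ v', h.nb d P ((Ψ s ^ a) v) = (Ψ s ^ a) v' := by
  obtain ⟨yb, y1, y2⟩ := hzY
  have hd : (h.conn hg).dE (Ψ s) = T yb * Ψ s + Ψ s * yb := by
    apply h.adj.ext
    intro x y
    obtain ⟨x, rfl⟩ := h.surj x
    obtain ⟨y, rfl⟩ := h.surj y
    have e1 := h.lifts_dE hg hΨ
    rw [h.adj.symm, ← e1, h.form, Matrix.mulVec_mulVec, hv, LinearMap.add_apply,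
      Module.End.mul_apply, Module.End.mul_apply, map_add, LinearMap.add_apply, h.adj.adj,
      ← y1, ← y1, ← hΨ, ← hΨ, h.adj.symm (q (al s *ᵥ x)), h.form,
      h.adj.symm (q (al s *ᵥ (zY *ᵥ x))), h.form, Matrix.add_mulVec, dotProduct_add]
    congr 1
    · rw [Matrix.mul_assoc, ← Matrix.mulVec_mulVec, Matrix.dotProduct_mulVec,
        Matrix.vecMul_transpose, Matrix.mulVec_mulVec]
    · simp only [Matrix.mulVec_mulVec, Matrix.mul_assoc]
  have f1 : ∀ a, T yb ∈ Pr (Ψ s) a := fun a => (ZZ_fil y2 s a).1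
  have f2 : ∀ a, yb ∈ Pr (Ψ s) a := fun a => by
    have := (ZZ_fil y2 s a).2
    rwa [h.adj.TT] at this
  have key : ∀ a v, ∃ v', (h.conn hg).dE (Ψ s ^ a) v = (Ψ s ^ a) v' := by
    intro a
    induction a with
    | zero => intro v; exact ⟨0, by rw [pow_zero, Conn.dE_one]; simp⟩
    | succ a ih =>
      intro v
      obtain ⟨x, hx⟩ := ih v
      obtain ⟨x1, hx1⟩ := f1 (a + 1) v
      obtain ⟨x2, hx2⟩ := f2 a v
      refine ⟨x + x1 + x2, ?_⟩
      rw [pow_succ', Conn.dE_mul, LinearMap.add_apply, Module.End.mul_apply, Module.End.mul_apply,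
        hx, hd, LinearMap.add_apply, Module.End.mul_apply, Module.End.mul_apply, hx2]
      have e2 : T yb (Ψ s ((Ψ s ^ a) v)) = (Ψ s ^ (a + 1)) x1 := by
        rw [← hx1, pow_succ', Module.End.mul_apply]
      rw [e2, map_add, map_add, pow_succ', Module.End.mul_apply, Module.End.mul_apply,
        Module.End.mul_apply]
      abel
  obtain ⟨x, hx⟩ := key a v
  refine ⟨h.nb d P v + x, ?_⟩
  rw [Conn.dE_apply] at hx
  rw [map_add, ← hx]; abel

/-- **the covariant derivative of a filtered tensor is filtered** -/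
theorem fil_nab {y : Matrix n n K} (hy : Fil g q Ψ s y) :
    Fil g q Ψ s (y.map d + P * y + y * Pᵀ) := by
  rw [Fil_iff] at hy ⊢
  obtain ⟨yb, h1, h2⟩ := hy
  refine ⟨(h.conn hg).dE yb, ?_, fun a v => ?_⟩
  · have e1 : (y.map d + P * y + y * Pᵀ) * g = (y * g).map d + P * (y * g) - y * g * P := by
      rw [map_mul_der, hg, Matrix.mul_add, Matrix.add_mul, Matrix.add_mul]
      simp only [Matrix.mul_assoc]
      abel
    rw [e1]
    exact h.lifts_dE hg h1
  · obtain ⟨x, hx⟩ := h2 a v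
    obtain ⟨x1, hx1⟩ := nb_fil h hg hΨ hv hzY a x
    obtain ⟨x2, hx2⟩ := nb_fil h hg hΨ hv hzY a v
    obtain ⟨x3, hx3⟩ := h2 a x2
    refine ⟨x1 - x3, ?_⟩
    rw [Conn.dE_apply, hx, hx1, hx2, hx3, map_sub]

end nab

end Fil

end Crest.Agent.R172.RDfil
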