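import Crest.Agent.R172.RDP
import Crest.Agent.R172.RDfalse

/-!
Row 172 (S0260), T0, `RD6` in terms of the propositions `OffP`, `DiagP`.
-/

set_option autoImplicit false
set_option linter.unusedSectionVars false

namespace Crest.Agent.R172.RD

open Matrix Module TensorProduct Crest.Agent.R172.FO Crest.Agent.R172.FrmB
open Crest.Agent.R172.Core (NS Tame)

variable {ι : Type*} [Fintype ι] [DecidableEq ι] {δ : Type*} [Fintype δ] [DecidableEq δ]
variable {n : Type*} [Fintype n] [DecidableEq n]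
variable {k K : Type*} [Field k] [Field K] [Algebra k K]
variable {M : Type*} [AddCommGroup M] [Module K M]
variable {m : Type*} [Fintype m] [DecidableEq m]
variable {arm : δ → Fin 3} {J : Matrix ι ι K} {B : Matrix δ δ K}
  {N W : Submodule K (Matrix ι δ K)} {F G : Matrix ι δ K} {p : Matrix ι n K}
  {al : Fin 3 → Matrix n n K} {tau : Matrix n n K}
  {β : LinearMap.BilinForm K M} {T : Module.End K M →ₗ[K] Module.End K M}
  {Ψ : Fin 3 → Module.End K M} {D : Module.End K M} {π : (n → K) →ₗ[K] M}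
  {e : m → Matrix n n K} {lam : m → K} {l : Fin 3 → ℕ} {TT : Set k}

/-- **RD6**: the END -/
theorem false_of_fr [CharZero K] [FiniteDimensional K M]
    (h : Fr k arm J B N W F G p al tau β T Ψ D π e lam l TT)
    (hoff : ∀ i j : m, i ≠ j → OffP arm J N W F p T Ψ π e i j)
    (hdiag : ∀ i : m, DiagP arm J N W F p al T Ψ π e l i)
    (hDΦ : ∀ s v, D (Ψ s v) = Ψ s (D v)) (hDs : ⨆ ν, D.maxGenEigenspace ν = ⊤)
    (hT : Tame Ψ D) : False :=
  false_of_fr_of h (fun i j hij => hoff i j hij) (fun i => hdiag i) hDΦ hDs hT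

/-- the whole chain -/
theorem false_of_chain [CharZero K] [FiniteDimensional K M]
    (h : Fr k arm J B N W F G p al tau β T Ψ D π e lam l TT)
    (first : ∀ i j : m, i ≠ j → FirstP k arm J B N W F G p al tau T Ψ π e TT i j)
    (halves : ∀ i j : m, i ≠ j → FirstP k arm J B N W F G p al tau T Ψ π e TT i j →
      HalvesP arm J B N W F p al T Ψ π e i j)
    (offdiag : ∀ i j : m, i ≠ j → HalvesP arm J B N W F p al T Ψ π e i j →
      OffP arm J N W F p T Ψ π e i j)
    (second : ∀ i j : m, i ≠ j → (∀ i j : m, i ≠ j → OffP arm J N W F p T Ψ π e i j) →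
      SecondP arm J B N W F p al T Ψ π e i j)
    (diag : ∀ i j : m, i ≠ j → HalvesP arm J B N W F p al T Ψ π e i j →
      SecondP arm J B N W F p al T Ψ π e i j → DiagP arm J N W F p al T Ψ π e l i)
    (hDΦ : ∀ s v, D (Ψ s v) = Ψ s (D v)) (hDs : ⨆ ν, D.maxGenEigenspace ν = ⊤)
    (hT : Tame Ψ D) : False := by
  have h1 : ∀ i j : m, i ≠ j → HalvesP arm J B N W F p al T Ψ π e i j :=
    fun i j hij => halves i j hij (first i j hij)
  have h2 : ∀ i j : m, i ≠ j → OffP arm J N W F p T Ψ π e i j :=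
    fun i j hij => offdiag i j hij (h1 i j hij)
  refine false_of_fr h h2 (fun i => ?_) hDΦ hDs hT
  obtain ⟨j, hj⟩ := h.two i
  exact diag i j hj.symm (h1 i j hj.symm) (second i j hj.symm h2)

end Crest.Agent.R172.RD
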