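import Crest.Agent.R172.RDP

/-!
Row 172 (S0260), `RD.first`: block formulas of the first derivative (FIRST, decorated), given the
choice of the connection (`pick`) and the core part (`ZF`).
-/

set_option autoImplicit false
set_option linter.unusedSectionVars false

namespace Crest.Agent.R172.RD

open Matrix Module TensorProduct Crest.Agent.R172.FO Crest.Agent.R172.FrmB

section offc

variable {n : Type*} [Fintype n] [DecidableEq n] {K : Type*} [Field K]
variable {m : Type*} [Fintype m] [DecidableEq m] {e : m → Matrix n n K}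

theorem off_add' (A A' : Matrix n n K) : off e (A + A') = off e A + off e A' := by
  unfold off
  simp only [Matrix.mul_add, Matrix.add_mul, Finset.sum_add_distrib]
  abel

theorem off_sub' (A A' : Matrix n n K) : off e (A - A') = off e A - off e A' := by
  unfold off
  simp only [Matrix.mul_sub, Matrix.sub_mul, Finset.sum_sub_distrib]
  abel

theorem off_smul' (c : K) (A : Matrix n n K) : off e (c • A) = c • off e A := by
  unfold off
  rw [smul_sub, Finset.smul_sum]
  congr 1
  refine Finset.sum_congr rfl fun i _ => ?_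
  rw [Matrix.mul_smul, Matrix.smul_mul]

theorem off_mul_left' {A : Matrix n n K} (hA : ∀ i, e i * A = A * e i) (X : Matrix n n K) :
    off e (A * X) = A * off e X := by
  unfold off
  rw [Matrix.mul_sub, Matrix.mul_sum]
  congr 1
  refine Finset.sum_congr rfl fun i _ => ?_
  rw [← Matrix.mul_assoc, hA]
  simp only [Matrix.mul_assoc]

theorem off_mul_right' {A : Matrix n n K} (hA : ∀ i, e i * A = A * e i) (X : Matrix n n K) :
    off e (X * A) = off e X * A := by
  unfold off
  rw [Matrix.sub_mul, Matrix.sum_mul]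
  congr 1
  refine Finset.sum_congr rfl fun i _ => ?_
  simp only [Matrix.mul_assoc]
  rw [hA]

theorem off_blk' (orth : ∀ i j, i ≠ j → e i * e j = 0) {i j : m} (hij : i ≠ j)
    {X : Matrix n n K} (hX : e i * X * e j = X) : off e X = X := by
  unfold off
  rw [Finset.sum_eq_zero, sub_zero]
  intro l _
  by_cases hl : l = i
  · subst hl
    rw [← hX]
    rw [Matrix.mul_assoc, Matrix.mul_assoc, orth j l (Ne.symm hij), Matrix.mul_zero,
      Matrix.mul_zero]
  · rw [← hX, ← Matrix.mul_assoc, ← Matrix.mul_assoc, orth l i hl, Matrix.zero_mul,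
      Matrix.zero_mul, Matrix.zero_mul]

theorem off_comm' (idem : ∀ i, e i * e i = e i) (sumE : ∑ i, e i = 1)
    {A : Matrix n n K} (hA : ∀ i, e i * A = A * e i) : off e A = 0 := by
  unfold off
  have : ∀ i, e i * A * e i = A * e i := by
    intro i
    rw [hA, Matrix.mul_assoc, idem]
  rw [Finset.sum_congr rfl fun i _ => this i, ← Matrix.mul_sum, sumE, Matrix.mul_one, sub_self]

theorem off_map' {k : Type*} [Field k] [Algebra k K] {d : Derivation k K K}
    (hC : ∀ i, (e i).map d = 0) (X : Matrix n n K) : off e (X.map d) = (off e X).map d := by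
  unfold off
  have h1 : (X - ∑ l, e l * X * e l).map d = X.map d - ∑ l, (e l * X * e l).map d := by
    ext i j
    simp [Matrix.sum_apply]
  rw [h1]
  congr 1
  refine Finset.sum_congr rfl fun i _ => ?_
  rw [map_mul_der, map_mul_der, hC, Matrix.mul_zero, Matrix.zero_mul, add_zero, zero_add]

end offc

variable {ι : Type*} [Fintype ι] [DecidableEq ι] {δ : Type*} [Fintype δ] [DecidableEq δ]
variable {n : Type*} [Fintype n] [DecidableEq n]
variable {k K : Type*} [Field k] [Field K] [Algebra k K]

section chg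

variable {arm : δ → Fin 3} {J : Matrix ι ι K} {B : Matrix δ δ K}
  {N W : Submodule K (Matrix ι δ K)} {F G : Matrix ι δ K} {p : Matrix ι n K}
  {al : Fin 3 → Matrix n n K} {tau : Matrix n n K} {c : K} {kap kai : Matrix n n K}

/-- `FC.Ctx.first0` for every connection `θ` with `dp = p θ` -/
theorem first_any (h : FC.Ctx k arm J B N W F G p al tau)
    (hp : FC.Par k arm J B N W F G p tau c kap kai)
    (χ : Fin 3 → Matrix n n K) (hχ : ∀ s, (χ s)ᵀ = - χ s)
    (hex : ∑ s, (χ s * (kap * kap)ᵀ * (al s)ᵀ - al s * (kap * kap) * χ s) = 0) :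
    ∃ (d : Derivation k K K) (θ0 : Matrix n n K), p.map d = p * θ0 ∧
      (∀ s, p * FC.nab d θ0 (al s * (kap * kap)) =
        p * (χ s * (pᵀ * J * p) * (al s * (kap * kap)) -
          al s * (kap * kap) * (χ s * (pᵀ * J * p)))) ∧
      ∀ θ, p.map d = p * θ →
        (∀ s, p * FC.nab d θ (al s * (kap * kap)) =
          p * (χ s * (pᵀ * J * p) * (al s * (kap * kap)) -
            al s * (kap * kap) * (χ s * (pᵀ * J * p)))) ∧
        ∃ w, w ∈ W ∧ io arm J F p (fun s => kai * χ s * kapᵀ - χ s) - w ∈ N ∧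
          wᵀ * J * p = Fᵀ * J * p * (c • (FC.nab d θ tau * kai)) ∧
          ∀ s, w * E K arm s * B * (Fᵀ * J * p) = p *
            (kai * χ s * kapᵀ * ((pᵀ * J * p) * al s) - FC.nab d θ (al s) +
              al s * (kap * ((χ s)ᵀ * ((pᵀ * J * p) * kai))) -
              al s * (c • (FC.nab d θ tau * kai))) := by
  obtain ⟨d, ξ, θ0, hreal, hθ0, -, hdH, hW, hleft, hdbs, -, hβ⟩ := h.first0 hp χ hχ hex
  refine ⟨d, θ0, hθ0, hβ, ?_⟩
  intro θ hθ
  obtain ⟨γ, hγ⟩ : ∃ γ : Matrix n n K, γ = pᵀ * J * p := ⟨_, rfl⟩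
  obtain ⟨Δ, hΔ⟩ : ∃ Δ : Matrix n n K, θ = θ0 + Δ := ⟨θ - θ0, by abel⟩
  have hpΔ : p * Δ = 0 := by
    have h1 := hθ
    rw [hθ0, hΔ, Matrix.mul_add] at h1
    exact left_eq_add.1 h1
  have hnab : ∀ X : Matrix n n K, FC.nab d θ X = FC.nab d θ0 X + (Δ * X - X * Δ) := by
    intro X
    unfold FC.nab
    rw [hΔ, Matrix.add_mul, Matrix.mul_add]
    abel
  have hQΔ : Fᵀ * J * p * Δ = 0 := by rw [Matrix.mul_assoc, hpΔ, Matrix.mul_zero]
  have hQτΔ : Fᵀ * J * p * (tau * Δ) = 0 := by
    rw [← Matrix.mul_assoc, ← h.hτ, Matrix.mul_assoc, hpΔ, Matrix.mul_zero]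
  have hQnab : ∀ Y : Matrix n n K, Fᵀ * J * p * (FC.nab d θ tau * Y) =
      Fᵀ * J * p * (FC.nab d θ0 tau * Y) := by
    intro Y
    rw [hnab, Matrix.add_mul, Matrix.mul_add, Matrix.sub_mul, Matrix.mul_sub,
      ← Matrix.mul_assoc _ (Δ * tau), ← Matrix.mul_assoc _ Δ tau, hQΔ, Matrix.zero_mul,
      Matrix.zero_mul, ← Matrix.mul_assoc _ (tau * Δ), hQτΔ, Matrix.zero_mul, sub_zero, add_zero]
  have hbsX : ∀ s (X : Matrix n n K), FC.bs arm J B F p s * X =
      E K arm s * B * (Fᵀ * J * p * X) := by
    intro s X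
    unfold FC.bs
    simp only [Matrix.mul_assoc]
  have hdbs' : ∀ s, (FC.bs arm J B F p s).map d = FC.bs arm J B F p s *
      (kap * ((χ s)ᵀ * (γ * kai)) + -(c • (FC.nab d θ tau * kai)) + θ) := by
    intro s
    have e1 : FC.bs arm J B F p s * (-(c • (FC.nab d θ tau * kai))) =
        FC.bs arm J B F p s * (-(c • (FC.nab d θ0 tau * kai))) := by
      rw [hbsX, hbsX, Matrix.mul_neg (Fᵀ * J * p), Matrix.mul_neg (Fᵀ * J * p),
        Matrix.mul_smul (Fᵀ * J * p), Matrix.mul_smul (Fᵀ * J * p), hQnab]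
    have e2 : FC.bs arm J B F p s * θ = FC.bs arm J B F p s * θ0 := by
      rw [hbsX, hbsX, hΔ, Matrix.mul_add (Fᵀ * J * p), hQΔ, add_zero]
    rw [hdbs s, hγ, Matrix.mul_add, Matrix.mul_add, Matrix.mul_add, Matrix.mul_add, e1, e2]
  refine ⟨?_, ?_⟩
  · intro s
    rw [hnab, Matrix.mul_add, hβ s]
    have h1 : p * (Δ * (al s * (kap * kap)) - al s * (kap * kap) * Δ) = 0 := by
      rw [Matrix.mul_sub, ← Matrix.mul_assoc, hpΔ, Matrix.zero_mul, ← Matrix.mul_assoc,
        ← h.PhiHp hp, Matrix.mul_assoc, hpΔ, Matrix.mul_zero, sub_zero]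
    rw [h1, add_zero]
  · refine ⟨io arm J F p (fun s => kai * χ s * kapᵀ) - F.map d, ?_, ?_, ?_, ?_⟩
    · rw [← FC.Ctx.famio]
      have := W.neg_mem hW
      rwa [neg_sub] at this
    · rw [← FC.Ctx.famio, ← FC.Ctx.famio]
      have h1 := hreal.onN F h.memF.1
      rw [FC.act_opF] at h1
      rw [← FC.fam_sub (fun s => kai * χ s * kapᵀ) χ]
      have e : FC.fam arm J F p (fun s => kai * χ s * kapᵀ) - FC.fam arm J F p χ -
          (FC.fam arm J F p (fun s => kai * χ s * kapᵀ) - F.map d) =
          F.map d - FC.fam arm J F p χ := by abel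
      rw [e]
      exact h1
    · rw [← FC.Ctx.famio]
      have e : FC.fam arm J F p (fun s => kai * χ s * kapᵀ) - F.map d =
          -(F.map d - FC.fam arm J F p (fun s => kai * χ s * kapᵀ)) := by abel
      rw [e, transpose_neg, Matrix.neg_mul, Matrix.neg_mul, hleft, Matrix.mul_neg, neg_neg,
        Matrix.mul_smul, Matrix.mul_smul, hQnab]
    · intro s
      rw [← FC.Ctx.famio]
      have h1 := congrArg (fun A : Matrix ι n K => A.map d) (h.Fbs s)
      simp only [map_mul_der, hdbs' s, hθ] at h1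
      have h2 : F.map d * FC.bs arm J B F p s = p * θ * al s + p * (al s).map d -
          F * (FC.bs arm J B F p s * (kap * ((χ s)ᵀ * (γ * kai)) +
            -(c • (FC.nab d θ tau * kai)) + θ)) := by
        rw [← h1]; abel
      have e : (FC.fam arm J F p (fun s => kai * χ s * kapᵀ) - F.map d) * E K arm s * B *
          (Fᵀ * J * p) = FC.fam arm J F p (fun s => kai * χ s * kapᵀ) * FC.bs arm J B F p s -
            F.map d * FC.bs arm J B F p s := by
        unfold FC.bs
        simp only [Matrix.sub_mul, Matrix.mul_assoc]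
      rw [e, h2, FC.fam_bs h.data, h.Fbs, ← Matrix.mul_assoc F, h.Fbs, ← hγ]
      have e3 : pᵀ * J * (p * al s) = γ * al s := by
        rw [hγ]; simp only [Matrix.mul_assoc]
      unfold FC.nab
      simp only [Matrix.mul_add, Matrix.mul_sub, Matrix.mul_neg, Matrix.mul_assoc, e3]
      rw [hγ]
      simp only [Matrix.mul_add, Matrix.mul_sub, Matrix.mul_neg, Matrix.mul_assoc]
      abel

end chg

section blocks

variable {M : Type*} [AddCommGroup M] [Module K M]
variable {m : Type*} [Fintype m] [DecidableEq m]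
variable {arm : δ → Fin 3} {J : Matrix ι ι K} {B : Matrix δ δ K}
  {N W : Submodule K (Matrix ι δ K)} {F G : Matrix ι δ K} {p : Matrix ι n K}
  {al : Fin 3 → Matrix n n K} {tau : Matrix n n K}
  {β : LinearMap.BilinForm K M} {T : Module.End K M →ₗ[K] Module.End K M}
  {Ψ : Fin 3 → Module.End K M} {D : Module.End K M} {π : (n → K) →ₗ[K] M}
  {e : m → Matrix n n K} {lam : m → K} {l : Fin 3 → ℕ} {TT : Set k}

/-- exactness of `x - xᵀ` -/
theorem hex_of {x P : Fin 3 → Matrix n n K} (hs : ∑ r, (x r * (P r)ᵀ - P r * x r) = 0) :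
    ∑ r, ((x r - (x r)ᵀ) * (P r)ᵀ - P r * (x r - (x r)ᵀ)) = 0 := by
  have h1 : ∀ r, (x r - (x r)ᵀ) * (P r)ᵀ - P r * (x r - (x r)ᵀ) =
      (x r * (P r)ᵀ - P r * x r) + (x r * (P r)ᵀ - P r * x r)ᵀ := by
    intro r
    rw [transpose_sub, transpose_mul, transpose_mul, transpose_transpose, Matrix.sub_mul,
      Matrix.mul_sub]
    abel
  rw [Finset.sum_congr rfl fun r _ => h1 r, Finset.sum_add_distrib, ← transpose_sum, hs,
    transpose_zero, add_zero]

/-- FIRST, given `pick` and the core part -/
theorem first_of (h : Fr k arm J B N W F G p al tau β T Ψ D π e lam l TT)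
    {i j : m} (hij : i ≠ j) {t : k} {kap kai : Matrix n n K}
    (hp : FC.Par k arm J B N W F G p tau (algebraMap k K t) kap kai)
    {x : Fin 3 → Matrix n n K} {b kk : Matrix n n K}
    (hx : Dec (pᵀ * J * p) π e i j (fun r => al r * (kap * kap)) (fun r => al r * (kap * kap)) x
      b kk)
    (hpick : ∀ (d : Derivation k K K) (θ0 : Matrix n n K), p.map d = p * θ0 →
      ∀ U : Fin 3 → Matrix n n K,
      (∀ s, p * FC.nab d θ0 (al s * (kap * kap)) = p * U s) →
      ∀ C : Matrix n n K, off e C = C → (∀ u, π (C *ᵥ u) = 0) →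
      (∀ s, off e (U s) = C * (al s * (kap * kap)) - al s * (kap * kap) * C) →
      ∃ θ, p.map d = p * θ ∧ off e θ = C)
    (hZF : ∀ (d : Derivation k K K) (θ : Matrix n n K), p.map d = p * θ →
      (∀ s, p * FC.nab d θ (al s * (kap * kap)) =
        p * ((x s - (x s)ᵀ) * (pᵀ * J * p) * (al s * (kap * kap)) -
          al s * (kap * kap) * ((x s - (x s)ᵀ) * (pᵀ * J * p)))) →
      algebraMap k K t • (FC.nab d θ tau * kai) ∈ ZFr.ZF T π Ψ) :
    RS arm J B N W F p T Ψ π e
      (fun r => kai * (x r - (x r)ᵀ) * kapᵀ - (x r - (x r)ᵀ))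
      ((b - kap * b * kai) + (kk - kap * kk * kai))
      (fun r => (kai * b * kap - b) * al r + (kai * kk * kap - kk) * al r) := by
  have hc := h.ctx
  have hkk' : kai * kap = 1 := hc.mul' hp
  have hkap_al := fun s => hc.kap_al hp s
  have hkai_al := fun s => hc.kai_al hp s
  have hkap_sa := hc.kap_sa hp
  obtain ⟨γ, hγ⟩ : ∃ γ : Matrix n n K, γ = pᵀ * J * p := ⟨_, rfl⟩
  -- `e` commutes with everything
  have ekap : ∀ l, e l * kap = kap * e l := by
    intro l
    rw [hp.kap_eq, Matrix.mul_add, Matrix.add_mul, Matrix.mul_one, Matrix.one_mul,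
      Matrix.mul_smul, Matrix.smul_mul, h.etau]
  have ekai : ∀ l, e l * kai = kai * e l := by
    intro l
    calc e l * kai = kai * kap * (e l * kai) := by rw [hkk', Matrix.one_mul]
      _ = kai * (e l * kap) * kai := by rw [ekap]; simp only [Matrix.mul_assoc]
      _ = kai * e l * (kap * kai) := by simp only [Matrix.mul_assoc]
      _ = kai * e l := by rw [hp.mul, Matrix.mul_one]
  have ebeta : ∀ s l, e l * (al s * (kap * kap)) = al s * (kap * kap) * e l := by
    intro s l
    rw [← Matrix.mul_assoc, h.eal, Matrix.mul_assoc, ← Matrix.mul_assoc (e l), ekap,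
      Matrix.mul_assoc kap (e l), ekap]
    simp only [Matrix.mul_assoc]
  obtain ⟨C, hC⟩ : ∃ C : Matrix n n K, C = b + kk := ⟨_, rfl⟩
  have hoffC : off e C = C := by
    rw [hC, off_add', off_blk' h.orth hij hx.bb, off_blk' h.orth (Ne.symm hij) hx.bk]
  have hCr : ∀ u, π (C *ᵥ u) = 0 := by
    intro u
    rw [hC, Matrix.add_mulVec, map_add, hx.rb, hx.rk, add_zero]
  -- `χ γ`
  obtain ⟨χ, hχd⟩ : ∃ χ : Fin 3 → Matrix n n K, χ = fun s => x s - (x s)ᵀ := ⟨_, rfl⟩
  have hχ : ∀ s, (χ s)ᵀ = - χ s := by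
    intro s
    rw [hχd]
    simp only [transpose_sub, transpose_transpose]
    abel
  have heg : ∀ l, (e l)ᵀ * γ = γ * e l := by
    intro l
    rw [hγ]; exact h.eg l
  have hX1 : ∀ s, e j * (x s * γ) * e i = x s * γ := by
    intro s
    conv_rhs => rw [← hx.bx s]
    simp only [Matrix.mul_assoc]
    rw [heg]
  have hX2 : ∀ s, e i * ((x s)ᵀ * γ) * e j = (x s)ᵀ * γ := by
    intro s
    conv_rhs => rw [← hx.bx s]
    simp only [transpose_mul, transpose_transpose, Matrix.mul_assoc]
    rw [heg]
  have hoffX : ∀ s, off e (χ s * γ) = χ s * γ := by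
    intro s
    rw [hχd]
    simp only [Matrix.sub_mul]
    rw [off_sub', off_blk' h.orth (Ne.symm hij) (hX1 s), off_blk' h.orth hij (hX2 s)]
  have hrel : ∀ s, χ s * γ * (al s * (kap * kap)) - al s * (kap * kap) * (χ s * γ) =
      C * (al s * (kap * kap)) - al s * (kap * kap) * C := by
    intro s
    have e1 : al s * (kap * kap) * (b + (x s)ᵀ * γ) = (b + (x s)ᵀ * γ) * (al s * (kap * kap)) := by
      rw [hγ]; exact hx.eb s
    have e2 : (kk - x s * γ) * (al s * (kap * kap)) = al s * (kap * kap) * (kk - x s * γ) := by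
      rw [hγ]; exact hx.ek s
    generalize al s * (kap * kap) = P at e1 e2 ⊢
    rw [Matrix.mul_add, Matrix.add_mul] at e1
    rw [Matrix.sub_mul, Matrix.mul_sub] at e2
    rw [hχd, hC]
    simp only [Matrix.sub_mul, Matrix.mul_sub, Matrix.add_mul, Matrix.mul_add]
    have e3 : P * ((x s)ᵀ * γ) = b * P + (x s)ᵀ * γ * P - P * b := by
      rw [← e1]; abel
    have e4 : x s * γ * P = kk * P - P * kk + P * (x s * γ) := by
      have : x s * γ * P = kk * P - (kk * P - x s * γ * P) := by abel
      rw [this, e2]; abel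
    rw [e3, e4]
    abel
  have hs0 : ∑ s, (χ s * (kap * kap)ᵀ * (al s)ᵀ - al s * (kap * kap) * χ s) = 0 := by
    have h1 := hex_of (P := fun r => al r * (kap * kap)) hx.sum
    rw [hχd]
    rw [← h1]
    refine Finset.sum_congr rfl fun s _ => ?_
    simp only [transpose_mul, Matrix.mul_assoc]
  obtain ⟨d, θ0, hθ0, hβ0, hany⟩ := first_any hc hp χ hχ hs0
  obtain ⟨θ, hθ, hoffθ⟩ := hpick d θ0 hθ0 _ hβ0 C hoffC hCr (by
    intro s
    rw [off_sub', ← hγ, off_mul_right' (ebeta s), off_mul_left' (ebeta s), hoffX]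
    exact hrel s)
  obtain ⟨hβ, w, hwW, hwN, hwl, hwr⟩ := hany θ hθ
  have hZ := hZF d θ hθ (by
    intro s
    have := hβ s
    rw [hχd] at this
    exact this)
  have hnabt : off e (FC.nab d θ tau) = C * tau - tau * C := by
    unfold FC.nab
    have h0 : off e tau = 0 := off_comm' h.idem h.sumE h.etau
    rw [off_sub', off_add', off_map' (fun l => h.eC l d), h0, off_mul_right' h.etau,
      off_mul_left' h.etau, hoffθ]
    have : (0 : Matrix n n K).map d = 0 := by ext i j; simp
    rw [this, zero_add]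
  have hnaba : ∀ s, off e (FC.nab d θ (al s)) = C * al s - al s * C := by
    intro s
    unfold FC.nab
    have h0 : off e (al s) = 0 := off_comm' h.idem h.sumE fun l => h.eal l s
    rw [off_sub', off_add', off_map' (fun l => h.eC l d), h0,
      off_mul_right' (fun l => h.eal l s), off_mul_left' (fun l => h.eal l s), hoffθ]
    have : (0 : Matrix n n K).map d = 0 := by ext i j; simp
    rw [this, zero_add]
  have hz : off e (algebraMap k K t • (FC.nab d θ tau * kai)) = C - kap * C * kai := by
    rw [off_smul', off_mul_right' ekai, hnabt]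
    have h1 : algebraMap k K t • (C * tau - tau * C) = C * kap - kap * C := by
      rw [hp.kap_eq, Matrix.mul_add, Matrix.add_mul, Matrix.mul_one, Matrix.one_mul,
        Matrix.mul_smul, Matrix.smul_mul, smul_sub]
      abel
    rw [← Matrix.smul_mul, h1, Matrix.sub_mul, Matrix.mul_assoc C, hp.mul, Matrix.mul_one]
  refine ⟨w, algebraMap k K t • (FC.nab d θ tau * kai), _, hwW, ?_, hwl, hwr, hZ, ?_, ?_⟩
  · rw [hχd] at hwN
    exact hwN
  · rw [hz, hC, Matrix.mul_add, Matrix.add_mul]
    abel
  · intro s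
    have eal : ∀ l, e l * al s = al s * e l := fun l => h.eal l s
    have t1 : off e (kai * χ s * kapᵀ * ((pᵀ * J * p) * al s)) = kai * (χ s * γ) * kap * al s := by
      have e1 : kai * χ s * kapᵀ * ((pᵀ * J * p) * al s) = kai * (χ s * γ) * (kap * al s) := by
        rw [← hγ]
        rw [← hγ] at hkap_sa
        calc kai * χ s * kapᵀ * (γ * al s) = kai * χ s * (kapᵀ * γ) * al s := by
              simp only [Matrix.mul_assoc]
          _ = _ := by rw [← hkap_sa]; simp only [Matrix.mul_assoc]
      have ek : ∀ l, e l * (kap * al s) = kap * al s * e l := by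
        intro l
        rw [← Matrix.mul_assoc, ekap, Matrix.mul_assoc, eal, Matrix.mul_assoc]
      rw [e1, off_mul_right' ek, off_mul_left' ekai, hoffX]
      simp only [Matrix.mul_assoc]
    have t2 : off e (al s * (kap * ((χ s)ᵀ * ((pᵀ * J * p) * kai)))) =
        -(al s * kap * (χ s * γ) * kai) := by
      have e1 : al s * (kap * ((χ s)ᵀ * ((pᵀ * J * p) * kai))) =
          -(al s * kap * (χ s * γ) * kai) := by
        rw [hχ, ← hγ]
        simp only [Matrix.neg_mul, Matrix.mul_neg, Matrix.mul_assoc]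
      have ek : ∀ l, e l * (al s * kap) = al s * kap * e l := by
        intro l
        rw [← Matrix.mul_assoc, eal, Matrix.mul_assoc, ekap, Matrix.mul_assoc]
      have h0 : ∀ A : Matrix n n K, off e (-A) = -off e A := by
        intro A
        have := off_smul' (e := e) (-1 : K) A
        simpa using this
      rw [e1, h0, off_mul_right' ekai, off_mul_left' ek, hoffX]
    have t3 : off e (al s * (algebraMap k K t • (FC.nab d θ tau * kai))) =
        al s * (C - kap * C * kai) := by
      rw [off_mul_left' eal, hz]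
    have hr := congrArg (fun A => kai * A * kai) (hrel s)
    simp only [Matrix.mul_sub, Matrix.sub_mul] at hr
    have a1 : kai * (χ s * γ * (al s * (kap * kap))) * kai = kai * (χ s * γ) * kap * al s := by
      calc kai * (χ s * γ * (al s * (kap * kap))) * kai
          = kai * (χ s * γ) * (al s * kap) * (kap * kai) := by simp only [Matrix.mul_assoc]
        _ = _ := by rw [hp.mul, Matrix.mul_one, ← hkap_al]; simp only [Matrix.mul_assoc]
    have a2 : kai * (al s * (kap * kap) * (χ s * γ)) * kai = al s * kap * (χ s * γ) * kai := by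
      calc kai * (al s * (kap * kap) * (χ s * γ)) * kai
          = (kai * al s) * (kap * kap) * (χ s * γ) * kai := by simp only [Matrix.mul_assoc]
        _ = al s * (kai * kap) * kap * (χ s * γ) * kai := by
            rw [hkai_al]; simp only [Matrix.mul_assoc]
        _ = _ := by rw [hkk', Matrix.mul_one]
    have a3 : kai * (C * (al s * (kap * kap))) * kai = kai * C * kap * al s := by
      calc kai * (C * (al s * (kap * kap))) * kai
          = kai * C * (al s * kap) * (kap * kai) := by simp only [Matrix.mul_assoc]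
        _ = _ := by rw [hp.mul, Matrix.mul_one, ← hkap_al]; simp only [Matrix.mul_assoc]
    have a4 : kai * (al s * (kap * kap) * C) * kai = al s * kap * C * kai := by
      calc kai * (al s * (kap * kap) * C) * kai
          = (kai * al s) * (kap * kap) * C * kai := by simp only [Matrix.mul_assoc]
        _ = al s * (kai * kap) * kap * C * kai := by
            rw [hkai_al]; simp only [Matrix.mul_assoc]
        _ = _ := by rw [hkk', Matrix.mul_one]
    rw [a1, a2, a3, a4] at hr
    rw [off_sub', off_add', off_sub', t1, t2, t3, hnaba]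
    have hr' : kai * (χ s * γ) * kap * al s =
        kai * C * kap * al s - al s * kap * C * kai + al s * kap * (χ s * γ) * kai := by
      rw [← hr]; abel
    rw [hr', Matrix.mul_sub]
    have a5 : al s * (kap * C * kai) = al s * kap * C * kai := by simp only [Matrix.mul_assoc]
    rw [a5, hC]
    simp only [Matrix.mul_add, Matrix.add_mul, Matrix.sub_mul]
    abel

end blocks

end Crest.Agent.R172.RD
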