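import Crest.Agent.R172.RD0
import Crest.Agent.R172.RDZ
import Crest.Agent.R172.RDpick

/-!
Row 172 (S0260), (T0), any radical, any `D`: FIRST, decorated (RD1 of note 16775).
-/

set_option autoImplicit false
set_option linter.unusedSectionVars false

namespace Crest.Agent.R172.RD296

open Matrix Module Crest.Agent.R172.FO Crest.Agent.R172.FrmB Crest.Agent.R172.RD
open Crest.Agent.R172.Core (NS Tame)
open Crest.Agent.R172.FC (Ctx Par nab bs fam op fam_bs)
open Crest.Agent.R172.FC.Ctx (famio)

variable {ι : Type*} [Fintype ι] [DecidableEq ι] {δ : Type*} [Fintype δ] [DecidableEq δ]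
variable {n : Type*} [Fintype n] [DecidableEq n]
variable {k K : Type*} [Field k] [Field K] [Algebra k K]
variable {M : Type*} [AddCommGroup M] [Module K M]
variable {m : Type*} [Fintype m] [DecidableEq m]

/-! ### the off-diagonal part -/

section off

variable {e : m → Matrix n n K}

theorem off_add (A A' : Matrix n n K) : off e (A + A') = off e A + off e A' := by
  unfold off
  simp only [Matrix.mul_add, Matrix.add_mul, Finset.sum_add_distrib]
  abel

theorem off_sub (A A' : Matrix n n K) : off e (A - A') = off e A - off e A' := by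
  unfold off
  simp only [Matrix.mul_sub, Matrix.sub_mul, Finset.sum_sub_distrib]
  abel

theorem off_smul (c : K) (A : Matrix n n K) : off e (c • A) = c • off e A := by
  unfold off
  simp only [Matrix.mul_smul, Matrix.smul_mul, ← Finset.smul_sum, smul_sub]

theorem off_mul_left {A : Matrix n n K} (hA : ∀ l, e l * A = A * e l) (X : Matrix n n K) :
    off e (A * X) = A * off e X := by
  unfold off
  rw [Matrix.mul_sub, Matrix.mul_sum]
  congr 1
  refine Finset.sum_congr rfl fun l _ => ?_
  rw [← Matrix.mul_assoc, hA]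
  simp only [Matrix.mul_assoc]

theorem off_mul_right {A : Matrix n n K} (hA : ∀ l, e l * A = A * e l) (X : Matrix n n K) :
    off e (X * A) = off e X * A := by
  unfold off
  rw [Matrix.sub_mul, Matrix.sum_mul]
  congr 1
  refine Finset.sum_congr rfl fun l _ => ?_
  simp only [Matrix.mul_assoc]
  rw [hA]

theorem off_comm (idem : ∀ i, e i * e i = e i) (sumE : ∑ i, e i = 1) {X : Matrix n n K}
    (hX : ∀ l, e l * X = X * e l) : off e X = 0 := by
  unfold off
  have : ∀ l, e l * X * e l = X * e l := by
    intro l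
    rw [hX, Matrix.mul_assoc, idem]
  simp only [this]
  rw [← Matrix.mul_sum, sumE, Matrix.mul_one, sub_self]

theorem off_of (orth : ∀ i j, i ≠ j → e i * e j = 0) {i j : m} (hij : i ≠ j)
    {X : Matrix n n K} (hX : e j * X * e i = X) : off e X = X := by
  unfold off
  have : ∀ l, e l * X * e l = 0 := by
    intro l
    rw [← hX]
    by_cases h : l = j
    · have h2 : e i * e l = 0 := orth i l (by rw [h]; exact hij)
      have : e l * (e j * X * e i) * e l = e l * (e j * X) * (e i * e l) := by
        simp only [Matrix.mul_assoc]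
      rw [this, h2, Matrix.mul_zero]
    · have h2 : e l * e j = 0 := orth l j h
      have : e l * (e j * X * e i) * e l = (e l * e j) * (X * e i * e l) := by
        simp only [Matrix.mul_assoc]
      rw [this, h2, Matrix.zero_mul]
  simp only [this, Finset.sum_const_zero, sub_zero]

end off

/-! ### outputs of the first derivative for any connection -/

section out

variable {arm : δ → Fin 3} {J : Matrix ι ι K} {B : Matrix δ δ K}
  {N W : Submodule K (Matrix ι δ K)} {F G : Matrix ι δ K} {p : Matrix ι n K}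
  {al : Fin 3 → Matrix n n K} {tau : Matrix n n K} {c : K} {kap kai : Matrix n n K}

theorem outputs (h : Ctx k arm J B N W F G p al tau) (hp : Par k arm J B N W F G p tau c kap kai)
    (χ : Fin 3 → Matrix n n K) (hχ : ∀ s, (χ s)ᵀ = - χ s)
    (hex : ∑ s, (χ s * (kap * kap)ᵀ * (al s)ᵀ - al s * (kap * kap) * χ s) = 0) :
    ∃ (d : Derivation k K K) (θ0 : Matrix n n K), p.map d = p * θ0 ∧
      (∀ s, p * nab d θ0 (al s * (kap * kap)) =
        p * (χ s * (pᵀ * J * p) * (al s * (kap * kap)) -
          al s * (kap * kap) * (χ s * (pᵀ * J * p)))) ∧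
      ∀ θ : Matrix n n K, p.map d = p * θ →
        io arm J F p (fun s => kai * χ s * kapᵀ) - F.map d ∈ W ∧
        io arm J F p (fun s => kai * χ s * kapᵀ - χ s) -
          (io arm J F p (fun s => kai * χ s * kapᵀ) - F.map d) ∈ N ∧
        (io arm J F p (fun s => kai * χ s * kapᵀ) - F.map d)ᵀ * J * p =
          Fᵀ * J * p * (c • (nab d θ tau * kai)) ∧
        (∀ s, (io arm J F p (fun s => kai * χ s * kapᵀ) - F.map d) * E K arm s * B *
          (Fᵀ * J * p) = p * (kai * χ s * (pᵀ * J * p) * kap * al s -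
            al s * kap * χ s * (pᵀ * J * p) * kai - nab d θ (al s) -
            c • (al s * nab d θ tau * kai))) ∧
        (pᵀ * J * p) * nab d θ tau = (nab d θ tau)ᵀ * (pᵀ * J * p) ∧
        (∀ s, p * nab d θ (al s * (kap * kap)) =
          p * (χ s * (pᵀ * J * p) * (al s * (kap * kap)) -
            al s * (kap * kap) * (χ s * (pᵀ * J * p)))) := by
  obtain ⟨d, ξ, θ0, hreal, hθ0, -, hdH, hW, hleft, hdbs, -, hβ⟩ := h.first0 hp χ hχ hex
  refine ⟨d, θ0, hθ0, hβ, fun θ hθ => ?_⟩
  have hkp : p * (θ - θ0) = 0 := by rw [Matrix.mul_sub, ← hθ, ← hθ0, sub_self]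
  obtain ⟨κ, hκ⟩ : ∃ κ : Matrix n n K, κ = θ - θ0 := ⟨_, rfl⟩
  rw [← hκ] at hkp
  have hθκ : θ = θ0 + κ := by rw [hκ]; abel
  obtain ⟨Q, hQ⟩ : ∃ Q : Matrix δ n K, Q = Fᵀ * J * p := ⟨_, rfl⟩
  have hQk : Q * κ = 0 := by rw [hQ, Matrix.mul_assoc, hkp, Matrix.mul_zero]
  have hQtk : Q * (tau * κ) = 0 := by
    rw [← Matrix.mul_assoc, hQ, ← h.hτ, Matrix.mul_assoc, hkp, Matrix.mul_zero]
  have hnab : nab d θ tau = nab d θ0 tau + (κ * tau - tau * κ) := by
    unfold nab
    rw [hθκ, Matrix.add_mul, Matrix.mul_add]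
    abel
  have hQn : Q * nab d θ tau = Q * nab d θ0 tau := by
    rw [hnab, Matrix.mul_add, Matrix.mul_sub, ← Matrix.mul_assoc Q κ tau, hQk, Matrix.zero_mul,
      hQtk, sub_zero, add_zero]
  have hbsQ : ∀ s, bs arm J B F p s = E K arm s * B * Q := by
    intro s; unfold bs; rw [hQ]
  have hdbs' : ∀ s, (bs arm J B F p s).map d = bs arm J B F p s *
        (kap * ((χ s)ᵀ * ((pᵀ * J * p) * kai)) + -(c • (nab d θ tau * kai)) + θ) := by
    intro s
    rw [hdbs s, hbsQ s, hθκ]
    have e1 : Q * (c • (nab d (θ0 + κ) tau * kai)) = Q * (c • (nab d θ0 tau * kai)) := by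
      rw [Matrix.mul_smul, Matrix.mul_smul, ← Matrix.mul_assoc, ← Matrix.mul_assoc, ← hθκ, hQn]
    have e2 : Q * (kap * ((χ s)ᵀ * ((pᵀ * J * p) * kai)) + -(c • (nab d (θ0 + κ) tau * kai)) +
        (θ0 + κ)) = Q * (kap * ((χ s)ᵀ * ((pᵀ * J * p) * kai)) +
          -(c • (nab d θ0 tau * kai)) + θ0) := by
      simp only [Matrix.mul_add, Matrix.mul_neg]
      rw [e1, hQk, add_zero]
    rw [Matrix.mul_assoc, Matrix.mul_assoc (E K arm s * B) Q, e2]
  have hkap := h.kap_sa hp
  obtain ⟨γ, hγ⟩ : ∃ γ : Matrix n n K, γ = pᵀ * J * p := ⟨_, rfl⟩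
  have hneg : io arm J F p (fun s => kai * χ s * kapᵀ) - F.map d =
      -(F.map d - fam arm J F p (fun s => kai * χ s * kapᵀ)) := by
    rw [famio]; abel
  refine ⟨?_, ?_, ?_, ?_, h.nab_tau_sa hp hθ, ?_⟩
  · rw [hneg]
    exact W.neg_mem hW
  · have h1 := hreal.onN F h.memF.1
    rw [FC.act_opF, famio] at h1
    rw [io_sub]
    have e : io arm J F p (fun s => kai * χ s * kapᵀ) - io arm J F p χ -
        (io arm J F p (fun s => kai * χ s * kapᵀ) - F.map d) =
        F.map d - io arm J F p χ := by abel
    rw [e]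
    exact h1
  · rw [hneg, transpose_neg, Matrix.neg_mul, Matrix.neg_mul, hleft, Matrix.mul_neg, neg_neg,
      ← hQ, Matrix.mul_smul, Matrix.mul_smul, ← Matrix.mul_assoc, ← Matrix.mul_assoc, hQn]
  · intro s
    have h1 := congrArg (fun A : Matrix ι n K => A.map d) (h.Fbs s)
    simp only [map_mul_der, hdbs' s, hθ] at h1
    have h2 : F.map d * bs arm J B F p s = p * (θ * al s + (al s).map d -
        al s * (kap * ((χ s)ᵀ * ((pᵀ * J * p) * kai)) + -(c • (nab d θ tau * kai)) + θ)) := by
      have h3 : F.map d * bs arm J B F p s = p * θ * al s + p * (al s).map d -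
          F * (bs arm J B F p s *
            (kap * ((χ s)ᵀ * ((pᵀ * J * p) * kai)) + -(c • (nab d θ tau * kai)) + θ)) := by
        rw [← h1]; abel
      rw [h3, ← Matrix.mul_assoc F, h.Fbs]
      simp only [Matrix.mul_add, Matrix.mul_sub, Matrix.mul_assoc]
    have e0 : (io arm J F p (fun s => kai * χ s * kapᵀ) - F.map d) * E K arm s * B *
        (Fᵀ * J * p) = fam arm J F p (fun s => kai * χ s * kapᵀ) * bs arm J B F p s -
          F.map d * bs arm J B F p s := by
      rw [famio]
      unfold bs
      simp only [Matrix.sub_mul, Matrix.mul_assoc]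
    rw [e0, h2, fam_bs h.data, h.Fbs]
    have e1 : p * (kai * χ s * kapᵀ) * (pᵀ * J * (p * al s)) =
        p * (kai * χ s * (pᵀ * J * p) * kap * al s) := by
      have : kapᵀ * (pᵀ * J * p) = (pᵀ * J * p) * kap := hkap.symm
      have e2 : p * (kai * χ s * kapᵀ) * (pᵀ * J * (p * al s)) =
          p * (kai * χ s * (kapᵀ * (pᵀ * J * p)) * al s) := by
        simp only [Matrix.mul_assoc]
      rw [e2, this]
      simp only [Matrix.mul_assoc]
    rw [e1, ← Matrix.mul_sub, hχ s]
    congr 1
    unfold nab
    simp only [Matrix.mul_add, Matrix.neg_mul, Matrix.mul_neg, Matrix.mul_smul, Matrix.mul_assoc]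
    abel
  · intro s
    have hk2 : p * nab d θ (al s * (kap * kap)) = p * nab d θ0 (al s * (kap * kap)) := by
      have e1 : nab d θ (al s * (kap * kap)) = nab d θ0 (al s * (kap * kap)) +
          (κ * (al s * (kap * kap)) - al s * (kap * kap) * κ) := by
        unfold nab
        rw [hθκ, Matrix.add_mul, Matrix.mul_add]
        abel
      have e2 : p * (al s * (kap * kap) * κ) = 0 := by
        rw [← Matrix.mul_assoc, ← h.PhiHp hp, Matrix.mul_assoc, hkp, Matrix.mul_zero]
      rw [e1, Matrix.mul_add, Matrix.mul_sub, e2, ← Matrix.mul_assoc p κ, hkp, Matrix.zero_mul,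
        sub_zero, add_zero]
    rw [hk2, hβ s]

end out

/-! ### nilpotency on the core -/

section nilring

variable {E : Type*} [Ring E]

open Crest.Agent.R172.ZP

theorem nil_ad {D x : E} {a : ℕ} (hD : D ^ a = 0) : NilAt (adE D) x := by
  let L : AddMonoid.End E := AddMonoidHom.mulLeft D
  let R : AddMonoid.End E := -(AddMonoidHom.mulRight D : E →+ E)
  have hL : ∀ (b : ℕ) (y : E), (L ^ b) y = D ^ b * y := by
    intro b
    induction b with
    | zero => intro y; simp
    | succ b ih =>
      intro y
      rw [pow_succ', AddMonoid.End.coe_mul, Function.comp_apply, ih, pow_succ', mul_assoc]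
      rfl
  have hR : ∀ (b : ℕ) (y : E), (R ^ b) y = (-1) ^ b * (y * D ^ b) := by
    intro b
    induction b with
    | zero => intro y; simp
    | succ b ih =>
      intro y
      rw [pow_succ', AddMonoid.End.coe_mul, Function.comp_apply, ih]
      change -((-1) ^ b * (y * D ^ b) * D) = _
      rw [pow_succ, pow_succ]
      noncomm_ring
  have hc : Commute L R := by
    ext y
    change D * -(y * D) = -(D * y * D)
    noncomm_ring
  have e : adE D = L + R := sub_eq_add_neg _ _
  rw [e]
  refine NilAt.add_op hc ⟨a, ?_⟩ ⟨a, ?_⟩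
  · rw [hL, hD, zero_mul]
  · rw [hR, hD, mul_zero, mul_zero]

/-- corner version -/
theorem nil_corner {D P x D' : E} {lam : E} (hl : ∀ y, lam * y = y * lam)
    (hDP : D * P = P * D) (hPP : P * P = P) (hD' : D' = (D - lam) * P) {a : ℕ}
    (hn : D' ^ a = 0) (hx : P * x = x) (hx' : x * P = x) : NilAt (adE D) x := by
  obtain ⟨b, hb⟩ := nil_ad (x := x) hn
  refine ⟨b, ?_⟩
  have key : ∀ b : ℕ, ∀ y : E, P * y = y → y * P = y →
      ((adE D) ^ b) y = ((adE D') ^ b) y := by
    intro b
    induction b with
    | zero => intro y _ _; simp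
    | succ b ih =>
      intro y h1 h2
      have e1 : adE D y = adE D' y := by
        rw [adE_apply, adE_apply, hD']
        have e2 : (D - lam) * P * y = D * y - lam * y := by
          rw [mul_assoc, h1, sub_mul]
        have e3 : y * ((D - lam) * P) = y * D - lam * y := by
          rw [sub_mul, mul_sub, ← mul_assoc y lam P, ← hl, mul_assoc lam y P, h2, hDP,
            ← mul_assoc, h2]
        rw [e2, e3]
        abel
      rw [pow_succ, AddMonoid.End.coe_mul, Function.comp_apply, pow_succ,
        AddMonoid.End.coe_mul, Function.comp_apply, ← e1]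
      apply ih
      · rw [adE_apply, mul_sub, ← mul_assoc, ← hDP, mul_assoc, h1, ← mul_assoc, h1]
      · rw [adE_apply, sub_mul, mul_assoc, h2, mul_assoc, hDP, ← mul_assoc y, h2]
  rw [key b x hx hx']
  exact hb

end nilring

section nil

open Crest.Agent.R172.ZP

variable {arm : δ → Fin 3} {J : Matrix ι ι K} {B : Matrix δ δ K}
  {N W : Submodule K (Matrix ι δ K)} {F G : Matrix ι δ K} {p : Matrix ι n K}
  {al : Fin 3 → Matrix n n K} {tau : Matrix n n K}
  {β : LinearMap.BilinForm K M} {T : Module.End K M →ₗ[K] Module.End K M}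
  {Ψ : Fin 3 → Module.End K M} {D : Module.End K M} {π : (n → K) →ₗ[K] M}
  {e : m → Matrix n n K} {lam : m → K} {l : Fin 3 → ℕ} {TT : Set k}

theorem cf (h : Fr k arm J B N W F G p al tau β T Ψ D π e lam l TT) :
    ZFr.CF β T π (pᵀ * J * p) where
  adj := ⟨h.cr.ns.symm, h.cr.ns.nd, h.cr.adj⟩
  surj := h.cr.onto
  form := h.cr.form

/-- an endomorphism of the core without off-diagonal blocks is nilpotent under `ad D` -/
theorem nil_of_blocks (h : Fr k arm J B N W F G p al tau β T Ψ D π e lam l TT)
    {x : Module.End K M}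
    (hx : ∀ i j, i ≠ j → ∀ u v, β (x (π (e i *ᵥ u))) (π (e j *ᵥ v)) = 0) :
    NilAt (adE D) x := by
  have hlift : ∀ i, ∃ P : Module.End K M, ∀ u, π (e i *ᵥ u) = P (π u) := fun i =>
    (cf h).exists_lift (h.eg i).symm
  choose P hP using hlift
  have hext : ∀ {X Y : Module.End K M}, (∀ u, X (π u) = Y (π u)) → X = Y := by
    intro X Y hXY
    ext v
    obtain ⟨u, rfl⟩ := h.cr.onto v
    exact hXY u
  have hsum : ∑ i, P i = 1 := by
    apply hext
    intro u
    rw [LinearMap.sum_apply, Module.End.one_apply]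
    simp only [← hP]
    rw [← map_sum, ← Matrix.sum_mulVec, h.sumE, Matrix.one_mulVec]
  have hidem : ∀ i, P i * P i = P i := by
    intro i
    apply hext
    intro u
    rw [Module.End.mul_apply, ← hP, ← hP, mulVec_mulVec, h.idem]
  have horth : ∀ i j, i ≠ j → P i * P j = 0 := by
    intro i j hij
    apply hext
    intro u
    rw [Module.End.mul_apply, ← hP, ← hP, mulVec_mulVec, h.orth i j hij, Matrix.zero_mulVec,
      map_zero, LinearMap.zero_apply]
  have hDP : ∀ i, D * P i = P i * D := by
    intro i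
    apply hext
    intro u
    rw [Module.End.mul_apply, Module.End.mul_apply, ← hP, ← h.ptau, ← h.ptau, ← hP,
      mulVec_mulVec, mulVec_mulVec, h.etau]
  -- orthogonality of the blocks
  have hbo : ∀ i j, i ≠ j → ∀ u v, β (P i u) (P j v) = 0 := by
    intro i j hij u v
    obtain ⟨u, rfl⟩ := h.cr.onto u
    obtain ⟨v, rfl⟩ := h.cr.onto v
    have e1 : (e i *ᵥ u) ⬝ᵥ ((pᵀ * J * p) *ᵥ (e j *ᵥ v)) =
        u ⬝ᵥ (((e i)ᵀ * (pᵀ * J * p) * e j) *ᵥ v) := by
      rw [← vecMul_transpose, ← dotProduct_mulVec, mulVec_mulVec,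
        mulVec_mulVec, Matrix.mul_assoc]
    rw [← hP, ← hP, h.cr.form, e1, h.eg, Matrix.mul_assoc, h.orth i j hij, Matrix.mul_zero,
      Matrix.zero_mulVec, dotProduct_zero]
  have hPx : ∀ i j, i ≠ j → P j * x * P i = 0 := by
    intro i j hij
    ext v
    apply h.cr.ns.nd
    intro v'
    have e1 : v' = ∑ q, P q v' := by
      rw [← LinearMap.sum_apply, hsum, Module.End.one_apply]
    have e2 : β ((P j * x * P i) v) v' = β (P j (x (P i v))) (P j v') := by
      conv_lhs => rw [e1]
      rw [map_sum, Finset.sum_eq_single j]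
      · rfl
      · intro q _ hq
        exact hbo j q (Ne.symm hq) _ _
      · intro hj
        exact absurd (Finset.mem_univ j) hj
    have e3 : β (x (P i v)) (P j v') = β (P j (x (P i v))) (P j v') := by
      have e4 : x (P i v) = ∑ q, P q (x (P i v)) := by
        rw [← LinearMap.sum_apply, hsum, Module.End.one_apply]
      conv_lhs => rw [e4]
      rw [map_sum, LinearMap.sum_apply, Finset.sum_eq_single j]
      · intro q _ hq
        exact hbo q j hq _ _
      · intro hj
        exact absurd (Finset.mem_univ j) hj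
    rw [e2, ← e3]
    obtain ⟨u, rfl⟩ := h.cr.onto v
    obtain ⟨u', rfl⟩ := h.cr.onto v'
    rw [← hP, ← hP]
    exact hx i j hij u u'
  have hxs : x = ∑ i, P i * x * P i := by
    have e1 : x = (∑ j, P j) * x * ∑ i, P i := by rw [hsum, one_mul, mul_one]
    conv_lhs => rw [e1]
    rw [Finset.mul_sum]
    refine Finset.sum_congr rfl fun i _ => ?_
    rw [Finset.sum_mul, Finset.sum_mul, Finset.sum_eq_single i]
    · intro j _ hj
      exact hPx i j (Ne.symm hj)
    · intro hi
      exact absurd (Finset.mem_univ i) hi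
  rw [hxs]
  have hfin : ∀ S : Finset m, NilAt (adE D) (∑ i ∈ S, P i * x * P i) := by
    classical
    intro S
    induction S using Finset.induction_on with
    | empty => rw [Finset.sum_empty]; exact NilAt.zero _
    | insert i S hi ih =>
      rw [Finset.sum_insert hi]
      refine NilAt.add ?_ ih
      obtain ⟨a, ha⟩ := h.nil i
      have hpow : ∀ b : ℕ, ∀ u, ((((D - lam i • (1 : Module.End K M)) * P i) ^ b) (π u)) =
          π ((((tau - lam i • (1 : Matrix n n K)) * e i) ^ b) *ᵥ u) := by
        intro b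
        induction b with
        | zero => intro u; simp
        | succ b ihb =>
          intro u
          rw [pow_succ', pow_succ', Module.End.mul_apply, ihb, ← mulVec_mulVec,
            Module.End.mul_apply, ← hP, LinearMap.sub_apply, ← h.ptau, LinearMap.smul_apply,
            Module.End.one_apply, ← map_smul, ← map_sub, ← mulVec_mulVec, Matrix.sub_mulVec,
            Matrix.smul_mulVec, Matrix.one_mulVec]
      refine nil_corner (P := P i) (lam := lam i • (1 : Module.End K M))
        (D' := (D - lam i • (1 : Module.End K M)) * P i) (a := a) ?_ (hDP i) (hidem i) rfl ?_ ?_ ?_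
      · intro y; rw [smul_one_mul, mul_smul_one]
      · apply hext
        intro u
        rw [hpow, ha, Matrix.zero_mulVec, map_zero, LinearMap.zero_apply]
      · rw [← mul_assoc, ← mul_assoc, hidem]
      · rw [mul_assoc, hidem]
  exact hfin Finset.univ


theorem gam_al (h : Fr k arm J B N W F G p al tau β T Ψ D π e lam l TT) (s : Fin 3) :
    (pᵀ * J * p) * al s = (al s)ᵀ * (pᵀ * J * p) := by
  have h1 : ∀ y y' : n → K, y ⬝ᵥ (((pᵀ * J * p) * al s - (al s)ᵀ * (pᵀ * J * p)) *ᵥ y') = 0 := by
    intro y y'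
    have h2 := h.cr.sa s (π y) (π y')
    rw [h.cr.op, h.cr.op, h.cr.form, h.cr.form] at h2
    have e1 : (al s *ᵥ y) ⬝ᵥ ((pᵀ * J * p) *ᵥ y') = y ⬝ᵥ (((al s)ᵀ * (pᵀ * J * p)) *ᵥ y') := by
      rw [RDEnd.dt, mulVec_mulVec]
    rw [Matrix.sub_mulVec, dotProduct_sub, ← mulVec_mulVec, ← h2, e1, sub_self]
  have h3 : (pᵀ * J * p) * al s - (al s)ᵀ * (pᵀ * J * p) = 0 := by
    ext a b
    have := h1 (Pi.single a 1) (Pi.single b 1)
    rw [single_dotProduct, one_mul, mulVec_single_one] at this
    simpa using this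
  exact sub_eq_zero.1 h3

theorem kai_e (h : Fr k arm J B N W F G p al tau β T Ψ D π e lam l TT) {c : K}
    {kap kai : Matrix n n K} (hp : Par k arm J B N W F G p tau c kap kai) (i : m) :
    e i * kap = kap * e i ∧ e i * kai = kai * e i := by
  have h1 : e i * kap = kap * e i := by
    rw [hp.kap_eq, Matrix.mul_add, Matrix.add_mul, Matrix.mul_one, Matrix.one_mul,
      Matrix.mul_smul, Matrix.smul_mul, h.etau]
  refine ⟨h1, ?_⟩
  have h2 : kai * (e i * kap) * kai = kai * (kap * e i) * kai := by rw [h1]
  rw [Matrix.mul_assoc kai, Matrix.mul_assoc (e i), hp.mul, Matrix.mul_one, ← Matrix.mul_assoc kai,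
    h.ctx.mul' hp, Matrix.one_mul] at h2
  exact h2.symm

theorem off_der (h : Fr k arm J B N W F G p al tau β T Ψ D π e lam l TT)
    (d : Derivation k K K) {X : Matrix n n K} (hX : ∀ i, e i * X = X * e i) :
    off e (X.map d) = 0 := by
  refine off_comm h.idem h.sumE fun i => ?_
  have h1 := congrArg (fun A : Matrix n n K => A.map d) (hX i)
  simp only [map_mul_der, h.eC, Matrix.zero_mul, zero_add, Matrix.mul_zero, add_zero] at h1
  exact h1

/-- **RD1**: FIRST, decorated, from `pick`. -/
theorem first_of_pick (h : Fr k arm J B N W F G p al tau β T Ψ D π e lam l TT)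
    {i j : m} (hij : i ≠ j) {t : k} (ht : t ∈ TT) {kap kai : Matrix n n K}
    (hp : FC.Par k arm J B N W F G p tau (algebraMap k K t) kap kai)
    {x : Fin 3 → Matrix n n K} {b kk : Matrix n n K}
    (hx : Dec (pᵀ * J * p) π e i j (fun r => al r * (kap * kap)) (fun r => al r * (kap * kap)) x
      b kk)
    (pick : ∀ (d : Derivation k K K) (θ0 : Matrix n n K), p.map d = p * θ0 →
      ∀ U : Fin 3 → Matrix n n K, (∀ s, p * FC.nab d θ0 (al s * (kap * kap)) = p * U s) →
      ∀ C : Matrix n n K, off e C = C → (∀ u, π (C *ᵥ u) = 0) →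
      (∀ s, off e (U s) = C * (al s * (kap * kap)) - al s * (kap * kap) * C) →
      ∃ θ, p.map d = p * θ ∧ off e θ = C) :
    RS arm J B N W F p T Ψ π e
      (fun r => kai * (x r - (x r)ᵀ) * kapᵀ - (x r - (x r)ᵀ))
      ((b - kap * b * kai) + (kk - kap * kk * kai))
      (fun r => (kai * b * kap - b) * al r + (kai * kk * kap - kk) * al r) := by
  obtain ⟨c, hc⟩ : ∃ c : K, c = algebraMap k K t := ⟨_, rfl⟩
  rw [← hc] at hp
  obtain ⟨γ, hγ⟩ : ∃ γ : Matrix n n K, γ = pᵀ * J * p := ⟨_, rfl⟩
  obtain ⟨χ, hχd⟩ : ∃ χ : Fin 3 → Matrix n n K, χ = fun r => x r - (x r)ᵀ := ⟨_, rfl⟩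
  have hχe : ∀ s, χ s = x s - (x s)ᵀ := fun s => by rw [hχd]
  have hχ : ∀ s, (χ s)ᵀ = - χ s := by
    intro s
    rw [hχe, transpose_sub, transpose_transpose, neg_sub]
  obtain ⟨S, hS⟩ : ∃ S : Fin 3 → Matrix n n K, ∀ r, S r =
      x r * (al r * (kap * kap))ᵀ - al r * (kap * kap) * x r := ⟨_, fun _ => rfl⟩
  have hχS : ∀ s, χ s * (al s * (kap * kap))ᵀ - al s * (kap * kap) * χ s = S s + (S s)ᵀ := by
    intro s
    have e0 : (S s)ᵀ = al s * (kap * kap) * (x s)ᵀ - (x s)ᵀ * (al s * (kap * kap))ᵀ := by
      rw [hS, transpose_sub, transpose_mul (x s), transpose_transpose,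
        transpose_mul (al s * (kap * kap)) (x s)]
    rw [e0, hχe, hS, Matrix.sub_mul, Matrix.mul_sub]
    abel
  have hex : ∑ s, (χ s * (kap * kap)ᵀ * (al s)ᵀ - al s * (kap * kap) * χ s) = 0 := by
    have e1 : ∀ s, χ s * (kap * kap)ᵀ * (al s)ᵀ - al s * (kap * kap) * χ s = S s + (S s)ᵀ := by
      intro s
      rw [← hχS, transpose_mul (al s), Matrix.mul_assoc (χ s)]
    have e2 : ∑ s, S s = 0 := by
      have := hx.sum
      simp only [hS]
      exact this
    simp only [e1]
    rw [Finset.sum_add_distrib, ← transpose_sum, e2, transpose_zero, add_zero]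
  obtain ⟨d, θ0, hθ0, hβ, hall⟩ := outputs h.ctx hp χ hχ hex
  have heβ : ∀ s l, e l * (al s * (kap * kap)) = al s * (kap * kap) * e l := by
    intro s l
    rw [← Matrix.mul_assoc, h.eal, Matrix.mul_assoc (al s), ← Matrix.mul_assoc (e l),
      (kai_e h hp l).1, Matrix.mul_assoc kap, (kai_e h hp l).1]
    simp only [Matrix.mul_assoc]
  have hob : off e b = b := off_of h.orth (Ne.symm hij) hx.bb
  have hok : off e kk = kk := off_of h.orth hij hx.bk
  obtain ⟨C, hC⟩ : ∃ C : Matrix n n K, C = b + kk := ⟨_, rfl⟩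
  have hoC : off e C = C := by rw [hC, off_add, hob, hok]
  -- the commutation
  have hUC : ∀ s, χ s * γ * (al s * (kap * kap)) - al s * (kap * kap) * (χ s * γ) =
      C * (al s * (kap * kap)) - al s * (kap * kap) * C := by
    intro s
    have h1 := hx.eb s
    have h2 := hx.ek s
    rw [← hγ] at h1 h2
    generalize al s * (kap * kap) = βs at h1 h2 ⊢
    rw [Matrix.mul_add, Matrix.add_mul] at h1
    rw [Matrix.sub_mul, Matrix.mul_sub] at h2
    have e1 : βs * ((x s)ᵀ * γ) - (x s)ᵀ * γ * βs = b * βs - βs * b := by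
      have : βs * ((x s)ᵀ * γ) = b * βs + (x s)ᵀ * γ * βs - βs * b := by rw [← h1]; abel
      rw [this]; abel
    have e2 : x s * γ * βs - βs * (x s * γ) = kk * βs - βs * kk := by
      have : kk * βs = βs * kk - βs * (x s * γ) + x s * γ * βs := by rw [← h2]; abel
      rw [this]; abel
    rw [hχe, hC, Matrix.sub_mul, Matrix.sub_mul, Matrix.mul_sub, Matrix.add_mul, Matrix.mul_add]
    have e3 : x s * γ * βs - (x s)ᵀ * γ * βs - (βs * (x s * γ) - βs * ((x s)ᵀ * γ)) =
        (βs * ((x s)ᵀ * γ) - (x s)ᵀ * γ * βs) + (x s * γ * βs - βs * (x s * γ)) := by abel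
    rw [e3, e1, e2]
    abel
  obtain ⟨θ, hθ, hoθ⟩ := pick d θ0 hθ0
    (fun s => χ s * γ * (al s * (kap * kap)) - al s * (kap * kap) * (χ s * γ))
    (fun s => by rw [hβ s, hγ]) C hoC
    (fun u => by
      rw [hC, Matrix.add_mulVec, map_add, hx.rb, hx.rk, add_zero])
    (fun s => by
      rw [hUC, off_sub, off_mul_right (heβ s), off_mul_left (heβ s), hoC])
  obtain ⟨hW, hN, hz, hμ, hsa, hβθ⟩ := hall θ hθ
  have hekap : ∀ l, e l * kap = kap * e l := fun l => (kai_e h hp l).1
  have hekai : ∀ l, e l * kai = kai * e l := fun l => (kai_e h hp l).2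
  have hoτ : off e (nab d θ tau) = C * tau - tau * C := by
    unfold nab
    rw [off_sub, off_add, off_der h d h.etau, zero_add, off_mul_right h.etau,
      off_mul_left h.etau, hoθ]
  have hCk : c • (C * tau - tau * C) = C * kap - kap * C := by
    rw [hp.kap_eq, Matrix.mul_add, Matrix.add_mul, Matrix.mul_one, Matrix.one_mul,
      Matrix.mul_smul, Matrix.smul_mul, smul_sub]
    abel
  have hkk' : kap * kai = 1 := hp.mul
  have hk'k : kai * kap = 1 := h.ctx.mul' hp
  refine ⟨_, _, _, hW, ?_, hz, hμ, ?_, ?_, ?_⟩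
  · rw [hχd] at hN ⊢
    exact hN
  · -- core part
    have hDc : ∀ s, D * Ψ s = Ψ s * D := by
      intro s
      ext v
      obtain ⟨u, rfl⟩ := h.cr.onto v
      rw [Module.End.mul_apply, Module.End.mul_apply, h.cr.op, ← h.ptau, ← h.ptau, h.cr.op,
        mulVec_mulVec, mulVec_mulVec, h.ctx.comm]
    obtain ⟨zM, h1, h2⟩ := RDZ.firstQ_ZZ (β := β) (π := π) (DM := D) h.ctx hp
      (⟨h.cr.ns, h.cr.onto, h.cr.form⟩ : RDZ.Fr β (pᵀ * J * p) π) (T := T) h.cr.adj
      (Ψ := Ψ) (fun s y => (h.cr.op s y).symm) h.ptau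
      (fun X hX => by
        refine nil_of_blocks h fun i j hij u v => ?_
        refine h.hom t (Or.inl ht) X (fun s y => ?_) i j hij u v
        have h3 := congrArg (fun A : Module.End K M => A y) (hX s)
        have h4 : ∀ z, (((1 + c • D) * (1 + c • D) * Ψ s : Module.End K M)) z =
            Ψ s ((1 + c • D) ((1 + c • D) z)) := by
          intro z
          have h5 : (1 + c • D) * Ψ s = Ψ s * (1 + c • D) := by
            rw [add_mul, mul_add, one_mul, mul_one, smul_mul_assoc, mul_smul_comm, hDc]
          have h6 : (1 + c • D) * (1 + c • D) * Ψ s = Ψ s * ((1 + c • D) * (1 + c • D)) := by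
            rw [mul_assoc, h5, ← mul_assoc, h5, mul_assoc]
          rw [h6]
          rfl
        rw [← hc, ← h4, ← h4]
        exact h3)
      (χ := χ)
      (fun s => by
        have hγβ : (pᵀ * J * p) * (al s * (kap * kap)) =
            (al s * (kap * kap))ᵀ * (pᵀ * J * p) := by
          have hks := h.ctx.kap_sa hp
          have hka : kap * al s = al s * kap := h.ctx.kap_al hp s
          have e1 : al s * (kap * kap) = kap * kap * al s := by
            rw [← Matrix.mul_assoc, ← hka, Matrix.mul_assoc, ← hka, ← Matrix.mul_assoc]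
          rw [transpose_mul, transpose_mul, ← Matrix.mul_assoc, gam_al h, Matrix.mul_assoc,
            ← Matrix.mul_assoc _ kap kap, hks, Matrix.mul_assoc kapᵀ, hks]
          have e2 : (al s)ᵀ * (kapᵀ * (kapᵀ * (pᵀ * J * p))) =
              kapᵀ * kapᵀ * (al s)ᵀ * (pᵀ * J * p) := by
            have e3 : kapᵀ * kapᵀ * (al s)ᵀ = (al s)ᵀ * (kapᵀ * kapᵀ) := by
              have := congrArg transpose e1
              simp only [transpose_mul] at this
              exact this
            rw [e3]
            simp only [Matrix.mul_assoc]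
          exact e2
        have harm := hx.arm s
        rw [← hS] at harm
        have e4 : (pᵀ * J * p) * (S s)ᵀ * (pᵀ * J * p) = 0 := by
          have := congrArg transpose harm
          rw [transpose_mul _ (pᵀ * J * p), transpose_mul (pᵀ * J * p) (S s), h.ctx.gam_symm,
            transpose_zero, ← Matrix.mul_assoc] at this
          exact this
        have e5 : (pᵀ * J * p) * (χ s * (pᵀ * J * p) * (al s * (kap * kap)) -
            al s * (kap * kap) * (χ s * (pᵀ * J * p))) =
            (pᵀ * J * p) * (χ s * (al s * (kap * kap))ᵀ - al s * (kap * kap) * χ s) *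
              (pᵀ * J * p) := by
          rw [Matrix.mul_sub, Matrix.mul_sub, Matrix.sub_mul, Matrix.mul_assoc (χ s), hγβ]
          simp only [Matrix.mul_assoc]
        rw [e5, hχS, Matrix.mul_add, Matrix.add_mul, harm, e4, add_zero])
      hθ hsa hβθ
    exact ⟨zM, h1, ZFr.ZZ_le_zero h2⟩
  · rw [off_smul, off_mul_right hekai, hoτ, ← Matrix.smul_mul, hCk, hC, Matrix.sub_mul,
      Matrix.mul_assoc _ kap kai, hkk', Matrix.mul_one, Matrix.mul_add, Matrix.add_mul]
    abel_nf
  · intro s
    have hkapal : kap * al s = al s * kap := h.ctx.kap_al hp s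
    have hkaial : kai * al s = al s * kai := h.ctx.kai_al hp s
    -- `χ γ` is off-diagonal
    have hoχ : off e (χ s * γ) = χ s * γ := by
      have e1 : e j * (x s * γ) * e i = x s * γ := by
        have h1 : γ * e i = (e i)ᵀ * γ := by rw [hγ]; exact (h.eg i).symm
        conv_rhs => rw [← hx.bx s]
        rw [← Matrix.mul_assoc, Matrix.mul_assoc (e j * x s) γ, h1]
        simp only [Matrix.mul_assoc]
      have e2 : e i * ((x s)ᵀ * γ) * e j = (x s)ᵀ * γ := by
        have h1 : γ * e j = (e j)ᵀ * γ := by rw [hγ]; exact (h.eg j).symm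
        have h2 : e i * (x s)ᵀ * (e j)ᵀ = (x s)ᵀ := by
          have := congrArg transpose (hx.bx s)
          rw [transpose_mul, transpose_mul, transpose_transpose, ← Matrix.mul_assoc] at this
          exact this
        conv_rhs => rw [← h2]
        rw [← Matrix.mul_assoc, Matrix.mul_assoc (e i * (x s)ᵀ) γ, h1]
        simp only [Matrix.mul_assoc]
      rw [hχe, Matrix.sub_mul, off_sub, off_of h.orth hij e1, off_of h.orth (Ne.symm hij) e2]
    have t1 : off e (kai * χ s * (pᵀ * J * p) * kap * al s) =
        kai * (χ s * γ) * kap * al s := by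
      rw [← hγ, off_mul_right (fun l => h.eal l s), off_mul_right hekap,
        Matrix.mul_assoc kai, off_mul_left hekai, hoχ]
    have t2 : off e (al s * kap * χ s * (pᵀ * J * p) * kai) =
        al s * kap * (χ s * γ) * kai := by
      rw [← hγ, off_mul_right hekai, Matrix.mul_assoc (al s * kap),
        Matrix.mul_assoc (al s), off_mul_left (fun l => h.eal l s), off_mul_left hekap, hoχ]
    have t3 : off e (nab d θ (al s)) = C * al s - al s * C := by
      unfold nab
      rw [off_sub, off_add, off_der h d (fun l => h.eal l s), zero_add,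
        off_mul_right (fun l => h.eal l s), off_mul_left (fun l => h.eal l s), hoθ]
    have t4 : off e (c • (al s * nab d θ tau * kai)) = al s * (C * kap - kap * C) * kai := by
      rw [off_smul, off_mul_right hekai, off_mul_left (fun l => h.eal l s), hoτ, ← hCk,
        Matrix.mul_smul, Matrix.smul_mul]
    rw [off_sub, off_sub, off_sub, t1, t2, t3, t4]
    -- the exchange relation
    obtain ⟨X, hX⟩ : ∃ X : Matrix n n K, X = C - χ s * γ := ⟨_, rfl⟩
    have hXβ : X * (al s * (kap * kap)) = al s * (kap * kap) * X := by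
      have h1 := hUC s
      rw [hX, Matrix.sub_mul, Matrix.mul_sub]
      have : C * (al s * (kap * kap)) = χ s * γ * (al s * (kap * kap)) -
          al s * (kap * kap) * (χ s * γ) + al s * (kap * kap) * C := by rw [h1]; abel
      rw [this]
      abel
    have hXk : kai * X * kap * al s = al s * kap * X * kai := by
      have h1 : kai * (X * (al s * (kap * kap))) * kai =
          kai * (al s * (kap * kap) * X) * kai := by rw [hXβ]
      have e1 : kai * (X * (al s * (kap * kap))) * kai = kai * X * kap * al s := by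
        have : al s * (kap * kap) = kap * al s * kap := by
          rw [hkapal, Matrix.mul_assoc]
        rw [this]
        have : kai * (X * (kap * al s * kap)) * kai = kai * X * kap * al s * (kap * kai) := by
          simp only [Matrix.mul_assoc]
        rw [this, hkk', Matrix.mul_one]
      have e2 : kai * (al s * (kap * kap) * X) * kai = al s * kap * X * kai := by
        have : kai * (al s * (kap * kap) * X) * kai =
            (kai * al s) * kap * kap * X * kai := by
          simp only [Matrix.mul_assoc]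
        rw [this, hkaial, Matrix.mul_assoc (al s) kai kap, hk'k, Matrix.mul_one]
      rw [← e1, h1, e2]
    have hfin : kai * (χ s * γ) * kap * al s - al s * kap * (χ s * γ) * kai =
        kai * C * kap * al s - al s * kap * C * kai := by
      have e1 : χ s * γ = C - X := by rw [hX]; abel
      rw [e1]
      simp only [Matrix.mul_sub, Matrix.sub_mul]
      rw [hXk]
      abel
    have hlast : al s * (C * kap - kap * C) * kai = al s * C - al s * kap * C * kai := by
      rw [Matrix.mul_sub, Matrix.sub_mul, ← Matrix.mul_assoc (al s) C kap,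
        Matrix.mul_assoc _ kap kai, hkk', Matrix.mul_one]
      simp only [Matrix.mul_assoc]
    rw [hlast]
    have hR : (kai * b * kap - b) * al s + (kai * kk * kap - kk) * al s =
        kai * C * kap * al s - C * al s := by
      rw [hC]
      simp only [Matrix.mul_add, Matrix.add_mul, Matrix.sub_mul]
      abel
    change _ = (kai * b * kap - b) * al s + (kai * kk * kap - kk) * al s
    rw [hR]
    have hgoal : kai * (χ s * γ) * kap * al s - al s * kap * (χ s * γ) * kai -
        (C * al s - al s * C) - (al s * C - al s * kap * C * kai) =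
        (kai * (χ s * γ) * kap * al s - al s * kap * (χ s * γ) * kai) -
          C * al s + al s * kap * C * kai := by abel
    rw [hgoal, hfin]
    abel


/-- **RD1**: FIRST, decorated (literal statement of note 16775) -/
theorem first [CharZero K] (h : Fr k arm J B N W F G p al tau β T Ψ D π e lam l TT)
    {i j : m} (hij : i ≠ j) {t : k} (ht : t ∈ TT) {kap kai : Matrix n n K}
    (hp : FC.Par k arm J B N W F G p tau (algebraMap k K t) kap kai)
    {x : Fin 3 → Matrix n n K} {b kk : Matrix n n K}
    (hx : Dec (pᵀ * J * p) π e i j (fun r => al r * (kap * kap)) (fun r => al r * (kap * kap)) x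
      b kk) :
    RS arm J B N W F p T Ψ π e
      (fun r => kai * (x r - (x r)ᵀ) * kapᵀ - (x r - (x r)ᵀ))
      ((b - kap * b * kai) + (kk - kap * kk * kai))
      (fun r => (kai * b * kap - b) * al r + (kai * kk * kap - kk) * al r) :=
  first_of_pick h hij ht hp hx fun _ _ hθ0 _ hU _ hC hCr hoff =>
    RD.pick h (Or.inl ht) hp.kap_eq hθ0 hU hC hCr hoff

end nil

end Crest.Agent.R172.RD296
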