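import Crest.Agent.R172.RDP
import Crest.Agent.R172.RDZ
import Crest.Agent.R172.BConn895
import Crest.Agent.R172.RDfalse

/-!
Row 172 (S0260), (T0), skeleton `RD` of helper460: the lemma `first`.
-/

set_option autoImplicit false
set_option linter.unusedSectionVars false
set_option linter.unusedSimpArgs false

namespace Crest.Agent.R172.RD.H743

open Matrix Module Crest.Agent.R172.FO Crest.Agent.R172.FrmB Crest.Agent.R172.RD
open Crest.Agent.R172.ZP (NilAt adE ZZ)

section off

variable {n : Type*} [Fintype n] [DecidableEq n] {K : Type*} [Field K]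
variable {m : Type*} [Fintype m] [DecidableEq m] {e : m → Matrix n n K}

theorem off_add (A A' : Matrix n n K) : off e (A + A') = off e A + off e A' := by
  unfold off
  simp only [Matrix.mul_add, Matrix.add_mul, Finset.sum_add_distrib]
  abel

theorem off_sub (A A' : Matrix n n K) : off e (A - A') = off e A - off e A' := by
  unfold off
  simp only [Matrix.mul_sub, Matrix.sub_mul, Finset.sum_sub_distrib]
  abel

theorem off_neg (A : Matrix n n K) : off e (-A) = -off e A := by
  unfold off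
  simp only [Matrix.mul_neg, Matrix.neg_mul, Finset.sum_neg_distrib]
  abel

theorem off_smul (c : K) (A : Matrix n n K) : off e (c • A) = c • off e A := by
  unfold off
  simp only [Matrix.mul_smul, Matrix.smul_mul, ← Finset.smul_sum, smul_sub]

theorem off_mul_right {A X : Matrix n n K} (hX : ∀ i, e i * X = X * e i) :
    off e (A * X) = off e A * X := by
  unfold off
  rw [Matrix.sub_mul, Finset.sum_mul]
  congr 1
  refine Finset.sum_congr rfl fun i _ => ?_
  have := hX i
  simp only [Matrix.mul_assoc]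
  rw [this]

theorem off_mul_left {A X : Matrix n n K} (hX : ∀ i, e i * X = X * e i) :
    off e (X * A) = X * off e A := by
  unfold off
  rw [Matrix.mul_sub, Finset.mul_sum]
  congr 1
  refine Finset.sum_congr rfl fun i _ => ?_
  have := hX i
  rw [← Matrix.mul_assoc (e i) X, this]
  simp only [Matrix.mul_assoc]

theorem off_zero_of_comm (idem : ∀ i, e i * e i = e i) (hsum : ∑ i, e i = 1) {X : Matrix n n K}
    (hX : ∀ i, e i * X = X * e i) : off e X = 0 := by
  unfold off
  have h1 : ∀ i, e i * X * e i = X * e i := by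
    intro i
    rw [hX, Matrix.mul_assoc, idem]
  rw [Finset.sum_congr rfl fun i _ => h1 i, ← Matrix.mul_sum, hsum, Matrix.mul_one, sub_self]

theorem off_blk (orth : ∀ i j, i ≠ j → e i * e j = 0) {i j : m} (hij : i ≠ j) {X : Matrix n n K}
    (hX : e i * X * e j = X) : off e X = X := by
  unfold off
  have h1 : ∀ l, e l * X * e l = 0 := by
    intro l
    by_cases hl : l = i
    · subst hl
      rw [← hX]
      have : e l * (e l * X * e j) * e l = e l * (e l * X) * (e j * e l) := by
        simp only [Matrix.mul_assoc]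
      rw [this, orth j l (Ne.symm hij), Matrix.mul_zero]
    · rw [← hX]
      have : e l * (e i * X * e j) * e l = (e l * e i) * (X * e j * e l) := by
        simp only [Matrix.mul_assoc]
      rw [this, orth l i hl, Matrix.zero_mul]
  rw [Finset.sum_eq_zero fun l _ => h1 l, sub_zero]

end off

section alg

variable {n : Type*} [Fintype n] [DecidableEq n] {K : Type*} [Field K]

/-- the left action -/
theorem mu_alg {C X al kap kai : Matrix n n K} (h1 : kap * kai = 1) (h2 : kai * kap = 1)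
    (hal : kap * al = al * kap) (hal' : kai * al = al * kai)
    (h : C * (al * (kap * kap)) - al * (kap * kap) * C =
      X * (al * (kap * kap)) - al * (kap * kap) * X) :
    kai * X * kap * al - (C * al + al * kap * (X - C) * kai) = kai * C * kap * al - C * al := by
  have h3 : al * (kap * kap) * (C - X) = (C - X) * (al * (kap * kap)) := by
    rw [Matrix.mul_sub, Matrix.sub_mul]
    have : al * (kap * kap) * C - al * (kap * kap) * X -
        (C * (al * (kap * kap)) - X * (al * (kap * kap))) = 0 := by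
      have h4 : al * (kap * kap) * C - al * (kap * kap) * X -
        (C * (al * (kap * kap)) - X * (al * (kap * kap))) =
          -((C * (al * (kap * kap)) - al * (kap * kap) * C) -
            (X * (al * (kap * kap)) - al * (kap * kap) * X)) := by abel
      rw [h4, h, sub_self, neg_zero]
    exact sub_eq_zero.1 this
  have h5 : al * kap * (C - X) * kai = kai * (C - X) * kap * al := by
    have e1 : kai * (al * (kap * kap) * (C - X)) * kai = kai * ((C - X) * (al * (kap * kap))) * kai := by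
      rw [h3]
    have e2 : kai * (al * (kap * kap) * (C - X)) * kai = al * kap * (C - X) * kai := by
      have : kai * (al * (kap * kap) * (C - X)) * kai = (kai * al) * kap * kap * (C - X) * kai := by
        simp only [Matrix.mul_assoc]
      rw [this, hal']
      have : al * kai * kap * kap * (C - X) * kai = al * (kai * kap) * kap * (C - X) * kai := by
        simp only [Matrix.mul_assoc]
      rw [this, h2, Matrix.mul_one]
    have e3 : kai * ((C - X) * (al * (kap * kap))) * kai = kai * (C - X) * kap * al := by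
      have : kai * ((C - X) * (al * (kap * kap))) * kai =
          kai * (C - X) * (al * kap) * (kap * kai) := by
        simp only [Matrix.mul_assoc]
      rw [this, h1, Matrix.mul_one, ← hal]
      simp only [Matrix.mul_assoc]
    rw [← e2, e1, e3]
  have h6 : al * kap * (X - C) * kai = -(kai * (C - X) * kap * al) := by
    rw [← h5, ← Matrix.neg_mul, ← Matrix.mul_neg, neg_sub]
  rw [h6]
  simp only [Matrix.mul_sub, Matrix.sub_mul]
  abel

end alg

section lemmas

variable {ι : Type*} [Fintype ι] [DecidableEq ι] {δ : Type*} [Fintype δ] [DecidableEq δ]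
variable {n : Type*} [Fintype n] [DecidableEq n]
variable {k K : Type*} [Field k] [Field K] [Algebra k K]
variable {M : Type*} [AddCommGroup M] [Module K M]
variable {m : Type*} [Fintype m] [DecidableEq m]
variable {arm : δ → Fin 3} {J : Matrix ι ι K} {B : Matrix δ δ K}
  {N W : Submodule K (Matrix ι δ K)} {F G : Matrix ι δ K} {p : Matrix ι n K}
  {al : Fin 3 → Matrix n n K} {tau : Matrix n n K}
  {β : LinearMap.BilinForm K M} {T : Module.End K M →ₗ[K] Module.End K M}
  {Ψ : Fin 3 → Module.End K M} {D : Module.End K M} {π : (n → K) →ₗ[K] M}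
  {e : m → Matrix n n K} {lam : m → K} {l : Fin 3 → ℕ} {TT : Set k}

section Fr

variable (h : Fr k arm J B N W F G p al tau β T Ψ D π e lam l TT)
include h

theorem frz : RDZ.Fr β (pᵀ * J * p) π := ⟨h.cr.ns, h.cr.onto, h.cr.form⟩

theorem DΨ (s : Fin 3) (v : M) : D (Ψ s v) = Ψ s (D v) := by
  obtain ⟨y, rfl⟩ := h.cr.onto v
  rw [h.cr.op, ← h.ptau, ← h.ptau, h.cr.op, mulVec_mulVec, mulVec_mulVec, h.ctx.comm]

theorem exists_E : ∃ E : m → Module.End K M, ∀ i u, π (e i *ᵥ u) = E i (π u) := by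
  choose E hE using fun i => (frz h).exists_desc (z := e i) fun y hy => h.pi_e i hy
  exact ⟨E, hE⟩

theorem nil_tau : ∃ q : ℕ, (tau - ∑ i, lam i • e i) ^ q = 0 := by
  choose q hq using h.nil
  obtain ⟨N', hN'⟩ : ∃ N' : Matrix n n K, N' = tau - ∑ i, lam i • e i := ⟨_, rfl⟩
  rw [← hN']
  have h1 : ∀ i, N' * e i = (tau - lam i • (1 : Matrix n n K)) * e i := by
    intro i
    rw [hN', Matrix.sub_mul, Matrix.sub_mul, Finset.sum_mul, Finset.sum_eq_single i]
    · rw [Matrix.smul_mul, h.idem, Matrix.smul_mul, Matrix.one_mul]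
    · intro j _ hj
      rw [Matrix.smul_mul, h.orth j i hj, smul_zero]
    · intro hi; exact absurd (Finset.mem_univ i) hi
  have h2 : ∀ i, e i * N' = N' * e i := by
    intro i
    rw [hN', Matrix.mul_sub, Matrix.sub_mul, h.etau, Finset.mul_sum, Finset.sum_mul]
    congr 1
    refine Finset.sum_congr rfl fun j _ => ?_
    rw [Matrix.mul_smul, Matrix.smul_mul]
    by_cases hj : i = j
    · rw [hj]
    · rw [h.orth i j hj, h.orth j i (Ne.symm hj)]
  have h3 : ∀ i (r : ℕ), N' ^ r * e i = ((tau - lam i • (1 : Matrix n n K)) * e i) ^ r * e i := by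
    intro i r
    induction r with
    | zero => simp
    | succ r ih =>
      rw [pow_succ', Matrix.mul_assoc, ih, pow_succ', Matrix.mul_assoc, ← h1 i]
      have h4 : ∀ r : ℕ, (N' * e i) ^ r * e i = e i * ((N' * e i) ^ r * e i) := by
        intro r
        induction r with
        | zero => simp [h.idem]
        | succ r ih =>
          rw [pow_succ', Matrix.mul_assoc, ih, ← Matrix.mul_assoc (e i) (N' * e i),
            ← Matrix.mul_assoc (e i) N', h2, Matrix.mul_assoc N' (e i) (e i), h.idem]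
      conv_lhs => rw [h4 r]
      rw [Matrix.mul_assoc]
  obtain ⟨Q, hQ⟩ : ∃ Q : ℕ, ∀ i, q i ≤ Q :=
    ⟨Finset.univ.sup q, fun i => Finset.le_sup (Finset.mem_univ i)⟩
  refine ⟨Q, ?_⟩
  have h5 : ∀ i, N' ^ Q * e i = 0 := by
    intro i
    rw [h3, ← Nat.sub_add_cancel (hQ i), pow_add, hq i, Matrix.mul_zero, Matrix.zero_mul]
  rw [← Matrix.mul_one (N' ^ Q), ← h.sumE, Finset.mul_sum]
  exact Finset.sum_eq_zero fun i _ => h5 i

/-- an operator of the core commuting with `Ψ_s (1 + tD)²` is `ad D`-nilpotent -/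
theorem nil_of_comm {t : k} (ht : t ∈ TT ∨ t = 0) (x : Module.End K M)
    (hx : ∀ s, x * ((1 + algebraMap k K t • D) * (1 + algebraMap k K t • D) * Ψ s) =
      ((1 + algebraMap k K t • D) * (1 + algebraMap k K t • D) * Ψ s) * x) :
    NilAt (adE D) x := by
  obtain ⟨cc, hcc⟩ : ∃ cc : Module.End K M, cc = 1 + algebraMap k K t • D := ⟨_, rfl⟩
  have hcΨ : ∀ s v, cc (Ψ s v) = Ψ s (cc v) := by
    intro s v
    rw [hcc, LinearMap.add_apply, LinearMap.add_apply, map_add, LinearMap.smul_apply,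
      LinearMap.smul_apply, DΨ h, map_smul]
    rfl
  obtain ⟨E, hE⟩ := exists_E h
  -- orthogonality
  have hom : ∀ i j, i ≠ j → ∀ v w, β (x (E i v)) (E j w) = 0 := by
    intro i j hij v w
    obtain ⟨y, rfl⟩ := h.cr.onto v
    obtain ⟨y', rfl⟩ := h.cr.onto w
    rw [← hE, ← hE]
    refine h.hom t ht x ?_ i j hij y y'
    intro s v
    have h1 := LinearMap.congr_fun (hx s) v
    simp only [Module.End.mul_apply] at h1
    rw [← hcc] at h1 ⊢
    rw [hcΨ, hcΨ, hcΨ, hcΨ] at h1
    exact h1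
  have hEsum : ∀ v, ∑ i, E i v = v := by
    intro v
    obtain ⟨y, rfl⟩ := h.cr.onto v
    simp only [← hE]
    rw [← map_sum, h.sum_e]
  have hEsa : ∀ i v w, β (E i v) w = β v (E i w) := by
    intro i v w
    obtain ⟨y, rfl⟩ := h.cr.onto v
    obtain ⟨y', rfl⟩ := h.cr.onto w
    rw [← hE, ← hE, h.cr.form, h.cr.form, RDEnd.dt, mulVec_mulVec, mulVec_mulVec, h.eg]
  have hxE : ∀ i, x * E i = E i * x := by
    intro i
    ext v
    rw [← sub_eq_zero]
    apply h.cr.ns.nd
    intro w
    rw [map_sub, LinearMap.sub_apply, Module.End.mul_apply, Module.End.mul_apply, hEsa]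
    have e1 : β (x (E i v)) w = β (x (E i v)) (E i w) := by
      conv_lhs => rw [← hEsum w]
      rw [map_sum, Finset.sum_eq_single i]
      · intro j _ hj; exact hom i j (Ne.symm hj) v w
      · intro hi; exact absurd (Finset.mem_univ i) hi
    have e2 : β (x v) (E i w) = β (x (E i v)) (E i w) := by
      conv_lhs => rw [← hEsum v]
      rw [map_sum, map_sum, LinearMap.sum_apply, Finset.sum_eq_single i]
      · intro j _ hj; exact hom j i hj v w
      · intro hi; exact absurd (Finset.mem_univ i) hi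
    rw [e1, e2, sub_self]
  have hDE : ∀ i, D * E i = E i * D := by
    intro i
    ext v
    obtain ⟨y, rfl⟩ := h.cr.onto v
    rw [Module.End.mul_apply, Module.End.mul_apply, ← hE, ← h.ptau, ← h.ptau, ← hE,
      mulVec_mulVec, mulVec_mulVec, h.etau]
  obtain ⟨S, hS⟩ : ∃ S : Module.End K M, S = ∑ i, lam i • E i := ⟨_, rfl⟩
  have hxS : x * S = S * x := by
    rw [hS, Finset.mul_sum, Finset.sum_mul]
    refine Finset.sum_congr rfl fun i _ => ?_
    rw [mul_smul_comm, smul_mul_assoc, hxE]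
  have hDS : D * S = S * D := by
    rw [hS, Finset.mul_sum, Finset.sum_mul]
    refine Finset.sum_congr rfl fun i _ => ?_
    rw [mul_smul_comm, smul_mul_assoc, hDE]
  -- `D - S` nilpotent
  have hN : IsNilpotent (D - S) := by
    obtain ⟨q, hq⟩ := nil_tau h
    refine ⟨q, ?_⟩
    have h1 : ∀ (r : ℕ) (u : n → K), π (((tau - ∑ i, lam i • e i) ^ r) *ᵥ u) =
        ((D - S) ^ r) (π u) := by
      intro r
      induction r with
      | zero => intro u; simp
      | succ r ih =>
        intro u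
        rw [pow_succ, ← mulVec_mulVec, ih, pow_succ, Module.End.mul_apply]
        congr 1
        rw [sub_mulVec, map_sub, h.ptau, LinearMap.sub_apply, hS, LinearMap.sum_apply,
          Matrix.sum_mulVec, map_sum]
        congr 1
        refine Finset.sum_congr rfl fun i _ => ?_
        rw [smul_mulVec, map_smul, hE]
        rfl
    ext v
    obtain ⟨u, rfl⟩ := h.cr.onto v
    rw [← h1, hq, zero_mulVec, map_zero, LinearMap.zero_apply]
  obtain ⟨Nn, hNn⟩ : ∃ Nn : Module.End K M, Nn = D - S := ⟨_, rfl⟩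
  have hNS : Nn * S = S * Nn := by rw [hNn, sub_mul, mul_sub, hDS]
  have hsum : adE D = adE Nn + adE S := by
    refine AddMonoidHom.ext fun y => ?_
    change D * y - y * D = (Nn * y - y * Nn) + (S * y - y * S)
    rw [hNn, sub_mul, mul_sub]
    abel
  rw [← hNn] at hN
  rw [hsum]
  refine NilAt.add_op ?_ (ZPM.nil_ad_of_nilpotent hN x) ⟨1, ?_⟩
  · refine AddMonoidHom.ext fun y => ?_
    change Nn * (S * y - y * S) - (S * y - y * S) * Nn =
      S * (Nn * y - y * Nn) - (Nn * y - y * Nn) * S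
    have e2 : Nn * (S * y) = S * (Nn * y) := by rw [← mul_assoc, hNS, mul_assoc]
    have e3 : y * S * Nn = y * Nn * S := by rw [mul_assoc, ← hNS, mul_assoc]
    rw [mul_sub, sub_mul, mul_sub, sub_mul, e2, e3]
    simp only [mul_assoc]
    abel
  · rw [pow_one, ZP.adE_apply, ← hxS, sub_self]

end Fr

theorem mz {a b : Type*} [Fintype b] [DecidableEq b] {A : Matrix a b K}
    (hA : ∀ u : b → K, A *ᵥ u = 0) : A = 0 := by
  apply Matrix.ext_of_mulVec_single
  intro i
  rw [hA, zero_mulVec]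

section Fr2

variable (h : Fr k arm J B N W F G p al tau β T Ψ D π e lam l TT)
include h

theorem g_mul_zero {C : Matrix n n K} (hC : ∀ u, π (C *ᵥ u) = 0) : (pᵀ * J * p) * C = 0 := by
  apply mz
  intro u
  rw [← mulVec_mulVec, h.g_zero (hC u)]

theorem pi_mul_zero {C : Matrix n n K} (hC : (pᵀ * J * p) * C = 0) (u : n → K) :
    π (C *ᵥ u) = 0 := by
  apply h.pi_zero
  rw [mulVec_mulVec, hC, zero_mulVec]

theorem al_sa (s : Fin 3) : (pᵀ * J * p) * al s = (al s)ᵀ * (pᵀ * J * p) := by
  rw [← sub_eq_zero]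
  apply mz
  intro u
  have h1 : ∀ y : n → K, y ⬝ᵥ (((pᵀ * J * p) * al s - (al s)ᵀ * (pᵀ * J * p)) *ᵥ u) = 0 := by
    intro y
    rw [sub_mulVec, dotProduct_sub, ← mulVec_mulVec u (pᵀ * J * p) (al s),
      ← mulVec_mulVec u (al s)ᵀ (pᵀ * J * p), ← h.cr.form,
      ← RDEnd.dt, ← h.cr.form, ← h.cr.op, ← h.cr.op, h.cr.sa, sub_self]
  funext a
  have h2 := h1 (Pi.single a 1)
  rwa [single_one_dotProduct] at h2

theorem hom_mat {t : k} (ht : t ∈ TT ∨ t = 0) {kap : Matrix n n K}
    (hk : kap = 1 + algebraMap k K t • tau) :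
    ∀ i j, i ≠ j → ∀ z : Matrix n n K, e i * z * e j = z →
      (∀ y : n → K, (pᵀ * J * p) *ᵥ y = 0 → (pᵀ * J * p) *ᵥ (z *ᵥ y) = 0) →
      (∀ r, (pᵀ * J * p) * (z * (al r * (kap * kap)) - al r * (kap * kap) * z) = 0) →
      (pᵀ * J * p) * z = 0 := by
  intro i j hij z hz hzr hzc
  obtain ⟨A, hA⟩ := (frz h).exists_desc (z := z) fun y hy => h.pi_zero (hzr y (h.g_zero hy))
  have hA' : ∀ y, π (z *ᵥ y) = A (π y) := hA
  have hkap : ∀ y, π (kap *ᵥ y) = (1 + algebraMap k K t • D) (π y) := by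
    intro y
    rw [hk, add_mulVec, one_mulVec, smul_mulVec, map_add, map_smul, h.ptau]
    rfl
  have hcom : ∀ s x, A (Ψ s ((1 + algebraMap k K t • D) ((1 + algebraMap k K t • D) x))) =
      Ψ s ((1 + algebraMap k K t • D) ((1 + algebraMap k K t • D) (A x))) := by
    intro s x
    obtain ⟨y, rfl⟩ := h.cr.onto x
    rw [← hA', ← hkap, ← hkap, ← hkap, ← hkap, h.cr.op, h.cr.op, ← hA', ← sub_eq_zero, ← map_sub]
    have h1 := pi_mul_zero h (hzc s) y
    rw [sub_mulVec] at h1
    simpa only [← mulVec_mulVec] using h1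
  have hh := h.hom t ht A hcom j i (Ne.symm hij)
  apply g_mul_zero h
  intro u
  apply h.cr.ns.nd
  intro w
  obtain ⟨y, rfl⟩ := h.cr.onto w
  have h2 : z *ᵥ u = e i *ᵥ (z *ᵥ (e j *ᵥ u)) := by
    conv_lhs => rw [← hz]
    rw [mulVec_mulVec, mulVec_mulVec]
  rw [h2, h.cr.form, RDEnd.dt, mulVec_mulVec y (e i)ᵀ, h.eg, ← mulVec_mulVec y, ← h.cr.form, hA',
    hh]

/-- the connection can be chosen with off-diagonal part `C` -/
theorem pick {t : k} (ht : t ∈ TT) {kap kai : Matrix n n K}
    (hp : FC.Par k arm J B N W F G p tau (algebraMap k K t) kap kai) {d : Derivation k K K}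
    {θ0 : Matrix n n K} (hθ : p.map d = p * θ0) {U : Fin 3 → Matrix n n K}
    (hU : ∀ s, p * FC.nab d θ0 (al s * (kap * kap)) = p * U s) {C : Matrix n n K}
    (hCr : (pᵀ * J * p) * C = 0)
    (hoff : ∀ s, U s = C * (al s * (kap * kap)) - al s * (kap * kap) * C) :
    ∃ D0 : Matrix n n K, (∀ i, e i * D0 = D0 * e i) ∧ p.map d = p * (D0 + C) := by
  obtain ⟨α, hα⟩ : ∃ α : Fin 3 → Matrix n n K, ∀ s, α s = al s * (kap * kap) := ⟨_, fun _ => rfl⟩
  simp only [← hα] at hU hoff
  have hek : ∀ i, e i * kap = kap * e i := by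
    intro i
    rw [hp.kap_eq, Matrix.mul_add, Matrix.add_mul, Matrix.mul_smul, Matrix.smul_mul, h.etau,
      Matrix.mul_one, Matrix.one_mul]
  have heα : ∀ i s, e i * α s = α s * e i := by
    intro i s
    rw [hα, ← Matrix.mul_assoc, h.eal, Matrix.mul_assoc, ← Matrix.mul_assoc (e i) kap, hek,
      Matrix.mul_assoc kap (e i), hek]
    simp only [Matrix.mul_assoc]
  have hΦp : ∀ s, Phi arm J B (F + (algebraMap k K t) • G) s * p = p * α s := by
    intro s; rw [hα]; exact h.ctx.PhiHp hp s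
  obtain ⟨ρ, hρ⟩ := h.ctx.perf
  have hρ' : ∑ s, α s * (kai * kai * ρ s) = 1 := by
    rw [← hρ]
    refine Finset.sum_congr rfl fun s _ => ?_
    have e : α s * (kai * kai * ρ s) = al s * (kap * (kap * kai) * kai) * ρ s := by
      rw [hα s]; simp only [Matrix.mul_assoc]
    rw [e, hp.mul, Matrix.mul_one, hp.mul, Matrix.mul_one]
  have hαs : ∀ s, (pᵀ * J * p) * α s = (α s)ᵀ * (pᵀ * J * p) := by
    intro s
    have h1 := h.ctx.kap_sa hp
    rw [hα, transpose_mul, transpose_mul, ← Matrix.mul_assoc, al_sa h, Matrix.mul_assoc,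
      ← Matrix.mul_assoc _ kap kap, h1, Matrix.mul_assoc kapᵀ, h1]
    have h2 := h.ctx.kap_al hp s
    have h3 : (al s)ᵀ * kapᵀ = kapᵀ * (al s)ᵀ := by
      rw [← transpose_mul, ← transpose_mul, h2]
    rw [← Matrix.mul_assoc, h3, Matrix.mul_assoc kapᵀ, ← Matrix.mul_assoc (al s)ᵀ kapᵀ, h3]
    simp only [Matrix.mul_assoc]
  have hc : ∀ r, (Phi arm J B (F + (algebraMap k K t) • G) r).map d * p = p * U r := by
    intro r
    have h1 := congrArg (fun A : Matrix ι n K => A.map d) (hΦp r)
    simp only [map_mul_der] at h1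
    have h2 := hU r
    unfold FC.nab at h2
    rw [hθ, ← Matrix.mul_assoc, hΦp] at h1
    rw [← h2, Matrix.mul_sub, Matrix.mul_add]
    have h3 : (Phi arm J B (F + (algebraMap k K t) • G) r).map d * p =
        p * θ0 * α r + p * (α r).map d - p * α r * θ0 := by
      rw [← h1]; abel
    rw [h3]
    simp only [Matrix.mul_assoc]
    abel
  have hgU : ∀ r, (pᵀ * J * p) * U r = 0 := by
    intro r
    rw [hoff, Matrix.mul_sub, ← Matrix.mul_assoc, hCr, Matrix.zero_mul, zero_sub,
      ← Matrix.mul_assoc, hαs, Matrix.mul_assoc, hCr, Matrix.mul_zero, neg_zero]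
  have hθR : ∀ i j, i ≠ j → (pᵀ * J * p) * (e i * θ0 * e j) = 0 := by
    refine BConn.offdiag_zero (h.ctx.data.J_const d) hΦp heα h.idem h.orth (fun i => h.eC i d)
      (fun i => (h.eg i).symm) hθ hc ?_ ?_
    · intro i j _ r
      rw [Matrix.mul_assoc (e i), ← Matrix.mul_assoc _ (e i), ← h.eg, Matrix.mul_assoc (e i)ᵀ,
        ← Matrix.mul_assoc _ (U r), hgU, Matrix.zero_mul, Matrix.mul_zero]
    · intro i j hij z hz hzr hzc
      refine hom_mat h (Or.inl ht) hp.kap_eq i j hij z hz hzr fun r => ?_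
      rw [← hα]; exact hzc r
  obtain ⟨q, hq⟩ := h.killV (algebraMap k K t)
  refine BConn.exists_conn hΦp hρ' heα h.idem h.orth h.sumE (fun i => h.eC i d)
    (fun i => (h.eg i).symm) hθ hc hCr ?_ hθR (m := q) ?_
  · intro i j _ r
    rw [← hoff]
  · intro w hw y hy
    rw [← Matrix.mul_assoc, ← BConn.word_mul hΦp, Matrix.mul_assoc]
    apply mz
    intro u
    rw [← mulVec_mulVec, ← mulVec_mulVec]
    exact hq w hw _ (pi_mul_zero h hy u)

end Fr2

section Fr3

variable (h : Fr k arm J B N W F G p al tau β T Ψ D π e lam l TT)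
include h

theorem map_comm (d : Derivation k K K) {X : Matrix n n K} (hX : ∀ i, e i * X = X * e i) (i : m) :
    e i * X.map d = X.map d * e i := by
  have h1 := congrArg (fun A : Matrix n n K => A.map d) (hX i)
  simp only [map_mul_der, h.eC, Matrix.zero_mul, Matrix.mul_zero, zero_add, add_zero] at h1
  exact h1

theorem blk_xg {i j : m} {x : Matrix n n K} (hx : e j * x * (e i)ᵀ = x) :
    e j * (x * (pᵀ * J * p)) * e i = x * (pᵀ * J * p) := by
  conv_rhs => rw [← hx]
  rw [Matrix.mul_assoc (e j * x), h.eg]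
  simp only [Matrix.mul_assoc]

theorem blk_xtg {i j : m} {x : Matrix n n K} (hx : e j * x * (e i)ᵀ = x) :
    e i * (xᵀ * (pᵀ * J * p)) * e j = xᵀ * (pᵀ * J * p) := by
  apply blk_xg h
  conv_rhs => rw [← hx]
  simp only [transpose_mul, transpose_transpose, Matrix.mul_assoc]

/-- **RD1**: FIRST, decorated -/
theorem first {i j : m} (hij : i ≠ j) : FirstP k arm J B N W F G p al tau T Ψ π e TT i j := by
  intro t ht kap kai hp x b kk hx
  obtain ⟨χ, hχd⟩ : ∃ χ : Fin 3 → Matrix n n K, ∀ s, χ s = x s - (x s)ᵀ := ⟨_, fun _ => rfl⟩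
  obtain ⟨α, hα⟩ : ∃ α : Fin 3 → Matrix n n K, ∀ s, α s = al s * (kap * kap) := ⟨_, fun _ => rfl⟩
  simp only [← hχd]
  have hχ : ∀ s, (χ s)ᵀ = -χ s := by
    intro s; rw [hχd, transpose_sub, transpose_transpose, neg_sub]
  have hsum := hx.sum
  have harm := hx.arm
  have heb := hx.eb
  have hek := hx.ek
  simp only [← hα] at hsum harm heb hek
  have htr := congrArg transpose hsum
  rw [transpose_sum, transpose_zero] at htr
  simp only [transpose_sub, transpose_mul, transpose_transpose] at htr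
  have hex : ∑ s, (χ s * (kap * kap)ᵀ * (al s)ᵀ - al s * (kap * kap) * χ s) = 0 := by
    have e1 : ∀ s, χ s * (kap * kap)ᵀ * (al s)ᵀ - al s * (kap * kap) * χ s =
        (x s * (α s)ᵀ - α s * x s) + (α s * (x s)ᵀ - (x s)ᵀ * (α s)ᵀ) := by
      intro s
      have e2 : (kap * kap)ᵀ * (al s)ᵀ = (α s)ᵀ := by rw [hα, transpose_mul (al s)]
      rw [Matrix.mul_assoc (χ s), e2, ← hα, hχd, Matrix.sub_mul, Matrix.mul_sub]
      abel
    rw [Finset.sum_congr rfl fun s _ => e1 s, Finset.sum_add_distrib, hsum, htr, add_zero]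
  obtain ⟨d, ξ, θ0, hreal, hθ0, -, hdH, hW, hleft, hdbs, hsa0, hβ⟩ :=
    h.ctx.first0 hp χ hχ hex
  -- the off-diagonal part `C`
  obtain ⟨C, hC⟩ : ∃ C : Matrix n n K, C = b + kk := ⟨_, rfl⟩
  have hgC : (pᵀ * J * p) * C = 0 := by
    rw [hC, Matrix.mul_add, g_mul_zero h hx.rb, g_mul_zero h hx.rk, add_zero]
  have hU : ∀ s, χ s * (pᵀ * J * p) * (al s * (kap * kap)) -
      al s * (kap * kap) * (χ s * (pᵀ * J * p)) =
      C * (al s * (kap * kap)) - al s * (kap * kap) * C := by
    intro s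
    have e1 := heb s
    have e2 := hek s
    rw [← hα, hC, hχd]
    rw [Matrix.mul_add, Matrix.add_mul] at e1
    rw [Matrix.mul_sub, Matrix.sub_mul] at e2
    have e1' : b * α s - α s * b = α s * ((x s)ᵀ * (pᵀ * J * p)) - (x s)ᵀ * (pᵀ * J * p) * α s := by
      rw [sub_eq_sub_iff_add_eq_add, ← e1]
      abel
    have e2' : kk * α s - α s * kk = x s * (pᵀ * J * p) * α s - α s * (x s * (pᵀ * J * p)) := by
      rw [sub_eq_sub_iff_sub_eq_sub]
      exact e2
    have e3 : (b + kk) * α s - α s * (b + kk) = (b * α s - α s * b) + (kk * α s - α s * kk) := by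
      rw [Matrix.add_mul, Matrix.mul_add]; abel
    rw [e3, e1', e2', Matrix.sub_mul, Matrix.sub_mul, Matrix.mul_sub]
    abel
  obtain ⟨D0, hD0, hθ⟩ := pick h ht hp hθ0 hβ hgC hU
  obtain ⟨θ, hθd⟩ : ∃ θ : Matrix n n K, θ = D0 + C := ⟨_, rfl⟩
  rw [← hθd] at hθ
  have hpe : p * θ = p * θ0 := by rw [← hθ, hθ0]
  have hQe : Fᵀ * J * p * θ = Fᵀ * J * p * θ0 := by
    rw [Matrix.mul_assoc, hpe, ← Matrix.mul_assoc]
  have hGe : Fᵀ * J * p * (tau * θ) = Fᵀ * J * p * (tau * θ0) := by
    rw [← Matrix.mul_assoc, ← Matrix.mul_assoc, ← h.ctx.hτ, Matrix.mul_assoc, hpe,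
      ← Matrix.mul_assoc]
  have hnab : Fᵀ * J * p * FC.nab d θ tau = Fᵀ * J * p * FC.nab d θ0 tau := by
    unfold FC.nab
    rw [Matrix.mul_sub, Matrix.mul_add, Matrix.mul_sub, Matrix.mul_add, hGe,
      ← Matrix.mul_assoc _ θ tau, hQe, ← Matrix.mul_assoc _ θ0 tau]
  have hsa := h.ctx.nab_tau_sa hp hθ
  have hkap := h.ctx.kap_sa hp
  have hkai := h.ctx.kai_sa hp
  have hΦp : ∀ s, Phi arm J B (F + (algebraMap k K t) • G) s * p = p * (al s * (kap * kap)) :=
    fun s => h.ctx.PhiHp hp s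
  have hβ' : ∀ s, p * FC.nab d θ (al s * (kap * kap)) =
      p * (χ s * (pᵀ * J * p) * (al s * (kap * kap)) -
        al s * (kap * kap) * (χ s * (pᵀ * J * p))) := by
    intro s
    rw [← hβ s]
    unfold FC.nab
    have e1 : p * (al s * (kap * kap) * θ) = p * (al s * (kap * kap) * θ0) := by
      rw [← Matrix.mul_assoc, ← hΦp, Matrix.mul_assoc, hpe, ← Matrix.mul_assoc, hΦp,
        Matrix.mul_assoc p]
    rw [Matrix.mul_sub, Matrix.mul_add, Matrix.mul_sub, Matrix.mul_add, e1,
      ← Matrix.mul_assoc p θ, hpe, ← Matrix.mul_assoc p θ0]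
  -- the correction `z`
  obtain ⟨z, hz⟩ : ∃ z : Matrix n n K, z = algebraMap k K t • (FC.nab d θ tau * kai) := ⟨_, rfl⟩
  have hχ0 : ∀ s, (pᵀ * J * p) * (χ s * (pᵀ * J * p) * (al s * (kap * kap)) -
      al s * (kap * kap) * (χ s * (pᵀ * J * p))) = 0 := by
    intro s
    rw [hU, Matrix.mul_sub, ← Matrix.mul_assoc, hgC, Matrix.zero_mul, zero_sub, neg_eq_zero]
    have e1 : (pᵀ * J * p) * (al s * (kap * kap) * C) =
        (al s)ᵀ * (kapᵀ * (kapᵀ * ((pᵀ * J * p) * C))) := by
      rw [← Matrix.mul_assoc kapᵀ (pᵀ * J * p) C, ← hkap, Matrix.mul_assoc (pᵀ * J * p) kap C,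
        ← Matrix.mul_assoc kapᵀ (pᵀ * J * p) (kap * C), ← hkap,
        Matrix.mul_assoc (pᵀ * J * p) kap, ← Matrix.mul_assoc (al s)ᵀ, ← al_sa h]
      simp only [Matrix.mul_assoc]
    rw [e1, hgC, Matrix.mul_zero, Matrix.mul_zero, Matrix.mul_zero]
  obtain ⟨zM, hzM, hTz⟩ := RDZ.firstQ_ZZ h.ctx hp (frz h) h.cr.adj
    (fun s y => (h.cr.op s y).symm) h.ptau (nil_of_comm h (Or.inl ht)) hχ0 hθ hsa hβ'
  rw [← hz] at hzM
  have hτe : ∀ i, e i * tau = tau * e i := h.etau
  have hkape : ∀ i, e i * kap = kap * e i := by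
    intro i
    rw [hp.kap_eq, Matrix.mul_add, Matrix.add_mul, Matrix.mul_smul, Matrix.smul_mul, h.etau,
      Matrix.mul_one, Matrix.one_mul]
  have hkaie : ∀ i, e i * kai = kai * e i := by
    intro i
    have h2 := h.ctx.mul' hp
    calc e i * kai = (kai * kap) * (e i * kai) := by rw [h2, Matrix.one_mul]
      _ = kai * (kap * e i) * kai := by simp only [Matrix.mul_assoc]
      _ = kai * (e i * kap) * kai := by rw [hkape]
      _ = kai * e i * (kap * kai) := by simp only [Matrix.mul_assoc]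
      _ = _ := by rw [hp.mul, Matrix.mul_one]
  -- off-diagonal parts
  have hoffb : off e b = b := off_blk h.orth hij hx.bb
  have hoffk : off e kk = kk := off_blk h.orth (Ne.symm hij) hx.bk
  have hoffC : off e C = C := by rw [hC, off_add, hoffb, hoffk]
  have hoffθ : off e θ = C := by
    rw [hθd, off_add, off_zero_of_comm h.idem h.sumE hD0, hoffC, zero_add]
  have hoffτ : off e (FC.nab d θ tau) = C * tau - tau * C := by
    unfold FC.nab
    rw [off_sub, off_add, off_zero_of_comm h.idem h.sumE (map_comm h d hτe),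
      off_mul_right hτe, off_mul_left hτe, hoffθ, zero_add]
  have hoffz : off e z = C - kap * C * kai := by
    rw [hz, off_smul, off_mul_right hkaie, hoffτ]
    have e1 : (algebraMap k K t) • (C * tau - tau * C) = C * kap - kap * C := by
      rw [hp.kap_eq, Matrix.mul_add, Matrix.add_mul, Matrix.mul_one, Matrix.one_mul,
        Matrix.mul_smul, Matrix.smul_mul, smul_sub]
      abel
    rw [← Matrix.smul_mul, e1, Matrix.sub_mul, Matrix.mul_assoc C, hp.mul, Matrix.mul_one]
  obtain ⟨X, hX⟩ : ∃ X : Fin 3 → Matrix n n K, ∀ s, X s = χ s * (pᵀ * J * p) := ⟨_, fun _ => rfl⟩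
  have hoffX : ∀ s, off e (X s) = X s := by
    intro s
    rw [hX, hχd, Matrix.sub_mul, off_sub, off_blk h.orth (Ne.symm hij) (blk_xg h (hx.bx s)),
      off_blk h.orth hij (blk_xtg h (hx.bx s))]
  obtain ⟨mm, hmm⟩ : ∃ mm : Fin 3 → Matrix n n K, ∀ s, mm s =
      kap * ((χ s)ᵀ * ((pᵀ * J * p) * kai)) + -z + θ := ⟨_, fun _ => rfl⟩
  obtain ⟨μ, hμ⟩ : ∃ μ : Fin 3 → Matrix n n K, ∀ s, μ s =
      kai * χ s * kapᵀ * ((pᵀ * J * p) * al s) - (θ * al s + (al s).map d - al s * mm s) :=
    ⟨_, fun _ => rfl⟩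
  have hoffm : ∀ s, off e (mm s) = -(kap * (X s - C) * kai) := by
    intro s
    have e1 : kap * ((χ s)ᵀ * ((pᵀ * J * p) * kai)) = -(kap * X s * kai) := by
      rw [hχ, hX]
      simp only [Matrix.neg_mul, Matrix.mul_neg, Matrix.mul_assoc]
    rw [hmm, e1, off_add, off_add, off_neg, off_neg, off_mul_right hkaie, off_mul_left hkape,
      hoffX, hoffz, hoffθ, Matrix.mul_sub, Matrix.sub_mul]
    abel
  have hoffμ : ∀ s, off e (μ s) = kai * C * kap * al s - C * al s := by
    intro s
    have e1 : kai * χ s * kapᵀ * ((pᵀ * J * p) * al s) = kai * X s * kap * al s := by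
      rw [← Matrix.mul_assoc (kai * χ s * kapᵀ), Matrix.mul_assoc (kai * χ s) kapᵀ, ← hkap, hX]
      simp only [Matrix.mul_assoc]
    have e2 : off e (kai * X s * kap * al s) = kai * X s * kap * al s := by
      rw [off_mul_right fun i => h.eal i s, off_mul_right hkape, off_mul_left hkaie, hoffX]
    rw [hμ, e1, off_sub, off_sub, off_add, e2, off_mul_right fun i => h.eal i s,
      off_zero_of_comm h.idem h.sumE (map_comm h d fun i => h.eal i s),
      off_mul_left fun i => h.eal i s, hoffm, hoffθ, add_zero, Matrix.mul_neg, sub_neg_eq_add]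
    have e3 : al s * (kap * (X s - C) * kai) = al s * kap * (X s - C) * kai := by
      simp only [Matrix.mul_assoc]
    rw [e3]
    refine mu_alg hp.mul (h.ctx.mul' hp) (h.ctx.kap_al hp s) (h.ctx.kai_al hp s) ?_
    rw [← hU, hX]
  -- the witness
  refine ⟨io arm J F p (fun s => kai * χ s * kapᵀ) - F.map d, z, μ, ?_, ?_, ?_, ?_,
    ⟨zM, hzM, ZFr.ZZ_le_zero hTz⟩, ?_, ?_⟩
  · rw [← FC.Ctx.famio]
    have := W.neg_mem hW
    rwa [neg_sub] at this
  · rw [← FC.Ctx.famio, ← FC.Ctx.famio]
    have h1 := hreal.onN F h.ctx.memF.1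
    rw [FC.act_opF] at h1
    rw [← FC.fam_sub (fun s => kai * χ s * kapᵀ) χ]
    have e : FC.fam arm J F p (fun s => kai * χ s * kapᵀ) - FC.fam arm J F p χ -
        (FC.fam arm J F p (fun s => kai * χ s * kapᵀ) - F.map d) =
        F.map d - FC.fam arm J F p χ := by abel
    rw [e]
    exact h1
  · rw [← FC.Ctx.famio]
    have e : FC.fam arm J F p (fun s => kai * χ s * kapᵀ) - F.map d =
        -(F.map d - FC.fam arm J F p (fun s => kai * χ s * kapᵀ)) := by abel
    rw [e, transpose_neg, Matrix.neg_mul, Matrix.neg_mul, hleft, Matrix.mul_neg, neg_neg, hz,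
      Matrix.mul_smul, Matrix.mul_smul, ← Matrix.mul_assoc, ← Matrix.mul_assoc, hnab]
  · intro s
    rw [← FC.Ctx.famio]
    -- `bs' = bs * mm`
    have hb : (FC.bs arm J B F p s).map d = FC.bs arm J B F p s * mm s := by
      rw [hdbs s, hmm]
      have e1 : FC.bs arm J B F p s * (FC.nab d θ tau * kai) =
          FC.bs arm J B F p s * (FC.nab d θ0 tau * kai) := by
        unfold FC.bs
        rw [Matrix.mul_assoc, Matrix.mul_assoc, ← Matrix.mul_assoc _ (FC.nab d θ tau), hnab]
        simp only [Matrix.mul_assoc]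
      have e2 : FC.bs arm J B F p s * θ = FC.bs arm J B F p s * θ0 := by
        unfold FC.bs
        rw [Matrix.mul_assoc, hQe]
        simp only [Matrix.mul_assoc]
      simp only [Matrix.mul_add, Matrix.mul_neg, Matrix.mul_smul, hz]
      rw [e1, e2]
    have h1 := congrArg (fun A : Matrix ι n K => A.map d) (h.ctx.Fbs s)
    simp only [map_mul_der, hb, hθ] at h1
    have h2 : F.map d * FC.bs arm J B F p s =
        p * (θ * al s + (al s).map d - al s * mm s) := by
      have e1 : F.map d * FC.bs arm J B F p s = p * θ * al s + p * (al s).map d -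
          F * (FC.bs arm J B F p s * mm s) := by
        rw [← h1]; abel
      rw [e1, ← Matrix.mul_assoc F, h.ctx.Fbs]
      simp only [Matrix.mul_add, Matrix.mul_sub, Matrix.mul_assoc]
    have e : (FC.fam arm J F p (fun s => kai * χ s * kapᵀ) - F.map d) * E K arm s * B *
        (Fᵀ * J * p) = FC.fam arm J F p (fun s => kai * χ s * kapᵀ) * FC.bs arm J B F p s -
          F.map d * FC.bs arm J B F p s := by
      unfold FC.bs
      simp only [Matrix.sub_mul, Matrix.mul_assoc]
    rw [e, h2, FC.fam_bs h.ctx.data, h.ctx.Fbs, hμ,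
      Matrix.mul_sub p (kai * χ s * kapᵀ * (pᵀ * J * p * al s))]
    congr 1
    simp only [Matrix.mul_assoc]
  · rw [hoffz, hC, Matrix.mul_add, Matrix.add_mul]
    abel
  · intro s
    rw [hoffμ, hC]
    simp only [Matrix.mul_add, Matrix.add_mul, Matrix.sub_mul]
    abel

end Fr3

end lemmas

end Crest.Agent.R172.RD.H743
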