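import Crest.Agent.R172.RD0
import Crest.Agent.R172.FrU

/-!
Row 172 (S0260), (T0), any radical, any `D`: `RD.Fr` from an abstract total cover.

`Tin`: the total universal cover in operator form; `fr_of`: the frame structure `RD.Fr` for a block
adapted basis; `exists_basis`: the block adapted basis.
-/

set_option autoImplicit false
set_option linter.unusedSectionVars false
set_option maxHeartbeats 400000

namespace Crest.Agent.R172.RDfrA

open Module Matrix Crest.Agent.R172.FO Crest.Agent.R172.DerG
open Crest.Agent.R172.CovF (fr fr_repr toMatrix_equivFun ext_mulVec)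
open Crest.Agent.R172.Core (NS)
open Crest.Agent.R172.PL (Wk)
open Crest.Agent.R172.FrU (ACov mf pf)

variable {ι : Type*} [Fintype ι] [DecidableEq ι] {δ : Type*} [Fintype δ] [DecidableEq δ]
variable {k K : Type*} [Field k] [Field K] [Algebra k K]
variable {arm : δ → Fin 3} {J : Matrix ι ι K} {B : Matrix δ δ K}
  {N W : Submodule K (Matrix ι δ K)} {F G : Matrix ι δ K}
variable {X : Type*} [AddCommGroup X] [Module K X] {M : Type*} [AddCommGroup M] [Module K M]
variable {m : Type*} [Fintype m] [DecidableEq m]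

/-- the total universal cover in operator form -/
structure Tin (k : Type*) {K : Type*} [Field k] [Field K] [Algebra k K]
    {X : Type*} [AddCommGroup X] [Module K X] {M : Type*} [AddCommGroup M] [Module K M]
    (arm : δ → Fin 3) (J : Matrix ι ι K) (B : Matrix δ δ K) (F G : Matrix ι δ K)
    (A : Fin 3 → End K X) (D : End K X) (lV : X →ₗ[K] (ι → K)) (q : X →ₗ[K] M)
    (β : LinearMap.BilinForm K M) (Ψ : Fin 3 → End K M) (τ : End K M) (E : m → End K X)
    (lam : m → K) (l : Fin 3 → ℕ) (TT : Set k) : Prop where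
  cov : ACov arm J B F G A D lV
  sumA : ∑ s, A s = 0
  ns : NS β
  onto : Function.Surjective q
  form : ∀ x y, (lV x) ⬝ᵥ (J *ᵥ lV y) = β (q x) (q y)
  qA : ∀ s x, q (A s x) = Ψ s (q x)
  qD : ∀ x, q (D x) = τ (q x)
  sa : ∀ s v w, β (Ψ s v) w = β v (Ψ s w)
  nil : ∃ m0 : ℕ, ∀ w : List (Fin 3), w.length = m0 → ∀ x, q x = 0 → (w.map A).prod x = 0
  idem : ∀ i x, E i (E i x) = E i x
  orth : ∀ i j, i ≠ j → ∀ x, E i (E j x) = 0
  sumE : ∀ x, ∑ i, E i x = x
  EA : ∀ i s x, E i (A s x) = A s (E i x)
  ED : ∀ i x, E i (D x) = D (E i x)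
  Esa : ∀ i x y, β (q (E i x)) (q y) = β (q x) (q (E i y))
  nilE : ∀ i, ∃ j : ℕ, ∀ x, ((D - lam i • (1 : End K X)) ^ j) (E i x) = 0
  lamInj : Function.Injective lam
  two : ∀ i : m, ∃ j, j ≠ i
  inf : TT.Infinite
  ne0 : (0 : k) ∉ TT
  good : ∀ t ∈ TT, ∀ i, 1 + algebraMap k K t * lam i ≠ 0
  hom : ∀ t : k, (t ∈ TT ∨ t = 0) → ∀ C : Module.End K M,
    (∀ s x, C (Ψ s ((1 + algebraMap k K t • τ) ((1 + algebraMap k K t • τ) x))) =
      Ψ s ((1 + algebraMap k K t • τ) ((1 + algebraMap k K t • τ) (C x)))) →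
    ∀ i j, i ≠ j → ∀ x y, β (C (q (E i x))) (q (E j y)) = 0
  lpos : ∀ s, 1 ≤ l s
  lsum : ∑ s, (1 - 1 / (l s : ℚ)) = 2
  lnil : ∀ s, Ψ s ^ l s = 0
  free : ∀ s, l s * finrank K (LinearMap.ker (Ψ s)) = finrank K M
  top : ∀ i s, ∃ u u' : X, β (q (E i u)) (q ((A s ^ (l s - 1)) (E i u'))) ≠ 0
  gen : ∀ i (S : Submodule K X), (∀ s, ∀ v ∈ S, A s v ∈ S) →
    (∀ s u, (A s ^ l s) (E i u) ∈ S) → ∀ u, q (E i u) = 0 → E i u ∈ S

/-- an adjoint -/
theorem exists_adj [FiniteDimensional K M] {β : LinearMap.BilinForm K M} (h : NS β) :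
    ∃ T : Module.End K M →ₗ[K] Module.End K M, ∀ A v w, β (T A v) w = β v (A w) := by
  let e : M ≃ₗ[K] Module.Dual K M := LinearMap.BilinForm.toDual β h.nondeg
  refine ⟨{ toFun := fun A => (e.symm : Module.Dual K M →ₗ[K] M) ∘ₗ A.dualMap ∘ₗ
              (e : M →ₗ[K] Module.Dual K M)
            map_add' := fun A A' => ?_
            map_smul' := fun c A => ?_ }, fun A v w => ?_⟩
  · apply LinearMap.ext
    intro v
    apply e.injective
    simp only [LinearMap.comp_apply, LinearEquiv.coe_coe, LinearMap.add_apply, map_add,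
      LinearEquiv.apply_symm_apply]
    apply LinearMap.ext
    intro w
    simp
  · apply LinearMap.ext
    intro v
    apply e.injective
    simp only [LinearMap.comp_apply, LinearEquiv.coe_coe, LinearMap.smul_apply, map_smul,
      LinearEquiv.apply_symm_apply, RingHom.id_apply]
    apply LinearMap.ext
    intro w
    simp
  · show β (e.symm (A.dualMap (e v))) w = β v (A w)
    rw [LinearMap.BilinForm.apply_toDual_symm_apply]
    rfl

theorem Wk_le {V : Type*} [AddCommGroup V] [Module K V] {Φ : Fin 3 → End K V} :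
    ∀ (m0 : ℕ) (S : Submodule K V), (∀ w : List (Fin 3), w.length = m0 → ∀ v,
      (w.map Φ).prod v ∈ S) → Wk Φ m0 ≤ S := by
  intro m0
  induction m0 with
  | zero =>
    intro S h v _
    exact h [] rfl v
  | succ m0 ih =>
    intro S h
    refine iSup_le fun s => ?_
    rw [Submodule.map_le_iff_le_comap]
    refine ih _ fun w hw v => ?_
    have := h (s :: w) (by simp [hw]) v
    simpa using this

theorem prod_toLin' {Φ : Fin 3 → Matrix ι ι K} (w : List (Fin 3)) (v : ι → K) :
    (w.map (fun r => Matrix.toLin' (Φ r))).prod v = (w.map Φ).prod *ᵥ v := by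
  induction w with
  | nil => simp
  | cons s w ih =>
    rw [List.map_cons, List.prod_cons, List.map_cons, List.prod_cons, Module.End.mul_apply, ih,
      Matrix.toLin'_apply, mulVec_mulVec]

section basis

variable {a : ℕ} (b : Module.Basis (Fin a) K X)

theorem mf_mulVec (T : End K X) (u : Fin a → K) :
    mf b T *ᵥ u = b.equivFun (T (b.equivFun.symm u)) := by
  have := toMatrix_equivFun b T (b.equivFun.symm u)
  rwa [LinearEquiv.apply_symm_apply] at this

theorem pf_mulVec (lV : X →ₗ[K] (ι → K)) (u : Fin a → K) :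
    pf b lV *ᵥ u = lV (b.equivFun.symm u) := by
  have := fr_repr b lV (b.equivFun.symm u)
  rwa [LinearEquiv.apply_symm_apply] at this

theorem mf_mul (S T : End K X) : mf b (S * T) = mf b S * mf b T := LinearMap.toMatrix_mul b S T

theorem mf_add (S T : End K X) : mf b (S + T) = mf b S + mf b T :=
  map_add (LinearMap.toMatrix b b) S T

theorem mf_sub (S T : End K X) : mf b (S - T) = mf b S - mf b T :=
  map_sub (LinearMap.toMatrix b b) S T

theorem mf_smul (c : K) (S : End K X) : mf b (c • S) = c • mf b S :=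
  map_smul (LinearMap.toMatrix b b) c S

theorem mf_zero : mf b (0 : End K X) = 0 := map_zero (LinearMap.toMatrix b b)

theorem mf_one : mf b (1 : End K X) = 1 := LinearMap.toMatrix_one b

theorem mf_prod (A : Fin 3 → End K X) (w : List (Fin 3)) :
    (w.map fun s => mf b (A s)).prod = mf b (w.map A).prod := by
  induction w with
  | nil => simp [LinearMap.toMatrix_one]
  | cons s w ih => rw [List.map_cons, List.prod_cons, List.map_cons, List.prod_cons, mf_mul, ih]

theorem mf_pow (A : End K X) (j : ℕ) : mf b A ^ j = mf b (A ^ j) := by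
  induction j with
  | zero => simp [LinearMap.toMatrix_one]
  | succ j ih => rw [pow_succ, ih, ← mf_mul, pow_succ]

theorem dtr {α β' : Type*} [Fintype α] [Fintype β'] (A : Matrix α β' K) (y : β' → K) (u : α → K) :
    (A *ᵥ y) ⬝ᵥ u = y ⬝ᵥ (Aᵀ *ᵥ u) := by
  rw [dotProduct_mulVec, vecMul_transpose]

theorem mat_ext {A C : Matrix (Fin a) (Fin a) K}
    (h : ∀ u v : Fin a → K, u ⬝ᵥ (A *ᵥ v) = u ⬝ᵥ (C *ᵥ v)) : A = C := by
  ext i j
  have := h (Pi.single i 1) (Pi.single j 1)
  simpa using this

end basis

section main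

variable {A : Fin 3 → End K X} {D : End K X} {lV : X →ₗ[K] (ι → K)} {q : X →ₗ[K] M}
  {β : LinearMap.BilinForm K M} {Ψ : Fin 3 → End K M} {τ : End K M} {E : m → End K X}
  {lam : m → K} {l : Fin 3 → ℕ} {TT : Set k}

theorem Tin.inv [FiniteDimensional K X]
    (h : Tin k arm J B F G A D lV q β Ψ τ E lam l TT) {t : k} (ht : t ∈ TT) :
    ∃ σ : End K X, (1 + algebraMap k K t • D) * σ = 1 := by
  obtain ⟨σ, hσ, -⟩ := FrI.exists_inv D (algebraMap k K t) (fun ν hν => by
    -- `ν` is one of the `lam i`
    obtain ⟨x, hx, hx0⟩ := Submodule.exists_mem_ne_zero_of_ne_bot hν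
    rw [Module.End.mem_maxGenEigenspace] at hx
    obtain ⟨j, hj⟩ := hx
    by_contra hcon
    have hne : ∀ i, ν ≠ lam i := fun i hi => h.good t ht i (hi ▸ hcon)
    apply hx0
    rw [← h.sumE x]
    refine Finset.sum_eq_zero fun i _ => ?_
    obtain ⟨j', hj'⟩ := h.nilE i
    have hD : ∀ (c : K) (r : ℕ) (y : X), ((D - c • (1 : End K X)) ^ r) (E i y) =
        E i (((D - c • (1 : End K X)) ^ r) y) := by
      intro c r
      induction r with
      | zero => intro y; rfl
      | succ r ih =>
        intro y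
        rw [pow_succ, Module.End.mul_apply, Module.End.mul_apply, ← ih]
        congr 1
        simp only [LinearMap.sub_apply, LinearMap.smul_apply, Module.End.one_apply, map_sub,
          map_smul, h.ED]
    have h1 : E i x ∈ D.maxGenEigenspace ν := by
      rw [Module.End.mem_maxGenEigenspace]
      exact ⟨j, by rw [hD, hj, map_zero]⟩
    have h2 : E i x ∈ D.maxGenEigenspace (lam i) := by
      rw [Module.End.mem_maxGenEigenspace]
      exact ⟨j', hj' x⟩
    have h3 := (Module.End.independent_maxGenEigenspace D).pairwiseDisjoint (hne i)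
    exact (Submodule.disjoint_def.1 h3) _ h1 h2)
  exact ⟨σ, hσ⟩

/-- **`RD.Fr` from the total cover.** -/
theorem fr_of [CharZero K] [FiniteDimensional K X] (hD : FO.Data k arm J B N W)
    (hG : GenOver k arm N W F G) (hGm : G ∈ N ⊓ W)
    (h : Tin k arm J B F G A D lV q β Ψ τ E lam l TT)
    {T : Module.End K M →ₗ[K] Module.End K M} (hT : ∀ A v w, β (T A v) w = β v (A w))
    {a : ℕ} (b : Module.Basis (Fin a) K X)
    {blk : Fin a → m} (hb : ∀ i j, E i (b j) = if blk j = i then b j else 0)
    (hexS : ∀ i j, i ≠ j → ∀ c : K, c ≠ 0 → ∀ x : Fin 3 → Matrix (Fin a) (Fin a) K,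
      (∀ r, mf b (E j) * x r * (mf b (E i))ᵀ = x r) →
      ∑ r, (x r * (mf b (A r))ᵀ - c • (mf b (A r) * x r)) = 0 →
      (∀ r, ((pf b lV)ᵀ * J * pf b lV) * (x r * (mf b (A r))ᵀ - c • (mf b (A r) * x r)) *
        ((pf b lV)ᵀ * J * pf b lV) = 0) →
      ∃ bb kk : Matrix (Fin a) (Fin a) K, mf b (E i) * bb * mf b (E j) = bb ∧
        mf b (E j) * kk * mf b (E i) = kk ∧
        (∀ u, (q ∘ₗ (b.equivFun.symm : (Fin a → K) →ₗ[K] X)) (bb *ᵥ u) = 0) ∧
        (∀ u, (q ∘ₗ (b.equivFun.symm : (Fin a → K) →ₗ[K] X)) (kk *ᵥ u) = 0) ∧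
        (∀ r, mf b (A r) * (bb + (x r)ᵀ * ((pf b lV)ᵀ * J * pf b lV)) =
          c • ((bb + (x r)ᵀ * ((pf b lV)ᵀ * J * pf b lV)) * mf b (A r))) ∧
        (∀ r, (kk - x r * ((pf b lV)ᵀ * J * pf b lV)) * mf b (A r) =
          c • (mf b (A r) * (kk - x r * ((pf b lV)ᵀ * J * pf b lV))))) :
    RD.Fr k arm J B N W F G (pf b lV) (fun s => mf b (A s)) (mf b D) β T Ψ τ
      (q ∘ₗ (b.equivFun.symm : (Fin a → K) →ₗ[K] X)) (fun i => mf b (E i)) lam l TT := by
  classical
  have hctx : FC.Ctx k arm J B N W F G (pf b lV) (fun s => mf b (A s)) (mf b D) :=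
    FrU.ctx h.cov b hD hG.mem hGm
  have hgen := hG.generic
  have hform : ∀ u v : Fin a → K, u ⬝ᵥ (((pf b lV)ᵀ * J * pf b lV) *ᵥ v) =
      β (q (b.equivFun.symm u)) (q (b.equivFun.symm v)) := by
    intro u v
    rw [← h.form, ← pf_mulVec, ← pf_mulVec, Matrix.mul_assoc, ← mulVec_mulVec, ← mulVec_mulVec,
      dtr]
  have hsymm : ∀ T' : End K X, ∀ u : Fin a → K,
      b.equivFun.symm (mf b T' *ᵥ u) = T' (b.equivFun.symm u) := by
    intro T' u
    rw [mf_mulVec, LinearEquiv.symm_apply_apply]
  refine
    { ctx := hctx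
      vt := FrI.vt hG
      wk := ?_
      par := ?_
      inf := h.inf
      ne0 := h.ne0
      sum0 := ?_
      cr := ?_
      ptau := ?_
      kill := ?_
      killV := ?_
      idem := ?_
      orth := ?_
      sumE := ?_
      eal := ?_
      etau := ?_
      eC := ?_
      eg := ?_
      nil := ?_
      lamInj := h.lamInj
      two := h.two
      hom := ?_
      lpos := h.lpos
      lsum := h.lsum
      lnil := h.lnil
      free := h.free
      top := ?_
      gen := ?_
      hexS := hexS }
  · -- wk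
    obtain ⟨m0, hm⟩ := St.T_eq_Nk (DerG.Ph arm J B F)
    refine ⟨m0, Wk_le m0 _ fun w hw v => ?_⟩
    rw [prod_toLin']
    have h2 := FrI.wd_mem_Tp hD hgen.mem hm.le hw v
    rw [← h.cov.range] at h2
    obtain ⟨y, hy⟩ := h2
    refine ⟨b.equivFun y, ?_⟩
    rw [Matrix.toLin'_apply, fr_repr]
    exact hy
  · -- par
    intro t ht
    obtain ⟨σ, hσ⟩ := h.inv ht
    exact ⟨_, _, FrU.par h.cov b hD hgen t (hG.generic_add t) hσ⟩
  · -- sum0
    rw [← map_sum, h.sumA, map_zero]
  · -- cr
    refine ⟨h.ns, ?_, ?_, ?_, h.sa, hT, ?_⟩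
    · intro y
      obtain ⟨x, rfl⟩ := h.onto y
      exact ⟨b.equivFun x, by simp⟩
    · intro y y'
      rw [hform]; rfl
    · intro s y
      change Ψ s (q (b.equivFun.symm y)) = q (b.equivFun.symm (mf b (A s) *ᵥ y))
      rw [hsymm, h.qA]
    · intro x hx
      apply LinearMap.ext
      intro v
      obtain ⟨y, rfl⟩ := h.onto v
      obtain ⟨f, hf⟩ := h.cov.perf y
      rw [hf, map_sum, map_sum, LinearMap.zero_apply]
      refine Finset.sum_eq_zero fun s _ => ?_
      rw [h.qA]
      exact LinearMap.congr_fun (hx s) _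
  · -- ptau
    intro y
    change q (b.equivFun.symm (mf b D *ᵥ y)) = τ (q (b.equivFun.symm y))
    rw [hsymm, h.qD]
  · -- kill
    obtain ⟨m0, hm⟩ := h.nil
    refine ⟨m0, fun w hw u hu => ?_⟩
    have hu' : q (b.equivFun.symm u) = 0 := hu
    rw [mf_prod, mf_mulVec, hm w hw _ hu', map_zero]
  · -- killV
    intro t
    obtain ⟨m0, hm⟩ := h.nil
    refine ⟨m0, fun w hw u hu => ?_⟩
    have hu' : q (b.equivFun.symm u) = 0 := hu
    have hP : ∀ s x, Phi arm J B (F + t • G) s *ᵥ lV x =
        lV (A s ((1 + t • D) ((1 + t • D) x))) := by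
      intro s x
      have e1 : (F + t • G)ᵀ * J * pf b lV = Fᵀ * J * pf b lV * (1 + t • mf b D) := by
        rw [transpose_add, transpose_smul, Matrix.add_mul, Matrix.add_mul, Matrix.smul_mul,
          Matrix.smul_mul, hctx.hτ, Matrix.mul_add, Matrix.mul_one, Matrix.mul_smul]
      have e2 : (F + t • G) * FC.bs arm J B F (pf b lV) s =
          pf b lV * ((1 + t • mf b D) * mf b (A s)) := by
        rw [Matrix.add_mul, Matrix.smul_mul, hctx.Fbs, hctx.Gbs, Matrix.add_mul, Matrix.one_mul,
          Matrix.mul_add, Matrix.smul_mul, Matrix.mul_smul, Matrix.mul_assoc (pf b lV)]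
      have e3 : Phi arm J B (F + t • G) s * pf b lV =
          pf b lV * ((1 + t • mf b D) * mf b (A s)) * (1 + t • mf b D) := by
        have e4 : Phi arm J B (F + t • G) s * pf b lV =
            (F + t • G) * (FO.E K arm s * B * ((F + t • G)ᵀ * J * pf b lV)) := by
          unfold Phi FO.M
          simp only [Matrix.mul_assoc]
        rw [e4, e1, ← e2]
        unfold FC.bs
        simp only [Matrix.mul_assoc]
      have e5 : (1 + t • mf b D : Matrix (Fin a) (Fin a) K) = mf b (1 + t • D) := by
        rw [mf_add, mf_smul, mf_one]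
      have e6 : lV x = pf b lV *ᵥ b.equivFun x := (fr_repr b lV x).symm
      rw [e6, mulVec_mulVec, e3, e5, ← mf_mul, Matrix.mul_assoc, ← mf_mul, ← mulVec_mulVec,
        toMatrix_equivFun, fr_repr]
      congr 1
      simp only [Module.End.mul_apply, LinearMap.add_apply, Module.End.one_apply,
        LinearMap.smul_apply, map_add, map_smul, h.cov.comm]
    have hw2 : ∀ w : List (Fin 3), ∀ x, (w.map (Phi arm J B (F + t • G))).prod *ᵥ lV x =
        lV ((w.map A).prod (((1 + t • D) ^ (2 * w.length)) x)) := by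
      intro w
      induction w with
      | nil => intro x; simp
      | cons s w ih =>
        intro x
        have hc : ∀ (w : List (Fin 3)) (y : X), (1 + t • D) ((w.map A).prod y) =
            (w.map A).prod ((1 + t • D) y) := by
          intro w
          induction w with
          | nil => intro y; simp
          | cons s w ih2 =>
            intro y
            rw [List.map_cons, List.prod_cons, Module.End.mul_apply, Module.End.mul_apply,
              ← ih2]
            simp only [LinearMap.add_apply, Module.End.one_apply, LinearMap.smul_apply, map_add,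
              map_smul, h.cov.comm]
        rw [List.map_cons, List.prod_cons, ← mulVec_mulVec, ih, hP, List.map_cons,
          List.prod_cons, Module.End.mul_apply, hc, hc, List.length_cons,
          show 2 * (w.length + 1) = (2 * w.length) + 1 + 1 by ring, pow_succ', pow_succ',
          Module.End.mul_apply, Module.End.mul_apply]
    rw [pf_mulVec, hw2]
    have hq : ∀ (j : ℕ) (x : X), q x = 0 → q (((1 + t • D) ^ j) x) = 0 := by
      intro j
      induction j with
      | zero => intro x hx; simpa using hx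
      | succ j ih =>
        intro x hx
        rw [pow_succ, Module.End.mul_apply]
        refine ih _ ?_
        rw [LinearMap.add_apply, Module.End.one_apply, LinearMap.smul_apply, map_add, map_smul,
          h.qD, hx, map_zero, smul_zero, add_zero]
    rw [hm w hw _ (hq _ _ hu'), map_zero]
  · -- idem
    intro i
    rw [← mf_mul]
    congr 1
    exact LinearMap.ext fun x => h.idem i x
  · -- orth
    intro i j hij
    rw [← mf_mul, show E i * E j = 0 from LinearMap.ext fun x => h.orth i j hij x, mf_zero]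
  · -- sumE
    rw [← map_sum, show ∑ i, E i = 1 from LinearMap.ext fun x => by
      rw [LinearMap.sum_apply, h.sumE]; rfl, LinearMap.toMatrix_one]
  · -- eal
    intro i s
    change mf b (E i) * mf b (A s) = mf b (A s) * mf b (E i)
    rw [← mf_mul, ← mf_mul]
    congr 1
    exact LinearMap.ext fun x => h.EA i s x
  · -- etau
    intro i
    rw [← mf_mul, ← mf_mul]
    congr 1
    exact LinearMap.ext fun x => h.ED i x
  · -- eC
    intro i d
    have e1 : mf b (E i) = Matrix.diagonal fun j => if blk j = i then (1 : K) else 0 := by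
      ext r s
      change LinearMap.toMatrix b b (E i) r s = _
      rw [LinearMap.toMatrix_apply, hb, Matrix.diagonal_apply]
      by_cases hbi : blk s = i
      · rw [if_pos hbi, Basis.repr_self]
        by_cases hrs : r = s
        · subst hrs
          simp [hbi]
        · rw [if_neg hrs, Finsupp.single_apply, if_neg (fun h => hrs h.symm)]
      · rw [if_neg hbi, map_zero]
        by_cases hrs : r = s
        · subst hrs
          simp [hbi]
        · rw [if_neg hrs]
          rfl
    ext r s
    rw [e1]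
    by_cases hrs : r = s
    · subst hrs
      by_cases hbi : blk r = i
      · simp [hbi]
      · simp [hbi]
    · simp [hrs]
  · -- eg
    intro i
    apply mat_ext
    intro u v
    rw [← mulVec_mulVec, ← RDEnd.dt, hform, hsymm, ← mulVec_mulVec, hform, hsymm, h.Esa]
  · -- nil
    intro i
    obtain ⟨j, hj⟩ := h.nilE i
    refine ⟨j + 1, ?_⟩
    have e1 : (mf b D - lam i • (1 : Matrix (Fin a) (Fin a) K)) * mf b (E i) =
        mf b ((D - lam i • (1 : End K X)) * E i) := by
      rw [mf_mul, mf_sub, mf_smul, mf_one]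
    rw [e1, mf_pow]
    have e2 : ∀ r : ℕ, ((D - lam i • (1 : End K X)) * E i) ^ (r + 1) =
        (D - lam i • (1 : End K X)) ^ (r + 1) * E i := by
      intro r
      have hc : Commute (D - lam i • (1 : End K X)) (E i) := by
        refine LinearMap.ext fun x => ?_
        simp only [Module.End.mul_apply, LinearMap.sub_apply, LinearMap.smul_apply,
          Module.End.one_apply, map_sub, map_smul, h.ED]
      rw [hc.mul_pow]
      congr 1
      induction r with
      | zero => simp
      | succ r ih =>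
        rw [pow_succ, ih]
        exact LinearMap.ext fun x => h.idem i x
    rw [e2, show (D - lam i • (1 : End K X)) ^ (j + 1) * E i = 0 from LinearMap.ext fun x => by
      rw [Module.End.mul_apply, pow_succ', Module.End.mul_apply, hj, map_zero]
      rfl, mf_zero]
  · -- hom
    intro t ht C hC i j hij x y
    change β (C (q (b.equivFun.symm (mf b (E i) *ᵥ x)))) (q (b.equivFun.symm (mf b (E j) *ᵥ y))) = 0
    rw [hsymm, hsymm]
    exact h.hom t ht C hC i j hij _ _
  · -- top
    intro i s
    obtain ⟨u, u', hu⟩ := h.top i s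
    refine ⟨b.equivFun u, b.equivFun u', ?_⟩
    rw [hform, hsymm, LinearEquiv.symm_apply_apply, mf_pow, hsymm, hsymm,
      LinearEquiv.symm_apply_apply]
    exact hu
  · -- gen
    intro i S hS hS2 u hu
    have hu' : q (E i (b.equivFun.symm u)) = 0 := by
      rw [← hsymm]; exact hu
    have := h.gen i (S.comap (b.equivFun : X →ₗ[K] (Fin a → K))) (fun s v hv => ?_)
      (fun s v => ?_) (b.equivFun.symm u) hu'
    · rw [Submodule.mem_comap, ← hsymm] at this
      have e : (b.equivFun : X →ₗ[K] (Fin a → K)) (b.equivFun.symm (mf b (E i) *ᵥ u)) =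
          mf b (E i) *ᵥ u := LinearEquiv.apply_symm_apply _ _
      rwa [e] at this
    · have h1 := hS s _ hv
      rw [mf_mulVec] at h1
      simpa using h1
    · have h1 := hS2 s (b.equivFun v)
      rw [mf_pow, mf_mulVec, mf_mulVec] at h1
      simpa using h1

/-- the block adapted basis -/
theorem exists_basis [FiniteDimensional K X]
    (idem : ∀ i x, E i (E i x) = E i x) (orth : ∀ i j, i ≠ j → ∀ x, E i (E j x) = 0)
    (sumE : ∀ x, ∑ i, E i x = x) :
    ∃ (a : ℕ) (b : Module.Basis (Fin a) K X) (blk : Fin a → m),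
      ∀ i j, E i (b j) = if blk j = i then b j else 0 := by
  classical
  have hrange : ∀ i, ∀ y ∈ LinearMap.range (E i), E i y = y := by
    rintro i _ ⟨x, rfl⟩
    exact idem i x
  have hint : DirectSum.IsInternal fun i => LinearMap.range (E i) := by
    apply DirectSum.isInternal_submodule_of_iSupIndep_of_iSup_eq_top
    · rw [iSupIndep_def]
      intro i
      rw [Submodule.disjoint_def]
      intro x hx hx2
      have h1 : ∀ y ∈ ⨆ j, ⨆ (_ : j ≠ i), LinearMap.range (E j), E i y = 0 := by
        intro y hy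
        have h2 : (⨆ j, ⨆ (_ : j ≠ i), LinearMap.range (E j)) ≤ LinearMap.ker (E i) := by
          refine iSup_le fun j => iSup_le fun hj => ?_
          rintro _ ⟨z, rfl⟩
          exact orth i j hj.symm z
        exact h2 hy
      rw [← hrange i x hx, h1 x hx2]
    · rw [eq_top_iff]
      intro x _
      rw [← sumE x]
      exact Submodule.sum_mem _ fun i _ => Submodule.mem_iSup_of_mem i ⟨x, rfl⟩
  let b0 := hint.collectedBasis (fun i => Module.finBasis K (LinearMap.range (E i)))
  let e0 := Fintype.equivFin (Σ i, Fin (Module.finrank K (LinearMap.range (E i))))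
  refine ⟨_, b0.reindex e0, fun j => (e0.symm j).1, fun i j => ?_⟩
  rw [Basis.reindex_apply]
  have hmem : b0 (e0.symm j) ∈ LinearMap.range (E (e0.symm j).1) :=
    hint.collectedBasis_mem _ _
  by_cases hi : (e0.symm j).1 = i
  · rw [if_pos hi]
    exact hrange i _ (hi ▸ hmem)
  · rw [if_neg hi]
    obtain ⟨z, hz⟩ := hmem
    rw [← hz]
    exact orth i _ (fun h => hi h.symm) z

end main

end Crest.Agent.R172.RDfrA
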