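import Crest.Agent.R172.RDfrA
import Crest.Agent.R172.RDTot
import Crest.Agent.R172.PtFr
import Crest.Agent.R172.RDIn

/-!
Row 172 (S0260), (T0), any radical, any `D`: the input `RDfrA.Tin` from the total universal cover
`RDTot.Tot`.
-/

set_option autoImplicit false
set_option linter.unusedSectionVars false
set_option maxHeartbeats 800000

namespace Crest.Agent.R172.RDfrB

open Module Matrix Crest.AlgebraR.SpinSaturation Crest.Agent.R172.SoGrade
  Crest.Agent.R172.CF
open Crest.Agent.R172.Gen (Jm Ix emb Ent ent)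
open Crest.Agent.R172.ThX Crest.Agent.R172.CSys
open Crest.Agent.R172.Core (NS cp BM Tame Pres)
open Crest.Agent.R172.CP (pM PP Nums)
open Crest.Agent.R172.N5 (Ph)
open Crest.Agent.R172.RDTot

variable {n : ℕ} {a : Fin 3 → Fin n → ℤ} {c : Cfg n a} {K : Type} [Field K] [Algebra ℂ K]
variable {N W : Submodule K (Matrix (Ix n) c.δ K)} {F G : Matrix (Ix n) c.δ K}
variable {C : St.Core (BV n K) (Ph F)} {τ : Module.End K C.M} {l : Fin 3 → ℕ}

/-- the parameters -/
def TT {m : ℕ} (lam : Fin m → K) : Set ℂ := {t | t ≠ 0 ∧ ∀ i, 1 + algebraMap ℂ K t * lam i ≠ 0}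

theorem TT_inf {m : ℕ} (lam : Fin m → K) : (TT lam).Infinite := by
  have h1 : ({0} ∪ ⋃ i, {t : ℂ | 1 + algebraMap ℂ K t * lam i = 0}).Finite := by
    refine (Set.finite_singleton (0 : ℂ)).union (Set.finite_iUnion fun i => ?_)
    refine Set.Subsingleton.finite fun t ht t' ht' => ?_
    have e1 : 1 + algebraMap ℂ K t * lam i = 0 := ht
    have e2 : 1 + algebraMap ℂ K t' * lam i = 0 := ht'
    have hl : lam i ≠ 0 := by
      intro h0
      rw [h0, mul_zero, add_zero] at e1
      exact one_ne_zero e1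
    have e3 : (algebraMap ℂ K t - algebraMap ℂ K t') * lam i = 0 := by
      linear_combination e1 - e2
    have e4 := (mul_eq_zero.1 e3).resolve_right hl
    exact (algebraMap ℂ K).injective (sub_eq_zero.1 e4)
  refine (h1.infinite_compl).mono fun t ht => ?_
  rw [Set.mem_compl_iff, Set.mem_union, not_or] at ht
  refine ⟨fun h0 => ht.1 (by rw [h0]; rfl), fun i hi => ht.2 ?_⟩
  rw [Set.mem_iUnion]
  exact ⟨i, hi⟩

theorem nil_restrict {V : Type*} [AddCommGroup V] [Module K V] [FiniteDimensional K V]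
    (f : End K V) (ν : K) (h : ∀ x ∈ f.maxGenEigenspace ν, f x ∈ f.maxGenEigenspace ν) :
    ∃ j : ℕ, (f.restrict h - ν • (1 : End K (f.maxGenEigenspace ν))) ^ j = 0 := by
  refine ⟨finrank K V, LinearMap.ext fun v => Subtype.ext ?_⟩
  have h1 : ∀ (j : ℕ) (v : f.maxGenEigenspace ν),
      ((((f.restrict h - ν • (1 : End K (f.maxGenEigenspace ν))) ^ j) v :
        f.maxGenEigenspace ν) : V) = ((f - ν • (1 : End K V)) ^ j) v := by
    intro j
    induction j with
    | zero => intro v; rfl
    | succ j ih =>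
      intro v
      rw [pow_succ, Module.End.mul_apply, ih, pow_succ, Module.End.mul_apply]
      rfl
  rw [h1]
  have h2 : ∀ w : V, w ∈ f.maxGenEigenspace ν → ((f - ν • (1 : End K V)) ^ finrank K V) w = 0 := by
    intro w hw
    rw [Module.End.maxGenEigenspace_eq_genEigenspace_finrank,
      Module.End.mem_genEigenspace_nat] at hw
    exact hw
  exact h2 _ v.2

section tot

variable {m : ℕ} {X : Fin m → Type} [∀ i, AddCommGroup (X i)] [∀ i, Module K (X i)]

/-- the projectors of the total cover -/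
def EE (K : Type) [Field K] {m : ℕ} (X : Fin m → Type) [∀ i, AddCommGroup (X i)]
    [∀ i, Module K (X i)] (i : Fin m) : End K (∀ i, X i) :=
  LinearMap.single K X i ∘ₗ LinearMap.proj i

theorem EE_apply (i : Fin m) (x : ∀ i, X i) : EE K X i x = Pi.single i (x i) := rfl

theorem EE_same (i : Fin m) (x : ∀ i, X i) : EE K X i x i = x i := by
  change (Pi.single i (x i) : ∀ i, X i) i = x i
  rw [Pi.single_eq_same]

theorem EE_ne {i j : Fin m} (h : j ≠ i) (x : ∀ i, X i) : EE K X i x j = 0 := by
  change (Pi.single i (x i) : ∀ i, X i) j = 0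
  rw [Pi.single_eq_of_ne h]

variable {hl : Nums C τ l} {lam : Fin m → K} {e : Fin m → End K C.M}
  {A : ∀ i, Fin 3 → End K (X i)} {D : ∀ i, End K (X i)}
  {pr : ∀ i, X i →ₗ[K] (τ.maxGenEigenspace (lam i))} {ll : ∀ i, X i →ₗ[K] (Ix n → K)} {h : ℕ}

theorem EE_idem (i : Fin m) (x : ∀ i, X i) : EE K X i (EE K X i x) = EE K X i x := by
  rw [EE_apply i (EE K X i x), EE_same, EE_apply]

theorem EE_orth (i j : Fin m) (hij : i ≠ j) (x : ∀ i, X i) : EE K X i (EE K X j x) = 0 := by
  rw [EE_apply, EE_ne hij, Pi.single_zero]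

theorem EE_sum (x : ∀ i, X i) : ∑ i, EE K X i x = x := by
  simp only [EE_apply]
  exact Finset.univ_sum_single x

theorem EE_AA (i : Fin m) (s : Fin 3) (x : ∀ i, X i) :
    EE K X i (AA A s x) = AA A s (EE K X i x) := by
  funext j
  by_cases hj : j = i
  · subst hj
    rw [EE_same, AA_apply, AA_apply, EE_same]
  · rw [EE_ne hj, AA_apply, EE_ne hj, map_zero]

theorem EE_DD (i : Fin m) (x : ∀ i, X i) : EE K X i (DD D x) = DD D (EE K X i x) := by
  funext j
  by_cases hj : j = i
  · subst hj
    rw [EE_same, DD_apply, DD_apply, EE_same]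
  · rw [EE_ne hj, DD_apply, EE_ne hj, map_zero]

theorem QQ_EE (i : Fin m) (x : ∀ i, X i) :
    QQ pr (EE K X i x) = ((pr i (x i) : τ.maxGenEigenspace (lam i)) : C.M) := by
  rw [QQ_apply, Finset.sum_eq_single i]
  · rw [EE_same]
  · intro j _ hj
    rw [EE_ne hj, map_zero]
    rfl
  · intro hi
    exact absurd (Finset.mem_univ i) hi

theorem AA_pow (s : Fin 3) (k : ℕ) (x : ∀ i, X i) (i : Fin m) :
    (AA A s ^ k) x i = (A i s ^ k) (x i) := by
  induction k with
  | zero => rfl
  | succ k ih => rw [pow_succ', Module.End.mul_apply, AA_apply, ih, pow_succ',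
      Module.End.mul_apply]

variable (H : Tot N W F G C τ hl lam e A D pr ll h)
include H

theorem BM_EE (i : Fin m) (x y : ∀ i, X i) :
    BM C (QQ pr (EE K X i x)) (QQ pr y) =
      BM C ((pr i (x i) : τ.maxGenEigenspace (lam i)) : C.M) ((pr i (y i) :) : C.M) := by
  rw [QQ_EE, QQ_apply, map_sum, Finset.sum_eq_single i]
  · intro j _ hj
    exact H.orth hj.symm _ _
  · intro hi
    exact absurd (Finset.mem_univ i) hi

theorem BM_symm (v w : C.M) : BM C v w = BM C w v := (Core.NS_BM BV_ns C).symm v w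

theorem tin [IsAlgClosed K] [CharZero K] (hD : FO.Data ℂ c.arm (Jm n K) (c.B K) N W)
    (hnil : ∀ H ∈ N ⊓ W, ∃ k, ∀ s,
      MM (pU c K) (adjU c K) (Matrix.toLin' H) (Matrix.toLin' H) s ^ k = 0)
    (hG : FO.GenOver ℂ c.arm N W F G) (hT : TameAt F G C τ) :
    RDfrA.Tin ℂ c.arm (Jm n K) (c.B K) F G (AA A) (DD D) (LL ll) (QQ pr) (BM C)
      (fun s => cp C (Ph F s)) τ (EE K X) lam l (TT lam) := by
  classical
  have hsa : ∀ s, St.Sa (BV n K) (Ph F s) := N5.Ph_sa hD hG.mem
  have hfin := H.fin
  refine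
    { cov := H.acov hD hG.mem
      sumA := LinearMap.ext fun x => ?_
      ns := Core.NS_BM BV_ns C
      onto := H.QQ_surj
      form := fun x y => ?_
      qA := H.QQ_AA
      qD := H.QQ_DD
      sa := fun s v w => Core.cp_sa C (hsa s) v w
      nil := ⟨h, fun w hw x hx => H.words w hw x hx⟩
      idem := EE_idem
      orth := EE_orth
      sumE := EE_sum
      EA := EE_AA
      ED := EE_DD
      Esa := fun i x y => ?_
      nilE := fun i => ?_
      lamInj := H.spec.inj
      two := fun i => ?_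
      inf := TT_inf lam
      ne0 := fun h0 => h0.1 rfl
      good := fun t ht i => ht.2 i
      hom := ?_
      lpos := hl.one_le
      lsum := hl.sum
      lnil := hl.nilM
      free := hl.freeM
      top := ?_
      gen := ?_ }
  · rw [LinearMap.sum_apply]
    exact H.sumA x
  · rw [← H.form, BV_apply]
  · have e1 := BM_EE H i x y
    have e2 := BM_EE H i y x
    rw [e1, BM_symm H (QQ pr x), e2, BM_symm H]
  · -- nilE
    have hD0 := nil_restrict τ (lam i) (mapsD τ (lam i))
    obtain ⟨j, hj⟩ := hD0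
    have h3 := (H.fam.st i).nilD (lam i) j hj
    refine ⟨j, fun x => ?_⟩
    have h4 : ∀ (r : ℕ) (y : ∀ i, X i) (i' : Fin m),
        (((DD D - lam i • (1 : End K (∀ i, X i))) ^ r) y) i' =
          ((D i' - lam i • (1 : End K (X i'))) ^ r) (y i') := by
      intro r
      induction r with
      | zero => intro y i'; rfl
      | succ r ih =>
        intro y i'
        rw [pow_succ, Module.End.mul_apply, ih, pow_succ, Module.End.mul_apply]
        rfl
    funext i'
    rw [h4]
    by_cases hi : i' = i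
    · subst hi
      rw [EE_same, h3]
      rfl
    · rw [EE_ne hi, map_zero]
      rfl
  · -- two
    obtain ⟨⟨mu, nu, hne, h1, h2⟩, -⟩ := hT.tame
    obtain ⟨i1, hi1⟩ := H.spec.all mu h1
    obtain ⟨i2, hi2⟩ := H.spec.all nu h2
    by_cases hi : i1 = i
    · refine ⟨i2, fun h0 => hne ?_⟩
      rw [← hi1, ← hi2, hi, h0]
    · exact ⟨i1, hi⟩
  · -- hom
    intro t ht C' hC i j hij x y
    rw [QQ_EE, QQ_EE]
    have hH : FO.Generic ℂ c.arm N W (F + algebraMap ℂ K t • G) := hG.generic_add t
    obtain ⟨k, hk⟩ := hnil _ hH.mem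
    refine PtFr.hom_orth (t := algebraMap ℂ K t) hD BV_eq (MM_eq F) hG.generic hG.memG hH
      ⟨k, fun r => ?_⟩ C hT.sa hT.comm ?_ (A := C') hC (fun h0 => hij (H.spec.inj h0))
      (pr i (x i)).2 (pr j (y j)).2
    · rw [← MM_eq]; exact hk r
    · intro r v
      have e : MM (pU c K) (adjU c K) (Matrix.toLin' F) (Matrix.toLin' G) r =
          Matrix.toLin' (QN.Psi c.arm (Jm n K) (c.B K) F G r) := by
        refine LinearMap.ext fun w => ?_
        rw [MM_toLin, Matrix.toLin'_apply, QN.Psi]
      rw [← e]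
      exact hT.rel r v
  · -- top
    intro i s
    have hker : ∀ v : C.M, (∀ s, cp C (Ph F s) v = 0) → v = 0 := fun v hv =>
      Core.cp_ker hsa C v hv
    obtain ⟨p, hp⟩ := (H.pside i hker).pow_not s
    have hv : ((pr i ((A i s ^ (l s - 1)) p) : τ.maxGenEigenspace (lam i)) : C.M) ≠ 0 := by
      intro h0
      exact hp (LinearMap.mem_ker.2 (Subtype.ext h0))
    by_contra hcon
    push Not at hcon
    apply hv
    refine (Core.NS_BM BV_ns C).nd _ fun w => ?_
    obtain ⟨y, rfl⟩ := H.QQ_surj w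
    have h1 := hcon y (Pi.single i p)
    rw [BM_EE H] at h1
    have h2 : (AA A s ^ (l s - 1)) (EE K X i (Pi.single i p)) i = (A i s ^ (l s - 1)) p := by
      rw [AA_pow, EE_same, Pi.single_eq_same]
    rw [h2] at h1
    have h3 : BM C ((pr i ((A i s ^ (l s - 1)) p) : τ.maxGenEigenspace (lam i)) : C.M)
        (QQ pr y) = BM C ((pr i ((A i s ^ (l s - 1)) p) :) : C.M) ((pr i (y i) :) : C.M) := by
      have := BM_EE H i (Pi.single i ((A i s ^ (l s - 1)) p)) y
      rw [QQ_EE, Pi.single_eq_same] at this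
      exact this
    rw [h3, BM_symm H]
    exact h1
  · -- gen
    intro i S hS hS2 u hu
    have hker : ∀ v : C.M, (∀ s, cp C (Ph F s) v = 0) → v = 0 := fun v hv =>
      Core.cp_ker hsa C v hv
    have hsing : ∀ p : X i, EE K X i (Pi.single i p) = Pi.single i p := by
      intro p
      rw [EE_apply, Pi.single_eq_same]
    have hAs : ∀ s (p : X i), AA A s (Pi.single i p) = Pi.single i (A i s p) := by
      intro s p
      rw [← hsing, ← EE_AA, EE_apply, AA_apply, Pi.single_eq_same]
    have hAp : ∀ s (k : ℕ) (p : X i), (AA A s ^ k) (Pi.single i p) =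
        Pi.single i ((A i s ^ k) p) := by
      intro s k
      induction k with
      | zero => intro p; rfl
      | succ k ih =>
        intro p
        rw [pow_succ, Module.End.mul_apply, hAs, ih, pow_succ, Module.End.mul_apply]
    have h1 := (H.pside i hker).gen (S.comap (LinearMap.single K X i)) (fun t v hv => by
      rw [Submodule.mem_comap, LinearMap.single_apply] at hv ⊢
      rw [← hAs]
      exact hS t _ hv) (fun s p => by
      rw [Submodule.mem_comap, LinearMap.single_apply, ← hAp]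
      have := hS2 s (Pi.single i p)
      rwa [hsing] at this)
    have h2 : pr i (u i) = 0 := by
      have h3 := hu
      rw [QQ_EE] at h3
      exact Subtype.ext h3
    have h4 := h1 (LinearMap.mem_ker.2 h2)
    rw [Submodule.mem_comap, LinearMap.single_apply] at h4
    rw [EE_apply]
    exact h4

end tot

end Crest.Agent.R172.RDfrB
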