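import Crest.Agent.R172.RDfrA
import Crest.Agent.R172.RDTotU
import Crest.Agent.R172.HexS895

/-!
Row 172, TAME (T0): the field `hexS` of `RD.Fr` (literally the hypothesis of `RDfrA.fr_of`) from the
universal property of the total cover.
-/

set_option autoImplicit false
set_option linter.unusedSectionVars false
set_option maxHeartbeats 400000

namespace Crest.Agent.R172.RDhexT

open Module Matrix Crest.Agent.R172.FO Crest.Agent.R172.DerG
open Crest.Agent.R172.CovF (fr fr_repr toMatrix_equivFun ext_mulVec)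
open Crest.Agent.R172.Core (NS)
open Crest.Agent.R172.FrU (ACov mf pf)
open Crest.Agent.R172.RDfrA

variable {ι : Type*} [Fintype ι] [DecidableEq ι] {δ : Type*} [Fintype δ] [DecidableEq δ]
variable {k K : Type} [Field k] [Field K] [Algebra k K]
variable {arm : δ → Fin 3} {J : Matrix ι ι K} {B : Matrix δ δ K} {F G : Matrix ι δ K}
variable {X : Type} [AddCommGroup X] [Module K X] {M : Type*} [AddCommGroup M] [Module K M]
variable {m : Type*} [Fintype m] [DecidableEq m]
variable {A : Fin 3 → End K X} {D : End K X} {lV : X →ₗ[K] (ι → K)} {q : X →ₗ[K] M}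
  {β : LinearMap.BilinForm K M} {Ψ : Fin 3 → End K M} {τ : End K M} {E : m → End K X}
  {lam : m → K} {l : Fin 3 → ℕ} {TT : Set k}

theorem exists_rho (hperf : ∀ x : X, ∃ f : Fin 3 → X, x = ∑ s, A s (f s)) {a : ℕ}
    (b : Module.Basis (Fin a) K X) : ∃ ρ : Fin 3 → Matrix (Fin a) (Fin a) K,
      ∑ r, mf b (A r) * ρ r = 1 := by
  choose f hf using fun j => hperf (b j)
  refine ⟨fun r => mf b (b.constr K fun j => f j r), ?_⟩
  simp only [← mf_mul]
  rw [← mf_one b]
  change ∑ r, LinearMap.toMatrix b b _ = LinearMap.toMatrix b b _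
  rw [← map_sum]
  congr 1
  refine b.ext fun j => ?_
  rw [LinearMap.sum_apply]
  simp only [Module.End.mul_apply, Basis.constr_basis, Module.End.one_apply]
  exact (hf j).symm

theorem hexS_of [CharZero K] [FiniteDimensional K X]
    (h : Tin k arm J B F G A D lV q β Ψ τ E lam l TT) {N0 : ℕ} (hU : RDL.Univ.{0, 0} A q N0)
    (hk : ∀ w : List (Fin 3), w.length = N0 → ∀ x, q x = 0 → (w.map A).prod x = 0)
    {a : ℕ} (b : Module.Basis (Fin a) K X) :
    ∀ i j, i ≠ j → ∀ c : K, c ≠ 0 → ∀ x : Fin 3 → Matrix (Fin a) (Fin a) K,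
      (∀ r, mf b (E j) * x r * (mf b (E i))ᵀ = x r) →
      ∑ r, (x r * (mf b (A r))ᵀ - c • (mf b (A r) * x r)) = 0 →
      (∀ r, ((pf b lV)ᵀ * J * pf b lV) * (x r * (mf b (A r))ᵀ - c • (mf b (A r) * x r)) *
        ((pf b lV)ᵀ * J * pf b lV) = 0) →
      ∃ bb kk : Matrix (Fin a) (Fin a) K, mf b (E i) * bb * mf b (E j) = bb ∧
        mf b (E j) * kk * mf b (E i) = kk ∧
        (∀ u, (q ∘ₗ (b.equivFun.symm : (Fin a → K) →ₗ[K] X)) (bb *ᵥ u) = 0) ∧
        (∀ u, (q ∘ₗ (b.equivFun.symm : (Fin a → K) →ₗ[K] X)) (kk *ᵥ u) = 0) ∧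
        (∀ r, mf b (A r) * (bb + (x r)ᵀ * ((pf b lV)ᵀ * J * pf b lV)) =
          c • ((bb + (x r)ᵀ * ((pf b lV)ᵀ * J * pf b lV)) * mf b (A r))) ∧
        (∀ r, (kk - x r * ((pf b lV)ᵀ * J * pf b lV)) * mf b (A r) =
          c • (mf b (A r) * (kk - x r * ((pf b lV)ᵀ * J * pf b lV)))) := by
  classical
  intro i j hij c hc x hx h0 h1
  have hform : ∀ u v : Fin a → K, u ⬝ᵥ (((pf b lV)ᵀ * J * pf b lV) *ᵥ v) =
      β (q (b.equivFun.symm u)) (q (b.equivFun.symm v)) := by
    intro u v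
    rw [← h.form, ← pf_mulVec, ← pf_mulVec, Matrix.mul_assoc, ← mulVec_mulVec, ← mulVec_mulVec,
      dtr]
  have hsymm : ∀ T' : End K X, ∀ u : Fin a → K,
      b.equivFun.symm (mf b T' *ᵥ u) = T' (b.equivFun.symm u) := by
    intro T' u
    rw [mf_mulVec, LinearEquiv.symm_apply_apply]
  have hcomm : ∀ i r, mf b (E i) * mf b (A r) = mf b (A r) * mf b (E i) := by
    intro i r
    rw [← mf_mul, ← mf_mul]
    congr 1
    exact LinearMap.ext fun x => h.EA i r x
  have heg : ∀ i, (mf b (E i))ᵀ * ((pf b lV)ᵀ * J * pf b lV) =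
      ((pf b lV)ᵀ * J * pf b lV) * mf b (E i) := by
    intro i
    apply mat_ext
    intro u v
    rw [← mulVec_mulVec, ← RDEnd.dt, hform, hsymm, ← mulVec_mulVec, hform, hsymm, h.Esa]
  have hidem : ∀ i, mf b (E i) * mf b (E i) = mf b (E i) := by
    intro i
    rw [← mf_mul]
    congr 1
    exact LinearMap.ext fun x => h.idem i x
  obtain ⟨ρ, hρ⟩ := exists_rho h.cov.perf b
  refine HexS.hexS (π := q ∘ₗ (b.equivFun.symm : (Fin a → K) →ₗ[K] X))
    (al := fun r => mf b (A r)) (ρ := ρ) (N := N0)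
    (g := (pf b lV)ᵀ * J * pf b lV) ?_ ?_ ?_ ?_ ?_ hρ ?_ (hidem i) (hidem j)
    (fun r => hcomm i r) (fun r => hcomm j r) (heg i) (heg j) hc hx h0 h1
  · apply mat_ext
    intro u v
    rw [← dtr, dotProduct_comm, hform, hform, h.ns.symm]
  · intro r
    apply mat_ext
    intro u v
    rw [← mulVec_mulVec, hform, hsymm, ← mulVec_mulVec, ← dtr, hform, hsymm, h.qA, h.qA, h.sa]
  · intro u
    constructor
    · intro hu
      funext w
      have h3 := hform (Pi.single w 1) u
      rw [show q (b.equivFun.symm u) = 0 from hu, map_zero, single_one_dotProduct] at h3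
      exact h3
    · intro hu
      refine h.ns.nd _ fun w => ?_
      obtain ⟨y, rfl⟩ := h.onto w
      have h3 := hform (b.equivFun y) u
      rw [hu, dotProduct_zero, LinearEquiv.symm_apply_apply] at h3
      rw [h.ns.symm]
      exact h3.symm
  · intro f hf
    exact hU.matrix b f hf
  · rw [← map_sum, h.sumA, map_zero]
  · intro w hw u hu
    change (w.map fun s => mf b (A s)).prod *ᵥ u = 0
    have hu' : q (b.equivFun.symm u) = 0 := hu
    rw [mf_prod, mf_mulVec, hk w hw _ hu', map_zero]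

end Crest.Agent.R172.RDhexT
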