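import Crest.Agent.R172.RDfrB
import Crest.Agent.R172.RDhexT

/-!
Row 172, TAME (T0): **`RD.ExFr`** (the frame of the universal cover exists).
-/

set_option autoImplicit false
set_option linter.unusedSectionVars false
set_option maxHeartbeats 800000

namespace Crest.Agent.R172.RDfrE

open Module Matrix Crest.AlgebraR.SpinSaturation Crest.Agent.R172.SoGrade
  Crest.Agent.R172.CF
open Crest.Agent.R172.Gen (Jm Ix emb Ent ent)
open Crest.Agent.R172.ThX Crest.Agent.R172.CSys

/-- **exists_fr** -/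
theorem exFr : RD.ExFr := by
  intro n a c K _ _ _ _ N W hD hnil hsum hK F G hG C τ hT
  obtain ⟨l, hl⟩ := CP.nums_of_tame BV_ns (N5.Ph_sa hD hG.mem) C hT.sa hT.comm
    (Module.End.iSup_maxGenEigenspace_eq_top τ) hT.tame
  obtain ⟨m, lam, e, X, i1, i2, A, D, pr, ll, h, H, hU⟩ :=
    RDTot.exists_totU hD hG.mem hG.memG hT hl
  have hfin := H.fin
  have ht := RDfrB.tin H hD hnil hG hT
  obtain ⟨a0, b, blk, hb⟩ := RDfrA.exists_basis ht.idem ht.orth ht.sumE
  obtain ⟨T, hT'⟩ := RDfrA.exists_adj ht.ns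
  exact ⟨Fin a0, inferInstance, inferInstance, Fin m, inferInstance, inferInstance, _, _, _, T, _,
    _, lam, l, _, RDfrA.fr_of hD hG hG.memG ht hT' b hb
      (RDhexT.hexS_of ht (H.univ hU) (fun w hw x hx => H.words w hw x hx) b)⟩

end Crest.Agent.R172.RDfrE
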