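import Crest.Agent.R172.DecT

/-!
Row 172 (S0260), (T0), any radical, any `D`: the transfer from the operator `D` to scalars for
decorated families, in matrix form (abstract part of `RD.halves`).
-/

set_option autoImplicit false
set_option linter.unusedSectionVars false

namespace Crest.Agent.R172.RDH

open Matrix Module Crest.Agent.R172.Dual Crest.Agent.R172.DecT

section rel

variable {K : Type*} [Field K] {V : Type*} [AddCommGroup V] [Module K V]

/-- `transfer` for a linear relation -/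
theorem transferR [FiniteDimensional K V] (R : Submodule K (V × V)) {a b : End K V}
    (hab : Commute a b) (ha : IsNilpotent a) (hb : IsNilpotent b)
    (hRa : ∀ y z, (y, z) ∈ R → (a y, a z) ∈ R) (hRb : ∀ y z, (y, z) ∈ R → (b y, b z) ∈ R)
    {la1 la2 : K} (hla : la1 ≠ la2) {𝒯 : Set K} (h𝒯 : 𝒯.Infinite) (c1 c2 : K → End K V)
    (hc1 : ∀ t x, c1 t x = (1 + t * la1) • x + t • b x)
    (hc2 : ∀ t x, c2 t x = (1 + t * la2) • x + t • a x) :
    ∃ S : Set K, S.Finite ∧ ∀ c ∉ S, ∀ x, (x, c • x) ∈ R → ∀ M : Submodule K (V × V),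
      (∀ t ∈ 𝒯, ∀ X, (c1 t (c1 t X), c2 t (c2 t X)) ∈ R → (c1 t X, c2 t X) ∈ M) →
      (x, 0) ∈ M ∧ (0, x) ∈ M := by
  let L0 : V →ₗ[K] (V × V) ⧸ R := R.mkQ ∘ₗ LinearMap.inl K V V
  let L1 : V →ₗ[K] (V × V) ⧸ R := -(R.mkQ ∘ₗ LinearMap.inr K V V)
  have key : ∀ y z, L0 y = L1 z ↔ (y, z) ∈ R := by
    intro y z
    have h1 : L0 y - L1 z = R.mkQ (y, z) := by
      show R.mkQ (y, 0) - -(R.mkQ (0, z)) = _
      rw [sub_neg_eq_add, ← map_add, Prod.mk_add_mk, add_zero, zero_add]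
    rw [← sub_eq_zero, h1]
    exact Submodule.Quotient.mk_eq_zero R
  obtain ⟨S, hS, hT⟩ := transfer L0 L1 hab ha hb
    (fun y z h => (key _ _).2 (hRa y z ((key _ _).1 h)))
    (fun y z h => (key _ _).2 (hRb y z ((key _ _).1 h))) hla h𝒯 c1 c2 hc1 hc2
  refine ⟨S, hS, fun c hc x hx M hM => hT c hc x ?_ M fun t ht X hX => hM t ht X ((key _ _).1 hX)⟩
  rw [← map_smul]
  exact (key _ _).2 hx

end rel

variable {n : Type*} [Fintype n] [DecidableEq n] {K : Type*} [Field K]
  {M : Type*} [AddCommGroup M] [Module K M]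

/-- decorated families -/
abbrev DV (n K : Type*) := (Fin 3 → Matrix n n K) × Matrix n n K × Matrix n n K

/-- action on the `U_i`-side -/
def o1 (P : Matrix n n K) : End K (DV n K) where
  toFun X := (fun r => X.1 r * Pᵀ, P * X.2.1, X.2.2 * P)
  map_add' X Y := Prod.ext (funext fun r => Matrix.add_mul _ _ _)
    (Prod.ext (Matrix.mul_add _ _ _) (Matrix.add_mul _ _ _))
  map_smul' c X := by
    refine Prod.ext (funext fun r => ?_) (Prod.ext ?_ ?_)
    · show (c • X.1 r) * Pᵀ = c • (X.1 r * Pᵀ)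
      exact Matrix.smul_mul _ _ _
    · show P * (c • X.2.1) = c • (P * X.2.1)
      exact Matrix.mul_smul _ _ _
    · show (c • X.2.2) * P = c • (X.2.2 * P)
      exact Matrix.smul_mul _ _ _

/-- action on the `U_j`-side -/
def o2 (P : Matrix n n K) : End K (DV n K) where
  toFun X := (fun r => P * X.1 r, X.2.1 * P, P * X.2.2)
  map_add' X Y := Prod.ext (funext fun r => Matrix.mul_add _ _ _)
    (Prod.ext (Matrix.add_mul _ _ _) (Matrix.mul_add _ _ _))
  map_smul' c X := by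
    refine Prod.ext (funext fun r => ?_) (Prod.ext ?_ ?_)
    · show P * (c • X.1 r) = c • (P * X.1 r)
      exact Matrix.mul_smul _ _ _
    · show (c • X.2.1) * P = c • (X.2.1 * P)
      exact Matrix.smul_mul _ _ _
    · show P * (c • X.2.2) = c • (P * X.2.2)
      exact Matrix.mul_smul _ _ _

theorem o1_apply (P : Matrix n n K) (X : DV n K) :
    o1 P X = (fun r => X.1 r * Pᵀ, P * X.2.1, X.2.2 * P) := rfl

theorem o2_apply (P : Matrix n n K) (X : DV n K) :
    o2 P X = (fun r => P * X.1 r, X.2.1 * P, P * X.2.2) := rfl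

theorem o1_nil {P : Matrix n n K} (hP : IsNilpotent P) : IsNilpotent (o1 P) := by
  obtain ⟨m, hm⟩ := hP
  refine ⟨m, ?_⟩
  have h1 : ∀ j : ℕ, (o1 P) ^ j = o1 (P ^ j) := by
    intro j
    induction j with
    | zero =>
      refine LinearMap.ext fun X => ?_
      rw [pow_zero, pow_zero, o1_apply, transpose_one]
      refine Prod.ext (funext fun r => ?_) (Prod.ext ?_ ?_)
      · exact (Matrix.mul_one _).symm
      · exact (Matrix.one_mul _).symm
      · exact (Matrix.mul_one _).symm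
    | succ j ih =>
      refine LinearMap.ext fun X => ?_
      rw [pow_succ, Module.End.mul_apply, ih, o1_apply, o1_apply, o1_apply]
      refine Prod.ext (funext fun r => ?_) (Prod.ext ?_ ?_)
      · show X.1 r * Pᵀ * (P ^ j)ᵀ = X.1 r * (P ^ (j + 1))ᵀ
        rw [pow_succ, transpose_mul, Matrix.mul_assoc]
      · show P ^ j * (P * X.2.1) = P ^ (j + 1) * X.2.1
        rw [pow_succ, Matrix.mul_assoc]
      · show X.2.2 * P * P ^ j = X.2.2 * P ^ (j + 1)
        rw [pow_succ', Matrix.mul_assoc]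
  rw [h1, hm]
  refine LinearMap.ext fun X => ?_
  rw [o1_apply, transpose_zero]
  refine Prod.ext (funext fun r => ?_) (Prod.ext ?_ ?_)
  · exact Matrix.mul_zero _
  · exact Matrix.zero_mul _
  · exact Matrix.mul_zero _

theorem o2_nil {P : Matrix n n K} (hP : IsNilpotent P) : IsNilpotent (o2 P) := by
  obtain ⟨m, hm⟩ := hP
  refine ⟨m, ?_⟩
  have h1 : ∀ j : ℕ, (o2 P) ^ j = o2 (P ^ j) := by
    intro j
    induction j with
    | zero =>
      refine LinearMap.ext fun X => ?_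
      rw [pow_zero, pow_zero, o2_apply]
      refine Prod.ext (funext fun r => ?_) (Prod.ext ?_ ?_)
      · exact (Matrix.one_mul _).symm
      · exact (Matrix.mul_one _).symm
      · exact (Matrix.one_mul _).symm
    | succ j ih =>
      refine LinearMap.ext fun X => ?_
      rw [pow_succ, Module.End.mul_apply, ih, o2_apply, o2_apply, o2_apply]
      refine Prod.ext (funext fun r => ?_) (Prod.ext ?_ ?_)
      · show P ^ j * (P * X.1 r) = P ^ (j + 1) * X.1 r
        rw [pow_succ, Matrix.mul_assoc]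
      · show X.2.1 * P * P ^ j = X.2.1 * P ^ (j + 1)
        rw [pow_succ', Matrix.mul_assoc]
      · show P ^ j * (P * X.2.2) = P ^ (j + 1) * X.2.2
        rw [pow_succ, Matrix.mul_assoc]
  rw [h1, hm]
  refine LinearMap.ext fun X => ?_
  rw [o2_apply]
  refine Prod.ext (funext fun r => ?_) (Prod.ext ?_ ?_)
  · exact Matrix.zero_mul _
  · exact Matrix.mul_zero _
  · exact Matrix.zero_mul _

theorem o21_comm (P Q : Matrix n n K) : Commute (o2 P) (o1 Q) := by
  refine LinearMap.ext fun X => ?_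
  show o2 P (o1 Q X) = o1 Q (o2 P X)
  rw [o1_apply, o2_apply, o1_apply, o2_apply]
  refine Prod.ext (funext fun r => ?_) (Prod.ext ?_ ?_)
  · exact (Matrix.mul_assoc _ _ _).symm
  · exact Matrix.mul_assoc _ _ _
  · exact (Matrix.mul_assoc _ _ _).symm

section data

variable (g : Matrix n n K) (π : (n → K) →ₗ[K] M) (ei ej : Matrix n n K)
  (al : Fin 3 → Matrix n n K)

/-- the linear relation `(y, z)` with `(x, c • x)` in it iff `x` is an exact decorated family
at `c` -/
def RR : Submodule K (DV n K × DV n K) where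
  carrier := {q | (∀ r, ej * q.1.1 r * eiᵀ = q.1.1 r) ∧ ei * q.1.2.1 * ej = q.1.2.1 ∧
    ej * q.1.2.2 * ei = q.1.2.2 ∧ (∀ u, π (q.1.2.1 *ᵥ u) = 0) ∧ (∀ u, π (q.1.2.2 *ᵥ u) = 0) ∧
    (∑ r, q.1.1 r * (al r)ᵀ = ∑ r, al r * q.2.1 r) ∧
    (∀ r, g * (q.1.1 r * (al r)ᵀ) * g = g * (al r * q.2.1 r) * g) ∧
    (∀ r, al r * (q.1.2.1 + (q.1.1 r)ᵀ * g) = (q.2.2.1 + (q.2.1 r)ᵀ * g) * al r) ∧
    (∀ r, (q.1.2.2 - q.1.1 r * g) * al r = al r * (q.2.2.2 - q.2.1 r * g))}
  add_mem' := by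
    rintro ⟨⟨x, b, k⟩, ⟨x', b', k'⟩⟩ ⟨⟨y, c, l⟩, ⟨y', c', l'⟩⟩ ⟨h1, h2, h3, h4, h5, h6, h7, h8, h9⟩
      ⟨i1, i2, i3, i4, i5, i6, i7, i8, i9⟩
    refine ⟨fun r => ?_, ?_, ?_, fun u => ?_, fun u => ?_, ?_, fun r => ?_, fun r => ?_,
      fun r => ?_⟩
    · show ej * (x r + y r) * eiᵀ = x r + y r
      rw [Matrix.mul_add, Matrix.add_mul]
      exact congrArg₂ _ (h1 r) (i1 r)
    · show ei * (b + c) * ej = b + c
      rw [Matrix.mul_add, Matrix.add_mul]
      exact congrArg₂ _ h2 i2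
    · show ej * (k + l) * ei = k + l
      rw [Matrix.mul_add, Matrix.add_mul]
      exact congrArg₂ _ h3 i3
    · show π ((b + c) *ᵥ u) = 0
      rw [Matrix.add_mulVec, map_add]
      have e1 : π (b *ᵥ u) = 0 := h4 u
      have e2 : π (c *ᵥ u) = 0 := i4 u
      rw [e1, e2, add_zero]
    · show π ((k + l) *ᵥ u) = 0
      rw [Matrix.add_mulVec, map_add]
      have e1 : π (k *ᵥ u) = 0 := h5 u
      have e2 : π (l *ᵥ u) = 0 := i5 u
      rw [e1, e2, add_zero]
    · show ∑ r, (x r + y r) * (al r)ᵀ = ∑ r, al r * (x' r + y' r)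
      simp only [Matrix.add_mul, Matrix.mul_add, Finset.sum_add_distrib]
      exact congrArg₂ _ h6 i6
    · show g * ((x r + y r) * (al r)ᵀ) * g = g * (al r * (x' r + y' r)) * g
      rw [Matrix.add_mul, Matrix.mul_add, Matrix.add_mul, Matrix.mul_add, Matrix.mul_add,
        Matrix.add_mul]
      exact congrArg₂ _ (h7 r) (i7 r)
    · show al r * ((b + c) + (x r + y r)ᵀ * g) = ((b' + c') + (x' r + y' r)ᵀ * g) * al r
      have e1 : al r * (b + (x r)ᵀ * g) = (b' + (x' r)ᵀ * g) * al r := h8 r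
      have e2 : al r * (c + (y r)ᵀ * g) = (c' + (y' r)ᵀ * g) * al r := i8 r
      have e3 : (b + c) + (x r + y r)ᵀ * g = (b + (x r)ᵀ * g) + (c + (y r)ᵀ * g) := by
        rw [transpose_add, Matrix.add_mul]; abel
      have e4 : (b' + c') + (x' r + y' r)ᵀ * g = (b' + (x' r)ᵀ * g) + (c' + (y' r)ᵀ * g) := by
        rw [transpose_add, Matrix.add_mul]; abel
      rw [e3, e4, Matrix.mul_add, Matrix.add_mul, e1, e2]
    · show ((k + l) - (x r + y r) * g) * al r = al r * ((k' + l') - (x' r + y' r) * g)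
      have e1 : (k - x r * g) * al r = al r * (k' - x' r * g) := h9 r
      have e2 : (l - y r * g) * al r = al r * (l' - y' r * g) := i9 r
      have e3 : (k + l) - (x r + y r) * g = (k - x r * g) + (l - y r * g) := by
        rw [Matrix.add_mul]; abel
      have e4 : (k' + l') - (x' r + y' r) * g = (k' - x' r * g) + (l' - y' r * g) := by
        rw [Matrix.add_mul]; abel
      rw [e3, e4, Matrix.mul_add, Matrix.add_mul, e1, e2]
  zero_mem' := by
    refine ⟨fun r => ?_, ?_, ?_, fun u => ?_, fun u => ?_, ?_, fun r => ?_, fun r => ?_,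
      fun r => ?_⟩
    · show ej * 0 * eiᵀ = 0
      simp
    · show ei * 0 * ej = 0
      simp
    · show ej * 0 * ei = 0
      simp
    · show π ((0 : Matrix n n K) *ᵥ u) = 0
      simp
    · show π ((0 : Matrix n n K) *ᵥ u) = 0
      simp
    · show ∑ r, (0 : Matrix n n K) * (al r)ᵀ = ∑ r, al r * (0 : Matrix n n K)
      simp
    · show g * ((0 : Matrix n n K) * (al r)ᵀ) * g = g * (al r * (0 : Matrix n n K)) * g
      simp
    · show al r * ((0 : Matrix n n K) + (0 : Matrix n n K)ᵀ * g) =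
        ((0 : Matrix n n K) + (0 : Matrix n n K)ᵀ * g) * al r
      simp
    · show ((0 : Matrix n n K) - (0 : Matrix n n K) * g) * al r =
        al r * ((0 : Matrix n n K) - (0 : Matrix n n K) * g)
      simp
  smul_mem' := by
    rintro a ⟨⟨x, b, k⟩, ⟨x', b', k'⟩⟩ ⟨h1, h2, h3, h4, h5, h6, h7, h8, h9⟩
    refine ⟨fun r => ?_, ?_, ?_, fun u => ?_, fun u => ?_, ?_, fun r => ?_, fun r => ?_,
      fun r => ?_⟩
    · show ej * (a • x r) * eiᵀ = a • x r
      rw [Matrix.mul_smul, Matrix.smul_mul]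
      exact congrArg _ (h1 r)
    · show ei * (a • b) * ej = a • b
      rw [Matrix.mul_smul, Matrix.smul_mul]
      exact congrArg _ h2
    · show ej * (a • k) * ei = a • k
      rw [Matrix.mul_smul, Matrix.smul_mul]
      exact congrArg _ h3
    · show π ((a • b) *ᵥ u) = 0
      have e1 : π (b *ᵥ u) = 0 := h4 u
      rw [Matrix.smul_mulVec, map_smul, e1, smul_zero]
    · show π ((a • k) *ᵥ u) = 0
      have e1 : π (k *ᵥ u) = 0 := h5 u
      rw [Matrix.smul_mulVec, map_smul, e1, smul_zero]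
    · show ∑ r, (a • x r) * (al r)ᵀ = ∑ r, al r * (a • x' r)
      simp only [Matrix.smul_mul, Matrix.mul_smul, ← Finset.smul_sum]
      exact congrArg _ h6
    · show g * ((a • x r) * (al r)ᵀ) * g = g * (al r * (a • x' r)) * g
      simp only [Matrix.smul_mul, Matrix.mul_smul]
      exact congrArg _ (h7 r)
    · show al r * ((a • b) + (a • x r)ᵀ * g) = ((a • b') + (a • x' r)ᵀ * g) * al r
      have e1 : al r * (b + (x r)ᵀ * g) = (b' + (x' r)ᵀ * g) * al r := h8 r
      simp only [transpose_smul, Matrix.smul_mul, ← smul_add, Matrix.mul_smul, e1]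
    · show ((a • k) - (a • x r) * g) * al r = al r * ((a • k') - (a • x' r) * g)
      have e1 : (k - x r * g) * al r = al r * (k' - x' r * g) := h9 r
      simp only [Matrix.smul_mul, ← smul_sub, Matrix.mul_smul, e1]

variable {g π ei ej al}

/-- `o1 P` respects the relation, `P` acting on the `i`-side -/
theorem o1_adm {P : Matrix n n K} (hal : ∀ r, P * al r = al r * P)
    (hei : ei * P = P * ei) (hg : g * P = Pᵀ * g)
    (hπ : ∀ u, π u = 0 → π (P *ᵥ u) = 0) (y z : DV n K) (h : (y, z) ∈ RR g π ei ej al) :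
    (o1 P y, o1 P z) ∈ RR g π ei ej al := by
  obtain ⟨h1, h2, h3, h4, h5, h6, h7, h8, h9⟩ := h
  obtain ⟨x, b, k⟩ := y
  obtain ⟨x', b', k'⟩ := z
  simp only at h1 h2 h3 h4 h5 h6 h7 h8 h9
  have halT : ∀ r, Pᵀ * (al r)ᵀ = (al r)ᵀ * Pᵀ := by
    intro r
    rw [← transpose_mul, ← transpose_mul, hal]
  have heT : Pᵀ * eiᵀ = eiᵀ * Pᵀ := by
    rw [← transpose_mul, ← transpose_mul, hei]
  refine ⟨fun r => ?_, ?_, ?_, fun u => ?_, fun u => ?_, ?_, fun r => ?_, fun r => ?_,
    fun r => ?_⟩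
  · show ej * (x r * Pᵀ) * eiᵀ = x r * Pᵀ
    rw [← Matrix.mul_assoc, Matrix.mul_assoc, heT, ← Matrix.mul_assoc, h1]
  · show ei * (P * b) * ej = P * b
    rw [← Matrix.mul_assoc, hei, Matrix.mul_assoc, Matrix.mul_assoc, ← Matrix.mul_assoc ei, h2]
  · show ej * (k * P) * ei = k * P
    rw [← Matrix.mul_assoc, Matrix.mul_assoc, ← hei, ← Matrix.mul_assoc, h3]
  · show π ((P * b) *ᵥ u) = 0
    rw [← Matrix.mulVec_mulVec]
    exact hπ _ (h4 u)
  · show π ((k * P) *ᵥ u) = 0
    rw [← Matrix.mulVec_mulVec]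
    exact h5 _
  · show ∑ r, (x r * Pᵀ) * (al r)ᵀ = ∑ r, al r * (x' r * Pᵀ)
    have e1 : ∀ r, (x r * Pᵀ) * (al r)ᵀ = x r * (al r)ᵀ * Pᵀ := fun r => by
      rw [Matrix.mul_assoc, halT, ← Matrix.mul_assoc]
    have e2 : ∀ r, al r * (x' r * Pᵀ) = al r * x' r * Pᵀ := fun r => (Matrix.mul_assoc _ _ _).symm
    simp only [e1, e2]
    rw [← Matrix.sum_mul, ← Matrix.sum_mul, h6]
  · show g * ((x r * Pᵀ) * (al r)ᵀ) * g = g * (al r * (x' r * Pᵀ)) * g
    have e1 : (x r * Pᵀ) * (al r)ᵀ = x r * (al r)ᵀ * Pᵀ := by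
      rw [Matrix.mul_assoc, halT, ← Matrix.mul_assoc]
    have e2 : al r * (x' r * Pᵀ) = al r * x' r * Pᵀ := (Matrix.mul_assoc _ _ _).symm
    have e3 : ∀ Z : Matrix n n K, g * (Z * Pᵀ) * g = (g * Z * g) * P := fun Z => by
      rw [← Matrix.mul_assoc g, Matrix.mul_assoc _ Pᵀ g, ← hg, ← Matrix.mul_assoc]
    rw [e1, e2, e3, e3, h7]
  · show al r * (P * b + (x r * Pᵀ)ᵀ * g) = (P * b' + (x' r * Pᵀ)ᵀ * g) * al r
    rw [transpose_mul, transpose_mul, transpose_transpose, Matrix.mul_assoc P, Matrix.mul_assoc P,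
      ← Matrix.mul_add, ← Matrix.mul_add, ← Matrix.mul_assoc, ← hal, Matrix.mul_assoc, h8,
      Matrix.mul_assoc P]
  · show (k * P - x r * Pᵀ * g) * al r = al r * (k' * P - x' r * Pᵀ * g)
    rw [Matrix.mul_assoc (x r), Matrix.mul_assoc (x' r), ← hg, ← Matrix.mul_assoc,
      ← Matrix.mul_assoc, ← Matrix.sub_mul, ← Matrix.sub_mul, Matrix.mul_assoc, hal,
      ← Matrix.mul_assoc, h9, ← Matrix.mul_assoc]

/-- `o2 P` respects the relation, `P` acting on the `j`-side -/
theorem o2_adm {P : Matrix n n K} (hal : ∀ r, P * al r = al r * P)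
    (hej : ej * P = P * ej) (hg : g * P = Pᵀ * g)
    (hπ : ∀ u, π u = 0 → π (P *ᵥ u) = 0) (y z : DV n K) (h : (y, z) ∈ RR g π ei ej al) :
    (o2 P y, o2 P z) ∈ RR g π ei ej al := by
  obtain ⟨h1, h2, h3, h4, h5, h6, h7, h8, h9⟩ := h
  obtain ⟨x, b, k⟩ := y
  obtain ⟨x', b', k'⟩ := z
  simp only at h1 h2 h3 h4 h5 h6 h7 h8 h9
  refine ⟨fun r => ?_, ?_, ?_, fun u => ?_, fun u => ?_, ?_, fun r => ?_, fun r => ?_,
    fun r => ?_⟩
  · show ej * (P * x r) * eiᵀ = P * x r
    rw [← Matrix.mul_assoc, hej, Matrix.mul_assoc, Matrix.mul_assoc, ← Matrix.mul_assoc ej, h1]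
  · show ei * (b * P) * ej = b * P
    rw [← Matrix.mul_assoc, Matrix.mul_assoc, ← hej, ← Matrix.mul_assoc, h2]
  · show ej * (P * k) * ei = P * k
    rw [← Matrix.mul_assoc, hej, Matrix.mul_assoc, Matrix.mul_assoc, ← Matrix.mul_assoc ej, h3]
  · show π ((b * P) *ᵥ u) = 0
    rw [← Matrix.mulVec_mulVec]
    exact h4 _
  · show π ((P * k) *ᵥ u) = 0
    rw [← Matrix.mulVec_mulVec]
    exact hπ _ (h5 u)
  · show ∑ r, (P * x r) * (al r)ᵀ = ∑ r, al r * (P * x' r)
    have e1 : ∀ r, (P * x r) * (al r)ᵀ = P * (x r * (al r)ᵀ) := fun r => Matrix.mul_assoc _ _ _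
    have e2 : ∀ r, al r * (P * x' r) = P * (al r * x' r) := fun r => by
      rw [← Matrix.mul_assoc, ← hal, Matrix.mul_assoc]
    simp only [e1, e2]
    rw [← Matrix.mul_sum, ← Matrix.mul_sum, h6]
  · show g * ((P * x r) * (al r)ᵀ) * g = g * (al r * (P * x' r)) * g
    have e1 : g * ((P * x r) * (al r)ᵀ) * g = Pᵀ * (g * (x r * (al r)ᵀ) * g) := by
      rw [Matrix.mul_assoc P, ← Matrix.mul_assoc g, hg]
      simp only [Matrix.mul_assoc]
    have e2 : g * (al r * (P * x' r)) * g = Pᵀ * (g * (al r * x' r) * g) := by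
      rw [← Matrix.mul_assoc (al r), ← hal, Matrix.mul_assoc P, ← Matrix.mul_assoc g, hg]
      simp only [Matrix.mul_assoc]
    rw [e1, e2, h7]
  · show al r * (b * P + (P * x r)ᵀ * g) = (b' * P + (P * x' r)ᵀ * g) * al r
    have e1 : al r * (b * P + (P * x r)ᵀ * g) = (al r * (b + (x r)ᵀ * g)) * P := by
      rw [transpose_mul, Matrix.mul_assoc, ← hg, Matrix.mul_assoc, Matrix.add_mul,
        Matrix.mul_assoc (x r)ᵀ]
    have e2 : (b' * P + (P * x' r)ᵀ * g) * al r = ((b' + (x' r)ᵀ * g) * al r) * P := by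
      rw [transpose_mul, Matrix.mul_assoc, ← hg, Matrix.mul_assoc _ (al r) P, ← hal,
        ← Matrix.mul_assoc _ P (al r), Matrix.add_mul _ _ P, Matrix.mul_assoc (x' r)ᵀ]
    rw [e1, e2, h8]
  · show (P * k - P * x r * g) * al r = al r * (P * k' - P * x' r * g)
    have e1 : (P * k - P * x r * g) * al r = P * ((k - x r * g) * al r) := by
      rw [Matrix.mul_assoc P, ← Matrix.mul_sub, Matrix.mul_assoc]
    have e2 : al r * (P * k' - P * x' r * g) = P * (al r * (k' - x' r * g)) := by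
      rw [Matrix.mul_assoc P, ← Matrix.mul_sub, ← Matrix.mul_assoc, ← hal, Matrix.mul_assoc]
    rw [e1, e2, h9]

end data

/-- exact decorated families for the operators `P r`, `Q r` (the fields of `RD.Dec`) -/
structure DecM (g : Matrix n n K) (π : (n → K) →ₗ[K] M) (ei ej : Matrix n n K)
    (P Q : Fin 3 → Matrix n n K) (x : Fin 3 → Matrix n n K) (b kk : Matrix n n K) : Prop where
  bx : ∀ r, ej * x r * eiᵀ = x r
  bb : ei * b * ej = b
  bk : ej * kk * ei = kk
  rb : ∀ u, π (b *ᵥ u) = 0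
  rk : ∀ u, π (kk *ᵥ u) = 0
  sum : ∑ r, (x r * (P r)ᵀ - Q r * x r) = 0
  arm : ∀ r, g * (x r * (P r)ᵀ - Q r * x r) * g = 0
  eb : ∀ r, P r * (b + (x r)ᵀ * g) = (b + (x r)ᵀ * g) * Q r
  ek : ∀ r, (kk - x r * g) * P r = Q r * (kk - x r * g)

/-- the target of the brackets -/
abbrev Y3 (n K : Type*) := (Fin 3 → Matrix n n K) × Matrix n n K × (Fin 3 → Matrix n n K)

def brk (al : Fin 3 → Matrix n n K) : DV n K →ₗ[K] Y3 n K where
  toFun X := (X.1, -X.2.1, fun r => X.2.2 * al r)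
  map_add' X Y := by
    refine Prod.ext rfl (Prod.ext ?_ (funext fun r => ?_))
    · show -(X.2.1 + Y.2.1) = -X.2.1 + -Y.2.1
      abel
    · show (X.2.2 + Y.2.2) * al r = X.2.2 * al r + Y.2.2 * al r
      exact Matrix.add_mul _ _ _
  map_smul' c X := by
    refine Prod.ext rfl (Prod.ext ?_ (funext fun r => ?_))
    · show -(c • X.2.1) = c • -X.2.1
      rw [smul_neg]
    · show (c • X.2.2) * al r = c • (X.2.2 * al r)
      exact Matrix.smul_mul _ _ _

def brk' (al : Fin 3 → Matrix n n K) : DV n K →ₗ[K] Y3 n K where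
  toFun X := (fun r => (X.1 r)ᵀ, X.2.2, fun r => -(X.2.1 * al r))
  map_add' X Y := by
    refine Prod.ext (funext fun r => ?_) (Prod.ext rfl (funext fun r => ?_))
    · show (X.1 r + Y.1 r)ᵀ = (X.1 r)ᵀ + (Y.1 r)ᵀ
      exact transpose_add _ _
    · show -((X.2.1 + Y.2.1) * al r) = -(X.2.1 * al r) + -(Y.2.1 * al r)
      rw [Matrix.add_mul]; abel
  map_smul' c X := by
    refine Prod.ext (funext fun r => ?_) (Prod.ext rfl (funext fun r => ?_))
    · show (c • X.1 r)ᵀ = c • (X.1 r)ᵀ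
      exact transpose_smul _ _
    · show -((c • X.2.1) * al r) = c • -(X.2.1 * al r)
      rw [Matrix.smul_mul, smul_neg]

/-- projection to the block -/
def pr (ei ej : Matrix n n K) : End K (DV n K) where
  toFun X := (fun r => ej * X.1 r * eiᵀ, ei * X.2.1 * ej, ej * X.2.2 * ei)
  map_add' X Y := by
    refine Prod.ext (funext fun r => ?_) (Prod.ext ?_ ?_)
    · show ej * (X.1 r + Y.1 r) * eiᵀ = ej * X.1 r * eiᵀ + ej * Y.1 r * eiᵀ
      rw [Matrix.mul_add, Matrix.add_mul]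
    · show ei * (X.2.1 + Y.2.1) * ej = ei * X.2.1 * ej + ei * Y.2.1 * ej
      rw [Matrix.mul_add, Matrix.add_mul]
    · show ej * (X.2.2 + Y.2.2) * ei = ej * X.2.2 * ei + ej * Y.2.2 * ei
      rw [Matrix.mul_add, Matrix.add_mul]
  map_smul' c X := by
    refine Prod.ext (funext fun r => ?_) (Prod.ext ?_ ?_)
    · show ej * (c • X.1 r) * eiᵀ = c • (ej * X.1 r * eiᵀ)
      rw [Matrix.mul_smul, Matrix.smul_mul]
    · show ei * (c • X.2.1) * ej = c • (ei * X.2.1 * ej)
      rw [Matrix.mul_smul, Matrix.smul_mul]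
    · show ej * (c • X.2.2) * ei = c • (ej * X.2.2 * ei)
      rw [Matrix.mul_smul, Matrix.smul_mul]

theorem pr_apply (ei ej : Matrix n n K) (X : DV n K) : pr ei ej X =
    (fun r => ej * X.1 r * eiᵀ, ei * X.2.1 * ej, ej * X.2.2 * ei) := rfl

theorem o1_lin (tau : Matrix n n K) (t : K) (X : DV n K) :
    o1 (1 + t • tau) X = X + t • o1 tau X := by
  rw [o1_apply, o1_apply]
  refine Prod.ext (funext fun r => ?_) (Prod.ext ?_ ?_)
  · show X.1 r * (1 + t • tau)ᵀ = X.1 r + t • (X.1 r * tauᵀ)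
    rw [transpose_add, transpose_one, transpose_smul, Matrix.mul_add, Matrix.mul_one,
      Matrix.mul_smul]
  · show (1 + t • tau) * X.2.1 = X.2.1 + t • (tau * X.2.1)
    rw [Matrix.add_mul, Matrix.one_mul, Matrix.smul_mul]
  · show X.2.2 * (1 + t • tau) = X.2.2 + t • (X.2.2 * tau)
    rw [Matrix.mul_add, Matrix.mul_one, Matrix.mul_smul]

theorem o2_lin (tau : Matrix n n K) (t : K) (X : DV n K) :
    o2 (1 + t • tau) X = X + t • o2 tau X := by
  rw [o2_apply, o2_apply]
  refine Prod.ext (funext fun r => ?_) (Prod.ext ?_ ?_)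
  · show (1 + t • tau) * X.1 r = X.1 r + t • (tau * X.1 r)
    rw [Matrix.add_mul, Matrix.one_mul, Matrix.smul_mul]
  · show X.2.1 * (1 + t • tau) = X.2.1 + t • (X.2.1 * tau)
    rw [Matrix.mul_add, Matrix.mul_one, Matrix.mul_smul]
  · show (1 + t • tau) * X.2.2 = X.2.2 + t • (tau * X.2.2)
    rw [Matrix.add_mul, Matrix.one_mul, Matrix.smul_mul]

section bas

variable {ei ej tau : Matrix n n K}

theorem o1_bas (ii : ei * ei = ei) (hei : ei * tau = tau * ei) (li : K) {X : DV n K}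
    (hX : pr ei ej X = X) : o1 ((tau - li • (1 : Matrix n n K)) * ei) X = o1 tau X - li • X := by
  have h1 : ∀ r, ej * X.1 r * eiᵀ = X.1 r := fun r => congrFun (congrArg Prod.fst hX) r
  have h2 : ei * X.2.1 * ej = X.2.1 := congrArg (fun w => w.2.1) hX
  have h3 : ej * X.2.2 * ei = X.2.2 := congrArg (fun w => w.2.2) hX
  have k1 : ∀ r, X.1 r * eiᵀ = X.1 r := by
    intro r
    conv_lhs => rw [← h1 r]
    rw [Matrix.mul_assoc, ← transpose_mul, ii, h1]
  have k2 : ei * X.2.1 = X.2.1 := by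
    conv_lhs => rw [← h2]
    rw [← Matrix.mul_assoc, ← Matrix.mul_assoc, ii, h2]
  have k3 : X.2.2 * ei = X.2.2 := by
    conv_lhs => rw [← h3]
    rw [Matrix.mul_assoc, ii, h3]
  rw [o1_apply, o1_apply]
  refine Prod.ext (funext fun r => ?_) (Prod.ext ?_ ?_)
  · show X.1 r * ((tau - li • (1 : Matrix n n K)) * ei)ᵀ = X.1 r * tauᵀ - li • X.1 r
    rw [transpose_mul, ← Matrix.mul_assoc, k1, transpose_sub, transpose_smul, transpose_one,
      Matrix.mul_sub, Matrix.mul_smul, Matrix.mul_one]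
  · show (tau - li • (1 : Matrix n n K)) * ei * X.2.1 = tau * X.2.1 - li • X.2.1
    rw [Matrix.mul_assoc, k2, Matrix.sub_mul, Matrix.smul_mul, Matrix.one_mul]
  · show X.2.2 * ((tau - li • (1 : Matrix n n K)) * ei) = X.2.2 * tau - li • X.2.2
    rw [Matrix.sub_mul, Matrix.smul_mul, Matrix.one_mul, ← hei, Matrix.mul_sub, Matrix.mul_smul,
      ← Matrix.mul_assoc, k3]

theorem o2_bas (jj : ej * ej = ej) (hej : ej * tau = tau * ej) (lj : K) {X : DV n K}
    (hX : pr ei ej X = X) : o2 ((tau - lj • (1 : Matrix n n K)) * ej) X = o2 tau X - lj • X := by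
  have h1 : ∀ r, ej * X.1 r * eiᵀ = X.1 r := fun r => congrFun (congrArg Prod.fst hX) r
  have h2 : ei * X.2.1 * ej = X.2.1 := congrArg (fun w => w.2.1) hX
  have h3 : ej * X.2.2 * ei = X.2.2 := congrArg (fun w => w.2.2) hX
  have k1 : ∀ r, ej * X.1 r = X.1 r := by
    intro r
    conv_lhs => rw [← h1 r]
    rw [← Matrix.mul_assoc, ← Matrix.mul_assoc, jj, h1]
  have k2 : X.2.1 * ej = X.2.1 := by
    conv_lhs => rw [← h2]
    rw [Matrix.mul_assoc, jj, h2]
  have k3 : ej * X.2.2 = X.2.2 := by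
    conv_lhs => rw [← h3]
    rw [← Matrix.mul_assoc, ← Matrix.mul_assoc, jj, h3]
  rw [o2_apply, o2_apply]
  refine Prod.ext (funext fun r => ?_) (Prod.ext ?_ ?_)
  · show (tau - lj • (1 : Matrix n n K)) * ej * X.1 r = tau * X.1 r - lj • X.1 r
    rw [Matrix.mul_assoc, k1, Matrix.sub_mul, Matrix.smul_mul, Matrix.one_mul]
  · show X.2.1 * ((tau - lj • (1 : Matrix n n K)) * ej) = X.2.1 * tau - lj • X.2.1
    rw [Matrix.sub_mul, Matrix.smul_mul, Matrix.one_mul, ← hej, Matrix.mul_sub, Matrix.mul_smul,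
      ← Matrix.mul_assoc, k2]
  · show (tau - lj • (1 : Matrix n n K)) * ej * X.2.2 = tau * X.2.2 - lj • X.2.2
    rw [Matrix.mul_assoc, k3, Matrix.sub_mul, Matrix.smul_mul, Matrix.one_mul]

theorem pr_o1 {P : Matrix n n K} (h : ei * P = P * ei) (X : DV n K) :
    pr ei ej (o1 P X) = o1 P (pr ei ej X) := by
  have hT : Pᵀ * eiᵀ = eiᵀ * Pᵀ := by rw [← transpose_mul, ← transpose_mul, h]
  rw [pr_apply, o1_apply, o1_apply, pr_apply]
  refine Prod.ext (funext fun r => ?_) (Prod.ext ?_ ?_)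
  · show ej * (X.1 r * Pᵀ) * eiᵀ = ej * X.1 r * eiᵀ * Pᵀ
    simp only [Matrix.mul_assoc, hT]
  · show ei * (P * X.2.1) * ej = P * (ei * X.2.1 * ej)
    rw [← Matrix.mul_assoc, h]
    simp only [Matrix.mul_assoc]
  · show ej * (X.2.2 * P) * ei = ej * X.2.2 * ei * P
    simp only [Matrix.mul_assoc, h]

theorem pr_o2 {P : Matrix n n K} (h : ej * P = P * ej) (X : DV n K) :
    pr ei ej (o2 P X) = o2 P (pr ei ej X) := by
  rw [pr_apply, o2_apply, o2_apply, pr_apply]
  refine Prod.ext (funext fun r => ?_) (Prod.ext ?_ ?_)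
  · show ej * (P * X.1 r) * eiᵀ = P * (ej * X.1 r * eiᵀ)
    rw [← Matrix.mul_assoc, h]
    simp only [Matrix.mul_assoc]
  · show ei * (X.2.1 * P) * ej = ei * X.2.1 * ej * P
    simp only [Matrix.mul_assoc, h]
  · show ej * (P * X.2.2) * ei = P * (ej * X.2.2 * ei)
    rw [← Matrix.mul_assoc, h]
    simp only [Matrix.mul_assoc]

end bas

/-- exactness at `kap` from the relation -/
theorem decM_of {g : Matrix n n K} {π : (n → K) →ₗ[K] M} {ei ej : Matrix n n K}
    {al : Fin 3 → Matrix n n K} {kap kai : Matrix n n K} (hk : kap * kai = 1)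
    (hal : ∀ r, kap * al r = al r * kap) (hg : g * kap = kapᵀ * g)
    (hπ : ∀ u, π u = 0 → π (kap *ᵥ u) = 0) {Z : DV n K} (hZ : pr ei ej Z = Z)
    (h : (o1 kap (o1 kap Z), o2 kap (o2 kap Z)) ∈ RR g π ei ej al) :
    DecM g π ei ej (fun r => al r * (kap * kap)) (fun r => al r * (kap * kap)) Z.1 Z.2.1 Z.2.2 := by
  obtain ⟨x, b, k⟩ := Z
  obtain ⟨_, _, _, h4, h5, h6, h7, h8, h9⟩ := h
  have e1 : ∀ r, x r * (al r * (kap * kap))ᵀ = x r * kapᵀ * kapᵀ * (al r)ᵀ := by
    intro r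
    rw [transpose_mul, transpose_mul]
    simp only [Matrix.mul_assoc]
  have e2 : ∀ r, al r * (kap * kap) * x r = al r * (kap * (kap * x r)) := by
    intro r
    simp only [Matrix.mul_assoc]
  have hk' : kai * kap = 1 := mul_eq_one_comm.1 hk
  refine ⟨fun r => congrFun (congrArg Prod.fst hZ) r, congrArg (fun w => w.2.1) hZ,
    congrArg (fun w => w.2.2) hZ, fun u => ?_, fun u => ?_, ?_, fun r => ?_, fun r => ?_,
    fun r => ?_⟩
  · have hinj : Function.Injective (toLin' kap) := by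
      intro v w hvw
      have h1 := congrArg (fun y => kai *ᵥ y) (show kap *ᵥ v = kap *ᵥ w from hvw)
      simpa only [Matrix.mulVec_mulVec, hk', Matrix.one_mulVec] using h1
    have hR : ∀ r ∈ LinearMap.ker π, toLin' kap r ∈ LinearMap.ker π := fun r hr => hπ r hr
    have h10 : π ((kap * (kap * b)) *ᵥ u) = 0 := h4 u
    rw [← Matrix.mulVec_mulVec, ← Matrix.mulVec_mulVec] at h10
    have h11 : toLin' kap (toLin' kap (b *ᵥ u)) ∈ LinearMap.ker π := h10
    exact mem_of_map hinj hR (mem_of_map hinj hR h11)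
  · have h10 : π ((k * kap * kap) *ᵥ ((kai * kai) *ᵥ u)) = 0 := h5 _
    rw [Matrix.mulVec_mulVec] at h10
    have e3 : k * kap * kap * (kai * kai) = k := by
      rw [Matrix.mul_assoc (k * kap), ← Matrix.mul_assoc kap kai, hk, Matrix.one_mul,
        Matrix.mul_assoc, hk, Matrix.mul_one]
    rw [e3] at h10
    exact h10
  · have h10 : ∑ r, x r * kapᵀ * kapᵀ * (al r)ᵀ = ∑ r, al r * (kap * (kap * x r)) := h6
    simp only [e1, e2]
    rw [Finset.sum_sub_distrib, h10, sub_self]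
  · have h10 : g * (x r * kapᵀ * kapᵀ * (al r)ᵀ) * g = g * (al r * (kap * (kap * x r))) * g := h7 r
    simp only [e1, e2]
    rw [Matrix.mul_sub, Matrix.sub_mul, h10, sub_self]
  · have h10 : al r * (kap * (kap * b) + (x r * kapᵀ * kapᵀ)ᵀ * g) =
      (b * kap * kap + (kap * (kap * x r))ᵀ * g) * al r := h8 r
    show al r * (kap * kap) * (b + (x r)ᵀ * g) = (b + (x r)ᵀ * g) * (al r * (kap * kap))
    have e3 : kap * (kap * b) + (x r * kapᵀ * kapᵀ)ᵀ * g = kap * kap * (b + (x r)ᵀ * g) := by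
      rw [transpose_mul, transpose_mul, transpose_transpose, Matrix.mul_add]
      simp only [Matrix.mul_assoc]
    have e4 : b * kap * kap + (kap * (kap * x r))ᵀ * g = (b + (x r)ᵀ * g) * (kap * kap) := by
      rw [transpose_mul, transpose_mul, Matrix.add_mul, Matrix.mul_assoc _ kapᵀ g, ← hg,
        Matrix.mul_assoc _ kapᵀ, ← Matrix.mul_assoc kapᵀ, ← hg]
      simp only [Matrix.mul_assoc]
    have e5 : kap * kap * al r = al r * (kap * kap) := by
      rw [Matrix.mul_assoc, hal, ← Matrix.mul_assoc, hal, Matrix.mul_assoc]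
    rw [e3, e4] at h10
    rw [Matrix.mul_assoc (al r), h10, Matrix.mul_assoc, e5]
  · have h10 : (k * kap * kap - x r * kapᵀ * kapᵀ * g) * al r =
      al r * (kap * (kap * k) - kap * (kap * x r) * g) := h9 r
    show (k - x r * g) * (al r * (kap * kap)) = al r * (kap * kap) * (k - x r * g)
    have e3 : k * kap * kap - x r * kapᵀ * kapᵀ * g = (k - x r * g) * (kap * kap) := by
      rw [Matrix.mul_assoc _ kapᵀ g, ← hg, Matrix.mul_assoc _ kapᵀ, ← Matrix.mul_assoc kapᵀ, ← hg,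
        Matrix.sub_mul]
      simp only [Matrix.mul_assoc]
    have e4 : kap * (kap * k) - kap * (kap * x r) * g = kap * kap * (k - x r * g) := by
      rw [Matrix.mul_sub]
      simp only [Matrix.mul_assoc]
    have e5 : kap * kap * al r = al r * (kap * kap) := by
      rw [Matrix.mul_assoc, hal, ← Matrix.mul_assoc, hal, Matrix.mul_assoc]
    rw [e3, e4] at h10
    rw [Matrix.mul_assoc (al r), ← h10, Matrix.mul_assoc, e5]

/-- the bracket of `first` for `Z = c₁ c₂ X` -/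
theorem bracket_eq (al : Fin 3 → Matrix n n K) {tau kap kai : Matrix n n K} {t : K}
    (hkap : kap = 1 + t • tau) (hk : kap * kai = 1) (X : DV n K) :
    (((fun r => kai * (kap * (X.1 r * kapᵀ) - (kap * (X.1 r * kapᵀ))ᵀ) * kapᵀ -
        (kap * (X.1 r * kapᵀ) - (kap * (X.1 r * kapᵀ))ᵀ)),
      (kap * (X.2.1 * kap) - kap * (kap * (X.2.1 * kap)) * kai) +
        (kap * X.2.2 * kap - kap * (kap * X.2.2 * kap) * kai),
      (fun r => (kai * (kap * (X.2.1 * kap)) * kap - kap * (X.2.1 * kap)) * al r +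
        (kai * (kap * X.2.2 * kap) * kap - kap * X.2.2 * kap) * al r)) : Y3 n K) =
    t • (brk al ((o1 tau - o2 tau) (o1 kap X)) + brk' al ((o1 tau - o2 tau) (o2 kap X))) := by
  have hk' : kai * kap = 1 := mul_eq_one_comm.1 hk
  have e1 : ∀ W : DV n K, t • (o1 tau - o2 tau) W = o1 kap W - o2 kap W := by
    intro W
    rw [hkap, o1_lin, o2_lin, LinearMap.sub_apply, smul_sub]
    abel
  rw [smul_add, ← LinearMap.map_smul (brk al), ← LinearMap.map_smul (brk' al), e1, e1]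
  have c1 : ∀ Y : Matrix n n K, kai * (kap * Y) = Y := fun Y => by
    rw [← Matrix.mul_assoc, hk', Matrix.one_mul]
  refine Prod.ext (funext fun r => ?_) (Prod.ext ?_ (funext fun r => ?_))
  · show kai * (kap * (X.1 r * kapᵀ) - (kap * (X.1 r * kapᵀ))ᵀ) * kapᵀ -
        (kap * (X.1 r * kapᵀ) - (kap * (X.1 r * kapᵀ))ᵀ) =
      (X.1 r * kapᵀ * kapᵀ - kap * (X.1 r * kapᵀ)) +
        (kap * X.1 r * kapᵀ - kap * (kap * X.1 r))ᵀ
    rw [transpose_mul, transpose_mul, transpose_transpose, transpose_sub, transpose_mul,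
      transpose_mul, transpose_mul, transpose_mul, transpose_transpose]
    have e2 : kai * (kap * (X.1 r * kapᵀ) - kap * (X.1 r)ᵀ * kapᵀ) =
        X.1 r * kapᵀ - (X.1 r)ᵀ * kapᵀ := by
      rw [Matrix.mul_sub, c1, Matrix.mul_assoc kap, c1]
    rw [e2, Matrix.sub_mul]
    simp only [Matrix.mul_assoc]
    abel
  · show (kap * (X.2.1 * kap) - kap * (kap * (X.2.1 * kap)) * kai) +
        (kap * X.2.2 * kap - kap * (kap * X.2.2 * kap) * kai) =
      -(kap * (kap * X.2.1) - kap * X.2.1 * kap) + (kap * X.2.2 * kap - kap * (kap * X.2.2))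
    simp only [Matrix.mul_assoc, hk, Matrix.mul_one]
    abel
  · show (kai * (kap * (X.2.1 * kap)) * kap - kap * (X.2.1 * kap)) * al r +
        (kai * (kap * X.2.2 * kap) * kap - kap * X.2.2 * kap) * al r =
      (X.2.2 * kap * kap - kap * (X.2.2 * kap)) * al r +
        -((kap * (X.2.1 * kap) - X.2.1 * kap * kap) * al r)
    rw [c1, Matrix.mul_assoc kap, c1]
    simp only [Matrix.sub_mul, Matrix.mul_assoc]
    abel

/-- **`halves`, abstract matrix form.** -/
theorem mat_halves {g : Matrix n n K} {π : (n → K) →ₗ[K] M} {ei ej tau : Matrix n n K}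
    {al : Fin 3 → Matrix n n K} {li lj : K}
    (hal : ∀ r, tau * al r = al r * tau) (hsa : g * tau = tauᵀ * g)
    (ii : ei * ei = ei) (jj : ej * ej = ej) (hei : ei * tau = tau * ei) (hej : ej * tau = tau * ej)
    (eial : ∀ r, ei * al r = al r * ei) (ejal : ∀ r, ej * al r = al r * ej)
    (hgi : eiᵀ * g = g * ei) (hgj : ejᵀ * g = g * ej)
    (hπ : ∀ u, π u = 0 → π (tau *ᵥ u) = 0) (hπi : ∀ u, π u = 0 → π (ei *ᵥ u) = 0)
    (hπj : ∀ u, π u = 0 → π (ej *ᵥ u) = 0)
    (nili : IsNilpotent ((tau - li • (1 : Matrix n n K)) * ei))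
    (nilj : IsNilpotent ((tau - lj • (1 : Matrix n n K)) * ej)) (hl : li ≠ lj)
    {𝒯 : Set K} (h𝒯 : 𝒯.Infinite) (h0 : (0 : K) ∉ 𝒯)
    (hinv : ∀ t ∈ 𝒯, ∃ kai, (1 + t • tau) * kai = 1) (Gd : Submodule K (Y3 n K))
    (hfirst : ∀ t ∈ 𝒯, ∀ kap kai : Matrix n n K, kap = 1 + t • tau → kap * kai = 1 →
      ∀ (x : Fin 3 → Matrix n n K) (b kk : Matrix n n K),
      DecM g π ei ej (fun r => al r * (kap * kap)) (fun r => al r * (kap * kap)) x b kk →
      (((fun r => kai * (x r - (x r)ᵀ) * kapᵀ - (x r - (x r)ᵀ)),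
        (b - kap * b * kai) + (kk - kap * kk * kai),
        (fun r => (kai * b * kap - b) * al r + (kai * kk * kap - kk) * al r)) : Y3 n K) ∈ Gd) :
    ∃ S : Set K, S.Finite ∧ ∀ c ∉ S, ∀ (x : Fin 3 → Matrix n n K) (b kk : Matrix n n K),
      DecM g π ei ej (fun r => al r) (fun r => c • al r) x b kk →
      ((x, -b, fun r => kk * al r) : Y3 n K) ∈ Gd ∧
      ((fun r => (x r)ᵀ, kk, fun r => -(b * al r)) : Y3 n K) ∈ Gd := by
  classical
  set Ni : Matrix n n K := (tau - li • (1 : Matrix n n K)) * ei with hNi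
  set Nj : Matrix n n K := (tau - lj • (1 : Matrix n n K)) * ej with hNj
  have hπa : ∀ (e : Matrix n n K) (l : K), (∀ u, π u = 0 → π (e *ᵥ u) = 0) → ∀ u, π u = 0 →
      π (((tau - l • (1 : Matrix n n K)) * e) *ᵥ u) = 0 := by
    intro e l he u hu
    rw [← Matrix.mulVec_mulVec, Matrix.sub_mulVec, map_sub, Matrix.smul_mulVec, Matrix.one_mulVec,
      map_smul, hπ _ (he u hu), he u hu, smul_zero, sub_zero]
  have hNal : ∀ (e : Matrix n n K) (l : K), (∀ r, e * al r = al r * e) → ∀ r,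
      ((tau - l • (1 : Matrix n n K)) * e) * al r = al r * ((tau - l • (1 : Matrix n n K)) * e) := by
    intro e l he r
    rw [Matrix.mul_assoc, he, ← Matrix.mul_assoc, Matrix.sub_mul, hal, Matrix.smul_mul,
      Matrix.one_mul, ← Matrix.mul_assoc, Matrix.mul_sub, Matrix.mul_smul, Matrix.mul_one]
  have hNe : ∀ (e : Matrix n n K) (l : K), e * tau = tau * e → e * e = e →
      e * ((tau - l • (1 : Matrix n n K)) * e) = ((tau - l • (1 : Matrix n n K)) * e) * e := by
    intro e l he hee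
    rw [← Matrix.mul_assoc, Matrix.mul_sub, he, Matrix.mul_smul, Matrix.mul_one, Matrix.sub_mul,
      Matrix.sub_mul, Matrix.smul_mul, Matrix.smul_mul, Matrix.one_mul, Matrix.sub_mul,
      Matrix.smul_mul]
  have hNg : ∀ (e : Matrix n n K) (l : K), e * tau = tau * e → eᵀ * g = g * e →
      g * ((tau - l • (1 : Matrix n n K)) * e) = ((tau - l • (1 : Matrix n n K)) * e)ᵀ * g := by
    intro e l he hge
    have h1 : (tau - l • (1 : Matrix n n K)) * e = e * (tau - l • (1 : Matrix n n K)) := by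
      rw [Matrix.sub_mul, Matrix.mul_sub, he, Matrix.smul_mul, Matrix.mul_smul, Matrix.one_mul,
        Matrix.mul_one]
    rw [h1, transpose_mul, Matrix.mul_assoc _ eᵀ g, hge, ← Matrix.mul_assoc, ← Matrix.mul_assoc,
      transpose_sub, transpose_smul, transpose_one, Matrix.sub_mul _ _ g, ← hsa, Matrix.smul_mul,
      Matrix.one_mul, Matrix.sub_mul, Matrix.mul_sub, Matrix.mul_smul, Matrix.mul_one,
      Matrix.mul_assoc g tau e, ← he, Matrix.mul_assoc g e tau, Matrix.smul_mul]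
  have ad1 := o1_adm (π := π) (ei := ei) (ej := ej) (hNal ei li eial) (hNe ei li hei ii)
    (hNg ei li hei hgi) (hπa ei li hπi)
  have ad2 := o2_adm (π := π) (ei := ei) (ej := ej) (hNal ej lj ejal) (hNe ej lj hej jj)
    (hNg ej lj hej hgj) (hπa ej lj hπj)
  rw [← hNi] at ad1
  rw [← hNj] at ad2
  let c1 : K → End K (DV n K) := fun t => (1 + t * li) • 1 + t • o1 Ni
  let c2 : K → End K (DV n K) := fun t => (1 + t * lj) • 1 + t • o2 Nj
  have hc1 : ∀ t x, c1 t x = (1 + t * li) • x + t • o1 Ni x := fun t x => rfl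
  have hc2 : ∀ t x, c2 t x = (1 + t * lj) • x + t • o2 Nj x := fun t x => rfl
  have hfin1 : ∀ la : K, {t : K | 1 + t * la = 0}.Finite := by
    intro la
    refine Set.Subsingleton.finite fun s hs t ht => ?_
    have hs' : 1 + s * la = 0 := hs
    have ht' : 1 + t * la = 0 := ht
    have hla0 : la ≠ 0 := by
      rintro rfl
      rw [mul_zero, add_zero] at hs'
      exact one_ne_zero hs'
    exact mul_right_cancel₀ hla0 (by linear_combination hs' - ht')
  have h𝒯' : (𝒯 \ {t | 1 + t * li = 0}).Infinite := h𝒯.sdiff (hfin1 li)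
  obtain ⟨S, hS, hT⟩ := transferR (RR g π ei ej al) (a := o2 Nj) (b := o1 Ni) (o21_comm Nj Ni)
    (o2_nil nilj) (o1_nil nili) ad2 ad1 hl h𝒯' c1 c2 hc1 hc2
  refine ⟨S, hS, fun c hc x b kk hx => ?_⟩
  -- the space of brackets
  let f0 : End K (DV n K) := o1 tau - o2 tau
  let f1 : End K (DV n K) := (li - lj) • 1 + (1 : K) • (o1 Ni - o2 Nj)
  have hf1x : ∀ X, f1 X = (li - lj) • X + (1 : K) • (o1 Ni - o2 Nj) X := fun X => rfl
  have hf1 : ∀ X, pr ei ej X = X → f1 X = f0 X := by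
    intro X hX
    rw [hf1x, one_smul, LinearMap.sub_apply, hNi, hNj, o1_bas ii hei li hX, o2_bas jj hej lj hX,
      sub_smul]
    show _ = o1 tau X - o2 tau X
    abel
  have hprf : ∀ X, pr ei ej X = X → pr ei ej (f0 X) = f0 X := by
    intro X hX
    show pr ei ej (o1 tau X - o2 tau X) = o1 tau X - o2 tau X
    rw [map_sub, pr_o1 hei, pr_o2 hej, hX]
  let Ψ : (DV n K × DV n K) →ₗ[K] Y3 n K :=
    (brk al ∘ₗ f0).coprod (brk' al ∘ₗ f0)
  have hΨ : ∀ X Y, Ψ (X, Y) = brk al (f0 X) + brk' al (f0 Y) := fun X Y =>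
    LinearMap.coprod_apply _ _ _
  -- the operator level
  have hM : ∀ t ∈ 𝒯 \ {t | 1 + t * li = 0}, ∀ X,
      (c1 t (c1 t X), c2 t (c2 t X)) ∈ RR g π ei ej al → (c1 t X, c2 t X) ∈ Gd.comap Ψ := by
    rintro t ⟨ht, ht1⟩ X hX
    have ht1' : 1 + t * li ≠ 0 := ht1
    have ht0 : t ≠ 0 := fun h => h0 (h ▸ ht)
    obtain ⟨kai, hk⟩ := hinv t ht
    set kap : Matrix n n K := 1 + t • tau with hkap
    have hinj : Function.Injective (c1 t) := inj_of (o1_nil nili) ht1' (hc1 t)
    have heiN : ei * Ni = Ni * ei := hNe ei li hei ii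
    have hprc1 : ∀ X, pr ei ej (c1 t X) = c1 t (pr ei ej X) := by
      intro X
      rw [hc1, hc1, map_add, map_smul, map_smul, pr_o1 heiN]
    have hX0 : pr ei ej X = X := by
      apply hinj
      apply hinj
      rw [← hprc1, ← hprc1]
      obtain ⟨h1, h2, h3, _⟩ := hX
      exact Prod.ext (funext fun r => h1 r) (Prod.ext h2 h3)
    have hc1b : ∀ X, pr ei ej X = X → c1 t X = o1 kap X := by
      intro X hX
      rw [hc1, hNi, o1_bas ii hei li hX, hkap, o1_lin, smul_sub, add_smul, one_smul, smul_smul]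
      abel
    have hc2b : ∀ X, pr ei ej X = X → c2 t X = o2 kap X := by
      intro X hX
      rw [hc2, hNj, o2_bas jj hej lj hX, hkap, o2_lin, smul_sub, add_smul, one_smul, smul_smul]
      abel
    have heik : ei * kap = kap * ei := by
      rw [hkap, Matrix.mul_add, Matrix.add_mul, Matrix.mul_one, Matrix.one_mul, Matrix.mul_smul,
        Matrix.smul_mul, hei]
    have hejk : ej * kap = kap * ej := by
      rw [hkap, Matrix.mul_add, Matrix.add_mul, Matrix.mul_one, Matrix.one_mul, Matrix.mul_smul,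
        Matrix.smul_mul, hej]
    have hb1 : ∀ X, pr ei ej X = X → pr ei ej (o1 kap X) = o1 kap X := by
      intro X hX
      rw [pr_o1 heik, hX]
    have hb2 : ∀ X, pr ei ej X = X → pr ei ej (o2 kap X) = o2 kap X := by
      intro X hX
      rw [pr_o2 hejk, hX]
    have hcomm : ∀ X, c1 t (c2 t X) = c2 t (c1 t X) := by
      intro X
      have h1 : o2 Nj (o1 Ni X) = o1 Ni (o2 Nj X) := LinearMap.congr_fun (o21_comm Nj Ni) X
      simp only [hc1, hc2, map_add, map_smul, smul_add, h1, smul_smul]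
      rw [mul_comm (1 + t * li) (1 + t * lj), mul_comm (1 + t * li) t, mul_comm t (1 + t * lj)]
      abel
    have hst1 : ∀ y z, (y, z) ∈ RR g π ei ej al → (c1 t y, c1 t z) ∈ RR g π ei ej al := by
      intro y z h
      have h1 := (RR g π ei ej al).add_mem ((RR g π ei ej al).smul_mem (1 + t * li) h)
        ((RR g π ei ej al).smul_mem t (ad1 y z h))
      exact h1
    have hst2 : ∀ y z, (y, z) ∈ RR g π ei ej al → (c2 t y, c2 t z) ∈ RR g π ei ej al := by
      intro y z h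
      have h1 := (RR g π ei ej al).add_mem ((RR g π ei ej al).smul_mem (1 + t * lj) h)
        ((RR g π ei ej al).smul_mem t (ad2 y z h))
      exact h1
    set Z : DV n K := c2 t (c1 t X) with hZ
    have hZR : (c1 t (c1 t Z), c2 t (c2 t Z)) ∈ RR g π ei ej al := by
      have h1 := hst2 _ _ (hst1 _ _ hX)
      have e1 : c1 t (c1 t Z) = c2 t (c1 t (c1 t (c1 t X))) := by
        rw [hZ, hcomm, hcomm]
      have e2 : c2 t (c2 t Z) = c2 t (c1 t (c2 t (c2 t X))) := by
        rw [hZ, hcomm, hcomm]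
      rw [e1, e2]
      exact h1
    have hZ2 : Z = o2 kap (o1 kap X) := by
      rw [hZ, hc1b X hX0, hc2b _ (hb1 X hX0)]
    have hZ0 : pr ei ej Z = Z := by
      rw [hZ2]
      exact hb2 _ (hb1 X hX0)
    have hZR' : (o1 kap (o1 kap Z), o2 kap (o2 kap Z)) ∈ RR g π ei ej al := by
      rw [← hc1b Z hZ0, ← hc1b _ (by rw [hc1b Z hZ0]; exact hb1 Z hZ0), ← hc2b Z hZ0,
        ← hc2b _ (by rw [hc2b Z hZ0]; exact hb2 Z hZ0)]
      exact hZR
    have hkal : ∀ r, kap * al r = al r * kap := by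
      intro r
      rw [hkap, Matrix.mul_add, Matrix.add_mul, Matrix.mul_one, Matrix.one_mul, Matrix.mul_smul,
        Matrix.smul_mul, hal]
    have hkg : g * kap = kapᵀ * g := by
      rw [hkap, Matrix.mul_add, Matrix.mul_one, Matrix.mul_smul, hsa, transpose_add,
        transpose_one, transpose_smul, Matrix.add_mul, Matrix.one_mul, Matrix.smul_mul]
    have hkπ : ∀ u, π u = 0 → π (kap *ᵥ u) = 0 := by
      intro u hu
      rw [hkap, Matrix.add_mulVec, Matrix.one_mulVec, Matrix.smul_mulVec, map_add, map_smul, hu,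
        hπ u hu, smul_zero, add_zero]
    have hdec := decM_of hk hkal hkg hkπ hZ0 hZR'
    have h1 := hfirst t ht kap kai hkap hk _ _ _ hdec
    have e1 : Z.1 = fun r => kap * (X.1 r * kapᵀ) := by rw [hZ2]; rfl
    have e2 : Z.2.1 = kap * X.2.1 * kap := by rw [hZ2]; rfl
    have e3 : Z.2.2 = kap * (X.2.2 * kap) := by rw [hZ2]; rfl
    rw [e1, e2, e3] at h1
    have h2 := bracket_eq al hkap hk X
    have h3 : t • (brk al (f0 (o1 kap X)) + brk' al (f0 (o2 kap X))) ∈ Gd := by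
      rw [← h2]
      simp only [Matrix.mul_assoc] at h1 ⊢
      exact h1
    have h4 := Gd.smul_mem t⁻¹ h3
    rw [smul_smul, inv_mul_cancel₀ ht0, one_smul] at h4
    show Ψ (c1 t X, c2 t X) ∈ Gd
    rw [hΨ, hc1b X hX0, hc2b X hX0]
    exact h4
  -- the scalar level
  have hmem : ∀ X : DV n K, (X, c • X) ∈ RR g π ei ej al ↔
      DecM g π ei ej (fun r => al r) (fun r => c • al r) X.1 X.2.1 X.2.2 := by
    intro X
    obtain ⟨x, b, k⟩ := X
    constructor
    · rintro ⟨h1, h2, h3, h4, h5, h6, h7, h8, h9⟩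
      refine ⟨h1, h2, h3, h4, h5, ?_, fun r => ?_, fun r => ?_, fun r => ?_⟩
      · have h10 : ∑ r, x r * (al r)ᵀ = ∑ r, al r * (c • x r) := h6
        rw [Finset.sum_sub_distrib, h10, sub_eq_zero]
        exact Finset.sum_congr rfl fun r _ => by rw [Matrix.mul_smul, Matrix.smul_mul]
      · have h10 : g * (x r * (al r)ᵀ) * g = g * (al r * (c • x r)) * g := h7 r
        show g * (x r * (al r)ᵀ - c • al r * x r) * g = 0
        rw [Matrix.mul_sub, Matrix.sub_mul, h10, Matrix.mul_smul (al r), Matrix.smul_mul, sub_self]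
      · have h10 : al r * (b + (x r)ᵀ * g) = ((c • b) + (c • x r)ᵀ * g) * al r := h8 r
        show al r * (b + (x r)ᵀ * g) = (b + (x r)ᵀ * g) * (c • al r)
        rw [h10, transpose_smul, Matrix.smul_mul, ← smul_add, Matrix.smul_mul, Matrix.mul_smul]
      · have h10 : (k - x r * g) * al r = al r * ((c • k) - (c • x r) * g) := h9 r
        show (k - x r * g) * al r = c • al r * (k - x r * g)
        rw [h10, Matrix.smul_mul, ← smul_sub, Matrix.mul_smul, Matrix.smul_mul]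
    · rintro ⟨h1, h2, h3, h4, h5, h6, h7, h8, h9⟩
      refine ⟨h1, h2, h3, h4, h5, ?_, fun r => ?_, fun r => ?_, fun r => ?_⟩
      · show ∑ r, x r * (al r)ᵀ = ∑ r, al r * (c • x r)
        rw [Finset.sum_sub_distrib, sub_eq_zero] at h6
        refine h6.trans (Finset.sum_congr rfl fun r _ => ?_)
        rw [Matrix.mul_smul, Matrix.smul_mul]
      · show g * (x r * (al r)ᵀ) * g = g * (al r * (c • x r)) * g
        have h10 := h7 r
        rw [Matrix.mul_sub, Matrix.sub_mul, sub_eq_zero] at h10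
        rw [h10, Matrix.mul_smul (al r), Matrix.smul_mul]
      · show al r * (b + (x r)ᵀ * g) = ((c • b) + (c • x r)ᵀ * g) * al r
        have h10 : al r * (b + (x r)ᵀ * g) = (b + (x r)ᵀ * g) * (c • al r) := h8 r
        rw [h10, transpose_smul, Matrix.smul_mul, ← smul_add, Matrix.smul_mul, Matrix.mul_smul]
      · show (k - x r * g) * al r = al r * ((c • k) - (c • x r) * g)
        have h10 : (k - x r * g) * al r = c • al r * (k - x r * g) := h9 r
        rw [h10, Matrix.smul_mul, Matrix.smul_mul, ← smul_sub, Matrix.mul_smul]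
  -- `X = f1 X'`
  have hnil : IsNilpotent (o1 Ni - o2 Nj) :=
    (o21_comm Nj Ni).symm.isNilpotent_sub (o1_nil nili) (o2_nil nilj)
  have hinj : Function.Injective f1 := inj_of hnil (sub_ne_zero.2 hl) hf1x
  have hsur : Function.Surjective f1 := LinearMap.injective_iff_surjective.1 hinj
  let Rc : Submodule K (DV n K) :=
    (RR g π ei ej al).comap (LinearMap.prod LinearMap.id (c • LinearMap.id))
  have hRc : ∀ X, X ∈ Rc ↔ (X, c • X) ∈ RR g π ei ej al := fun X => Iff.rfl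
  have hst : ∀ X ∈ Rc, f1 X ∈ Rc := by
    intro X hX
    rw [hRc] at hX ⊢
    have a1 := ad1 _ _ hX
    have a2 := ad2 _ _ hX
    have h1 := (RR g π ei ej al).add_mem ((RR g π ei ej al).smul_mem (li - lj) hX)
      ((RR g π ei ej al).sub_mem a1 a2)
    have e1 : f1 X = (li - lj) • X + (o1 Ni X - o2 Nj X) := by
      rw [hf1x, one_smul]; rfl
    have e2 : c • f1 X = (li - lj) • (c • X) + (o1 Ni (c • X) - o2 Nj (c • X)) := by
      rw [e1, map_smul, map_smul, smul_add, smul_sub, smul_comm]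
    rw [e2, e1]
    exact h1
  have hXR : (((x, b, kk) : DV n K)) ∈ Rc := (hRc _).2 ((hmem _).2 hx)
  obtain ⟨X', hX'⟩ := hsur ((x, b, kk) : DV n K)
  have hX'R : X' ∈ Rc := mem_of_map hinj hst (by rw [hX']; exact hXR)
  have hX'0 : pr ei ej X' = X' := by
    obtain ⟨h1, h2, h3, _⟩ := (hRc _).1 hX'R
    exact Prod.ext (funext fun r => h1 r) (Prod.ext h2 h3)
  have hf : f0 X' = (x, b, kk) := by rw [← hf1 X' hX'0, hX']
  obtain ⟨m1, m2⟩ := hT c hc X' ((hRc _).1 hX'R) (Gd.comap Ψ) hM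
  have m1' : Ψ (X', 0) ∈ Gd := m1
  have m2' : Ψ (0, X') ∈ Gd := m2
  rw [hΨ, map_zero, map_zero, add_zero, hf] at m1'
  rw [hΨ, map_zero, map_zero, zero_add, hf] at m2'
  exact ⟨m1', m2'⟩

end Crest.Agent.R172.RDH
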