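import Crest.Agent.R172.RDP
import Crest.Agent.R172.RDhalvesA

/-!
Row 172 (S0260), (T0), any radical, any `D`: `RD2` = TRANSFER (`halves`), from `first`.
-/

set_option autoImplicit false
set_option linter.unusedSectionVars false

namespace Crest.Agent.R172.RDhalves

open Matrix Module TensorProduct Crest.Agent.R172.FO Crest.Agent.R172.FrmB
open Crest.Agent.R172.Core (NS Tame)
open Crest.Agent.R172.PL (Wk)
open Crest.Agent.R172.RD

variable {ι : Type*} [Fintype ι] [DecidableEq ι] {δ : Type*} [Fintype δ] [DecidableEq δ]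
variable {n : Type*} [Fintype n] [DecidableEq n]
variable {k K : Type*} [Field k] [Field K] [Algebra k K]
variable {M : Type*} [AddCommGroup M] [Module K M]
variable {m : Type*} [Fintype m] [DecidableEq m]

theorem off_add (e : m → Matrix n n K) (A B : Matrix n n K) :
    off e (A + B) = off e A + off e B := by
  unfold off
  have h1 : ∑ l, e l * (A + B) * e l = ∑ l, e l * A * e l + ∑ l, e l * B * e l := by
    rw [← Finset.sum_add_distrib]
    exact Finset.sum_congr rfl fun l _ => by rw [Matrix.mul_add, Matrix.add_mul]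
  rw [h1]
  abel

theorem off_smul (e : m → Matrix n n K) (c : K) (A : Matrix n n K) :
    off e (c • A) = c • off e A := by
  unfold off
  have h1 : ∑ l, e l * (c • A) * e l = c • ∑ l, e l * A * e l := by
    rw [Finset.smul_sum]
    exact Finset.sum_congr rfl fun l _ => by rw [Matrix.mul_smul, Matrix.smul_mul]
  rw [h1, smul_sub]

/-- the good decorated elements form a submodule -/
def Gd (arm : δ → Fin 3) (J : Matrix ι ι K) (B : Matrix δ δ K)
    (N W : Submodule K (Matrix ι δ K)) (F : Matrix ι δ K) (p : Matrix ι n K)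
    (T : Module.End K M →ₗ[K] Module.End K M) (Ψ : Fin 3 → Module.End K M)
    (π : (n → K) →ₗ[K] M) (e : m → Matrix n n K) : Submodule K (RDH.Y3 n K) where
  carrier := {q | RS arm J B N W F p T Ψ π e q.1 q.2.1 q.2.2}
  add_mem' := by
    rintro ⟨y, z0, μ0⟩ ⟨y', z0', μ0'⟩ ⟨w, z, μ, h1, h2, h3, h4, h5, h6, h7⟩
      ⟨w', z', μ', i1, i2, i3, i4, i5, i6, i7⟩
    refine ⟨w + w', z + z', fun r => μ r + μ' r, W.add_mem h1 i1, ?_, ?_, fun r => ?_,
      Submodule.add_mem _ h5 i5, ?_, fun r => ?_⟩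
    · have e1 : io arm J F p (fun r => y r + y' r) - (w + w') =
          (io arm J F p y - w) + (io arm J F p y' - w') := by
        rw [io_add]; abel
      show io arm J F p (fun r => y r + y' r) - (w + w') ∈ N
      rw [e1]
      exact N.add_mem h2 i2
    · rw [transpose_add, Matrix.add_mul, Matrix.add_mul, h3, i3, Matrix.mul_add]
    · rw [Matrix.add_mul, Matrix.add_mul, Matrix.add_mul, h4, i4, Matrix.mul_add]
    · rw [off_add, h6, i6]; rfl
    · rw [off_add, h7, i7]; rfl
  zero_mem' := by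
    refine ⟨0, 0, fun _ => 0, W.zero_mem, ?_, ?_, fun r => ?_, Submodule.zero_mem _, ?_,
      fun r => ?_⟩
    · have e1 : io arm J F p (fun _ => (0 : Matrix n n K)) = 0 := by
        rw [io_eq]
        exact Finset.sum_eq_zero fun r _ => by rw [Matrix.zero_mul, Matrix.mul_zero]
      show io arm J F p (fun _ => (0 : Matrix n n K)) - 0 ∈ N
      rw [e1, sub_zero]
      exact N.zero_mem
    · rw [transpose_zero, Matrix.zero_mul, Matrix.zero_mul, Matrix.mul_zero]
    · rw [Matrix.zero_mul, Matrix.zero_mul, Matrix.zero_mul, Matrix.mul_zero]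
    · show off e 0 = 0
      unfold off
      simp
    · show off e 0 = 0
      unfold off
      simp
  smul_mem' := by
    rintro c ⟨y, z0, μ0⟩ ⟨w, z, μ, h1, h2, h3, h4, h5, h6, h7⟩
    refine ⟨c • w, c • z, fun r => c • μ r, W.smul_mem c h1, ?_, ?_, fun r => ?_,
      Submodule.smul_mem _ c h5, ?_, fun r => ?_⟩
    · have e1 : io arm J F p (fun r => c • y r) - c • w = c • (io arm J F p y - w) := by
        rw [io_smul, smul_sub]
      show io arm J F p (fun r => c • y r) - c • w ∈ N
      rw [e1]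
      exact N.smul_mem c h2
    · rw [transpose_smul, Matrix.smul_mul, Matrix.smul_mul, h3, Matrix.mul_smul]
    · rw [Matrix.smul_mul, Matrix.smul_mul, Matrix.smul_mul, h4, Matrix.mul_smul]
    · rw [off_smul, h6]; rfl
    · rw [off_smul, h7]; rfl

section main

variable {arm : δ → Fin 3} {J : Matrix ι ι K} {B : Matrix δ δ K}
  {N W : Submodule K (Matrix ι δ K)} {F G : Matrix ι δ K} {p : Matrix ι n K}
  {al : Fin 3 → Matrix n n K} {tau : Matrix n n K}
  {β : LinearMap.BilinForm K M} {T : Module.End K M →ₗ[K] Module.End K M}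
  {Ψ : Fin 3 → Module.End K M} {D : Module.End K M} {π : (n → K) →ₗ[K] M}
  {e : m → Matrix n n K} {lam : m → K} {l : Fin 3 → ℕ} {TT : Set k}

theorem pi_zero_iff (h : Fr k arm J B N W F G p al tau β T Ψ D π e lam l TT) (u : n → K)
    (hu : ∀ v : n → K, v ⬝ᵥ ((pᵀ * J * p) *ᵥ u) = 0) : π u = 0 := by
  have h1 : ∀ v, β v (π u) = 0 := by
    intro v
    obtain ⟨v', rfl⟩ := h.cr.onto v
    rw [h.cr.form]
    exact hu v'
  refine h.cr.ns.nd _ fun v => ?_
  rw [h.cr.ns.symm]
  exact h1 v

/-- **RD2**: both halves for scalar exact decorated families, from `first` -/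
theorem halves_of (h : Fr k arm J B N W F G p al tau β T Ψ D π e lam l TT)
    {i j : m} (hij : i ≠ j) (hf : FirstP k arm J B N W F G p al tau T Ψ π e TT i j) :
    HalvesP arm J B N W F p al T Ψ π e i j := by
  set g := pᵀ * J * p with hg
  have hker : ∀ u, π u = 0 → g *ᵥ u = 0 := by
    intro u hu
    have h1 : ∀ v : n → K, v ⬝ᵥ (g *ᵥ u) = 0 := by
      intro v
      rw [← h.cr.form, hu, map_zero]
    exact dotProduct_eq_zero _ fun v => by rw [dotProduct_comm]; exact h1 v
  have hπe : ∀ q : m, ∀ u, π u = 0 → π (e q *ᵥ u) = 0 := by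
    intro q u hu
    refine pi_zero_iff h _ fun v => ?_
    rw [← hg, Matrix.mulVec_mulVec, ← h.eg q, ← Matrix.mulVec_mulVec, hker u hu,
      Matrix.mulVec_zero, dotProduct_zero]
  have hπt : ∀ u, π u = 0 → π (tau *ᵥ u) = 0 := by
    intro u hu
    rw [h.ptau, hu, map_zero]
  let 𝒯 : Set K := (algebraMap k K) '' TT
  have h𝒯 : 𝒯.Infinite := h.inf.image fun a _ b _ hab => (algebraMap k K).injective hab
  have h0 : (0 : K) ∉ 𝒯 := by
    rintro ⟨t, ht, h0⟩
    have : t = 0 := (algebraMap k K).injective (by rw [h0, map_zero])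
    exact h.ne0 (this ▸ ht)
  have hinv : ∀ t ∈ 𝒯, ∃ kai, (1 + t • tau) * kai = 1 := by
    rintro _ ⟨t, ht, rfl⟩
    obtain ⟨kap, kai, hp⟩ := h.par t ht
    exact ⟨kai, by rw [← hp.kap_eq]; exact hp.mul⟩
  obtain ⟨S, hS, hT⟩ := RDH.mat_halves (g := g) (π := π) (ei := e i) (ej := e j) (tau := tau)
    (al := al) (li := lam i) (lj := lam j) h.ctx.comm h.ctx.tau_sa (h.idem i) (h.idem j)
    (h.etau i) (h.etau j) (h.eal i) (h.eal j) (h.eg i) (h.eg j) hπt (hπe i) (hπe j) (h.nil i)
    (h.nil j) (fun hh => hij (h.lamInj hh)) h𝒯 h0 hinv (Gd arm J B N W F p T Ψ π e) (by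
      rintro _ ⟨t, ht, rfl⟩ kap kai hkap hk x b kk hx
      obtain ⟨kap', kai', hp⟩ := h.par t ht
      have e1 : kap' = kap := by rw [hp.kap_eq, hkap]
      subst e1
      have e2 : kai' = kai := by
        have h1 : kai' * kap' = 1 := mul_eq_one_comm.1 hp.mul
        calc kai' = kai' * (kap' * kai) := by rw [hk, Matrix.mul_one]
          _ = kai := by rw [← Matrix.mul_assoc, h1, Matrix.one_mul]
      subst e2
      exact hf t ht kap' kai' hp x b kk
        ⟨hx.bx, hx.bb, hx.bk, hx.rb, hx.rk, hx.sum, hx.arm, hx.eb, hx.ek⟩)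
  refine ⟨S, hS, fun c hc x b kk hx => hT c hc x b kk
    ⟨hx.bx, hx.bb, hx.bk, hx.rb, hx.rk, hx.sum, hx.arm, hx.eb, hx.ek⟩⟩

end main

/-- the field `halves` of `RD.Five`, literally -/
theorem five_halves {ι δ n m : Type} [Fintype ι] [DecidableEq ι] [Fintype δ] [DecidableEq δ]
    [Fintype n] [DecidableEq n] [Fintype m] [DecidableEq m] {K M : Type} [Field K] [Algebra ℂ K]
    [CharZero K] [AddCommGroup M] [Module K M] [FiniteDimensional K M] {arm : δ → Fin 3}
    {J : Matrix ι ι K} {B : Matrix δ δ K} {N W : Submodule K (Matrix ι δ K)} {F G : Matrix ι δ K}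
    {p : Matrix ι n K} {al : Fin 3 → Matrix n n K} {tau : Matrix n n K}
    {β : LinearMap.BilinForm K M} {T : Module.End K M →ₗ[K] Module.End K M}
    {Ψ : Fin 3 → Module.End K M} {D : Module.End K M} {π : (n → K) →ₗ[K] M}
    {e : m → Matrix n n K} {lam : m → K} {l : Fin 3 → ℕ} {TT : Set ℂ}
    (h : Fr ℂ arm J B N W F G p al tau β T Ψ D π e lam l TT)
    (i j : m) (hij : i ≠ j) (hf : FirstP ℂ arm J B N W F G p al tau T Ψ π e TT i j) :
    HalvesP arm J B N W F p al T Ψ π e i j :=
  halves_of h hij hf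

end Crest.Agent.R172.RDhalves
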