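import Crest.Agent.R172.RDpick
import Crest.Agent.R172.HexC

/-!
Row 172 (S0260), (T0): the field `hexS` of `RD.Fr` from COCH (every radical valued cochain of the
universal cover is a coboundary).
-/

set_option autoImplicit false
set_option linter.unusedSectionVars false

namespace Crest.Agent.R172.RD

open Matrix Module

variable {n : Type*} [Fintype n] [DecidableEq n] {K : Type*} [Field K]
variable {M : Type*} [AddCommGroup M] [Module K M]
variable {m : Type*} [Fintype m] [DecidableEq m]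

/-- COCH in matrix form -/
def CochM (al : Fin 3 → Matrix n n K) (π : (n → K) →ₗ[K] M) : Prop :=
  ∀ (c : K) (κ : Fin 3 → Matrix n n K), ∑ r, κ r = 0 → (∀ r u, π u = 0 → κ r *ᵥ u = 0) →
    (∀ r u, π (κ r *ᵥ u) = 0) →
    ∃ θ : Matrix n n K, (∀ u, π (θ *ᵥ u) = 0) ∧ ∀ r, θ * al r = c • (al r * θ) + κ r

/-- **the field `hexS`** -/
theorem hexS_of_coch {al : Fin 3 → Matrix n n K} {π : (n → K) →ₗ[K] M} {g : Matrix n n K}
    {e : m → Matrix n n K} (hco : CochM al π)
    (hgT : gᵀ = g) (hga : ∀ r, (al r)ᵀ * g = g * al r)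
    (hg0 : ∀ x, g *ᵥ x = 0 ↔ π x = 0)
    (eal : ∀ i s, e i * al s = al s * e i)
    (idem : ∀ i, e i * e i = e i)
    (eg : ∀ i, (e i)ᵀ * g = g * e i) (i j : m) (c : K) (hc : c ≠ 0)
    (x : Fin 3 → Matrix n n K) (hx : ∀ r, e j * x r * (e i)ᵀ = x r)
    (hsum : ∑ r, (x r * (al r)ᵀ - c • (al r * x r)) = 0)
    (harm : ∀ r, g * (x r * (al r)ᵀ - c • (al r * x r)) * g = 0) :
    ∃ b kk : Matrix n n K, e i * b * e j = b ∧ e j * kk * e i = kk ∧ (∀ u, π (b *ᵥ u) = 0) ∧
      (∀ u, π (kk *ᵥ u) = 0) ∧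
      (∀ r, al r * (b + (x r)ᵀ * g) = c • ((b + (x r)ᵀ * g) * al r)) ∧
      (∀ r, (kk - x r * g) * al r = c • (al r * (kk - x r * g))) := by
  have hxT : ∀ r, e i * (x r)ᵀ * (e j)ᵀ = (x r)ᵀ := by
    intro r
    have := congrArg transpose (hx r)
    rwa [transpose_mul, transpose_mul, transpose_transpose, ← Matrix.mul_assoc] at this
  have hpe : ∀ (i : m) (v : n → K), π v = 0 → π (e i *ᵥ v) = 0 := by
    intro i v hv
    rw [← hg0] at hv ⊢
    rw [mulVec_mulVec, ← eg, ← mulVec_mulVec, hv, mulVec_zero]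
  have hgx : ∀ (A : Matrix n n K) (u : n → K), g * A = 0 → π (A *ᵥ u) = 0 := by
    intro A u hA
    rw [← hg0, mulVec_mulVec, hA, zero_mulVec]
  -- transposed arm and sum
  have hT : ∀ r, (x r * (al r)ᵀ - c • (al r * x r))ᵀ * g =
      al r * ((x r)ᵀ * g) - c • ((x r)ᵀ * g * al r) := by
    intro r
    rw [transpose_sub, transpose_smul, transpose_mul, transpose_mul, transpose_transpose,
      Matrix.sub_mul, Matrix.smul_mul, Matrix.mul_assoc, Matrix.mul_assoc, hga, Matrix.mul_assoc]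
  have hN : ∀ r, (x r * (al r)ᵀ - c • (al r * x r)) * g =
      x r * g * al r - c • (al r * (x r * g)) := by
    intro r
    rw [Matrix.sub_mul, Matrix.smul_mul, Matrix.mul_assoc, hga, Matrix.mul_assoc, Matrix.mul_assoc]
  have harmT : ∀ r, g * ((x r * (al r)ᵀ - c • (al r * x r))ᵀ * g) = 0 := by
    intro r
    have := congrArg transpose (harm r)
    rwa [transpose_mul, transpose_mul, hgT, transpose_zero] at this
  -- `b`
  obtain ⟨θ, hθ0, hθ⟩ := hco c⁻¹ (fun r => c⁻¹ • (al r * ((x r)ᵀ * g) -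
      c • ((x r)ᵀ * g * al r)))
    (by
      rw [← Finset.smul_sum]
      have h1 : ∑ r, (al r * ((x r)ᵀ * g) - c • ((x r)ᵀ * g * al r)) =
          (∑ r, (x r * (al r)ᵀ - c • (al r * x r)))ᵀ * g := by
        rw [transpose_sum, Finset.sum_mul]
        exact Finset.sum_congr rfl fun r _ => (hT r).symm
      rw [h1, hsum, transpose_zero, Matrix.zero_mul, smul_zero])
    (by
      intro r u hu
      rw [← hT r, Matrix.smul_mulVec, ← mulVec_mulVec, (hg0 u).2 hu,
        mulVec_zero, smul_zero])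
    (by
      intro r u
      apply hgx
      rw [Matrix.mul_smul, ← hT r, harmT r, smul_zero])
  obtain ⟨ϑ, hϑ0, hϑ⟩ := hco c (fun r => x r * g * al r - c • (al r * (x r * g)))
    (by
      have h1 : ∑ r, (x r * g * al r - c • (al r * (x r * g))) =
          (∑ r, (x r * (al r)ᵀ - c • (al r * x r))) * g := by
        rw [Finset.sum_mul]
        exact Finset.sum_congr rfl fun r _ => (hN r).symm
      rw [h1, hsum, Matrix.zero_mul])
    (by
      intro r u hu
      rw [← hN r, ← mulVec_mulVec, (hg0 u).2 hu, mulVec_zero])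
    (by
      intro r u
      apply hgx
      rw [← hN r, ← Matrix.mul_assoc, harm r])
  have hxg : ∀ r, e i * ((x r)ᵀ * g) * e j = (x r)ᵀ * g := by
    intro r
    rw [← Matrix.mul_assoc, Matrix.mul_assoc _ g (e j), ← eg, ← Matrix.mul_assoc, hxT]
  have hxg' : ∀ r, e j * (x r * g) * e i = x r * g := by
    intro r
    rw [← Matrix.mul_assoc, Matrix.mul_assoc _ g (e i), ← eg, ← Matrix.mul_assoc, hx]
  refine ⟨e i * θ * e j, e j * ϑ * e i, ?_, ?_, ?_, ?_, ?_, ?_⟩
  · rw [← Matrix.mul_assoc, ← Matrix.mul_assoc, idem, Matrix.mul_assoc, idem]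
  · rw [← Matrix.mul_assoc, ← Matrix.mul_assoc, idem, Matrix.mul_assoc, idem]
  · intro u
    rw [← mulVec_mulVec, ← mulVec_mulVec]
    exact hpe i _ (hθ0 _)
  · intro u
    rw [← mulVec_mulVec, ← mulVec_mulVec]
    exact hpe j _ (hϑ0 _)
  · intro r
    -- `b al = c⁻¹ (al b + (al x - c x al))`
    have h1 : e i * θ * e j * al r = c⁻¹ • (al r * (e i * θ * e j)) +
        c⁻¹ • (al r * ((x r)ᵀ * g) - c • ((x r)ᵀ * g * al r)) := by
      have h2 := congrArg (fun X => e i * X * e j) (hθ r)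
      have e3 : e i * (θ * al r) * e j = e i * θ * e j * al r := by
        rw [← Matrix.mul_assoc, Matrix.mul_assoc _ (al r), ← eal, ← Matrix.mul_assoc]
      have e4 : e i * (al r * θ) * e j = al r * (e i * θ * e j) := by
        rw [← Matrix.mul_assoc, eal]
        simp only [Matrix.mul_assoc]
      have e5 : e i * (al r * ((x r)ᵀ * g)) * e j = al r * ((x r)ᵀ * g) := by
        rw [← Matrix.mul_assoc (e i), eal, Matrix.mul_assoc (al r), Matrix.mul_assoc (al r), hxg]
      have e6 : e i * ((x r)ᵀ * g * al r) * e j = (x r)ᵀ * g * al r := by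
        rw [← Matrix.mul_assoc (e i), Matrix.mul_assoc _ (al r) (e j), ← eal,
          ← Matrix.mul_assoc, hxg]
      simp only [Matrix.mul_add, Matrix.add_mul, Matrix.mul_smul,
        Matrix.smul_mul, Matrix.mul_sub, Matrix.sub_mul, e3, e4, e5, e6] at h2
      exact h2
    have h3 : c • (e i * θ * e j * al r) = al r * (e i * θ * e j) +
        (al r * ((x r)ᵀ * g) - c • ((x r)ᵀ * g * al r)) := by
      rw [h1, smul_add, smul_smul, smul_smul, mul_inv_cancel₀ hc, one_smul, one_smul]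
    rw [Matrix.mul_add, Matrix.add_mul, smul_add, h3]
    abel
  · intro r
    have h2 := congrArg (fun X => e j * X * e i) (hϑ r)
    have e3 : e j * (ϑ * al r) * e i = e j * ϑ * e i * al r := by
      rw [← Matrix.mul_assoc, Matrix.mul_assoc _ (al r), ← eal, ← Matrix.mul_assoc]
    have e4 : e j * (al r * ϑ) * e i = al r * (e j * ϑ * e i) := by
      rw [← Matrix.mul_assoc, eal]
      simp only [Matrix.mul_assoc]
    have e5 : e j * (al r * (x r * g)) * e i = al r * (x r * g) := by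
      rw [← Matrix.mul_assoc (e j), eal, Matrix.mul_assoc (al r), Matrix.mul_assoc (al r), hxg']
    have e6 : e j * (x r * g * al r) * e i = x r * g * al r := by
      rw [← Matrix.mul_assoc (e j), Matrix.mul_assoc _ (al r) (e i), ← eal,
        ← Matrix.mul_assoc, hxg']
    simp only [Matrix.mul_add, Matrix.add_mul, Matrix.mul_smul,
      Matrix.smul_mul, Matrix.mul_sub, Matrix.sub_mul, e3, e4, e5, e6] at h2
    rw [Matrix.sub_mul, Matrix.mul_sub, smul_sub, h2]
    abel

theorem cochM_of {X : Type*} [AddCommGroup X] [Module K X] (b : Module.Basis n K X)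
    {A : Fin 3 → Module.End K X} {pr : X →ₗ[K] M}
    (hco : ∀ (c : K) (κ : Fin 3 → (X →ₗ[K] X)), (∀ x, κ 0 x + κ 1 x + κ 2 x = 0) →
      (∀ r x, pr x = 0 → κ r x = 0) → (∀ r x, pr (κ r x) = 0) →
      ∃ θ : X →ₗ[K] X, (∀ x, pr (θ x) = 0) ∧ ∀ r x, θ (A r x) = c • A r (θ x) + κ r x) :
    CochM (fun r => LinearMap.toMatrix b b (A r)) (pr ∘ₗ b.equivFun.symm.toLinearMap) := by
  intro c κ hs h0 h1
  have hκ : ∀ (Q : Matrix n n K) x, b.equivFun (Matrix.toLin b b Q x) = Q *ᵥ b.equivFun x := by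
    intro Q x
    have h2 := LinearMap.toMatrix_mulVec_repr b b (Matrix.toLin b b Q) x
    rw [LinearMap.toMatrix_toLin] at h2
    exact h2.symm
  have hκ' : ∀ (Q : Matrix n n K) u, b.equivFun.symm (Q *ᵥ u) =
      Matrix.toLin b b Q (b.equivFun.symm u) := by
    intro Q u
    rw [LinearEquiv.symm_apply_eq, hκ, LinearEquiv.apply_symm_apply]
  obtain ⟨θ, hθ0, hθ⟩ := hco c (fun r => Matrix.toLin b b (κ r))
    (by
      intro x
      have h2 : κ 0 + κ 1 + κ 2 = 0 := by rw [← hs, Fin.sum_univ_three]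
      calc _ = Matrix.toLin b b (κ 0 + κ 1 + κ 2) x := by
            simp only [map_add, LinearMap.add_apply]
        _ = 0 := by rw [h2]; simp)
    (by
      intro r x hx
      have h2 := h0 r (b.equivFun x) (by
        change pr (b.equivFun.symm (b.equivFun x)) = 0
        rw [LinearEquiv.symm_apply_apply, hx])
      rw [← hκ] at h2
      exact b.equivFun.map_eq_zero_iff.1 h2)
    (by
      intro r x
      have h2 := h1 r (b.equivFun x)
      change pr (b.equivFun.symm (κ r *ᵥ b.equivFun x)) = 0 at h2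
      rwa [← hκ, LinearEquiv.symm_apply_apply] at h2)
  refine ⟨LinearMap.toMatrix b b θ, fun u => ?_, fun r => ?_⟩
  · change pr (b.equivFun.symm (LinearMap.toMatrix b b θ *ᵥ u)) = 0
    rw [hκ', Matrix.toLin_toMatrix, hθ0]
  · rw [← LinearMap.toMatrix_comp b b b, ← LinearMap.toMatrix_comp b b b]
    have h2 : θ ∘ₗ A r = c • (A r ∘ₗ θ) + Matrix.toLin b b (κ r) :=
      LinearMap.ext fun x => hθ r x
    rw [h2, map_add, map_smul, LinearMap.toMatrix_toLin]

end Crest.Agent.R172.RD
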