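import Crest.Agent.R172.HexU

/-!
Row 172 (S0260), (T0), any radical, any `D`: the field `hexS` of `RD.Fr` (corrections of scalar exact
families, in matrices) from the formal `HEX` of the universal cover.
-/

set_option autoImplicit false
set_option linter.unusedSectionVars false

namespace Crest.Agent.R172.RDhexS

open Matrix Module TensorProduct
open Crest.Agent.R172.HexU (HEX)
open Crest.Agent.R172.RJM (RT TR DD Ex ev Cor)

variable {n : Type*} [Fintype n] [DecidableEq n] {K : Type*} [Field K]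

/-- generalized inverse -/
theorem exists_ginv (g : Matrix n n K) : ∃ h : Matrix n n K, g * h * g = g := by
  obtain ⟨σ, hσ⟩ := LinearMap.exists_rightInverse_of_surjective (Matrix.toLin' g).rangeRestrict
    (LinearMap.range_eq_top.2 (LinearMap.surjective_rangeRestrict _))
  obtain ⟨h, hh⟩ := LinearMap.exists_extend σ
  refine ⟨LinearMap.toMatrix' h, ?_⟩
  apply Matrix.toLin'.injective
  ext1 v
  apply LinearMap.ext
  intro u
  simp only [LinearMap.comp_apply]
  generalize (LinearMap.single K (fun _ : n => K) v) u = w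
  rw [Matrix.toLin'_mul, Matrix.toLin'_mul, Matrix.toLin'_toMatrix']
  simp only [LinearMap.comp_apply]
  have h1 : h (Matrix.toLin' g w) = σ ((Matrix.toLin' g).rangeRestrict w) := by
    rw [← hh]; rfl
  rw [h1]
  have h2 := LinearMap.congr_fun hσ ((Matrix.toLin' g).rangeRestrict w)
  exact congrArg Subtype.val h2

/-- the column `b` as a linear map -/
def colL (b : n) : Matrix n n K →ₗ[K] (n → K) where
  toFun Z a := Z a b
  map_add' _ _ := rfl
  map_smul' _ _ := rfl

/-- the tensor of a matrix -/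
noncomputable def tn : Matrix n n K →ₗ[K] (n → K) ⊗[K] (n → K) :=
  ∑ b, (TensorProduct.mk K (n → K) (n → K)).flip (Pi.single b 1) ∘ₗ colL b

theorem tn_apply (Z : Matrix n n K) :
    tn Z = ∑ b, (fun a => Z a b) ⊗ₜ[K] (Pi.single b 1 : n → K) := by
  unfold tn
  rw [LinearMap.sum_apply]
  rfl

theorem sum_single (v : n → K) : ∑ b, v b • (Pi.single b 1 : n → K) = v := by
  funext a
  rw [Finset.sum_apply, Finset.sum_eq_single a]
  · simp
  · intro b _ hb
    simp [hb.symm]
  · simp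

theorem tn_vec (u v : n → K) : tn (vecMulVec u v) = u ⊗ₜ[K] v := by
  rw [tn_apply]
  have h1 : ∀ b, (fun a => vecMulVec u v a b) ⊗ₜ[K] (Pi.single b 1 : n → K) =
      u ⊗ₜ[K] (v b • (Pi.single b 1 : n → K)) := by
    intro b
    rw [← TensorProduct.smul_tmul]
    congr 1
    funext a
    simp [vecMulVec_apply, mul_comm]
  rw [Finset.sum_congr rfl fun b _ => h1 b, ← TensorProduct.tmul_sum, sum_single]

theorem eq_sum_vec (Z : Matrix n n K) :
    Z = ∑ b, vecMulVec (fun a => Z a b) (Pi.single b 1 : n → K) := by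
  ext a b
  rw [Matrix.sum_apply, Finset.sum_eq_single b]
  · simp [vecMulVec_apply]
  · intro c _ hc
    simp [vecMulVec_apply, hc.symm]
  · simp

/-- induction on matrices -/
theorem mat_ind {E : Type*} [AddCommGroup E] [Module K E] {f f' : Matrix n n K →ₗ[K] E}
    (h : ∀ u v, f (vecMulVec u v) = f' (vecMulVec u v)) : f = f' := by
  apply LinearMap.ext
  intro Z
  rw [eq_sum_vec Z, map_sum, map_sum]
  exact Finset.sum_congr rfl fun b _ => h _ _

variable {M : Type*} [AddCommGroup M] [Module K M] {m : Type*}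

/-- a block adapted frame -/
structure Adp (g : Matrix n n K) (π : (n → K) →ₗ[K] M) (al : Fin 3 → Matrix n n K)
    (e : m → Matrix n n K) {X : m → Type*} [∀ i, AddCommGroup (X i)] [∀ i, Module K (X i)]
    (A : ∀ i, Fin 3 → End K (X i)) (R : ∀ i, Submodule K (X i))
    (gj : ∀ i, X i →ₗ[K] X i →ₗ[K] K) (inj : ∀ i, X i →ₗ[K] (n → K))
    (prj : ∀ i, (n → K) →ₗ[K] X i) : Prop where
  pi_ : ∀ i x, prj i (inj i x) = x
  ip : ∀ i u, inj i (prj i u) = e i *ᵥ u
  al_inj : ∀ i s x, al s *ᵥ inj i x = inj i (A i s x)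
  eal : ∀ i s, e i * al s = al s * e i
  eg : ∀ i, (e i)ᵀ * g = g * e i
  gsym : gᵀ = g
  form : ∀ i x y, gj i x y = inj i x ⬝ᵥ (g *ᵥ inj i y)
  rad : ∀ i x, g *ᵥ inj i x = 0 → x ∈ R i
  rad' : ∀ i, ∀ x ∈ R i, π (inj i x) = 0

variable {g : Matrix n n K} {π : (n → K) →ₗ[K] M} {al : Fin 3 → Matrix n n K}
  {e : m → Matrix n n K} {X : m → Type*} [∀ i, AddCommGroup (X i)] [∀ i, Module K (X i)]
  {A : ∀ i, Fin 3 → End K (X i)} {R : ∀ i, Submodule K (X i)}
  {gj : ∀ i, X i →ₗ[K] X i →ₗ[K] K} {inj : ∀ i, X i →ₗ[K] (n → K)}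
  {prj : ∀ i, (n → K) →ₗ[K] X i}

namespace Adp

theorem inj_inj (h : Adp g π al e A R gj inj prj) {i : m} {x y : X i}
    (hxy : inj i x = inj i y) : x = y := by
  rw [← h.pi_ i x, hxy, h.pi_]

theorem prj_al (h : Adp g π al e A R gj inj prj) (i : m) (s : Fin 3) (u : n → K) :
    prj i (al s *ᵥ u) = A i s (prj i u) := by
  apply h.inj_inj
  rw [h.ip, ← h.al_inj, h.ip, mulVec_mulVec, mulVec_mulVec, h.eal]

theorem prj_rad (h : Adp g π al e A R gj inj prj) (i : m) {u : n → K} (hu : g *ᵥ u = 0) :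
    prj i u ∈ R i := by
  apply h.rad
  rw [h.ip, mulVec_mulVec, ← h.eg, ← mulVec_mulVec, hu, mulVec_zero]

/-- the tensor in `X j ⊗ X i` -/
noncomputable def tt (prj : ∀ i, (n → K) →ₗ[K] X i) (j i : m) :
    Matrix n n K →ₗ[K] (X j) ⊗[K] (X i) := TensorProduct.map (prj j) (prj i) ∘ₗ tn

theorem tt_vec (j i : m) (u v : n → K) :
    tt prj j i (vecMulVec u v) = prj j u ⊗ₜ[K] prj i v := by
  unfold tt
  rw [LinearMap.comp_apply, tn_vec, TensorProduct.map_tmul]

theorem DD_tt (h : Adp g π al e A R gj inj prj) (j i : m) (c : K) (s : Fin 3) (Z : Matrix n n K) :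
    DD (A i) (A j) c s (tt prj j i Z) = tt prj j i (Z * (al s)ᵀ - c • (al s * Z)) := by
  have h1 : (DD (A i) (A j) c s) ∘ₗ tt prj j i = tt prj j i ∘ₗ
      ((LinearMap.mulRight K ((al s)ᵀ) : Matrix n n K →ₗ[K] Matrix n n K) -
        c • (LinearMap.mulLeft K (al s) : Matrix n n K →ₗ[K] Matrix n n K)) := by
    apply mat_ind
    intro u v
    simp only [LinearMap.comp_apply, LinearMap.sub_apply, LinearMap.smul_apply,
      LinearMap.mulRight_apply, LinearMap.mulLeft_apply, map_sub, map_smul]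
    have e1 : vecMulVec u v * (al s)ᵀ = vecMulVec u (al s *ᵥ v) := by
      rw [vecMulVec_mul, vecMul_transpose]
    have e2 : al s * vecMulVec u v = vecMulVec (al s *ᵥ u) v := by
      rw [mul_vecMulVec]
    rw [e1, e2, tt_vec, tt_vec, tt_vec, h.prj_al, h.prj_al]
    simp only [DD, LinearMap.sub_apply, LinearMap.smul_apply, LinearMap.lTensor_tmul,
      LinearMap.rTensor_tmul]
  exact LinearMap.congr_fun h1 Z

theorem tt_mem (h : Adp g π al e A R gj inj prj) (j i : m) {Z : Matrix n n K}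
    (hZ : g * Z * g = 0) : tt prj j i Z ∈ (RT (R j) ⊔ TR (R i) : Submodule K (X j ⊗[K] X i)) := by
  obtain ⟨q, hq⟩ := exists_ginv g
  have hq' : g * qᵀ * g = g := by
    have := congrArg transpose hq
    simpa only [transpose_mul, h.gsym, Matrix.mul_assoc] using this
  have key : ∀ Z1 Z2 : Matrix n n K, g * Z1 = 0 → Z2 * g = 0 →
      tt prj j i (Z1 + Z2) ∈ (RT (R j) ⊔ TR (R i) : Submodule K (X j ⊗[K] X i)) := by
    intro Z1 Z2 h1 h2
    rw [map_add]
    refine Submodule.add_mem _ (Submodule.mem_sup_left ?_) (Submodule.mem_sup_right ?_)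
    · rw [eq_sum_vec Z1, map_sum]
      refine Submodule.sum_mem _ fun b _ => ?_
      rw [tt_vec]
      refine Submodule.subset_span ⟨_, h.prj_rad j ?_, _, rfl⟩
      funext a
      have := congrFun (congrFun h1 a) b
      simpa [Matrix.mul_apply, mulVec, dotProduct] using this
    · have h3 : Z2 = (∑ b, vecMulVec (fun a => Z2ᵀ a b) (Pi.single b 1 : n → K))ᵀ := by
        rw [← eq_sum_vec, transpose_transpose]
      rw [h3, transpose_sum, map_sum]
      refine Submodule.sum_mem _ fun b _ => ?_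
      rw [transpose_vecMulVec, tt_vec]
      refine Submodule.subset_span ⟨_, _, h.prj_rad i ?_, rfl⟩
      funext a
      have h4 : g * Z2ᵀ = 0 := by
        have := congrArg transpose h2
        simpa only [transpose_mul, h.gsym, transpose_zero] using this
      have := congrFun (congrFun h4 a) b
      simpa [Matrix.mul_apply, mulVec, dotProduct] using this
  have e1 : Z = ((1 - q * g) * Z) + (q * g * Z) * (1 - g * q) := by
    have e2 : q * g * Z * (g * q) = 0 := by
      have : q * g * Z * (g * q) = q * (g * Z * g) * q := by simp only [Matrix.mul_assoc]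
      rw [this, hZ, Matrix.mul_zero, Matrix.zero_mul]
    rw [Matrix.mul_sub, Matrix.mul_one, e2, Matrix.sub_mul, Matrix.one_mul]
    abel
  rw [e1]
  apply key
  · rw [← Matrix.mul_assoc, Matrix.mul_sub, Matrix.mul_one, ← Matrix.mul_assoc, hq, sub_self,
      Matrix.zero_mul]
  · rw [Matrix.mul_assoc, Matrix.sub_mul, Matrix.one_mul, hq, sub_self, Matrix.mul_zero]

theorem ev_tt (h : Adp g π al e A R gj inj prj) (j i : m) (Z : Matrix n n K) (y : X j) :
    ev (gj j) (tt prj j i Z) y = prj i (Zᵀ *ᵥ (g *ᵥ inj j y)) := by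
  have hvec : ∀ u v : n → K, ev (gj j) (tt prj j i (vecMulVec u v)) y =
      prj i ((vecMulVec u v)ᵀ *ᵥ (g *ᵥ inj j y)) := by
    intro u v
    rw [tt_vec, RJM.ev_tmul, h.form, h.ip, transpose_vecMulVec, vecMulVec_mulVec]
    have e1 : (e j *ᵥ u) ⬝ᵥ (g *ᵥ inj j y) = u ⬝ᵥ (g *ᵥ inj j y) := by
      have e2 : (e j *ᵥ u) ⬝ᵥ (g *ᵥ inj j y) = u ⬝ᵥ ((e j)ᵀ *ᵥ (g *ᵥ inj j y)) := by
        rw [dotProduct_mulVec u, vecMul_transpose]
      rw [e2, mulVec_mulVec, h.eg, ← mulVec_mulVec, ← h.ip, h.pi_]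
    rw [e1]
    have e3 : MulOpposite.op (u ⬝ᵥ (g *ᵥ inj j y)) • v = (u ⬝ᵥ (g *ᵥ inj j y)) • v := by
      funext a
      simp [mul_comm]
    rw [e3, map_smul]
  rw [eq_sum_vec Z, map_sum, map_sum, LinearMap.sum_apply, transpose_sum, Matrix.sum_mulVec,
    map_sum]
  exact Finset.sum_congr rfl fun b _ => hvec _ _

/-- **one side of `hexS`** -/
theorem one_side (h : Adp g π al e A R gj inj prj) {i j : m} {c : K}
    (H : HEX (A i) (A j) (R i) (R j) (gj j) 1 c) {x : Fin 3 → Matrix n n K}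
    (hx : ∀ r, e j * x r * (e i)ᵀ = x r) (hs : ∑ r, (x r * (al r)ᵀ - c • (al r * x r)) = 0)
    (ha : ∀ r, g * (x r * (al r)ᵀ - c • (al r * x r)) * g = 0) :
    ∃ b : Matrix n n K, e i * b * e j = b ∧ (∀ u, π (b *ᵥ u) = 0) ∧
      ∀ r, al r * (b + (x r)ᵀ * g) = c • ((b + (x r)ᵀ * g) * al r) := by
  have hee : ∀ i, e i * e i = e i := by
    intro i
    apply Matrix.toLin'.injective
    apply LinearMap.ext
    intro u
    rw [Matrix.toLin'_apply, Matrix.toLin'_apply, ← mulVec_mulVec, ← h.ip, ← h.ip, h.pi_]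
  obtain ⟨b0, hb⟩ := H (fun r => tt prj j i (x r)) ⟨by
      rw [Finset.sum_congr rfl fun t _ => h.DD_tt j i c t (x t), ← map_sum, hs, map_zero],
    fun t => by
      rw [h.DD_tt]
      exact h.tt_mem j i (ha t)⟩
  refine ⟨-(LinearMap.toMatrix' (inj i ∘ₗ b0 ∘ₗ prj j)), ?_, ?_, ?_⟩
  · rw [Matrix.mul_neg, Matrix.neg_mul]
    congr 1
    apply Matrix.toLin'.injective
    apply LinearMap.ext
    intro u
    rw [Matrix.toLin'_mul, Matrix.toLin'_mul, Matrix.toLin'_toMatrix']
    simp only [LinearMap.comp_apply, Matrix.toLin'_apply]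
    rw [← h.ip, h.pi_, ← h.ip, h.pi_]
  · intro u
    rw [Matrix.neg_mulVec, map_neg, neg_eq_zero, ← Matrix.toLin'_apply, Matrix.toLin'_toMatrix']
    exact h.rad' i _ (hb.mem _)
  · intro r
    -- values
    have hval : ∀ u, (-(LinearMap.toMatrix' (inj i ∘ₗ b0 ∘ₗ prj j)) + (x r)ᵀ * g) *ᵥ u =
        inj i (-(b0 (prj j u)) + ev (gj j) (tt prj j i (x r)) (prj j u)) := by
      intro u
      rw [Matrix.add_mulVec, Matrix.neg_mulVec, map_add, map_neg, ← Matrix.toLin'_apply
        (LinearMap.toMatrix' (inj i ∘ₗ b0 ∘ₗ prj j)), Matrix.toLin'_toMatrix', h.ev_tt, h.ip, h.ip]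
      congr 1
      have e1 : (x r)ᵀ = e i * (x r)ᵀ * (e j)ᵀ := by
        conv_lhs => rw [← hx r]
        simp only [transpose_mul, transpose_transpose, Matrix.mul_assoc]
      have e2 : e i * (x r)ᵀ = (x r)ᵀ := by
        rw [e1, ← Matrix.mul_assoc, ← Matrix.mul_assoc, hee]
      have e3 : (x r)ᵀ * (e j)ᵀ = (x r)ᵀ := by
        have hje : (e j)ᵀ * (e j)ᵀ = (e j)ᵀ := by rw [← transpose_mul, hee]
        rw [e1, Matrix.mul_assoc, hje]
      rw [mulVec_mulVec, mulVec_mulVec, mulVec_mulVec, e2, Matrix.mul_assoc, ← h.eg,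
        ← Matrix.mul_assoc, e3]
    apply Matrix.toLin'.injective
    apply LinearMap.ext
    intro u
    rw [Matrix.toLin'_apply, Matrix.toLin'_apply, ← mulVec_mulVec, hval, h.al_inj, smul_mulVec,
      ← mulVec_mulVec, hval, h.prj_al, ← map_smul]
    congr 1
    have h1 := hb.eq r (prj j u)
    rw [one_mul] at h1
    rw [map_add, map_neg, smul_add, smul_neg]
    rw [sub_eq_sub_iff_add_eq_add] at h1
    rw [neg_add_eq_sub, neg_add_eq_sub, sub_eq_sub_iff_add_eq_add, ← h1, add_comm]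

/-- **the field `hexS` of `RD.Fr`** -/
theorem hexS (h : Adp g π al e A R gj inj prj)
    (H : ∀ i j (c : K), c ≠ 0 → HEX (A i) (A j) (R i) (R j) (gj j) 1 c) :
    ∀ i j, i ≠ j → ∀ c : K, c ≠ 0 → ∀ x : Fin 3 → Matrix n n K,
    (∀ r, e j * x r * (e i)ᵀ = x r) → ∑ r, (x r * (al r)ᵀ - c • (al r * x r)) = 0 →
    (∀ r, g * (x r * (al r)ᵀ - c • (al r * x r)) * g = 0) →
    ∃ b kk : Matrix n n K, e i * b * e j = b ∧ e j * kk * e i = kk ∧ (∀ u, π (b *ᵥ u) = 0) ∧
      (∀ u, π (kk *ᵥ u) = 0) ∧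
      (∀ r, al r * (b + (x r)ᵀ * g) = c • ((b + (x r)ᵀ * g) * al r)) ∧
      (∀ r, (kk - x r * g) * al r = c • (al r * (kk - x r * g))) := by
  intro i j _ c hc x hx hs ha
  obtain ⟨b, hb1, hb2, hb3⟩ := h.one_side (H i j c hc) hx hs ha
  obtain ⟨q, hq1, hq2, hq3⟩ := h.one_side (i := j) (j := i) (c := c⁻¹) (H j i c⁻¹ (inv_ne_zero hc))
    (x := fun r => (x r)ᵀ)
    (fun r => by
      conv_rhs => rw [← hx r]
      simp only [transpose_mul, transpose_transpose, Matrix.mul_assoc])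
    (by
      have h1 : ∀ r, (x r)ᵀ * (al r)ᵀ - c⁻¹ • (al r * (x r)ᵀ) =
          -(c⁻¹ • (x r * (al r)ᵀ - c • (al r * x r))ᵀ) := by
        intro r
        rw [transpose_sub, transpose_smul, transpose_mul, transpose_mul, transpose_transpose,
          smul_sub, smul_smul, inv_mul_cancel₀ hc, one_smul]
        abel
      rw [Finset.sum_congr rfl fun r _ => h1 r, Finset.sum_neg_distrib, ← Finset.smul_sum,
        ← transpose_sum, hs]
      simp)
    (fun r => by
      have h1 : (x r)ᵀ * (al r)ᵀ - c⁻¹ • (al r * (x r)ᵀ) =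
          -(c⁻¹ • (x r * (al r)ᵀ - c • (al r * x r))ᵀ) := by
        rw [transpose_sub, transpose_smul, transpose_mul, transpose_mul, transpose_transpose,
          smul_sub, smul_smul, inv_mul_cancel₀ hc, one_smul]
        abel
      have h2 := congrArg transpose (ha r)
      simp only [transpose_mul, h.gsym, transpose_zero, transpose_smul, transpose_sub,
        transpose_transpose] at h2
      rw [h1]
      simp only [transpose_mul, transpose_smul, transpose_sub, transpose_transpose,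
        Matrix.mul_neg, Matrix.neg_mul, Matrix.mul_smul, Matrix.smul_mul]
      rw [← Matrix.mul_assoc] at h2
      rw [h2]
      simp)
  refine ⟨b, -q, hb1, ?_, hb2, ?_, hb3, ?_⟩
  · rw [Matrix.mul_neg, Matrix.neg_mul, hq1]
  · intro u
    rw [Matrix.neg_mulVec, map_neg, hq2, neg_zero]
  · intro r
    have h1 := hq3 r
    rw [transpose_transpose] at h1
    have e1 : -q - x r * g = -(q + x r * g) := by abel
    rw [e1, Matrix.neg_mul, Matrix.mul_neg, h1, smul_neg, smul_smul, mul_inv_cancel₀ hc, one_smul]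

end Adp

end Crest.Agent.R172.RDhexS
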