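import Mathlib

/-!
Row 172 (S0260): existence of the corrections `b`, `kk` of a scalar exact family on a universal
cover (pure algebra, matrix form), field `hexS` of `RD.Fr`.
-/

set_option autoImplicit false
set_option linter.unusedSectionVars false

namespace Crest.Agent.R172.RDhexU

open Matrix

variable {n : Type*} [Fintype n] [DecidableEq n] {K : Type*} [Field K]

/-- word -/
def wd (al : Fin 3 → Matrix n n K) (w : List (Fin 3)) : Matrix n n K := (w.map al).prod

@[simp] theorem wd_nil (al : Fin 3 → Matrix n n K) : wd al [] = 1 := rfl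

@[simp] theorem wd_cons (al : Fin 3 → Matrix n n K) (r : Fin 3) (w : List (Fin 3)) :
    wd al (r :: w) = al r * wd al w := by
  simp [wd]

theorem wd_append (al : Fin 3 → Matrix n n K) (v : List (Fin 3)) (s : Fin 3) :
    wd al (v ++ [s]) = wd al v * al s := by
  simp [wd]

/-- the recursive solution on words -/
def fw (al ψ : Fin 3 → Matrix n n K) (c : K) : List (Fin 3) → Matrix n n K
  | [] => 0
  | r :: w => c⁻¹ • (al r * fw al ψ c w - ψ r * wd al w)

theorem fw_append (al ψ : Fin 3 → Matrix n n K) (c : K) (v : List (Fin 3)) (s : Fin 3) :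
    fw al ψ c (v ++ [s]) = fw al ψ c v * al s - (c⁻¹) ^ (v.length + 1) • (wd al v * ψ s) := by
  induction v with
  | nil => simp [fw]
  | cons r v ih =>
    rw [List.cons_append, fw, ih, wd_append, fw, List.length_cons, wd_cons,
      pow_succ' c⁻¹ (v.length + 1)]
    simp only [Matrix.mul_sub, Matrix.mul_smul, Matrix.smul_mul, Matrix.sub_mul, smul_sub,
      smul_smul, Matrix.mul_assoc]
    abel

variable {al : Fin 3 → Matrix n n K} {g : Matrix n n K}

theorem g_wd (adj : ∀ r, (al r)ᵀ * g = g * al r) (w : List (Fin 3)) {u : n → K}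
    (hu : g *ᵥ u = 0) : g *ᵥ (wd al w *ᵥ u) = 0 := by
  induction w with
  | nil => simpa using hu
  | cons r w ih =>
    rw [wd_cons, ← mulVec_mulVec, mulVec_mulVec, ← adj, ← mulVec_mulVec, ih, mulVec_zero]

theorem g_fw (adj : ∀ r, (al r)ᵀ * g = g * al r) {ψ : Fin 3 → Matrix n n K}
    (h1 : ∀ r, g * ψ r = 0) (c : K) (w : List (Fin 3)) : g * fw al ψ c w = 0 := by
  induction w with
  | nil => simp [fw]
  | cons r w ih =>
    rw [fw, Matrix.mul_smul, Matrix.mul_sub, ← Matrix.mul_assoc, ← adj, Matrix.mul_assoc, ih,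
      Matrix.mul_zero, ← Matrix.mul_assoc, h1, Matrix.zero_mul, sub_zero, smul_zero]

theorem fw_g (adj : ∀ r, (al r)ᵀ * g = g * al r) {ψ : Fin 3 → Matrix n n K}
    (h2 : ∀ r u, g *ᵥ u = 0 → ψ r *ᵥ u = 0) (c : K) (w : List (Fin 3)) {u : n → K}
    (hu : g *ᵥ u = 0) : fw al ψ c w *ᵥ u = 0 := by
  induction w with
  | nil => simp [fw]
  | cons r w ih =>
    rw [fw, smul_mulVec, sub_mulVec, ← mulVec_mulVec, ih, mulVec_zero, ← mulVec_mulVec,
      h2 r _ (g_wd adj w hu), sub_zero, smul_zero]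

/-- **the corrections exist** -/
theorem solve (sum0 : ∑ r, al r = 0) (adj : ∀ r, (al r)ᵀ * g = g * al r) {N : ℕ}
    (kill : ∀ w : List (Fin 3), w.length = N → ∀ u, g *ᵥ u = 0 → wd al w *ᵥ u = 0)
    (U : ∀ f : List (Fin 3) → Matrix n n K, (∀ w u, g *ᵥ u = 0 → f w *ᵥ u = 0) →
      ∃ b : Matrix n n K, ∀ w : List (Fin 3), w.length = N → (∀ r ∈ w, r ≠ 0) →
        b * wd al w = f w)
    (perf : ∀ A : Matrix n n K, (∀ w : List (Fin 3), w.length = N → (∀ r ∈ w, r ≠ 0) →
      A * wd al w = 0) → A = 0)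
    {c : K} (hc : c ≠ 0) {ψ : Fin 3 → Matrix n n K} (h1 : ∀ r, g * ψ r = 0)
    (h2 : ∀ r u, g *ᵥ u = 0 → ψ r *ᵥ u = 0) (hs : ∑ r, ψ r = 0) :
    ∃ b : Matrix n n K, g * b = 0 ∧ ∀ r, al r * b - c • (b * al r) = ψ r := by
  obtain ⟨b, hb⟩ := U (fw al ψ c) (fun w u hu => fw_g adj h2 c w hu)
  have hgb : g * b = 0 := by
    apply perf
    intro w hw hr
    rw [Matrix.mul_assoc, hb w hw hr, g_fw adj h1]
  have hkψ : ∀ w : List (Fin 3), w.length = N → ∀ s, wd al w * ψ s = 0 := by
    intro w hw s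
    ext a a'
    have e1 := kill w hw (ψ s *ᵥ Pi.single a' 1) (by rw [mulVec_mulVec, h1, zero_mulVec])
    have e2 := congrFun e1 a
    rw [mulVec_mulVec, mulVec_single_one] at e2
    exact e2
  have key : ∀ r : Fin 3, r ≠ 0 → al r * b - c • (b * al r) = ψ r := by
    intro r hr0
    rw [← sub_eq_zero]
    apply perf
    intro w hw hr
    have e1 : al r * b * wd al w = al r * fw al ψ c w := by rw [Matrix.mul_assoc, hb w hw hr]
    have e2 : c • fw al ψ c (r :: w) = al r * fw al ψ c w - ψ r * wd al w := by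
      rw [fw, smul_smul, mul_inv_cancel₀ hc, one_smul]
    have e3 : b * al r * wd al w = fw al ψ c (r :: w) := by
      rcases List.eq_nil_or_concat w with h0 | ⟨w', s, h0⟩
      · -- `N = 0`
        subst h0
        have hN : N = 0 := by simpa using hw.symm
        subst hN
        have hb0 : b = 0 := by simpa [fw] using hb [] rfl (by simp)
        have hψ0 : ψ r = 0 := by simpa using hkψ [] rfl r
        rw [hb0, fw, fw, hψ0]
        simp
      · have h0' : w = w' ++ [s] := by simpa using h0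
        subst h0'
        have hlen : (r :: w').length = N := by simpa using hw
        rw [← List.cons_append, fw_append, hkψ _ hlen, smul_zero, sub_zero,
          ← hb (r :: w') hlen (by
            intro q hq
            rcases List.mem_cons.1 hq with h | h
            · rw [h]; exact hr0
            · exact hr q (List.mem_append_left _ h)), wd_append, wd_cons]
        simp only [Matrix.mul_assoc]
    rw [Matrix.sub_mul, Matrix.sub_mul, Matrix.smul_mul, e1, e3, e2]
    abel
  refine ⟨b, hgb, fun r => ?_⟩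
  by_cases hr0 : r = 0
  · subst hr0
    have k1 := key 1 (by decide)
    have k2 := key 2 (by decide)
    have ea : al 0 = -(al 1 + al 2) := by
      rw [Fin.sum_univ_three] at sum0
      rw [eq_neg_iff_add_eq_zero, ← add_assoc]; exact sum0
    have ep : ψ 0 = -(ψ 1 + ψ 2) := by
      rw [Fin.sum_univ_three] at hs
      rw [eq_neg_iff_add_eq_zero, ← add_assoc]; exact hs
    rw [ea, ep, ← k1, ← k2]
    simp only [Matrix.neg_mul, Matrix.mul_neg, Matrix.add_mul, Matrix.mul_add, smul_neg, smul_add]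
    abel
  · exact key r hr0

/-- **field `hexS`** -/
theorem hexS {M : Type*} [AddCommGroup M] [Module K M] {π : (n → K) →ₗ[K] M}
    (hπ : ∀ u, π u = 0 ↔ g *ᵥ u = 0) (gsymm : gᵀ = g)
    (sum0 : ∑ r, al r = 0) (adj : ∀ r, (al r)ᵀ * g = g * al r) {N : ℕ}
    (kill : ∀ w : List (Fin 3), w.length = N → ∀ u, g *ᵥ u = 0 → wd al w *ᵥ u = 0)
    (U : ∀ f : List (Fin 3) → Matrix n n K, (∀ w u, g *ᵥ u = 0 → f w *ᵥ u = 0) →
      ∃ b : Matrix n n K, ∀ w : List (Fin 3), w.length = N → (∀ r ∈ w, r ≠ 0) →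
        b * wd al w = f w)
    (perf : ∀ A : Matrix n n K, (∀ w : List (Fin 3), w.length = N → (∀ r ∈ w, r ≠ 0) →
      A * wd al w = 0) → A = 0)
    {ei ej : Matrix n n K} (ii : ei * ei = ei) (jj : ej * ej = ej)
    (ai : ∀ r, ei * al r = al r * ei) (aj : ∀ r, ej * al r = al r * ej)
    (gi : eiᵀ * g = g * ei) (gj : ejᵀ * g = g * ej)
    {c : K} (hc : c ≠ 0) (x : Fin 3 → Matrix n n K)
    (hx : ∀ r, ej * x r * eiᵀ = x r) (hsum : ∑ r, (x r * (al r)ᵀ - c • (al r * x r)) = 0)
    (harm : ∀ r, g * (x r * (al r)ᵀ - c • (al r * x r)) * g = 0) :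
    ∃ b kk : Matrix n n K, ei * b * ej = b ∧ ej * kk * ei = kk ∧ (∀ u, π (b *ᵥ u) = 0) ∧
      (∀ u, π (kk *ᵥ u) = 0) ∧
      (∀ r, al r * (b + (x r)ᵀ * g) = c • ((b + (x r)ᵀ * g) * al r)) ∧
      (∀ r, (kk - x r * g) * al r = c • (al r * (kk - x r * g))) := by
  have gx : ∀ A : Matrix n n K, ∀ u, g *ᵥ u = 0 → (A * g) *ᵥ u = 0 := fun A u hu => by
    rw [← mulVec_mulVec, hu, mulVec_zero]
  have gal : ∀ r u, g *ᵥ u = 0 → g *ᵥ (al r *ᵥ u) = 0 := fun r u hu => by
    rw [mulVec_mulVec, ← adj, ← mulVec_mulVec, hu, mulVec_zero]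
  -- first correction
  have hxT : ∀ r, ei * ((x r)ᵀ * g) * ej = (x r)ᵀ * g := by
    intro r
    have e1 := congrArg transpose (hx r)
    rw [transpose_mul, transpose_mul, transpose_transpose] at e1
    calc ei * ((x r)ᵀ * g) * ej = ei * (x r)ᵀ * (g * ej) := by simp only [Matrix.mul_assoc]
      _ = ei * ((x r)ᵀ * ejᵀ) * g := by rw [← gj]; simp only [Matrix.mul_assoc]
      _ = (x r)ᵀ * g := by rw [e1]
  have hxg : ∀ r, ej * (x r * g) * ei = x r * g := by
    intro r
    calc ej * (x r * g) * ei = ej * x r * (g * ei) := by simp only [Matrix.mul_assoc]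
      _ = ej * x r * eiᵀ * g := by rw [← gi]; simp only [Matrix.mul_assoc]
      _ = x r * g := by rw [hx r]
  have p1 : ∀ r, c • ((x r)ᵀ * g * al r) - al r * ((x r)ᵀ * g) =
      -((x r * (al r)ᵀ - c • (al r * x r))ᵀ * g) := by
    intro r
    rw [transpose_sub, transpose_smul, transpose_mul, transpose_mul, transpose_transpose,
      Matrix.sub_mul, Matrix.smul_mul, Matrix.mul_assoc (x r)ᵀ (al r)ᵀ g, adj]
    simp only [Matrix.mul_assoc]
    abel
  obtain ⟨b0, hb0, hb1⟩ := solve sum0 adj kill U perf hc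
    (ψ := fun r => c • ((x r)ᵀ * g * al r) - al r * ((x r)ᵀ * g))
    (fun r => by
      show g * (c • ((x r)ᵀ * g * al r) - al r * ((x r)ᵀ * g)) = 0
      rw [p1]
      have e1 := congrArg transpose (harm r)
      rw [transpose_mul, transpose_mul, gsymm, transpose_zero] at e1
      rw [Matrix.mul_neg, e1, neg_zero])
    (fun r u hu => by
      show (c • ((x r)ᵀ * g * al r) - al r * ((x r)ᵀ * g)) *ᵥ u = 0
      rw [p1, neg_mulVec, gx _ u hu, neg_zero])
    (by
      show ∑ r, (c • ((x r)ᵀ * g * al r) - al r * ((x r)ᵀ * g)) = 0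
      rw [Finset.sum_congr rfl fun r _ => p1 r, Finset.sum_neg_distrib, ← Matrix.sum_mul,
        ← transpose_sum, hsum, transpose_zero, Matrix.zero_mul, neg_zero])
  -- second correction
  have hci : c⁻¹ ≠ 0 := inv_ne_zero hc
  have p2 : ∀ r, -(c⁻¹ • (x r * g * al r - c • (al r * (x r * g)))) =
      -(c⁻¹ • ((x r * (al r)ᵀ - c • (al r * x r)) * g)) := by
    intro r
    rw [Matrix.sub_mul, Matrix.smul_mul, Matrix.mul_assoc (x r) (al r)ᵀ g, adj]
    simp only [Matrix.mul_assoc]
  obtain ⟨k0, hk0, hk1⟩ := solve sum0 adj kill U perf hci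
    (ψ := fun r => -(c⁻¹ • (x r * g * al r - c • (al r * (x r * g)))))
    (fun r => by
      show g * (-(c⁻¹ • (x r * g * al r - c • (al r * (x r * g))))) = 0
      rw [p2, Matrix.mul_neg, Matrix.mul_smul, ← Matrix.mul_assoc, harm, smul_zero, neg_zero])
    (fun r u hu => by
      show (-(c⁻¹ • (x r * g * al r - c • (al r * (x r * g))))) *ᵥ u = 0
      rw [p2, neg_mulVec, smul_mulVec, gx _ u hu, smul_zero, neg_zero])
    (by
      show ∑ r, (-(c⁻¹ • (x r * g * al r - c • (al r * (x r * g))))) = 0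
      rw [Finset.sum_congr rfl fun r _ => p2 r, Finset.sum_neg_distrib, ← Finset.smul_sum,
        ← Matrix.sum_mul, hsum, Matrix.zero_mul, smul_zero, neg_zero])
  have cut : ∀ (e e' b ψ : Matrix n n K) (a : K) (r : Fin 3), e * al r = al r * e →
      e' * al r = al r * e' → al r * b - a • (b * al r) = ψ → e * ψ * e' = ψ →
      al r * (e * b * e') - a • (e * b * e' * al r) = ψ := by
    intro e e' b ψ a r h1 h2 h3 h4
    rw [← h4, ← h3]
    have e1 : al r * (e * b * e') = e * (al r * b) * e' := by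
      rw [← Matrix.mul_assoc, ← Matrix.mul_assoc, ← h1]; simp only [Matrix.mul_assoc]
    have e2 : e * b * e' * al r = e * (b * al r) * e' := by
      rw [Matrix.mul_assoc (e * b), h2]; simp only [Matrix.mul_assoc]
    rw [e1, e2, Matrix.mul_sub, Matrix.sub_mul, Matrix.mul_smul, Matrix.smul_mul]
  have al_cut : ∀ (e e' A : Matrix n n K) (r : Fin 3), e * al r = al r * e →
      e * A * e' = A → e * (al r * A) * e' = al r * A := by
    intro e e' A r h1 h2
    rw [← Matrix.mul_assoc, h1, Matrix.mul_assoc (al r), Matrix.mul_assoc (al r), h2]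
  have cut_al : ∀ (e e' A : Matrix n n K) (r : Fin 3), e' * al r = al r * e' →
      e * A * e' = A → e * (A * al r) * e' = A * al r := by
    intro e e' A r h1 h2
    calc e * (A * al r) * e' = e * A * (al r * e') := by simp only [Matrix.mul_assoc]
      _ = e * A * e' * al r := by rw [← h1]; simp only [Matrix.mul_assoc]
      _ = A * al r := by rw [h2]
  refine ⟨ei * b0 * ej, ej * k0 * ei, ?_, ?_, ?_, ?_, ?_, ?_⟩
  · calc ei * (ei * b0 * ej) * ej = (ei * ei) * b0 * (ej * ej) := by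
          simp only [Matrix.mul_assoc]
      _ = _ := by rw [ii, jj]
  · calc ej * (ej * k0 * ei) * ei = (ej * ej) * k0 * (ei * ei) := by
          simp only [Matrix.mul_assoc]
      _ = _ := by rw [ii, jj]
  · intro u
    rw [hπ, mulVec_mulVec]
    have : g * (ei * b0 * ej) = 0 := by
      rw [← Matrix.mul_assoc, ← Matrix.mul_assoc, ← gi, Matrix.mul_assoc eiᵀ, hb0,
        Matrix.mul_zero, Matrix.zero_mul]
    rw [this, zero_mulVec]
  · intro u
    rw [hπ, mulVec_mulVec]
    have : g * (ej * k0 * ei) = 0 := by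
      rw [← Matrix.mul_assoc, ← Matrix.mul_assoc, ← gj, Matrix.mul_assoc ejᵀ, hk0,
        Matrix.mul_zero, Matrix.zero_mul]
    rw [this, zero_mulVec]
  · intro r
    have e1 := cut ei ej b0 _ c r (ai r) (aj r) (hb1 r) (by
      show ei * (c • ((x r)ᵀ * g * al r) - al r * ((x r)ᵀ * g)) * ej = _
      rw [Matrix.mul_sub, Matrix.sub_mul, Matrix.mul_smul, Matrix.smul_mul,
        cut_al ei ej _ r (aj r) (hxT r), al_cut ei ej _ r (ai r) (hxT r)])
    have e2 : al r * (ei * b0 * ej) - c • (ei * b0 * ej * al r) =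
        c • ((x r)ᵀ * g * al r) - al r * ((x r)ᵀ * g) := e1
    rw [Matrix.mul_add, Matrix.add_mul, smul_add]
    rw [← sub_eq_zero] at e2 ⊢
    rw [← e2]
    abel
  · intro r
    have e1 := cut ej ei k0 _ c⁻¹ r (aj r) (ai r) (hk1 r) (by
      show ej * (-(c⁻¹ • (x r * g * al r - c • (al r * (x r * g))))) * ei = _
      rw [Matrix.mul_neg, Matrix.neg_mul, Matrix.mul_smul, Matrix.smul_mul, Matrix.mul_sub,
        Matrix.sub_mul, Matrix.mul_smul, Matrix.smul_mul,
        cut_al ej ei _ r (ai r) (hxg r), al_cut ej ei _ r (aj r) (hxg r)])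
    have e2 : al r * (ej * k0 * ei) - c⁻¹ • (ej * k0 * ei * al r) =
        -(c⁻¹ • (x r * g * al r - c • (al r * (x r * g)))) := e1
    have e3 : c • (al r * (ej * k0 * ei) - c⁻¹ • (ej * k0 * ei * al r)) =
        c • (-(c⁻¹ • (x r * g * al r - c • (al r * (x r * g))))) := by rw [e2]
    rw [smul_sub, smul_neg, smul_smul c c⁻¹, smul_smul c c⁻¹, mul_inv_cancel₀ hc, one_smul,
      one_smul] at e3
    rw [Matrix.mul_sub, Matrix.sub_mul, smul_sub]
    rw [← sub_eq_zero] at e3 ⊢
    have e4 : ej * k0 * ei * al r - x r * g * al r -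
        (c • (al r * (ej * k0 * ei)) - c • (al r * (x r * g))) =
        -(c • (al r * (ej * k0 * ei)) - ej * k0 * ei * al r -
          -(x r * g * al r - c • (al r * (x r * g)))) := by abel
    rw [e4, e3, neg_zero]

end Crest.Agent.R172.RDhexU
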