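import Crest.Agent.R172.Pt2
import Crest.Agent.R172.Fin3

/-!
Row 172 (S0260), node RD-Asm: the field `hom` of `RD.Fr`.

`A`-linear endomorphisms of the core for the operators `Ψ_s (1 + tD)²` (= the operators of
`F + tG`) preserve the blocks of `D`, so `β (A x) y = 0` for `x`, `y` in different blocks.
-/

set_option autoImplicit false
set_option linter.unusedSectionVars false

namespace Crest.Agent.R172.RDhom

open Matrix Module Crest.Agent.R172.FO Crest.Agent.R172.St Crest.Agent.R172.QN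
open Crest.Agent.R172.Core (NS BM cp Pres)

section core

variable {ι : Type*} [Fintype ι] [DecidableEq ι] {δ : Type*} [Fintype δ] [DecidableEq δ]
variable {k K : Type*} [Field k] [Field K] [Algebra k K]
variable {arm : δ → Fin 3} {J : Matrix ι ι K} {B : Matrix δ δ K}
  {N W : Submodule K (Matrix ι δ K)} {F G : Matrix ι δ K}

theorem hom_mem [IsAlgClosed K] [CharZero K] (hD : Data k arm J B N W)
    (hF : Generic k arm N W F) (hG : G ∈ N ⊓ W) (t : K) (hH : Generic k arm N W (F + t • G))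
    (hnil : ∃ m, ∀ r, DerG.Ph arm J B (F + t • G) r ^ m = 0)
    {b : LinearMap.BilinForm K (ι → K)} {Φ0 : Fin 3 → End K (ι → K)}
    (hb : b = DerG.BJ J) (hΦ0 : Φ0 = DerG.Ph arm J B F)
    (C : St.Core b Φ0) {D : End K C.M}
    (hDB : ∀ v w, BM C (D v) w = BM C v (D w))
    (hDΦ : ∀ r v, D (cp C (Φ0 r) v) = cp C (Φ0 r) (D v))
    (hrel : ∀ r v, cp C (toLin' (Psi arm J B F G r)) v = cp C (Φ0 r) (D v))
    (A : End K C.M)
    (hA : ∀ s x, A (cp C (Φ0 s) ((1 + t • D) ((1 + t • D) x))) =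
      cp C (Φ0 s) ((1 + t • D) ((1 + t • D) (A x)))) {ν : K} {x : C.M}
    (hx : x ∈ D.maxGenEigenspace ν) : A x ∈ D.maxGenEigenspace ν := by
  subst hb
  subst hΦ0
  refine Pt.hom_core (Pt.ns_BJ hD.J_symm hD.J_unit) (Pt.sa_Ph hD hH.mem) hnil
    (Pt.sum_Ph hD hH.mem) (DerG.derR hD hH) (Pt.T_eq hD hF hH) C hDB
    (Pt.cp_H_comm C hD hF hG hDΦ hrel t) A ?_ hx
  intro r v _
  rw [Pt.cp_H C hD hF hG hDΦ hrel, Pt.cp_H C hD hF hG hDΦ hrel]
  exact hA r v

theorem hom_blocks [IsAlgClosed K] [CharZero K] (hD : Data k arm J B N W)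
    (hF : Generic k arm N W F) (hG : G ∈ N ⊓ W) (t : K) (hH : Generic k arm N W (F + t • G))
    (hnil : ∃ m, ∀ r, DerG.Ph arm J B (F + t • G) r ^ m = 0)
    {b : LinearMap.BilinForm K (ι → K)} {Φ0 : Fin 3 → End K (ι → K)}
    (hb : b = DerG.BJ J) (hΦ0 : Φ0 = DerG.Ph arm J B F)
    (C : St.Core b Φ0) {D : End K C.M}
    (hDB : ∀ v w, BM C (D v) w = BM C v (D w))
    (hDΦ : ∀ r v, D (cp C (Φ0 r) v) = cp C (Φ0 r) (D v))
    (hrel : ∀ r v, cp C (toLin' (Psi arm J B F G r)) v = cp C (Φ0 r) (D v))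
    (A : End K C.M)
    (hA : ∀ s x, A (cp C (Φ0 s) ((1 + t • D) ((1 + t • D) x))) =
      cp C (Φ0 s) ((1 + t • D) ((1 + t • D) (A x)))) {ν μ : K} (hne : ν ≠ μ) {x y : C.M}
    (hx : x ∈ D.maxGenEigenspace ν) (hy : y ∈ D.maxGenEigenspace μ) : BM C (A x) y = 0 :=
  Core.gen_ortho hDB hne _
    (hom_mem hD hF hG t hH hnil hb hΦ0 C hDB hDΦ hrel A hA hx) _ hy

end core

section inst

open Crest.AlgebraR.SpinSaturation Crest.Agent.R172.SoGrade Crest.Agent.R172.CF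
open Crest.Agent.R172.Gen (Jm Ix emb Ent ent)
open Crest.Agent.R172.ThX Crest.Agent.R172.CSys

variable {n : ℕ} {a : Fin 3 → Fin n → ℤ} {c : Cfg n a} {K : Type} [Field K] [Algebra ℂ K]
variable {N W : Submodule K (Matrix (Ix n) c.δ K)} {F G : Matrix (Ix n) c.δ K}

/-- **the field `hom` of `RD.Fr`**, for two different blocks of `τ`, every constant `t` -/
theorem hom_inst [IsAlgClosed K] [CharZero K] (hD : FO.Data ℂ c.arm (Jm n K) (c.B K) N W)
    (hnil : ∀ H ∈ N ⊓ W, ∃ k, ∀ s, MM (pU c K) (adjU c K) (Matrix.toLin' H) (Matrix.toLin' H) s ^ k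
      = 0)
    (hG : FO.GenOver ℂ c.arm N W F G)
    (C : St.Core (BV n K) (MM (pU c K) (adjU c K) (Matrix.toLin' F) (Matrix.toLin' F)))
    {τ : Module.End K C.M} (hT : TameAt F G C τ) (t : ℂ) (A : Module.End K C.M)
    (hA : ∀ s x, A (cp C (MM (pU c K) (adjU c K) (Matrix.toLin' F) (Matrix.toLin' F) s)
        ((1 + algebraMap ℂ K t • τ) ((1 + algebraMap ℂ K t • τ) x))) =
      cp C (MM (pU c K) (adjU c K) (Matrix.toLin' F) (Matrix.toLin' F) s)
        ((1 + algebraMap ℂ K t • τ) ((1 + algebraMap ℂ K t • τ) (A x))))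
    {ν μ : K} (hne : ν ≠ μ) {x y : C.M}
    (hx : x ∈ τ.maxGenEigenspace ν) (hy : y ∈ τ.maxGenEigenspace μ) : BM C (A x) y = 0 := by
  have hH := hG.generic_add t
  refine hom_blocks hD hG.generic hG.memG (algebraMap ℂ K t) hH ?_ BV_eq (MM_eq F) C hT.sa
    hT.comm ?_ A hA hne hx hy
  · obtain ⟨m, hm⟩ := hnil _ hH.mem
    refine ⟨m, fun r => ?_⟩
    rw [← MM_eq]
    exact hm r
  · intro r v
    have h1 : toLin' (Psi c.arm (Jm n K) (c.B K) F G r) =
        MM (pU c K) (adjU c K) (Matrix.toLin' F) (Matrix.toLin' G) r := by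
      refine LinearMap.ext fun w => ?_
      rw [MM_toLin, toLin'_apply]
      rfl
    rw [h1]
    exact hT.rel r v

end inst

end Crest.Agent.R172.RDhom
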