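import Crest.Agent.R172.RD0
import Crest.Agent.R172.Dual1
import Crest.Agent.R172.AntiV

/-!
Row 172 (S0260), (T0), any radical, any `D`: single-arm off-diagonal filtered tensors are good
(second copy of `RD.offdiag`, from `halves`).
-/

set_option autoImplicit false
set_option linter.unusedSectionVars false

namespace Crest.Agent.R172.RDO108

open Matrix Module TensorProduct Crest.Agent.R172.FO Crest.Agent.R172.FrmB Crest.Agent.R172.RD
open Crest.Agent.R172.Core (NS Tame)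
open Crest.Agent.R172.PL (Wk)

variable {ι : Type*} [Fintype ι] [DecidableEq ι] {δ : Type*} [Fintype δ] [DecidableEq δ]
variable {n : Type*} [Fintype n] [DecidableEq n]
variable {k K : Type*} [Field k] [Field K] [Algebra k K]
variable {M : Type*} [AddCommGroup M] [Module K M]
variable {m : Type*} [Fintype m] [DecidableEq m]

/-- the block -/
def Bk (e : Matrix n n K) : Submodule K (n → K) := LinearMap.range (toLin' e)

theorem mem_Bk {e : Matrix n n K} (he : e * e = e) {v : n → K} : v ∈ Bk e ↔ e *ᵥ v = v := by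
  constructor
  · rintro ⟨u, rfl⟩
    rw [toLin'_apply, mulVec_mulVec, he]
  · intro h
    exact ⟨v, by rw [toLin'_apply, h]⟩

theorem Bk_stable {e a : Matrix n n K} (hea : e * a = a * e) :
    ∀ v ∈ Bk e, toLin' a v ∈ Bk e := by
  rintro _ ⟨u, rfl⟩
  refine ⟨a *ᵥ u, ?_⟩
  rw [toLin'_apply, toLin'_apply, toLin'_apply, mulVec_mulVec, mulVec_mulVec, hea]

/-- restriction of a matrix to a block -/
def res {e a : Matrix n n K} (hea : e * a = a * e) : Module.End K (Bk e) :=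
  (toLin' a).restrict (Bk_stable hea)

theorem res_coe {e a : Matrix n n K} (hea : e * a = a * e) (v : Bk e) :
    ((res hea v : Bk e) : n → K) = a *ᵥ (v : n → K) := by
  rw [res, LinearMap.coe_restrict_apply, toLin'_apply]

theorem res_pow {e a : Matrix n n K} (hea : e * a = a * e) (k : ℕ) (v : Bk e) :
    (((res hea ^ k) v : Bk e) : n → K) = (a ^ k) *ᵥ (v : n → K) := by
  induction k generalizing v with
  | zero => simp
  | succ k ih =>
    rw [pow_succ, Module.End.mul_apply, ih, res_coe, pow_succ, mulVec_mulVec]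

theorem res_words {τ : Type*} {e : Matrix n n K} {a : τ → Matrix n n K}
    (hea : ∀ t, e * a t = a t * e) (w : List τ) (v : Bk e) :
    (((w.map fun t => res (hea t)).prod v : Bk e) : n → K) = (w.map a).prod *ᵥ (v : n → K) := by
  induction w with
  | nil => simp
  | cons t w ih =>
    rw [List.map_cons, List.prod_cons, Module.End.mul_apply, res_coe, ih, List.map_cons,
      List.prod_cons, mulVec_mulVec]

/-- `vecMulVec` as a bilinear map -/
def vm (n K : Type*) [Fintype n] [DecidableEq n] [Field K] :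
    (n → K) →ₗ[K] (n → K) →ₗ[K] Matrix n n K :=
  LinearMap.mk₂ K vecMulVec (fun a b c => by ext i j; simp [vecMulVec_apply, add_mul])
    (fun c a b => by ext i j; simp [vecMulVec_apply, mul_assoc])
    (fun a b c => by ext i j; simp [vecMulVec_apply, mul_add])
    (fun c a b => by ext i j; simp [vecMulVec_apply]; ring)

theorem vm_apply (x y : n → K) : vm n K x y = vecMulVec x y := rfl

/-- the matrix of a tensor -/
def mat (e2 e1 : Matrix n n K) : (Bk e2) ⊗[K] (Bk e1) →ₗ[K] Matrix n n K :=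
  TensorProduct.lift ((vm n K).domRestrict₁₂ (Bk e2) (Bk e1))

theorem mat_tmul {e2 e1 : Matrix n n K} (x : Bk e2) (y : Bk e1) :
    mat e2 e1 (x ⊗ₜ y) = vecMulVec (x : n → K) (y : n → K) := rfl

theorem mat_lT {e2 e1 a : Matrix n n K} (hea : e1 * a = a * e1) (z : (Bk e2) ⊗[K] (Bk e1)) :
    mat e2 e1 ((res hea).lTensor (Bk e2) z) = mat e2 e1 z * aᵀ := by
  induction z using TensorProduct.induction_on with
  | zero => simp
  | tmul x y =>
    rw [LinearMap.lTensor_tmul, mat_tmul, mat_tmul, res_coe, vecMulVec_mul, vecMul_transpose]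
  | add x y hx hy => rw [map_add, map_add, hx, hy, map_add, Matrix.add_mul]

theorem mat_rT {e2 e1 a : Matrix n n K} (hea : e2 * a = a * e2) (z : (Bk e2) ⊗[K] (Bk e1)) :
    mat e2 e1 ((res hea).rTensor (Bk e1) z) = a * mat e2 e1 z := by
  induction z using TensorProduct.induction_on with
  | zero => simp
  | tmul x y =>
    rw [LinearMap.rTensor_tmul, mat_tmul, mat_tmul, res_coe, mul_vecMulVec]
  | add x y hx hy => rw [map_add, map_add, hx, hy, map_add, Matrix.mul_add]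

theorem mat_block {e2 e1 : Matrix n n K} (h2 : e2 * e2 = e2) (h1 : e1 * e1 = e1)
    (z : (Bk e2) ⊗[K] (Bk e1)) : e2 * mat e2 e1 z * e1ᵀ = mat e2 e1 z := by
  induction z using TensorProduct.induction_on with
  | zero => simp
  | tmul x y =>
    rw [mat_tmul, mul_vecMulVec, vecMulVec_mul, vecMul_transpose, (mem_Bk h2).1 x.2,
      (mem_Bk h1).1 y.2]
  | add x y hx hy => rw [map_add, Matrix.mul_add, Matrix.add_mul, hx, hy]

section lemmas

variable {arm : δ → Fin 3} {J : Matrix ι ι K} {B : Matrix δ δ K}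
  {N W : Submodule K (Matrix ι δ K)} {F G : Matrix ι δ K} {p : Matrix ι n K}
  {al : Fin 3 → Matrix n n K} {tau : Matrix n n K}
  {β : LinearMap.BilinForm K M} {T : Module.End K M →ₗ[K] Module.End K M}
  {Ψ : Fin 3 → Module.End K M} {D : Module.End K M} {π : (n → K) →ₗ[K] M}
  {e : m → Matrix n n K} {lam : m → K} {l : Fin 3 → ℕ} {TT : Set k}

/-- the radical of a block -/
def Rk (π : (n → K) →ₗ[K] M) (e : Matrix n n K) : Submodule K (Bk e) :=
  (LinearMap.ker π).comap (Bk e).subtype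

theorem mem_Rk {e : Matrix n n K} {v : Bk e} : v ∈ Rk π e ↔ π (v : n → K) = 0 := Iff.rfl

theorem g_rad (hc : RDEnd.Cr J p al β π Ψ T) {r : n → K} (hr : π r = 0) :
    (pᵀ * J * p) *ᵥ r = 0 := by
  funext i
  have h1 := hc.form (Pi.single i 1) r
  rw [hr, map_zero, single_dotProduct, one_mul] at h1
  exact h1.symm

theorem rad_g (h : Fr k arm J B N W F G p al tau β T Ψ D π e lam l TT) {r : n → K}
    (hr : π r = 0) : r ᵥ* (pᵀ * J * p) = 0 := by
  rw [← mulVec_transpose, h.ctx.gam_symm]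
  exact g_rad h.cr hr

/-- the blocks descend to the core -/
theorem rad_e (h : Fr k arm J B N W F G p al tau β T Ψ D π e lam l TT) (i : m) {r : n → K}
    (hr : π r = 0) : π (e i *ᵥ r) = 0 := by
  apply h.cr.ns.nd
  intro w
  obtain ⟨u, rfl⟩ := h.cr.onto w
  rw [h.cr.ns.symm, h.cr.form, mulVec_mulVec, ← h.eg, ← mulVec_mulVec, g_rad h.cr hr, mulVec_zero,
    dotProduct_zero]

theorem mat_rad (h : Fr k arm J B N W F G p al tau β T Ψ D π e lam l TT) {i j : m}
    {z : (Bk (e j)) ⊗[K] (Bk (e i))} (hz : z ∈ Dual.Rad (Rk π (e i)) (Rk π (e j))) :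
    (pᵀ * J * p) * mat (e j) (e i) z * (pᵀ * J * p) = 0 := by
  have hle : Dual.Rad (Rk π (e i)) (Rk π (e j)) ≤ LinearMap.ker
      ((LinearMap.mulLeft K (pᵀ * J * p) ∘ₗ LinearMap.mulRight K (pᵀ * J * p)) ∘ₗ
        mat (e j) (e i)) := by
    unfold Dual.Rad
    refine sup_le ?_ ?_
    · rw [Submodule.span_le]
      rintro _ ⟨r, hr, q, rfl⟩
      rw [SetLike.mem_coe, LinearMap.mem_ker, LinearMap.comp_apply, mat_tmul,
        LinearMap.comp_apply, LinearMap.mulRight_apply, LinearMap.mulLeft_apply,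
        ← Matrix.mul_assoc, mul_vecMulVec, g_rad h.cr (mem_Rk.1 hr)]
      ext a b
      simp [Matrix.mul_apply]
    · rw [Submodule.span_le]
      rintro _ ⟨q, r, hr, rfl⟩
      rw [SetLike.mem_coe, LinearMap.mem_ker, LinearMap.comp_apply, mat_tmul,
        LinearMap.comp_apply, LinearMap.mulRight_apply, LinearMap.mulLeft_apply,
        vecMulVec_mul, rad_g h (mem_Rk.1 hr)]
      ext a b
      simp [vecMulVec_apply, Matrix.mul_apply]
  have := hle hz
  rw [LinearMap.mem_ker, LinearMap.comp_apply, LinearMap.comp_apply, LinearMap.mulRight_apply,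
    LinearMap.mulLeft_apply, ← Matrix.mul_assoc] at this
  exact this

/-- the element of a single arm -/
def qs (e2 e1 : Matrix n n K) (t : Fin 3) :
    Bk e2 →ₗ[K] Bk e1 →ₗ[K] (Fin 3 → Matrix n n K) :=
  ((vm n K).domRestrict₁₂ (Bk e2) (Bk e1)).compr₂
    (LinearMap.single K (fun _ : Fin 3 => Matrix n n K) t)

theorem qs_apply {e2 e1 : Matrix n n K} (t : Fin 3) (x : Bk e2) (y : Bk e1) :
    qs e2 e1 t x y = Pi.single t (vecMulVec (x : n → K) (y : n → K)) := rfl

theorem lift_qs {e2 e1 : Matrix n n K} (t : Fin 3) (z : (Bk e2) ⊗[K] (Bk e1)) :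
    TensorProduct.lift (qs e2 e1 t) z = Pi.single t (mat e2 e1 z) := by
  rw [qs, TensorProduct.lift_compr₂]
  rfl

theorem RS.rel {y : Fin 3 → Matrix n n K} {z0 : Matrix n n K} {μ0 : Fin 3 → Matrix n n K}
    (h : RS arm J B N W F p T Ψ π e y z0 μ0) : y ∈ RDEnd.Rel arm J N W F p π T 0 Ψ := by
  obtain ⟨w, z, μ, h1, h2, h3, -, ⟨zb, h5, h6⟩, -, -⟩ := h
  exact ⟨w, z, zb, h1, h2, h3, h5, h6⟩


section lin

theorem vm_mulVec (x y z : n → K) : vecMulVec x y *ᵥ z = (y ⬝ᵥ z) • x := by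
  ext i
  simp only [mulVec, dotProduct, vecMulVec_apply, Pi.smul_apply, smul_eq_mul, Finset.sum_mul]
  exact Finset.sum_congr rfl fun k _ => by ring

theorem mul_T_sum (A B : Matrix n n K) :
    A * Bᵀ = ∑ k, vecMulVec (A *ᵥ Pi.single k 1) (B *ᵥ Pi.single k 1) := by
  ext a b
  simp [Matrix.mul_apply, Matrix.sum_apply, vecMulVec_apply]

theorem blk_vm (e2 e1 : Matrix n n K) (x y : n → K) :
    e2 * vecMulVec x y * e1ᵀ = vecMulVec (e2 *ᵥ x) (e1 *ᵥ y) := by
  rw [mul_vecMulVec, vecMulVec_mul, vecMul_transpose]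

end lin

theorem pi_pow (hc : RDEnd.Cr J p al β π Ψ T) (s : Fin 3) (a : ℕ) (v : n → K) :
    π ((al s ^ a) *ᵥ v) = (Ψ s ^ a) (π v) := by
  induction a generalizing v with
  | zero => simp
  | succ a ih => rw [pow_succ, ← mulVec_mulVec, ih, ← hc.op, pow_succ, Module.End.mul_apply]

theorem sa_pow (hc : RDEnd.Cr J p al β π Ψ T) (s : Fin 3) (a : ℕ) (v w : M) :
    β ((Ψ s ^ a) v) w = β v ((Ψ s ^ a) w) := by
  induction a generalizing v with
  | zero => simp
  | succ a ih =>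
    rw [pow_succ, Module.End.mul_apply, ih, hc.sa, ← Module.End.mul_apply, ← pow_succ', pow_succ]

theorem exists_u (hc : RDEnd.Cr J p al β π Ψ T) (φ : M →ₗ[K] K) :
    ∃ u : n → K, ∀ w, u ⬝ᵥ ((pᵀ * J * p) *ᵥ w) = φ (π w) := by
  haveI : FiniteDimensional K M := Module.Finite.of_surjective π hc.onto
  obtain ⟨u, hu⟩ := hc.onto ((LinearMap.BilinForm.toDual β hc.ns.nondeg).symm φ)
  refine ⟨u, fun w => ?_⟩
  rw [← hc.form, hu]
  have := congrArg (fun f : Module.Dual K M => f (π w))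
    ((LinearMap.BilinForm.toDual β hc.ns.nondeg).apply_symm_apply φ)
  simpa using this

section blocks

variable (h : Fr k arm J B N W F G p al tau β T Ψ D π e lam l TT)
include h

theorem perf_blk (i : m) (v : Bk (e i)) :
    ∃ f : Fin 3 → Bk (e i), v = ∑ t, res (h.eal i t) (f t) := by
  obtain ⟨ρ, hρ⟩ := h.ctx.perf
  refine ⟨fun t => ⟨e i *ᵥ (ρ t *ᵥ (v : n → K)), ⟨_, toLin'_apply _ _⟩⟩, ?_⟩
  apply Subtype.ext
  rw [AddSubmonoidClass.coe_finsetSum]
  simp only [res_coe]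
  have e1 : ∀ t, al t *ᵥ (e i *ᵥ (ρ t *ᵥ (v : n → K))) = e i *ᵥ ((al t * ρ t) *ᵥ (v : n → K)) := by
    intro t
    rw [mulVec_mulVec, ← h.eal, ← mulVec_mulVec, mulVec_mulVec _ (al t)]
  simp only [e1]
  rw [← mulVec_sum, ← sum_mulVec, hρ, one_mulVec, (mem_Bk (h.idem i)).1 v.2]

theorem st_blk (i : m) (t : Fin 3) (r : Bk (e i)) (hr : r ∈ Rk π (e i)) :
    res (h.eal i t) r ∈ Rk π (e i) := by
  rw [mem_Rk] at hr ⊢
  rw [res_coe, ← h.cr.op, hr, map_zero]

theorem kill_blk (i : m) :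
    ∃ N0, ∀ r ∈ Rk π (e i), Dual.Kills (fun t => res (h.eal i t)) N0 r := by
  obtain ⟨m0, hm⟩ := h.kill
  refine ⟨m0, fun r hr w hw => ?_⟩
  apply Subtype.ext
  rw [res_words, hm w hw _ (mem_Rk.1 hr)]
  rfl

theorem l_blk (i : m) (s : Fin 3) (v : Bk (e i)) : (res (h.eal i s) ^ l s) v ∈ Rk π (e i) := by
  rw [mem_Rk, res_pow, pi_pow h.cr, h.lnil, LinearMap.zero_apply]

theorem gen_blk (i : m) (S : Submodule K (Bk (e i)))
    (h1 : ∀ s v, (res (h.eal i s) ^ l s) v ∈ S) (h2 : ∀ t, ∀ r ∈ S, res (h.eal i t) r ∈ S) :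
    Rk π (e i) ≤ S := by
  intro r hr
  have h3 := h.gen i (S.map (Bk (e i)).subtype) ?_ ?_ (r : n → K) ?_
  · rw [(mem_Bk (h.idem i)).1 r.2] at h3
    obtain ⟨r', hr', e1⟩ := h3
    have : r' = r := Subtype.ext e1
    rwa [← this]
  · rintro s _ ⟨v, hv, rfl⟩
    exact ⟨_, h2 s v hv, res_coe (h.eal i s) v⟩
  · intro s u
    exact ⟨_, h1 s ⟨e i *ᵥ u, ⟨u, toLin'_apply _ _⟩⟩, res_pow (h.eal i s) _ _⟩
  · rw [(mem_Bk (h.idem i)).1 r.2]
    exact hr

end blocks

/-- exact families are good -/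
theorem exact_rel (h : Fr k arm J B N W F G p al tau β T Ψ D π e lam l TT)
    {i j : m} (hij : i ≠ j) {c : K} (hc0 : c ≠ 0)
    (hS : ∀ (x : Fin 3 → Matrix n n K) (b kk : Matrix n n K),
      Dec (pᵀ * J * p) π e i j (fun r => al r) (fun r => c • al r) x b kk →
      RS arm J B N W F p T Ψ π e x (-b) (fun r => kk * al r) ∧
      RS arm J B N W F p T Ψ π e (fun r => (x r)ᵀ) kk (fun r => -(b * al r)))
    {x : Fin 3 → (Bk (e j)) ⊗[K] (Bk (e i))}
    (hx : Dual.Exact (fun t => res (h.eal i t)) (fun t => res (h.eal j t)) (Rk π (e i))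
      (Rk π (e j)) c x) :
    (fun t => mat (e j) (e i) (x t)) ∈ RDEnd.Rel arm J N W F p π T 0 Ψ := by
  have hd : ∀ t, mat (e j) (e i) (Dual.defect (res (h.eal i t)) (res (h.eal j t)) c (x t)) =
      mat (e j) (e i) (x t) * (al t)ᵀ - c • (al t * mat (e j) (e i) (x t)) := by
    intro t
    change mat (e j) (e i) ((res (h.eal i t)).lTensor (Bk (e j)) (x t) -
      c • (res (h.eal j t)).rTensor (Bk (e i)) (x t)) = _
    rw [map_sub, map_smul, mat_lT, mat_rT]
  have hbx : ∀ r, e j * mat (e j) (e i) (x r) * (e i)ᵀ = mat (e j) (e i) (x r) := fun r =>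
    mat_block (h.idem j) (h.idem i) _
  have hsum : ∑ r, (mat (e j) (e i) (x r) * (al r)ᵀ - c • (al r * mat (e j) (e i) (x r))) = 0 := by
    have h1 := congrArg (mat (e j) (e i)) hx.1
    rw [map_sum, map_zero] at h1
    rw [← h1]
    exact Finset.sum_congr rfl fun t _ => (hd t).symm
  have harm : ∀ r, (pᵀ * J * p) * (mat (e j) (e i) (x r) * (al r)ᵀ -
      c • (al r * mat (e j) (e i) (x r))) * (pᵀ * J * p) = 0 := by
    intro r
    rw [← hd r]
    exact mat_rad h (hx.2 r)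
  obtain ⟨b, kk, hb, hk, rb, rk, eb, ek⟩ := h.hexS i j hij c hc0 _ hbx hsum harm
  refine RS.rel (hS _ b kk ⟨hbx, hb, hk, rb, rk, ?_, ?_, ?_, ?_⟩).1
  · simpa only [Matrix.smul_mul] using hsum
  · intro r
    rw [Matrix.smul_mul]
    exact harm r
  · intro r
    rw [Matrix.mul_smul]
    exact eb r
  · intro r
    rw [Matrix.smul_mul]
    exact ek r

/-- single-arm generators -/
theorem single_rel [CharZero K] (h : Fr k arm J B N W F G p al tau β T Ψ D π e lam l TT)
    {i j : m} (hij : i ≠ j)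
    (hh : ∃ S : Set K, S.Finite ∧ ∀ c ∉ S, ∀ (x : Fin 3 → Matrix n n K)
      (b kk : Matrix n n K),
      Dec (pᵀ * J * p) π e i j (fun r => al r) (fun r => c • al r) x b kk →
      RS arm J B N W F p T Ψ π e x (-b) (fun r => kk * al r) ∧
      RS arm J B N W F p T Ψ π e (fun r => (x r)ᵀ) kk (fun r => -(b * al r))) :
    (∀ s a b, a + b + 1 = l s → ∀ u v : n → K,
      (Pi.single s (vecMulVec ((al s ^ b) *ᵥ (e j *ᵥ u)) ((al s ^ a) *ᵥ (e i *ᵥ v))) :
        Fin 3 → Matrix n n K) ∈ RDEnd.Rel arm J N W F p π T 0 Ψ) ∧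
    (∀ s (r : n → K), π r = 0 → ∀ v : n → K,
      (Pi.single s (vecMulVec (e j *ᵥ r) (e i *ᵥ v)) : Fin 3 → Matrix n n K) ∈
        RDEnd.Rel arm J N W F p π T 0 Ψ) ∧
    (∀ s (r : n → K), π r = 0 → ∀ u : n → K,
      (Pi.single s (vecMulVec (e j *ᵥ u) (e i *ᵥ r)) : Fin 3 → Matrix n n K) ∈
        RDEnd.Rel arm J N W F p π T 0 Ψ) := by
  obtain ⟨S, hSf, hS⟩ := hh
  haveI : Infinite K := CharZero.infinite K
  have hΛ : ((S ∪ {0})ᶜ : Set K).Infinite := (hSf.union (Set.finite_singleton 0)).infinite_compl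
  have key := Dual.span_exact (l := l) hΛ (by simp) (perf_blk h i) (perf_blk h j)
    (st_blk h i) (st_blk h j) (kill_blk h i) (kill_blk h j) (l_blk h i) (l_blk h j)
    (gen_blk h i) (gen_blk h j) (qs (e j) (e i)) (RDEnd.Rel arm J N W F p π T 0 Ψ) ?_
  · obtain ⟨k1, k2, k3⟩ := key
    refine ⟨fun s a b hab u v => ?_, fun s r hr v => ?_, fun s r hr u => ?_⟩
    · have := k1 s a b hab ⟨e j *ᵥ u, ⟨u, toLin'_apply _ _⟩⟩ ⟨e i *ᵥ v, ⟨v, toLin'_apply _ _⟩⟩
      rwa [qs_apply, res_pow, res_pow] at this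
    · exact k2 s ⟨e j *ᵥ r, ⟨r, toLin'_apply _ _⟩⟩ (rad_e h j hr)
        ⟨e i *ᵥ v, ⟨v, toLin'_apply _ _⟩⟩
    · exact k3 s ⟨e i *ᵥ r, ⟨r, toLin'_apply _ _⟩⟩ (rad_e h i hr)
        ⟨e j *ᵥ u, ⟨u, toLin'_apply _ _⟩⟩
  · intro c hc x hx
    have hc0 : c ≠ 0 := fun h0 => hc (by simp [h0])
    have hcS : c ∉ S := fun h0 => hc (by simp [h0])
    have h1 := exact_rel h hij hc0 (hS c hcS) hx
    have e1 : ∑ t, TensorProduct.lift (qs (e j) (e i) t) (x t) =
        fun t => mat (e j) (e i) (x t) := by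
      simp only [lift_qs]
      exact Finset.univ_sum_single _
    rw [e1]
    exact h1

/-- **RD4**: every off-diagonal filtered single-arm tensor is good -/
theorem offdiag_of [CharZero K] (h : Fr k arm J B N W F G p al tau β T Ψ D π e lam l TT)
    {i j : m} (hij : i ≠ j)
    (hh : ∃ S : Set K, S.Finite ∧ ∀ c ∉ S, ∀ (x : Fin 3 → Matrix n n K)
      (b kk : Matrix n n K),
      Dec (pᵀ * J * p) π e i j (fun r => al r) (fun r => c • al r) x b kk →
      RS arm J B N W F p T Ψ π e x (-b) (fun r => kk * al r) ∧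
      RS arm J B N W F p T Ψ π e (fun r => (x r)ᵀ) kk (fun r => -(b * al r)))
    (s : Fin 3) (y : Matrix n n K) (hy : e j * y * (e i)ᵀ = y)
    (hf : Fil (pᵀ * J * p) π Ψ s y) :
    (Pi.single s y : Fin 3 → Matrix n n K) ∈ RDEnd.Rel arm J N W F p π T 0 Ψ := by
  classical
  haveI : FiniteDimensional K M := Module.Finite.of_surjective π h.cr.onto
  obtain ⟨g1, g2, g3⟩ := single_rel h hij hh
  -- good matrices
  let Gd : Submodule K (Matrix n n K) := (RDEnd.Rel arm J N W F p π T 0 Ψ).comap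
    ((LinearMap.single K (fun _ : Fin 3 => Matrix n n K) s) ∘ₗ
      (LinearMap.mulRight K (e i)ᵀ ∘ₗ LinearMap.mulLeft K (e j)))
  have hGd : ∀ z : Matrix n n K, z ∈ Gd ↔
      (Pi.single s (e j * z * (e i)ᵀ) : Fin 3 → Matrix n n K) ∈
        RDEnd.Rel arm J N W F p π T 0 Ψ := fun z => Iff.rfl
  suffices hyG : y ∈ Gd by
    rw [hGd, hy] at hyG
    exact hyG
  obtain ⟨σ, hσ⟩ := LinearMap.exists_rightInverse_of_surjective π
    (LinearMap.range_eq_top.2 h.cr.onto)
  have hσ' : ∀ v, π (σ v) = v := fun v => LinearMap.congr_fun hσ v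
  -- core part zero
  have hzero : ∀ z : Matrix n n K, (∀ u, π (z *ᵥ ((pᵀ * J * p) *ᵥ u)) = 0) → z ∈ Gd := by
    intro z hz
    obtain ⟨E, hE⟩ : ∃ E : Matrix n n K, ∀ u, E *ᵥ u = σ (π u) :=
      ⟨LinearMap.toMatrix' (σ ∘ₗ π), fun u => by rw [LinearMap.toMatrix'_mulVec]; rfl⟩
    have hE1 : ∀ u, π ((1 - E) *ᵥ u) = 0 := by
      intro u
      rw [sub_mulVec, one_mulVec, hE, map_sub, hσ', sub_self]
    have hEz : E * z * Eᵀ = 0 := by
      have : ∀ w, (E * z * Eᵀ) *ᵥ w = 0 := by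
        intro w
        obtain ⟨u, hu⟩ := exists_u h.cr (φ := (dotProductBilin K K w) ∘ₗ σ)
        have e1 : Eᵀ *ᵥ w = (pᵀ * J * p) *ᵥ u := by
          have e2 : ∀ v, (Eᵀ *ᵥ w) ⬝ᵥ v = ((pᵀ * J * p) *ᵥ u) ⬝ᵥ v := by
            intro v
            have e3 : ((pᵀ * J * p) *ᵥ u) ⬝ᵥ v = u ⬝ᵥ ((pᵀ * J * p) *ᵥ v) := by
              rw [dotProduct_mulVec, ← mulVec_transpose, h.ctx.gam_symm]
            rw [e3, hu]
            change (Eᵀ *ᵥ w) ⬝ᵥ v = w ⬝ᵥ (σ (π v))
            rw [← hE, dotProduct_mulVec, ← mulVec_transpose]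
          exact dotProduct_eq _ _ e2
        rw [← mulVec_mulVec, ← mulVec_mulVec, e1, hE, hz, map_zero]
      ext a b
      have := congrFun (this (Pi.single b 1)) a
      simpa using this
    have hz2 : z = (1 - E) * z * (1 : Matrix n n K)ᵀ + E * z * (1 - E)ᵀ := by
      have : E * z * (1 - E)ᵀ = E * z := by
        rw [transpose_sub, transpose_one, Matrix.mul_sub, Matrix.mul_one, hEz, sub_zero]
      rw [this, transpose_one, Matrix.mul_one, Matrix.sub_mul, Matrix.one_mul]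
      abel
    rw [hz2]
    refine Gd.add_mem ?_ ?_
    · rw [mul_T_sum]
      refine Gd.sum_mem fun a _ => ?_
      rw [hGd, blk_vm]
      refine g2 s _ ?_ _
      rw [← mulVec_mulVec]
      exact hE1 _
    · rw [mul_T_sum]
      refine Gd.sum_mem fun a _ => ?_
      rw [hGd, blk_vm]
      exact g3 s _ (hE1 _) _
  -- the generators
  have hgm : ∀ (a b : ℕ), a + b + 1 = l s → ∀ g' : M →ₗ[K] M, ∃ y' ∈ Gd,
      ∀ u, π (y' *ᵥ ((pᵀ * J * p) *ᵥ u)) = (Ψ s ^ b) (g' ((Ψ s ^ a) (π u))) := by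
    intro a b hab g'
    let bs := Module.finBasis K M
    have hu : ∀ q, ∃ u : n → K, ∀ w, u ⬝ᵥ ((pᵀ * J * p) *ᵥ w) = bs.coord q (π w) := fun q =>
      exists_u h.cr _
    choose uu huu using hu
    have hv : ∀ q, ∃ v : n → K, π v = g' (bs q) := fun q => h.cr.onto _
    choose vv hvv using hv
    refine ⟨∑ q, vecMulVec ((al s ^ b) *ᵥ vv q) ((al s ^ a) *ᵥ uu q), ?_, ?_⟩
    · refine Gd.sum_mem fun q _ => ?_
      rw [hGd, blk_vm]
      have e1 : ∀ (i : m) (c : ℕ) (x : n → K), e i *ᵥ ((al s ^ c) *ᵥ x) =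
          (al s ^ c) *ᵥ (e i *ᵥ x) := by
        intro i c x
        rw [mulVec_mulVec, mulVec_mulVec]
        congr 1
        exact (show Commute (e i) (al s) from h.eal i s).pow_right c
      rw [e1, e1]
      exact g1 s a b hab _ _
    · intro u
      rw [sum_mulVec, map_sum]
      have e1 : ∀ q, π (vecMulVec ((al s ^ b) *ᵥ vv q) ((al s ^ a) *ᵥ uu q) *ᵥ
          ((pᵀ * J * p) *ᵥ u)) = (bs.coord q ((Ψ s ^ a) (π u))) • (Ψ s ^ b) (g' (bs q)) := by
        intro q
        rw [vm_mulVec, map_smul, pi_pow h.cr, hvv, ← h.cr.form, pi_pow h.cr, sa_pow h.cr,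
          ← pi_pow h.cr, h.cr.form, huu, pi_pow h.cr]
      simp only [e1]
      conv_rhs => rw [← bs.sum_repr ((Ψ s ^ a) (π u))]
      rw [map_sum, map_sum]
      refine Finset.sum_congr rfl fun q _ => ?_
      rw [map_smul, map_smul, Basis.coord_apply]
  -- the submodule of core operators
  let U : Submodule K (M →ₗ[K] M) :=
    { carrier := {yb | ∃ y' ∈ Gd, ∀ u, π (y' *ᵥ ((pᵀ * J * p) *ᵥ u)) = yb (π u)}
      add_mem' := by
        rintro a b ⟨y1, h1, h2⟩ ⟨y2, h3, h4⟩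
        exact ⟨y1 + y2, Gd.add_mem h1 h3, fun u => by
          rw [add_mulVec, map_add, h2, h4, LinearMap.add_apply]⟩
      zero_mem' := ⟨0, Gd.zero_mem, fun u => by
        rw [zero_mulVec, map_zero, LinearMap.zero_apply]⟩
      smul_mem' := by
        rintro c a ⟨y1, h1, h2⟩
        exact ⟨c • y1, Gd.smul_mem c h1, fun u => by
          rw [smul_mulVec, map_smul, h2, LinearMap.smul_apply]⟩ }
  obtain ⟨yb, hyb, hyf⟩ := hf
  have hyU : yb ∈ U := by
    refine AV.filt_span (h.lnil s) (h.free s) (h.lpos s) U (fun j hj g' => ?_) (φ₂ := Ψ s) ?_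
    · obtain ⟨y', hy', hyu⟩ := hgm (l s - 1 - j) j (by omega) g'
      exact ⟨y', hy', fun u => by rw [hyu]; rfl⟩
    · rintro a _ ⟨v, rfl⟩
      obtain ⟨v', hv'⟩ := hyf a v
      exact ⟨v', hv'.symm⟩
  obtain ⟨y', hy', hyu⟩ := hyU
  have h5 : y - y' ∈ Gd := hzero _ fun u => by
    rw [sub_mulVec, map_sub, hyb, hyu, sub_self]
  have h6 := Gd.add_mem h5 hy'
  rwa [sub_add_cancel] at h6

end lemmas

end Crest.Agent.R172.RDO108
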