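import Crest.Agent.R172.RD0
import Crest.Agent.R172.Dual1
import Crest.Agent.R172.AntiV

/-!
Row 172 (S0260), (T0): RD4 `offdiag` of helper460's skeleton `RD0` (third copy, helper260): every
off-diagonal filtered single-arm tensor is good, from `halves` (hypothesis) and `hexS`.
-/

set_option autoImplicit false
set_option linter.unusedSectionVars false

namespace Crest.Agent.R172.RD260

open Matrix Module TensorProduct Crest.Agent.R172.FO Crest.Agent.R172.FrmB Crest.Agent.R172.RD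
open Crest.Agent.R172.Core (NS Tame)

variable {ι : Type*} [Fintype ι] [DecidableEq ι] {δ : Type*} [Fintype δ] [DecidableEq δ]
variable {n : Type*} [Fintype n] [DecidableEq n]
variable {k K : Type*} [Field k] [Field K] [Algebra k K]
variable {M : Type*} [AddCommGroup M] [Module K M]
variable {m : Type*} [Fintype m] [DecidableEq m]

variable {arm : δ → Fin 3} {J : Matrix ι ι K} {B : Matrix δ δ K}
  {N W : Submodule K (Matrix ι δ K)} {F G : Matrix ι δ K} {p : Matrix ι n K}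
  {al : Fin 3 → Matrix n n K} {tau : Matrix n n K}
  {β : LinearMap.BilinForm K M} {T : Module.End K M →ₗ[K] Module.End K M}
  {Ψ : Fin 3 → Module.End K M} {D : Module.End K M} {π : (n → K) →ₗ[K] M}
  {e : m → Matrix n n K} {lam : m → K} {l : Fin 3 → ℕ} {TT : Set k}

theorem mat_ext {A C : Matrix n n K} (h : ∀ y y' : n → K, y ⬝ᵥ (A *ᵥ y') = y ⬝ᵥ (C *ᵥ y')) :
    A = C := by
  ext a b
  have := h (Pi.single a 1) (Pi.single b 1)
  simpa [single_dotProduct, mulVec_single] using this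

theorem ker_iff (h : RDEnd.Cr J p al β π Ψ T) (u : n → K) :
    π u = 0 ↔ (pᵀ * J * p) *ᵥ u = 0 := by
  constructor
  · intro hu
    have h1 : ∀ y : n → K, y ⬝ᵥ ((pᵀ * J * p) *ᵥ u) = 0 := by
      intro y
      rw [← h.form, hu, map_zero]
    funext a
    have := h1 (Pi.single a 1)
    simpa [single_dotProduct] using this
  · intro hu
    apply h.ns.nd
    intro w
    obtain ⟨y, rfl⟩ := h.onto w
    rw [h.ns.symm, h.form, hu, dotProduct_zero]

theorem g_symm (h : RDEnd.Cr J p al β π Ψ T) : (pᵀ * J * p)ᵀ = pᵀ * J * p := by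
  apply mat_ext
  intro y y'
  rw [← h.form, h.ns.symm, h.form, dotProduct_mulVec, vecMul_transpose, dotProduct_comm]

theorem al_adj (h : RDEnd.Cr J p al β π Ψ T) (s : Fin 3) :
    (al s)ᵀ * (pᵀ * J * p) = (pᵀ * J * p) * al s := by
  apply mat_ext
  intro y y'
  rw [← mulVec_mulVec y' (al s)ᵀ (pᵀ * J * p), ← mulVec_mulVec y' (pᵀ * J * p) (al s), ← h.form,
    ← h.op, ← h.sa, h.op, h.form, dotProduct_mulVec, vecMul_transpose]

theorem al_adj_pow (h : RDEnd.Cr J p al β π Ψ T) (s : Fin 3) (a : ℕ) :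
    (al s ^ a)ᵀ * (pᵀ * J * p) = (pᵀ * J * p) * al s ^ a := by
  induction a with
  | zero => simp
  | succ a ih =>
    rw [pow_succ, transpose_mul, Matrix.mul_assoc, ih, ← Matrix.mul_assoc, al_adj h,
      Matrix.mul_assoc, ← pow_succ', ← pow_succ]

theorem op_pow (h : RDEnd.Cr J p al β π Ψ T) (s : Fin 3) (a : ℕ) (y : n → K) :
    π ((al s ^ a) *ᵥ y) = (Ψ s ^ a) (π y) := by
  induction a generalizing y with
  | zero => simp
  | succ a ih =>
    rw [pow_succ, pow_succ, ← mulVec_mulVec, ih, ← h.op]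
    rfl

theorem exists_core (h : RDEnd.Cr J p al β π Ψ T) (g0 : Module.End K M) :
    ∃ Y : Matrix n n K, ∀ u, π (Y *ᵥ ((pᵀ * J * p) *ᵥ u)) = g0 (π u) := by
  obtain ⟨σ, hσ⟩ := π.exists_rightInverse_of_surjective (LinearMap.range_eq_top.2 h.onto)
  obtain ⟨s, hs⟩ := (toLin' (pᵀ * J * p)).rangeRestrict.exists_rightInverse_of_surjective
    (LinearMap.range_rangeRestrict _)
  obtain ⟨G', hG'⟩ := LinearMap.exists_extend s
  refine ⟨LinearMap.toMatrix' (σ ∘ₗ g0 ∘ₗ π ∘ₗ G'), fun u => ?_⟩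
  have e1 : LinearMap.toMatrix' (σ ∘ₗ g0 ∘ₗ π ∘ₗ G') *ᵥ ((pᵀ * J * p) *ᵥ u) =
      σ (g0 (π (G' ((pᵀ * J * p) *ᵥ u)))) := by
    rw [← Matrix.toLin'_apply, Matrix.toLin'_toMatrix']
    rfl
  rw [e1]
  have e2 : π (σ (g0 (π (G' ((pᵀ * J * p) *ᵥ u))))) = g0 (π (G' ((pᵀ * J * p) *ᵥ u))) :=
    LinearMap.congr_fun hσ _
  rw [e2]
  congr 1
  have e3 : G' ((pᵀ * J * p) *ᵥ u) = s ⟨toLin' (pᵀ * J * p) u, LinearMap.mem_range_self _ _⟩ :=
    LinearMap.congr_fun hG' ⟨toLin' (pᵀ * J * p) u, LinearMap.mem_range_self _ _⟩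
  have e4 : toLin' (pᵀ * J * p) (s ⟨toLin' (pᵀ * J * p) u, LinearMap.mem_range_self _ _⟩) =
      toLin' (pᵀ * J * p) u := by
    have := LinearMap.congr_fun hs ⟨toLin' (pᵀ * J * p) u, LinearMap.mem_range_self _ _⟩
    exact congrArg Subtype.val this
  have e5 : π (G' ((pᵀ * J * p) *ᵥ u) - u) = 0 := by
    rw [ker_iff h, mulVec_sub, e3]
    exact sub_eq_zero.2 e4
  rw [map_sub, sub_eq_zero] at e5
  exact e5

theorem lin_mem (Q : Submodule K (Fin 3 → Matrix n n K)) (s : Fin 3) (A C : Matrix n n K)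
    (h : ∀ u v, (Pi.single s (vecMulVec (A *ᵥ u) (C *ᵥ v)) : Fin 3 → Matrix n n K) ∈ Q)
    (Z : Matrix n n K) : (Pi.single s (A * Z * Cᵀ) : Fin 3 → Matrix n n K) ∈ Q := by
  have e1 : A * Z * Cᵀ = ∑ μ, vecMulVec (A *ᵥ Pi.single μ 1) (C *ᵥ (Z μ)) := by
    ext a b
    rw [Matrix.mul_assoc, Matrix.mul_apply, Matrix.sum_apply]
    refine Finset.sum_congr rfl fun μ _ => ?_
    rw [vecMulVec_apply, mulVec_single_one, Matrix.mul_apply]
    congr 1
    rw [mulVec, dotProduct]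
    exact Finset.sum_congr rfl fun ν _ => by rw [transpose_apply, mul_comm]
  rw [e1]
  have e2 : (Pi.single s (∑ μ, vecMulVec (A *ᵥ Pi.single μ 1) (C *ᵥ (Z μ))) :
      Fin 3 → Matrix n n K) =
      ∑ μ, (Pi.single s (vecMulVec (A *ᵥ Pi.single μ 1) (C *ᵥ (Z μ))) : Fin 3 → Matrix n n K) :=
    map_sum (LinearMap.single K (fun _ : Fin 3 => Matrix n n K) s) _ _
  rw [e2]
  exact Q.sum_mem fun μ _ => h _ _

/-- the hypothesis: `halves` -/
def Halves (arm : δ → Fin 3) (J : Matrix ι ι K) (B : Matrix δ δ K)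
    (N W : Submodule K (Matrix ι δ K)) (F : Matrix ι δ K) (p : Matrix ι n K)
    (al : Fin 3 → Matrix n n K) (T : Module.End K M →ₗ[K] Module.End K M)
    (Ψ : Fin 3 → Module.End K M) (π : (n → K) →ₗ[K] M) (e : m → Matrix n n K) (i j : m) : Prop :=
  ∃ S : Set K, S.Finite ∧ ∀ c ∉ S, ∀ (x : Fin 3 → Matrix n n K)
      (b kk : Matrix n n K),
      Dec (pᵀ * J * p) π e i j (fun r => al r) (fun r => c • al r) x b kk →
      RS arm J B N W F p T Ψ π e x (-b) (fun r => kk * al r) ∧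
      RS arm J B N W F p T Ψ π e (fun r => (x r)ᵀ) kk (fun r => -(b * al r))

theorem rel_of_RS {y : Fin 3 → Matrix n n K} {z0 : Matrix n n K} {μ0 : Fin 3 → Matrix n n K}
    (h : RS arm J B N W F p T Ψ π e y z0 μ0) : y ∈ RDEnd.Rel arm J N W F p π T 0 Ψ := by
  obtain ⟨w, z, μ, h1, h2, h3, -, ⟨zb, h5, h6⟩, -, -⟩ := h
  exact ⟨w, z, zb, h1, h2, h3, h5, h6⟩

/-- the block -/
abbrev PB (e : m → Matrix n n K) (i : m) : Submodule K (n → K) := LinearMap.range (toLin' (e i))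

theorem mem_PB (h : Fr k arm J B N W F G p al tau β T Ψ D π e lam l TT) {i : m} {v : n → K} :
    v ∈ PB e i ↔ e i *ᵥ v = v := by
  constructor
  · rintro ⟨u, rfl⟩
    rw [toLin'_apply, mulVec_mulVec, h.idem]
  · intro hv
    exact ⟨v, by rw [toLin'_apply, hv]⟩

theorem al_PB (h : Fr k arm J B N W F G p al tau β T Ψ D π e lam l TT) (i : m) (s : Fin 3) :
    ∀ v ∈ PB e i, toLin' (al s) v ∈ PB e i := by
  intro v hv
  rw [mem_PB h] at hv ⊢
  rw [toLin'_apply, mulVec_mulVec, h.eal, ← mulVec_mulVec, hv]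

/-- the operators of the block -/
noncomputable def AB (h : Fr k arm J B N W F G p al tau β T Ψ D π e lam l TT) (i : m) (s : Fin 3) :
    Module.End K (PB e i) := (toLin' (al s)).restrict (al_PB h i s)

theorem AB_coe (h : Fr k arm J B N W F G p al tau β T Ψ D π e lam l TT) (i : m) (s : Fin 3)
    (v : PB e i) : ((AB h i s v : PB e i) : n → K) = al s *ᵥ (v : n → K) := rfl

theorem AB_pow (h : Fr k arm J B N W F G p al tau β T Ψ D π e lam l TT) (i : m) (s : Fin 3)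
    (a : ℕ) (v : PB e i) :
    (((AB h i s ^ a) v : PB e i) : n → K) = (al s ^ a) *ᵥ (v : n → K) := by
  induction a generalizing v with
  | zero => simp
  | succ a ih =>
    rw [pow_succ, pow_succ, Module.End.mul_apply, ih, AB_coe, mulVec_mulVec]

theorem AB_list (h : Fr k arm J B N W F G p al tau β T Ψ D π e lam l TT) (i : m)
    (w : List (Fin 3)) (v : PB e i) :
    (((w.map (AB h i)).prod v : PB e i) : n → K) = (w.map al).prod *ᵥ (v : n → K) := by
  induction w with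
  | nil => simp
  | cons a w ih =>
    rw [List.map_cons, List.prod_cons, List.map_cons, List.prod_cons, Module.End.mul_apply,
      AB_coe, ih, mulVec_mulVec]

/-- the radical of the block -/
noncomputable def RB (π : (n → K) →ₗ[K] M) (e : m → Matrix n n K) (i : m) :
    Submodule K (PB e i) := LinearMap.ker (π ∘ₗ (PB e i).subtype)

theorem mem_RB {i : m} {v : PB e i} : v ∈ RB π e i ↔ π (v : n → K) = 0 := Iff.rfl

theorem AB_perf (h : Fr k arm J B N W F G p al tau β T Ψ D π e lam l TT) (i : m) (v : PB e i) :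
    ∃ f : Fin 3 → PB e i, v = ∑ t, AB h i t (f t) := by
  obtain ⟨ρ, hρ⟩ := h.ctx.perf
  refine ⟨fun t => ⟨e i *ᵥ (ρ t *ᵥ (v : n → K)), ⟨_, rfl⟩⟩, Subtype.ext ?_⟩
  rw [AddSubmonoidClass.coe_finsetSum]
  have e1 : ∀ t, ((AB h i t ⟨e i *ᵥ (ρ t *ᵥ (v : n → K)), ⟨_, rfl⟩⟩ : PB e i) : n → K) =
      e i *ᵥ ((al t * ρ t) *ᵥ (v : n → K)) := by
    intro t
    rw [AB_coe, mulVec_mulVec, ← h.eal, ← mulVec_mulVec, mulVec_mulVec _ (al t) (ρ t)]
  rw [Finset.sum_congr rfl fun t _ => e1 t, ← mulVec_sum, ← sum_mulVec, hρ, one_mulVec]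
  exact ((mem_PB h).1 v.2).symm

theorem AB_rad (h : Fr k arm J B N W F G p al tau β T Ψ D π e lam l TT) (i : m) (t : Fin 3) :
    ∀ r ∈ RB π e i, AB h i t r ∈ RB π e i := by
  intro r hr
  rw [mem_RB] at hr ⊢
  rw [AB_coe, ← h.cr.op, hr, map_zero]

theorem AB_kill (h : Fr k arm J B N W F G p al tau β T Ψ D π e lam l TT) (i : m) :
    ∃ N0, ∀ r ∈ RB π e i, Dual.Kills (AB h i) N0 r := by
  obtain ⟨m0, hm0⟩ := h.kill
  refine ⟨m0, fun r hr w hw => Subtype.ext ?_⟩
  rw [AB_list]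
  exact hm0 w hw _ (mem_RB.1 hr)

theorem AB_l (h : Fr k arm J B N W F G p al tau β T Ψ D π e lam l TT) (i : m) (s : Fin 3)
    (v : PB e i) : (AB h i s ^ l s) v ∈ RB π e i := by
  rw [mem_RB, AB_pow, op_pow h.cr, h.lnil]
  rfl

theorem AB_gen (h : Fr k arm J B N W F G p al tau β T Ψ D π e lam l TT) (i : m)
    (S : Submodule K (PB e i)) (h1 : ∀ s p, (AB h i s ^ l s) p ∈ S)
    (h2 : ∀ t, ∀ r ∈ S, AB h i t r ∈ S) : RB π e i ≤ S := by
  intro r hr
  have h3 := h.gen i (S.map (PB e i).subtype) (by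
    rintro s _ ⟨v, hv, rfl⟩
    exact ⟨AB h i s v, h2 s v hv, rfl⟩) (by
    intro s u
    exact ⟨(AB h i s ^ l s) ⟨e i *ᵥ u, ⟨u, rfl⟩⟩, h1 s _, AB_pow h i s (l s) _⟩) (r : n → K) (by
    rw [(mem_PB h).1 r.2]; exact mem_RB.1 hr)
  rw [(mem_PB h).1 r.2] at h3
  obtain ⟨v, hv, hv2⟩ := h3
  have : v = r := Subtype.ext hv2
  rwa [← this]

/-- the matrix of a tensor -/
noncomputable def mt (e : m → Matrix n n K) (i j : m) :
    (PB e j) ⊗[K] (PB e i) →ₗ[K] Matrix n n K :=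
  TensorProduct.lift (LinearMap.mk₂ K (fun (u : PB e j) (v : PB e i) =>
    vecMulVec (u : n → K) (v : n → K))
    (fun u u' v => by ext; simp [vecMulVec_apply, add_mul])
    (fun c u v => by ext; simp [vecMulVec_apply, mul_assoc])
    (fun u v v' => by ext; simp [vecMulVec_apply, mul_add])
    (fun c u v => by ext; simp [vecMulVec_apply, mul_left_comm]))

theorem mt_tmul {i j : m} (u : PB e j) (v : PB e i) :
    mt e i j (u ⊗ₜ v) = vecMulVec (u : n → K) (v : n → K) := by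
  simp [mt]

/-- `q t u v = u ⊗ v` at the arm `t` -/
noncomputable def qq (e : m → Matrix n n K) (i j : m) (t : Fin 3) :
    (PB e j) →ₗ[K] (PB e i) →ₗ[K] (Fin 3 → Matrix n n K) :=
  (TensorProduct.mk K (PB e j) (PB e i)).compr₂
    ((LinearMap.single K (fun _ : Fin 3 => Matrix n n K) t) ∘ₗ mt e i j)

theorem qq_apply {i j : m} (t : Fin 3) (u : PB e j) (v : PB e i) :
    qq e i j t u v = Pi.single t (vecMulVec (u : n → K) (v : n → K)) := by
  simp [qq, mt_tmul]

theorem lift_qq {i j : m} (t : Fin 3) (x : (PB e j) ⊗[K] (PB e i)) :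
    TensorProduct.lift (qq e i j t) x = Pi.single t (mt e i j x) := by
  induction x using TensorProduct.induction_on with
  | zero => simp
  | tmul u v => rw [TensorProduct.lift.tmul, qq_apply, mt_tmul]
  | add x y hx hy => rw [map_add, map_add, hx, hy, Pi.single_add]

theorem mt_blk (h : Fr k arm J B N W F G p al tau β T Ψ D π e lam l TT) {i j : m}
    (x : (PB e j) ⊗[K] (PB e i)) : e j * mt e i j x * (e i)ᵀ = mt e i j x := by
  induction x using TensorProduct.induction_on with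
  | zero => simp
  | tmul u v =>
    rw [mt_tmul, mul_vecMulVec, vecMulVec_mul, vecMul_transpose, (mem_PB h).1 u.2,
      (mem_PB h).1 v.2]
  | add x y hx hy => rw [map_add, Matrix.mul_add, Matrix.add_mul, hx, hy]

theorem mt_l (h : Fr k arm J B N W F G p al tau β T Ψ D π e lam l TT) {i j : m} (t : Fin 3)
    (x : (PB e j) ⊗[K] (PB e i)) :
    mt e i j (LinearMap.lTensor _ (AB h i t) x) = mt e i j x * (al t)ᵀ := by
  induction x using TensorProduct.induction_on with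
  | zero => simp
  | tmul u v =>
    rw [LinearMap.lTensor_tmul, mt_tmul, mt_tmul, vecMulVec_mul, vecMul_transpose, AB_coe]
  | add x y hx hy => rw [map_add, map_add, map_add, Matrix.add_mul, hx, hy]

theorem mt_r (h : Fr k arm J B N W F G p al tau β T Ψ D π e lam l TT) {i j : m} (t : Fin 3)
    (x : (PB e j) ⊗[K] (PB e i)) :
    mt e i j (LinearMap.rTensor _ (AB h j t) x) = al t * mt e i j x := by
  induction x using TensorProduct.induction_on with
  | zero => simp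
  | tmul u v => rw [LinearMap.rTensor_tmul, mt_tmul, mt_tmul, mul_vecMulVec, AB_coe]
  | add x y hx hy => rw [map_add, map_add, map_add, Matrix.mul_add, hx, hy]

theorem mt_rad (h : Fr k arm J B N W F G p al tau β T Ψ D π e lam l TT) {i j : m}
    (x : (PB e j) ⊗[K] (PB e i)) (hx : x ∈ Dual.Rad (RB π e i) (RB π e j)) :
    (pᵀ * J * p) * mt e i j x * (pᵀ * J * p) = 0 := by
  have hle : Dual.Rad (RB π e i) (RB π e j) ≤ LinearMap.ker
      ((LinearMap.mulRight K (pᵀ * J * p)) ∘ₗ (LinearMap.mulLeft K (pᵀ * J * p)) ∘ₗ mt e i j) := by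
    refine sup_le ?_ ?_ <;> rw [Submodule.span_le]
    · rintro _ ⟨r, hr, v, rfl⟩
      have h0 : (pᵀ * J * p) *ᵥ (r : n → K) = 0 := (ker_iff h.cr _).1 (mem_RB.1 hr)
      simp only [SetLike.mem_coe, LinearMap.mem_ker, LinearMap.comp_apply, mt_tmul,
        LinearMap.mulLeft_apply, LinearMap.mulRight_apply]
      rw [mul_vecMulVec, h0]
      ext; simp [vecMulVec_apply]
    · rintro _ ⟨u, r, hr, rfl⟩
      have h0 : (pᵀ * J * p) *ᵥ (r : n → K) = 0 := (ker_iff h.cr _).1 (mem_RB.1 hr)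
      simp only [SetLike.mem_coe, LinearMap.mem_ker, LinearMap.comp_apply, mt_tmul,
        LinearMap.mulLeft_apply, LinearMap.mulRight_apply]
      have h1 : (r : n → K) ᵥ* (pᵀ * J * p) = 0 := by
        rw [← mulVec_transpose, g_symm h.cr, h0]
      rw [mul_vecMulVec, vecMulVec_mul, h1]
      ext; simp [vecMulVec_apply]
  exact hle hx

theorem key [CharZero K] (h : Fr k arm J B N W F G p al tau β T Ψ D π e lam l TT) {i j : m}
    (hij : i ≠ j) (hh : Halves arm J B N W F p al T Ψ π e i j) :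
    (∀ s a b, a + b + 1 = l s → ∀ u v : n → K,
      (Pi.single s (vecMulVec ((al s ^ b) *ᵥ (e j *ᵥ u)) ((al s ^ a) *ᵥ (e i *ᵥ v))) :
        Fin 3 → Matrix n n K) ∈ RDEnd.Rel arm J N W F p π T 0 Ψ) ∧
    (∀ s, ∀ r, π (e j *ᵥ r) = 0 → ∀ v,
      (Pi.single s (vecMulVec (e j *ᵥ r) (e i *ᵥ v)) : Fin 3 → Matrix n n K) ∈
        RDEnd.Rel arm J N W F p π T 0 Ψ) ∧
    (∀ s, ∀ r, π (e i *ᵥ r) = 0 → ∀ u,
      (Pi.single s (vecMulVec (e j *ᵥ u) (e i *ᵥ r)) : Fin 3 → Matrix n n K) ∈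
        RDEnd.Rel arm J N W F p π T 0 Ψ) := by
  obtain ⟨S, hS, hh⟩ := hh
  have hΛ : ((S ∪ {0})ᶜ : Set K).Infinite := (hS.union (Set.finite_singleton 0)).infinite_compl
  have h0 : (0 : K) ∉ ((S ∪ {0})ᶜ : Set K) := fun h => h (Or.inr rfl)
  have H := Dual.span_exact (A := AB h i) (B := AB h j) (R1 := RB π e i) (R2 := RB π e j)
    (l := l) hΛ h0 (AB_perf h i) (AB_perf h j) (AB_rad h i) (AB_rad h j) (AB_kill h i)
    (AB_kill h j) (AB_l h i) (AB_l h j) (AB_gen h i) (AB_gen h j) (qq e i j)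
    (RDEnd.Rel arm J N W F p π T 0 Ψ) (by
      intro c hc x hx
      obtain ⟨hx1, hx2⟩ := hx
      have hc0 : c ≠ 0 := fun h => hc (Or.inr h)
      have hcS : c ∉ S := fun h => hc (Or.inl h)
      have hdef : ∀ t z, mt e i j (Dual.defect (AB h i t) (AB h j t) c z) =
          mt e i j z * (al t)ᵀ - c • (al t * mt e i j z) := by
        intro t z
        have e0 : Dual.defect (AB h i t) (AB h j t) c z =
            LinearMap.lTensor _ (AB h i t) z - c • LinearMap.rTensor _ (AB h j t) z := rfl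
        rw [e0, map_sub, map_smul, mt_l, mt_r]
      have e1 : ∑ r, (mt e i j (x r) * (al r)ᵀ - c • (al r * mt e i j (x r))) = 0 := by
        rw [← Finset.sum_congr rfl fun t _ => hdef t (x t), ← map_sum, hx1, map_zero]
      have e2 : ∀ r, (pᵀ * J * p) * (mt e i j (x r) * (al r)ᵀ - c • (al r * mt e i j (x r))) *
          (pᵀ * J * p) = 0 := by
        intro r
        rw [← hdef]
        exact mt_rad h _ (hx2 r)
      obtain ⟨b, kk, hb, hk, hb0, hk0, hb1, hk1⟩ := h.hexS i j hij c hc0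
        (fun r => mt e i j (x r)) (fun r => mt_blk h _) e1 e2
      have hD : Dec (pᵀ * J * p) π e i j (fun r => al r) (fun r => c • al r)
          (fun r => mt e i j (x r)) b kk := by
        refine ⟨fun r => mt_blk h _, hb, hk, hb0, hk0, ?_, ?_, ?_, ?_⟩
        · simpa only [smul_mul] using e1
        · intro r; simpa only [smul_mul] using e2 r
        · intro r; simpa only [Matrix.mul_smul] using hb1 r
        · intro r; simpa only [smul_mul] using hk1 r
      have e3 := rel_of_RS (hh c hcS _ b kk hD).1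
      have e4 : ∑ t, TensorProduct.lift (qq e i j t) (x t) = fun r => mt e i j (x r) := by
        rw [Finset.sum_congr rfl fun t _ => lift_qq t (x t)]
        exact Finset.univ_sum_single _
      rw [e4]
      exact e3)
  refine ⟨?_, ?_, ?_⟩
  · intro s a b hab u v
    have := H.1 s a b hab ⟨e j *ᵥ u, ⟨u, rfl⟩⟩ ⟨e i *ᵥ v, ⟨v, rfl⟩⟩
    rwa [qq_apply, AB_pow, AB_pow] at this
  · intro s r hr v
    have := H.2.1 s ⟨e j *ᵥ r, ⟨r, rfl⟩⟩ hr ⟨e i *ᵥ v, ⟨v, rfl⟩⟩
    rwa [qq_apply] at this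
  · intro s r hr u
    have := H.2.2 s ⟨e i *ᵥ r, ⟨r, rfl⟩⟩ hr ⟨e j *ᵥ u, ⟨u, rfl⟩⟩
    rwa [qq_apply] at this


theorem pi_e (h : Fr k arm J B N W F G p al tau β T Ψ D π e lam l TT) (i : m) {u : n → K}
    (hu : π u = 0) : π (e i *ᵥ u) = 0 := by
  rw [ker_iff h.cr] at hu ⊢
  rw [mulVec_mulVec, ← h.eg, ← mulVec_mulVec, hu, mulVec_zero]

/-- tensors with zero core map -/
theorem zero_core [CharZero K] (h : Fr k arm J B N W F G p al tau β T Ψ D π e lam l TT) {i j : m}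
    (hij : i ≠ j) (hh : Halves arm J B N W F p al T Ψ π e i j) (s : Fin 3) (Y : Matrix n n K)
    (hY : e j * Y * (e i)ᵀ = Y) (h0 : ∀ u, π (Y *ᵥ ((pᵀ * J * p) *ᵥ u)) = 0) :
    (Pi.single s Y : Fin 3 → Matrix n n K) ∈ RDEnd.Rel arm J N W F p π T 0 Ψ := by
  obtain ⟨-, K2, K3⟩ := key h hij hh
  obtain ⟨H, hH⟩ := exists_core h.cr (1 : Module.End K M)
  have hYi : Y * (e i)ᵀ = Y := by
    calc Y * (e i)ᵀ = e j * Y * (e i)ᵀ * (e i)ᵀ := by rw [hY]
      _ = e j * Y * ((e i) * (e i))ᵀ := by rw [transpose_mul, Matrix.mul_assoc (e j * Y)]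
      _ = Y := by rw [h.idem, hY]
  have hYj : e j * Y = Y := by
    calc e j * Y = e j * (e j * Y * (e i)ᵀ) := by rw [hY]
      _ = (e j * e j) * Y * (e i)ᵀ := by simp only [Matrix.mul_assoc]
      _ = Y := by rw [h.idem, hY]
  have hg := g_symm h.cr
  have e1 : Y = e j * Y * (e i * (1 - H * (pᵀ * J * p)))ᵀ +
      (e j * (Y * (pᵀ * J * p))) * 1 * (e i * H)ᵀ := by
    rw [transpose_mul, transpose_sub, transpose_one, transpose_mul H, hg, transpose_mul (e i) H,
      Matrix.mul_one]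
    have : e j * Y * ((1 - (pᵀ * J * p) * Hᵀ) * (e i)ᵀ) + e j * (Y * (pᵀ * J * p)) * (Hᵀ * (e i)ᵀ) =
        e j * Y * (e i)ᵀ := by
      rw [Matrix.sub_mul, Matrix.one_mul, Matrix.mul_sub]
      simp only [Matrix.mul_assoc]
      abel
    rw [this, hY]
  have e2 : (Pi.single s Y : Fin 3 → Matrix n n K) =
      (Pi.single s (e j * Y * (e i * (1 - H * (pᵀ * J * p)))ᵀ) : Fin 3 → Matrix n n K) +
        (Pi.single s ((e j * (Y * (pᵀ * J * p))) * 1 * (e i * H)ᵀ) : Fin 3 → Matrix n n K) := by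
    rw [← Pi.single_add, ← e1]
  rw [e2]
  refine Submodule.add_mem _ (lin_mem _ s _ _ ?_ Y) (lin_mem _ s _ _ ?_ 1)
  · intro u v
    rw [← mulVec_mulVec v (e i)]
    apply K3
    apply pi_e h
    rw [sub_mulVec, one_mulVec, map_sub, ← mulVec_mulVec v H, hH, Module.End.one_apply, sub_self]
  · intro u v
    rw [← mulVec_mulVec u (e j), ← mulVec_mulVec v (e i)]
    apply K2
    apply pi_e h
    rw [← mulVec_mulVec u Y]
    exact h0 u

/-- **RD4** -/
theorem offdiag_of [CharZero K] (h : Fr k arm J B N W F G p al tau β T Ψ D π e lam l TT)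
    {i j : m} (hij : i ≠ j) (hh : Halves arm J B N W F p al T Ψ π e i j) (s : Fin 3)
    (y : Matrix n n K) (hy : e j * y * (e i)ᵀ = y) (hf : Fil (pᵀ * J * p) π Ψ s y) :
    (Pi.single s y : Fin 3 → Matrix n n K) ∈ RDEnd.Rel arm J N W F p π T 0 Ψ := by
  haveI : FiniteDimensional K M := Module.Finite.of_surjective π h.cr.onto
  obtain ⟨yb, hyb, hfil⟩ := hf
  obtain ⟨K1, -, -⟩ := key h hij hh
  have hg := g_symm h.cr
  let U : Submodule K (M →ₗ[K] M) :=
    { carrier := {z | ∃ Y : Matrix n n K, (∀ u, π (Y *ᵥ ((pᵀ * J * p) *ᵥ u)) = z (π u)) ∧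
        (Pi.single s (e j * Y * (e i)ᵀ) : Fin 3 → Matrix n n K) ∈ RDEnd.Rel arm J N W F p π T 0 Ψ}
      add_mem' := by
        rintro z z' ⟨Y, h1, h2⟩ ⟨Y', h1', h2'⟩
        refine ⟨Y + Y', fun u => ?_, ?_⟩
        · rw [add_mulVec, map_add, h1, h1', LinearMap.add_apply]
        · rw [Matrix.mul_add, Matrix.add_mul, Pi.single_add]
          exact Submodule.add_mem _ h2 h2'
      zero_mem' := by
        refine ⟨0, fun u => ?_, ?_⟩
        · rw [zero_mulVec, map_zero, LinearMap.zero_apply]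
        · rw [Matrix.mul_zero, Matrix.zero_mul, Pi.single_zero]
          exact Submodule.zero_mem _
      smul_mem' := by
        rintro c z ⟨Y, h1, h2⟩
        refine ⟨c • Y, fun u => ?_, ?_⟩
        · rw [smul_mulVec, map_smul, h1, LinearMap.smul_apply]
        · rw [Matrix.mul_smul, Matrix.smul_mul, Pi.single_smul]
          exact Submodule.smul_mem _ _ h2 }
  have hU : yb ∈ U := by
    refine AV.filt_span (φ₁ := Ψ s) (φ₂ := Ψ s) (l := l s) (h.lnil s) (h.free s) (h.lpos s) U ?_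
      (y := yb) ?_
    · intro a ha g0
      obtain ⟨Y0, hY0⟩ := exists_core h.cr g0
      refine ⟨al s ^ a * Y0 * (al s ^ (l s - 1 - a))ᵀ, fun u => ?_, ?_⟩
      · have e1 : (al s ^ a * Y0 * (al s ^ (l s - 1 - a))ᵀ) *ᵥ ((pᵀ * J * p) *ᵥ u) =
            (al s ^ a) *ᵥ (Y0 *ᵥ ((pᵀ * J * p) *ᵥ ((al s ^ (l s - 1 - a)) *ᵥ u))) := by
          rw [← mulVec_mulVec, mulVec_mulVec u _ (pᵀ * J * p), al_adj_pow h.cr,
            ← mulVec_mulVec u, ← mulVec_mulVec]
        rw [e1, op_pow h.cr, hY0, op_pow h.cr]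
        rfl
      · have e1 : e j * (al s ^ a * Y0 * (al s ^ (l s - 1 - a))ᵀ) * (e i)ᵀ =
            (e j * al s ^ a) * Y0 * (e i * al s ^ (l s - 1 - a))ᵀ := by
          rw [transpose_mul]
          simp only [Matrix.mul_assoc]
        rw [e1]
        apply lin_mem
        intro u v
        have hc : ∀ (i : m) (b : ℕ), e i * al s ^ b = al s ^ b * e i := fun i b =>
          ((show Commute (e i) (al s) from h.eal i s).pow_right b).eq
        rw [hc, hc, ← mulVec_mulVec, ← mulVec_mulVec]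
        exact K1 s (l s - 1 - a) a (by omega) u v
    · intro a v hv
      obtain ⟨v', rfl⟩ := hv
      obtain ⟨v'', hv''⟩ := hfil a v'
      exact ⟨v'', hv''.symm⟩
  obtain ⟨Y, hY1, hY2⟩ := hU
  have e1 : (Pi.single s y : Fin 3 → Matrix n n K) =
      (Pi.single s (y - e j * Y * (e i)ᵀ) : Fin 3 → Matrix n n K) +
        (Pi.single s (e j * Y * (e i)ᵀ) : Fin 3 → Matrix n n K) := by
    rw [← Pi.single_add, sub_add_cancel]
  rw [e1]
  refine Submodule.add_mem _ (zero_core h hij hh s _ ?_ ?_) hY2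
  · rw [Matrix.mul_sub, Matrix.sub_mul, hy]
    congr 1
    calc e j * (e j * Y * (e i)ᵀ) * (e i)ᵀ = (e j * e j) * Y * ((e i) * (e i))ᵀ := by
          rw [transpose_mul]; simp only [Matrix.mul_assoc]
      _ = e j * Y * (e i)ᵀ := by rw [h.idem, h.idem]
  · intro u
    have h1 : (e j * Y * (e i)ᵀ) *ᵥ ((pᵀ * J * p) *ᵥ u) =
        e j *ᵥ (Y *ᵥ ((pᵀ * J * p) *ᵥ (e i *ᵥ u))) := by
      rw [mulVec_mulVec u (e j * Y * (e i)ᵀ), Matrix.mul_assoc (e j * Y), h.eg, ← Matrix.mul_assoc,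
        Matrix.mul_assoc (e j)]
      simp only [← mulVec_mulVec, Matrix.mul_assoc]
    have h2 : y *ᵥ ((pᵀ * J * p) *ᵥ u) = e j *ᵥ (y *ᵥ ((pᵀ * J * p) *ᵥ (e i *ᵥ u))) := by
      conv_lhs => rw [← hy]
      rw [mulVec_mulVec u (e j * y * (e i)ᵀ), Matrix.mul_assoc (e j * y), h.eg, ← Matrix.mul_assoc,
        Matrix.mul_assoc (e j)]
      simp only [← mulVec_mulVec, Matrix.mul_assoc]
    rw [sub_mulVec, h1, h2, ← mulVec_sub]
    apply pi_e h
    rw [map_sub, hyb, hY1, sub_self]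

end Crest.Agent.R172.RD260
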