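import Crest.Agent.R172.RD0
import Crest.Agent.R172.Dual1
import Crest.Agent.R172.SpEx

/-!
Row 172 (S0260), (T0), RD4: every off-diagonal filtered single-arm tensor is good
(from `halves` and `hexS`).
-/

set_option autoImplicit false
set_option linter.unusedSectionVars false

namespace Crest.Agent.R172.RD.C680

open Matrix Module TensorProduct Crest.Agent.R172.FO Crest.Agent.R172.FrmB
open Crest.Agent.R172.Core (NS Tame)
open Crest.Agent.R172.PL (Wk)

variable {ι : Type*} [Fintype ι] [DecidableEq ι] {δ : Type*} [Fintype δ] [DecidableEq δ]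
variable {n : Type*} [Fintype n] [DecidableEq n]
variable {k K : Type*} [Field k] [Field K] [Algebra k K]
variable {M : Type*} [AddCommGroup M] [Module K M]
variable {m : Type*} [Fintype m] [DecidableEq m]

/-! ### blocks of `n → K` -/

/-- the block of the idempotent `e` -/
def Blk (e : Matrix n n K) : Submodule K (n → K) := LinearMap.range (Matrix.toLin' e)

theorem mem_Blk {e : Matrix n n K} (he : e * e = e) {v : n → K} : v ∈ Blk e ↔ e *ᵥ v = v := by
  constructor
  · rintro ⟨u, rfl⟩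
    rw [Matrix.toLin'_apply, Matrix.mulVec_mulVec, he]
  · intro h
    exact ⟨v, by rw [Matrix.toLin'_apply, h]⟩

theorem mul_mem_Blk {e A : Matrix n n K} (he : e * e = e) (hA : e * A = A * e) {v : n → K}
    (hv : v ∈ Blk e) : A *ᵥ v ∈ Blk e := by
  rw [mem_Blk he] at hv ⊢
  rw [Matrix.mulVec_mulVec, hA, ← Matrix.mulVec_mulVec, hv]

theorem e_mem_Blk (e : Matrix n n K) (v : n → K) : e *ᵥ v ∈ Blk e :=
  ⟨v, by rw [Matrix.toLin'_apply]⟩

/-- restriction of a matrix to a block -/
noncomputable def res (e A : Matrix n n K) (he : e * e = e) (hA : e * A = A * e) :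
    End K (Blk e) :=
  (Matrix.toLin' A).restrict (p := Blk e) (q := Blk e)
    (fun v hv => by rw [Matrix.toLin'_apply]; exact mul_mem_Blk he hA hv)

theorem res_coe {e A : Matrix n n K} (he : e * e = e) (hA : e * A = A * e) (v : Blk e) :
    ((res e A he hA v : Blk e) : n → K) = A *ᵥ (v : n → K) := by
  unfold res
  rw [LinearMap.coe_restrict_apply, Matrix.toLin'_apply]

theorem res_pow {e A : Matrix n n K} (he : e * e = e) (hA : e * A = A * e) (a : ℕ) (v : Blk e) :
    (((res e A he hA ^ a) v : Blk e) : n → K) = (A ^ a) *ᵥ (v : n → K) := by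
  induction a with
  | zero => simp
  | succ a ih =>
    rw [pow_succ', Module.End.mul_apply, res_coe, ih, Matrix.mulVec_mulVec, ← pow_succ']

theorem res_word {e : Matrix n n K} {A : Fin 3 → Matrix n n K} (he : e * e = e)
    (hA : ∀ s, e * A s = A s * e) (w : List (Fin 3)) (v : Blk e) :
    ((((w.map fun s => res e (A s) he (hA s)).prod) v : Blk e) : n → K) =
      (w.map A).prod *ᵥ (v : n → K) := by
  induction w with
  | nil => simp
  | cons s w ih =>
    rw [List.map_cons, List.prod_cons, Module.End.mul_apply, res_coe, ih, Matrix.mulVec_mulVec,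
      List.map_cons, List.prod_cons]

/-- the matrix of a tensor of two blocks -/
noncomputable def mat (e e' : Matrix n n K) : (Blk e) ⊗[K] (Blk e') →ₗ[K] Matrix n n K :=
  TensorProduct.lift (LinearMap.mk₂ K (fun u v => vecMulVec (u : n → K) (v : n → K))
    (fun a b c => by rw [Submodule.coe_add, add_vecMulVec])
    (fun a b c => by rw [Submodule.coe_smul, smul_vecMulVec])
    (fun a b c => by rw [Submodule.coe_add, vecMulVec_add])
    (fun a b c => by rw [Submodule.coe_smul, vecMulVec_smul]))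

@[simp] theorem mat_tmul (e e' : Matrix n n K) (u : Blk e) (v : Blk e') :
    mat e e' (u ⊗ₜ[K] v) = vecMulVec (u : n → K) (v : n → K) := by
  simp [mat]

theorem mat_left {e e' A : Matrix n n K} (he : e * e = e) (hA : e * A = A * e)
    (x : (Blk e) ⊗[K] (Blk e')) :
    mat e e' ((res e A he hA).rTensor _ x) = A * mat e e' x := by
  induction x using TensorProduct.induction_on with
  | zero => simp
  | tmul u v =>
    rw [LinearMap.rTensor_tmul, mat_tmul, mat_tmul, res_coe, Matrix.mul_vecMulVec]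
  | add a b ha hb => rw [map_add, map_add, ha, hb, map_add, Matrix.mul_add]

theorem mat_right {e e' A : Matrix n n K} (he : e' * e' = e') (hA : e' * A = A * e')
    (x : (Blk e) ⊗[K] (Blk e')) :
    mat e e' ((res e' A he hA).lTensor _ x) = mat e e' x * Aᵀ := by
  induction x using TensorProduct.induction_on with
  | zero => simp
  | tmul u v =>
    rw [LinearMap.lTensor_tmul, mat_tmul, mat_tmul, res_coe, Matrix.vecMulVec_mul,
      Matrix.vecMul_transpose]
  | add a b ha hb => rw [map_add, map_add, ha, hb, map_add, Matrix.add_mul]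

theorem mat_blk {e e' : Matrix n n K} (he : e * e = e) (he' : e' * e' = e')
    (x : (Blk e) ⊗[K] (Blk e')) : e * mat e e' x * e'ᵀ = mat e e' x := by
  induction x using TensorProduct.induction_on with
  | zero => simp
  | tmul u v =>
    rw [mat_tmul, Matrix.mul_vecMulVec, Matrix.vecMulVec_mul, Matrix.vecMul_transpose,
      (mem_Blk he).1 u.2, (mem_Blk he').1 v.2]
  | add a b ha hb => rw [map_add, Matrix.mul_add, Matrix.add_mul, ha, hb]

/-! ### facts of a frame -/

section facts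

variable {arm : δ → Fin 3} {J : Matrix ι ι K} {B : Matrix δ δ K}
  {N W : Submodule K (Matrix ι δ K)} {F G : Matrix ι δ K} {p : Matrix ι n K}
  {al : Fin 3 → Matrix n n K} {tau : Matrix n n K}
  {β : LinearMap.BilinForm K M} {T : Module.End K M →ₗ[K] Module.End K M}
  {Ψ : Fin 3 → Module.End K M} {D : Module.End K M} {π : (n → K) →ₗ[K] M}
  {e : m → Matrix n n K} {lam : m → K} {l : Fin 3 → ℕ} {TT : Set k}

theorem g_symm (h : Fr k arm J B N W F G p al tau β T Ψ D π e lam l TT) :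
    (pᵀ * J * p)ᵀ = pᵀ * J * p := by
  rw [transpose_mul, transpose_mul, transpose_transpose, h.ctx.data.J_symm, Matrix.mul_assoc]

theorem g_mulVec (h : Fr k arm J B N W F G p al tau β T Ψ D π e lam l TT) {r : n → K}
    (hr : π r = 0) : (pᵀ * J * p) *ᵥ r = 0 := by
  funext a
  have h1 := h.cr.form (Pi.single a 1) r
  rw [hr, map_zero, single_one_dotProduct] at h1
  rw [← h1, Pi.zero_apply]

theorem vecMul_g (h : Fr k arm J B N W F G p al tau β T Ψ D π e lam l TT) {r : n → K}
    (hr : π r = 0) : r ᵥ* (pᵀ * J * p) = 0 := by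
  rw [← Matrix.mulVec_transpose, g_symm h, g_mulVec h hr]

theorem pi_e (h : Fr k arm J B N W F G p al tau β T Ψ D π e lam l TT) (i : m) {r : n → K}
    (hr : π r = 0) : π (e i *ᵥ r) = 0 := by
  apply h.cr.ns.nd
  intro v
  obtain ⟨u, rfl⟩ := h.cr.onto v
  rw [h.cr.form, RDEnd.dt, Matrix.mulVec_mulVec, h.eg i, ← Matrix.mulVec_mulVec, ← h.cr.form, hr,
    map_zero, LinearMap.zero_apply]

theorem pi_pow (h : Fr k arm J B N W F G p al tau β T Ψ D π e lam l TT) (s : Fin 3) (a : ℕ)
    (u : n → K) : π ((al s ^ a) *ᵥ u) = (Ψ s ^ a) (π u) := by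
  induction a generalizing u with
  | zero => simp
  | succ a ih =>
    rw [pow_succ, ← Matrix.mulVec_mulVec, ih, ← h.cr.op, pow_succ, Module.End.mul_apply]

/-- the operators of a block -/
noncomputable def AA (h : Fr k arm J B N W F G p al tau β T Ψ D π e lam l TT) (i : m)
    (s : Fin 3) : End K (Blk (e i)) := res (e i) (al s) (h.idem i) (h.eal i s)

theorem AA_coe (h : Fr k arm J B N W F G p al tau β T Ψ D π e lam l TT) (i : m) (s : Fin 3)
    (v : Blk (e i)) : ((AA h i s v : Blk (e i)) : n → K) = al s *ᵥ (v : n → K) := res_coe _ _ _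

theorem AA_pow (h : Fr k arm J B N W F G p al tau β T Ψ D π e lam l TT) (i : m) (s : Fin 3)
    (a : ℕ) (v : Blk (e i)) :
    (((AA h i s ^ a) v : Blk (e i)) : n → K) = (al s ^ a) *ᵥ (v : n → K) := res_pow _ _ _ _

/-- the radical of a block -/
def RR (π : (n → K) →ₗ[K] M) (e : Matrix n n K) : Submodule K (Blk e) :=
  LinearMap.ker (π ∘ₗ (Blk e).subtype)

theorem mem_RR {e : Matrix n n K} {v : Blk e} : v ∈ RR π e ↔ π (v : n → K) = 0 := Iff.rfl

theorem AA_perf (h : Fr k arm J B N W F G p al tau β T Ψ D π e lam l TT) (i : m)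
    (v : Blk (e i)) : ∃ f : Fin 3 → Blk (e i), v = ∑ t, AA h i t (f t) := by
  obtain ⟨ρ, hρ⟩ := h.ctx.perf
  refine ⟨fun t => ⟨e i *ᵥ (ρ t *ᵥ (v : n → K)), e_mem_Blk _ _⟩, ?_⟩
  apply Subtype.ext
  rw [Submodule.coe_sum]
  have h1 : ∀ t, ((AA h i t ⟨e i *ᵥ (ρ t *ᵥ (v : n → K)), e_mem_Blk _ _⟩ : Blk (e i)) : n → K) =
      e i *ᵥ ((al t * ρ t) *ᵥ (v : n → K)) := by
    intro t
    rw [AA_coe]
    simp only [Matrix.mulVec_mulVec]
    rw [← Matrix.mul_assoc, ← h.eal i t, Matrix.mul_assoc]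
  simp only [h1]
  rw [← Matrix.mulVec_sum, ← Matrix.sum_mulVec, hρ, Matrix.one_mulVec,
    (mem_Blk (h.idem i)).1 v.2]

theorem AA_rad (h : Fr k arm J B N W F G p al tau β T Ψ D π e lam l TT) (i : m) (t : Fin 3)
    (r : Blk (e i)) (hr : r ∈ RR π (e i)) : AA h i t r ∈ RR π (e i) := by
  rw [mem_RR] at hr ⊢
  rw [AA_coe, ← h.cr.op, hr, map_zero]

theorem AA_kill (h : Fr k arm J B N W F G p al tau β T Ψ D π e lam l TT) (i : m) :
    ∃ N0, ∀ r ∈ RR π (e i), Dual.Kills (AA h i) N0 r := by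
  obtain ⟨m0, hm0⟩ := h.kill
  refine ⟨m0, fun r hr w hw => ?_⟩
  apply Subtype.ext
  have := res_word (h.idem i) (h.eal i) w r
  change (((w.map (AA h i)).prod r : Blk (e i)) : n → K) = _ at this
  rw [this, hm0 w hw _ (mem_RR.1 hr), Submodule.coe_zero]

theorem AA_l (h : Fr k arm J B N W F G p al tau β T Ψ D π e lam l TT) (i : m) (s : Fin 3)
    (v : Blk (e i)) : (AA h i s ^ l s) v ∈ RR π (e i) := by
  rw [mem_RR, AA_pow, pi_pow h, h.lnil, LinearMap.zero_apply]

theorem AA_gen (h : Fr k arm J B N W F G p al tau β T Ψ D π e lam l TT) (i : m)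
    (S : Submodule K (Blk (e i))) (h1 : ∀ s v, (AA h i s ^ l s) v ∈ S)
    (h2 : ∀ t, ∀ r ∈ S, AA h i t r ∈ S) : RR π (e i) ≤ S := by
  intro r hr
  have h3 := h.gen i (S.map (Blk (e i)).subtype) (by
    rintro s _ ⟨v, hv, rfl⟩
    exact ⟨AA h i s v, h2 s v hv, AA_coe h i s v⟩) (by
    intro s u
    exact ⟨_, h1 s ⟨e i *ᵥ u, e_mem_Blk _ _⟩, AA_pow h i s _ _⟩) (r : n → K) (by
    rw [(mem_Blk (h.idem i)).1 r.2]; exact hr)
  rw [(mem_Blk (h.idem i)).1 r.2] at h3
  obtain ⟨v, hv, hvr⟩ := h3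
  have : v = r := Subtype.ext hvr
  rwa [← this]

theorem rad_mat (h : Fr k arm J B N W F G p al tau β T Ψ D π e lam l TT) {i j : m}
    {x : (Blk (e j)) ⊗[K] (Blk (e i))} (hx : x ∈ Dual.Rad (RR π (e i)) (RR π (e j))) :
    (pᵀ * J * p) * mat (e j) (e i) x * (pᵀ * J * p) = 0 := by
  have h1 : Dual.Rad (RR π (e i)) (RR π (e j)) ≤
      LinearMap.ker (((LinearMap.mulRight K (pᵀ * J * p)) ∘ₗ (LinearMap.mulLeft K (pᵀ * J * p))) ∘ₗ
        mat (e j) (e i)) := by
    rw [Dual.Rad, sup_le_iff, Submodule.span_le, Submodule.span_le]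
    constructor
    · rintro _ ⟨r, hr, u, rfl⟩
      rw [SetLike.mem_coe, LinearMap.mem_ker, LinearMap.comp_apply, LinearMap.comp_apply, mat_tmul,
        LinearMap.mulLeft_apply, LinearMap.mulRight_apply, Matrix.mul_vecMulVec,
        g_mulVec h (mem_RR.1 hr), zero_vecMulVec, Matrix.zero_mul]
    · rintro _ ⟨u, r, hr, rfl⟩
      rw [SetLike.mem_coe, LinearMap.mem_ker, LinearMap.comp_apply, LinearMap.comp_apply, mat_tmul,
        LinearMap.mulLeft_apply, LinearMap.mulRight_apply, Matrix.mul_vecMulVec,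
        Matrix.vecMulVec_mul, vecMul_g h (mem_RR.1 hr), vecMulVec_zero]
  have h2 := h1 hx
  rwa [LinearMap.mem_ker, LinearMap.comp_apply, LinearMap.comp_apply, LinearMap.mulLeft_apply,
    LinearMap.mulRight_apply] at h2

theorem rel_of_RS {y : Fin 3 → Matrix n n K} {z0 : Matrix n n K} {μ0 : Fin 3 → Matrix n n K}
    (hy : RS arm J B N W F p T Ψ π e y z0 μ0) : y ∈ RDEnd.Rel arm J N W F p π T 0 Ψ := by
  obtain ⟨w, z, μ, h1, h2, h3, -, ⟨zb, h5, h6⟩, -, -⟩ := hy
  exact ⟨w, z, zb, h1, h2, h3, h5, h6⟩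

/-- matrix form of exactness -/
theorem mat_exact (h : Fr k arm J B N W F G p al tau β T Ψ D π e lam l TT) {i j : m} {c : K}
    {x : Fin 3 → (Blk (e j)) ⊗[K] (Blk (e i))}
    (hx : Dual.Exact (AA h i) (AA h j) (RR π (e i)) (RR π (e j)) c x) :
    ∑ r, (mat (e j) (e i) (x r) * (al r)ᵀ - c • (al r * mat (e j) (e i) (x r))) = 0 ∧
    ∀ r, (pᵀ * J * p) * (mat (e j) (e i) (x r) * (al r)ᵀ - c • (al r * mat (e j) (e i) (x r))) *
      (pᵀ * J * p) = 0 := by
  have h1 : ∀ r, mat (e j) (e i) (Dual.defect (AA h i r) (AA h j r) c (x r)) =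
      mat (e j) (e i) (x r) * (al r)ᵀ - c • (al r * mat (e j) (e i) (x r)) := by
    intro r
    change mat (e j) (e i) (LinearMap.lTensor (Blk (e j)) (AA h i r) (x r) -
      c • LinearMap.rTensor (Blk (e i)) (AA h j r) (x r)) = _
    rw [map_sub, map_smul]
    unfold AA
    rw [mat_left, mat_right]
  constructor
  · have := congrArg (mat (e j) (e i)) hx.1
    rw [map_sum, map_zero] at this
    rw [← this]
    exact Finset.sum_congr rfl fun r _ => (h1 r).symm
  · intro r
    rw [← h1 r]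
    exact rad_mat h (hx.2 r)

/-- `halves` as a hypothesis -/
def Halves (_h : Fr k arm J B N W F G p al tau β T Ψ D π e lam l TT) (i j : m) : Prop :=
  ∃ S : Set K, S.Finite ∧ ∀ c ∉ S, ∀ (x : Fin 3 → Matrix n n K) (b kk : Matrix n n K),
      Dec (pᵀ * J * p) π e i j (fun r => al r) (fun r => c • al r) x b kk →
      RS arm J B N W F p T Ψ π e x (-b) (fun r => kk * al r) ∧
      RS arm J B N W F p T Ψ π e (fun r => (x r)ᵀ) kk (fun r => -(b * al r))

/-- scalar exact families have decorations -/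
theorem exists_dec (h : Fr k arm J B N W F G p al tau β T Ψ D π e lam l TT) {i j : m}
    (hij : i ≠ j) {c : K} (hc : c ≠ 0) {x : Fin 3 → (Blk (e j)) ⊗[K] (Blk (e i))}
    (hx : Dual.Exact (AA h i) (AA h j) (RR π (e i)) (RR π (e j)) c x) :
    ∃ b kk : Matrix n n K, Dec (pᵀ * J * p) π e i j (fun r => al r) (fun r => c • al r)
      (fun r => mat (e j) (e i) (x r)) b kk := by
  obtain ⟨h1, h2⟩ := mat_exact h hx
  obtain ⟨b, kk, b1, b2, b3, b4, b5, b6⟩ := h.hexS i j hij c hc (fun r => mat (e j) (e i) (x r))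
    (fun r => mat_blk (h.idem j) (h.idem i) (x r)) h1 h2
  refine ⟨b, kk, ⟨fun r => mat_blk (h.idem j) (h.idem i) (x r), b1, b2, b3, b4, ?_, ?_, ?_, ?_⟩⟩
  · rw [← h1]
    exact Finset.sum_congr rfl fun r _ => by rw [Matrix.smul_mul]
  · intro r
    have := h2 r
    rw [← Matrix.smul_mul] at this
    exact this
  · intro r
    rw [b5 r, Matrix.mul_smul]
  · intro r
    rw [b6 r, Matrix.smul_mul]

/-- the single-arm map `u ⊗ v ↦ (u vᵀ)@t` -/
noncomputable def qq (e e' : Matrix n n K) (t : Fin 3) :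
    Blk e →ₗ[K] Blk e' →ₗ[K] (Fin 3 → Matrix n n K) :=
  (TensorProduct.mk K (Blk e) (Blk e')).compr₂
    ((LinearMap.single K (fun _ : Fin 3 => Matrix n n K) t) ∘ₗ mat e e')

theorem qq_apply (e e' : Matrix n n K) (t : Fin 3) (u : Blk e) (v : Blk e') :
    qq e e' t u v = Pi.single t (vecMulVec (u : n → K) (v : n → K)) := by
  unfold qq
  rw [LinearMap.compr₂_apply, TensorProduct.mk_apply, LinearMap.comp_apply, mat_tmul]
  rfl

theorem lift_qq (e e' : Matrix n n K) (t : Fin 3) (x : (Blk e) ⊗[K] (Blk e')) :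
    TensorProduct.lift (qq e e' t) x = Pi.single t (mat e e' x) := by
  unfold qq
  rw [TensorProduct.lift_mk_compr₂]
  rfl

/-- **the generators**: off-diagonal products and radical tensors are good -/
theorem gens [CharZero K] (h : Fr k arm J B N W F G p al tau β T Ψ D π e lam l TT) {i j : m}
    (hij : i ≠ j) (hH : Halves h i j) :
    (∀ s a b, a + b + 1 = l s → ∀ u v : n → K,
      (Pi.single s (vecMulVec ((al s ^ b) *ᵥ (e j *ᵥ u)) ((al s ^ a) *ᵥ (e i *ᵥ v))) :
        Fin 3 → Matrix n n K) ∈ RDEnd.Rel arm J N W F p π T 0 Ψ) ∧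
    (∀ s, ∀ r, π (e j *ᵥ r) = 0 → ∀ v,
      (Pi.single s (vecMulVec (e j *ᵥ r) (e i *ᵥ v)) : Fin 3 → Matrix n n K) ∈
        RDEnd.Rel arm J N W F p π T 0 Ψ) ∧
    (∀ s, ∀ r, π (e i *ᵥ r) = 0 → ∀ v,
      (Pi.single s (vecMulVec (e j *ᵥ v) (e i *ᵥ r)) : Fin 3 → Matrix n n K) ∈
        RDEnd.Rel arm J N W F p π T 0 Ψ) := by
  obtain ⟨S, hS, hH⟩ := hH
  have key := Dual.span_exact (K := K) (P1 := Blk (e i)) (P2 := Blk (e j)) (τ := Fin 3)
    (E := Fin 3 → Matrix n n K) (A := AA h i) (B := AA h j) (R1 := RR π (e i))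
    (R2 := RR π (e j)) (l := l) (Λ := (S ∪ {0})ᶜ) ((hS.union (Set.finite_singleton 0)).infinite_compl)
    (by simp) (AA_perf h i) (AA_perf h j) (AA_rad h i) (AA_rad h j) (AA_kill h i) (AA_kill h j)
    (AA_l h i) (AA_l h j) (AA_gen h i) (AA_gen h j) (qq (e j) (e i))
    (RDEnd.Rel arm J N W F p π T 0 Ψ) (by
      intro c hc x hx
      rw [Set.mem_compl_iff, Set.mem_union, Set.mem_singleton_iff, not_or] at hc
      obtain ⟨b, kk, hb⟩ := exists_dec h hij hc.2 hx
      have h1 := rel_of_RS (hH c hc.1 _ b kk hb).1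
      have h2 : ∑ t, TensorProduct.lift (qq (e j) (e i) t) (x t) =
          fun r => mat (e j) (e i) (x r) := by
        simp only [lift_qq]
        exact Finset.univ_sum_single _
      rw [h2]
      exact h1)
  obtain ⟨k1, k2, k3⟩ := key
  refine ⟨?_, ?_, ?_⟩
  · intro s a b hab u v
    have := k1 s a b hab ⟨e j *ᵥ u, e_mem_Blk _ _⟩ ⟨e i *ᵥ v, e_mem_Blk _ _⟩
    rwa [qq_apply, AA_pow, AA_pow] at this
  · intro s r hr v
    have := k2 s ⟨e j *ᵥ r, e_mem_Blk _ _⟩ hr ⟨e i *ᵥ v, e_mem_Blk _ _⟩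
    rwa [qq_apply] at this
  · intro s r hr v
    have := k3 s ⟨e i *ᵥ r, e_mem_Blk _ _⟩ hr ⟨e j *ᵥ v, e_mem_Blk _ _⟩
    rwa [qq_apply] at this

/-- the single-arm map on the whole space, projected to the block `(j, i)`, transposed -/
noncomputable def qp (e : m → Matrix n n K) (i j : m) (s : Fin 3) :
    (n → K) →ₗ[K] (n → K) →ₗ[K] (Fin 3 → Matrix n n K) :=
  LinearMap.mk₂ K (fun v u => Pi.single s (vecMulVec (e j *ᵥ u) (e i *ᵥ v)))
    (fun a b c => by rw [Matrix.mulVec_add, vecMulVec_add, Pi.single_add])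
    (fun a b c => by rw [Matrix.mulVec_smul, vecMulVec_smul, ← Pi.single_smul])
    (fun a b c => by rw [Matrix.mulVec_add, add_vecMulVec, Pi.single_add])
    (fun a b c => by rw [Matrix.mulVec_smul, smul_vecMulVec, ← Pi.single_smul])

theorem qp_apply (e : m → Matrix n n K) (i j : m) (s : Fin 3) (v u : n → K) :
    qp e i j s v u = Pi.single s (vecMulVec (e j *ᵥ u) (e i *ᵥ v)) := rfl

/-- **RD4** from `halves` -/
theorem offdiag_of [CharZero K] (h : Fr k arm J B N W F G p al tau β T Ψ D π e lam l TT)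
    {i j : m} (hij : i ≠ j) (hH : Halves h i j) (s : Fin 3) (y : Matrix n n K)
    (hy : e j * y * (e i)ᵀ = y) (hf : Fil (pᵀ * J * p) π Ψ s y) :
    (Pi.single s y : Fin 3 → Matrix n n K) ∈ RDEnd.Rel arm J N W F p π T 0 Ψ := by
  classical
  obtain ⟨g1, g2, g3⟩ := gens h hij hH
  obtain ⟨yb, hyb, hfil⟩ := hf
  set R : Submodule K (n → K) := LinearMap.ker π with hR
  let w : (n → K) →ₗ[K] (n → K) →ₗ[K] K := LinearMap.compl₁₂ β π π
  have hw : ∀ x x', w x x' = β (π x) (π x') := fun x x' => rfl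
  obtain ⟨wq, hwq, hn, hsq⟩ := SPE.exists_wq (R := R) w (η := 1)
    (fun x x' => by rw [one_mul, hw, hw, h.cr.ns.symm]) (by
      intro x
      rw [hR, LinearMap.mem_ker]
      constructor
      · intro hx x'
        rw [hw, hx, map_zero, LinearMap.zero_apply]
      · intro hx
        apply h.cr.ns.nd
        intro v
        obtain ⟨u, rfl⟩ := h.cr.onto v
        exact hx u)
  let q0 : ((n → K) ⧸ R) ≃ₗ[K] M := π.quotKerEquivOfSurjective h.cr.onto
  have hq0 : ∀ u : n → K, q0 (R.mkQ u) = π u := fun u => rfl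
  have hq0s : ∀ u : n → K, q0.symm (π u) = R.mkQ u := fun u => by
    rw [← hq0, LinearEquiv.symm_apply_apply]
  let φq : End K ((n → K) ⧸ R) := q0.symm.toLinearMap ∘ₗ Ψ s ∘ₗ q0.toLinearMap
  have hφq : ∀ x, φq x = q0.symm (Ψ s (q0 x)) := fun x => rfl
  let X : End K ((n → K) ⧸ R) := q0.symm.toLinearMap ∘ₗ yb ∘ₗ q0.toLinearMap
  have hX : ∀ x, X x = q0.symm (yb (q0 x)) := fun x => rfl
  have hpow : ∀ (a : ℕ) x, (φq ^ a) x = q0.symm ((Ψ s ^ a) (q0 x)) := by
    intro a
    induction a with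
    | zero => intro x; simp
    | succ a ih =>
      intro x
      rw [pow_succ', Module.End.mul_apply, ih, hφq, LinearEquiv.apply_symm_apply, pow_succ',
        Module.End.mul_apply]
  have hker : Module.finrank K (LinearMap.ker φq) = Module.finrank K (LinearMap.ker (Ψ s)) := by
    have : (LinearMap.ker φq).map (q0 : ((n → K) ⧸ R) →ₗ[K] M) = LinearMap.ker (Ψ s) := by
      ext v
      constructor
      · rintro ⟨x, hx, rfl⟩
        rw [SetLike.mem_coe, LinearMap.mem_ker, hφq] at hx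
        rw [LinearMap.mem_ker]
        have := congrArg q0 hx
        rwa [LinearEquiv.apply_symm_apply, map_zero] at this
      · intro hv
        refine ⟨q0.symm v, ?_, LinearEquiv.apply_symm_apply _ _⟩
        rw [SetLike.mem_coe, LinearMap.mem_ker, hφq, LinearEquiv.apply_symm_apply,
          LinearMap.mem_ker.1 hv, map_zero]
    rw [← this, LinearEquiv.finrank_map_eq]
  -- the tensor
  let Ty : (n → K) ⊗[K] (n → K) :=
    ∑ a, ∑ b, y a b • ((Pi.single b (1 : K) : n → K) ⊗ₜ[K] (Pi.single a (1 : K) : n → K))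
  have hmem := SPE.tensor_mem (K := K) (P := n → K) (E := Fin 3 → Matrix n n K) (R := R) (w := w)
    (wq := wq) hn (fun x hx => hn x fun x' => by rw [hsq, one_mul, hx]) hwq
    (φ := Matrix.toLin' (al s)) (φq := φq) (l := l s) (ε := 1)
    (by
      intro x
      rw [hφq, hq0, h.cr.op, hq0s, Matrix.toLin'_apply])
    (by
      intro x x'
      obtain ⟨u, rfl⟩ := R.mkQ_surjective x
      obtain ⟨u', rfl⟩ := R.mkQ_surjective x'
      rw [hφq, hφq, hq0, hq0, h.cr.op, h.cr.op, hq0s, hq0s, hwq, hwq, one_mul, hw, hw,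
        ← h.cr.op, ← h.cr.op, h.cr.sa])
    (by
      apply LinearMap.ext
      intro x
      rw [hpow, h.lnil, LinearMap.zero_apply, map_zero, LinearMap.zero_apply])
    (by rw [hker, h.free, q0.finrank_eq])
    (q := qp e i j s) (S := RDEnd.Rel arm J N W F p π T 0 Ψ)
    (by
      intro r hr u
      rw [qp_apply]
      exact g3 s r (pi_e h i (LinearMap.mem_ker.1 hr)) u)
    (by
      intro r hr u
      rw [qp_apply]
      exact g2 s r (pi_e h j (LinearMap.mem_ker.1 hr)) u)
    (by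
      intro a b hab v u
      rw [qp_apply, ← Matrix.toLin'_pow, ← Matrix.toLin'_pow, Matrix.toLin'_apply,
        Matrix.toLin'_apply]
      have c1 : e i *ᵥ ((al s ^ a) *ᵥ v) = (al s ^ a) *ᵥ (e i *ᵥ v) := by
        rw [Matrix.mulVec_mulVec, Matrix.mulVec_mulVec]
        congr 1
        exact ((show Commute (e i) (al s) from h.eal i s).pow_right a).eq
      have c2 : e j *ᵥ ((al s ^ b) *ᵥ u) = (al s ^ b) *ᵥ (e j *ᵥ u) := by
        rw [Matrix.mulVec_mulVec, Matrix.mulVec_mulVec]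
        congr 1
        exact ((show Commute (e j) (al s) from h.eal j s).pow_right b).eq
      rw [c1, c2]
      exact g1 s a b hab u v)
    (X := X)
    (by
      rintro a x ⟨z, rfl⟩
      obtain ⟨v', hv'⟩ := hfil a (q0 z)
      refine ⟨q0.symm v', ?_⟩
      rw [hpow, hpow, hX, LinearEquiv.apply_symm_apply, LinearEquiv.apply_symm_apply, hv'])
    (T := Ty)
    (by
      intro x x'
      have e1 : X (R.mkQ x) = R.mkQ (y *ᵥ ((pᵀ * J * p) *ᵥ x)) := by
        rw [hX, hq0, ← hyb, hq0s]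
      rw [e1, hwq, hw, h.cr.form]
      simp only [Ty, map_sum, map_smul, SPE.ct_tmul]
      have e2 : ∀ (a : n) (z : n → K), w (Pi.single a 1) z = ((pᵀ * J * p) *ᵥ z) a := by
        intro a z
        rw [hw, h.cr.form, single_one_dotProduct]
      simp only [e2]
      rw [dotProduct]
      refine Finset.sum_congr rfl fun a _ => ?_
      have e6 : (y *ᵥ ((pᵀ * J * p) *ᵥ x)) a = ∑ b, y a b * ((pᵀ * J * p) *ᵥ x) b := rfl
      rw [e6, Finset.sum_mul]
      refine Finset.sum_congr rfl fun b _ => ?_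
      rw [smul_eq_mul, mul_assoc])
  have hfin : TensorProduct.lift (qp e i j s) Ty = Pi.single s y := by
    simp only [Ty, map_sum, map_smul, TensorProduct.lift.tmul, qp_apply]
    have e3 : ∀ a b : n, y a b • (Pi.single s (vecMulVec (e j *ᵥ (Pi.single a (1 : K) : n → K))
        (e i *ᵥ (Pi.single b (1 : K) : n → K))) : Fin 3 → Matrix n n K) =
        Pi.single s (e j * Matrix.single a b (y a b) * (e i)ᵀ) := by
      intro a b
      rw [← Pi.single_smul]
      congr 1
      have e4 : Matrix.single a b (y a b) =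
          y a b • vecMulVec (Pi.single a (1 : K) : n → K) (Pi.single b (1 : K) : n → K) := by
        rw [← Matrix.single_eq_single_vecMulVec_single, Matrix.smul_single, smul_eq_mul, mul_one]
      rw [e4, Matrix.mul_smul, Matrix.smul_mul, Matrix.mul_vecMulVec, Matrix.vecMulVec_mul,
        Matrix.vecMul_transpose]
    simp only [e3]
    have e5 : (∑ a, ∑ b, (Pi.single s (e j * Matrix.single a b (y a b) * (e i)ᵀ) :
        Fin 3 → Matrix n n K)) = Pi.single s (e j * (∑ a, ∑ b, Matrix.single a b (y a b)) *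
          (e i)ᵀ) := by
      simp only [Matrix.mul_sum, Matrix.sum_mul]
      funext t
      by_cases ht : t = s
      · subst ht
        simp only [Finset.sum_apply, Pi.single_eq_same]
      · simp only [Finset.sum_apply, Pi.single_eq_of_ne ht, Finset.sum_const_zero]
    rw [e5, ← Matrix.matrix_eq_sum_single, hy]
  rw [hfin] at hmem
  exact hmem

end facts

end Crest.Agent.R172.RD.C680
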