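import Crest.Agent.R172.RD0
import Crest.Agent.R172.Dual1
import Crest.Agent.R172.Cnt1

/-!
Row 172 (S0260), RD4 `offdiag` (insurance copy of helper795): every off-diagonal filtered
single-arm tensor is good.
-/

set_option autoImplicit false
set_option linter.unusedSectionVars false

namespace Crest.Agent.R172.RD795

open Matrix Module TensorProduct Crest.Agent.R172.FO Crest.Agent.R172.FrmB Crest.Agent.R172.RD
open Crest.Agent.R172.Core (NS Tame)
open Crest.Agent.R172.PL (Wk)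

section filt

variable {K : Type*} [Field K] {M : Type*} [AddCommGroup M] [Module K M] [FiniteDimensional K M]

theorem exists_proj (S : Submodule K M) :
    ∃ P : End K M, (∀ x, P x ∈ S) ∧ ∀ x ∈ S, P x = x := by
  obtain ⟨f, hf⟩ := LinearMap.exists_leftInverse_of_injective S.subtype (by simp)
  refine ⟨S.subtype ∘ₗ f, fun x => (f x).2, fun x hx => ?_⟩
  have h1 := LinearMap.congr_fun hf ⟨x, hx⟩
  exact congrArg Subtype.val h1

theorem exists_vec {β : LinearMap.BilinForm K M} (hβ : NS β) (f : Dual K M) :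
    ∃ v, β v = f := by
  have h1 : Function.Injective (β : M →ₗ[K] Dual K M) := by
    rw [injective_iff_map_eq_zero]
    intro v hv
    exact hβ.nd v fun w => by rw [hv]; rfl
  have h2 : Function.Surjective (β : M →ₗ[K] Dual K M) :=
    (LinearMap.injective_iff_surjective_of_finrank_eq_finrank
      (Subspace.dual_finrank_eq (K := K) (V := M)).symm).1 h1
  exact h2 f

/-- the set of elementary filtered maps -/
def G1 (β : LinearMap.BilinForm K M) (Φ : End K M) (l : ℕ) : Set (End K M) :=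
  {X | ∃ (a b : ℕ) (u v : M), b + a + 1 = l ∧ X = (β ((Φ ^ a) v)).smulRight ((Φ ^ b) u)}

theorem pow_sa {β : LinearMap.BilinForm K M} {Φ : End K M}
    (hsa : ∀ v w, β (Φ v) w = β v (Φ w)) (a : ℕ) : ∀ v w, β ((Φ ^ a) v) w = β v ((Φ ^ a) w) := by
  induction a with
  | zero => intro v w; simp
  | succ a ih =>
    intro v w
    have e1 : (Φ ^ (a + 1)) v = (Φ ^ a) (Φ v) := by
      rw [pow_succ]; rfl
    have e2 : (Φ ^ (a + 1)) w = Φ ((Φ ^ a) w) := by
      rw [pow_succ']; rfl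
    rw [e1, e2, ih, hsa]

theorem piece {β : LinearMap.BilinForm K M} (hβ : NS β) {Φ : End K M}
    (hsa : ∀ v w, β (Φ v) w = β v (Φ w)) {l : ℕ} (hnil : Φ ^ l = 0)
    (hfree : l * finrank K (LinearMap.ker Φ) = finrank K M) {c : ℕ} (hc : c < l) (X : End K M)
    (h1 : ∀ x, X x ∈ LinearMap.range (Φ ^ c)) (h2 : ∀ w, X ((Φ ^ (c + 1)) w) = 0) :
    X ∈ Submodule.span K (G1 β Φ l) := by
  obtain ⟨s, hs⟩ := LinearMap.exists_rightInverse_of_surjective (Φ ^ c).rangeRestrict
    (LinearMap.range_eq_top.2 (Φ ^ c).surjective_rangeRestrict)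
  let Y : End K M := s ∘ₗ X.codRestrict _ h1
  have hY : ∀ x, (Φ ^ c) (Y x) = X x := by
    intro x
    have h3 := LinearMap.congr_fun hs (X.codRestrict _ h1 x)
    exact congrArg Subtype.val h3
  have hY0 : ∀ w, Y ((Φ ^ (c + 1)) w) = 0 := by
    intro w
    change s (X.codRestrict _ h1 _) = 0
    have : X.codRestrict _ h1 ((Φ ^ (c + 1)) w) = 0 := by
      apply Subtype.ext
      exact h2 w
    rw [this, map_zero]
  let b := Module.finBasis K M
  have hv : ∀ k, ∃ v, ∀ w, β ((Φ ^ (l - 1 - c)) v) w = b.coord k (Y w) := by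
    intro k
    obtain ⟨v, hv⟩ := exists_vec hβ (b.coord k ∘ₗ Y)
    have hv' : ∀ w, β v w = b.coord k (Y w) := fun w => LinearMap.congr_fun hv w
    have h3 : v ∈ LinearMap.ker (Φ ^ (l - (l - 1 - c))) := by
      rw [LinearMap.mem_ker, show l - (l - 1 - c) = c + 1 by omega]
      apply hβ.nd
      intro w
      rw [pow_sa hsa, hv', hY0, map_zero]
    rw [← Cnt.range_pow_eq hnil hfree (by omega)] at h3
    obtain ⟨v', rfl⟩ := h3
    exact ⟨v', hv'⟩
  choose v hv using hv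
  have e : X = ∑ k, (β ((Φ ^ (l - 1 - c)) (v k))).smulRight ((Φ ^ c) (b k)) := by
    apply LinearMap.ext
    intro x
    rw [LinearMap.sum_apply, ← hY]
    have h4 : Y x = ∑ k, b.coord k (Y x) • b k := (b.sum_repr (Y x)).symm
    conv_lhs => rw [h4]
    rw [map_sum]
    refine Finset.sum_congr rfl fun k _ => ?_
    rw [map_smul, LinearMap.smulRight_apply, hv]
  rw [e]
  exact Submodule.sum_mem _ fun k _ =>
    Submodule.subset_span ⟨l - 1 - c, c, b k, v k, by omega, rfl⟩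

/-- **filtered endomorphisms are sums of elementary filtered maps** -/
theorem filt_span {β : LinearMap.BilinForm K M} (hβ : NS β) {Φ : End K M}
    (hsa : ∀ v w, β (Φ v) w = β v (Φ w)) {l : ℕ} (hnil : Φ ^ l = 0)
    (hfree : l * finrank K (LinearMap.ker Φ) = finrank K M) (A : End K M)
    (hA : ∀ (a : ℕ) v, ∃ v', A ((Φ ^ a) v) = (Φ ^ a) v') :
    A ∈ Submodule.span K (G1 β Φ l) := by
  choose P hP1 hP2 using fun c : ℕ => exists_proj (LinearMap.range (Φ ^ c))
  have e0 : P 0 = 1 := by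
    apply LinearMap.ext
    intro x
    exact hP2 0 x ⟨x, by simp⟩
  have el : P l = 0 := by
    apply LinearMap.ext
    intro x
    obtain ⟨y, hy⟩ := hP1 l x
    rw [← hy, hnil]; rfl
  have e : A = ∑ c ∈ Finset.range l, A * (P c - P (c + 1)) := by
    rw [← Finset.mul_sum, Finset.sum_range_sub', e0, el, sub_zero, mul_one]
  rw [e]
  refine Submodule.sum_mem _ fun c hc => ?_
  refine piece hβ hsa hnil hfree (Finset.mem_range.1 hc) _ ?_ ?_
  · intro x
    have h1 : (P c - P (c + 1)) x ∈ LinearMap.range (Φ ^ c) := by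
      refine Submodule.sub_mem _ (hP1 c x) ?_
      obtain ⟨y, hy⟩ := hP1 (c + 1) x
      exact ⟨Φ y, by rw [← hy, pow_succ]; rfl⟩
    obtain ⟨v, hv⟩ := h1
    obtain ⟨v', hv'⟩ := hA c v
    exact ⟨v', by rw [Module.End.mul_apply, ← hv, hv']⟩
  · intro w
    have h1 : (P c - P (c + 1)) ((Φ ^ (c + 1)) w) = 0 := by
      rw [LinearMap.sub_apply, hP2 (c + 1) _ ⟨w, rfl⟩, hP2 c _ ⟨Φ w, by rw [pow_succ]; rfl⟩,
        sub_self]
    rw [Module.End.mul_apply, h1, map_zero]

end filt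


section frame

variable {ι : Type*} [Fintype ι] [DecidableEq ι] {δ : Type*} [Fintype δ] [DecidableEq δ]
variable {n : Type*} [Fintype n] [DecidableEq n]
variable {k K : Type*} [Field k] [Field K] [Algebra k K]
variable {M : Type*} [AddCommGroup M] [Module K M]
variable {m : Type*} [Fintype m] [DecidableEq m]
variable {arm : δ → Fin 3} {J : Matrix ι ι K} {B : Matrix δ δ K}
  {N W : Submodule K (Matrix ι δ K)} {F G : Matrix ι δ K} {p : Matrix ι n K}
  {al : Fin 3 → Matrix n n K} {tau : Matrix n n K}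
  {β : LinearMap.BilinForm K M} {T : Module.End K M →ₗ[K] Module.End K M}
  {Ψ : Fin 3 → Module.End K M} {D : Module.End K M} {π : (n → K) →ₗ[K] M}
  {e : m → Matrix n n K} {lam : m → K} {l : Fin 3 → ℕ} {TT : Set k}

theorem gt (h : Fr k arm J B N W F G p al tau β T Ψ D π e lam l TT) :
    (pᵀ * J * p)ᵀ = pᵀ * J * p := by
  rw [transpose_mul, transpose_mul, transpose_transpose, h.ctx.data.J_symm, Matrix.mul_assoc]

theorem ker_iff (h : Fr k arm J B N W F G p al tau β T Ψ D π e lam l TT) (u : n → K) :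
    π u = 0 ↔ (pᵀ * J * p) *ᵥ u = 0 := by
  have hform := h.cr.form
  constructor
  · intro hu
    have h1 : ∀ y : n → K, y ⬝ᵥ ((pᵀ * J * p) *ᵥ u) = 0 := by
      intro y
      rw [← hform, hu, map_zero]
    funext i
    have := h1 (Pi.single i 1)
    rwa [single_one_dotProduct] at this
  · intro hu
    apply h.cr.ns.nd
    intro w
    obtain ⟨y, rfl⟩ := h.cr.onto w
    rw [h.cr.ns.symm, hform, hu, dotProduct_zero]

theorem pi_e (h : Fr k arm J B N W F G p al tau β T Ψ D π e lam l TT) (i : m) {u : n → K}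
    (hu : π u = 0) : π (e i *ᵥ u) = 0 := by
  rw [ker_iff h] at hu ⊢
  rw [mulVec_mulVec, ← h.eg, ← mulVec_mulVec, hu, mulVec_zero]

theorem al_pow (h : Fr k arm J B N W F G p al tau β T Ψ D π e lam l TT) (s : Fin 3) (a : ℕ)
    (u : n → K) : π ((al s ^ a) *ᵥ u) = (Ψ s ^ a) (π u) := by
  induction a generalizing u with
  | zero => simp
  | succ a ih =>
    rw [pow_succ, ← mulVec_mulVec, ih, pow_succ, Module.End.mul_apply, h.cr.op]

theorem e_pow (h : Fr k arm J B N W F G p al tau β T Ψ D π e lam l TT) (i : m) (s : Fin 3)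
    (a : ℕ) : e i * al s ^ a = al s ^ a * e i := by
  have h1 : Commute (e i) (al s) := h.eal i s
  exact (h1.pow_right a).eq

theorem single_mul (s : Fin 3) (Q : Submodule K (Fin 3 → Matrix n n K)) (X z Y : Matrix n n K)
    (h : ∀ a b : n, (Pi.single s (vecMulVec (X *ᵥ Pi.single a 1) (Y *ᵥ Pi.single b 1)) :
      Fin 3 → Matrix n n K) ∈ Q) :
    (Pi.single s (X * z * Yᵀ) : Fin 3 → Matrix n n K) ∈ Q := by
  have e1 : X * z * Yᵀ = ∑ a, ∑ b, z a b • vecMulVec (X *ᵥ Pi.single a 1) (Y *ᵥ Pi.single b 1) := by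
    ext u v
    simp only [Matrix.mul_apply, Matrix.sum_apply, Matrix.smul_apply, vecMulVec_apply,
      mulVec_single_one, Matrix.col_apply, Matrix.transpose_apply, smul_eq_mul, Finset.sum_mul]
    rw [Finset.sum_comm]
    refine Finset.sum_congr rfl fun a _ => Finset.sum_congr rfl fun b _ => ?_
    ring
  have e2 : (Pi.single s (X * z * Yᵀ) : Fin 3 → Matrix n n K) =
      ∑ a, ∑ b, z a b • (Pi.single s (vecMulVec (X *ᵥ Pi.single a 1) (Y *ᵥ Pi.single b 1)) :
        Fin 3 → Matrix n n K) := by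
    rw [e1]
    funext r
    by_cases hr : r = s
    · subst hr
      simp
    · simp [Pi.single_eq_of_ne hr]
  rw [e2]
  exact Submodule.sum_mem _ fun a _ => Submodule.sum_mem _ fun b _ => Q.smul_mem _ (h a b)

/-- a block matrix which vanishes on the core is a sum of radical tensors -/
theorem rad_mem (h : Fr k arm J B N W F G p al tau β T Ψ D π e lam l TT) {i j : m}
    (Q : Submodule K (Fin 3 → Matrix n n K)) (s : Fin 3)
    (A2 : ∀ r u, π (e j *ᵥ r) = 0 →
      (Pi.single s (vecMulVec (e j *ᵥ r) (e i *ᵥ u)) : Fin 3 → Matrix n n K) ∈ Q)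
    (A3 : ∀ u r, π (e i *ᵥ r) = 0 →
      (Pi.single s (vecMulVec (e j *ᵥ u) (e i *ᵥ r)) : Fin 3 → Matrix n n K) ∈ Q)
    (z : Matrix n n K) (hz : e j * z * (e i)ᵀ = z)
    (hg : (pᵀ * J * p) * z * (pᵀ * J * p) = 0) :
    (Pi.single s z : Fin 3 → Matrix n n K) ∈ Q := by
  obtain ⟨g, hgd⟩ : ∃ g, g = pᵀ * J * p := ⟨_, rfl⟩
  have hgt : gᵀ = g := by rw [hgd]; exact gt h
  have hk : ∀ u, π u = 0 ↔ g *ᵥ u = 0 := by rw [hgd]; exact ker_iff h
  rw [← hgd] at hg
  obtain ⟨R, hR⟩ := exists_gen_inv g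
  obtain ⟨H, hH⟩ : ∃ H, H = R * g := ⟨_, rfl⟩
  have hgH : g * H = g := by rw [hH, ← Matrix.mul_assoc, hR]
  have hHz : H * z * Hᵀ = 0 := by
    rw [hH, transpose_mul, hgt]
    have : R * g * z * (g * Rᵀ) = R * (g * z * g) * Rᵀ := by simp only [Matrix.mul_assoc]
    rw [this, hg, Matrix.mul_zero, Matrix.zero_mul]
  have hπ : ∀ u, π ((1 - H) *ᵥ u) = 0 := by
    intro u
    rw [hk, mulVec_mulVec, Matrix.mul_sub, Matrix.mul_one, hgH, sub_self, zero_mulVec]
  have e1 : z = (e j * (1 - H)) * z * (e i)ᵀ + (e j * H) * z * (e i * (1 - H))ᵀ := by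
    have e2 : (e j * H) * z * (e i * (1 - H))ᵀ =
        e j * (H * z) * (e i)ᵀ - e j * (H * z * Hᵀ) * (e i)ᵀ := by
      rw [transpose_mul, transpose_sub, transpose_one, Matrix.sub_mul, Matrix.one_mul,
        Matrix.mul_sub]
      simp only [Matrix.mul_assoc]
    rw [e2, hHz, Matrix.mul_zero, Matrix.zero_mul, sub_zero, Matrix.mul_sub, Matrix.mul_one,
      Matrix.sub_mul, Matrix.sub_mul, hz]
    simp only [Matrix.mul_assoc]
    abel
  rw [e1, Pi.single_add]
  refine Q.add_mem ?_ ?_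
  · refine single_mul s Q _ _ _ fun a b => ?_
    rw [← mulVec_mulVec]
    exact A2 _ _ (pi_e h j (hπ _))
  · refine single_mul s Q _ _ _ fun a b => ?_
    rw [← mulVec_mulVec, ← mulVec_mulVec]
    exact A3 _ _ (pi_e h i (hπ _))

/-- **filtered block tensors from elementary and radical tensors** -/
theorem filt_mem (h : Fr k arm J B N W F G p al tau β T Ψ D π e lam l TT) {i j : m}
    (Q : Submodule K (Fin 3 → Matrix n n K)) (s : Fin 3)
    (A1 : ∀ a b, b + a + 1 = l s → ∀ u v : n → K,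
      (Pi.single s (vecMulVec ((al s ^ b) *ᵥ (e j *ᵥ u)) ((al s ^ a) *ᵥ (e i *ᵥ v))) :
        Fin 3 → Matrix n n K) ∈ Q)
    (A2 : ∀ r u, π (e j *ᵥ r) = 0 →
      (Pi.single s (vecMulVec (e j *ᵥ r) (e i *ᵥ u)) : Fin 3 → Matrix n n K) ∈ Q)
    (A3 : ∀ u r, π (e i *ᵥ r) = 0 →
      (Pi.single s (vecMulVec (e j *ᵥ u) (e i *ᵥ r)) : Fin 3 → Matrix n n K) ∈ Q)
    (y : Matrix n n K) (hy : e j * y * (e i)ᵀ = y) (hf : Fil (pᵀ * J * p) π Ψ s y) :
    (Pi.single s y : Fin 3 → Matrix n n K) ∈ Q := by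
  have hfin : FiniteDimensional K M := Module.Finite.of_surjective π h.cr.onto
  obtain ⟨yb, hyb, hfil⟩ := hf
  have h0 := filt_span h.cr.ns (h.cr.sa s) (h.lnil s) (h.free s) yb hfil
  have hform : ∀ y y', β (π y) (π y') = y ⬝ᵥ ((pᵀ * J * p) *ᵥ y') := h.cr.form
  obtain ⟨g, hgd⟩ : ∃ g, g = pᵀ * J * p := ⟨_, rfl⟩
  have hgt : gᵀ = g := by rw [hgd]; exact gt h
  rw [← hgd] at hform hyb
  have heg : ∀ i, (e i)ᵀ * g = g * e i := by rw [hgd]; exact h.eg
  have hee : ∀ (i : m) (x w : n → K), (e i *ᵥ x) ⬝ᵥ (g *ᵥ (e i *ᵥ w)) = x ⬝ᵥ (g *ᵥ (e i *ᵥ w)) := by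
    intro i x w
    rw [RDEnd.dt, mulVec_mulVec, mulVec_mulVec, mulVec_mulVec, heg, Matrix.mul_assoc, h.idem]
  -- the claim
  have key : ∀ X ∈ Submodule.span K (G1 β (Ψ s) (l s)), ∃ Y : Matrix n n K,
      (Pi.single s Y : Fin 3 → Matrix n n K) ∈ Q ∧ e j * Y * (e i)ᵀ = Y ∧
      ∀ u u', (Y *ᵥ (g *ᵥ (e i *ᵥ u))) ⬝ᵥ (g *ᵥ (e j *ᵥ u')) =
        β (X (π (e i *ᵥ u))) (π (e j *ᵥ u')) := by
    intro X hX
    induction hX using Submodule.span_induction with
    | mem X hX =>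
      obtain ⟨a, b, u, v, hab, rfl⟩ := hX
      obtain ⟨u, rfl⟩ := h.cr.onto u
      obtain ⟨v, rfl⟩ := h.cr.onto v
      refine ⟨_, A1 a b hab u v, ?_, ?_⟩
      · have e1 : (al s ^ b) *ᵥ (e j *ᵥ u) = e j *ᵥ ((al s ^ b) *ᵥ u) := by
          rw [mulVec_mulVec, mulVec_mulVec, e_pow h]
        have e2 : (al s ^ a) *ᵥ (e i *ᵥ v) = e i *ᵥ ((al s ^ a) *ᵥ v) := by
          rw [mulVec_mulVec, mulVec_mulVec, e_pow h]
        have hid : ∀ (i : m) (x : n → K), e i *ᵥ (e i *ᵥ x) = e i *ᵥ x := by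
          intro i x
          rw [mulVec_mulVec, h.idem]
        rw [e1, e2, mul_vecMulVec, vecMulVec_mul, vecMul_transpose, hid, hid]
      · intro w w'
        have e1 : (al s ^ b) *ᵥ (e j *ᵥ u) = e j *ᵥ ((al s ^ b) *ᵥ u) := by
          rw [mulVec_mulVec, mulVec_mulVec, e_pow h]
        have e2 : (al s ^ a) *ᵥ (e i *ᵥ v) = e i *ᵥ ((al s ^ a) *ᵥ v) := by
          rw [mulVec_mulVec, mulVec_mulVec, e_pow h]
        rw [LinearMap.smulRight_apply, map_smul, LinearMap.smul_apply, ← al_pow h, ← al_pow h,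
          hform, hform, vecMulVec_mulVec, e1, e2, op_smul_eq_smul, smul_dotProduct, hee, hee,
          smul_eq_mul]
    | zero =>
      refine ⟨0, ?_, ?_, ?_⟩
      · rw [Pi.single_zero]; exact Q.zero_mem
      · simp
      · intro u u'; simp
    | add X X' _ _ hX hX' =>
      obtain ⟨Y, y1, y2, y3⟩ := hX
      obtain ⟨Y', y1', y2', y3'⟩ := hX'
      refine ⟨Y + Y', ?_, ?_, ?_⟩
      · rw [Pi.single_add]; exact Q.add_mem y1 y1'
      · rw [Matrix.mul_add, Matrix.add_mul, y2, y2']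
      · intro u u'
        rw [Matrix.add_mulVec, add_dotProduct, y3, y3', LinearMap.add_apply, map_add,
          LinearMap.add_apply]
    | smul c X _ hX =>
      obtain ⟨Y, y1, y2, y3⟩ := hX
      refine ⟨c • Y, ?_, ?_, ?_⟩
      · rw [Pi.single_smul]; exact Q.smul_mem c y1
      · rw [Matrix.mul_smul, Matrix.smul_mul, y2]
      · intro u u'
        rw [Matrix.smul_mulVec, smul_dotProduct, y3, LinearMap.smul_apply, map_smul,
          LinearMap.smul_apply]
  obtain ⟨Y, y1, y2, y3⟩ := key yb h0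
  have hz : e j * (y - Y) * (e i)ᵀ = y - Y := by
    rw [Matrix.mul_sub, Matrix.sub_mul, hy, y2]
  have h5 : ∀ u u', ((y - Y) *ᵥ (g *ᵥ (e i *ᵥ u))) ⬝ᵥ (g *ᵥ (e j *ᵥ u')) = 0 := by
    intro u u'
    rw [Matrix.sub_mulVec, sub_dotProduct, y3, ← hyb, hform, sub_self]
  have h6 : g * (y - Y) * g = 0 := by
    have h7 : g * (y - Y) * g = (e j)ᵀ * g * (y - Y) * (g * e i) := by
      conv_lhs => rw [← hz]
      rw [heg]
      have := heg i
      simp only [Matrix.mul_assoc]
      rw [this]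
    rw [h7]
    ext a b
    have h8 := h5 (Pi.single b 1) (Pi.single a 1)
    rw [dotProduct_comm, dotProduct_mulVec] at h8
    have h9 : ((e j)ᵀ * g * (y - Y) * (g * e i)) a b =
        (Pi.single a 1 : n → K) ⬝ᵥ (((e j)ᵀ * g * (y - Y) * (g * e i)) *ᵥ Pi.single b 1) := by
      rw [single_one_dotProduct, mulVec_single_one]; rfl
    rw [h9, Matrix.zero_apply]
    have h10 : ((e j)ᵀ * g * (y - Y) * (g * e i)) *ᵥ (Pi.single b 1 : n → K) =
        (e j)ᵀ *ᵥ (g *ᵥ ((y - Y) *ᵥ (g *ᵥ (e i *ᵥ Pi.single b 1)))) := by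
      simp only [mulVec_mulVec, Matrix.mul_assoc]
    rw [h10, ← RDEnd.dt, ← hgt, ← RDEnd.dt, hgt, dotProduct_comm]
    exact h5 _ _
  have h7 := rad_mem h Q s A2 A3 (y - Y) hz (by rw [← hgd]; exact h6)
  have h8 : (Pi.single s y : Fin 3 → Matrix n n K) = Pi.single s Y + Pi.single s (y - Y) := by
    rw [← Pi.single_add, add_sub_cancel]
  rw [h8]
  exact Q.add_mem y1 h7

/-- the matrix of a block tensor -/
noncomputable def mb (e : m → Matrix n n K) (i j : m) :
    (LinearMap.range (toLin' (e j))) ⊗[K] (LinearMap.range (toLin' (e i))) →ₗ[K] Matrix n n K :=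
  RDEnd.mt ∘ₗ TensorProduct.map (LinearMap.range (toLin' (e j))).subtype
    (LinearMap.range (toLin' (e i))).subtype

theorem mb_tmul (i j : m) (u : LinearMap.range (toLin' (e j)))
    (v : LinearMap.range (toLin' (e i))) :
    mb e i j (u ⊗ₜ[K] v) = vecMulVec (u : n → K) (v : n → K) := rfl

/-- `al t` on the block `i` -/
noncomputable def ab (h : Fr k arm J B N W F G p al tau β T Ψ D π e lam l TT) (i : m)
    (t : Fin 3) : End K (LinearMap.range (toLin' (e i))) :=
  (toLin' (al t)).restrict (by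
    rintro _ ⟨x, rfl⟩
    refine ⟨al t *ᵥ x, ?_⟩
    rw [toLin'_apply, toLin'_apply, toLin'_apply, mulVec_mulVec, mulVec_mulVec, h.eal])

theorem ab_coe (h : Fr k arm J B N W F G p al tau β T Ψ D π e lam l TT) (i : m)
    (t : Fin 3) (v : LinearMap.range (toLin' (e i))) :
    ((ab h i t v : LinearMap.range (toLin' (e i))) : n → K) = al t *ᵥ (v : n → K) := rfl

theorem ab_pow (h : Fr k arm J B N W F G p al tau β T Ψ D π e lam l TT) (i : m)
    (t : Fin 3) (a : ℕ) (v : LinearMap.range (toLin' (e i))) :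
    (((ab h i t ^ a) v : LinearMap.range (toLin' (e i))) : n → K) = (al t ^ a) *ᵥ (v : n → K) := by
  induction a generalizing v with
  | zero => simp
  | succ a ih =>
    rw [pow_succ, Module.End.mul_apply, ih, ab_coe, mulVec_mulVec, pow_succ]

theorem ab_word (h : Fr k arm J B N W F G p al tau β T Ψ D π e lam l TT) (i : m)
    (w : List (Fin 3)) (v : LinearMap.range (toLin' (e i))) :
    (((w.map (ab h i)).prod v : LinearMap.range (toLin' (e i))) : n → K) =
      (w.map al).prod *ᵥ (v : n → K) := by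
  induction w generalizing v with
  | nil => simp
  | cons a w ih =>
    rw [List.map_cons, List.prod_cons, List.map_cons, List.prod_cons, Module.End.mul_apply,
      ab_coe, ih, mulVec_mulVec]

theorem mb_defect (h : Fr k arm J B N W F G p al tau β T Ψ D π e lam l TT) (i j : m) (t : Fin 3)
    (c : K) (x : (LinearMap.range (toLin' (e j))) ⊗[K] (LinearMap.range (toLin' (e i)))) :
    mb e i j (Dual.defect (ab h i t) (ab h j t) c x) =
      mb e i j x * (al t)ᵀ - c • (al t * mb e i j x) := by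
  induction x using TensorProduct.induction_on with
  | zero => simp
  | tmul u v =>
    rw [Dual.defect_tmul, map_sub, map_smul, mb_tmul, mb_tmul, mb_tmul, ab_coe, ab_coe,
      vecMulVec_mul, vecMul_transpose, mul_vecMulVec]
  | add x y hx hy =>
    rw [map_add, map_add, hx, hy, map_add, Matrix.add_mul, Matrix.mul_add, smul_add]
    abel

theorem mb_block (h : Fr k arm J B N W F G p al tau β T Ψ D π e lam l TT) (i j : m)
    (x : (LinearMap.range (toLin' (e j))) ⊗[K] (LinearMap.range (toLin' (e i)))) :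
    e j * mb e i j x * (e i)ᵀ = mb e i j x := by
  induction x using TensorProduct.induction_on with
  | zero => simp
  | tmul u v =>
    obtain ⟨_, u, rfl⟩ := u
    obtain ⟨_, v, rfl⟩ := v
    rw [mb_tmul, mul_vecMulVec, vecMulVec_mul, vecMul_transpose]
    simp only [toLin'_apply, mulVec_mulVec, h.idem]
  | add x y hx hy =>
    rw [map_add, Matrix.mul_add, Matrix.add_mul, hx, hy]

/-- the radical of a block -/
noncomputable def Rb (π : (n → K) →ₗ[K] M) (e : m → Matrix n n K) (i : m) :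
    Submodule K (LinearMap.range (toLin' (e i))) :=
  LinearMap.ker (π ∘ₗ (LinearMap.range (toLin' (e i))).subtype)

theorem mem_Rb {i : m} {v : LinearMap.range (toLin' (e i))} :
    v ∈ Rb π e i ↔ π (v : n → K) = 0 := Iff.rfl

theorem mb_rad (h : Fr k arm J B N W F G p al tau β T Ψ D π e lam l TT) (i j : m)
    (x : (LinearMap.range (toLin' (e j))) ⊗[K] (LinearMap.range (toLin' (e i))))
    (hx : x ∈ Dual.Rad (Rb π e i) (Rb π e j)) :
    (pᵀ * J * p) * mb e i j x * (pᵀ * J * p) = 0 := by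
  have hgt := gt h
  have h1 : Dual.Rad (Rb π e i) (Rb π e j) ≤ LinearMap.ker
      ((LinearMap.mulRight K (pᵀ * J * p)) ∘ₗ (LinearMap.mulLeft K (pᵀ * J * p)) ∘ₗ mb e i j) := by
    unfold Dual.Rad
    rw [sup_le_iff, Submodule.span_le, Submodule.span_le]
    constructor
    · rintro _ ⟨r, hr, u, rfl⟩
      rw [mem_Rb, ker_iff h] at hr
      change (pᵀ * J * p) * mb e i j (r ⊗ₜ u) * (pᵀ * J * p) = 0
      rw [mb_tmul, mul_vecMulVec, hr, zero_vecMulVec, Matrix.zero_mul]
    · rintro _ ⟨u, r, hr, rfl⟩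
      rw [mem_Rb, ker_iff h] at hr
      change (pᵀ * J * p) * mb e i j (u ⊗ₜ r) * (pᵀ * J * p) = 0
      rw [mb_tmul, mul_vecMulVec, vecMulVec_mul, ← mulVec_transpose, hgt, hr, vecMulVec_zero]
  exact h1 hx

theorem RS_rel {y : Fin 3 → Matrix n n K} {z0 : Matrix n n K} {μ0 : Fin 3 → Matrix n n K}
    (hy : RS arm J B N W F p T Ψ π e y z0 μ0) : y ∈ RDEnd.Rel arm J N W F p π T 0 Ψ := by
  obtain ⟨w, z, μ, h1, h2, h3, -, ⟨zb, h4, h5⟩, -⟩ := hy
  exact ⟨w, z, zb, h1, h2, h3, h4, h5⟩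

/-- the three kinds of single-arm tensors -/
theorem arms [CharZero K] (h : Fr k arm J B N W F G p al tau β T Ψ D π e lam l TT)
    {i j : m} (hij : i ≠ j) {S : Set K} (hS : S.Finite)
    (hh : ∀ c ∉ S, ∀ (x : Fin 3 → Matrix n n K) (b kk : Matrix n n K),
      Dec (pᵀ * J * p) π e i j (fun r => al r) (fun r => c • al r) x b kk →
      x ∈ RDEnd.Rel arm J N W F p π T 0 Ψ) :
    (∀ s a b, a + b + 1 = l s → ∀ u v : n → K,
      (Pi.single s (vecMulVec ((al s ^ b) *ᵥ (e j *ᵥ u)) ((al s ^ a) *ᵥ (e i *ᵥ v))) :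
        Fin 3 → Matrix n n K) ∈ RDEnd.Rel arm J N W F p π T 0 Ψ) ∧
    (∀ s r u, π (e j *ᵥ r) = 0 →
      (Pi.single s (vecMulVec (e j *ᵥ r) (e i *ᵥ u)) : Fin 3 → Matrix n n K) ∈
        RDEnd.Rel arm J N W F p π T 0 Ψ) ∧
    (∀ s u r, π (e i *ᵥ r) = 0 →
      (Pi.single s (vecMulVec (e j *ᵥ u) (e i *ᵥ r)) : Fin 3 → Matrix n n K) ∈
        RDEnd.Rel arm J N W F p π T 0 Ψ) := by
  have hinf : ({c : K | c ∉ S ∧ c ≠ 0}).Infinite := by
    have h1 : (S ∪ {0}).Finite := hS.union (Set.finite_singleton 0)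
    refine h1.infinite_compl.mono ?_
    intro c hc
    rw [Set.mem_compl_iff, Set.mem_union, not_or] at hc
    exact ⟨hc.1, hc.2⟩
  obtain ⟨m0, hm0⟩ := h.kill
  obtain ⟨ρ, hρ⟩ := h.ctx.perf
  have perf : ∀ (i : m) (u : LinearMap.range (toLin' (e i))),
      ∃ f : Fin 3 → LinearMap.range (toLin' (e i)), u = ∑ t, ab h i t (f t) := by
    rintro i ⟨_, u, rfl⟩
    refine ⟨fun t => ⟨toLin' (e i) (ρ t *ᵥ u), ⟨_, rfl⟩⟩, ?_⟩
    apply Subtype.ext
    rw [AddSubmonoidClass.coe_finsetSum]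
    simp only [ab_coe, toLin'_apply, mulVec_mulVec]
    have h1 : ∀ t, al t * (e i * ρ t) = e i * (al t * ρ t) := by
      intro t
      rw [← Matrix.mul_assoc, ← h.eal, Matrix.mul_assoc]
    simp only [h1]
    rw [← Matrix.sum_mulVec, ← Matrix.mul_sum, hρ, Matrix.mul_one]
  have stab : ∀ (i : m) (t : Fin 3), ∀ r ∈ Rb π e i, ab h i t r ∈ Rb π e i := by
    intro i t r hr
    rw [mem_Rb] at hr ⊢
    rw [ab_coe, ← h.cr.op, hr, map_zero]
  have kl : ∀ i : m, ∃ n0, ∀ r ∈ Rb π e i, Dual.Kills (ab h i) n0 r := by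
    intro i
    refine ⟨m0, fun r hr w hw => ?_⟩
    apply Subtype.ext
    rw [ab_word, hm0 w hw _ (mem_Rb.1 hr)]
    rfl
  have hl : ∀ (i : m) (s : Fin 3) (u : LinearMap.range (toLin' (e i))),
      (ab h i s ^ l s) u ∈ Rb π e i := by
    intro i s u
    rw [mem_Rb, ab_pow, al_pow h, h.lnil]; rfl
  have gn : ∀ (i : m) (S : Submodule K (LinearMap.range (toLin' (e i)))),
      (∀ s u, (ab h i s ^ l s) u ∈ S) → (∀ t, ∀ r ∈ S, ab h i t r ∈ S) → Rb π e i ≤ S := by
    rintro i S h1 h2 ⟨_, u, rfl⟩ hr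
    rw [mem_Rb] at hr
    have h3 := h.gen i (S.map (LinearMap.range (toLin' (e i))).subtype) (by
      rintro s _ ⟨v, hv, rfl⟩
      exact ⟨ab h i s v, h2 s v hv, rfl⟩) (by
      intro s u
      exact ⟨(ab h i s ^ l s) ⟨toLin' (e i) u, ⟨u, rfl⟩⟩, h1 s _, by
        rw [Submodule.coe_subtype, ab_pow]; rfl⟩) u hr
    obtain ⟨v, hv, hvu⟩ := h3
    have h4 : v = ⟨toLin' (e i) u, ⟨u, rfl⟩⟩ := Subtype.ext hvu
    rw [← h4]; exact hv
  obtain ⟨r1, r2, r3⟩ := Dual.span_exact (A := ab h i) (B := ab h j) (R1 := Rb π e i)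
    (R2 := Rb π e j) (l := l) hinf (fun h0 => h0.2 rfl) (perf i) (perf j) (stab i) (stab j)
    (kl i) (kl j) (hl i) (hl j) (gn i) (gn j)
    (fun t => (RDEnd.qs (K := K) (n := n) t).domRestrict₁₂ (LinearMap.range (toLin' (e j)))
      (LinearMap.range (toLin' (e i))))
    (RDEnd.Rel arm J N W F p π T 0 Ψ) (by
      rintro c ⟨hcS, hc0⟩ x ⟨hx1, hx2⟩
      have e1 : ∑ t, TensorProduct.lift ((RDEnd.qs (K := K) (n := n) t).domRestrict₁₂
          (LinearMap.range (toLin' (e j))) (LinearMap.range (toLin' (e i)))) (x t) =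
          fun t => mb e i j (x t) := by
        have e2 : ∀ t (z : (LinearMap.range (toLin' (e j))) ⊗[K] (LinearMap.range (toLin' (e i)))),
            TensorProduct.lift ((RDEnd.qs (K := K) (n := n) t).domRestrict₁₂
              (LinearMap.range (toLin' (e j))) (LinearMap.range (toLin' (e i)))) z =
            Pi.single t (mb e i j z) := by
          intro t z
          induction z using TensorProduct.induction_on with
          | zero => simp
          | tmul u v => rw [TensorProduct.lift.tmul, mb_tmul]; rfl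
          | add a b ha hb => rw [map_add, ha, hb, map_add, Pi.single_add]
        simp only [e2]
        funext r
        rw [Finset.sum_apply, Finset.sum_eq_single r]
        · rw [Pi.single_eq_same]
        · intro s _ hs
          rw [Pi.single_eq_of_ne (Ne.symm hs)]
        · intro hr; exact absurd (Finset.mem_univ r) hr
      rw [e1]
      have s1 : ∑ r, (mb e i j (x r) * (al r)ᵀ - c • (al r * mb e i j (x r))) = 0 := by
        simp only [← mb_defect h]
        rw [← map_sum, hx1, map_zero]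
      have s2 : ∀ r, (pᵀ * J * p) * (mb e i j (x r) * (al r)ᵀ - c • (al r * mb e i j (x r))) *
          (pᵀ * J * p) = 0 := by
        intro r
        rw [← mb_defect h]
        exact mb_rad h i j _ (hx2 r)
      obtain ⟨b, kk, b1, b2, b3, b4, b5, b6⟩ := h.hexS i j hij c hc0 (fun r => mb e i j (x r))
        (fun r => mb_block h i j (x r)) s1 s2
      refine hh c hcS _ b kk ⟨fun r => mb_block h i j (x r), b1, b2, b3, b4, ?_, ?_, ?_, ?_⟩
      · simpa only [Matrix.smul_mul] using s1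
      · simpa only [Matrix.smul_mul] using s2
      · intro r
        rw [Matrix.mul_smul]; exact b5 r
      · intro r
        rw [Matrix.smul_mul]; exact b6 r)
  refine ⟨fun s a b hab u v => ?_, fun s r u hr => ?_, fun s u r hr => ?_⟩
  · have h1 := r1 s a b hab ⟨toLin' (e j) u, ⟨u, rfl⟩⟩ ⟨toLin' (e i) v, ⟨v, rfl⟩⟩
    rw [LinearMap.domRestrict₁₂_apply, RDEnd.qs_apply, ab_pow, ab_pow] at h1
    exact h1
  · exact r2 s ⟨toLin' (e j) r, ⟨r, rfl⟩⟩ hr ⟨toLin' (e i) u, ⟨u, rfl⟩⟩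
  · exact r3 s ⟨toLin' (e i) r, ⟨r, rfl⟩⟩ hr ⟨toLin' (e j) u, ⟨u, rfl⟩⟩

/-- RD4 from the weak form of RD2 -/
theorem offdiag_of [CharZero K] (h : Fr k arm J B N W F G p al tau β T Ψ D π e lam l TT)
    {i j : m} (hij : i ≠ j) {S : Set K} (hS : S.Finite)
    (hh : ∀ c ∉ S, ∀ (x : Fin 3 → Matrix n n K) (b kk : Matrix n n K),
      Dec (pᵀ * J * p) π e i j (fun r => al r) (fun r => c • al r) x b kk →
      x ∈ RDEnd.Rel arm J N W F p π T 0 Ψ) (s : Fin 3) (y : Matrix n n K)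
    (hy : e j * y * (e i)ᵀ = y) (hf : Fil (pᵀ * J * p) π Ψ s y) :
    (Pi.single s y : Fin 3 → Matrix n n K) ∈ RDEnd.Rel arm J N W F p π T 0 Ψ := by
  obtain ⟨a1, a2, a3⟩ := arms h hij hS hh
  exact filt_mem h _ s (fun a b hab u v => a1 s a b (by omega) u v) (a2 s) (a3 s) y hy hf

end frame

end Crest.Agent.R172.RD795
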