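import Crest.Agent.R172.RD0

/-!
Row 172 (S0260), (T0), `RD.pick`: the connection of the frame can be chosen with prescribed
off-diagonal part (skeleton of helper460, note 16775).
-/

set_option autoImplicit false
set_option linter.unusedSectionVars false

namespace Crest.Agent.R172.RD.H16

open Matrix Module TensorProduct Crest.Agent.R172.FO Crest.Agent.R172.FrmB
open Crest.Agent.R172.Core (NS Tame)
open Crest.Agent.R172.PL (Wk)

variable {ι : Type*} [Fintype ι] [DecidableEq ι] {δ : Type*} [Fintype δ] [DecidableEq δ]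
variable {n : Type*} [Fintype n] [DecidableEq n]
variable {k K : Type*} [Field k] [Field K] [Algebra k K]
variable {M : Type*} [AddCommGroup M] [Module K M]
variable {m : Type*} [Fintype m] [DecidableEq m]

section off

variable {e : m → Matrix n n K}

theorem off_add (A A' : Matrix n n K) : off e (A + A') = off e A + off e A' := by
  unfold off
  simp only [Matrix.mul_add, Matrix.add_mul, Finset.sum_add_distrib]
  abel

theorem off_sub (A A' : Matrix n n K) : off e (A - A') = off e A - off e A' := by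
  unfold off
  simp only [Matrix.mul_sub, Matrix.sub_mul, Finset.sum_sub_distrib]
  abel

theorem off_mul_right {a : Matrix n n K} (ha : ∀ i, e i * a = a * e i) (A : Matrix n n K) :
    off e (A * a) = off e A * a := by
  unfold off
  rw [Matrix.sub_mul, Finset.sum_mul]
  congr 1
  refine Finset.sum_congr rfl fun l _ => ?_
  rw [← Matrix.mul_assoc, Matrix.mul_assoc, ← ha l, ← Matrix.mul_assoc]

theorem off_mul_left {a : Matrix n n K} (ha : ∀ i, e i * a = a * e i) (A : Matrix n n K) :
    off e (a * A) = a * off e A := by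
  unfold off
  rw [Matrix.mul_sub, Finset.mul_sum]
  congr 1
  refine Finset.sum_congr rfl fun l _ => ?_
  rw [← Matrix.mul_assoc, ha l]
  simp only [Matrix.mul_assoc]

theorem off_comm (hi : ∀ i, e i * e i = e i) (hs : ∑ i, e i = 1) {a : Matrix n n K}
    (ha : ∀ i, e i * a = a * e i) : off e a = 0 := by
  unfold off
  have : ∀ l ∈ Finset.univ, e l * a * e l = a * e l := by
    intro l _
    rw [ha l, Matrix.mul_assoc, hi l]
  rw [Finset.sum_congr rfl this, ← Matrix.mul_sum, hs, Matrix.mul_one, sub_self]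

theorem off_diag (hi : ∀ i, e i * e i = e i) (ho : ∀ i j, i ≠ j → e i * e j = 0)
    (A : m → Matrix n n K) : off e (∑ l, e l * A l * e l) = 0 := by
  unfold off
  rw [sub_eq_zero]
  refine Finset.sum_congr rfl fun l _ => ?_
  rw [Matrix.mul_sum, Matrix.sum_mul, Finset.sum_eq_single l]
  · simp only [← Matrix.mul_assoc, hi l]
    rw [Matrix.mul_assoc (e l * A l), hi l]
  · intro j _ hj
    simp only [← Matrix.mul_assoc, ho l j (Ne.symm hj), Matrix.zero_mul]
  · intro h; exact absurd (Finset.mem_univ _) h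

theorem off_split (A : Matrix n n K) : A = off e A + ∑ l, e l * A * e l := by
  unfold off; rw [sub_add_cancel]

end off

/-- factor through words -/
theorem words_fac {Y Q : Matrix ι n K} {a ρ : Fin 3 → Matrix n n K} (hρ : ∑ s, a s * ρ s = 1) :
    ∀ q : ℕ, (∀ w : List (Fin 3), w.length = q → ∃ R : Matrix n n K,
      Y * (w.map a).prod = Q * R) → ∃ R : Matrix n n K, Y = Q * R
  | 0, h => by
      obtain ⟨R, hR⟩ := h [] rfl
      exact ⟨R, by simpa using hR⟩
  | q + 1, h => by
      refine words_fac hρ q fun w hw => ?_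
      have h1 : ∀ s : Fin 3, ∃ R : Matrix n n K, Y * (w.map a).prod * a s = Q * R := by
        intro s
        obtain ⟨R, hR⟩ := h (w ++ [s]) (by simp [hw])
        refine ⟨R, ?_⟩
        rw [← hR]
        simp [Matrix.mul_assoc]
      choose R hR using h1
      refine ⟨∑ s, R s * ρ s, ?_⟩
      calc Y * (w.map a).prod = Y * (w.map a).prod * ∑ s, a s * ρ s := by
            rw [hρ, Matrix.mul_one]
        _ = ∑ s, Q * (R s * ρ s) := by
            rw [Matrix.mul_sum]
            refine Finset.sum_congr rfl fun s _ => ?_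
            rw [← Matrix.mul_assoc, hR, Matrix.mul_assoc]
        _ = _ := by rw [Matrix.mul_sum]

/-- a vector killed by the form after all words of some length is killed by the form -/
theorem top_zero {g : Matrix n n K} {a ρ : Fin 3 → Matrix n n K} (hρ : ∑ s, a s * ρ s = 1)
    (hg : ∀ s, (a s)ᵀ * g = g * a s) :
    ∀ (q : ℕ) (v : n → K), (∀ w : List (Fin 3), w.length = q →
      g *ᵥ ((w.map a).prod *ᵥ v) = 0) → g *ᵥ v = 0
  | 0, v, h => by simpa using h [] rfl
  | q + 1, v, h => by
      have h1 : ∀ s, g *ᵥ (a s *ᵥ v) = 0 := by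
        intro s
        refine top_zero hρ hg q _ fun w hw => ?_
        have := h (w ++ [s]) (by simp [hw])
        simpa [Matrix.mulVec_mulVec, Matrix.mul_assoc] using this
      have h2 : g *ᵥ v = (∑ s, a s * ρ s)ᵀ *ᵥ (g *ᵥ v) := by
        rw [hρ, transpose_one, one_mulVec]
      rw [h2, transpose_sum, Matrix.sum_mulVec]
      refine Finset.sum_eq_zero fun s _ => ?_
      rw [transpose_mul, ← mulVec_mulVec, mulVec_mulVec v, hg, ← mulVec_mulVec v, h1, mulVec_zero]

section main

variable {arm : δ → Fin 3} {J : Matrix ι ι K} {B : Matrix δ δ K}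
  {N W : Submodule K (Matrix ι δ K)} {F G : Matrix ι δ K} {p : Matrix ι n K}
  {al : Fin 3 → Matrix n n K} {tau : Matrix n n K}
  {β : LinearMap.BilinForm K M} {T : Module.End K M →ₗ[K] Module.End K M}
  {Ψ : Fin 3 → Module.End K M} {D : Module.End K M} {π : (n → K) →ₗ[K] M}
  {e : m → Matrix n n K} {lam : m → K} {l : Fin 3 → ℕ} {TT : Set k}

theorem g_of_pi (h : Fr k arm J B N W F G p al tau β T Ψ D π e lam l TT) {v : n → K}
    (hv : π v = 0) : (pᵀ * J * p) *ᵥ v = 0 := by
  have h1 : ∀ y : n → K, y ⬝ᵥ ((pᵀ * J * p) *ᵥ v) = 0 := by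
    intro y
    rw [← h.cr.form, hv, map_zero]
  exact dotProduct_eq_zero _ (fun y => by rw [dotProduct_comm]; exact h1 y)

theorem pi_of_g (h : Fr k arm J B N W F G p al tau β T Ψ D π e lam l TT) {v : n → K}
    (hv : (pᵀ * J * p) *ᵥ v = 0) : π v = 0 := by
  apply h.cr.ns.nd
  intro w
  obtain ⟨y, rfl⟩ := h.cr.onto w
  rw [h.cr.form, Matrix.dotProduct_mulVec, ← Matrix.mulVec_transpose, h.ctx.gam_symm, hv,
    zero_dotProduct]

theorem al_sa (h : Fr k arm J B N W F G p al tau β T Ψ D π e lam l TT) (s : Fin 3) :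
    (al s)ᵀ * (pᵀ * J * p) = (pᵀ * J * p) * al s := by
  have h1 : ∀ y y' : n → K, y ⬝ᵥ (((al s)ᵀ * (pᵀ * J * p)) *ᵥ y') =
      y ⬝ᵥ (((pᵀ * J * p) * al s) *ᵥ y') := by
    intro y y'
    have h2 := h.cr.sa s (π y) (π y')
    rw [h.cr.op, h.cr.op, h.cr.form, h.cr.form] at h2
    rw [← mulVec_mulVec y' (al s)ᵀ (pᵀ * J * p), ← mulVec_mulVec y' (pᵀ * J * p) (al s), ← h2,
      Matrix.dotProduct_mulVec, ← Matrix.mulVec_transpose, transpose_transpose]
  ext i j
  have := h1 (Pi.single i 1) (Pi.single j 1)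
  simpa using this

/-- **PICK** -/
theorem pick [CharZero K] (h : Fr k arm J B N W F G p al tau β T Ψ D π e lam l TT)
    {t : k} (ht : t ∈ TT ∨ t = 0) {kap : Matrix n n K} (hk : kap = 1 + algebraMap k K t • tau)
    {d : Derivation k K K} {θ0 : Matrix n n K} (hθ : p.map d = p * θ0)
    {U : Fin 3 → Matrix n n K}
    (hU : ∀ s, p * FC.nab d θ0 (al s * (kap * kap)) = p * U s)
    {C : Matrix n n K} (hC : off e C = C) (hCr : ∀ u, π (C *ᵥ u) = 0)
    (hoff : ∀ s, off e (U s) = C * (al s * (kap * kap)) - al s * (kap * kap) * C) :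
    ∃ θ, p.map d = p * θ ∧ off e θ = C := by
  classical
  obtain ⟨c, hc⟩ : ∃ c : K, c = algebraMap k K t := ⟨_, rfl⟩
  rw [← hc] at hk
  obtain ⟨g, hg⟩ : ∃ g : Matrix n n K, g = pᵀ * J * p := ⟨_, rfl⟩
  obtain ⟨a, ha⟩ : ∃ a : Fin 3 → Matrix n n K, ∀ s, a s = al s * (kap * kap) :=
    ⟨_, fun _ => rfl⟩
  have hpi : ∀ v, π v = 0 → g *ᵥ v = 0 := fun v hv => by rw [hg]; exact g_of_pi h hv
  have hip : ∀ v, g *ᵥ v = 0 → π v = 0 := fun v hv => by rw [hg] at hv; exact pi_of_g h hv
  have hform : ∀ y y', β (π y) (π y') = y ⬝ᵥ (g *ᵥ y') := fun y y' => by rw [hg]; exact h.cr.form y y'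
  have heg : ∀ i, (e i)ᵀ * g = g * e i := fun i => by rw [hg]; exact h.eg i
  have hsa : ∀ s, (al s)ᵀ * g = g * al s := fun s => by rw [hg]; exact al_sa h s
  simp only [← ha] at hU hoff
  -- `kap` is invertible
  obtain ⟨kai, hkai⟩ : ∃ kai : Matrix n n K, kap * kai = 1 := by
    rcases ht with ht | ht
    · obtain ⟨kap', kai', hp⟩ := h.par t ht
      refine ⟨kai', ?_⟩
      rw [hk, hc, ← hp.kap_eq]
      exact hp.mul
    · refine ⟨1, ?_⟩
      rw [hk, hc, ht, map_zero, zero_smul, add_zero, Matrix.one_mul]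
  have hkal : ∀ s, kap * al s = al s * kap := by
    intro s
    rw [hk, Matrix.add_mul, Matrix.mul_add, Matrix.one_mul, Matrix.mul_one, Matrix.smul_mul,
      Matrix.mul_smul, h.ctx.comm]
  have hek : ∀ i, e i * kap = kap * e i := by
    intro i
    rw [hk, Matrix.mul_add, Matrix.add_mul, Matrix.one_mul, Matrix.mul_one, Matrix.smul_mul,
      Matrix.mul_smul, h.etau]
  have hea : ∀ s i, e i * a s = a s * e i := by
    intro s i
    rw [ha, ← Matrix.mul_assoc, h.eal, Matrix.mul_assoc, ← Matrix.mul_assoc (e i), hek,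
      Matrix.mul_assoc kap, hek]
    simp only [Matrix.mul_assoc]
  have hgk : kapᵀ * g = g * kap := by
    rw [hk, transpose_add, transpose_one, transpose_smul, Matrix.add_mul, Matrix.mul_add,
      Matrix.one_mul, Matrix.mul_one, Matrix.smul_mul, Matrix.mul_smul, hg, h.ctx.tau_sa]
  have hga : ∀ s, (a s)ᵀ * g = g * a s := by
    intro s
    have e1 : (al s * (kap * kap)) = kap * kap * al s := by
      rw [Matrix.mul_assoc, hkal, ← Matrix.mul_assoc kap, hkal, Matrix.mul_assoc]
    calc (a s)ᵀ * g = (kap * kap * al s)ᵀ * g := by rw [ha, e1]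
      _ = (al s)ᵀ * (kapᵀ * (kapᵀ * g)) := by
          rw [transpose_mul, transpose_mul]; simp only [Matrix.mul_assoc]
      _ = (al s)ᵀ * g * (kap * kap) := by
          rw [hgk, ← Matrix.mul_assoc kapᵀ, hgk]; simp only [Matrix.mul_assoc]
      _ = g * al s * (kap * kap) := by rw [hsa s]
      _ = _ := by rw [Matrix.mul_assoc, ha]
  -- perfectness
  obtain ⟨ρ0, hρ0⟩ := h.ctx.perf
  obtain ⟨ρ, hρ⟩ : ∃ ρ : Fin 3 → Matrix n n K, ∑ s, a s * ρ s = 1 := by
    refine ⟨fun s => kai * kai * ρ0 s, ?_⟩
    rw [← hρ0]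
    refine Finset.sum_congr rfl fun s _ => ?_
    calc a s * (kai * kai * ρ0 s)
        = al s * (kap * ((kap * kai) * (kai * ρ0 s))) := by rw [ha]; simp only [Matrix.mul_assoc]
      _ = al s * (kap * (kai * ρ0 s)) := by rw [hkai, Matrix.one_mul]
      _ = al s * ((kap * kai) * ρ0 s) := by rw [Matrix.mul_assoc kap]
      _ = _ := by rw [hkai, Matrix.one_mul]
  -- the operators on `V`
  have hPhi : ∀ s, Phi arm J B (F + c • G) s * p = p * a s := by
    intro s
    have e0 : (F + c • G)ᵀ * J * p = Fᵀ * J * p * kap := by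
      rw [hk, transpose_add, transpose_smul, Matrix.add_mul, Matrix.add_mul,
        Matrix.smul_mul, Matrix.smul_mul, h.ctx.hτ, Matrix.mul_add, Matrix.mul_one,
        Matrix.mul_smul]
    have e1 : (F + c • G) * FC.bs arm J B F p s = p * kap * al s := by
      rw [hk, Matrix.add_mul, Matrix.smul_mul, h.ctx.Fbs, h.ctx.Gbs, Matrix.mul_add,
        Matrix.mul_one, Matrix.add_mul, Matrix.mul_smul, Matrix.smul_mul]
    have e : Phi arm J B (F + c • G) s * p =
        (F + c • G) * (E K arm s * B * ((F + c • G)ᵀ * J * p)) := by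
      unfold Phi FO.M
      simp only [Matrix.mul_assoc]
    rw [e, e0]
    have e2 : (F + c • G) * (E K arm s * B * (Fᵀ * J * p * kap)) =
        ((F + c • G) * FC.bs arm J B F p s) * kap := by
      unfold FC.bs
      simp only [Matrix.mul_assoc]
    rw [e2, e1, Matrix.mul_assoc p, hkal, ha]
    simp only [Matrix.mul_assoc]
  -- the defect
  obtain ⟨Z, hZ⟩ : ∃ Z : Fin 3 → Matrix n n K, ∀ s, Z s = FC.nab d θ0 (a s) - U s :=
    ⟨_, fun _ => rfl⟩
  have hpZ : ∀ s, p * Z s = 0 := by
    intro s
    rw [hZ, Matrix.mul_sub, hU, sub_self]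
  have hgZ : ∀ s, g * Z s = 0 := by
    intro s
    rw [hg, Matrix.mul_assoc, hpZ, Matrix.mul_zero]
  -- off-diagonal part of the defect
  obtain ⟨X, hX⟩ : ∃ X : Matrix n n K, X = off e θ0 - C := ⟨_, rfl⟩
  have hda : ∀ s i, e i * (a s).map d = (a s).map d * e i := by
    intro s i
    have h1 : (e i * a s).map d = (a s * e i).map d := by rw [hea]
    rw [map_mul_der, map_mul_der, h.eC, Matrix.zero_mul, Matrix.mul_zero] at h1
    simpa using h1
  have hoffZ : ∀ s, off e (Z s) = X * a s - a s * X := by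
    intro s
    rw [hZ, FC.nab, off_sub, off_sub, off_add, off_comm h.idem h.sumE (hda s),
      off_mul_right (hea s), off_mul_left (hea s), hoff, hX, Matrix.sub_mul, Matrix.mul_sub]
    abel
  have hgX : ∀ s, g * (X * a s - a s * X) = 0 := by
    intro s
    rw [← hoffZ]
    unfold off
    rw [Matrix.mul_sub, hgZ, Matrix.mul_sum, zero_sub, neg_eq_zero]
    refine Finset.sum_eq_zero fun i _ => ?_
    rw [← Matrix.mul_assoc, ← Matrix.mul_assoc, ← heg, Matrix.mul_assoc _ g,
      hgZ, Matrix.mul_zero, Matrix.zero_mul]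
  -- words and `X`
  have hgXw : ∀ (w : List (Fin 3)), g * (X * (w.map a).prod - (w.map a).prod * X) = 0 := by
    intro w
    induction w with
    | nil => simp
    | cons s w ih =>
      have e1 : X * ((s :: w).map a).prod - ((s :: w).map a).prod * X =
          (X * a s - a s * X) * (w.map a).prod +
            a s * (X * (w.map a).prod - (w.map a).prod * X) := by
        simp only [List.map_cons, List.prod_cons, Matrix.sub_mul, Matrix.mul_sub,
          Matrix.mul_assoc]
        abel
      rw [e1, Matrix.mul_add, ← Matrix.mul_assoc, hgX, Matrix.zero_mul, zero_add,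
        ← Matrix.mul_assoc, ← hga, Matrix.mul_assoc, ih, Matrix.mul_zero]
  -- long words of `a` kill `ker π`
  have hgkk : ∀ (q : ℕ) (u : n → K), g *ᵥ u = 0 → g *ᵥ (((kap * kap) ^ q) *ᵥ u) = 0 := by
    intro q
    induction q with
    | zero => intro u hu; simpa using hu
    | succ q ih =>
      intro u hu
      rw [pow_succ, ← mulVec_mulVec]
      apply ih
      rw [mulVec_mulVec, ← Matrix.mul_assoc, ← hgk, Matrix.mul_assoc, ← hgk, ← Matrix.mul_assoc,
        ← mulVec_mulVec, hu, mulVec_zero]
  have hwa : ∀ w : List (Fin 3), (w.map a).prod = (w.map al).prod * (kap * kap) ^ w.length := by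
    intro w
    induction w with
    | nil => simp
    | cons s w ih =>
      rw [List.map_cons, List.prod_cons, ih, List.map_cons, List.prod_cons, List.length_cons,
        pow_succ']
      have hcw : ∀ w : List (Fin 3), kap * kap * (w.map al).prod = (w.map al).prod * (kap * kap) := by
        intro w
        induction w with
        | nil => simp
        | cons s w ih =>
          rw [List.map_cons, List.prod_cons, ← Matrix.mul_assoc, Matrix.mul_assoc kap, hkal,
            ← Matrix.mul_assoc kap, hkal, Matrix.mul_assoc (al s), Matrix.mul_assoc (al s), ih,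
            ← Matrix.mul_assoc]
      rw [ha, Matrix.mul_assoc (al s), ← Matrix.mul_assoc (kap * kap), hcw]
      simp only [Matrix.mul_assoc]
  obtain ⟨m0, hm0⟩ := h.kill
  have hka : ∀ w : List (Fin 3), w.length = m0 → ∀ u, g *ᵥ u = 0 → (w.map a).prod *ᵥ u = 0 := by
    intro w hw u hu
    rw [hwa, ← mulVec_mulVec]
    exact hm0 w hw _ (hip _ (hgkk _ u hu))
  have hXker : ∀ u, g *ᵥ u = 0 → g *ᵥ (X *ᵥ u) = 0 := by
    intro u hu
    refine top_zero hρ hga m0 _ fun w hw => ?_
    have h1 : g *ᵥ ((X * (w.map a).prod - (w.map a).prod * X) *ᵥ u) = 0 := by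
      rw [mulVec_mulVec, hgXw, zero_mulVec]
    rw [sub_mulVec, mulVec_sub, ← mulVec_mulVec u X, hka w hw u hu, mulVec_zero, mulVec_zero,
      zero_sub, neg_eq_zero, ← mulVec_mulVec u _ X] at h1
    exact h1
  -- the core map
  obtain ⟨σ, hσ⟩ := LinearMap.exists_rightInverse_of_surjective π (LinearMap.range_eq_top.2 h.cr.onto)
  have hσ' : ∀ x, π (σ x) = x := fun x => LinearMap.congr_fun hσ x
  obtain ⟨A, hA⟩ : ∃ A : Module.End K M, ∀ x, A x = π (X *ᵥ σ x) :=
    ⟨π ∘ₗ toLin' X ∘ₗ σ, fun x => rfl⟩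
  have hAπ : ∀ y, A (π y) = π (X *ᵥ y) := by
    intro y
    rw [hA, ← sub_eq_zero, ← map_sub, ← mulVec_sub]
    apply hip
    apply hXker
    apply hpi
    rw [map_sub, hσ', sub_self]
  have hDk : ∀ y, (1 + c • D) (π y) = π (kap *ᵥ y) := by
    intro y
    rw [hk, add_mulVec, one_mulVec, smul_mulVec, map_add, map_smul, h.ptau]
    simp
  have hΨa : ∀ s y, Ψ s ((1 + c • D) ((1 + c • D) (π y))) = π (a s *ᵥ y) := by
    intro s y
    rw [hDk, hDk, h.cr.op, ha, ← mulVec_mulVec, ← mulVec_mulVec]
  have hhom := h.hom t ht A (by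
    intro s x
    obtain ⟨y, rfl⟩ := h.cr.onto x
    rw [← hc, hΨa, hAπ, hAπ, hΨa, ← sub_eq_zero, ← map_sub]
    apply hip
    rw [mulVec_mulVec, mulVec_mulVec, ← sub_mulVec, mulVec_mulVec, hgX, zero_mulVec])
  have hdiag0 : ∀ (A : Matrix n n K) j, e j * off e A * e j = 0 := by
    intro A j
    unfold off
    rw [Matrix.mul_sub, Matrix.sub_mul, Matrix.mul_sum, Matrix.sum_mul, Finset.sum_eq_single j]
    · simp only [← Matrix.mul_assoc, h.idem j]
      rw [Matrix.mul_assoc (e j * A), h.idem j, sub_self]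
    · intro i _ hi
      simp only [← Matrix.mul_assoc, h.orth j i (Ne.symm hi), Matrix.zero_mul]
    · intro h'; exact absurd (Finset.mem_univ _) h'
  have hdiagX : ∀ j, e j * X * e j = 0 := by
    intro j
    rw [hX, Matrix.mul_sub, Matrix.sub_mul, hdiag0, ← hC, hdiag0, sub_zero]
  have hcore : ∀ j u, π ((X * e j) *ᵥ u) = 0 := by
    intro j u
    apply hip
    have h1 : ∀ i (y : n → K), (e i *ᵥ y) ⬝ᵥ (g *ᵥ ((X * e j) *ᵥ u)) = 0 := by
      intro i y
      by_cases hij : i = j
      · subst hij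
        have h2 : (e i)ᵀ * (g * (X * e i)) = 0 := by
          rw [← Matrix.mul_assoc, heg, Matrix.mul_assoc, ← Matrix.mul_assoc (e i), hdiagX,
            Matrix.mul_zero]
        rw [dotProduct_comm, Matrix.dotProduct_mulVec, ← Matrix.mulVec_transpose,
          mulVec_mulVec, mulVec_mulVec, Matrix.mul_assoc, h2, zero_mulVec, zero_dotProduct]
      · have h3 := hhom j i (Ne.symm hij) u y
        rw [h.cr.ns.symm, hAπ, hform, mulVec_mulVec u] at h3
        exact h3
    have h4 : ∀ y : n → K, y ⬝ᵥ (g *ᵥ ((X * e j) *ᵥ u)) = 0 := by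
      intro y
      have h5 : y = ∑ i, e i *ᵥ y := by
        rw [← Matrix.sum_mulVec, h.sumE, one_mulVec]
      rw [h5, sum_dotProduct]
      exact Finset.sum_eq_zero fun i _ => h1 i y
    exact dotProduct_eq_zero _ (fun y => by rw [dotProduct_comm]; exact h4 y)
  -- long words on `V`
  obtain ⟨m1, hm1⟩ := h.killV c
  obtain ⟨Ph, hPh⟩ : ∃ Ph : Fin 3 → Matrix ι ι K, Ph = Phi arm J B (F + c • G) := ⟨_, rfl⟩
  rw [← hPh] at hm1 hPhi
  have hfac : ∀ j, ∃ L : Matrix n n K, p * X * e j = p * e j * L := by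
    intro j
    have hstep : ∀ s, p * X * e j * a s = Ph s * (p * X * e j) - p * e j * (Z s * e j) := by
      intro s
      have e1 : p * (X * a s - a s * X) * e j = - (p * e j * (Z s * e j)) := by
        have e2 := off_split (e := e) (Z s)
        have e3 : p * off e (Z s) = - ∑ i, p * (e i * Z s * e i) := by
          rw [← Matrix.mul_sum, eq_neg_iff_add_eq_zero, ← Matrix.mul_add, ← e2, hpZ]
        rw [← hoffZ, e3, Matrix.neg_mul, Matrix.sum_mul, Finset.sum_eq_single j]
        · simp only [Matrix.mul_assoc, h.idem j]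
        · intro i _ hi
          simp only [Matrix.mul_assoc, h.orth i j hi, Matrix.mul_zero]
        · intro h'; exact absurd (Finset.mem_univ _) h'
      have e4 : p * X * e j * a s = p * (X * a s - a s * X) * e j + p * a s * X * e j := by
        rw [Matrix.mul_assoc _ (e j), hea, Matrix.mul_sub, Matrix.sub_mul]
        simp only [Matrix.mul_assoc]
        abel
      rw [e4, e1, ← hPhi]
      simp only [Matrix.mul_assoc]
      abel
    have hword : ∀ w : List (Fin 3), ∃ R : Matrix n n K, p * X * e j * (w.map a).prod =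
        (w.map Ph).prod * (p * X * e j) + p * e j * R := by
      intro w
      induction w with
      | nil => exact ⟨0, by simp⟩
      | cons s w ih =>
        obtain ⟨R, hR⟩ := ih
        refine ⟨a s * R - Z s * e j * (w.map a).prod, ?_⟩
        have e5 : Ph s * (p * e j * R) = p * e j * (a s * R) := by
          rw [← Matrix.mul_assoc, ← Matrix.mul_assoc, hPhi, Matrix.mul_assoc p, ← hea]
          simp only [Matrix.mul_assoc]
        rw [List.map_cons, List.prod_cons, ← Matrix.mul_assoc, hstep, Matrix.sub_mul,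
          Matrix.mul_assoc (Ph s), hR, Matrix.mul_add, e5, List.map_cons,
          List.prod_cons, Matrix.mul_sub]
        simp only [Matrix.mul_assoc]
        abel
    refine words_fac (Y := p * X * e j) (Q := p * e j) hρ m1 fun w hw => ?_
    obtain ⟨R, hR⟩ := hword w
    refine ⟨R, ?_⟩
    rw [hR]
    have : (w.map Ph).prod * (p * X * e j) = 0 := by
      apply Matrix.ext_of_mulVec_single
      intro i
      rw [zero_mulVec, Matrix.mul_assoc p, ← mulVec_mulVec, ← mulVec_mulVec]
      exact hm1 w hw _ (hcore j _)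
    rw [this, zero_add]
  choose L hL using hfac
  refine ⟨C + ∑ i, e i * (θ0 + L i) * e i, ?_, ?_⟩
  · have e1 : p * X = ∑ i, p * (e i * L i * e i) := by
      calc p * X = p * X * ∑ i, e i := by rw [h.sumE, Matrix.mul_one]
        _ = ∑ i, p * X * e i := by rw [Matrix.mul_sum]
        _ = ∑ i, p * (e i * L i * e i) := by
            refine Finset.sum_congr rfl fun i _ => ?_
            have e2 : p * X * e i = p * X * e i * e i := by
              rw [Matrix.mul_assoc _ (e i), h.idem]
            rw [e2, hL]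
            simp only [Matrix.mul_assoc]
    rw [hθ]
    have e3 : θ0 = X + C + ∑ i, e i * θ0 * e i := by
      rw [hX, sub_add_cancel]
      exact off_split θ0
    calc p * θ0 = p * (X + C + ∑ i, e i * θ0 * e i) := by rw [← e3]
      _ = p * X + p * C + ∑ i, p * (e i * θ0 * e i) := by
          rw [Matrix.mul_add, Matrix.mul_add, Matrix.mul_sum]
      _ = p * C + ∑ i, p * (e i * (θ0 + L i) * e i) := by
          rw [e1]
          simp only [Matrix.mul_add, Matrix.add_mul, Finset.sum_add_distrib]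
          abel
      _ = _ := by rw [Matrix.mul_add, Matrix.mul_sum]
  · rw [off_add, hC, off_diag h.idem h.orth (fun i => θ0 + L i), add_zero]

end main

end Crest.Agent.R172.RD.H16
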