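import Crest.Agent.R172.RD0
import Crest.Agent.R172.RDZ

/-!
Row 172 (S0260), T0, node RD-pick: the connection can be chosen with prescribed off-diagonal part.
-/

set_option autoImplicit false
set_option linter.unusedSectionVars false

namespace Crest.Agent.R172.RDp494

open Matrix Module Crest.Agent.R172.FO Crest.Agent.R172.FrmB Crest.Agent.R172.RD
open Crest.Agent.R172.Core (NS Tame)
open Crest.Agent.R172.PL (Wk)

variable {ι : Type*} [Fintype ι] [DecidableEq ι] {δ : Type*} [Fintype δ] [DecidableEq δ]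
variable {n : Type*} [Fintype n] [DecidableEq n]
variable {k K : Type*} [Field k] [Field K] [Algebra k K]
variable {M : Type*} [AddCommGroup M] [Module K M]
variable {m : Type*} [Fintype m] [DecidableEq m]

/-! ### the off-diagonal part -/

section off

variable {e : m → Matrix n n K}

theorem off_sub (A A' : Matrix n n K) : off e (A - A') = off e A - off e A' := by
  unfold off
  simp only [Matrix.mul_sub, Matrix.sub_mul, Finset.sum_sub_distrib]
  abel

theorem off_add (A A' : Matrix n n K) : off e (A + A') = off e A + off e A' := by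
  unfold off
  simp only [Matrix.mul_add, Matrix.add_mul, Finset.sum_add_distrib]
  abel

theorem diag_col (hi : ∀ i, e i * e i = e i) (ho : ∀ i j, i ≠ j → e i * e j = 0)
    (A : Matrix n n K) (j : m) : (∑ l, e l * A * e l) * e j = e j * A * e j := by
  rw [Matrix.sum_mul, Finset.sum_eq_single j]
  · rw [Matrix.mul_assoc, hi]
  · intro l _ hl
    rw [Matrix.mul_assoc, ho l j hl, Matrix.mul_zero]
  · intro h; exact absurd (Finset.mem_univ j) h

theorem off_blk (hi : ∀ i, e i * e i = e i) (ho : ∀ i j, i ≠ j → e i * e j = 0)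
    (X : m → Matrix n n K) : off e (∑ l, e l * X l * e l) = 0 := by
  unfold off
  rw [sub_eq_zero]
  refine Finset.sum_congr rfl fun j _ => ?_
  rw [Matrix.mul_sum, Matrix.sum_mul, Finset.sum_eq_single j]
  · have e1 : e j * (e j * X j * e j) * e j = (e j * e j) * X j * (e j * e j) := by
      simp only [Matrix.mul_assoc]
    rw [e1, hi]
  · intro l _ hl
    rw [← Matrix.mul_assoc, ← Matrix.mul_assoc, ho j l (Ne.symm hl), Matrix.zero_mul,
      Matrix.zero_mul, Matrix.zero_mul]
  · intro h; exact absurd (Finset.mem_univ j) h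

/-- a matrix commuting with all `e i` has no off-diagonal part -/
theorem off_comm (hi : ∀ i, e i * e i = e i) (hs : ∑ i, e i = 1) {A : Matrix n n K}
    (hA : ∀ i, e i * A = A * e i) : off e A = 0 := by
  unfold off
  have h1 : ∀ l, e l * A * e l = A * e l := by
    intro l
    rw [hA, Matrix.mul_assoc, hi]
  simp only [h1]
  rw [← Matrix.mul_sum, hs, Matrix.mul_one, sub_self]

theorem off_mul_comm {A b : Matrix n n K} (hb : ∀ i, e i * b = b * e i) :
    off e (A * b) = off e A * b := by
  unfold off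
  rw [Matrix.sub_mul, Matrix.sum_mul]
  congr 1
  refine Finset.sum_congr rfl fun l _ => ?_
  rw [Matrix.mul_assoc (e l * A), hb l]
  simp only [Matrix.mul_assoc]

theorem off_comm_mul {A b : Matrix n n K} (hb : ∀ i, e i * b = b * e i) :
    off e (b * A) = b * off e A := by
  unfold off
  rw [Matrix.mul_sub, Matrix.mul_sum]
  congr 1
  refine Finset.sum_congr rfl fun l _ => ?_
  rw [← Matrix.mul_assoc, hb l]
  simp only [Matrix.mul_assoc]

end off

variable {arm : δ → Fin 3} {J : Matrix ι ι K} {B : Matrix δ δ K}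
  {N W : Submodule K (Matrix ι δ K)} {F G : Matrix ι δ K} {p : Matrix ι n K}
  {al : Fin 3 → Matrix n n K} {tau : Matrix n n K}
  {β : LinearMap.BilinForm K M} {T : Module.End K M →ₗ[K] Module.End K M}
  {Ψ : Fin 3 → Module.End K M} {D : Module.End K M} {π : (n → K) →ₗ[K] M}
  {e : m → Matrix n n K} {lam : m → K} {l : Fin 3 → ℕ} {TT : Set k}

theorem fr (h : Fr k arm J B N W F G p al tau β T Ψ D π e lam l TT) :
    RDZ.Fr β (pᵀ * J * p) π := ⟨h.cr.ns, h.cr.onto, h.cr.form⟩

/-- values killed by `p` are in the radical -/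
theorem pi_zero_of_p (h : Fr k arm J B N W F G p al tau β T Ψ D π e lam l TT)
    {X : Matrix n n K} (hX : p * X = 0) (u : n → K) : π (X *ᵥ u) = 0 := by
  rw [(fr h).zero_iff]
  intro y'
  rw [mulVec_mulVec, Matrix.mul_assoc, hX, Matrix.mul_zero, zero_mulVec, dotProduct_zero]

theorem pi_zero_e (h : Fr k arm J B N W F G p al tau β T Ψ D π e lam l TT) (i : m)
    {u : n → K} (hu : π u = 0) : π (e i *ᵥ u) = 0 := by
  rw [(fr h).zero_iff] at hu ⊢
  intro y'
  rw [mulVec_mulVec, ← h.eg i, ← mulVec_mulVec, dotProduct_mulVec, vecMul_transpose]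
  exact hu _

/-- `Φ_s(F + tG) p = p (al s * (kap * kap))`, also for `t = 0` -/
theorem PhiH (h : Fr k arm J B N W F G p al tau β T Ψ D π e lam l TT)
    {t : k} (ht : t ∈ TT ∨ t = 0) {kap : Matrix n n K} (hk : kap = 1 + algebraMap k K t • tau)
    (s : Fin 3) :
    Phi arm J B (F + algebraMap k K t • G) s * p = p * (al s * (kap * kap)) := by
  rcases ht with ht | ht
  · obtain ⟨kap', kai, hp⟩ := h.par t ht
    have e1 : kap = kap' := by rw [hk, hp.kap_eq]
    rw [e1]
    exact h.ctx.PhiHp hp s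
  · subst ht
    have e1 : kap = 1 := by rw [hk, map_zero, zero_smul, add_zero]
    rw [e1, map_zero, zero_smul, add_zero, Matrix.mul_one, Matrix.mul_one]
    exact h.ctx.hal s

theorem exists_kai (h : Fr k arm J B N W F G p al tau β T Ψ D π e lam l TT)
    {t : k} (ht : t ∈ TT ∨ t = 0) {kap : Matrix n n K} (hk : kap = 1 + algebraMap k K t • tau) :
    ∃ kai, kap * kai = 1 := by
  rcases ht with ht | ht
  · obtain ⟨kap', kai, hp⟩ := h.par t ht
    have e1 : kap = kap' := by rw [hk, hp.kap_eq]
    exact ⟨kai, by rw [e1]; exact hp.mul⟩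
  · subst ht
    exact ⟨1, by rw [hk, map_zero, zero_smul, add_zero, Matrix.mul_one]⟩

/-- the off-diagonal part of the connection vanishes on the core -/
theorem core_zero (h : Fr k arm J B N W F G p al tau β T Ψ D π e lam l TT)
    {t : k} (ht : t ∈ TT ∨ t = 0) {kap : Matrix n n K} (hk : kap = 1 + algebraMap k K t • tau)
    {d : Derivation k K K} {θ0 : Matrix n n K} (hθ : p.map d = p * θ0)
    {U : Fin 3 → Matrix n n K}
    (hU : ∀ s, p * FC.nab d θ0 (al s * (kap * kap)) = p * U s)
    {C : Matrix n n K} (hCr : ∀ u, π (C *ᵥ u) = 0)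
    (hoff : ∀ s, off e (U s) = C * (al s * (kap * kap)) - al s * (kap * kap) * C)
    (u : n → K) : π (off e θ0 *ᵥ u) = 0 := by
  have f := fr h
  have hkt : ∀ i, e i * kap = kap * e i := by
    intro i
    rw [hk, Matrix.mul_add, Matrix.add_mul, Matrix.mul_one, Matrix.one_mul, Matrix.mul_smul,
      Matrix.smul_mul, h.etau]
  have hbe : ∀ s i, e i * (al s * (kap * kap)) = (al s * (kap * kap)) * e i := by
    intro s i
    rw [← Matrix.mul_assoc, h.eal, Matrix.mul_assoc, ← Matrix.mul_assoc (e i), hkt,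
      Matrix.mul_assoc kap, hkt]
    simp only [Matrix.mul_assoc]
  have hbe' : ∀ s i, e i * (al s * (kap * kap)).map d = (al s * (kap * kap)).map d * e i := by
    intro s i
    have h1 := congrArg (fun A : Matrix n n K => A.map d) (hbe s i)
    simp only [map_mul_der _ (e i) _, map_mul_der _ _ (e i), h.eC, Matrix.zero_mul, zero_add,
      Matrix.mul_zero, add_zero] at h1
    exact h1
  -- `off θ0` descends
  obtain ⟨Dn, con⟩ := f.exists_conn (RDZ.der_gam h.ctx.data hθ)
  have hE : ∀ i, ∃ E : Module.End K M, RDZ.Desc π (e i) E :=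
    fun i => f.exists_desc fun y hy => pi_zero_e h i hy
  choose E hE using hE
  have hoffθ : off e θ0 = ∑ i, FC.nab d θ0 (e i) * e i := by
    unfold off FC.nab
    have e1 : ∀ i, ((e i).map d + θ0 * e i - e i * θ0) * e i = θ0 * e i - e i * θ0 * e i := by
      intro i
      rw [h.eC, zero_add, Matrix.sub_mul, Matrix.mul_assoc θ0, h.idem]
    simp only [e1]
    rw [Finset.sum_sub_distrib, ← Matrix.mul_sum, h.sumE, Matrix.mul_one]
  obtain ⟨A, hA⟩ : ∃ A : Module.End K M, A = ∑ i, con.dE (E i) * E i := ⟨_, rfl⟩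
  have hDA : RDZ.Desc π (off e θ0) A := by
    rw [hoffθ, hA]
    intro y
    rw [Matrix.sum_mulVec, map_sum, LinearMap.sum_apply]
    exact Finset.sum_congr rfl fun i _ => ((con.desc (hE i)).mul (hE i)) y
  have hDal : ∀ s, RDZ.Desc π (al s) (Ψ s) := fun s y => (h.cr.op s y).symm
  have hDk : RDZ.Desc π kap (1 + algebraMap k K t • D) := by
    rw [hk]
    exact RDZ.Desc.one.add (RDZ.Desc.smul _ (fun y => h.ptau y))
  have hDb : ∀ s, RDZ.Desc π (al s * (kap * kap))
      (Ψ s * ((1 + algebraMap k K t • D) * (1 + algebraMap k K t • D))) :=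
    fun s => (hDal s).mul (hDk.mul hDk)
  -- the commutation
  have hcom : ∀ s, off e θ0 * (al s * (kap * kap)) - (al s * (kap * kap)) * off e θ0 =
      off e (FC.nab d θ0 (al s * (kap * kap))) := by
    intro s
    unfold FC.nab
    rw [off_sub, off_add, off_comm h.idem h.sumE (hbe' s), zero_add, off_mul_comm (hbe s),
      off_comm_mul (hbe s)]
  have hpi0 : ∀ s u, π (off e (FC.nab d θ0 (al s * (kap * kap)) - U s) *ᵥ u) = 0 := by
    intro s u
    have h0 : ∀ v, π ((FC.nab d θ0 (al s * (kap * kap)) - U s) *ᵥ v) = 0 :=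
      fun v => pi_zero_of_p h (by rw [Matrix.mul_sub, hU, sub_self]) v
    unfold off
    rw [sub_mulVec, map_sub, h0, zero_sub, neg_eq_zero, Matrix.sum_mulVec, map_sum]
    refine Finset.sum_eq_zero fun i _ => ?_
    rw [Matrix.mul_assoc, ← mulVec_mulVec]
    refine pi_zero_e h i ?_
    rw [← mulVec_mulVec]
    exact h0 _
  have hAcom : ∀ s u, π ((off e θ0 * (al s * (kap * kap))) *ᵥ u) =
      π (((al s * (kap * kap)) * off e θ0) *ᵥ u) := by
    intro s u
    rw [← sub_eq_zero, ← map_sub, ← sub_mulVec, hcom]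
    have h1 := hpi0 s u
    rw [off_sub, sub_mulVec, map_sub, hoff, sub_mulVec, map_sub] at h1
    have h2 : π ((C * (al s * (kap * kap))) *ᵥ u) = 0 := by
      rw [← mulVec_mulVec]; exact hCr _
    have h3 : π ((al s * (kap * kap) * C) *ᵥ u) = 0 := by
      rw [← mulVec_mulVec, (hDb s) _, hCr, map_zero]
    rw [h2, h3, sub_zero, sub_zero] at h1
    exact h1
  have hA1 : ∀ s x, A (Ψ s ((1 + algebraMap k K t • D) ((1 + algebraMap k K t • D) x))) =
      Ψ s ((1 + algebraMap k K t • D) ((1 + algebraMap k K t • D) (A x))) := by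
    intro s x
    obtain ⟨y, rfl⟩ := h.cr.onto x
    have h1 := hAcom s y
    have h2 : π ((off e θ0 * (al s * (kap * kap))) *ᵥ y) =
        A (Ψ s ((1 + algebraMap k K t • D) ((1 + algebraMap k K t • D) (π y)))) := by
      rw [← mulVec_mulVec, hDA, hDb s]
      rfl
    have h3 : π (((al s * (kap * kap)) * off e θ0) *ᵥ y) =
        Ψ s ((1 + algebraMap k K t • D) ((1 + algebraMap k K t • D) (A (π y)))) := by
      rw [← mulVec_mulVec y (al s * (kap * kap)) (off e θ0), hDb s, hDA]
      rfl
    rw [h2, h3] at h1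
    exact h1
  have hblk := h.hom t ht A hA1
  have hzero : ∀ x y, β (A (π x)) (π y) = 0 := by
    intro x y
    have ex : x = ∑ i, e i *ᵥ x := by
      rw [← Matrix.sum_mulVec, h.sumE, one_mulVec]
    have ey : y = ∑ i, e i *ᵥ y := by
      rw [← Matrix.sum_mulVec, h.sumE, one_mulVec]
    rw [ex, ey, map_sum, map_sum, map_sum, LinearMap.sum_apply]
    refine Finset.sum_eq_zero fun i _ => ?_
    rw [show π (∑ j, e j *ᵥ y) = ∑ j, π (e j *ᵥ y) from map_sum π _ _,
      map_sum (β (A (π (e i *ᵥ x))))]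
    refine Finset.sum_eq_zero fun j _ => ?_
    by_cases hij : i = j
    · subst hij
      rw [← hDA, h.cr.form]
      have e1 : (off e θ0 *ᵥ (e i *ᵥ x)) ⬝ᵥ ((pᵀ * J * p) *ᵥ (e i *ᵥ y)) =
          ((e i * off e θ0 * e i) *ᵥ x) ⬝ᵥ ((pᵀ * J * p) *ᵥ y) := by
        rw [mulVec_mulVec y (pᵀ * J * p) (e i), ← h.eg i, ← mulVec_mulVec y,
          dotProduct_mulVec, vecMul_transpose]
        simp only [mulVec_mulVec, Matrix.mul_assoc]
      have e2 : e i * off e θ0 * e i = 0 := by
        unfold off
        rw [Matrix.mul_assoc, Matrix.sub_mul, diag_col h.idem h.orth, Matrix.mul_sub,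
          ← Matrix.mul_assoc (e i) (e i * θ0), ← Matrix.mul_assoc (e i) (e i), h.idem,
          ← Matrix.mul_assoc (e i) θ0, sub_self]
      rw [e1, e2, zero_mulVec, zero_dotProduct]
    · exact hblk i j hij x y
  have hA0 : A (π u) = 0 := by
    refine h.cr.ns.nd _ fun w => ?_
    obtain ⟨y, rfl⟩ := h.cr.onto w
    exact hzero u y
  rw [hDA, hA0]

/-- **RD1a (PICK)**: the connection can be chosen with off-diagonal part `C` -/
theorem pick [CharZero K] (h : Fr k arm J B N W F G p al tau β T Ψ D π e lam l TT)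
    {t : k} (ht : t ∈ TT ∨ t = 0) {kap : Matrix n n K} (hk : kap = 1 + algebraMap k K t • tau)
    {d : Derivation k K K} {θ0 : Matrix n n K} (hθ : p.map d = p * θ0)
    {U : Fin 3 → Matrix n n K}
    (hU : ∀ s, p * FC.nab d θ0 (al s * (kap * kap)) = p * U s)
    {C : Matrix n n K} (hC : off e C = C) (hCr : ∀ u, π (C *ᵥ u) = 0)
    (hoff : ∀ s, off e (U s) = C * (al s * (kap * kap)) - al s * (kap * kap) * C) :
    ∃ θ, p.map d = p * θ ∧ off e θ = C := by
  have hcz := core_zero h ht hk hθ hU hCr hoff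
  obtain ⟨kai, hkai⟩ := exists_kai h ht hk
  obtain ⟨ρ, hρ⟩ := h.ctx.perf
  obtain ⟨Φ, hΦ⟩ : ∃ Φ : Fin 3 → Matrix ι ι K, Φ = Phi arm J B (F + algebraMap k K t • G) :=
    ⟨_, rfl⟩
  have hkt : ∀ i, e i * kap = kap * e i := by
    intro i
    rw [hk, Matrix.mul_add, Matrix.add_mul, Matrix.mul_one, Matrix.one_mul, Matrix.mul_smul,
      Matrix.smul_mul, h.etau]
  obtain ⟨b, hb⟩ : ∃ b : Fin 3 → Matrix n n K, b = fun s => al s * (kap * kap) := ⟨_, rfl⟩
  have hbs : ∀ s, b s = al s * (kap * kap) := fun s => by rw [hb]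
  have hbe : ∀ s i, e i * b s = b s * e i := by
    intro s i
    rw [hbs, ← Matrix.mul_assoc, h.eal, Matrix.mul_assoc, ← Matrix.mul_assoc (e i), hkt,
      Matrix.mul_assoc kap, hkt]
    simp only [Matrix.mul_assoc]
  have hbe' : ∀ s i, e i * (b s).map d = (b s).map d * e i := by
    intro s i
    have h1 := congrArg (fun A : Matrix n n K => A.map d) (hbe s i)
    simp only [map_mul_der _ (e i) _, map_mul_der _ _ (e i), h.eC, Matrix.zero_mul, zero_add,
      Matrix.mul_zero, add_zero] at h1
    exact h1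
  have hΦp : ∀ s, Φ s * p = p * b s := by
    intro s
    rw [hΦ, hbs]
    exact PhiH h ht hk s
  simp only [← hbs] at hU hoff
  have hbρ : ∑ s, b s * (kai * kai * ρ s) = 1 := by
    rw [← hρ]
    refine Finset.sum_congr rfl fun s _ => ?_
    have e1 : b s * (kai * kai * ρ s) = al s * (kap * (kap * kai) * kai) * ρ s := by
      rw [hbs s]; simp only [Matrix.mul_assoc]
    rw [e1, hkai, Matrix.mul_one, hkai, Matrix.mul_one]
  obtain ⟨Θ, hΘ⟩ : ∃ Θ : Matrix n n K, Θ = off e θ0 := ⟨_, rfl⟩
  rw [← hΘ] at hcz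
  have hθ0 : θ0 = Θ + ∑ l, e l * θ0 * e l := by
    rw [hΘ]; unfold off; rw [sub_add_cancel]
  have hθj : ∀ j, θ0 * e j = Θ * e j + e j * θ0 * e j := by
    intro j
    conv_lhs => rw [hθ0]
    rw [Matrix.add_mul, diag_col h.idem h.orth]
  have hUj : ∀ s j, U s * e j = (C * b s - b s * C) * e j + e j * U s * e j := by
    intro s j
    have e1 : U s = off e (U s) + ∑ l, e l * U s * e l := by
      unfold off; rw [sub_add_cancel]
    conv_lhs => rw [e1]
    rw [Matrix.add_mul, diag_col h.idem h.orth, hoff]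
  -- relation modulo `p e_j`
  have hrel : ∀ s j, ∃ Y : Matrix n n K,
      p * (Θ - C) * e j * b s = Φ s * (p * (Θ - C) * e j) + p * e j * Y := by
    intro s j
    refine ⟨-(b s).map d - θ0 * e j * b s + b s * θ0 * e j + U s * e j, ?_⟩
    have h1 := congrArg (fun A : Matrix ι n K => A * e j) (hU s)
    unfold FC.nab at h1
    simp only [Matrix.mul_assoc] at h1
    rw [hUj s j, Matrix.sub_mul, Matrix.add_mul, ← hbe' s j] at h1
    have e2 : θ0 * b s * e j = Θ * e j * b s + e j * θ0 * e j * b s := by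
      rw [Matrix.mul_assoc, ← hbe s j, ← Matrix.mul_assoc, hθj, Matrix.add_mul]
    have e3 : b s * θ0 * e j = b s * (Θ * e j) + b s * (e j * θ0 * e j) := by
      rw [Matrix.mul_assoc, hθj, Matrix.mul_add]
    rw [e2, e3] at h1
    have e4 : Φ s * (p * (Θ - C) * e j) = p * (b s * ((Θ - C) * e j)) := by
      rw [Matrix.mul_assoc p, ← Matrix.mul_assoc (Φ s), hΦp, Matrix.mul_assoc]
    have e5 : p * (Θ - C) * e j * b s = p * ((Θ * e j * b s) - C * b s * e j) := by
      rw [Matrix.mul_assoc C, ← hbe s j, Matrix.mul_assoc p, Matrix.mul_assoc p, Matrix.sub_mul,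
        Matrix.sub_mul]
      simp only [Matrix.mul_assoc]
    have e6 : p * e j * (-(b s).map d - θ0 * e j * b s + b s * θ0 * e j + U s * e j) =
        p * (-(e j * (b s).map d) - e j * θ0 * e j * b s + b s * (e j * θ0 * e j) +
          e j * U s * e j) := by
      rw [Matrix.mul_assoc p]
      congr 1
      have : e j * (b s * θ0 * e j) = b s * (e j * θ0 * e j) := by
        simp only [← Matrix.mul_assoc]
        rw [hbe s j]
      rw [Matrix.mul_add, Matrix.mul_add, Matrix.mul_sub, Matrix.mul_neg, this]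
      simp only [Matrix.mul_assoc]
    rw [e4, e5, e6, ← Matrix.mul_add]
    have e7 : p * (e j * (b s).map d + (Θ * e j * b s + e j * θ0 * e j * b s) -
        (b s * (Θ * e j) + b s * (e j * θ0 * e j))) =
        p * ((C * b s - b s * C) * e j + e j * U s * e j) := h1
    have e8 : p * (Θ * e j * b s - C * b s * e j) =
        p * (e j * (b s).map d + (Θ * e j * b s + e j * θ0 * e j * b s) -
        (b s * (Θ * e j) + b s * (e j * θ0 * e j))) +
        p * (-(e j * (b s).map d) - e j * θ0 * e j * b s +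
          (b s * (Θ * e j) + b s * (e j * θ0 * e j)) - C * b s * e j) := by
      rw [← Matrix.mul_add]; congr 1; abel
    rw [e8, e7, ← Matrix.mul_add]
    congr 1
    rw [Matrix.sub_mul (C * b s), Matrix.sub_mul Θ C, Matrix.mul_sub (b s), Matrix.mul_assoc (b s) C]
    abel
  have hPe : ∀ s j, Φ s * (p * e j) = p * e j * b s := by
    intro s j
    rw [← Matrix.mul_assoc, hΦp, Matrix.mul_assoc, ← hbe, Matrix.mul_assoc]
  have hword : ∀ (j : m) (w : List (Fin 3)), ∃ Y : Matrix n n K,
      p * (Θ - C) * e j * (w.map b).prod = (w.map Φ).prod * (p * (Θ - C) * e j) + p * e j * Y := by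
    intro j w
    induction w with
    | nil => exact ⟨0, by simp⟩
    | cons s w ih =>
      obtain ⟨Y, hY⟩ := ih
      obtain ⟨Y', hY'⟩ := hrel s j
      refine ⟨b s * Y + Y' * (w.map b).prod, ?_⟩
      rw [List.map_cons, List.prod_cons, List.map_cons, List.prod_cons, ← Matrix.mul_assoc, hY',
        Matrix.add_mul, Matrix.mul_assoc (Φ s), hY, Matrix.mul_add, Matrix.mul_assoc (Φ s),
        ← Matrix.mul_assoc (Φ s) (p * e j), hPe, Matrix.mul_add]
      simp only [Matrix.mul_assoc]
      abel
  obtain ⟨m0, hm0⟩ := h.killV (algebraMap k K t)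
  rw [← hΦ] at hm0
  have hend : ∀ (j : m) (w : List (Fin 3)), w.length = m0 →
      (w.map Φ).prod * (p * (Θ - C) * e j) = 0 := by
    intro j w hw
    refine Matrix.ext_of_mulVec_single fun a => ?_
    rw [zero_mulVec]
    have h1 : π ((Θ - C) *ᵥ (e j *ᵥ Pi.single a 1)) = 0 := by
      rw [sub_mulVec, map_sub, hcz, hCr, sub_zero]
    have h2 := hm0 w hw _ h1
    simpa only [mulVec_mulVec, Matrix.mul_assoc] using h2
  have hcl : ∀ (j : m) (a : ℕ) (w : List (Fin 3)), w.length + a = m0 →
      ∃ Y : Matrix n n K, p * (Θ - C) * e j * (w.map b).prod = p * e j * Y := by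
    intro j a
    induction a with
    | zero =>
      intro w hw
      obtain ⟨Y, hY⟩ := hword j w
      exact ⟨Y, by rw [hY, hend j w (by simpa using hw), zero_add]⟩
    | succ a ih =>
      intro w hw
      have hs : ∀ s : Fin 3, ∃ Y : Matrix n n K,
          p * (Θ - C) * e j * ((w ++ [s]).map b).prod = p * e j * Y := by
        intro s
        apply ih
        rw [List.length_append, List.length_singleton]
        omega
      choose Y hY using hs
      refine ⟨∑ s, Y s * (kai * kai * ρ s), ?_⟩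
      have e1 : p * (Θ - C) * e j * (w.map b).prod =
          ∑ s, p * (Θ - C) * e j * ((w ++ [s]).map b).prod * (kai * kai * ρ s) := by
        have e2 : ∀ s : Fin 3, p * (Θ - C) * e j * ((w ++ [s]).map b).prod * (kai * kai * ρ s) =
            p * (Θ - C) * e j * (w.map b).prod * (b s * (kai * kai * ρ s)) := by
          intro s
          rw [List.map_append, List.prod_append, List.map_singleton, List.prod_singleton]
          simp only [Matrix.mul_assoc]
        simp only [e2]
        rw [← Matrix.mul_sum, hbρ, Matrix.mul_one]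
      rw [e1, Matrix.mul_sum]
      refine Finset.sum_congr rfl fun s _ => ?_
      rw [hY s, Matrix.mul_assoc]
  have hfin : ∀ j, ∃ Y : Matrix n n K, p * (Θ - C) * e j = p * e j * Y := by
    intro j
    obtain ⟨Y, hY⟩ := hcl j m0 [] (by simp)
    exact ⟨Y, by simpa using hY⟩
  choose X hX using hfin
  refine ⟨(∑ j, e j * (θ0 + X j) * e j) + C, ?_, ?_⟩
  · rw [hθ]
    have e1 : p * ((∑ j, e j * (θ0 + X j) * e j) + C) =
        p * (∑ j, e j * θ0 * e j) + (∑ j, (p * (Θ - C) * e j) * e j) + p * C := by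
      rw [Matrix.mul_add]
      congr 1
      rw [Matrix.mul_sum, Matrix.mul_sum, ← Finset.sum_add_distrib]
      refine Finset.sum_congr rfl fun j _ => ?_
      rw [hX j, Matrix.mul_add, Matrix.add_mul, Matrix.mul_add]
      simp only [Matrix.mul_assoc]
    have e2 : ∑ j, (p * (Θ - C) * e j) * e j = p * (Θ - C) := by
      have : ∀ j, (p * (Θ - C) * e j) * e j = p * (Θ - C) * e j := by
        intro j; rw [Matrix.mul_assoc _ (e j), h.idem]
      simp only [this]
      rw [← Matrix.mul_sum, h.sumE, Matrix.mul_one]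
    rw [e1, e2, Matrix.mul_sub]
    conv_lhs => rw [hθ0]
    rw [Matrix.mul_add]
    abel
  · rw [off_add, off_blk h.idem h.orth (fun j => θ0 + X j), zero_add, hC]

end Crest.Agent.R172.RDp494
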