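import Crest.Agent.R172.RDP
import Crest.Agent.R172.RDdec
import Crest.Agent.R172.FilZ
import Crest.Agent.R172.RDpick16

/-!
Row 172 (S0260), `RD`: the SECOND derivative of decorated families (RD3 of the skeleton of
helper460): `SecondP`, from `pick`, `FrmB.second` and the filtered off-diagonal single arms.
-/

set_option autoImplicit false
set_option linter.unusedSectionVars false

namespace Crest.Agent.R172.RD.S41

open Matrix Module TensorProduct Crest.Agent.R172.FO Crest.Agent.R172.FrmB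
open Crest.Agent.R172.RD
open Crest.Agent.R172.FilZ

variable {ι : Type*} [Fintype ι] [DecidableEq ι] {δ : Type*} [Fintype δ] [DecidableEq δ]
variable {n : Type*} [Fintype n] [DecidableEq n]
variable {k K : Type*} [Field k] [Field K] [Algebra k K]
variable {M : Type*} [AddCommGroup M] [Module K M]
variable {m : Type*} [Fintype m] [DecidableEq m]

section blocks

variable {e : m → Matrix n n K}

/-- off-diagonal blocks only see the off-diagonal part -/
theorem blk_off (ho : ∀ i j, i ≠ j → e i * e j = 0) (A : Matrix n n K) {a b : m} (hab : a ≠ b) :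
    e a * A * e b = e a * off e A * e b := by
  have h0 : ∑ l, e a * (e l * A * e l) * e b = 0 := by
    refine Finset.sum_eq_zero fun l _ => ?_
    by_cases hl : a = l
    · subst hl
      have : e a * (e a * A * e a) * e b = e a * (e a * A) * (e a * e b) := by
        simp only [Matrix.mul_assoc]
      rw [this, ho a b hab, Matrix.mul_zero]
    · have : e a * (e l * A * e l) * e b = (e a * e l) * (A * e l * e b) := by
        simp only [Matrix.mul_assoc]
      rw [this, ho a l hl, Matrix.zero_mul]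
  unfold off
  rw [Matrix.mul_sub, Matrix.sub_mul, Matrix.mul_sum, Matrix.sum_mul, h0, sub_zero]

/-- decomposition into four blocks -/
theorem four (hs : ∑ i, e i = 1) {i j : m} (hij : i ≠ j) {X : Matrix n n K}
    (hl : ∀ a, a ≠ i → a ≠ j → e a * X = 0) (hr : ∀ a, a ≠ i → a ≠ j → X * (e a)ᵀ = 0) :
    X = e i * X * (e i)ᵀ + e i * X * (e j)ᵀ + (e j * X * (e i)ᵀ + e j * X * (e j)ᵀ) := by
  have h1 : X = e i * X + e j * X := by
    calc X = (∑ a, e a) * X := by rw [hs, Matrix.one_mul]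
      _ = ∑ a, e a * X := by rw [Matrix.sum_mul]
      _ = _ := Finset.sum_eq_add i j hij (fun a _ ha => hl a ha.1 ha.2)
          (fun h => absurd (Finset.mem_univ _) h) (fun h => absurd (Finset.mem_univ _) h)
  have h2 : X = X * (e i)ᵀ + X * (e j)ᵀ := by
    calc X = X * (∑ a, e a)ᵀ := by rw [hs, transpose_one, Matrix.mul_one]
      _ = ∑ a, X * (e a)ᵀ := by rw [transpose_sum, Matrix.mul_sum]
      _ = _ := Finset.sum_eq_add i j hij (fun a _ ha => hr a ha.1 ha.2)
          (fun h => absurd (Finset.mem_univ _) h) (fun h => absurd (Finset.mem_univ _) h)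
  calc X = e i * X + e j * X := h1
    _ = e i * (X * (e i)ᵀ + X * (e j)ᵀ) + e j * (X * (e i)ᵀ + X * (e j)ᵀ) := by rw [← h2]
    _ = _ := by rw [Matrix.mul_add, Matrix.mul_add]; simp only [Matrix.mul_assoc]

end blocks

section main

variable {arm : δ → Fin 3} {J : Matrix ι ι K} {B : Matrix δ δ K}
  {N W : Submodule K (Matrix ι δ K)} {F G : Matrix ι δ K} {p : Matrix ι n K}
  {al : Fin 3 → Matrix n n K} {tau : Matrix n n K}
  {β : LinearMap.BilinForm K M} {T : Module.End K M →ₗ[K] Module.End K M}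
  {Ψ : Fin 3 → Module.End K M} {D : Module.End K M} {π : (n → K) →ₗ[K] M}
  {e : m → Matrix n n K} {lam : m → K} {l : Fin 3 → ℕ} {TT : Set k}

/-- a block of two idempotents of the frame -/
theorem bk (h : Fr k arm J B N W F G p al tau β T Ψ D π e lam l TT) {i j : m} (hij : i ≠ j) :
    RDdec.Bk al (0 : Matrix n n K) (pᵀ * J * p) (e i) (e j) where
  i1 := h.idem i
  i2 := h.idem j
  o12 := h.orth i j hij
  o21 := h.orth j i (Ne.symm hij)
  a1 := fun r => (h.eal i r).symm
  a2 := fun r => (h.eal j r).symm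
  D1 := by rw [Matrix.zero_mul, Matrix.mul_zero]
  D2 := by rw [Matrix.zero_mul, Matrix.mul_zero]
  com := fun r => by rw [Matrix.zero_mul, Matrix.mul_zero]
  g1 := (h.eg i).symm
  g2 := (h.eg j).symm
  gD := by rw [Matrix.mul_zero, transpose_zero, Matrix.zero_mul]

theorem inn (h : Fr k arm J B N W F G p al tau β T Ψ D π e lam l TT) {i j : m}
    {x : Matrix n n K} (hx : e j * x * (e i)ᵀ = x) : RDdec.In (e i) (e j) x where
  l := by
    conv_rhs => rw [← hx]
    conv_lhs => rw [← hx]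
    rw [← Matrix.mul_assoc, ← Matrix.mul_assoc, h.idem]
  r := by
    conv_rhs => rw [← hx]
    conv_lhs => rw [← hx]
    rw [Matrix.mul_assoc, ← transpose_mul, h.idem]

theorem inn_map (h : Fr k arm J B N W F G p al tau β T Ψ D π e lam l TT) {i j : m}
    (d : Derivation k K K) {x : Matrix n n K} (hx : e j * x * (e i)ᵀ = x) :
    e j * x.map d * (e i)ᵀ = x.map d := by
  have h1 := congrArg (fun A : Matrix n n K => A.map d) hx
  simp only [map_mul_der, map_transpose_der, h.eC, transpose_zero, Matrix.zero_mul,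
    Matrix.mul_zero, zero_add, add_zero] at h1
  exact h1

/-- **`p * ∇ al`** along the `L`-fixed derivation -/
theorem p_nab (hD : Data k arm J B N W) (hal : ∀ r, Phi arm J B F r * p = p * al r)
    {wY : Matrix ι δ K} {zY : Matrix n n K} (hval : wYᵀ * J * p = Fᵀ * J * p * zY)
    {μ : Fin 3 → Matrix n n K} (hm : ∀ r, wY * E K arm r * B * (Fᵀ * J * p) = p * μ r)
    {d : Derivation k K K} (hdF : F.map d = wY) {P : Matrix n n K} (hp : p.map d = p * P)
    (r : Fin 3) : p * ((al r).map d + P * al r - al r * P) = p * (μ r + al r * zY) := by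
  have e1 : (Phi arm J B F r).map d * p =
      wY * E K arm r * B * (Fᵀ * J * p) + F * E K arm r * B * (wYᵀ * J * p) := by
    unfold Phi FO.M
    rw [map_mul_der, map_mul_der, map_mul_der, map_mul_der, hD.J_const, hD.B_const, E_map_der,
      map_transpose_der, hdF]
    simp only [Matrix.mul_zero, Matrix.add_mul, add_zero, Matrix.mul_assoc]
  have e2 := congrArg (fun A : Matrix ι n K => A.map d) (hal r)
  rw [map_mul_der, map_mul_der, hp, e1, hval, hm] at e2
  have e3 : F * E K arm r * B * (Fᵀ * J * p * zY) = p * (al r * zY) := by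
    have h1 := hal r
    unfold Phi FO.M at h1
    have h2 := congrArg (fun A => A * zY) h1
    simpa only [Matrix.mul_assoc] using h2
  have e4 : Phi arm J B F r * (p * P) = p * (al r * P) := by
    rw [← Matrix.mul_assoc, hal, Matrix.mul_assoc]
  rw [e3, e4] at e2
  rw [Matrix.mul_sub, Matrix.mul_add, Matrix.mul_add]
  have e5 : p * μ r + p * (al r * zY) = p * P * al r + p * (al r).map d - p * (al r * P) := by
    rw [← e2]; abel
  rw [e5, Matrix.mul_assoc p P]
  abel

/-- **RD3** -/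
theorem second [CharZero K] (h : Fr k arm J B N W F G p al tau β T Ψ D π e lam l TT)
    {i j : m} (hij : i ≠ j)
    (hod : ∀ i j : m, i ≠ j → OffP arm J N W F p T Ψ π e i j) :
    SecondP arm J B N W F p al T Ψ π e i j := by
  classical
  intro c c' hc hc' x y b kk b' kk' hx hy hx1 hx2 hy1
  obtain ⟨w1, z1, μ1, hw1, hn1, hv1, hm1, hz1, ho1, hu1⟩ := hx1
  obtain ⟨w2, z2, μ2, hw2, hn2, hv2, hm2, hz2, ho2, hu2⟩ := hx2
  obtain ⟨w, z, μ, hw, hn, hv, hm, hz, ho, hu⟩ := hy1
  have hD := h.ctx.data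
  have hQY : Q3 arm J B N W F p (fun r => x r - (x r)ᵀ) (w1 - w2) (z1 - z2) :=
    { memW := W.sub_mem hw1 hw2
      memN := by
        have e0 : io arm J F p (fun r => x r - (x r)ᵀ) =
            io arm J F p x - io arm J F p (fun r => (x r)ᵀ) := io_sub x (fun r => (x r)ᵀ)
        rw [e0]
        have e1 : io arm J F p x - io arm J F p (fun r => (x r)ᵀ) - (w1 - w2) =
            (io arm J F p x - w1) - (io arm J F p (fun r => (x r)ᵀ) - w2) := by abel
        rw [e1]
        exact N.sub_mem hn1 hn2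
      val := by rw [transpose_sub, Matrix.sub_mul, Matrix.sub_mul, hv1, hv2, Matrix.mul_sub]
      img := fun r => ⟨μ1 r - μ2 r, by
        rw [Matrix.sub_mul, Matrix.sub_mul, Matrix.sub_mul, hm1, hm2, Matrix.mul_sub]⟩ }
  have hmY : ∀ r, (w1 - w2) * E K arm r * B * (Fᵀ * J * p) = p * (μ1 r - μ2 r) := fun r => by
    rw [Matrix.sub_mul, Matrix.sub_mul, Matrix.sub_mul, hm1, hm2, Matrix.mul_sub]
  have hzY : z1 - z2 ∈ ZFr.ZF T π Ψ := Submodule.sub_mem _ hz1 hz2
  obtain ⟨ρ, hρ⟩ := h.ctx.perf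
  obtain ⟨m0, hm0⟩ := h.wk
  obtain ⟨d, θ0, hd, hdF, hθ0, -⟩ := second_all hD h.vt h.ctx.hal hρ hm0
    (fun r => by rw [transpose_sub, transpose_transpose]; abel) hQY
  -- blocks of the decorations
  have hji : j ≠ i := Ne.symm hij
  have eb : ∀ a, a ≠ i → e a * b = 0 := by
    intro a ha
    rw [← hx.bb, ← Matrix.mul_assoc, ← Matrix.mul_assoc, h.orth a i ha, Matrix.zero_mul,
      Matrix.zero_mul]
  have ebr : ∀ a, a ≠ j → b * e a = 0 := by
    intro a ha
    rw [← hx.bb, Matrix.mul_assoc, h.orth j a (Ne.symm ha), Matrix.mul_zero]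
  have ek : ∀ a, a ≠ j → e a * kk = 0 := by
    intro a ha
    rw [← hx.bk, ← Matrix.mul_assoc, ← Matrix.mul_assoc, h.orth a j ha, Matrix.zero_mul,
      Matrix.zero_mul]
  have ekr : ∀ a, a ≠ i → kk * e a = 0 := by
    intro a ha
    rw [← hx.bk, Matrix.mul_assoc, h.orth i a (Ne.symm ha), Matrix.mul_zero]
  have eb' : ∀ a, a ≠ i → e a * b' = 0 := by
    intro a ha
    rw [← hy.bb, ← Matrix.mul_assoc, ← Matrix.mul_assoc, h.orth a i ha, Matrix.zero_mul,
      Matrix.zero_mul]
  have ebr' : ∀ a, a ≠ j → b' * e a = 0 := by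
    intro a ha
    rw [← hy.bb, Matrix.mul_assoc, h.orth j a (Ne.symm ha), Matrix.mul_zero]
  have hoffC : off e (b + kk) = b + kk := by
    unfold off
    rw [Finset.sum_eq_zero, sub_zero]
    intro a _
    rw [Matrix.mul_add, Matrix.add_mul]
    by_cases ha : a = i
    · subst ha
      rw [ek a hij, Matrix.zero_mul, Matrix.mul_assoc, ebr a hij, Matrix.mul_zero, add_zero]
    · rw [eb a ha, Matrix.zero_mul, Matrix.mul_assoc, ekr a ha, Matrix.mul_zero, add_zero]
  have hCr : ∀ u, π ((b + kk) *ᵥ u) = 0 := by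
    intro u
    rw [Matrix.add_mulVec, map_add, hx.rb, hx.rk, add_zero]
  have hoffzY : off e (z1 - z2) = -(b + kk) := by
    rw [H16.off_sub, ho1, ho2]; abel
  have halc : ∀ s a, e a * al s = al s * e a := fun s a => h.eal a s
  have hU : ∀ s, p * FC.nab d θ0 (al s * (1 * 1)) = p * (μ1 s - μ2 s + al s * (z1 - z2)) := by
    intro s
    rw [Matrix.one_mul, Matrix.mul_one]
    exact p_nab hD h.ctx.hal hQY.val hmY hdF hθ0 s
  have hoff : ∀ s, off e (μ1 s - μ2 s + al s * (z1 - z2)) =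
      (b + kk) * (al s * (1 * 1)) - al s * (1 * 1) * (b + kk) := by
    intro s
    have q1 : off e (μ1 s) = kk * al s := hu1 s
    have q2 : off e (μ2 s) = -(b * al s) := hu2 s
    rw [Matrix.one_mul, Matrix.mul_one, H16.off_add, H16.off_sub,
      H16.off_mul_left (fun a => h.eal a s), hoffzY, q1, q2, Matrix.mul_neg, Matrix.add_mul,
      sub_neg_eq_add, add_comm (kk * al s), sub_eq_add_neg]
  obtain ⟨θ, hθ, hoffθ⟩ := H16.pick h (t := 0) (Or.inr rfl) (kap := 1) (by simp) hθ0 hU hoffC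
    hCr hoff
  have hQ := FrmB.second hD hQY hd hdF hθ (y := y) (w := w) (z := z)
    ⟨hw, hn, hv, fun r => ⟨μ r, hm r⟩⟩
  have hcf := FilZ.cf h.cr
  have hz'' := ZFr.second hD hcf h.ctx.hal (fun r u => (h.cr.op r u).symm) hQY.val hdF hθ hzY hz
  obtain ⟨zb, hzb1, hzb2⟩ := hz''
  have hmem := RDEnd.mem_Rel_of_Q3 (D := 0) hQ hzb1 hzb2
  -- blocks of `θ`, `zY`, `z`
  have θij : e i * θ * e j = b := by
    rw [blk_off h.orth θ hij, hoffθ, Matrix.mul_add, ek i hij, add_zero, hx.bb]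
  have θji : e j * θ * e i = kk := by
    rw [blk_off h.orth θ hji, hoffθ, Matrix.mul_add, eb j hji, zero_add, hx.bk]
  have zYji : e j * (z1 - z2) * e i = -kk := by
    rw [blk_off h.orth _ hji, hoffzY, Matrix.mul_neg, Matrix.neg_mul, Matrix.mul_add, eb j hji,
      zero_add, hx.bk]
  have zij : e i * z * e j = -b' := by
    rw [blk_off h.orth _ hij, ho, Matrix.mul_neg, Matrix.neg_mul, hy.bb]
  have zji : e j * z * e i = 0 := by
    rw [blk_off h.orth _ hji, ho, Matrix.mul_neg, eb' j hji, neg_zero, Matrix.zero_mul]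
  have hbk := bk h hij
  have hX : ∀ r, RDdec.In (e i) (e j) (x r) := fun r => inn h (hx.bx r)
  have hYY : ∀ r, RDdec.In (e i) (e j) (y r) := fun r => inn h (hy.bx r)
  have hY' : ∀ r, RDdec.In (e i) (e j) ((y r).map d) := fun r => inn h (inn_map h d (hy.bx r))
  -- filtered
  have fily : ∀ s, Fil (pᵀ * J * p) π Ψ s (y s) := by
    intro s
    refine Fil.of_exact h.cr hc' ?_
    rw [← Matrix.smul_mul]
    exact hy.arm s
  have filx : ∀ s, Fil (pᵀ * J * p) π Ψ s (x s) := by
    intro s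
    refine Fil.of_exact h.cr hc ?_
    rw [← Matrix.smul_mul]
    exact hx.arm s
  have filxt : ∀ s, Fil (pᵀ * J * p) π Ψ s (x s)ᵀ := by
    intro s
    refine Fil.of_exact_transpose h.cr hc ?_ hD.J_symm
    rw [← Matrix.smul_mul]
    exact hx.arm s
  have hcut : ∀ (s : Fin 3) (a a' : m) (Z : Matrix n n K), Fil (pᵀ * J * p) π Ψ s Z →
      Fil (pᵀ * J * p) π Ψ s (e a * Z * (e a')ᵀ) := fun s a a' Z hZ =>
    Fil.cut h.cr (h.eg a) (h.eal a s) (h.eg a') (h.eal a' s) hZ
  obtain ⟨S, hS⟩ : ∃ S : Fin 3 → Matrix n n K, ∀ r, S r =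
      RDdec.sec (pᵀ * J * p) θ (z1 - z2) z (x r) (y r) ((y r).map d) := ⟨_, fun _ => rfl⟩
  have hSmem : S ∈ RDEnd.Rel arm J N W F p π T 0 Ψ := by
    have : S = fun r => (y r).map d + θ * y r + y r * θᵀ + y r * (z1 - z2)ᵀ -
        (x r - (x r)ᵀ) * (pᵀ * J * p) * y r + (x r - (x r)ᵀ) * zᵀ := by
      funext r; rw [hS]; rfl
    rw [this]; exact hmem
  -- the (j, i) block
  have hBji : ∀ r, Fil (pᵀ * J * p) π Ψ r (e j * S r * (e i)ᵀ) := by
    intro r
    have h1 : Fil (pᵀ * J * p) π Ψ r ((y r).map d + θ * y r + y r * θᵀ) :=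
      Fil.nab h.cr (ZFr.g_der hD hθ) (ZFr.al_der hD h.ctx.hal hQY.val hdF hθ) hzY (fily r)
    have h2 : Fil (pᵀ * J * p) π Ψ r (y r * (z1 - z2)ᵀ) := Fil.mul_ZF hcf hzY (fily r)
    have h3 : Fil (pᵀ * J * p) π Ψ r (x r * zᵀ) := Fil.mul_ZF hcf hz (filx r)
    have h4 := hcut r j i _ (Fil.add (Fil.add h1 h2) h3)
    have e1 : e j * S r * (e i)ᵀ =
        e j * ((y r).map d + θ * y r + y r * θᵀ + y r * (z1 - z2)ᵀ + x r * zᵀ) * (e i)ᵀ := by
      have t3 : e j * ((x r - (x r)ᵀ) * (pᵀ * J * p) * y r) * (e i)ᵀ = 0 := by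
        calc e j * ((x r - (x r)ᵀ) * (pᵀ * J * p) * y r) * (e i)ᵀ
            = (e j * x r - e j * (x r)ᵀ) * (pᵀ * J * p) * (y r * (e i)ᵀ) := by
              rw [← Matrix.mul_sub]; simp only [Matrix.mul_assoc]
          _ = (x r * (e i)ᵀ) * (pᵀ * J * p) * y r := by
              rw [(hX r).l, (hX r).te2 hbk, (hX r).r, (hYY r).r, sub_zero]
          _ = x r * ((pᵀ * J * p) * e i) * y r := by
              rw [← h.eg]; simp only [Matrix.mul_assoc]
          _ = x r * (pᵀ * J * p) * (e i * y r) := by simp only [Matrix.mul_assoc]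
          _ = 0 := by rw [(hYY r).e1x hbk, Matrix.mul_zero]
      have t4 : e j * ((x r - (x r)ᵀ) * zᵀ) * (e i)ᵀ = e j * (x r * zᵀ) * (e i)ᵀ := by
        have : e j * ((x r)ᵀ * zᵀ) = 0 := by
          rw [← Matrix.mul_assoc, (hX r).te2 hbk, Matrix.zero_mul]
        rw [Matrix.sub_mul, Matrix.mul_sub, this, sub_zero]
      rw [hS]
      unfold RDdec.sec
      rw [Matrix.mul_add (e j) _ ((x r - (x r)ᵀ) * zᵀ), Matrix.add_mul, t4,
        Matrix.mul_sub (e j) _ ((x r - (x r)ᵀ) * (pᵀ * J * p) * y r), Matrix.sub_mul, t3,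
        sub_zero, ← Matrix.add_mul, ← Matrix.mul_add]
    rw [e1]
    exact h4
  -- the (i, j) block
  have hBij : ∀ r, Fil (pᵀ * J * p) π Ψ r (e i * S r * (e j)ᵀ) := by
    intro r
    have h3 : Fil (pᵀ * J * p) π Ψ r (-((x r)ᵀ * zᵀ)) := Fil.neg (Fil.mul_ZF hcf hz (filxt r))
    have h4 := hcut r i j _ h3
    have e1 : e i * S r * (e j)ᵀ = e i * (-((x r)ᵀ * zᵀ)) * (e j)ᵀ := by
      have t0 : e i * (y r).map d = 0 := (hY' r).e1x hbk
      have t1 : y r * (e j)ᵀ = 0 := (hYY r).xe2 hbk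
      have t2 : e i * y r = 0 := (hYY r).e1x hbk
      have t3 : e i * x r = 0 := (hX r).e1x hbk
      have s1 : e i * (θ * y r) * (e j)ᵀ = 0 := by
        calc e i * (θ * y r) * (e j)ᵀ = e i * θ * (y r * (e j)ᵀ) := by
              simp only [Matrix.mul_assoc]
          _ = 0 := by rw [t1, Matrix.mul_zero]
      have s2 : ∀ Z : Matrix n n K, e i * (y r * Z) * (e j)ᵀ = 0 := by
        intro Z
        rw [← Matrix.mul_assoc, t2, Matrix.zero_mul, Matrix.zero_mul]
      have s3 : e i * ((x r - (x r)ᵀ) * (pᵀ * J * p) * y r) * (e j)ᵀ = 0 := by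
        calc e i * ((x r - (x r)ᵀ) * (pᵀ * J * p) * y r) * (e j)ᵀ
            = e i * ((x r - (x r)ᵀ) * (pᵀ * J * p)) * (y r * (e j)ᵀ) := by
              simp only [Matrix.mul_assoc]
          _ = 0 := by rw [t1, Matrix.mul_zero]
      have s4 : e i * ((x r - (x r)ᵀ) * zᵀ) * (e j)ᵀ = e i * (-((x r)ᵀ * zᵀ)) * (e j)ᵀ := by
        have : e i * (x r * zᵀ) = 0 := by
          rw [← Matrix.mul_assoc, t3, Matrix.zero_mul]
        rw [Matrix.sub_mul, Matrix.mul_sub, this, zero_sub, Matrix.mul_neg]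
      rw [hS]
      unfold RDdec.sec
      rw [Matrix.mul_add (e i) _ ((x r - (x r)ᵀ) * zᵀ), Matrix.add_mul, s4,
        Matrix.mul_sub (e i) _ ((x r - (x r)ᵀ) * (pᵀ * J * p) * y r), Matrix.sub_mul, s3,
        sub_zero, Matrix.mul_add (e i) _ (y r * (z1 - z2)ᵀ), Matrix.add_mul, s2,
        Matrix.mul_add (e i) _ (y r * θᵀ), Matrix.add_mul, s2, Matrix.mul_add (e i) _ (θ * y r),
        Matrix.add_mul, s1, t0, Matrix.zero_mul]
      abel
    rw [e1]
    exact h4
  -- third blocks vanish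
  have hleft : ∀ r a, a ≠ i → a ≠ j → e a * S r = 0 := by
    intro r a hai haj
    have u1 : e a * (y r).map d = 0 := by
      rw [← (hY' r).l, ← Matrix.mul_assoc, h.orth a j haj, Matrix.zero_mul]
    have u2 : e a * y r = 0 := by
      rw [← (hYY r).l, ← Matrix.mul_assoc, h.orth a j haj, Matrix.zero_mul]
    have u3 : e a * (θ * y r) = 0 := by
      have : e a * θ * e j = 0 := by
        rw [blk_off h.orth θ haj, hoffθ, Matrix.mul_add, eb a hai, ek a haj, add_zero,
          Matrix.zero_mul]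
      calc e a * (θ * y r) = e a * (θ * (e j * y r)) := by rw [(hYY r).l]
        _ = e a * θ * e j * y r := by simp only [Matrix.mul_assoc]
        _ = 0 := by rw [this, Matrix.zero_mul]
    have u4 : e a * (x r - (x r)ᵀ) = 0 := by
      rw [Matrix.mul_sub, ← (hX r).l, ← Matrix.mul_assoc, h.orth a j haj, Matrix.zero_mul,
        (hX r).l, ← (hX r).tl, ← Matrix.mul_assoc, h.orth a i hai, Matrix.zero_mul, sub_zero]
    rw [hS]
    unfold RDdec.sec
    rw [Matrix.mul_add (e a), Matrix.mul_sub (e a), Matrix.mul_add (e a), Matrix.mul_add (e a),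
      Matrix.mul_add (e a), u1, u3, ← Matrix.mul_assoc (e a) (y r), u2,
      ← Matrix.mul_assoc (e a) (y r), u2, ← Matrix.mul_assoc (e a) (x r - (x r)ᵀ), u4,
      ← Matrix.mul_assoc (e a) ((x r - (x r)ᵀ) * (pᵀ * J * p)),
      ← Matrix.mul_assoc (e a) (x r - (x r)ᵀ), u4]
    simp
  have hright : ∀ r a, a ≠ i → a ≠ j → S r * (e a)ᵀ = 0 := by
    intro r a hai haj
    have v1 : (y r).map d * (e a)ᵀ = 0 := by
      rw [← (hY' r).r, Matrix.mul_assoc, ← transpose_mul, h.orth a i hai, transpose_zero,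
        Matrix.mul_zero]
    have v2 : y r * (e a)ᵀ = 0 := by
      rw [← (hYY r).r, Matrix.mul_assoc, ← transpose_mul, h.orth a i hai, transpose_zero,
        Matrix.mul_zero]
    have v3 : ∀ Z : Matrix n n K, e a * Z * e i = 0 → y r * Zᵀ * (e a)ᵀ = 0 := by
      intro Z hZ
      calc y r * Zᵀ * (e a)ᵀ = (y r * (e i)ᵀ) * Zᵀ * (e a)ᵀ := by rw [(hYY r).r]
        _ = y r * (e a * Z * e i)ᵀ := by simp only [transpose_mul, Matrix.mul_assoc]
        _ = 0 := by rw [hZ, transpose_zero, Matrix.mul_zero]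
    have v4 : e a * θ * e i = 0 := by
      rw [blk_off h.orth θ hai, hoffθ, Matrix.mul_add, eb a hai, ek a haj, add_zero,
        Matrix.zero_mul]
    have v5 : e a * (z1 - z2) * e i = 0 := by
      rw [blk_off h.orth _ hai, hoffzY, Matrix.mul_neg, Matrix.mul_add, eb a hai, ek a haj,
        add_zero, neg_zero, Matrix.zero_mul]
    have v6 : e a * z * e i = 0 := by
      rw [blk_off h.orth _ hai, ho, Matrix.mul_neg, eb' a hai, neg_zero, Matrix.zero_mul]
    have v7 : e a * z * e j = 0 := by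
      rw [blk_off h.orth _ haj, ho, Matrix.mul_neg, eb' a hai, neg_zero, Matrix.zero_mul]
    have v8 : (x r - (x r)ᵀ) * zᵀ * (e a)ᵀ = 0 := by
      have q1 : x r * zᵀ * (e a)ᵀ = 0 := by
        calc x r * zᵀ * (e a)ᵀ = (x r * (e i)ᵀ) * zᵀ * (e a)ᵀ := by rw [(hX r).r]
          _ = x r * (e a * z * e i)ᵀ := by simp only [transpose_mul, Matrix.mul_assoc]
          _ = 0 := by rw [v6, transpose_zero, Matrix.mul_zero]
      have q2 : (x r)ᵀ * zᵀ * (e a)ᵀ = 0 := by
        calc (x r)ᵀ * zᵀ * (e a)ᵀ = ((x r)ᵀ * (e j)ᵀ) * zᵀ * (e a)ᵀ := by rw [(hX r).tr]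
          _ = (x r)ᵀ * (e a * z * e j)ᵀ := by simp only [transpose_mul, Matrix.mul_assoc]
          _ = 0 := by rw [v7, transpose_zero, Matrix.mul_zero]
      rw [Matrix.sub_mul, Matrix.sub_mul, q1, q2, sub_zero]
    rw [hS]
    unfold RDdec.sec
    rw [Matrix.add_mul, Matrix.sub_mul, Matrix.add_mul, Matrix.add_mul, Matrix.add_mul, v1, v8,
      v3 θ v4, v3 _ v5, Matrix.mul_assoc θ, v2, Matrix.mul_assoc _ (y r), v2]
    simp
  -- conclusion
  have key : ∀ r, b * y r + (x r)ᵀ * (pᵀ * J * p) * y r + (x r)ᵀ * b'ᵀ =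
      S r - e i * S r * (e j)ᵀ - e j * S r * (e i)ᵀ := by
    intro r
    have k1 : e i * S r * (e i)ᵀ = b * y r + (x r)ᵀ * (pᵀ * J * p) * y r + (x r)ᵀ * b'ᵀ := by
      rw [hS]
      exact RDdec.sec11 hbk (hX r) (hYY r) (hY' r) θij zij
    have k2 : e j * S r * (e j)ᵀ = 0 := by
      rw [hS]
      exact RDdec.sec22 hbk (hX r) (hYY r) (hY' r) θji zYji zji
    have k3 := four h.sumE hij (hleft r) (hright r)
    rw [k2, add_zero, k1] at k3
    rw [eq_sub_iff_add_eq, eq_sub_iff_add_eq]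
    conv_rhs => rw [k3]
    abel
  have e1 : (fun r => b * y r + (x r)ᵀ * (pᵀ * J * p) * y r + (x r)ᵀ * b'ᵀ) =
      S - ∑ s, (Pi.single s (e i * S s * (e j)ᵀ) : Fin 3 → Matrix n n K) -
        ∑ s, (Pi.single s (e j * S s * (e i)ᵀ) : Fin 3 → Matrix n n K) := by
    funext r
    rw [key, Pi.sub_apply, Pi.sub_apply, Finset.sum_apply, Finset.sum_apply,
      Finset.sum_eq_single r, Finset.sum_eq_single r, Pi.single_eq_same, Pi.single_eq_same]
    · intro s _ hs
      exact Pi.single_eq_of_ne (Ne.symm hs) _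
    · intro hr; exact absurd (Finset.mem_univ _) hr
    · intro s _ hs
      exact Pi.single_eq_of_ne (Ne.symm hs) _
    · intro hr; exact absurd (Finset.mem_univ _) hr
  have hblk : ∀ (a a' : m) (Z : Matrix n n K), e a * (e a * Z * (e a')ᵀ) * (e a')ᵀ =
      e a * Z * (e a')ᵀ := by
    intro a a' Z
    calc e a * (e a * Z * (e a')ᵀ) * (e a')ᵀ = (e a * e a) * Z * ((e a')ᵀ * (e a')ᵀ) := by
          simp only [Matrix.mul_assoc]
      _ = _ := by rw [h.idem, ← transpose_mul, h.idem]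
  rw [e1]
  refine Submodule.sub_mem _ (Submodule.sub_mem _ hSmem ?_) ?_
  · refine Submodule.sum_mem _ fun s _ => ?_
    exact hod j i hji s _ (hblk i j _) (hBij s)
  · refine Submodule.sum_mem _ fun s _ => ?_
    exact hod i j hij s _ (hblk j i _) (hBji s)

end main

end Crest.Agent.R172.RD.S41
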