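import Crest.Agent.R172.RD0
import Crest.Agent.R172.RDpick

/-!
Row 172 (S0260), (T0), any radical, any `D`: RD3 (SECOND), independent copy (helper545).
-/

set_option autoImplicit false
set_option linter.unusedSectionVars false

namespace Crest.Agent.R172.RD545

open Matrix Module TensorProduct Crest.Agent.R172.FO Crest.Agent.R172.FrmB
open Crest.Agent.R172.Core (NS Tame)
open Crest.Agent.R172.PL (Wk)
open Crest.Agent.R172.ZFr Crest.Agent.R172.ZP Crest.Agent.R172.RD

section ops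

variable {K : Type*} [Field K] {M : Type*} [AddCommGroup M] [Module K M]

/-- operator form of `filtered` -/
def FO' (P A : Module.End K M) : Prop := ∀ a : ℕ, ∃ A', A * P ^ a = P ^ a * A'

variable {P A A' : Module.End K M}

theorem FO'.add (h : FO' P A) (h' : FO' P A') : FO' P (A + A') := by
  intro a
  obtain ⟨B, hB⟩ := h a
  obtain ⟨B', hB'⟩ := h' a
  exact ⟨B + B', by rw [add_mul, hB, hB', mul_add]⟩

theorem FO'.neg (h : FO' P A) : FO' P (-A) := by
  intro a
  obtain ⟨B, hB⟩ := h a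
  exact ⟨-B, by rw [neg_mul, hB, mul_neg]⟩

theorem FO'.mul (h : FO' P A) (h' : FO' P A') : FO' P (A * A') := by
  intro a
  obtain ⟨B, hB⟩ := h a
  obtain ⟨B', hB'⟩ := h' a
  exact ⟨B * B', by rw [mul_assoc, hB', ← mul_assoc, hB, mul_assoc]⟩

theorem FO'.fil (h : FO' P A) : ∀ (a : ℕ) v, ∃ v', A ((P ^ a) v) = (P ^ a) v' := by
  intro a v
  obtain ⟨B, hB⟩ := h a
  exact ⟨B v, by
    have := LinearMap.congr_fun hB v
    simpa [Module.End.mul_apply] using this⟩

theorem FO'.of_scalar {c : K} (h : A * P = c • (P * A)) : FO' P A := by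
  intro a
  refine ⟨c ^ a • A, ?_⟩
  induction a with
  | zero => simp
  | succ a ih =>
    rw [pow_succ, ← mul_assoc, ih, mul_assoc, smul_mul_assoc, h, smul_smul, mul_smul_comm,
      mul_smul_comm, ← pow_succ, ← mul_assoc, ← pow_succ]

/-- a derivation of `End` preserves filtered operators if `dΨ = vΨ + Ψv'` -/
theorem FO'.der {dd : Module.End K M → Module.End K M}
    (hadd : ∀ X Y, dd (X + Y) = dd X + dd Y) (hmul : ∀ X Y, dd (X * Y) = dd X * Y + X * dd Y)
    (hone : dd 1 = 0) {v v' : Module.End K M} (hP : dd P = v * P + P * v') (hv : FO' P v)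
    (hv' : FO' P v') (hA : FO' P A) : FO' P (dd A) := by
  have hE : ∀ a : ℕ, ∃ E, dd (P ^ a) = P ^ a * E := by
    intro a
    induction a with
    | zero => exact ⟨0, by rw [pow_zero, hone, mul_zero]⟩
    | succ a ih =>
      obtain ⟨E, hE⟩ := ih
      obtain ⟨w, hw⟩ := hv (a + 1)
      obtain ⟨w', hw'⟩ := hv' a
      refine ⟨w + w' + E, ?_⟩
      rw [pow_succ', hmul, hP, hE, add_mul, mul_assoc v, ← pow_succ', hw, mul_assoc P v', hw',
        mul_add, mul_add, ← mul_assoc P, ← pow_succ', ← mul_assoc P, ← pow_succ']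
  intro a
  obtain ⟨B, hB⟩ := hA a
  obtain ⟨E, hE⟩ := hE a
  refine ⟨E * B + dd B - B * E, ?_⟩
  have h1 : dd (A * P ^ a) = dd (P ^ a * B) := by rw [hB]
  rw [hmul, hmul, hE] at h1
  have h2 : dd A * P ^ a = P ^ a * E * B + P ^ a * dd B - A * (P ^ a * E) := by
    rw [← h1]; abel
  rw [h2, ← mul_assoc A, hB, mul_sub, mul_add]
  simp only [mul_assoc]

end ops

section core

variable {n : Type*} [Fintype n] [DecidableEq n]
variable {k K : Type*} [Field k] [Field K] [Algebra k K]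
variable {M : Type*} [AddCommGroup M] [Module K M]
variable {β : LinearMap.BilinForm K M} {T : Module.End K M →ₗ[K] Module.End K M}
  {π : (n → K) →ₗ[K] M} {Ψ : Fin 3 → Module.End K M} {g : Matrix n n K}

/-- elements of `ZZ` and their adjoints are filtered -/
theorem fil_ZZ (hT : Adj β T) (hΨ : ∀ r, T (Ψ r) = Ψ r) {ζ : Module.End K M}
    (hζ : ζ ∈ ZZ T 1 0 Ψ) (s : Fin 3) : FO' (Ψ s) ζ ∧ FO' (Ψ s) (T ζ) := by
  obtain ⟨h, -, -, -, -, h0, h1, h2⟩ := hζ
  have key : ∀ a : ℕ, ∀ m : ℕ, T (h m) * Ψ s ^ a = Ψ s ^ a * T (h (m + 2 * a)) := by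
    intro a
    induction a with
    | zero => intro m; simp
    | succ a ih =>
      intro m
      have e1 : T (h m) * Ψ s = Ψ s * T (h (m + 2)) := by
        have := congrArg T (h2 m s)
        rw [hT.mul, hT.mul, hΨ] at this
        exact this.symm
      rw [pow_succ', ← mul_assoc, e1, mul_assoc, ih (m + 2), ← mul_assoc]
      have e2 : m + 2 + 2 * a = m + 2 * (a + 1) := by ring
      rw [e2]
  constructor
  · intro a
    refine ⟨T (h (0 + 2 * a)), ?_⟩
    rw [← key a 0, h0, hT.TT]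
  · intro a
    refine ⟨T (h (1 + 2 * a)), ?_⟩
    rw [← key a 1, h1]

/-- the operator of a scalar exact tensor -/
theorem lift_op (h : CF β T π g) {al : Matrix n n K} {P : Module.End K M}
    (hal : Lifts π al P) (hsa : alᵀ * g = g * al) {y : Matrix n n K} {c : K}
    (hy : g * (y * alᵀ - c • (al * y)) * g = 0) :
    ∃ yb : Module.End K M, Lifts π (y * g) yb ∧ yb * P = c • (P * yb) := by
  obtain ⟨yb, hyb⟩ := h.exists_lift (z := y * g) (N := g * y) (by rw [Matrix.mul_assoc])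
  refine ⟨yb, hyb, ?_⟩
  refine h.eq_of_gram (hyb.mul hal) ((hal.mul hyb).smul c) ?_
  have e1 : g * (y * alᵀ - c • (al * y)) * g = g * (y * (alᵀ * g)) - c • (g * (al * (y * g))) := by
    rw [Matrix.mul_sub, Matrix.sub_mul, Matrix.mul_smul, Matrix.smul_mul]
    simp only [Matrix.mul_assoc]
  rw [e1, hsa, sub_eq_zero] at hy
  rw [Matrix.mul_smul, ← hy]
  simp only [Matrix.mul_assoc]

/-- right multiplication by a transposed correction -/
theorem lift_right (h : CF β T π g) {y z : Matrix n n K} {yb zb : Module.End K M}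
    (hy : Lifts π (y * g) yb) (hz : Lifts π z zb) : Lifts π (y * zᵀ * g) (yb * T zb) := by
  intro u
  obtain ⟨u', hu'⟩ := h.surj (T zb (π u))
  have e1 : g *ᵥ u' = zᵀ *ᵥ (g *ᵥ u) := by
    have h1 : ∀ u'', u'' ⬝ᵥ (g *ᵥ u') = u'' ⬝ᵥ (zᵀ *ᵥ (g *ᵥ u)) := by
      intro u''
      rw [← h.form, hu', h.adj.symm, h.adj.adj, h.adj.symm, ← hz, h.form,
        Matrix.dotProduct_mulVec u'' zᵀ, Matrix.vecMul_transpose]
    have h2 : g *ᵥ u' - zᵀ *ᵥ (g *ᵥ u) = 0 := by
      apply dotProduct_eq_zero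
      intro w
      rw [dotProduct_comm, dotProduct_sub, h1, sub_self]
    exact sub_eq_zero.1 h2
  rw [Module.End.mul_apply, ← hu', ← hy, ← Matrix.mulVec_mulVec, ← Matrix.mulVec_mulVec,
    ← Matrix.mulVec_mulVec, e1]

/-- the operator of the derived tensor -/
theorem lift_der (h : CF β T π g) {d : Derivation k K K} {θ : Matrix n n K}
    (hg : g.map d = θᵀ * g + g * θ) {y : Matrix n n K} {yb : Module.End K M}
    (hy : Lifts π (y * g) yb) :
    Lifts π ((y.map d + θ * y + y * θᵀ) * g) ((h.conn hg).dE yb) := by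
  have e1 : (y.map d + θ * y + y * θᵀ) * g = (y * g).map d + θ * (y * g) - (y * g) * θ := by
    rw [map_mul_der, hg]
    simp only [Matrix.add_mul, Matrix.mul_add, Matrix.mul_assoc]
    abel
  rw [e1]
  exact h.lifts_dE hg hy

/-- `dΨ = T(z_Y) Ψ + Ψ z_Y` -/
theorem dE_op (h : CF β T π g) {d : Derivation k K K} {P : Matrix n n K}
    (hg : g.map d = Pᵀ * g + g * P) {al : Fin 3 → Matrix n n K} (hΨ : ∀ r, Lifts π (al r) (Ψ r))
    {zY : Matrix n n K}
    (hv : ∀ r, g * ((al r).map d + P * al r - al r * P) = zYᵀ * g * al r + g * al r * zY)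
    {yb : Module.End K M} (y1 : Lifts π zY yb) (r : Fin 3) :
    (h.conn hg).dE (Ψ r) = T yb * Ψ r + Ψ r * yb := by
  apply h.adj.ext
  intro x y
  obtain ⟨x, rfl⟩ := h.surj x
  obtain ⟨y, rfl⟩ := h.surj y
  have e1 := h.lifts_dE hg (hΨ r)
  rw [h.adj.symm, ← e1, h.form, Matrix.mulVec_mulVec, hv, LinearMap.add_apply,
    Module.End.mul_apply, Module.End.mul_apply, map_add, LinearMap.add_apply, h.adj.adj,
    ← y1, ← y1, ← hΨ, ← hΨ, h.adj.symm (π (al r *ᵥ x)), h.form,
    h.adj.symm (π (al r *ᵥ (zY *ᵥ x))), h.form, Matrix.add_mulVec, dotProduct_add]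
  congr 1
  · rw [Matrix.mul_assoc, ← Matrix.mulVec_mulVec, Matrix.dotProduct_mulVec,
      Matrix.vecMul_transpose, Matrix.mulVec_mulVec]
  · simp only [Matrix.mulVec_mulVec, Matrix.mul_assoc]

end core

section geo

variable {ι : Type*} [Fintype ι] [DecidableEq ι] {δ : Type*} [Fintype δ] [DecidableEq δ]
variable {n : Type*} [Fintype n] [DecidableEq n]
variable {k K : Type*} [Field k] [Field K] [Algebra k K]
variable {arm : δ → Fin 3} {J : Matrix ι ι K} {B : Matrix δ δ K}
  {N W : Submodule K (Matrix ι δ K)} {F : Matrix ι δ K} {p : Matrix ι n K}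
  {al : Fin 3 → Matrix n n K}

/-- the connection matrix of `al` along an `L`-fixed derivation -/
theorem nab_eq (hD : Data k arm J B N W) (hal : ∀ r, Phi arm J B F r * p = p * al r)
    {wY : Matrix ι δ K} {zY : Matrix n n K} (hval : wYᵀ * J * p = Fᵀ * J * p * zY)
    {s : Fin 3} {μ : Matrix n n K} (himg : wY * E K arm s * B * (Fᵀ * J * p) = p * μ)
    {d : Derivation k K K} (hdF : F.map d = wY) {P : Matrix n n K} (hp : p.map d = p * P) :
    p * FC.nab d P (al s) = p * (μ + al s * zY) := by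
  have e1 : (Phi arm J B F s).map d * p =
      wY * E K arm s * B * (Fᵀ * J * p) + F * E K arm s * B * (wYᵀ * J * p) := by
    unfold Phi M
    rw [map_mul_der, map_mul_der, map_mul_der, map_mul_der, hD.J_const, hD.B_const, E_map_der,
      map_transpose_der, hdF]
    simp only [Matrix.mul_zero, Matrix.add_mul, add_zero, Matrix.mul_assoc]
  have e2 := congrArg (fun A : Matrix ι n K => A.map d) (hal s)
  rw [map_mul_der, map_mul_der, hp, e1, hval, himg] at e2
  have e7 : F * E K arm s * B * (Fᵀ * J * p * zY) = p * (al s * zY) := by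
    have h1 := hal s
    unfold Phi M at h1
    have h2 := congrArg (fun A => A * zY) h1
    simpa only [Matrix.mul_assoc] using h2
  have e8 : Phi arm J B F s * (p * P) = p * (al s * P) := by
    rw [← Matrix.mul_assoc, hal, Matrix.mul_assoc]
  rw [e7, e8] at e2
  unfold FC.nab
  rw [Matrix.mul_sub, Matrix.mul_add, Matrix.mul_add]
  have e9 : p * (al s).map d + p * (P * al s) = p * μ + p * (al s * zY) + p * (al s * P) := by
    rw [e2]
    simp only [Matrix.mul_assoc]
    abel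
  rw [e9]
  abel

end geo

section blocks

variable {n : Type*} [Fintype n] [DecidableEq n] {K : Type*} [Field K]
variable {m : Type*} [Fintype m] [DecidableEq m] {e : m → Matrix n n K}

theorem off_sub (A A' : Matrix n n K) : off e (A - A') = off e A - off e A' := by
  unfold off
  simp only [Matrix.mul_sub, Matrix.sub_mul, Finset.sum_sub_distrib]
  abel

theorem off_add (A A' : Matrix n n K) : off e (A + A') = off e A + off e A' := by
  unfold off
  simp only [Matrix.mul_add, Matrix.add_mul, Finset.sum_add_distrib]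
  abel

theorem off_mul_left {a : Matrix n n K} (ha : ∀ l, e l * a = a * e l) (A : Matrix n n K) :
    off e (a * A) = a * off e A := by
  unfold off
  rw [Matrix.mul_sub, Matrix.mul_sum]
  congr 1
  refine Finset.sum_congr rfl fun l _ => ?_
  rw [← Matrix.mul_assoc (e l), ha]
  simp only [Matrix.mul_assoc]

theorem off_block (idem : ∀ i, e i * e i = e i) (orth : ∀ i j, i ≠ j → e i * e j = 0)
    {i j : m} (hij : i ≠ j) {b : Matrix n n K} (hb : e i * b * e j = b) : off e b = b := by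
  unfold off
  have : ∑ l, e l * b * e l = 0 := by
    refine Finset.sum_eq_zero fun l _ => ?_
    by_cases hl : l = i
    · subst hl
      rw [← hb]
      have : e l * (e l * b * e j) * e l = e l * (e l * b * (e j * e l)) := by
        simp only [Matrix.mul_assoc]
      rw [this, orth j l hij.symm, Matrix.mul_zero, Matrix.mul_zero]
    · rw [← hb]
      have : e l * (e i * b * e j) * e l = (e l * e i) * (b * e j * e l) := by
        simp only [Matrix.mul_assoc]
      rw [this, orth l i hl, Matrix.zero_mul]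
  rw [this, sub_zero]

theorem mul_e (idem : ∀ i, e i * e i = e i) (orth : ∀ i j, i ≠ j → e i * e j = 0)
    (A : Matrix n n K) (j : m) : A * e j = off e A * e j + e j * A * e j := by
  unfold off
  rw [Matrix.sub_mul, Finset.sum_mul, Finset.sum_eq_single j]
  · rw [Matrix.mul_assoc (e j * A), idem]; abel
  · intro l _ hl
    rw [Matrix.mul_assoc (e l * A), orth l j hl, Matrix.mul_zero]
  · intro h'; exact absurd (Finset.mem_univ j) h'

end blocks

section main

variable {ι : Type*} [Fintype ι] [DecidableEq ι] {δ : Type*} [Fintype δ] [DecidableEq δ]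
variable {n : Type*} [Fintype n] [DecidableEq n]
variable {k K : Type*} [Field k] [Field K] [Algebra k K]
variable {M : Type*} [AddCommGroup M] [Module K M]
variable {m : Type*} [Fintype m] [DecidableEq m]
variable {arm : δ → Fin 3} {J : Matrix ι ι K} {B : Matrix δ δ K}
  {N W : Submodule K (Matrix ι δ K)} {F G : Matrix ι δ K} {p : Matrix ι n K}
  {al : Fin 3 → Matrix n n K} {tau : Matrix n n K}
  {β : LinearMap.BilinForm K M} {T : Module.End K M →ₗ[K] Module.End K M}
  {Ψ : Fin 3 → Module.End K M} {D : Module.End K M} {π : (n → K) →ₗ[K] M}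
  {e : m → Matrix n n K} {lam : m → K} {l : Fin 3 → ℕ} {TT : Set k}

theorem cf_of_cr (h : RDEnd.Cr J p al β π Ψ T) : CF β T π (pᵀ * J * p) :=
  ⟨⟨h.ns.symm, h.ns.nd, h.adj⟩, h.onto, h.form⟩

theorem gal (h : RDEnd.Cr J p al β π Ψ T) (s : Fin 3) :
    (al s)ᵀ * (pᵀ * J * p) = (pᵀ * J * p) * al s := by
  have h1 : ∀ u u' : n → K, u ⬝ᵥ (((al s)ᵀ * (pᵀ * J * p)) *ᵥ u') =
      u ⬝ᵥ (((pᵀ * J * p) * al s) *ᵥ u') := by
    intro u u'
    rw [← Matrix.mulVec_mulVec, Matrix.dotProduct_mulVec u (al s)ᵀ, Matrix.vecMul_transpose,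
      ← h.form, ← h.op, h.sa, h.op, h.form, Matrix.mulVec_mulVec]
  ext a b
  have h2 := h1 (Pi.single a 1) (Pi.single b 1)
  simpa using h2

theorem rad_mul (h : CF β T π (pᵀ * J * p)) {b : Matrix n n K} (hb : ∀ u, π (b *ᵥ u) = 0) :
    (pᵀ * J * p) * b = 0 := by
  ext a c
  have h1 := (h.ker _).1 (hb (Pi.single c 1))
  rw [Matrix.mulVec_mulVec] at h1
  have h2 := congrFun h1 a
  simpa using h2

theorem second [CharZero K] (h : Fr k arm J B N W F G p al tau β T Ψ D π e lam l TT)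
    {i j : m} (hij : i ≠ j)
    (hod : ∀ i j : m, i ≠ j → ∀ (s : Fin 3) (y : Matrix n n K), e j * y * (e i)ᵀ = y →
      Fil (pᵀ * J * p) π Ψ s y →
      (Pi.single s y : Fin 3 → Matrix n n K) ∈ RDEnd.Rel arm J N W F p π T 0 Ψ)
    {c c' : K} (hc : c ≠ 0) (hc' : c' ≠ 0) {x y : Fin 3 → Matrix n n K}
    {b kk b' kk' : Matrix n n K}
    (hx : Dec (pᵀ * J * p) π e i j (fun r => al r) (fun r => c • al r) x b kk)
    (hy : Dec (pᵀ * J * p) π e i j (fun r => al r) (fun r => c' • al r) y b' kk')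
    (hx1 : RS arm J B N W F p T Ψ π e x (-b) (fun r => kk * al r))
    (hx2 : RS arm J B N W F p T Ψ π e (fun r => (x r)ᵀ) kk (fun r => -(b * al r)))
    (hy1 : RS arm J B N W F p T Ψ π e y (-b') (fun r => kk' * al r)) :
    (fun r => b * y r + (x r)ᵀ * (pᵀ * J * p) * y r + (x r)ᵀ * b'ᵀ) ∈
      RDEnd.Rel arm J N W F p π T 0 Ψ := by
  have hD := h.ctx.data
  have cf := cf_of_cr h.cr
  have hL : ∀ s, Lifts π (al s) (Ψ s) := fun s u => (h.cr.op s u).symm
  have hgs : (pᵀ * J * p)ᵀ = pᵀ * J * p := by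
    simp only [transpose_mul, transpose_transpose, hD.J_symm, Matrix.mul_assoc]
  have hT : ∀ r, T (Ψ r) = Ψ r := fun r => cf.adj.eq_of fun u v => h.cr.sa r u v
  have hgb := rad_mul cf hx.rb
  have hgk := rad_mul cf hx.rk
  have hgb' := rad_mul cf hy.rb
  obtain ⟨w1, z1, μ1, hw1, hn1, hv1, hi1, hz1, ho1, hm1⟩ := hx1
  obtain ⟨w2, z2, μ2, hw2, hn2, hv2, hi2, hz2, ho2, hm2⟩ := hx2
  obtain ⟨w, z, μ, hw, hn, hv, hi, hz, ho, -⟩ := hy1
  -- the direction
  have hQ : Q3 arm J B N W F p (fun r => x r - (x r)ᵀ) (w1 - w2) (z1 - z2) := by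
    refine ⟨W.sub_mem hw1 hw2, ?_, ?_, fun r => ⟨μ1 r - μ2 r, ?_⟩⟩
    · have e1 : io arm J F p (fun r => x r - (x r)ᵀ) - (w1 - w2) =
          (io arm J F p x - w1) - (io arm J F p (fun r => (x r)ᵀ) - w2) := by
        have := io_sub (arm := arm) (J := J) (F := F) (p := p) x (fun r => (x r)ᵀ)
        rw [this]; abel
      rw [e1]
      exact N.sub_mem hn1 hn2
    · rw [transpose_sub, Matrix.sub_mul, Matrix.sub_mul, hv1, hv2, Matrix.mul_sub]
    · rw [Matrix.sub_mul, Matrix.sub_mul, Matrix.sub_mul, hi1, hi2, Matrix.mul_sub]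
  have hQy : Q3 arm J B N W F p y w z := ⟨hw, hn, hv, fun r => ⟨μ r, hi r⟩⟩
  have hskew : ∀ r, (x r - (x r)ᵀ)ᵀ = -(x r - (x r)ᵀ) := by
    intro r; rw [transpose_sub, transpose_transpose]; abel
  have hzY : z1 - z2 ∈ ZF T π Ψ := Submodule.sub_mem _ hz1 hz2
  have hoY : off e (z1 - z2) = -b - kk := by rw [off_sub, ho1, ho2]
  obtain ⟨d, hd, hdF⟩ := exists_D hD h.vt hskew hQ
  obtain ⟨ρ, hρ⟩ := h.ctx.perf
  obtain ⟨m0, hm0⟩ := h.wk
  obtain ⟨θ0, hθ0⟩ := persist_Q hD h.ctx.hal hρ hm0 hQ hdF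
  -- the connection
  obtain ⟨θ, hθ, hoθ⟩ : ∃ θ, p.map d = p * θ ∧ off e θ = b + kk := by
    refine pick h (t := 0) (Or.inr rfl) (kap := 1) (by simp) hθ0
      (U := fun s => (μ1 s - μ2 s) + al s * (z1 - z2)) ?_ ?_ ?_ ?_
    · intro s
      rw [Matrix.mul_one, Matrix.mul_one]
      exact nab_eq hD h.ctx.hal hQ.val (by
        rw [Matrix.sub_mul, Matrix.sub_mul, Matrix.sub_mul, hi1, hi2, Matrix.mul_sub]) hdF hθ0
    · rw [off_add, off_block h.idem h.orth hij hx.bb, off_block h.idem h.orth hij.symm hx.bk]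
    · intro u
      rw [Matrix.add_mulVec, map_add, hx.rb, hx.rk, add_zero]
    · intro s
      rw [off_add, off_sub, hm1, hm2, off_mul_left (fun l => h.eal l s), hoY]
      simp only [Matrix.mul_one, Matrix.add_mul, Matrix.mul_add, Matrix.mul_sub, Matrix.mul_neg]
      abel
  have hg : (pᵀ * J * p).map d = θᵀ * (pᵀ * J * p) + (pᵀ * J * p) * θ := g_der hD hθ
  have hsec := FrmB.second hD hQ hd hdF hθ hQy
  have hZ := ZFr.second hD cf h.ctx.hal hL hQ.val hdF hθ hzY hz
  obtain ⟨zb', hzb', hzb''⟩ := mem_ZF.1 hZ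
  have hT3 := RDEnd.mem_Rel_of_Q3 (D := 0) hsec hzb' hzb''
  -- block algebra
  have ejx : ∀ r, e j * x r = x r := fun r => by
    conv_rhs => rw [← hx.bx r]
    conv_lhs => rw [← hx.bx r]
    rw [← Matrix.mul_assoc, ← Matrix.mul_assoc, h.idem]
  have xei : ∀ r, x r * (e i)ᵀ = x r := fun r => by
    conv_rhs => rw [← hx.bx r]
    conv_lhs => rw [← hx.bx r]
    rw [Matrix.mul_assoc _ (e i)ᵀ (e i)ᵀ, ← transpose_mul, h.idem]
  have ejy : ∀ r, e j * y r = y r := fun r => by
    conv_rhs => rw [← hy.bx r]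
    conv_lhs => rw [← hy.bx r]
    rw [← Matrix.mul_assoc, ← Matrix.mul_assoc, h.idem]
  have yei : ∀ r, y r * (e i)ᵀ = y r := fun r => by
    conv_rhs => rw [← hy.bx r]
    conv_lhs => rw [← hy.bx r]
    rw [Matrix.mul_assoc _ (e i)ᵀ (e i)ᵀ, ← transpose_mul, h.idem]
  have bej : ∀ b : Matrix n n K, e i * b * e j = b → b * e j = b := fun b hb => by
    conv_rhs => rw [← hb]
    conv_lhs => rw [← hb]
    rw [Matrix.mul_assoc _ (e j) (e j), h.idem]
  have bei : ∀ b : Matrix n n K, e i * b * e j = b → b * e i = 0 := fun b hb => by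
    rw [← hb, Matrix.mul_assoc _ (e j) (e i), h.orth j i hij.symm, Matrix.mul_zero]
  have kei : kk * e i = kk := by
    conv_rhs => rw [← hx.bk]
    conv_lhs => rw [← hx.bk]
    rw [Matrix.mul_assoc _ (e i) (e i), h.idem]
  have kej : kk * e j = 0 := by
    rw [← hx.bk, Matrix.mul_assoc _ (e i) (e j), h.orth i j hij, Matrix.mul_zero]
  have θj : θ * e j = b + e j * θ * e j := by
    rw [mul_e h.idem h.orth θ j, hoθ, Matrix.add_mul, bej b hx.bb, kej, add_zero]
  have θi : θ * e i = kk + e i * θ * e i := by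
    rw [mul_e h.idem h.orth θ i, hoθ, Matrix.add_mul, bei b hx.bb, kei, zero_add]
  have Yi : (z1 - z2) * e i = -kk + e i * (z1 - z2) * e i := by
    rw [mul_e h.idem h.orth (z1 - z2) i, hoY, Matrix.sub_mul, Matrix.neg_mul, bei b hx.bb, kei,
      neg_zero, zero_sub]
  have zi : z * e i = e i * z * e i := by
    rw [mul_e h.idem h.orth z i, ho, Matrix.neg_mul, bei b' hy.bb, neg_zero, zero_add]
  have zj : z * e j = -b' + e j * z * e j := by
    rw [mul_e h.idem h.orth z j, ho, Matrix.neg_mul, bej b' hy.bb]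
  have t1 : ∀ r, θ * y r = b * y r + e j * θ * e j * y r := fun r => by
    conv_lhs => rw [← ejy r, ← Matrix.mul_assoc, θj, Matrix.add_mul]
  have t2 : ∀ r, y r * θᵀ = y r * kkᵀ + y r * (e i * θ * e i)ᵀ := fun r => by
    conv_lhs => rw [← yei r, Matrix.mul_assoc, ← transpose_mul, θi, transpose_add,
      Matrix.mul_add]
  have t3 : ∀ r, y r * (z1 - z2)ᵀ = -(y r * kkᵀ) + y r * (e i * (z1 - z2) * e i)ᵀ := fun r => by
    conv_lhs => rw [← yei r, Matrix.mul_assoc, ← transpose_mul, Yi, transpose_add,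
      Matrix.mul_add, transpose_neg, Matrix.mul_neg]
  have t4 : ∀ r, x r * (pᵀ * J * p) * y r = 0 := fun r => by
    have e1 : x r * (pᵀ * J * p) * y r = x r * ((e i)ᵀ * (pᵀ * J * p)) * (e j * y r) := by
      rw [ejy r, ← Matrix.mul_assoc (x r) (e i)ᵀ, xei r]
    rw [e1, h.eg i]
    have e2 : x r * (pᵀ * J * p * e i) * (e j * y r) =
        x r * (pᵀ * J * p) * (e i * e j) * y r := by simp only [Matrix.mul_assoc]
    rw [e2, h.orth i j hij, Matrix.mul_zero, Matrix.zero_mul]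
  have t5 : ∀ r, x r * zᵀ = x r * (e i * z * e i)ᵀ := fun r => by
    conv_lhs => rw [← xei r, Matrix.mul_assoc, ← transpose_mul, zi]
  have xtj : ∀ r, (x r)ᵀ * (e j)ᵀ = (x r)ᵀ := fun r => by rw [← transpose_mul, ejx]
  have t6 : ∀ r, (x r)ᵀ * zᵀ = -((x r)ᵀ * b'ᵀ) + (x r)ᵀ * (e j * z * e j)ᵀ := fun r => by
    conv_lhs => rw [← xtj r, Matrix.mul_assoc, ← transpose_mul, zj, transpose_add,
      Matrix.mul_add, transpose_neg, Matrix.mul_neg]
  obtain ⟨A2, hA2⟩ : ∃ A2 : Fin 3 → Matrix n n K, ∀ r, A2 r =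
      (y r).map d + e j * θ * e j * y r + y r * (e i * θ * e i)ᵀ +
        y r * (e i * (z1 - z2) * e i)ᵀ + x r * (e i * z * e i)ᵀ := ⟨_, fun _ => rfl⟩
  obtain ⟨A3, hA3⟩ : ∃ A3 : Fin 3 → Matrix n n K, ∀ r, A3 r =
      -((x r)ᵀ * (e j * z * e j)ᵀ) := ⟨_, fun _ => rfl⟩
  have hsum : (fun r => b * y r + (x r)ᵀ * (pᵀ * J * p) * y r + (x r)ᵀ * b'ᵀ) =
      (fun r => (y r).map d + θ * y r + y r * θᵀ + y r * (z1 - z2)ᵀ -
        (x r - (x r)ᵀ) * (pᵀ * J * p) * y r + (x r - (x r)ᵀ) * zᵀ) -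
      ∑ r, (Pi.single r (A2 r) : Fin 3 → Matrix n n K) -
      ∑ r, (Pi.single r (A3 r) : Fin 3 → Matrix n n K) := by
    rw [Finset.univ_sum_single, Finset.univ_sum_single]
    funext r
    rw [Pi.sub_apply, Pi.sub_apply, hA2, hA3, t1, t2, t3, Matrix.sub_mul, Matrix.sub_mul, t4,
      Matrix.sub_mul, t5, t6]
    abel
  rw [hsum]
  -- filtered
  obtain ⟨zYb, hzYb, hzYb'⟩ := mem_ZF.1 hzY
  obtain ⟨zb, hzb, hzb2⟩ := mem_ZF.1 hz
  have hv := al_der hD h.ctx.hal hQ.val hdF hθ
  refine Submodule.sub_mem _ (Submodule.sub_mem _ hT3 ?_) ?_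
  · refine Submodule.sum_mem _ fun r _ => hod i j hij r (A2 r) ?_ ?_
    · have m1 : e j * (y r).map d * (e i)ᵀ = (y r).map d := by
        have := congrArg (fun A : Matrix n n K => A.map d) (hy.bx r)
        simp only [map_mul_der, map_transpose_der, h.eC, transpose_zero, Matrix.mul_zero,
          Matrix.zero_mul, zero_add, add_zero] at this
        exact this
      have m2 : e j * (e j * θ * e j * y r) * (e i)ᵀ = e j * θ * e j * y r := by
        have : e j * (e j * θ * e j * y r) * (e i)ᵀ =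
            (e j * e j) * θ * e j * (y r * (e i)ᵀ) := by simp only [Matrix.mul_assoc]
        rw [this, h.idem, yei]
      have m3 : ∀ (A V : Matrix n n K), e j * V = V →
          e j * (V * (e i * A * e i)ᵀ) * (e i)ᵀ = V * (e i * A * e i)ᵀ := by
        intro A V hV
        have : e j * (V * (e i * A * e i)ᵀ) * (e i)ᵀ = (e j * V) * ((e i * e i) * A * e i)ᵀ := by
          simp only [Matrix.mul_assoc, transpose_mul]
        rw [this, hV, h.idem]
      rw [hA2]
      simp only [Matrix.mul_add, Matrix.add_mul]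
      rw [m1, m2, m3 θ _ (ejy r), m3 (z1 - z2) _ (ejy r), m3 z _ (ejx r)]
    · have hyr : (pᵀ * J * p) * (y r * (al r)ᵀ - c' • (al r * y r)) * (pᵀ * J * p) = 0 := by
        have := hy.arm r
        rwa [Matrix.smul_mul] at this
      have hxr : (pᵀ * J * p) * (x r * (al r)ᵀ - c • (al r * x r)) * (pᵀ * J * p) = 0 := by
        have := hx.arm r
        rwa [Matrix.smul_mul] at this
      obtain ⟨yb, hyb, hybP⟩ := lift_op cf (hL r) (gal h.cr r) hyr
      obtain ⟨xb, hxb, hxbP⟩ := lift_op cf (hL r) (gal h.cr r) hxr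
      refine ⟨(cf.conn hg).dE yb + yb * T zYb + xb * T zb, fun u => ?_, FO'.fil ?_⟩
      · have e1 : A2 r * (pᵀ * J * p) = ((y r).map d + θ * y r + y r * θᵀ) * (pᵀ * J * p) +
            y r * (z1 - z2)ᵀ * (pᵀ * J * p) + x r * zᵀ * (pᵀ * J * p) -
            b * (y r * (pᵀ * J * p)) := by
          have e2 : A2 r = ((y r).map d + θ * y r + y r * θᵀ) + y r * (z1 - z2)ᵀ + x r * zᵀ -
              b * y r := by
            rw [hA2, t1, t2, t3, t5]; abel
          rw [e2]
          simp only [Matrix.add_mul, Matrix.sub_mul, Matrix.mul_assoc]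
        rw [Matrix.mulVec_mulVec, e1, Matrix.sub_mulVec, Matrix.add_mulVec, Matrix.add_mulVec,
          map_sub, map_add, map_add, lift_der cf hg hyb u, lift_right cf hyb hzYb u,
          lift_right cf hxb hzb u, ← Matrix.mulVec_mulVec, hx.rb, sub_zero]
        rfl
      · have f1 := fil_ZZ cf.adj hT hzYb' r
        have f2 := fil_ZZ cf.adj hT hzb2 r
        rw [cf.adj.TT] at f1
        refine ((FO'.der (cf.conn hg).dE_add (cf.conn hg).dE_mul (cf.conn hg).dE_one
          (dE_op cf hg hL hv hzYb r) f1.1 f1.2 (FO'.of_scalar hybP)).add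
          ((FO'.of_scalar hybP).mul f1.1)).add ((FO'.of_scalar hxbP).mul f2.1)
  · refine Submodule.sum_mem _ fun r _ => hod j i hij.symm r (A3 r) ?_ ?_
    · have m1 : e i * (-((x r)ᵀ * (e j * z * e j)ᵀ)) * (e j)ᵀ =
          -((x r * (e i)ᵀ)ᵀ * ((e j * e j) * z * e j)ᵀ) := by
        simp only [Matrix.mul_neg, Matrix.neg_mul, transpose_mul, transpose_transpose,
          Matrix.mul_assoc]
      rw [hA3, m1, h.idem, xei]
    · have hxr : (pᵀ * J * p) * ((x r)ᵀ * (al r)ᵀ - c⁻¹ • (al r * (x r)ᵀ)) * (pᵀ * J * p) = 0 := by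
        have h1 := congrArg transpose (hx.arm r)
        have e1 : ((pᵀ * J * p) * (x r * (al r)ᵀ - c • al r * x r) * (pᵀ * J * p))ᵀ =
            (pᵀ * J * p) * (al r * (x r)ᵀ - c • ((x r)ᵀ * (al r)ᵀ)) * (pᵀ * J * p) := by
          rw [transpose_mul (pᵀ * J * p * (x r * (al r)ᵀ - c • al r * x r)) (pᵀ * J * p),
            transpose_mul (pᵀ * J * p) (x r * (al r)ᵀ - c • al r * x r), hgs, transpose_sub,
            transpose_mul (x r) (al r)ᵀ, transpose_transpose, Matrix.smul_mul, transpose_smul,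
            transpose_mul (al r) (x r), ← Matrix.mul_assoc]
        rw [e1, transpose_zero] at h1
        have e2 : (x r)ᵀ * (al r)ᵀ - c⁻¹ • (al r * (x r)ᵀ) =
            (-c⁻¹) • (al r * (x r)ᵀ - c • ((x r)ᵀ * (al r)ᵀ)) := by
          rw [smul_sub, smul_smul, neg_mul, inv_mul_cancel₀ hc, neg_smul, neg_smul, one_smul]
          abel
        rw [e2, Matrix.mul_smul, Matrix.smul_mul, h1, smul_zero]
      obtain ⟨xb, hxb, hxbP⟩ := lift_op cf (hL r) (gal h.cr r) hxr
      refine ⟨-(xb * T zb), fun u => ?_, FO'.fil ?_⟩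
      · have hb0 : b'ᵀ * (pᵀ * J * p) = 0 := by
          have := congrArg transpose hgb'
          rwa [transpose_mul, hgs, transpose_zero] at this
        have e1 : A3 r * (pᵀ * J * p) = -((x r)ᵀ * zᵀ * (pᵀ * J * p)) := by
          have e2 : A3 r = -((x r)ᵀ * zᵀ) - (x r)ᵀ * b'ᵀ := by
            rw [hA3, t6]; abel
          rw [e2, Matrix.sub_mul, Matrix.mul_assoc (x r)ᵀ b'ᵀ, hb0, Matrix.mul_zero, sub_zero,
            Matrix.neg_mul]
        rw [Matrix.mulVec_mulVec, e1, Matrix.neg_mulVec, map_neg, lift_right cf hxb hzb u]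
        rfl
      · exact ((FO'.of_scalar hxbP).mul (fil_ZZ cf.adj hT hzb2 r).1).neg

end main

end Crest.Agent.R172.RD545
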