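import Crest.Agent.R172.RDfirst296
import Crest.Agent.R172.RDP
import Crest.Agent.R172.RDfil
import Crest.Agent.R172.FrmP

/-!
Row 172 (S0260), (T0), any radical, any `D`: SECOND (RD3 of note 16775), `RD.SecondP`.
-/

set_option autoImplicit false
set_option linter.unusedSectionVars false

namespace Crest.Agent.R172.RD296

open Matrix Module Crest.Agent.R172.FO Crest.Agent.R172.FrmB Crest.Agent.R172.RD
open Crest.Agent.R172.Core (NS Tame)
open Crest.Agent.R172.FC (nab)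

variable {ι : Type*} [Fintype ι] [DecidableEq ι] {δ : Type*} [Fintype δ] [DecidableEq δ]
variable {n : Type*} [Fintype n] [DecidableEq n]
variable {k K : Type*} [Field k] [Field K] [Algebra k K]
variable {M : Type*} [AddCommGroup M] [Module K M]
variable {m : Type*} [Fintype m] [DecidableEq m]

section alg

/-- the matrix identity: the blocks of the second derivative -/
theorem blocks {ei ej : Matrix n n K} (hij : ei * ej = 0) (hji : ej * ei = 0)
    {g θd zYd zd b kk b' x y y' : Matrix n n K}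
    (gi : g * ei = eiᵀ * g)
    (cθi : ei * θd = θd * ei) (cθj : ej * θd = θd * ej) (cYi : ei * zYd = zYd * ei)
    (czi : ei * zd = zd * ei) (czj : ej * zd = zd * ej)
    (hx : ej * x = x) (hx' : x * eiᵀ = x) (hy : ej * y = y) (hy' : y * eiᵀ = y)
    (hdy : ej * y' = y') (hdy' : y' * eiᵀ = y')
    (hb : ei * b = b) (hb' : b * ej = b) (hk : ej * kk = kk) (hk' : kk * ei = kk)
    (hc : ei * b' = b') (hc' : b' * ej = b') :
    y' + (θd + (b + kk)) * y + y * (θd + (b + kk))ᵀ + y * (zYd - (b + kk))ᵀ -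
        (x - xᵀ) * g * y + (x - xᵀ) * (zd - b')ᵀ =
      ej * (y' + (θd + (b + kk)) * y + y * (θd + (b + kk))ᵀ + y * (zYd - (b + kk))ᵀ +
          x * (zd - b')ᵀ) * eiᵀ - ei * (xᵀ * (zd - b')ᵀ) * ejᵀ +
        (b * y + xᵀ * g * y + xᵀ * b'ᵀ) := by
  have hjiT : eiᵀ * ejᵀ = 0 := by rw [← transpose_mul, hji, transpose_zero]
  have hijT : ejᵀ * eiᵀ = 0 := by rw [← transpose_mul, hij, transpose_zero]
  have hxt : ei * xᵀ = xᵀ := by
    have := congrArg transpose hx'
    rwa [transpose_mul, transpose_transpose] at this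
  have hxt' : xᵀ * ejᵀ = xᵀ := by
    have := congrArg transpose hx
    rwa [transpose_mul] at this
  -- zero products
  have z1 : kk * y = 0 := by
    rw [← hk', ← hy, Matrix.mul_assoc kk, ← Matrix.mul_assoc ei, hij, Matrix.zero_mul,
      Matrix.mul_zero]
  have z2 : y * bᵀ = 0 := by
    have : bᵀ = ejᵀ * bᵀ := by rw [← transpose_mul, hb']
    rw [this, ← hy', Matrix.mul_assoc y, ← Matrix.mul_assoc eiᵀ, hjiT, Matrix.zero_mul,
      Matrix.mul_zero]
  have z3 : x * b'ᵀ = 0 := by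
    have : b'ᵀ = ejᵀ * b'ᵀ := by rw [← transpose_mul, hc']
    rw [this, ← hx', Matrix.mul_assoc x, ← Matrix.mul_assoc eiᵀ, hjiT, Matrix.zero_mul,
      Matrix.mul_zero]
  have z4 : x * g * y = 0 := by
    have e1 : x * g * y = x * (eiᵀ * g) * y := by rw [← Matrix.mul_assoc x, hx']
    rw [e1, ← gi, ← hy]
    have e2 : x * (g * ei) * (ej * y) = x * g * (ei * ej) * y := by
      simp only [Matrix.mul_assoc]
    rw [e2, hij, Matrix.mul_zero, Matrix.zero_mul]
  have z5 : ej * (b * y) = 0 := by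
    rw [← hb, ← Matrix.mul_assoc, ← Matrix.mul_assoc, hji, Matrix.zero_mul, Matrix.zero_mul]
  have z6 : y * kkᵀ * eiᵀ = 0 := by
    have : kkᵀ * eiᵀ = 0 := by
      rw [← transpose_mul, ← hk, ← Matrix.mul_assoc, hij, Matrix.zero_mul, transpose_zero]
    rw [Matrix.mul_assoc, this, Matrix.mul_zero]
  have z7 : xᵀ * b'ᵀ * ejᵀ = 0 := by
    have : b'ᵀ * ejᵀ = 0 := by
      rw [← transpose_mul, ← hc, ← Matrix.mul_assoc, hji, Matrix.zero_mul, transpose_zero]
    rw [Matrix.mul_assoc, this, Matrix.mul_zero]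
  -- diagonal products
  have d1 : ej * (θd * y) = θd * y := by
    rw [← Matrix.mul_assoc, cθj, Matrix.mul_assoc, hy]
  have d1' : θd * y * eiᵀ = θd * y := by rw [Matrix.mul_assoc, hy']
  have d2 : ∀ u : Matrix n n K, ei * u = u * ei → y * uᵀ * eiᵀ = y * uᵀ := by
    intro u hu
    rw [Matrix.mul_assoc, ← transpose_mul, hu, transpose_mul, ← Matrix.mul_assoc, hy']
  have d3 : ∀ u : Matrix n n K, ei * u = u * ei → x * uᵀ * eiᵀ = x * uᵀ := by
    intro u hu
    rw [Matrix.mul_assoc, ← transpose_mul, hu, transpose_mul, ← Matrix.mul_assoc, hx']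
  have d4 : xᵀ * zdᵀ * ejᵀ = xᵀ * zdᵀ := by
    rw [Matrix.mul_assoc, ← transpose_mul, czj, transpose_mul, ← Matrix.mul_assoc, hxt']
  have l1 : ∀ u : Matrix n n K, ej * (y * u) = y * u := by
    intro u; rw [← Matrix.mul_assoc, hy]
  have l2 : ∀ u : Matrix n n K, ej * (x * u) = x * u := by
    intro u; rw [← Matrix.mul_assoc, hx]
  have l3 : ∀ u : Matrix n n K, ei * (xᵀ * u) = xᵀ * u := by
    intro u; rw [← Matrix.mul_assoc, hxt]
  have eθy : (θd + (b + kk)) * y = θd * y + b * y := by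
    rw [Matrix.add_mul, Matrix.add_mul, z1, add_zero]
  have eyθ : y * (θd + (b + kk))ᵀ = y * θdᵀ + y * kkᵀ := by
    rw [transpose_add, transpose_add, Matrix.mul_add, Matrix.mul_add, z2, zero_add]
  have eyz : y * (zYd - (b + kk))ᵀ = y * zYdᵀ - y * kkᵀ := by
    rw [transpose_sub, transpose_add, Matrix.mul_sub, Matrix.mul_add, z2, zero_add]
  have exz : x * (zd - b')ᵀ = x * zdᵀ := by
    rw [transpose_sub, Matrix.mul_sub, z3, sub_zero]
  have extz : xᵀ * (zd - b')ᵀ = xᵀ * zdᵀ - xᵀ * b'ᵀ := by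
    rw [transpose_sub, Matrix.mul_sub]
  have eA : ej * (y' + (θd + (b + kk)) * y + y * (θd + (b + kk))ᵀ + y * (zYd - (b + kk))ᵀ +
      x * (zd - b')ᵀ) * eiᵀ = y' + θd * y + y * θdᵀ + y * zYdᵀ + x * zdᵀ := by
    rw [eθy, eyθ, eyz, exz]
    simp only [Matrix.mul_add, Matrix.mul_sub, z5, d1, hdy, l1, l2, add_zero]
    simp only [Matrix.add_mul, Matrix.sub_mul, z6, hdy', d1', d2 θd cθi, d2 zYd cYi, d3 zd czi,
      add_zero, sub_zero]
  have eA' : ei * (xᵀ * (zd - b')ᵀ) * ejᵀ = xᵀ * zdᵀ := by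
    rw [extz, Matrix.mul_sub, l3, l3, Matrix.sub_mul, z7, d4, sub_zero]
  rw [eA, eA', Matrix.sub_mul, Matrix.sub_mul, z4, Matrix.sub_mul x xᵀ, exz, extz, eθy, eyθ, eyz]
  abel

end alg

section sec

variable {arm : δ → Fin 3} {J : Matrix ι ι K} {B : Matrix δ δ K}
  {N W : Submodule K (Matrix ι δ K)} {F G : Matrix ι δ K} {p : Matrix ι n K}
  {al : Fin 3 → Matrix n n K} {tau : Matrix n n K}
  {β : LinearMap.BilinForm K M} {T : Module.End K M →ₗ[K] Module.End K M}
  {Ψ : Fin 3 → Module.End K M} {D : Module.End K M} {π : (n → K) →ₗ[K] M}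
  {e : m → Matrix n n K} {lam : m → K} {l : Fin 3 → ℕ} {TT : Set k}

/-- `A - off e A` is block diagonal -/
theorem diag_comm (h : Fr k arm J B N W F G p al tau β T Ψ D π e lam l TT) {A C : Matrix n n K}
    (hA : off e A = C) (q : m) : e q * (A - C) = (A - C) * e q := by
  have e1 : A - C = ∑ r, e r * A * e r := by
    rw [← hA]; unfold off; abel
  rw [e1, Matrix.mul_sum, Matrix.sum_mul]
  refine Finset.sum_congr rfl fun r _ => ?_
  by_cases hr : q = r
  · subst hr
    rw [← Matrix.mul_assoc, ← Matrix.mul_assoc, h.idem, Matrix.mul_assoc _ (e q) (e q), h.idem]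
  · have e2 : e q * (e r * A * e r) = (e q * e r) * (A * e r) := by
      simp only [Matrix.mul_assoc]
    rw [e2, h.orth q r hr, Matrix.zero_mul, Matrix.mul_assoc (e r * A), h.orth r q (Ne.symm hr),
      Matrix.mul_zero]

theorem left_of {a b x : Matrix n n K} (ha : a * a = a) (hx : a * x * b = x) : a * x = x := by
  rw [← hx, ← Matrix.mul_assoc, ← Matrix.mul_assoc, ha]

theorem right_of {a b x : Matrix n n K} (hb : b * b = b) (hx : a * x * b = x) : x * b = x := by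
  rw [← hx, Matrix.mul_assoc, hb]

theorem second [CharZero K] (h : Fr k arm J B N W F G p al tau β T Ψ D π e lam l TT)
    {i j : m} (hij : i ≠ j)
    (hod : ∀ i j : m, i ≠ j → OffP arm J N W F p T Ψ π e i j) :
    SecondP arm J B N W F p al T Ψ π e i j := by
  intro c c' hc hc' x y b kk b' kk' hx hy hx1 hx2 hy1
  obtain ⟨w1, z1, μ1, hw1, hn1, hv1, hm1, hZ1, ho1, hoμ1⟩ := hx1
  obtain ⟨w2, z2, μ2, hw2, hn2, hv2, hm2, hZ2, ho2, hoμ2⟩ := hx2
  obtain ⟨w, z, μ, hw, hn, hv, hm, hZ, ho, -⟩ := hy1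
  have hcf := cf h
  have hΨ : ∀ r, ZFr.Lifts π (al r) (Ψ r) := fun r u => (h.cr.op r u).symm
  obtain ⟨Y, hYd⟩ : ∃ Y : Fin 3 → Matrix n n K, Y = fun r => x r - (x r)ᵀ := ⟨_, rfl⟩
  have hYe : ∀ r, Y r = x r - (x r)ᵀ := fun r => by rw [hYd]
  have hYs : ∀ r, (Y r)ᵀ = -Y r := by
    intro r
    rw [hYe, transpose_sub, transpose_transpose, neg_sub]
  obtain ⟨C, hC⟩ : ∃ C : Matrix n n K, C = b + kk := ⟨_, rfl⟩
  obtain ⟨zY, hzY⟩ : ∃ zY : Matrix n n K, zY = z1 - z2 := ⟨_, rfl⟩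
  have hQY : Q3 arm J B N W F p Y (w1 - w2) zY := by
    refine ⟨W.sub_mem hw1 hw2, ?_, ?_, ?_⟩
    · rw [hYd, io_sub]
      have e1 : io arm J F p x - io arm J F p (fun r => (x r)ᵀ) - (w1 - w2) =
          (io arm J F p x - w1) - (io arm J F p (fun r => (x r)ᵀ) - w2) := by abel
      rw [e1]
      exact N.sub_mem hn1 hn2
    · rw [transpose_sub, Matrix.sub_mul, Matrix.sub_mul, hv1, hv2, hzY, Matrix.mul_sub]
    · intro r
      exact ⟨μ1 r - μ2 r, by
        rw [Matrix.sub_mul, Matrix.sub_mul, Matrix.sub_mul, hm1, hm2, Matrix.mul_sub]⟩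
  have hQy : Q3 arm J B N W F p y w z := ⟨hw, hn, hv, fun r => ⟨μ r, hm r⟩⟩
  obtain ⟨ρ, hρ⟩ := h.ctx.perf
  obtain ⟨m0, hm0⟩ := h.wk
  obtain ⟨d, θ0, hd, hdF, hθ0, -⟩ := second_all h.ctx.data h.vt h.ctx.hal hρ hm0 hYs hQY
  -- the relation for the connection
  have hU : ∀ s, p * nab d θ0 (al s * ((1 : Matrix n n K) * 1)) =
      p * (μ1 s - μ2 s + al s * zY) := by
    intro s
    have h1 := congrArg (fun A : Matrix ι n K => A.map d) (h.ctx.hal s)
    simp only [map_mul_der] at h1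
    have e1 : (Phi arm J B F s).map d * p =
        (w1 - w2) * E K arm s * B * (Fᵀ * J * p) +
          F * E K arm s * B * ((w1 - w2)ᵀ * J * p) := by
      unfold Phi FO.M
      rw [map_mul_der, map_mul_der, map_mul_der, map_mul_der, h.ctx.data.J_const,
        h.ctx.data.B_const, E_map_der, map_transpose_der, hdF]
      simp only [Matrix.mul_zero, Matrix.add_mul, add_zero, Matrix.mul_assoc]
    have e2 : (w1 - w2) * E K arm s * B * (Fᵀ * J * p) = p * (μ1 s - μ2 s) := by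
      rw [Matrix.sub_mul, Matrix.sub_mul, Matrix.sub_mul, hm1, hm2, Matrix.mul_sub]
    have e3 : F * E K arm s * B * ((w1 - w2)ᵀ * J * p) = p * (al s * zY) := by
      have e4 : (w1 - w2)ᵀ * J * p = Fᵀ * J * p * zY := hQY.val
      rw [e4, ← Matrix.mul_assoc p, ← h.ctx.hal s]
      unfold Phi FO.M
      simp only [Matrix.mul_assoc]
    rw [e1, e2, e3, hθ0, ← Matrix.mul_assoc (Phi arm J B F s), h.ctx.hal s] at h1
    unfold nab
    rw [Matrix.mul_one, Matrix.mul_one, Matrix.mul_sub, Matrix.mul_add, Matrix.mul_add]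
    have e5 : p * (al s).map d = p * (μ1 s - μ2 s) + p * (al s * zY) + p * al s * θ0 -
        p * θ0 * al s := by rw [h1]; abel
    rw [e5]
    simp only [Matrix.mul_assoc]
    abel
  have hob : off e b = b := off_of h.orth (Ne.symm hij) hx.bb
  have hok : off e kk = kk := off_of h.orth hij hx.bk
  have hoC : off e C = C := by rw [hC, off_add, hob, hok]
  have hozY : off e zY = -C := by
    rw [hzY, off_sub, ho1, ho2, hC]; abel
  obtain ⟨θ, hθ, hoθ⟩ := RD.pick h (t := (0 : k)) (Or.inr rfl) (kap := (1 : Matrix n n K))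
    (by rw [map_zero, zero_smul, add_zero]) hθ0
    (U := fun s => μ1 s - μ2 s + al s * zY) hU (C := C) hoC
    (fun u => by rw [hC, Matrix.add_mulVec, map_add, hx.rb, hx.rk, add_zero])
    (fun s => by
      rw [off_add, off_sub, hoμ1, hoμ2, off_mul_left (fun q => h.eal q s), hozY, hC,
        Matrix.mul_one, Matrix.mul_one]
      simp only [Matrix.mul_neg, Matrix.mul_add, Matrix.add_mul]
      abel)
  have hQ2 := FrmB.second h.ctx.data hQY hd hdF hθ hQy
  have hZY : zY ∈ ZFr.ZF T π Ψ := by rw [hzY]; exact Submodule.sub_mem _ hZ1 hZ2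
  have hZn := ZFr.second h.ctx.data hcf h.ctx.hal hΨ hQY.val hdF hθ hZY hZ
  obtain ⟨γ, hγ⟩ : ∃ γ : Matrix n n K, γ = pᵀ * J * p := ⟨_, rfl⟩
  obtain ⟨Y2, hY2⟩ : ∃ Y2 : Fin 3 → Matrix n n K, Y2 = (fun r => (y r).map d + θ * y r +
    y r * θᵀ + y r * zYᵀ - Y r * (pᵀ * J * p) * y r + Y r * zᵀ) := ⟨_, rfl⟩
  rw [← hY2] at hQ2
  have hmem : Y2 ∈ RDEnd.Rel arm J N W F p π T 0 Ψ := by
    obtain ⟨zb, hzb, hzb'⟩ := hZn
    exact RDEnd.mem_Rel_of_Q3 hQ2 hzb hzb'
  -- the off-diagonal blocks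
  have hg : (pᵀ * J * p).map d = θᵀ * (pᵀ * J * p) + (pᵀ * J * p) * θ :=
    ZFr.g_der h.ctx.data hθ
  have hfx : ∀ s, Fil (pᵀ * J * p) π Ψ s (x s) := fun s =>
    RDfil.fil_of_arm hcf (hΨ s) (gam_al h s) (c := c) (by
      have := hx.arm s
      rwa [Matrix.smul_mul] at this)
  have hfy : ∀ s, Fil (pᵀ * J * p) π Ψ s (y s) := fun s =>
    RDfil.fil_of_arm hcf (hΨ s) (gam_al h s) (c := c') (by
      have := hy.arm s
      rwa [Matrix.smul_mul] at this)
  have hfxt : ∀ s, Fil (pᵀ * J * p) π Ψ s (x s)ᵀ := fun s =>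
    RDfil.fil_of_arm_tr hcf h.ctx.gam_symm (hΨ s) (gam_al h s) hc (by
      have := hx.arm s
      rwa [Matrix.smul_mul] at this)
  have hge : ∀ q, (pᵀ * J * p) * e q = (e q)ᵀ * (pᵀ * J * p) := fun q => (h.eg q).symm
  obtain ⟨A, hA⟩ : ∃ A : Fin 3 → Matrix n n K, ∀ r, A r = e j * ((y r).map d + θ * y r +
    y r * θᵀ + y r * zYᵀ + x r * zᵀ) * (e i)ᵀ := ⟨_, fun _ => rfl⟩
  obtain ⟨A', hA'⟩ : ∃ A' : Fin 3 → Matrix n n K, ∀ r, A' r = e i * ((x r)ᵀ * zᵀ) * (e j)ᵀ :=
    ⟨_, fun _ => rfl⟩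
  have hid : ∀ q, (e q)ᵀ * (e q)ᵀ = (e q)ᵀ := fun q => by rw [← transpose_mul, h.idem]
  have hAf : ∀ s, Fil (pᵀ * J * p) π Ψ s (A s) := by
    intro s
    rw [hA]
    refine RDfil.fil_blk hcf (hΨ s) (hge j) (hge i) (h.eal j s) (h.eal i s) ?_
    refine RDfil.Fil_add (RDfil.Fil_add ?_ ?_) ?_
    · exact RDfil.fil_nab hcf hg (hΨ s)
        (ZFr.al_der h.ctx.data h.ctx.hal hQY.val hdF hθ s) hZY (hfy s)
    · exact RDfil.fil_mulz hcf (hfy s) hZY
    · exact RDfil.fil_mulz hcf (hfx s) hZ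
  have hAf' : ∀ s, Fil (pᵀ * J * p) π Ψ s (A' s) := by
    intro s
    rw [hA']
    refine RDfil.fil_blk hcf (hΨ s) (hge i) (hge j) (h.eal i s) (h.eal j s) ?_
    exact RDfil.fil_mulz hcf (hfxt s) hZ
  have hAb : ∀ s, e j * A s * (e i)ᵀ = A s := by
    intro s
    rw [hA]
    have : ∀ u : Matrix n n K, e j * (e j * u * (e i)ᵀ) * (e i)ᵀ =
        (e j * e j) * u * ((e i)ᵀ * (e i)ᵀ) := by
      intro u; simp only [Matrix.mul_assoc]
    rw [this, h.idem, hid]
  have hAb' : ∀ s, e i * A' s * (e j)ᵀ = A' s := by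
    intro s
    rw [hA']
    have : ∀ u : Matrix n n K, e i * (e i * u * (e j)ᵀ) * (e j)ᵀ =
        (e i * e i) * u * ((e j)ᵀ * (e j)ᵀ) := by
      intro u; simp only [Matrix.mul_assoc]
    rw [this, h.idem, hid]
  have hAm : A ∈ RDEnd.Rel arm J N W F p π T 0 Ψ := by
    rw [← Finset.univ_sum_single A]
    exact Submodule.sum_mem _ fun s _ => hod i j hij s (A s) (hAb s) (hAf s)
  have hAm' : A' ∈ RDEnd.Rel arm J N W F p π T 0 Ψ := by
    rw [← Finset.univ_sum_single A']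
    exact Submodule.sum_mem _ fun s _ => hod j i (Ne.symm hij) s (A' s) (hAb' s) (hAf' s)
  have hmain : (fun r => b * y r + (x r)ᵀ * (pᵀ * J * p) * y r + (x r)ᵀ * b'ᵀ) =
      Y2 - A + A' := by
    funext r
    rw [Pi.add_apply, Pi.sub_apply, hY2, hA, hA']
    beta_reduce
    rw [hYe]
    have cθ := diag_comm h hoθ
    have cz := diag_comm h ho
    have cY : ∀ q, e q * (zY + C) = (zY + C) * e q := by
      intro q
      have := diag_comm h hozY q
      rwa [sub_neg_eq_add] at this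
    have hb1 := hx.bb
    have hk1 := hx.bk
    have hb2 := hy.bb
    have hx0 := hx.bx r
    have hy0 := hy.bx r
    have hdy : e j * (y r).map d * (e i)ᵀ = (y r).map d := by
      have h1 := congrArg (fun A : Matrix n n K => A.map d) hy0
      simp only [map_mul_der, map_transpose_der, h.eC, Matrix.zero_mul, zero_add,
        transpose_zero, Matrix.mul_zero, add_zero] at h1
      exact h1
    have key := blocks (ei := e i) (ej := e j) (h.orth i j hij) (h.orth j i (Ne.symm hij))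
      (g := pᵀ * J * p) (θd := θ - C) (zYd := zY + C) (zd := z - -b') (b := b) (kk := kk)
      (b' := b') (x := x r) (y := y r) (y' := (y r).map d)
      (hge i) (cθ i) (cθ j) (cY i) (cz i) (cz j)
      (left_of (h.idem j) hx0) (right_of (hid i) hx0) (left_of (h.idem j) hy0)
      (right_of (hid i) hy0) (left_of (h.idem j) hdy) (right_of (hid i) hdy)
      (left_of (h.idem i) hb1) (right_of (h.idem j) hb1) (left_of (h.idem j) hk1)
      (right_of (h.idem i) hk1) (left_of (h.idem i) hb2) (right_of (h.idem j) hb2)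
    have r1 : θ - C + (b + kk) = θ := by rw [hC]; abel
    have r2 : zY + C - (b + kk) = zY := by rw [hC]; abel
    have r3 : z - -b' - b' = z := by abel
    rw [r1, r2, r3] at key
    rw [key]
    abel
  rw [hmain]
  exact Submodule.add_mem _ (Submodule.sub_mem _ hmem hAm) hAm'

end sec

end Crest.Agent.R172.RD296
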