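import Crest.Agent.R172.RDP
import Crest.Agent.R172.RDfo
import Crest.Agent.R172.RDpick

/-!
Row 172 (S0260), `RD`: SECOND (`SecondP`), the connection chosen by `RDpick`
(at the parameter `t = 0`).
-/

set_option autoImplicit false
set_option linter.unusedSectionVars false

namespace Crest.Agent.R172.RD.H489

open Matrix Module TensorProduct Crest.Agent.R172.FO Crest.Agent.R172.FrmB
open Crest.Agent.R172.Core (NS Tame)
open Crest.Agent.R172.PL (Wk)
open Crest.Agent.R172.ZFr (Lifts CF ZF Adj)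

variable {ι : Type*} [Fintype ι] [DecidableEq ι] {δ : Type*} [Fintype δ] [DecidableEq δ]
variable {n : Type*} [Fintype n] [DecidableEq n]
variable {k K : Type*} [Field k] [Field K] [Algebra k K]
variable {M : Type*} [AddCommGroup M] [Module K M]
variable {m : Type*} [Fintype m] [DecidableEq m]
variable {arm : δ → Fin 3} {J : Matrix ι ι K} {B : Matrix δ δ K}
  {N W : Submodule K (Matrix ι δ K)} {F G : Matrix ι δ K} {p : Matrix ι n K}
  {al : Fin 3 → Matrix n n K} {tau : Matrix n n K}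
  {β : LinearMap.BilinForm K M} {T : Module.End K M →ₗ[K] Module.End K M}
  {Ψ : Fin 3 → Module.End K M} {D : Module.End K M} {π : (n → K) →ₗ[K] M}
  {e : m → Matrix n n K} {lam : m → K} {l : Fin 3 → ℕ} {TT : Set k}

/-- the core of a frame in the format of `ZFr` -/
theorem cf_of_cr (h : RDEnd.Cr J p al β π Ψ T) : CF β T π (pᵀ * J * p) where
  adj := ⟨h.ns.symm, fun x hx => h.ns.nd x hx, h.adj⟩
  surj := h.onto
  form := h.form

theorem lifts_al (h : RDEnd.Cr J p al β π Ψ T) (r : Fin 3) : Lifts π (al r) (Ψ r) :=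
  fun y => (h.op r y).symm

theorem T_Ψ (h : RDEnd.Cr J p al β π Ψ T) (r : Fin 3) : T (Ψ r) = Ψ r :=
  (cf_of_cr h).adj.eq_of (h.sa r)

/-- `g α = αᵀ g` -/
theorem g_al (h : RDEnd.Cr J p al β π Ψ T) (r : Fin 3) :
    (pᵀ * J * p) * al r = (al r)ᵀ * (pᵀ * J * p) := by
  apply Matrix.ext_of_mulVec_single
  intro j
  rw [← sub_eq_zero]
  apply dotProduct_eq_zero
  intro w
  have e1 : ((pᵀ * J * p) * al r) *ᵥ Pi.single j 1 = (pᵀ * J * p) *ᵥ (al r *ᵥ Pi.single j 1) :=
    (mulVec_mulVec _ _ _).symm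
  have e2 : ((al r)ᵀ * (pᵀ * J * p)) *ᵥ Pi.single j 1 =
      (al r)ᵀ *ᵥ ((pᵀ * J * p) *ᵥ Pi.single j 1) := (mulVec_mulVec _ _ _).symm
  rw [dotProduct_comm, dotProduct_sub, sub_eq_zero, e1, e2, ← h.form, ← h.op,
    ← h.sa, h.op, h.form, Matrix.dotProduct_mulVec w (al r)ᵀ, Matrix.vecMul_transpose]

/-- matrices with values in the radical are killed by `g` -/
theorem g_rad (h : RDEnd.Cr J p al β π Ψ T) {C : Matrix n n K} (hC : ∀ u, π (C *ᵥ u) = 0) :
    (pᵀ * J * p) * C = 0 := by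
  apply Matrix.ext_of_mulVec_single
  intro j
  rw [Matrix.zero_mulVec, ← mulVec_mulVec]
  exact ((cf_of_cr h).ker _).1 (hC _)

theorem rad_g (hJ : Jᵀ = J) (h : RDEnd.Cr J p al β π Ψ T) {C : Matrix n n K}
    (hC : ∀ u, π (C *ᵥ u) = 0) : Cᵀ * (pᵀ * J * p) = 0 := by
  have h1 := congrArg transpose (g_rad h hC)
  simpa only [transpose_mul, transpose_transpose, hJ, transpose_zero, Matrix.mul_assoc] using h1

section blocks

variable (he : ∀ i, e i * e i = e i) (ho : ∀ i j, i ≠ j → e i * e j = 0) (h1 : ∑ i, e i = 1)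

include he ho

theorem dg_comm (A : Matrix n n K) (i : m) :
    e i * (∑ l, e l * A * e l) = (∑ l, e l * A * e l) * e i := by
  rw [Matrix.mul_sum, Matrix.sum_mul, Finset.sum_eq_single i, Finset.sum_eq_single i]
  · rw [← Matrix.mul_assoc, ← Matrix.mul_assoc, he, Matrix.mul_assoc (e i * A), he]
  · intro l _ hl
    rw [Matrix.mul_assoc, ho l i hl, Matrix.mul_zero]
  · intro hi; exact absurd (Finset.mem_univ _) hi
  · intro l _ hl
    rw [← Matrix.mul_assoc, ← Matrix.mul_assoc, ho i l (Ne.symm hl), Matrix.zero_mul,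
      Matrix.zero_mul]
  · intro hi; exact absurd (Finset.mem_univ _) hi

theorem off_blk {A : Matrix n n K} {i j : m} (hij : i ≠ j) (hA : e i * A * e j = A) :
    off e A = A := by
  unfold off
  rw [sub_eq_self]
  refine Finset.sum_eq_zero fun l _ => ?_
  rw [← hA]
  by_cases hl : l = i
  · subst hl
    have : e l * (e l * A * e j) * e l = e l * (e l * A) * (e j * e l) := by
      simp only [Matrix.mul_assoc]
    rw [this, ho j l (Ne.symm hij), Matrix.mul_zero]
  · have : e l * (e i * A * e j) * e l = (e l * e i) * (A * (e j * e l)) := by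
      simp only [Matrix.mul_assoc]
    rw [this, ho l i hl, Matrix.zero_mul]

end blocks

theorem off_add (A A' : Matrix n n K) : off e (A + A') = off e A + off e A' := by
  unfold off
  simp only [Matrix.mul_add, Matrix.add_mul, Finset.sum_add_distrib]
  abel

theorem off_sub (A A' : Matrix n n K) : off e (A - A') = off e A - off e A' := by
  unfold off
  simp only [Matrix.mul_sub, Matrix.sub_mul, Finset.sum_sub_distrib]
  abel

theorem off_mul {a : Matrix n n K} (ha : ∀ i, e i * a = a * e i) (A : Matrix n n K) :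
    off e (a * A) = a * off e A := by
  unfold off
  rw [Matrix.mul_sub, Matrix.mul_sum]
  congr 1
  refine Finset.sum_congr rfl fun l _ => ?_
  rw [← Matrix.mul_assoc, ha]
  simp only [Matrix.mul_assoc]

/-- radical valued matrices are filtered -/
theorem FO_rad {s : Fin 3} {Z : Matrix n n K} (hZ : ∀ u, π (Z *ᵥ u) = 0) : RDfo.FO π Ψ s Z :=
  ⟨0, fun y => by rw [hZ, LinearMap.zero_apply], fun a v => ⟨0, by simp⟩⟩

theorem blk_r {i j : m} {Z : Matrix n n K} (cZ : e i * Z = Z * e i) {y : Matrix n n K}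
    (hy : e j * y * (e i)ᵀ = y) : e j * (y * Zᵀ) * (e i)ᵀ = y * Zᵀ := by
  calc e j * (y * Zᵀ) * (e i)ᵀ = e j * y * (e i * Z)ᵀ := by
        rw [transpose_mul]; simp only [Matrix.mul_assoc]
    _ = e j * y * (e i)ᵀ * Zᵀ := by rw [cZ, transpose_mul]; simp only [Matrix.mul_assoc]
    _ = y * Zᵀ := by rw [hy]

theorem blk_l {i j : m} {Z : Matrix n n K} (cZ : e j * Z = Z * e j) {y : Matrix n n K}
    (hy : e j * y * (e i)ᵀ = y) : e j * (Z * y) * (e i)ᵀ = Z * y := by
  calc e j * (Z * y) * (e i)ᵀ = e j * Z * (y * (e i)ᵀ) := by simp only [Matrix.mul_assoc]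
    _ = Z * (e j * y * (e i)ᵀ) := by rw [cZ]; simp only [Matrix.mul_assoc]
    _ = Z * y := by rw [hy]

theorem blk_d {i j : m} {d : Derivation k K K} (hC : ∀ i, (e i).map d = 0) {y : Matrix n n K}
    (hy : e j * y * (e i)ᵀ = y) : e j * y.map d * (e i)ᵀ = y.map d := by
  have h1 := congrArg (fun A : Matrix n n K => A.map d) hy
  simp only [map_mul_der, map_transpose_der, hC, transpose_zero, Matrix.mul_zero, add_zero,
    Matrix.zero_mul, zero_add] at h1
  exact h1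

theorem gram_id {g y x b kk b' θd zYd zd : Matrix n n K} {d : Derivation k K K}
    (hg : g.map d = (θd + b + kk)ᵀ * g + g * (θd + b + kk)) (hb : bᵀ * g = 0)
    (hk : kkᵀ * g = 0) (hb' : b'ᵀ * g = 0) (hky : kk * y = 0) :
    (y.map d + θd * y + y * θdᵀ + y * zYdᵀ + x * zdᵀ) * g =
      ((y * g).map d + (θd + b + kk) * (y * g) - (y * g) * (θd + b + kk)) - b * (y * g) +
        y * (zYd - b - kk)ᵀ * g + x * (zd - b')ᵀ * g := by
  have hky' : kk * (y * g) = 0 := by rw [← Matrix.mul_assoc, hky, Matrix.zero_mul]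
  rw [map_mul_der, hg]
  simp only [transpose_add, transpose_sub, Matrix.add_mul, Matrix.mul_add, Matrix.sub_mul,
      Matrix.mul_sub, Matrix.mul_assoc, hb, hk, hb', hky', Matrix.mul_zero, add_zero, sub_zero]
  abel

theorem arm_of_dec {g : Matrix n n K} {i j : m} {c : K} {x : Fin 3 → Matrix n n K}
    {b kk : Matrix n n K}
    (hx : Dec g π e i j (fun r => al r) (fun r => c • al r) x b kk) (r : Fin 3) :
    g * (x r * (al r)ᵀ - c • (al r * x r)) * g = 0 := by
  have h1 := hx.arm r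
  simp only [Matrix.smul_mul] at h1
  exact h1

/-- **SECOND**, the algebra after the choice of the connection -/
theorem second_core (h : Fr k arm J B N W F G p al tau β T Ψ D π e lam l TT)
    {i j : m} (hij : i ≠ j)
    (hod : ∀ i j : m, i ≠ j → OffP arm J N W F p T Ψ π e i j)
    {c c' : K} (hc : c ≠ 0) (hc' : c' ≠ 0) {x y : Fin 3 → Matrix n n K}
    {b kk b' kk' : Matrix n n K}
    (hx : Dec (pᵀ * J * p) π e i j (fun r => al r) (fun r => c • al r) x b kk)
    (hy : Dec (pᵀ * J * p) π e i j (fun r => al r) (fun r => c' • al r) y b' kk')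
    {wY : Matrix ι δ K} {zY : Matrix n n K}
    (hQ : Q3 arm J B N W F p (fun r => x r - (x r)ᵀ) wY zY) (hzY : zY ∈ ZF T π Ψ)
    (hoY : off e zY = -b - kk)
    {w : Matrix ι δ K} {z : Matrix n n K} (hQy : Q3 arm J B N W F p y w z) (hz : z ∈ ZF T π Ψ)
    (hoz : off e z = -b')
    {d : Derivation k K K} (hd : Realises arm N W (fun r => p * (x r - (x r)ᵀ) * pᵀ * J) 0 d)
    (hdF : F.map d = wY) {θ : Matrix n n K} (hθ : p.map d = p * θ) (hoθ : off e θ = b + kk) :
    (fun r => b * y r + (x r)ᵀ * (pᵀ * J * p) * y r + (x r)ᵀ * b'ᵀ) ∈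
      RDEnd.Rel arm J N W F p π T 0 Ψ := by
  have hD := h.ctx.data
  have hJ := hD.J_symm
  have hCF := cf_of_cr h.cr
  have hΨ := lifts_al h.cr
  have hgd := ZFr.g_der (p := p) hD hθ
  have hgt : (pᵀ * J * p)ᵀ = pᵀ * J * p := by
    simp only [transpose_mul, transpose_transpose, hJ, Matrix.mul_assoc]
  have hald := ZFr.al_der hD h.ctx.hal hQ.val hdF hθ
  have hQ2 := FrmB.second hD hQ hd hdF hθ hQy
  have hz2 := ZFr.second hD hCF h.ctx.hal hΨ hQ.val hdF hθ hzY hz
  obtain ⟨zb2, hl2, hZ2⟩ := hz2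
  have hrel := RDEnd.mem_Rel_of_Q3 (T := T) (D := 0) (Ψ := Ψ) hQ2 hl2 hZ2
  have hgb := rad_g hJ h.cr hx.rb
  have hgk := rad_g hJ h.cr hx.rk
  have hgb' := rad_g hJ h.cr hy.rb
  -- diagonal parts
  obtain ⟨θd, hθd⟩ : ∃ θd, θd = ∑ l, e l * θ * e l := ⟨_, rfl⟩
  obtain ⟨zYd, hzYd⟩ : ∃ zYd, zYd = ∑ l, e l * zY * e l := ⟨_, rfl⟩
  obtain ⟨zd, hzd⟩ : ∃ zd, zd = ∑ l, e l * z * e l := ⟨_, rfl⟩
  have cθ : ∀ i, e i * θd = θd * e i := by
    intro i; rw [hθd]; exact dg_comm h.idem h.orth θ i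
  have cY : ∀ i, e i * zYd = zYd * e i := by
    intro i; rw [hzYd]; exact dg_comm h.idem h.orth zY i
  have cz : ∀ i, e i * zd = zd * e i := by
    intro i; rw [hzd]; exact dg_comm h.idem h.orth z i
  have eθ : θ = θd + b + kk := by
    have h2 := hoθ
    unfold off at h2
    rw [← hθd, sub_eq_iff_eq_add] at h2
    rw [h2]; abel
  have eY : zY = zYd - b - kk := by
    have h2 := hoY
    unfold off at h2
    rw [← hzYd, sub_eq_iff_eq_add] at h2
    rw [h2]; abel
  have ez : z = zd - b' := by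
    have h2 := hoz
    unfold off at h2
    rw [← hzd, sub_eq_iff_eq_add] at h2
    rw [h2]; abel
  -- vanishing products
  have o1 := h.orth i j hij
  have o2 := h.orth j i (Ne.symm hij)
  have oT1 : (e i)ᵀ * (e j)ᵀ = 0 := by rw [← transpose_mul, o2, transpose_zero]
  have oT2 : (e j)ᵀ * (e i)ᵀ = 0 := by rw [← transpose_mul, o1, transpose_zero]
  have v1 : ∀ r, kk * y r = 0 := by
    intro r
    rw [← hx.bk, ← hy.bx r]
    calc e j * kk * e i * (e j * y r * (e i)ᵀ) = e j * kk * (e i * e j) * (y r * (e i)ᵀ) := by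
          simp only [Matrix.mul_assoc]
      _ = 0 := by rw [o1, Matrix.mul_zero, Matrix.zero_mul]
  have v2 : ∀ r, y r * bᵀ = 0 := by
    intro r
    rw [← hx.bb, ← hy.bx r]
    simp only [transpose_mul]
    calc e j * y r * (e i)ᵀ * ((e j)ᵀ * (bᵀ * (e i)ᵀ)) =
          e j * y r * ((e i)ᵀ * (e j)ᵀ) * (bᵀ * (e i)ᵀ) := by simp only [Matrix.mul_assoc]
      _ = 0 := by rw [oT1, Matrix.mul_zero, Matrix.zero_mul]
  have v3 : ∀ r, x r * b'ᵀ = 0 := by
    intro r
    rw [← hy.bb, ← hx.bx r]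
    simp only [transpose_mul]
    calc e j * x r * (e i)ᵀ * ((e j)ᵀ * (b'ᵀ * (e i)ᵀ)) =
          e j * x r * ((e i)ᵀ * (e j)ᵀ) * (b'ᵀ * (e i)ᵀ) := by simp only [Matrix.mul_assoc]
      _ = 0 := by rw [oT1, Matrix.mul_zero, Matrix.zero_mul]
  have v4 : ∀ r, x r * (pᵀ * J * p) * y r = 0 := by
    intro r
    rw [← hy.bx r, ← hx.bx r]
    calc e j * x r * (e i)ᵀ * (pᵀ * J * p) * (e j * y r * (e i)ᵀ) =
          e j * x r * ((e i)ᵀ * (pᵀ * J * p)) * (e j * y r * (e i)ᵀ) := by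
            simp only [Matrix.mul_assoc]
      _ = e j * x r * (pᵀ * J * p) * (e i * e j) * (y r * (e i)ᵀ) := by
          rw [h.eg]; simp only [Matrix.mul_assoc]
      _ = 0 := by rw [o1, Matrix.mul_zero, Matrix.zero_mul]
  -- the off-diagonal parts
  obtain ⟨A, hA⟩ : ∃ A : Fin 3 → Matrix n n K, A = fun r =>
    (y r).map d + θd * y r + y r * θdᵀ + y r * zYdᵀ + x r * zdᵀ := ⟨_, rfl⟩
  have key : ∀ r, (y r).map d + θ * y r + y r * θᵀ + y r * zYᵀ -
      (x r - (x r)ᵀ) * (pᵀ * J * p) * y r + (x r - (x r)ᵀ) * zᵀ =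
      (b * y r + (x r)ᵀ * (pᵀ * J * p) * y r + (x r)ᵀ * b'ᵀ) + A r - (x r)ᵀ * zdᵀ := by
    intro r
    rw [eθ, eY, ez, hA]
    simp only [transpose_add, transpose_sub, Matrix.add_mul, Matrix.mul_add, Matrix.sub_mul,
      Matrix.mul_sub, v1, v2, v3, v4]
    abel
  have blkA : ∀ r, e j * A r * (e i)ᵀ = A r := by
    intro r
    rw [hA]
    simp only [Matrix.mul_add, Matrix.add_mul]
    rw [blk_d (fun i => h.eC i d) (hy.bx r), blk_l (cθ j) (hy.bx r), blk_r (cθ i) (hy.bx r),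
      blk_r (cY i) (hy.bx r), blk_r (cz i) (hx.bx r)]
  have filA : ∀ r, Fil (pᵀ * J * p) π Ψ r (A r) := by
    intro r
    have hgd' := hgd
    rw [eθ] at hgd'
    have e1 := gram_id (x := x r) (zYd := zYd) (zd := zd) hgd' hgb hgk hgb' (v1 r)
    have hAr : A r = (y r).map d + θd * y r + y r * θdᵀ + y r * zYdᵀ + x r * zdᵀ := by rw [hA]
    rw [RDfo.fil_iff, hAr, e1, ← eθ, ← eY, ← ez]
    have ay := arm_of_dec hy r
    have ax := arm_of_dec hx r
    have fy := (RDfo.FO.arm hCF hgt (T_Ψ h.cr r) (hΨ r) (g_al h.cr r) hc' ay).1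
    have fx := (RDfo.FO.arm hCF hgt (T_Ψ h.cr r) (hΨ r) (g_al h.cr r) hc ax).1
    refine (((RDfo.FO.nab hCF (T_Ψ h.cr r) hgd hΨ hald hzY fy).sub (FO_rad ?_)).add
      (RDfo.FO.adj_mul hCF (T_Ψ h.cr r) fy hzY)).add
      (RDfo.FO.adj_mul hCF (T_Ψ h.cr r) fx hz)
    intro u
    rw [← mulVec_mulVec]
    exact hx.rb _
  have blkX : ∀ r, e i * ((x r)ᵀ * zdᵀ) * (e j)ᵀ = (x r)ᵀ * zdᵀ := by
    intro r
    refine blk_r (cz j) ?_
    have h2 := congrArg transpose (hx.bx r)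
    simpa only [transpose_mul, transpose_transpose, Matrix.mul_assoc] using h2
  have filX : ∀ r, Fil (pᵀ * J * p) π Ψ r ((x r)ᵀ * zdᵀ) := by
    intro r
    have e1 : (x r)ᵀ * zdᵀ * (pᵀ * J * p) = (x r)ᵀ * zᵀ * (pᵀ * J * p) := by
      rw [ez, transpose_sub, Matrix.mul_sub, Matrix.sub_mul, Matrix.mul_assoc _ b'ᵀ, hgb',
        Matrix.mul_zero, sub_zero]
    have ax := arm_of_dec hx r
    have fx := (RDfo.FO.arm hCF hgt (T_Ψ h.cr r) (hΨ r) (g_al h.cr r) hc ax).2
    rw [RDfo.fil_iff, e1]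
    exact RDfo.FO.adj_mul hCF (T_Ψ h.cr r) fx hz
  have mA : A ∈ RDEnd.Rel arm J N W F p π T 0 Ψ := by
    rw [← Finset.univ_sum_single A]
    exact Submodule.sum_mem _ fun r _ => hod i j hij r (A r) (blkA r) (filA r)
  have mX : (fun r => (x r)ᵀ * zdᵀ) ∈ RDEnd.Rel arm J N W F p π T 0 Ψ := by
    rw [← Finset.univ_sum_single (fun r => (x r)ᵀ * zdᵀ)]
    exact Submodule.sum_mem _ fun r _ => hod j i (Ne.symm hij) r _ (blkX r) (filX r)
  have hfin := Submodule.add_mem _ (Submodule.sub_mem _ hrel mA) mX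
  have e9 : (fun r => b * y r + (x r)ᵀ * (pᵀ * J * p) * y r + (x r)ᵀ * b'ᵀ) =
      (fun r => (y r).map d + θ * y r + y r * θᵀ + y r * zYᵀ -
        (x r - (x r)ᵀ) * (pᵀ * J * p) * y r + (x r - (x r)ᵀ) * zᵀ) - A +
        (fun r => (x r)ᵀ * zdᵀ) := by
    funext r
    simp only [Pi.add_apply, Pi.sub_apply]
    rw [key]
    abel
  rw [e9]
  exact hfin

/-- the left action of the derivative along `Y` -/
theorem p_nab (h : Fr k arm J B N W F G p al tau β T Ψ D π e lam l TT)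
    {wY : Matrix ι δ K} {zY : Matrix n n K} {μY : Fin 3 → Matrix n n K}
    (hv : wYᵀ * J * p = Fᵀ * J * p * zY)
    (hm : ∀ r, wY * E K arm r * B * (Fᵀ * J * p) = p * μY r)
    {d : Derivation k K K} (hdF : F.map d = wY) {θ : Matrix n n K} (hθ : p.map d = p * θ)
    (s : Fin 3) : p * FC.nab d θ (al s) = p * (μY s + al s * zY) := by
  have hD := h.ctx.data
  have e1 : (Phi arm J B F s).map d * p =
      wY * E K arm s * B * (Fᵀ * J * p) + F * E K arm s * B * (wYᵀ * J * p) := by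
    unfold Phi FO.M
    rw [map_mul_der, map_mul_der, map_mul_der, map_mul_der, hD.J_const, hD.B_const, E_map_der,
      map_transpose_der, hdF]
    simp only [Matrix.mul_zero, Matrix.add_mul, add_zero, Matrix.mul_assoc]
  have e2 : F * E K arm s * B * (Fᵀ * J * p * zY) = p * (al s * zY) := by
    have h1 := h.ctx.hal s
    unfold Phi FO.M at h1
    have h2 := congrArg (fun A => A * zY) h1
    simpa only [Matrix.mul_assoc] using h2
  have e3 := congrArg (fun A : Matrix ι n K => A.map d) (h.ctx.hal s)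
  simp only [map_mul_der, hθ] at e3
  have e4 : Phi arm J B F s * (p * θ) = p * (al s * θ) := by
    rw [← Matrix.mul_assoc, h.ctx.hal, Matrix.mul_assoc]
  rw [e1, hm, hv, e2, e4] at e3
  unfold FC.nab
  rw [Matrix.mul_sub, Matrix.mul_add, Matrix.mul_add, sub_eq_iff_eq_add, e3, Matrix.mul_assoc]
  abel

/-- **RD3**: SECOND -/
theorem second [CharZero K] (h : Fr k arm J B N W F G p al tau β T Ψ D π e lam l TT)
    {i j : m} (hij : i ≠ j) (hod : ∀ i j : m, i ≠ j → OffP arm J N W F p T Ψ π e i j) :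
    SecondP arm J B N W F p al T Ψ π e i j := by
  intro c c' hc hc' x y b kk b' kk' hx hy hx1 hx2 hy1
  obtain ⟨w1, z1, μ1, hw1, hn1, hv1, hm1, hz1, ho1, hoμ1⟩ := hx1
  obtain ⟨w2, z2, μ2, hw2, hn2, hv2, hm2, hz2, ho2, hoμ2⟩ := hx2
  obtain ⟨w, z, μ, hw, hn, hv, hm, hz, ho, hoμ⟩ := hy1
  have hmY : ∀ r, (w1 - w2) * E K arm r * B * (Fᵀ * J * p) = p * (μ1 r - μ2 r) := by
    intro r
    rw [Matrix.sub_mul, Matrix.sub_mul, Matrix.sub_mul, hm1, hm2, Matrix.mul_sub]
  have hQ : Q3 arm J B N W F p (fun r => x r - (x r)ᵀ) (w1 - w2) (z1 - z2) := by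
    refine ⟨W.sub_mem hw1 hw2, ?_, ?_, fun r => ⟨_, hmY r⟩⟩
    · rw [io_sub]
      have h1 := N.sub_mem hn1 hn2
      have e1 : io arm J F p x - io arm J F p (fun r => (x r)ᵀ) - (w1 - w2) =
          (io arm J F p x - w1) - (io arm J F p (fun r => (x r)ᵀ) - w2) := by abel
      rw [e1]; exact h1
    · rw [transpose_sub, Matrix.sub_mul, Matrix.sub_mul, hv1, hv2, Matrix.mul_sub]
  have hQy : Q3 arm J B N W F p y w z := ⟨hw, hn, hv, fun r => ⟨_, hm r⟩⟩
  have hzY : z1 - z2 ∈ ZF T π Ψ := Submodule.sub_mem _ hz1 hz2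
  have hoY : off e (z1 - z2) = -b - kk := by rw [off_sub, ho1, ho2]
  obtain ⟨d, hd, hdF⟩ := exists_D h.ctx.data h.vt (Y := fun r => x r - (x r)ᵀ)
    (fun r => by rw [transpose_sub, transpose_transpose, neg_sub]) hQ
  obtain ⟨ρ, hρ⟩ := h.ctx.perf
  obtain ⟨m0, hm0⟩ := h.wk
  obtain ⟨θ0, hθ0⟩ := persist_Q h.ctx.data h.ctx.hal hρ hm0 hQ hdF
  have hoC : off e (b + kk) = b + kk := by
    rw [off_add, off_blk h.idem h.orth hij hx.bb, off_blk h.idem h.orth (Ne.symm hij) hx.bk]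
  obtain ⟨θ, hθ, hoθ⟩ := pick h (t := 0) (Or.inr rfl) (kap := 1) (by simp) hθ0
    (U := fun s => (μ1 s - μ2 s) + al s * (z1 - z2))
    (fun s => by
      rw [Matrix.mul_one, Matrix.mul_one]
      exact p_nab h hQ.val hmY hdF hθ0 s)
    (C := b + kk) hoC
    (fun u => by rw [Matrix.add_mulVec, map_add, hx.rb, hx.rk, add_zero])
    (fun s => by
      rw [Matrix.mul_one, Matrix.mul_one, off_add, off_sub, off_mul (fun i => h.eal i s), hoμ1,
        hoμ2, hoY, Matrix.add_mul, Matrix.mul_add, Matrix.mul_sub, Matrix.mul_neg,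
        sub_neg_eq_add]
      abel)
  exact second_core h hij hod hc hc' hx hy hQ hzY hoY hQy hz ho hd hdF hθ hoθ

end Crest.Agent.R172.RD.H489
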