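import Crest.Agent.R172.RDInt627
import Crest.Agent.R172.RDhalves267
import Crest.Agent.R172.RDfr

/-!
Row 172 (S0260), (T0): `Ind.InT00`.
-/

set_option autoImplicit false

namespace Crest.Agent.R172.RDtop41

open Crest.Agent.R172

theorem inT00 : Ind.InT00 :=
  RDInt627.inT00 RDfr.exFr fun h i j hij h1 => RDh267.halves h hij h1

end Crest.Agent.R172.RDtop41
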