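import Crest.Agent.R172.RJM
import Crest.Agent.R172.Pencil
import Crest.Agent.R172.SepC

/-!
# `RJM.main` with a two-term relation (parity)

* `par_sep` : `al y = ρ² • be y → i1 τ y + ρ • i2 τ y ∈ Q` for infinitely many `ρ`
  `⟹` for almost all `c`: `al y = c • be y → i1 τ y ∈ Q ∧ i2 τ y ∈ Q`.
* `main` : `RJM.main` with `hrel` in the form `F1 + ρ' • F2 ∈ Q`, `ρ, ρ'` in an infinite set.
-/

set_option linter.unusedSectionVars false

namespace Crest.Agent.R172.RJP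

open Finset TensorProduct Module
open Crest.Agent.R172.RJM

section par
variable {K Y G E T : Type*} [Field K] [AddCommGroup Y] [Module K Y] [AddCommGroup G] [Module K G]
  [AddCommGroup E] [Module K E]

theorem exact_of_chain {al be : Y →ₗ[K] G} {n : ℕ} {Z : ℕ → Y} (h0 : al (Z 0) = 0)
    (h1 : ∀ k, al (Z (k + 1)) = be (Z k)) (hn : ∀ k, n ≤ k → Z k = 0) (c : K) :
    al (∑ k ∈ range n, c ^ k • Z k) = c • be (∑ k ∈ range n, c ^ k • Z k) := by
  have key : ∀ m, al (∑ k ∈ range (m + 1), c ^ k • Z k) = c • be (∑ k ∈ range m, c ^ k • Z k) := by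
    intro m
    induction m with
    | zero => simp [h0]
    | succ m ih =>
      have e1 : al (∑ k ∈ range (m + 1 + 1), c ^ k • Z k)
          = al (∑ k ∈ range (m + 1), c ^ k • Z k) + c ^ (m + 1) • be (Z m) := by
        rw [Finset.sum_range_succ, map_add, map_smul, h1]
      have e2 : be (∑ k ∈ range (m + 1), c ^ k • Z k)
          = be (∑ k ∈ range m, c ^ k • Z k) + c ^ m • be (Z m) := by
        rw [Finset.sum_range_succ, map_add, map_smul]
      rw [e1, e2, ih, smul_add, smul_smul, pow_succ' c m]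
  have h := key n
  rwa [Finset.sum_range_succ, hn n le_rfl, smul_zero, add_zero] at h

/-- **parity separation** over an infinite set of `ρ` (no `-ρ` needed) -/
theorem par_sep [FiniteDimensional K Y] (al be : Y →ₗ[K] G) (Q : Submodule K E)
    (i1 i2 : T → Y →ₗ[K] E) {R : Set K} (hR : R.Infinite)
    (hrel : ∀ r ∈ R, ∀ y, al y = r ^ 2 • be y → ∀ τ, i1 τ y + r • i2 τ y ∈ Q) :
    ∃ S : Set K, S.Finite ∧ ∀ c ∉ S, ∀ y, al y = c • be y → ∀ τ, i1 τ y ∈ Q ∧ i2 τ y ∈ Q := by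
  obtain ⟨S, hS, n, hp⟩ := Pencil.pencil al be
  refine ⟨S, hS, fun c hc y hy τ => ?_⟩
  obtain ⟨Z, z0, z1, z2, rfl⟩ := hp c hc y hy
  have hv := SepC.vander Q (2 * n)
    (fun j => if j % 2 = 0 then i1 τ (Z (j / 2)) else i2 τ (Z (j / 2))) R hR ?_
  · have a1 : ∀ k, k < n → i1 τ (Z k) ∈ Q := fun k hk => by
      have := hv (2 * k) (by omega)
      simpa using this
    have a2 : ∀ k, k < n → i2 τ (Z k) ∈ Q := fun k hk => by
      have := hv (2 * k + 1) (by omega)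
      have e1 : (2 * k + 1) % 2 = 1 := by omega
      have e2 : (2 * k + 1) / 2 = k := by omega
      simpa [e1, e2] using this
    constructor
    · rw [map_sum]
      refine Submodule.sum_mem _ fun k hk => ?_
      rw [map_smul]
      exact Q.smul_mem _ (a1 k (Finset.mem_range.1 hk))
    · rw [map_sum]
      refine Submodule.sum_mem _ fun k hk => ?_
      rw [map_smul]
      exact Q.smul_mem _ (a2 k (Finset.mem_range.1 hk))
  · intro r hr
    have h1 := hrel r hr (∑ k ∈ range n, (r ^ 2) ^ k • Z k) (exact_of_chain z0 z1 z2 (r ^ 2)) τ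
    have key : ∀ m, ∑ k ∈ range (2 * m), r ^ k • (if k % 2 = 0 then i1 τ (Z (k / 2))
          else i2 τ (Z (k / 2)))
        = i1 τ (∑ k ∈ range m, (r ^ 2) ^ k • Z k)
          + r • i2 τ (∑ k ∈ range m, (r ^ 2) ^ k • Z k) := by
      intro m
      induction m with
      | zero => simp
      | succ m ih =>
        have e1 : (2 * m) % 2 = 0 := by omega
        have e2 : (2 * m + 1) % 2 = 1 := by omega
        have e3 : (2 * m) / 2 = m := by omega
        have e4 : (2 * m + 1) / 2 = m := by omega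
        rw [show 2 * (m + 1) = 2 * m + 1 + 1 by ring, Finset.sum_range_succ,
          Finset.sum_range_succ, ih, e1, e2, e3, e4]
        have e5 : i1 τ (∑ k ∈ range (m + 1), (r ^ 2) ^ k • Z k)
            = i1 τ (∑ k ∈ range m, (r ^ 2) ^ k • Z k) + (r ^ 2) ^ m • i1 τ (Z m) := by
          rw [Finset.sum_range_succ, map_add, map_smul]
        have e6 : i2 τ (∑ k ∈ range (m + 1), (r ^ 2) ^ k • Z k)
            = i2 τ (∑ k ∈ range m, (r ^ 2) ^ k • Z k) + (r ^ 2) ^ m • i2 τ (Z m) := by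
          rw [Finset.sum_range_succ, map_add, map_smul]
        rw [e5, e6, if_pos rfl, if_neg (by norm_num), ← pow_mul, smul_add, smul_smul,
          ← pow_succ' r (2 * m)]
        abel
    rw [key]
    exact h1

end par

variable {K : Type*} [Field K] {P1 P2 E τ : Type*} [AddCommGroup P1] [Module K P1]
  [AddCommGroup P2] [Module K P2] [AddCommGroup E] [Module K E] [Fintype τ]

section pencil
variable (A : τ → End K P1) (B : τ → End K P2) (R1 : Submodule K P1) (R2 : Submodule K P2)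
  (g : P2 →ₗ[K] P2 →ₗ[K] K) (eps : K)

/-- pairs `(x, b)` -/
abbrev Pr (K P1 P2 τ : Type*) [Field K] [AddCommGroup P1] [Module K P1]
  [AddCommGroup P2] [Module K P2] := (τ → P2 ⊗[K] P1) × (P2 →ₗ[K] P1)

/-- the values of the pencil -/
abbrev Gr (τ : Type*) (R1 : Submodule K P1) (R2 : Submodule K P2) :=
  ((P2 ⊗[K] P1) × (τ → (P2 ⊗[K] P1) ⧸ (RT R2 ⊔ TR R1 : Submodule K (P2 ⊗[K] P1)))) ×
    ((τ → P2 →ₗ[K] P1) × (P2 →ₗ[K] (P1 ⧸ R1)))

/-- the pencil of `Ex` and `Cor`, first part -/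
noncomputable def alP : Pr K P1 P2 τ →ₗ[K] Gr τ R1 R2 where
  toFun y := ((∑ t, (A t).lTensor P2 (y.1 t),
    fun t => Submodule.Quotient.mk ((A t).lTensor P2 (y.1 t))),
    (fun t => A t ∘ₗ y.2 - A t ∘ₗ ev g (y.1 t), R1.mkQ ∘ₗ y.2))
  map_add' a b := by
    refine Prod.ext (Prod.ext ?_ ?_) (Prod.ext ?_ ?_)
    · simp [Finset.sum_add_distrib]
    · funext t; simp
    · funext t; ext p; simp; abel
    · ext p; simp
  map_smul' c a := by
    refine Prod.ext (Prod.ext ?_ ?_) (Prod.ext ?_ ?_)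
    · simp [Finset.smul_sum]
    · funext t; simp
    · funext t; ext p; simp [smul_sub]
    · ext p; simp

/-- the pencil of `Ex` and `Cor`, second part -/
noncomputable def beP : Pr K P1 P2 τ →ₗ[K] Gr τ R1 R2 where
  toFun y := ((∑ t, (B t).rTensor P1 (y.1 t),
    fun t => Submodule.Quotient.mk ((B t).rTensor P1 (y.1 t))),
    (fun t => eps • (y.2 ∘ₗ B t - ev g (y.1 t) ∘ₗ B t), 0))
  map_add' a b := by
    refine Prod.ext (Prod.ext ?_ ?_) (Prod.ext ?_ ?_)
    · simp [Finset.sum_add_distrib]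
    · funext t; simp
    · funext t; ext p; simp only [Prod.snd_add, Prod.fst_add, Pi.add_apply, map_add,
        LinearMap.add_comp, LinearMap.smul_apply, LinearMap.sub_apply, LinearMap.add_apply,
        LinearMap.comp_apply]; module
    · ext p; simp
  map_smul' c a := by
    refine Prod.ext (Prod.ext ?_ ?_) (Prod.ext ?_ ?_)
    · simp [Finset.smul_sum]
    · funext t; simp
    · funext t; ext p; simp only [Prod.smul_snd, Prod.smul_fst, Pi.smul_apply, map_smul,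
        LinearMap.smul_comp, LinearMap.smul_apply, LinearMap.sub_apply,
        LinearMap.comp_apply, RingHom.id_apply]; module
    · ext p; simp

theorem pencil_iff (c : K) (y : Pr K P1 P2 τ) :
    alP A R1 R2 g y = c • beP B R1 R2 g eps y ↔
      Ex A B R1 R2 c y.1 ∧ Cor A B R1 g eps c y.1 y.2 := by
  have hx : (∑ t, (A t).lTensor P2 (y.1 t) = c • ∑ t, (B t).rTensor P1 (y.1 t)) ↔
      ∑ t, DD A B c t (y.1 t) = 0 := by
    simp only [DD, LinearMap.sub_apply, LinearMap.smul_apply, Finset.sum_sub_distrib,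
      ← Finset.smul_sum]
    rw [sub_eq_zero]
  constructor
  · intro h
    have h1 := congrArg (fun z => z.1.1) h
    have h2 := congrArg (fun z => z.1.2) h
    have h3 := congrArg (fun z => z.2.1) h
    have h4 := congrArg (fun z => z.2.2) h
    refine ⟨⟨hx.1 (by simpa [alP, beP] using h1), fun t => ?_⟩, ⟨fun p => ?_, fun t p => ?_⟩⟩
    · have h5 := congrFun h2 t
      simp only [alP, beP, LinearMap.coe_mk, AddHom.coe_mk, Prod.smul_fst, Prod.smul_snd,
        Pi.smul_apply, ← Submodule.Quotient.mk_smul] at h5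
      rw [DD, LinearMap.sub_apply, LinearMap.smul_apply]
      exact (Submodule.Quotient.eq _).1 h5
    · have h5 := LinearMap.congr_fun h4 p
      simp only [alP, beP, LinearMap.coe_mk, AddHom.coe_mk, Prod.smul_snd, smul_zero,
        LinearMap.comp_apply, LinearMap.zero_apply] at h5
      exact (Submodule.Quotient.mk_eq_zero _).1 h5
    · have h5 := LinearMap.congr_fun (congrFun h3 t) p
      simp only [alP, beP, LinearMap.coe_mk, AddHom.coe_mk, Prod.smul_fst, Prod.smul_snd,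
        Pi.smul_apply, LinearMap.comp_apply, LinearMap.sub_apply, LinearMap.smul_apply] at h5
      have h6 : A t (y.2 p) = A t (ev g (y.1 t) p)
          + c • eps • (y.2 (B t p) - ev g (y.1 t) (B t p)) := by
        rw [← h5]; abel
      rw [h6]
      module
  · rintro ⟨h1, h2⟩
    refine Prod.ext (Prod.ext ?_ ?_) (Prod.ext ?_ ?_)
    · simpa [alP, beP] using hx.2 h1.sum
    · funext t
      have h3 := h1.arm t
      rw [DD, LinearMap.sub_apply, LinearMap.smul_apply] at h3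
      simp only [alP, beP, LinearMap.coe_mk, AddHom.coe_mk, Prod.smul_fst, Prod.smul_snd,
        Pi.smul_apply, ← Submodule.Quotient.mk_smul]
      exact (Submodule.Quotient.eq _).2 h3
    · funext t
      ext p
      have h3 := h2.eq t p
      simp only [alP, beP, LinearMap.coe_mk, AddHom.coe_mk, Prod.smul_fst, Prod.smul_snd,
        Pi.smul_apply, LinearMap.comp_apply, LinearMap.sub_apply, LinearMap.smul_apply]
      have h6 : A t (y.2 p) = A t (ev g (y.1 t) p) - (eps * c) • ev g (y.1 t) (B t p)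
          + (eps * c) • y.2 (B t p) := by
        rw [← h3]; abel
      rw [h6]
      module
    · ext p
      have h3 := h2.mem p
      simp only [alP, beP, LinearMap.coe_mk, AddHom.coe_mk, Prod.smul_snd, smul_zero,
        LinearMap.comp_apply, LinearMap.zero_apply]
      exact (Submodule.Quotient.mk_eq_zero _).2 h3

end pencil

variable {A : τ → End K P1} {B : τ → End K P2} {R1 : Submodule K P1} {R2 : Submodule K P2}
  {l : τ → ℕ} {g : P2 →ₗ[K] P2 →ₗ[K] K} {eps : K}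

/-- the first term of the relation, for a parameter pair and a pair -/
noncomputable def F1 (g : P2 →ₗ[K] P2 →ₗ[K] K) (q : τ → P1 →ₗ[K] P1 →ₗ[K] E) (a1 a2 a3 : K)
    (u v : Pr K P1 P2 τ) : E :=
  ∑ t, (a1 • TensorProduct.lift ((q t) ∘ₗ v.2) (u.1 t)
        + a2 • TensorProduct.lift ((q t).flip ∘ₗ u.2) (v.1 t)
        + a3 • TensorProduct.lift ((q t) ∘ₗ (ev g (v.1 t))) (u.1 t))

theorem lift_comp_add (f : P1 →ₗ[K] P1 →ₗ[K] E) (b b' : P2 →ₗ[K] P1) (z : P2 ⊗[K] P1) :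
    TensorProduct.lift (f ∘ₗ (b + b')) z
      = TensorProduct.lift (f ∘ₗ b) z + TensorProduct.lift (f ∘ₗ b') z := by
  induction z using TensorProduct.induction_on with
  | zero => simp
  | tmul x y => simp
  | add x y hx hy => simp only [map_add, hx, hy]; abel

theorem lift_comp_smul (f : P1 →ₗ[K] P1 →ₗ[K] E) (c : K) (b : P2 →ₗ[K] P1) (z : P2 ⊗[K] P1) :
    TensorProduct.lift (f ∘ₗ (c • b)) z = c • TensorProduct.lift (f ∘ₗ b) z := by
  induction z using TensorProduct.induction_on with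
  | zero => simp
  | tmul x y => simp
  | add x y hx hy => simp only [map_add, hx, hy, smul_add]

/-- `F1` is linear in the second pair -/
noncomputable def F1L (g : P2 →ₗ[K] P2 →ₗ[K] K) (q : τ → P1 →ₗ[K] P1 →ₗ[K] E) (a1 a2 a3 : K)
    (u : Pr K P1 P2 τ) : Pr K P1 P2 τ →ₗ[K] E where
  toFun v := F1 g q a1 a2 a3 u v
  map_add' v v' := by
    simp only [F1, Prod.fst_add, Prod.snd_add, Pi.add_apply, map_add, lift_comp_add]
    rw [← Finset.sum_add_distrib]
    refine Finset.sum_congr rfl fun t _ => ?_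
    module
  map_smul' c v := by
    simp only [F1, Prod.smul_fst, Prod.smul_snd, Pi.smul_apply, map_smul, lift_comp_smul,
      RingHom.id_apply]
    rw [Finset.smul_sum]
    refine Finset.sum_congr rfl fun t _ => ?_
    module

/-- **`RJM.main` with a two-term relation.** -/
theorem main [FiniteDimensional K P1] [FiniteDimensional K P2]
    (hA : ⨆ t, LinearMap.range (A t) = ⊤) (hB : ⨆ t, LinearMap.range (B t) = ⊤)
    (hR1 : ∀ t, ∀ r ∈ R1, A t r ∈ R1) (hR2 : ∀ t, ∀ r ∈ R2, B t r ∈ R2) {m : ℕ}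
    (hN1 : ∀ w : List τ, w.length = m → ∀ r ∈ R1, (w.map A).prod r = 0)
    (hN2 : ∀ w : List τ, w.length = m → ∀ r ∈ R2, (w.map B).prod r = 0)
    (hl : ∀ s, 1 ≤ l s)
    (hl1 : ∀ s p, (A s ^ l s) p ∈ R1) (hl2 : ∀ s p, (B s ^ l s) p ∈ R2)
    (gen1 : ∀ S : Submodule K P1, (∀ t, ∀ v ∈ S, A t v ∈ S) → (∀ s p, (A s ^ l s) p ∈ S) → R1 ≤ S)
    (gen2 : ∀ S : Submodule K P2, (∀ t, ∀ v ∈ S, B t v ∈ S) → (∀ s p, (B s ^ l s) p ∈ S) → R2 ≤ S)
    (heps : eps ≠ 0) (gR1 : ∀ r ∈ R2, ∀ p, g r p = 0) (gR2 : ∀ r ∈ R2, ∀ p, g p r = 0)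
    (gB : ∀ t p p', g (B t p) p' = eps * g p (B t p'))
    (gtop : ∀ s, ∃ p p', g ((B s ^ (l s - 1)) p) p' ≠ 0)
    {R : Set K} (hR : R.Infinite) (h0 : (0 : K) ∉ R)
    (q : τ → P1 →ₗ[K] P1 →ₗ[K] E) (Q : Submodule K E) {a1 a2 a3 : K}
    (ha1 : a1 ≠ 0) (ha2 : a2 ≠ 0) (ha3 : a3 ≠ 0)
    (hex : ∀ ρ ∈ R, ∀ x, Ex A B R1 R2 (ρ ^ 2) x → ∃ b, Cor A B R1 g eps (ρ ^ 2) x b)
    (F2 : Pr K P1 P2 τ → (Pr K P1 P2 τ →ₗ[K] E))
    (hrel : ∀ ρ ∈ R, ∀ ρ' ∈ R, ∀ x b x' b', Ex A B R1 R2 (ρ ^ 2) x →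
      Cor A B R1 g eps (ρ ^ 2) x b →
      Ex A B R1 R2 (ρ' ^ 2) x' → Cor A B R1 g eps (ρ' ^ 2) x' b' →
      ∑ t, (a1 • TensorProduct.lift ((q t) ∘ₗ b') (x t)
        + a2 • TensorProduct.lift ((q t).flip ∘ₗ b) (x' t)
        + a3 • TensorProduct.lift ((q t) ∘ₗ (ev g (x' t))) (x t)) + ρ' • F2 (x, b) (x', b') ∈ Q) :
    (∀ t, ∀ r ∈ R1, ∀ p, q t r p ∈ Q ∧ q t p r ∈ Q) ∧
      (∀ s i j, i + j + 1 = l s → ∀ p p', q s ((A s ^ i) p) ((A s ^ j) p') ∈ Q) := by
  classical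
  -- parameters: exact decorated pairs at some `ρ ^ 2`
  let T := {u : Pr K P1 P2 τ // ∃ ρ ∈ R, Ex A B R1 R2 (ρ ^ 2) u.1 ∧
    Cor A B R1 g eps (ρ ^ 2) u.1 u.2}
  have hkey : ∀ r ∈ R, ∀ y : Pr K P1 P2 τ, alP A R1 R2 g y = r ^ 2 • beP B R1 R2 g eps y →
      ∀ u : T, F1L g q a1 a2 a3 u.1 y + r • F2 u.1 y ∈ Q := by
    rintro ρ' hρ' v hv ⟨u, ρ, hρ, hu1, hu2⟩
    obtain ⟨hv1, hv2⟩ := (pencil_iff A B R1 R2 g eps (ρ' ^ 2) v).1 hv
    exact hrel ρ hρ ρ' hρ' u.1 u.2 v.1 v.2 hu1 hu2 hv1 hv2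
  obtain ⟨S, hS, h⟩ := par_sep (T := T) (alP A R1 R2 g) (beP B R1 R2 g eps) Q
    (fun u => F1L g q a1 a2 a3 u.1) (fun u => F2 u.1) hR hkey
  · -- `Λ`
    have hsq : ((fun ρ : K => ρ ^ 2) '' R).Infinite := by
      intro hfin
      refine hR (Set.Finite.of_finite_fibers _ hfin ?_)
      rintro _ ⟨r, -, rfl⟩
      refine Set.Finite.subset (Set.toFinite {r, -r}) ?_
      rintro ρ ⟨-, hρ⟩
      exact sq_eq_sq_iff_eq_or_eq_neg.1 hρ
    refine RJM.main hA hB hR1 hR2 hN1 hN2 hl hl1 hl2 gen1 gen2 heps gR1 gR2 gB gtop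
      (Λ := ((fun ρ : K => ρ ^ 2) '' R) \ S) (hsq.sdiff hS) ?_ q Q ha1 ha2 ha3 ?_ ?_
    · rintro ⟨⟨ρ, hρ, h1⟩, -⟩
      have h2 : ρ = 0 := by simpa using h1
      exact h0 (h2 ▸ hρ)
    · rintro _ ⟨⟨ρ, hρ, rfl⟩, -⟩ x hx
      exact hex ρ hρ x hx
    · rintro _ ⟨⟨ρ, hρ, rfl⟩, -⟩ c' ⟨-, hc'⟩ x b x' b' hx hb hx' hb'
      exact (h c' hc' (x', b') ((pencil_iff A B R1 R2 g eps c' (x', b')).2 ⟨hx', hb'⟩)
        ⟨(x, b), ρ, hρ, hx, hb⟩).1

end Crest.Agent.R172.RJP
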