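import Mathlib
import Crest.Agent.R172.RJM

/-! # Row 172: the abstract end with arbitrary radical, correction only modulo `Z`.

`RJZ.main` is `RJM.main` with the equation of the correction only modulo a submodule `Z` of `P1`
which is stable under the `A t` and harmless (`q t Z _`, `q t _ Z ≤ Q`). -/

open TensorProduct Module

namespace Crest.Agent.R172.RJZ

variable {K : Type*} [Field K] {P1 P2 E τ : Type*} [AddCommGroup P1] [Module K P1]
  [AddCommGroup P2] [Module K P2] [AddCommGroup E] [Module K E] [Fintype τ]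

open RJM (DD Ex ev ev_tmul ev_DD ev_zero_of Ex_of swap)

/-- `b` is a correction of `x` at `c` modulo `Z` -/
structure Cor (A : τ → End K P1) (B : τ → End K P2) (R1 Z : Submodule K P1)
    (g : P2 →ₗ[K] P2 →ₗ[K] K) (eps c : K) (x : τ → P2 ⊗[K] P1) (b : P2 →ₗ[K] P1) : Prop where
  mem : ∀ p, b p ∈ R1
  eq : ∀ t p, (A t (b p) - (eps * c) • b (B t p))
    - (A t (ev g (x t) p) - (eps * c) • ev g (x t) (B t p)) ∈ Z

/-- a functional of the correction which is a Laurent functional of the defects. -/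
def Good (A : τ → End K P1) (B : τ → End K P2)
    (R1 : Submodule K P1) (R2 : Submodule K P2) (Z : Submodule K P1) (g : P2 →ₗ[K] P2 →ₗ[K] K) (eps : K) (Λ : Set K)
    (Θ : (P2 →ₗ[K] P1) → K) : Prop :=
  ∃ θ : K → τ → P2 →ₗ[K] P1 →ₗ[K] K,
    (∀ c ∈ Λ, ∀ t, ∀ r ∈ R2, ∀ p, θ c t r p = 0) ∧
    (∀ t p2 p1, Span2.Neg Λ (fun c => θ c t p2 p1)) ∧
    ∀ c ∈ Λ, ∀ x β, Cor A B R1 Z g eps c x β →
      Θ β = ∑ t, TensorProduct.lift (θ c t) (DD A B c t (x t))

section Good

variable {A : τ → End K P1} {B : τ → End K P2}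
  {R1 Z : Submodule K P1} {R2 : Submodule K P2} {g : P2 →ₗ[K] P2 →ₗ[K] K} {eps : K} {Λ : Set K}

lemma Good.congr {Θ Θ' : (P2 →ₗ[K] P1) → K} (h : Good A B R1 R2 Z g eps Λ Θ)
    (e : ∀ c ∈ Λ, ∀ x β, Cor A B R1 Z g eps c x β → Θ' β = Θ β) :
    Good A B R1 R2 Z g eps Λ Θ' := by
  obtain ⟨θ, h1, h2, h3⟩ := h
  exact ⟨θ, h1, h2, fun c hc x β hβ => (e c hc x β hβ).trans (h3 c hc x β hβ)⟩

lemma Good.zero : Good A B R1 R2 Z g eps Λ (fun _ => 0) :=
  ⟨fun _ _ => 0, fun c _ t r _ p => by simp,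
    fun t p2 p1 => Span2.Neg.zero.congr fun c _ => by simp,
    fun c _ x β _ => by simp [Span2.lift_zero_apply]⟩

lemma Good.add {Θ Θ' : (P2 →ₗ[K] P1) → K} (h : Good A B R1 R2 Z g eps Λ Θ)
    (h' : Good A B R1 R2 Z g eps Λ Θ') : Good A B R1 R2 Z g eps Λ (fun β => Θ β + Θ' β) := by
  obtain ⟨θ, h1, h2, h3⟩ := h
  obtain ⟨θ', h1', h2', h3'⟩ := h'
  refine ⟨fun c t => θ c t + θ' c t, fun c hc t r hr p => ?_, fun t p2 p1 => ?_,
    fun c hc x β hβ => ?_⟩
  · simp [h1 c hc t r hr p, h1' c hc t r hr p]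
  · exact ((h2 t p2 p1).add (h2' t p2 p1)).congr fun c _ => by simp
  · show Θ β + Θ' β = _
    rw [h3 c hc x β hβ, h3' c hc x β hβ, ← Finset.sum_add_distrib]
    exact Finset.sum_congr rfl fun t _ => (Span2.lift_add_apply _ _ _).symm

lemma Good.smul {Θ : (P2 →ₗ[K] P1) → K} (h : Good A B R1 R2 Z g eps Λ Θ) (a : K) :
    Good A B R1 R2 Z g eps Λ (fun β => a * Θ β) := by
  obtain ⟨θ, h1, h2, h3⟩ := h
  refine ⟨fun c t => a • θ c t, fun c hc t r hr p => ?_, fun t p2 p1 => ?_,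
    fun c hc x β hβ => ?_⟩
  · simp [h1 c hc t r hr p]
  · exact ((h2 t p2 p1).const_mul a).congr fun c _ => by simp
  · show a * Θ β = _
    rw [h3 c hc x β hβ, Finset.mul_sum]
    exact Finset.sum_congr rfl fun t _ => (Span2.lift_smul_apply _ _ _).symm

lemma Good.point (hB : ⨆ t, LinearMap.range (B t) = ⊤)
    (hg1 : ∀ r ∈ R2, ∀ p, g r p = 0) (heps : eps ≠ 0)
    (hgB : ∀ t p p', g (B t p) p' = eps * g p (B t p')) (h0 : (0 : K) ∉ Λ)
    (sZ : ∀ t, ∀ z ∈ Z, A t z ∈ Z) :
    ∀ n, ∀ ξ : P1 →ₗ[K] K, (∀ r ∈ Span2.Dn A R1 n, ξ r = 0) → (∀ z ∈ Z, ξ z = 0) → ∀ p : P2,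
      Good A B R1 R2 Z g eps Λ (fun β => ξ (β p)) := by
  classical
  have pB : ∀ p : P2, p ∈ ⨆ t, LinearMap.range (B t) := fun p => by rw [hB]; trivial
  intro n
  induction n with
  | zero =>
    intro ξ hξ hZ p
    exact Good.zero.congr fun c hc x β hβ => hξ _ (hβ.mem p)
  | succ n ih =>
    intro ξ hξ hZ p
    refine Submodule.iSup_induction (fun t => LinearMap.range (B t))
      (motive := fun p => Good A B R1 R2 Z g eps Λ (fun β => ξ (β p))) (pB p) ?_ ?_ ?_
    · rintro s _ ⟨p, rfl⟩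
      obtain ⟨θ, h1, h2, h3⟩ := (ih (ξ ∘ₗ A s)
        (fun r hr => hξ _ (Span2.apply_mem_Dn hr s)) (fun z hz => hZ _ (sZ s z hz)) p).smul eps⁻¹
      refine ⟨fun c t => c⁻¹ • θ c t -
          (if t = s then c⁻¹ • eps⁻¹ • (g.flip p).smulRight ξ else 0),
        fun c hc t r hr p' => ?_, fun t p2 p1 => ?_, fun c hc x β hβ => ?_⟩
      · by_cases ht : t = s
        · simp [ht, h1 c hc s r hr p', hg1 r hr p]
        · simp [ht, h1 c hc t r hr p']
      · by_cases ht : t = s
        · refine ((h2 t p2 p1).inv_mul.sub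
            (Span2.Neg.inv_const (eps⁻¹ * (g p2 p * ξ p1)))).congr fun c _ => ?_
          simp [ht]
        · refine (h2 t p2 p1).inv_mul.congr fun c _ => ?_
          simp [ht]
      · have hc0 : c ≠ 0 := fun h => h0 (h ▸ hc)
        have e1 := hZ _ (hβ.eq s p)
        rw [← ev_DD A B hgB, map_sub, map_sub, map_smul, smul_eq_mul] at e1
        have e2 := sub_eq_zero.1 e1
        have e3 := h3 c hc x β hβ
        simp only [LinearMap.comp_apply] at e3
        have e4 : ξ (ev g (DD A B c s (x s)) p) =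
            TensorProduct.lift ((g.flip p).smulRight ξ) (DD A B c s (x s)) := by
          generalize DD A B c s (x s) = z
          induction z using TensorProduct.induction_on with
          | zero => simp
          | tmul x y => simp
          | add x y hx hy => rw [map_add, LinearMap.add_apply, map_add, hx, hy, map_add]
        have e5 : ∑ t, TensorProduct.lift (c⁻¹ • θ c t -
            (if t = s then c⁻¹ • eps⁻¹ • (g.flip p).smulRight ξ else 0))
              (DD A B c t (x t)) =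
            c⁻¹ * (∑ t, TensorProduct.lift (θ c t) (DD A B c t (x t))) -
            c⁻¹ * (eps⁻¹ * TensorProduct.lift ((g.flip p).smulRight ξ)
              (DD A B c s (x s))) := by
          rw [Finset.mul_sum]
          simp only [Span2.lift_sub_apply, Span2.lift_smul_apply, Finset.sum_sub_distrib]
          congr 1
          rw [Finset.sum_eq_single s]
          · rw [if_pos rfl, Span2.lift_smul_apply, Span2.lift_smul_apply]
          · intro t _ ht
            rw [if_neg ht, Span2.lift_zero_apply]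
          · intro h
            exact absurd (Finset.mem_univ s) h
        simp only
        rw [e5, ← e3, ← e4]
        have e6 : c⁻¹ * c = 1 := inv_mul_cancel₀ hc0
        have e7 : eps⁻¹ * eps = 1 := inv_mul_cancel₀ heps
        linear_combination (-c⁻¹ * eps⁻¹) * e2 - ξ (β (B s p)) * e6 * (eps⁻¹ * eps) -
          ξ (β (B s p)) * e7
    · exact Good.zero.congr fun c _ x β _ => by simp
    · intro x y hx hy
      exact (hx.add hy).congr fun c _ x β _ => by simp

lemma Good.sum {ι : Type*} (S : Finset ι) {Θ : ι → (P2 →ₗ[K] P1) → K}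
    (h : ∀ i ∈ S, Good A B R1 R2 Z g eps Λ (Θ i)) :
    Good A B R1 R2 Z g eps Λ (fun β => ∑ i ∈ S, Θ i β) := by
  classical
  induction S using Finset.induction_on with
  | empty => exact Good.zero.congr fun c _ x β _ => by simp
  | insert a S ha ih =>
    have h1 := h a (Finset.mem_insert_self a S)
    have h2 := ih fun i hi => h i (Finset.mem_insert_of_mem hi)
    exact (h1.add h2).congr fun c _ x β _ => by rw [Finset.sum_insert ha]

end Good

/-- the standing hypotheses. -/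
structure Hyp (A : τ → End K P1) (B : τ → End K P2) (R1 Z : Submodule K P1)
    (R2 : Submodule K P2) (m : ℕ) (l : τ → ℕ) (g : P2 →ₗ[K] P2 →ₗ[K] K) (eps : K)
    (Λ : Set K) : Prop where
  hA : ⨆ t, LinearMap.range (A t) = ⊤
  hB : ⨆ t, LinearMap.range (B t) = ⊤
  sR1 : ∀ t, R1.map (A t) ≤ R1
  sR2 : ∀ t, R2.map (B t) ≤ R2
  n1 : Span2.Dn A R1 m = ⊥
  n2 : Span2.Dn B R2 m = ⊥
  lpos : ∀ s, 0 < l s
  l1 : ∀ s p, (A s ^ l s) p ∈ R1
  l2 : ∀ s p, (B s ^ l s) p ∈ R2
  gen1 : ∀ X : Submodule K P1, (∀ t, X.map (A t) ≤ X) → (∀ s p, (A s ^ l s) p ∈ X) → R1 ≤ X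
  gen2 : ∀ X : Submodule K P2, (∀ t, X.map (B t) ≤ X) → (∀ s p, (B s ^ l s) p ∈ X) → R2 ≤ X
  eps0 : eps ≠ 0
  rad1 : ∀ r ∈ R2, ∀ p, g r p = 0
  rad2 : ∀ r ∈ R2, ∀ p, g p r = 0
  adj : ∀ t p p', g (B t p) p' = eps * g p (B t p')
  ne : ∀ s, ∃ p p', g ((B s ^ (l s - 1)) p) p' ≠ 0
  inf : Λ.Infinite
  zero : (0 : K) ∉ Λ
  sZ : ∀ t, ∀ z ∈ Z, A t z ∈ Z

section Main

variable {A : τ → End K P1} {B : τ → End K P2}
  {R1 Z : Submodule K P1} {R2 : Submodule K P2} {m : ℕ} {l : τ → ℕ}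
  {g : P2 →ₗ[K] P2 →ₗ[K] K} {eps : K} {Λ : Set K}

theorem Hyp.key0 (H : Hyp A B R1 Z R2 m l g eps Λ) (η : τ → P2 →ₗ[K] P1 →ₗ[K] K)
    (h : ∀ c ∈ Λ, ∀ x, Ex A B R1 R2 c x → ∑ t, TensorProduct.lift (η t) (x t) = 0) :
    (∀ t, ∀ r ∈ R2, ∀ p, η t r p = 0) ∧
    (∀ s i j, i + j + 1 = l s → ∀ p2 p1, η s ((B s ^ j) p2) ((A s ^ i) p1) = 0) :=
  Span2.key H.hA H.hB H.sR1 H.sR2 H.n1 H.n2 H.l1 H.l2 H.gen2 H.inf H.zero η (fun _ _ => 0)
    (fun c _ t r _ p => by simp)
    (fun t p2 p1 => Span2.Neg.zero.congr fun c _ => by simp)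
    (fun c hc x hx => by simpa [Span2.lift_zero_apply] using h c hc x (Ex_of hx))

/-- step 0: a functional of `x` and of its correction. -/
theorem Hyp.step0 (H : Hyp A B R1 Z R2 m l g eps Λ)
    (hex : ∀ c ∈ Λ, ∀ x, Ex A B R1 R2 c x → ∃ β, Cor A B R1 Z g eps c x β)
    (η : τ → P2 →ₗ[K] P1 →ₗ[K] K) {Θ : (P2 →ₗ[K] P1) → K}
    (hΘ : Good A B R1 R2 Z g eps Λ Θ)
    (h : ∀ c ∈ Λ, ∀ x β, Ex A B R1 R2 c x → Cor A B R1 Z g eps c x β →
      ∑ t, TensorProduct.lift (η t) (x t) + Θ β = 0) :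
    ∀ t, ∀ r ∈ R2, ∀ p, η t r p = 0 := by
  obtain ⟨θ, h1, h2, h3⟩ := hΘ
  refine (Span2.key H.hA H.hB H.sR1 H.sR2 H.n1 H.n2 H.l1 H.l2 H.gen2 H.inf H.zero
    η θ h1 h2 (fun c hc x hx => ?_)).1
  obtain ⟨β, hβ⟩ := hex c hc x (Ex_of hx)
  have e1 := h c hc x β (Ex_of hx) hβ
  rw [h3 c hc x β hβ] at e1
  rw [Finset.sum_add_distrib]
  exact e1

lemma Hyp.good (H : Hyp A B R1 Z R2 m l g eps Λ) (f : P1 →ₗ[K] P1 →ₗ[K] K)
    (hf : ∀ z ∈ Z, ∀ p, f z p = 0) (z : P2 ⊗[K] P1) :
    Good A B R1 R2 Z g eps Λ (fun β => TensorProduct.lift (f ∘ₗ β) z) := by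
  induction z using TensorProduct.induction_on with
  | zero => exact Good.zero.congr fun c _ x β _ => by simp
  | tmul p2 p1 =>
    refine (Good.point (R1 := R1) H.hB H.rad1 H.eps0 H.adj H.zero H.sZ m (f.flip p1)
      (fun r hr => ?_) (fun z hz => hf z hz p1) p2).congr fun c _ x β _ => by simp
    rw [H.n1] at hr
    have : r = 0 := hr
    rw [this, map_zero]
  | add a b ha hb => exact (ha.add hb).congr fun c _ x β _ => by simp

/-- step 2: Nakayama. -/
theorem Hyp.step2 (H : Hyp A B R1 Z R2 m l g eps Λ)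
    (hex : ∀ c ∈ Λ, ∀ x, Ex A B R1 R2 c x → ∃ β, Cor A B R1 Z g eps c x β)
    (Y : Submodule K P1) (hZY' : Z ≤ Y)
    (hY : ∀ c ∈ Λ, ∀ x β, Ex A B R1 R2 c x → Cor A B R1 Z g eps c x β → ∀ r ∈ R2, β r ∈ Y) :
    R1 ≤ Y := by
  classical
  set S : Submodule K P1 := Submodule.span K
    {z | ∃ c ∈ Λ, ∃ x β, Ex A B R1 R2 c x ∧ Cor A B R1 Z g eps c x β ∧ ∃ r ∈ R2, z = β r}
    with hS
  have hZY : S ⊔ Z ≤ Y := by
    refine sup_le ?_ hZY'
    rw [hS, Submodule.span_le]
    rintro _ ⟨c, hc, x, β, hx, hβ, r, hr, rfl⟩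
    exact hY c hc x β hx hβ r hr
  have ev0 : ∀ z : P2 ⊗[K] P1, ∀ r ∈ R2, ev g z r = 0 :=
    fun z r hr => ev_zero_of (H.rad2 r hr) z
  have hZs : ∀ t, (S ⊔ Z).map (A t) ≤ S ⊔ Z := by
    intro t
    rw [Submodule.map_sup]
    refine sup_le ?_ ?_
    · rw [hS, Submodule.map_span, Submodule.span_le]
      rintro _ ⟨_, ⟨c, hc, x, β, hx, hβ, r, hr, rfl⟩, rfl⟩
      have hBr : B t r ∈ R2 := H.sR2 t (Submodule.mem_map_of_mem hr)
      have e1 := hβ.eq t r
      rw [ev0 _ r hr, ev0 _ _ hBr, map_zero, smul_zero, sub_zero, sub_zero] at e1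
      have e2 : A t (β r) = (eps * c) • β (B t r) + (A t (β r) - (eps * c) • β (B t r)) := by
        abel
      show A t (β r) ∈ _
      rw [e2]
      exact Submodule.add_mem_sup (Submodule.smul_mem _ _
        (Submodule.subset_span ⟨c, hc, x, β, hx, hβ, _, hBr, rfl⟩)) e1
    · rintro _ ⟨z, hz, rfl⟩
      exact Submodule.mem_sup_right (H.sZ t z hz)
  have hgen : ∀ s p, (A s ^ l s) p ∈ (S ⊔ Z) ⊔ Span2.Dn A R1 1 := by
    intro s p
    by_contra hcon
    obtain ⟨ξ, hξ, hker⟩ := Submodule.exists_le_ker_of_notMem hcon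
    have kS : ∀ z ∈ S, ξ z = 0 := fun z hz =>
      hker (Submodule.mem_sup_left (Submodule.mem_sup_left hz))
    have kZ : ∀ z ∈ Z, ξ z = 0 := fun z hz =>
      hker (Submodule.mem_sup_left (Submodule.mem_sup_right hz))
    have sZn : ∀ n, ∀ z ∈ Z, (A s ^ n) z ∈ Z := by
      intro n
      induction n with
      | zero => intro z hz; simpa using hz
      | succ n ih =>
        intro z hz
        rw [pow_succ']
        exact H.sZ s _ (ih z hz)
    have kD : ∀ z ∈ Span2.Dn A R1 1, ξ z = 0 := fun z hz => hker (Submodule.mem_sup_right hz)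
    obtain ⟨p2, p2', hne⟩ := H.ne s
    have hk := (H.key0 (fun t => if t = s then (g.flip p2').smulRight (ξ ∘ₗ (A s ^ l s)) else 0)
      (fun c hc x hx => by
        obtain ⟨β, hβ⟩ := hex c hc x hx
        rw [Finset.sum_eq_single s]
        · rw [if_pos rfl]
          have e4 : TensorProduct.lift ((g.flip p2').smulRight (ξ ∘ₗ (A s ^ l s))) (x s) =
              ξ ((A s ^ l s) (ev g (x s) p2')) := by
            generalize x s = z
            induction z using TensorProduct.induction_on with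
            | zero => simp
            | tmul x y => simp
            | add x y hx hy =>
              rw [map_add, hx, hy, map_add, LinearMap.add_apply, map_add, map_add]
          rw [e4]
          have e5 : ∀ n q, (A s ^ n) (β q - ev g (x s) q) -
              (eps * c) ^ n • (β ((B s ^ n) q) - ev g (x s) ((B s ^ n) q)) ∈ Z := by
            intro n
            induction n with
            | zero => intro q; simp
            | succ n ih =>
              intro q
              have e6 : A s (β q - ev g (x s) q) -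
                  (eps * c) • (β (B s q) - ev g (x s) (B s q)) ∈ Z := by
                have := hβ.eq s q
                rw [map_sub, smul_sub]
                have e : A s (β q) - A s (ev g (x s) q) -
                    ((eps * c) • β (B s q) - (eps * c) • ev g (x s) (B s q)) =
                    (A s (β q) - (eps * c) • β (B s q)) -
                    (A s (ev g (x s) q) - (eps * c) • ev g (x s) (B s q)) := by abel
                rw [e]
                exact this
              have e7 : (A s ^ (n + 1)) (β q - ev g (x s) q) =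
                  (A s ^ n) (A s (β q - ev g (x s) q)) := by rw [pow_succ]; rfl
              have e8 : (B s ^ n) (B s q) = (B s ^ (n + 1)) q := by rw [pow_succ]; rfl
              have e9 := sZn n _ e6
              rw [map_sub, map_smul, ← e7] at e9
              have e10 := Z.smul_mem (eps * c) (ih (B s q))
              rw [smul_sub, smul_smul, ← pow_succ', e8] at e10
              have e11 := Z.add_mem e9 e10
              rwa [sub_add_sub_cancel] at e11
          have e9 := kZ _ (e5 (l s) p2')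
          rw [ev0 _ _ (H.l2 s p2'), sub_zero, map_sub] at e9
          have e10 := e9
          have hl : l s = (l s - 1) + 1 := (Nat.succ_pred_eq_of_pos (H.lpos s)).symm
          have e11 : (A s ^ l s) (β p2') ∈ Span2.Dn A R1 1 := by
            rw [hl, pow_succ']
            have h1 : ∀ n, (A s ^ n) (β p2') ∈ R1 := by
              intro n
              induction n with
              | zero => simpa using hβ.mem p2'
              | succ n ih =>
                rw [pow_succ']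
                exact H.sR1 s (Submodule.mem_map_of_mem ih)
            exact Span2.apply_mem_Dn (A := A) (R := R1) (n := 0) (h1 (l s - 1)) s
          have e12 : ξ (β ((B s ^ l s) p2')) = 0 :=
            kS _ (Submodule.subset_span ⟨c, hc, x, β, hx, hβ, _, H.l2 s p2', rfl⟩)
          rw [map_sub, map_smul, e12, smul_zero, map_sub, kD _ e11, zero_sub, sub_zero,
            neg_eq_zero] at e10
          exact e10
        · intro t _ ht
          rw [if_neg ht, Span2.lift_zero_apply]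
        · intro h
          exact absurd (Finset.mem_univ s) h)).2 s 0 (l s - 1) (by have := H.lpos s; omega) p2 p
    rw [if_pos rfl] at hk
    simp only [LinearMap.smulRight_apply, LinearMap.flip_apply, LinearMap.smul_apply,
      smul_eq_mul, LinearMap.comp_apply, pow_zero, Module.End.one_apply] at hk
    rcases mul_eq_zero.1 hk with h | h
    · exact hne h
    · exact hξ h
  have hsup : ∀ n, R1 ≤ (S ⊔ Z) ⊔ Span2.Dn A R1 n := by
    have hD : ∀ n, Span2.Dn A R1 n ≤ (S ⊔ Z) ⊔ Span2.Dn A R1 (n + 1) := by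
      intro n
      induction n with
      | zero =>
        refine H.gen1 _ (fun t => ?_) hgen
        rw [Submodule.map_sup]
        refine sup_le_sup (hZs t) ?_
        refine (le_iSup (fun t => (Span2.Dn A R1 1).map (A t)) t).trans ?_
        exact Span2.Dn_anti H.sR1 1
      | succ n ih =>
        refine iSup_le fun t => ?_
        refine (Submodule.map_mono ih).trans ?_
        rw [Submodule.map_sup]
        exact sup_le_sup (hZs t) (le_iSup (fun t => (Span2.Dn A R1 (n + 1)).map (A t)) t)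
    intro n
    induction n with
    | zero => exact le_sup_right
    | succ n ih => exact ih.trans (sup_le le_sup_left (hD n))
  have := hsup m
  rw [H.n1, sup_bot_eq] at this
  exact this.trans hZY

/-- the relation of the second derivatives, functional form. -/
def Rel (A : τ → End K P1) (B : τ → End K P2) (R1 Z : Submodule K P1)
    (R2 : Submodule K P2) (g : P2 →ₗ[K] P2 →ₗ[K] K) (eps : K) (Λ : Set K)
    (a1 a2 a3 : K) (f : τ → P1 →ₗ[K] P1 →ₗ[K] K) : Prop :=
  ∀ c ∈ Λ, ∀ c' ∈ Λ, ∀ x β x' β', Ex A B R1 R2 c x → Cor A B R1 Z g eps c x β →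
    Ex A B R1 R2 c' x' → Cor A B R1 Z g eps c' x' β' →
      ∑ t, (a1 • TensorProduct.lift ((f t) ∘ₗ β') (x t) +
        a2 • TensorProduct.lift ((f t).flip ∘ₗ β) (x' t) +
        a3 • TensorProduct.lift ((f t) ∘ₗ (ev g (x' t))) (x t)) = 0

theorem Hyp.left (H : Hyp A B R1 Z R2 m l g eps Λ) {f : τ → P1 →ₗ[K] P1 →ₗ[K] K} {a1 a2 a3 : K}
    (ha1 : a1 ≠ 0)
    (hex : ∀ c ∈ Λ, ∀ x, Ex A B R1 R2 c x → ∃ β, Cor A B R1 Z g eps c x β)
    (hf1 : ∀ t, ∀ z ∈ Z, ∀ p, f t z p = 0) (hf2 : ∀ t, ∀ z ∈ Z, ∀ p, f t p z = 0)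
    (h : Rel A B R1 Z R2 g eps Λ a1 a2 a3 f) : ∀ t, ∀ r ∈ R1, ∀ p, f t r p = 0 := by
  intro t r hr p
  have := H.step2 hex (LinearMap.ker ((f t).flip p)) (fun z hz => hf1 t z hz p)
    (fun c' hc' x' β' hx' hβ' r hr => by
    rw [LinearMap.mem_ker, LinearMap.flip_apply]
    have h0 := H.step0 hex (fun t => a1 • ((f t) ∘ₗ β') + a3 • ((f t) ∘ₗ (ev g (x' t))))
      (Θ := fun β => ∑ t, a2 * TensorProduct.lift ((f t).flip ∘ₗ β) (x' t))
      (Good.sum _ fun t _ => (H.good (f t).flip (fun z hz p => hf2 t z hz p) (x' t)).smul a2)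
      (fun c hc x β hx hβ => by
        rw [← h c hc c' hc' x β x' β' hx hβ hx' hβ', ← Finset.sum_add_distrib]
        refine Finset.sum_congr rfl fun t _ => ?_
        rw [Span2.lift_add_apply, Span2.lift_smul_apply, Span2.lift_smul_apply]
        simp only [smul_eq_mul]
        ring) t r hr p
    have e2 := ev_zero_of (H.rad2 r hr) (x' t)
    simp only [LinearMap.add_apply, LinearMap.smul_apply, LinearMap.comp_apply, e2, map_zero,
      LinearMap.zero_apply, smul_zero, add_zero, smul_eq_mul] at h0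
    exact (mul_eq_zero.1 h0).resolve_left ha1) hr
  simpa using this

theorem Hyp.right (H : Hyp A B R1 Z R2 m l g eps Λ) {f : τ → P1 →ₗ[K] P1 →ₗ[K] K}
    {a1 a2 a3 : K} (ha2 : a2 ≠ 0)
    (hex : ∀ c ∈ Λ, ∀ x, Ex A B R1 R2 c x → ∃ β, Cor A B R1 Z g eps c x β)
    (hf1 : ∀ t, ∀ z ∈ Z, ∀ p, f t z p = 0) (hf2 : ∀ t, ∀ z ∈ Z, ∀ p, f t p z = 0)
    (h : Rel A B R1 Z R2 g eps Λ a1 a2 a3 f) : ∀ t, ∀ r ∈ R1, ∀ p, f t p r = 0 := by
  intro t r hr p
  have := H.step2 hex (LinearMap.ker (f t p)) (fun z hz => hf2 t z hz p)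
    (fun c hc x β hx hβ r hr => by
    rw [LinearMap.mem_ker]
    have h0 := H.step0 hex (fun t => a2 • ((f t).flip ∘ₗ β) +
        a3 • ((f t).flip ∘ₗ (ev g.flip (x t))))
      (Θ := fun β' => ∑ t, a1 * TensorProduct.lift ((f t) ∘ₗ β') (x t))
      (Good.sum _ fun t _ => (H.good (f t) (fun z hz p => hf1 t z hz p) (x t)).smul a1)
      (fun c' hc' x' β' hx' hβ' => by
        rw [← h c hc c' hc' x β x' β' hx hβ hx' hβ', ← Finset.sum_add_distrib]
        refine Finset.sum_congr rfl fun t _ => ?_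
        rw [Span2.lift_add_apply, Span2.lift_smul_apply, Span2.lift_smul_apply, swap g (f t)]
        simp only [smul_eq_mul]
        ring) t r hr p
    have e2 := ev_zero_of (g := g.flip) (H.rad1 r hr) (x t)
    simp only [LinearMap.add_apply, LinearMap.smul_apply, LinearMap.comp_apply, e2, map_zero,
      LinearMap.zero_apply, smul_zero, add_zero, smul_eq_mul] at h0
    exact (mul_eq_zero.1 h0).resolve_left ha2) hr
  simpa using this

theorem Hyp.prod (H : Hyp A B R1 Z R2 m l g eps Λ) {f : τ → P1 →ₗ[K] P1 →ₗ[K] K}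
    {a1 a2 a3 : K} (ha1 : a1 ≠ 0) (ha2 : a2 ≠ 0) (ha3 : a3 ≠ 0)
    (hex : ∀ c ∈ Λ, ∀ x, Ex A B R1 R2 c x → ∃ β, Cor A B R1 Z g eps c x β)
    (hf1 : ∀ t, ∀ z ∈ Z, ∀ p, f t z p = 0) (hf2 : ∀ t, ∀ z ∈ Z, ∀ p, f t p z = 0)
    (h : Rel A B R1 Z R2 g eps Λ a1 a2 a3 f) : ∀ s i j, i + j + 1 = l s → ∀ p p',
      f s ((A s ^ i) p) ((A s ^ j) p') = 0 := by
  classical
  have hl := H.left ha1 hex hf1 hf2 h
  have hr := H.right ha2 hex hf1 hf2 h
  have h1 : ∀ c ∈ Λ, ∀ c' ∈ Λ, ∀ x x', Ex A B R1 R2 c x → Ex A B R1 R2 c' x' →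
      ∑ t, TensorProduct.lift ((f t) ∘ₗ (ev g (x' t))) (x t) = 0 := by
    intro c hc c' hc' x x' hx hx'
    obtain ⟨β, hβ⟩ := hex c hc x hx
    obtain ⟨β', hβ'⟩ := hex c' hc' x' hx'
    have e := h c hc c' hc' x β x' β' hx hβ hx' hβ'
    have e1 : ∀ t, (f t) ∘ₗ β' = 0 := by
      intro t
      ext p q
      exact hl t _ (hβ'.mem p) q
    have e2 : ∀ t, (f t).flip ∘ₗ β = 0 := by
      intro t
      ext p q
      exact hr t _ (hβ.mem p) q
    simp only [e1, e2, Span2.lift_zero_apply, mul_zero, zero_add, smul_eq_mul] at e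
    rw [← Finset.mul_sum] at e
    exact (mul_eq_zero.1 e).resolve_left ha3
  intro s i j hij p p'
  obtain ⟨p2, p2', hne⟩ := H.ne s
  -- first in `x`
  have h2 : ∀ c' ∈ Λ, ∀ x', Ex A B R1 R2 c' x' →
      f s (ev g (x' s) ((B s ^ i) p2')) ((A s ^ j) p') = 0 := by
    intro c' hc' x' hx'
    exact (H.key0 (fun t => (f t) ∘ₗ (ev g (x' t)))
      (fun c hc x hx => h1 c hc c' hc' x x' hx hx')).2 s j i (by omega) p2' p'
  have h3 := (H.key0 (fun t => if t = s then
      (g.flip ((B s ^ i) p2')).smulRight ((f s).flip ((A s ^ j) p')) else 0)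
    (fun c hc x hx => by
      rw [Finset.sum_eq_single s]
      · rw [if_pos rfl, ← h2 c hc x hx]
        generalize x s = z
        induction z using TensorProduct.induction_on with
        | zero => simp
        | tmul x y => simp
        | add x y hx hy =>
          rw [map_add, hx, hy, map_add, LinearMap.add_apply, map_add, LinearMap.add_apply]
      · intro t _ ht
        rw [if_neg ht, Span2.lift_zero_apply]
      · intro h
        exact absurd (Finset.mem_univ s) h)).2 s i j hij p2 p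
  rw [if_pos rfl] at h3
  simp only [LinearMap.smulRight_apply, LinearMap.flip_apply, LinearMap.smul_apply,
      smul_eq_mul] at h3
  have e1 : g ((B s ^ (l s - 1)) p2) p2' = eps ^ i * g ((B s ^ j) p2) ((B s ^ i) p2') := by
    have e2 : ∀ n q q', g ((B s ^ n) q) q' = eps ^ n * g q ((B s ^ n) q') := by
      intro n
      induction n with
      | zero => intro q q'; simp
      | succ n ih =>
        intro q q'
        have e3 : (B s ^ (n + 1)) q = B s ((B s ^ n) q) := by rw [pow_succ']; rfl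
        have e4 : (B s ^ (n + 1)) q' = (B s ^ n) (B s q') := by rw [pow_succ]; rfl
        rw [e3, H.adj, ih, e4]
        ring
    rw [← e2]
    have e5 : (B s ^ i) ((B s ^ j) p2) = (B s ^ (l s - 1)) p2 := by
      have : l s - 1 = i + j := by omega
      rw [this, pow_add]
      rfl
    rw [e5]
  have hne' : g ((B s ^ j) p2) ((B s ^ i) p2') ≠ 0 := by
    intro h
    rw [h, mul_zero] at e1
    exact hne e1
  exact (mul_eq_zero.1 h3).resolve_left hne'

/-- **The abstract end with arbitrary radical, correction modulo a harmless submodule.** -/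
theorem main (sZ : ∀ t, ∀ z ∈ Z, A t z ∈ Z) (hA : ⨆ t, LinearMap.range (A t) = ⊤) (hB : ⨆ t, LinearMap.range (B t) = ⊤)
    (hR1 : ∀ t, ∀ r ∈ R1, A t r ∈ R1) (hR2 : ∀ t, ∀ r ∈ R2, B t r ∈ R2) {m : ℕ}
    (hN1 : ∀ w : List τ, w.length = m → ∀ r ∈ R1, (w.map A).prod r = 0)
    (hN2 : ∀ w : List τ, w.length = m → ∀ r ∈ R2, (w.map B).prod r = 0)
    (hl : ∀ s, 1 ≤ l s)
    (hl1 : ∀ s p, (A s ^ l s) p ∈ R1) (hl2 : ∀ s p, (B s ^ l s) p ∈ R2)
    (gen1 : ∀ S : Submodule K P1, (∀ t, ∀ v ∈ S, A t v ∈ S) → (∀ s p, (A s ^ l s) p ∈ S) → R1 ≤ S)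
    (gen2 : ∀ S : Submodule K P2, (∀ t, ∀ v ∈ S, B t v ∈ S) → (∀ s p, (B s ^ l s) p ∈ S) → R2 ≤ S)
    (heps : eps ≠ 0) (gR1 : ∀ r ∈ R2, ∀ p, g r p = 0) (gR2 : ∀ r ∈ R2, ∀ p, g p r = 0)
    (gB : ∀ t p p', g (B t p) p' = eps * g p (B t p'))
    (gtop : ∀ s, ∃ p p', g ((B s ^ (l s - 1)) p) p' ≠ 0)
    {Λ : Set K} (hΛ : Λ.Infinite) (h0 : (0 : K) ∉ Λ)
    (q : τ → P1 →ₗ[K] P1 →ₗ[K] E) (Q : Submodule K E) {a1 a2 a3 : K}
    (ha1 : a1 ≠ 0) (ha2 : a2 ≠ 0) (ha3 : a3 ≠ 0)
    (hZq : ∀ t, ∀ z ∈ Z, ∀ p, q t z p ∈ Q) (hqZ : ∀ t, ∀ z ∈ Z, ∀ p, q t p z ∈ Q)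
    (hex : ∀ c ∈ Λ, ∀ x, Ex A B R1 R2 c x → ∃ b, Cor A B R1 Z g eps c x b)
    (hrel : ∀ c ∈ Λ, ∀ c' ∈ Λ, ∀ x b x' b', Ex A B R1 R2 c x → Cor A B R1 Z g eps c x b →
      Ex A B R1 R2 c' x' → Cor A B R1 Z g eps c' x' b' →
      ∑ t, (a1 • TensorProduct.lift ((q t) ∘ₗ b') (x t)
        + a2 • TensorProduct.lift ((q t).flip ∘ₗ b) (x' t)
        + a3 • TensorProduct.lift ((q t) ∘ₗ (ev g (x' t))) (x t)) ∈ Q) :
    (∀ t, ∀ r ∈ R1, ∀ p, q t r p ∈ Q ∧ q t p r ∈ Q) ∧
      (∀ s i j, i + j + 1 = l s → ∀ p p', q s ((A s ^ i) p) ((A s ^ j) p') ∈ Q) := by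
  have H : Hyp A B R1 Z R2 m l g eps Λ :=
    { hA := hA
      hB := hB
      sR1 := fun t => by
        rintro _ ⟨r, hr, rfl⟩
        exact hR1 t r hr
      sR2 := fun t => by
        rintro _ ⟨r, hr, rfl⟩
        exact hR2 t r hr
      n1 := Span2.Dn_eq_bot hN1
      n2 := Span2.Dn_eq_bot hN2
      lpos := hl
      l1 := hl1
      l2 := hl2
      gen1 := fun X hX => gen1 X fun t v hv => hX t (Submodule.mem_map_of_mem hv)
      gen2 := fun X hX => gen2 X fun t v hv => hX t (Submodule.mem_map_of_mem hv)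
      eps0 := heps
      rad1 := gR1
      rad2 := gR2
      adj := gB
      ne := gtop
      inf := hΛ
      zero := h0
      sZ := sZ }
  have hf : ∀ φ : E →ₗ[K] K, Q ≤ LinearMap.ker φ →
      Rel A B R1 Z R2 g eps Λ a1 a2 a3 (fun t => (q t).compr₂ φ) := by
    intro φ hφ c hc c' hc' x β x' β' hx hβ hx' hβ'
    have e := hφ (hrel c hc c' hc' x β x' β' hx hβ hx' hβ')
    rw [LinearMap.mem_ker, map_sum] at e
    rw [← e]
    refine Finset.sum_congr rfl fun t _ => ?_
    rw [map_add, map_add, map_smul, map_smul, map_smul]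
    congr 1
    · congr 2
      · generalize x t = z
        induction z using TensorProduct.induction_on with
        | zero => simp
        | tmul a b => simp
        | add a b ha hb => rw [map_add, ha, hb, map_add, map_add]
      · generalize x' t = z
        induction z using TensorProduct.induction_on with
        | zero => simp
        | tmul a b => simp
        | add a b ha hb => rw [map_add, ha, hb, map_add, map_add]
    · congr 1
      generalize x t = z
      induction z using TensorProduct.induction_on with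
      | zero => simp
      | tmul a b => simp
      | add a b ha hb => rw [map_add, ha, hb, map_add, map_add]
  have hz1 : ∀ φ : E →ₗ[K] K, Q ≤ LinearMap.ker φ → ∀ t, ∀ z ∈ Z, ∀ p,
      (fun t => (q t).compr₂ φ) t z p = 0 := fun φ hφ t z hz p => by
    have := hφ (hZq t z hz p)
    rw [LinearMap.mem_ker] at this
    simpa using this
  have hz2 : ∀ φ : E →ₗ[K] K, Q ≤ LinearMap.ker φ → ∀ t, ∀ z ∈ Z, ∀ p,
      (fun t => (q t).compr₂ φ) t p z = 0 := fun φ hφ t z hz p => by
    have := hφ (hqZ t z hz p)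
    rw [LinearMap.mem_ker] at this
    simpa using this
  have hmem : ∀ v : E, (∀ φ : E →ₗ[K] K, Q ≤ LinearMap.ker φ → φ v = 0) → v ∈ Q := by
    intro v hv
    by_contra hcon
    obtain ⟨φ, h1, h2⟩ := Submodule.exists_le_ker_of_notMem hcon
    exact h1 (hv φ h2)
  refine ⟨fun t r hr p => ⟨hmem _ fun φ hφ => ?_, hmem _ fun φ hφ => ?_⟩,
    fun s i j hij p p' => hmem _ fun φ hφ => ?_⟩
  · exact H.left ha1 hex (hz1 φ hφ) (hz2 φ hφ) (hf φ hφ) t r hr p
  · exact H.right ha2 hex (hz1 φ hφ) (hz2 φ hφ) (hf φ hφ) t r hr p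
  · exact H.prod ha1 ha2 ha3 hex (hz1 φ hφ) (hz2 φ hφ) (hf φ hφ) s i j hij p p'

end Main

end Crest.Agent.R172.RJZ
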