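import Crest.Agent.R172.RJP
import Crest.Agent.R172.RJZ

/-!
# `RJZ.main` with a two-term relation and additional data (triples `(x, b, k)`)

* `mainG` : additional data `v : V3` with an arbitrary pencil condition `a3 u = c • b3 u`.
* `main3` : `v = k : P1 → P2`, the correction with the roles exchanged (`CorK`).
Corrections are only needed modulo `Z` (resp. `Z2`); `Z = ⊥` is the exact form.
-/

set_option linter.unusedSectionVars false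

namespace Crest.Agent.R172.RJP3

open Finset TensorProduct Module
open Crest.Agent.R172.RJM (DD Ex ev ev_tmul RT TR)
open Crest.Agent.R172.RJP (par_sep Pr F1 F1L)

variable {K : Type*} [Field K] {P1 P2 E τ : Type*} [AddCommGroup P1] [Module K P1]
  [AddCommGroup P2] [Module K P2] [AddCommGroup E] [Module K E] [Fintype τ]

section pencil
variable (A : τ → End K P1) (B : τ → End K P2) (R1 Z : Submodule K P1) (R2 : Submodule K P2)
  (g : P2 →ₗ[K] P2 →ₗ[K] K) (eps : K)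

/-- the values of the pencil -/
abbrev Gr (τ : Type*) (R1 Z : Submodule K P1) (R2 : Submodule K P2) :=
  ((P2 ⊗[K] P1) × (τ → (P2 ⊗[K] P1) ⧸ (RT R2 ⊔ TR R1 : Submodule K (P2 ⊗[K] P1)))) ×
    ((τ → P2 →ₗ[K] (P1 ⧸ Z)) × (P2 →ₗ[K] (P1 ⧸ R1)))

/-- the pencil of `Ex` and `Cor` mod `Z`, first part -/
noncomputable def alP : Pr K P1 P2 τ →ₗ[K] Gr τ R1 Z R2 where
  toFun y := ((∑ t, (A t).lTensor P2 (y.1 t),
    fun t => Submodule.Quotient.mk ((A t).lTensor P2 (y.1 t))),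
    (fun t => Z.mkQ ∘ₗ (A t ∘ₗ y.2 - A t ∘ₗ ev g (y.1 t)), R1.mkQ ∘ₗ y.2))
  map_add' a b := by
    refine Prod.ext (Prod.ext ?_ ?_) (Prod.ext ?_ ?_)
    · simp [Finset.sum_add_distrib]
    · funext t; simp
    · funext t; ext p; simp; abel
    · ext p; simp
  map_smul' c a := by
    refine Prod.ext (Prod.ext ?_ ?_) (Prod.ext ?_ ?_)
    · simp [Finset.smul_sum]
    · funext t; simp
    · funext t; ext p; simp [smul_sub]
    · ext p; simp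

/-- the pencil of `Ex` and `Cor` mod `Z`, second part -/
noncomputable def beP : Pr K P1 P2 τ →ₗ[K] Gr τ R1 Z R2 where
  toFun y := ((∑ t, (B t).rTensor P1 (y.1 t),
    fun t => Submodule.Quotient.mk ((B t).rTensor P1 (y.1 t))),
    (fun t => eps • (Z.mkQ ∘ₗ (y.2 ∘ₗ B t - ev g (y.1 t) ∘ₗ B t)), 0))
  map_add' a b := by
    refine Prod.ext (Prod.ext ?_ ?_) (Prod.ext ?_ ?_)
    · simp [Finset.sum_add_distrib]
    · funext t; simp
    · funext t; ext p; simp only [Prod.snd_add, Prod.fst_add, Pi.add_apply, map_add,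
        LinearMap.add_comp, LinearMap.smul_apply, LinearMap.sub_apply, LinearMap.add_apply,
        LinearMap.comp_apply, map_sub]; module
    · ext p; simp
  map_smul' c a := by
    refine Prod.ext (Prod.ext ?_ ?_) (Prod.ext ?_ ?_)
    · simp [Finset.smul_sum]
    · funext t; simp
    · funext t; ext p; simp only [Prod.smul_snd, Prod.smul_fst, Pi.smul_apply, map_smul,
        LinearMap.smul_comp, LinearMap.smul_apply, LinearMap.sub_apply,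
        LinearMap.comp_apply, RingHom.id_apply, map_sub]; module
    · ext p; simp

theorem pencil_iff (c : K) (y : Pr K P1 P2 τ) :
    alP A R1 Z R2 g y = c • beP B R1 Z R2 g eps y ↔
      Ex A B R1 R2 c y.1 ∧ RJZ.Cor A B R1 Z g eps c y.1 y.2 := by
  have hx : (∑ t, (A t).lTensor P2 (y.1 t) = c • ∑ t, (B t).rTensor P1 (y.1 t)) ↔
      ∑ t, DD A B c t (y.1 t) = 0 := by
    simp only [DD, LinearMap.sub_apply, LinearMap.smul_apply, Finset.sum_sub_distrib,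
      ← Finset.smul_sum]
    rw [sub_eq_zero]
  have hZ : ∀ t p, (Z.mkQ (A t (y.2 p) - A t (ev g (y.1 t) p))
      = c • eps • Z.mkQ (y.2 (B t p) - ev g (y.1 t) (B t p))) ↔
      (A t (y.2 p) - (eps * c) • y.2 (B t p))
        - (A t (ev g (y.1 t) p) - (eps * c) • ev g (y.1 t) (B t p)) ∈ Z := by
    intro t p
    rw [← map_smul, ← map_smul, ← sub_eq_zero, ← map_sub, Submodule.mkQ_apply,
      Submodule.Quotient.mk_eq_zero]
    have e : A t (y.2 p) - A t (ev g (y.1 t) p)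
        - c • eps • (y.2 (B t p) - ev g (y.1 t) (B t p))
        = (A t (y.2 p) - (eps * c) • y.2 (B t p))
        - (A t (ev g (y.1 t) p) - (eps * c) • ev g (y.1 t) (B t p)) := by module
    rw [e]
  constructor
  · intro h
    have h1 := congrArg (fun z => z.1.1) h
    have h2 := congrArg (fun z => z.1.2) h
    have h3 := congrArg (fun z => z.2.1) h
    have h4 := congrArg (fun z => z.2.2) h
    refine ⟨⟨hx.1 (by simpa [alP, beP] using h1), fun t => ?_⟩, ⟨fun p => ?_, fun t p => ?_⟩⟩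
    · have h5 := congrFun h2 t
      simp only [alP, beP, LinearMap.coe_mk, AddHom.coe_mk, Prod.smul_fst, Prod.smul_snd,
        Pi.smul_apply, ← Submodule.Quotient.mk_smul] at h5
      rw [DD, LinearMap.sub_apply, LinearMap.smul_apply]
      exact (Submodule.Quotient.eq _).1 h5
    · have h5 := LinearMap.congr_fun h4 p
      simp only [alP, beP, LinearMap.coe_mk, AddHom.coe_mk, Prod.smul_snd, smul_zero,
        LinearMap.comp_apply, LinearMap.zero_apply] at h5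
      exact (Submodule.Quotient.mk_eq_zero _).1 h5
    · have h5 := LinearMap.congr_fun (congrFun h3 t) p
      simp only [alP, beP, LinearMap.coe_mk, AddHom.coe_mk, Prod.smul_fst, Prod.smul_snd,
        Pi.smul_apply, LinearMap.comp_apply, LinearMap.sub_apply, LinearMap.smul_apply] at h5
      exact (hZ t p).1 h5
  · rintro ⟨h1, h2⟩
    refine Prod.ext (Prod.ext ?_ ?_) (Prod.ext ?_ ?_)
    · simpa [alP, beP] using hx.2 h1.sum
    · funext t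
      have h3 := h1.arm t
      rw [DD, LinearMap.sub_apply, LinearMap.smul_apply] at h3
      simp only [alP, beP, LinearMap.coe_mk, AddHom.coe_mk, Prod.smul_fst, Prod.smul_snd,
        Pi.smul_apply, ← Submodule.Quotient.mk_smul]
      exact (Submodule.Quotient.eq _).2 h3
    · funext t
      ext p
      simp only [alP, beP, LinearMap.coe_mk, AddHom.coe_mk, Prod.smul_fst, Prod.smul_snd,
        Pi.smul_apply, LinearMap.comp_apply, LinearMap.sub_apply, LinearMap.smul_apply]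
      exact (hZ t p).2 (h2.eq t p)
    · ext p
      have h3 := h2.mem p
      simp only [alP, beP, LinearMap.coe_mk, AddHom.coe_mk, Prod.smul_snd, smul_zero,
        LinearMap.comp_apply, LinearMap.zero_apply]
      exact (Submodule.Quotient.mk_eq_zero _).2 h3

end pencil

variable {A : τ → End K P1} {B : τ → End K P2} {R1 Z : Submodule K P1} {R2 Z2 : Submodule K P2}
  {l : τ → ℕ} {g : P2 →ₗ[K] P2 →ₗ[K] K} {eps : K}

/-- **`RJZ.main` with a two-term relation and additional data `v : V3`.** -/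
theorem mainG [FiniteDimensional K P1] [FiniteDimensional K P2]
    {V3 G3 : Type*} [AddCommGroup V3] [Module K V3] [FiniteDimensional K V3]
    [AddCommGroup G3] [Module K G3] (a3l b3l : Pr K P1 P2 τ × V3 →ₗ[K] G3)
    (sZ : ∀ t, ∀ z ∈ Z, A t z ∈ Z)
    (hA : ⨆ t, LinearMap.range (A t) = ⊤) (hB : ⨆ t, LinearMap.range (B t) = ⊤)
    (hR1 : ∀ t, ∀ r ∈ R1, A t r ∈ R1) (hR2 : ∀ t, ∀ r ∈ R2, B t r ∈ R2) {m : ℕ}
    (hN1 : ∀ w : List τ, w.length = m → ∀ r ∈ R1, (w.map A).prod r = 0)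
    (hN2 : ∀ w : List τ, w.length = m → ∀ r ∈ R2, (w.map B).prod r = 0)
    (hl : ∀ s, 1 ≤ l s)
    (hl1 : ∀ s p, (A s ^ l s) p ∈ R1) (hl2 : ∀ s p, (B s ^ l s) p ∈ R2)
    (gen1 : ∀ S : Submodule K P1, (∀ t, ∀ v ∈ S, A t v ∈ S) → (∀ s p, (A s ^ l s) p ∈ S) → R1 ≤ S)
    (gen2 : ∀ S : Submodule K P2, (∀ t, ∀ v ∈ S, B t v ∈ S) → (∀ s p, (B s ^ l s) p ∈ S) → R2 ≤ S)
    (heps : eps ≠ 0) (gR1 : ∀ r ∈ R2, ∀ p, g r p = 0) (gR2 : ∀ r ∈ R2, ∀ p, g p r = 0)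
    (gB : ∀ t p p', g (B t p) p' = eps * g p (B t p'))
    (gtop : ∀ s, ∃ p p', g ((B s ^ (l s - 1)) p) p' ≠ 0)
    {R : Set K} (hR : R.Infinite) (h0 : (0 : K) ∉ R)
    (q : τ → P1 →ₗ[K] P1 →ₗ[K] E) (Q : Submodule K E) {a1 a2 a3 : K}
    (ha1 : a1 ≠ 0) (ha2 : a2 ≠ 0) (ha3 : a3 ≠ 0)
    (hZq : ∀ t, ∀ z ∈ Z, ∀ p, q t z p ∈ Q) (hqZ : ∀ t, ∀ z ∈ Z, ∀ p, q t p z ∈ Q)
    (hex : ∀ ρ ∈ R, ∀ x, Ex A B R1 R2 (ρ ^ 2) x → ∃ b, RJZ.Cor A B R1 Z g eps (ρ ^ 2) x b)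
    (hexV : ∀ ρ ∈ R, ∀ x b, Ex A B R1 R2 (ρ ^ 2) x → RJZ.Cor A B R1 Z g eps (ρ ^ 2) x b →
      ∃ v, a3l ((x, b), v) = ρ ^ 2 • b3l ((x, b), v))
    (F2 : Pr K P1 P2 τ × V3 → (Pr K P1 P2 τ × V3 →ₗ[K] E))
    (hrel : ∀ ρ ∈ R, ∀ ρ' ∈ R, ∀ x b v x' b' v', Ex A B R1 R2 (ρ ^ 2) x →
      RJZ.Cor A B R1 Z g eps (ρ ^ 2) x b → a3l ((x, b), v) = ρ ^ 2 • b3l ((x, b), v) →
      Ex A B R1 R2 (ρ' ^ 2) x' → RJZ.Cor A B R1 Z g eps (ρ' ^ 2) x' b' →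
      a3l ((x', b'), v') = ρ' ^ 2 • b3l ((x', b'), v') →
      ∑ t, (a1 • TensorProduct.lift ((q t) ∘ₗ b') (x t)
        + a2 • TensorProduct.lift ((q t).flip ∘ₗ b) (x' t)
        + a3 • TensorProduct.lift ((q t) ∘ₗ (ev g (x' t))) (x t))
        + ρ' • F2 ((x, b), v) ((x', b'), v') ∈ Q) :
    (∀ t, ∀ r ∈ R1, ∀ p, q t r p ∈ Q ∧ q t p r ∈ Q) ∧
      (∀ s i j, i + j + 1 = l s → ∀ p p', q s ((A s ^ i) p) ((A s ^ j) p') ∈ Q) := by
  classical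
  -- parameters
  let T := {u : Pr K P1 P2 τ × V3 // ∃ ρ ∈ R, Ex A B R1 R2 (ρ ^ 2) u.1.1 ∧
    RJZ.Cor A B R1 Z g eps (ρ ^ 2) u.1.1 u.1.2 ∧ a3l u = ρ ^ 2 • b3l u}
  -- the pencil
  let al : Pr K P1 P2 τ × V3 →ₗ[K] Gr τ R1 Z R2 × G3 :=
    ((alP A R1 Z R2 g).comp (LinearMap.fst K _ _)).prod a3l
  let be : Pr K P1 P2 τ × V3 →ₗ[K] Gr τ R1 Z R2 × G3 :=
    ((beP B R1 Z R2 g eps).comp (LinearMap.fst K _ _)).prod b3l
  have hiff : ∀ (c : K) (y : Pr K P1 P2 τ × V3), al y = c • be y ↔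
      (Ex A B R1 R2 c y.1.1 ∧ RJZ.Cor A B R1 Z g eps c y.1.1 y.1.2) ∧ a3l y = c • b3l y := by
    intro c y
    rw [← pencil_iff A B R1 Z R2 g eps c y.1]
    constructor
    · intro h
      exact ⟨congrArg Prod.fst h, congrArg Prod.snd h⟩
    · rintro ⟨h1, h2⟩
      exact Prod.ext h1 h2
  have hkey : ∀ r ∈ R, ∀ y : Pr K P1 P2 τ × V3, al y = r ^ 2 • be y →
      ∀ u : T, ((F1L g q a1 a2 a3 u.1.1).comp (LinearMap.fst K _ _)) y + r • F2 u.1 y ∈ Q := by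
    rintro ρ' hρ' v hv ⟨u, ρ, hρ, hu1, hu2, hu3⟩
    obtain ⟨⟨hv1, hv2⟩, hv3⟩ := (hiff (ρ' ^ 2) v).1 hv
    exact hrel ρ hρ ρ' hρ' u.1.1 u.1.2 u.2 v.1.1 v.1.2 v.2 hu1 hu2 hu3 hv1 hv2 hv3
  obtain ⟨S, hS, h⟩ := par_sep (T := T) al be Q
    (fun u => (F1L g q a1 a2 a3 u.1.1).comp (LinearMap.fst K _ _)) (fun u => F2 u.1) hR hkey
  have hsq : ((fun ρ : K => ρ ^ 2) '' R).Infinite := by
    intro hfin
    refine hR (Set.Finite.of_finite_fibers _ hfin ?_)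
    rintro _ ⟨r, -, rfl⟩
    refine Set.Finite.subset (Set.toFinite {r, -r}) ?_
    rintro ρ ⟨-, hρ⟩
    exact sq_eq_sq_iff_eq_or_eq_neg.1 hρ
  refine RJZ.main sZ hA hB hR1 hR2 hN1 hN2 hl hl1 hl2 gen1 gen2 heps gR1 gR2 gB gtop
    (Λ := ((fun ρ : K => ρ ^ 2) '' R) \ S) (hsq.sdiff hS) ?_ q Q ha1 ha2 ha3 hZq hqZ ?_ ?_
  · rintro ⟨⟨ρ, hρ, h1⟩, -⟩
    have h2 : ρ = 0 := by simpa using h1
    exact h0 (h2 ▸ hρ)
  · rintro _ ⟨⟨ρ, hρ, rfl⟩, -⟩ x hx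
    exact hex ρ hρ x hx
  · rintro _ ⟨⟨ρ, hρ, rfl⟩, -⟩ _ ⟨⟨ρ', hρ', rfl⟩, hc'⟩ x b x' b' hx hb hx' hb'
    obtain ⟨v, hv⟩ := hexV ρ hρ x b hx hb
    obtain ⟨v', hv'⟩ := hexV ρ' hρ' x' b' hx' hb'
    exact (h (ρ' ^ 2) hc' ((x', b'), v') ((hiff _ _).2 ⟨⟨hx', hb'⟩, hv'⟩)
      ⟨((x, b), v), ρ, hρ, hx, hb, hv⟩).1

/-! ### the other correction `k : P1 → P2` -/

/-- `p2 ⊗ p1 ↦ (p ↦ g1 p1 p • p2)` -/
noncomputable def evk (g1 : P1 →ₗ[K] P1 →ₗ[K] K) : P2 ⊗[K] P1 →ₗ[K] (P1 →ₗ[K] P2) :=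
  TensorProduct.lift (LinearMap.mk₂ K (fun p2 p1 => (g1 p1).smulRight p2)
    (fun a b p => by ext q; simp) (fun a b p => by
      ext q
      simp only [LinearMap.smulRight_apply, LinearMap.smul_apply]
      rw [smul_comm])
    (fun a p p' => by ext q; simp [add_smul]) (fun a b p => by ext q; simp [mul_smul]))

@[simp] theorem evk_tmul (g1 : P1 →ₗ[K] P1 →ₗ[K] K) (p2 : P2) (p1 p : P1) :
    evk g1 (p2 ⊗ₜ[K] p1) p = g1 p1 p • p2 := by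
  simp [evk]

/-- the correction `k : P1 → P2` (the roles exchanged, at `c⁻¹`), modulo `Z2` -/
structure CorK (A : τ → End K P1) (B : τ → End K P2) (R2 Z2 : Submodule K P2)
    (g1 : P1 →ₗ[K] P1 →ₗ[K] K) (eps c : K) (x : τ → P2 ⊗[K] P1) (k : P1 →ₗ[K] P2) : Prop where
  mem : ∀ p, k p ∈ R2
  eq : ∀ t p, eps • (k (A t p) - evk g1 (x t) (A t p))
    - c • (B t (k p) - B t (evk g1 (x t) p)) ∈ Z2

/-- the pencil of `CorK`, first part -/
noncomputable def alK (A : τ → End K P1) (R2 Z2 : Submodule K P2)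
    (g1 : P1 →ₗ[K] P1 →ₗ[K] K) (eps : K) :
    Pr K P1 P2 τ × (P1 →ₗ[K] P2) →ₗ[K] (τ → P1 →ₗ[K] (P2 ⧸ Z2)) × (P1 →ₗ[K] (P2 ⧸ R2)) where
  toFun y := (fun t => eps • (Z2.mkQ ∘ₗ (y.2 ∘ₗ A t - evk g1 (y.1.1 t) ∘ₗ A t)), R2.mkQ ∘ₗ y.2)
  map_add' a b := by
    refine Prod.ext ?_ ?_
    · funext t; ext p; simp only [Prod.snd_add, Prod.fst_add, Pi.add_apply, map_add,
        LinearMap.add_comp, LinearMap.smul_apply, LinearMap.sub_apply, LinearMap.add_apply,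
        LinearMap.comp_apply, map_sub]; module
    · ext p; simp
  map_smul' c a := by
    refine Prod.ext ?_ ?_
    · funext t; ext p; simp only [Prod.smul_snd, Prod.smul_fst, Pi.smul_apply, map_smul,
        LinearMap.smul_comp, LinearMap.smul_apply, LinearMap.sub_apply,
        LinearMap.comp_apply, RingHom.id_apply, map_sub]; module
    · ext p; simp

/-- the pencil of `CorK`, second part -/
noncomputable def beK (B : τ → End K P2) (R2 Z2 : Submodule K P2)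
    (g1 : P1 →ₗ[K] P1 →ₗ[K] K) :
    Pr K P1 P2 τ × (P1 →ₗ[K] P2) →ₗ[K] (τ → P1 →ₗ[K] (P2 ⧸ Z2)) × (P1 →ₗ[K] (P2 ⧸ R2)) where
  toFun y := (fun t => Z2.mkQ ∘ₗ (B t ∘ₗ y.2 - B t ∘ₗ evk g1 (y.1.1 t)), 0)
  map_add' a b := by
    refine Prod.ext ?_ ?_
    · funext t; ext p; simp; abel
    · ext p; simp
  map_smul' c a := by
    refine Prod.ext ?_ ?_
    · funext t; ext p; simp [smul_sub]
    · ext p; simp

theorem pencilK_iff (A : τ → End K P1) (B : τ → End K P2) (R2 Z2 : Submodule K P2)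
    (g1 : P1 →ₗ[K] P1 →ₗ[K] K) (eps c : K) (y : Pr K P1 P2 τ × (P1 →ₗ[K] P2)) :
    alK A R2 Z2 g1 eps y = c • beK B R2 Z2 g1 y ↔ CorK A B R2 Z2 g1 eps c y.1.1 y.2 := by
  have hZ : ∀ t p, (eps • Z2.mkQ (y.2 (A t p) - evk g1 (y.1.1 t) (A t p))
      = c • Z2.mkQ (B t (y.2 p) - B t (evk g1 (y.1.1 t) p))) ↔
      eps • (y.2 (A t p) - evk g1 (y.1.1 t) (A t p))
        - c • (B t (y.2 p) - B t (evk g1 (y.1.1 t) p)) ∈ Z2 := by
    intro t p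
    rw [← map_smul, ← map_smul, ← sub_eq_zero, ← map_sub, Submodule.mkQ_apply,
      Submodule.Quotient.mk_eq_zero]
  constructor
  · intro h
    have h3 := congrArg (fun z => z.1) h
    have h4 := congrArg (fun z => z.2) h
    refine ⟨fun p => ?_, fun t p => ?_⟩
    · have h5 := LinearMap.congr_fun h4 p
      simp only [alK, beK, LinearMap.coe_mk, AddHom.coe_mk, Prod.smul_snd, smul_zero,
        LinearMap.comp_apply, LinearMap.zero_apply] at h5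
      exact (Submodule.Quotient.mk_eq_zero _).1 h5
    · have h5 := LinearMap.congr_fun (congrFun h3 t) p
      simp only [alK, beK, LinearMap.coe_mk, AddHom.coe_mk, Prod.smul_fst,
        Pi.smul_apply, LinearMap.comp_apply, LinearMap.sub_apply, LinearMap.smul_apply] at h5
      exact (hZ t p).1 h5
  · intro h2
    refine Prod.ext ?_ ?_
    · funext t
      ext p
      simp only [alK, beK, LinearMap.coe_mk, AddHom.coe_mk, Prod.smul_fst,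
        Pi.smul_apply, LinearMap.comp_apply, LinearMap.sub_apply, LinearMap.smul_apply]
      exact (hZ t p).2 (h2.eq t p)
    · ext p
      have h3 := h2.mem p
      simp only [alK, beK, LinearMap.coe_mk, AddHom.coe_mk, Prod.smul_snd, smul_zero,
        LinearMap.comp_apply, LinearMap.zero_apply]
      exact (Submodule.Quotient.mk_eq_zero _).2 h3

/-- **`RJZ.main` with a two-term relation and triples `(x, b, k)`.** -/
theorem main3 [FiniteDimensional K P1] [FiniteDimensional K P2]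
    (sZ : ∀ t, ∀ z ∈ Z, A t z ∈ Z)
    (hA : ⨆ t, LinearMap.range (A t) = ⊤) (hB : ⨆ t, LinearMap.range (B t) = ⊤)
    (hR1 : ∀ t, ∀ r ∈ R1, A t r ∈ R1) (hR2 : ∀ t, ∀ r ∈ R2, B t r ∈ R2) {m : ℕ}
    (hN1 : ∀ w : List τ, w.length = m → ∀ r ∈ R1, (w.map A).prod r = 0)
    (hN2 : ∀ w : List τ, w.length = m → ∀ r ∈ R2, (w.map B).prod r = 0)
    (hl : ∀ s, 1 ≤ l s)
    (hl1 : ∀ s p, (A s ^ l s) p ∈ R1) (hl2 : ∀ s p, (B s ^ l s) p ∈ R2)
    (gen1 : ∀ S : Submodule K P1, (∀ t, ∀ v ∈ S, A t v ∈ S) → (∀ s p, (A s ^ l s) p ∈ S) → R1 ≤ S)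
    (gen2 : ∀ S : Submodule K P2, (∀ t, ∀ v ∈ S, B t v ∈ S) → (∀ s p, (B s ^ l s) p ∈ S) → R2 ≤ S)
    (heps : eps ≠ 0) (gR1 : ∀ r ∈ R2, ∀ p, g r p = 0) (gR2 : ∀ r ∈ R2, ∀ p, g p r = 0)
    (gB : ∀ t p p', g (B t p) p' = eps * g p (B t p'))
    (gtop : ∀ s, ∃ p p', g ((B s ^ (l s - 1)) p) p' ≠ 0)
    (g1 : P1 →ₗ[K] P1 →ₗ[K] K) (epsK : K)
    {R : Set K} (hR : R.Infinite) (h0 : (0 : K) ∉ R)
    (q : τ → P1 →ₗ[K] P1 →ₗ[K] E) (Q : Submodule K E) {a1 a2 a3 : K}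
    (ha1 : a1 ≠ 0) (ha2 : a2 ≠ 0) (ha3 : a3 ≠ 0)
    (hZq : ∀ t, ∀ z ∈ Z, ∀ p, q t z p ∈ Q) (hqZ : ∀ t, ∀ z ∈ Z, ∀ p, q t p z ∈ Q)
    (hex : ∀ ρ ∈ R, ∀ x, Ex A B R1 R2 (ρ ^ 2) x → ∃ b, RJZ.Cor A B R1 Z g eps (ρ ^ 2) x b)
    (hexK : ∀ ρ ∈ R, ∀ x, Ex A B R1 R2 (ρ ^ 2) x → ∃ k, CorK A B R2 Z2 g1 epsK (ρ ^ 2) x k)
    (F2 : Pr K P1 P2 τ × (P1 →ₗ[K] P2) → (Pr K P1 P2 τ × (P1 →ₗ[K] P2) →ₗ[K] E))
    (hrel : ∀ ρ ∈ R, ∀ ρ' ∈ R, ∀ x b k x' b' k', Ex A B R1 R2 (ρ ^ 2) x →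
      RJZ.Cor A B R1 Z g eps (ρ ^ 2) x b → CorK A B R2 Z2 g1 epsK (ρ ^ 2) x k →
      Ex A B R1 R2 (ρ' ^ 2) x' → RJZ.Cor A B R1 Z g eps (ρ' ^ 2) x' b' →
      CorK A B R2 Z2 g1 epsK (ρ' ^ 2) x' k' →
      ∑ t, (a1 • TensorProduct.lift ((q t) ∘ₗ b') (x t)
        + a2 • TensorProduct.lift ((q t).flip ∘ₗ b) (x' t)
        + a3 • TensorProduct.lift ((q t) ∘ₗ (ev g (x' t))) (x t))
        + ρ' • F2 ((x, b), k) ((x', b'), k') ∈ Q) :
    (∀ t, ∀ r ∈ R1, ∀ p, q t r p ∈ Q ∧ q t p r ∈ Q) ∧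
      (∀ s i j, i + j + 1 = l s → ∀ p p', q s ((A s ^ i) p) ((A s ^ j) p') ∈ Q) := by
  refine mainG (alK A R2 Z2 g1 epsK) (beK B R2 Z2 g1) sZ hA hB hR1 hR2 hN1 hN2 hl hl1 hl2 gen1 gen2
    heps gR1 gR2 gB gtop hR h0 q Q ha1 ha2 ha3 hZq hqZ hex ?_ F2 ?_
  · intro ρ hρ x b hx _
    obtain ⟨k, hk⟩ := hexK ρ hρ x hx
    exact ⟨k, (pencilK_iff A B R2 Z2 g1 epsK (ρ ^ 2) ((x, b), k)).2 hk⟩
  · intro ρ hρ ρ' hρ' x b k x' b' k' hx hb hk hx' hb' hk'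
    exact hrel ρ hρ ρ' hρ' x b k x' b' k' hx hb
      ((pencilK_iff A B R2 Z2 g1 epsK (ρ ^ 2) ((x, b), k)).1 hk) hx' hb'
      ((pencilK_iff A B R2 Z2 g1 epsK (ρ' ^ 2) ((x', b'), k')).1 hk')

end Crest.Agent.R172.RJP3
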