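import Crest.Agent.R172.RJP
import Crest.Agent.R172.RJZ

/-! # Row 172: the abstract end with a two-term relation, correction only modulo `Z`.

`RJPZ.main` is `RJP.main` (helper737) with `RJZ.Cor` (helper719): the equation of the correction only
modulo a submodule `Z` of `P1` which is stable under the `A t` and harmless. -/

set_option autoImplicit false
set_option linter.unusedSectionVars false

open TensorProduct Module

namespace Crest.Agent.R172.RJPZ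

variable {K : Type*} [Field K] {P1 P2 E τ : Type*} [AddCommGroup P1] [Module K P1]
  [AddCommGroup P2] [Module K P2] [AddCommGroup E] [Module K E] [Fintype τ]

open RJM (DD Ex ev)
open RJP (Pr Gr alP beP F1 F1L par_sep pencil_iff)
open RJZ (Cor)

section pencil
variable (A : τ → End K P1) (B : τ → End K P2) (R1 Z : Submodule K P1) (R2 : Submodule K P2)
  (g : P2 →ₗ[K] P2 →ₗ[K] K) (eps : K)

/-- the values of the pencil modulo `Z` -/
abbrev GrZ (τ : Type*) (R1 Z : Submodule K P1) (R2 : Submodule K P2) :=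
  ((P2 ⊗[K] P1) × (τ → (P2 ⊗[K] P1) ⧸ (RJM.RT R2 ⊔ RJM.TR R1 : Submodule K (P2 ⊗[K] P1)))) ×
    ((τ → P2 →ₗ[K] (P1 ⧸ Z)) × (P2 →ₗ[K] (P1 ⧸ R1)))

/-- reduction of the values -/
noncomputable def red : Gr τ R1 R2 →ₗ[K] GrZ τ R1 Z R2 where
  toFun z := (z.1, (fun t => Z.mkQ ∘ₗ z.2.1 t, z.2.2))
  map_add' a b := by
    refine Prod.ext rfl (Prod.ext ?_ rfl)
    funext t; ext p; simp
  map_smul' c a := by
    refine Prod.ext rfl (Prod.ext ?_ rfl)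
    funext t; ext p; simp

theorem pencil_iffZ (c : K) (y : Pr K P1 P2 τ) :
    (red R1 Z R2 ∘ₗ alP A R1 R2 g) y = c • (red R1 Z R2 ∘ₗ beP B R1 R2 g eps) y ↔
      Ex A B R1 R2 c y.1 ∧ Cor A B R1 Z g eps c y.1 y.2 := by
  have hx : (∑ t, (A t).lTensor P2 (y.1 t) = c • ∑ t, (B t).rTensor P1 (y.1 t)) ↔
      ∑ t, DD A B c t (y.1 t) = 0 := by
    simp only [DD, LinearMap.sub_apply, LinearMap.smul_apply, Finset.sum_sub_distrib,
      ← Finset.smul_sum]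
    rw [sub_eq_zero]
  rw [LinearMap.comp_apply, LinearMap.comp_apply]
  constructor
  · intro h
    have h1 := congrArg (fun z => z.1.1) h
    have h2 := congrArg (fun z => z.1.2) h
    have h3 := congrArg (fun z => z.2.1) h
    have h4 := congrArg (fun z => z.2.2) h
    refine ⟨⟨hx.1 (by simpa [alP, beP, red] using h1), fun t => ?_⟩,
      ⟨fun p => ?_, fun t p => ?_⟩⟩
    · have h5 := congrFun h2 t
      simp only [alP, beP, red, LinearMap.coe_mk, AddHom.coe_mk, Prod.smul_fst, Prod.smul_snd,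
        Pi.smul_apply, ← Submodule.Quotient.mk_smul] at h5
      rw [DD, LinearMap.sub_apply, LinearMap.smul_apply]
      exact (Submodule.Quotient.eq _).1 h5
    · have h5 := LinearMap.congr_fun h4 p
      simp only [alP, beP, red, LinearMap.coe_mk, AddHom.coe_mk, Prod.smul_snd, smul_zero,
        LinearMap.comp_apply, LinearMap.zero_apply] at h5
      exact (Submodule.Quotient.mk_eq_zero _).1 h5
    · have h5 := LinearMap.congr_fun (congrFun h3 t) p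
      simp only [alP, beP, red, LinearMap.coe_mk, AddHom.coe_mk, Prod.smul_fst, Prod.smul_snd,
        Pi.smul_apply, LinearMap.comp_apply, LinearMap.sub_apply, LinearMap.smul_apply,
        ← map_smul] at h5
      have h6 := (Submodule.Quotient.eq Z).1 h5
      have h7 : (A t (y.2 p) - (eps * c) • y.2 (B t p))
          - (A t (ev g (y.1 t) p) - (eps * c) • ev g (y.1 t) (B t p)) =
          A t (y.2 p) - A t (ev g (y.1 t) p)
            - c • eps • (y.2 (B t p) - ev g (y.1 t) (B t p)) := by module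
      rw [h7]
      exact h6
  · rintro ⟨h1, h2⟩
    refine Prod.ext (Prod.ext ?_ ?_) (Prod.ext ?_ ?_)
    · simpa [alP, beP, red] using hx.2 h1.sum
    · funext t
      have h3 := h1.arm t
      rw [DD, LinearMap.sub_apply, LinearMap.smul_apply] at h3
      simp only [alP, beP, red, LinearMap.coe_mk, AddHom.coe_mk, Prod.smul_fst, Prod.smul_snd,
        Pi.smul_apply, ← Submodule.Quotient.mk_smul]
      exact (Submodule.Quotient.eq _).2 h3
    · funext t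
      ext p
      have h3 := h2.eq t p
      simp only [alP, beP, red, LinearMap.coe_mk, AddHom.coe_mk, Prod.smul_fst, Prod.smul_snd,
        Pi.smul_apply, LinearMap.comp_apply, LinearMap.sub_apply, LinearMap.smul_apply,
        ← map_smul]
      refine (Submodule.Quotient.eq Z).2 ?_
      have h7 : (A t (y.2 p) - (eps * c) • y.2 (B t p))
          - (A t (ev g (y.1 t) p) - (eps * c) • ev g (y.1 t) (B t p)) =
          A t (y.2 p) - A t (ev g (y.1 t) p)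
            - c • eps • (y.2 (B t p) - ev g (y.1 t) (B t p)) := by module
      rw [h7] at h3
      exact h3
    · ext p
      have h3 := h2.mem p
      simp only [alP, beP, red, LinearMap.coe_mk, AddHom.coe_mk, Prod.smul_snd, smul_zero,
        LinearMap.comp_apply, LinearMap.zero_apply]
      exact (Submodule.Quotient.mk_eq_zero _).2 h3

end pencil

variable {A : τ → End K P1} {B : τ → End K P2} {R1 Z : Submodule K P1} {R2 : Submodule K P2}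
  {l : τ → ℕ} {g : P2 →ₗ[K] P2 →ₗ[K] K} {eps : K}

/-- **`RJZ.main` with a two-term relation.** -/
theorem main [FiniteDimensional K P1] [FiniteDimensional K P2]
    (sZ : ∀ t, ∀ z ∈ Z, A t z ∈ Z)
    (hA : ⨆ t, LinearMap.range (A t) = ⊤) (hB : ⨆ t, LinearMap.range (B t) = ⊤)
    (hR1 : ∀ t, ∀ r ∈ R1, A t r ∈ R1) (hR2 : ∀ t, ∀ r ∈ R2, B t r ∈ R2) {m : ℕ}
    (hN1 : ∀ w : List τ, w.length = m → ∀ r ∈ R1, (w.map A).prod r = 0)
    (hN2 : ∀ w : List τ, w.length = m → ∀ r ∈ R2, (w.map B).prod r = 0)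
    (hl : ∀ s, 1 ≤ l s)
    (hl1 : ∀ s p, (A s ^ l s) p ∈ R1) (hl2 : ∀ s p, (B s ^ l s) p ∈ R2)
    (gen1 : ∀ S : Submodule K P1, (∀ t, ∀ v ∈ S, A t v ∈ S) → (∀ s p, (A s ^ l s) p ∈ S) → R1 ≤ S)
    (gen2 : ∀ S : Submodule K P2, (∀ t, ∀ v ∈ S, B t v ∈ S) → (∀ s p, (B s ^ l s) p ∈ S) → R2 ≤ S)
    (heps : eps ≠ 0) (gR1 : ∀ r ∈ R2, ∀ p, g r p = 0) (gR2 : ∀ r ∈ R2, ∀ p, g p r = 0)
    (gB : ∀ t p p', g (B t p) p' = eps * g p (B t p'))
    (gtop : ∀ s, ∃ p p', g ((B s ^ (l s - 1)) p) p' ≠ 0)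
    {R : Set K} (hR : R.Infinite) (h0 : (0 : K) ∉ R)
    (q : τ → P1 →ₗ[K] P1 →ₗ[K] E) (Q : Submodule K E) {a1 a2 a3 : K}
    (ha1 : a1 ≠ 0) (ha2 : a2 ≠ 0) (ha3 : a3 ≠ 0)
    (hZq : ∀ t, ∀ z ∈ Z, ∀ p, q t z p ∈ Q) (hqZ : ∀ t, ∀ z ∈ Z, ∀ p, q t p z ∈ Q)
    (hex : ∀ ρ ∈ R, ∀ x, Ex A B R1 R2 (ρ ^ 2) x → ∃ b, Cor A B R1 Z g eps (ρ ^ 2) x b)
    (F2 : Pr K P1 P2 τ → (Pr K P1 P2 τ →ₗ[K] E))
    (hrel : ∀ ρ ∈ R, ∀ ρ' ∈ R, ∀ x b x' b', Ex A B R1 R2 (ρ ^ 2) x →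
      Cor A B R1 Z g eps (ρ ^ 2) x b →
      Ex A B R1 R2 (ρ' ^ 2) x' → Cor A B R1 Z g eps (ρ' ^ 2) x' b' →
      ∑ t, (a1 • TensorProduct.lift ((q t) ∘ₗ b') (x t)
        + a2 • TensorProduct.lift ((q t).flip ∘ₗ b) (x' t)
        + a3 • TensorProduct.lift ((q t) ∘ₗ (ev g (x' t))) (x t)) + ρ' • F2 (x, b) (x', b') ∈ Q) :
    (∀ t, ∀ r ∈ R1, ∀ p, q t r p ∈ Q ∧ q t p r ∈ Q) ∧
      (∀ s i j, i + j + 1 = l s → ∀ p p', q s ((A s ^ i) p) ((A s ^ j) p') ∈ Q) := by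
  classical
  -- parameters: exact decorated pairs at some `ρ ^ 2`
  let T := {u : Pr K P1 P2 τ // ∃ ρ ∈ R, Ex A B R1 R2 (ρ ^ 2) u.1 ∧
    Cor A B R1 Z g eps (ρ ^ 2) u.1 u.2}
  have hkey : ∀ r ∈ R, ∀ y : Pr K P1 P2 τ,
      (red R1 Z R2 ∘ₗ alP A R1 R2 g) y = r ^ 2 • (red R1 Z R2 ∘ₗ beP B R1 R2 g eps) y →
      ∀ u : T, F1L g q a1 a2 a3 u.1 y + r • F2 u.1 y ∈ Q := by
    rintro ρ' hρ' v hv ⟨u, ρ, hρ, hu1, hu2⟩
    obtain ⟨hv1, hv2⟩ := (pencil_iffZ A B R1 Z R2 g eps (ρ' ^ 2) v).1 hv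
    exact hrel ρ hρ ρ' hρ' u.1 u.2 v.1 v.2 hu1 hu2 hv1 hv2
  obtain ⟨S, hS, h⟩ := par_sep (T := T) (red R1 Z R2 ∘ₗ alP A R1 R2 g)
    (red R1 Z R2 ∘ₗ beP B R1 R2 g eps) Q
    (fun u => F1L g q a1 a2 a3 u.1) (fun u => F2 u.1) hR hkey
  · -- `Λ`
    have hsq : ((fun ρ : K => ρ ^ 2) '' R).Infinite := by
      intro hfin
      refine hR (Set.Finite.of_finite_fibers _ hfin ?_)
      rintro _ ⟨r, -, rfl⟩
      refine Set.Finite.subset (Set.toFinite {r, -r}) ?_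
      rintro ρ ⟨-, hρ⟩
      exact sq_eq_sq_iff_eq_or_eq_neg.1 hρ
    refine RJZ.main sZ hA hB hR1 hR2 hN1 hN2 hl hl1 hl2 gen1 gen2 heps gR1 gR2 gB gtop
      (Λ := ((fun ρ : K => ρ ^ 2) '' R) \ S) (hsq.sdiff hS) ?_ q Q ha1 ha2 ha3 hZq hqZ ?_ ?_
    · rintro ⟨⟨ρ, hρ, h1⟩, -⟩
      have h2 : ρ = 0 := by simpa using h1
      exact h0 (h2 ▸ hρ)
    · rintro _ ⟨⟨ρ, hρ, rfl⟩, -⟩ x hx
      exact hex ρ hρ x hx
    · rintro _ ⟨⟨ρ, hρ, rfl⟩, -⟩ c' ⟨-, hc'⟩ x b x' b' hx hb hx' hb'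
      exact (h c' hc' (x', b') ((pencil_iffZ A B R1 Z R2 g eps c' (x', b')).2 ⟨hx', hb'⟩)
        ⟨(x, b), ρ, hρ, hx, hb⟩).1

end Crest.Agent.R172.RJPZ
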