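import Crest.Agent.R172.CoreP
import Crest.Agent.R172.RRk

/-!
# Row 172, node R-Rk, second part (helper35): the rank count on `PP C Mi` (helper627's `CoreP`)

For `C : St.Core B Φ` and a block `Mi ≤ C.M` (stable, `Mi ≤ Ax`, nonzero, tame numbers `l`):
* `PP_pow` : `∃ p ∈ PP C Mi, (Φ s ^ (l s - 1)) p ∉ T Φ`;
* `PP_ab` : for distinct `s t u`: `∃ a b ∈ PP C Mi, Φ t a + Φ u b ∈ T Φ ∧ Φ t a ∉ T Φ`;
* `PP_form` : `∃ p p' ∈ PP C Mi, B ((Φ s ^ (l s - 1)) p) p' ≠ 0` for an orthogonal summand `Mi`;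
* `tame_*` : the same with `Core.Tame` as hypothesis.
-/

set_option autoImplicit false

open Module LinearMap
open Crest.Agent.R172.St Crest.Agent.R172.Core Crest.Agent.R172.CP

namespace Crest.Agent.R172.RRk

variable {K : Type*} [Field K] {V : Type*} [AddCommGroup V] [Module K V] [FiniteDimensional K V]

section

variable {B : LinearMap.BilinForm K V} {Φ : Fin 3 → End K V} {C : St.Core B Φ}
variable {Mi : Submodule K C.M} {l : Fin 3 → ℕ}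

theorem PP_pow (hΦ : ∀ s, Sa B (Φ s)) (hM : ∀ s, ∀ m ∈ Mi, cp C (Φ s) m ∈ Mi)
    (hp : Mi ≤ Ax (fun s => cp C (Φ s)) Mi) (h0 : Mi ≠ ⊥) {s : Fin 3} {l : ℕ} (h1 : 1 ≤ l)
    (hfree : l * finrank K (ker (cp C (Φ s)) ⊓ Mi : Submodule K C.M) = finrank K Mi) :
    ∃ p ∈ PP C Mi, (Φ s ^ (l - 1)) p ∉ T Φ := by
  obtain ⟨v, hv, hv2⟩ := block_pow (hM s) h0 h1 hfree
  have h2 : v ∈ (PP C Mi).map (pM C) := by rw [map_PP hΦ hM hp]; exact hv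
  obtain ⟨p, hp1, rfl⟩ := h2
  refine ⟨p, hp1, ?_⟩
  rw [← pM_eq_zero C (pow_Tp hΦ s (l - 1) (PP_le_Tp hp1)), pM_pow hΦ C s (l - 1) (PP_le_Tp hp1)]
  exact hv2

theorem PP_ab (hΦ : ∀ s, Sa B (Φ s)) (hM : ∀ s, ∀ m ∈ Mi, cp C (Φ s) m ∈ Mi)
    (hp : Mi ≤ Ax (fun s => cp C (Φ s)) Mi) (h0 : Mi ≠ ⊥) (h1 : ∀ s, 1 ≤ l s)
    (hfree : ∀ s, l s * finrank K (ker (cp C (Φ s)) ⊓ Mi : Submodule K C.M) = finrank K Mi)
    (hsum : ∑ s, (1 - 1 / (l s : ℚ)) = 2)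
    {s t u : Fin 3} (hst : s ≠ t) (hsu : s ≠ u) (htu : t ≠ u) :
    ∃ a ∈ PP C Mi, ∃ b ∈ PP C Mi, Φ t a + Φ u b ∈ T Φ ∧ Φ t a ∉ T Φ := by
  obtain ⟨a, ha, b, hb, h2, h3⟩ := block_ab (Phi := fun s => cp C (Φ s)) hM h0 h1 hfree hsum
    hst hsu htu
  have ha' : a ∈ (PP C Mi).map (pM C) := by rw [map_PP hΦ hM hp]; exact ha
  have hb' : b ∈ (PP C Mi).map (pM C) := by rw [map_PP hΦ hM hp]; exact hb
  obtain ⟨a, ha1, rfl⟩ := ha'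
  obtain ⟨b, hb1, rfl⟩ := hb'
  have e1 : Φ t a ∈ Tp B Φ := Φ_Tp hΦ t (PP_le_Tp ha1)
  have e2 : Φ u b ∈ Tp B Φ := Φ_Tp hΦ u (PP_le_Tp hb1)
  refine ⟨a, ha1, b, hb1, ?_, ?_⟩
  · rw [← pM_eq_zero C (Submodule.add_mem _ e1 e2), map_add, pM_Φ hΦ C t (PP_le_Tp ha1),
      pM_Φ hΦ C u (PP_le_Tp hb1)]
    exact h2
  · rw [← pM_eq_zero C e1, pM_Φ hΦ C t (PP_le_Tp ha1)]
    exact h3

/-- the form version: `B (Φ_s^{l-1} p) p' ≠ 0` (`719`'s hypothesis); `hns`: the form of the core is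
nondegenerate on `Mi`. -/
theorem PP_form (hs : ∀ u v, B u v = B v u) (hΦ : ∀ s, Sa B (Φ s))
    (hM : ∀ s, ∀ m ∈ Mi, cp C (Φ s) m ∈ Mi)
    (hp : Mi ≤ Ax (fun s => cp C (Φ s)) Mi) (h0 : Mi ≠ ⊥)
    (hns : ∀ m ∈ Mi, (∀ m' ∈ Mi, BM C m m' = 0) → m = 0) {s : Fin 3} {l : ℕ} (h1 : 1 ≤ l)
    (hfree : l * finrank K (ker (cp C (Φ s)) ⊓ Mi : Submodule K C.M) = finrank K Mi) :
    ∃ p ∈ PP C Mi, ∃ p' ∈ PP C Mi, B ((Φ s ^ (l - 1)) p) p' ≠ 0 := by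
  obtain ⟨p, hp1, hp2⟩ := PP_pow hΦ hM hp h0 (s := s) h1 hfree
  rw [← pM_eq_zero C (pow_Tp hΦ s (l - 1) (PP_le_Tp hp1))] at hp2
  have h3 : (Φ s ^ (l - 1)) p ∈ PP C Mi := pow_mem_PP hΦ hM s (l - 1) hp1
  have h4 := pM_mem h3
  by_contra hcon
  push Not at hcon
  refine hp2 (hns _ h4 fun m' hm' => ?_)
  have h5 : m' ∈ (PP C Mi).map (pM C) := by rw [map_PP hΦ hM hp]; exact hm'
  obtain ⟨p', hp', rfl⟩ := h5
  rw [← form_eq hs C (PP_le_Tp h3) (PP_le_Tp hp')]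
  exact hcon p hp1 p' hp'

end

/-! ### From `Core.Tame` -/

section Tame

variable {M : Type*} [AddCommGroup M] [Module K M] [FiniteDimensional K M]

/-- `Core.Tame` on one block: the numbers `l` work simultaneously for all blocks. -/
theorem tame_block {Phi : Fin 3 → End K M} {D : End K M} (h : Core.Tame Phi D)
    (hD : ∀ s v, D (Phi s v) = Phi s (D v)) :
    ∃ l : Fin 3 → ℕ, (∀ s, 2 ≤ l s) ∧ ∑ s, (1 - 1 / (l s : ℚ)) = 2 ∧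
    ∀ nu, D.maxGenEigenspace nu ≠ ⊥ →
      (∀ s, ∀ v ∈ D.maxGenEigenspace nu, (Phi s ^ l s) v = 0) ∧
      (∀ s, l s * finrank K (ker (Phi s) ⊓ D.maxGenEigenspace nu : Submodule K M) =
        finrank K (D.maxGenEigenspace nu)) ∧
      (∀ s, ∃ v ∈ D.maxGenEigenspace nu, (Phi s ^ (l s - 1)) v ≠ 0) ∧
      (∀ s t u, s ≠ t → s ≠ u → t ≠ u → ∃ a ∈ D.maxGenEigenspace nu,
        ∃ b ∈ D.maxGenEigenspace nu, Phi t a + Phi u b = 0 ∧ Phi t a ≠ 0) := by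
  obtain ⟨-, -, l, h1, h2, h3⟩ := h
  have hst : ∀ nu s, ∀ x ∈ D.maxGenEigenspace nu, Phi s x ∈ D.maxGenEigenspace nu := by
    intro nu s x hx
    refine Module.End.mapsTo_maxGenEigenspace_of_comm (f := D) (g := Phi s) ?_ nu hx
    ext v
    exact hD s v
  refine ⟨l, two_le h1 h3, h3, fun nu hnu => ⟨fun s v hv => ?_, fun s => (h2 s nu hnu).2,
    fun s => ?_, fun s t u e1 e2 e3 => ?_⟩⟩
  · exact ((h2 s nu hnu).1 (l s)).2 le_rfl v hv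
  · exact block_pow (hst nu s) hnu (h1 s) (h2 s nu hnu).2
  · exact block_ab (hst nu) hnu h1 (fun s => (h2 s nu hnu).2) h3 e1 e2 e3

end Tame

end Crest.Agent.R172.RRk
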