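import Crest.Agent.R172.SUX1
import Crest.Agent.R172.Dual3

/-!
Row 172 (S0260), S-side (t2), arbitrary radical: the first derivative at `H_t` and the span lemma
for a pair of different blocks, tensors in `U`.
-/

set_option autoImplicit false
set_option linter.unusedSectionVars false
set_option linter.unusedFintypeInType false
set_option linter.unusedDecidableInType false

namespace Crest.Agent.R172.SGl1

open Matrix Module TensorProduct Crest.Agent.R172.FO Crest.Agent.R172.Qt Crest.Agent.R172.SpS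
  Crest.Agent.R172.Om Crest.Agent.R172.SUX

variable {ι : Type*} [Fintype ι] [DecidableEq ι] {δ : Type*} [Fintype δ] [DecidableEq δ]
variable {k K : Type*} [Field k] [Field K] [Algebra k K]
variable {arm : δ → Fin 3} {J : Matrix ι ι K} {B : Matrix δ δ K}
  {N W : Submodule K (Matrix ι δ K)}

/-- `a ⊗ b` as a bilinear map -/
def vm (K : Type*) [Field K] (α β : Type*) : (α → K) →ₗ[K] (β → K) →ₗ[K] Matrix α β K :=
  LinearMap.mk₂ K vecMulVec (fun a b c => add_vecMulVec a b c)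
    (fun t a b => smul_vecMulVec t a b) (fun a b c => vecMulVec_add a b c)
    (fun t a b => by rw [vecMulVec_smul])

@[simp] theorem vm_apply {α β : Type*} (a : α → K) (b : β → K) : vm K α β a b = vecMulVec a b :=
  rfl

/-- the matrix of a tensor of `Q2 ⊗ Q1` -/
noncomputable def ten (Q2 Q1 : Submodule K (δ → K)) : Q2 ⊗[K] Q1 →ₗ[K] Matrix δ δ K :=
  TensorProduct.lift ((vm K δ δ).compl₁₂ Q2.subtype Q1.subtype)

@[simp] theorem ten_tmul {Q2 Q1 : Submodule K (δ → K)} (a : Q2) (b : Q1) :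
    ten Q2 Q1 (a ⊗ₜ[K] b) = vecMulVec (a : δ → K) (b : δ → K) := by
  simp [ten]

/-- `ω_r = B E_r S` -/
def om (arm : δ → Fin 3) (B S : Matrix δ δ K) (r : Fin 3) : Matrix δ δ K := B * E K arm r * S

/-- restriction of a matrix to a stable submodule -/
def rs (M : Matrix δ δ K) (Q : Submodule K (δ → K)) (h : ∀ u ∈ Q, M *ᵥ u ∈ Q) : End K Q :=
  (Matrix.toLin' M).restrict h

theorem rs_coe {M : Matrix δ δ K} {Q : Submodule K (δ → K)} (h : ∀ u ∈ Q, M *ᵥ u ∈ Q) (u : Q) :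
    ((rs M Q h u : Q) : δ → K) = M *ᵥ (u : δ → K) := rfl

/-- right multiplication by `E_s` -/
def mE (arm : δ → Fin 3) (s : Fin 3) : Matrix ι δ K →ₗ[K] Matrix ι δ K where
  toFun M := M * E K arm s
  map_add' a b := Matrix.add_mul a b _
  map_smul' t a := Matrix.smul_mul t a _

@[simp] theorem mE_apply (s : Fin 3) (M : Matrix ι δ K) : mE arm s M = M * E K arm s := rfl

/-- the form `q(a,b) = (F a)(S b)ᵀ E_s` -/
noncomputable def qa (arm : δ → Fin 3) (F : Matrix ι δ K) (S : Matrix δ δ K)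
    (Q2 Q1 : Submodule K (δ → K)) (s : Fin 3) : Q2 →ₗ[K] Q1 →ₗ[K] Matrix ι δ K :=
  ((vm K ι δ).compl₁₂ (Matrix.toLin' F ∘ₗ Q2.subtype) (Matrix.toLin' S ∘ₗ Q1.subtype)).compr₂
    (mE arm s)

theorem qa_apply (F : Matrix ι δ K) (S : Matrix δ δ K) (Q2 Q1 : Submodule K (δ → K)) (s : Fin 3)
    (a : Q2) (b : Q1) : qa arm F S Q2 Q1 s a b =
      vecMulVec (F *ᵥ (a : δ → K)) (S *ᵥ (b : δ → K)) * E K arm s := by
  simp [qa]

section alg

variable {F H kk : Matrix ι δ K} {S SH Sk : Matrix δ δ K} {Q1 Q2 : Submodule K (δ → K)}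
  {c1 c2 : K}

/-- the relations of a pair of blocks at one parameter -/
structure Rel (F H kk : Matrix ι δ K) (S SH Sk : Matrix δ δ K) (Q1 Q2 : Submodule K (δ → K))
    (c1 c2 : K) : Prop where
  Hskew : SHᵀ = -SH
  kskew : Skᵀ = -Sk
  S1 : ∀ u ∈ Q1, SH *ᵥ u = c1 ^ 2 • S *ᵥ u
  S2 : ∀ u ∈ Q2, SH *ᵥ u = c2 ^ 2 • S *ᵥ u
  k1 : ∀ u ∈ Q1, kk *ᵥ u = F *ᵥ u
  k2 : ∀ u ∈ Q2, kk *ᵥ u = 0
  H1 : ∀ u ∈ Q1, H *ᵥ u = c1 • F *ᵥ u
  H2 : ∀ u ∈ Q2, H *ᵥ u = c2 • F *ᵥ u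
  t1 : ∀ u ∈ Q1, Sk *ᵥ u = c1 • S *ᵥ u
  t2 : ∀ u ∈ Q2, Sk *ᵥ u = 0

theorem vecMul_skew {A : Matrix δ δ K} (hA : Aᵀ = -A) (u : δ → K) : u ᵥ* A = -(A *ᵥ u) := by
  rw [← mulVec_transpose, hA, neg_mulVec]

/-- the exactness of the family of matrices -/
theorem ten_defect (hB : Bᵀ = B)
    (R : Rel F H kk S SH Sk Q1 Q2 c1 c2)
    (h1 : ∀ r, ∀ u ∈ Q1, om arm B S r *ᵥ u ∈ Q1) (h2 : ∀ r, ∀ u ∈ Q2, om arm B S r *ᵥ u ∈ Q2)
    {ρ : K} (hρ : c1 * ρ = c2) (r : Fin 3) (z : Q2 ⊗[K] Q1) :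
    ten Q2 Q1 z * SH * E K arm r * B - B * E K arm r * SH * ten Q2 Q1 z =
      -(c1 ^ 2 • ten Q2 Q1 (Dual.defect (rs (om arm B S r) Q1 (h1 r))
        (-(rs (om arm B S r) Q2 (h2 r))) (ρ ^ 2) z)) := by
  induction z using TensorProduct.induction_on with
  | zero => simp
  | tmul a b =>
    have e1 : ten Q2 Q1 (Dual.defect (rs (om arm B S r) Q1 (h1 r))
        (-(rs (om arm B S r) Q2 (h2 r))) (ρ ^ 2) (a ⊗ₜ[K] b)) =
        vecMulVec (a : δ → K) (om arm B S r *ᵥ (b : δ → K)) +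
          ρ ^ 2 • vecMulVec (om arm B S r *ᵥ (a : δ → K)) (b : δ → K) := by
      rw [Dual.defect_tmul]
      simp only [map_sub, map_smul, ten_tmul, LinearMap.neg_apply, rs_coe, neg_vecMulVec,
        Submodule.coe_neg, smul_neg, sub_neg_eq_add]
    have e2 : (SH * E K arm r * B)ᵀ *ᵥ (b : δ → K) = -(c1 ^ 2 • (om arm B S r *ᵥ (b : δ → K))) := by
      rw [transpose_mul, transpose_mul, R.Hskew, E_transpose, hB, ← Matrix.mul_assoc,
        Matrix.mul_neg, neg_mulVec, ← mulVec_mulVec, R.S1 _ b.2, mulVec_smul, mulVec_mulVec]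
      rfl
    have e3 : (B * E K arm r * SH) *ᵥ (a : δ → K) = c2 ^ 2 • (om arm B S r *ᵥ (a : δ → K)) := by
      rw [← mulVec_mulVec, R.S2 _ a.2, mulVec_smul, mulVec_mulVec]
      rfl
    rw [e1, ten_tmul]
    have e4 : vecMulVec (a : δ → K) (b : δ → K) * SH * E K arm r * B =
        vecMulVec (a : δ → K) ((SH * E K arm r * B)ᵀ *ᵥ (b : δ → K)) := by
      rw [Matrix.mul_assoc, Matrix.mul_assoc, Matrix.vecMulVec_mul, mulVec_transpose,
        Matrix.mul_assoc]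
    rw [e4, e2, Matrix.mul_vecMulVec, e3, ← hρ]
    ext i j
    simp only [vecMulVec_apply, Matrix.sub_apply, Matrix.neg_apply, Matrix.smul_apply,
      Matrix.add_apply, Pi.neg_apply, Pi.smul_apply, smul_eq_mul]
    ring
  | add x y hx hy =>
    simp only [map_add, Matrix.add_mul, Matrix.mul_add, smul_add, neg_add]
    rw [← hx, ← hy]
    abel

theorem ten_defect_t (hB : Bᵀ = B)
    (R : Rel F H kk S SH Sk Q1 Q2 c1 c2) (r : Fin 3) (X : Matrix δ δ K) :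
    Xᵀ * SH * E K arm r * B - B * E K arm r * SH * Xᵀ =
      (X * SH * E K arm r * B - B * E K arm r * SH * X)ᵀ := by
  rw [transpose_sub]
  simp only [transpose_mul, R.Hskew, E_transpose, hB, Matrix.neg_mul, Matrix.mul_neg,
    Matrix.mul_assoc]
  abel

/-- **exactness** -/
theorem exact_of (hB : Bᵀ = B)
    {P : Matrix ι ι K} (hSH : SH = th J H P H)
    (R : Rel F H kk S SH Sk Q1 Q2 c1 c2)
    (h1 : ∀ r, ∀ u ∈ Q1, om arm B S r *ᵥ u ∈ Q1) (h2 : ∀ r, ∀ u ∈ Q2, om arm B S r *ᵥ u ∈ Q2)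
    {ρ : K} (hρ : c1 * ρ = c2) {x : Fin 3 → Q2 ⊗[K] Q1}
    (hx : ∑ r, Dual.defect (rs (om arm B S r) Q1 (h1 r))
        (-(rs (om arm B S r) Q2 (h2 r))) (ρ ^ 2) (x r) = 0) :
    SUX.Exact arm J B H P (fun r => ten Q2 Q1 (x r) + (ten Q2 Q1 (x r))ᵀ) := by
  unfold SUX.Exact
  rw [← hSH]
  have e1 : ∀ r, (ten Q2 Q1 (x r) + (ten Q2 Q1 (x r))ᵀ) * SH * E K arm r * B -
      B * E K arm r * SH * (ten Q2 Q1 (x r) + (ten Q2 Q1 (x r))ᵀ) =
      -(c1 ^ 2 • ten Q2 Q1 (Dual.defect (rs (om arm B S r) Q1 (h1 r))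
        (-(rs (om arm B S r) Q2 (h2 r))) (ρ ^ 2) (x r))) +
      (-(c1 ^ 2 • ten Q2 Q1 (Dual.defect (rs (om arm B S r) Q1 (h1 r))
        (-(rs (om arm B S r) Q2 (h2 r))) (ρ ^ 2) (x r))))ᵀ := by
    intro r
    rw [← ten_defect hB R h1 h2 hρ, ← ten_defect_t hB R]
    simp only [Matrix.add_mul, Matrix.mul_add]
    abel
  rw [Finset.sum_congr rfl fun r _ => e1 r, Finset.sum_add_distrib, ← transpose_sum,
    Finset.sum_neg_distrib, ← Finset.smul_sum, ← map_sum, hx, map_zero, smul_zero, neg_zero,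
    transpose_zero, add_zero]

/-- the first derivative on tensors -/
theorem first_ten (R : Rel F H kk S SH Sk Q1 Q2 c1 c2) (r : Fin 3) (z : Q2 ⊗[K] Q1) :
    (kk * (ten Q2 Q1 z + (ten Q2 Q1 z)ᵀ) * SH - H * (ten Q2 Q1 z + (ten Q2 Q1 z)ᵀ) * Sk) *
      E K arm r = (c1 * c2) • TensorProduct.lift (qa arm F S Q2 Q1 r) z -
        c2 ^ 2 • TensorProduct.lift ((qa arm F S Q1 Q2 r).flip) z := by
  induction z using TensorProduct.induction_on with
  | zero => simp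
  | tmul a b =>
    have hT : (vecMulVec (a : δ → K) (b : δ → K))ᵀ = vecMulVec (b : δ → K) (a : δ → K) := by
      rw [transpose_vecMulVec]
    have a1 : kk * vecMulVec (a : δ → K) (b : δ → K) * SH = 0 := by
      rw [Matrix.mul_vecMulVec, R.k2 _ a.2, zero_vecMulVec, Matrix.zero_mul]
    have a2 : kk * vecMulVec (b : δ → K) (a : δ → K) * SH =
        -(c2 ^ 2 • vecMulVec (F *ᵥ (b : δ → K)) (S *ᵥ (a : δ → K))) := by
      rw [Matrix.mul_vecMulVec, R.k1 _ b.2, Matrix.vecMulVec_mul, vecMul_skew R.Hskew,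
        R.S2 _ a.2]
      ext i j
      simp only [vecMulVec_apply, Matrix.neg_apply, Matrix.smul_apply, Pi.neg_apply,
        Pi.smul_apply, smul_eq_mul]
      ring
    have a3 : H * vecMulVec (a : δ → K) (b : δ → K) * Sk =
        -((c1 * c2) • vecMulVec (F *ᵥ (a : δ → K)) (S *ᵥ (b : δ → K))) := by
      rw [Matrix.mul_vecMulVec, R.H2 _ a.2, Matrix.vecMulVec_mul, vecMul_skew R.kskew,
        R.t1 _ b.2]
      ext i j
      simp only [vecMulVec_apply, Matrix.neg_apply, Matrix.smul_apply, Pi.neg_apply,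
        Pi.smul_apply, smul_eq_mul]
      ring
    have a4 : H * vecMulVec (b : δ → K) (a : δ → K) * Sk = 0 := by
      rw [Matrix.mul_vecMulVec, Matrix.vecMulVec_mul, vecMul_skew R.kskew, R.t2 _ a.2, neg_zero]
      ext i j
      simp [vecMulVec_apply]
    rw [ten_tmul, hT, TensorProduct.lift.tmul, TensorProduct.lift.tmul, LinearMap.flip_apply,
      qa_apply, qa_apply, Matrix.mul_add, Matrix.add_mul, a1, a2, Matrix.mul_add, Matrix.add_mul,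
      a3, a4, zero_add, add_zero, sub_neg_eq_add, Matrix.add_mul, Matrix.neg_mul,
      Matrix.smul_mul, Matrix.smul_mul]
    abel
  | add x y hx hy =>
    simp only [map_add, smul_add, transpose_add]
    have e1 : (kk * (ten Q2 Q1 x + ten Q2 Q1 y + ((ten Q2 Q1 x)ᵀ + (ten Q2 Q1 y)ᵀ)) * SH -
        H * (ten Q2 Q1 x + ten Q2 Q1 y + ((ten Q2 Q1 x)ᵀ + (ten Q2 Q1 y)ᵀ)) * Sk) * E K arm r =
        (kk * (ten Q2 Q1 x + (ten Q2 Q1 x)ᵀ) * SH - H * (ten Q2 Q1 x + (ten Q2 Q1 x)ᵀ) * Sk) *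
          E K arm r +
        (kk * (ten Q2 Q1 y + (ten Q2 Q1 y)ᵀ) * SH - H * (ten Q2 Q1 y + (ten Q2 Q1 y)ᵀ) * Sk) *
          E K arm r := by
      simp only [Matrix.mul_add, Matrix.add_mul, Matrix.sub_mul]
      abel
    rw [e1, hx, hy]
    abel

end alg

/-- good classes -/
def QG (N G : Submodule K (Matrix ι δ K)) : Submodule K (Matrix ι δ K) := N ⊔ G

theorem mem_QG {G : Submodule K (Matrix ι δ K)} {y w : Matrix ι δ K} (hw : w ∈ G)
    (h : y - w ∈ N) : y ∈ QG N G := by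
  have : y = (y - w) + w := by abel
  rw [this]
  exact Submodule.add_mem_sup h hw

theorem QG_out {G : Submodule K (Matrix ι δ K)} {y : Matrix ι δ K} (h : y ∈ QG N G) :
    ∃ w ∈ G, y - w ∈ N := by
  obtain ⟨n, hn, w, hw, rfl⟩ := Submodule.mem_sup.1 h
  exact ⟨w, hw, by rwa [add_sub_cancel_right]⟩

/-- **one parameter** -/
theorem first_pair {F H kk : Matrix ι δ K} {S : Matrix δ δ K} {Q1 Q2 : Submodule K (δ → K)}
    {c1 c2 ρ : K} (h : Ctx k arm J B N W H) (h2 : (2 : K) ≠ 0) {Ri : Matrix δ ι K}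
    (hR : H * Ri * H = H) {P : Matrix ι ι K × (Fin 3 → Matrix ι ι K)} (hP : P ∈ NN arm J N H)
    (hV : Vert k arm J N W H P) (hk : kk ∈ N ⊓ W)
    (R : Rel F H kk S (th J H P.1 H) (th J H P.1 kk) Q1 Q2 c1 c2) (hc1 : c1 ≠ 0) (hc2 : c2 ≠ 0)
    (hρ : c1 * ρ = c2)
    (h1 : ∀ r, ∀ u ∈ Q1, om arm B S r *ᵥ u ∈ Q1) (h2' : ∀ r, ∀ u ∈ Q2, om arm B S r *ᵥ u ∈ Q2)
    {x : Fin 3 → Q2 ⊗[K] Q1}
    (hx : ∑ r, Dual.defect (rs (om arm B S r) Q1 (h1 r))
        (-(rs (om arm B S r) Q2 (h2' r))) (ρ ^ 2) (x r) = 0)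
    (G : Submodule K (Matrix ι δ K))
    (hG : ∀ d : Derivation k K K,
      Mv k arm J N W H P.1 (fun r => ten Q2 Q1 (x r) + (ten Q2 Q1 (x r))ᵀ) d →
      wd arm J H P.1 (fun r => ten Q2 Q1 (x r) + (ten Q2 Q1 (x r))ᵀ) d kk ∈ G) :
    ∑ r, TensorProduct.lift (qa arm F S Q2 Q1 r) (x r) +
      ρ • ∑ r, TensorProduct.lift (-(qa arm F S Q1 Q2 r).flip) (x r) ∈ QG N G := by
  have hD := h.data
  have hex : SUX.Exact arm J B H P.1 (fun r => ten Q2 Q1 (x r) + (ten Q2 Q1 (x r))ᵀ) :=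
    exact_of hD.B_symm rfl R h1 h2' hρ hx
  obtain ⟨d, hd⟩ := SUX.exists_move h h2 hR hP hV
    (Y := fun r => ten Q2 Q1 (x r) + (ten Q2 Q1 (x r))ᵀ) (fun r => by
      rw [transpose_add, transpose_transpose, add_comm]) hex
  have hf := hd.first hk.1 (h.perp kk hk)
  rw [Finset.sum_congr rfl fun r _ => first_ten (arm := arm) R r (x r),
    Finset.sum_sub_distrib, ← Finset.smul_sum, ← Finset.smul_sum] at hf
  have hg := hG d hd
  set w := wd arm J H P.1 (fun r => ten Q2 Q1 (x r) + (ten Q2 Q1 (x r))ᵀ) d kk with hw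
  have hc : c1 * c2 ≠ 0 := mul_ne_zero hc1 hc2
  refine mem_QG (w := -((c1 * c2)⁻¹ • w)) (G.neg_mem (G.smul_mem _ hg)) ?_
  have h3 := N.smul_mem (c1 * c2)⁻¹ hf
  convert h3 using 1
  rw [smul_add, smul_sub, smul_smul, smul_smul, inv_mul_cancel₀ hc, one_smul, sub_neg_eq_add]
  have e1 : (c1 * c2)⁻¹ * c2 ^ 2 = ρ := by
    rw [← hρ]
    have h4 : ρ ≠ 0 := by
      rintro rfl
      exact hc2 (by rw [← hρ, mul_zero])
    field_simp
  rw [e1]
  have e2 : ∀ r, TensorProduct.lift (-(qa arm F S Q1 Q2 r).flip) (x r) =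
      -(TensorProduct.lift ((qa arm F S Q1 Q2 r).flip) (x r)) := by
    intro r
    have : TensorProduct.lift (-(qa arm F S Q1 Q2 r).flip) =
        -(TensorProduct.lift ((qa arm F S Q1 Q2 r).flip)) :=
      TensorProduct.ext' fun a b => by simp
    rw [this, LinearMap.neg_apply]
  rw [Finset.sum_congr rfl fun r _ => e2 r, Finset.sum_neg_distrib, smul_neg]
  abel

/-- **the pair of blocks**: all single-arm generators are good. -/
theorem pair_good {F : Matrix ι δ K} {S : Matrix δ δ K} {Q1 Q2 : Submodule K (δ → K)}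
    {R1 : Submodule K Q1} {R2 : Submodule K Q2}
    (h2 : (2 : K) ≠ 0) {kk : Matrix ι δ K} (hk : kk ∈ N ⊓ W)
    (h1 : ∀ r, ∀ u ∈ Q1, om arm B S r *ᵥ u ∈ Q1) (h2' : ∀ r, ∀ u ∈ Q2, om arm B S r *ᵥ u ∈ Q2)
    (G : Submodule K (Matrix ι δ K)) {Λ : Set K} (hΛ : Λ.Infinite) (h0 : (0 : K) ∉ Λ)
    (hpar : ∀ ρ ∈ Λ, ∃ (H : Matrix ι δ K) (P : Matrix ι ι K × (Fin 3 → Matrix ι ι K))
      (Ri : Matrix δ ι K) (c1 c2 : K), Ctx k arm J B N W H ∧ P ∈ NN arm J N H ∧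
      Vert k arm J N W H P ∧ H * Ri * H = H ∧ c1 ≠ 0 ∧ c2 ≠ 0 ∧ c1 * ρ = c2 ∧
      Rel F H kk S (th J H P.1 H) (th J H P.1 kk) Q1 Q2 c1 c2 ∧
      ∀ x : Fin 3 → Q2 ⊗[K] Q1, Dual.Exact (fun r => rs (om arm B S r) Q1 (h1 r))
        (fun r => -(rs (om arm B S r) Q2 (h2' r))) R1 R2 (ρ ^ 2) x →
        ∀ d : Derivation k K K,
          Mv k arm J N W H P.1 (fun r => ten Q2 Q1 (x r) + (ten Q2 Q1 (x r))ᵀ) d →
          wd arm J H P.1 (fun r => ten Q2 Q1 (x r) + (ten Q2 Q1 (x r))ᵀ) d kk ∈ G)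
    {l : Fin 3 → ℕ}
    (hA : ∀ p : Q1, ∃ f : Fin 3 → Q1, p = ∑ t, rs (om arm B S t) Q1 (h1 t) (f t))
    (hB : ∀ p : Q2, ∃ f : Fin 3 → Q2, p = ∑ t, rs (om arm B S t) Q2 (h2' t) (f t))
    (hA1 : ∀ t, ∀ r ∈ R1, rs (om arm B S t) Q1 (h1 t) r ∈ R1)
    (hB2 : ∀ t, ∀ r ∈ R2, rs (om arm B S t) Q2 (h2' t) r ∈ R2)
    (hn1 : ∃ n, ∀ r ∈ R1, Dual.Kills (fun t => rs (om arm B S t) Q1 (h1 t)) n r)
    (hn2 : ∃ n, ∀ r ∈ R2, Dual.Kills (fun t => rs (om arm B S t) Q2 (h2' t)) n r)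
    (hl1 : ∀ s p, (rs (om arm B S s) Q1 (h1 s) ^ l s) p ∈ R1)
    (hl2 : ∀ s p, (rs (om arm B S s) Q2 (h2' s) ^ l s) p ∈ R2)
    (gen1 : ∀ T : Submodule K Q1, (∀ s p, (rs (om arm B S s) Q1 (h1 s) ^ l s) p ∈ T) →
      (∀ t, ∀ r ∈ T, rs (om arm B S t) Q1 (h1 t) r ∈ T) → R1 ≤ T)
    (gen2 : ∀ T : Submodule K Q2, (∀ s p, (rs (om arm B S s) Q2 (h2' s) ^ l s) p ∈ T) →
      (∀ t, ∀ r ∈ T, rs (om arm B S t) Q2 (h2' t) r ∈ T) → R2 ≤ T) :
    (∀ s i j, i + j + 1 = l s → ∀ (a : Q2) (b : Q1),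
      vecMulVec (F *ᵥ ((om arm B S s ^ j) *ᵥ (a : δ → K)))
        (S *ᵥ ((om arm B S s ^ i) *ᵥ (b : δ → K))) * E K arm s ∈ QG N G ∧
      vecMulVec (F *ᵥ ((om arm B S s ^ i) *ᵥ (b : δ → K)))
        (S *ᵥ ((om arm B S s ^ j) *ᵥ (a : δ → K))) * E K arm s ∈ QG N G) ∧
    (∀ s, ∀ a ∈ R2, ∀ b : Q1,
      vecMulVec (F *ᵥ ((a : Q2) : δ → K)) (S *ᵥ (b : δ → K)) * E K arm s ∈ QG N G ∧
      vecMulVec (F *ᵥ (b : δ → K)) (S *ᵥ ((a : Q2) : δ → K)) * E K arm s ∈ QG N G) ∧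
    (∀ s, ∀ b ∈ R1, ∀ a : Q2,
      vecMulVec (F *ᵥ (a : δ → K)) (S *ᵥ ((b : Q1) : δ → K)) * E K arm s ∈ QG N G ∧
      vecMulVec (F *ᵥ ((b : Q1) : δ → K)) (S *ᵥ (a : δ → K)) * E K arm s ∈ QG N G) := by
  classical
  -- signs
  have hnp : ∀ (s : Fin 3) (j : ℕ) (a : Q2), ((-(rs (om arm B S s) Q2 (h2' s))) ^ j) a =
      (-1 : K) ^ j • (rs (om arm B S s) Q2 (h2' s) ^ j) a := by
    intro s j
    induction j with
    | zero => intro a; simp
    | succ j ih =>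
      intro a
      rw [pow_succ, Module.End.mul_apply, LinearMap.neg_apply, map_neg, ih, pow_succ, pow_succ,
        Module.End.mul_apply, mul_smul, neg_one_smul, smul_neg]
  have hrp : ∀ (s : Fin 3) (j : ℕ) (Q : Submodule K (δ → K))
      (hQ : ∀ u ∈ Q, om arm B S s *ᵥ u ∈ Q) (a : Q),
      (((rs (om arm B S s) Q hQ ^ j) a : Q) : δ → K) = (om arm B S s ^ j) *ᵥ (a : δ → K) := by
    intro s j Q hQ a
    induction j generalizing a with
    | zero => rw [pow_zero, pow_zero, one_mulVec]; rfl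
    | succ j ih =>
      rw [pow_succ, pow_succ, Module.End.mul_apply, ih, rs_coe, mulVec_mulVec]
  have hneg : ∀ n : ℕ, ((-1 : K)) ^ n ≠ 0 := fun n => pow_ne_zero _ (neg_ne_zero.2 one_ne_zero)
  have hkill : ∀ (w : List (Fin 3)) (r : Q2),
      (w.map fun t => -(rs (om arm B S t) Q2 (h2' t))).prod r =
        (-1 : K) ^ w.length • (w.map fun t => rs (om arm B S t) Q2 (h2' t)).prod r := by
    intro w
    induction w with
    | nil => intro r; simp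
    | cons t w ih =>
      intro r
      rw [List.map_cons, List.prod_cons, Module.End.mul_apply, ih, List.map_cons, List.prod_cons,
        Module.End.mul_apply, List.length_cons, pow_succ, LinearMap.neg_apply, map_smul,
        mul_smul, neg_one_smul, smul_neg]
  obtain ⟨m1, m2, m3⟩ := Dual.span_exact2 (K := K)
    (A := fun r => rs (om arm B S r) Q1 (h1 r)) (B := fun r => -(rs (om arm B S r) Q2 (h2' r)))
    (R1 := R1) (R2 := R2) (l := l) hΛ h0 hA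
    (fun p => by
      obtain ⟨f, hf⟩ := hB p
      refine ⟨fun t => -(f t), hf.trans (Finset.sum_congr rfl fun t _ => ?_)⟩
      rw [LinearMap.neg_apply, map_neg, neg_neg])
    hA1 (fun t r hr => by rw [LinearMap.neg_apply]; exact R2.neg_mem (hB2 t r hr))
    hn1 (by
      obtain ⟨n, hn⟩ := hn2
      refine ⟨n, fun r hr w hw => ?_⟩
      rw [hkill, hn r hr w hw, smul_zero])
    hl1 (fun s p => by rw [hnp]; exact R2.smul_mem _ (hl2 s p))
    gen1 (fun T hT1 hT2 => gen2 T (fun s p => by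
        have := hT1 s p
        rw [hnp] at this
        exact (T.smul_mem_iff (hneg _)).1 this)
      (fun t r hr => by
        have := hT2 t r hr
        rw [LinearMap.neg_apply] at this
        exact neg_mem_iff.1 this))
    (fun r => qa arm F S Q2 Q1 r) (fun r => -(qa arm F S Q1 Q2 r).flip) (QG N G)
    (by
      intro ρ hρ x hx
      obtain ⟨H, P, Ri, c1, c2, hC, hP, hV, hR, hc1, hc2, hcc, hRel, hw⟩ := hpar ρ hρ
      exact first_pair hC h2 hR hP hV hk hRel hc1 hc2 hcc h1 h2' hx.1 G (hw x hx))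
  refine ⟨fun s i j hij a b => ?_, fun s a ha b => ?_, fun s b hb a => ?_⟩
  · obtain ⟨e1, e2⟩ := m1 s i j hij a b
    rw [hnp, map_smul, LinearMap.smul_apply, qa_apply, hrp, hrp] at e1
    rw [hnp, map_smul, LinearMap.smul_apply, LinearMap.neg_apply, LinearMap.neg_apply,
      LinearMap.flip_apply, qa_apply, hrp, hrp] at e2
    exact ⟨((QG N G).smul_mem_iff (hneg _)).1 e1,
      neg_mem_iff.1 (((QG N G).smul_mem_iff (hneg _)).1 e2)⟩
  · obtain ⟨e1, e2⟩ := m2 s a ha b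
    rw [qa_apply] at e1
    rw [LinearMap.neg_apply, LinearMap.neg_apply, LinearMap.flip_apply, qa_apply] at e2
    exact ⟨e1, neg_mem_iff.1 e2⟩
  · obtain ⟨e1, e2⟩ := m3 s b hb a
    rw [qa_apply] at e1
    rw [LinearMap.neg_apply, LinearMap.neg_apply, LinearMap.flip_apply, qa_apply] at e2
    exact ⟨e1, neg_mem_iff.1 e2⟩

/-- **the relations at `H_t = F + t f`** -/
theorem rel_of {F f : Matrix ι δ K} {P0 : Matrix ι ι K} {P : Matrix ι ι K × (Fin 3 → Matrix ι ι K)}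
    {t l1 l2 : K} {Q1 Q2 : Submodule K (δ → K)} (hl : l1 ≠ l2)
    (hF : F ∈ N ⊓ W) (hf : f ∈ N ⊓ W)
    (h : Ctx k arm J B N W (F + t • f)) (hP : P ∈ NN arm J N (F + t • f))
    (hflip : fᵀ * J * (P0 * F) = Fᵀ * J * (P0 * f))
    (hS : (F + t • f)ᵀ * J * (P.1 * F) = (F + t • f)ᵀ * J * (P0 * F))
    (e1 : ∀ u ∈ Q1, f *ᵥ u = l1 • F *ᵥ u) (e2 : ∀ u ∈ Q2, f *ᵥ u = l2 • F *ᵥ u) :
    Rel F (F + t • f) ((l1 - l2)⁻¹ • (f - l2 • F)) (th J F P0 F)
      (th J (F + t • f) P.1 (F + t • f))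
      (th J (F + t • f) P.1 ((l1 - l2)⁻¹ • (f - l2 • F))) Q1 Q2 (1 + t * l1) (1 + t * l2) := by
  have hk : (l1 - l2)⁻¹ • (f - l2 • F) ∈ N ⊓ W :=
    Submodule.smul_mem _ _ (Submodule.sub_mem _ hf (Submodule.smul_mem _ _ hF))
  have hl' : l1 - l2 ≠ 0 := sub_ne_zero.2 hl
  obtain ⟨H, hH⟩ : ∃ H, H = F + t • f := ⟨_, rfl⟩
  rw [← hH] at h hP hS ⊢
  have hHm : H ∈ N ⊓ W := h.mem
  have hval : ∀ l : K, ∀ u : δ → K, f *ᵥ u = l • F *ᵥ u → H *ᵥ u = (1 + t * l) • F *ᵥ u := by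
    intro l u hu
    rw [hH, add_mulVec, smul_mulVec, hu, smul_smul, add_smul, one_smul]
  have hth : ∀ l : K, ∀ u : δ → K, f *ᵥ u = l • F *ᵥ u →
      (Hᵀ * J * (P.1 * F)) *ᵥ u = (1 + t * l) • (th J F P0 F) *ᵥ u := by
    intro l u hu
    rw [hS]
    have a1 : Hᵀ * J * (P0 * F) = Fᵀ * J * (P0 * F) + t • (Fᵀ * J * (P0 * f)) := by
      rw [hH, transpose_add, transpose_smul, Matrix.add_mul, Matrix.add_mul, Matrix.smul_mul,
        Matrix.smul_mul, hflip]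
    have a2 : (Fᵀ * J * (P0 * f)) *ᵥ u = l • (Fᵀ * J * (P0 * F)) *ᵥ u := by
      have a3 : Fᵀ * J * (P0 * f) = (Fᵀ * J * P0) * f := by simp only [Matrix.mul_assoc]
      have a4 : Fᵀ * J * (P0 * F) = (Fᵀ * J * P0) * F := by simp only [Matrix.mul_assoc]
      rw [a3, a4, ← mulVec_mulVec, hu, mulVec_smul, mulVec_mulVec]
    rw [a1, add_mulVec, smul_mulVec, a2, smul_smul, add_smul, one_smul]
    rfl
  have hthX : ∀ (c : K) (X : Matrix ι δ K) (u : δ → K), X *ᵥ u = c • F *ᵥ u →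
      th J H P.1 X *ᵥ u = c • (Hᵀ * J * (P.1 * F)) *ᵥ u := by
    intro c X u hu
    unfold th
    have a3 : Hᵀ * J * (P.1 * X) = (Hᵀ * J * P.1) * X := by simp only [Matrix.mul_assoc]
    have a4 : Hᵀ * J * (P.1 * F) = (Hᵀ * J * P.1) * F := by simp only [Matrix.mul_assoc]
    rw [a3, a4, ← mulVec_mulVec, hu, mulVec_smul, mulVec_mulVec]
  have hk1 : ∀ u ∈ Q1, ((l1 - l2)⁻¹ • (f - l2 • F)) *ᵥ u = F *ᵥ u := by
    intro u hu
    rw [smul_mulVec, sub_mulVec, smul_mulVec, e1 u hu, ← sub_smul, smul_smul,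
      inv_mul_cancel₀ hl', one_smul]
  have hk2 : ∀ u ∈ Q2, ((l1 - l2)⁻¹ • (f - l2 • F)) *ᵥ u = 0 := by
    intro u hu
    rw [smul_mulVec, sub_mulVec, smul_mulVec, e2 u hu, sub_self, smul_zero]
  refine ⟨th_skew h hP hHm, th_skew h hP hk, fun u hu => ?_, fun u hu => ?_, hk1, hk2,
    fun u hu => hval l1 u (e1 u hu), fun u hu => hval l2 u (e2 u hu), fun u hu => ?_,
    fun u hu => ?_⟩
  · rw [hthX _ _ u (hval l1 u (e1 u hu)), hth l1 u (e1 u hu), smul_smul, sq]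
  · rw [hthX _ _ u (hval l2 u (e2 u hu)), hth l2 u (e2 u hu), smul_smul, sq]
  · rw [hthX 1 _ u (by rw [one_smul]; exact hk1 u hu), hth l1 u (e1 u hu), one_smul]
  · rw [hthX 0 _ u (by rw [zero_smul]; exact hk2 u hu), zero_smul]

/-- the set of ratios is infinite -/
theorem ratios_infinite {𝒯 : Set K} (h𝒯 : 𝒯.Infinite) {l1 l2 : K} (hl : l1 ≠ l2)
    (h1 : ∀ t ∈ 𝒯, 1 + t * l1 ≠ 0) :
    ((fun t => (1 + t * l2) / (1 + t * l1)) '' 𝒯).Infinite := by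
  refine h𝒯.image ?_
  intro s hs t ht hst
  simp only at hst
  rw [div_eq_div_iff (h1 s hs) (h1 t ht)] at hst
  have h3 : (s - t) * (l2 - l1) = 0 := by linear_combination hst
  rcases mul_eq_zero.1 h3 with h4 | h4
  · exact sub_eq_zero.1 h4
  · exact absurd (sub_eq_zero.1 h4).symm hl

end Crest.Agent.R172.SGl1
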