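import Crest.Agent.R172.SpS7
import Crest.Agent.R172.Qt4

/-!
Row 172 (S0260), S-side (t2): the explicit move at `(H, P)` with tensors in `U` (helper630's form,
with `J` replaced by the skew form `η = J P`), and the first derivative identities.

`H ∈ Kiso` (context `Qt.Ctx`), `P ∈ NN H`, `S = Hᵀ J P H` (skew), `Y r` symmetric `δ × δ` with
`∑_r (Y_r S E_r B - B E_r S Y_r) = 0`, `Z = ∑_r Y_r S E_r`.  Then some `d` realises
`(X, Zᵀ)`, `X_r = XX J (H Y_r Hᵀ) P`, `dH = H Z`, `Hᵀ J (dP) k = 0` for all `k ∈ 𝒦`, and for every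
`k ∈ 𝒦`: `w = dk - k Z ∈ W`, `dk - ∑_r H Y_r (Hᵀ J P k) E_r ∈ N`, `Hᵀ J w = 0`, `Hᵀ J P w` skew.
-/

set_option autoImplicit false
set_option linter.unusedSectionVars false
set_option linter.unusedFintypeInType false
set_option linter.unusedDecidableInType false

namespace Crest.Agent.R172.SUX

open Matrix Module Crest.Agent.R172.FO Crest.Agent.R172.Qt Crest.Agent.R172.SpS
  Crest.Agent.R172.Om

variable {ι : Type*} [Fintype ι] [DecidableEq ι] {δ : Type*} [Fintype δ] [DecidableEq δ]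
variable {k K : Type*} [Field k] [Field K] [Algebra k K]
variable {arm : δ → Fin 3} {J : Matrix ι ι K} {B : Matrix δ δ K}
  {N W : Submodule K (Matrix ι δ K)} {H : Matrix ι δ K}

/-- `θ_F = Hᵀ J P F` -/
def th (J : Matrix ι ι K) (H : Matrix ι δ K) (P : Matrix ι ι K) (F : Matrix ι δ K) :
    Matrix δ δ K := Hᵀ * J * (P * F)

/-- the L-motion `Z = ∑_r Y_r S E_r`, `S = Hᵀ J P H` -/
def ZY (arm : δ → Fin 3) (J : Matrix ι ι K) (H : Matrix ι δ K) (P : Matrix ι ι K)
    (Y : Fin 3 → Matrix δ δ K) : Matrix δ δ K := ∑ r, Y r * th J H P H * E K arm r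

/-- the V-motion -/
def XY (J : Matrix ι ι K) (H : Matrix ι δ K) (P : Matrix ι ι K) (Y : Fin 3 → Matrix δ δ K)
    (r : Fin 3) : Matrix ι ι K := XX J (H * Y r * Hᵀ) P

theorem th_skew (h : Ctx k arm J B N W H) {P : Matrix ι ι K × (Fin 3 → Matrix ι ι K)}
    (hP : P ∈ NN arm J N H) {F : Matrix ι δ K} (hF : F ∈ N ⊓ W) :
    (th J H P.1 F)ᵀ = - th J H P.1 F := by
  obtain ⟨p', hp', e⟩ := h.tf hF hP
  unfold th
  rw [e]
  have := skew_gXg h.data.J_symm hp'.1 H
  exact this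

/-- `Fᵀ J P H = Hᵀ J P F` -/
theorem th_flip (h : Ctx k arm J B N W H) {P : Matrix ι ι K × (Fin 3 → Matrix ι ι K)}
    (hP : P ∈ NN arm J N H) {F : Matrix ι δ K} (hF : F ∈ N ⊓ W) :
    Fᵀ * J * (P.1 * H) = th J H P.1 F := by
  have h1 := th_skew h hP hF
  have h2 : (th J H P.1 F)ᵀ = -(Fᵀ * J * (P.1 * H)) := by
    unfold th
    rw [transpose_mul, transpose_mul, transpose_mul, transpose_transpose, h.data.J_symm]
    calc Fᵀ * P.1ᵀ * (J * H) = Fᵀ * (P.1ᵀ * J) * H := by simp only [Matrix.mul_assoc]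
      _ = _ := by rw [hP.1.eq]; simp only [Matrix.mul_neg, Matrix.neg_mul, Matrix.mul_assoc]
  rw [h2] at h1
  exact neg_injective h1

theorem symS_of {R : Matrix δ ι K} (hR : H * R * H = H)
    {Y : Matrix δ δ K} (hY : Yᵀ = Y) : SymS H R (H * Y * Hᵀ) := by
  refine ⟨?_, ?_⟩
  · rw [transpose_mul, transpose_mul, transpose_transpose, hY, Matrix.mul_assoc]
  · calc H * (R * (H * Y * Hᵀ)) = (H * R * H) * Y * Hᵀ := by simp only [Matrix.mul_assoc]
      _ = _ := by rw [hR]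

/-- `X_r F = H Y_r θ_F` for `F` perpendicular to `H` -/
theorem XY_mul {P : Matrix ι ι K} {Y : Fin 3 → Matrix δ δ K} {F : Matrix ι δ K}
    (hF : Hᵀ * J * F = 0) (r : Fin 3) : XY J H P Y r * F = H * Y r * th J H P F := by
  unfold XY XX th
  rw [Matrix.add_mul]
  have e1 : P * (H * Y r * Hᵀ) * J * F = P * H * Y r * (Hᵀ * J * F) := by
    simp only [Matrix.mul_assoc]
  rw [e1, hF, Matrix.mul_zero, add_zero]
  simp only [Matrix.mul_assoc]

theorem act_XY {P : Matrix ι ι K} {Y : Fin 3 → Matrix δ δ K} {F : Matrix ι δ K}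
    (hF : Hᵀ * J * F = 0) :
    act arm (XY J H P Y) F = ∑ r, H * Y r * th J H P F * E K arm r := by
  unfold act
  exact Finset.sum_congr rfl fun r _ => by rw [XY_mul hF]

theorem H_ZY (P : Matrix ι ι K) (Y : Fin 3 → Matrix δ δ K) (F : Matrix ι δ K) :
    F * ZY arm J H P Y = ∑ r, F * Y r * th J H P H * E K arm r := by
  unfold ZY
  rw [Matrix.mul_sum]
  exact Finset.sum_congr rfl fun r _ => by simp only [Matrix.mul_assoc]

/-- **the structure of a move** -/
structure Mv (k : Type*) {K : Type*} [Field k] [Field K] [Algebra k K] (arm : δ → Fin 3)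
    (J : Matrix ι ι K) (N W : Submodule K (Matrix ι δ K)) (H : Matrix ι δ K) (P : Matrix ι ι K)
    (Y : Fin 3 → Matrix δ δ K) (d : Derivation k K K) : Prop where
  real : Realises arm N W (XY J H P Y) (ZY arm J H P Y)ᵀ d
  dH : H.map d = H * ZY arm J H P Y
  dP : ∀ F ∈ N ⊓ W, Hᵀ * J * (P.map d * F) = 0

/-- exactness of a symmetric family -/
def Exact (arm : δ → Fin 3) (J : Matrix ι ι K) (B : Matrix δ δ K) (H : Matrix ι δ K)
    (P : Matrix ι ι K) (Y : Fin 3 → Matrix δ δ K) : Prop :=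
  ∑ r, (Y r * th J H P H * E K arm r * B - B * E K arm r * th J H P H * Y r) = 0

/-- **existence of the move** -/
theorem exists_move (h : Ctx k arm J B N W H) (h2 : (2 : K) ≠ 0) {R : Matrix δ ι K}
    (hR : H * R * H = H) {P : Matrix ι ι K × (Fin 3 → Matrix ι ι K)} (hP : P ∈ NN arm J N H)
    (hV : Vert k arm J N W H P) {Y : Fin 3 → Matrix δ δ K} (hY : ∀ r, (Y r)ᵀ = Y r)
    (hex : Exact arm J B H P.1 Y) : ∃ d : Derivation k K K, Mv k arm J N W H P.1 Y d := by
  have hD := h.data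
  have hiso := h.iso
  have hxS : ∀ r, SymS H R (H * Y r * Hᵀ) := fun r => symS_of hR (hY r)
  have hX : ∀ r, Skw J (XY J H P.1 Y r) := fun r => skw_XX hD.J_symm (hxS r).symm hP.1
  set Z : Matrix δ δ K := ZY arm J H P.1 Y with hZ
  have hS := th_skew h hP h.mem
  have hξ : (Zᵀ)ᵀ * B + B * Zᵀ = 0 := by
    rw [transpose_transpose]
    have e1 : Z * B = ∑ r, Y r * th J H P.1 H * E K arm r * B := by
      rw [hZ]; unfold ZY; rw [Matrix.sum_mul]
    have e2 : B * Zᵀ = ∑ r, -(B * E K arm r * th J H P.1 H * Y r) := by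
      rw [hZ]; unfold ZY
      rw [transpose_sum, Matrix.mul_sum]
      refine Finset.sum_congr rfl fun r _ => ?_
      rw [transpose_mul, transpose_mul, E_transpose, hS, hY]
      simp only [Matrix.neg_mul, Matrix.mul_neg, Matrix.mul_assoc]
    rw [e1, e2, ← Finset.sum_add_distrib]
    have := hex
    unfold Exact at this
    rw [← this]
    exact Finset.sum_congr rfl fun r _ => by rw [sub_eq_add_neg]
  have hact : act arm (XY J H P.1 Y) H = H * Z := by
    rw [act_XY hiso, hZ, H_ZY]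
  have hξg : H * (Zᵀ)ᵀ = act arm (XY J H P.1 Y) H := by rw [transpose_transpose, hact]
  obtain ⟨d0, hd0⟩ := hD.dir (XY J H P.1 Y) Zᵀ hX hξ
  have hw := kiso_of h h2 hR hP hxS hξ hξg hd0
  obtain ⟨d1, hd1, hr1⟩ := hV.v1 _ hw
  have hd2r := SpS.Realises.sub_zero' hd0 hr1
  have hd2g : H.map (d0 - d1) = H * Z := by
    rw [map_dsub, hd1, ← hact]
    change H.map d0 - (H.map d0 - act arm (XY J H P.1 Y) H) = _
    abel
  have hp' := NN_der hD hP hiso hxS hd2r hd2g
  obtain ⟨d3, hd3g, hr3, hd3p⟩ := hV.v2 _ hp'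
  have hdr : Realises arm N W (XY J H P.1 Y) Zᵀ (d0 - d1 - d3) :=
    SpS.Realises.sub_zero' hd2r hr3
  have hdg : H.map (d0 - d1 - d3) = H * Z := by rw [map_dsub, hd3g, sub_zero, hd2g]
  have hdp : Hᵀ * J * (P.1.map (d0 - d1 - d3) * H) = 0 := by
    rw [map_dsub, Matrix.sub_mul, Matrix.mul_sub, hd3p, sub_self]
  refine ⟨d0 - d1 - d3, hdr, hdg, fun F hF => ?_⟩
  have hp'' := NN_der hD hP hiso hxS hdr hdg
  exact h.tf_zero hF hp'' hdp

section mv

variable {P : Matrix ι ι K × (Fin 3 → Matrix ι ι K)} {Y : Fin 3 → Matrix δ δ K}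
  {d : Derivation k K K}

/-- the W-part of `dF` -/
def wd (arm : δ → Fin 3) (J : Matrix ι ι K) (H : Matrix ι δ K) (P : Matrix ι ι K)
    (Y : Fin 3 → Matrix δ δ K) (d : Derivation k K K) (F : Matrix ι δ K) : Matrix ι δ K :=
  F.map d - F * ZY arm J H P Y

theorem Mv.w_mem (m : Mv k arm J N W H P.1 Y d) {F : Matrix ι δ K} (hF : F ∈ W) :
    wd arm J H P.1 Y d F ∈ W := by
  have := m.real.onW F hF
  rwa [transpose_transpose] at this

theorem Mv.n_mem (m : Mv k arm J N W H P.1 Y d) {F : Matrix ι δ K} (hF : F ∈ N)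
    (hp : Hᵀ * J * F = 0) :
    F.map d - ∑ r, H * Y r * th J H P.1 F * E K arm r ∈ N := by
  have := m.real.onN F hF
  rwa [act_XY hp] at this

/-- **first derivative**: `∑_r (F Y_r S - H Y_r θ_F) E_r + w ∈ N` -/
theorem Mv.first (m : Mv k arm J N W H P.1 Y d) {F : Matrix ι δ K} (hF : F ∈ N)
    (hp : Hᵀ * J * F = 0) :
    ∑ r, (F * Y r * th J H P.1 H - H * Y r * th J H P.1 F) * E K arm r +
      wd arm J H P.1 Y d F ∈ N := by
  have h1 := m.n_mem hF hp
  have h2 : F.map d = F * ZY arm J H P.1 Y + wd arm J H P.1 Y d F := by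
    unfold wd; abel
  rw [h2, H_ZY] at h1
  have h3 : ∑ r, (F * Y r * th J H P.1 H - H * Y r * th J H P.1 F) * E K arm r +
      wd arm J H P.1 Y d F = ∑ r, F * Y r * th J H P.1 H * E K arm r +
        wd arm J H P.1 Y d F - ∑ r, H * Y r * th J H P.1 F * E K arm r := by
    simp only [Matrix.sub_mul, Finset.sum_sub_distrib]
    abel
  rw [h3]
  exact h1

theorem map_zero_der' {α β : Type*} (d : Derivation k K K) : (0 : Matrix α β K).map d = 0 := by
  ext i j; simp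

/-- `Hᵀ J (F.map d) = 0` -/
theorem Mv.perp (h : Ctx k arm J B N W H) (m : Mv k arm J N W H P.1 Y d) {F : Matrix ι δ K}
    (hF : Hᵀ * J * F = 0) : Hᵀ * J * F.map d = 0 := by
  have h1 := congrArg (fun A : Matrix δ δ K => A.map d) hF
  simp only [map_mul_der, h.data.J_const, Matrix.mul_zero, add_zero, map_transpose_der,
    map_zero_der', m.dH] at h1
  have h2 : (H * ZY arm J H P.1 Y)ᵀ * J * F = 0 := by
    rw [transpose_mul]
    calc (ZY arm J H P.1 Y)ᵀ * Hᵀ * J * F = (ZY arm J H P.1 Y)ᵀ * (Hᵀ * J * F) := by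
          simp only [Matrix.mul_assoc]
      _ = 0 := by rw [hF, Matrix.mul_zero]
  rw [h2, zero_add] at h1
  exact h1

theorem Mv.w_perp (h : Ctx k arm J B N W H) (m : Mv k arm J N W H P.1 Y d) {F : Matrix ι δ K}
    (hF : Hᵀ * J * F = 0) : Hᵀ * J * wd arm J H P.1 Y d F = 0 := by
  unfold wd
  rw [Matrix.mul_sub, m.perp h hF, ← Matrix.mul_assoc, hF, Matrix.zero_mul, sub_zero]

/-- `θ_w` is skew -/
theorem Mv.w_skew (h : Ctx k arm J B N W H) (hP : P ∈ NN arm J N H)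
    (m : Mv k arm J N W H P.1 Y d) {F : Matrix ι δ K} (hF : F ∈ N ⊓ W) :
    (th J H P.1 (wd arm J H P.1 Y d F))ᵀ = - th J H P.1 (wd arm J H P.1 Y d F) := by
  set Z : Matrix δ δ K := ZY arm J H P.1 Y with hZ
  set w : Matrix ι δ K := wd arm J H P.1 Y d F with hw
  have hdF : F.map d = F * Z + w := by rw [hw]; unfold wd; rw [← hZ]; abel
  have h0 := th_flip h hP hF
  have h1 := congrArg (fun A : Matrix δ δ K => A.map d) h0
  unfold th at h1
  simp only [map_mul_der, h.data.J_const, Matrix.mul_zero, add_zero, map_transpose_der,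
    m.dH, hdF] at h1
  rw [← hZ] at h1
  -- `Fᵀ J dP H = 0`
  have hdPs : Skw J (P.1.map d) := hP.1.map_der d (h.data.J_const d)
  have e1 : Hᵀ * J * (P.1.map d * F) = 0 := m.dP F hF
  have e2 : Fᵀ * J * (P.1.map d * H) = 0 := by
    have h3 : (Hᵀ * J * (P.1.map d * F))ᵀ = -(Fᵀ * J * (P.1.map d * H)) := by
      rw [transpose_mul, transpose_mul, transpose_mul, transpose_transpose, h.data.J_symm]
      calc Fᵀ * (P.1.map d)ᵀ * (J * H) = Fᵀ * ((P.1.map d)ᵀ * J) * H := by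
            simp only [Matrix.mul_assoc]
        _ = _ := by
            rw [hdPs.eq]; simp only [Matrix.mul_neg, Matrix.neg_mul, Matrix.mul_assoc]
    rw [e1, transpose_zero] at h3
    exact neg_eq_zero.1 h3.symm
  rw [Matrix.mul_add, Matrix.mul_add, e1, e2, zero_add, zero_add] at h1
  have e3 : (F * Z + w)ᵀ * J * (P.1 * H) = Zᵀ * (Fᵀ * J * (P.1 * H)) + wᵀ * J * (P.1 * H) := by
    rw [transpose_add, transpose_mul, Matrix.add_mul, Matrix.add_mul]
    simp only [Matrix.mul_assoc]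
  have e4 : Fᵀ * J * (P.1 * (H * Z)) = (Fᵀ * J * (P.1 * H)) * Z := by
    simp only [Matrix.mul_assoc]
  have e5 : (H * Z)ᵀ * J * (P.1 * F) = Zᵀ * (Hᵀ * J * (P.1 * F)) := by
    rw [transpose_mul]
    simp only [Matrix.mul_assoc]
  have e6 : Hᵀ * J * (P.1 * (F * Z + w)) = (Hᵀ * J * (P.1 * F)) * Z + Hᵀ * J * (P.1 * w) := by
    rw [Matrix.mul_add, Matrix.mul_add]
    simp only [Matrix.mul_assoc]
  rw [e3, e4, e5, e6, h0] at h1
  unfold th at h1 ⊢
  have h4 : wᵀ * J * (P.1 * H) = Hᵀ * J * (P.1 * w) := by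
    have h5 : wᵀ * J * (P.1 * H) = (Zᵀ * (Hᵀ * J * (P.1 * F)) + wᵀ * J * (P.1 * H) +
        Hᵀ * J * (P.1 * F) * Z) - (Zᵀ * (Hᵀ * J * (P.1 * F)) + Hᵀ * J * (P.1 * F) * Z) := by
      abel
    rw [h5, h1]
    abel
  rw [← h4, transpose_mul, transpose_mul, transpose_mul, transpose_transpose,
    h.data.J_symm]
  calc Hᵀ * P.1ᵀ * (J * w) = Hᵀ * (P.1ᵀ * J) * w := by simp only [Matrix.mul_assoc]
    _ = -(Hᵀ * J * (P.1 * w)) := by
        rw [hP.1.eq]; simp only [Matrix.mul_neg, Matrix.neg_mul, Matrix.mul_assoc]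
    _ = _ := by rw [h4]

end mv

end Crest.Agent.R172.SUX
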