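import Crest.Agent.R172.PTt
import Crest.Agent.R172.SUX1

/-!
Row 172 (S0260), S-side (t2): elements of `NN H` compatible with ONE `L`-derivation `d0`.

* `exists_cmp` : the element of `NN H` of `d0` (`H.map d0 - p.1 H ∈ H C`), for every `H`;
* `row` : `Hᵀ J (p.1 w) = Hᵀ J (w.map d0)` for every `w` with `Hᵀ J w = 0` - the rows do not
  depend on `H` (`row_col` : on the columns `c = H U`);
* `comm` : `[d, d0] H = (p.1.map d) H + H C`, hence `comm_perp`;
* `Vert.of_form` : `Vert` depends only on the form `Hᵀ J p.1 H`;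
* `exists_d0` : every form of `NN F` is the form of an `L`-derivation;
* `vert_cmp` : `Vert` at `(F + t f, p_t)` for the `d0`-compatible `p_t`.
-/

set_option autoImplicit false
set_option linter.unusedSectionVars false
set_option linter.unusedFintypeInType false
set_option linter.unusedDecidableInType false

namespace Crest.Agent.R172.SRow

open Matrix Module Crest.Agent.R172.FO Crest.Agent.R172.Qt Crest.Agent.R172.SpS
  Crest.Agent.R172.Om Crest.Agent.R172.PTt

variable {ι : Type*} [Fintype ι] [DecidableEq ι] {δ : Type*} [Fintype δ] [DecidableEq δ]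
variable {k K : Type*} [Field k] [Field K] [Algebra k K]
variable {arm : δ → Fin 3} {J : Matrix ι ι K} {B : Matrix δ δ K}
  {N W : Submodule K (Matrix ι δ K)} {H : Matrix ι δ K}

/-- `p ∈ NN H` is compatible with the derivation `d0` -/
structure Cmp (arm : δ → Fin 3) (J : Matrix ι ι K) (N : Submodule K (Matrix ι δ K))
    (d0 : Derivation k K K) (H : Matrix ι δ K) (p : Matrix ι ι K × (Fin 3 → Matrix ι ι K)) :
    Prop where
  mem : p ∈ NN arm J N H
  eq : ∃ C : Matrix δ δ K, H.map d0 = p.1 * H + H * C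

/-- existence of the compatible element -/
theorem exists_cmp (h : Ctx k arm J B N W H) {d0 : Derivation k K K}
    (hd0 : IsY k arm B N W d0) : ∃ p, Cmp arm J N d0 H p := by
  obtain ⟨Λ, hΛ, hr⟩ := hd0
  obtain ⟨Y, hY, hYN, hYg⟩ := h.frame d0
  refine ⟨(Y 0, fun s => Y s - (0 : Fin 3 → Matrix ι ι K) s),
    mem_NN_of_frame (X := 0) (fun s => Skw.zero) (fun s => ⟨0, by simp⟩) hr hY hYN hYg, ?_⟩
  obtain ⟨C, hC⟩ := hYg 0
  exact ⟨C, by rw [← hC]; abel⟩

/-- transposing a skew `Z` -/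
theorem skw_tr {Z : Matrix ι ι K} (hZ : Skw J Z) {α β : Type*} [Fintype α] [Fintype β]
    (A : Matrix ι α K) (w : Matrix ι β K) : (Z * A)ᵀ * J * w = -(Aᵀ * J * (Z * w)) := by
  rw [transpose_mul]
  calc Aᵀ * Zᵀ * J * w = Aᵀ * (Zᵀ * J) * w := by simp only [Matrix.mul_assoc]
    _ = _ := by rw [hZ.eq]; simp only [Matrix.mul_neg, Matrix.neg_mul, Matrix.mul_assoc]

theorem map_zero_d {α β : Type*} (d : Derivation k K K) : (0 : Matrix α β K).map d = 0 := by
  ext i j; simp

/-- **rows**: `Hᵀ J (p.1 w) = Hᵀ J (d0 w)` if `Hᵀ J w = 0` -/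
theorem Cmp.row (hD : Data k arm J B N W) {d0 : Derivation k K K}
    {p : Matrix ι ι K × (Fin 3 → Matrix ι ι K)} (hc : Cmp arm J N d0 H p) {β : Type*} [Fintype β]
    {w : Matrix ι β K} (hw : Hᵀ * J * w = 0) : Hᵀ * J * (p.1 * w) = Hᵀ * J * w.map d0 := by
  obtain ⟨C, hC⟩ := hc.eq
  have h1 := congrArg (fun A : Matrix δ β K => A.map d0) hw
  simp only [map_mul_der, hD.J_const, Matrix.mul_zero, add_zero, map_transpose_der,
    map_zero_d, hC] at h1
  rw [transpose_add, Matrix.add_mul, Matrix.add_mul, skw_tr hc.mem.1, transpose_mul] at h1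
  have h2 : Cᵀ * Hᵀ * J * w = 0 := by
    calc Cᵀ * Hᵀ * J * w = Cᵀ * (Hᵀ * J * w) := by simp only [Matrix.mul_assoc]
      _ = 0 := by rw [hw, Matrix.mul_zero]
  rw [h2, add_zero, neg_add_eq_zero] at h1
  exact h1

/-- **rows on the columns `c = H U`**: `Uᵀ (Hᵀ J p.1 w) = -(d0 c)ᵀ J w`, independent of `H` -/
theorem Cmp.row_col (hD : Data k arm J B N W) {d0 : Derivation k K K}
    {p : Matrix ι ι K × (Fin 3 → Matrix ι ι K)} (hc : Cmp arm J N d0 H p) {α β : Type*}
    [Fintype α] [Fintype β] {w : Matrix ι β K} (hw : Hᵀ * J * w = 0) (U : Matrix δ α K) :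
    Uᵀ * (Hᵀ * J * (p.1 * w)) = -(((H * U).map d0)ᵀ * J * w) := by
  obtain ⟨C, hC⟩ := hc.eq
  have h2 : ∀ A : Matrix δ α K, (H * A)ᵀ * J * w = 0 := by
    intro A
    rw [transpose_mul]
    calc Aᵀ * Hᵀ * J * w = Aᵀ * (Hᵀ * J * w) := by simp only [Matrix.mul_assoc]
      _ = 0 := by rw [hw, Matrix.mul_zero]
  have h3 : (H * U).map d0 = p.1 * (H * U) + H * (C * U + U.map d0) := by
    rw [map_mul_der, hC, Matrix.add_mul, Matrix.mul_add]
    simp only [Matrix.mul_assoc]
    abel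
  rw [h3, transpose_add, Matrix.add_mul, Matrix.add_mul, h2, add_zero, skw_tr hc.mem.1, neg_neg,
    transpose_mul]
  simp only [Matrix.mul_assoc]

/-- the forms are those of `d0` -/
theorem Cmp.form (hD : Data k arm J B N W) {d0 : Derivation k K K}
    {p : Matrix ι ι K × (Fin 3 → Matrix ι ι K)} (hc : Cmp arm J N d0 H p) {F : Matrix ι δ K}
    (hF : Hᵀ * J * F = 0) : SUX.th J H p.1 F = Om J d0 H F := by
  unfold SUX.th Om
  exact hc.row hD hF

/-- the commutator, as a map on matrices -/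
def cm (d d0 : Derivation k K K) {α β : Type*} (A : Matrix α β K) : Matrix α β K :=
  (A.map d0).map d - (A.map d).map d0

theorem cm_mul (d d0 : Derivation k K K) {α β γ : Type*} [Fintype β] (A : Matrix α β K)
    (C : Matrix β γ K) : cm d d0 (A * C) = cm d d0 A * C + A * cm d d0 C := by
  unfold cm
  simp only [map_mul_der, map_add_der, Matrix.sub_mul, Matrix.mul_sub]
  abel

/-- **the commutator** of a move `d` (`dH = H Z`) with `d0`: `[d, d0] H = (dp.1) H + H C'` -/
theorem Cmp.comm {d d0 : Derivation k K K} {p : Matrix ι ι K × (Fin 3 → Matrix ι ι K)}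
    (hc : Cmp arm J N d0 H p) {Z : Matrix δ δ K} (hZ : H.map d = H * Z) :
    ∃ C' : Matrix δ δ K, cm d d0 H = p.1.map d * H + H * C' := by
  obtain ⟨C, hC⟩ := hc.eq
  refine ⟨Z * C + C.map d - C * Z - Z.map d0, ?_⟩
  unfold cm
  rw [hC, map_add_der, map_mul_der, map_mul_der, hZ, map_mul_der, hC]
  simp only [Matrix.mul_add, Matrix.mul_sub, Matrix.add_mul, Matrix.mul_assoc]
  abel

/-- `([d, d0] (H U))ᵀ J F = 0` if `Hᵀ J F = 0` and `Hᵀ J (dp.1) F = 0` -/
theorem Cmp.comm_perp (hD : Data k arm J B N W) {d d0 : Derivation k K K}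
    {p : Matrix ι ι K × (Fin 3 → Matrix ι ι K)}
    (hc : Cmp arm J N d0 H p) {Z : Matrix δ δ K} (hZ : H.map d = H * Z) {α β : Type*} [Fintype α]
    [Fintype β] {F : Matrix ι β K} (hF : Hᵀ * J * F = 0) (hdF : Hᵀ * J * (p.1.map d * F) = 0)
    (U : Matrix δ α K) : (cm d d0 (H * U))ᵀ * J * F = 0 := by
  obtain ⟨C', hC'⟩ := hc.comm hZ
  have hs : Skw J (p.1.map d) := hc.mem.1.map_der d (hD.J_const d)
  have h3 : cm d d0 (H * U) = p.1.map d * (H * U) + H * (C' * U + cm d d0 U) := by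
    rw [cm_mul, hC', Matrix.add_mul, Matrix.mul_add]
    simp only [Matrix.mul_assoc]
    abel
  have h2 : ∀ A : Matrix δ α K, (H * A)ᵀ * J * F = 0 := by
    intro A
    rw [transpose_mul]
    calc Aᵀ * Hᵀ * J * F = Aᵀ * (Hᵀ * J * F) := by simp only [Matrix.mul_assoc]
      _ = 0 := by rw [hF, Matrix.mul_zero]
  rw [h3, transpose_add, Matrix.add_mul, Matrix.add_mul, h2, add_zero, skw_tr hs, transpose_mul]
  have h4 : Uᵀ * Hᵀ * J * (p.1.map d * F) = Uᵀ * (Hᵀ * J * (p.1.map d * F)) := by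
    simp only [Matrix.mul_assoc]
  rw [h4, hdF, Matrix.mul_zero, neg_zero]

/-- `Vert` depends only on the form -/
theorem vert_of_form (hD : Data k arm J B N W) {P P' : Matrix ι ι K × (Fin 3 → Matrix ι ι K)}
    (hV : Vert k arm J N W H P) (he : Hᵀ * J * (P'.1 * H) = Hᵀ * J * (P.1 * H)) :
    Vert k arm J N W H P' := by
  refine ⟨hV.v1, fun p' hp' => ?_⟩
  obtain ⟨d, hdH, hd, hdP⟩ := hV.v2 p' hp'
  refine ⟨d, hdH, hd, ?_⟩
  have h1 := congrArg (fun A : Matrix δ δ K => A.map d) he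
  simp only [mapJ hD d hdH, map_mul_der, hdH, Matrix.mul_zero, add_zero] at h1
  rw [← hdP, ← h1]

/-- **every form of `NN F` is the form of an `L`-derivation** -/
theorem exists_d0 {F : Matrix ι δ K} (h : Ctx k arm J B N W F) (h2 : (2 : K) ≠ 0)
    {ψ : Matrix ι ι K × (Fin 3 → Matrix ι ι K)} (hψ : ψ ∈ NN arm J N F) :
    ∃ d0 : Derivation k K K, IsY k arm B N W d0 ∧ Om J d0 F F = Fᵀ * J * (ψ.1 * F) := by
  classical
  have hD := h.data
  obtain ⟨Bi, hBi⟩ := hD.B_unit.exists_right_inv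
  have hBi' : Bi * B = 1 := by
    rw [mul_eq_one_comm] at hBi; exact hBi
  have hBit : Biᵀ = Bi := by
    have h0 : B * Biᵀ = 1 := by
      have := congrArg transpose hBi'
      rw [transpose_mul, transpose_one, hD.B_symm] at this
      exact this
    calc Biᵀ = (Bi * B) * Biᵀ := by rw [hBi', Matrix.one_mul]
      _ = Bi := by rw [Matrix.mul_assoc, h0, Matrix.mul_one]
  let L : Matrix δ δ K →ₗ[K] Dual K (NN arm J N F) :=
    { toFun := fun G =>
        { toFun := fun q => trace (Fᵀ * J * (q.1.1 * F) * G)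
          map_add' := by
            intro q q'
            rw [show ((q + q').1 : Matrix ι ι K × (Fin 3 → Matrix ι ι K)).1 = q.1.1 + q'.1.1
              from rfl, Matrix.add_mul, Matrix.mul_add, Matrix.add_mul, trace_add]
          map_smul' := by
            intro t q
            rw [show ((t • q).1 : Matrix ι ι K × (Fin 3 → Matrix ι ι K)).1 = t • q.1.1
              from rfl, Matrix.smul_mul, Matrix.mul_smul, Matrix.smul_mul, trace_smul,
              RingHom.id_apply] }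
      map_add' := by
        intro G G'
        refine LinearMap.ext fun q => ?_
        change trace (Fᵀ * J * (q.1.1 * F) * (G + G')) = trace _ + trace _
        rw [Matrix.mul_add, trace_add]
      map_smul' := by
        intro t G
        refine LinearMap.ext fun q => ?_
        change trace (Fᵀ * J * (q.1.1 * F) * (t • G)) = t • trace _
        rw [Matrix.mul_smul, trace_smul] }
  have hL : ∀ G q, L G q = trace (Fᵀ * J * (q.1.1 * F) * G) := fun G q => rfl
  let Sk : Submodule K (Matrix δ δ K) :=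
    { carrier := {G | Gᵀ = -G}
      zero_mem' := by simp
      add_mem' := by
        intro a b ha hb
        change (a + b)ᵀ = -(a + b)
        rw [transpose_add, show aᵀ = -a from ha, show bᵀ = -b from hb, neg_add]
      smul_mem' := by
        intro c a ha
        change (c • a)ᵀ = -(c • a)
        rw [transpose_smul, show aᵀ = -a from ha, smul_neg] }
  have hmem : fn arm J B N F (act arm ψ.2 F) ∈ Sk.map L := by
    rw [← Subspace.dualCoannihilator_dualAnnihilator_eq (W := Sk.map L),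
      Submodule.mem_dualAnnihilator]
    intro q hq
    rw [Submodule.mem_dualCoannihilator] at hq
    have hq0 : Fᵀ * J * (q.1.1 * F) = 0 := by
      have h1 : (Fᵀ * J * (q.1.1 * F))ᵀ = Fᵀ * J * (q.1.1 * F) := by
        apply symm_of_trace_skew
        intro G hG
        rw [trace_mul_comm]
        exact hq _ ⟨G, hG, rfl⟩
      have h3 := skew_gXg hD.J_symm q.2.1 F
      rw [h1] at h3
      have h4 : (2 : K) • (Fᵀ * J * (q.1.1 * F)) = 0 := by
        rw [two_smul]
        nth_rewrite 1 [h3]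
        rw [neg_add_cancel]
      exact (smul_eq_zero.1 h4).resolve_left h2
    rw [fn_apply, h.skew_w hψ q.2, neg_eq_zero]
    have h5 : act arm q.1.2 F = q.1.1 * F - Pg arm F q.1 := by unfold Pg; abel
    rw [h5, pair_sub_right, h.pair_Pg_Pg hψ q.2, sub_zero]
    exact h.pair_Pg_A h.mem hψ hq0
  obtain ⟨G, hG, hGe⟩ := hmem
  have hG' : Gᵀ = -G := hG
  have hΛt : (Bi * G)ᵀ = -(G * Bi) := by
    rw [transpose_mul, hG', hBit, Matrix.neg_mul]
  have hΛ : (Bi * G)ᵀ * B + B * (Bi * G) = 0 := by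
    rw [hΛt, Matrix.neg_mul, Matrix.mul_assoc, hBi', Matrix.mul_one, ← Matrix.mul_assoc, hBi,
      Matrix.one_mul, neg_add_cancel]
  obtain ⟨d0, hd0⟩ := hD.dir 0 (Bi * G) (by intro s; simp) hΛ
  refine ⟨d0, ⟨Bi * G, hΛ, hd0⟩, ?_⟩
  have hN : F.map d0 ∈ N := by
    have := hd0.onN F h.memN
    rwa [act_zero, sub_zero] at this
  have hW : F.map d0 - F * (Bi * G)ᵀ ∈ W := hd0.onW F h.memW
  have hg2 : Fᵀ * J * (ψ.1 * F) = Fᵀ * J * (act arm ψ.2 F) := by
    have := h.perp_Pg hψ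
    unfold Pg at this
    rw [Matrix.mul_sub, sub_eq_zero] at this
    exact this
  have hFF : ∀ A : Matrix δ δ K, Fᵀ * J * (F * A) = 0 := by
    intro A; rw [← Matrix.mul_assoc, h.iso, Matrix.zero_mul]
  have key := h.onto (a := ψ.1 * F - (F.map d0 - F * (Bi * G)ᵀ))
    (ν := act arm ψ.2 F - F.map d0) (W.sub_mem (h.W_mul _ h.memW) hW)
    (N.sub_mem (hψ.2.1.pres F h.memN) hN) (by
      rw [Matrix.mul_sub, Matrix.mul_sub, Matrix.mul_sub, hFF, sub_zero, hg2]) (by
      rw [map_sub, sub_eq_zero, ← hGe]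
      refine LinearMap.ext fun q => ?_
      rw [hL, fn_apply]
      have e0 : Pg arm F q.1 = q.1.1 * F - act arm q.1.2 F := rfl
      have e1 : F.map d0 = (F.map d0 - F * (Bi * G)ᵀ) + F * (Bi * G)ᵀ := by abel
      rw [e0, pair_sub_left, h.pair_N (q.2.2.1.pres F h.memN) hN, sub_zero, e1, pair_add_right,
        pair_W hD (h.W_mul _ h.memW) hW, zero_add, pair_skw q.2.1]
      unfold pair
      rw [hΛt]
      have e2 : Fᵀ * J * (q.1.1 * (F * -(G * Bi))) * B
          = -(Fᵀ * J * (q.1.1 * F) * G * (Bi * B)) := by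
        simp only [Matrix.mul_neg, Matrix.neg_mul, Matrix.mul_assoc]
      rw [e2, hBi', Matrix.mul_one, trace_neg, neg_neg])
  rw [Matrix.mul_sub, sub_eq_zero, Matrix.mul_sub, hFF, sub_zero] at key
  exact key.symm

/-- **`Vert` at `(F + t f, p_t)`, `p_t` the `d0`-compatible element** -/
theorem vert_cmp {F f : Matrix ι δ K} {t : k} (hF : Ctx k arm J B N W F)
    (hH : Ctx k arm J B N W (F + (algebraMap k K t) • f))
    (hNm : ∀ F, (∀ F' ∈ N, pair J B F' F = 0) → F ∈ N)
    (hWm : ∀ F, (∀ F' ∈ W, pair J B F' F = 0) → F ∈ W) (hf : f ∈ Kiso J N W)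
    (hV1 : ∀ w ∈ Kiso J N W, ∃ d : Derivation k K K, F.map d = w ∧ f.map d = 0 ∧
      Realises arm N W (0 : Fin 3 → Matrix ι ι K) (0 : Matrix δ δ K) d)
    {P : Matrix ι ι K × (Fin 3 → Matrix ι ι K)} (hP : P ∈ NN arm J N F)
    (hV2 : ∀ p' ∈ NN arm J N F, ∃ d : Derivation k K K, F.map d = 0 ∧ f.map d = 0 ∧
      Realises arm N W (0 : Fin 3 → Matrix ι ι K) (0 : Matrix δ δ K) d ∧ P.1.map d = p'.1 ∧
        ∀ s, (P.2 s).map d = p'.2 s)
    {d0 : Derivation k K K} (hd0 : IsY k arm B N W d0)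
    (he0 : Om J d0 F F = Fᵀ * J * (P.1 * F))
    {p : Matrix ι ι K × (Fin 3 → Matrix ι ι K)}
    (hp : Cmp arm J N d0 (F + (algebraMap k K t) • f) p) :
    Vert k arm J N W (F + (algebraMap k K t) • f) p := by
  set τ : K := algebraMap k K t with hτ
  obtain ⟨C, hC, b, hb, ν, hν, e, hFb, Pt, hPt, he, -, -⟩ := exists_Pt hF hH hNm hWm hf hP
  have hV : Vert k arm J N W (F + τ • f) Pt :=
    vert_Pt hF hH hNm hWm hf hV1 hV2 hC hb hν e he
  refine vert_of_form hF.data hV ?_
  rw [← he]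
  have h1 := hp.form hF.data (hH.iso)
  unfold SUX.th at h1
  rw [h1]
  unfold Om
  obtain ⟨Λ, hΛ, hr⟩ := hd0
  have hFN : F.map d0 ∈ N := by
    have := hr.onN F hF.memN
    rwa [act_zero, sub_zero] at this
  have hfN : f.map d0 ∈ N := by
    have := hr.onN f hf.1.1
    rwa [act_zero, sub_zero] at this
  have hFW : F.map d0 - F * Λᵀ ∈ W := hr.onW F hF.memW
  have hfW : f.map d0 - f * Λᵀ ∈ W := hr.onW f hf.1.2
  have hPF : P.1 * F = act arm P.2 F + F * C := by rw [← hC]; unfold Pg; abel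
  have hαW : (F.map d0 - F * Λᵀ) - P.1 * F ∈ W := W.sub_mem hFW (hF.W_mul _ hF.memW)
  have hαN : F.map d0 - act arm P.2 F ∈ N := N.sub_mem hFN (hP.2.1.pres F hF.memN)
  have hα : (F.map d0 - F * Λᵀ) - P.1 * F = (F.map d0 - act arm P.2 F) + F * (-Λᵀ - C) := by
    rw [hPF, Matrix.mul_sub, Matrix.mul_neg]; abel
  have hβW : (f.map d0 - f * Λᵀ) - b ∈ W := W.sub_mem hfW hb
  have hβN : f.map d0 - ν ∈ N := N.sub_mem hfN hν
  have hβ : (f.map d0 - f * Λᵀ) - b = (f.map d0 - ν) + f * (-Λᵀ - C) := by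
    rw [e, Matrix.mul_sub, Matrix.mul_neg]; abel
  have hFF : ∀ A : Matrix δ δ K, Fᵀ * J * (F * A) = 0 := by
    intro A; rw [← Matrix.mul_assoc, hF.iso, Matrix.zero_mul]
  have h0 : Fᵀ * J * ((F.map d0 - F * Λᵀ) - P.1 * F) = 0 := by
    rw [Matrix.mul_sub, Matrix.mul_sub, hFF, sub_zero, ← he0]
    exact sub_self _
  have z1 := beta_zero hF hf.1 hαW hαN hα hβW hβN hβ h0
  have z2 := alpha_zero hF hf hNm hWm hαW hαN hα h0
  obtain ⟨d1, dF1, df1, hd1⟩ := hV1 f hf
  have z3 := fb_zero hF hNm hWm hf dF1 df1 hd1 hαW hαN hα hβW hβN hβ h0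
  have z4 : (F + τ • f)ᵀ * J * (((F.map d0 - F * Λᵀ) - P.1 * F) +
      τ • ((f.map d0 - f * Λᵀ) - b)) = 0 := by
    rw [Matrix.mul_add, transpose_add, transpose_smul, Matrix.add_mul, Matrix.smul_mul,
      Matrix.add_mul, Matrix.smul_mul, h0, z2, Matrix.mul_smul, Matrix.add_mul,
      Matrix.smul_mul, z1, z3]
    simp
  have z5 : (F + τ • f).map d0 = (((F.map d0 - F * Λᵀ) - P.1 * F) +
      τ • ((f.map d0 - f * Λᵀ) - b)) + (P.1 * F + τ • b) + (F + τ • f) * Λᵀ := by
    rw [map_add_const, Matrix.add_mul, Matrix.smul_mul, smul_sub, smul_sub]; abel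
  have hHH : (F + τ • f)ᵀ * J * ((F + τ • f) * Λᵀ) = 0 := by
    rw [← Matrix.mul_assoc, hH.iso, Matrix.zero_mul]
  rw [z5, Matrix.mul_add, Matrix.mul_add, z4, hHH, zero_add, add_zero]

end Crest.Agent.R172.SRow
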