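import Crest.Agent.R172.SUX1
import Crest.Agent.R172.PTt
import Crest.Agent.R172.SGl1
import Crest.Agent.R172.SUX3

/-!
Row 172 (S0260), S-side: `Fᵀ J w = 0` for the W-parts `w = wd k`, `w'' = wd w` of the moves at
`(H, P)`, `F ∈ 𝒦iso` (not only `Hᵀ J w = 0`).  The only input is `w Y_r ∈ H ⬝ gl(δ)`.
-/

set_option autoImplicit false
set_option linter.unusedSectionVars false
set_option linter.unusedFintypeInType false
set_option linter.unusedDecidableInType false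

namespace Crest.Agent.R172.SA2h555

open Matrix Module Crest.Agent.R172.FO Crest.Agent.R172.Qt Crest.Agent.R172.SpS
  Crest.Agent.R172.Om Crest.Agent.R172.SUX
open scoped TensorProduct

variable {ι : Type*} [Fintype ι] [DecidableEq ι] {δ : Type*} [Fintype δ] [DecidableEq δ]
variable {k K : Type*} [Field k] [Field K] [Algebra k K]
variable {arm : δ → Fin 3} {J : Matrix ι ι K} {B : Matrix δ δ K}
  {N W : Submodule K (Matrix ι δ K)} {H F : Matrix ι δ K}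
  {P : Matrix ι ι K × (Fin 3 → Matrix ι ι K)} {Y : Fin 3 → Matrix δ δ K} {d : Derivation k K K}

/-- **the class `N + H gl(δ)` is preserved** by `wd` if `w Y_r ∈ H gl(δ)` -/
theorem wd_class (h : Ctx k arm J B N W H) (m : Mv k arm J N W H P.1 Y d)
    {w ν : Matrix ι δ K} {C0 : Matrix δ δ K} (hν : ν ∈ N) (hw : w = ν + H * C0)
    (hp : Hᵀ * J * w = 0) {C : Fin 3 → Matrix δ δ K} (hC : ∀ r, w * Y r = H * C r) :
    ∃ ν' ∈ N, ∃ C' : Matrix δ δ K, wd arm J H P.1 Y d w = ν' + H * C' := by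
  have hpν : Hᵀ * J * ν = 0 := by
    have e : ν = w - H * C0 := by rw [hw]; abel
    rw [e, Matrix.mul_sub, hp, ← Matrix.mul_assoc _ H C0, h.iso, Matrix.zero_mul, sub_zero]
  have h1 := m.n_mem hν hpν
  refine ⟨_, h1, ZY arm J H P.1 Y * C0 + C0.map d + (∑ r, Y r * th J H P.1 ν * E K arm r) -
    ∑ r, C r * th J H P.1 H * E K arm r, ?_⟩
  have e1 : w * ZY arm J H P.1 Y = H * ∑ r, C r * th J H P.1 H * E K arm r := by
    rw [H_ZY, Matrix.mul_sum]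
    refine Finset.sum_congr rfl fun r _ => ?_
    rw [hC r]
    simp only [Matrix.mul_assoc]
  have e2 : w.map d = ν.map d + (H * ZY arm J H P.1 Y * C0 + H * C0.map d) := by
    conv_lhs => rw [hw]
    rw [map_add_der, map_mul_der, m.dH]
  have e3 : H * ∑ r, Y r * th J H P.1 ν * E K arm r =
      ∑ r, H * Y r * th J H P.1 ν * E K arm r := by
    rw [Matrix.mul_sum]
    exact Finset.sum_congr rfl fun r _ => by simp only [Matrix.mul_assoc]
  unfold wd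
  rw [e1, e2, Matrix.mul_sub, Matrix.mul_add, Matrix.mul_add, e3, Matrix.mul_assoc H _ C0]
  abel

/-- **`Fᵀ J (wd w) = 0`** -/
theorem F_perp_wd (h : Ctx k arm J B N W H) (hF : F ∈ Kiso J N W)
    (hNm : ∀ F, (∀ F' ∈ N, pair J B F' F = 0) → F ∈ N)
    (hWm : ∀ F, (∀ F' ∈ W, pair J B F' F = 0) → F ∈ W)
    (m : Mv k arm J N W H P.1 Y d)
    {w ν : Matrix ι δ K} {C0 : Matrix δ δ K} (hwW : w ∈ W) (hν : ν ∈ N) (hw : w = ν + H * C0)
    (hp : Hᵀ * J * w = 0) {C : Fin 3 → Matrix δ δ K} (hC : ∀ r, w * Y r = H * C r) :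
    Fᵀ * J * wd arm J H P.1 Y d w = 0 := by
  obtain ⟨ν', hν', C', e⟩ := wd_class h m hν hw hp hC
  exact PTt.alpha_zero h hF hNm hWm (m.w_mem hwW) hν' e (m.w_perp h hp)

/-- first level: `k ∈ 𝒦` -/
theorem F_perp (h : Ctx k arm J B N W H) (hF : F ∈ Kiso J N W)
    (hNm : ∀ F, (∀ F' ∈ N, pair J B F' F = 0) → F ∈ N)
    (hWm : ∀ F, (∀ F' ∈ W, pair J B F' F = 0) → F ∈ W)
    (m : Mv k arm J N W H P.1 Y d) {kk : Matrix ι δ K} (hk : kk ∈ N ⊓ W)
    {C : Fin 3 → Matrix δ δ K} (hC : ∀ r, kk * Y r = H * C r) :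
    Fᵀ * J * wd arm J H P.1 Y d kk = 0 :=
  F_perp_wd h hF hNm hWm m hk.2 hk.1 (C0 := 0) (by rw [Matrix.mul_zero, add_zero])
    (h.perp kk hk) hC

/-- first level in the letters of 213's `SGl1.Rel` -/
theorem F_perp_rel {kk : Matrix ι δ K} {S SH Sk : Matrix δ δ K} {Q1 Q2 : Submodule K (δ → K)}
    {c1 c2 : K} (h : Ctx k arm J B N W H) (hF : F ∈ Kiso J N W)
    (hNm : ∀ F, (∀ F' ∈ N, pair J B F' F = 0) → F ∈ N)
    (hWm : ∀ F, (∀ F' ∈ W, pair J B F' F = 0) → F ∈ W)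
    (R : SGl1.Rel F H kk S SH Sk Q1 Q2 c1 c2) (hc1 : c1 ≠ 0) (hk : kk ∈ N ⊓ W)
    (x : Fin 3 → Q2 ⊗[K] Q1)
    (m : Mv k arm J N W H P.1 (fun r => SGl1.ten Q2 Q1 (x r) + (SGl1.ten Q2 Q1 (x r))ᵀ) d) :
    Fᵀ * J * wd arm J H P.1 (fun r => SGl1.ten Q2 Q1 (x r) + (SGl1.ten Q2 Q1 (x r))ᵀ) d kk = 0 := by
  refine F_perp h hF hNm hWm m hk (C := fun r => c1⁻¹ • (SGl1.ten Q2 Q1 (x r))ᵀ) fun r => ?_
  have e2 : ∀ z : Q2 ⊗[K] Q1, kk * SGl1.ten Q2 Q1 z = 0 := by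
    intro z
    induction z using TensorProduct.induction_on with
    | zero => rw [map_zero, Matrix.mul_zero]
    | tmul a b => rw [SGl1.ten_tmul, mul_vecMulVec, R.k2 _ a.2, zero_vecMulVec]
    | add z z' h1 h2 => rw [map_add, Matrix.mul_add, h1, h2, add_zero]
  have e1 : ∀ z : Q2 ⊗[K] Q1, kk * (SGl1.ten Q2 Q1 z)ᵀ = H * (c1⁻¹ • (SGl1.ten Q2 Q1 z)ᵀ) := by
    intro z
    induction z using TensorProduct.induction_on with
    | zero => rw [map_zero, transpose_zero, smul_zero, Matrix.mul_zero, Matrix.mul_zero]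
    | tmul a b =>
      rw [SGl1.ten_tmul, transpose_vecMulVec, Matrix.mul_smul, mul_vecMulVec, mul_vecMulVec,
        R.k1 _ b.2, R.H1 _ b.2, smul_vecMulVec, smul_smul, inv_mul_cancel₀ hc1, one_smul]
    | add z z' h1 h2 =>
      rw [map_add, transpose_add, Matrix.mul_add, h1, h2, smul_add, Matrix.mul_add]
  rw [Matrix.mul_add, e2, zero_add, e1]

section frames

variable {n1 n2 : Type*} [Fintype n1] [Fintype n2] [DecidableEq n1] [DecidableEq n2]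
  {U1 : Matrix δ n1 K} {U2 : Matrix δ n2 K}

/-- frames: `w Y ∈ H gl(δ)` from the values of `w` on the frames -/
theorem frame_class {w : Matrix ι δ K} {c1 c2 : K} (hc1 : c1 ≠ 0) (hc2 : c2 ≠ 0)
    (H1 : H * U1 = c1 • (F * U1)) (H2 : H * U2 = c2 • (F * U2))
    {a11 : Matrix n1 n1 K} {a21 : Matrix n2 n1 K} {a12 : Matrix n1 n2 K} {a22 : Matrix n2 n2 K}
    (L1 : w * U1 = F * (U1 * a11) + F * (U2 * a21))
    (L2 : w * U2 = F * (U1 * a12) + F * (U2 * a22))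
    (X : Matrix n2 n1 K) :
    w * (U2 * X * U1ᵀ + U1 * Xᵀ * U2ᵀ) =
      H * ((c1⁻¹ • (U1 * a12) + c2⁻¹ • (U2 * a22)) * X * U1ᵀ +
        (c1⁻¹ • (U1 * a11) + c2⁻¹ • (U2 * a21)) * Xᵀ * U2ᵀ) := by
  have h1 : F * U1 = c1⁻¹ • (H * U1) := by rw [H1, smul_smul, inv_mul_cancel₀ hc1, one_smul]
  have h2 : F * U2 = c2⁻¹ • (H * U2) := by rw [H2, smul_smul, inv_mul_cancel₀ hc2, one_smul]
  have e1 : w * (U2 * X * U1ᵀ) = (w * U2) * X * U1ᵀ := by simp only [Matrix.mul_assoc]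
  have e2 : w * (U1 * Xᵀ * U2ᵀ) = (w * U1) * Xᵀ * U2ᵀ := by simp only [Matrix.mul_assoc]
  rw [Matrix.mul_add, e1, e2, L1, L2, ← Matrix.mul_assoc F U1, ← Matrix.mul_assoc F U2,
    ← Matrix.mul_assoc F U1, ← Matrix.mul_assoc F U2, h1, h2]
  simp only [Matrix.mul_add, Matrix.add_mul, Matrix.smul_mul, Matrix.mul_smul, Matrix.mul_assoc]

end frames

end Crest.Agent.R172.SA2h555
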