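import Crest.Agent.R172.UBlk
import Crest.Agent.R172.PTt

/-!
Row 172 (S0260), (t2), S-side: `Ainf (ω at (H, P_t)) ≤ Ainf (ω at (F, P))`, `H = F + t f`, for all `t`
outside a finite set (node L2-c0 of helper977).
-/

set_option autoImplicit false
set_option linter.unusedSectionVars false
set_option linter.unusedFintypeInType false
set_option linter.unusedDecidableInType false

namespace Crest.Agent.R172.SAinf977

open Matrix Module Crest.Agent.R172.FO Crest.Agent.R172.Qt Crest.Agent.R172.SpS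
open Crest.Agent.R172.SBlk Crest.Agent.R172.UBlk
open Crest.Agent.R172.Om (Kiso)
open Crest.Agent.R172.PL (Wk Ainf Ainf_exists Ainf_le_Wk Ainf_stable)

variable {ι : Type*} [Fintype ι] [DecidableEq ι] {δ : Type*} [Fintype δ] [DecidableEq δ]
variable {k K : Type*} [Field k] [Field K] [Algebra k K]
variable {arm : δ → Fin 3} {J : Matrix ι ι K} {B : Matrix δ δ K}
  {N W : Submodule K (Matrix ι δ K)} {F f : Matrix ι δ K}

/-- the bad parameters: `1 + t T_f` is not injective -/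
def Bad (arm : δ → Fin 3) (J : Matrix ι ι K) (N : Submodule K (Matrix ι δ K))
    (F f : Matrix ι δ K) : Set K :=
  {t | ∃ q ∈ NN arm J N F, Fᵀ * J * (q.1 * (F + t • f)) = 0 ∧ Fᵀ * J * (q.1 * F) ≠ 0}

theorem form_add (q : Matrix ι ι K) (t : K) (G : Matrix ι δ K) :
    Gᵀ * J * (q * (F + t • f)) = Gᵀ * J * (q * F) + t • (Gᵀ * J * (q * f)) := by
  rw [Matrix.mul_add, Matrix.mul_smul, Matrix.mul_add, Matrix.mul_smul]

theorem bad_finite (h : Ctx k arm J B N W F) (hf : f ∈ N ⊓ W) :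
    (Bad arm J N F f).Finite := by
  obtain ⟨R, hR⟩ := exists_gen_inv F
  obtain ⟨Tf, -, hTf⟩ := exists_step h hR hf
  have hfin : Set.Finite {μ : K | Tf.HasEigenvalue μ} := Module.End.finite_hasEigenvalue Tf
  refine (hfin.image (fun μ => -μ⁻¹)).subset ?_
  rintro t ⟨q, hq, h0, hne⟩
  let φ : Xi J N arm F := ⟨Fᵀ * J * (q.1 * F), ⟨⟨q, hq⟩, rfl⟩⟩
  have e1 := hTf φ ⟨q, hq⟩ rfl
  have e2 : φ + t • Tf φ = 0 := by
    apply Subtype.ext
    change Fᵀ * J * (q.1 * F) + t • ((Tf φ : Xi J N arm F) : Matrix δ δ K) = 0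
    rw [e1, ← h0, form_add]
  have ht : t ≠ 0 := by
    rintro rfl
    rw [zero_smul, add_zero] at e2
    exact hne (congrArg Subtype.val e2)
  have hφ : φ ≠ 0 := fun e => hne (congrArg Subtype.val e)
  have e3 : φ = -(t • Tf φ) := eq_neg_of_add_eq_zero_left e2
  have e4 : Tf φ = (-t⁻¹) • φ := by
    have : (-t⁻¹) • φ = (-t⁻¹) • (-(t • Tf φ)) := congrArg _ e3
    rw [this, smul_neg, neg_smul, neg_neg, smul_smul, inv_mul_cancel₀ ht, one_smul]
  refine ⟨-t⁻¹, ?_, by simp⟩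
  exact Module.End.hasEigenvalue_of_hasEigenvector
    (Module.End.hasEigenvector_iff.2 ⟨Module.End.mem_eigenspace_iff.2 e4, hφ⟩)

section back

variable (hF : Ctx k arm J B N W F) {t : K} (hH : Ctx k arm J B N W (F + t • f))
  (hNm : ∀ F, (∀ F' ∈ N, pair J B F' F = 0) → F ∈ N)
  (hWm : ∀ F, (∀ F' ∈ W, pair J B F' F = 0) → F ∈ W) (hf : f ∈ Kiso J N W)

include hF hH hNm hWm hf

/-- (PT) backwards -/
theorem back {q : Matrix ι ι K × (Fin 3 → Matrix ι ι K)} (hq : q ∈ NN arm J N (F + t • f)) :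
    ∃ C : Matrix δ δ K, ∃ b ∈ W, ∃ ν ∈ N, ∃ q' ∈ NN arm J N F, b = ν + f * C ∧
      q.1 * (F + t • f) = act arm q.2 (F + t • f) + (F + t • f) * C ∧
      (F + t • f)ᵀ * J * b = (F + t • f)ᵀ * J * (q.1 * f) ∧
      Fᵀ * J * (q'.1 * (F + t • f)) = (F + t • f)ᵀ * J * (q.1 * F) ∧
      Fᵀ * J * (q'.1 * f) = Fᵀ * J * b := by
  have hFe : (F + t • f) + (-t) • f = F := by rw [neg_smul, add_neg_cancel_right]
  have hH' : Ctx k arm J B N W ((F + t • f) + (-t) • f) := by rw [hFe]; exact hF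
  obtain ⟨C, hC, b, hb, ν, hν, e, e1, q', hq', -, e2, e3⟩ :=
    PTt.exists_Pt (t := -t) hH hH' hNm hWm hf hq
  rw [hFe] at hq' e2 e3
  refine ⟨C, b, hb, ν, hν, q', hq', e, ?_, e1, ?_, e3⟩
  · rw [← hC]; unfold Pg; abel
  · rw [e2]
    exact (PTt.flip hH hF.mem hq).symm

/-- (a): the form at `F` of an element of `NN H` with `Hᵀ J P_t F = Hᵀ J P F`. -/
theorem form_back (ht : t ∉ Bad arm J N F f) {P Pt : Matrix ι ι K × (Fin 3 → Matrix ι ι K)}
    (hP : P ∈ NN arm J N F) (hPt : Pt ∈ NN arm J N (F + t • f))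
    (hPF : (F + t • f)ᵀ * J * (Pt.1 * F) = (F + t • f)ᵀ * J * (P.1 * F)) :
    ∃ P' ∈ NN arm J N F, Fᵀ * J * (P'.1 * F) = Fᵀ * J * (P.1 * F) ∧
      Fᵀ * J * (P'.1 * (F + t • f)) = (F + t • f)ᵀ * J * (Pt.1 * F) := by
  obtain ⟨C, b, hb, ν, hν, P', hP', e, -, -, e2, -⟩ := back hF hH hNm hWm hf hPt
  refine ⟨P', hP', ?_, e2⟩
  by_contra hne
  apply ht
  refine ⟨P' - P, (NN arm J N F).sub_mem hP' hP, ?_, ?_⟩
  · have e3 : (P' - P).1 = P'.1 - P.1 := rfl
    have e4 : (F + t • f)ᵀ * J * (P.1 * F) = Fᵀ * J * (P.1 * (F + t • f)) := by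
      rw [form_add, transpose_add, transpose_smul, Matrix.add_mul, Matrix.add_mul,
        Matrix.smul_mul, Matrix.smul_mul, PTt.flip hF hf.1 hP]
    rw [e3, Matrix.sub_mul, Matrix.mul_sub, e2, hPF, e4, sub_self]
  · have e3 : (P' - P).1 = P'.1 - P.1 := rfl
    rw [e3, Matrix.sub_mul, Matrix.mul_sub]
    exact sub_ne_zero.2 hne

/-- (c): no block with `F u = 0`. -/
theorem form_inf (ht : t ∉ Bad arm J N F f) {d : Derivation k K K} (hdF : F.map d = f)
    (hdf : f.map d = 0)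
    (hd : Realises arm N W (0 : Fin 3 → Matrix ι ι K) (0 : Matrix δ δ K) d)
    {q : Matrix ι ι K × (Fin 3 → Matrix ι ι K)} (hq : q ∈ NN arm J N (F + t • f))
    (h0 : (F + t • f)ᵀ * J * (q.1 * F) = 0) :
    (F + t • f)ᵀ * J * (q.1 * (F + t • f)) = 0 := by
  obtain ⟨C, b, hb, ν, hν, q', hq', e, e0, e1, e2, e3⟩ := back hF hH hNm hWm hf hq
  rw [h0] at e2
  have hq0 : Fᵀ * J * (q'.1 * F) = 0 := by
    by_contra hne
    exact ht ⟨q', hq', e2, hne⟩
  have hqf : Fᵀ * J * (q'.1 * f) = 0 := hF.tf_zero hf.1 hq' hq0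
  rw [hqf] at e3
  have hα : q.1 * (F + t • f) - t • b ∈ W :=
    W.sub_mem (hH.W_mul _ hH.memW) (W.smul_mem t hb)
  have hνα : act arm q.2 (F + t • f) - t • ν ∈ N :=
    N.sub_mem (hq.2.1.pres _ hH.memN) (N.smul_mem t hν)
  have eα : q.1 * (F + t • f) - t • b = (act arm q.2 (F + t • f) - t • ν) + F * C := by
    rw [e0, e, smul_add, Matrix.add_mul, Matrix.smul_mul]; abel
  have hFq : Fᵀ * J * (q.1 * (F + t • f)) = 0 := by
    rw [← PTt.flip hH hF.mem hq]; exact h0
  have h1 : Fᵀ * J * (q.1 * (F + t • f) - t • b) = 0 := by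
    rw [Matrix.mul_sub, Matrix.mul_smul, hFq, ← e3, smul_zero, sub_zero]
  have h2 := PTt.fb_zero hF hNm hWm hf hdF hdf hd hα hνα eα hb hν e h1
  have h3 : (F + t • f)ᵀ * J * b = 0 := by
    rw [transpose_add, transpose_smul, Matrix.add_mul, Matrix.add_mul, Matrix.smul_mul,
      Matrix.smul_mul, h2, ← e3, smul_zero, add_zero]
  rw [form_add, h0, ← e1, h3, smul_zero, add_zero]

end back

section main

variable [IsAlgClosed K]
variable (hF : Ctx k arm J B N W F) {t : K} (hH : Ctx k arm J B N W (F + t • f))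
  (hNm : ∀ F, (∀ F' ∈ N, pair J B F' F = 0) → F ∈ N)
  (hWm : ∀ F, (∀ F' ∈ W, pair J B F' F = 0) → F ∈ W) (hf : f ∈ Kiso J N W)
  (hNil : NilW arm J B N (F + t • f))

include hF hH hNm hWm hf hNil

/-- **`Ainf (ω at (H, P_t)) ≤ Ainf (ω at (F, P))`.** -/
theorem ainf_le (ht : t ∉ Bad arm J N F f) {d : Derivation k K K} (hdF : F.map d = f)
    (hdf : f.map d = 0)
    (hd : Realises arm N W (0 : Fin 3 → Matrix ι ι K) (0 : Matrix δ δ K) d)
    {P Pt : Matrix ι ι K × (Fin 3 → Matrix ι ι K)}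
    (hP : P ∈ NN arm J N F) (hPt : Pt ∈ NN arm J N (F + t • f))
    (hPF : (F + t • f)ᵀ * J * (Pt.1 * F) = (F + t • f)ᵀ * J * (P.1 * F)) :
    Ainf (om arm J B (F + t • f) Pt.1 (F + t • f)) ≤ Ainf (om arm J B F P.1 F) := by
  obtain ⟨R, hR⟩ := exists_gen_inv (F + t • f)
  obtain ⟨S, q, hq⟩ := exists_spec hH hR hNil hPt hf.1
  obtain ⟨P', hP', e1, e2⟩ := form_back hF hH hNm hWm hf ht hP hPt hPF
  have hpar := par hq hH hf.1
  set H : Matrix ι δ K := F + t • f with hHdef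
  set V := Ainf (om arm J B H Pt.1 H) with hV
  have hD := hF.data
  -- values on the ranges
  have key : ∀ c r x, (Fᵀ * J * (P.1 * F)) *ᵥ (om arm J B H (q c).1 H r x) =
      ((1 - t * c) ^ 2) • ((Hᵀ * J * (Pt.1 * H)) *ᵥ (om arm J B H (q c).1 H r x)) := by
    intro c r x
    set u := om arm J B H (q c).1 H r x with hu
    have hsym : F * E K arm r * B * Hᵀ = H * E K arm r * B * Fᵀ := hD.symm_arm hF.mem hH.mem r
    have hqF : Hᵀ * J * ((q c).1 * F) = (1 - t * c) • (Hᵀ * J * ((q c).1 * H)) := by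
      have h1 : Hᵀ * J * ((q c).1 * H) = Hᵀ * J * ((q c).1 * F) +
          t • (Hᵀ * J * ((q c).1 * f)) := form_add _ _ _
      rw [hq.eig c] at h1
      rw [sub_smul, one_smul, mul_smul]
      exact (sub_eq_of_eq_add h1).symm
    have hfl : Fᵀ * J * ((q c).1 * H) = (1 - t * c) • (Hᵀ * J * ((q c).1 * H)) := by
      rw [← PTt.flip hH hF.mem (hq.mem c), hqF]
    obtain ⟨hfu, -⟩ := rel_range hq hH hf.1 c (u := u)
      (Submodule.mem_iSup_of_mem r ⟨x, rfl⟩)
    have hFu : F *ᵥ u = (1 - t * c) • (H *ᵥ u) := by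
      have h1 : H *ᵥ u = F *ᵥ u + t • (f *ᵥ u) := by
        rw [hHdef, add_mulVec, smul_mulVec]
      rw [hfu] at h1
      rw [sub_smul, one_smul, mul_smul]
      exact (sub_eq_of_eq_add h1).symm
    have s1 : (Fᵀ * J * (P.1 * F)) *ᵥ u = (1 - t * c) • ((Hᵀ * J * (Pt.1 * F)) *ᵥ u) := by
      rw [← e1, hu, om_eq hD, mulVec_mulVec, mulVec_mulVec, ← smul_mulVec]
      congr 1
      calc Fᵀ * J * (P'.1 * F) * (E K arm r * B * (Hᵀ * J * ((q c).1 * H)))
          = Fᵀ * J * P'.1 * (F * E K arm r * B * Hᵀ) * (J * ((q c).1 * H)) := by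
            simp only [Matrix.mul_assoc]
        _ = (Fᵀ * J * (P'.1 * H)) * E K arm r * B * (Fᵀ * J * ((q c).1 * H)) := by
            rw [hsym]; simp only [Matrix.mul_assoc]
        _ = _ := by
            rw [e2, hfl, Matrix.mul_smul]
            simp only [Matrix.mul_assoc]
    have s2 : (Hᵀ * J * (Pt.1 * F)) *ᵥ u = (1 - t * c) • ((Hᵀ * J * (Pt.1 * H)) *ᵥ u) := by
      have h1 : ∀ G : Matrix ι δ K, (Hᵀ * J * (Pt.1 * G)) *ᵥ u =
          (Hᵀ * J * Pt.1) *ᵥ (G *ᵥ u) := by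
        intro G
        rw [mulVec_mulVec, ← Matrix.mul_assoc]
      rw [h1, h1, hFu, mulVec_smul]
    rw [s1, s2, smul_smul, sq]
  have key' : ∀ c r s x, om arm J B F P.1 F s (om arm J B H (q c).1 H r x) =
      ((1 - t * c) ^ 2) • om arm J B H Pt.1 H s (om arm J B H (q c).1 H r x) := by
    intro c r s x
    rw [om_eq hD (P.1), om_eq hD (Pt.1), ← mulVec_mulVec, key, mulVec_smul, mulVec_mulVec]
  -- the pieces
  have piece : ∀ c, ∀ j, ∀ s, ∀ v ∈ V, om arm J B H (q c).1 H s v ∈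
      Wk (om arm J B F P.1 F) j := by
    intro c
    by_cases hc : (1 : K) - t * c = 0
    · -- no such block
      intro j s v _
      have h0 : Hᵀ * J * ((q c).1 * F) = 0 := by
        have h1 : Hᵀ * J * ((q c).1 * H) = Hᵀ * J * ((q c).1 * F) +
            t • (Hᵀ * J * ((q c).1 * f)) := form_add _ _ _
        rw [hq.eig c] at h1
        have h2 : Hᵀ * J * ((q c).1 * F) = (1 - t * c) • (Hᵀ * J * ((q c).1 * H)) := by
          rw [sub_smul, one_smul, mul_smul]
          exact (sub_eq_of_eq_add h1).symm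
        rw [h2, hc, zero_smul]
      have h1 := form_inf hF hH hNm hWm hf ht hdF hdf hd (hq.mem c) h0
      have h2 : om arm J B H (q c).1 H s v = 0 := by
        rw [om_eq hD]
        have h3 : Hᵀ * J * ((q c).1 * H) = 0 := h1
        rw [h3, Matrix.mul_zero, zero_mulVec]
      rw [h2]
      exact Submodule.zero_mem _
    · have hc2 : ((1 : K) - t * c) ^ 2 ≠ 0 := pow_ne_zero 2 hc
      intro j
      induction j with
      | zero => intro s v _; exact Submodule.mem_top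
      | succ j ih =>
        intro s v hv
        obtain ⟨y, hy, rfl⟩ := Ainf_exists (om arm J B H Pt.1 H) hv
        have e3 : ∀ r, om arm J B H (q c).1 H s (om arm J B H Pt.1 H r (y r)) =
            om arm J B H (q c).1 H s (om arm J B H (q c).1 H r (y r)) := by
          intro r
          rw [hpar.sum r (y r), map_sum]
          by_cases hcS : c ∈ S
          · rw [Finset.sum_eq_single c]
            · intro c' _ hne; exact hpar.cross c c' hne.symm s r _
            · intro hc'; exact absurd hcS hc'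
          · rw [hpar.out c hcS s]
            refine Finset.sum_eq_zero fun c' _ => hpar.out c hcS s _
        rw [map_sum]
        refine Submodule.sum_mem _ fun r _ => ?_
        rw [e3, ← hpar.diag c s r (y r)]
        have e4 : om arm J B H Pt.1 H s (om arm J B H (q c).1 H r (y r)) =
            om arm J B F P.1 F s
              ((((1 : K) - t * c) ^ 2)⁻¹ • om arm J B H (q c).1 H r (y r)) := by
          rw [map_smul, key', smul_smul, inv_mul_cancel₀ hc2, one_smul]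
        rw [e4]
        exact PL.Wk_succ_mem (Submodule.smul_mem _ _ (ih r (y r) (hy r))) s
  intro v hv
  refine (Submodule.mem_iInf _).2 fun j => ?_
  obtain ⟨y, hy, rfl⟩ := Ainf_exists (om arm J B H Pt.1 H) hv
  refine Submodule.sum_mem _ fun s _ => ?_
  rw [hpar.sum s (y s)]
  exact Submodule.sum_mem _ fun c _ => piece c j s (y s) (hy s)

end main

end Crest.Agent.R172.SAinf977
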