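import Crest.Agent.R172.SEnd
import Crest.Agent.R172.SpS8
import Crest.Agent.R172.TameCount4

/-!
Row 172 (S0260), tame node (t2): the core `P = A^∞(im g)` as a submodule of `K^ι`, and the hypotheses
`hPg`, `hst`, `hperf`, `hfree` of `SEnd.false_of_slack` from `SpS.TameD`.
-/

set_option autoImplicit false
set_option linter.unusedSectionVars false

namespace Crest.Agent.R172.SEnd2

open Matrix Module Crest.Agent.R172.FO Crest.Agent.R172.Qt Crest.Agent.R172.SpS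
open Crest.Agent.R172.SEnd
open Crest.Agent.R172.St (Nk T mem_T mem_Nk_zero mem_Nk_succ Nk_le_T T_stable T_closed T_eq_Nk)
open Crest.Agent.R172.PL (Wk Ainf Rad CoreM coreOp resOp Ainf_exists Ainf_stable)

variable {ι : Type*} [Fintype ι] [DecidableEq ι] {δ : Type*} [Fintype δ] [DecidableEq δ]
variable {k K : Type*} [Field k] [Field K] [Algebra k K]
variable {arm : δ → Fin 3} {J : Matrix ι ι K} {B : Matrix δ δ K}
  {N W : Submodule K (Matrix ι δ K)} {g : Matrix ι δ K} {R : Matrix δ ι K}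
  {p : Matrix ι ι K × (Fin 3 → Matrix ι ι K)}

/-- the operators `M_s(g) J X₀` on `S = im g` -/
abbrev PhS (arm : δ → Fin 3) (J : Matrix ι ι K) (B : Matrix δ δ K) (g : Matrix ι δ K)
    (R : Matrix δ ι K) (X : Matrix ι ι K) : Fin 3 → End K (Sg g) :=
  Be (Mg arm B g) (bil g R (gᵀ * (J * X) * g))

/-- the core `A^∞ S` in `K^ι` -/
def PC (arm : δ → Fin 3) (J : Matrix ι ι K) (B : Matrix δ δ K) (g : Matrix ι δ K)
    (R : Matrix δ ι K) (X : Matrix ι ι K) : Submodule K (ι → K) :=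
  (Ainf (PhS arm J B g R X)).map (Sg g).subtype

theorem mem_PC {X : Matrix ι ι K} {v : ι → K} : v ∈ PC arm J B g R X ↔
    ∃ w ∈ Ainf (PhS arm J B g R X), ((w : Sg g) : ι → K) = v := Iff.rfl

theorem coe_mem_PC {X : Matrix ι ι K} {w : Sg g} :
    ((w : Sg g) : ι → K) ∈ PC arm J B g R X ↔ w ∈ Ainf (PhS arm J B g R X) := by
  constructor
  · rintro ⟨w', h1, h2⟩
    have : w' = w := Subtype.ext h2
    rwa [← this]
  · intro h
    exact ⟨w, h, rfl⟩

theorem PC_im {X : Matrix ι ι K} : ∀ a ∈ PC arm J B g R X, ∃ u, g *ᵥ u = a := by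
  rintro _ ⟨w, -, rfl⟩
  obtain ⟨z, rfl⟩ := gS_surj g w
  exact ⟨z, (gS_coe g z).symm⟩

theorem PhS_coe (hR : g * R * g = g) (X : Matrix ι ι K) (s : Fin 3) (v : Sg g) :
    ((PhS arm J B g R X s v : Sg g) : ι → K) = (M arm B s g g * (J * X)) *ᵥ (v : ι → K) :=
  Be_coe hR (J * X) s v

theorem PhS_pow_coe (hR : g * R * g = g) (X : Matrix ι ι K) (s : Fin 3) (j : ℕ) (v : Sg g) :
    (((PhS arm J B g R X s ^ j) v : Sg g) : ι → K) =
      ((M arm B s g g * (J * X)) ^ j) *ᵥ (v : ι → K) := by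
  induction j generalizing v with
  | zero => rw [pow_zero, pow_zero, one_mulVec]; rfl
  | succ j ih =>
    rw [pow_succ, pow_succ, Module.End.mul_apply, ih, PhS_coe hR, mulVec_mulVec]

theorem PC_stable (hR : g * R * g = g) {X : Matrix ι ι K} (s : Fin 3) :
    ∀ a ∈ PC arm J B g R X, (M arm B s g g * (J * X)) *ᵥ a ∈ PC arm J B g R X := by
  rintro _ ⟨w, hw, rfl⟩
  exact ⟨PhS arm J B g R X s w, Ainf_stable s hw, PhS_coe hR X s w⟩

theorem PC_perf (hR : g * R * g = g) {X : Matrix ι ι K} :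
    ∀ a ∈ PC arm J B g R X, ∃ c : Fin 3 → (ι → K), (∀ s, c s ∈ PC arm J B g R X) ∧
      a = ∑ s, (M arm B s g g * (J * X)) *ᵥ c s := by
  rintro _ ⟨w, hw, rfl⟩
  obtain ⟨f, hf, hs⟩ := Ainf_exists (PhS arm J B g R X) hw
  refine ⟨fun s => ((f s : Sg g) : ι → K), fun s => ⟨f s, hf s, rfl⟩, ?_⟩
  rw [← hs]
  change ((∑ s, PhS arm J B g R X s (f s) : Sg g) : ι → K) = _
  rw [Submodule.coe_sum]
  exact Finset.sum_congr rfl fun s _ => PhS_coe hR X s (f s)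

theorem Dat_of (hD : Data k arm J B N W) (hR : g * R * g = g) {X : Matrix ι ι K}
    (hX : Skw J X) : Dat (Mg arm B g) (bil g R (gᵀ * (J * X) * g)) where
  sym s ζ ξ := by
    rw [Mg, Tn_pair, Tn_pair, ← mulVec_mulVec, ← mulVec_mulVec]
    have h1 : (E K arm s * B)ᵀ = E K arm s * B := by
      rw [transpose_mul, E_transpose, hD.B_symm, hD.B_arm]
    rw [mulVec_mulVec, mulVec_mulVec, dotProduct_mulVec, ← mulVec_transpose, h1, dotProduct_comm]
  skew v w := by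
    rw [bil_coe hR, bil_coe hR]
    have h1 : (J * X)ᵀ = -(J * X) := by rw [transpose_mul, hD.J_symm, hX.eq]
    have h2 : ((J * X) *ᵥ (w : ι → K)) ⬝ᵥ (v : ι → K) = -(((J * X) *ᵥ (v : ι → K)) ⬝ᵥ (w : ι → K)) := by
      rw [← vecMul_transpose, ← dotProduct_mulVec, h1, neg_mulVec, dotProduct_neg, dotProduct_comm]
    rw [h2, neg_neg]

section abs

variable {V : Type*} [AddCommGroup V] [Module K V] [FiniteDimensional K V] {κ : Type*}
variable {Mt : κ → (Dual K V →ₗ[K] V)} {η : LinearMap.BilinForm K V}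

theorem rad_iff (h : Dat Mt η) (w : Ainf (Be Mt η)) :
    (∀ v ∈ Ainf (Be Mt η), η (w : V) v = 0) ↔ (w : V) ∈ T (Be Mt η) := by
  constructor
  · intro hw
    apply t_eta
    exact h.mem_t hw
  · intro hw v hv
    exact h.eta_zero' hv hw

end abs

/-- the radical of the core -/
theorem mem_Rd_PC (hD : Data k arm J B N W) (hR : g * R * g = g) {X : Matrix ι ι K}
    (hX : Skw J X) {w : Sg g} (hw : w ∈ Ainf (PhS arm J B g R X)) :
    (w : ι → K) ∈ Rd (J * X) (PC arm J B g R X) ↔ w ∈ T (PhS arm J B g R X) := by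
  have hdat := Dat_of (k := k) (N := N) (W := W) hD hR hX
  have hb : ∀ v : Sg g, (v : ι → K) ⬝ᵥ ((J * X) *ᵥ (w : ι → K)) =
      bil g R (gᵀ * (J * X) * g) w v := by
    intro v
    rw [bil_coe hR, dotProduct_comm]
  rw [← rad_iff hdat ⟨w, hw⟩]
  constructor
  · rintro ⟨-, h⟩ v hv
    rw [← hb]
    exact h _ (coe_mem_PC.2 hv)
  · intro h
    refine ⟨coe_mem_PC.2 hw, ?_⟩
    rintro _ ⟨v, hv, rfl⟩
    change (v : ι → K) ⬝ᵥ ((J * X) *ᵥ (w : ι → K)) = 0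
    rw [hb]
    exact h v hv

section free

variable {V : Type*} [AddCommGroup V] [Module K V] [FiniteDimensional K V]

theorem coreOp_pow (Φ : Fin 3 → End K V) (s : Fin 3) (j : ℕ) (v : Ainf Φ) :
    ∃ w : Ainf Φ, (w : V) = (Φ s ^ j) v ∧ (coreOp Φ s ^ j) ((Rad Φ).mkQ v) = (Rad Φ).mkQ w := by
  induction j generalizing v with
  | zero => exact ⟨v, rfl, rfl⟩
  | succ j ih =>
    obtain ⟨w, h1, h2⟩ := ih (resOp Φ s v)
    refine ⟨w, ?_, ?_⟩
    · rw [h1, pow_succ, Module.End.mul_apply]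
      rfl
    · rw [pow_succ, Module.End.mul_apply, PL.coreOp_mk, h2]

/-- freeness of the core in terms of `Ainf` and `T` -/
theorem free_Ainf (Φ : Fin 3 → End K V) {D : End K (CoreM Φ)} [IsAlgClosed K]
    (hD : ∀ s x, D (coreOp Φ s x) = coreOp Φ s (D x)) (hT : Core.Tame (coreOp Φ) D) :
    ∃ l : Fin 3 → ℕ, (∀ s, 1 ≤ l s) ∧ ∑ s, (1 - 1 / (l s : ℚ)) = 2 ∧
      (∀ s, ∀ v ∈ Ainf Φ, (Φ s ^ l s) v ∈ T Φ) ∧
      ∀ s, ∀ j ≤ l s, ∀ v ∈ Ainf Φ, (Φ s ^ (l s - j)) v ∈ T Φ →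
        ∃ w ∈ Ainf Φ, v - (Φ s ^ j) w ∈ T Φ := by
  obtain ⟨l, h1, h2, h3, h4, -, -⟩ := TC.free_of_tame hD
    (Module.End.iSup_maxGenEigenspace_eq_top D) hT
  refine ⟨l, h1, h2, fun s v hv => ?_, fun s j hj v hv hvT => ?_⟩
  · obtain ⟨w, hw1, hw2⟩ := coreOp_pow Φ s (l s) ⟨v, hv⟩
    rw [h3 s, LinearMap.zero_apply] at hw2
    have h5 := (Submodule.Quotient.mk_eq_zero _).1 hw2.symm
    change (w : V) ∈ T Φ at h5
    rw [hw1] at h5
    exact h5
  · obtain ⟨w, hw1, hw2⟩ := coreOp_pow Φ s (l s - j) ⟨v, hv⟩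
    have h5 : (coreOp Φ s ^ (l s - j)) ((Rad Φ).mkQ ⟨v, hv⟩) = 0 := by
      rw [hw2]
      refine (Submodule.Quotient.mk_eq_zero _).2 ?_
      change (w : V) ∈ T Φ
      rw [hw1]
      exact hvT
    have h6 : (Rad Φ).mkQ ⟨v, hv⟩ ∈ LinearMap.ker (coreOp Φ s ^ (l s - j)) := h5
    rw [TC.ker_eq_range (h3 s) (h4 s) (Nat.sub_le _ _), Nat.sub_sub_self hj] at h6
    obtain ⟨y, hy⟩ := h6
    obtain ⟨y, rfl⟩ := (Rad Φ).mkQ_surjective y
    obtain ⟨z, hz1, hz2⟩ := coreOp_pow Φ s j y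
    refine ⟨y, y.2, ?_⟩
    rw [hz2] at hy
    have h7 := SpS.mk_eq.1 hy.symm
    rw [hz1] at h7
    exact h7

end free

/-- **all hypotheses of `false_of_slack` except the slack and (INJ), from `TameD`.** -/
theorem core_data [IsAlgClosed K] (hD : Data k arm J B N W) (hR : g * R * g = g)
    {X : Matrix ι ι K} (hX : Skw J X) {Nt : Fin 3 → (Dual K (Sg g) →ₗ[K] Sg g)}
    (hT : TameD (Mg arm B g) Nt (bil g R (gᵀ * (J * X) * g))) :
    ∃ l : Fin 3 → ℕ, (∀ s, 1 ≤ l s) ∧ ∑ s, (1 - 1 / (l s : ℚ)) = 2 ∧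
      ∀ s, (∀ c ∈ PC arm J B g R X, ((M arm B s g g * (J * X)) ^ l s) *ᵥ c ∈
          Rd (J * X) (PC arm J B g R X)) ∧
        ∀ v ≤ l s, ∀ c ∈ PC arm J B g R X,
          ((M arm B s g g * (J * X)) ^ (l s - v)) *ᵥ c ∈ Rd (J * X) (PC arm J B g R X) →
          ∃ c' ∈ PC arm J B g R X, c - ((M arm B s g g * (J * X)) ^ v) *ᵥ c' ∈
            Rd (J * X) (PC arm J B g R X) := by
  obtain ⟨D, -, h2, -, h4⟩ := hT
  obtain ⟨l, h5, h6, h7, h8⟩ := free_Ainf _ h2 h4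
  have hpow : ∀ (s : Fin 3) (j : ℕ), ∀ w ∈ Ainf (PhS arm J B g R X),
      (PhS arm J B g R X s ^ j) w ∈ Ainf (PhS arm J B g R X) := by
    intro s j
    induction j with
    | zero => intro w hw; exact hw
    | succ j ih =>
      intro w hw
      rw [pow_succ', Module.End.mul_apply]
      exact Ainf_stable s (ih w hw)
  refine ⟨l, h5, h6, fun s => ⟨?_, fun v hv => ?_⟩⟩
  · rintro _ ⟨w, hw, rfl⟩
    have h9 := h7 s w hw
    rw [← mem_Rd_PC (k := k) (N := N) (W := W) hD hR hX (hpow s (l s) w hw), PhS_pow_coe hR] at h9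
    exact h9
  · rintro _ ⟨w, hw, rfl⟩ hc
    have h9 : (PhS arm J B g R X s ^ (l s - v)) w ∈ T (PhS arm J B g R X) := by
      rw [← mem_Rd_PC (k := k) (N := N) (W := W) hD hR hX (hpow s _ w hw), PhS_pow_coe hR]
      exact hc
    obtain ⟨y, hy, hy2⟩ := h8 s v hv w hw h9
    refine ⟨(y : ι → K), ⟨y, hy, rfl⟩, ?_⟩
    have h10 : w - (PhS arm J B g R X s ^ v) y ∈ Ainf (PhS arm J B g R X) :=
      Submodule.sub_mem _ hw (hpow s v y hy)
    rw [← mem_Rd_PC (k := k) (N := N) (W := W) hD hR hX h10, Submodule.coe_sub,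
      PhS_pow_coe hR] at hy2
    exact hy2

end Crest.Agent.R172.SEnd2
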