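import Crest.Agent.R172.Qt4

/-!
Row 172 (S0260), tame node (t2): the END, for an isotropic `g` and `p = (X₀, X) ∈ NN g`.
`η = J X₀`, `Φ_s = M_s(g) η`, `P` a submodule of `im g` with `P = ∑ Φ_s P`, `R = rad (η | P)`.

* `theta_zero` : for every `q ∈ N ⊓ W`, `⟨P g, T_q(φ_p)⟩ = 0`;
* `false_of_slack` : if every one-arm tensor `x ∈ P ⊗ P` filtered at `s` is good (`SL`) and a form
  of `NN g` vanishing on `P × P` is zero (`INJ`) then `gᵀ J X₀ g = 0`.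
-/

set_option autoImplicit false
set_option linter.unusedSectionVars false

namespace Crest.Agent.R172.SEnd

open Matrix Module Crest.Agent.R172.FO Crest.Agent.R172.Qt

variable {ι : Type*} [Fintype ι] [DecidableEq ι] {δ : Type*} [Fintype δ] [DecidableEq δ]
variable {k K : Type*} [Field k] [Field K] [Algebra k K]
variable {arm : δ → Fin 3} {J : Matrix ι ι K} {B : Matrix δ δ K}
  {N W : Submodule K (Matrix ι δ K)} {g : Matrix ι δ K}

theorem trace_skew_symm (h2 : (2 : K) ≠ 0) {α : Type*} [Fintype α] {A S : Matrix α α K}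
    (hA : Aᵀ = -A) (hS : Sᵀ = S) : trace (A * S) = 0 := by
  have h1 : trace (A * S) = - trace (A * S) := by
    conv_lhs => rw [← trace_transpose, transpose_mul, hA, hS, Matrix.mul_neg, trace_neg,
      trace_mul_comm]
  have h3 : (2 : K) * trace (A * S) = 0 := by
    rw [two_mul]
    nth_rewrite 1 [h1]
    rw [neg_add_cancel]
  exact (mul_eq_zero.1 h3).resolve_left h2

theorem M_symm (hD : Data k arm J B N W) {q : Matrix ι δ K} (hg : g ∈ N ⊓ W) (hq : q ∈ N ⊓ W)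
    (s : Fin 3) : (M arm B s q g)ᵀ = M arm B s q g := by
  have h1 : (M arm B s q g)ᵀ = M arm B s g q := by
    unfold M
    rw [transpose_mul, transpose_mul, transpose_mul, transpose_transpose, E_transpose,
      hD.B_symm]
    simp only [Matrix.mul_assoc]
    rw [← Matrix.mul_assoc B, ← hD.B_arm, Matrix.mul_assoc]
  rw [h1, hD.symm_arm hg hq s]

theorem pair_skw_zero (hD : Data k arm J B N W) (h2 : (2 : K) ≠ 0) {q : Matrix ι δ K}
    (hg : g ∈ N ⊓ W) (hq : q ∈ N ⊓ W) {Z : Matrix ι ι K} (hZ : Skw J Z) (s : Fin 3) :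
    pair J B (Z * g * E K arm s) q = 0 := by
  have h1 : pair J B (Z * g * E K arm s) q = trace (Zᵀ * J * M arm B s q g) := by
    unfold pair M
    rw [transpose_mul, transpose_mul, E_transpose]
    have e1 : E K arm s * (gᵀ * Zᵀ) * J * q * B = (E K arm s * gᵀ) * (Zᵀ * J * (q * B)) := by
      simp only [Matrix.mul_assoc]
    rw [e1, trace_mul_comm]
    congr 1
    simp only [Matrix.mul_assoc]
    rw [← Matrix.mul_assoc B, ← hD.B_arm, Matrix.mul_assoc]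
  rw [h1]
  refine trace_skew_symm h2 ?_ (M_symm hD hg hq s)
  rw [transpose_mul, transpose_transpose, hD.J_symm, hZ.eq, neg_neg]

theorem pair_act_skw_zero (hD : Data k arm J B N W) (h2 : (2 : K) ≠ 0) {q : Matrix ι δ K}
    (hg : g ∈ N ⊓ W) (hq : q ∈ N ⊓ W) {Z : Fin 3 → Matrix ι ι K} (hZ : ∀ s, Skw J (Z s)) :
    pair J B (act arm Z g) q = 0 := by
  unfold act
  rw [Ctx.pair_sum_left]
  exact Finset.sum_eq_zero fun s _ => pair_skw_zero hD h2 hg hq (hZ s) s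

/-- `⟨P g, X₀ q⟩ = 0` for every `q ∈ N ⊓ W` -/
theorem pair_Pg_q (h : Ctx k arm J B N W g) (h2 : (2 : K) ≠ 0)
    {p : Matrix ι ι K × (Fin 3 → Matrix ι ι K)} (hp : p ∈ NN arm J N g) {q : Matrix ι δ K}
    (hq : q ∈ N ⊓ W) : pair J B (Pg arm g p) (p.1 * q) = 0 := by
  have hD := h.data
  have hgq := h.perp q hq
  have hα : act arm p.2 g ∈ N := hp.2.1.pres g h.memN
  have hβ : act arm p.2 q ∈ N := hp.2.1.pres q hq.1
  have e1 : pair J B (Pg arm g p) (p.1 * q - act arm p.2 q) = 0 := by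
    obtain ⟨C, hC⟩ := Pg_InS hp
    rw [hC]
    exact pair_S (perp_Pf hp hgq) C
  have hPg : Pg arm g p = p.1 * g - act arm p.2 g := rfl
  rw [hPg, pair_sub_left, pair_sub_right, pair_sub_right, h.pair_N hα hβ,
    pair_W hD (h.W_mul _ h.memW) (h.W_mul _ hq.2)] at e1
  have e2 : pair J B (act arm p.2 g) (p.1 * q) = pair J B (p.1 * g) (act arm p.2 q) := by
    have a1 : pair J B (act arm p.2 g) (p.1 * q) = - pair J B (p.1 * act arm p.2 g) q := by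
      rw [pair_skw hp.1, neg_neg]
    have a2 : pair J B (p.1 * g) (act arm p.2 q) = - pair J B (act arm p.2 (p.1 * g)) q := by
      rw [pair_act hD.B_arm hp.2.1.skw, neg_neg]
    have a3 : p.1 * act arm p.2 g - act arm p.2 (p.1 * g) =
        act arm (fun s => p.1 * p.2 s - p.2 s * p.1) g := by
      unfold act
      rw [Matrix.mul_sum, ← Finset.sum_sub_distrib]
      refine Finset.sum_congr rfl fun s _ => ?_
      simp only [Matrix.sub_mul, Matrix.mul_assoc]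
    have a4 : pair J B (p.1 * act arm p.2 g - act arm p.2 (p.1 * g)) q = 0 := by
      rw [a3]
      exact pair_act_skw_zero hD h2 h.mem hq fun s => hp.1.comm (hp.2.1.skw s)
    rw [pair_sub_left, sub_eq_zero] at a4
    rw [a1, a2, a4]
  rw [hPg, pair_sub_left, pair_W hD (h.W_mul _ h.memW) (h.W_mul _ hq.2), zero_sub, neg_eq_zero]
  have e3 : (2 : K) * pair J B (act arm p.2 g) (p.1 * q) = 0 := by
    rw [two_mul]
    nth_rewrite 2 [e2]
    linear_combination -e1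
  exact (mul_eq_zero.1 e3).resolve_left h2

/-- **`Θ(φ, T_q φ) = 0`** for every `q ∈ N ⊓ W` -/
theorem theta_zero (h : Ctx k arm J B N W g) (h2 : (2 : K) ≠ 0)
    {p p' : Matrix ι ι K × (Fin 3 → Matrix ι ι K)} (hp : p ∈ NN arm J N g)
    (hp' : p' ∈ NN arm J N g) {q : Matrix ι δ K} (hq : q ∈ N ⊓ W)
    (he : gᵀ * J * (p.1 * q) = gᵀ * J * (p'.1 * g)) :
    pair J B (Pg arm g p) (act arm p'.2 g) = 0 := by
  have e1 : act arm p'.2 g = p'.1 * g - Pg arm g p' := by unfold Pg; abel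
  rw [e1, pair_sub_right, h.pair_Pg_Pg hp hp', sub_zero]
  have e2 : pair J B (Pg arm g p) (p.1 * q - p'.1 * g) = 0 := by
    obtain ⟨C, hC⟩ := Pg_InS hp
    rw [hC]
    exact pair_S (by rw [Matrix.mul_sub, he, sub_self]) C
  rw [pair_sub_right, sub_eq_zero] at e2
  rw [← e2]
  exact pair_Pg_q h h2 hp hq

/-- if every form of `NN g` is `T_q φ` for some `q ∈ N ⊓ W` then `φ = 0` -/
theorem zero_of_all (h : Ctx k arm J B N W g) (h2 : (2 : K) ≠ 0)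
    {p : Matrix ι ι K × (Fin 3 → Matrix ι ι K)} (hp : p ∈ NN arm J N g)
    (hall : ∀ p' ∈ NN arm J N g, ∃ q ∈ N ⊓ W, gᵀ * J * (p.1 * q) = gᵀ * J * (p'.1 * g)) :
    gᵀ * J * (p.1 * g) = 0 := by
  have hg2 : gᵀ * J * (p.1 * g) = gᵀ * J * (act arm p.2 g) := by
    have := h.perp_Pg hp
    unfold Pg at this
    rw [Matrix.mul_sub, sub_eq_zero] at this
    exact this
  refine h.onto (h.W_mul _ h.memW) (hp.2.1.pres g h.memN) hg2 ?_
  refine LinearMap.ext fun p' => ?_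
  rw [fn_apply, LinearMap.zero_apply, h.skew_w hp p'.2]
  obtain ⟨q, hq, he⟩ := hall p'.1 p'.2
  rw [theta_zero h h2 hp p'.2 hq he, neg_zero]

/-! ### tensors of `P ⊗ P` -/

/-- `x ∈ P ⊗ P` -/
def PP (P : Submodule K (ι → K)) (x : Matrix ι ι K) : Prop :=
  (∀ v, x *ᵥ v ∈ P) ∧ ∀ v, xᵀ *ᵥ v ∈ P

/-- the radical of `η` on `P` -/
def Rd (η : Matrix ι ι K) (P : Submodule K (ι → K)) : Submodule K (ι → K) where
  carrier := {r | r ∈ P ∧ ∀ b ∈ P, b ⬝ᵥ (η *ᵥ r) = 0}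
  zero_mem' := ⟨P.zero_mem, fun b _ => by rw [mulVec_zero, dotProduct_zero]⟩
  add_mem' := by
    rintro r r' ⟨h1, h2⟩ ⟨h1', h2'⟩
    refine ⟨P.add_mem h1 h1', fun b hb => ?_⟩
    rw [mulVec_add, dotProduct_add, h2 b hb, h2' b hb, add_zero]
  smul_mem' := by
    rintro t r ⟨h1, h2⟩
    refine ⟨P.smul_mem t h1, fun b hb => ?_⟩
    rw [mulVec_smul, dotProduct_smul, h2 b hb, smul_zero]

theorem mem_Rd {η : Matrix ι ι K} {P : Submodule K (ι → K)} {r : ι → K} :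
    r ∈ Rd η P ↔ r ∈ P ∧ ∀ b ∈ P, b ⬝ᵥ (η *ᵥ r) = 0 := Iff.rfl

/-- `x η` is filtered for the images of `Φ`, modulo the radical -/
def Fil (Φ η : Matrix ι ι K) (P : Submodule K (ι → K)) (x : Matrix ι ι K) : Prop :=
  ∀ v : ℕ, ∀ c ∈ P, ∃ c' ∈ P, (x * η * Φ ^ v) *ᵥ c - (Φ ^ v) *ᵥ c' ∈ Rd η P

theorem pow_mem {Φ : Matrix ι ι K} {P : Submodule K (ι → K)} (hst : ∀ a ∈ P, Φ *ᵥ a ∈ P) (v : ℕ) :
    ∀ a ∈ P, (Φ ^ v) *ᵥ a ∈ P := by
  induction v with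
  | zero => intro a ha; rwa [pow_zero, one_mulVec]
  | succ v ih =>
    intro a ha
    rw [pow_succ', ← mulVec_mulVec]
    exact hst _ (ih a ha)

/-- `Φ` is skew-adjoint for `η` -/
theorem adj_pow {Φ η : Matrix ι ι K} (had : Φᵀ * η = -(η * Φ)) (v : ℕ) (a b : ι → K) :
    a ⬝ᵥ (η *ᵥ ((Φ ^ v) *ᵥ b)) = (-1) ^ v * (((Φ ^ v) *ᵥ a) ⬝ᵥ (η *ᵥ b)) := by
  have h1 : ∀ a b : ι → K, a ⬝ᵥ (η *ᵥ (Φ *ᵥ b)) = - ((Φ *ᵥ a) ⬝ᵥ (η *ᵥ b)) := by
    intro a b
    have e1 : (Φ *ᵥ a) ⬝ᵥ (η *ᵥ b) = a ⬝ᵥ ((Φᵀ * η) *ᵥ b) := by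
      rw [← mulVec_mulVec, dotProduct_mulVec a, vecMul_transpose]
    rw [e1, had, neg_mulVec, dotProduct_neg, neg_neg, mulVec_mulVec]
  induction v generalizing a b with
  | zero => simp
  | succ v ih =>
    have e1 : (Φ ^ (v + 1)) *ᵥ b = Φ *ᵥ ((Φ ^ v) *ᵥ b) := by rw [pow_succ', mulVec_mulVec]
    have e2 : (Φ ^ v) *ᵥ (Φ *ᵥ a) = (Φ ^ (v + 1)) *ᵥ a := by rw [mulVec_mulVec, ← pow_succ]
    rw [e1, h1, ih, e2, pow_succ (-1 : K)]
    ring

theorem Rd_pow {Φ η : Matrix ι ι K} (had : Φᵀ * η = -(η * Φ)) {P : Submodule K (ι → K)}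
    (hst : ∀ a ∈ P, Φ *ᵥ a ∈ P) (v : ℕ) {r : ι → K} (hr : r ∈ Rd η P) : (Φ ^ v) *ᵥ r ∈ Rd η P := by
  refine ⟨pow_mem hst v r hr.1, fun b hb => ?_⟩
  rw [adj_pow had, hr.2 _ (pow_mem hst v b hb), mul_zero]

/-- `vecMulVec a b ∈ P ⊗ P` -/
theorem vmv (a b v : ι → K) : vecMulVec a b *ᵥ v = (b ⬝ᵥ v) • a := by
  rw [vecMulVec_mulVec, op_smul_eq_smul]

theorem PP_vec {P : Submodule K (ι → K)} {a b : ι → K} (ha : a ∈ P) (hb : b ∈ P) :
    PP P (vecMulVec a b) := by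
  constructor
  · intro v
    rw [vmv]
    exact P.smul_mem _ ha
  · intro v
    rw [transpose_vecMulVec, vmv]
    exact P.smul_mem _ hb

theorem Fil_rad {Φ η : Matrix ι ι K} {P : Submodule K (ι → K)} {r b : ι → K}
    (hr : r ∈ Rd η P) : Fil Φ η P (vecMulVec r b) := by
  intro v c _
  refine ⟨0, P.zero_mem, ?_⟩
  rw [mulVec_zero, sub_zero, ← mulVec_mulVec, ← mulVec_mulVec, vmv]
  exact (Rd η P).smul_mem _ hr

theorem Fil_one {Φ η : Matrix ι ι K} (hη : ηᵀ = -η) (had : Φᵀ * η = -(η * Φ))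
    {P : Submodule K (ι → K)}
    (hst : ∀ a ∈ P, Φ *ᵥ a ∈ P) {v : ℕ} {a b : ι → K} (ha : a ∈ P)
    (hbr : (Φ ^ (v + 1)) *ᵥ b ∈ Rd η P) : Fil Φ η P (vecMulVec ((Φ ^ v) *ᵥ a) b) := by
  intro j c hc
  rw [← mulVec_mulVec, ← mulVec_mulVec, vmv]
  rcases Nat.lt_or_ge v j with h | h
  · refine ⟨0, P.zero_mem, ?_⟩
    have e1 : b ⬝ᵥ (η *ᵥ ((Φ ^ j) *ᵥ c)) = 0 := by
      rw [adj_pow had]
      obtain ⟨m, rfl⟩ := Nat.exists_eq_add_of_le (Nat.succ_le_of_lt h)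
      have e2 : (Φ ^ (v.succ + m)) *ᵥ b ∈ Rd η P := by
        rw [Nat.add_comm, pow_add, ← mulVec_mulVec]
        exact Rd_pow had hst m hbr
      have e3 := e2.2 c hc
      have e4 : ((Φ ^ (v.succ + m)) *ᵥ b) ⬝ᵥ (η *ᵥ c) = - (c ⬝ᵥ (η *ᵥ ((Φ ^ (v.succ + m)) *ᵥ b))) := by
        rw [dotProduct_mulVec, ← mulVec_transpose, hη, neg_mulVec, neg_dotProduct, dotProduct_comm]
      rw [e4, e3, neg_zero, mul_zero]
    rw [e1, zero_smul, mulVec_zero, sub_zero]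
    exact (Rd η P).zero_mem
  · obtain ⟨m, rfl⟩ := Nat.exists_eq_add_of_le h
    refine ⟨(b ⬝ᵥ (η *ᵥ ((Φ ^ j) *ᵥ c))) • ((Φ ^ m) *ᵥ a), P.smul_mem _ (pow_mem hst m a ha), ?_⟩
    have e1 : (Φ ^ j) *ᵥ ((Φ ^ m) *ᵥ a) = (Φ ^ (j + m)) *ᵥ a := by rw [mulVec_mulVec, ← pow_add]
    rw [mulVec_smul, e1, sub_self]
    exact (Rd η P).zero_mem

/-- existence of the tensor: `η x η = Ψ` on `P`, if `Ψ` is skew and kills the radical -/
theorem exists_x {η Ψ : Matrix ι ι K} (hη : ηᵀ = -η) (hΨ : Ψᵀ = -Ψ) (P : Submodule K (ι → K))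
    (hR : ∀ r ∈ Rd η P, ∀ b ∈ P, b ⬝ᵥ (Ψ *ᵥ r) = 0) :
    ∃ x : Matrix ι ι K, PP P x ∧
      ∀ a ∈ P, ∀ b ∈ P, a ⬝ᵥ ((η * x * η) *ᵥ b) = a ⬝ᵥ (Ψ *ᵥ b) := by
  obtain ⟨π, hπ⟩ : ∃ π : Matrix ι ι K, (∀ v, π *ᵥ v ∈ P) ∧ ∀ a ∈ P, π *ᵥ a = a := by
    obtain ⟨f, hf⟩ := P.subtype.exists_leftInverse_of_injective P.ker_subtype
    refine ⟨LinearMap.toMatrix' (P.subtype ∘ₗ f), fun v => ?_, fun a ha => ?_⟩
    · rw [LinearMap.toMatrix'_mulVec]
      exact (f v).2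
    · rw [LinearMap.toMatrix'_mulVec]
      have h1 := LinearMap.congr_fun hf ⟨a, ha⟩
      change ((f a : P) : ι → K) = a
      have h2 : f a = ⟨a, ha⟩ := h1
      rw [h2]
  obtain ⟨hπ1, hπ2⟩ := hπ
  obtain ⟨E0, hE⟩ : ∃ E0 : Matrix ι ι K, E0 = πᵀ * η * π := ⟨_, rfl⟩
  obtain ⟨C0, hC⟩ : ∃ C0 : Matrix ι ι K, C0 = πᵀ * Ψ * π := ⟨_, rfl⟩
  have hE0 : E0ᵀ = -E0 := by
    rw [hE, transpose_mul, transpose_mul, transpose_transpose, hη]
    simp only [Matrix.mul_neg, Matrix.neg_mul, Matrix.mul_assoc]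
  have hC0 : C0ᵀ = -C0 := by
    rw [hC, transpose_mul, transpose_mul, transpose_transpose, hΨ]
    simp only [Matrix.mul_neg, Matrix.neg_mul, Matrix.mul_assoc]
  have hker : ∀ v, E0 *ᵥ v = 0 → C0 *ᵥ v = 0 := by
    intro v hv
    have h1 : π *ᵥ v ∈ Rd η P := by
      refine ⟨hπ1 v, fun b hb => ?_⟩
      rw [← hπ2 b hb, ← vecMul_transpose, ← dotProduct_mulVec, mulVec_mulVec, mulVec_mulVec,
        ← hE, hv, dotProduct_zero]
    rw [hC, ← mulVec_mulVec, ← mulVec_mulVec]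
    funext i
    have h2 := hR _ h1 (π *ᵥ Pi.single i 1) (hπ1 _)
    rw [← vecMul_transpose, ← dotProduct_mulVec, single_dotProduct, one_mul] at h2
    exact h2
  obtain ⟨G, hG⟩ : ∃ G : Matrix ι ι K, E0 * G * E0 = E0 := exists_pinv E0
  have h1 : ∀ G' : Matrix ι ι K, E0 * G' * E0 = E0 → C0 * G' * E0 = C0 := by
    intro G' hG'
    have h2 : C0 * (1 - G' * E0) = 0 := by
      apply Matrix.ext_of_mulVec_single
      intro i
      rw [← mulVec_mulVec, zero_mulVec]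
      apply hker
      rw [mulVec_mulVec, Matrix.mul_sub, Matrix.mul_one, ← Matrix.mul_assoc, hG', sub_self,
        zero_mulVec]
    rw [Matrix.mul_sub, Matrix.mul_one, sub_eq_zero, ← Matrix.mul_assoc] at h2
    exact h2.symm
  have h3 : E0 * G * C0 = C0 := by
    have h4 : E0 * (-Gᵀ) * E0 = E0 := by
      have := congrArg transpose hG
      rw [transpose_mul, transpose_mul, hE0] at this
      have h5 : E0 * (-Gᵀ) * E0 = -(-E0 * (Gᵀ * -E0)) := by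
        simp only [Matrix.mul_neg, Matrix.neg_mul, neg_neg, Matrix.mul_assoc]
      rw [h5, this, neg_neg]
    have h6 := congrArg transpose (h1 _ h4)
    rw [transpose_mul, transpose_mul, transpose_neg, transpose_transpose, hE0, hC0] at h6
    have h7 : E0 * G * C0 = -(-E0 * (-G * -C0)) := by
      simp only [Matrix.mul_neg, Matrix.neg_mul, neg_neg, Matrix.mul_assoc]
    rw [h7, h6, neg_neg]
  refine ⟨π * (G * C0 * G) * πᵀ, ⟨fun v => ?_, fun v => ?_⟩, fun a ha b hb => ?_⟩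
  · rw [← mulVec_mulVec, ← mulVec_mulVec]
    exact hπ1 _
  · rw [transpose_mul, transpose_mul, transpose_transpose, ← mulVec_mulVec]
    exact hπ1 _
  · have e1 : a ⬝ᵥ ((η * (π * (G * C0 * G) * πᵀ) * η) *ᵥ b) =
        a ⬝ᵥ ((πᵀ * (η * (π * (G * C0 * G) * πᵀ) * η) * π) *ᵥ b) := by
      conv_lhs => rw [← hπ2 a ha, ← hπ2 b hb]
      rw [← vecMul_transpose, ← dotProduct_mulVec, mulVec_mulVec, mulVec_mulVec, Matrix.mul_assoc]
    have e2 : a ⬝ᵥ (Ψ *ᵥ b) = a ⬝ᵥ (C0 *ᵥ b) := by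
      conv_lhs => rw [← hπ2 a ha, ← hπ2 b hb]
      rw [← vecMul_transpose, ← dotProduct_mulVec, mulVec_mulVec, mulVec_mulVec, hC,
        Matrix.mul_assoc]
    rw [e1, e2]
    congr 2
    calc πᵀ * (η * (π * (G * C0 * G) * πᵀ) * η) * π = (E0 * G * C0) * G * E0 := by
          rw [hE]; simp only [Matrix.mul_assoc]
      _ = C0 := by rw [h3, h1 G hG]

/-! ### the END -/

theorem Phi_adj (hD : Data k arm J B N W) (hg : g ∈ N ⊓ W) {X : Matrix ι ι K} (hX : Skw J X)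
    (s : Fin 3) : (J * X)ᵀ = -(J * X) ∧
      (M arm B s g g * (J * X))ᵀ * (J * X) = -((J * X) * (M arm B s g g * (J * X))) := by
  have h1 : (J * X)ᵀ = -(J * X) := by rw [transpose_mul, hD.J_symm, hX.eq]
  refine ⟨h1, ?_⟩
  rw [transpose_mul, M_symm hD hg hg, h1]
  simp only [Matrix.neg_mul, Matrix.mul_assoc]

/-- the trace form: `⟨X₀' g, x η g_s⟩ = tr (…)` for `x = a ⊗ b` -/
theorem pair_vec (hD : Data k arm J B N W) (hg : g ∈ N ⊓ W) {X Y : Matrix ι ι K} (hX : Skw J X)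
    (hY : Skw J Y) (s : Fin 3) (a b : ι → K) :
    pair J B (Y * g) (vecMulVec a b * (J * X) * g * E K arm s) =
      ((J * Y) *ᵥ a) ⬝ᵥ ((M arm B s g g * (J * X)) *ᵥ b) := by
  have e1 : pair J B (Y * g) (vecMulVec a b * (J * X) * g * E K arm s) =
      trace ((Yᵀ * J) * vecMulVec a b * ((J * X) * M arm B s g g)) := by
    unfold pair M
    rw [transpose_mul]
    have e2 : gᵀ * Yᵀ * J * (vecMulVec a b * (J * X) * g * E K arm s) * B =
        gᵀ * (Yᵀ * J * vecMulVec a b * ((J * X) * (g * E K arm s * B))) := by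
      simp only [Matrix.mul_assoc]
    rw [e2, trace_mul_comm]
    congr 1
    simp only [Matrix.mul_assoc]
  rw [e1, hY.eq, Matrix.mul_vecMulVec, Matrix.vecMulVec_mul, trace_vecMulVec, neg_mulVec,
    neg_dotProduct]
  have e3 : b ᵥ* ((J * X) * M arm B s g g) = -((M arm B s g g * (J * X)) *ᵥ b) := by
    rw [← mulVec_transpose, transpose_mul, M_symm hD hg hg, (Phi_adj hD hg hX s).1,
      Matrix.mul_neg, neg_mulVec]
  rw [e3, dotProduct_neg, neg_neg]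

/-- a form of `NN g` vanishing on `P × P` is zero -/
def INJ (arm : δ → Fin 3) (J : Matrix ι ι K) (N : Submodule K (Matrix ι δ K)) (g : Matrix ι δ K)
    (P : Submodule K (ι → K)) : Prop :=
  ∀ ψ ∈ NN arm J N g, (∀ a ∈ P, ∀ b ∈ P, a ⬝ᵥ ((J * ψ.1) *ᵥ b) = 0) →
    gᵀ * J * (ψ.1 * g) = 0

theorem form_g (A : Matrix ι ι K) (X : Matrix ι δ K) (u v : δ → K) :
    (g *ᵥ u) ⬝ᵥ ((A * X) *ᵥ v) = u ⬝ᵥ ((gᵀ * A * X) *ᵥ v) := by
  rw [← vecMul_transpose, ← dotProduct_mulVec, mulVec_mulVec, ← Matrix.mul_assoc]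

theorem form_gg (A : Matrix ι ι K) (u v : δ → K) :
    (g *ᵥ u) ⬝ᵥ (A *ᵥ (g *ᵥ v)) = u ⬝ᵥ ((gᵀ * A * g) *ᵥ v) := by
  rw [mulVec_mulVec, form_g]

/-- **the one-arm pairing** `⟨X₀' g, x η g_s⟩ = 0` -/
theorem pair_zero (h : Ctx k arm J B N W g)
    {p : Matrix ι ι K × (Fin 3 → Matrix ι ι K)}
    {P : Submodule K (ι → K)} (hPg : ∀ a ∈ P, ∃ u, g *ᵥ u = a) (hI : INJ arm J N g P)
    {x : Matrix ι ι K} (hx : PP P x) {s : Fin 3} {w : Matrix ι δ K} (hw : w ∈ W)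
    (hN : x * (J * p.1) * g * E K arm s - w ∈ N)
    (hwP : ∀ a ∈ P, ∀ v, a ⬝ᵥ ((J * w) *ᵥ v) = 0)
    {ψ : Matrix ι ι K × (Fin 3 → Matrix ι ι K)} (hψ : ψ ∈ NN arm J N g) :
    pair J B (ψ.1 * g) (x * (J * p.1) * g * E K arm s) = 0 := by
  obtain ⟨C0, hC0⟩ : ∃ C0 : Matrix δ ι K, x = g * C0 := by
    choose u hu using fun i => hPg _ (hx.1 (Pi.single i 1))
    refine ⟨Matrix.of fun a i => u i a, ?_⟩
    apply Matrix.ext_of_mulVec_single
    intro i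
    rw [← mulVec_mulVec, ← hu i]
    congr 1
    funext a
    simp
  obtain ⟨C, hC⟩ : ∃ C : Matrix δ δ K, x * (J * p.1) * g * E K arm s = g * C :=
    ⟨C0 * (J * p.1) * g * E K arm s, by rw [hC0]; simp only [Matrix.mul_assoc]⟩
  obtain ⟨ν, hν⟩ : ∃ ν, ν = x * (J * p.1) * g * E K arm s - w := ⟨_, rfl⟩
  rw [← hν] at hN
  have hgw : gᵀ * J * w = 0 := by
    obtain ⟨p', hp', he⟩ := h.AS hw (N.neg_mem hN) (C := C) (by rw [← hC, hν]; abel)
    rw [he]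
    refine hI p' hp' fun a ha b hb => ?_
    obtain ⟨u, rfl⟩ := hPg a ha
    obtain ⟨v, rfl⟩ := hPg b hb
    rw [form_gg]
    have e1 : gᵀ * (J * p'.1) * g = gᵀ * J * w := by
      rw [he]; simp only [Matrix.mul_assoc]
    rw [e1, ← form_g]
    exact hwP _ ha v
  have hψg : ψ.1 * g = act arm ψ.2 g + Pg arm g ψ := by unfold Pg; abel
  have e0 : pair J B (act arm ψ.2 g) ν = 0 := h.pair_N (hψ.2.1.pres g h.memN) hN
  have e1 : pair J B (ψ.1 * g) w = 0 := pair_W h.data (h.W_mul _ h.memW) hw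
  have e2 : pair J B (Pg arm g ψ) w = 0 := by
    obtain ⟨C1, hC1⟩ := Pg_InS hψ
    rw [hC1]
    exact pair_S hgw C1
  have e3 : pair J B (Pg arm g ψ) (g * C) = 0 := by
    obtain ⟨C1, hC1⟩ := Pg_InS hψ
    rw [hC1]
    exact pair_S (by rw [← Matrix.mul_assoc, h.iso, Matrix.zero_mul]) C1
  have e4 : x * (J * p.1) * g * E K arm s = ν + w := by rw [hν]; abel
  have e5 : ν = g * C - w := by rw [← hC, hν]
  rw [e4, pair_add_right, e1, add_zero, hψg, pair_add_left, e0, zero_add, e5, pair_sub_right,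
    e3, e2, sub_zero]

/-- `Θ(φ, ξ)` only depends on the form of `ξ` -/
theorem theta_form (h : Ctx k arm J B N W g)
    {p ξ : Matrix ι ι K × (Fin 3 → Matrix ι ι K)} (hp : p ∈ NN arm J N g)
    (hξ : ξ ∈ NN arm J N g) (h0 : gᵀ * J * (ξ.1 * g) = 0) :
    pair J B (Pg arm g p) (act arm ξ.2 g) = 0 := by
  have e1 : act arm ξ.2 g = ξ.1 * g - Pg arm g ξ := by unfold Pg; abel
  obtain ⟨C, hC⟩ := Pg_InS hp
  rw [e1, pair_sub_right, h.pair_Pg_Pg hp hξ, sub_zero, hC]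
  exact pair_S h0 C

/-- `Θ` is nondegenerate -/
theorem zero_of_theta (h : Ctx k arm J B N W g)
    {p : Matrix ι ι K × (Fin 3 → Matrix ι ι K)} (hp : p ∈ NN arm J N g)
    (hall : ∀ p' ∈ NN arm J N g, pair J B (Pg arm g p) (act arm p'.2 g) = 0) :
    gᵀ * J * (p.1 * g) = 0 := by
  have hg2 : gᵀ * J * (p.1 * g) = gᵀ * J * (act arm p.2 g) := by
    have := h.perp_Pg hp
    unfold Pg at this
    rw [Matrix.mul_sub, sub_eq_zero] at this
    exact this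
  refine h.onto (h.W_mul _ h.memW) (hp.2.1.pres g h.memN) hg2 ?_
  refine LinearMap.ext fun p' => ?_
  rw [fn_apply, LinearMap.zero_apply, h.skew_w hp p'.2, hall p'.1 p'.2, neg_zero]

theorem theta_self (h : Ctx k arm J B N W g) (h2 : (2 : K) ≠ 0)
    {p : Matrix ι ι K × (Fin 3 → Matrix ι ι K)} (hp : p ∈ NN arm J N g) :
    pair J B (Pg arm g p) (act arm p.2 g) = 0 := by
  have h1 := h.skew_w hp hp
  have h3 : (2 : K) * pair J B (Pg arm g p) (act arm p.2 g) = 0 := by linear_combination h1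
  exact (mul_eq_zero.1 h3).resolve_left h2

theorem Pg_add (p p' : Matrix ι ι K × (Fin 3 → Matrix ι ι K)) :
    Pg arm g (p + p') = Pg arm g p + Pg arm g p' := by
  unfold Pg
  rw [show (p + p').2 = fun s => p.2 s + p'.2 s from rfl, act_add_left,
    show (p + p').1 = p.1 + p'.1 from rfl, Matrix.add_mul]
  abel

/-- `T_f` is self-adjoint for `Θ` -/
theorem theta_sa (h : Ctx k arm J B N W g) (h2 : (2 : K) ≠ 0)
    {p p' t t' : Matrix ι ι K × (Fin 3 → Matrix ι ι K)} (hp : p ∈ NN arm J N g)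
    (hp' : p' ∈ NN arm J N g) (ht : t ∈ NN arm J N g) (ht' : t' ∈ NN arm J N g)
    {f : Matrix ι δ K} (hf : f ∈ N ⊓ W)
    (he : gᵀ * J * (p.1 * f) = gᵀ * J * (t.1 * g))
    (he' : gᵀ * J * (p'.1 * f) = gᵀ * J * (t'.1 * g)) :
    pair J B (Pg arm g t) (act arm p'.2 g) = pair J B (Pg arm g p) (act arm t'.2 g) := by
  have h1 := theta_zero h h2 hp ht hf he
  have h1' := theta_zero h h2 hp' ht' hf he'
  have h3 := theta_zero h h2 ((NN arm J N g).add_mem hp hp') ((NN arm J N g).add_mem ht ht') hf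
    (by
      rw [show (p + p').1 = p.1 + p'.1 from rfl, show (t + t').1 = t.1 + t'.1 from rfl,
        Matrix.add_mul, Matrix.mul_add, he, he', Matrix.add_mul, Matrix.mul_add])
  rw [Pg_add, show (t + t').2 = fun s => t.2 s + t'.2 s from rfl, act_add_left, pair_add_left,
    pair_add_right, pair_add_right, h1, h1'] at h3
  have h4 := h.skew_w hp' ht
  linear_combination h4 - h3

/-- the powers `T_f^k φ` are isotropic for `Θ` -/
theorem theta_chain (h : Ctx k arm J B N W g) (h2 : (2 : K) ≠ 0) {f : Matrix ι δ K}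
    (hf : f ∈ N ⊓ W) (P : ℕ → Matrix ι ι K × (Fin 3 → Matrix ι ι K))
    (hP : ∀ i, P i ∈ NN arm J N g)
    (hT : ∀ i, gᵀ * J * ((P i).1 * f) = gᵀ * J * ((P (i + 1)).1 * g)) (i j : ℕ) :
    pair J B (Pg arm g (P i)) (act arm (P j).2 g) = 0 := by
  have hs : ∀ i j, pair J B (Pg arm g (P (i + 1))) (act arm (P j).2 g) =
      pair J B (Pg arm g (P i)) (act arm (P (j + 1)).2 g) := fun i j =>
    theta_sa h h2 (hP i) (hP j) (hP (i + 1)) (hP (j + 1)) hf (hT i) (hT j)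
  have hs' : ∀ m i j, pair J B (Pg arm g (P (i + m))) (act arm (P j).2 g) =
      pair J B (Pg arm g (P i)) (act arm (P (j + m)).2 g) := by
    intro m
    induction m with
    | zero => intro i j; rfl
    | succ m ih =>
      intro i j
      rw [← Nat.add_assoc, hs, ih, Nat.add_right_comm, Nat.add_assoc]
  have h0 : ∀ m, pair J B (Pg arm g (P 0)) (act arm (P m).2 g) = 0 := by
    intro m
    rcases Nat.even_or_odd' m with ⟨c, rfl | rfl⟩
    · have h1 := hs' c 0 c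
      rw [Nat.zero_add, ← two_mul] at h1
      rw [← h1]
      exact theta_self h h2 (hP c)
    · have h1 := hs' c 0 (c + 1)
      rw [Nat.zero_add] at h1
      rw [show 2 * c + 1 = c + 1 + c by ring, ← h1]
      exact theta_zero h h2 (hP c) (hP (c + 1)) hf (hT c)
  have h1 := hs' i 0 j
  rw [Nat.zero_add] at h1
  rw [h1]
  exact h0 _

/-- **The END of (t2).** -/
theorem false_of_slack (h : Ctx k arm J B N W g) (h2 : (2 : K) ≠ 0)
    {p : Matrix ι ι K × (Fin 3 → Matrix ι ι K)} (hp : p ∈ NN arm J N g)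
    {P : Submodule K (ι → K)} (hPg : ∀ a ∈ P, ∃ u, g *ᵥ u = a)
    (hst : ∀ s, ∀ a ∈ P, (M arm B s g g * (J * p.1)) *ᵥ a ∈ P)
    (hperf : ∀ a ∈ P, ∃ c : Fin 3 → (ι → K), (∀ s, c s ∈ P) ∧
      a = ∑ s, (M arm B s g g * (J * p.1)) *ᵥ c s)
    (hfree : ∀ s, ∃ l : ℕ, (∀ c ∈ P, ((M arm B s g g * (J * p.1)) ^ l) *ᵥ c ∈ Rd (J * p.1) P) ∧
      ∀ v ≤ l, ∀ c ∈ P, ((M arm B s g g * (J * p.1)) ^ (l - v)) *ᵥ c ∈ Rd (J * p.1) P →
        ∃ c' ∈ P, c - ((M arm B s g g * (J * p.1)) ^ v) *ᵥ c' ∈ Rd (J * p.1) P)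
    (hSL : ∀ s x, PP P x → Fil (M arm B s g g * (J * p.1)) (J * p.1) P x →
      ∃ w ∈ W, x * (J * p.1) * g * E K arm s - w ∈ N ∧
        (∀ a ∈ P, ∀ v, a ⬝ᵥ ((J * w) *ᵥ v) = 0) ∧
        ∃ ζ ∈ NN arm J N g, pair J B (Pg arm g p) (act arm ζ.2 g) = 0 ∧
          ∀ a ∈ P, ∀ u, g *ᵥ u ∈ P →
            a ⬝ᵥ ((J * p.1 * w) *ᵥ u) = a ⬝ᵥ ((J * ζ.1) *ᵥ (g *ᵥ u)))
    (hI : INJ arm J N g P) : gᵀ * J * (p.1 * g) = 0 := by
  have hD := h.data
  obtain ⟨η, hη⟩ : ∃ η : Matrix ι ι K, η = J * p.1 := ⟨_, rfl⟩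
  have hηt : ηᵀ = -η := by rw [hη]; exact (Phi_adj hD h.mem hp.1 0).1
  have had : ∀ s, (M arm B s g g * η)ᵀ * η = -(η * (M arm B s g g * η)) := by
    intro s; rw [hη]; exact (Phi_adj hD h.mem hp.1 s).2
  rw [← hη] at hst hperf hfree hSL
  -- the pairing relations
  have hrel : ∀ ψ ∈ NN arm J N g, ∀ s, ∀ a b : ι → K, a ∈ P → b ∈ P →
      Fil (M arm B s g g * η) η P (vecMulVec a b) →
      ((M arm B s g g * η) *ᵥ b) ⬝ᵥ ((J * ψ.1) *ᵥ a) = 0 := by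
    intro ψ hψ s a b ha hb hf
    obtain ⟨w, hw, hwN, hwP, -⟩ := hSL s _ (PP_vec ha hb) hf
    rw [hη] at hwN
    have h1 := pair_zero h hPg hI (PP_vec ha hb) hw hwN hwP hψ
    rw [pair_vec hD h.mem hp.1 hψ.1, ← hη] at h1
    rw [dotProduct_comm]
    exact h1
  refine zero_of_theta h hp fun ψ hψ => ?_
  have hΨt : (J * ψ.1)ᵀ = -(J * ψ.1) := (Phi_adj hD h.mem hψ.1 0).1
  -- `ψ` kills the radical
  have hR : ∀ r ∈ Rd η P, ∀ b ∈ P, b ⬝ᵥ ((J * ψ.1) *ᵥ r) = 0 := by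
    intro r hr b hb
    obtain ⟨c, hc, rfl⟩ := hperf b hb
    rw [sum_dotProduct]
    exact Finset.sum_eq_zero fun s _ => hrel ψ hψ s r (c s) hr.1 (hc s) (Fil_rad hr)
  obtain ⟨x, hx, hxe⟩ := exists_x hηt hΨt P hR
  -- `x` is filtered at every arm
  have hxF : ∀ s, Fil (M arm B s g g * η) η P x := by
    intro s v c hc
    obtain ⟨l, hl1, hl2⟩ := hfree s
    have hcv := pow_mem (hst s) v c hc
    have hyP : (x * η * (M arm B s g g * η) ^ v) *ᵥ c ∈ P := by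
      rw [← mulVec_mulVec, ← mulVec_mulVec]
      exact hx.1 _
    have hy : ∀ b ∈ P, b ⬝ᵥ (η *ᵥ ((x * η * (M arm B s g g * η) ^ v) *ᵥ c)) =
        b ⬝ᵥ ((J * ψ.1) *ᵥ (((M arm B s g g * η) ^ v) *ᵥ c)) := by
      intro b hb
      rw [← hxe b hb _ hcv]
      simp only [mulVec_mulVec, Matrix.mul_assoc]
    rcases Nat.lt_or_ge v l with hv | hv
    · refine hl2 v hv.le _ hyP ⟨pow_mem (hst s) _ _ hyP, fun b hb => ?_⟩
      obtain ⟨m, hm⟩ : ∃ m, l - v = m + 1 := ⟨l - v - 1, by omega⟩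
      rw [adj_pow (had s), hy _ (pow_mem (hst s) _ _ hb), hm]
      have e1 : ((M arm B s g g * η) ^ (m + 1)) *ᵥ b =
          (M arm B s g g * η) *ᵥ (((M arm B s g g * η) ^ m) *ᵥ b) := by
        rw [pow_succ', mulVec_mulVec]
      have e2 : ((M arm B s g g * η) ^ (v + 1)) *ᵥ (((M arm B s g g * η) ^ m) *ᵥ b) ∈ Rd η P := by
        rw [mulVec_mulVec, ← pow_add, show v + 1 + m = l by omega]
        exact hl1 b hb
      rw [e1, hrel ψ hψ s _ _ hcv (pow_mem (hst s) _ _ hb)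
        (Fil_one hηt (had s) (hst s) hc e2), mul_zero]
    · refine ⟨0, P.zero_mem, ?_⟩
      rw [mulVec_zero, sub_zero]
      refine ⟨hyP, fun b hb => ?_⟩
      rw [hy b hb]
      refine hR _ ?_ b hb
      obtain ⟨m, rfl⟩ := Nat.exists_eq_add_of_le hv
      rw [Nat.add_comm, pow_add, ← mulVec_mulVec]
      exact Rd_pow (had s) (hst s) m (hl1 c hc)
  choose w hwW hwN hwP ζ hζN hζθ hζ using fun s => hSL s x hx (hxF s)
  -- the element `q`
  obtain ⟨q, hq⟩ : ∃ q : Matrix ι δ K, q = ∑ s, (x * η * g * E K arm s - w s) := ⟨_, rfl⟩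
  have hqe : q = x * η * g - ∑ s, w s := by
    rw [hq, Finset.sum_sub_distrib, ← Matrix.mul_sum, sum_E, Matrix.mul_one]
  have hqK : q ∈ N ⊓ W := by
    refine ⟨?_, ?_⟩
    · rw [hq]; exact N.sum_mem fun s _ => hwN s
    · rw [hqe]; exact W.sub_mem (h.W_mul _ h.memW) (W.sum_mem fun s _ => hwW s)
  obtain ⟨p', hp', he⟩ := h.tf hqK hp
  -- the comparison on `P × P`
  have hcmp : ∀ a ∈ P, ∀ b ∈ P, a ⬝ᵥ ((J * p'.1) *ᵥ b) =
      a ⬝ᵥ ((J * ψ.1) *ᵥ b) - ∑ t, a ⬝ᵥ ((J * (ζ t).1) *ᵥ b) := by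
    intro a ha b hb
    obtain ⟨c, hc, hbc⟩ := hperf b hb
    have hone : ∀ s, a ⬝ᵥ ((J * p'.1) *ᵥ ((M arm B s g g * η) *ᵥ c s)) =
        a ⬝ᵥ ((J * ψ.1) *ᵥ ((M arm B s g g * η) *ᵥ c s)) -
          ∑ t, a ⬝ᵥ ((J * (ζ t).1) *ᵥ ((M arm B s g g * η) *ᵥ c s)) := by
      intro s
      have hb' := hst s _ (hc s)
      obtain ⟨u, hu⟩ : ∃ u : δ → K, g *ᵥ u = (M arm B s g g * η) *ᵥ c s :=
        ⟨(E K arm s * B * gᵀ * η) *ᵥ c s, by
          rw [mulVec_mulVec]; unfold M; simp only [Matrix.mul_assoc]⟩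
      rw [← hu] at hb' ⊢
      obtain ⟨u', rfl⟩ := hPg a ha
      have e1 : (g *ᵥ u') ⬝ᵥ ((J * p'.1) *ᵥ (g *ᵥ u)) = (g *ᵥ u') ⬝ᵥ ((η * q) *ᵥ u) := by
        rw [form_gg, form_g]
        congr 2
        calc gᵀ * (J * p'.1) * g = gᵀ * J * (p'.1 * g) := by simp only [Matrix.mul_assoc]
          _ = gᵀ * η * q := by rw [← he, hη]; simp only [Matrix.mul_assoc]
      have e2 : (g *ᵥ u') ⬝ᵥ ((η * q) *ᵥ u) =
          (g *ᵥ u') ⬝ᵥ ((η * x * η) *ᵥ (g *ᵥ u)) - ∑ t, (g *ᵥ u') ⬝ᵥ ((η * w t) *ᵥ u) := by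
        rw [hqe, Matrix.mul_sub, sub_mulVec, dotProduct_sub, Matrix.mul_sum, sum_mulVec,
          dotProduct_sum, mulVec_mulVec]
        simp only [Matrix.mul_assoc]
      rw [e1, e2, hxe _ ha _ hb']
      congr 1
      exact Finset.sum_congr rfl fun t _ => hζ t _ ha u hb'
    rw [hbc, mulVec_sum, mulVec_sum, dotProduct_sum, dotProduct_sum]
    simp only [mulVec_sum, dotProduct_sum]
    rw [Finset.sum_comm, ← Finset.sum_sub_distrib]
    exact Finset.sum_congr rfl fun s _ => hone s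
  -- the difference
  have hd : p' + (ζ 0 + ζ 1 + ζ 2) - ψ ∈ NN arm J N g :=
    (NN arm J N g).sub_mem ((NN arm J N g).add_mem hp' ((NN arm J N g).add_mem
      ((NN arm J N g).add_mem (hζN 0) (hζN 1)) (hζN 2))) hψ
  have hd0 := hI _ hd (by
    intro a ha b hb
    have e1 : (p' + (ζ 0 + ζ 1 + ζ 2) - ψ).1 = p'.1 + ((ζ 0).1 + (ζ 1).1 + (ζ 2).1) - ψ.1 := rfl
    rw [e1, Matrix.mul_sub, Matrix.mul_add, Matrix.mul_add, Matrix.mul_add, sub_mulVec, add_mulVec,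
      add_mulVec, add_mulVec, dotProduct_sub, dotProduct_add, dotProduct_add, dotProduct_add,
      hcmp a ha b hb, Fin.sum_univ_three]
    ring)
  have hθ := theta_form h hp hd hd0
  have e1 : act arm (p' + (ζ 0 + ζ 1 + ζ 2) - ψ).2 g =
      act arm p'.2 g + (act arm (ζ 0).2 g + act arm (ζ 1).2 g + act arm (ζ 2).2 g) -
        act arm ψ.2 g := by
    have e2 : (p' + (ζ 0 + ζ 1 + ζ 2) - ψ).2 =
      fun s => (p'.2 s + (((ζ 0).2 s + (ζ 1).2 s) + (ζ 2).2 s)) - ψ.2 s := rfl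
    rw [e2, act_sub_left arm (fun s => p'.2 s + (((ζ 0).2 s + (ζ 1).2 s) + (ζ 2).2 s)) ψ.2,
      act_add_left arm p'.2 (fun s => ((ζ 0).2 s + (ζ 1).2 s) + (ζ 2).2 s),
      act_add_left arm (fun s => (ζ 0).2 s + (ζ 1).2 s) (ζ 2).2, act_add_left]
  rw [e1, pair_sub_right, pair_add_right, pair_add_right, pair_add_right, hζθ, hζθ, hζθ,
    theta_zero h h2 hp hp' hqK he] at hθ
  linear_combination -hθ

end Crest.Agent.R172.SEnd
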