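import Crest.Agent.R172.TGlue
import Crest.Agent.R172.SEnd

/-!
Row 172 (S0260): `TI.InjP` (the form of (INJ) in `Fin5`) gives `SEnd.INJ` for every submodule which
contains the images of the long words.
-/

set_option autoImplicit false
set_option linter.unusedSectionVars false
set_option maxHeartbeats 400000

namespace Crest.Agent.R172.TI

open Matrix Module Crest.Agent.R172.FO Crest.Agent.R172.Qt

variable {ι δ K k : Type*} [Fintype ι] [DecidableEq ι] [Fintype δ] [DecidableEq δ] [Field k]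
  [Field K] [Algebra k K]

theorem word_transpose' {φ : Matrix δ δ K} {X : Fin 3 → Matrix δ δ K} (hφ : φᵀ = -φ)
    (hX : ∀ s, (X s)ᵀ = X s) (l : List (Fin 3)) :
    ∃ e : K, ((l.reverse.map fun s => φ * X s).prod) = e • ((l.map fun s => X s * φ).prod)ᵀ := by
  induction l with
  | nil => exact ⟨1, by simp⟩
  | cons s l ih =>
    obtain ⟨e, he⟩ := ih
    refine ⟨-e, ?_⟩
    rw [List.map_cons, List.prod_cons, Matrix.transpose_mul, List.reverse_cons,
      List.map_append, List.prod_append, List.map_singleton, List.prod_singleton,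
      Matrix.transpose_mul, hφ, hX, he]
    simp only [Matrix.smul_mul, Matrix.neg_mul, Matrix.mul_neg, smul_neg, neg_smul, neg_neg]

/-- **(INJ), core form** (with `B` symmetric) -/
theorem InjP.core' {arm : δ → Fin 3} {J : Matrix ι ι K} {B : Matrix δ δ K}
    {N : Submodule K (Matrix ι δ K)} {F : Matrix ι δ K} {P : Matrix ι ι K}
    (h : InjP arm J B N F P) (hφ : (Fᵀ * J * (P * F))ᵀ = -(Fᵀ * J * (P * F)))
    (hX : ∀ s, (E K arm s * B)ᵀ = E K arm s * B)
    {p' : Matrix ι ι K × (Fin 3 → Matrix ι ι K)} (hp' : p' ∈ NN arm J N F) {m : ℕ}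
    (hm : ∀ l1 l2 : List (Fin 3), m ≤ l1.length → m ≤ l2.length →
      (F * (l1.map fun s => (E K arm s * B) * (Fᵀ * J * (P * F))).prod)ᵀ * J *
        (p'.1 * (F * (l2.map fun s => (E K arm s * B) * (Fᵀ * J * (P * F))).prod)) = 0) :
    Fᵀ * J * (p'.1 * F) = 0 := by
  refine h.two hp' (m := m) fun l1 l2 h1 h2 => ?_
  have e := hm l1.reverse l2 (by rw [List.length_reverse]; exact h1) h2
  obtain ⟨t, ht⟩ := word_transpose' hφ hX l1.reverse
  rw [List.reverse_reverse] at ht
  rw [Matrix.transpose_mul] at e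
  rw [ht, Matrix.smul_mul, Matrix.smul_mul]
  have e2 : ((l1.reverse.map fun s => (E K arm s * B) * (Fᵀ * J * (P * F))).prod)ᵀ *
      (Fᵀ * J * (p'.1 * F)) * (l2.map fun s => (E K arm s * B) * (Fᵀ * J * (P * F))).prod = 0 := by
    rw [← e]
    simp only [Matrix.mul_assoc]
  rw [e2, smul_zero]

/-- `F * (word in E_s B φ) = (word in Φ_s) * F` -/
theorem word_F (arm : δ → Fin 3) (J : Matrix ι ι K) (B : Matrix δ δ K) (F : Matrix ι δ K)
    (P : Matrix ι ι K) (l : List (Fin 3)) :
    F * (l.map fun s => (E K arm s * B) * (Fᵀ * J * (P * F))).prod =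
      (l.map fun s => M arm B s F F * (J * P)).prod * F := by
  induction l with
  | nil => simp
  | cons s l ih =>
    rw [List.map_cons, List.prod_cons, List.map_cons, List.prod_cons, Matrix.mul_assoc _ _ F,
      ← ih]
    unfold M
    simp only [Matrix.mul_assoc]

theorem entry_eq (A C : Matrix ι δ K) (Y : Matrix ι ι K) (d e : δ) :
    (Aᵀ * Y * C) d e = (A *ᵥ Pi.single d 1) ⬝ᵥ (Y *ᵥ (C *ᵥ Pi.single e 1)) := by
  rw [mulVec_single_one, mulVec_single_one, Matrix.mul_assoc, Matrix.mul_apply, dotProduct]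
  exact Finset.sum_congr rfl fun j _ => by rw [Matrix.mul_apply]; rfl

/-- **`InjP` gives `SEnd.INJ`** for every submodule containing the images of the long words. -/
theorem InjP.sEnd {arm : δ → Fin 3} {J : Matrix ι ι K} {B : Matrix δ δ K}
    {N W : Submodule K (Matrix ι δ K)} (hD : Data k arm J B N W) {F : Matrix ι δ K}
    {p : Matrix ι ι K × (Fin 3 → Matrix ι ι K)} (h : InjP arm J B N F p.1)
    (hp : p ∈ NN arm J N F) {Q : Submodule K (ι → K)}
    (hQ : ∃ m : ℕ, ∀ l : List (Fin 3), m ≤ l.length → ∀ u : δ → K,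
      (l.map fun s => M arm B s F F * (J * p.1)).prod *ᵥ (F *ᵥ u) ∈ Q) :
    SEnd.INJ arm J N F Q := by
  intro ψ hψ h0
  obtain ⟨m, hm⟩ := hQ
  refine h.core' (skew_gXg hD.J_symm hp.1 F) (fun s => ?_) hψ (m := m) fun l1 l2 h1 h2 => ?_
  · rw [Matrix.transpose_mul, hD.B_symm, E_transpose, hD.B_arm]
  · rw [word_F, word_F]
    ext d e
    have e1 := h0 _ (hm l1 h1 (Pi.single d 1)) _ (hm l2 h2 (Pi.single e 1))
    rw [mulVec_mulVec, mulVec_mulVec] at e1
    rw [Matrix.zero_apply, ← e1, ← entry_eq]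
    simp only [Matrix.mul_assoc]

end Crest.Agent.R172.TI
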