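import Crest.Agent.R172.Fin5
import Crest.Agent.R172.TGlue2
import Crest.Agent.R172.SEnd2

/-!
Row 172 (S0260): assembly of (t2): `NoTameS2I` from the slack `(SL)`.
-/

set_option autoImplicit false
set_option linter.unusedSectionVars false
set_option maxHeartbeats 400000

namespace Crest.Agent.R172.SAsm0

open Matrix Module Crest.Agent.R172.FO Crest.Agent.R172.Qt
open Crest.AlgebraR.SpinSaturation Crest.Agent.R172.SoGrade Crest.Agent.R172.Sp
open Crest.Agent.R172.CF Crest.Agent.R172.CSys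
open Crest.Agent.R172.Gen (Jm Ix emb IsSo)
open Crest.Agent.R172.SpS Crest.Agent.R172.SEnd Crest.Agent.R172.SEnd2
open Crest.Agent.R172.Om (Kiso Scal)
open Crest.Agent.R172.Ind (GI Inst)
open Crest.Agent.R172.Fin4 Crest.Agent.R172.Fin5
open Crest.Agent.R172.Core Crest.Agent.R172.PL

section abs

variable {ι : Type*} [Fintype ι] [DecidableEq ι] {δ : Type*} [Fintype δ] [DecidableEq δ]
variable {k K : Type*} [Field k] [Field K] [Algebra k K]

/-- **(SL)**, hypothesis of `SEnd.false_of_slack` -/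
def SL (arm : δ → Fin 3) (J : Matrix ι ι K) (B : Matrix δ δ K) (N W : Submodule K (Matrix ι δ K))
    (g : Matrix ι δ K) (p : Matrix ι ι K × (Fin 3 → Matrix ι ι K)) (P : Submodule K (ι → K)) :
    Prop :=
  ∀ s x, PP P x → Fil (M arm B s g g * (J * p.1)) (J * p.1) P x →
    ∃ w ∈ W, x * (J * p.1) * g * E K arm s - w ∈ N ∧
      (∀ a ∈ P, ∀ v, a ⬝ᵥ ((J * w) *ᵥ v) = 0) ∧
      ∃ ζ ∈ NN arm J N g, pair J B (Pg arm g p) (act arm ζ.2 g) = 0 ∧
        ∀ a ∈ P, ∀ u, g *ᵥ u ∈ P →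
          a ⬝ᵥ ((J * p.1 * w) *ᵥ u) = a ⬝ᵥ ((J * ζ.1) *ᵥ (g *ᵥ u))

variable {arm : δ → Fin 3} {J : Matrix ι ι K} {B : Matrix δ δ K}
  {N W : Submodule K (Matrix ι δ K)} {g : Matrix ι δ K} {R : Matrix δ ι K}

/-- the long words map `im g` into `PC` -/
theorem words_PC (hR : g * R * g = g) (X : Matrix ι ι K) :
    ∃ m : ℕ, ∀ l : List (Fin 3), m ≤ l.length → ∀ u : δ → K,
      (l.map fun s => M arm B s g g * (J * X)).prod *ᵥ (g *ᵥ u) ∈ PC arm J B g R X := by
  obtain ⟨m, hm, -⟩ := Ainf_eq_Wk (PhS arm J B g R X)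
  refine ⟨m, fun l hl u => ?_⟩
  have key : ∀ (l : List (Fin 3)) (v : SpS.Sg g), ∃ w ∈ Wk (PhS arm J B g R X) l.length,
      ((w : SpS.Sg g) : ι → K) = (l.map fun s => M arm B s g g * (J * X)).prod *ᵥ (v : ι → K) := by
    intro l
    induction l with
    | nil => 
      intro v
      exact ⟨v, by simp [Wk], by simp⟩
    | cons s l ih =>
      intro v
      obtain ⟨w, hw, hw2⟩ := ih v
      refine ⟨PhS arm J B g R X s w, Wk_succ_mem hw s, ?_⟩
      rw [PhS_coe hR, hw2, List.map_cons, List.prod_cons, mulVec_mulVec]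
  obtain ⟨w, hw, hw2⟩ := key l (gS g u)
  refine ⟨w, ?_, ?_⟩
  · change w ∈ Ainf _
    rw [hm]
    exact Wk_anti _ hl hw
  · rw [← gS_coe g u]
    exact hw2

/-- a form which is zero is not tame -/
theorem not_tame_zero {V : Type*} [AddCommGroup V] [Module K V] [FiniteDimensional K V]
    {η : LinearMap.BilinForm K V} (hη : η = 0)
    {Mt Nt : Fin 3 → (Dual K V →ₗ[K] V)} : ¬ TameD Mt Nt η := by
  intro hT
  obtain ⟨D, -, -, -, ⟨lam, mu, -, hlam, -⟩, -, -⟩ := hT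
  have h0 : ∀ s v, Be Mt η s v = 0 := by
    intro s v
    rw [hη]
    change Mt s ((0 : LinearMap.BilinForm K V) v) = 0
    rw [LinearMap.zero_apply, map_zero]
  have hA : ∀ v ∈ Ainf (Be Mt η), v = 0 := by
    intro v hv
    obtain ⟨f, -, hs⟩ := Ainf_exists (Be Mt η) hv
    rw [← hs]
    exact Finset.sum_eq_zero fun s _ => h0 s _
  have hM : ∀ x : CoreM (Be Mt η), x = 0 := by
    intro x
    obtain ⟨v, rfl⟩ := (Rad (Be Mt η)).mkQ_surjective x
    have : v = 0 := Subtype.ext (hA v v.2)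
    rw [this, map_zero]
  exact hlam ((Submodule.eq_bot_iff _).2 fun x _ => hM x)

end abs

variable {n : ℕ} {a : Fin 3 → Fin n → ℤ} {c : Cfg n a} {q : SPol c}

/-- **(SL) for all tame pairs** (same hypotheses as `NoTameS2I`) -/
def SLCfg (c : Cfg n a) (q : SPol c) (R : Ranked c) : Prop :=
  ∀ (L : Type) [Field L] [Algebra ℂ L] [IsAlgClosed L] (g : Fin 3 → Matrix (Ix n) (Ix n) L)
    (H : Matrix (Fin q.toPol.m) (Fin q.toPol.m) L), Inst c q R L g H →
    2 ≤ finrank L ↥(Kiso (Jm n L) (c.N g) (VL (q.toPol.LH H))) →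
    ∀ F ∈ Kiso (Jm n L) (c.N g) (VL (q.toPol.LH H)),
    ∀ f ∈ Kiso (Jm n L) (c.N g) (VL (q.toPol.LH H)), V1 c q g H F f →
    ∀ P ∈ NN c.arm (Jm n L) (c.N g) F, V2 c q g H F f P →
    TI.InjP c.arm (Jm n L) (c.B L) (c.N g) F P.1 →
    ∀ G : Matrix c.δ (Ix n) L, F * G * F = F →
      TameD (Mg c.arm (c.B L) F) (Ng c.arm (c.B L) F G f)
        (bil F G (Fᵀ * (Jm n L * P.1) * F)) →
      SL c.arm (Jm n L) (c.B L) (c.N g) (VL (q.toPol.LH H)) F P
        (PC c.arm (Jm n L) (c.B L) F G P.1)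

theorem noTameS2I_of {R : Ranked c} (h : SLCfg c q R) : NoTameS2I c q R := by
  intro L _ _ _ g H hI h2 F hF f hf hV1 P hP hV2 hInj G hG hT
  have hctx := hI.ctx hF
  have hD := hI.data
  obtain ⟨l, -, -, hl⟩ := core_data (k := ℂ) hD hG hP.1 hT
  have hSL := h L g H hI h2 F hF f hf hV1 P hP hV2 hInj G hG hT
  have h0 := false_of_slack hctx hI.two_ne hP (P := PC c.arm (Jm n L) (c.B L) F G P.1)
    PC_im (fun s => PC_stable hG s) (PC_perf hG) (fun s => ⟨l s, hl s⟩) hSL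
    (hInj.sEnd hD hP (words_PC hG P.1))
  refine not_tame_zero ?_ hT
  have h1 : Fᵀ * (Jm n L * P.1) * F = 0 := by
    rw [← h0]
    simp only [Matrix.mul_assoc]
  rw [h1, map_zero]

end Crest.Agent.R172.SAsm0
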