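import Crest.Agent.R172.SEnd3

/-!
Row 172 (S0260), tame node (t2): the END with the WEAK test: the corrections `w` are tested only on
the vectors `(E_r B gᵀ η) c`, `c ∈ P` (enough because `P = ∑ Φ_r P`).  For second-level corrections
nothing else is known.
-/

set_option autoImplicit false
set_option linter.unusedSectionVars false

namespace Crest.Agent.R172.SEndW

open Matrix Module Crest.Agent.R172.FO Crest.Agent.R172.Qt Crest.Agent.R172.SEnd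
open Crest.Agent.R172.SEnd3

variable {ι : Type*} [Fintype ι] [DecidableEq ι] {δ : Type*} [Fintype δ] [DecidableEq δ]
variable {k K : Type*} [Field k] [Field K] [Algebra k K]
variable {arm : δ → Fin 3} {J : Matrix ι ι K} {B : Matrix δ δ K}
  {N W : Submodule K (Matrix ι δ K)} {g : Matrix ι δ K}

/-- **The END of (t2), weak test.** -/
theorem false_of_slackW (h : Ctx k arm J B N W g) (h2 : (2 : K) ≠ 0)
    {p : Matrix ι ι K × (Fin 3 → Matrix ι ι K)} (hp : p ∈ NN arm J N g)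
    {P : Submodule K (ι → K)} (hPg : ∀ a ∈ P, ∃ u, g *ᵥ u = a)
    (hst : ∀ s, ∀ a ∈ P, (M arm B s g g * (J * p.1)) *ᵥ a ∈ P)
    (hperf : ∀ a ∈ P, ∃ c : Fin 3 → (ι → K), (∀ s, c s ∈ P) ∧
      a = ∑ s, (M arm B s g g * (J * p.1)) *ᵥ c s)
    (hfree : ∀ s, ∃ l : ℕ, (∀ c ∈ P, ((M arm B s g g * (J * p.1)) ^ l) *ᵥ c ∈ Rd (J * p.1) P) ∧
      ∀ v ≤ l, ∀ c ∈ P, ((M arm B s g g * (J * p.1)) ^ (l - v)) *ᵥ c ∈ Rd (J * p.1) P →
        ∃ c' ∈ P, c - ((M arm B s g g * (J * p.1)) ^ v) *ᵥ c' ∈ Rd (J * p.1) P)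
    (hSL : ∀ s x, PP P x → Fil (M arm B s g g * (J * p.1)) (J * p.1) P x →
      ∃ w ∈ W, x * (J * p.1) * g * E K arm s - w ∈ N ∧
        (∀ a ∈ P, ∀ v, a ⬝ᵥ ((J * w) *ᵥ v) = 0) ∧
        ∃ ζ ∈ NN arm J N g, pair J B (Pg arm g p) (act arm ζ.2 g) = 0 ∧
          ∀ a ∈ P, ∀ c ∈ P, ∀ r,
            a ⬝ᵥ ((J * p.1 * w) *ᵥ ((E K arm r * B * gᵀ * (J * p.1)) *ᵥ c)) =
              a ⬝ᵥ ((J * ζ.1) *ᵥ ((M arm B r g g * (J * p.1)) *ᵥ c)))
    (hI : INJ arm J N g P) : gᵀ * J * (p.1 * g) = 0 := by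
  have hD := h.data
  obtain ⟨η, hη⟩ : ∃ η : Matrix ι ι K, η = J * p.1 := ⟨_, rfl⟩
  have hηt : ηᵀ = -η := by rw [hη]; exact (Phi_adj hD h.mem hp.1 0).1
  have had : ∀ s, (M arm B s g g * η)ᵀ * η = -(η * (M arm B s g g * η)) := by
    intro s; rw [hη]; exact (Phi_adj hD h.mem hp.1 s).2
  rw [← hη] at hst hperf hfree hSL
  -- the pairing relations
  have hrel : ∀ ψ ∈ NN arm J N g, ∀ s, ∀ a b : ι → K, a ∈ P → b ∈ P →
      Fil (M arm B s g g * η) η P (vecMulVec a b) →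
      ((M arm B s g g * η) *ᵥ b) ⬝ᵥ ((J * ψ.1) *ᵥ a) = 0 := by
    intro ψ hψ s a b ha hb hf
    obtain ⟨w, hw, hwN, hwP, -⟩ := hSL s _ (PP_vec ha hb) hf
    rw [hη] at hwN
    have h1 := pair_zero h hPg hI (PP_vec ha hb) hw hwN hwP hψ
    rw [pair_vec hD h.mem hp.1 hψ.1, ← hη] at h1
    rw [dotProduct_comm]
    exact h1
  refine zero_of_theta h hp fun ψ hψ => ?_
  have hΨt : (J * ψ.1)ᵀ = -(J * ψ.1) := (Phi_adj hD h.mem hψ.1 0).1
  -- `ψ` kills the radical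
  have hR : ∀ r ∈ Rd η P, ∀ b ∈ P, b ⬝ᵥ ((J * ψ.1) *ᵥ r) = 0 := by
    intro r hr b hb
    obtain ⟨c, hc, rfl⟩ := hperf b hb
    rw [sum_dotProduct]
    exact Finset.sum_eq_zero fun s _ => hrel ψ hψ s r (c s) hr.1 (hc s) (Fil_rad hr)
  obtain ⟨x, hx, hxe⟩ := exists_x hηt hΨt P hR
  -- `x` is filtered at every arm
  have hxF : ∀ s, Fil (M arm B s g g * η) η P x := by
    intro s v c hc
    obtain ⟨l, hl1, hl2⟩ := hfree s
    have hcv := pow_mem (hst s) v c hc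
    have hyP : (x * η * (M arm B s g g * η) ^ v) *ᵥ c ∈ P := by
      rw [← mulVec_mulVec, ← mulVec_mulVec]
      exact hx.1 _
    have hy : ∀ b ∈ P, b ⬝ᵥ (η *ᵥ ((x * η * (M arm B s g g * η) ^ v) *ᵥ c)) =
        b ⬝ᵥ ((J * ψ.1) *ᵥ (((M arm B s g g * η) ^ v) *ᵥ c)) := by
      intro b hb
      rw [← hxe b hb _ hcv]
      simp only [mulVec_mulVec, Matrix.mul_assoc]
    rcases Nat.lt_or_ge v l with hv | hv
    · refine hl2 v hv.le _ hyP ⟨pow_mem (hst s) _ _ hyP, fun b hb => ?_⟩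
      obtain ⟨m, hm⟩ : ∃ m, l - v = m + 1 := ⟨l - v - 1, by omega⟩
      rw [adj_pow (had s), hy _ (pow_mem (hst s) _ _ hb), hm]
      have e1 : ((M arm B s g g * η) ^ (m + 1)) *ᵥ b =
          (M arm B s g g * η) *ᵥ (((M arm B s g g * η) ^ m) *ᵥ b) := by
        rw [pow_succ', mulVec_mulVec]
      have e2 : ((M arm B s g g * η) ^ (v + 1)) *ᵥ (((M arm B s g g * η) ^ m) *ᵥ b) ∈ Rd η P := by
        rw [mulVec_mulVec, ← pow_add, show v + 1 + m = l by omega]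
        exact hl1 b hb
      rw [e1, hrel ψ hψ s _ _ hcv (pow_mem (hst s) _ _ hb)
        (Fil_one hηt (had s) (hst s) hc e2), mul_zero]
    · refine ⟨0, P.zero_mem, ?_⟩
      rw [mulVec_zero, sub_zero]
      refine ⟨hyP, fun b hb => ?_⟩
      rw [hy b hb]
      refine hR _ ?_ b hb
      obtain ⟨m, rfl⟩ := Nat.exists_eq_add_of_le hv
      rw [Nat.add_comm, pow_add, ← mulVec_mulVec]
      exact Rd_pow (had s) (hst s) m (hl1 c hc)
  choose w hwW hwN hwP ζ hζN hζθ hζ using fun s => hSL s x hx (hxF s)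
  -- the element `q`
  obtain ⟨q, hq⟩ : ∃ q : Matrix ι δ K, q = ∑ s, (x * η * g * E K arm s - w s) := ⟨_, rfl⟩
  have hqe : q = x * η * g - ∑ s, w s := by
    rw [hq, Finset.sum_sub_distrib, ← Matrix.mul_sum, sum_E, Matrix.mul_one]
  have hqK : q ∈ N ⊓ W := by
    refine ⟨?_, ?_⟩
    · rw [hq]; exact N.sum_mem fun s _ => hwN s
    · rw [hqe]; exact W.sub_mem (h.W_mul _ h.memW) (W.sum_mem fun s _ => hwW s)
  obtain ⟨p', hp', he⟩ := h.tf hqK hp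
  -- the comparison on `P × P`
  have hcmp : ∀ a ∈ P, ∀ b ∈ P, a ⬝ᵥ ((J * p'.1) *ᵥ b) =
      a ⬝ᵥ ((J * ψ.1) *ᵥ b) - ∑ t, a ⬝ᵥ ((J * (ζ t).1) *ᵥ b) := by
    intro a ha b hb
    obtain ⟨c, hc, hbc⟩ := hperf b hb
    have hone : ∀ s, a ⬝ᵥ ((J * p'.1) *ᵥ ((M arm B s g g * η) *ᵥ c s)) =
        a ⬝ᵥ ((J * ψ.1) *ᵥ ((M arm B s g g * η) *ᵥ c s)) -
          ∑ t, a ⬝ᵥ ((J * (ζ t).1) *ᵥ ((M arm B s g g * η) *ᵥ c s)) := by
      intro s
      have hb' := hst s _ (hc s)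
      have hζs : ∀ t, a ⬝ᵥ ((η * w t) *ᵥ ((E K arm s * B * gᵀ * η) *ᵥ c s)) =
          a ⬝ᵥ ((J * (ζ t).1) *ᵥ ((M arm B s g g * η) *ᵥ c s)) := fun t =>
        hζ t a ha (c s) (hc s) s
      obtain ⟨u, hud⟩ : ∃ u : δ → K, u = (E K arm s * B * gᵀ * η) *ᵥ c s := ⟨_, rfl⟩
      have hu : g *ᵥ u = (M arm B s g g * η) *ᵥ c s := by
        rw [hud, mulVec_mulVec]; unfold M; simp only [Matrix.mul_assoc]
      rw [← hud] at hζs
      rw [← hu] at hb' hζs ⊢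
      obtain ⟨u', rfl⟩ := hPg a ha
      have e1 : (g *ᵥ u') ⬝ᵥ ((J * p'.1) *ᵥ (g *ᵥ u)) = (g *ᵥ u') ⬝ᵥ ((η * q) *ᵥ u) := by
        rw [form_gg, form_g]
        congr 2
        calc gᵀ * (J * p'.1) * g = gᵀ * J * (p'.1 * g) := by simp only [Matrix.mul_assoc]
          _ = gᵀ * η * q := by rw [← he, hη]; simp only [Matrix.mul_assoc]
      have e2 : (g *ᵥ u') ⬝ᵥ ((η * q) *ᵥ u) =
          (g *ᵥ u') ⬝ᵥ ((η * x * η) *ᵥ (g *ᵥ u)) - ∑ t, (g *ᵥ u') ⬝ᵥ ((η * w t) *ᵥ u) := by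
        rw [hqe, Matrix.mul_sub, sub_mulVec, dotProduct_sub, Matrix.mul_sum, sum_mulVec,
          dotProduct_sum, mulVec_mulVec]
        simp only [Matrix.mul_assoc]
      rw [e1, e2, hxe _ ha _ hb']
      congr 1
      exact Finset.sum_congr rfl fun t _ => hζs t
    rw [hbc, mulVec_sum, mulVec_sum, dotProduct_sum, dotProduct_sum]
    simp only [mulVec_sum, dotProduct_sum]
    rw [Finset.sum_comm, ← Finset.sum_sub_distrib]
    exact Finset.sum_congr rfl fun s _ => hone s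
  -- the difference
  have hd : p' + (ζ 0 + ζ 1 + ζ 2) - ψ ∈ NN arm J N g :=
    (NN arm J N g).sub_mem ((NN arm J N g).add_mem hp' ((NN arm J N g).add_mem
      ((NN arm J N g).add_mem (hζN 0) (hζN 1)) (hζN 2))) hψ
  have hd0 := hI _ hd (by
    intro a ha b hb
    have e1 : (p' + (ζ 0 + ζ 1 + ζ 2) - ψ).1 = p'.1 + ((ζ 0).1 + (ζ 1).1 + (ζ 2).1) - ψ.1 := rfl
    rw [e1, Matrix.mul_sub, Matrix.mul_add, Matrix.mul_add, Matrix.mul_add, sub_mulVec, add_mulVec,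
      add_mulVec, add_mulVec, dotProduct_sub, dotProduct_add, dotProduct_add, dotProduct_add,
      hcmp a ha b hb, Fin.sum_univ_three]
    ring)
  have hθ := theta_form h hp hd hd0
  have e1 : act arm (p' + (ζ 0 + ζ 1 + ζ 2) - ψ).2 g =
      act arm p'.2 g + (act arm (ζ 0).2 g + act arm (ζ 1).2 g + act arm (ζ 2).2 g) -
        act arm ψ.2 g := by
    have e2 : (p' + (ζ 0 + ζ 1 + ζ 2) - ψ).2 =
      fun s => (p'.2 s + (((ζ 0).2 s + (ζ 1).2 s) + (ζ 2).2 s)) - ψ.2 s := rfl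
    rw [e2, act_sub_left arm (fun s => p'.2 s + (((ζ 0).2 s + (ζ 1).2 s) + (ζ 2).2 s)) ψ.2,
      act_add_left arm p'.2 (fun s => ((ζ 0).2 s + (ζ 1).2 s) + (ζ 2).2 s),
      act_add_left arm (fun s => (ζ 0).2 s + (ζ 1).2 s) (ζ 2).2, act_add_left]
  rw [e1, pair_sub_right, pair_add_right, pair_add_right, pair_add_right, hζθ, hζθ, hζθ,
    theta_zero h h2 hp hp' hqK he] at hθ
  linear_combination -hθ


section good

/-- the good one-arm tensors at `s` (conclusion of `hSL`) -/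
def GoodSW (arm : δ → Fin 3) (J : Matrix ι ι K) (B : Matrix δ δ K)
    (N W : Submodule K (Matrix ι δ K)) (g : Matrix ι δ K)
    (p : Matrix ι ι K × (Fin 3 → Matrix ι ι K)) (P : Submodule K (ι → K)) (s : Fin 3) :
    Submodule K (Matrix ι ι K) where
  carrier := {x | ∃ w ∈ W, x * (J * p.1) * g * E K arm s - w ∈ N ∧
        (∀ a ∈ P, ∀ v, a ⬝ᵥ ((J * w) *ᵥ v) = 0) ∧
        ∃ ζ ∈ NN arm J N g, pair J B (Pg arm g p) (act arm ζ.2 g) = 0 ∧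
          ∀ a ∈ P, ∀ c ∈ P, ∀ r,
            a ⬝ᵥ ((J * p.1 * w) *ᵥ ((E K arm r * B * gᵀ * (J * p.1)) *ᵥ c)) =
              a ⬝ᵥ ((J * ζ.1) *ᵥ ((M arm B r g g * (J * p.1)) *ᵥ c))}
  zero_mem' := ⟨0, W.zero_mem, by simp, fun a _ v => by simp, 0, (NN arm J N g).zero_mem, by
      rw [show act arm (0 : Matrix ι ι K × (Fin 3 → Matrix ι ι K)).2 g = 0 from act_zero arm g]
      simp [pair], fun a _ c _ r => by simp⟩
  add_mem' := by
    rintro x y ⟨w, h1, h2, h3, ζ, h4, h5, h6⟩ ⟨w', h1', h2', h3', ζ', h4', h5', h6'⟩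
    refine ⟨w + w', W.add_mem h1 h1', ?_, fun a ha v => ?_, ζ + ζ',
      (NN arm J N g).add_mem h4 h4', ?_, fun a ha u hu r => ?_⟩
    · have e1 : (x + y) * (J * p.1) * g * E K arm s - (w + w') =
          (x * (J * p.1) * g * E K arm s - w) + (y * (J * p.1) * g * E K arm s - w') := by
        rw [Matrix.add_mul, Matrix.add_mul, Matrix.add_mul]; abel
      rw [e1]
      exact N.add_mem h2 h2'
    · rw [Matrix.mul_add, add_mulVec, dotProduct_add, h3 a ha, h3' a ha, add_zero]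
    · rw [show act arm (ζ + ζ').2 g = act arm ζ.2 g + act arm ζ'.2 g from
        act_add_left arm ζ.2 ζ'.2 g, pair_add_right, h5, h5', add_zero]
    · rw [show (ζ + ζ').1 = ζ.1 + ζ'.1 from rfl, Matrix.mul_add, Matrix.mul_add, add_mulVec,
        add_mulVec, dotProduct_add, dotProduct_add, h6 a ha u hu r, h6' a ha u hu r]
  smul_mem' := by
    rintro t x ⟨w, h1, h2, h3, ζ, h4, h5, h6⟩
    refine ⟨t • w, W.smul_mem t h1, ?_, fun a ha v => ?_, t • ζ,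
      (NN arm J N g).smul_mem t h4, ?_, fun a ha u hu r => ?_⟩
    · have e1 : (t • x) * (J * p.1) * g * E K arm s - t • w =
          t • (x * (J * p.1) * g * E K arm s - w) := by
        rw [Matrix.smul_mul, Matrix.smul_mul, Matrix.smul_mul, smul_sub]
      rw [e1]
      exact N.smul_mem t h2
    · rw [Matrix.mul_smul, smul_mulVec, dotProduct_smul, h3 a ha, smul_zero]
    · rw [show act arm (t • ζ).2 g = t • act arm ζ.2 g from act_smul_left arm t ζ.2 g,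
        pair_smul_right, h5, mul_zero]
    · rw [show (t • ζ).1 = t • ζ.1 from rfl, Matrix.mul_smul, Matrix.mul_smul, smul_mulVec,
        smul_mulVec, dotProduct_smul, dotProduct_smul, h6 a ha u hu r]

theorem mem_GoodSW {p : Matrix ι ι K × (Fin 3 → Matrix ι ι K)} {P : Submodule K (ι → K)}
    {s : Fin 3} {x : Matrix ι ι K} : x ∈ GoodSW arm J B N W g p P s ↔
    ∃ w ∈ W, x * (J * p.1) * g * E K arm s - w ∈ N ∧
        (∀ a ∈ P, ∀ v, a ⬝ᵥ ((J * w) *ᵥ v) = 0) ∧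
        ∃ ζ ∈ NN arm J N g, pair J B (Pg arm g p) (act arm ζ.2 g) = 0 ∧
          ∀ a ∈ P, ∀ c ∈ P, ∀ r,
            a ⬝ᵥ ((J * p.1 * w) *ᵥ ((E K arm r * B * gᵀ * (J * p.1)) *ᵥ c)) =
              a ⬝ᵥ ((J * ζ.1) *ᵥ ((M arm B r g g * (J * p.1)) *ᵥ c)) := Iff.rfl

/-- **the hypothesis `hSL` of `false_of_slack` from the good generators on the blocks.** -/
theorem hSLW_of_blocks {α : Type*} [Fintype α] (hD : Data k arm J B N W) (hg : g ∈ N ⊓ W)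
    {p : Matrix ι ι K × (Fin 3 → Matrix ι ι K)} (hX : Skw J p.1)
    {P : Submodule K (ι → K)} {Pb : α → Submodule K (ι → K)} (hP : P = ⨆ i, Pb i)
    (horth : ∀ i j, i ≠ j → ∀ a ∈ Pb i, ∀ b ∈ Pb j, a ⬝ᵥ ((J * p.1) *ᵥ b) = 0)
    (hst : ∀ s, ∀ a ∈ P, (M arm B s g g * (J * p.1)) *ᵥ a ∈ P) {l : Fin 3 → ℕ}
    (hfree : ∀ s, (∀ c ∈ P, ((M arm B s g g * (J * p.1)) ^ l s) *ᵥ c ∈ Rd (J * p.1) P) ∧
      ∀ v ≤ l s, ∀ c ∈ P, ((M arm B s g g * (J * p.1)) ^ (l s - v)) *ᵥ c ∈ Rd (J * p.1) P →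
        ∃ c' ∈ P, c - ((M arm B s g g * (J * p.1)) ^ v) *ᵥ c' ∈ Rd (J * p.1) P)
    (hG1 : ∀ s, ∀ α β, ∀ i j, i + j + 1 = l s → ∀ a ∈ Pb α, ∀ b ∈ Pb β,
      vecMulVec (((M arm B s g g * (J * p.1)) ^ i) *ᵥ a) (((M arm B s g g * (J * p.1)) ^ j) *ᵥ b) ∈
        GoodSW arm J B N W g p P s)
    (hG2 : ∀ s, ∀ α β, ∀ r ∈ Rd (J * p.1) (Pb α), ∀ b ∈ Pb β,
      vecMulVec r b ∈ GoodSW arm J B N W g p P s)
    (hG3 : ∀ s, ∀ α β, ∀ r ∈ Rd (J * p.1) (Pb α), ∀ b ∈ Pb β,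
      vecMulVec b r ∈ GoodSW arm J B N W g p P s) :
    ∀ s x, PP P x → Fil (M arm B s g g * (J * p.1)) (J * p.1) P x →
      x ∈ GoodSW arm J B N W g p P s := fun s _ hx hF =>
  fil_mem_blocks (Phi_adj hD hg hX s).1 (Phi_adj hD hg hX s).2 hP horth (hst s) (hfree s).1
    (hfree s).2 (hG1 s) (hG2 s) (hG3 s) hx hF


/-- membership from the values of `w` on a submodule `Ut` of test vectors -/
theorem GoodSW_of_U {p : Matrix ι ι K × (Fin 3 → Matrix ι ι K)} {P : Submodule K (ι → K)} {s : Fin 3}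
    {x : Matrix ι ι K} {w : Matrix ι δ K} (hw : w ∈ W)
    (hx : x * (J * p.1) * g * E K arm s - w ∈ N)
    (hP : ∀ a ∈ P, ∀ v, a ⬝ᵥ ((J * w) *ᵥ v) = 0)
    {ζ : Matrix ι ι K × (Fin 3 → Matrix ι ι K)} (hζ : ζ ∈ NN arm J N g)
    (hθ : pair J B (Pg arm g p) (act arm ζ.2 g) = 0) {Ut : Set (δ → K)}
    (hU : ∀ c ∈ P, ∀ r, (E K arm r * B * gᵀ * (J * p.1)) *ᵥ c ∈ Ut)
    (ht : ∀ a ∈ P, ∀ u ∈ Ut, a ⬝ᵥ ((J * p.1 * w) *ᵥ u) = a ⬝ᵥ ((J * ζ.1) *ᵥ (g *ᵥ u))) :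
    x ∈ GoodSW arm J B N W g p P s := by
  refine ⟨w, hw, hx, hP, ζ, hζ, hθ, fun a ha c hc r => ?_⟩
  rw [ht a ha _ (hU c hc r)]
  congr 2
  rw [mulVec_mulVec]
  unfold M
  simp only [Matrix.mul_assoc]

end good

end Crest.Agent.R172.SEndW
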