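import Crest.Agent.R172.SAsm0
import Crest.Agent.R172.SEndW

/-!
Row 172 (S0260): assembly of (t2): `NoTameS2I` from the slack `(SL)` with the WEAK test
(`SEndW.false_of_slackW`): the corrections are tested only on `(E_r B gᵀ η) c`, `c ∈ P`.
-/

set_option autoImplicit false
set_option linter.unusedSectionVars false
set_option maxHeartbeats 400000

namespace Crest.Agent.R172.SAsmW

open Matrix Module Crest.Agent.R172.FO Crest.Agent.R172.Qt
open Crest.AlgebraR.SpinSaturation Crest.Agent.R172.SoGrade Crest.Agent.R172.Sp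
open Crest.Agent.R172.CF Crest.Agent.R172.CSys
open Crest.Agent.R172.Gen (Jm Ix emb IsSo)
open Crest.Agent.R172.SpS Crest.Agent.R172.SEnd Crest.Agent.R172.SEnd2
open Crest.Agent.R172.Om (Kiso Scal)
open Crest.Agent.R172.Ind (GI Inst)
open Crest.Agent.R172.Fin4 Crest.Agent.R172.Fin5
open Crest.Agent.R172.Core Crest.Agent.R172.PL
open Crest.Agent.R172.SAsm0 (words_PC not_tame_zero)
open Crest.Agent.R172.SEndW

section abs

variable {ι : Type*} [Fintype ι] [DecidableEq ι] {δ : Type*} [Fintype δ] [DecidableEq δ]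
variable {k K : Type*} [Field k] [Field K] [Algebra k K]

/-- **(SL)**, hypothesis of `SEndW.false_of_slackW` (weak test) -/
def SLW (arm : δ → Fin 3) (J : Matrix ι ι K) (B : Matrix δ δ K) (N W : Submodule K (Matrix ι δ K))
    (g : Matrix ι δ K) (p : Matrix ι ι K × (Fin 3 → Matrix ι ι K)) (P : Submodule K (ι → K)) :
    Prop :=
  ∀ s x, PP P x → Fil (M arm B s g g * (J * p.1)) (J * p.1) P x →
    ∃ w ∈ W, x * (J * p.1) * g * E K arm s - w ∈ N ∧
      (∀ a ∈ P, ∀ v, a ⬝ᵥ ((J * w) *ᵥ v) = 0) ∧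
      ∃ ζ ∈ NN arm J N g, pair J B (Pg arm g p) (act arm ζ.2 g) = 0 ∧
        ∀ a ∈ P, ∀ c ∈ P, ∀ r,
          a ⬝ᵥ ((J * p.1 * w) *ᵥ ((E K arm r * B * gᵀ * (J * p.1)) *ᵥ c)) =
            a ⬝ᵥ ((J * ζ.1) *ᵥ ((M arm B r g g * (J * p.1)) *ᵥ c))

end abs

variable {n : ℕ} {a : Fin 3 → Fin n → ℤ} {c : Cfg n a} {q : SPol c}

/-- **(SL), weak test, for all tame pairs** (same hypotheses as `NoTameS2I`) -/
def SLCfgW (c : Cfg n a) (q : SPol c) (R : Ranked c) : Prop :=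
  ∀ (L : Type) [Field L] [Algebra ℂ L] [IsAlgClosed L] (g : Fin 3 → Matrix (Ix n) (Ix n) L)
    (H : Matrix (Fin q.toPol.m) (Fin q.toPol.m) L), Inst c q R L g H →
    2 ≤ finrank L ↥(Kiso (Jm n L) (c.N g) (VL (q.toPol.LH H))) →
    ∀ F ∈ Kiso (Jm n L) (c.N g) (VL (q.toPol.LH H)),
    ∀ f ∈ Kiso (Jm n L) (c.N g) (VL (q.toPol.LH H)), V1 c q g H F f →
    ∀ P ∈ NN c.arm (Jm n L) (c.N g) F, V2 c q g H F f P →
    TI.InjP c.arm (Jm n L) (c.B L) (c.N g) F P.1 →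
    ∀ G : Matrix c.δ (Ix n) L, F * G * F = F →
      TameD (Mg c.arm (c.B L) F) (Ng c.arm (c.B L) F G f)
        (bil F G (Fᵀ * (Jm n L * P.1) * F)) →
      SLW c.arm (Jm n L) (c.B L) (c.N g) (VL (q.toPol.LH H)) F P
        (PC c.arm (Jm n L) (c.B L) F G P.1)

theorem noTameS2I_ofW {R : Ranked c} (h : SLCfgW c q R) : NoTameS2I c q R := by
  intro L _ _ _ g H hI h2 F hF f hf hV1 P hP hV2 hInj G hG hT
  have hctx := hI.ctx hF
  have hD := hI.data
  obtain ⟨l, -, -, hl⟩ := core_data (k := ℂ) hD hG hP.1 hT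
  have hSL := h L g H hI h2 F hF f hf hV1 P hP hV2 hInj G hG hT
  have h0 := false_of_slackW hctx hI.two_ne hP (P := PC c.arm (Jm n L) (c.B L) F G P.1)
    PC_im (fun s => PC_stable hG s) (PC_perf hG) (fun s => ⟨l s, hl s⟩) hSL
    (hInj.sEnd hD hP (words_PC hG P.1))
  refine not_tame_zero ?_ hT
  have h1 : Fᵀ * (Jm n L * P.1) * F = 0 := by
    rw [← h0]
    simp only [Matrix.mul_assoc]
  rw [h1, map_zero]

end Crest.Agent.R172.SAsmW
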