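import Crest.Agent.R172.SpS1
import Crest.Agent.R172.PairLift2

/-!
Row 172, G1 Step 2 (`T_f` is scalar), part 2: `S = V` with a (possibly degenerate) alternating form `η`
and symmetric tensors `M_s : V* → V`; the modules `(V, M_s η)` and `(V*, η M_s)`, the induced
nondegenerate alternating form on the core of `(V, M_s η)`, and the lifting of symplectic cocycles of
the core to symmetric tensors (`PL.lift` of helper207 + symmetrisation).
-/

set_option autoImplicit false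

namespace Crest.Agent.R172.SpS

open Module LinearMap Crest.Agent.R172.Core
open Crest.Agent.R172.St (Nk T mem_T mem_Nk_zero mem_Nk_succ Nk_le_T T_stable T_closed T_eq_Nk)
open Crest.Agent.R172.PL (Wk Ainf Rad CoreM coreOp resOp)

variable {K : Type*} [Field K] {V : Type*} [AddCommGroup V] [Module K V] {ι : Type*}

/-- the operator `M_s η` on `V`. -/
def Be (M : ι → (Dual K V →ₗ[K] V)) (η : LinearMap.BilinForm K V) (s : ι) : End K V := M s ∘ₗ η

/-- the operator `η M_s` on `V*`. -/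
def Al (M : ι → (Dual K V →ₗ[K] V)) (η : LinearMap.BilinForm K V) (s : ι) : End K (Dual K V) :=
  η ∘ₗ M s

/-- the `M_s` are symmetric, `η` is skew. -/
structure Dat (M : ι → (Dual K V →ₗ[K] V)) (η : LinearMap.BilinForm K V) : Prop where
  sym : ∀ s (ζ ξ : Dual K V), ζ (M s ξ) = ξ (M s ζ)
  skew : ∀ v w, η v w = - η w v

variable {M : ι → (Dual K V →ₗ[K] V)} {η : LinearMap.BilinForm K V}

theorem Be_apply (s : ι) (v : V) : Be M η s v = M s (η v) := rfl

theorem Al_apply (s : ι) (ζ : Dual K V) : Al M η s ζ = η (M s ζ) := rfl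

theorem Dat.pair (h : Dat M η) (s : ι) (ζ : Dual K V) (v : V) :
    ζ (Be M η s v) = - (Al M η s ζ) v := by
  rw [Be_apply, Al_apply, h.sym s ζ (η v), h.skew v (M s ζ)]

theorem Dat.be_skew (h : Dat M η) (s : ι) (v w : V) :
    η (Be M η s v) w = - η v (Be M η s w) := by
  rw [h.pair s (η v) w, neg_neg, Al_apply]
  rfl

theorem eta_be (s : ι) (v : V) : η (Be M η s v) = Al M η s (η v) := rfl

/-- words of length `k`: `V*` side nilpotent against `V` side image. -/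
theorem Dat.o1 (h : Dat M η) (k : ℕ) : ∀ ζ ∈ Nk (Al M η) k, ∀ v ∈ Wk (Be M η) k, ζ v = 0 := by
  induction k with
  | zero => intro ζ hζ v _; rw [mem_Nk_zero] at hζ; rw [hζ]; rfl
  | succ k ih =>
    intro ζ hζ v hv
    refine Submodule.iSup_induction (p := fun s => (Wk (Be M η) k).map (Be M η s))
      (motive := fun v => ζ v = 0) hv ?_ (map_zero ζ) ?_
    · rintro s _ ⟨u, hu, rfl⟩
      rw [h.pair, ih _ (mem_Nk_succ.1 hζ s) u hu, neg_zero]
    · intro a b ha hb; rw [map_add, ha, hb, add_zero]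

theorem Dat.o2 (h : Dat M η) (k : ℕ) : ∀ ζ : Dual K V, (∀ v ∈ Wk (Be M η) k, ζ v = 0) →
    ζ ∈ Nk (Al M η) k := by
  induction k with
  | zero =>
    intro ζ hζ
    rw [mem_Nk_zero]
    exact LinearMap.ext (fun v => hζ v (by simp [Wk]))
  | succ k ih =>
    intro ζ hζ
    rw [mem_Nk_succ]
    intro s
    apply ih
    intro v hv
    have h1 := hζ _ (PL.Wk_succ_mem hv s)
    rw [h.pair] at h1
    exact neg_eq_zero.1 h1

theorem Dat.o3 (h : Dat M η) (k : ℕ) : ∀ v : V, (∀ ζ ∈ Wk (Al M η) k, ζ v = 0) →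
    v ∈ Nk (Be M η) k := by
  induction k with
  | zero =>
    intro v hv
    rw [mem_Nk_zero]
    exact (Module.forall_dual_apply_eq_zero_iff K v).1 (fun ζ => hv ζ (by simp [Wk]))
  | succ k ih =>
    intro v hv
    rw [mem_Nk_succ]
    intro s
    apply ih
    intro ζ hζ
    rw [h.pair, hv _ (PL.Wk_succ_mem hζ s), neg_zero]

theorem Dat.o4 (h : Dat M η) (k : ℕ) : ∀ v ∈ Nk (Be M η) k, ∀ ζ ∈ Wk (Al M η) k, ζ v = 0 := by
  induction k with
  | zero => intro v hv ζ _; rw [mem_Nk_zero] at hv; rw [hv, map_zero]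
  | succ k ih =>
    intro v hv ζ hζ
    refine Submodule.iSup_induction (p := fun s => (Wk (Al M η) k).map (Al M η s))
      (motive := fun ζ => ζ v = 0) hζ ?_ rfl ?_
    · rintro s _ ⟨u, hu, rfl⟩
      have h1 := ih _ (mem_Nk_succ.1 hv s) u hu
      rw [h.pair] at h1
      exact neg_eq_zero.1 h1
    · intro a b ha hb; rw [LinearMap.add_apply, ha, hb, add_zero]

theorem eta_Wk (k : ℕ) : ∀ v ∈ Wk (Be M η) k, η v ∈ Wk (Al M η) k := by
  induction k with
  | zero => intro v _; simp [Wk]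
  | succ k ih =>
    intro v hv
    refine Submodule.iSup_induction (p := fun s => (Wk (Be M η) k).map (Be M η s))
      (motive := fun v => η v ∈ Wk (Al M η) (k + 1)) hv ?_ ?_ ?_
    · rintro s _ ⟨u, hu, rfl⟩
      rw [eta_be]
      exact PL.Wk_succ_mem (ih u hu) s
    · rw [map_zero]; exact Submodule.zero_mem _
    · intro a b ha hb; rw [map_add]; exact Submodule.add_mem _ ha hb

theorem Wk_eta (k : ℕ) : ∀ ζ ∈ Wk (Al M η) (k + 1), ∃ v ∈ Wk (Be M η) k, η v = ζ := by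
  induction k with
  | zero =>
    intro ζ hζ
    refine Submodule.iSup_induction (p := fun s => (Wk (Al M η) 0).map (Al M η s))
      (motive := fun ζ => ∃ v ∈ Wk (Be M η) 0, η v = ζ) hζ ?_ ?_ ?_
    · rintro s _ ⟨u, hu, rfl⟩
      exact ⟨M s u, by simp [Wk], rfl⟩
    · exact ⟨0, Submodule.zero_mem _, map_zero η⟩
    · rintro _ _ ⟨a, ha, rfl⟩ ⟨b, hb, rfl⟩
      exact ⟨a + b, Submodule.add_mem _ ha hb, map_add η a b⟩
  | succ k ih =>
    intro ζ hζ
    refine Submodule.iSup_induction (p := fun s => (Wk (Al M η) (k + 1)).map (Al M η s))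
      (motive := fun ζ => ∃ v ∈ Wk (Be M η) (k + 1), η v = ζ) hζ ?_ ?_ ?_
    · rintro s _ ⟨u, hu, rfl⟩
      obtain ⟨v, hv, rfl⟩ := ih u hu
      exact ⟨Be M η s v, PL.Wk_succ_mem hv s, rfl⟩
    · exact ⟨0, Submodule.zero_mem _, map_zero η⟩
    · rintro _ _ ⟨a, ha, rfl⟩ ⟨b, hb, rfl⟩
      exact ⟨a + b, Submodule.add_mem _ ha hb, map_add η a b⟩

theorem eta_Nk (k : ℕ) : ∀ v ∈ Nk (Be M η) k, η v ∈ Nk (Al M η) k := by
  induction k with
  | zero => intro v hv; rw [mem_Nk_zero] at hv ⊢; rw [hv, map_zero]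
  | succ k ih =>
    intro v hv
    rw [mem_Nk_succ] at hv ⊢
    intro s
    rw [← eta_be]
    exact ih _ (hv s)

theorem Nk_eta (k : ℕ) : ∀ v : V, η v ∈ Nk (Al M η) k → v ∈ Nk (Be M η) (k + 1) := by
  induction k with
  | zero =>
    intro v hv
    rw [mem_Nk_zero] at hv
    rw [mem_Nk_succ]
    intro s
    rw [mem_Nk_zero, Be_apply, hv, map_zero]
  | succ k ih =>
    intro v hv
    rw [mem_Nk_succ] at hv ⊢
    intro s
    apply ih
    rw [eta_be]
    exact hv s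

variable [FiniteDimensional K V]

theorem Dat.t_ainf (h : Dat M η) {ζ : Dual K V} (hζ : ζ ∈ T (Al M η)) {v : V}
    (hv : v ∈ Ainf (Be M η)) : ζ v = 0 := by
  obtain ⟨k, hk⟩ := mem_T.1 hζ
  exact h.o1 k ζ hk v (PL.Ainf_le_Wk _ k hv)

theorem Dat.mem_t (h : Dat M η) {ζ : Dual K V} (hζ : ∀ v ∈ Ainf (Be M η), ζ v = 0) :
    ζ ∈ T (Al M η) := by
  obtain ⟨k, hk, -⟩ := PL.Ainf_eq_Wk (Be M η)
  rw [hk] at hζ
  exact Nk_le_T _ k (h.o2 k ζ hζ)

theorem Dat.ainf_t (h : Dat M η) {ζ : Dual K V} (hζ : ζ ∈ Ainf (Al M η)) {v : V}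
    (hv : v ∈ T (Be M η)) : ζ v = 0 := by
  obtain ⟨k, hk⟩ := mem_T.1 hv
  exact h.o4 k v hk ζ (PL.Ainf_le_Wk _ k hζ)

theorem Dat.mem_t' (h : Dat M η) {v : V} (hv : ∀ ζ ∈ Ainf (Al M η), ζ v = 0) :
    v ∈ T (Be M η) := by
  obtain ⟨k, hk, -⟩ := PL.Ainf_eq_Wk (Al M η)
  rw [hk] at hv
  exact Nk_le_T _ k (h.o3 k v hv)

theorem eta_ainf {v : V} (hv : v ∈ Ainf (Be M η)) : η v ∈ Ainf (Al M η) :=
  (Submodule.mem_iInf _).2 (fun k => eta_Wk k v (PL.Ainf_le_Wk _ k hv))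

theorem ainf_eta {ζ : Dual K V} (hζ : ζ ∈ Ainf (Al M η)) : ∃ v ∈ Ainf (Be M η), η v = ζ := by
  obtain ⟨k, hk, -⟩ := PL.Ainf_eq_Wk (Be M η)
  obtain ⟨v, hv, rfl⟩ := Wk_eta k ζ (PL.Ainf_le_Wk _ (k + 1) hζ)
  exact ⟨v, by rw [hk]; exact hv, rfl⟩

theorem eta_t {v : V} (hv : v ∈ T (Be M η)) : η v ∈ T (Al M η) := by
  obtain ⟨k, hk⟩ := mem_T.1 hv
  exact Nk_le_T _ k (eta_Nk k v hk)

theorem t_eta {v : V} (hv : η v ∈ T (Al M η)) : v ∈ T (Be M η) := by
  obtain ⟨k, hk⟩ := mem_T.1 hv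
  exact Nk_le_T _ _ (Nk_eta k v hk)

/-- `η` vanishes on `Ainf × T`. -/
theorem Dat.eta_zero (h : Dat M η) {v t : V} (hv : v ∈ Ainf (Be M η)) (ht : t ∈ T (Be M η)) :
    η v t = 0 := h.ainf_t (eta_ainf hv) ht

theorem Dat.eta_zero' (h : Dat M η) {v t : V} (hv : v ∈ Ainf (Be M η)) (ht : t ∈ T (Be M η)) :
    η t v = 0 := by rw [h.skew, h.eta_zero hv ht, neg_zero]

/-- a section of `Ainf → core`. -/
theorem exists_sec (Φ : ι → End K V) : ∃ σ : CoreM Φ →ₗ[K] Ainf Φ, ∀ p, (Rad Φ).mkQ (σ p) = p := by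
  obtain ⟨σ, hσ⟩ := (Rad Φ).mkQ.exists_rightInverse_of_surjective
    (LinearMap.range_eq_top.2 (Rad Φ).mkQ_surjective)
  exact ⟨σ, fun p => LinearMap.congr_fun hσ p⟩

/-- the chosen section. -/
noncomputable def sec (Φ : ι → End K V) : CoreM Φ →ₗ[K] Ainf Φ := (exists_sec Φ).choose

theorem mk_sec (Φ : ι → End K V) (p : CoreM Φ) : (Rad Φ).mkQ (sec Φ p) = p :=
  (exists_sec Φ).choose_spec p

theorem mk_eq {Φ : ι → End K V} {v w : Ainf Φ} :
    (Rad Φ).mkQ v = (Rad Φ).mkQ w ↔ (v : V) - w ∈ T Φ := by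
  rw [Submodule.mkQ_apply, Submodule.mkQ_apply, Submodule.Quotient.eq]
  rfl

theorem sec_mk {Φ : ι → End K V} (v : Ainf Φ) : ((sec Φ ((Rad Φ).mkQ v) : Ainf Φ) : V) - v ∈ T Φ :=
  mk_eq.1 (mk_sec Φ _)

/-- the form of the core. -/
noncomputable def BC (M : ι → (Dual K V →ₗ[K] V)) (η : LinearMap.BilinForm K V) :
    LinearMap.BilinForm K (CoreM (Be M η)) :=
  η.compl₁₂ ((Ainf (Be M η)).subtype ∘ₗ sec (Be M η)) ((Ainf (Be M η)).subtype ∘ₗ sec (Be M η))

theorem BC_apply (p q : CoreM (Be M η)) :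
    BC M η p q = η (sec (Be M η) p : V) (sec (Be M η) q : V) := rfl

theorem Dat.BC_mk (h : Dat M η) (v w : Ainf (Be M η)) :
    BC M η ((Rad (Be M η)).mkQ v) ((Rad (Be M η)).mkQ w) = η (v : V) (w : V) := by
  rw [BC_apply]
  set a := (sec (Be M η) ((Rad (Be M η)).mkQ v)) with ha
  set b := (sec (Be M η) ((Rad (Be M η)).mkQ w)) with hb
  have h1 : (a : V) - v ∈ T (Be M η) := sec_mk v
  have h2 : (b : V) - w ∈ T (Be M η) := sec_mk w
  have h3 := h.eta_zero a.2 h2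
  have h4 := h.eta_zero' w.2 h1
  rw [map_sub] at h3
  rw [map_sub, LinearMap.sub_apply] at h4
  linear_combination h3 + h4

theorem Dat.BC_mk_right (h : Dat M η) (v : Ainf (Be M η)) (q : CoreM (Be M η)) :
    BC M η ((Rad (Be M η)).mkQ v) q = η (v : V) (sec (Be M η) q : V) := by
  conv_lhs => rw [← mk_sec (Be M η) q]
  rw [h.BC_mk]

theorem Dat.NA_BC (h : Dat M η) : NA (BC M η) where
  alt p q := by rw [BC_apply, BC_apply, h.skew]
  nd p hp := by
    rw [← mk_sec (Be M η) p]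
    refine (Submodule.Quotient.mk_eq_zero _).2 ?_
    change ((sec (Be M η) p : Ainf (Be M η)) : V) ∈ T (Be M η)
    apply t_eta
    apply h.mem_t
    intro v hv
    have h1 := hp ((Rad (Be M η)).mkQ ⟨v, hv⟩)
    rw [← mk_sec (Be M η) p, h.BC_mk] at h1
    exact h1

theorem Dat.BC_op (h : Dat M η) (s : ι) (p q : CoreM (Be M η)) :
    BC M η (coreOp (Be M η) s p) q = - BC M η p (coreOp (Be M η) s q) := by
  obtain ⟨v, rfl⟩ := (Rad (Be M η)).mkQ_surjective p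
  obtain ⟨w, rfl⟩ := (Rad (Be M η)).mkQ_surjective q
  rw [PL.coreOp_mk, PL.coreOp_mk, h.BC_mk, h.BC_mk]
  exact h.be_skew s v w

/-- transpose of a tensor. -/
noncomputable def tr (x : Dual K V →ₗ[K] V) : Dual K V →ₗ[K] V :=
  (Module.evalEquiv K V).symm.toLinearMap ∘ₗ x.dualMap

theorem tr_apply (x : Dual K V →ₗ[K] V) (ζ ξ : Dual K V) : ζ (tr x ξ) = ξ (x ζ) := by
  have h1 : (Module.evalEquiv K V) (tr x ξ) = x.dualMap ξ := by
    change (Module.evalEquiv K V) ((Module.evalEquiv K V).symm (x.dualMap ξ)) = _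
    rw [LinearEquiv.apply_symm_apply]
  have h2 := LinearMap.congr_fun h1 ζ
  rw [Module.evalEquiv_apply, Module.Dual.eval_apply] at h2
  rw [h2]
  rfl

end Crest.Agent.R172.SpS
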