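import Mathlib

/-!
Row 172, ending of the tame case: three partial flags of dimensions `(m, 2m)` in a space of
dimension `3m`, `m ≥ 2`, always have a common non-scalar endomorphism.
Part 1: general position, pencils, adapted bases.
-/

set_option autoImplicit false

namespace Crest.Agent.R172.TE

open Module LinearMap

variable {K : Type*} [Field K]

section Pencil

variable {X Y : Type*} [AddCommGroup X] [Module K X] [AddCommGroup Y] [Module K Y]
  [FiniteDimensional K X]

/-- A pencil which is injective at one point is injective at all but finitely many points. -/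
theorem pencil (α β : X →ₗ[K] Y) {t0 : K} (h : Function.Injective (α + t0 • β)) :
    {t : K | ¬ Function.Injective (α + t • β)}.Finite := by
  obtain ⟨L, hL⟩ := LinearMap.exists_leftInverse_of_injective (α + t0 • β)
    (LinearMap.ker_eq_bot.2 h)
  let M : End K X := L ∘ₗ β
  have hfin : {μ : K | M.HasEigenvalue μ}.Finite := Module.End.finite_hasEigenvalue M
  have hfin2 : ((fun t : K => -(t - t0)⁻¹) ⁻¹' {μ : K | M.HasEigenvalue μ}).Finite := by
    apply hfin.preimage
    intro a _ b _ hab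
    simp only [neg_inj, inv_inj, sub_left_inj] at hab
    exact hab
  refine hfin2.subset ?_
  intro t ht
  simp only [Set.mem_ofPred_eq, Set.mem_preimage] at ht ⊢
  rw [← LinearMap.ker_eq_bot, ← ne_eq, Submodule.ne_bot_iff] at ht
  obtain ⟨x, hx, hx0⟩ := ht
  rw [LinearMap.mem_ker] at hx
  have h1 : (α + t0 • β) x + (t - t0) • β x = 0 := by
    rw [← hx]
    simp only [LinearMap.add_apply, LinearMap.smul_apply, sub_smul]
    abel
  have h2 : x + (t - t0) • M x = 0 := by
    have h3 := congrArg L h1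
    rw [map_add, map_smul, map_zero] at h3
    have h4 : L ((α + t0 • β) x) = x := LinearMap.congr_fun hL x
    rw [h4] at h3
    exact h3
  have htt : t - t0 ≠ 0 := by
    intro h0
    rw [h0, zero_smul, add_zero] at h2
    exact hx0 h2
  apply Module.End.hasEigenvalue_of_hasEigenvector (x := x)
  rw [Module.End.hasEigenvector_iff]
  refine ⟨?_, hx0⟩
  rw [Module.End.mem_eigenspace_iff]
  have h5 : (t - t0) • M x = -x := by
    rw [eq_neg_iff_add_eq_zero, add_comm]; exact h2
  calc M x = (t - t0)⁻¹ • ((t - t0) • M x) := by rw [smul_smul, inv_mul_cancel₀ htt, one_smul]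
    _ = -(t - t0)⁻¹ • x := by rw [h5, smul_neg, neg_smul]

end Pencil

section Good

variable {V : Type*} [AddCommGroup V] [Module K V] [FiniteDimensional K V]

/-- `y + φ y ∈ P'` -/
theorem graph_iso {P' P1 P2 : Submodule K V} {m : ℕ} (hV : finrank K V = 3 * m)
    (h' : finrank K P' = 2 * m) (h1 : finrank K P1 = m) (h2 : finrank K P2 = m)
    (d1 : P' ⊓ P1 = ⊥) (d2 : P' ⊓ P2 = ⊥) :
    ∃ φ : P1 ≃ₗ[K] P2, ∀ y : P1, (y : V) + φ y ∈ P' := by
  have hc : IsCompl P' P2 := by
    refine ⟨disjoint_iff.2 d2, codisjoint_iff.2 ?_⟩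
    apply Submodule.eq_top_of_finrank_eq
    have := Submodule.finrank_sup_add_finrank_inf_eq P' P2
    rw [d2, finrank_bot] at this
    omega
  let φ : P1 →ₗ[K] P2 := -((Submodule.projectionOnto P2 P' hc.symm) ∘ₗ P1.subtype)
  have hφ : ∀ y : P1, (y : V) + φ y ∈ P' := by
    intro y
    rw [← Submodule.projectionOnto_apply_eq_zero_iff hc.symm, map_add]
    have h3 : (Submodule.projectionOnto P2 P' hc.symm) ((φ y : P2) : V) = φ y :=
      Submodule.projectionOnto_apply_left hc.symm _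
    rw [h3]
    simp [φ]
  have hinj : Function.Injective φ := by
    rw [← LinearMap.ker_eq_bot, LinearMap.ker_eq_bot']
    intro y hy
    have h3 := hφ y
    rw [hy] at h3
    simp only [ZeroMemClass.coe_zero, add_zero] at h3
    have h4 : (y : V) ∈ P' ⊓ P1 := ⟨h3, y.2⟩
    rw [d1, Submodule.mem_bot] at h4
    exact Subtype.ext h4
  have hsurj : Function.Surjective φ :=
    (LinearMap.injective_iff_surjective_of_finrank_eq_finrank (by rw [h1, h2])).1 hinj
  exact ⟨LinearEquiv.ofBijective φ ⟨hinj, hsurj⟩, hφ⟩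

/-- a non-scalar operator commuting with a given one -/
theorem exists_comm {W : Type*} [AddCommGroup W] [Module K W] [FiniteDimensional K W]
    (hW : 2 ≤ finrank K W) (a : End K W) :
    ∃ A : End K W, A * a = a * A ∧ ∀ c : K, A ≠ c • 1 := by
  by_cases h : ∃ c : K, a = c • 1
  · obtain ⟨c, rfl⟩ := h
    by_contra hcon
    push Not at hcon
    have h1 : ∀ A : End K W, ∃ d : K, d • (1 : End K W) = A := by
      intro A
      obtain ⟨d, hd⟩ := hcon A (by rw [mul_smul_comm, smul_mul_assoc, mul_one, one_mul])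
      exact ⟨d, hd.symm⟩
    have h2 : finrank K (End K W) ≤ 1 := finrank_le_one 1 h1
    rw [show finrank K (End K W) = finrank K W * finrank K W from Module.finrank_linearMap K K W W] at h2
    nlinarith
  · push Not at h
    exact ⟨a, rfl, h⟩

/-- **general position**: a common non-scalar endomorphism. -/
theorem good {Q Q' : Fin 3 → Submodule K V} {m : ℕ} (hm : 2 ≤ m) (hV : finrank K V = 3 * m)
    (hQ : ∀ s, finrank K (Q s) = m) (hQ' : ∀ s, finrank K (Q' s) = 2 * m)
    (hle : ∀ s, Q s ≤ Q' s) (hd : ∀ s t, s ≠ t → Q' s ⊓ Q t = ⊥)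
    (hind : ∀ x ∈ Q 0, ∀ y ∈ Q 1, ∀ z ∈ Q 2, x + y + z = 0 → x = 0 ∧ y = 0 ∧ z = 0) :
    ∃ A : End K V, (∀ c : K, A ≠ c • 1) ∧ ∀ s, (∀ x ∈ Q s, A x ∈ Q s) ∧
      ∀ x ∈ Q' s, A x ∈ Q' s := by
  obtain ⟨f0, hf0⟩ := graph_iso hV (hQ' 0) (hQ 1) (hQ 2) (hd 0 1 (by decide)) (hd 0 2 (by decide))
  obtain ⟨f1, hf1⟩ := graph_iso hV (hQ' 1) (hQ 2) (hQ 0) (hd 1 2 (by decide)) (hd 1 0 (by decide))
  obtain ⟨f2, hf2⟩ := graph_iso hV (hQ' 2) (hQ 0) (hQ 1) (hd 2 0 (by decide)) (hd 2 1 (by decide))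
  obtain ⟨A0, hA0, hns⟩ := exists_comm (K := K) (W := Q 0) (by rw [hQ]; exact hm)
    ((f2.trans (f0.trans f1)).toLinearMap)
  have hA0' : ∀ x, A0 (f1 (f0 (f2 x))) = f1 (f0 (f2 (A0 x))) := fun x => LinearMap.congr_fun hA0 x
  let A1 : End K (Q 1) := f2.toLinearMap ∘ₗ A0 ∘ₗ f2.symm.toLinearMap
  let A2 : End K (Q 2) := f0.toLinearMap ∘ₗ A1 ∘ₗ f0.symm.toLinearMap
  have e2 : ∀ x, A1 (f2 x) = f2 (A0 x) := by intro x; simp [A1]
  have e0 : ∀ y, A2 (f0 y) = f0 (A1 y) := by intro y; simp [A2]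
  have e1 : ∀ z, A0 (f1 z) = f1 (A2 z) := by
    intro z
    obtain ⟨y, rfl⟩ := f0.surjective z
    obtain ⟨x, rfl⟩ := f2.surjective y
    rw [hA0', e0, e2]
  -- the direct sum
  let S : (Q 0 × Q 1 × Q 2) →ₗ[K] V :=
    LinearMap.coprod (Q 0).subtype (LinearMap.coprod (Q 1).subtype (Q 2).subtype)
  have hS : ∀ p, S p = (p.1 : V) + ((p.2.1 : V) + (p.2.2 : V)) := fun p => by simp [S]
  have hSi : Function.Injective S := by
    rw [← LinearMap.ker_eq_bot, LinearMap.ker_eq_bot']
    rintro ⟨x, y, z⟩ h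
    rw [hS] at h
    obtain ⟨h1, h2, h3⟩ := hind x x.2 y y.2 z z.2 (by rw [add_assoc]; exact h)
    exact Prod.ext (Subtype.ext h1) (Prod.ext (Subtype.ext h2) (Subtype.ext h3))
  have hSs : Function.Surjective S :=
    (LinearMap.injective_iff_surjective_of_finrank_eq_finrank (by
      rw [Module.finrank_prod, Module.finrank_prod, hQ, hQ, hQ, hV]; ring)).1 hSi
  let Se : (Q 0 × Q 1 × Q 2) ≃ₗ[K] V := LinearEquiv.ofBijective S ⟨hSi, hSs⟩
  have hSe : ∀ p, Se p = (p.1 : V) + ((p.2.1 : V) + (p.2.2 : V)) := fun p => hS p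
  let A : End K V := Se.toLinearMap ∘ₗ (A0.prodMap (A1.prodMap A2)) ∘ₗ Se.symm.toLinearMap
  have hA : ∀ p, A (Se p) = (A0 p.1 : V) + ((A1 p.2.1 : V) + (A2 p.2.2 : V)) := by
    intro p
    simp only [A, LinearMap.comp_apply, LinearEquiv.coe_coe, LinearEquiv.symm_apply_apply]
    rw [hSe]
    rfl
  have hA_ : ∀ (x : Q 0) (y : Q 1) (z : Q 2),
      A ((x : V) + ((y : V) + (z : V))) = (A0 x : V) + ((A1 y : V) + (A2 z : V)) := by
    intro x y z
    have := hA (x, y, z)
    rwa [hSe] at this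
  have hAP : ∀ x : Q 0, A x = A0 x := by
    intro x
    have := hA_ x 0 0
    simpa using this
  have hAQ : ∀ x : Q 1, A x = A1 x := by
    intro x
    have := hA_ 0 x 0
    simpa using this
  have hAR : ∀ x : Q 2, A x = A2 x := by
    intro x
    have := hA_ 0 0 x
    simpa using this
  -- members of `Q'`
  have hdec : ∀ w : V, ∃ (x : Q 0) (y : Q 1) (z : Q 2), w = (x : V) + ((y : V) + (z : V)) := by
    intro w
    obtain ⟨⟨x, y, z⟩, h⟩ := Se.surjective w
    exact ⟨x, y, z, by rw [← h, hSe]⟩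
  have hz : ∀ s t, s ≠ t → ∀ v : Q t, (v : V) ∈ Q' s → v = 0 := by
    intro s t hst v hv
    have : (v : V) ∈ Q' s ⊓ Q t := ⟨hv, v.2⟩
    rw [hd s t hst, Submodule.mem_bot] at this
    exact Subtype.ext this
  have m0 : ∀ (x : Q 0) (y : Q 1) (z : Q 2), (x : V) + ((y : V) + (z : V)) ∈ Q' 0 → z = f0 y := by
    intro x y z h
    have h1 : ((z - f0 y : Q 2) : V) ∈ Q' 0 := by
      have := (Q' 0).sub_mem ((Q' 0).sub_mem h (hle 0 x.2)) (hf0 y)
      convert this using 1
      rw [Submodule.coe_sub]; abel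
    exact sub_eq_zero.1 (hz 0 2 (by decide) _ h1)
  have m1 : ∀ (x : Q 0) (y : Q 1) (z : Q 2), (x : V) + ((y : V) + (z : V)) ∈ Q' 1 → x = f1 z := by
    intro x y z h
    have h1 : ((x - f1 z : Q 0) : V) ∈ Q' 1 := by
      have := (Q' 1).sub_mem ((Q' 1).sub_mem h (hle 1 y.2)) (hf1 z)
      convert this using 1
      rw [Submodule.coe_sub]; abel
    exact sub_eq_zero.1 (hz 1 0 (by decide) _ h1)
  have m2 : ∀ (x : Q 0) (y : Q 1) (z : Q 2), (x : V) + ((y : V) + (z : V)) ∈ Q' 2 → y = f2 x := by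
    intro x y z h
    have h1 : ((y - f2 x : Q 1) : V) ∈ Q' 2 := by
      have := (Q' 2).sub_mem ((Q' 2).sub_mem h (hle 2 z.2)) (hf2 x)
      convert this using 1
      rw [Submodule.coe_sub]; abel
    exact sub_eq_zero.1 (hz 2 1 (by decide) _ h1)
  refine ⟨A, ?_, ?_⟩
  · intro c hc
    apply hns c
    apply LinearMap.ext
    intro x
    apply Subtype.ext
    rw [← hAP, hc]
    rfl
  · intro s
    fin_cases s
    · refine ⟨fun x hx => ?_, fun w hw => ?_⟩
      · have := hAP ⟨x, hx⟩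
        rw [this]; exact (A0 ⟨x, hx⟩).2
      · obtain ⟨x, y, z, rfl⟩ := hdec w
        have hzz := m0 x y z hw
        subst hzz
        rw [hA_, e0]
        exact (Q' 0).add_mem (hle 0 (A0 x).2) (hf0 _)
    · refine ⟨fun x hx => ?_, fun w hw => ?_⟩
      · have := hAQ ⟨x, hx⟩
        rw [this]; exact (A1 ⟨x, hx⟩).2
      · obtain ⟨x, y, z, rfl⟩ := hdec w
        have hzz := m1 x y z hw
        subst hzz
        rw [hA_, e1]
        have h3 := (Q' 1).add_mem (hle 1 (A1 y).2) (hf1 (A2 z))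
        rw [add_comm, add_assoc]
        exact h3
    · refine ⟨fun x hx => ?_, fun w hw => ?_⟩
      · have := hAR ⟨x, hx⟩
        rw [this]; exact (A2 ⟨x, hx⟩).2
      · obtain ⟨x, y, z, rfl⟩ := hdec w
        have hzz := m2 x y z hw
        subst hzz
        rw [hA_, e2]
        have h3 := (Q' 2).add_mem (hle 2 (A2 z).2) (hf2 (A0 x))
        rw [← add_assoc, add_comm]
        exact h3

end Good

end Crest.Agent.R172.TE
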