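import Crest.Agent.R172.SEnd5
import Crest.Agent.R172.SCore2
import Crest.Agent.R172.Dual3
import Crest.Agent.R172.RJPZ

/-!
Row 172 (S0260), tame node (t2): the final translation on the block packages `BPkg`.
* `QG` : the good class in `Matrix ι δ K`; `Gens` : the generators of a pair of blocks lie in `Q`;
* `hSLW_of_Gens` : the weak slack from `Gens QG` for all pairs of blocks;
* `lev1`, `lev2`, `lev2Z` : `Gens` from `span_exact2`, `RJP.main`, `RJPZ.main`.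
-/

set_option autoImplicit false
set_option linter.unusedSectionVars false

namespace Crest.Agent.R172.SLev0

open Matrix Module Crest.Agent.R172.FO Crest.Agent.R172.Qt Crest.Agent.R172.SpS
open Crest.Agent.R172.SEnd Crest.Agent.R172.SEnd2 Crest.Agent.R172.SEnd3 Crest.Agent.R172.SBlk
open Crest.Agent.R172.SEnd4 Crest.Agent.R172.SEndW Crest.Agent.R172.SEnd5 Crest.Agent.R172.SCM
open Crest.Agent.R172.SC (PB)
open Crest.Agent.R172.PL (Wk Ainf Rad CoreM coreOp resOp)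
open scoped TensorProduct

variable {ι : Type*} [Fintype ι] [DecidableEq ι] {δ : Type*} [Fintype δ] [DecidableEq δ]
variable {k K : Type*} [Field k] [Field K] [Algebra k K]
variable {arm : δ → Fin 3} {J : Matrix ι ι K} {B : Matrix δ δ K}
  {N W : Submodule K (Matrix ι δ K)} {g f : Matrix ι δ K} {R : Matrix δ ι K}
  {p : Matrix ι ι K × (Fin 3 → Matrix ι ι K)} {S : Finset K}
  {q : K → Matrix ι ι K × (Fin 3 → Matrix ι ι K)}

/-- **the good class**: modulo `N` a `w ∈ W` with `Pᵀ J w = 0`, which is 'block scalar plus radical' on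
the tested vectors. -/
def QG (arm : δ → Fin 3) (J : Matrix ι ι K) (B : Matrix δ δ K) (N W : Submodule K (Matrix ι δ K))
    (g : Matrix ι δ K) (p : Matrix ι ι K × (Fin 3 → Matrix ι ι K)) (P : Submodule K (ι → K))
    {α : Type*} (Pb : α → Submodule K (ι → K)) (nu : α → K) : Submodule K (Matrix ι δ K) where
  carrier := {m | ∃ w ∈ W, m - w ∈ N ∧ (∀ a ∈ P, ∀ v, a ⬝ᵥ ((J * w) *ᵥ v) = 0) ∧
    ∃ μ : K → K, ∀ i, ∀ c ∈ Pb i, ∀ r, ∃ rr : ι → K, (∀ a ∈ P, a ⬝ᵥ ((J * p.1) *ᵥ rr) = 0) ∧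
      w *ᵥ ((E K arm r * B * gᵀ * (J * p.1)) *ᵥ c) =
        μ (nu i) • ((M arm B r g g * (J * p.1)) *ᵥ c) + rr}
  zero_mem' := ⟨0, W.zero_mem, by simp, fun a _ v => by simp, 0, fun i c _ r => ⟨0, fun a _ => by
    simp, by simp⟩⟩
  add_mem' := by
    rintro m m' ⟨w, h1, h2, h3, μ, h4⟩ ⟨w', h1', h2', h3', μ', h4'⟩
    refine ⟨w + w', W.add_mem h1 h1', ?_, fun a ha v => ?_, fun x => μ x + μ' x,
      fun i c hc r => ?_⟩
    · rw [show m + m' - (w + w') = (m - w) + (m' - w') by abel]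
      exact N.add_mem h2 h2'
    · rw [Matrix.mul_add, add_mulVec, dotProduct_add, h3 a ha, h3' a ha, add_zero]
    · obtain ⟨rr, h5, h6⟩ := h4 i c hc r
      obtain ⟨rr', h5', h6'⟩ := h4' i c hc r
      refine ⟨rr + rr', fun a ha => ?_, ?_⟩
      · rw [mulVec_add, dotProduct_add, h5 a ha, h5' a ha, add_zero]
      · rw [add_mulVec, h6, h6', add_smul]; abel
  smul_mem' := by
    rintro t m ⟨w, h1, h2, h3, μ, h4⟩
    refine ⟨t • w, W.smul_mem t h1, ?_, fun a ha v => ?_, fun x => t * μ x,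
      fun i c hc r => ?_⟩
    · rw [← smul_sub]
      exact N.smul_mem t h2
    · rw [Matrix.mul_smul, smul_mulVec, dotProduct_smul, h3 a ha, smul_zero]
    · obtain ⟨rr, h5, h6⟩ := h4 i c hc r
      refine ⟨t • rr, fun a ha => ?_, ?_⟩
      · rw [mulVec_smul, dotProduct_smul, h5 a ha, smul_zero]
      · rw [smul_mulVec, h6, smul_add, smul_smul]

theorem mem_QG {P : Submodule K (ι → K)} {α : Type*} {Pb : α → Submodule K (ι → K)} {nu : α → K}
    {m : Matrix ι δ K} : m ∈ QG arm J B N W g p P Pb nu ↔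
    ∃ w ∈ W, m - w ∈ N ∧ (∀ a ∈ P, ∀ v, a ⬝ᵥ ((J * w) *ᵥ v) = 0) ∧
    ∃ μ : K → K, ∀ i, ∀ c ∈ Pb i, ∀ r, ∃ rr : ι → K, (∀ a ∈ P, a ⬝ᵥ ((J * p.1) *ᵥ rr) = 0) ∧
      w *ᵥ ((E K arm r * B * gᵀ * (J * p.1)) *ᵥ c) =
        μ (nu i) • ((M arm B r g g * (J * p.1)) *ᵥ c) + rr := Iff.rfl

theorem N_le_QG {P : Submodule K (ι → K)} {α : Type*} {Pb : α → Submodule K (ι → K)}
    {nu : α → K} : N ≤ QG arm J B N W g p P Pb nu := fun m hm =>
  ⟨0, W.zero_mem, by rwa [sub_zero], fun a _ v => by simp, 0, fun i c _ r => ⟨0, fun a _ => by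
    simp, by simp⟩⟩

/-- **the good class gives `GoodSW`.** -/
theorem GoodSW_of_QG (h : Ctx k arm J B N W g) (h2 : (2 : K) ≠ 0) (hR : g * R * g = g)
    (hp : p ∈ NN arm J N g) (hf : f ∈ N ⊓ W) (hq : Spec arm J N g f p.1 S q)
    {D : End K (CoreM (Ph arm J B g R p.1))}
    (hD : IsD (Ph arm J B g R p.1) (Nh arm J B g f R p.1) D)
    {α : Type*} {nu : α → K} {P : Submodule K (ι → K)} (hPg : ∀ a ∈ P, ∃ u, g *ᵥ u = a)
    {Pb : α → Submodule K (ι → K)} (hP : P = ⨆ i, Pb i)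
    (hPb : ∀ i, Pb i ≤ (PB (Ph arm J B g R p.1) D (nu i)).map (Sg g).subtype)
    (hst : ∀ i r, ∀ c ∈ Pb i, (M arm B r g g * (J * p.1)) *ᵥ c ∈ Pb i)
    {s : Fin 3} {x : Matrix ι ι K}
    (hx : x * (J * p.1) * g * E K arm s ∈ QG arm J B N W g p P Pb nu) :
    x ∈ GoodSW arm J B N W g p P s := by
  obtain ⟨w, h1, h3, h4, μ, h5⟩ := hx
  exact GoodSW_of_good h h2 hR hp hf hq hD hPg hP hPb hst h1 h3 h4 μ h5

/-- the generators of the pair `(Pa, Pc)` lie in `Q` -/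
structure Gens (arm : δ → Fin 3) (J : Matrix ι ι K) (B : Matrix δ δ K) (g : Matrix ι δ K)
    (X : Matrix ι ι K) (l : Fin 3 → ℕ) (Q : Submodule K (Matrix ι δ K))
    (Pa Pc : Submodule K (ι → K)) : Prop where
  g1 : ∀ s i j, i + j + 1 = l s → ∀ a ∈ Pa, ∀ c ∈ Pc,
    vecMulVec (((M arm B s g g * (J * X)) ^ i) *ᵥ a) (((M arm B s g g * (J * X)) ^ j) *ᵥ c) *
      (J * X) * g * E K arm s ∈ Q
  g2 : ∀ s, ∀ r ∈ Rd (J * X) Pa, ∀ c ∈ Pc, vecMulVec r c * (J * X) * g * E K arm s ∈ Q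
  g3 : ∀ s, ∀ a ∈ Pa, ∀ r ∈ Rd (J * X) Pc, vecMulVec a r * (J * X) * g * E K arm s ∈ Q

/-- **the weak slack from the generators of all pairs of blocks.** -/
theorem hSLW_of_Gens (h : Ctx k arm J B N W g) (h2 : (2 : K) ≠ 0) (hR : g * R * g = g)
    (hp : p ∈ NN arm J N g) (hf : f ∈ N ⊓ W) (hq : Spec arm J N g f p.1 S q)
    {D : End K (CoreM (Ph arm J B g R p.1))}
    (hD : IsD (Ph arm J B g R p.1) (Nh arm J B g f R p.1) D)
    {α : Type*} [Fintype α] {nu : α → K} {P : Submodule K (ι → K)}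
    (hPg : ∀ a ∈ P, ∃ u, g *ᵥ u = a)
    {Pb : α → Submodule K (ι → K)} (hP : P = ⨆ i, Pb i)
    (hPb : ∀ i, Pb i ≤ (PB (Ph arm J B g R p.1) D (nu i)).map (Sg g).subtype)
    (hstb : ∀ i r, ∀ c ∈ Pb i, (M arm B r g g * (J * p.1)) *ᵥ c ∈ Pb i)
    (horth : ∀ i j, i ≠ j → ∀ a ∈ Pb i, ∀ b ∈ Pb j, a ⬝ᵥ ((J * p.1) *ᵥ b) = 0)
    (hst : ∀ s, ∀ a ∈ P, (M arm B s g g * (J * p.1)) *ᵥ a ∈ P) {l : Fin 3 → ℕ}
    (hfree : ∀ s, (∀ c ∈ P, ((M arm B s g g * (J * p.1)) ^ l s) *ᵥ c ∈ Rd (J * p.1) P) ∧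
      ∀ v ≤ l s, ∀ c ∈ P, ((M arm B s g g * (J * p.1)) ^ (l s - v)) *ᵥ c ∈ Rd (J * p.1) P →
        ∃ c' ∈ P, c - ((M arm B s g g * (J * p.1)) ^ v) *ᵥ c' ∈ Rd (J * p.1) P)
    (hG : ∀ i j, Gens arm J B g p.1 l (QG arm J B N W g p P Pb nu) (Pb i) (Pb j)) :
    ∀ s x, PP P x → Fil (M arm B s g g * (J * p.1)) (J * p.1) P x →
      x ∈ GoodSW arm J B N W g p P s :=
  hSLW_of_blocks h.data h.mem hp.1 hP horth hst hfree
    (fun s i j v w hvw a ha b hb =>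
      GoodSW_of_QG h h2 hR hp hf hq hD hPg hP hPb hstb ((hG i j).g1 s v w hvw a ha b hb))
    (fun s i j r hr b hb =>
      GoodSW_of_QG h h2 hR hp hf hq hD hPg hP hPb hstb ((hG i j).g2 s r hr b hb))
    (fun s i j r hr b hb =>
      GoodSW_of_QG h h2 hR hp hf hq hD hPg hP hPb hstb ((hG j i).g3 s b hb r hr))

section pkg

variable {X : Matrix ι ι K} {D : End K (CoreM (PhS arm J B g R X))} {ν ν' : K} {l : Fin 3 → ℕ}
  {n n' : ℕ} {P : Matrix ι (Fin n) K} {P' : Matrix ι (Fin n') K}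
  {A : Fin 3 → Matrix (Fin n) (Fin n) K} {A' : Fin 3 → Matrix (Fin n') (Fin n') K}

/-- the one-arm tensors as a bilinear map -/
def bq (arm : δ → Fin 3) (J : Matrix ι ι K) (g : Matrix ι δ K) (X : Matrix ι ι K)
    (P : Matrix ι (Fin n) K) (P' : Matrix ι (Fin n') K) (s : Fin 3) :
    (Fin n → K) →ₗ[K] (Fin n' → K) →ₗ[K] Matrix ι δ K :=
  LinearMap.mk₂ K (fun x y => vecMulVec (P *ᵥ x) (P' *ᵥ y) * (J * X) * g * E K arm s)
    (fun x x' y => by
      rw [mulVec_add, add_vecMulVec, Matrix.add_mul, Matrix.add_mul, Matrix.add_mul])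
    (fun c x y => by
      rw [mulVec_smul, smul_vecMulVec, Matrix.smul_mul, Matrix.smul_mul, Matrix.smul_mul])
    (fun x y y' => by
      rw [mulVec_add, vecMulVec_add, Matrix.add_mul, Matrix.add_mul, Matrix.add_mul])
    (fun c x y => by
      rw [mulVec_smul, vecMulVec_smul, Matrix.smul_mul, Matrix.smul_mul, Matrix.smul_mul])

theorem bq_apply (P : Matrix ι (Fin n) K) (P' : Matrix ι (Fin n') K) (s : Fin 3)
    (x : Fin n → K) (y : Fin n' → K) :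
    bq arm J g X P P' s x y = vecMulVec (P *ᵥ x) (P' *ᵥ y) * (J * X) * g * E K arm s := rfl

/-- the block in `K^ι` -/
abbrev PbK (arm : δ → Fin 3) (J : Matrix ι ι K) (B : Matrix δ δ K) (g : Matrix ι δ K)
    (R : Matrix δ ι K) (X : Matrix ι ι K) (D : End K (CoreM (PhS arm J B g R X))) (ν : K) :
    Submodule K (ι → K) := (PB (PhS arm J B g R X) D ν).map (Sg g).subtype

theorem pow_act (b : BPkg arm J B g R X D ν l P A) (s : Fin 3) (i : ℕ) (x : Fin n → K) :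
    ((M arm B s g g * (J * X)) ^ i) *ᵥ (P *ᵥ x) = P *ᵥ ((A s ^ i) *ᵥ x) := by
  induction i generalizing x with
  | zero => simp
  | succ i ih =>
    rw [pow_succ, pow_succ, ← mulVec_mulVec, ← mulVec_mulVec _ _ (A s), ← ih]
    congr 1
    rw [mulVec_mulVec, b.act, ← mulVec_mulVec]

theorem exists_coord (b : BPkg arm J B g R X D ν l P A) {a : ι → K}
    (ha : a ∈ PbK arm J B g R X D ν) : ∃ x, a = P *ᵥ x := by
  obtain ⟨v, hv, rfl⟩ := ha
  exact b.span v hv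

theorem coord_mem (b : BPkg arm J B g R X D ν l P A) (x : Fin n → K) :
    P *ᵥ x ∈ PbK arm J B g R X D ν := by
  obtain ⟨v, hv, h⟩ := b.mem x
  exact ⟨v, hv, h⟩

theorem exists_coord_Rd (b : BPkg arm J B g R X D ν l P A) {a : ι → K}
    (ha : a ∈ Rd (J * X) (PbK arm J B g R X D ν)) :
    ∃ x ∈ LinearMap.ker (Pᵀ * (J * X) * P).mulVecLin, a = P *ᵥ x := by
  obtain ⟨x, rfl⟩ := exists_coord b ha.1
  refine ⟨x, ?_, rfl⟩
  rw [LinearMap.mem_ker, mulVecLin_apply]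
  funext j
  have h1 := ha.2 _ (coord_mem b (Pi.single j 1))
  rw [form_gg, single_one_dotProduct] at h1
  exact h1

/-- **the two generator families of a pair of blocks from `span_exact2`** -/
theorem lev1 (b : BPkg arm J B g R X D ν l P A) (b' : BPkg arm J B g R X D ν' l P' A')
    {Λ : Set K} (hΛ : Λ.Infinite) (h0 : (0 : K) ∉ Λ) (c1 c2 : K) (hc1 : c1 ≠ 0) (hc2 : c2 ≠ 0)
    (Q : Submodule K (Matrix ι δ K))
    (h : ∀ ρ ∈ Λ, ∀ x : Fin 3 → (Fin n' → K) ⊗[K] (Fin n → K),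
      Dual.Exact (fun s => (A s).mulVecLin) (fun s => (A' s).mulVecLin)
        (LinearMap.ker (Pᵀ * (J * X) * P).mulVecLin)
        (LinearMap.ker (P'ᵀ * (J * X) * P').mulVecLin) (ρ ^ 2) x →
      ∑ t, TensorProduct.lift (c1 • bq arm J g X P' P t) (x t) +
        ρ • ∑ t, TensorProduct.lift (c2 • (bq arm J g X P P' t).flip) (x t) ∈ Q) :
    Gens arm J B g X l Q (PbK arm J B g R X D ν') (PbK arm J B g R X D ν) ∧
      Gens arm J B g X l Q (PbK arm J B g R X D ν) (PbK arm J B g R X D ν') := by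
  obtain ⟨m, hm⟩ := b.blk.kills
  obtain ⟨m', hm'⟩ := b'.blk.kills
  obtain ⟨h1, h2, h3⟩ := Dual.span_exact2 (A := fun s => (A s).mulVecLin)
    (B := fun s => (A' s).mulVecLin) (R1 := LinearMap.ker (Pᵀ * (J * X) * P).mulVecLin)
    (R2 := LinearMap.ker (P'ᵀ * (J * X) * P').mulVecLin) (l := l) hΛ h0 b.blk.perf b'.blk.perf
    b.blk.st b'.blk.st ⟨m, fun r hr w hw => hm w hw.ge r hr⟩ ⟨m', fun r hr w hw => hm' w hw.ge r hr⟩
    b.blk.pow b'.blk.pow (fun Z h1 h2 => b.blk.gen Z h2 h1) (fun Z h1 h2 => b'.blk.gen Z h2 h1)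
    (fun t => c1 • bq arm J g X P' P t) (fun t => c2 • (bq arm J g X P P' t).flip) Q h
  have u1 : ∀ m : Matrix ι δ K, c1 • m ∈ Q → m ∈ Q := fun m hm => by
    have := Q.smul_mem c1⁻¹ hm
    rwa [smul_smul, inv_mul_cancel₀ hc1, one_smul] at this
  have u2 : ∀ m : Matrix ι δ K, c2 • m ∈ Q → m ∈ Q := fun m hm => by
    have := Q.smul_mem c2⁻¹ hm
    rwa [smul_smul, inv_mul_cancel₀ hc2, one_smul] at this
  refine ⟨⟨fun s i j hij a ha c hc => ?_, fun s r hr c hc => ?_, fun s a ha r hr => ?_⟩,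
    ⟨fun s i j hij a ha c hc => ?_, fun s r hr c hc => ?_, fun s a ha r hr => ?_⟩⟩
  · obtain ⟨x, rfl⟩ := exists_coord b' ha
    obtain ⟨y, rfl⟩ := exists_coord b hc
    rw [pow_act b', pow_act b]
    have h4 := (h1 s j i (by omega) x y).1
    rw [mulVecLin_pow_apply, mulVecLin_pow_apply] at h4
    exact u1 _ h4
  · obtain ⟨x, hx, rfl⟩ := exists_coord_Rd b' hr
    obtain ⟨y, rfl⟩ := exists_coord b hc
    exact u1 _ (h2 s x hx y).1
  · obtain ⟨x, rfl⟩ := exists_coord b' ha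
    obtain ⟨y, hy, rfl⟩ := exists_coord_Rd b hr
    exact u1 _ (h3 s y hy x).1
  · obtain ⟨x, rfl⟩ := exists_coord b ha
    obtain ⟨y, rfl⟩ := exists_coord b' hc
    rw [pow_act b', pow_act b]
    have h4 := (h1 s i j hij y x).2
    rw [mulVecLin_pow_apply, mulVecLin_pow_apply] at h4
    exact u2 _ h4
  · obtain ⟨x, hx, rfl⟩ := exists_coord_Rd b hr
    obtain ⟨y, rfl⟩ := exists_coord b' hc
    exact u2 _ (h3 s x hx y).2
  · obtain ⟨x, rfl⟩ := exists_coord b ha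
    obtain ⟨y, hy, rfl⟩ := exists_coord_Rd b' hr
    exact u2 _ (h2 s y hy x).2

/-- the form of a block package -/
def gF (J X : Matrix ι ι K) (P : Matrix ι (Fin n) K) : (Fin n → K) →ₗ[K] (Fin n → K) →ₗ[K] K :=
  LinearMap.mk₂ K (fun x y => x ⬝ᵥ ((Pᵀ * (J * X) * P) *ᵥ y))
    (fun x x' y => by rw [add_dotProduct]) (fun c x y => by rw [smul_dotProduct])
    (fun x y y' => by rw [mulVec_add, dotProduct_add])
    (fun c x y => by rw [mulVec_smul, dotProduct_smul])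

theorem gF_apply (P : Matrix ι (Fin n) K) (x y : Fin n → K) :
    gF J X P x y = x ⬝ᵥ ((Pᵀ * (J * X) * P) *ᵥ y) := rfl

theorem gF_flip (b : BPkg arm J B g R X D ν l P A) (x y : Fin n → K) :
    gF J X P x y = -gF J X P y x := by
  rw [gF_apply, gF_apply, dotProduct_mulVec, ← mulVec_transpose, b.skew, neg_mulVec,
    neg_dotProduct, dotProduct_comm]

/-- conclusion of `RJM.main` in the form `Gens` -/
theorem gens_self (b : BPkg arm J B g R X D ν l P A) (Q : Submodule K (Matrix ι δ K))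
    (h1 : ∀ t, ∀ r ∈ LinearMap.ker (Pᵀ * (J * X) * P).mulVecLin, ∀ y,
      bq arm J g X P P t r y ∈ Q ∧ bq arm J g X P P t y r ∈ Q)
    (h2 : ∀ s i j, i + j + 1 = l s → ∀ x y, bq arm J g X P P s (((A s).mulVecLin ^ i) x)
      (((A s).mulVecLin ^ j) y) ∈ Q) :
    Gens arm J B g X l Q (PbK arm J B g R X D ν) (PbK arm J B g R X D ν) := by
  refine ⟨fun s i j hij a ha c hc => ?_, fun s r hr c hc => ?_, fun s a ha r hr => ?_⟩
  · obtain ⟨x, rfl⟩ := exists_coord b ha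
    obtain ⟨y, rfl⟩ := exists_coord b hc
    rw [pow_act b, pow_act b]
    have h4 := h2 s i j hij x y
    rw [mulVecLin_pow_apply, mulVecLin_pow_apply] at h4
    exact h4
  · obtain ⟨x, hx, rfl⟩ := exists_coord_Rd b hr
    obtain ⟨y, rfl⟩ := exists_coord b hc
    exact (h1 s x hx y).1
  · obtain ⟨x, rfl⟩ := exists_coord b ha
    obtain ⟨y, hy, rfl⟩ := exists_coord_Rd b hr
    exact (h1 s y hy x).2

/-- **second level, correction modulo `Z`** (`P1 = ν`, `P2 = ν'`) -/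
theorem lev2Z (b : BPkg arm J B g R X D ν l P A) (b' : BPkg arm J B g R X D ν' l P' A')
    (Z : Submodule K (Fin n → K)) (sZ : ∀ t, ∀ z ∈ Z, A t *ᵥ z ∈ Z)
    {Λ : Set K} (hΛ : Λ.Infinite) (h0 : (0 : K) ∉ Λ) {a1 a2 a3 : K}
    (ha1 : a1 ≠ 0) (ha2 : a2 ≠ 0) (ha3 : a3 ≠ 0) (Q : Submodule K (Matrix ι δ K))
    (hZq : ∀ t, ∀ z ∈ Z, ∀ y, bq arm J g X P P t z y ∈ Q)
    (hqZ : ∀ t, ∀ z ∈ Z, ∀ y, bq arm J g X P P t y z ∈ Q)
    (hex : ∀ ρ ∈ Λ, ∀ x, RJM.Ex (fun s => (A s).mulVecLin) (fun s => (A' s).mulVecLin)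
        (LinearMap.ker (Pᵀ * (J * X) * P).mulVecLin)
        (LinearMap.ker (P'ᵀ * (J * X) * P').mulVecLin) (ρ ^ 2) x →
      ∃ be, RJZ.Cor (fun s => (A s).mulVecLin) (fun s => (A' s).mulVecLin)
        (LinearMap.ker (Pᵀ * (J * X) * P).mulVecLin) Z (gF J X P') (-1) (ρ ^ 2) x be)
    (F2 : RJP.Pr K (Fin n → K) (Fin n' → K) (Fin 3) →
      (RJP.Pr K (Fin n → K) (Fin n' → K) (Fin 3) →ₗ[K] Matrix ι δ K))
    (hrel : ∀ ρ ∈ Λ, ∀ ρ' ∈ Λ, ∀ x be x' be',
      RJM.Ex (fun s => (A s).mulVecLin) (fun s => (A' s).mulVecLin)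
        (LinearMap.ker (Pᵀ * (J * X) * P).mulVecLin)
        (LinearMap.ker (P'ᵀ * (J * X) * P').mulVecLin) (ρ ^ 2) x →
      RJZ.Cor (fun s => (A s).mulVecLin) (fun s => (A' s).mulVecLin)
        (LinearMap.ker (Pᵀ * (J * X) * P).mulVecLin) Z (gF J X P') (-1) (ρ ^ 2) x be →
      RJM.Ex (fun s => (A s).mulVecLin) (fun s => (A' s).mulVecLin)
        (LinearMap.ker (Pᵀ * (J * X) * P).mulVecLin)
        (LinearMap.ker (P'ᵀ * (J * X) * P').mulVecLin) (ρ' ^ 2) x' →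
      RJZ.Cor (fun s => (A s).mulVecLin) (fun s => (A' s).mulVecLin)
        (LinearMap.ker (Pᵀ * (J * X) * P).mulVecLin) Z (gF J X P') (-1) (ρ' ^ 2) x' be' →
      ∑ t, (a1 • TensorProduct.lift ((bq arm J g X P P t) ∘ₗ be') (x t)
        + a2 • TensorProduct.lift ((bq arm J g X P P t).flip ∘ₗ be) (x' t)
        + a3 • TensorProduct.lift ((bq arm J g X P P t) ∘ₗ (RJM.ev (gF J X P') (x' t))) (x t)) +
          ρ' • F2 (x, be) (x', be') ∈ Q) :
    Gens arm J B g X l Q (PbK arm J B g R X D ν) (PbK arm J B g R X D ν) := by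
  obtain ⟨m, hm⟩ := b.blk.kills
  obtain ⟨m', hm'⟩ := b'.blk.kills
  have hker : ∀ r ∈ LinearMap.ker (P'ᵀ * (J * X) * P').mulVecLin, ∀ y, gF J X P' y r = 0 := by
    intro r hr y
    rw [LinearMap.mem_ker, mulVecLin_apply] at hr
    rw [gF_apply, hr, dotProduct_zero]
  obtain ⟨h1, h2⟩ := RJPZ.main (A := fun s => (A s).mulVecLin) (B := fun s => (A' s).mulVecLin)
    (R1 := LinearMap.ker (Pᵀ * (J * X) * P).mulVecLin)
    (R2 := LinearMap.ker (P'ᵀ * (J * X) * P').mulVecLin) (Z := Z) (l := l) (g := gF J X P')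
    (eps := -1) (m := max m m') (fun t z hz => by
      change (A t).mulVecLin z ∈ Z
      rw [mulVecLin_apply]; exact sZ t z hz)
    b.blk.top b'.blk.top b.blk.st b'.blk.st
    (fun w hw r hr => hm w (by omega) r hr) (fun w hw r hr => hm' w (by omega) r hr)
    (fun s => by have := b.blk.two_le s; omega) b.blk.pow b'.blk.pow b.blk.gen b'.blk.gen
    (neg_ne_zero.2 one_ne_zero)
    (fun r hr y => by rw [gF_flip b', hker r hr, neg_zero]) hker
    (fun t x y => by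
      rw [gF_apply, gF_apply, mulVecLin_apply, mulVecLin_apply, mulVec_mulVec,
        ← vecMul_transpose, ← dotProduct_mulVec, mulVec_mulVec, b'.adj, neg_mulVec,
        dotProduct_neg, neg_one_mul])
    (fun s => by
      obtain ⟨x, y, hxy⟩ := b'.corner s
      refine ⟨y, x, ?_⟩
      rw [gF_flip b', gF_apply, mulVecLin_pow_apply]
      exact neg_ne_zero.2 hxy)
    hΛ h0 (fun t => bq arm J g X P P t) Q ha1 ha2 ha3 hZq hqZ hex F2 hrel
  exact gens_self b Q h1 h2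

end pkg

end Crest.Agent.R172.SLev0
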