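import Crest.Agent.R172.UBlk
import Crest.Agent.R172.SUX3

/-!
Row 172 (S0260), (t2), S-side: the frame identities of the U-level blocks at `H = g + t f`, `P_t`
(`P_t` from `PTy.exists_family` / `SRow`).
-/

set_option autoImplicit false
set_option linter.unusedSectionVars false
set_option linter.unusedFintypeInType false
set_option linter.unusedDecidableInType false

namespace Crest.Agent.R172.UFr

open Module Matrix Crest.Agent.R172.FO Crest.Agent.R172.Qt Crest.Agent.R172.SpS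
open Crest.Agent.R172.SBlk Crest.Agent.R172.UBlk
open Crest.Agent.R172.PL (CoreM)
open Crest.Agent.R172.SUX (th)

variable {ι : Type*} [Fintype ι] [DecidableEq ι] {δ : Type*} [Fintype δ] [DecidableEq δ]
variable {k K : Type*} [Field k] [Field K] [Algebra k K]
variable {arm : δ → Fin 3} {J : Matrix ι ι K} {B : Matrix δ δ K}
  {N W : Submodule K (Matrix ι δ K)} {g f : Matrix ι δ K}
  {p : Matrix ι ι K × (Fin 3 → Matrix ι ι K)}

/-- the derived symmetry `(df) E_s B gᵀ + f E_s B dgᵀ = (dg) E_s B fᵀ + g E_s B dfᵀ` -/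
theorem symm_der (h : Ctx k arm J B N W g) (hf : f ∈ N ⊓ W) (d : Derivation k K K) (s : Fin 3) :
    f.map d * E K arm s * B * gᵀ + f * E K arm s * B * (g.map d)ᵀ =
      g.map d * E K arm s * B * fᵀ + g * E K arm s * B * (f.map d)ᵀ := by
  have h1 : f * E K arm s * B * gᵀ = g * E K arm s * B * fᵀ := h.data.symm_arm hf h.mem s
  have e : ∀ a b : Matrix ι δ K, (a * E K arm s * B * bᵀ).map d =
      a.map d * E K arm s * B * bᵀ + a * E K arm s * B * (b.map d)ᵀ := by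
    intro a b
    rw [map_mul_der, map_mul_der, map_mul_der, h.data.B_const, E_map_der, map_transpose_der,
      Matrix.mul_zero, Matrix.mul_zero, add_zero, add_zero]
  have h2 := congrArg (fun A => A.map d) h1
  simp only [e] at h2
  exact h2

section facts

variable (h : Ctx k arm J B N W g) {R : Matrix δ ι K} (hR : g * R * g = g)
  {D : End K (CoreM (Ph arm J B g R p.1))}
  (hD : IsD (Ph arm J B g R p.1) (Nh arm J B g f R p.1) D)
variable [IsAlgClosed K]
variable (hNil : NilW arm J B N g) (hp : p ∈ NN arm J N g) (hf : f ∈ N ⊓ W)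

include hD hNil hp hf

/-- **`Aᵀ J (df) u = ν Aᵀ J (dg) u`** for every `A` perpendicular to `g` and `f`. -/
theorem der_rel (d : Derivation k K K) {α : Type*} {A : Matrix ι α K}
    (hAg : Aᵀ * J * g = 0) (hAf : Aᵀ * J * f = 0) {ν : K} {u : δ → K}
    (hu : u ∈ Qb h.data hR p.1 D ν) :
    (Aᵀ * J * f.map d) *ᵥ u = ν • ((Aᵀ * J * g.map d) *ᵥ u) := by
  obtain ⟨c, hc, rfl⟩ := Qb_exists h hR hD hu
  rw [mulVec_sum, mulVec_sum, Finset.smul_sum]
  refine Finset.sum_congr rfl fun s _ => ?_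
  have hrel := (Qb_rel h hR hD hNil hp hf (hc s)).2.1
  have hfl : fᵀ * J * (p.1 * g) = gᵀ * J * (p.1 * f) := SUX.th_flip h hp hf
  rw [om_eq h.data]
  set v := c s
  have h1 := congrArg (fun X => (Aᵀ * J * X * (J * (p.1 * g))) *ᵥ v) (symm_der h hf d s)
  have e1 : Aᵀ * J * (f.map d * E K arm s * B * gᵀ + f * E K arm s * B * (g.map d)ᵀ) *
      (J * (p.1 * g)) = Aᵀ * J * f.map d * (E K arm s * B * (gᵀ * J * (p.1 * g))) := by
    have e0 : Aᵀ * J * (f * E K arm s * B * (g.map d)ᵀ) = 0 := by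
      calc Aᵀ * J * (f * E K arm s * B * (g.map d)ᵀ)
          = (Aᵀ * J * f) * (E K arm s * B * (g.map d)ᵀ) := by simp only [Matrix.mul_assoc]
        _ = 0 := by rw [hAf, Matrix.zero_mul]
    rw [Matrix.mul_add, e0, add_zero]
    simp only [Matrix.mul_assoc]
  have e2 : Aᵀ * J * (g.map d * E K arm s * B * fᵀ + g * E K arm s * B * (f.map d)ᵀ) *
      (J * (p.1 * g)) = Aᵀ * J * g.map d * (E K arm s * B * (fᵀ * J * (p.1 * g))) := by
    have e0 : Aᵀ * J * (g * E K arm s * B * (f.map d)ᵀ) = 0 := by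
      calc Aᵀ * J * (g * E K arm s * B * (f.map d)ᵀ)
          = (Aᵀ * J * g) * (E K arm s * B * (f.map d)ᵀ) := by simp only [Matrix.mul_assoc]
        _ = 0 := by rw [hAg, Matrix.zero_mul]
    rw [Matrix.mul_add, e0, add_zero]
    simp only [Matrix.mul_assoc]
  rw [e1, e2, hfl] at h1
  rw [mulVec_mulVec, h1, mulVec_mulVec]
  rw [← mulVec_mulVec, ← mulVec_mulVec v (E K arm s * B), hrel, mulVec_smul, mulVec_smul,
    mulVec_mulVec, mulVec_mulVec, Matrix.mul_assoc (Aᵀ * J * g.map d)]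

/-- **the vector identities at `H = g + a f`.** -/
theorem at_H (hff : fᵀ * J * f = 0) {a : K} {Pt : Matrix ι ι K} {dY : Derivation k K K}
    (hY : ∀ f' ∈ N ⊓ W, (g + a • f)ᵀ * J * (Pt * f') = (g + a • f)ᵀ * J * f'.map dY)
    (hPF : (g + a • f)ᵀ * J * (Pt * g) = (g + a • f)ᵀ * J * (p.1 * g)) {ν : K} {u : δ → K}
    (hu : u ∈ Qb h.data hR p.1 D ν) :
    (g + a • f) *ᵥ u = (1 + a * ν) • (g *ᵥ u) ∧
    th J (g + a • f) Pt g *ᵥ u = (1 + a * ν) • ((gᵀ * J * (p.1 * g)) *ᵥ u) ∧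
    th J (g + a • f) Pt f *ᵥ u = ((1 + a * ν) * ν) • ((gᵀ * J * (p.1 * g)) *ᵥ u) ∧
    th J (g + a • f) Pt (g + a • f) *ᵥ u =
      ((1 + a * ν) ^ 2) • ((gᵀ * J * (p.1 * g)) *ᵥ u) := by
  have hrel := (Qb_rel h hR hD hNil hp hf hu).2.1
  have hfl : fᵀ * J * (p.1 * g) = gᵀ * J * (p.1 * f) := SUX.th_flip h hp hf
  have hgg : gᵀ * J * g = 0 := h.perp g h.mem
  have hgf : gᵀ * J * f = 0 := h.perp f hf
  have hfg : fᵀ * J * g = 0 := by
    have := congrArg transpose hgf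
    rw [transpose_mul, transpose_mul, transpose_transpose, h.data.J_symm, transpose_zero,
      ← Matrix.mul_assoc] at this
    exact this
  have e1 : th J (g + a • f) Pt g *ᵥ u = (1 + a * ν) • ((gᵀ * J * (p.1 * g)) *ᵥ u) := by
    unfold th
    rw [hPF, transpose_add, transpose_smul, Matrix.add_mul, Matrix.add_mul, Matrix.smul_mul,
      Matrix.smul_mul, hfl, add_mulVec, smul_mulVec, hrel, smul_smul, add_smul, one_smul]
  have hA : ∀ x : Matrix ι δ K, gᵀ * J * x = 0 → fᵀ * J * x = 0 → (g + a • f)ᵀ * J * x = 0 := by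
    intro x h1 h2
    rw [transpose_add, transpose_smul, Matrix.add_mul, Matrix.add_mul, Matrix.smul_mul,
      Matrix.smul_mul, h1, h2, smul_zero, add_zero]
  have e2 : th J (g + a • f) Pt f *ᵥ u = ((1 + a * ν) * ν) • ((gᵀ * J * (p.1 * g)) *ᵥ u) := by
    unfold th
    rw [hY f hf, der_rel h hR hD hNil hp hf dY (hA g hgg hfg) (hA f hgf hff) hu, ← hY g h.mem]
    change ν • (th J (g + a • f) Pt g *ᵥ u) = _
    rw [e1, smul_smul, mul_comm]
  refine ⟨Qb_H h hR hD hNil hp hf hu, e1, e2, ?_⟩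
  have e3 : th J (g + a • f) Pt (g + a • f) = th J (g + a • f) Pt g +
      a • th J (g + a • f) Pt f := by
    unfold th
    rw [Matrix.mul_add, Matrix.mul_add, Matrix.mul_smul, Matrix.mul_smul]
  rw [e3, add_mulVec, smul_mulVec, e1, e2, smul_smul, ← add_smul]
  congr 1
  ring

/-- columns in the block -/
def Cq (Q : Submodule K (δ → K)) {n : Type*} (U : Matrix δ n K) : Prop :=
  ∀ j, (fun d => U d j) ∈ Q

omit hD hNil hp hf [IsAlgClosed K] in
theorem mul_ext {α β n : Type*} [Fintype α] {A : Matrix β α K} {C : Matrix β α K} {c : K}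
    {U : Matrix α n K}
    (hh : ∀ j, A *ᵥ (fun d => U d j) = c • (C *ᵥ fun d => U d j)) : A * U = c • (C * U) := by
  ext i j
  exact congrFun (hh j) i

/-- **the frame identities** (937's `Fr`) -/
theorem frame (hff : fᵀ * J * f = 0) {a : K} {Pt : Matrix ι ι K} {dY : Derivation k K K}
    (hY : ∀ f' ∈ N ⊓ W, (g + a • f)ᵀ * J * (Pt * f') = (g + a • f)ᵀ * J * f'.map dY)
    (hPF : (g + a • f)ᵀ * J * (Pt * g) = (g + a • f)ᵀ * J * (p.1 * g)) {ν : K}
    {n : Type*} {U : Matrix δ n K} (hU : Cq (Qb h.data hR p.1 D ν) U) :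
    f * U = ν • (g * U) ∧
    (g + a • f) * U = (1 + a * ν) • (g * U) ∧
    th J (g + a • f) Pt g * U = (1 + a * ν) • ((gᵀ * J * (p.1 * g)) * U) ∧
    th J (g + a • f) Pt f * U = ((1 + a * ν) * ν) • ((gᵀ * J * (p.1 * g)) * U) ∧
    th J (g + a • f) Pt (g + a • f) * U =
      ((1 + a * ν) ^ 2) • ((gᵀ * J * (p.1 * g)) * U) :=
  ⟨mul_ext fun j => (Qb_rel h hR hD hNil hp hf (hU j)).1,
    mul_ext fun j => (at_H h hR hD hNil hp hf hff hY hPF (hU j)).1,
    mul_ext fun j => (at_H h hR hD hNil hp hf hff hY hPF (hU j)).2.1,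
    mul_ext fun j => (at_H h hR hD hNil hp hf hff hY hPF (hU j)).2.2.1,
    mul_ext fun j => (at_H h hR hD hNil hp hf hff hY hPF (hU j)).2.2.2⟩

theorem frame_orth {ν ν' : K} (hne : ν ≠ ν') {n n' : Type*} {U : Matrix δ n K}
    {U' : Matrix δ n' K} (hU : Cq (Qb h.data hR p.1 D ν) U)
    (hU' : Cq (Qb h.data hR p.1 D ν') U') : Uᵀ * (gᵀ * J * (p.1 * g)) * U' = 0 := by
  ext i j
  have h1 := Qb_orth h hR hD hNil hp hf hne (hU i) (hU' j)
  rw [Matrix.mul_assoc]
  exact h1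

/-- **the instance of `SUX.Fr`** -/
theorem fr (hff : fᵀ * J * f = 0) {a : K} {Pt : Matrix ι ι K} {dY : Derivation k K K}
    (hY : ∀ f' ∈ N ⊓ W, (g + a • f)ᵀ * J * (Pt * f') = (g + a • f)ᵀ * J * f'.map dY)
    (hPF : (g + a • f)ᵀ * J * (Pt * g) = (g + a • f)ᵀ * J * (p.1 * g)) {ν ν' : K}
    (hne : ν ≠ ν') (hc1 : 1 + a * ν ≠ 0) (hc2 : 1 + a * ν' ≠ 0) {n1 n2 : Type*} [Fintype n1]
    [Fintype n2] {U1 : Matrix δ n1 K} {U2 : Matrix δ n2 K}
    (hU1 : Cq (Qb h.data hR p.1 D ν) U1) (hU2 : Cq (Qb h.data hR p.1 D ν') U2) :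
    SUX.Fr J g (g + a • f) Pt (gᵀ * J * (p.1 * g)) (1 + a * ν) (1 + a * ν') U1 U2 := by
  obtain ⟨-, a1, b1, -, d1⟩ := frame h hR hD hNil hp hf hff hY hPF hU1
  obtain ⟨-, a2, b2, -, d2⟩ := frame h hR hD hNil hp hf hff hY hPF hU2
  exact
    { hc1 := hc1
      hc2 := hc2
      H1 := a1
      H2 := a2
      S1 := d1
      S2 := d2
      T1 := b1
      T2 := b2
      skew := form_skew h.data.J_symm hp
      orth := frame_orth h hR hD hNil hp hf hne hU1 hU2 }

/-- **the instance of `SUX.K1`** -/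
theorem k1 (hff : fᵀ * J * f = 0) {a : K} {Pt : Matrix ι ι K} {dY : Derivation k K K}
    (hY : ∀ f' ∈ N ⊓ W, (g + a • f)ᵀ * J * (Pt * f') = (g + a • f)ᵀ * J * f'.map dY)
    (hPF : (g + a • f)ᵀ * J * (Pt * g) = (g + a • f)ᵀ * J * (p.1 * g)) {ν ν' : K}
    (hne : ν ≠ ν') {n1 n2 : Type*} [Fintype n1]
    [Fintype n2] {U1 : Matrix δ n1 K} {U2 : Matrix δ n2 K}
    (hU1 : Cq (Qb h.data hR p.1 D ν) U1) (hU2 : Cq (Qb h.data hR p.1 D ν') U2) :
    SUX.K1 J g (g + a • f) Pt (gᵀ * J * (p.1 * g)) (1 + a * ν) U1 U2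
      ((ν - ν')⁻¹ • (f - ν' • g)) := by
  obtain ⟨z1, -, b1, e1, -⟩ := frame h hR hD hNil hp hf hff hY hPF hU1
  obtain ⟨z2, -, b2, e2, -⟩ := frame h hR hD hNil hp hf hff hY hPF hU2
  have hn : ν - ν' ≠ 0 := sub_ne_zero.2 hne
  have ht : th J (g + a • f) Pt ((ν - ν')⁻¹ • (f - ν' • g)) =
      (ν - ν')⁻¹ • (th J (g + a • f) Pt f - ν' • th J (g + a • f) Pt g) := by
    unfold th
    rw [Matrix.mul_smul, Matrix.mul_smul, Matrix.mul_sub, Matrix.mul_sub, Matrix.mul_smul,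
      Matrix.mul_smul]
  refine ⟨?_, ?_, ?_, ?_⟩
  · rw [Matrix.smul_mul, Matrix.sub_mul, z1, Matrix.smul_mul, ← sub_smul, smul_smul,
      inv_mul_cancel₀ hn, one_smul]
  · rw [Matrix.smul_mul, Matrix.sub_mul, z2, Matrix.smul_mul, sub_self, smul_zero]
  · rw [ht, Matrix.smul_mul, Matrix.sub_mul, e1, Matrix.smul_mul, b1, smul_smul, ← sub_smul,
      smul_smul]
    congr 1
    field_simp
  · rw [ht, Matrix.smul_mul, Matrix.sub_mul, e2, Matrix.smul_mul, b2, smul_smul, ← sub_smul]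
    have : (1 + a * ν') * ν' - ν' * (1 + a * ν') = 0 := by ring
    rw [this, zero_smul, smul_zero]

omit hNil hp hf in
/-- a frame of the block: `U` injective with range `Qb`, `ω_s U = U A_s`. -/
theorem exists_frame (ν : K) :
    ∃ (n : ℕ) (U : Matrix δ (Fin n) K) (A : Fin 3 → Matrix (Fin n) (Fin n) K),
      Cq (Qb h.data hR p.1 D ν) U ∧ (∀ u ∈ Qb h.data hR p.1 D ν, ∃ x, u = U *ᵥ x) ∧
      (∀ x, U *ᵥ x ∈ Qb h.data hR p.1 D ν) ∧
      (∀ x, U *ᵥ x = 0 → x = 0) ∧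
      (∀ s, B * E K arm s * (gᵀ * J * (p.1 * g)) * U = U * A s) := by
  obtain ⟨n, U, hC, hspan, hinj⟩ := basis_mat (LinearMap.id : (δ → K) →ₗ[K] (δ → K))
    Function.injective_id (Qb h.data hR p.1 D ν)
  have hU : Cq (Qb h.data hR p.1 D ν) U := by
    intro j
    obtain ⟨v, hv, e⟩ := hC j
    rw [← e]; exact hv
  have hmem : ∀ x, U *ᵥ x ∈ Qb h.data hR p.1 D ν := by
    intro x
    have h1 : U *ᵥ x = ∑ j, x j • (fun d => U d j) := by
      funext d
      rw [Finset.sum_apply]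
      unfold Matrix.mulVec dotProduct
      exact Finset.sum_congr rfl fun j _ => by
        rw [Pi.smul_apply, smul_eq_mul, mul_comm]
    rw [h1]
    exact Submodule.sum_mem _ fun j _ => Submodule.smul_mem _ _ (hU j)
  have hA : ∀ s, ∃ A, B * E K arm s * (gᵀ * J * (p.1 * g)) * U = U * A := by
    intro s
    have h1 : ∀ j, ∃ x, (B * E K arm s * (gᵀ * J * (p.1 * g))) *ᵥ (fun d => U d j) =
        U *ᵥ x := by
      intro j
      exact hspan _ (Qb_stable h hR hD s (hU j))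
    choose x hx using h1
    refine ⟨Matrix.of fun b j => x j b, ?_⟩
    ext i j
    exact congrFun (hx j) i
  choose A hA using hA
  exact ⟨n, U, A, hU, fun u hu => hspan u hu, hmem, hinj, hA⟩

end facts

end Crest.Agent.R172.UFr
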