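import Crest.Agent.R172.STop
import Crest.Agent.R172.SLev0
import Crest.Agent.R172.UFr
import Crest.Agent.R172.SUX6

/-!
Row 172 (S0260), tame node (t2), level 2: the interface `Dec` between the geometry (moves at
`H_t`) and the abstract end (`RJP3.mainG`).
-/

set_option autoImplicit false
set_option linter.unusedSectionVars false

namespace Crest.Agent.R172.SDec

open Matrix Module Crest.Agent.R172.FO Crest.Agent.R172.Qt Crest.Agent.R172.SpS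
open Crest.Agent.R172.SEnd2 (PC PhS)
open Crest.Agent.R172.SUX (D3 th)
open Crest.Agent.R172.PL (CoreM)

section defs

variable {ι : Type*} [Fintype ι] [DecidableEq ι] {δ : Type*} [Fintype δ] [DecidableEq δ]
variable {K : Type*} [Field K]
variable {m1 m2 : ℕ}

/-- decorated exact families at `c` (`c = -(c₂/c₁)²`), `K^δ`-level frames `U_i`, `a_i`:
`B E_s S₀ U_i = U_i a_i s`. -/
structure Dec (F : Matrix ι δ K) (S0 : Matrix δ δ K) (U1 : Matrix δ (Fin m1) K)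
    (U2 : Matrix δ (Fin m2) K) (a1 : Fin 3 → Matrix (Fin m1) (Fin m1) K)
    (a2 : Fin 3 → Matrix (Fin m2) (Fin m2) K) (c : K) (y : D3 K (Fin m1) (Fin m2)) : Prop where
  sum : ∑ s, (y.1 s * (a1 s)ᵀ - c • (a2 s * y.1 s)) = 0
  arm : ∀ s, (U2ᵀ * S0 * U2) * (y.1 s * (a1 s)ᵀ - c • (a2 s * y.1 s)) * (U1ᵀ * S0 * U1) = 0
  rb : (U1ᵀ * S0 * U1) * y.2.1 = 0
  rk : (U2ᵀ * S0 * U2) * y.2.2 = 0
  cb : ∀ s, F * (U1 * (a1 s * (y.2.1 - (y.1 s)ᵀ * (U2ᵀ * S0 * U2)) +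
    c • ((y.2.1 - (y.1 s)ᵀ * (U2ᵀ * S0 * U2)) * a2 s))) = 0
  ck : ∀ s, F * (U2 * (c • (a2 s * (y.2.2 - y.1 s * (U1ᵀ * S0 * U1))) +
    (y.2.2 - y.1 s * (U1ᵀ * S0 * U1)) * a1 s)) = 0

/-- the relation of level 2 for two decorated families -/
def Rel2 (arm : δ → Fin 3) (F : Matrix ι δ K) (S0 : Matrix δ δ K) (U1 : Matrix δ (Fin m1) K)
    (U2 : Matrix δ (Fin m2) K) (r : K) (y y' : D3 K (Fin m1) (Fin m2)) : Matrix ι δ K :=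
  ∑ s, F * (U1 * (y'.2.1 * y.1 s - (y'.1 s)ᵀ * (U2ᵀ * S0 * U2) * y.1 s
      - (y'.1 s)ᵀ * y.2.1ᵀ) * U1ᵀ) * S0 * E K arm s +
    r • ∑ s, F * (U2 * (y.1 s * y'.2.2ᵀ + y.1 s * (U1ᵀ * S0 * U1) * (y'.1 s)ᵀ
      - y.2.2 * (y'.1 s)ᵀ) * U2ᵀ) * S0 * E K arm s

end defs

/-- **LEVEL 2, geometric half**: for the frames of two different blocks there is an infinite set
`Λ` of ratios `r = c₂/c₁` such that every exact family with radical arms can be decorated, and two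
decorated families (at `-r²`, `-r'²`) satisfy the level 2 relation modulo the good class. -/
def Geo2 : Prop :=
  ∀ {ι : Type} [Fintype ι] [DecidableEq ι] {δ : Type} [Fintype δ] [DecidableEq δ]
    {K : Type} [Field K] [Algebra ℂ K] [IsAlgClosed K]
    {arm : δ → Fin 3} {J : Matrix ι ι K} {B : Matrix δ δ K} {N W : Submodule K (Matrix ι δ K)}
    {F f : Matrix ι δ K} {P : Matrix ι ι K × (Fin 3 → Matrix ι ι K)} {R : Matrix δ ι K}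
    {D : End K (CoreM (PhS arm J B F R P.1))} {l : Fin 3 → ℕ}
    (S : STop.Setup arm J B N W F f P R D l) {ν ν' : K} (_ : ν ≠ ν')
    {m1 m2 : ℕ} {U1 : Matrix δ (Fin m1) K} {U2 : Matrix δ (Fin m2) K}
    {a1 : Fin 3 → Matrix (Fin m1) (Fin m1) K} {a2 : Fin 3 → Matrix (Fin m2) (Fin m2) K}
    (_ : UFr.Cq (UBlk.Qb (S.hCtx F S.hF).data S.hR P.1 D ν) U1)
    (_ : ∀ u ∈ UBlk.Qb (S.hCtx F S.hF).data S.hR P.1 D ν, ∃ x, u = U1 *ᵥ x)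
    (_ : ∀ x, U1 *ᵥ x = 0 → x = 0)
    (_ : ∀ s, B * E K arm s * (Fᵀ * J * (P.1 * F)) * U1 = U1 * a1 s)
    (_ : UFr.Cq (UBlk.Qb (S.hCtx F S.hF).data S.hR P.1 D ν') U2)
    (_ : ∀ u ∈ UBlk.Qb (S.hCtx F S.hF).data S.hR P.1 D ν', ∃ x, u = U2 *ᵥ x)
    (_ : ∀ x, U2 *ᵥ x = 0 → x = 0)
    (_ : ∀ s, B * E K arm s * (Fᵀ * J * (P.1 * F)) * U2 = U2 * a2 s)
    (_ : STop.Lev1),
    ∃ Λ : Set K, Λ.Infinite ∧ (0 : K) ∉ Λ ∧
      (∀ r ∈ Λ, ∀ X : Fin 3 → Matrix (Fin m2) (Fin m1) K,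
        ∑ s, (X s * (a1 s)ᵀ - (-(r ^ 2)) • (a2 s * X s)) = 0 →
        (∀ s, (U2ᵀ * (Fᵀ * J * (P.1 * F)) * U2) * (X s * (a1 s)ᵀ - (-(r ^ 2)) • (a2 s * X s)) *
          (U1ᵀ * (Fᵀ * J * (P.1 * F)) * U1) = 0) →
        ∃ β γ, Dec F (Fᵀ * J * (P.1 * F)) U1 U2 a1 a2 (-(r ^ 2)) (X, β, γ)) ∧
      (∀ r ∈ Λ, ∀ r' ∈ Λ, ∀ y y' : D3 K (Fin m1) (Fin m2),
        Dec F (Fᵀ * J * (P.1 * F)) U1 U2 a1 a2 (-(r ^ 2)) y →
        Dec F (Fᵀ * J * (P.1 * F)) U1 U2 a1 a2 (-(r' ^ 2)) y' →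
        Rel2 arm F (Fᵀ * J * (P.1 * F)) U1 U2 r' y y' ∈
          SLev0.QG arm J B N W F P (PC arm J B F R P.1)
            (fun μ : K => (SLev0.PbK arm J B F R P.1 D μ)) id)

end Crest.Agent.R172.SDec
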