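import Crest.Agent.R172.SUB2
import Crest.Agent.R172.SGl1

/-!
Row 172 (S0260), S-side (t2): lift of exact families from `X = (δ → K) ⧸ ZW W` to `K^δ`.
-/

set_option autoImplicit false
set_option linter.unusedSectionVars false
set_option linter.unusedFintypeInType false
set_option linter.unusedDecidableInType false

namespace Crest.Agent.R172.SULift

open Matrix Module TensorProduct Crest.Agent.R172.FO Crest.Agent.R172.Qt Crest.Agent.R172.SpS
  Crest.Agent.R172.Om Crest.Agent.R172.SUX Crest.Agent.R172.SUB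

section abs

variable {K : Type*} [Field K] {V1 V2 P1 P2 : Type*} [AddCommGroup V1] [Module K V1]
  [AddCommGroup V2] [Module K V2] [AddCommGroup P1] [Module K P1] [AddCommGroup P2] [Module K P2]
  {A : Fin 3 → End K V1} {B : Fin 3 → End K V2} {a : Fin 3 → End K P1} {b : Fin 3 → End K P2}

theorem exists_sum_of_top {V : Type*} [AddCommGroup V] [Module K V] {A : Fin 3 → End K V}
    (h : ⨆ t, LinearMap.range (A t) = ⊤) (p : V) : ∃ f : Fin 3 → V, p = ∑ t, A t (f t) := by
  classical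
  have hp : p ∈ ⨆ s, LinearMap.range (A s) := by rw [h]; trivial
  induction hp using Submodule.iSup_induction' with
  | mem s x hx =>
    obtain ⟨w, rfl⟩ := hx
    refine ⟨Pi.single s w, ?_⟩
    rw [Finset.sum_eq_single s]
    · rw [Pi.single_eq_same]
    · intro t _ ht
      rw [Pi.single_eq_of_ne ht, map_zero]
    · intro hh
      exact absurd (Finset.mem_univ _) hh
  | zero => exact ⟨0, by simp⟩
  | add x y _ _ hx hy =>
    obtain ⟨f, hf⟩ := hx
    obtain ⟨g, hg⟩ := hy
    refine ⟨fun t => f t + g t, ?_⟩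
    simp only [map_add, Finset.sum_add_distrib]
    rw [← hf, ← hg]

/-- **lift of exact families** along surjections with kernels killed by the operators -/
theorem lift_surj {π1 : V1 →ₗ[K] P1} {π2 : V2 →ₗ[K] P2} (s1 : Function.Surjective π1)
    (s2 : Function.Surjective π2) (c1 : ∀ t v, π1 (A t v) = a t (π1 v))
    (c2 : ∀ t v, π2 (B t v) = b t (π2 v))
    (hA : ⨆ t, LinearMap.range (A t) = ⊤) (hB : ⨆ t, LinearMap.range (B t) = ⊤)
    (h1 : ∀ t y, π1 y = 0 → A t y = 0) (h2 : ∀ t y, π2 y = 0 → B t y = 0)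
    {c : K} (hc : c ≠ 0) (x : Fin 3 → P2 ⊗[K] P1)
    (hx : ∑ t, ((a t).lTensor P2 (x t) - c • (b t).rTensor P1 (x t)) = 0) :
    ∃ z : Fin 3 → V2 ⊗[K] V1, (∀ t, TensorProduct.map π2 π1 (z t) = x t) ∧
      ∑ t, ((A t).lTensor V2 (z t) - c • (B t).rTensor V1 (z t)) = 0 := by
  classical
  have hsurj : Function.Surjective (TensorProduct.map π2 π1) := TensorProduct.map_surjective s2 s1
  choose z0 hz0 using fun t => hsurj (x t)
  let G : Submodule K (V2 ⊗[K] V1) :=
    { carrier := {e | ∃ z : Fin 3 → V2 ⊗[K] V1, (∀ t, TensorProduct.map π2 π1 (z t) = 0) ∧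
        ∑ t, ((A t).lTensor V2 (z t) - c • (B t).rTensor V1 (z t)) = e}
      add_mem' := by
        rintro _ _ ⟨z, hz, rfl⟩ ⟨w, hw, rfl⟩
        refine ⟨fun t => z t + w t, fun t => by rw [map_add, hz, hw, add_zero], ?_⟩
        rw [← Finset.sum_add_distrib]
        refine Finset.sum_congr rfl fun t _ => ?_
        rw [map_add, map_add, smul_add]
        abel
      zero_mem' := ⟨0, fun t => by simp, by simp⟩
      smul_mem' := by
        rintro r _ ⟨z, hz, rfl⟩
        refine ⟨fun t => r • z t, fun t => by rw [map_smul, hz, smul_zero], ?_⟩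
        rw [Finset.smul_sum]
        refine Finset.sum_congr rfl fun t _ => ?_
        rw [map_smul, map_smul, smul_sub, smul_comm c r] }
  have hmap : ∀ t, ∀ v : V2 ⊗[K] V1, TensorProduct.map π2 π1
      ((A t).lTensor V2 v - c • (B t).rTensor V1 v)
      = (a t).lTensor P2 (TensorProduct.map π2 π1 v)
        - c • (b t).rTensor P1 (TensorProduct.map π2 π1 v) := by
    intro t v
    induction v using TensorProduct.induction_on with
    | zero => simp
    | tmul p q =>
      rw [map_sub, map_smul, LinearMap.lTensor_tmul, LinearMap.rTensor_tmul,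
        TensorProduct.map_tmul, TensorProduct.map_tmul, TensorProduct.map_tmul,
        LinearMap.lTensor_tmul, LinearMap.rTensor_tmul, c1, c2]
    | add p q hp hq =>
      have e1 : (A t).lTensor V2 (p + q) - c • (B t).rTensor V1 (p + q)
          = ((A t).lTensor V2 p - c • (B t).rTensor V1 p)
            + ((A t).lTensor V2 q - c • (B t).rTensor V1 q) := by
        rw [map_add, map_add, smul_add]; abel
      rw [e1, map_add, hp, hq]
      simp only [map_add, smul_add]
      abel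
  set e : V2 ⊗[K] V1 := ∑ t, ((A t).lTensor V2 (z0 t) - c • (B t).rTensor V1 (z0 t)) with he
  have heker : e ∈ LinearMap.ker (TensorProduct.map π2 π1) := by
    rw [LinearMap.mem_ker, he, map_sum, Finset.sum_congr rfl fun t _ => hmap t (z0 t)]
    simp only [hz0]
    exact hx
  have hG : LinearMap.ker (TensorProduct.map π2 π1) ≤ G := by
    rw [TensorProduct.map_ker (f := (LinearMap.ker π2).subtype) (g := π2)
      (f' := (LinearMap.ker π1).subtype) (g' := π1)
      (by rw [LinearMap.exact_iff]; simp) s2 (by rw [LinearMap.exact_iff]; simp) s1]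
    refine sup_le ?_ ?_
    · rintro _ ⟨v, rfl⟩
      induction v using TensorProduct.induction_on with
      | zero => rw [map_zero]; exact G.zero_mem
      | tmul p y =>
        obtain ⟨f, hf⟩ := exists_sum_of_top hB p
        have hy : π1 (y : V1) = 0 := y.2
        refine ⟨fun t => -(c⁻¹ • (f t ⊗ₜ[K] (y : V1))), fun t => ?_, ?_⟩
        · rw [map_neg, map_smul, TensorProduct.map_tmul, hy, tmul_zero, smul_zero, neg_zero]
        · rw [LinearMap.lTensor_tmul, Submodule.subtype_apply, hf, TensorProduct.sum_tmul]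
          refine Finset.sum_congr rfl fun t _ => ?_
          rw [map_neg, map_smul, map_neg, map_smul, LinearMap.lTensor_tmul,
            LinearMap.rTensor_tmul, h1 t y hy, tmul_zero, smul_zero, neg_zero, zero_sub,
            smul_neg, neg_neg, smul_smul, mul_inv_cancel₀ hc, one_smul]
      | add v w hv hw => rw [map_add]; exact G.add_mem hv hw
    · rintro _ ⟨v, rfl⟩
      induction v using TensorProduct.induction_on with
      | zero => rw [map_zero]; exact G.zero_mem
      | tmul y p =>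
        obtain ⟨f, hf⟩ := exists_sum_of_top hA p
        have hy : π2 (y : V2) = 0 := y.2
        refine ⟨fun t => (y : V2) ⊗ₜ[K] f t, fun t => ?_, ?_⟩
        · rw [TensorProduct.map_tmul, hy, zero_tmul]
        · rw [LinearMap.rTensor_tmul, Submodule.subtype_apply, hf, TensorProduct.tmul_sum]
          refine Finset.sum_congr rfl fun t _ => ?_
          rw [LinearMap.lTensor_tmul, LinearMap.rTensor_tmul, h2 t y hy, zero_tmul, smul_zero,
            sub_zero]
      | add v w hv hw => rw [map_add]; exact G.add_mem hv hw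
  obtain ⟨w, hw, hwe⟩ := hG heker
  refine ⟨fun t => z0 t - w t, fun t => by rw [map_sub, hz0, hw, sub_zero], ?_⟩
  have e2 : ∑ t, ((A t).lTensor V2 (z0 t - w t) - c • (B t).rTensor V1 (z0 t - w t))
      = e - ∑ t, ((A t).lTensor V2 (w t) - c • (B t).rTensor V1 (w t)) := by
    rw [he, ← Finset.sum_sub_distrib]
    refine Finset.sum_congr rfl fun t _ => ?_
    rw [map_sub, map_sub, smul_sub]
    abel
  rw [e2, hwe, sub_self]

/-! ### the perfect hull -/

variable {V X : Type*} [AddCommGroup V] [Module K V] [AddCommGroup X] [Module K X]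
  {π : V →ₗ[K] X} {O : Fin 3 → End K V} {o : Fin 3 → End K X}

/-- descending word filtration starting at `C` -/
def Wd (O : Fin 3 → End K V) (C : Submodule K V) : ℕ → Submodule K V
  | 0 => C
  | m + 1 => ⨆ r, (Wd O C m).map (O r)

theorem Wd_anti_succ {C : Submodule K V} (hC : ∀ r, C.map (O r) ≤ C) (m : ℕ) :
    Wd O C (m + 1) ≤ Wd O C m := by
  induction m with
  | zero => exact iSup_le fun r => hC r
  | succ m ih => exact iSup_mono fun r => Submodule.map_mono ih

theorem Wd_map {C : Submodule K V} (hπ : ∀ r v, π (O r v) = o r (π v))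
    (hperf : C.map π ≤ ⨆ r, (C.map π).map (o r)) (hst : ∀ r, (C.map π).map (o r) ≤ C.map π)
    (m : ℕ) : (Wd O C m).map π = C.map π := by
  induction m with
  | zero => rfl
  | succ m ih =>
    change (⨆ r, (Wd O C m).map (O r)).map π = _
    rw [Submodule.map_iSup]
    have e : ∀ r, ((Wd O C m).map (O r)).map π = (C.map π).map (o r) := by
      intro r
      rw [← ih, ← Submodule.map_comp, ← Submodule.map_comp]
      congr 1
      exact LinearMap.ext fun v => hπ r v
    rw [iSup_congr e]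
    exact le_antisymm (iSup_le hst) hperf

/-- **the perfect hull** -/
theorem exists_hull [FiniteDimensional K V] (sπ : Function.Surjective π)
    (hπ : ∀ r v, π (O r v) = o r (π v)) {P : Submodule K X}
    (hst : ∀ r, P.map (o r) ≤ P) (hperf : P ≤ ⨆ r, P.map (o r)) :
    ∃ Q : Submodule K V, Q.map π = P ∧ (∀ r, Q.map (O r) ≤ Q) ∧ Q ≤ ⨆ r, Q.map (O r) := by
  set C : Submodule K V := P.comap π with hCdef
  have hCP : C.map π = P := Submodule.map_comap_eq_of_surjective sπ P
  have hC : ∀ r, C.map (O r) ≤ C := by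
    rintro r _ ⟨v, hv, rfl⟩
    rw [hCdef, Submodule.mem_comap, hπ]
    exact hst r ⟨π v, hv, rfl⟩
  obtain ⟨m, hm⟩ := WellFoundedGT.monotone_chain_condition
    (α := (Submodule K V)ᵒᵈ)
    ⟨fun n => OrderDual.toDual (Wd O C n), fun a b hab =>
      (antitone_nat_of_succ_le (Wd_anti_succ hC) : Antitone (Wd O C)) hab⟩
  have hm1 : Wd O C m = Wd O C (m + 1) := hm (m + 1) (Nat.le_succ m)
  refine ⟨Wd O C m, ?_, fun r => ?_, ?_⟩
  · rw [Wd_map hπ (by rw [hCP]; exact hperf) (by rw [hCP]; exact hst), hCP]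
  · calc (Wd O C m).map (O r) ≤ Wd O C (m + 1) :=
        le_iSup (fun r => (Wd O C m).map (O r)) r
      _ = _ := hm1.symm
  · exact hm1.le

end abs

/-! ### the lift to `K^δ` in the letters of `SGl1` -/

section inst

variable {ι : Type*} [Fintype ι] [DecidableEq ι] {δ : Type*} [Fintype δ] [DecidableEq δ]
variable {K : Type*} [Field K] {arm : δ → Fin 3} {B S : Matrix δ δ K}

theorem rs_top {Q : Submodule K (δ → K)} (h : ∀ r, ∀ u ∈ Q, SGl1.om arm B S r *ᵥ u ∈ Q)
    (hperf : ∀ u ∈ Q, ∃ c : Fin 3 → (δ → K), (∀ r, c r ∈ Q) ∧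
      ∑ r, SGl1.om arm B S r *ᵥ (c r) = u) :
    ⨆ r, LinearMap.range (SGl1.rs (SGl1.om arm B S r) Q (h r)) = ⊤ := by
  rw [eq_top_iff]
  rintro ⟨u, hu⟩ -
  obtain ⟨c, hc, e⟩ := hperf u hu
  have e1 : (⟨u, hu⟩ : Q) = ∑ r, SGl1.rs (SGl1.om arm B S r) Q (h r) ⟨c r, hc r⟩ := by
    apply Subtype.ext
    rw [AddSubmonoidClass.coe_finsetSum]
    simp only [SGl1.rs_coe]
    exact e.symm
  rw [e1]
  exact Submodule.sum_mem _ fun r _ => Submodule.mem_iSup_of_mem r ⟨_, rfl⟩

theorem defect_neg {V1 V2 : Type*} [AddCommGroup V1] [Module K V1] [AddCommGroup V2] [Module K V2]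
    (A : End K V1) (B' : End K V2) (c : K) (z : V2 ⊗[K] V1) :
    Dual.defect A (-B') c z = A.lTensor V2 z - (-c) • B'.rTensor V1 z := by
  induction z using TensorProduct.induction_on with
  | zero => simp
  | tmul p q =>
    rw [Dual.defect_tmul, LinearMap.lTensor_tmul, LinearMap.rTensor_tmul, LinearMap.neg_apply,
      TensorProduct.neg_tmul, smul_neg, neg_smul]
  | add p q hp hq => rw [map_add, hp, hq, map_add, map_add, smul_add]; abel

/-- **U-LIFT**: `Q_i ≤ K^δ` perfect and `ω`-stable, `π_i : Q_i → P_i` onto with kernel killed by the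
`ω_r`: every family of `P_2 ⊗ P_1` exact at `ρ²` lifts to one of `Q_2 ⊗ Q_1`. -/
theorem exists_lift {Q1 Q2 : Submodule K (δ → K)}
    (h1 : ∀ r, ∀ u ∈ Q1, SGl1.om arm B S r *ᵥ u ∈ Q1)
    (h2 : ∀ r, ∀ u ∈ Q2, SGl1.om arm B S r *ᵥ u ∈ Q2)
    (p1 : ∀ u ∈ Q1, ∃ c : Fin 3 → (δ → K), (∀ r, c r ∈ Q1) ∧
      ∑ r, SGl1.om arm B S r *ᵥ (c r) = u)
    (p2 : ∀ u ∈ Q2, ∃ c : Fin 3 → (δ → K), (∀ r, c r ∈ Q2) ∧
      ∑ r, SGl1.om arm B S r *ᵥ (c r) = u)
    {P1 P2 : Type*} [AddCommGroup P1] [Module K P1] [AddCommGroup P2] [Module K P2]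
    {π1 : Q1 →ₗ[K] P1} {π2 : Q2 →ₗ[K] P2} (s1 : Function.Surjective π1)
    (s2 : Function.Surjective π2) {a : Fin 3 → End K P1} {b : Fin 3 → End K P2}
    (c1 : ∀ r u, π1 (SGl1.rs (SGl1.om arm B S r) Q1 (h1 r) u) = a r (π1 u))
    (c2 : ∀ r u, π2 (SGl1.rs (SGl1.om arm B S r) Q2 (h2 r) u) = b r (π2 u))
    (k1 : ∀ r u, π1 u = 0 → SGl1.om arm B S r *ᵥ (u : δ → K) = 0)
    (k2 : ∀ r u, π2 u = 0 → SGl1.om arm B S r *ᵥ (u : δ → K) = 0)
    {ρ : K} (hρ : ρ ≠ 0) (x : Fin 3 → P2 ⊗[K] P1)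
    (hx : ∑ r, Dual.defect (a r) (-(b r)) (ρ ^ 2) (x r) = 0) :
    ∃ z : Fin 3 → Q2 ⊗[K] Q1, (∀ r, TensorProduct.map π2 π1 (z r) = x r) ∧
      ∑ r, Dual.defect (SGl1.rs (SGl1.om arm B S r) Q1 (h1 r))
        (-(SGl1.rs (SGl1.om arm B S r) Q2 (h2 r))) (ρ ^ 2) (z r) = 0 := by
  have hx' : ∑ r, ((a r).lTensor P2 (x r) - (-ρ ^ 2) • (b r).rTensor P1 (x r)) = 0 := by
    rw [← hx]
    exact Finset.sum_congr rfl fun r _ => (defect_neg _ _ _ _).symm
  obtain ⟨z, hz, hz'⟩ := lift_surj s1 s2 c1 c2 (rs_top h1 p1) (rs_top h2 p2)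
    (fun r u hu => Subtype.ext (k1 r u hu)) (fun r u hu => Subtype.ext (k2 r u hu))
    (c := -ρ ^ 2) (neg_ne_zero.2 (pow_ne_zero 2 hρ)) x hx'
  refine ⟨z, hz, ?_⟩
  rw [← hz']
  exact Finset.sum_congr rfl fun r _ => defect_neg _ _ _ _

end inst

end Crest.Agent.R172.SULift
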