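import Crest.Agent.R172.STop
import Crest.Agent.R172.UFr
import Crest.Agent.R172.SULift

/-!
Row 172 (S0260), (t2), S-side: the instantiation common to `Lev1` and `Lev2`.
-/

set_option autoImplicit false
set_option linter.unusedSectionVars false
set_option linter.unusedFintypeInType false
set_option linter.unusedDecidableInType false
set_option linter.unusedVariables false

namespace Crest.Agent.R172.SInst

open Module Matrix Crest.Agent.R172.FO Crest.Agent.R172.Qt Crest.Agent.R172.SpS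
open Crest.Agent.R172.SBlk Crest.Agent.R172.UBlk Crest.Agent.R172.STop Crest.Agent.R172.SEnd2
open Crest.Agent.R172.SCM
open Crest.Agent.R172.Om (Kiso)
open Crest.Agent.R172.PL (CoreM Ainf)
open Crest.Agent.R172.SC (PB)
open Crest.Agent.R172.SUX (th)

variable {ι : Type} [Fintype ι] [DecidableEq ι] {δ : Type} [Fintype δ] [DecidableEq δ]
variable {K : Type} [Field K] [Algebra ℂ K]
variable {arm : δ → Fin 3} {J : Matrix ι ι K} {B : Matrix δ δ K} {N W : Submodule K (Matrix ι δ K)}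
  {F f : Matrix ι δ K} {P : Matrix ι ι K × (Fin 3 → Matrix ι ι K)} {R : Matrix δ ι K}
  {D : End K (CoreM (PhS arm J B F R P.1))} {l : Fin 3 → ℕ}

/-- the frame context at `F` -/
theorem ctx (S : Setup arm J B N W F f P R D l) : Ctx ℂ arm J B N W F := S.hCtx F S.hF

theorem hfNW (S : Setup arm J B N W F f P R D l) : f ∈ N ⊓ W := S.hf.1

theorem hff (S : Setup arm J B N W F f P R D l) : fᵀ * J * f = 0 := by
  have h := (S.hCtx f S.hf).perp f (S.hCtx f S.hf).mem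
  exact h

/-- the U-level block -/
noncomputable abbrev QQb (S : Setup arm J B N W F f P R D l) (ν : K) : Submodule K (δ → K) :=
  Qb (ctx S).data S.hR P.1 D ν

/-- **the surjection from the U-level block to the coordinates of `BPkg`.** -/
theorem exists_pi [IsAlgClosed K] (S : Setup arm J B N W F f P R D l) {ν : K} {n : ℕ}
    {Q : Matrix ι (Fin n) K} {A : Fin 3 → Matrix (Fin n) (Fin n) K}
    (b : BPkg arm J B F R P.1 D ν l Q A) :
    ∃ π : QQb S ν →ₗ[K] (Fin n → K), Function.Surjective π ∧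
      (∀ u, Q *ᵥ (π u) = F *ᵥ (u : δ → K)) ∧
      (∀ (r : Fin 3) (u v : QQb S ν), (v : δ → K) =
        SGl1.om arm B (th J F P.1 F) r *ᵥ (u : δ → K) → π v = A r *ᵥ π u) ∧
      (∀ (r : Fin 3) (u : QQb S ν), π u = 0 →
        SGl1.om arm B (th J F P.1 F) r *ᵥ (u : δ → K) = 0) := by
  have hk : LinearMap.ker Q.mulVecLin = ⊥ := by
    rw [LinearMap.ker_eq_bot']
    exact fun x hx => b.inj x hx
  obtain ⟨L, hL⟩ := Q.mulVecLin.exists_leftInverse_of_injective hk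
  have hL' : ∀ x, L (Q *ᵥ x) = x := fun x => LinearMap.congr_fun hL x
  have hmap := Qb_map (ctx S) S.hR S.hD ν
  have hFu : ∀ u : QQb S ν, ∃ x, F *ᵥ (u : δ → K) = Q *ᵥ x := by
    intro u
    have h1 : gS F (u : δ → K) ∈ PB (PhS arm J B F R P.1) D ν := by
      rw [← hmap]; exact ⟨_, u.2, rfl⟩
    obtain ⟨x, hx⟩ := b.span _ h1
    exact ⟨x, hx⟩
  have hQ : ∀ u : QQb S ν, Q *ᵥ (L (F *ᵥ (u : δ → K))) = F *ᵥ (u : δ → K) := by
    intro u
    obtain ⟨x, hx⟩ := hFu u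
    rw [hx, hL']
  refine ⟨L ∘ₗ F.mulVecLin ∘ₗ (QQb S ν).subtype, ?_, hQ, ?_, ?_⟩
  · intro x
    obtain ⟨v, hv, hvx⟩ := b.mem x
    rw [← hmap] at hv
    obtain ⟨u, hu, huv⟩ := hv
    refine ⟨⟨u, hu⟩, ?_⟩
    change L (F *ᵥ u) = x
    have h1 : F *ᵥ u = Q *ᵥ x := by
      rw [← hvx, ← huv]; rfl
    rw [h1, hL']
  · intro r u v hv
    apply (injective_iff_map_eq_zero Q.mulVecLin).2 (fun x hx => b.inj x hx)
    change Q *ᵥ (L (F *ᵥ (v : δ → K))) = Q *ᵥ (A r *ᵥ (L (F *ᵥ (u : δ → K))))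
    have e1 : F * SGl1.om arm B (th J F P.1 F) r = M arm B r F F * (J * P.1) * F := by
      unfold SGl1.om th M
      rw [← (ctx S).data.B_arm]
      simp only [Matrix.mul_assoc]
    calc Q *ᵥ (L (F *ᵥ (v : δ → K))) = (F * SGl1.om arm B (th J F P.1 F) r) *ᵥ (u : δ → K) := by
          rw [hQ, hv, mulVec_mulVec]
      _ = (M arm B r F F * (J * P.1)) *ᵥ (Q *ᵥ (L (F *ᵥ (u : δ → K)))) := by
          rw [e1, hQ, mulVec_mulVec]
      _ = _ := by rw [mulVec_mulVec, b.act r, mulVec_mulVec]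
  · intro r u hu
    have h1 : F *ᵥ (u : δ → K) = 0 := by
      rw [← hQ u]
      rw [show L (F *ᵥ (u : δ → K)) = 0 from hu, mulVec_zero]
    have h2 : SGl1.om arm B (th J F P.1 F) r = B * E K arm r * (Fᵀ * J * P.1) * F := by
      unfold SGl1.om th
      simp only [Matrix.mul_assoc]
    rw [h2, ← mulVec_mulVec, h1, mulVec_zero]

/-- **matrix version**: a frame `U` of the U-level block (injective, `ω_s U = U a_s`) and the matrix
`C` of the surjection on the coordinates of `BPkg`. -/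
theorem exists_C [IsAlgClosed K] (S : Setup arm J B N W F f P R D l) {ν : K} {n : ℕ}
    {Q : Matrix ι (Fin n) K} {A : Fin 3 → Matrix (Fin n) (Fin n) K}
    (b : BPkg arm J B F R P.1 D ν l Q A) {m : ℕ} {U : Matrix δ (Fin m) K}
    {a : Fin 3 → Matrix (Fin m) (Fin m) K} (hU : UFr.Cq (QQb S ν) U)
    (hspan : ∀ u ∈ QQb S ν, ∃ x, u = U *ᵥ x) (hmem : ∀ x, U *ᵥ x ∈ QQb S ν)
    (ha : ∀ s, B * E K arm s * (Fᵀ * J * (P.1 * F)) * U = U * a s) :
    ∃ C : Matrix (Fin n) (Fin m) K, F * U = Q * C ∧ (∀ y, ∃ x, C *ᵥ x = y) ∧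
      (∀ s, A s * C = C * a s) ∧ (∀ s x, C *ᵥ x = 0 → U *ᵥ (a s *ᵥ x) = 0) ∧
      Cᵀ * (Qᵀ * (J * P.1) * Q) * C = Uᵀ * (Fᵀ * J * (P.1 * F)) * U := by
  obtain ⟨π, h1, h2, h3, h4⟩ := exists_pi S b
  let C : Matrix (Fin n) (Fin m) K := Matrix.of fun i j => π ⟨_, hU j⟩ i
  have hC : ∀ x, C *ᵥ x = π ⟨U *ᵥ x, hmem x⟩ := by
    intro x
    have e : (⟨U *ᵥ x, hmem x⟩ : QQb S ν) = ∑ j, x j • (⟨_, hU j⟩ : QQb S ν) := by
      apply Subtype.ext
      rw [Submodule.coe_sum]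
      have e' : U *ᵥ x = ∑ j, x j • (fun d => U d j) := by
        funext d
        rw [Finset.sum_apply]
        unfold Matrix.mulVec dotProduct
        exact Finset.sum_congr rfl fun j _ => by
          rw [Pi.smul_apply, smul_eq_mul, mul_comm]
      exact e'
    rw [e, map_sum]
    funext i
    rw [Finset.sum_apply]
    unfold Matrix.mulVec dotProduct
    refine Finset.sum_congr rfl fun j _ => ?_
    rw [map_smul, Pi.smul_apply, smul_eq_mul, mul_comm]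
    rfl
  have hFU : F * U = Q * C := by
    apply Matrix.ext_of_mulVec_single
    intro j
    rw [← mulVec_mulVec, ← mulVec_mulVec, hC, h2]
  refine ⟨C, hFU, ?_, ?_, ?_, ?_⟩
  · intro y
    obtain ⟨u, rfl⟩ := h1 y
    obtain ⟨x, hx⟩ := hspan _ u.2
    refine ⟨x, ?_⟩
    rw [hC]
    congr 1
    exact Subtype.ext hx.symm
  · intro s
    apply Matrix.ext_of_mulVec_single
    intro j
    rw [← mulVec_mulVec, ← mulVec_mulVec, hC, hC]
    symm
    apply h3 s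
    change U *ᵥ (a s *ᵥ _) = SGl1.om arm B (th J F P.1 F) s *ᵥ (U *ᵥ _)
    rw [mulVec_mulVec, mulVec_mulVec, ← ha s]
    rfl
  · intro s x hx
    rw [hC] at hx
    have := h4 s ⟨U *ᵥ x, hmem x⟩ hx
    change SGl1.om arm B (th J F P.1 F) s *ᵥ (U *ᵥ x) = 0 at this
    rw [mulVec_mulVec] at this ⊢
    rw [← ha s]
    exact this
  · calc Cᵀ * (Qᵀ * (J * P.1) * Q) * C = (Q * C)ᵀ * (J * P.1) * (Q * C) := by
          rw [transpose_mul]; simp only [Matrix.mul_assoc]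
      _ = _ := by rw [← hFU, transpose_mul]; simp only [Matrix.mul_assoc]

/-- **the family of points `H_t = F + t f` with the same L-derivation.** -/
theorem family (S : Setup arm J B N W F f P R D l) (h2 : (2 : K) ≠ 0) :
    ∃ (Y : Matrix δ δ K) (dY : Derivation ℂ K K), Yᵀ * B + B * Y = 0 ∧
      Realises arm N W (0 : Fin 3 → Matrix ι ι K) Y dY ∧
      Fᵀ * J * F.map dY = Fᵀ * J * (P.1 * F) ∧
      ∀ t : ℂ, ∃ (Pt : Matrix ι ι K × (Fin 3 → Matrix ι ι K)) (Ri : Matrix δ ι K),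
        F + (algebraMap ℂ K t) • f ∈ Kiso J N W ∧
        Ctx ℂ arm J B N W (F + (algebraMap ℂ K t) • f) ∧
        Pt ∈ NN arm J N (F + (algebraMap ℂ K t) • f) ∧
        Vert ℂ arm J N W (F + (algebraMap ℂ K t) • f) Pt ∧
        (F + (algebraMap ℂ K t) • f) * Ri * (F + (algebraMap ℂ K t) • f) =
          F + (algebraMap ℂ K t) • f ∧
        (∀ f' ∈ N ⊓ W, (F + (algebraMap ℂ K t) • f)ᵀ * J * (Pt.1 * f') =
          (F + (algebraMap ℂ K t) • f)ᵀ * J * f'.map dY) ∧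
        (F + (algebraMap ℂ K t) • f)ᵀ * J * (Pt.1 * F) =
          (F + (algebraMap ℂ K t) • f)ᵀ * J * (P.1 * F) ∧
        ∀ w : Matrix ι δ K, (F + (algebraMap ℂ K t) • f)ᵀ * J * w = 0 →
          (Pt.1 * (F + (algebraMap ℂ K t) • f))ᵀ * J * w =
            -((F + (algebraMap ℂ K t) • f)ᵀ * J * w.map dY) := by
  obtain ⟨Y, dY, h3, h4, h5, h6⟩ := PTy.exists_family h2 S.hCtx S.hNm S.hWm S.hF S.hf S.hV1
    S.hP S.hV2
  refine ⟨Y, dY, h3, h4, h5, fun t => ?_⟩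
  obtain ⟨Pt, hPt, hV, a, b, c⟩ := h6 t
  have hH : F + (algebraMap ℂ K t) • f ∈ Kiso J N W :=
    Submodule.add_mem _ S.hF (Submodule.smul_mem _ _ S.hf)
  obtain ⟨Ri, hRi⟩ := exists_gen_inv (F + (algebraMap ℂ K t) • f)
  exact ⟨Pt, Ri, hH, S.hCtx _ hH, hPt, hV, hRi, a, b, c⟩

/-- `Fr` and `K1` at `(H_t, P_t)` -/
theorem fr_k1 [IsAlgClosed K] (S : Setup arm J B N W F f P R D l) {a : K} {Pt : Matrix ι ι K}
    {dY : Derivation ℂ K K}
    (hY : ∀ f' ∈ N ⊓ W, (F + a • f)ᵀ * J * (Pt * f') = (F + a • f)ᵀ * J * f'.map dY)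
    (hPF : (F + a • f)ᵀ * J * (Pt * F) = (F + a • f)ᵀ * J * (P.1 * F)) {ν ν' : K}
    (hne : ν ≠ ν') (hc1 : 1 + a * ν ≠ 0) (hc2 : 1 + a * ν' ≠ 0) {n1 n2 : Type*} [Fintype n1]
    [Fintype n2] {U1 : Matrix δ n1 K} {U2 : Matrix δ n2 K}
    (hU1 : UFr.Cq (QQb S ν) U1) (hU2 : UFr.Cq (QQb S ν') U2) :
    SUX.Fr J F (F + a • f) Pt (Fᵀ * J * (P.1 * F)) (1 + a * ν) (1 + a * ν') U1 U2 ∧
    SUX.K1 J F (F + a • f) Pt (Fᵀ * J * (P.1 * F)) (1 + a * ν) U1 U2
      ((ν - ν')⁻¹ • (f - ν' • F)) :=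
  ⟨UFr.fr (ctx S) S.hR S.hD (S.hNil F S.hF) S.hP (hfNW S) (hff S) hY hPF hne hc1 hc2 hU1 hU2,
    UFr.k1 (ctx S) S.hR S.hD (S.hNil F S.hF) S.hP (hfNW S) (hff S) hY hPF hne hU1 hU2⟩

/-- the frame of the U-level block -/
theorem exists_frame [IsAlgClosed K] (S : Setup arm J B N W F f P R D l) (ν : K) :
    ∃ (n : ℕ) (U : Matrix δ (Fin n) K) (A : Fin 3 → Matrix (Fin n) (Fin n) K),
      UFr.Cq (QQb S ν) U ∧ (∀ u ∈ QQb S ν, ∃ x, u = U *ᵥ x) ∧ (∀ x, U *ᵥ x ∈ QQb S ν) ∧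
      (∀ x, U *ᵥ x = 0 → x = 0) ∧
      (∀ s, B * E K arm s * (Fᵀ * J * (P.1 * F)) * U = U * A s) :=
  UFr.exists_frame (ctx S) S.hR S.hD ν

/-- relations of a vector of the block -/
theorem rel [IsAlgClosed K] (S : Setup arm J B N W F f P R D l) {ν : K} {u : δ → K}
    (hu : u ∈ QQb S ν) : f *ᵥ u = ν • (F *ᵥ u) :=
  (Qb_rel (ctx S) S.hR S.hD (S.hNil F S.hF) S.hP (hfNW S) hu).1

/-- `(df) u = ν (dF) u` modulo `im F + im f`, tested form -/
theorem der_rel [IsAlgClosed K] (S : Setup arm J B N W F f P R D l) (d : Derivation ℂ K K)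
    {α : Type*} {A : Matrix ι α K} (hAg : Aᵀ * J * F = 0) (hAf : Aᵀ * J * f = 0) {ν : K}
    {u : δ → K} (hu : u ∈ QQb S ν) :
    (Aᵀ * J * f.map d) *ᵥ u = ν • ((Aᵀ * J * F.map d) *ᵥ u) :=
  UFr.der_rel (ctx S) S.hR S.hD (S.hNil F S.hF) S.hP (hfNW S) d hAg hAf hu

/-- the good parameters -/
def TT (K : Type) [Field K] [Algebra ℂ K] (ν ν' : K) : Set ℂ :=
  {t | 1 + algebraMap ℂ K t * ν ≠ 0 ∧ 1 + algebraMap ℂ K t * ν' ≠ 0}

theorem TT_infinite (ν ν' : K) : (TT K ν ν').Infinite := by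
  have h0 : ∀ ν : K, {t : ℂ | 1 + algebraMap ℂ K t * ν = 0}.Finite := by
    intro ν
    refine Set.Subsingleton.finite ?_
    intro s hs t ht
    have h1 : 1 + algebraMap ℂ K s * ν = 0 := hs
    have h2 : 1 + algebraMap ℂ K t * ν = 0 := ht
    have h3 : ν ≠ 0 := by
      rintro rfl
      rw [mul_zero, add_zero] at h1
      exact one_ne_zero h1
    have h4 : (algebraMap ℂ K s - algebraMap ℂ K t) * ν = 0 := by
      linear_combination h1 - h2
    exact (algebraMap ℂ K).injective (sub_eq_zero.1 ((mul_eq_zero.1 h4).resolve_right h3))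
  have h1 : ({t : ℂ | 1 + algebraMap ℂ K t * ν = 0} ∪
      {t : ℂ | 1 + algebraMap ℂ K t * ν' = 0}).Finite := (h0 ν).union (h0 ν')
  have h2 := h1.infinite_compl
  refine h2.mono ?_
  intro t ht
  simp only [Set.mem_compl_iff, Set.mem_union, Set.mem_ofPred_eq, not_or] at ht
  exact ht

/-- the ratios -/
def LL (K : Type) [Field K] [Algebra ℂ K] (ν ν' : K) : Set K :=
  (fun t : ℂ => (1 + algebraMap ℂ K t * ν') / (1 + algebraMap ℂ K t * ν)) '' (TT K ν ν')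

theorem LL_infinite {ν ν' : K} (hne : ν ≠ ν') : (LL K ν ν').Infinite := by
  refine (TT_infinite ν ν').image ?_
  intro s hs t ht hst
  simp only at hst
  rw [div_eq_div_iff hs.1 ht.1] at hst
  have h3 : (algebraMap ℂ K s - algebraMap ℂ K t) * (ν' - ν) = 0 := by linear_combination hst
  exact (algebraMap ℂ K).injective (sub_eq_zero.1
    ((mul_eq_zero.1 h3).resolve_right (sub_ne_zero.2 hne.symm)))

theorem LL_zero (ν ν' : K) : (0 : K) ∉ LL K ν ν' := by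
  rintro ⟨t, ht, h⟩
  exact (div_ne_zero ht.2 ht.1) h

theorem mem_LL {ν ν' ρ : K} (h : ρ ∈ LL K ν ν') : ∃ t : ℂ, 1 + algebraMap ℂ K t * ν ≠ 0 ∧
    1 + algebraMap ℂ K t * ν' ≠ 0 ∧
    (1 + algebraMap ℂ K t * ν) * ρ = 1 + algebraMap ℂ K t * ν' := by
  obtain ⟨t, ht, rfl⟩ := h
  exact ⟨t, ht.1, ht.2, mul_div_cancel₀ _ ht.1⟩

end Crest.Agent.R172.SInst
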