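import Crest.Agent.R172.SpS6

/-!
Row 172, G1 Step 2 (`T_f` is scalar), part 7: the derivation hypothesis `DerSp` for a pair `(g, p)`
(`g` isotropic, `p ∈ NN g`) with vertical derivations, and the conclusion at `(g, p)`:
`T_f φ_p = c φ_p` or the core is tame.
-/

set_option autoImplicit false
set_option linter.unusedSectionVars false

namespace Crest.Agent.R172.SpS

open Matrix Module Crest.Agent.R172.FO Crest.Agent.R172.Qt
open Crest.Agent.R172.Om (Kiso)
open Crest.Agent.R172.St (Nk T mem_T mem_Nk_zero mem_Nk_succ Nk_le_T T_stable T_closed T_eq_Nk)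
open Crest.Agent.R172.PL (Wk Ainf Rad CoreM coreOp resOp)

variable {ι : Type*} [Fintype ι] [DecidableEq ι] {δ : Type*} [Fintype δ] [DecidableEq δ]
variable {k K : Type*} [Field k] [Field K] [Algebra k K]
variable {arm : δ → Fin 3} {J : Matrix ι ι K} {B : Matrix δ δ K}
  {N W : Submodule K (Matrix ι δ K)} {g : Matrix ι δ K}

/-- restriction of a vector to a functional on `S`. -/
def res (g : Matrix ι δ K) : (ι → K) →ₗ[K] Dual K (Sg g) where
  toFun w :=
    { toFun := fun y => w ⬝ᵥ (y : ι → K)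
      map_add' := fun y y' => by rw [Submodule.coe_add, dotProduct_add]
      map_smul' := fun c y => by rw [Submodule.coe_smul, dotProduct_smul]; rfl }
  map_add' w w' := LinearMap.ext fun y => add_dotProduct w w' (y : ι → K)
  map_smul' c w := LinearMap.ext fun y => smul_dotProduct c w (y : ι → K)

theorem res_apply (w : ι → K) (y : Sg g) : res g w y = w ⬝ᵥ (y : ι → K) := rfl

theorem uu_res (w : ι → K) : uu g (res g w) = gᵀ *ᵥ w := by
  apply uu_eq
  intro y
  rw [res_apply, gS_coe, tdot]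

/-- the matrix of a tensor. -/
noncomputable def xm (x : Dual K (Sg g) →ₗ[K] Sg g) : Matrix ι ι K :=
  LinearMap.toMatrix' ((Sg g).subtype ∘ₗ x ∘ₗ res g)

theorem xm_mulVec (x : Dual K (Sg g) →ₗ[K] Sg g) (w : ι → K) :
    xm x *ᵥ w = ((x (res g w) : Sg g) : ι → K) := by
  rw [xm, LinearMap.toMatrix'_mulVec]
  rfl

theorem gR_mulVec {R : Matrix δ ι K} (hR : g * R * g = g) (v : Sg g) :
    g *ᵥ (R *ᵥ (v : ι → K)) = v := by
  obtain ⟨z, rfl⟩ := gS_surj g v
  rw [gS_coe, mulVec_mulVec, mulVec_mulVec, hR]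

theorem xm_symS {R : Matrix δ ι K} (hR : g * R * g = g) {x : Dual K (Sg g) →ₗ[K] Sg g}
    (hx : ∀ ζ ζ' : Dual K (Sg g), ζ (x ζ') = ζ' (x ζ)) : SymS g R (xm x) where
  symm := by
    have h1 : ∀ a b : ι → K, a ⬝ᵥ (xm x *ᵥ b) = b ⬝ᵥ (xm x *ᵥ a) := by
      intro a b
      rw [xm_mulVec, xm_mulVec, ← res_apply, ← res_apply, hx]
    ext i j
    have h3 := h1 (Pi.single j 1) (Pi.single i 1)
    simpa [Matrix.mulVec_single_one, single_dotProduct] using h3
  im := by
    apply Matrix.ext_of_mulVec_single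
    intro i
    rw [← mulVec_mulVec, ← mulVec_mulVec, xm_mulVec, gR_mulVec hR]

/-- `η v` as a restricted functional. -/
theorem bil_res {R : Matrix δ ι K} (hR : g * R * g = g) (A : Matrix ι ι K) (v : Sg g) :
    bil g R (gᵀ * A * g) v = res g (A *ᵥ (v : ι → K)) := by
  obtain ⟨z, rfl⟩ := gS_surj g v
  refine LinearMap.ext fun w => ?_
  obtain ⟨y, rfl⟩ := gS_surj g w
  rw [bil_gS hR, res_apply, gS_coe, gS_coe, ← mulVec_mulVec, ← mulVec_mulVec, dotProduct_comm,
    tdot]

theorem Mg_res (s : Fin 3) (w : ι → K) :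
    ((Mg arm B g s (res g w) : Sg g) : ι → K) = M arm B s g g *ᵥ w := by
  rw [Mg, Tn_apply, gS_coe, uu_res, mulVec_mulVec, mulVec_mulVec]
  unfold M
  simp only [Matrix.mul_assoc]

theorem Be_coe {R : Matrix δ ι K} (hR : g * R * g = g) (A : Matrix ι ι K) (s : Fin 3) (v : Sg g) :
    ((Be (Mg arm B g) (bil g R (gᵀ * A * g)) s v : Sg g) : ι → K) =
      (M arm B s g g * A) *ᵥ (v : ι → K) := by
  rw [Be_apply, bil_res hR, Mg_res, mulVec_mulVec]

theorem bil_coe {R : Matrix δ ι K} (hR : g * R * g = g) (A : Matrix ι ι K) (v w : Sg g) :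
    bil g R (gᵀ * A * g) v w = (A *ᵥ (v : ι → K)) ⬝ᵥ (w : ι → K) := by
  rw [bil_res hR, res_apply]

/-- coordinatewise derivation -/
def dv {α : Type*} (d : Derivation k K K) (v : α → K) : α → K := fun i => d (v i)

theorem dv_mulVec {α β : Type*} [Fintype β] (d : Derivation k K K) (A : Matrix α β K) (v : β → K) :
    dv d (A *ᵥ v) = A.map d *ᵥ v + A *ᵥ dv d v := by
  funext i
  change d ((A *ᵥ v) i) = (A.map d *ᵥ v) i + (A *ᵥ dv d v) i
  simp only [mulVec, dotProduct, map_sum, Derivation.leibniz, smul_eq_mul, map_apply, dv]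
  rw [Finset.sum_add_distrib, add_comm]
  congr 1
  exact Finset.sum_congr rfl fun x _ => mul_comm _ _

theorem dv_dot {β : Type*} [Fintype β] (d : Derivation k K K) (a v : β → K) :
    d (a ⬝ᵥ v) = dv d a ⬝ᵥ v + a ⬝ᵥ dv d v := by
  simp only [dotProduct, map_sum, Derivation.leibniz, smul_eq_mul, dv]
  rw [Finset.sum_add_distrib, add_comm]
  congr 1
  exact Finset.sum_congr rfl fun x _ => mul_comm _ _

theorem map_dsub {α β : Type*} (G : Matrix α β K) (d d' : Derivation k K K) :
    G.map (d - d') = G.map d - G.map d' := by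
  ext i j; simp

/-- vertical derivations of `g` in `Kiso` and of `p` in `NN g`. -/
structure Vert (k : Type*) {K : Type*} [Field k] [Field K] [Algebra k K] (arm : δ → Fin 3)
    (J : Matrix ι ι K) (N W : Submodule K (Matrix ι δ K)) (g : Matrix ι δ K)
    (p : Matrix ι ι K × (Fin 3 → Matrix ι ι K)) : Prop where
  v1 : ∀ w ∈ Kiso J N W, ∃ d : Derivation k K K, g.map d = w ∧
    Realises arm N W (0 : Fin 3 → Matrix ι ι K) (0 : Matrix δ δ K) d
  v2 : ∀ p' ∈ NN arm J N g, ∃ d : Derivation k K K, g.map d = 0 ∧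
    Realises arm N W (0 : Fin 3 → Matrix ι ι K) (0 : Matrix δ δ K) d ∧
    gᵀ * J * (p.1.map d * g) = gᵀ * J * (p'.1 * g)

theorem Realises.sub_zero' {X : Fin 3 → Matrix ι ι K} {ξ : Matrix δ δ K} {d d' : Derivation k K K}
    (h : Realises arm N W X ξ d)
    (h' : Realises arm N W (0 : Fin 3 → Matrix ι ι K) (0 : Matrix δ δ K) d') :
    Realises arm N W X ξ (d - d') := by
  have hsub : ∀ G : Matrix ι δ K, G.map (d - d') = G.map d - G.map d' := by
    intro G; ext i j; simp
  refine ⟨fun G hG => ?_, fun G hG => ?_⟩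
  · have h2 := h.onN G hG
    have h3 := h'.onN G hG
    rw [act_zero, sub_zero] at h3
    rw [hsub]
    have : G.map d - G.map d' - act arm X G = (G.map d - act arm X G) - G.map d' := by abel
    rw [this]
    exact N.sub_mem h2 h3
  · have h2 := h.onW G hG
    have h3 := h'.onW G hG
    rw [transpose_zero, Matrix.mul_zero, sub_zero] at h3
    rw [hsub]
    have : G.map d - G.map d' - G * ξᵀ = (G.map d - G * ξᵀ) - G.map d' := by abel
    rw [this]
    exact W.sub_mem h2 h3

/-- **The derivation hypothesis holds at `(g, p)`.** -/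
theorem derSp_of (h : Ctx k arm J B N W g) (h2 : (2 : K) ≠ 0) {R : Matrix δ ι K}
    (hR : g * R * g = g)
    {p : Matrix ι ι K × (Fin 3 → Matrix ι ι K)} (hp : p ∈ NN arm J N g)
    (hV : Vert k arm J N W g p) :
    DerSp (Mg arm B g) (bil g R (gᵀ * (J * p.1) * g)) := by
  have hD := h.data
  have hiso := h.iso
  intro x hx _ _ hcoc
  set xs : Fin 3 → Matrix ι ι K := fun s => xm (x s) with hxs
  have hxS : ∀ s, SymS g R (xs s) := fun s => xm_symS hR (hx s)
  have hΨs : ∀ s, (M arm B s g g)ᵀ = M arm B s g g := by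
    intro s
    unfold M
    rw [transpose_mul, transpose_mul, transpose_mul, transpose_transpose, E_transpose,
      hD.B_symm]
    simp only [Matrix.mul_assoc]
    rw [← Matrix.mul_assoc B, ← hD.B_arm, Matrix.mul_assoc]
  -- the cocycle condition in matrix form
  have hmat : ∑ s, (M arm B s g g * (J * p.1) * xs s - xs s * (J * p.1) * M arm B s g g) = 0 := by
    apply Matrix.ext_of_mulVec_single
    intro i
    have h1 := congrArg Subtype.val (hcoc (res g (Pi.single i 1)))
    rw [Submodule.coe_sum] at h1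
    rw [zero_mulVec, sum_mulVec]
    rw [show ((0 : Sg g) : ι → K) = 0 from rfl] at h1
    rw [← h1]
    refine Finset.sum_congr rfl fun s _ => ?_
    rw [Submodule.coe_sub, Be_coe hR, ← xm_mulVec, Al_apply, bil_res hR, Mg_res, ← xm_mulVec,
      sub_mulVec]
    simp only [mulVec_mulVec, Matrix.mul_assoc, hxs]
  set X : Fin 3 → Matrix ι ι K := fun s => XX J (xs s) p.1 with hXdef
  have hX : ∀ s, Skw J (X s) := fun s => skw_XX hD.J_symm (hxS s).symm hp.1
  have hXg : ∀ s, X s * g = xs s * J * p.1 * g := fun s => XX_g (hxS s) hiso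
  have hXg' : ∀ s, X s * g = g * (R * xs s * J * p.1 * g) := fun s => XX_g' (hxS s) hiso
  have hact : act arm X g = g * ∑ s, (R * xs s * J * p.1 * g) * E K arm s :=
    act_mul_const arm X g hXg'
  set Γ : Matrix δ δ K := ∑ s, (R * xs s * J * p.1 * g) * E K arm s with hΓ
  have hXΨ : ∀ s, X s * M arm B s g g = xs s * (J * p.1) * M arm B s g g := by
    intro s
    unfold M
    calc X s * (g * E K arm s * B * gᵀ) = (X s * g) * E K arm s * B * gᵀ := by
          simp only [Matrix.mul_assoc]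
      _ = _ := by rw [hXg]; simp only [Matrix.mul_assoc]
  -- the isotropy condition
  have hisoX : Iso arm B X g := by
    unfold Iso
    have e1 : act arm X g * B * gᵀ = ∑ s, xs s * (J * p.1) * M arm B s g g := by
      unfold act
      rw [Matrix.sum_mul, Matrix.sum_mul]
      refine Finset.sum_congr rfl fun s _ => ?_
      rw [← hXΨ]
      unfold M
      simp only [Matrix.mul_assoc]
    have e2 : g * B * (act arm X g)ᵀ = - ∑ s, M arm B s g g * (J * p.1) * xs s := by
      have e3 : g * B * (act arm X g)ᵀ = (act arm X g * B * gᵀ)ᵀ := by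
        rw [transpose_mul, transpose_mul, transpose_transpose, hD.B_symm, Matrix.mul_assoc]
      rw [e3, e1, transpose_sum, ← Finset.sum_neg_distrib]
      refine Finset.sum_congr rfl fun s _ => ?_
      have e4 : (J * p.1)ᵀ = -(J * p.1) := by rw [transpose_mul, hD.J_symm, hp.1.eq]
      rw [transpose_mul, transpose_mul, hΨs, e4, (hxS s).symm]
      simp only [Matrix.neg_mul, Matrix.mul_neg, Matrix.mul_assoc]
    rw [e1, e2, ← sub_eq_add_neg, ← Finset.sum_sub_distrib, ← neg_eq_zero,
      ← Finset.sum_neg_distrib, ← hmat]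
    refine Finset.sum_congr rfl fun s _ => ?_
    abel
  have hRact : g * R * act arm X g = act arm X g := by
    rw [hact, ← Matrix.mul_assoc, hR]
  obtain ⟨ξ, hξ, hξg⟩ := exists_xi hD.B_symm hD.B_unit g (act arm X g) R hRact hR hisoX
  obtain ⟨d0, hd0⟩ := hD.dir X ξ hX hξ
  have hw := kiso_of h h2 hR hp hxS hξ hξg hd0
  obtain ⟨d1, hd1, hr1⟩ := hV.v1 _ hw
  have hd2r := Realises.sub_zero' hd0 hr1
  have hd2g : g.map (d0 - d1) = g * Γ := by
    rw [map_dsub, hd1, ← hact]; abel
  have hp' := NN_der hD hp hiso hxS hd2r hd2g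
  obtain ⟨d3, hd3g, hr3, hd3p⟩ := hV.v2 _ hp'
  set d : Derivation k K K := d0 - d1 - d3 with hd
  have hdr : Realises arm N W X ξ d := Realises.sub_zero' hd2r hr3
  have hdg : g.map d = g * Γ := by rw [hd, map_dsub, hd3g, sub_zero, hd2g]
  have hdg' : g.map d = act arm X g := by rw [hdg, hact]
  have hdp : gᵀ * J * (p.1.map d * g) = 0 := by
    rw [hd, map_dsub, Matrix.sub_mul, Matrix.mul_sub, hd3p, sub_self]
  -- the semilinear map of `S`
  have hmem : ∀ v : Sg g, dv d (v : ι → K) ∈ Sg g := by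
    intro v
    obtain ⟨z, rfl⟩ := gS_surj g v
    rw [gS_coe, dv_mulVec, hdg, ← mulVec_mulVec, ← mulVec_add]
    exact ⟨_, rfl⟩
  let δS : Sg g →+ Sg g :=
    { toFun := fun v => ⟨dv d (v : ι → K), hmem v⟩
      map_zero' := Subtype.ext (funext fun i => map_zero d)
      map_add' := fun v w => Subtype.ext (funext fun i => map_add d _ _) }
  have hδS : ∀ v, ((δS v : Sg g) : ι → K) = dv d (v : ι → K) := fun v => rfl
  -- `Jp₁` moves trivially on `S`
  have hz1 : ∀ v : Sg g, gᵀ *ᵥ ((J * p.1).map d *ᵥ (v : ι → K)) = 0 := by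
    intro v
    obtain ⟨z, rfl⟩ := gS_surj g v
    rw [gS_coe, map_mul_der, hD.J_const, Matrix.zero_mul, zero_add, mulVec_mulVec, mulVec_mulVec]
    have : gᵀ * (J * p.1.map d) * g = gᵀ * J * (p.1.map d * g) := by
      simp only [Matrix.mul_assoc]
    rw [this, hdp, zero_mulVec]
  refine ⟨d.restrictScalars ℤ, δS, ?_, ?_, ?_⟩
  · intro c v
    apply Subtype.ext
    rw [Submodule.coe_add, Submodule.coe_smul, Submodule.coe_smul, hδS, hδS, Submodule.coe_smul]
    funext i
    change d (c * (v : ι → K) i) = d c * (v : ι → K) i + c * d ((v : ι → K) i)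
    rw [Derivation.leibniz, smul_eq_mul, smul_eq_mul]
    ring
  · intro v w
    change bil g R (gᵀ * (J * p.1) * g) (δS v) w + bil g R (gᵀ * (J * p.1) * g) v (δS w) =
      d (bil g R (gᵀ * (J * p.1) * g) v w)
    rw [bil_coe hR, bil_coe hR, bil_coe hR, hδS, hδS, dv_dot, dv_mulVec, add_dotProduct]
    have e1 : ((J * p.1).map d *ᵥ (v : ι → K)) ⬝ᵥ (w : ι → K) = 0 := by
      obtain ⟨y, rfl⟩ := gS_surj g w
      rw [gS_coe, ← tdot, hz1, zero_dotProduct]
    rw [e1, zero_add]
  · intro s v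
    apply Subtype.ext
    rw [Submodule.coe_sub, Submodule.coe_sub, hδS, Be_coe hR, Be_coe hR, hδS, Be_coe hR,
      bil_res hR, ← xm_mulVec, bil_res hR, ← xm_mulVec, Be_coe hR, dv_mulVec]
    have hΨd : (M arm B s g g).map d = X s * M arm B s g g + M arm B s g g * (X s)ᵀ :=
      hD.map_M g X d hdg' s
    have e0 : (M arm B s g g * (J * p.1)).map d *ᵥ (v : ι → K) =
        ((X s * M arm B s g g + M arm B s g g * (X s)ᵀ) * (J * p.1)) *ᵥ (v : ι → K) := by
      rw [map_mul_der, hΨd, add_mulVec]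
      have e1 : (M arm B s g g * (J * p.1).map d) *ᵥ (v : ι → K) = 0 := by
        unfold M
        rw [← mulVec_mulVec, ← mulVec_mulVec, hz1, mulVec_zero]
      rw [e1, add_zero]
    rw [e0]
    -- `Ψ X^T J p₁ = - Ψ J X p₁ = - Ψ J p₁ x J p₁`
    have e2 : M arm B s g g * (X s)ᵀ * (J * p.1) =
        -(M arm B s g g * (J * p.1) * xs s * (J * p.1)) := by
      have a1 : M arm B s g g * (X s)ᵀ * (J * p.1) = -(M arm B s g g * J * X s * p.1) := by
        calc M arm B s g g * (X s)ᵀ * (J * p.1) = M arm B s g g * ((X s)ᵀ * J) * p.1 := by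
              simp only [Matrix.mul_assoc]
          _ = _ := by rw [(hX s).eq]; simp only [Matrix.neg_mul, Matrix.mul_neg, Matrix.mul_assoc]
      have a2 : M arm B s g g * J * X s = M arm B s g g * (J * p.1) * xs s * J := by
        have a3 := gJ_XX hD.J_symm (hxS s) hp.1 hiso
        unfold M
        calc g * E K arm s * B * gᵀ * J * X s = g * E K arm s * B * (gᵀ * J * X s) := by
              simp only [Matrix.mul_assoc]
          _ = _ := by rw [hXdef]; simp only; rw [a3]; simp only [Matrix.mul_assoc]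
      rw [a1, a2]
      simp only [Matrix.mul_assoc]
    rw [Matrix.add_mul, e2, hXΨ]
    simp only [mulVec_mulVec, ← sub_eq_add_neg, sub_mulVec, Matrix.mul_assoc]
    abel

end Crest.Agent.R172.SpS
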