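import Crest.Agent.R172.SUX1
import Crest.Agent.R172.SpS7

/-!
Row 172 (S0260), S-side (t2) at the U-level.  `S = th H = Hᵀ J P H`, `om r = B E_r S`,
`nabla v = d v + Z v`.

* `om_map` / `nab_om` : `[nabla, om_r] = [Y_r S, om_r]`.
* `F_om` : `F om_r = H (B E_r th F)`, `omF_om`: `(B E_r th F) om_s = om_r (B E_s th F)`.
* `Wr m` = sum of the ranges of the words of length `m` in the `om_r`: nabla-stable,
  `F (Wr (m+1)) ≤ H (Wr m)`, `wd F (Wr m) ≤ H (Wr m)` for `Wr` stationary.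
-/

set_option autoImplicit false
set_option linter.unusedSectionVars false
set_option linter.unusedFintypeInType false
set_option linter.unusedDecidableInType false

namespace Crest.Agent.R172.SUB

open Matrix Module Crest.Agent.R172.FO Crest.Agent.R172.Qt Crest.Agent.R172.SpS
  Crest.Agent.R172.Om Crest.Agent.R172.SUX

variable {ι : Type*} [Fintype ι] [DecidableEq ι] {δ : Type*} [Fintype δ] [DecidableEq δ]
variable {k K : Type*} [Field k] [Field K] [Algebra k K]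
variable {arm : δ → Fin 3} {J : Matrix ι ι K} {B : Matrix δ δ K}
  {N W : Submodule K (Matrix ι δ K)} {H : Matrix ι δ K}

/-- `omF r F = B E_r θ_F`; `om r = omF r H` -/
def omF (arm : δ → Fin 3) (J : Matrix ι ι K) (B : Matrix δ δ K) (H : Matrix ι δ K)
    (P : Matrix ι ι K) (F : Matrix ι δ K) (r : Fin 3) : Matrix δ δ K :=
  B * E K arm r * th J H P F

/-- `om r = B E_r S` -/
def om (arm : δ → Fin 3) (J : Matrix ι ι K) (B : Matrix δ δ K) (H : Matrix ι δ K)
    (P : Matrix ι ι K) (r : Fin 3) : Matrix δ δ K := omF arm J B H P H r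

section deriv

variable {P : Matrix ι ι K × (Fin 3 → Matrix ι ι K)} {Y : Fin 3 → Matrix δ δ K}
  {d : Derivation k K K}

/-- `d θ_F = Zᵀ θ_F + θ_F Z + θ_{wd F}` -/
theorem th_map (h : Ctx k arm J B N W H) (m : Mv k arm J N W H P.1 Y d) {F : Matrix ι δ K}
    (hF : F ∈ N ⊓ W) :
    (th J H P.1 F).map d = (ZY arm J H P.1 Y)ᵀ * th J H P.1 F + th J H P.1 F * ZY arm J H P.1 Y
      + th J H P.1 (wd arm J H P.1 Y d F) := by
  have hdF : F.map d = F * ZY arm J H P.1 Y + wd arm J H P.1 Y d F := by unfold wd; abel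
  have e1 : Hᵀ * J * (P.1.map d * F) = 0 := m.dP F hF
  unfold th at *
  rw [map_mul_der, map_mul_der, map_mul_der, h.data.J_const, Matrix.mul_zero, add_zero,
    map_transpose_der, m.dH, Matrix.mul_add, e1, zero_add, hdF, Matrix.mul_add, Matrix.mul_add,
    transpose_mul]
  rw [← add_assoc]
  congr 1
  congr 1
  · simp only [Matrix.mul_assoc]
  · simp only [Matrix.mul_assoc]

theorem wd_H (m : Mv k arm J N W H P.1 Y d) : wd arm J H P.1 Y d H = 0 := by
  unfold wd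
  rw [m.dH, sub_self]

/-- `dS = Zᵀ S + S Z` -/
theorem S_map (h : Ctx k arm J B N W H) (m : Mv k arm J N W H P.1 Y d) :
    (th J H P.1 H).map d = (ZY arm J H P.1 Y)ᵀ * th J H P.1 H + th J H P.1 H * ZY arm J H P.1 Y := by
  rw [th_map h m ⟨h.memN, h.memW⟩, wd_H m]
  unfold th
  rw [Matrix.mul_zero, Matrix.mul_zero, add_zero]

theorem E_mul_B_E (hBE : ∀ s, E K arm s * B = B * E K arm s) (s r : Fin 3) :
    E K arm s * (B * E K arm r) = if s = r then B * E K arm r else 0 := by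
  rw [← Matrix.mul_assoc, hBE, Matrix.mul_assoc]
  by_cases hsr : s = r
  · rw [if_pos hsr, hsr, E_mul_self]
  · rw [if_neg hsr, E_mul_ne arm hsr, Matrix.mul_zero]

/-- `Z (B E_r) = Y_r S (B E_r)` -/
theorem Z_BE (hBE : ∀ s, E K arm s * B = B * E K arm s) (P : Matrix ι ι K)
    (Y : Fin 3 → Matrix δ δ K) (r : Fin 3) :
    ZY arm J H P Y * (B * E K arm r) = Y r * th J H P H * (B * E K arm r) := by
  unfold ZY
  rw [Matrix.sum_mul, Finset.sum_eq_single r]
  · rw [Matrix.mul_assoc, E_mul_B_E hBE, if_pos rfl]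
  · intro s _ hs
    rw [Matrix.mul_assoc, E_mul_B_E hBE, if_neg hs, Matrix.mul_zero]
  · intro hr
    exact absurd (Finset.mem_univ r) hr

/-- `(B E_r) Zᵀ = - B E_r S Y_r` -/
theorem BE_Zt (h : Ctx k arm J B N W H) (hP : P ∈ NN arm J N H) (hY : ∀ r, (Y r)ᵀ = Y r)
    (r : Fin 3) :
    B * E K arm r * (ZY arm J H P.1 Y)ᵀ = -(B * E K arm r * th J H P.1 H * Y r) := by
  have hD := h.data
  have hBE := hD.B_arm
  have hS := th_skew h hP ⟨h.memN, h.memW⟩
  have e1 := congrArg transpose (Z_BE (J := J) (H := H) hBE P.1 Y r)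
  simp only [transpose_mul, E_transpose, hD.B_symm, hBE, hS, hY, Matrix.neg_mul,
    Matrix.mul_neg] at e1
  rw [e1, ← Matrix.mul_assoc]

/-- **`d ω_r = ω_r Z - Z ω_r + Y_r S ω_r - ω_r Y_r S`** -/
theorem om_map (h : Ctx k arm J B N W H) (hP : P ∈ NN arm J N H) (hY : ∀ r, (Y r)ᵀ = Y r)
    (m : Mv k arm J N W H P.1 Y d) (r : Fin 3) :
    (om arm J B H P.1 r).map d = om arm J B H P.1 r * ZY arm J H P.1 Y
      - ZY arm J H P.1 Y * om arm J B H P.1 r
      + (Y r * th J H P.1 H * om arm J B H P.1 r - om arm J B H P.1 r * (Y r * th J H P.1 H)) := by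
  have hD := h.data
  have e1 : ZY arm J H P.1 Y * om arm J B H P.1 r = Y r * th J H P.1 H * om arm J B H P.1 r := by
    unfold om omF
    rw [← Matrix.mul_assoc, Z_BE hD.B_arm, Matrix.mul_assoc]
  have e2 : B * E K arm r * (ZY arm J H P.1 Y)ᵀ * th J H P.1 H
      = -(om arm J B H P.1 r * (Y r * th J H P.1 H)) := by
    rw [BE_Zt h hP hY, Matrix.neg_mul]
    unfold om omF
    simp only [Matrix.mul_assoc]
  rw [e1]
  have e3 : (om arm J B H P.1 r).map d = B * E K arm r * (th J H P.1 H).map d := by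
    unfold om omF
    rw [map_mul_der, map_mul_der, hD.B_const, E_map_der, Matrix.zero_mul, Matrix.mul_zero,
      add_zero, Matrix.zero_mul, zero_add]
  rw [e3, S_map h m, Matrix.mul_add, ← Matrix.mul_assoc, e2]
  have e4 : B * E K arm r * (th J H P.1 H * ZY arm J H P.1 Y)
      = om arm J B H P.1 r * ZY arm J H P.1 Y := by
    unfold om omF
    simp only [Matrix.mul_assoc]
  rw [e4]
  abel

/-- the covariant derivative on `δ → K` -/
def nab (arm : δ → Fin 3) (J : Matrix ι ι K) (H : Matrix ι δ K) (P : Matrix ι ι K)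
    (Y : Fin 3 → Matrix δ δ K) (d : Derivation k K K) (v : δ → K) : δ → K :=
  dv d v + ZY arm J H P Y *ᵥ v

theorem dv_add {α : Type*} (d : Derivation k K K) (v w : α → K) :
    dv d (v + w) = dv d v + dv d w := by
  funext i; simp [dv]

theorem dv_smul {α : Type*} (d : Derivation k K K) (a : K) (v : α → K) :
    dv d (a • v) = a • dv d v + d a • v := by
  funext i
  simp only [dv, Pi.smul_apply, Pi.add_apply, smul_eq_mul, Derivation.leibniz]
  ring

theorem nab_add (P : Matrix ι ι K) (v w : δ → K) :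
    nab arm J H P Y d (v + w) = nab arm J H P Y d v + nab arm J H P Y d w := by
  unfold nab
  rw [dv_add, mulVec_add]
  abel

theorem nab_zero (P : Matrix ι ι K) : nab arm J H P Y d (0 : δ → K) = 0 := by
  have h := nab_add (arm := arm) (J := J) (H := H) (Y := Y) (d := d) P 0 0
  rw [add_zero] at h
  exact left_eq_add.1 h

theorem nab_smul (P : Matrix ι ι K) (a : K) (v : δ → K) :
    nab arm J H P Y d (a • v) = a • nab arm J H P Y d v + d a • v := by
  unfold nab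
  rw [dv_smul, mulVec_smul, smul_add]
  abel

/-- `d (H v) = H (nabla v)` -/
theorem H_nab (m : Mv k arm J N W H P.1 Y d) (v : δ → K) :
    dv d (H *ᵥ v) = H *ᵥ nab arm J H P.1 Y d v := by
  rw [dv_mulVec, m.dH]
  unfold nab
  rw [mulVec_add, mulVec_mulVec]
  abel

/-- `d (F v) = F (nabla v) + (wd F) v` -/
theorem F_nab (P : Matrix ι ι K) (F : Matrix ι δ K) (v : δ → K) :
    dv d (F *ᵥ v) = F *ᵥ nab arm J H P Y d v + wd arm J H P Y d F *ᵥ v := by
  rw [dv_mulVec]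
  unfold nab wd
  rw [mulVec_add, mulVec_mulVec, sub_mulVec]
  abel

/-- **`[nabla, ω_r] = [Y_r S, ω_r]`** -/
theorem nab_om (h : Ctx k arm J B N W H) (hP : P ∈ NN arm J N H) (hY : ∀ r, (Y r)ᵀ = Y r)
    (m : Mv k arm J N W H P.1 Y d) (r : Fin 3) (v : δ → K) :
    nab arm J H P.1 Y d (om arm J B H P.1 r *ᵥ v)
      = om arm J B H P.1 r *ᵥ nab arm J H P.1 Y d v
        + (Y r * th J H P.1 H) *ᵥ (om arm J B H P.1 r *ᵥ v)
        - om arm J B H P.1 r *ᵥ ((Y r * th J H P.1 H) *ᵥ v) := by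
  unfold nab
  rw [dv_mulVec, om_map h hP hY m, mulVec_add, mulVec_mulVec, mulVec_mulVec, mulVec_mulVec,
    mulVec_mulVec]
  simp only [add_mulVec, sub_mulVec]
  abel

/-- `d (aᵀ S v) = (∇a)ᵀ S v + aᵀ S (∇v)` -/
theorem form_nab (h : Ctx k arm J B N W H) (m : Mv k arm J N W H P.1 Y d) (a v : δ → K) :
    d (a ⬝ᵥ (th J H P.1 H *ᵥ v)) = nab arm J H P.1 Y d a ⬝ᵥ (th J H P.1 H *ᵥ v)
      + a ⬝ᵥ (th J H P.1 H *ᵥ nab arm J H P.1 Y d v) := by
  rw [dv_dot, dv_mulVec, S_map h m]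
  unfold nab
  rw [add_mulVec, mulVec_add, dotProduct_add, dotProduct_add, dotProduct_add, add_dotProduct,
    ← mulVec_mulVec, ← mulVec_mulVec]
  have e : a ⬝ᵥ ((ZY arm J H P.1 Y)ᵀ *ᵥ (th J H P.1 H *ᵥ v))
      = (ZY arm J H P.1 Y *ᵥ a) ⬝ᵥ (th J H P.1 H *ᵥ v) := by
    rw [dotProduct_comm, mulVec_transpose, ← dotProduct_mulVec, dotProduct_comm]
  rw [e]
  abel

/-- `d (aᵀ θ_F v) = (∇a)ᵀ θ_F v + aᵀ θ_F (∇v) + aᵀ θ_{wd F} v` -/
theorem formF_nab (h : Ctx k arm J B N W H) (m : Mv k arm J N W H P.1 Y d) {F : Matrix ι δ K}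
    (hF : F ∈ N ⊓ W) (a v : δ → K) :
    d (a ⬝ᵥ (th J H P.1 F *ᵥ v)) = nab arm J H P.1 Y d a ⬝ᵥ (th J H P.1 F *ᵥ v)
      + a ⬝ᵥ (th J H P.1 F *ᵥ nab arm J H P.1 Y d v)
      + a ⬝ᵥ (th J H P.1 (wd arm J H P.1 Y d F) *ᵥ v) := by
  rw [dv_dot, dv_mulVec, th_map h m hF]
  unfold nab
  rw [add_mulVec, add_mulVec, mulVec_add, dotProduct_add, dotProduct_add, dotProduct_add,
    dotProduct_add, add_dotProduct, ← mulVec_mulVec, ← mulVec_mulVec]
  have e : a ⬝ᵥ ((ZY arm J H P.1 Y)ᵀ *ᵥ (th J H P.1 F *ᵥ v))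
      = (ZY arm J H P.1 Y *ᵥ a) ⬝ᵥ (th J H P.1 F *ᵥ v) := by
    rw [dotProduct_comm, mulVec_transpose, ← dotProduct_mulVec, dotProduct_comm]
  rw [e]
  abel

end deriv

/-! ### the action of `𝒦` on the words -/

section words

variable {P : Matrix ι ι K × (Fin 3 → Matrix ι ι K)}

/-- `F (B E_r θ_{F'}) = F' (B E_r θ_F)` for `F, F' ∈ 𝒦` -- here for `F' = H` -/
theorem F_om (h : Ctx k arm J B N W H) (hP : P ∈ NN arm J N H) {F : Matrix ι δ K}
    (hF : F ∈ N ⊓ W) (r : Fin 3) :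
    F * om arm J B H P.1 r = H * omF arm J B H P.1 F r := by
  have hD := h.data
  have hs := hD.symm_arm hF (F' := H) ⟨h.memN, h.memW⟩ r
  unfold M at hs
  have e1 : F * om arm J B H P.1 r = F * E K arm r * B * Hᵀ * (J * (P.1 * H)) := by
    unfold om omF th
    have := hD.B_arm r
    calc F * (B * E K arm r * (Hᵀ * J * (P.1 * H)))
        = F * (B * E K arm r) * (Hᵀ * (J * (P.1 * H))) := by simp only [Matrix.mul_assoc]
      _ = _ := by rw [← this]; simp only [Matrix.mul_assoc]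
  rw [e1, hs]
  have e2 : H * E K arm r * B * Fᵀ * (J * (P.1 * H))
      = H * (E K arm r * B) * (Fᵀ * J * (P.1 * H)) := by simp only [Matrix.mul_assoc]
  rw [e2, th_flip h hP hF, hD.B_arm]
  unfold omF
  simp only [Matrix.mul_assoc]

/-- `θ_F om_r = S (B E_r θ_F)` -/
theorem th_om (h : Ctx k arm J B N W H) (hP : P ∈ NN arm J N H) {F : Matrix ι δ K}
    (hF : F ∈ N ⊓ W) (r : Fin 3) :
    th J H P.1 F * om arm J B H P.1 r = th J H P.1 H * omF arm J B H P.1 F r := by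
  have e : ∀ G : Matrix ι δ K, ∀ C : Matrix δ δ K, th J H P.1 G * C = Hᵀ * J * (P.1 * (G * C)) := by
    intro G C
    unfold th
    simp only [Matrix.mul_assoc]
  rw [e, e, F_om h hP hF]

/-- `(B E_r θ_F) om_s = om_r (B E_s θ_F)` -/
theorem omF_om (h : Ctx k arm J B N W H) (hP : P ∈ NN arm J N H) {F : Matrix ι δ K}
    (hF : F ∈ N ⊓ W) (r s : Fin 3) :
    omF arm J B H P.1 F r * om arm J B H P.1 s = om arm J B H P.1 r * omF arm J B H P.1 F s := by
  have e := th_om h hP hF s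
  calc omF arm J B H P.1 F r * om arm J B H P.1 s
      = B * E K arm r * (th J H P.1 F * om arm J B H P.1 s) := by
        unfold omF; simp only [Matrix.mul_assoc]
    _ = _ := by
        rw [e]
        unfold om omF
        simp only [Matrix.mul_assoc]

variable (arm J B H) in
/-- sum of the ranges of the words of length `m` -/
def Wr (P : Matrix ι ι K) : ℕ → Submodule K (δ → K)
  | 0 => ⊤
  | m + 1 => ⨆ r, (Wr P m).map (om arm J B H P r).mulVecLin

theorem Wr_succ (P : Matrix ι ι K) (m : ℕ) :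
    Wr arm J B H P (m + 1) = ⨆ r, (Wr arm J B H P m).map (om arm J B H P r).mulVecLin := rfl

theorem Wr_ind {P : Matrix ι ι K} {m : ℕ} {C : (δ → K) → Prop}
    (h1 : ∀ r, ∀ v ∈ Wr arm J B H P m, C (om arm J B H P r *ᵥ v)) (h0 : C 0)
    (ha : ∀ v w, C v → C w → C (v + w)) {v : δ → K} (hv : v ∈ Wr arm J B H P (m + 1)) : C v := by
  rw [Wr_succ] at hv
  refine Submodule.iSup_induction _ (motive := C) hv ?_ h0 ha
  rintro r _ ⟨x, hx, rfl⟩
  exact h1 r x hx

theorem om_Wr {P : Matrix ι ι K} {m : ℕ} (r : Fin 3) {v : δ → K} (hv : v ∈ Wr arm J B H P m) :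
    om arm J B H P r *ᵥ v ∈ Wr arm J B H P (m + 1) := by
  rw [Wr_succ]
  exact Submodule.mem_iSup_of_mem r ⟨v, hv, rfl⟩

theorem Wr_anti_succ (P : Matrix ι ι K) (m : ℕ) : Wr arm J B H P (m + 1) ≤ Wr arm J B H P m := by
  induction m with
  | zero => exact le_top
  | succ m ih =>
    intro v hv
    refine Wr_ind (C := fun v => v ∈ Wr arm J B H P (m + 1)) ?_ (Submodule.zero_mem _)
      (fun _ _ => Submodule.add_mem _) hv
    intro r x hx
    exact om_Wr r (ih hx)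

theorem Wr_anti (P : Matrix ι ι K) : Antitone (Wr arm J B H P) :=
  antitone_nat_of_succ_le (Wr_anti_succ P)

/-- stationarity -/
theorem exists_stat (P : Matrix ι ι K) :
    ∃ m, ∀ n, m ≤ n → Wr arm J B H P n = Wr arm J B H P m := by
  obtain ⟨m, hm⟩ := WellFoundedGT.monotone_chain_condition
    (α := (Submodule K (δ → K))ᵒᵈ)
    ⟨fun n => OrderDual.toDual (Wr arm J B H P n), fun a b hab => Wr_anti P hab⟩
  exact ⟨m, fun n hn => (hm n hn).symm⟩

/-- every perfect submodule is contained in every `Wr m` -/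
theorem le_Wr {P : Matrix ι ι K} {Q : Submodule K (δ → K)}
    (hQ : Q ≤ ⨆ r, Q.map (om arm J B H P r).mulVecLin) (m : ℕ) : Q ≤ Wr arm J B H P m := by
  induction m with
  | zero => exact le_top
  | succ m ih =>
    refine hQ.trans ?_
    rw [Wr_succ]
    exact iSup_mono fun r => Submodule.map_mono ih

theorem omF_Wr (h : Ctx k arm J B N W H) (hP : P ∈ NN arm J N H) {F : Matrix ι δ K}
    (hF : F ∈ N ⊓ W) (m : ℕ) : ∀ r, ∀ v ∈ Wr arm J B H P.1 m,
      omF arm J B H P.1 F r *ᵥ v ∈ Wr arm J B H P.1 m := by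
  induction m with
  | zero => intro r v _; trivial
  | succ m ih =>
    intro r v hv
    refine Wr_ind (C := fun v => omF arm J B H P.1 F r *ᵥ v ∈ Wr arm J B H P.1 (m + 1)) ?_ ?_ ?_ hv
    · intro s x hx
      rw [mulVec_mulVec, omF_om h hP hF, ← mulVec_mulVec]
      exact om_Wr r (ih s x hx)
    · rw [mulVec_zero]; exact Submodule.zero_mem _
    · intro a b ha hb
      rw [mulVec_add]; exact Submodule.add_mem _ ha hb

/-- **`F (Wr (m+1)) ≤ H (Wr m)`** -/
theorem F_Wr (h : Ctx k arm J B N W H) (hP : P ∈ NN arm J N H) {F : Matrix ι δ K}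
    (hF : F ∈ N ⊓ W) {m : ℕ} {v : δ → K} (hv : v ∈ Wr arm J B H P.1 (m + 1)) :
    ∃ u ∈ Wr arm J B H P.1 m, F *ᵥ v = H *ᵥ u := by
  refine Wr_ind (C := fun v => ∃ u ∈ Wr arm J B H P.1 m, F *ᵥ v = H *ᵥ u) ?_ ?_ ?_ hv
  · intro r x hx
    refine ⟨omF arm J B H P.1 F r *ᵥ x, omF_Wr h hP hF m r x hx, ?_⟩
    rw [mulVec_mulVec, F_om h hP hF, mulVec_mulVec]
  · exact ⟨0, Submodule.zero_mem _, by rw [mulVec_zero, mulVec_zero]⟩
  · rintro a b ⟨u, hu, e⟩ ⟨u', hu', e'⟩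
    exact ⟨u + u', Submodule.add_mem _ hu hu', by rw [mulVec_add, mulVec_add, e, e']⟩

/-- `θ_w u = S z` if `w u = H z` -/
theorem th_mulVec_of {w : Matrix ι δ K} {u z : δ → K} (Pm : Matrix ι ι K)
    (hz : w *ᵥ u = H *ᵥ z) : th J H Pm w *ᵥ u = th J H Pm H *ᵥ z := by
  unfold th
  simp only [← mulVec_mulVec]
  rw [hz]

end words

/-! ### nabla on the words -/

section nabwords

variable {P : Matrix ι ι K × (Fin 3 → Matrix ι ι K)} {Y : Fin 3 → Matrix δ δ K}
  {d : Derivation k K K}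

/-- **`nabla (Wr m) ≤ Wr m`** if the columns of the `Y r` lie in all `Wr m` -/
theorem nab_Wr (h : Ctx k arm J B N W H) (hP : P ∈ NN arm J N H) (hY : ∀ r, (Y r)ᵀ = Y r)
    (mv : Mv k arm J N W H P.1 Y d) (m : ℕ) (hYU : ∀ r v, Y r *ᵥ v ∈ Wr arm J B H P.1 m) :
    ∀ v ∈ Wr arm J B H P.1 m, nab arm J H P.1 Y d v ∈ Wr arm J B H P.1 m := by
  induction m with
  | zero => intro v _; trivial
  | succ m ih =>
    have hYm : ∀ r v, Y r *ᵥ v ∈ Wr arm J B H P.1 m := fun r v => Wr_anti_succ P.1 m (hYU r v)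
    intro v hv
    refine Wr_ind (C := fun v => nab arm J H P.1 Y d v ∈ Wr arm J B H P.1 (m + 1)) ?_ ?_ ?_ hv
    · intro r x hx
      rw [nab_om h hP hY mv]
      refine Submodule.sub_mem _ (Submodule.add_mem _ (om_Wr r (ih hYm x hx)) ?_) (om_Wr r ?_)
      · rw [← mulVec_mulVec]
        exact hYU r _
      · rw [← mulVec_mulVec]
        exact hYm r _
    · rw [nab_zero]; exact Submodule.zero_mem _
    · intro a b ha hb
      rw [nab_add]; exact Submodule.add_mem _ ha hb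

/-- **`(wd F) u = H z`**: for `F u = H u'`, `F (nabla u) = H u''`: `z = nabla u' - u''` -/
theorem wd_mulVec (mv : Mv k arm J N W H P.1 Y d) {F : Matrix ι δ K} {u u' u'' : δ → K}
    (h1 : F *ᵥ u = H *ᵥ u') (h2 : F *ᵥ nab arm J H P.1 Y d u = H *ᵥ u'') :
    wd arm J H P.1 Y d F *ᵥ u = H *ᵥ (nab arm J H P.1 Y d u' - u'') := by
  have e1 := F_nab (arm := arm) (J := J) (H := H) (Y := Y) (d := d) P.1 F u
  rw [h1, H_nab mv, h2] at e1
  rw [mulVec_sub, e1]
  abel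

/-- **`(wd F)(Wr (m+2)) ≤ H (Wr (m+1) + ..)`**, stationary form -/
theorem wd_Wr (h : Ctx k arm J B N W H) (hP : P ∈ NN arm J N H) (hY : ∀ r, (Y r)ᵀ = Y r)
    (mv : Mv k arm J N W H P.1 Y d) {F : Matrix ι δ K} (hF : F ∈ N ⊓ W) {m : ℕ}
    (hYU : ∀ r v, Y r *ᵥ v ∈ Wr arm J B H P.1 (m + 1)) {v : δ → K}
    (hv : v ∈ Wr arm J B H P.1 (m + 1)) :
    ∃ u ∈ Wr arm J B H P.1 m, wd arm J H P.1 Y d F *ᵥ v = H *ᵥ u := by
  have hYm : ∀ r v, Y r *ᵥ v ∈ Wr arm J B H P.1 m := fun r v => Wr_anti_succ P.1 m (hYU r v)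
  obtain ⟨u', hu', e1⟩ := F_Wr h hP hF hv
  obtain ⟨u'', hu'', e2⟩ := F_Wr h hP hF (nab_Wr h hP hY mv (m + 1) hYU v hv)
  exact ⟨_, Submodule.sub_mem _ (nab_Wr h hP hY mv m hYm u' hu') hu'', wd_mulVec mv e1 e2⟩

/-- **block form**: `F u = λ H u`: `(wd F) u = dλ H u - (F - λ H)(nabla u)` -/
theorem wd_block (mv : Mv k arm J N W H P.1 Y d) {F : Matrix ι δ K} {u : δ → K} {lam : K}
    (h1 : F *ᵥ u = lam • (H *ᵥ u)) :
    wd arm J H P.1 Y d F *ᵥ u = d lam • (H *ᵥ u)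
      - (F - lam • H) *ᵥ nab arm J H P.1 Y d u := by
  have e1 := F_nab (arm := arm) (J := J) (H := H) (Y := Y) (d := d) P.1 F u
  rw [h1, dv_smul, H_nab mv] at e1
  rw [sub_mulVec, smul_mulVec]
  have e2 : wd arm J H P.1 Y d F *ᵥ u =
      lam • (H *ᵥ nab arm J H P.1 Y d u) + d lam • (H *ᵥ u) - F *ᵥ nab arm J H P.1 Y d u := by
    rw [e1]; abel
  rw [e2]
  abel

/-- block form with `nabla u = a + b`, `F a = λ H a`, `F b = μ H b` -/
theorem wd_block' (mv : Mv k arm J N W H P.1 Y d) {F : Matrix ι δ K} {u a b : δ → K}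
    {lam mu : K} (h1 : F *ᵥ u = lam • (H *ᵥ u)) (hn : nab arm J H P.1 Y d u = a + b)
    (ha : F *ᵥ a = lam • (H *ᵥ a)) (hb : F *ᵥ b = mu • (H *ᵥ b)) :
    wd arm J H P.1 Y d F *ᵥ u = H *ᵥ (d lam • u + (lam - mu) • b) := by
  rw [wd_block mv h1, hn, mulVec_add, sub_mulVec, sub_mulVec, smul_mulVec, smul_mulVec,
    ha, hb, sub_self, zero_add, mulVec_add, mulVec_smul, mulVec_smul, sub_smul]
  abel

end nabwords

end Crest.Agent.R172.SUB
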