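import Crest.Agent.R172.SUXF
import Crest.Agent.R172.SUB

/-!
Row 172 (S0260), (t2), level 2: the fields `zb`, `zk` of the decorated families (helper952, note
21:39): `F U2 x = 0` implies `F U1 β x ∈ range (F U2)`.
-/

set_option autoImplicit false
set_option linter.unusedSectionVars false
set_option linter.unusedFintypeInType false

namespace Crest.Agent.R172.SZb601

open Matrix Module Crest.Agent.R172.FO Crest.Agent.R172.Qt Crest.Agent.R172.SpS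
  Crest.Agent.R172.Om Crest.Agent.R172.SUX

variable {ι : Type*} [Fintype ι] [DecidableEq ι] {δ : Type*} [Fintype δ] [DecidableEq δ]
variable {k K : Type*} [Field k] [Field K] [Algebra k K]
variable {arm : δ → Fin 3} {J : Matrix ι ι K} {H F : Matrix ι δ K}
variable {n1 n2 : Type*} [Fintype n1] [Fintype n2]
variable {P : Matrix ι ι K} {S0 : Matrix δ δ K} {c1 c2 : K} {U1 : Matrix δ n1 K}
  {U2 : Matrix δ n2 K} {Y : Fin 3 → Matrix δ δ K} {d : Derivation k K K}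
  {Γ1 : Matrix n1 n1 K} {Γ2 : Matrix n2 n2 K} {β : Matrix n1 n2 K} {γ : Matrix n2 n1 K}

/-- `zb` -/
theorem zb (fr : Fr J F H P S0 c1 c2 U1 U2) (hd : H.map d = H * ZY arm J H P Y)
    (hN2 : H * (U2.map d + ZY arm J H P Y * U2) = H * (U2 * Γ2 + c2 ^ 2 • (U1 * β)))
    (x : n2 → K) (hx : F *ᵥ (U2 *ᵥ x) = 0) :
    ∃ z, F *ᵥ (U1 *ᵥ (β *ᵥ x)) = F *ᵥ (U2 *ᵥ z) := by
  have h1 := dFU fr.symm hd hN2
  have h2 : dv d (F *ᵥ (U2 *ᵥ x)) = 0 := by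
    rw [hx]; funext i; simp [dv]
  rw [mulVec_mulVec, dv_mulVec, h1, sub_mulVec, add_mulVec, smul_mulVec, smul_mulVec,
    ← mulVec_mulVec x F U2, hx, smul_zero, sub_zero] at h2
  have hc : c2 * c1 ≠ 0 := mul_ne_zero fr.hc2 fr.hc1
  refine ⟨-((c2 * c1)⁻¹ • (Γ2 *ᵥ x + dv d x)), ?_⟩
  have h3 : (c2 * c1) • (F *ᵥ (U1 *ᵥ (β *ᵥ x))) = -(F *ᵥ (U2 *ᵥ (Γ2 *ᵥ x + dv d x))) := by
    rw [eq_neg_iff_add_eq_zero, ← h2, mulVec_add, mulVec_add]
    simp only [mulVec_mulVec, Matrix.mul_assoc]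
    abel
  rw [mulVec_neg, mulVec_neg, mulVec_smul, mulVec_smul, ← smul_neg, ← h3, smul_smul,
    inv_mul_cancel₀ hc, one_smul]

/-- `zk` -/
theorem zk (fr : Fr J F H P S0 c1 c2 U1 U2) (hd : H.map d = H * ZY arm J H P Y)
    (hN1 : H * (U1.map d + ZY arm J H P Y * U1) = H * (U1 * Γ1 + c1 ^ 2 • (U2 * γ)))
    (x : n1 → K) (hx : F *ᵥ (U1 *ᵥ x) = 0) :
    ∃ z, F *ᵥ (U2 *ᵥ (γ *ᵥ x)) = F *ᵥ (U1 *ᵥ z) :=
  zb fr.symm hd hN1 x hx

end Crest.Agent.R172.SZb601
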