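import Crest.Agent.R172.SMv16
import Crest.Agent.R172.SB2H16
import Crest.Agent.R172.SDec2
import Crest.Agent.R172.SInst
import Crest.Agent.R172.SZb601

/-!
Row 172 (S0260), S-side: the existence clause of `SDec.Geo22` at one good parameter, from B1.
-/

set_option autoImplicit false
set_option linter.unusedSectionVars false
set_option maxHeartbeats 1600000

namespace Crest.Agent.R172.SEx16

open Matrix Module Crest.Agent.R172.FO Crest.Agent.R172.Qt Crest.Agent.R172.SpS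
open Crest.Agent.R172.SEnd2 (PC PhS)
open Crest.Agent.R172.SUX (D3 th Mv ZY)
open Crest.Agent.R172.PL (CoreM)
open Crest.Agent.R172.STop (Setup)
open Crest.Agent.R172.SInst
open Crest.Agent.R172.SMv16 (Yf)

variable {ι : Type} [Fintype ι] [DecidableEq ι] {δ : Type} [Fintype δ] [DecidableEq δ]
  {K : Type} [Field K] [Algebra ℂ K] [IsAlgClosed K]
  {arm : δ → Fin 3} {J : Matrix ι ι K} {B : Matrix δ δ K} {N W : Submodule K (Matrix ι δ K)}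
  {F f : Matrix ι δ K} {P : Matrix ι ι K × (Fin 3 → Matrix ι ι K)} {R : Matrix δ ι K}
  {D : End K (CoreM (PhS arm J B F R P.1))} {l : Fin 3 → ℕ}

/-- the operators `om_s` on `K^δ` -/
def omL (arm : δ → Fin 3) (J : Matrix ι ι K) (B : Matrix δ δ K) (F : Matrix ι δ K)
    (P : Matrix ι ι K) (s : Fin 3) : End K (δ → K) :=
  (B * E K arm s * (Fᵀ * J * (P * F))).mulVecLin

/-- **B1 at one parameter**, for the family `X` (exact at `-(r²)`) -/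
def B1 (S : Setup arm J B N W F f P R D l) (ν ν' : K) {m1 m2 : ℕ}
    (U1 : Matrix δ (Fin m1) K) (U2 : Matrix δ (Fin m2) K)
    (a1 : Fin 3 → Matrix (Fin m1) (Fin m1) K) (a2 : Fin 3 → Matrix (Fin m2) (Fin m2) K)
    (t : ℂ) (Pt : Matrix ι ι K) : Prop :=
  ∀ X : Fin 3 → Matrix (Fin m2) (Fin m1) K,
    ∑ s, (X s * (a1 s)ᵀ -
      (-(((1 + algebraMap ℂ K t * ν') / (1 + algebraMap ℂ K t * ν)) ^ 2)) • (a2 s * X s)) = 0 →
    (∀ s, (U2ᵀ * (Fᵀ * J * (P.1 * F)) * U2) * (X s * (a1 s)ᵀ -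
      (-(((1 + algebraMap ℂ K t * ν') / (1 + algebraMap ℂ K t * ν)) ^ 2)) • (a2 s * X s)) *
      (U1ᵀ * (Fᵀ * J * (P.1 * F)) * U1) = 0) →
    ∀ d : Derivation ℂ K K,
      Mv ℂ arm J N W (F + algebraMap ℂ K t • f) Pt (Yf U1 U2 X) d →
      (∀ u ∈ QQb S ν, ∃ v ∈ QQb S ν, ∃ r ∈ QQb S ν', r ∈ St.T (omL arm J B F P.1) ∧
        SUB.nab arm J (F + algebraMap ℂ K t • f) Pt (Yf U1 U2 X) d u = v + r) ∧
      (∀ u ∈ QQb S ν', ∃ v ∈ QQb S ν', ∃ r ∈ QQb S ν, r ∈ St.T (omL arm J B F P.1) ∧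
        SUB.nab arm J (F + algebraMap ℂ K t • f) Pt (Yf U1 U2 X) d u = v + r)

/-- **existence clause**, with the move and the connection -/
theorem exist_move (S : Setup arm J B N W F f P R D l) {ν ν' : K} (hne : ν ≠ ν') {m1 m2 : ℕ}
    {U1 : Matrix δ (Fin m1) K} {U2 : Matrix δ (Fin m2) K}
    {a1 : Fin 3 → Matrix (Fin m1) (Fin m1) K} {a2 : Fin 3 → Matrix (Fin m2) (Fin m2) K}
    (hU1 : UFr.Cq (QQb S ν) U1) (hsp1 : ∀ u ∈ QQb S ν, ∃ x, u = U1 *ᵥ x)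
    (ha1 : ∀ s, B * E K arm s * (Fᵀ * J * (P.1 * F)) * U1 = U1 * a1 s)
    (hU2 : UFr.Cq (QQb S ν') U2) (hsp2 : ∀ u ∈ QQb S ν', ∃ x, u = U2 *ᵥ x)
    (ha2 : ∀ s, B * E K arm s * (Fᵀ * J * (P.1 * F)) * U2 = U2 * a2 s)
    {t : ℂ} (ht : t ≠ 0) {Pt : Matrix ι ι K × (Fin 3 → Matrix ι ι K)} {Ri : Matrix δ ι K}
    {dY : Derivation ℂ K K} (hC : Ctx ℂ arm J B N W (F + (algebraMap ℂ K t) • f))
    (hPt : Pt ∈ NN arm J N (F + (algebraMap ℂ K t) • f))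
    (hV : Vert ℂ arm J N W (F + (algebraMap ℂ K t) • f) Pt)
    (hRi : (F + (algebraMap ℂ K t) • f) * Ri * (F + (algebraMap ℂ K t) • f) =
          F + (algebraMap ℂ K t) • f)
    (hY : ∀ f' ∈ N ⊓ W, (F + (algebraMap ℂ K t) • f)ᵀ * J * (Pt.1 * f') =
          (F + (algebraMap ℂ K t) • f)ᵀ * J * f'.map dY)
    (hPF : (F + (algebraMap ℂ K t) • f)ᵀ * J * (Pt.1 * F) =
          (F + (algebraMap ℂ K t) • f)ᵀ * J * (P.1 * F))
    (hc1 : 1 + algebraMap ℂ K t * ν ≠ 0) (hc2 : 1 + algebraMap ℂ K t * ν' ≠ 0)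
    (hB1 : B1 S ν ν' U1 U2 a1 a2 t Pt.1) {r : K}
    (hr : r = (1 + algebraMap ℂ K t * ν') / (1 + algebraMap ℂ K t * ν))
    {X : Fin 3 → Matrix (Fin m2) (Fin m1) K}
    (hsum : ∑ s, (X s * (a1 s)ᵀ - (-(r ^ 2)) • (a2 s * X s)) = 0)
    (harm : ∀ s, (U2ᵀ * (Fᵀ * J * (P.1 * F)) * U2) *
      (X s * (a1 s)ᵀ - (-(r ^ 2)) • (a2 s * X s)) * (U1ᵀ * (Fᵀ * J * (P.1 * F)) * U1) = 0) :
    ∃ (d : Derivation ℂ K K) (Γ1 : Matrix (Fin m1) (Fin m1) K) (Γ2 : Matrix (Fin m2) (Fin m2) K)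
      (β : Matrix (Fin m1) (Fin m2) K) (γ : Matrix (Fin m2) (Fin m1) K),
      Mv ℂ arm J N W (F + algebraMap ℂ K t • f) Pt.1 (Yf U1 U2 X) d ∧
      U2.map d + ZY arm J (F + algebraMap ℂ K t • f) Pt.1 (Yf U1 U2 X) * U2 =
        U2 * Γ2 + (1 + algebraMap ℂ K t * ν') ^ 2 • (U1 * β) ∧
      U1.map d + ZY arm J (F + algebraMap ℂ K t • f) Pt.1 (Yf U1 U2 X) * U1 =
        U1 * Γ1 + (1 + algebraMap ℂ K t * ν) ^ 2 • (U2 * γ) ∧
      SDec.Dec F (Fᵀ * J * (P.1 * F)) U1 U2 a1 a2 (-(r ^ 2)) (X, β, γ) ∧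
      SDec.ZB F U1 U2 (X, β, γ) := by
  haveI : CharZero K := charZero_of_injective_algebraMap (algebraMap ℂ K).injective
  have hfr := (fr_k1 S hY hPF hne hc1 hc2 hU1 hU2).1
  obtain ⟨d, m⟩ := SMv16.exists_mv hC (two_ne_zero) hRi hPt hV hfr ha1 ha2 hr hsum
  obtain ⟨i1, i2⟩ := hB1 X (by rw [← hr]; exact hsum) (by rw [← hr]; exact harm) d m
  have hcne : 1 + algebraMap ℂ K t * ν ≠ 1 + algebraMap ℂ K t * ν' := SMv16.c_ne ht hne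
  have hp : ∀ μ, ∀ u ∈ QQb S μ, ∃ c : Fin 3 → δ → K, (∀ s, c s ∈ QQb S μ) ∧
      ∑ s, (B * E K arm s * (Fᵀ * J * (P.1 * F))) *ᵥ c s = u := fun μ u hu =>
    UBlk.Qb_exists (ctx S) S.hR S.hD hu
  obtain ⟨Γ1, Γ2, β, γ, hN2, hN1, hdec⟩ := SB2H16.dec_of_B1 hC hPt m hfr hcne hU1 hsp1 ha1
    (hp ν) hU2 hsp2 ha2 (hp ν') (fun r => rfl) i1 i2 hr hsum harm
  refine ⟨d, Γ1, Γ2, β, γ, m, hN2, hN1, hdec, ?_, ?_⟩
  · exact fun x hx => SZb601.zb hfr m.dH (congrArg (fun A =>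
      (F + algebraMap ℂ K t • f) * A) hN2) x hx
  · exact fun x hx => SZb601.zk hfr m.dH (congrArg (fun A =>
      (F + algebraMap ℂ K t • f) * A) hN1) x hx

end Crest.Agent.R172.SEx16
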