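import Crest.Agent.R172.SB1S934
import Crest.Agent.R172.SEx16

/-!
Row 172 (S0260), S-side (t2): `SEx16.B1` for almost all parameters (helper934).
-/

set_option autoImplicit false
set_option linter.unusedSectionVars false
set_option linter.unusedVariables false

namespace Crest.Agent.R172.SB1E

open Matrix Module Crest.Agent.R172.FO Crest.Agent.R172.Qt Crest.Agent.R172.SpS
open Crest.Agent.R172.SEnd2 (PhS)
open Crest.Agent.R172.UBlk (Qb cov om)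
open Crest.Agent.R172.UFr (Cq)
open Crest.Agent.R172.PL (Ainf CoreM)

variable {ι : Type} [Fintype ι] [DecidableEq ι] {δ : Type} [Fintype δ] [DecidableEq δ]
variable {K : Type} [Field K] [Algebra ℂ K] [IsAlgClosed K]
variable {arm : δ → Fin 3} {J : Matrix ι ι K} {B : Matrix δ δ K} {N W : Submodule K (Matrix ι δ K)}
  {F f : Matrix ι δ K} {P : Matrix ι ι K × (Fin 3 → Matrix ι ι K)} {R : Matrix δ ι K}
  {D : End K (CoreM (PhS arm J B F R P.1))} {l : Fin 3 → ℕ}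

/-- **`SEx16.B1` for almost all `t`** -/
theorem b1_ex (S : STop.Setup arm J B N W F f P R D l) {Y0 : Matrix δ δ K}
    {dY : Derivation ℂ K K}
    (hr : Realises arm N W (0 : Fin 3 → Matrix ι ι K) Y0 dY)
    (hform : Fᵀ * J * F.map dY = Fᵀ * J * (P.1 * F)) :
    ∃ Bad : Set ℂ, Bad.Finite ∧ ∀ t ∉ Bad,
      (∀ κ, D.maxGenEigenspace κ ≠ ⊥ → 1 + algebraMap ℂ K t * κ ≠ 0) ∧
      ∀ Pt ∈ NN arm J N (F + (algebraMap ℂ K t) • f),
        (∀ f' ∈ N ⊓ W, (F + (algebraMap ℂ K t) • f)ᵀ * J * (Pt.1 * f') =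
          (F + (algebraMap ℂ K t) • f)ᵀ * J * f'.map dY) →
        (F + (algebraMap ℂ K t) • f)ᵀ * J * (Pt.1 * F) =
          (F + (algebraMap ℂ K t) • f)ᵀ * J * (P.1 * F) →
        ∀ {ν ν' : K}, ν ≠ ν' → 1 + algebraMap ℂ K t * ν ≠ 0 → ∀ {m1 m2 : ℕ}
          {U1 : Matrix δ (Fin m1) K} {U2 : Matrix δ (Fin m2) K}
          {a1 : Fin 3 → Matrix (Fin m1) (Fin m1) K} {a2 : Fin 3 → Matrix (Fin m2) (Fin m2) K},
          Cq (Qb (S.hCtx F S.hF).data S.hR P.1 D ν) U1 →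
          Cq (Qb (S.hCtx F S.hF).data S.hR P.1 D ν') U2 →
          (∀ u ∈ Qb (S.hCtx F S.hF).data S.hR P.1 D ν, ∃ x, u = U1 *ᵥ x) →
          (∀ u ∈ Qb (S.hCtx F S.hF).data S.hR P.1 D ν', ∃ x, u = U2 *ᵥ x) →
          (∀ s, B * E K arm s * (Fᵀ * J * (P.1 * F)) * U1 = U1 * a1 s) →
          (∀ s, B * E K arm s * (Fᵀ * J * (P.1 * F)) * U2 = U2 * a2 s) →
          SEx16.B1 S ν ν' U1 U2 a1 a2 t Pt.1 := by
  obtain ⟨Bad, hB, hb⟩ := SB1S.b1 S hr hform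
  refine ⟨Bad, hB, fun t ht => ⟨(hb t ht).1, ?_⟩⟩
  intro Pt hPt hY hPF ν ν' hne hc1 m1 m2 U1 U2 a1 a2 hU1 hU2 hs1 hs2 hA1 hA2 X _ harm d m
  have h1 := (hb t ht).2 Pt hPt hY hPF hne hU1 hU2 hs1 hs2 hA1 hA2 hc1 harm d m
  exact ⟨h1.1, h1.2.1⟩

end Crest.Agent.R172.SB1E
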