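import Crest.Agent.R172.UBlk
import Crest.Agent.R172.PTy

/-!
Row 172 (S0260), (t2), S-side, `L2-c`: `A^∞` of the `U`-level operators is the same at `F` and at
`H_t = F + t f` (with `P_t` from `PTy.exists_family`), for `t` outside a finite set.
-/

set_option autoImplicit false
set_option linter.unusedSectionVars false
set_option linter.unusedFintypeInType false
set_option linter.unusedDecidableInType false

namespace Crest.Agent.R172.SInf266

open Module Matrix Crest.Agent.R172.FO Crest.Agent.R172.Qt Crest.Agent.R172.SpS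
open Crest.Agent.R172.SBlk Crest.Agent.R172.UBlk Crest.Agent.R172.PTt Crest.Agent.R172.PTy
open Crest.Agent.R172.PL (Wk Ainf Ainf_le_Wk Wk_succ_mem)
open Crest.Agent.R172.SUX (th)
open Crest.Agent.R172.Om (Kiso)

variable {ι : Type*} [Fintype ι] [DecidableEq ι] {δ : Type*} [Fintype δ] [DecidableEq δ]
variable {k K : Type*} [Field k] [Field K] [Algebra k K]
variable {arm : δ → Fin 3} {J : Matrix ι ι K} {B : Matrix δ δ K}
  {N W : Submodule K (Matrix ι δ K)} {g f : Matrix ι δ K}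
  {p : Matrix ι ι K × (Fin 3 → Matrix ι ι K)} {S : Finset K}
  {q : K → Matrix ι ι K × (Fin 3 → Matrix ι ι K)}

/-- the derived symmetry -/
theorem symm_der (h : Ctx k arm J B N W g) (hf : f ∈ N ⊓ W) (d : Derivation k K K) (s : Fin 3) :
    f.map d * E K arm s * B * gᵀ + f * E K arm s * B * (g.map d)ᵀ =
      g.map d * E K arm s * B * fᵀ + g * E K arm s * B * (f.map d)ᵀ := by
  have h1 : f * E K arm s * B * gᵀ = g * E K arm s * B * fᵀ := h.data.symm_arm hf h.mem s
  have e : ∀ a b : Matrix ι δ K, (a * E K arm s * B * bᵀ).map d =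
      a.map d * E K arm s * B * bᵀ + a * E K arm s * B * (b.map d)ᵀ := by
    intro a b
    rw [map_mul_der, map_mul_der, map_mul_der, h.data.B_const, E_map_der, map_transpose_der,
      Matrix.mul_zero, Matrix.mul_zero, add_zero, add_zero]
  have h2 := congrArg (fun A => A.map d) h1
  simp only [e] at h2
  exact h2

/-- the range class of `c` -/
def Rc (arm : δ → Fin 3) (J : Matrix ι ι K) (B : Matrix δ δ K) (g : Matrix ι δ K)
    (q : K → Matrix ι ι K × (Fin 3 → Matrix ι ι K)) (c : K) : Submodule K (δ → K) :=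
  ⨆ s, LinearMap.range (om arm J B g (q c).1 g s)

/-- **`Aᵀ J (df) u = c Aᵀ J (dg) u`** on the class `c` -/
theorem der_rel (hq : Spec arm J N g f p.1 S q) (h : Ctx k arm J B N W g) (hf : f ∈ N ⊓ W)
    (d : Derivation k K K) {α : Type*} {A : Matrix ι α K}
    (hAg : Aᵀ * J * g = 0) (hAf : Aᵀ * J * f = 0) {c : K} {u : δ → K}
    (hu : u ∈ Rc arm J B g q c) :
    (Aᵀ * J * f.map d) *ᵥ u = c • ((Aᵀ * J * g.map d) *ᵥ u) := by
  refine Submodule.iSup_induction (p := fun s => LinearMap.range (om arm J B g (q c).1 g s))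
    (motive := fun u => (Aᵀ * J * f.map d) *ᵥ u = c • ((Aᵀ * J * g.map d) *ᵥ u)) hu ?_ ?_ ?_
  · rintro s _ ⟨v, rfl⟩
    have hfl : fᵀ * J * ((q c).1 * g) = gᵀ * J * ((q c).1 * f) := SUX.th_flip h (hq.mem c) hf
    rw [om_eq h.data]
    have h1 := congrArg (fun X => (Aᵀ * J * X * (J * ((q c).1 * g))) *ᵥ v) (symm_der h hf d s)
    have e1 : Aᵀ * J * (f.map d * E K arm s * B * gᵀ + f * E K arm s * B * (g.map d)ᵀ) *
        (J * ((q c).1 * g)) = Aᵀ * J * f.map d * (E K arm s * B * (gᵀ * J * ((q c).1 * g))) := by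
      have e0 : Aᵀ * J * (f * E K arm s * B * (g.map d)ᵀ) = 0 := by
        calc Aᵀ * J * (f * E K arm s * B * (g.map d)ᵀ)
            = (Aᵀ * J * f) * (E K arm s * B * (g.map d)ᵀ) := by simp only [Matrix.mul_assoc]
          _ = 0 := by rw [hAf, Matrix.zero_mul]
      rw [Matrix.mul_add, e0, add_zero]
      simp only [Matrix.mul_assoc]
    have e2 : Aᵀ * J * (g.map d * E K arm s * B * fᵀ + g * E K arm s * B * (f.map d)ᵀ) *
        (J * ((q c).1 * g)) = Aᵀ * J * g.map d * (E K arm s * B * (fᵀ * J * ((q c).1 * g))) := by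
      have e0 : Aᵀ * J * (g * E K arm s * B * (f.map d)ᵀ) = 0 := by
        calc Aᵀ * J * (g * E K arm s * B * (f.map d)ᵀ)
            = (Aᵀ * J * g) * (E K arm s * B * (f.map d)ᵀ) := by simp only [Matrix.mul_assoc]
          _ = 0 := by rw [hAg, Matrix.zero_mul]
      rw [Matrix.mul_add, e0, add_zero]
      simp only [Matrix.mul_assoc]
    rw [e1, e2, hfl, hq.eig c] at h1
    rw [mulVec_mulVec, h1, mulVec_mulVec, ← smul_mulVec]
    congr 1
    simp only [Matrix.mul_smul, Matrix.mul_assoc]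
  · rw [mulVec_zero, mulVec_zero, smul_zero]
  · intro x y hx hy
    rw [mulVec_add, mulVec_add, smul_add, hx, hy]

/-- `S u = φ_c u` on the class `c` -/
theorem form_class (hq : Spec arm J N g f p.1 S q) (h : Ctx k arm J B N W g) (hf : f ∈ N ⊓ W)
    {c : K} {u : δ → K} (hu : u ∈ Rc arm J B g q c) :
    (gᵀ * J * (p.1 * g)) *ᵥ u = (gᵀ * J * ((q c).1 * g)) *ᵥ u := by
  have h0 := (rel_range hq h hf c hu).2
  rw [hq.sum, sum_mulVec]
  by_cases hc : c ∈ S
  · rw [Finset.sum_eq_single c]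
    · intro c' _ hne; exact h0 c' hne
    · intro hc'; exact absurd hc hc'
  · rw [hq.out c hc, zero_mulVec]
    refine Finset.sum_eq_zero fun c' hc' => h0 c' ?_
    rintro rfl
    exact hc hc'

theorem om_class (hq : Spec arm J N g f p.1 S q) (h : Ctx k arm J B N W g) (hf : f ∈ N ⊓ W)
    {c : K} {u : δ → K} (hu : u ∈ Rc arm J B g q c) (s : Fin 3) :
    om arm J B g p.1 g s u ∈ Rc arm J B g q c := by
  have h1 : om arm J B g p.1 g s u = om arm J B g (q c).1 g s u := by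
    rw [om_eq h.data, om_eq h.data, ← mulVec_mulVec u (E K arm s * B) (gᵀ * J * (p.1 * g)),
      form_class hq h hf hu, mulVec_mulVec]
  rw [h1]
  exact Submodule.mem_iSup_of_mem s (LinearMap.mem_range_self _ u)

/-- the form at `F = g + a f` on the class `c` -/
theorem form_F (hq : Spec arm J N g f p.1 S q) (h : Ctx k arm J B N W g) (hf : f ∈ N ⊓ W)
    (hff : fᵀ * J * f = 0) (hp : p ∈ NN arm J N g) {a : K} {dY : Derivation k K K}
    (ha : dY a = 0)
    (hY : ∀ f' ∈ N ⊓ W, gᵀ * J * (p.1 * f') = gᵀ * J * f'.map dY) {c : K} {u : δ → K}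
    (hu : u ∈ Rc arm J B g q c) :
    ((g + a • f)ᵀ * J * (g + a • f).map dY) *ᵥ u =
      ((1 + a * c) ^ 2) • ((gᵀ * J * (p.1 * g)) *ᵥ u) := by
  have hgg : gᵀ * J * g = 0 := h.perp g h.mem
  have hgf : gᵀ * J * f = 0 := h.perp f hf
  have hfg : fᵀ * J * g = 0 := by
    have := congrArg transpose hgf
    rw [transpose_mul, transpose_mul, transpose_transpose, h.data.J_symm, transpose_zero,
      ← Matrix.mul_assoc] at this
    exact this
  have hA : ∀ x : Matrix ι δ K, gᵀ * J * x = 0 → fᵀ * J * x = 0 → (g + a • f)ᵀ * J * x = 0 := by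
    intro x h1 h2
    rw [transpose_add, transpose_smul, Matrix.add_mul, Matrix.add_mul, Matrix.smul_mul,
      Matrix.smul_mul, h1, h2, smul_zero, add_zero]
  obtain ⟨F, hF⟩ : ∃ F, F = g + a • f := ⟨_, rfl⟩
  have hFg := hA g hgg hfg
  have hFf := hA f hgf hff
  have hFm : F ∈ N ⊓ W := by
    rw [hF]; exact Submodule.add_mem _ h.mem (Submodule.smul_mem _ _ hf)
  have hFu : F *ᵥ u = (1 + a * c) • (g *ᵥ u) := by
    rw [hF, add_mulVec, smul_mulVec, (rel_range hq h hf c hu).1, smul_smul, add_smul, one_smul]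
  rw [← hF] at hFg hFf ⊢
  have hmap : F.map dY = g.map dY + a • f.map dY := by
    rw [hF]
    ext i j
    simp only [Matrix.map_apply, Matrix.add_apply, Matrix.smul_apply, smul_eq_mul, map_add,
      Derivation.leibniz, ha, mul_zero, add_zero]
  have h1 := der_rel hq h hf dY hFg hFf hu
  have h2 : Fᵀ * J * g.map dY = gᵀ * J * (p.1 * F) := by
    have h3 := congrArg (fun A => A.map dY) hFg
    simp only [map_mul_der, h.data.J_const, Matrix.mul_zero, add_zero, map_transpose_der] at h3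
    rw [SUX.map_zero_der'] at h3
    have h4 : (F.map dY)ᵀ * J * g = (gᵀ * J * F.map dY)ᵀ := by
      rw [transpose_mul, transpose_mul, transpose_transpose, h.data.J_symm, Matrix.mul_assoc]
    rw [h4, ← hY F hFm] at h3
    have h5 : (gᵀ * J * (p.1 * F))ᵀ = -(gᵀ * J * (p.1 * F)) := SUX.th_skew h hp hFm
    rw [h5] at h3
    exact (neg_add_eq_zero.1 h3).symm
  have h6 : (gᵀ * J * (p.1 * F)) *ᵥ u = (1 + a * c) • ((gᵀ * J * (p.1 * g)) *ᵥ u) := by
    have e1 : ∀ X : Matrix ι δ K, (gᵀ * J * (p.1 * X)) *ᵥ u = (gᵀ * J * p.1) *ᵥ (X *ᵥ u) := by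
      intro X
      rw [mulVec_mulVec]
      simp only [Matrix.mul_assoc]
    rw [e1, e1, hFu, mulVec_smul]
  rw [hmap, Matrix.mul_add, Matrix.mul_smul, add_mulVec, smul_mulVec, h1, h2, h6, smul_smul,
    smul_smul, ← add_smul]
  congr 1
  ring

/-- **`A^∞(om_g) ≤ A^∞(om_F)`** -/
theorem ainf_le (hq : Spec arm J N g f p.1 S q) (h : Ctx k arm J B N W g) (hf : f ∈ N ⊓ W)
    (hff : fᵀ * J * f = 0) (hp : p ∈ NN arm J N g) {a : K} {dY : Derivation k K K}
    (ha : dY a = 0)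
    (hY : ∀ f' ∈ N ⊓ W, gᵀ * J * (p.1 * f') = gᵀ * J * f'.map dY) {F : Matrix ι δ K}
    (hF : F = g + a • f) {P0 : Matrix ι ι K}
    (hP0 : Fᵀ * J * (P0 * F) = Fᵀ * J * F.map dY)
    (hne : ∀ c, 1 + a * c = 0 → gᵀ * J * ((q c).1 * g) = 0) :
    Ainf (om arm J B g p.1 g) ≤ Ainf (om arm J B F P0 F) := by
  have hom : ∀ c, ∀ u ∈ Rc arm J B g q c, ∀ s,
      om arm J B F P0 F s u = ((1 + a * c) ^ 2) • om arm J B g p.1 g s u := by
    intro c u hu s
    rw [om_eq h.data, om_eq h.data, ← mulVec_mulVec, ← mulVec_mulVec u (E K arm s * B), hP0]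
    subst hF
    rw [form_F hq h hf hff hp ha hY hu, mulVec_smul]
  have key : ∀ m, Wk (om arm J B g p.1 g) (m + 1) ≤
      ⨆ c, (Wk (om arm J B F P0 F) m ⊓ Rc arm J B g q c) := by
    intro m
    induction m with
    | zero =>
      refine iSup_le fun s => ?_
      rintro _ ⟨v, -, rfl⟩
      have h1 : om arm J B g p.1 g s v = ∑ c ∈ S, om arm J B g (q c).1 g s v := by
        simp only [om_eq h.data]
        rw [hq.sum, Matrix.mul_sum, sum_mulVec]
      rw [h1]
      refine Submodule.sum_mem _ fun c _ => ?_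
      refine Submodule.mem_iSup_of_mem c ⟨?_, ?_⟩
      · exact Submodule.mem_top
      · exact Submodule.mem_iSup_of_mem s (LinearMap.mem_range_self _ v)
    | succ m ih =>
      refine iSup_le fun s => ?_
      rintro _ ⟨v, hv, rfl⟩
      refine Submodule.iSup_induction
        (p := fun c => (Wk (om arm J B F P0 F) m ⊓ Rc arm J B g q c))
        (motive := fun v => om arm J B g p.1 g s v ∈
          ⨆ c, (Wk (om arm J B F P0 F) (m + 1) ⊓ Rc arm J B g q c)) (ih hv) ?_ ?_ ?_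
      · rintro c u ⟨hu1, hu2⟩
        by_cases hc : 1 + a * c = 0
        · have h0 : Rc arm J B g q c = ⊥ := by
            rw [eq_bot_iff]
            refine iSup_le fun s => ?_
            rintro _ ⟨v, rfl⟩
            rw [Submodule.mem_bot, om_eq h.data, hne c hc, Matrix.mul_zero, zero_mulVec]
          rw [h0] at hu2
          rw [(Submodule.mem_bot K).1 hu2, map_zero]
          exact Submodule.zero_mem _
        · refine Submodule.mem_iSup_of_mem c ⟨?_, om_class hq h hf hu2 s⟩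
          have h1 : om arm J B g p.1 g s u =
              ((1 + a * c) ^ 2)⁻¹ • om arm J B F P0 F s u := by
            rw [hom c u hu2 s, smul_smul, inv_mul_cancel₀ (pow_ne_zero 2 hc), one_smul]
          rw [h1]
          exact Submodule.smul_mem _ _ (Wk_succ_mem hu1 s)
      · rw [map_zero]; exact Submodule.zero_mem _
      · intro x y hx hy
        rw [map_add]; exact Submodule.add_mem _ hx hy
  refine le_iInf fun m => ?_
  refine (Ainf_le_Wk _ (m + 1)).trans ((key m).trans (iSup_le fun c => inf_le_left))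

/-- **no block at infinity** -/
theorem no_inf (h2 : (2 : K) ≠ 0) {F : Matrix ι δ K} (hg : Ctx k arm J B N W g)
    (hFc : Ctx k arm J B N W F)
    (hNm : ∀ F, (∀ F' ∈ N, pair J B F' F = 0) → F ∈ N)
    (hWm : ∀ F, (∀ F' ∈ W, pair J B F' F = 0) → F ∈ W)
    (hf : f ∈ Kiso J N W) {d1 : Derivation k K K} (hdF : F.map d1 = f) (hdf : f.map d1 = 0)
    (hd1 : Realises arm N W (0 : Fin 3 → Matrix ι ι K) (0 : Matrix δ δ K) d1)
    {a : K} (ha : ∀ d : Derivation k K K, d a = 0) (hF : F = g + a • f)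
    (hbad : ∀ p ∈ NN arm J N F, Fᵀ * J * (p.1 * F) - a • (Fᵀ * J * (p.1 * f)) = 0 →
      Fᵀ * J * (p.1 * F) = 0)
    {q : Matrix ι ι K × (Fin 3 → Matrix ι ι K)} (hq : q ∈ NN arm J N g) {c : K}
    (hc : gᵀ * J * (q.1 * f) = c • (gᵀ * J * (q.1 * g))) (hac : 1 + a * c = 0) :
    gᵀ * J * (q.1 * g) = 0 := by
  obtain ⟨Y', d', -, hr, hform⟩ := exists_Y hg h2 hq
  obtain ⟨q', hq', -, hq'f⟩ := exists_NN' hg hr
  obtain ⟨p', hp', -, hp'f⟩ := exists_NN' hFc hr
  have hgm := hg.mem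
  have hFm := hFc.mem
  have hd0 : gᵀ * J * ((q - q').1 * g) = 0 := by
    have e1 : (q - q').1 = q.1 - q'.1 := rfl
    rw [e1, Matrix.sub_mul, Matrix.mul_sub, hq'f g hgm, hform, sub_self]
  have hqf : ∀ f' ∈ N ⊓ W, gᵀ * J * (q.1 * f') = gᵀ * J * f'.map d' := by
    intro f' hf'
    have h1 := hg.tf_zero hf' ((NN arm J N g).sub_mem hq hq') hd0
    have e1 : (q - q').1 = q.1 - q'.1 := rfl
    rw [e1, Matrix.sub_mul, Matrix.mul_sub, hq'f f' hf', sub_eq_zero] at h1
    exact h1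
  have hqF : gᵀ * J * F.map d' = 0 := by
    rw [← hqf F hFm, hF, Matrix.mul_add, Matrix.mul_add, Matrix.mul_smul, Matrix.mul_smul, hc,
      smul_smul]
    have e1 : gᵀ * J * (q.1 * g) + (a * c) • (gᵀ * J * (q.1 * g)) =
        (1 + a * c) • (gᵀ * J * (q.1 * g)) := by rw [add_smul, one_smul]
    rw [e1, hac, zero_smul]
  have hff : fᵀ * J * f = 0 := hf.2 f hf.1
  have hFg : Fᵀ * J * g = 0 := hFc.perp g hgm
  have hFf : Fᵀ * J * f = 0 := hFc.perp f hf.1
  have hFF : Fᵀ * J * F = 0 := hFc.perp F hFm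
  have hfF : fᵀ * J * F = 0 := hf.2 F hFm
  have hgF : Fᵀ * J * g.map d' = 0 := by
    have h3 := congrArg (fun A => A.map d') hFg
    simp only [map_mul_der, hg.data.J_const, Matrix.mul_zero, add_zero, map_transpose_der] at h3
    rw [SUX.map_zero_der'] at h3
    have h4 : (F.map d')ᵀ * J * g = (gᵀ * J * F.map d')ᵀ := by
      rw [transpose_mul, transpose_mul, transpose_transpose, hg.data.J_symm, Matrix.mul_assoc]
    rw [h4, hqF, transpose_zero, zero_add] at h3
    exact h3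
  have hgeq : g = F - a • f := by rw [hF]; abel
  have hpF : Fᵀ * J * (p'.1 * F) = 0 := by
    refine hbad p' hp' ?_
    have h3 := hp'f g hgm
    rw [hgF] at h3
    have h4 : Fᵀ * J * (p'.1 * g) =
        Fᵀ * J * (p'.1 * F) - a • (Fᵀ * J * (p'.1 * f)) := by
      rw [hgeq, Matrix.mul_sub, Matrix.mul_sub, Matrix.mul_smul, Matrix.mul_smul]
    rw [← h4, h3]
  have hpf0 : Fᵀ * J * (p'.1 * f) = 0 := hFc.tf_zero hf.1 hp' hpF
  have hFdF : Fᵀ * J * F.map d' = 0 := by rw [← hp'f F hFm, hpF]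
  have hFdf : Fᵀ * J * f.map d' = 0 := by rw [← hp'f f hf.1, hpf0]
  -- the triples
  have hα : F.map d' - F * Y'ᵀ ∈ W := hr.onW F hFc.memW
  have hβ : f.map d' - f * Y'ᵀ ∈ W := hr.onW f hf.1.2
  have hν : F.map d' ∈ N := by
    have := hr.onN F hFc.memN
    rwa [act_zero, sub_zero] at this
  have hν' : f.map d' ∈ N := by
    have := hr.onN f hf.1.1
    rwa [act_zero, sub_zero] at this
  have hfdf : fᵀ * J * f.map d' = 0 := by
    have h3 := fb_zero hFc hNm hWm hf hdF hdf hd1 hα hν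
      (show F.map d' - F * Y'ᵀ = F.map d' + F * (-Y'ᵀ) by rw [Matrix.mul_neg]; abel) hβ hν'
      (show f.map d' - f * Y'ᵀ = f.map d' + f * (-Y'ᵀ) by rw [Matrix.mul_neg]; abel)
      (by rw [Matrix.mul_sub, hFdF, ← Matrix.mul_assoc _ F, hFF, Matrix.zero_mul, sub_zero])
    rw [Matrix.mul_sub, ← Matrix.mul_assoc _ f, hff, Matrix.zero_mul, sub_zero] at h3
    exact h3
  have hmap : g.map d' = F.map d' - a • f.map d' := by
    rw [hgeq]
    ext i j
    simp only [Matrix.map_apply, Matrix.sub_apply, Matrix.smul_apply, smul_eq_mul, map_sub,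
      Derivation.leibniz, ha d', mul_zero, add_zero]
  have hfin : gᵀ * J * f.map d' = 0 := by
    rw [hgeq, transpose_sub, transpose_smul, Matrix.sub_mul, Matrix.sub_mul, Matrix.smul_mul,
      Matrix.smul_mul, hFdf, hfdf, smul_zero, sub_zero]
  rw [← hform, hmap, Matrix.mul_sub, hqF, Matrix.mul_smul, hfin, smul_zero, sub_zero]

/-- the bad set is finite -/
theorem bad_finite (h : Ctx k arm J B N W g) {R : Matrix δ ι K} (hR : g * R * g = g)
    (hf : f ∈ N ⊓ W) :
    {t : k | ∃ p ∈ NN arm J N g, gᵀ * J * (p.1 * g) ≠ 0 ∧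
      gᵀ * J * (p.1 * g) + (algebraMap k K t) • (gᵀ * J * (p.1 * f)) = 0}.Finite := by
  obtain ⟨Tf, -, hTf⟩ := exists_step h hR hf
  have hfin : {μ : K | Tf.HasEigenvalue μ}.Finite := Module.End.finite_hasEigenvalue Tf
  refine Set.Finite.of_finite_image (f := fun t : k => -(algebraMap k K t)⁻¹)
    (hfin.subset ?_) ?_
  · rintro _ ⟨t, ⟨p, hp, h0, h1⟩, rfl⟩
    have ht : algebraMap k K t ≠ 0 := by
      intro ht
      rw [ht, zero_smul, add_zero] at h1
      exact h0 h1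
    let φ : Xi J N arm g := ⟨gᵀ * J * (p.1 * g), ⟨⟨p, hp⟩, rfl⟩⟩
    have h2 := hTf φ ⟨p, hp⟩ rfl
    refine Module.End.hasEigenvalue_of_hasEigenvector (x := φ) ⟨?_, ?_⟩
    · rw [Module.End.mem_eigenspace_iff]
      apply Subtype.ext
      rw [h2, Submodule.coe_smul]
      change gᵀ * J * (p.1 * f) = (-(algebraMap k K t)⁻¹) • (gᵀ * J * (p.1 * g))
      have h3 : gᵀ * J * (p.1 * g) = -((algebraMap k K t) • (gᵀ * J * (p.1 * f))) :=
        eq_neg_of_add_eq_zero_left h1
      rw [h3, smul_neg, neg_smul, neg_neg, smul_smul, inv_mul_cancel₀ ht, one_smul]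
    · intro hφ
      exact h0 (congrArg Subtype.val hφ)
  · intro s _ t _ hst
    have h3 : (algebraMap k K s)⁻¹ = (algebraMap k K t)⁻¹ := neg_injective hst
    exact (algebraMap k K).injective (inv_injective h3)

/-- generalized inverse -/
theorem exists_ginv (g : Matrix ι δ K) : ∃ R : Matrix δ ι K, g * R * g = g := by
  obtain ⟨s, hs⟩ := (Matrix.toLin' g).rangeRestrict.exists_rightInverse_of_surjective
    (LinearMap.range_rangeRestrict _)
  obtain ⟨q, hq⟩ := (LinearMap.range (Matrix.toLin' g)).exists_isCompl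
  let P : (ι → K) →ₗ[K] LinearMap.range (Matrix.toLin' g) :=
    (LinearMap.range (Matrix.toLin' g)).projectionOnto q hq
  refine ⟨LinearMap.toMatrix' (s ∘ₗ P), ?_⟩
  apply Matrix.toLin'.injective
  refine LinearMap.ext fun u => ?_
  rw [Matrix.toLin'_mul, Matrix.toLin'_mul, Matrix.toLin'_toMatrix']
  simp only [LinearMap.comp_apply]
  have h1 : P (Matrix.toLin' g u) = ⟨Matrix.toLin' g u, LinearMap.mem_range_self _ _⟩ :=
    Submodule.projectionOnto_apply_left hq ⟨Matrix.toLin' g u, LinearMap.mem_range_self _ _⟩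
  rw [h1]
  have h2 := congrArg (fun f => ((f ⟨Matrix.toLin' g u, LinearMap.mem_range_self _ _⟩ :
    LinearMap.range (Matrix.toLin' g)) : ι → K)) hs
  simpa using h2

/-- **`A^∞` is the same at `F` and at `H_t = F + t f`**, `t` outside a finite set -/
theorem ainf_eq [IsAlgClosed K] (h2 : (2 : K) ≠ 0)
    (hCtx : ∀ g ∈ Kiso J N W, Ctx k arm J B N W g)
    (hNm : ∀ F, (∀ F' ∈ N, pair J B F' F = 0) → F ∈ N)
    (hWm : ∀ F, (∀ F' ∈ W, pair J B F' F = 0) → F ∈ W)
    (hNil : ∀ g ∈ Kiso J N W, NilW arm J B N g)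
    {F : Matrix ι δ K} (hF : F ∈ Kiso J N W) (hf : f ∈ Kiso J N W)
    (hV1 : ∀ w ∈ Kiso J N W, ∃ d : Derivation k K K, F.map d = w ∧ f.map d = 0 ∧
      Realises arm N W (0 : Fin 3 → Matrix ι ι K) (0 : Matrix δ δ K) d)
    {P : Matrix ι ι K × (Fin 3 → Matrix ι ι K)} (hP : P ∈ NN arm J N F)
    {Y : Matrix δ δ K} {dY : Derivation k K K}
    (hr : Realises arm N W (0 : Fin 3 → Matrix ι ι K) Y dY)
    (hform : Fᵀ * J * F.map dY = Fᵀ * J * (P.1 * F)) :
    ∃ S : Set k, S.Finite ∧ ∀ t ∉ S,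
      ∀ Pt ∈ NN arm J N (F + (algebraMap k K t) • f),
        (∀ f' ∈ N ⊓ W, (F + (algebraMap k K t) • f)ᵀ * J * (Pt.1 * f') =
          (F + (algebraMap k K t) • f)ᵀ * J * f'.map dY) →
        Ainf (om arm J B (F + (algebraMap k K t) • f) Pt.1 (F + (algebraMap k K t) • f)) =
          Ainf (om arm J B F P.1 F) := by
  have hCF := hCtx F hF
  obtain ⟨R, hR⟩ := exists_ginv F
  refine ⟨_, bad_finite hCF hR hf.1, fun t ht Pt hPt hYt => ?_⟩
  have hgood : ∀ p ∈ NN arm J N F,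
      Fᵀ * J * (p.1 * F) + (algebraMap k K t) • (Fᵀ * J * (p.1 * f)) = 0 →
      Fᵀ * J * (p.1 * F) = 0 := by
    intro p hp h0
    by_contra hne
    exact ht ⟨p, hp, hne, h0⟩
  have hHK : F + (algebraMap k K t) • f ∈ Kiso J N W :=
    (Kiso J N W).add_mem hF ((Kiso J N W).smul_mem _ hf)
  have hCH := hCtx _ hHK
  have hff : fᵀ * J * f = 0 := hf.2 f hf.1
  have hconst : ∀ d : Derivation k K K, d (algebraMap k K t) = 0 := fun d => by
    rw [Derivation.map_algebraMap]
  -- the forms of `P` at `F`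
  obtain ⟨p', hp', -, hp'f⟩ := exists_NN' hCF hr
  have hYF : ∀ f' ∈ N ⊓ W, Fᵀ * J * (P.1 * f') = Fᵀ * J * f'.map dY := by
    have e1 : (P - p').1 = P.1 - p'.1 := rfl
    have hd0 : Fᵀ * J * ((P - p').1 * F) = 0 := by
      rw [e1, Matrix.sub_mul, Matrix.mul_sub, hp'f F hCF.mem, ← hform, sub_self]
    intro f' hf'
    have h1 := hCF.tf_zero hf' ((NN arm J N F).sub_mem hP hp') hd0
    rw [e1, Matrix.sub_mul, Matrix.mul_sub, hp'f f' hf', sub_eq_zero] at h1
    exact h1
  generalize hτ : algebraMap k K t = τ at *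
  obtain ⟨H, hH⟩ : ∃ H, H = F + τ • f := ⟨_, rfl⟩
  rw [← hH] at hHK hCH hPt hYt ⊢
  have hFH : F = H + (-τ) • f := by rw [hH, neg_smul]; abel
  obtain ⟨RH, hRH⟩ := exists_ginv H
  obtain ⟨S1, q1, hq1⟩ := exists_spec hCH hRH (hNil H hHK) hPt hf.1
  obtain ⟨S0, q0, hq0⟩ := exists_spec hCF hR (hNil F hF) hP hf.1
  obtain ⟨d1, hdF, hdf, hd1⟩ := hV1 f hf
  refine le_antisymm ?_ ?_
  · refine ainf_le hq1 hCH hf.1 hff hPt (a := -τ) (dY := dY) (by rw [map_neg, hconst, neg_zero])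
      hYt hFH hform.symm fun c hc => ?_
    refine no_inf h2 hCH hCF hNm hWm hf hdF hdf hd1
      (fun d => by rw [map_neg, hconst, neg_zero]) hFH (fun p hp h0 => hgood p hp ?_)
      (hq1.mem c) (hq1.eig c) hc
    rwa [neg_smul, sub_neg_eq_add] at h0
  · refine ainf_le hq0 hCF hf.1 hff hP (a := τ) (dY := dY) (hconst dY) hYF hH
      (hYt H hCH.mem) fun c hc => ?_
    refine hgood _ (hq0.mem c) ?_
    rw [hq0.eig c, smul_smul]
    have e1 : Fᵀ * J * ((q0 c).1 * F) + (τ * c) • (Fᵀ * J * ((q0 c).1 * F)) =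
        (1 + τ * c) • (Fᵀ * J * ((q0 c).1 * F)) := by rw [add_smul, one_smul]
    rw [e1, hc, zero_smul]

end Crest.Agent.R172.SInf266
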