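import Crest.Agent.R172.SNF16

/-!
Row 172 (S0260), S-side, `SDec.Geo2`: the move of an exact family in frame letters, and the
infinite set of ratios `(1 + t ν') / (1 + t ν)`.
-/

set_option autoImplicit false
set_option linter.unusedSectionVars false

namespace Crest.Agent.R172.SMv16

open Matrix Module Crest.Agent.R172.FO Crest.Agent.R172.Qt Crest.Agent.R172.SUX
  Crest.Agent.R172.SpS

variable {ι : Type*} [Fintype ι] [DecidableEq ι] {δ : Type*} [Fintype δ] [DecidableEq δ]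
variable {n1 n2 : Type*} [Fintype n1] [DecidableEq n1] [Fintype n2] [DecidableEq n2]
variable {k K : Type*} [Field k] [Field K] [Algebra k K]
variable {arm : δ → Fin 3} {J : Matrix ι ι K} {B : Matrix δ δ K}
  {N W : Submodule K (Matrix ι δ K)} {F H : Matrix ι δ K}
  {P : Matrix ι ι K × (Fin 3 → Matrix ι ι K)} {S0 : Matrix δ δ K} {c1 c2 : K}
  {U1 : Matrix δ n1 K} {U2 : Matrix δ n2 K}
  {A1 : Fin 3 → Matrix n1 n1 K} {A2 : Fin 3 → Matrix n2 n2 K} {X : Fin 3 → Matrix n2 n1 K}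

/-- the symmetric family of `X` -/
def Yf (U1 : Matrix δ n1 K) (U2 : Matrix δ n2 K) (X : Fin 3 → Matrix n2 n1 K) (r : Fin 3) :
    Matrix δ δ K := U2 * X r * U1ᵀ + U1 * (X r)ᵀ * U2ᵀ

theorem Yf_symm (r : Fin 3) : (Yf U1 U2 X r)ᵀ = Yf U1 U2 X r := by
  unfold Yf
  rw [transpose_add, transpose_mul, transpose_mul, transpose_mul, transpose_mul,
    transpose_transpose, transpose_transpose, transpose_transpose, add_comm]
  simp only [Matrix.mul_assoc]

/-- `U_iᵀ S_H E_r B` -/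
theorem rowT (hD : Data k arm J B N W) (hSs : (th J H P.1 H)ᵀ = -th J H P.1 H)
    {n : Type*} [Fintype n] [DecidableEq n] (c : K) (U : Matrix δ n K)
    (A : Fin 3 → Matrix n n K) (hS : th J H P.1 H * U = c • (S0 * U))
    (hA : ∀ r, B * E K arm r * S0 * U = U * A r) (r : Fin 3) :
    B * E K arm r * th J H P.1 H * U = c • (U * A r) ∧
      Uᵀ * th J H P.1 H * E K arm r * B = -(c • ((A r)ᵀ * Uᵀ)) := by
  have e1 : B * E K arm r * th J H P.1 H * U = c • (U * A r) := by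
    rw [Matrix.mul_assoc, hS, Matrix.mul_smul, ← hA, ← Matrix.mul_assoc]
  refine ⟨e1, ?_⟩
  have e2 := congrArg transpose e1
  rw [transpose_mul, transpose_mul, transpose_mul, E_transpose, hSs, hD.B_symm,
    transpose_smul, transpose_mul] at e2
  rw [← e2]
  simp only [Matrix.mul_neg, Matrix.neg_mul, neg_neg, Matrix.mul_assoc]

/-- **exactness in frame letters** -/
theorem exact_of_X (h : Ctx k arm J B N W H) (hP : P ∈ NN arm J N H)
    (fr : Fr J F H P.1 S0 c1 c2 U1 U2)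
    (hA1 : ∀ r, B * E K arm r * S0 * U1 = U1 * A1 r)
    (hA2 : ∀ r, B * E K arm r * S0 * U2 = U2 * A2 r) {ρ : K} (hρ : ρ = c2 / c1)
    (hsum : ∑ s, (X s * (A1 s)ᵀ - (-(ρ ^ 2)) • (A2 s * X s)) = 0) :
    Exact arm J B H P.1 (Yf U1 U2 X) := by
  have hD := h.data
  have hSs := th_skew h hP h.mem
  have hc1 := fr.hc1
  have hc2 := fr.hc2
  have h1 := rowT hD hSs (c1 ^ 2) U1 A1 fr.S1 hA1
  have h2 := rowT hD hSs (c2 ^ 2) U2 A2 fr.S2 hA2
  have key : ∀ r, Yf U1 U2 X r * th J H P.1 H * E K arm r * B -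
      B * E K arm r * th J H P.1 H * Yf U1 U2 X r =
      -(c1 ^ 2 • (U2 * (X r * (A1 r)ᵀ - (-(ρ ^ 2)) • (A2 r * X r)) * U1ᵀ)) -
        c1 ^ 2 • (U1 * (X r * (A1 r)ᵀ - (-(ρ ^ 2)) • (A2 r * X r))ᵀ * U2ᵀ) := by
    intro r
    have a1 : Yf U1 U2 X r * th J H P.1 H * E K arm r * B =
        U2 * X r * (U1ᵀ * th J H P.1 H * E K arm r * B) +
          U1 * (X r)ᵀ * (U2ᵀ * th J H P.1 H * E K arm r * B) := by
      unfold Yf
      simp only [Matrix.add_mul, Matrix.mul_assoc]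
    have a2 : B * E K arm r * th J H P.1 H * Yf U1 U2 X r =
        (B * E K arm r * th J H P.1 H * U2) * (X r * U1ᵀ) +
          (B * E K arm r * th J H P.1 H * U1) * ((X r)ᵀ * U2ᵀ) := by
      unfold Yf
      simp only [Matrix.mul_add, Matrix.mul_assoc]
    rw [a1, a2, (h1 r).1, (h2 r).1, (h1 r).2, (h2 r).2]
    have hr : c1 ^ 2 * ρ ^ 2 = c2 ^ 2 := by
      rw [hρ]; field_simp
    rw [← hr]
    simp only [transpose_sub, transpose_smul, transpose_mul, transpose_transpose, Matrix.mul_sub,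
      Matrix.sub_mul, Matrix.mul_smul, Matrix.smul_mul, Matrix.mul_neg, Matrix.mul_assoc]
    module
  unfold Exact
  rw [Finset.sum_congr rfl fun r _ => key r, Finset.sum_sub_distrib, Finset.sum_neg_distrib,
    ← Finset.smul_sum, ← Finset.smul_sum, ← Matrix.sum_mul, ← Matrix.mul_sum, ← Matrix.sum_mul,
    ← Matrix.mul_sum, ← transpose_sum, hsum]
  simp

/-- **the move** -/
theorem exists_mv (h : Ctx k arm J B N W H) (h2 : (2 : K) ≠ 0) {R : Matrix δ ι K}
    (hR : H * R * H = H) (hP : P ∈ NN arm J N H) (hV : Vert k arm J N W H P)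
    (fr : Fr J F H P.1 S0 c1 c2 U1 U2)
    (hA1 : ∀ r, B * E K arm r * S0 * U1 = U1 * A1 r)
    (hA2 : ∀ r, B * E K arm r * S0 * U2 = U2 * A2 r) {ρ : K} (hρ : ρ = c2 / c1)
    (hsum : ∑ s, (X s * (A1 s)ᵀ - (-(ρ ^ 2)) • (A2 s * X s)) = 0) :
    ∃ d : Derivation k K K, Mv k arm J N W H P.1 (Yf U1 U2 X) d :=
  exists_move h h2 hR hP hV Yf_symm (exact_of_X h hP fr hA1 hA2 hρ hsum)

/-- the ratios `(1 + t ν') / (1 + t ν)`, `t` good -/
def Lam (k : Type*) {K : Type*} [Field k] [Field K] [Algebra k K] (S : Set k) (ν ν' : K) : Set K :=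
  {r | ∃ t : k, t ∉ S ∧ 1 + algebraMap k K t * ν ≠ 0 ∧ 1 + algebraMap k K t * ν' ≠ 0 ∧
    r = (1 + algebraMap k K t * ν') / (1 + algebraMap k K t * ν)}

theorem Lam_zero (S : Set k) (ν ν' : K) : (0 : K) ∉ Lam k S ν ν' := by
  rintro ⟨t, -, h1, h2, h3⟩
  exact div_ne_zero h2 h1 h3.symm

theorem bad_one (ν : K) : {t : k | 1 + algebraMap k K t * ν = 0}.Finite := by
  refine Set.Subsingleton.finite ?_
  intro s hs t ht
  have hs' : 1 + algebraMap k K s * ν = 0 := hs
  have ht' : 1 + algebraMap k K t * ν = 0 := ht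
  have hν : ν ≠ 0 := by
    rintro rfl
    rw [mul_zero, add_zero] at hs'
    exact one_ne_zero hs'
  have e : (algebraMap k K s - algebraMap k K t) * ν = 0 := by linear_combination hs' - ht'
  have e2 := (mul_eq_zero.1 e).resolve_right hν
  exact (algebraMap k K).injective (sub_eq_zero.1 e2)

theorem Lam_infinite [Infinite k] {S : Set k} (hS : S.Finite) {ν ν' : K} (hne : ν ≠ ν') :
    (Lam k S ν ν').Infinite := by
  have hbad : (S ∪ ({t : k | 1 + algebraMap k K t * ν = 0} ∪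
      {t : k | 1 + algebraMap k K t * ν' = 0})).Finite :=
    hS.union ((bad_one ν).union (bad_one ν'))
  have hinf := hbad.infinite_compl
  refine (hinf.image (f := fun t : k => (1 + algebraMap k K t * ν') / (1 + algebraMap k K t * ν))
    ?_).mono ?_
  · intro s hs t ht hst
    simp only [Set.mem_compl_iff, Set.mem_union, Set.mem_setOf_eq, not_or] at hs ht
    obtain ⟨-, hs1, hs2⟩ := hs
    obtain ⟨-, ht1, ht2⟩ := ht
    have e := (div_eq_div_iff hs1 ht1).1 hst
    have e2 : (algebraMap k K s - algebraMap k K t) * (ν' - ν) = 0 := by linear_combination e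
    have e3 := (mul_eq_zero.1 e2).resolve_right (sub_ne_zero.2 (Ne.symm hne))
    exact (algebraMap k K).injective (sub_eq_zero.1 e3)
  · rintro _ ⟨t, ht, rfl⟩
    simp only [Set.mem_compl_iff, Set.mem_union, Set.mem_setOf_eq, not_or] at ht
    exact ⟨t, ht.1, ht.2.1, ht.2.2, rfl⟩

/-- different constants on different blocks -/
theorem c_ne {t : k} (ht : t ≠ 0) {ν ν' : K} (hne : ν ≠ ν') :
    1 + algebraMap k K t * ν ≠ 1 + algebraMap k K t * ν' := by
  intro h
  have h1 : algebraMap k K t * (ν - ν') = 0 := by linear_combination h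
  rcases mul_eq_zero.1 h1 with h2 | h2
  · exact ht ((map_eq_zero (algebraMap k K)).1 h2)
  · exact hne (sub_eq_zero.1 h2)

end Crest.Agent.R172.SMv16
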