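import Crest.Agent.R172.SNabI934
import Crest.Agent.R172.SMv16
import Crest.Agent.R172.SInst
import Crest.Agent.R172.SInf266

/-!
Row 172 (S0260), Lev2, leaf B1 in the letters of `STop.Setup`: outside a finite set of parameters
the connection of every move at `H_t` respects the blocks.
-/

set_option autoImplicit false
set_option linter.unusedSectionVars false
set_option maxHeartbeats 1600000

namespace Crest.Agent.R172.SB1S141

open Matrix Module Crest.Agent.R172.FO Crest.Agent.R172.Qt Crest.Agent.R172.SpS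
open Crest.Agent.R172.SEnd Crest.Agent.R172.SEnd2 Crest.Agent.R172.SBlk Crest.Agent.R172.SCM
open Crest.Agent.R172.STop
open Crest.Agent.R172.Om (Kiso)
open Crest.Agent.R172.UBlk (Qb cov)
open Crest.Agent.R172.PL (CoreM coreOp Ainf Rad)
open Crest.Agent.R172.St (T)
open Crest.Agent.R172.SUX (th ZY Mv wd)
open Crest.Agent.R172.SInst (QQb ctx hfNW hff)

variable {ι : Type} [Fintype ι] [DecidableEq ι] {δ : Type} [Fintype δ] [DecidableEq δ]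
variable {K : Type} [Field K] [Algebra ℂ K] [IsAlgClosed K]
variable {arm : δ → Fin 3} {J : Matrix ι ι K} {B : Matrix δ δ K} {N W : Submodule K (Matrix ι δ K)}
  {F f : Matrix ι δ K} {P : Matrix ι ι K × (Fin 3 → Matrix ι ι K)} {R : Matrix δ ι K}
  {D : End K (CoreM (PhS arm J B F R P.1))} {l : Fin 3 → ℕ}

/-- **B1 in the letters of `Setup`** -/
theorem b1 (S : Setup arm J B N W F f P R D l) (h2 : (2 : K) ≠ 0)
    {Y : Matrix δ δ K} {dY : Derivation ℂ K K}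
    (hr : Realises arm N W (0 : Fin 3 → Matrix ι ι K) Y dY)
    (hform : Fᵀ * J * F.map dY = Fᵀ * J * (P.1 * F)) :
    ∃ Bad : Set ℂ, Bad.Finite ∧ ∀ t ∉ Bad,
      (∀ κ, ((cov (ctx S).data S.hR P.1).D D).maxGenEigenspace κ ≠ ⊥ →
        1 + algebraMap ℂ K t * κ ≠ 0) ∧
      (∀ κ, QQb S κ ≠ ⊥ → 1 + algebraMap ℂ K t * κ ≠ 0) ∧
      ∀ {Pt : Matrix ι ι K × (Fin 3 → Matrix ι ι K)},
        Pt ∈ NN arm J N (F + (algebraMap ℂ K t) • f) →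
        (∀ f' ∈ N ⊓ W, (F + (algebraMap ℂ K t) • f)ᵀ * J * (Pt.1 * f') =
          (F + (algebraMap ℂ K t) • f)ᵀ * J * f'.map dY) →
        (F + (algebraMap ℂ K t) • f)ᵀ * J * (Pt.1 * F) =
          (F + (algebraMap ℂ K t) • f)ᵀ * J * (P.1 * F) →
      ∀ {Yr : Fin 3 → Matrix δ δ K} (_ : ∀ r, (Yr r)ᵀ = Yr r) {d : Derivation ℂ K K}
        (_ : Mv ℂ arm J N W (F + (algebraMap ℂ K t) • f) Pt.1 Yr d)
        {ν ν' : K} (_ : ν ≠ ν') {n1 n2 : ℕ} {U1 : Matrix δ (Fin n1) K} {U2 : Matrix δ (Fin n2) K}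
        {A1 : Fin 3 → Matrix (Fin n1) (Fin n1) K} {A2 : Fin 3 → Matrix (Fin n2) (Fin n2) K}
        {X : Fin 3 → Matrix (Fin n2) (Fin n1) K}
        (_ : UFr.Cq (QQb S ν) U1) (_ : UFr.Cq (QQb S ν') U2)
        (_ : ∀ u ∈ QQb S ν, ∃ x, u = U1 *ᵥ x) (_ : ∀ u ∈ QQb S ν', ∃ x, u = U2 *ᵥ x)
        (_ : ∀ s, B * E K arm s * (Fᵀ * J * (P.1 * F)) * U1 = U1 * A1 s)
        (_ : ∀ s, B * E K arm s * (Fᵀ * J * (P.1 * F)) * U2 = U2 * A2 s)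
        (_ : ∀ r, Yr r = U2 * X r * U1ᵀ + U1 * (X r)ᵀ * U2ᵀ)
        (_ : 1 + algebraMap ℂ K t * ν ≠ 0)
        (_ : ∀ s, (U2ᵀ * (Fᵀ * J * (P.1 * F)) * U2) * (X s * (A1 s)ᵀ -
          (-(((1 + algebraMap ℂ K t * ν') / (1 + algebraMap ℂ K t * ν)) ^ 2)) •
            (A2 s * X s)) * (U1ᵀ * (Fᵀ * J * (P.1 * F)) * U1) = 0),
        (∀ u ∈ QQb S ν, ∃ v ∈ QQb S ν, ∃ r ∈ QQb S ν',
          r ∈ T (fun s => (B * E K arm s * (Fᵀ * J * (P.1 * F))).mulVecLin) ∧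
            SUB.nab arm J (F + (algebraMap ℂ K t) • f) Pt.1 Yr d u = v + r) ∧
        (∀ u ∈ QQb S ν', ∃ v ∈ QQb S ν', ∃ r ∈ QQb S ν,
          r ∈ T (fun s => (B * E K arm s * (Fᵀ * J * (P.1 * F))).mulVecLin) ∧
            SUB.nab arm J (F + (algebraMap ℂ K t) • f) Pt.1 Yr d u = v + r) ∧
        (∀ κ, κ ≠ ν → κ ≠ ν' → ∀ u ∈ QQb S κ,
          SUB.nab arm J (F + (algebraMap ℂ K t) • f) Pt.1 Yr d u ∈ QQb S κ) := by
  obtain ⟨B1, hB1, h1⟩ := SNabI.exists_bad (k := ℂ) (ctx S) S.hR S.hD h2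
  obtain ⟨B2, hB2, h3⟩ := SInf266.ainf_eq (k := ℂ) h2 S.hCtx S.hNm S.hWm S.hNil S.hF S.hf S.hV1
    S.hP hr hform
  refine ⟨B1 ∪ B2, hB1.union hB2, fun t ht => ?_⟩
  rw [Set.mem_union, not_or] at ht
  obtain ⟨hc, hom⟩ := h1 t ht.1
  refine ⟨hc, fun κ hκ => hc κ fun h0 => hκ ?_, ?_⟩
  · rw [eq_bot_iff]
    intro u hu
    exact (Submodule.mem_bot K).2
      (SNab.PB_zero ((cov (ctx S).data S.hR P.1).D_comm S.hD.2) h0 hu)
  intro Pt hPt hY hPF Yr hYs d m ν ν' hne n1 n2 U1 U2 A1 A2 X hU1 hU2 hs1 hs2 hA1 hA2 hYX hc1 harm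
  have hHK : F + (algebraMap ℂ K t) • f ∈ Kiso J N W :=
    (Kiso J N W).add_mem S.hF ((Kiso J N W).smul_mem _ S.hf)
  refine SNabI.B1 (ctx S) S.hR S.hD (S.hNil F S.hF) S.hP (hfNW S) (hff S) (S.hCtx _ hHK) hPt hY hPF
    (h3 t ht.2 Pt hPt hY).le hc hom hYs m hne hU1 hU2 hs1 hs2 hA1 hA2 hYX (fun r => ?_)
  have e : (1 + algebraMap ℂ K t * ν) ^ 2 • (X r * (A1 r)ᵀ) +
      (1 + algebraMap ℂ K t * ν') ^ 2 • (A2 r * X r) =
      (1 + algebraMap ℂ K t * ν) ^ 2 • (X r * (A1 r)ᵀ -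
        (-(((1 + algebraMap ℂ K t * ν') / (1 + algebraMap ℂ K t * ν)) ^ 2)) • (A2 r * X r)) := by
    rw [smul_sub, neg_smul, smul_neg, sub_neg_eq_add, smul_smul, div_pow,
      mul_div_cancel₀ _ (pow_ne_zero 2 hc1)]
  rw [e, Matrix.mul_smul, Matrix.smul_mul, harm r, smul_zero]

end Crest.Agent.R172.SB1S141
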