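import Crest.Agent.R172.SEnd4
import Crest.Agent.R172.SEndW

/-!
Row 172 (S0260), tame node (t2): membership in `GoodSW` from the L-side values of the correction
(block scalars plus radical).
-/

set_option autoImplicit false
set_option linter.unusedSectionVars false

namespace Crest.Agent.R172.SEnd5

open Matrix Module Crest.Agent.R172.FO Crest.Agent.R172.Qt Crest.Agent.R172.SpS
open Crest.Agent.R172.SEnd Crest.Agent.R172.SEnd2 Crest.Agent.R172.SEnd3 Crest.Agent.R172.SBlk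
open Crest.Agent.R172.SEnd4 Crest.Agent.R172.SEndW
open Crest.Agent.R172.SC (PB)
open Crest.Agent.R172.St (Nk T)
open Crest.Agent.R172.PL (Wk Ainf Rad CoreM coreOp resOp)

variable {ι : Type*} [Fintype ι] [DecidableEq ι] {δ : Type*} [Fintype δ] [DecidableEq δ]
variable {k K : Type*} [Field k] [Field K] [Algebra k K]
variable {arm : δ → Fin 3} {J : Matrix ι ι K} {B : Matrix δ δ K}
  {N W : Submodule K (Matrix ι δ K)} {g f : Matrix ι δ K} {R : Matrix δ ι K}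
  {p : Matrix ι ι K × (Fin 3 → Matrix ι ι K)} {S : Finset K}
  {q : K → Matrix ι ι K × (Fin 3 → Matrix ι ι K)}

/-- the radical of a block lies in the radical of the sum -/
theorem Rd_le_sup {η : Matrix ι ι K} {α : Type*} {P : Submodule K (ι → K)}
    {Pb : α → Submodule K (ι → K)} (hP : P = ⨆ i, Pb i)
    (horth : ∀ i j, i ≠ j → ∀ a ∈ Pb i, ∀ b ∈ Pb j, a ⬝ᵥ (η *ᵥ b) = 0) (i : α) :
    Rd η (Pb i) ≤ Rd η P := by
  intro r hr
  refine ⟨by rw [hP]; exact Submodule.mem_iSup_of_mem i hr.1, fun b hb => ?_⟩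
  rw [hP] at hb
  induction hb using Submodule.iSup_induction' with
  | mem j b hb =>
    by_cases hij : j = i
    · subst hij
      exact hr.2 b hb
    · exact horth j i hij b hb r hr.1
  | zero => rw [zero_dotProduct]
  | add a b _ _ h1 h2 => rw [add_dotProduct, h1, h2, add_zero]

/-- the eigenform `q_c` pairs to zero with a block vector in the second slot -/
theorem spec_block' (h : Ctx k arm J B N W g) (hR : g * R * g = g) (hf : f ∈ N ⊓ W)
    (hq : Spec arm J N g f p.1 S q) {D : End K (CoreM (Ph arm J B g R p.1))}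
    (hD : IsD (Ph arm J B g R p.1) (Nh arm J B g f R p.1) D) {ν c : K} (hne : c ≠ ν)
    {v : ι → K} (hv : v ∈ (PB (Ph arm J B g R p.1) D ν).map (Sg g).subtype) (u : δ → K) :
    (g *ᵥ u) ⬝ᵥ ((J * (q c).1) *ᵥ v) = 0 := by
  obtain ⟨v', hv', rfl⟩ := hv
  have h1 := spec_block h hR hf hq hD hne hv' u
  have hsk := (Phi_adj h.data h.mem (hq.mem c).1 0).1
  change (g *ᵥ u) ⬝ᵥ ((J * (q c).1) *ᵥ ((v' : Sg g) : ι → K)) = 0
  rw [dotProduct_mulVec, ← mulVec_transpose, hsk, neg_mulVec, neg_dotProduct,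
    dotProduct_comm, h1, neg_zero]

/-- **membership in `GoodSW` from the L-side values of the correction.** -/
theorem GoodSW_of_uside (h : Ctx k arm J B N W g) (h2 : (2 : K) ≠ 0) (hR : g * R * g = g)
    (hp : p ∈ NN arm J N g) (hf : f ∈ N ⊓ W) (hq : Spec arm J N g f p.1 S q)
    {D : End K (CoreM (Ph arm J B g R p.1))}
    (hD : IsD (Ph arm J B g R p.1) (Nh arm J B g f R p.1) D)
    {α : Type*} {nu : α → K} {P : Submodule K (ι → K)} (hPg : ∀ a ∈ P, ∃ u, g *ᵥ u = a)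
    {Pb : α → Submodule K (ι → K)} (hP : P = ⨆ i, Pb i)
    (hPb : ∀ i, Pb i ≤ (PB (Ph arm J B g R p.1) D (nu i)).map (Sg g).subtype)
    (hst : ∀ i r, ∀ c ∈ Pb i, (M arm B r g g * (J * p.1)) *ᵥ c ∈ Pb i)
    {s : Fin 3} {x : Matrix ι ι K} {w : Matrix ι δ K} (hw : w ∈ W)
    (hN : x * (J * p.1) * g * E K arm s - w ∈ N)
    (hwP : ∀ a ∈ P, ∀ v, a ⬝ᵥ ((J * w) *ᵥ v) = 0) (μ : K → K)
    (hV : ∀ i, ∀ c ∈ Pb i, ∀ r, ∀ a ∈ P,
      a ⬝ᵥ ((J * p.1 * w) *ᵥ ((E K arm r * B * gᵀ * (J * p.1)) *ᵥ c)) =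
        μ (nu i) * (a ⬝ᵥ ((J * p.1) *ᵥ ((M arm B r g g * (J * p.1)) *ᵥ c)))) :
    x ∈ GoodSW arm J B N W g p P s := by
  refine ⟨w, hw, hN, hwP, ∑ c ∈ S, μ c • q c,
    Submodule.sum_mem _ fun c _ => (NN arm J N g).smul_mem _ (hq.mem c), ?_, ?_⟩
  · rw [act_sum_NN, pair_sum_right']
    refine Finset.sum_eq_zero fun c _ => ?_
    rw [show act arm (μ c • q c).2 g = μ c • act arm (q c).2 g from act_smul_left arm _ _ _,
      pair_smul_right, theta_spec h h2 hp hf hq, mul_zero]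
  · have hfst : (∑ c ∈ S, μ c • q c).1 = ∑ c ∈ S, μ c • (q c).1 := Prod.fst_sum
    intro a ha c hc r
    obtain ⟨u', rfl⟩ := hPg a ha
    rw [hP] at hc
    induction hc using Submodule.iSup_induction' with
    | mem i c hc =>
      rw [hV i c hc r _ ha]
      obtain ⟨v, hv⟩ : ∃ v, v = (M arm B r g g * (J * p.1)) *ᵥ c := ⟨_, rfl⟩
      have hvb : v ∈ (PB (Ph arm J B g R p.1) D (nu i)).map (Sg g).subtype :=
        hPb i (by rw [hv]; exact hst i r c hc)
      have hvg : ∃ z, g *ᵥ z = v := by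
        obtain ⟨v', -, rfl⟩ := hvb
        obtain ⟨z, hz⟩ := gS_surj g v'
        exact ⟨z, by rw [← hz]; exact (gS_coe g z).symm⟩
      rw [← hv, hfst, Matrix.mul_sum, sum_mulVec, dotProduct_sum]
      obtain ⟨z, hz⟩ := hvg
      have h5 : (g *ᵥ u') ⬝ᵥ ((J * p.1) *ᵥ v) =
          ∑ c ∈ S, (g *ᵥ u') ⬝ᵥ ((J * (q c).1) *ᵥ v) := by
        rw [← hz]; exact spec_sum hq u' z
      rw [h5, Finset.mul_sum]
      refine Finset.sum_congr rfl fun c _ => ?_
      rw [Matrix.mul_smul, smul_mulVec, dotProduct_smul, smul_eq_mul]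
      by_cases hc : c = nu i
      · rw [hc]
      · rw [spec_block' h hR hf hq hD hc hvb u', mul_zero, mul_zero]
    | zero => simp only [mulVec_zero, dotProduct_zero]
    | add b c _ _ h1 h2 =>
      rw [mulVec_add, mulVec_add, dotProduct_add, h1, h2, mulVec_add, mulVec_add, dotProduct_add]

/-- **membership in `GoodSW` from 'scalar plus radical' on the blocks.** -/
theorem GoodSW_of_good (h : Ctx k arm J B N W g) (h2 : (2 : K) ≠ 0) (hR : g * R * g = g)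
    (hp : p ∈ NN arm J N g) (hf : f ∈ N ⊓ W) (hq : Spec arm J N g f p.1 S q)
    {D : End K (CoreM (Ph arm J B g R p.1))}
    (hD : IsD (Ph arm J B g R p.1) (Nh arm J B g f R p.1) D)
    {α : Type*} {nu : α → K} {P : Submodule K (ι → K)} (hPg : ∀ a ∈ P, ∃ u, g *ᵥ u = a)
    {Pb : α → Submodule K (ι → K)} (hP : P = ⨆ i, Pb i)
    (hPb : ∀ i, Pb i ≤ (PB (Ph arm J B g R p.1) D (nu i)).map (Sg g).subtype)
    (hst : ∀ i r, ∀ c ∈ Pb i, (M arm B r g g * (J * p.1)) *ᵥ c ∈ Pb i)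
    {s : Fin 3} {x : Matrix ι ι K} {w : Matrix ι δ K} (hw : w ∈ W)
    (hN : x * (J * p.1) * g * E K arm s - w ∈ N)
    (hwP : ∀ a ∈ P, ∀ v, a ⬝ᵥ ((J * w) *ᵥ v) = 0) (μ : K → K)
    (hV : ∀ i, ∀ c ∈ Pb i, ∀ r, ∃ rr : ι → K, (∀ a ∈ P, a ⬝ᵥ ((J * p.1) *ᵥ rr) = 0) ∧
      w *ᵥ ((E K arm r * B * gᵀ * (J * p.1)) *ᵥ c) =
        μ (nu i) • ((M arm B r g g * (J * p.1)) *ᵥ c) + rr) :
    x ∈ GoodSW arm J B N W g p P s := by
  refine GoodSW_of_uside h h2 hR hp hf hq hD hPg hP hPb hst hw hN hwP μ fun i c hc r a ha => ?_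
  obtain ⟨rr, hrr, hwv⟩ := hV i c hc r
  rw [← mulVec_mulVec, hwv, mulVec_add, dotProduct_add, hrr a ha, add_zero, mulVec_smul,
    dotProduct_smul, smul_eq_mul]

end Crest.Agent.R172.SEnd5
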