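import Crest.Agent.R172.SAsmW
import Crest.Agent.R172.SCore2
import Crest.Agent.R172.SEnd5
import Crest.Agent.R172.PTy
import Crest.Agent.R172.Qt8
import Crest.Agent.R172.SpS10

/-!
Row 172 (S0260), tame node (t2), TOP of the S-side: `SLCfgW` from the two levels in `Ctx` letters.
-/

set_option autoImplicit false
set_option linter.unusedSectionVars false
set_option linter.unusedVariables false
set_option maxHeartbeats 400000

namespace Crest.Agent.R172.STop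

open Matrix Module Crest.Agent.R172.FO Crest.Agent.R172.Qt
open Crest.AlgebraR.SpinSaturation Crest.Agent.R172.SoGrade Crest.Agent.R172.Sp
open Crest.Agent.R172.CF Crest.Agent.R172.CSys
open Crest.Agent.R172.Gen (Jm Ix emb IsSo)
open Crest.Agent.R172.SpS Crest.Agent.R172.SEnd Crest.Agent.R172.SEnd2
open Crest.Agent.R172.Om (Kiso Scal)
open Crest.Agent.R172.Ind (GI Inst)
open Crest.Agent.R172.Fin4 Crest.Agent.R172.Fin5
open Crest.Agent.R172.PL (Wk Ainf Rad CoreM coreOp resOp Ainf_exists Ainf_stable)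
open Crest.Agent.R172.St (Nk T mem_T mem_Nk_zero mem_Nk_succ Nk_le_T T_stable T_closed T_eq_Nk)
open Crest.Agent.R172.SEndW Crest.Agent.R172.SAsmW Crest.Agent.R172.SCM Crest.Agent.R172.SCB
open Crest.Agent.R172.SC (PB PB_mem PB_exists PB_stable PB_orth iSup_PB PB_le_Ainf)
open LinearMap (ker range)

section letters

variable {ι : Type} [Fintype ι] [DecidableEq ι] {δ : Type} [Fintype δ] [DecidableEq δ]
variable {K : Type} [Field K] [Algebra ℂ K]

/-- **the letters of (t2)** : one derivation-rich situation `(F, f, P)` with a tame core of `P`. -/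
structure Setup (arm : δ → Fin 3) (J : Matrix ι ι K) (B : Matrix δ δ K)
    (N W : Submodule K (Matrix ι δ K)) (F f : Matrix ι δ K)
    (P : Matrix ι ι K × (Fin 3 → Matrix ι ι K)) (R : Matrix δ ι K)
    (D : End K (CoreM (PhS arm J B F R P.1))) (l : Fin 3 → ℕ) : Prop where
  hCtx : ∀ g ∈ Kiso J N W, Ctx ℂ arm J B N W g
  hNm : ∀ F, (∀ F' ∈ N, pair J B F' F = 0) → F ∈ N
  hWm : ∀ F, (∀ F' ∈ W, pair J B F' F = 0) → F ∈ W
  hNil : ∀ g ∈ Kiso J N W, NilW arm J B N g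
  hF : F ∈ Kiso J N W
  hf : f ∈ Kiso J N W
  hP : P ∈ NN arm J N F
  hV1 : ∀ w ∈ Kiso J N W, ∃ d : Derivation ℂ K K, F.map d = w ∧ f.map d = 0 ∧
    Realises arm N W (0 : Fin 3 → Matrix ι ι K) (0 : Matrix δ δ K) d
  hV2 : ∀ p' ∈ NN arm J N F, ∃ d : Derivation ℂ K K, F.map d = 0 ∧ f.map d = 0 ∧
    Realises arm N W (0 : Fin 3 → Matrix ι ι K) (0 : Matrix δ δ K) d ∧
      P.1.map d = p'.1 ∧ ∀ s, (P.2 s).map d = p'.2 s
  hR : F * R * F = F
  hD : SBlk.IsD (PhS arm J B F R P.1) (Be (Ng arm B F R f) (bil F R (Fᵀ * (J * P.1) * F))) D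
  hDB : ∀ x y, BC (Mg arm B F) (bil F R (Fᵀ * (J * P.1) * F)) (D x) y =
    BC (Mg arm B F) (bil F R (Fᵀ * (J * P.1) * F)) x (D y)
  hT : Core.Tame (coreOp (PhS arm J B F R P.1)) D
  hl : ∑ s, (1 - 1 / (l s : ℚ)) = 2
  top : ⨆ c, D.eigenspace c = ⊤
  free : ∀ s, (∀ c ∈ PC arm J B F R P.1, ((M arm B s F F * (J * P.1)) ^ l s) *ᵥ c ∈
      Rd (J * P.1) (PC arm J B F R P.1)) ∧
    ∀ v ≤ l s, ∀ c ∈ PC arm J B F R P.1,
      ((M arm B s F F * (J * P.1)) ^ (l s - v)) *ᵥ c ∈ Rd (J * P.1) (PC arm J B F R P.1) →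
      ∃ c' ∈ PC arm J B F R P.1, c - ((M arm B s F F * (J * P.1)) ^ v) *ᵥ c' ∈
        Rd (J * P.1) (PC arm J B F R P.1)
  pkg : ∀ ν, D.maxGenEigenspace ν ≠ ⊥ → ∃ (n : ℕ) (Q : Matrix ι (Fin n) K)
    (A : Fin 3 → Matrix (Fin n) (Fin n) K), BPkg arm J B F R P.1 D ν l Q A

/-- the generators of the filtered tensors of the blocks `Q1 ⊗ Q2` are good -/
def Gens (arm : δ → Fin 3) (J : Matrix ι ι K) (B : Matrix δ δ K)
    (N W : Submodule K (Matrix ι δ K)) (F : Matrix ι δ K)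
    (P : Matrix ι ι K × (Fin 3 → Matrix ι ι K)) (R : Matrix δ ι K) (l : Fin 3 → ℕ)
    {n1 n2 : ℕ} (Q1 : Matrix ι (Fin n1) K) (A1 : Fin 3 → Matrix (Fin n1) (Fin n1) K)
    (Q2 : Matrix ι (Fin n2) K) (A2 : Fin 3 → Matrix (Fin n2) (Fin n2) K) : Prop :=
  ∀ s, (∀ i j, i + j + 1 = l s → ∀ x y, vecMulVec (Q1 *ᵥ ((A1 s ^ i) *ᵥ x))
      (Q2 *ᵥ ((A2 s ^ j) *ᵥ y)) ∈ GoodSW arm J B N W F P (PC arm J B F R P.1) s) ∧
    (∀ x y, (Q1ᵀ * (J * P.1) * Q1) *ᵥ x = 0 →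
      vecMulVec (Q1 *ᵥ x) (Q2 *ᵥ y) ∈ GoodSW arm J B N W F P (PC arm J B F R P.1) s) ∧
    (∀ x y, (Q2ᵀ * (J * P.1) * Q2) *ᵥ y = 0 →
      vecMulVec (Q1 *ᵥ x) (Q2 *ᵥ y) ∈ GoodSW arm J B N W F P (PC arm J B F R P.1) s)

end letters

/-- **LEVEL 1**: two different blocks -/
def Lev1 : Prop :=
  ∀ {ι : Type} [Fintype ι] [DecidableEq ι] {δ : Type} [Fintype δ] [DecidableEq δ]
    {K : Type} [Field K] [Algebra ℂ K] [IsAlgClosed K]
    {arm : δ → Fin 3} {J : Matrix ι ι K} {B : Matrix δ δ K} {N W : Submodule K (Matrix ι δ K)}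
    {F f : Matrix ι δ K} {P : Matrix ι ι K × (Fin 3 → Matrix ι ι K)} {R : Matrix δ ι K}
    {D : End K (CoreM (PhS arm J B F R P.1))} {l : Fin 3 → ℕ}
    (_ : Setup arm J B N W F f P R D l) {ν ν' : K} (_ : ν ≠ ν')
    {n1 n2 : ℕ} {Q1 : Matrix ι (Fin n1) K} {A1 : Fin 3 → Matrix (Fin n1) (Fin n1) K}
    {Q2 : Matrix ι (Fin n2) K} {A2 : Fin 3 → Matrix (Fin n2) (Fin n2) K}
    (_ : BPkg arm J B F R P.1 D ν l Q1 A1) (_ : BPkg arm J B F R P.1 D ν' l Q2 A2),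
    Gens arm J B N W F P R l Q1 A1 Q2 A2

/-- **LEVEL 2**: one block, in the presence of a second one -/
def Lev2 : Prop :=
  ∀ {ι : Type} [Fintype ι] [DecidableEq ι] {δ : Type} [Fintype δ] [DecidableEq δ]
    {K : Type} [Field K] [Algebra ℂ K] [IsAlgClosed K]
    {arm : δ → Fin 3} {J : Matrix ι ι K} {B : Matrix δ δ K} {N W : Submodule K (Matrix ι δ K)}
    {F f : Matrix ι δ K} {P : Matrix ι ι K × (Fin 3 → Matrix ι ι K)} {R : Matrix δ ι K}
    {D : End K (CoreM (PhS arm J B F R P.1))} {l : Fin 3 → ℕ}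
    (_ : Setup arm J B N W F f P R D l) {ν ν' : K} (_ : ν ≠ ν')
    {n1 n2 : ℕ} {Q1 : Matrix ι (Fin n1) K} {A1 : Fin 3 → Matrix (Fin n1) (Fin n1) K}
    {Q2 : Matrix ι (Fin n2) K} {A2 : Fin 3 → Matrix (Fin n2) (Fin n2) K}
    (_ : BPkg arm J B F R P.1 D ν l Q1 A1) (_ : BPkg arm J B F R P.1 D ν' l Q2 A2),
    Gens arm J B N W F P R l Q1 A1 Q1 A1

section free

variable {K : Type*} [Field K] {V : Type*} [AddCommGroup V] [Module K V] [FiniteDimensional K V]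

/-- the exponents of `free_of_tame` are those of `Tame` -/
theorem free_l {Φ : Fin 3 → End K V} {D : End K V}
    (hDΦ : ∀ s v, D (Φ s v) = Φ s (D v)) (hD : ⨆ ν, D.maxGenEigenspace ν = ⊤)
    (hne : ∃ ν, D.maxGenEigenspace ν ≠ ⊥) {l : Fin 3 → ℕ}
    (hl : ∀ s nu, D.maxGenEigenspace nu ≠ ⊥ →
      (∀ j, (∀ v ∈ D.maxGenEigenspace nu, (Φ s ^ j) v = 0) ↔ l s ≤ j))
    {l' : Fin 3 → ℕ} (h3 : ∀ s, Φ s ^ l' s = 0)
    (h4 : ∀ s, l' s * finrank K (ker (Φ s)) = finrank K V) : l' = l := by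
  obtain ⟨ν, hν⟩ := hne
  funext s
  have h5 : l s ≤ l' s := ((hl s ν hν) (l' s)).1 fun v _ => by rw [h3 s, LinearMap.zero_apply]
  have h6 : Φ s ^ l s = 0 := by
    apply LinearMap.ext
    intro v
    have hv : v ∈ ⨆ ν, D.maxGenEigenspace ν := by rw [hD]; trivial
    rw [LinearMap.zero_apply]
    refine Submodule.iSup_induction (p := fun ν => D.maxGenEigenspace ν)
      (motive := fun v => (Φ s ^ l s) v = 0) hv ?_ (map_zero _) ?_
    · intro μ v hv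
      by_cases hμ : D.maxGenEigenspace μ = ⊥
      · rw [hμ] at hv
        rw [(Submodule.mem_bot K).1 hv, map_zero]
      · exact ((hl s μ hμ) (l s)).2 le_rfl v hv
    · intro x y hx hy
      rw [map_add, hx, hy, add_zero]
  by_contra hne'
  have h7 : 1 ≤ l' s - l s := by omega
  have h8 := TC.ker_eq_range (h3 s) (h4 s) h5
  rw [h6, LinearMap.ker_zero] at h8
  have h9 : ∀ m v, ∃ u, (Φ s ^ ((l' s - l s) * m)) u = v := by
    intro m
    induction m with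
    | zero => intro v; exact ⟨v, by rw [Nat.mul_zero, pow_zero]; rfl⟩
    | succ m ih =>
      intro v
      have h10 : v ∈ range (Φ s ^ (l' s - l s)) := by rw [← h8]; trivial
      obtain ⟨u, hu⟩ := h10
      obtain ⟨u', hu'⟩ := ih u
      refine ⟨u', ?_⟩
      rw [Nat.mul_succ, Nat.add_comm, pow_add, Module.End.mul_apply, hu', hu]
  have h11 : ∀ v : V, v = 0 := by
    intro v
    obtain ⟨u, hu⟩ := h9 (l' s) v
    have h12 : Φ s ^ ((l' s - l s) * l' s) = 0 := by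
      rw [Nat.mul_comm, pow_mul, h3 s, zero_pow (by omega)]
    rw [h12, LinearMap.zero_apply] at hu
    exact hu.symm
  exact hν ((Submodule.eq_bot_iff _).2 fun x _ => h11 x)

/-- freeness of the core with the exponents of `Tame` -/
theorem free_Ainf_l (Φ : Fin 3 → End K V) {D : End K (CoreM Φ)} [IsAlgClosed K]
    (hD : ∀ s x, D (coreOp Φ s x) = coreOp Φ s (D x)) (hT : Core.Tame (coreOp Φ) D)
    {l : Fin 3 → ℕ} (hl : ∀ s nu, D.maxGenEigenspace nu ≠ ⊥ →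
      (∀ j, (∀ v ∈ D.maxGenEigenspace nu, (coreOp Φ s ^ j) v = 0) ↔ l s ≤ j)) :
      (∀ s, ∀ v ∈ Ainf Φ, (Φ s ^ l s) v ∈ T Φ) ∧
      ∀ s, ∀ j ≤ l s, ∀ v ∈ Ainf Φ, (Φ s ^ (l s - j)) v ∈ T Φ →
        ∃ w ∈ Ainf Φ, v - (Φ s ^ j) w ∈ T Φ := by
  obtain ⟨l', h1, h2, h3, h4, -, -⟩ := TC.free_of_tame hD
    (Module.End.iSup_maxGenEigenspace_eq_top D) hT
  obtain ⟨lam, -, -, hlam, -⟩ := hT.1
  have hll : l' = l := free_l hD (Module.End.iSup_maxGenEigenspace_eq_top D) ⟨lam, hlam⟩ hl h3 h4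
  subst hll
  refine ⟨fun s v hv => ?_, fun s j hj v hv hvT => ?_⟩
  · obtain ⟨w, hw1, hw2⟩ := coreOp_pow Φ s (l' s) ⟨v, hv⟩
    rw [h3 s, LinearMap.zero_apply] at hw2
    have h5 := (Submodule.Quotient.mk_eq_zero _).1 hw2.symm
    change (w : V) ∈ T Φ at h5
    rw [hw1] at h5
    exact h5
  · obtain ⟨w, hw1, hw2⟩ := coreOp_pow Φ s (l' s - j) ⟨v, hv⟩
    have h5 : (coreOp Φ s ^ (l' s - j)) ((Rad Φ).mkQ ⟨v, hv⟩) = 0 := by
      rw [hw2]
      refine (Submodule.Quotient.mk_eq_zero _).2 ?_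
      change (w : V) ∈ T Φ
      rw [hw1]
      exact hvT
    have h6 : (Rad Φ).mkQ ⟨v, hv⟩ ∈ LinearMap.ker (coreOp Φ s ^ (l' s - j)) := h5
    rw [TC.ker_eq_range (h3 s) (h4 s) (Nat.sub_le _ _), Nat.sub_sub_self hj] at h6
    obtain ⟨y, hy⟩ := h6
    obtain ⟨y, rfl⟩ := (Rad Φ).mkQ_surjective y
    obtain ⟨z, hz1, hz2⟩ := coreOp_pow Φ s j y
    refine ⟨y, y.2, ?_⟩
    rw [hz2] at hy
    have h7 := SpS.mk_eq.1 hy.symm
    rw [hz1] at h7
    exact h7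

/-- the exponents of `BlkD` are those of `Tame` -/
theorem blk_l {Φ : Fin 3 → End K V} {D : End K (CoreM Φ)} [IsAlgClosed K]
    (hD : ∀ s x, D (coreOp Φ s x) = coreOp Φ s (D x)) {l : Fin 3 → ℕ}
    (hl : ∀ s nu, D.maxGenEigenspace nu ≠ ⊥ →
      (∀ j, (∀ v ∈ D.maxGenEigenspace nu, (coreOp Φ s ^ j) v = 0) ↔ l s ≤ j)) {ν : K}
    (hν : D.maxGenEigenspace ν ≠ ⊥) {l' : Fin 3 → ℕ}
    (hb : BlkD (bA hD ν) (bR Φ D ν) l') : l' = l := by
  have hs := Module.End.iSup_maxGenEigenspace_eq_top D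
  have key : ∀ s j, (∀ v ∈ D.maxGenEigenspace ν, (coreOp Φ s ^ j) v = 0) ↔
      ∀ p, (bA hD ν s ^ j) p ∈ bR Φ D ν := by
    intro s j
    constructor
    · intro h p
      rw [← toE_zero]
      apply Subtype.ext
      rw [toE_bA_pow]
      exact h _ (toE Φ D ν p).2
    · intro h v hv
      obtain ⟨p, hp⟩ := toE_surj hD hs ν ⟨v, hv⟩
      have h1 := h p
      rw [← toE_zero] at h1
      have h2 := congrArg (fun x : D.maxGenEigenspace ν => (x : CoreM Φ)) h1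
      simp only [toE_bA_pow, hp] at h2
      exact h2
  funext s
  have h5 : l s ≤ l' s := ((hl s ν hν) (l' s)).1 ((key s _).2 fun p => hb.pow s p)
  have h6 : ¬ l s ≤ l' s - 1 := by
    intro h7
    obtain ⟨p, hp⟩ := hb.ne s
    exact hp ((key s _).1 (((hl s ν hν) _).2 h7) p)
  have := hb.two_le s
  omega

/-- no block at a non-eigenvalue -/
theorem PB_bot {Φ : Fin 3 → End K V} {D : End K (CoreM Φ)}
    (hD : ∀ s x, D (coreOp Φ s x) = coreOp Φ s (D x)) {ν : K}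
    (hν : D.maxGenEigenspace ν = ⊥) : PB Φ D ν = ⊥ := by
  obtain ⟨m, hm⟩ := T_eq_Nk Φ
  have h0 : PB Φ D ν ≤ Nk Φ m := by
    intro v hv
    obtain ⟨h, h1⟩ := PB_mem hv
    rw [hν, Submodule.mem_bot] at h1
    rw [← hm]
    exact (SC.mk_zero_iff h).1 h1
  have h1 : ∀ j, PB Φ D ν ≤ Nk Φ j → PB Φ D ν ≤ Nk Φ 0 := by
    intro j
    induction j with
    | zero => exact id
    | succ j ih =>
      intro h
      refine ih fun v hv => ?_
      obtain ⟨f, hf, hs⟩ := PB_exists hD ν hv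
      rw [← hs]
      exact Submodule.sum_mem _ fun s _ => mem_Nk_succ.1 (h (hf s)) s
  rw [eq_bot_iff]
  intro v hv
  exact (Submodule.mem_bot K).2 (mem_Nk_zero.1 (h1 m h0 hv))

end free

section top

variable {ι : Type} [Fintype ι] [DecidableEq ι] {δ : Type} [Fintype δ] [DecidableEq δ]
variable {K : Type} [Field K] [Algebra ℂ K] [IsAlgClosed K]
variable {arm : δ → Fin 3} {J : Matrix ι ι K} {B : Matrix δ δ K} {N W : Submodule K (Matrix ι δ K)}
  {F f : Matrix ι δ K} {P : Matrix ι ι K × (Fin 3 → Matrix ι ι K)} {R : Matrix δ ι K}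

/-- the package with the exponents of `Tame` -/
theorem pow_act {n : ℕ} {Q : Matrix ι (Fin n) K} {A : Matrix (Fin n) (Fin n) K} {Φ : Matrix ι ι K}
    (h : Φ * Q = Q * A) (j : ℕ) (x : Fin n → K) : (Φ ^ j) *ᵥ (Q *ᵥ x) = Q *ᵥ ((A ^ j) *ᵥ x) := by
  have e : Φ ^ j * Q = Q * A ^ j := by
    induction j with
    | zero => rw [pow_zero, pow_zero, Matrix.one_mul, Matrix.mul_one]
    | succ j ih => rw [pow_succ, Matrix.mul_assoc, h, ← Matrix.mul_assoc, ih, pow_succ,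
        Matrix.mul_assoc]
  rw [mulVec_mulVec, e, ← mulVec_mulVec]

/-- **`SLW` from the two levels** -/
theorem slw_of (h1 : Lev1) (h2 : Lev2) {D : End K (CoreM (PhS arm J B F R P.1))} {l : Fin 3 → ℕ}
    (S : Setup arm J B N W F f P R D l) : SLW arm J B N W F P (PC arm J B F R P.1) := by
  classical
  have hctx := S.hCtx F S.hF
  have hDt := hctx.data
  have hDc : ∀ s x, D (coreOp (PhS arm J B F R P.1) s x) =
      coreOp (PhS arm J B F R P.1) s (D x) := S.hD.2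
  have hfin : {ν | D.maxGenEigenspace ν ≠ ⊥}.Finite :=
    WellFoundedGT.finite_ne_bot_of_iSupIndep (Module.End.independent_maxGenEigenspace D)
  let α : Type := {ν // D.maxGenEigenspace ν ≠ ⊥}
  have : Fintype α := hfin.fintype
  choose n Q A hpkg using fun i : α => S.pkg i.1 i.2
  obtain ⟨⟨lam, mu, hne, hlam, hmu⟩, -⟩ := S.hT
  have hgen : ∀ i j : α, Gens arm J B N W F P R l (Q i) (A i) (Q j) (A j) := by
    intro i j
    by_cases hij : i = j
    · subst hij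
      by_cases hi : i.1 = lam
      · exact h2 S (ν' := mu) (by rw [hi]; exact hne) (hpkg i) (hpkg ⟨mu, hmu⟩)
      · exact h2 S hi (hpkg i) (hpkg ⟨lam, hlam⟩)
    · exact h1 S (fun h => hij (Subtype.ext h)) (hpkg i) (hpkg j)
  let Pb : α → Submodule K (ι → K) := fun i =>
    (PB (PhS arm J B F R P.1) D i.1).map (SpS.Sg F).subtype
  have hmem : ∀ i : α, ∀ a, a ∈ Pb i → ∃ x, a = Q i *ᵥ x := by
    rintro i _ ⟨v, hv, rfl⟩
    obtain ⟨x, hx⟩ := (hpkg i).span v hv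
    exact ⟨x, hx⟩
  have hmem' : ∀ i : α, ∀ x, Q i *ᵥ x ∈ Pb i := by
    intro i x
    obtain ⟨v, hv, hvx⟩ := (hpkg i).mem x
    exact ⟨v, hv, hvx⟩
  have hrd : ∀ i : α, ∀ x, Q i *ᵥ x ∈ Rd (J * P.1) (Pb i) →
      ((Q i)ᵀ * (J * P.1) * Q i) *ᵥ x = 0 := by
    intro i x hx
    funext a
    have h3 := hx.2 _ (hmem' i (Pi.single a 1))
    have h4 : (Q i *ᵥ Pi.single a 1) ⬝ᵥ ((J * P.1) *ᵥ (Q i *ᵥ x)) =
        (Pi.single a (1 : K)) ⬝ᵥ (((Q i)ᵀ * (J * P.1) * Q i) *ᵥ x) := by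
      rw [Matrix.mul_assoc, ← mulVec_mulVec x (Q i)ᵀ, dotProduct_mulVec (Pi.single a 1) (Q i)ᵀ,
        vecMul_transpose]
      simp only [mulVec_mulVec, Matrix.mul_assoc]
    rw [h4, single_one_dotProduct] at h3
    exact h3
  have hP : PC arm J B F R P.1 = ⨆ i, Pb i := by
    have h3 : Ainf (PhS arm J B F R P.1) = ⨆ ν, PB (PhS arm J B F R P.1) D ν :=
      (iSup_PB hDc (Module.End.iSup_maxGenEigenspace_eq_top D)).symm
    unfold PC
    rw [h3, Submodule.map_iSup]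
    refine le_antisymm (iSup_le fun ν => ?_) (iSup_le fun i => ?_)
    · by_cases hν : D.maxGenEigenspace ν = ⊥
      · rw [PB_bot hDc hν, Submodule.map_bot]
        exact bot_le
      · exact le_iSup Pb ⟨ν, hν⟩
    · exact le_iSup (fun ν => (PB (PhS arm J B F R P.1) D ν).map (SpS.Sg F).subtype) i.1
  have horth : ∀ i j, i ≠ j → ∀ a ∈ Pb i, ∀ b ∈ Pb j, a ⬝ᵥ ((J * P.1) *ᵥ b) = 0 := by
    rintro i j hij _ ⟨v, hv, rfl⟩ _ ⟨w, hw, rfl⟩
    exact SCM.orth (k := ℂ) (N := N) (W := W) hDt S.hR S.hP.1 S.hDB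
      (fun h => hij (Subtype.ext h)) hv hw
  intro s x hx hF
  refine mem_GoodSW.1 (hSLW_of_blocks hDt hctx.mem S.hP.1 hP horth
    (fun s => PC_stable S.hR s) S.free ?_ ?_ ?_ s x hx hF)
  · intro s i j i' j' hij a ha b hb
    obtain ⟨x, rfl⟩ := hmem i a ha
    obtain ⟨y, rfl⟩ := hmem j b hb
    rw [pow_act ((hpkg i).act s), pow_act ((hpkg j).act s)]
    exact (hgen i j s).1 i' j' hij x y
  · intro s i j r hr b hb
    obtain ⟨x, rfl⟩ := hmem i r hr.1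
    obtain ⟨y, rfl⟩ := hmem j b hb
    exact (hgen i j s).2.1 x y (hrd i x hr)
  · intro s i j r hr b hb
    obtain ⟨x, rfl⟩ := hmem i r hr.1
    obtain ⟨y, rfl⟩ := hmem j b hb
    exact (hgen j i s).2.2 y x (hrd i x hr)

end top

section cfg

variable {n : ℕ} {a : Fin 3 → Fin n → ℤ} {c : Cfg n a} {q : SPol c}

/-- the setup for a configuration -/
theorem setup_of {R : Ranked c} {L : Type} [Field L] [Algebra ℂ L] [IsAlgClosed L]
    {g : Fin 3 → Matrix (Ix n) (Ix n) L} {H : Matrix (Fin q.toPol.m) (Fin q.toPol.m) L}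
    (hI : Inst c q R L g H) {F f : Matrix (Ix n) c.δ L}
    (hF : F ∈ Kiso (Jm n L) (c.N g) (VL (q.toPol.LH H)))
    (hf : f ∈ Kiso (Jm n L) (c.N g) (VL (q.toPol.LH H))) (hV1 : V1 c q g H F f)
    {P : Matrix (Ix n) (Ix n) L × (Fin 3 → Matrix (Ix n) (Ix n) L)}
    (hP : P ∈ NN c.arm (Jm n L) (c.N g) F) (hV2 : V2 c q g H F f P)
    {G : Matrix c.δ (Ix n) L} (hG : F * G * F = F)
    (hT : TameD (Mg c.arm (c.B L) F) (Ng c.arm (c.B L) F G f)
        (bil F G (Fᵀ * (Jm n L * P.1) * F))) :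
    ∃ (D : End L (CoreM (PhS c.arm (Jm n L) (c.B L) F G P.1))) (l : Fin 3 → ℕ),
      Setup c.arm (Jm n L) (c.B L) (c.N g) (VL (q.toPol.LH H)) F f P G D l := by
  obtain ⟨D, hD1, hD2, hD3, hD4⟩ := hT
  have hT0 := hD4
  obtain ⟨hE, hH, l, hl1, hl2, hl3⟩ := hD4
  have hl : ∀ s nu, D.maxGenEigenspace nu ≠ ⊥ → (∀ j, (∀ v ∈ D.maxGenEigenspace nu,
      (coreOp (PhS c.arm (Jm n L) (c.B L) F G P.1) s ^ j) v = 0) ↔ l s ≤ j) :=
    fun s nu hnu => (hl2 s nu hnu).1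
  have hctx := hI.ctx hF
  have hNil : ∀ g' ∈ Kiso (Jm n L) (c.N g) (VL (q.toPol.LH H)),
      NilW c.arm (Jm n L) (c.B L) (c.N g) g' := by
    intro g' hg'
    exact nilW_cfg R q.toPol hI.gi.orth hI.gi.skew hI.hgen (Jm_transpose _ _) hg'.1.1 hg'.1.2
      (hI.ctx hg').iso
  have hDc : ∀ s x, D (coreOp (PhS c.arm (Jm n L) (c.B L) F G P.1) s x) =
      coreOp (PhS c.arm (Jm n L) (c.B L) F G P.1) s (D x) := hD2
  refine ⟨D, l,
    { hCtx := fun g' hg' => hI.ctx hg'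
      hNm := maxN hI.gi.orth
      hWm := maxW q.toPol hI.gi.skew
      hNil := hNil
      hF := hF
      hf := hf
      hP := hP
      hV1 := hV1
      hV2 := hV2
      hR := hG
      hD := ⟨hD1, hD2⟩
      hDB := hD3
      hT := hT0
      hl := hl3
      top := SBlk.D_top hctx hG (hNil F hF) hP hf.1 ⟨hD1, hD2⟩
      free := ?_
      pkg := ?_ }⟩
  · obtain ⟨h7, h8⟩ := free_Ainf_l _ hDc hT0 hl
    have hpow : ∀ (s : Fin 3) (j : ℕ), ∀ w ∈ Ainf (PhS c.arm (Jm n L) (c.B L) F G P.1),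
        (PhS c.arm (Jm n L) (c.B L) F G P.1 s ^ j) w ∈ Ainf (PhS c.arm (Jm n L) (c.B L) F G P.1) := by
      intro s j
      induction j with
      | zero => intro w hw; exact hw
      | succ j ih =>
        intro w hw
        rw [pow_succ', Module.End.mul_apply]
        exact Ainf_stable s (ih w hw)
    refine fun s => ⟨?_, fun v hv => ?_⟩
    · rintro _ ⟨w, hw, rfl⟩
      have h9 := h7 s w hw
      rw [← mem_Rd_PC (k := ℂ) (N := c.N g) (W := VL (q.toPol.LH H)) hctx.data hG hP.1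
        (hpow s (l s) w hw), PhS_pow_coe hG] at h9
      exact h9
    · rintro _ ⟨w, hw, rfl⟩ hc
      have h9 : (PhS c.arm (Jm n L) (c.B L) F G P.1 s ^ (l s - v)) w ∈
          T (PhS c.arm (Jm n L) (c.B L) F G P.1) := by
        rw [← mem_Rd_PC (k := ℂ) (N := c.N g) (W := VL (q.toPol.LH H)) hctx.data hG hP.1
          (hpow s _ w hw), PhS_pow_coe hG]
        exact hc
      obtain ⟨y, hy, hy2⟩ := h8 s v hv w hw h9
      refine ⟨(y : Ix n → L), ⟨y, hy, rfl⟩, ?_⟩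
      have h10 : w - (PhS c.arm (Jm n L) (c.B L) F G P.1 s ^ v) y ∈
          Ainf (PhS c.arm (Jm n L) (c.B L) F G P.1) :=
        Submodule.sub_mem _ hw (hpow s v y hy)
      rw [← mem_Rd_PC (k := ℂ) (N := c.N g) (W := VL (q.toPol.LH H)) hctx.data hG hP.1 h10,
        Submodule.coe_sub, PhS_pow_coe hG] at hy2
      exact hy2
  · intro ν hν
    obtain ⟨l', -, hb⟩ := SCB.blkD hDc (Module.End.iSup_maxGenEigenspace_eq_top D)
      (fun v => sum_PhS (X := P.1) hctx hG v) hT0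
    have hb' := hb ν hν
    have hll : l' = l := blk_l hDc hl hν hb'
    rw [hll] at hb'
    exact pkg hctx hG hP.1 hDc hD3 hb'

/-- **`SLCfgW` from the two levels** -/
theorem slCfgW_of (h1 : Lev1) (h2 : Lev2) (R : Ranked c) : SLCfgW c q R := by
  intro L _ _ _ g H hI _ F hF f hf hV1 P hP hV2 _ G hG hT
  obtain ⟨D, l, S⟩ := setup_of hI hF hf hV1 hP hV2 hG hT
  exact slw_of h1 h2 S

/-- **(t2) from the two levels** -/
theorem noTameS2I (h1 : Lev1) (h2 : Lev2) (R : Ranked c) : NoTameS2I c q R :=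
  noTameS2I_ofW (slCfgW_of h1 h2 R)

end cfg

/-- **`InS2` from the two levels** -/
theorem inS2_of (h1 : Lev1) (h2 : Lev2) : Ind.InS2 :=
  inS2_ofI fun _ _ _ _ R => noTameS2I h1 h2 R

end Crest.Agent.R172.STop
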