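import Crest.Agent.R172.SNabI934
import Crest.Agent.R172.SInf266
import Crest.Agent.R172.SMv16
import Crest.Agent.R172.STop

/-!
Row 172 (S0260), S-side (t2), node B1 in the letters of `STop.Setup` (helper934).
-/

set_option autoImplicit false
set_option linter.unusedSectionVars false
set_option linter.unusedVariables false

namespace Crest.Agent.R172.SB1S

open Matrix Module Crest.Agent.R172.FO Crest.Agent.R172.Qt Crest.Agent.R172.SpS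
open Crest.Agent.R172.Om (Kiso)
open Crest.Agent.R172.SUX (Mv)
open Crest.Agent.R172.SEnd2 (PhS)
open Crest.Agent.R172.UBlk (Qb cov om)
open Crest.Agent.R172.UFr (Cq)
open Crest.Agent.R172.PL (Ainf CoreM)
open Crest.Agent.R172.SMv16 (Yf Yf_symm)

variable {ι : Type} [Fintype ι] [DecidableEq ι] {δ : Type} [Fintype δ] [DecidableEq δ]
variable {K : Type} [Field K] [Algebra ℂ K] [IsAlgClosed K]
variable {arm : δ → Fin 3} {J : Matrix ι ι K} {B : Matrix δ δ K} {N W : Submodule K (Matrix ι δ K)}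
  {F f : Matrix ι δ K} {P : Matrix ι ι K × (Fin 3 → Matrix ι ι K)} {R : Matrix δ ι K}
  {D : End K (CoreM (PhS arm J B F R P.1))} {l : Fin 3 → ℕ}

/-- the conclusion of `B1` -/
def Incl (S : STop.Setup arm J B N W F f P R D l) (t : ℂ)
    (Pt : Matrix ι ι K × (Fin 3 → Matrix ι ι K)) (ν ν' : K) (Y : Fin 3 → Matrix δ δ K)
    (d : Derivation ℂ K K) : Prop :=
  (∀ u ∈ Qb (S.hCtx F S.hF).data S.hR P.1 D ν, ∃ v ∈ Qb (S.hCtx F S.hF).data S.hR P.1 D ν,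
    ∃ r ∈ Qb (S.hCtx F S.hF).data S.hR P.1 D ν', r ∈ St.T (om arm J B F P.1 F) ∧
      SUB.nab arm J (F + (algebraMap ℂ K t) • f) Pt.1 Y d u = v + r) ∧
  (∀ u ∈ Qb (S.hCtx F S.hF).data S.hR P.1 D ν', ∃ v ∈ Qb (S.hCtx F S.hF).data S.hR P.1 D ν',
    ∃ r ∈ Qb (S.hCtx F S.hF).data S.hR P.1 D ν, r ∈ St.T (om arm J B F P.1 F) ∧
      SUB.nab arm J (F + (algebraMap ℂ K t) • f) Pt.1 Y d u = v + r) ∧
  (∀ κ, κ ≠ ν → κ ≠ ν' → ∀ u ∈ Qb (S.hCtx F S.hF).data S.hR P.1 D κ,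
    SUB.nab arm J (F + (algebraMap ℂ K t) • f) Pt.1 Y d u ∈
      Qb (S.hCtx F S.hF).data S.hR P.1 D κ)

/-- eigenvalues downstairs are eigenvalues upstairs -/
theorem eig_up (S : STop.Setup arm J B N W F f P R D l) {κ : K}
    (hκ : D.maxGenEigenspace κ ≠ ⊥) :
    ((cov (S.hCtx F S.hF).data S.hR P.1).D D).maxGenEigenspace κ ≠ ⊥ := by
  intro h0
  apply hκ
  have h1 := UBlk.gen_map (cov (S.hCtx F S.hF).data S.hR P.1).e
    ((cov (S.hCtx F S.hF).data S.hR P.1).e_D D) κ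
  rw [h0, Submodule.map_bot] at h1
  exact h1.symm

/-- **B1 in Setup letters.** -/
theorem b1 (S : STop.Setup arm J B N W F f P R D l) {Y0 : Matrix δ δ K} {dY : Derivation ℂ K K}
    (hr : Realises arm N W (0 : Fin 3 → Matrix ι ι K) Y0 dY)
    (hform : Fᵀ * J * F.map dY = Fᵀ * J * (P.1 * F)) :
    ∃ Bad : Set ℂ, Bad.Finite ∧ ∀ t ∉ Bad,
      (∀ κ, D.maxGenEigenspace κ ≠ ⊥ → 1 + algebraMap ℂ K t * κ ≠ 0) ∧
      ∀ Pt ∈ NN arm J N (F + (algebraMap ℂ K t) • f),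
        (∀ f' ∈ N ⊓ W, (F + (algebraMap ℂ K t) • f)ᵀ * J * (Pt.1 * f') =
          (F + (algebraMap ℂ K t) • f)ᵀ * J * f'.map dY) →
        (F + (algebraMap ℂ K t) • f)ᵀ * J * (Pt.1 * F) =
          (F + (algebraMap ℂ K t) • f)ᵀ * J * (P.1 * F) →
        ∀ {ν ν' : K}, ν ≠ ν' → ∀ {n1 n2 : Type} [Fintype n1] [Fintype n2] [DecidableEq n1] [DecidableEq n2]
          {U1 : Matrix δ n1 K} {U2 : Matrix δ n2 K} {A1 : Fin 3 → Matrix n1 n1 K}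
          {A2 : Fin 3 → Matrix n2 n2 K} {X : Fin 3 → Matrix n2 n1 K},
          Cq (Qb (S.hCtx F S.hF).data S.hR P.1 D ν) U1 →
          Cq (Qb (S.hCtx F S.hF).data S.hR P.1 D ν') U2 →
          (∀ u ∈ Qb (S.hCtx F S.hF).data S.hR P.1 D ν, ∃ x, u = U1 *ᵥ x) →
          (∀ u ∈ Qb (S.hCtx F S.hF).data S.hR P.1 D ν', ∃ x, u = U2 *ᵥ x) →
          (∀ s, B * E K arm s * (Fᵀ * J * (P.1 * F)) * U1 = U1 * A1 s) →
          (∀ s, B * E K arm s * (Fᵀ * J * (P.1 * F)) * U2 = U2 * A2 s) →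
          1 + algebraMap ℂ K t * ν ≠ 0 →
          (∀ s, (U2ᵀ * (Fᵀ * J * (P.1 * F)) * U2) *
            (X s * (A1 s)ᵀ - (-(((1 + algebraMap ℂ K t * ν') / (1 + algebraMap ℂ K t * ν)) ^ 2)) •
              (A2 s * X s)) * (U1ᵀ * (Fᵀ * J * (P.1 * F)) * U1) = 0) →
          ∀ d : Derivation ℂ K K, Mv ℂ arm J N W (F + (algebraMap ℂ K t) • f) Pt.1 (Yf U1 U2 X) d →
            Incl S t Pt ν ν' (Yf U1 U2 X) d := by
  have hctx := S.hCtx F S.hF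
  have h2 : (2 : K) ≠ 0 := by
    have : (algebraMap ℂ K) 2 ≠ 0 := by
      rw [Ne, map_eq_zero]; norm_num
    rwa [map_ofNat] at this
  obtain ⟨B1, hB1, hb1⟩ := SNabI.exists_bad (k := ℂ) hctx S.hR S.hD h2
  obtain ⟨B2, hB2, hb2⟩ := SInf266.ainf_eq h2 S.hCtx S.hNm S.hWm S.hNil S.hF S.hf S.hV1 S.hP hr
    hform
  refine ⟨B1 ∪ B2, hB1.union hB2, fun t ht => ?_⟩
  obtain ⟨h3, h4⟩ := hb1 t fun h => ht (Or.inl h)
  refine ⟨fun κ hκ => h3 κ (eig_up S hκ), ?_⟩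
  intro Pt hPt hY hPF ν ν' hne n1 n2 _ _ _ _ U1 U2 A1 A2 X hU1 hU2 hs1 hs2 hA1 hA2 hc1 harm d m
  have hA := (hb2 t (fun h => ht (Or.inr h)) Pt hPt hY).le
  have hff : fᵀ * J * f = 0 := S.hf.2 f S.hf.1
  have hHm : F + (algebraMap ℂ K t) • f ∈ Kiso J N W :=
    Submodule.add_mem _ S.hF (Submodule.smul_mem _ _ S.hf)
  have hH := S.hCtx _ hHm
  refine SNabI.B1 hctx S.hR S.hD (S.hNil F S.hF) S.hP S.hf.1 hff hH hPt hY hPF hA h3 h4
    (fun r => Yf_symm r) m hne hU1 hU2 hs1 hs2 hA1 hA2 (fun r => rfl) ?_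
  intro r
  have e := harm r
  have e2 : (1 + algebraMap ℂ K t * ν) ^ 2 • (X r * (A1 r)ᵀ) +
      (1 + algebraMap ℂ K t * ν') ^ 2 • (A2 r * X r) =
      (1 + algebraMap ℂ K t * ν) ^ 2 • (X r * (A1 r)ᵀ -
        (-(((1 + algebraMap ℂ K t * ν') / (1 + algebraMap ℂ K t * ν)) ^ 2)) • (A2 r * X r)) := by
    rw [neg_smul, sub_neg_eq_add, smul_add, smul_smul, div_pow,
      mul_div_cancel₀ _ (pow_ne_zero 2 hc1)]
  rw [e2, Matrix.mul_smul, Matrix.smul_mul, e, smul_zero]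

end Crest.Agent.R172.SB1S
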