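import Crest.Agent.R172.SNabI934
import Crest.Agent.R172.SAinf977
import Crest.Agent.R172.STop

/-!
Row 172 (S0260), (t2), S-side, B1 in the letters of `STop.Setup`: ONE finite bad set (independent of
`ν, ν'`, of `P_t`, of the frames and of the move) outside of which the three block inclusions hold
for every move.
-/

set_option autoImplicit false
set_option linter.unusedSectionVars false
set_option linter.unusedFintypeInType false
set_option linter.unusedDecidableInType false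

namespace Crest.Agent.R172.SB1S965

open Matrix Module
open Crest.Agent.R172.FO Crest.Agent.R172.Qt Crest.Agent.R172.SpS Crest.Agent.R172.SBlk
open Crest.Agent.R172.PL (Ainf CoreM)
open Crest.Agent.R172.St (T)
open Crest.Agent.R172.SEnd2 (PC PhS)
open Crest.Agent.R172.SUX (th Mv)
open Crest.Agent.R172.UBlk (om Qb cov)
open Crest.Agent.R172.UFr (Cq)
open Crest.Agent.R172.Om (Kiso)
open Crest.Agent.R172.STop (Setup)

variable {ι : Type} [Fintype ι] [DecidableEq ι] {δ : Type} [Fintype δ] [DecidableEq δ]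
variable {K : Type} [Field K] [Algebra ℂ K] [IsAlgClosed K]
variable {arm : δ → Fin 3} {J : Matrix ι ι K} {B : Matrix δ δ K}
  {N W : Submodule K (Matrix ι δ K)} {F f : Matrix ι δ K}
  {P : Matrix ι ι K × (Fin 3 → Matrix ι ι K)} {R : Matrix δ ι K}
  {D : End K (CoreM (PhS arm J B F R P.1))} {l : Fin 3 → ℕ}

/-- **B1 in Setup letters.** -/
theorem b1 (S : Setup arm J B N W F f P R D l) (h2 : (2 : K) ≠ 0) :
    ∃ bad : Set ℂ, bad.Finite ∧ ∀ t ∉ bad,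
      (∀ κ, Qb (S.hCtx F S.hF).data S.hR P.1 D κ ≠ ⊥ → 1 + algebraMap ℂ K t * κ ≠ 0) ∧
      ∀ (Pt : Matrix ι ι K × (Fin 3 → Matrix ι ι K)) (dY : Derivation ℂ K K)
        (_ : Pt ∈ NN arm J N (F + (algebraMap ℂ K t) • f))
        (_ : ∀ f' ∈ N ⊓ W, (F + (algebraMap ℂ K t) • f)ᵀ * J * (Pt.1 * f') =
          (F + (algebraMap ℂ K t) • f)ᵀ * J * f'.map dY)
        (_ : (F + (algebraMap ℂ K t) • f)ᵀ * J * (Pt.1 * F) =
          (F + (algebraMap ℂ K t) • f)ᵀ * J * (P.1 * F))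
        {Y : Fin 3 → Matrix δ δ K} {d : Derivation ℂ K K} (_ : ∀ r, (Y r)ᵀ = Y r)
        (_ : Mv ℂ arm J N W (F + (algebraMap ℂ K t) • f) Pt.1 Y d)
        {ν ν' : K} (_ : ν ≠ ν') {n1 n2 : Type} [Fintype n1] [Fintype n2]
        {U1 : Matrix δ n1 K} {U2 : Matrix δ n2 K} {A1 : Fin 3 → Matrix n1 n1 K}
        {A2 : Fin 3 → Matrix n2 n2 K} {X : Fin 3 → Matrix n2 n1 K}
        (_ : Cq (Qb (S.hCtx F S.hF).data S.hR P.1 D ν) U1)
        (_ : Cq (Qb (S.hCtx F S.hF).data S.hR P.1 D ν') U2)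
        (_ : ∀ u ∈ Qb (S.hCtx F S.hF).data S.hR P.1 D ν, ∃ x, u = U1 *ᵥ x)
        (_ : ∀ u ∈ Qb (S.hCtx F S.hF).data S.hR P.1 D ν', ∃ x, u = U2 *ᵥ x)
        (_ : ∀ s, B * E K arm s * (Fᵀ * J * (P.1 * F)) * U1 = U1 * A1 s)
        (_ : ∀ s, B * E K arm s * (Fᵀ * J * (P.1 * F)) * U2 = U2 * A2 s)
        (_ : ∀ r, Y r = U2 * X r * U1ᵀ + U1 * (X r)ᵀ * U2ᵀ)
        (_ : ∀ r, (U2ᵀ * (Fᵀ * J * (P.1 * F)) * U2) *
          ((1 + algebraMap ℂ K t * ν) ^ 2 • (X r * (A1 r)ᵀ) +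
            (1 + algebraMap ℂ K t * ν') ^ 2 • (A2 r * X r)) *
          (U1ᵀ * (Fᵀ * J * (P.1 * F)) * U1) = 0),
        (∀ u ∈ Qb (S.hCtx F S.hF).data S.hR P.1 D ν,
          ∃ v ∈ Qb (S.hCtx F S.hF).data S.hR P.1 D ν,
          ∃ r ∈ Qb (S.hCtx F S.hF).data S.hR P.1 D ν', r ∈ T (om arm J B F P.1 F) ∧
            SUB.nab arm J (F + (algebraMap ℂ K t) • f) Pt.1 Y d u = v + r) ∧
        (∀ u ∈ Qb (S.hCtx F S.hF).data S.hR P.1 D ν',
          ∃ v ∈ Qb (S.hCtx F S.hF).data S.hR P.1 D ν',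
          ∃ r ∈ Qb (S.hCtx F S.hF).data S.hR P.1 D ν, r ∈ T (om arm J B F P.1 F) ∧
            SUB.nab arm J (F + (algebraMap ℂ K t) • f) Pt.1 Y d u = v + r) ∧
        (∀ κ, κ ≠ ν → κ ≠ ν' → ∀ u ∈ Qb (S.hCtx F S.hF).data S.hR P.1 D κ,
          SUB.nab arm J (F + (algebraMap ℂ K t) • f) Pt.1 Y d u ∈
            Qb (S.hCtx F S.hF).data S.hR P.1 D κ) := by
  have hCF := S.hCtx F S.hF
  have hff : fᵀ * J * f = 0 := S.hf.2 f S.hf.1
  obtain ⟨S1, hS1, hS1'⟩ := SNabI.exists_bad (k := ℂ) hCF S.hR S.hD h2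
  have hB := SAinf977.bad_finite hCF S.hf.1
  obtain ⟨d0, hd1, hd2, hd3⟩ := S.hV1 f S.hf
  refine ⟨S1 ∪ (algebraMap ℂ K) ⁻¹' (SAinf977.Bad arm J N F f), hS1.union
    (hB.preimage (fun _ _ _ _ e => (algebraMap ℂ K).injective e)), fun t ht => ?_⟩
  have ht1 : t ∉ S1 := fun h => ht (Or.inl h)
  have ht2 : algebraMap ℂ K t ∉ SAinf977.Bad arm J N F f := fun h => ht (Or.inr h)
  obtain ⟨hc, hom⟩ := hS1' t ht1
  have hHK : F + (algebraMap ℂ K t) • f ∈ Kiso J N W :=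
    (Kiso J N W).add_mem S.hF ((Kiso J N W).smul_mem _ S.hf)
  refine ⟨fun κ hκ => hc κ fun h => hκ ?_, ?_⟩
  · rw [Submodule.eq_bot_iff]
    intro u hu
    exact SNab.PB_zero ((cov hCF.data S.hR P.1).D_comm S.hD.2) h hu
  · intro Pt dY hPt hY hPF Y d hYs m ν ν' hne n1 n2 _ _ U1 U2 A1 A2 X hU1 hU2 hs1 hs2 hA1 hA2 hYX
      harm
    have hA := SAinf977.ainf_le hCF (S.hCtx _ hHK) S.hNm S.hWm S.hf (S.hNil _ hHK) ht2 hd1
      hd2 hd3 S.hP hPt hPF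
    exact SNabI.B1 hCF S.hR S.hD (S.hNil F S.hF) S.hP S.hf.1 hff (S.hCtx _ hHK) hPt hY hPF hA hc hom
      hYs m hne hU1 hU2 hs1 hs2 hA1 hA2 hYX harm

end Crest.Agent.R172.SB1S965
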