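import Crest.Agent.R172.SNab934
import Crest.Agent.R172.SHex965

/-!
Row 172 (S0260), (t2), S-side, B1: the twisted hom vanishing `SNab.Hom0` for the weights
`(1 + t ν)²`, outside a finite set of `t`.
-/

set_option autoImplicit false
set_option linter.unusedSectionVars false

namespace Crest.Agent.R172.SB1a965

open Module
open Crest.Agent.R172.PL (Ainf Rad CoreM coreOp coreOp_mk)
open Crest.Agent.R172.SC (PB PB_mem PB_exists PB_stable PB_le_Ainf PB_surj)

variable {K : Type*} [Field K] {X : Type*} [AddCommGroup X] [Module K X]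

/-- one line: at most one `t` -/
theorem line_fin {lam mu : K} (h : lam ≠ mu) (e : K) :
    {t : K | 1 + t * mu = e * (1 + t * lam)}.Finite := by
  refine Set.Subsingleton.finite fun a ha b hb => ?_
  have ha' : 1 + a * mu = e * (1 + a * lam) := ha
  have hb' : 1 + b * mu = e * (1 + b * lam) := hb
  by_contra hab
  have h1 : (a - b) * (mu - e * lam) = 0 := by linear_combination ha' - hb'
  have h2 : mu - e * lam = 0 := (mul_eq_zero.1 h1).resolve_left (sub_ne_zero.2 hab)
  have h3 : e = 1 := by linear_combination a * h2 - ha'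
  rw [h3, one_mul] at h2
  exact h (sub_eq_zero.1 h2).symm

/-- one twist: finitely many `t` -/
theorem sq_fin [IsAlgClosed K] {lam mu : K} (h : lam ≠ mu) (κ : K) :
    {t : K | (1 + t * mu) ^ 2 = κ * (1 + t * lam) ^ 2}.Finite := by
  obtain ⟨e, he⟩ := IsAlgClosed.exists_pow_nat_eq κ (n := 2) (by norm_num)
  refine ((line_fin h e).union (line_fin h (-e))).subset fun t ht => ?_
  have ht' : (1 + t * mu) ^ 2 = κ * (1 + t * lam) ^ 2 := ht
  rw [← he, ← mul_pow] at ht'
  rcases sq_eq_sq_iff_eq_or_eq_neg.1 ht' with h1 | h1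
  · exact Or.inl h1
  · exact Or.inr (by change 1 + t * mu = -e * (1 + t * lam); rw [h1]; ring)

theorem lin_fin (c : K) : {t : K | 1 + t * c = 0}.Finite := by
  refine Set.Subsingleton.finite fun a ha b hb => ?_
  have ha' : 1 + a * c = 0 := ha
  have hb' : 1 + b * c = 0 := hb
  have hc : c ≠ 0 := by
    rintro rfl
    rw [mul_zero, add_zero] at ha'
    exact one_ne_zero ha'
  have h2 : (a - b) * c = 0 := by linear_combination ha' - hb'
  exact sub_eq_zero.1 ((mul_eq_zero.1 h2).resolve_right hc)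

variable [FiniteDimensional K X]

/-- finitely many eigenvalues -/
theorem ev_fin {V : Type*} [AddCommGroup V] [Module K V] [FiniteDimensional K V] (D : End K V) :
    {ν : K | D.maxGenEigenspace ν ≠ ⊥}.Finite := by
  refine (Module.End.finite_hasEigenvalue D).subset fun ν hν => ?_
  have h1 : D.HasUnifEigenvalue ν ⊤ := hν
  exact h1.lt zero_lt_one

/-- one pair -/
theorem pair_fin [IsAlgClosed K] {a : Fin 3 → End K X} {D : End K (CoreM a)}
    (hD : ∀ s x, D (coreOp a s x) = coreOp a s (D x)) (hs : ⨆ ν, D.maxGenEigenspace ν = ⊤)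
    {lam mu : K} (hne : lam ≠ mu) :
    ∃ bad : Set K, bad.Finite ∧ ∀ t ∉ bad,
      ∀ x : D.maxGenEigenspace lam →ₗ[K] D.maxGenEigenspace mu,
      (∀ r, ∀ v w : D.maxGenEigenspace lam, (w : CoreM a) = coreOp a r v →
        (1 + t * lam) ^ 2 • ((x w : D.maxGenEigenspace mu) : CoreM a) =
          (1 + t * mu) ^ 2 • coreOp a r (x v : D.maxGenEigenspace mu)) → x = 0 := by
  have hst : ∀ ν r, ∀ v ∈ D.maxGenEigenspace ν, coreOp a r v ∈ D.maxGenEigenspace ν := by
    intro ν r v hv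
    have hc : Commute D (coreOp a r) := LinearMap.ext fun x => hD r x
    exact (Module.End.mapsTo_maxGenEigenspace_of_comm hc ν) hv
  let A : Fin 3 → End K (D.maxGenEigenspace lam) := fun r => (coreOp a r).restrict (hst lam r)
  let C : Fin 3 → End K (D.maxGenEigenspace mu) := fun r => (coreOp a r).restrict (hst mu r)
  have hA : ⨆ r, LinearMap.range (A r) = ⊤ := by
    rw [eq_top_iff]
    intro m _
    obtain ⟨v, hvA, hv, hm⟩ := PB_surj hD hs lam m.1 m.2
    obtain ⟨f, hf, hfs⟩ := PB_exists hD lam hv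
    have h1 : m = ∑ r, A r ⟨(Rad a).mkQ ⟨f r, PB_le_Ainf lam (hf r)⟩, (PB_mem (hf r)).2⟩ := by
      apply Subtype.ext
      rw [Submodule.coe_sum, ← hm]
      change _ = ∑ r, coreOp a r ((Rad a).mkQ ⟨f r, PB_le_Ainf lam (hf r)⟩)
      simp only [coreOp_mk]
      rw [← map_sum]
      congr 1
      apply Subtype.ext
      rw [Submodule.coe_sum]
      exact hfs.symm
    rw [h1]
    exact Submodule.sum_mem _ fun r _ => Submodule.mem_iSup_of_mem r ⟨_, rfl⟩
  obtain ⟨S, hS, hS'⟩ := SHex965.hom_fin (B := C) hA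
  refine ⟨{t | 1 + t * lam = 0} ∪ ⋃ κ ∈ S, {t : K | (1 + t * mu) ^ 2 = κ * (1 + t * lam) ^ 2},
    (lin_fin lam).union (hS.biUnion fun κ _ => sq_fin hne κ), fun t ht x hx => ?_⟩
  have h1 : (1 + t * lam) ^ 2 ≠ 0 := pow_ne_zero 2 fun h => ht (Or.inl h)
  refine hS' ((1 + t * mu) ^ 2 / (1 + t * lam) ^ 2) (fun h => ht (Or.inr ?_)) x fun r v => ?_
  · refine Set.mem_biUnion h ?_
    change (1 + t * mu) ^ 2 = _
    rw [div_mul_cancel₀ _ h1]
  · apply Subtype.ext
    have h2 := hx r v (A r v) rfl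
    rw [Submodule.coe_smul, div_eq_inv_mul, mul_smul]
    change _ = _ • _ • coreOp a r (x v : D.maxGenEigenspace mu)
    rw [← h2, smul_smul, inv_mul_cancel₀ h1, one_smul]

/-- **the bad set**: outside it `SNab.Hom0` holds for the weights `(1 + t ν)²` and the weights at
the eigenvalues do not vanish. -/
theorem exists_bad [IsAlgClosed K] {a : Fin 3 → End K X} {D : End K (CoreM a)}
    (hD : ∀ s x, D (coreOp a s x) = coreOp a s (D x)) (hs : ⨆ ν, D.maxGenEigenspace ν = ⊤) :
    ∃ bad : Set K, bad.Finite ∧ ∀ t ∉ bad,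
      SNab.Hom0 a D (fun ν => (1 + t * ν) ^ 2) ∧
      ∀ ν, D.maxGenEigenspace ν ≠ ⊥ → 1 + t * ν ≠ 0 := by
  classical
  have key : ∀ p : K × K, ∃ bad : Set K, bad.Finite ∧ ∀ t ∉ bad, p.1 ≠ p.2 →
      ∀ x : D.maxGenEigenspace p.1 →ₗ[K] D.maxGenEigenspace p.2,
      (∀ r, ∀ v w : D.maxGenEigenspace p.1, (w : CoreM a) = coreOp a r v →
        (1 + t * p.1) ^ 2 • ((x w : D.maxGenEigenspace p.2) : CoreM a) =
          (1 + t * p.2) ^ 2 • coreOp a r (x v : D.maxGenEigenspace p.2)) → x = 0 := by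
    rintro ⟨lam, mu⟩
    by_cases h : lam = mu
    · exact ⟨∅, Set.finite_empty, fun t _ h1 => absurd h h1⟩
    · obtain ⟨bad, h1, h2⟩ := pair_fin hD hs h
      exact ⟨bad, h1, fun t ht _ => h2 t ht⟩
  choose bd hbd hbd' using key
  let E : Set K := {ν : K | D.maxGenEigenspace ν ≠ ⊥}
  have hE : E.Finite := ev_fin D
  refine ⟨(⋃ p ∈ E ×ˢ E, bd p) ∪ ⋃ ν ∈ E, {t : K | 1 + t * ν = 0}, ?_, fun t ht => ⟨?_, ?_⟩⟩
  · exact ((hE.prod hE).biUnion fun p _ => hbd p).union (hE.biUnion fun ν _ => lin_fin ν)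
  · intro lam mu hne x hx
    by_cases h1 : D.maxGenEigenspace lam = ⊥
    · apply LinearMap.ext
      intro v
      have : v = 0 := Subtype.ext ((Submodule.eq_bot_iff _).1 h1 v.1 v.2)
      rw [this, map_zero, map_zero]
    by_cases h2 : D.maxGenEigenspace mu = ⊥
    · apply LinearMap.ext
      intro v
      exact Subtype.ext ((Submodule.eq_bot_iff _).1 h2 _ (x v).2)
    refine hbd' (lam, mu) t (fun h => ht (Or.inl ?_)) hne x hx
    exact Set.mem_biUnion (show (lam, mu) ∈ E ×ˢ E from ⟨h1, h2⟩) h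
  · intro ν hν h
    exact ht (Or.inr (Set.mem_biUnion (show ν ∈ E from hν) h))

end Crest.Agent.R172.SB1a965
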