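import Crest.Agent.R172.SDec

/-!
Row 172 (S0260), tame node (t2), level 2: `SDec.Geo2` with one more clause on the produced
decoration (`hker`): the correction `β` maps `ker (F U2)` into `F Q_1 ∩ F Q_2`; and level 1 at the
level of the class `SLev0.QG`.
-/

set_option autoImplicit false
set_option linter.unusedSectionVars false

namespace Crest.Agent.R172.SDecC

open Matrix Module Crest.Agent.R172.FO Crest.Agent.R172.Qt Crest.Agent.R172.SpS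
open Crest.Agent.R172.SEnd2 (PC PhS)
open Crest.Agent.R172.SUX (D3 th)
open Crest.Agent.R172.PL (CoreM)
open Crest.Agent.R172.SDec

/-- **LEVEL 1 in the class `QG`** -/
def Lev1Q : Prop :=
  ∀ {ι : Type} [Fintype ι] [DecidableEq ι] {δ : Type} [Fintype δ] [DecidableEq δ]
    {K : Type} [Field K] [Algebra ℂ K] [IsAlgClosed K]
    {arm : δ → Fin 3} {J : Matrix ι ι K} {B : Matrix δ δ K} {N W : Submodule K (Matrix ι δ K)}
    {F f : Matrix ι δ K} {P : Matrix ι ι K × (Fin 3 → Matrix ι ι K)} {R : Matrix δ ι K}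
    {D : End K (CoreM (PhS arm J B F R P.1))} {l : Fin 3 → ℕ}
    (_ : STop.Setup arm J B N W F f P R D l) {ν ν' : K} (_ : ν ≠ ν')
    {n1 n2 : ℕ} {Q1 : Matrix ι (Fin n1) K} {A1 : Fin 3 → Matrix (Fin n1) (Fin n1) K}
    {Q2 : Matrix ι (Fin n2) K} {A2 : Fin 3 → Matrix (Fin n2) (Fin n2) K}
    (_ : SCM.BPkg arm J B F R P.1 D ν l Q1 A1) (_ : SCM.BPkg arm J B F R P.1 D ν' l Q2 A2),
    SLev0.Gens arm J B F P.1 l
      (SLev0.QG arm J B N W F P (PC arm J B F R P.1)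
        (fun μ : K => (SLev0.PbK arm J B F R P.1 D μ)) id)
      (SLev0.PbK arm J B F R P.1 D ν) (SLev0.PbK arm J B F R P.1 D ν')

/-- **LEVEL 2, geometric half** (`SDec.Geo2` with the clause `hker` and `Lev1Q` given) -/
def Geo2C : Prop :=
  ∀ {ι : Type} [Fintype ι] [DecidableEq ι] {δ : Type} [Fintype δ] [DecidableEq δ]
    {K : Type} [Field K] [Algebra ℂ K] [IsAlgClosed K]
    {arm : δ → Fin 3} {J : Matrix ι ι K} {B : Matrix δ δ K} {N W : Submodule K (Matrix ι δ K)}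
    {F f : Matrix ι δ K} {P : Matrix ι ι K × (Fin 3 → Matrix ι ι K)} {R : Matrix δ ι K}
    {D : End K (CoreM (PhS arm J B F R P.1))} {l : Fin 3 → ℕ}
    (S : STop.Setup arm J B N W F f P R D l) {ν ν' : K} (_ : ν ≠ ν')
    {m1 m2 : ℕ} {U1 : Matrix δ (Fin m1) K} {U2 : Matrix δ (Fin m2) K}
    {a1 : Fin 3 → Matrix (Fin m1) (Fin m1) K} {a2 : Fin 3 → Matrix (Fin m2) (Fin m2) K}
    (_ : UFr.Cq (UBlk.Qb (S.hCtx F S.hF).data S.hR P.1 D ν) U1)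
    (_ : ∀ u ∈ UBlk.Qb (S.hCtx F S.hF).data S.hR P.1 D ν, ∃ x, u = U1 *ᵥ x)
    (_ : ∀ x, U1 *ᵥ x = 0 → x = 0)
    (_ : ∀ s, B * E K arm s * (Fᵀ * J * (P.1 * F)) * U1 = U1 * a1 s)
    (_ : UFr.Cq (UBlk.Qb (S.hCtx F S.hF).data S.hR P.1 D ν') U2)
    (_ : ∀ u ∈ UBlk.Qb (S.hCtx F S.hF).data S.hR P.1 D ν', ∃ x, u = U2 *ᵥ x)
    (_ : ∀ x, U2 *ᵥ x = 0 → x = 0)
    (_ : ∀ s, B * E K arm s * (Fᵀ * J * (P.1 * F)) * U2 = U2 * a2 s)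
    (_ : Lev1Q),
    ∃ Λ : Set K, Λ.Infinite ∧ (0 : K) ∉ Λ ∧
      (∀ r ∈ Λ, ∀ X : Fin 3 → Matrix (Fin m2) (Fin m1) K,
        ∑ s, (X s * (a1 s)ᵀ - (-(r ^ 2)) • (a2 s * X s)) = 0 →
        (∀ s, (U2ᵀ * (Fᵀ * J * (P.1 * F)) * U2) * (X s * (a1 s)ᵀ - (-(r ^ 2)) • (a2 s * X s)) *
          (U1ᵀ * (Fᵀ * J * (P.1 * F)) * U1) = 0) →
        ∃ β γ, Dec F (Fᵀ * J * (P.1 * F)) U1 U2 a1 a2 (-(r ^ 2)) (X, β, γ) ∧
          ∀ κ : Fin m2 → K, F *ᵥ (U2 *ᵥ κ) = 0 →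
            ∃ κ2 : Fin m2 → K, F *ᵥ (U1 *ᵥ (β *ᵥ κ)) = F *ᵥ (U2 *ᵥ κ2)) ∧
      (∀ r ∈ Λ, ∀ r' ∈ Λ, ∀ y y' : D3 K (Fin m1) (Fin m2),
        Dec F (Fᵀ * J * (P.1 * F)) U1 U2 a1 a2 (-(r ^ 2)) y →
        Dec F (Fᵀ * J * (P.1 * F)) U1 U2 a1 a2 (-(r' ^ 2)) y' →
        Rel2 arm F (Fᵀ * J * (P.1 * F)) U1 U2 r' y y' ∈
          SLev0.QG arm J B N W F P (PC arm J B F R P.1)
            (fun μ : K => (SLev0.PbK arm J B F R P.1 D μ)) id)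

end Crest.Agent.R172.SDecC
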