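import Crest.Agent.R172.SUXF

/-!
Row 172 (S0260), S-side (t2), L2-g (second copy, helper182): the filtered tensors (modulo the
radicals) of a pair of blocks, stable under the connection; exact tensors are filtered.
-/

set_option autoImplicit false
set_option linter.unusedSectionVars false
set_option linter.unusedFintypeInType false
set_option linter.unusedDecidableInType false

namespace Crest.Agent.R172.SL2g

open Matrix Module Crest.Agent.R172.FO Crest.Agent.R172.SpS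

section abs

variable {K : Type*} [Field K] {n1 n2 : Type*} [Fintype n1] [DecidableEq n1] [Fintype n2]
  [DecidableEq n2]

/-- filtered tensors modulo radicals -/
def Gn (A : Matrix n1 n1 K) (B : Matrix n2 n2 K) (R1 : Submodule K (n1 → K))
    (R2 : Submodule K (n2 → K)) (l : ℕ) : Submodule K (Matrix n2 n1 K) :=
  Submodule.span K ({X | ∃ i j y z, i + j + 1 = l ∧ X = vecMulVec ((B ^ i) *ᵥ y) ((A ^ j) *ᵥ z)} ∪
    ({X | ∃ r ∈ R2, ∃ z, X = vecMulVec r z} ∪ {X | ∃ y, ∃ r ∈ R1, X = vecMulVec y r}))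

variable {A : Matrix n1 n1 K} {B : Matrix n2 n2 K} {R1 : Submodule K (n1 → K)}
  {R2 : Submodule K (n2 → K)} {l : ℕ}

theorem Gn_gen {i j : ℕ} (h : i + j + 1 = l) (y : n2 → K) (z : n1 → K) :
    vecMulVec ((B ^ i) *ᵥ y) ((A ^ j) *ᵥ z) ∈ Gn A B R1 R2 l :=
  Submodule.subset_span (Or.inl ⟨i, j, y, z, h, rfl⟩)

theorem Gn_left {r : n2 → K} (h : r ∈ R2) (z : n1 → K) : vecMulVec r z ∈ Gn A B R1 R2 l :=
  Submodule.subset_span (Or.inr (Or.inl ⟨r, h, z, rfl⟩))

theorem Gn_right {r : n1 → K} (h : r ∈ R1) (y : n2 → K) : vecMulVec y r ∈ Gn A B R1 R2 l :=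
  Submodule.subset_span (Or.inr (Or.inr ⟨y, r, h, rfl⟩))

/-- gluing: `X` maps everything to `W1` and `Xᵀ` maps everything to `W2` -/
theorem mem_of_both {W1 : Submodule K (n2 → K)} {W2 : Submodule K (n1 → K)}
    {S : Submodule K (Matrix n2 n1 K)} (h : ∀ a ∈ W1, ∀ b ∈ W2, vecMulVec a b ∈ S)
    {X : Matrix n2 n1 K} (h1 : ∀ v, X *ᵥ v ∈ W1) (h2 : ∀ v, Xᵀ *ᵥ v ∈ W2) : X ∈ S := by
  classical
  -- projection onto `W1`
  obtain ⟨P, hP⟩ := W1.exists_isCompl
  let f : (n2 → K) →ₗ[K] (n2 → K) := W1.subtype ∘ₗ W1.projectionOnto P hP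
  have hf1 : ∀ v, f v ∈ W1 := fun v => (W1.projectionOnto P hP v).2
  have hf2 : ∀ v ∈ W1, f v = v := by
    intro v hv
    have := Submodule.projectionOnto_apply_left hP ⟨v, hv⟩
    exact congrArg Subtype.val this
  set M : Matrix n2 n2 K := LinearMap.toMatrix' f with hM
  have hMv : ∀ v, M *ᵥ v = f v := fun v => by rw [hM, LinearMap.toMatrix'_mulVec]
  have hMX : M * X = X := by
    apply Matrix.ext_of_mulVec_single
    intro i
    rw [← mulVec_mulVec, hMv, hf2 _ (h1 _)]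
  -- `M X = ∑_j (M e_j) ⊗ (X^T e_j)`
  have hsum : X = ∑ j, vecMulVec (M *ᵥ Pi.single j 1) (Xᵀ *ᵥ Pi.single j 1) := by
    conv_lhs => rw [← hMX]
    ext a b
    rw [mul_apply, Matrix.sum_apply]
    refine Finset.sum_congr rfl fun j _ => ?_
    rw [vecMulVec_apply, mulVec_single_one, mulVec_single_one]
    rfl
  rw [hsum]
  exact Submodule.sum_mem _ fun j _ => h _ (by rw [hMv]; exact hf1 _) _ (h2 _)

/-- a row space criterion: if `X` kills `Kᗮ` then `Xᵀ` maps into `K` -/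
theorem tr_mem {Kk : Submodule K (n1 → K)} {X : Matrix n2 n1 K}
    (h : ∀ φ : n1 → K, (∀ y ∈ Kk, φ ⬝ᵥ y = 0) → X *ᵥ φ = 0) (v : n2 → K) : Xᵀ *ᵥ v ∈ Kk := by
  classical
  by_contra hv
  obtain ⟨f, hf1, hf2⟩ := Submodule.exists_le_ker_of_notMem hv
  set φ : n1 → K := fun i => f (Pi.single i 1) with hφ
  have hfφ : ∀ y, f y = φ ⬝ᵥ y := by
    intro y
    rw [hφ, dotProduct]
    conv_lhs => rw [← Finset.univ_sum_single y, map_sum]
    refine Finset.sum_congr rfl fun i _ => ?_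
    have : Pi.single i (y i) = y i • (Pi.single i (1 : K) : n1 → K) := by
      rw [← Pi.single_smul', smul_eq_mul, mul_one]
    rw [this, map_smul, smul_eq_mul, mul_comm]
  have h0 := h φ fun y hy => by rw [← hfφ]; exact hf2 hy
  apply hf1
  rw [hfφ, dotProduct_mulVec, vecMul_transpose, h0, zero_dotProduct]

/-- **two flags** -/
theorem flags {W : ℕ → Submodule K (n2 → K)} {Kf : ℕ → Submodule K (n1 → K)}
    (hW : ∀ v, W (v + 1) ≤ W v) (hK : ∀ v, Kf v ≤ Kf (v + 1)) (hW0 : W 0 = ⊤)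
    {S : Submodule K (Matrix n2 n1 K)} (hS0 : ∀ y, ∀ r ∈ Kf 0, vecMulVec y r ∈ S)
    (hS : ∀ v, v < l → ∀ a ∈ W v, ∀ b ∈ Kf (v + 1), vecMulVec a b ∈ S)
    (hSl : ∀ r ∈ W l, ∀ z, vecMulVec r z ∈ S) {X : Matrix n2 n1 K}
    (hX : ∀ v ≤ l, ∀ φ : n1 → K, (∀ y ∈ Kf v, φ ⬝ᵥ y = 0) → X *ᵥ φ ∈ W v) : X ∈ S := by
  classical
  -- for all `m ≤ l`: `X = X0 + Y`, `X0 ∈ S`, `X0ᵀ` into `Kf m`, `Y` into `W m`
  have key : ∀ m ≤ l, ∃ X0 Y : Matrix n2 n1 K, X = X0 + Y ∧ X0 ∈ S ∧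
      (∀ v, X0ᵀ *ᵥ v ∈ Kf m) ∧ ∀ v, Y *ᵥ v ∈ W m := by
    intro m
    induction m with
    | zero =>
      intro _
      refine ⟨0, X, (zero_add X).symm, S.zero_mem, fun v => ?_, fun v => ?_⟩
      · rw [transpose_zero, zero_mulVec]; exact (Kf 0).zero_mem
      · rw [hW0]; trivial
    | succ m ih =>
      intro hm
      obtain ⟨X0, Y, hXY, hX0, hX0K, hYW⟩ := ih (by omega)
      -- projection onto `W (m+1)`
      obtain ⟨P, hP⟩ := (W (m + 1)).exists_isCompl
      let f : (n2 → K) →ₗ[K] (n2 → K) :=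
        (W (m + 1)).subtype ∘ₗ (W (m + 1)).projectionOnto P hP
      have hf1 : ∀ v, f v ∈ W (m + 1) := fun v => ((W (m + 1)).projectionOnto P hP v).2
      have hf2 : ∀ v ∈ W (m + 1), f v = v := by
        intro v hv
        have := Submodule.projectionOnto_apply_left hP ⟨v, hv⟩
        exact congrArg Subtype.val this
      set M : Matrix n2 n2 K := LinearMap.toMatrix' f with hM
      have hMv : ∀ v, M *ᵥ v = f v := fun v => by rw [hM, LinearMap.toMatrix'_mulVec]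
      have hYK : ∀ v, (Y - M * Y)ᵀ *ᵥ v ∈ Kf (m + 1) := by
        apply tr_mem
        intro φ hφ
        have h1 : X *ᵥ φ ∈ W (m + 1) := hX (m + 1) hm φ hφ
        have h2 : X0 *ᵥ φ = 0 := by
          funext i
          have h3 := hφ _ (hK m (hX0K (Pi.single i 1)))
          rw [mulVec_single_one] at h3
          rw [Pi.zero_apply, ← h3, mulVec, dotProduct_comm]
          rfl
        have h4 : Y *ᵥ φ ∈ W (m + 1) := by
          have : Y *ᵥ φ = X *ᵥ φ - X0 *ᵥ φ := by rw [hXY, add_mulVec]; abel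
          rw [this, h2, sub_zero]; exact h1
        rw [sub_mulVec, ← mulVec_mulVec, hMv, hf2 _ h4, sub_self]
      have hYW' : ∀ v, (Y - M * Y) *ᵥ v ∈ W m := by
        intro v
        rw [sub_mulVec, ← mulVec_mulVec, hMv]
        exact (W m).sub_mem (hYW v) (hW m (hf1 _))
      refine ⟨X0 + (Y - M * Y), M * Y, by rw [hXY]; abel, S.add_mem hX0 ?_, fun v => ?_,
        fun v => ?_⟩
      · exact mem_of_both (hS m (by omega)) hYW' hYK
      · rw [transpose_add, add_mulVec]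
        exact (Kf (m + 1)).add_mem (hK m (hX0K v)) (hYK v)
      · rw [← mulVec_mulVec, hMv]; exact hf1 _
  obtain ⟨X0, Y, hXY, hX0, -, hYW⟩ := key l le_rfl
  rw [hXY]
  refine S.add_mem hX0 (mem_of_both (W1 := W l) (W2 := ⊤) (fun a ha b _ => hSl a ha b) hYW
    fun v => trivial)

/-- **(iii)**: exact modulo the radicals implies filtered -/
theorem exact_mem (hR1 : ∀ r ∈ R1, A *ᵥ r ∈ R1) (hR2 : ∀ r ∈ R2, B *ᵥ r ∈ R2)
    (hl2 : ∀ y, (B ^ l) *ᵥ y ∈ R2)
    (hf1 : ∀ v ≤ l, ∀ y, (A ^ (l - v)) *ᵥ y ∈ R1 → ∃ y', y - (A ^ v) *ᵥ y' ∈ R1)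
    {c : K} {X : Matrix n2 n1 K}
    (hX : ∀ φ : n1 → K, (∀ r ∈ R1, φ ⬝ᵥ r = 0) → (X * Aᵀ + c • (B * X)) *ᵥ φ ∈ R2) :
    X ∈ Gn A B R1 R2 l := by
  classical
  let W : ℕ → Submodule K (n2 → K) := fun v => (LinearMap.range (B ^ v).mulVecLin) ⊔ R2
  let Kf : ℕ → Submodule K (n1 → K) := fun v => R1.comap (A ^ v).mulVecLin
  have hR1p : ∀ v, ∀ r ∈ R1, (A ^ v) *ᵥ r ∈ R1 := by
    intro v
    induction v with
    | zero => intro r hr; rwa [pow_zero, one_mulVec]
    | succ v ih => intro r hr; rw [pow_succ', ← mulVec_mulVec]; exact hR1 _ (ih r hr)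
  refine flags (l := l) (W := W) (Kf := Kf) ?_ ?_ ?_ ?_ ?_ ?_ ?_
  · intro v
    refine sup_le_sup_right ?_ R2
    rintro _ ⟨y, rfl⟩
    refine ⟨B *ᵥ y, ?_⟩
    rw [mulVecLin_apply, mulVecLin_apply, mulVec_mulVec, pow_succ]
  · intro v y hy
    rw [Submodule.mem_comap, mulVecLin_apply] at hy ⊢
    rw [pow_succ', ← mulVec_mulVec]
    exact hR1 _ hy
  · rw [eq_top_iff]
    intro y _
    exact Submodule.mem_sup_left ⟨y, by rw [mulVecLin_apply, pow_zero, one_mulVec]⟩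
  · intro y r hr
    rw [Submodule.mem_comap, mulVecLin_apply, pow_zero, one_mulVec] at hr
    exact Gn_right hr y
  · intro v hv a ha b hb
    obtain ⟨a1, ⟨y, rfl⟩, a2, ha2, rfl⟩ := Submodule.mem_sup.1 ha
    rw [Submodule.mem_comap, mulVecLin_apply] at hb
    have hb' : (A ^ (l - (l - 1 - v))) *ᵥ b ∈ R1 := by
      rwa [show l - (l - 1 - v) = v + 1 by omega]
    obtain ⟨z, hz⟩ := hf1 (l - 1 - v) (by omega) b hb'
    have e1 : vecMulVec ((B ^ v).mulVecLin y + a2) b =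
        vecMulVec ((B ^ v) *ᵥ y) ((A ^ (l - 1 - v)) *ᵥ z) +
          vecMulVec ((B ^ v) *ᵥ y) (b - (A ^ (l - 1 - v)) *ᵥ z) + vecMulVec a2 b := by
      rw [mulVecLin_apply, add_vecMulVec, ← vecMulVec_add, add_sub_cancel]
    rw [e1]
    exact (Gn A B R1 R2 l).add_mem ((Gn A B R1 R2 l).add_mem (Gn_gen (by omega) y z)
      (Gn_right hz _)) (Gn_left ha2 b)
  · intro r hr z
    obtain ⟨a1, ⟨y, rfl⟩, a2, ha2, rfl⟩ := Submodule.mem_sup.1 hr
    refine Gn_left ?_ z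
    rw [mulVecLin_apply]
    exact R2.add_mem (hl2 y) ha2
  · intro v hv φ hφ
    -- `φ = (A^v)ᵀ φ'`, `φ' ⟂ R1`
    have hex : ∃ φ' : n1 → K, (∀ r ∈ R1, φ' ⬝ᵥ r = 0) ∧ φ = (Aᵀ ^ v) *ᵥ φ' := by
      let g : (n1 → K) →ₗ[K] ((n1 → K) ⧸ R1) := R1.mkQ ∘ₗ (A ^ v).mulVecLin
      let F : Dual K (n1 → K) :=
        { toFun := fun y => φ ⬝ᵥ y
          map_add' := fun a b => dotProduct_add _ _ _
          map_smul' := fun a b => dotProduct_smul _ _ _ }
      have hF : F ∈ LinearMap.range g.dualMap := by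
        rw [LinearMap.range_dualMap_eq_dualAnnihilator_ker, Submodule.mem_dualAnnihilator]
        intro y hy
        apply hφ
        rw [Submodule.mem_comap]
        exact (Submodule.Quotient.mk_eq_zero R1).1 hy
      obtain ⟨G, hG⟩ := hF
      refine ⟨fun i => G (R1.mkQ (Pi.single i 1)), ?_, ?_⟩
      · intro r hr
        have e1 : (fun i => G (R1.mkQ (Pi.single i 1))) ⬝ᵥ r = G (R1.mkQ r) := by
          rw [dotProduct]
          conv_rhs => rw [← Finset.univ_sum_single r, map_sum, map_sum]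
          refine Finset.sum_congr rfl fun i _ => ?_
          have : Pi.single i (r i) = r i • (Pi.single i (1 : K) : n1 → K) := by
            rw [← Pi.single_smul', smul_eq_mul, mul_one]
          rw [this, map_smul, map_smul, smul_eq_mul, mul_comm]
        rw [e1, Submodule.mkQ_apply, (Submodule.Quotient.mk_eq_zero R1).2 hr, map_zero]
      · funext j
        have e2 := LinearMap.congr_fun hG (Pi.single j 1)
        change G (R1.mkQ ((A ^ v) *ᵥ Pi.single j 1)) = φ ⬝ᵥ Pi.single j 1 at e2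
        rw [dotProduct_single_one] at e2
        rw [← e2, mulVec, dotProduct]
        rw [mulVec_single_one]
        conv_lhs => rw [← Finset.univ_sum_single ((A ^ v).col j), map_sum, map_sum]
        refine Finset.sum_congr rfl fun i _ => ?_
        have : Pi.single i ((A ^ v).col j i) = (A ^ v).col j i • (Pi.single i (1 : K) : n1 → K) := by
          rw [← Pi.single_smul', smul_eq_mul, mul_one]
        rw [this, map_smul, map_smul, smul_eq_mul, ← transpose_pow]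
        rfl
    obtain ⟨φ', hφ', rfl⟩ := hex
    -- `X (Aᵀ)^v φ' ∈ (−c)^v B^v X φ' + R2`
    have hperp : ∀ v, ∀ r ∈ R1, ((Aᵀ ^ v) *ᵥ φ') ⬝ᵥ r = 0 := by
      intro v r hr
      rw [← transpose_pow, mulVec_transpose, ← dotProduct_mulVec]
      exact hφ' _ (hR1p v r hr)
    have hB : ∀ v, ∀ r ∈ R2, (B ^ v) *ᵥ r ∈ R2 := by
      intro v
      induction v with
      | zero => intro r hr; rwa [pow_zero, one_mulVec]
      | succ v ih => intro r hr; rw [pow_succ', ← mulVec_mulVec]; exact hR2 _ (ih r hr)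
    have hstep : ∀ v, X *ᵥ ((Aᵀ ^ v) *ᵥ φ') - (-c) ^ v • ((B ^ v) *ᵥ (X *ᵥ φ')) ∈ R2 := by
      intro v
      induction v with
      | zero => simp
      | succ v ih =>
        have h1 := hX _ (hperp v)
        rw [add_mulVec, smul_mulVec, ← mulVec_mulVec, ← mulVec_mulVec] at h1
        have h2 := hR2 _ ih
        have e1 : X *ᵥ ((Aᵀ ^ (v + 1)) *ᵥ φ') - (-c) ^ (v + 1) • ((B ^ (v + 1)) *ᵥ (X *ᵥ φ')) =
            (X *ᵥ (Aᵀ *ᵥ ((Aᵀ ^ v) *ᵥ φ')) + c • (B *ᵥ (X *ᵥ ((Aᵀ ^ v) *ᵥ φ')))) -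
              c • (B *ᵥ (X *ᵥ ((Aᵀ ^ v) *ᵥ φ') - (-c) ^ v • ((B ^ v) *ᵥ (X *ᵥ φ')))) := by
          rw [mulVec_sub, mulVec_smul, smul_sub, smul_smul, pow_succ' (-c), pow_succ' B,
            pow_succ' Aᵀ, ← mulVec_mulVec, ← mulVec_mulVec]
          module
        rw [e1]
        exact R2.sub_mem h1 (R2.smul_mem c h2)
    have h3 := hstep v
    have h4 : X *ᵥ ((Aᵀ ^ v) *ᵥ φ') = (-c) ^ v • ((B ^ v) *ᵥ (X *ᵥ φ')) +
        (X *ᵥ ((Aᵀ ^ v) *ᵥ φ') - (-c) ^ v • ((B ^ v) *ᵥ (X *ᵥ φ'))) := by abel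
    rw [h4]
    refine (W v).add_mem (Submodule.mem_sup_left ⟨(-c) ^ v • (X *ᵥ φ'), ?_⟩)
      (Submodule.mem_sup_right h3)
    rw [mulVecLin_apply, mulVec_smul]

end abs

section der

variable {k K : Type*} [Field k] [Field K] [Algebra k K] {n1 n2 : Type*} [Fintype n1]
  [DecidableEq n1] [Fintype n2] [DecidableEq n2]
variable {A : Matrix n1 n1 K} {B : Matrix n2 n2 K} {R1 : Submodule K (n1 → K)}
  {R2 : Submodule K (n2 → K)} {l : ℕ}

/-- the connection on vectors -/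
def Dv {n : Type*} [Fintype n] (Γ : Matrix n n K) (d : Derivation k K K) (y : n → K) : n → K :=
  Γ *ᵥ y + dv d y

theorem Dv_pow {n : Type*} [Fintype n] [DecidableEq n] {Γ B : Matrix n n K}
    {d : Derivation k K K} {κ : K} (h : Γ * B + B.map d - B * Γ = κ • B) (i : ℕ) (y : n → K) :
    Dv Γ d ((B ^ i) *ᵥ y) = (B ^ i) *ᵥ (Dv Γ d y + ((i : K) * κ) • y) := by
  have h1 : ∀ w, Dv Γ d (B *ᵥ w) = B *ᵥ (Dv Γ d w + κ • w) := by
    intro w
    unfold Dv
    have e1 : Γ * B + B.map d = B * Γ + κ • B := by rw [← h]; abel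
    rw [dv_mulVec, mulVec_mulVec, ← add_assoc, ← add_mulVec, e1, add_mulVec, mulVec_add,
      mulVec_add, mulVec_smul, mulVec_mulVec, smul_mulVec]
    abel
  induction i generalizing y with
  | zero => simp
  | succ i ih =>
    rw [pow_succ', ← mulVec_mulVec, h1, ih, ← mulVec_mulVec, ← mulVec_smul, ← mulVec_add]
    congr 2
    rw [add_assoc, ← add_smul]
    congr 2
    push_cast
    ring

/-- **(ii)** stability under the connection -/
theorem stable {Γ1 : Matrix n1 n1 K} {Γ2 : Matrix n2 n2 K} {d : Derivation k K K} {κ1 κ2 : K}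
    (h1 : Γ1 * A + A.map d - A * Γ1 = κ1 • A) (h2 : Γ2 * B + B.map d - B * Γ2 = κ2 • B)
    (hR1 : ∀ r ∈ R1, Dv Γ1 d r ∈ R1) (hR2 : ∀ r ∈ R2, Dv Γ2 d r ∈ R2)
    {X : Matrix n2 n1 K} (hX : X ∈ Gn A B R1 R2 l) :
    Γ2 * X + X.map d + X * Γ1ᵀ ∈ Gn A B R1 R2 l := by
  have hvm : ∀ (u : n2 → K) (v : n1 → K), Γ2 * vecMulVec u v + (vecMulVec u v).map d +
      vecMulVec u v * Γ1ᵀ = vecMulVec (Dv Γ2 d u) v + vecMulVec u (Dv Γ1 d v) := by
    intro u v
    have e1 : (vecMulVec u v).map d = vecMulVec (dv d u) v + vecMulVec u (dv d v) := by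
      ext i j
      simp only [Matrix.map_apply, vecMulVec_apply, Matrix.add_apply, Derivation.leibniz,
        smul_eq_mul, dv]
      ring
    unfold Dv
    rw [e1, mul_vecMulVec, vecMulVec_mul, vecMul_transpose, add_vecMulVec, vecMulVec_add]
    abel
  unfold Gn at hX
  induction hX using Submodule.span_induction with
  | mem X hX =>
    rcases hX with ⟨i, j, y, z, hij, rfl⟩ | ⟨r, hr, z, rfl⟩ | ⟨y, r, hr, rfl⟩
    · rw [hvm, Dv_pow h2, Dv_pow h1]
      exact (Gn A B R1 R2 l).add_mem (Gn_gen hij _ _) (Gn_gen hij _ _)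
    · rw [hvm]
      exact (Gn A B R1 R2 l).add_mem (Gn_left (hR2 r hr) _) (Gn_left hr _)
    · rw [hvm]
      exact (Gn A B R1 R2 l).add_mem (Gn_right hr _) (Gn_right (hR1 r hr) _)
  | zero =>
    have : (0 : Matrix n2 n1 K).map d = 0 := by ext i j; simp
    rw [this, Matrix.mul_zero, Matrix.zero_mul, add_zero, add_zero]
    exact Submodule.zero_mem _
  | add X Y _ _ hX hY =>
    have e : Γ2 * (X + Y) + (X + Y).map d + (X + Y) * Γ1ᵀ =
        (Γ2 * X + X.map d + X * Γ1ᵀ) + (Γ2 * Y + Y.map d + Y * Γ1ᵀ) := by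
      rw [Matrix.mul_add, Matrix.add_mul, map_add_der]; abel
    rw [e]
    exact Submodule.add_mem _ hX hY
  | smul a X hX' hX =>
    have e : Γ2 * (a • X) + (a • X).map d + (a • X) * Γ1ᵀ =
        a • (Γ2 * X + X.map d + X * Γ1ᵀ) + d a • X := by
      have e1 : (a • X).map d = a • X.map d + d a • X := by
        ext i j
        simp only [Matrix.map_apply, Matrix.smul_apply, Matrix.add_apply, smul_eq_mul,
          Derivation.leibniz]
        ring
      rw [e1, Matrix.mul_smul, Matrix.smul_mul, smul_add, smul_add]; abel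
    rw [e]
    exact Submodule.add_mem _ (Submodule.smul_mem _ _ hX) (Submodule.smul_mem _ _ hX')

end der

section app

variable {ι : Type*} [Fintype ι] [DecidableEq ι] {δ : Type*} [Fintype δ] [DecidableEq δ]
variable {K : Type*} [Field K] {n1 n2 : Type*} [Fintype n1]
  [DecidableEq n1] [Fintype n2] [DecidableEq n2]
variable {A : Matrix n1 n1 K} {B : Matrix n2 n2 K} {R1 : Submodule K (n1 → K)}
  {R2 : Submodule K (n2 → K)} {l : ℕ}

/-- **(i)** the image of the filtered tensors -/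
theorem image {arm : δ → Fin 3} {F : Matrix ι δ K} {U1 : Matrix δ n1 K} {U2 : Matrix δ n2 K}
    {S0 : Matrix δ δ K} {s : Fin 3} {Q : Submodule K (Matrix ι δ K)}
    (g1 : ∀ i j, i + j + 1 = l → ∀ (y : n2 → K) (z : n1 → K),
      F * (U2 * (vecMulVec ((B ^ i) *ᵥ y) ((A ^ j) *ᵥ z) : Matrix n2 n1 K) * U1ᵀ) * S0 *
        E K arm s ∈ Q)
    (g2 : ∀ r ∈ R2, ∀ z : n1 → K,
      F * (U2 * (vecMulVec r z : Matrix n2 n1 K) * U1ᵀ) * S0 * E K arm s ∈ Q)
    (g3 : ∀ y : n2 → K, ∀ r ∈ R1,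
      F * (U2 * (vecMulVec y r : Matrix n2 n1 K) * U1ᵀ) * S0 * E K arm s ∈ Q)
    {X : Matrix n2 n1 K} (hX : X ∈ Gn A B R1 R2 l) :
    F * (U2 * X * U1ᵀ) * S0 * E K arm s ∈ Q := by
  let L : Matrix n2 n1 K →ₗ[K] Matrix ι δ K :=
    { toFun := fun X => F * (U2 * X * U1ᵀ) * S0 * E K arm s
      map_add' := by
        intro X Y
        simp only [Matrix.mul_add, Matrix.add_mul]
      map_smul' := by
        intro a X
        simp only [Matrix.mul_smul, Matrix.smul_mul, RingHom.id_apply] }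
  have h : Gn A B R1 R2 l ≤ Q.comap L := by
    refine Submodule.span_le.2 ?_
    rintro X (⟨i, j, y, z, hij, rfl⟩ | ⟨r, hr, z, rfl⟩ | ⟨y, r, hr, rfl⟩)
    · exact g1 i j hij y z
    · exact g2 r hr z
    · exact g3 y r hr
  exact h hX

end app

end Crest.Agent.R172.SL2g
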