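import Crest.Agent.R172.SBlk
import Crest.Agent.R172.SCore
import Crest.Agent.R172.SUX1

/-!
Row 172 (S0260), (t2), S-side, node S-UBlk: the block data one level up.

`Cov a b π`: `π : X → Y` onto, `π a_s = b_s π`, `ker π` killed by all `a_s`. Then the cores of
`(X, a)` and `(Y, b)` agree, and `Tame`, `IsD` are transported.
-/

set_option autoImplicit false
set_option linter.unusedSectionVars false
set_option linter.unusedFintypeInType false
set_option linter.unusedDecidableInType false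

namespace Crest.Agent.R172.UBlk

open Module
open Crest.Agent.R172.St (Nk T mem_T mem_Nk_zero mem_Nk_succ Nk_le_T T_stable T_closed T_eq_Nk)
open Crest.Agent.R172.PL (Wk Ainf Rad CoreM coreOp resOp Ainf_exists Ainf_le_Wk Ainf_stable
  Ainf_eq_Wk coreOp_mk)
open Crest.Agent.R172.SC (PB PB_mem PB_exists PB_stable)
open Crest.Agent.R172.SBlk (IsD Par)

section cov

variable {K : Type*} [Field K] {X : Type*} [AddCommGroup X] [Module K X]
  {Y : Type*} [AddCommGroup Y] [Module K Y] {κ : Type*}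

structure Cov (a : κ → End K X) (b : κ → End K Y) (π : X →ₗ[K] Y) : Prop where
  comm : ∀ s x, π (a s x) = b s (π x)
  surj : Function.Surjective π
  ker : ∀ s x, π x = 0 → a s x = 0

variable {a : κ → End K X} {b : κ → End K Y} {π : X →ₗ[K] Y}

theorem Cov.Nk_of (h : Cov a b π) (k : ℕ) : ∀ x, x ∈ Nk a k → π x ∈ Nk b k := by
  induction k with
  | zero => intro x hx; rw [mem_Nk_zero] at hx ⊢; rw [hx, map_zero]
  | succ k ih =>
    intro x hx
    rw [mem_Nk_succ] at hx ⊢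
    intro s
    rw [← h.comm]
    exact ih _ (hx s)

theorem Cov.Nk_to (h : Cov a b π) (k : ℕ) : ∀ x, π x ∈ Nk b k → x ∈ Nk a (k + 1) := by
  induction k with
  | zero =>
    intro x hx
    rw [mem_Nk_zero] at hx
    rw [mem_Nk_succ]
    intro s
    rw [mem_Nk_zero]
    exact h.ker s x hx
  | succ k ih =>
    intro x hx
    rw [mem_Nk_succ] at hx
    rw [mem_Nk_succ]
    intro s
    exact ih _ (by rw [h.comm]; exact hx s)

theorem Cov.mem_T (h : Cov a b π) (x : X) : x ∈ T a ↔ π x ∈ T b := by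
  constructor
  · intro hx
    obtain ⟨k, hk⟩ := St.mem_T.1 hx
    exact St.mem_T.2 ⟨k, h.Nk_of k x hk⟩
  · intro hx
    obtain ⟨k, hk⟩ := St.mem_T.1 hx
    exact St.mem_T.2 ⟨k + 1, h.Nk_to k x hk⟩

theorem Cov.Wk_map (h : Cov a b π) (k : ℕ) : (Wk a k).map π = Wk b k := by
  induction k with
  | zero =>
    change Submodule.map π ⊤ = ⊤
    rw [Submodule.map_top, LinearMap.range_eq_top.2 h.surj]
  | succ k ih =>
    change Submodule.map π (⨆ s, (Wk a k).map (a s)) = ⨆ s, (Wk b k).map (b s)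
    rw [Submodule.map_iSup]
    refine iSup_congr fun s => ?_
    rw [← Submodule.map_comp, ← ih, ← Submodule.map_comp]
    congr 1
    exact LinearMap.ext fun x => h.comm s x

theorem Cov.ainf (h : Cov a b π) {x : X} (hx : x ∈ Ainf a) : π x ∈ Ainf b :=
  (Submodule.mem_iInf _).2 fun k => by
    rw [← h.Wk_map k]; exact ⟨x, Ainf_le_Wk a k hx, rfl⟩

theorem Cov.ainf_surj [FiniteDimensional K X] (h : Cov a b π) {y : Y} (hy : y ∈ Ainf b) :
    ∃ x ∈ Ainf a, π x = y := by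
  obtain ⟨k, hk, -⟩ := Ainf_eq_Wk a
  have h1 := Ainf_le_Wk b k hy
  rw [← h.Wk_map k] at h1
  obtain ⟨x, hx, e⟩ := h1
  exact ⟨x, by rw [hk]; exact hx, e⟩

/-- the map of the cores -/
def Cov.f (h : Cov a b π) : CoreM a →ₗ[K] CoreM b :=
  (Rad a).mapQ (Rad b) (π.restrict fun _ hx => h.ainf hx) (fun x hx => by
    change π (x : X) ∈ T b
    exact (h.mem_T _).1 hx)

theorem Cov.f_mk (h : Cov a b π) (x : Ainf a) :
    h.f ((Rad a).mkQ x) = (Rad b).mkQ ⟨π x, h.ainf x.2⟩ := rfl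

theorem Cov.f_inj (h : Cov a b π) : Function.Injective h.f := by
  rw [← LinearMap.ker_eq_bot, eq_bot_iff]
  intro m hm
  obtain ⟨x, rfl⟩ := (Rad a).mkQ_surjective m
  rw [LinearMap.mem_ker, h.f_mk] at hm
  have h1 : π (x : X) ∈ T b := (Submodule.Quotient.mk_eq_zero (Rad b)).1 hm
  have h2 : x ∈ Rad a := (h.mem_T _).2 h1
  rw [Submodule.mem_bot]
  exact (Submodule.Quotient.mk_eq_zero (Rad a)).2 h2

theorem Cov.f_surj [FiniteDimensional K X] (h : Cov a b π) : Function.Surjective h.f := by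
  intro m
  obtain ⟨y, rfl⟩ := (Rad b).mkQ_surjective m
  obtain ⟨x, hx, e⟩ := h.ainf_surj y.2
  exact ⟨(Rad a).mkQ ⟨x, hx⟩, by rw [h.f_mk]; congr 1; exact Subtype.ext e⟩

variable [FiniteDimensional K X]

noncomputable def Cov.e (h : Cov a b π) : CoreM a ≃ₗ[K] CoreM b :=
  LinearEquiv.ofBijective h.f ⟨h.f_inj, h.f_surj⟩

theorem Cov.e_mk (h : Cov a b π) (x : Ainf a) :
    h.e ((Rad a).mkQ x) = (Rad b).mkQ ⟨π x, h.ainf x.2⟩ := rfl

theorem Cov.e_op (h : Cov a b π) (s : κ) (m : CoreM a) :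
    h.e (coreOp a s m) = coreOp b s (h.e m) := by
  obtain ⟨x, rfl⟩ := (Rad a).mkQ_surjective m
  rw [coreOp_mk, h.e_mk, h.e_mk, coreOp_mk]
  congr 1
  exact Subtype.ext (h.comm s _)

end cov

section tame

variable {K : Type*} [Field K] {V : Type*} [AddCommGroup V] [Module K V]
  {V' : Type*} [AddCommGroup V'] [Module K V'] {κ : Type*}

theorem gen_mem (e : V ≃ₗ[K] V') {D : End K V} {D' : End K V'}
    (hD : ∀ x, e (D x) = D' (e x)) (ν : K) (x : V) :
    x ∈ D.maxGenEigenspace ν ↔ e x ∈ D'.maxGenEigenspace ν := by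
  have h1 : ∀ (k : ℕ) (x : V), e (((D - ν • (1 : End K V)) ^ k) x) =
      ((D' - ν • (1 : End K V')) ^ k) (e x) := by
    intro k
    induction k with
    | zero => intro x; rfl
    | succ k ih =>
      intro x
      rw [pow_succ, pow_succ, Module.End.mul_apply, Module.End.mul_apply, ih]
      congr 1
      change e (D x - ν • x) = D' (e x) - ν • e x
      rw [map_sub, hD, map_smul]
  rw [Module.End.mem_maxGenEigenspace, Module.End.mem_maxGenEigenspace]
  refine exists_congr fun k => ?_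
  rw [← h1, LinearEquiv.map_eq_zero_iff]

theorem gen_map (e : V ≃ₗ[K] V') {D : End K V} {D' : End K V'}
    (hD : ∀ x, e (D x) = D' (e x)) (ν : K) :
    (D.maxGenEigenspace ν).map (e : V →ₗ[K] V') = D'.maxGenEigenspace ν := by
  ext y
  constructor
  · rintro ⟨x, hx, rfl⟩
    exact (gen_mem e hD ν x).1 hx
  · intro hy
    refine ⟨e.symm y, (gen_mem e hD ν _).2 ?_, e.apply_symm_apply y⟩
    rw [e.apply_symm_apply]; exact hy

theorem pow_e (e : V ≃ₗ[K] V') {Φ : End K V} {Φ' : End K V'} (h : ∀ x, e (Φ x) = Φ' (e x))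
    (k : ℕ) (x : V) : e ((Φ ^ k) x) = (Φ' ^ k) (e x) := by
  induction k generalizing x with
  | zero => rfl
  | succ k ih => rw [pow_succ, pow_succ, Module.End.mul_apply, Module.End.mul_apply, ih, h]

/-- **transport of `Tame`.** -/
theorem tame_of [Fintype κ] [FiniteDimensional K V] [FiniteDimensional K V'] (e : V ≃ₗ[K] V')
    {D : End K V} {D' : End K V'} {Φ : κ → End K V} {Φ' : κ → End K V'}
    (hD : ∀ x, e (D x) = D' (e x)) (hΦ : ∀ s x, e (Φ s x) = Φ' s (e x))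
    (h : Core.Tame Φ' D') : Core.Tame Φ D := by
  obtain ⟨⟨lam, mu, hne, hl, hm⟩, hHom, l, hl1, hl2, hl3⟩ := h
  have hbot : ∀ ν, D.maxGenEigenspace ν ≠ ⊥ ↔ D'.maxGenEigenspace ν ≠ ⊥ := by
    intro ν
    rw [← gen_map e hD ν, Ne, Ne, not_iff_not]
    constructor
    · intro h; rw [h, Submodule.map_bot]
    · intro h
      rw [Submodule.eq_bot_iff] at h ⊢
      intro x hx
      exact (LinearEquiv.map_eq_zero_iff e).1 (h _ ⟨x, hx, rfl⟩)
  let E : ∀ ν, D.maxGenEigenspace ν ≃ₗ[K] D'.maxGenEigenspace ν := fun ν =>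
    (e.submoduleMap (D.maxGenEigenspace ν)).trans (LinearEquiv.ofEq _ _ (gen_map e hD ν))
  have hE : ∀ ν x, ((E ν x : D'.maxGenEigenspace ν) : V') = e x := fun ν x => rfl
  have hEs : ∀ ν y, (((E ν).symm y : D.maxGenEigenspace ν) : V) = e.symm y := by
    intro ν y
    apply e.injective
    rw [← hE, LinearEquiv.apply_symm_apply, LinearEquiv.apply_symm_apply]
  refine ⟨⟨lam, mu, hne, (hbot _).2 hl, (hbot _).2 hm⟩, ?_, l, hl1, ?_, hl3⟩
  · intro lam mu hne x hx
    have h1 := hHom lam mu hne ((E mu : D.maxGenEigenspace mu →ₗ[K] _) ∘ₗ x ∘ₗ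
      ((E lam).symm : D'.maxGenEigenspace lam →ₗ[K] _)) ?_
    · apply LinearMap.ext
      intro v
      have h2 := LinearMap.congr_fun h1 (E lam v)
      rw [LinearMap.comp_apply, LinearMap.comp_apply, LinearEquiv.coe_coe, LinearEquiv.coe_coe,
        LinearEquiv.symm_apply_apply, LinearMap.zero_apply] at h2
      exact (LinearEquiv.map_eq_zero_iff _).1 h2
    · intro s v w hw
      have h2 := hx s ((E lam).symm v) ((E lam).symm w) (by
        apply e.injective
        rw [hΦ, hEs, hEs, e.apply_symm_apply, e.apply_symm_apply, hw])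
      rw [LinearMap.comp_apply, LinearMap.comp_apply, LinearMap.comp_apply, LinearMap.comp_apply,
        LinearEquiv.coe_coe, LinearEquiv.coe_coe, hE, hE, h2, hΦ]
  · intro s ν hν
    obtain ⟨h1, h2⟩ := hl2 s ν ((hbot ν).1 hν)
    refine ⟨fun j => ?_, ?_⟩
    · rw [← h1 j]
      constructor
      · intro h3 v hv
        obtain ⟨x, rfl⟩ := e.surjective v
        rw [← pow_e e (hΦ s), h3 x ((gen_mem e hD ν x).2 hv), map_zero]
      · intro h3 x hx
        apply e.injective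
        rw [pow_e e (hΦ s), h3 _ ((gen_mem e hD ν x).1 hx), map_zero]
    · have h3 : (LinearMap.ker (Φ s) ⊓ D.maxGenEigenspace ν : Submodule K V).map
          (e : V →ₗ[K] V') = LinearMap.ker (Φ' s) ⊓ D'.maxGenEigenspace ν := by
        ext y
        constructor
        · rintro ⟨x, ⟨hx1, hx2⟩, rfl⟩
          refine ⟨?_, (gen_mem e hD ν x).1 hx2⟩
          change Φ' s (e x) = 0
          rw [← hΦ, show Φ s x = 0 from hx1, map_zero]
        · rintro ⟨hy1, hy2⟩
          obtain ⟨x, rfl⟩ := e.surjective y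
          refine ⟨x, ⟨?_, (gen_mem e hD ν x).2 hy2⟩, rfl⟩
          change Φ s x = 0
          apply e.injective
          rw [hΦ, map_zero]
          exact hy1
      have h4 := LinearEquiv.finrank_map_eq e (LinearMap.ker (Φ s) ⊓ D.maxGenEigenspace ν)
      have h5 := LinearEquiv.finrank_map_eq e (D.maxGenEigenspace ν)
      rw [gen_map e hD ν] at h5
      rw [← h4, h3, ← h5]
      exact h2

end tame

section blocks

variable {K : Type*} [Field K] {X : Type*} [AddCommGroup X] [Module K X] [FiniteDimensional K X]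
  {Y : Type*} [AddCommGroup Y] [Module K Y] [FiniteDimensional K Y] {κ : Type*}
variable {a : κ → End K X} {b : κ → End K Y} {π : X →ₗ[K] Y}

/-- the operator `D` on the core upstairs -/
noncomputable def Cov.D (h : Cov a b π) (D : End K (CoreM b)) : End K (CoreM a) :=
  h.e.symm.toLinearMap ∘ₗ D ∘ₗ h.e.toLinearMap

theorem Cov.e_D (h : Cov a b π) (D : End K (CoreM b)) (m : CoreM a) :
    h.e (h.D D m) = D (h.e m) := by
  change h.e (h.e.symm (D (h.e m))) = _
  rw [LinearEquiv.apply_symm_apply]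

theorem Cov.D_comm (h : Cov a b π) {D : End K (CoreM b)}
    (hD : ∀ s x, D (coreOp b s x) = coreOp b s (D x)) (s : κ) (x : CoreM a) :
    h.D D (coreOp a s x) = coreOp a s (h.D D x) := by
  apply h.e.injective
  rw [h.e_D, h.e_op, hD, h.e_op, h.e_D]

theorem Cov.isD (h : Cov a b π) {D : End K (CoreM b)} {Na : κ → End K X} {Nb : κ → End K Y}
    (hN : ∀ s x, π (Na s x) = Nb s (π x)) (hD : IsD b Nb D) : IsD a Na (h.D D) := by
  refine ⟨fun s v w hw => ?_, h.D_comm hD.2⟩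
  apply h.e.injective
  rw [h.e_D, h.e_op, h.e_mk, h.e_mk]
  refine hD.1 s _ _ ?_
  change π (w : X) = _
  rw [hw, hN]

theorem Cov.tame [Fintype κ] (h : Cov a b π) {D : End K (CoreM b)}
    (hT : Core.Tame (coreOp b) D) : Core.Tame (coreOp a) (h.D D) :=
  tame_of h.e (h.e_D D) h.e_op hT

theorem Cov.PB_map [Fintype κ] (h : Cov a b π) {D : End K (CoreM b)}
    (hD : ∀ s x, D (coreOp b s x) = coreOp b s (D x)) (hs : ⨆ ν, D.maxGenEigenspace ν = ⊤)
    (ν : K) : (PB a (h.D D) ν).map π = PB b D ν := by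
  have hDa := h.D_comm hD
  have hsa : ⨆ ν, (h.D D).maxGenEigenspace ν = ⊤ := by
    have h1 : (⨆ ν, (h.D D).maxGenEigenspace ν).map (h.e : CoreM a →ₗ[K] CoreM b) = ⊤ := by
      rw [Submodule.map_iSup, ← hs]
      exact iSup_congr fun ν => gen_map h.e (h.e_D D) ν
    rw [eq_top_iff]
    intro x _
    have h2 : h.e x ∈ (⨆ ν, (h.D D).maxGenEigenspace ν).map (h.e : CoreM a →ₗ[K] CoreM b) := by
      rw [h1]; trivial
    obtain ⟨y, hy, e⟩ := h2
    rw [← h.e.injective e]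
    exact hy
  apply le_antisymm
  · refine SC.le_perf ?_ ?_
    · rintro _ ⟨x, hx, rfl⟩
      obtain ⟨hxA, hxm⟩ := PB_mem hx
      exact SC.mem_QB.2 ⟨h.ainf hxA, by
        have h1 := (gen_mem h.e (h.e_D D) ν _).1 hxm
        rw [h.e_mk] at h1
        exact h1⟩
    · rintro _ ⟨x, hx, rfl⟩
      obtain ⟨f, hf, rfl⟩ := PB_exists hDa ν hx
      rw [map_sum]
      refine Submodule.sum_mem _ fun s _ => Submodule.mem_iSup_of_mem s ?_
      rw [h.comm]
      exact ⟨π (f s), ⟨f s, hf s, rfl⟩, rfl⟩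
  · refine SBlk.le_of_classes (Φ := b) (fun v hv => PB_exists hD ν hv) ?_ ?_
    · rintro s _ ⟨x, hx, rfl⟩
      rw [← h.comm]
      exact ⟨_, PB_stable hDa ν s hx, rfl⟩
    · intro v hv
      obtain ⟨hvA, hvm⟩ := PB_mem hv
      have h1 : h.e.symm ((Rad b).mkQ ⟨v, hvA⟩) ∈ (h.D D).maxGenEigenspace ν := by
        rw [gen_mem h.e (h.e_D D), LinearEquiv.apply_symm_apply]
        exact hvm
      obtain ⟨x, hxA, hx, hxm⟩ := SC.PB_surj hDa hsa ν _ h1
      refine ⟨π x, ⟨x, hx, rfl⟩, ?_⟩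
      have h2 := congrArg h.e hxm
      rw [h.e_mk, LinearEquiv.apply_symm_apply] at h2
      have h3 : (Rad b).mkQ (⟨v, hvA⟩ - ⟨π x, h.ainf hxA⟩) = 0 := by
        rw [map_sub, h2, sub_self]
      exact (Submodule.Quotient.mk_eq_zero (Rad b)).1 h3

theorem Cov.D_top (h : Cov a b π) {D : End K (CoreM b)} (hs : ⨆ ν, D.maxGenEigenspace ν = ⊤) :
    ⨆ ν, (h.D D).maxGenEigenspace ν = ⊤ := by
  have h1 : (⨆ ν, (h.D D).maxGenEigenspace ν).map (h.e : CoreM a →ₗ[K] CoreM b) = ⊤ := by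
    rw [Submodule.map_iSup, ← hs]
    exact iSup_congr fun ν => gen_map h.e (h.e_D D) ν
  rw [eq_top_iff]
  intro x _
  have h2 : h.e x ∈ (⨆ ν, (h.D D).maxGenEigenspace ν).map (h.e : CoreM a →ₗ[K] CoreM b) := by
    rw [h1]; trivial
  obtain ⟨y, hy, e⟩ := h2
  rw [← h.e.injective e]
  exact hy

end blocks

section mat

open Matrix Crest.Agent.R172.FO Crest.Agent.R172.Qt Crest.Agent.R172.SpS Crest.Agent.R172.SBlk
open Crest.Agent.R172.SUX (th)

variable {ι : Type*} [Fintype ι] [DecidableEq ι] {δ : Type*} [Fintype δ] [DecidableEq δ]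
variable {k K : Type*} [Field k] [Field K] [Algebra k K]
variable {arm : δ → Fin 3} {J : Matrix ι ι K} {B : Matrix δ δ K}
  {N W : Submodule K (Matrix ι δ K)} {g f : Matrix ι δ K}
  {p : Matrix ι ι K × (Fin 3 → Matrix ι ι K)} {S : Finset K}
  {q : K → Matrix ι ι K × (Fin 3 → Matrix ι ι K)}

/-- `ω_s(F) = B E_s (gᵀ J p F)` on `K^δ` -/
def om (arm : δ → Fin 3) (J : Matrix ι ι K) (B : Matrix δ δ K) (g : Matrix ι δ K)
    (p0 : Matrix ι ι K) (F : Matrix ι δ K) (s : Fin 3) : End K (δ → K) :=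
  Matrix.mulVecLin (B * E K arm s * th J g p0 F)

theorem om_apply (p0 : Matrix ι ι K) (F : Matrix ι δ K) (s : Fin 3) (u : δ → K) :
    om arm J B g p0 F s u = (B * E K arm s * th J g p0 F) *ᵥ u := rfl

theorem om_eq (hD : Data k arm J B N W) (p0 : Matrix ι ι K) (F : Matrix ι δ K) (s : Fin 3)
    (u : δ → K) : om arm J B g p0 F s u = (E K arm s * B * (gᵀ * J * (p0 * F))) *ᵥ u := by
  rw [om_apply, ← hD.B_arm]
  rfl

theorem cov (hD : Data k arm J B N W) {R : Matrix δ ι K} (hR : g * R * g = g)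
    (p0 : Matrix ι ι K) : Cov (om arm J B g p0 g) (Ph arm J B g R p0) (gS g) where
  comm s x := by
    rw [Be_gS hR, om_eq hD]
    congr 1
    rw [mulVec_mulVec]
    congr 1
    simp only [Matrix.mul_assoc]
  surj := gS_surj g
  ker s x hx := by
    have h1 : g *ᵥ x = 0 := by
      have := congrArg (fun y : Sg g => (y : ι → K)) hx
      exact this
    rw [om_eq hD]
    have h2 : E K arm s * B * (gᵀ * J * (p0 * g)) = E K arm s * B * (gᵀ * J * p0) * g := by
      simp only [Matrix.mul_assoc]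
    rw [h2, ← mulVec_mulVec, h1, mulVec_zero]

/-- the orthogonal decomposition on `K^δ`. -/
theorem par (hq : Spec arm J N g f p.1 S q) (h : Ctx k arm J B N W g) (hf : f ∈ N ⊓ W) :
    Par (om arm J B g p.1 g) (om arm J B g p.1 f) (fun c => om arm J B g (q c).1 g) S := by
  refine ⟨fun s v => ?_, fun c c' hne s t v => ?_, fun c hc s v => ?_, fun s v => ?_⟩
  · simp only [om_eq h.data]
    rw [← sum_mulVec, ← Matrix.mul_sum, ← hq.sum]
  · simp only [om_eq h.data]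
    rw [mulVec_mulVec]
    have h1 : E K arm s * B * (gᵀ * J * ((q c).1 * g)) *
        (E K arm t * B * (gᵀ * J * ((q c').1 * g))) =
        E K arm s * B * ((gᵀ * J * ((q c).1 * g)) * (E K arm t * B) *
          (gᵀ * J * ((q c').1 * g))) := by simp only [Matrix.mul_assoc]
    rw [h1, hq.cross h hf hne, Matrix.mul_zero, zero_mulVec]
  · simp only [om_eq h.data]
    rw [hq.out c hc, Matrix.mul_zero, zero_mulVec]
  · simp only [om_eq h.data]
    simp only [← smul_mulVec]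
    rw [← sum_mulVec]
    congr 1
    rw [hq.sumf, Matrix.mul_sum]
    exact Finset.sum_congr rfl fun c _ => by rw [Matrix.mul_smul]

theorem Nh_gS (h : Ctx k arm J B N W g) (hf : f ∈ N ⊓ W) (hp : p ∈ NN arm J N g)
    {R : Matrix δ ι K} (hR : g * R * g = g) (s : Fin 3) (x : δ → K) :
    gS g (om arm J B g p.1 f s x) = Nh arm J B g f R p.1 s (gS g x) := by
  apply Subtype.ext
  rw [Ng_coe h hR hf, gS_coe, gS_coe, om_eq h.data, mulVec_mulVec, mulVec_mulVec]
  congr 1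
  obtain ⟨p', hp', e⟩ := h.tf hf hp
  have hfl := AF_flip h.data.J_symm ⟨p, hp⟩ ⟨p', hp'⟩ e
  have hsym : f * E K arm s * B * gᵀ = g * E K arm s * B * fᵀ := h.data.symm_arm hf h.mem s
  calc g * (E K arm s * B * (gᵀ * J * (p.1 * f)))
      = (g * E K arm s * B * fᵀ) * (J * p.1) * g := by
        rw [hfl]; simp only [Matrix.mul_assoc]
    _ = _ := by rw [← hsym]; unfold M; simp only [Matrix.mul_assoc]

/-- relations for the images of the `ω_s(p_c)` -/
theorem rel_range (hq : Spec arm J N g f p.1 S q) (h : Ctx k arm J B N W g) (hf : f ∈ N ⊓ W)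
    (c : K) {u : δ → K} (hu : u ∈ ⨆ s, LinearMap.range (om arm J B g (q c).1 g s)) :
    f *ᵥ u = c • (g *ᵥ u) ∧ (∀ c', c' ≠ c → (gᵀ * J * ((q c').1 * g)) *ᵥ u = 0) := by
  refine Submodule.iSup_induction (p := fun s => LinearMap.range (om arm J B g (q c).1 g s))
    (motive := fun u => f *ᵥ u = c • (g *ᵥ u) ∧
      (∀ c', c' ≠ c → (gᵀ * J * ((q c').1 * g)) *ᵥ u = 0)) hu ?_ ?_ ?_
  · rintro s _ ⟨v, rfl⟩
    rw [om_eq h.data]
    constructor
    · rw [mulVec_mulVec, mulVec_mulVec, ← smul_mulVec]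
      congr 1
      have hsym : f * E K arm s * B * gᵀ = g * E K arm s * B * fᵀ := h.data.symm_arm hf h.mem s
      calc f * (E K arm s * B * (gᵀ * J * ((q c).1 * g)))
          = (f * E K arm s * B * gᵀ) * (J * (q c).1) * g := by
            simp only [Matrix.mul_assoc]
        _ = g * E K arm s * B * (fᵀ * (J * (q c).1) * g) := by
            rw [hsym]; simp only [Matrix.mul_assoc]
        _ = _ := by
            rw [hq.flip h.data.J_symm c, Matrix.mul_smul]
            simp only [Matrix.mul_assoc]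
    · intro c' hne
      rw [mulVec_mulVec]
      have h1 : gᵀ * J * ((q c').1 * g) * (E K arm s * B * (gᵀ * J * ((q c).1 * g))) =
          (gᵀ * J * ((q c').1 * g)) * (E K arm s * B) * (gᵀ * J * ((q c).1 * g)) := by
        simp only [Matrix.mul_assoc]
      rw [h1, hq.cross h hf hne, zero_mulVec]
  · refine ⟨by rw [mulVec_zero, mulVec_zero, smul_zero], fun c' _ => mulVec_zero _⟩
  · rintro x y ⟨hx, hx'⟩ ⟨hy, hy'⟩
    refine ⟨by rw [mulVec_add, mulVec_add, smul_add, hx, hy], fun c' hc' => ?_⟩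
    rw [mulVec_add, hx' c' hc', hy' c' hc', add_zero]

/-- the form `∑ a_c φ_c` on a vector of block `c` -/
theorem sum_form (hq : Spec arm J N g f p.1 S q) (c : K) {u : δ → K}
    (hu : ∀ c', c' ≠ c → (gᵀ * J * ((q c').1 * g)) *ᵥ u = 0) (a : K → K) :
    (∑ c' ∈ S, a c' • (gᵀ * J * ((q c').1 * g))) *ᵥ u =
      a c • ((gᵀ * J * (p.1 * g)) *ᵥ u) := by
  have key : ∀ a : K → K, (∑ c' ∈ S, a c' • (gᵀ * J * ((q c').1 * g))) *ᵥ u =
      a c • ((gᵀ * J * ((q c).1 * g)) *ᵥ u) := by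
    intro a
    rw [sum_mulVec]
    by_cases hc : c ∈ S
    · rw [Finset.sum_eq_single c]
      · rw [smul_mulVec]
      · intro c' _ hne; rw [smul_mulVec, hu c' hne, smul_zero]
      · intro hc'; exact absurd hc hc'
    · rw [hq.out c hc, zero_mulVec, smul_zero]
      refine Finset.sum_eq_zero fun c' hc' => ?_
      rw [smul_mulVec, hu c' (fun e => hc (e ▸ hc')), smul_zero]
  have h1 := key fun _ => 1
  simp only [one_smul] at h1
  rw [hq.sum, h1, key a]

/-- the iterates of `T_f` -/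
theorem form_two (hq : Spec arm J N g f p.1 S q) (h : Ctx k arm J B N W g) (hf : f ∈ N ⊓ W)
    {p' : Matrix ι ι K × (Fin 3 → Matrix ι ι K)} (hp' : p' ∈ NN arm J N g)
    (e : gᵀ * J * (p.1 * f) = gᵀ * J * (p'.1 * g)) :
    gᵀ * J * (p'.1 * f) = ∑ c ∈ S, (c ^ 2) • (gᵀ * J * ((q c).1 * g)) := by
  have h1 : p' - ∑ c ∈ S, c • q c ∈ NN arm J N g :=
    Submodule.sub_mem _ hp' (Submodule.sum_mem _ fun c _ => Submodule.smul_mem _ _ (hq.mem c))
  have e1 : ∀ x : Matrix ι δ K, gᵀ * J * ((p' - ∑ c ∈ S, c • q c).1 * x) =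
      gᵀ * J * (p'.1 * x) - ∑ c ∈ S, c • (gᵀ * J * ((q c).1 * x)) := by
    intro x
    rw [Prod.fst_sub, Prod.fst_sum, Matrix.sub_mul, Matrix.mul_sub, Matrix.sum_mul,
      Matrix.mul_sum]
    congr 1
    refine Finset.sum_congr rfl fun c _ => ?_
    rw [Prod.smul_fst, Matrix.smul_mul, Matrix.mul_smul]
  have h2 := h.tf_zero hf h1 (by rw [e1, ← e, hq.sumf, sub_self])
  rw [e1, sub_eq_zero] at h2
  rw [h2]
  refine Finset.sum_congr rfl fun c _ => ?_
  rw [hq.eig c, smul_smul, sq]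

theorem form_skew (hJ : Jᵀ = J) (hp : p ∈ NN arm J N g) :
    (gᵀ * J * (p.1 * g))ᵀ = -(gᵀ * J * (p.1 * g)) := by
  have h3 : gᵀ * J * (p.1 * g) = gᵀ * (J * p.1) * g := by simp only [Matrix.mul_assoc]
  rw [h3]; exact Xi_skew hJ ⟨p, hp⟩

/-- **the U-level block** of `ν` in `K^δ` -/
noncomputable def Qb (hD : Data k arm J B N W) {R : Matrix δ ι K} (hR : g * R * g = g)
    (p0 : Matrix ι ι K) (D : End K (CoreM (Ph arm J B g R p0))) (ν : K) :
    Submodule K (δ → K) :=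
  PB (om arm J B g p0 g) ((cov hD hR p0).D D) ν

section facts

variable (h : Ctx k arm J B N W g) {R : Matrix δ ι K} (hR : g * R * g = g)
  {D : End K (CoreM (Ph arm J B g R p.1))}
  (hD : IsD (Ph arm J B g R p.1) (Nh arm J B g f R p.1) D)

include hD

theorem isD_up (hf : f ∈ N ⊓ W) (hp : p ∈ NN arm J N g) :
    IsD (om arm J B g p.1 g) (om arm J B g p.1 f) ((cov h.data hR p.1).D D) :=
  (cov h.data hR p.1).isD (Nh_gS h hf hp hR) hD

/-- stable -/
theorem Qb_stable {ν : K} (s : Fin 3) {u : δ → K} (hu : u ∈ Qb h.data hR p.1 D ν) :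
    om arm J B g p.1 g s u ∈ Qb h.data hR p.1 D ν :=
  PB_stable ((cov h.data hR p.1).D_comm hD.2) ν s hu

/-- perfect -/
theorem Qb_exists {ν : K} {u : δ → K} (hu : u ∈ Qb h.data hR p.1 D ν) :
    ∃ c : Fin 3 → (δ → K), (∀ s, c s ∈ Qb h.data hR p.1 D ν) ∧
      ∑ s, om arm J B g p.1 g s (c s) = u :=
  PB_exists ((cov h.data hR p.1).D_comm hD.2) ν hu

variable [IsAlgClosed K]

/-- `g Q_ν = P_ν` -/
theorem Qb_map (ν : K) :
    (Qb h.data hR p.1 D ν).map (gS g) = PB (Ph arm J B g R p.1) D ν :=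
  (cov h.data hR p.1).PB_map hD.2 (Module.End.iSup_maxGenEigenspace_eq_top _) ν

/-- the blocks span `A^∞ K^δ` -/
theorem iSup_Qb : ⨆ ν, Qb h.data hR p.1 D ν = Ainf (om arm J B g p.1 g) :=
  SC.iSup_PB ((cov h.data hR p.1).D_comm hD.2)
    ((cov h.data hR p.1).D_top (Module.End.iSup_maxGenEigenspace_eq_top _))

variable (hNil : NilW arm J B N g) (hp : p ∈ NN arm J N g) (hf : f ∈ N ⊓ W)

include hNil hp hf

theorem Qb_rel {ν : K} {u : δ → K} (hu : u ∈ Qb h.data hR p.1 D ν) :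
    f *ᵥ u = ν • (g *ᵥ u) ∧
    (gᵀ * J * (p.1 * f)) *ᵥ u = ν • ((gᵀ * J * (p.1 * g)) *ᵥ u) ∧
    ∀ p' ∈ NN arm J N g, gᵀ * J * (p.1 * f) = gᵀ * J * (p'.1 * g) →
      (gᵀ * J * (p'.1 * f)) *ᵥ u = (ν ^ 2) • ((gᵀ * J * (p.1 * g)) *ᵥ u) := by
  obtain ⟨S, q, hq⟩ := exists_spec h hR hNil hp hf
  have hI := isD_up h hR hD hf hp
  have hle := (par hq h hf).PB_le hI.1 hI.2 ν hu
  obtain ⟨h1, h2⟩ := rel_range hq h hf ν hle
  refine ⟨h1, ?_, fun p' hp' e => ?_⟩
  · rw [hq.sumf]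
    exact sum_form hq ν h2 fun c => c
  · rw [form_two hq h hf hp' e]
    exact sum_form hq ν h2 fun c => c ^ 2

/-- blocks of different eigenvalues are orthogonal -/
theorem Qb_orth {ν ν' : K} (hne : ν ≠ ν') {u u' : δ → K} (hu : u ∈ Qb h.data hR p.1 D ν)
    (hu' : u' ∈ Qb h.data hR p.1 D ν') : u ⬝ᵥ ((gᵀ * J * (p.1 * g)) *ᵥ u') = 0 := by
  obtain ⟨p', hp', e⟩ := h.tf hf hp
  have h1 := (Qb_rel h hR hD hNil hp hf hu).2.1
  have h2 := (Qb_rel h hR hD hNil hp hf hu').2.1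
  have hs := form_skew h.data.J_symm hp
  have hs' : (gᵀ * J * (p.1 * f))ᵀ = -(gᵀ * J * (p.1 * f)) := by
    rw [e]; exact form_skew h.data.J_symm hp'
  have t1 : u ⬝ᵥ ((gᵀ * J * (p.1 * f)) *ᵥ u') = -(((gᵀ * J * (p.1 * f)) *ᵥ u) ⬝ᵥ u') := by
    rw [← tdot, hs', neg_mulVec, neg_dotProduct]
  have t2 : u ⬝ᵥ ((gᵀ * J * (p.1 * g)) *ᵥ u') = -(((gᵀ * J * (p.1 * g)) *ᵥ u) ⬝ᵥ u') := by
    rw [← tdot, hs, neg_mulVec, neg_dotProduct]
  rw [h1, h2, smul_dotProduct, dotProduct_smul, smul_eq_mul, smul_eq_mul] at t1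
  have t3 : (ν' - ν) * (u ⬝ᵥ ((gᵀ * J * (p.1 * g)) *ᵥ u')) = 0 := by
    rw [sub_mul, t1, t2]; ring
  exact (mul_eq_zero.1 t3).resolve_left (sub_ne_zero.2 hne.symm)

/-- `ω_s` at another point `(H, Q)` with form `φ + 2 t φ' + t² φ''`. -/
theorem Qb_om {H : Matrix ι δ K} {Q : Matrix ι ι K} {t : K}
    {p' : Matrix ι ι K × (Fin 3 → Matrix ι ι K)} (hp' : p' ∈ NN arm J N g)
    (e : gᵀ * J * (p.1 * f) = gᵀ * J * (p'.1 * g))
    (hH : Hᵀ * J * (Q * H) = gᵀ * J * (p.1 * g) + (2 * t) • (gᵀ * J * (p.1 * f)) +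
      t ^ 2 • (gᵀ * J * (p'.1 * f)))
    {ν : K} {u : δ → K} (hu : u ∈ Qb h.data hR p.1 D ν) (s : Fin 3) :
    om arm J B H Q H s u = ((1 + t * ν) ^ 2) • om arm J B g p.1 g s u := by
  obtain ⟨-, h2, h3⟩ := Qb_rel h hR hD hNil hp hf hu
  have h4 : (Hᵀ * J * (Q * H)) *ᵥ u = ((1 + t * ν) ^ 2) • ((gᵀ * J * (p.1 * g)) *ᵥ u) := by
    rw [hH, add_mulVec, add_mulVec, smul_mulVec, smul_mulVec, h2, h3 p' hp' e, smul_smul,
      smul_smul]
    conv_lhs => rw [← one_smul K ((gᵀ * J * (p.1 * g)) *ᵥ u)]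
    simp only [smul_smul]
    rw [← add_smul, ← add_smul]
    congr 1
    ring
  rw [om_eq h.data, om_eq h.data, ← mulVec_mulVec, h4, mulVec_smul, mulVec_mulVec]

/-- the point `g + t f` -/
theorem Qb_H {t ν : K} {u : δ → K} (hu : u ∈ Qb h.data hR p.1 D ν) :
    (g + t • f) *ᵥ u = (1 + t * ν) • (g *ᵥ u) := by
  rw [add_mulVec, smul_mulVec, (Qb_rel h hR hD hNil hp hf hu).1, smul_smul, add_smul, one_smul]

end facts

end mat

end Crest.Agent.R172.UBlk
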