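import Crest.Agent.R172.STop
import Crest.Agent.R172.SLev0
import Crest.Agent.R172.UBlk

/-!
Row 172 (S0260), (t2): the good class `QGs` with ALL blocks (`α = K`), its membership test from
U-level values, and the conversion of `SLev0.Gens QGs` into `STop.Gens`.
-/

set_option autoImplicit false
set_option linter.unusedSectionVars false
set_option linter.unusedVariables false

namespace Crest.Agent.R172.SQG

open Matrix Module Crest.Agent.R172.FO Crest.Agent.R172.Qt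
open Crest.Agent.R172.SpS Crest.Agent.R172.SEnd Crest.Agent.R172.SEnd2
open Crest.Agent.R172.Om (Kiso)
open Crest.Agent.R172.PL (Ainf CoreM coreOp)
open Crest.Agent.R172.SC (PB iSup_PB PB_stable)
open Crest.Agent.R172.SCM Crest.Agent.R172.SEndW

variable {ι : Type} [Fintype ι] [DecidableEq ι] {δ : Type} [Fintype δ] [DecidableEq δ]
variable {K : Type} [Field K] [Algebra ℂ K] [IsAlgClosed K]
variable {arm : δ → Fin 3} {J : Matrix ι ι K} {B : Matrix δ δ K}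
  {N W : Submodule K (Matrix ι δ K)} {F f : Matrix ι δ K}
  {P : Matrix ι ι K × (Fin 3 → Matrix ι ι K)} {R : Matrix δ ι K}
  {D : End K (CoreM (PhS arm J B F R P.1))} {l : Fin 3 → ℕ}

/-- the good class with all blocks -/
abbrev QGs (arm : δ → Fin 3) (J : Matrix ι ι K) (B : Matrix δ δ K)
    (N W : Submodule K (Matrix ι δ K)) (F : Matrix ι δ K)
    (P : Matrix ι ι K × (Fin 3 → Matrix ι ι K)) (R : Matrix δ ι K)
    (D : End K (CoreM (PhS arm J B F R P.1))) : Submodule K (Matrix ι δ K) :=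
  SLev0.QG arm J B N W F P (PC arm J B F R P.1)
    (fun ν : K => SLev0.PbK arm J B F R P.1 D ν) (fun ν => ν)

theorem iSup_PbK (S : STop.Setup arm J B N W F f P R D l) :
    PC arm J B F R P.1 = ⨆ ν : K, SLev0.PbK arm J B F R P.1 D ν := by
  have h3 : Ainf (PhS arm J B F R P.1) = ⨆ ν, PB (PhS arm J B F R P.1) D ν :=
    (iSup_PB (fun s x => S.hD.2 s x) (Module.End.iSup_maxGenEigenspace_eq_top D)).symm
  unfold PC
  rw [h3, Submodule.map_iSup]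

omit [IsAlgClosed K] in
variable (K) in
theorem two_ne' : (2 : K) ≠ 0 := by
  have h : (algebraMap ℂ K) 2 ≠ 0 := (map_ne_zero _).2 two_ne_zero
  rwa [map_ofNat] at h

/-- membership in `GoodSW` from `QGs` -/
theorem goodSW_of (S : STop.Setup arm J B N W F f P R D l) {s : Fin 3} {x : Matrix ι ι K}
    (hx : x * (J * P.1) * F * E K arm s ∈ QGs arm J B N W F P R D) :
    x ∈ GoodSW arm J B N W F P (PC arm J B F R P.1) s := by
  have hctx := S.hCtx F S.hF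
  obtain ⟨Sp, q, hq⟩ := SBlk.exists_spec hctx S.hR (S.hNil F S.hF) S.hP (f := f) S.hf.1
  refine SLev0.GoodSW_of_QG hctx (two_ne' K) S.hR S.hP S.hf.1 hq S.hD (fun a ha => ?_) (iSup_PbK S)
    (fun ν => le_rfl) ?_ hx
  · obtain ⟨v, -, rfl⟩ := ha
    obtain ⟨u, hu⟩ := v.2
    exact ⟨u, hu⟩
  · rintro ν r _ ⟨v, hv, rfl⟩
    exact ⟨_, PB_stable (fun s x => S.hD.2 s x) ν r hv, PhS_coe S.hR P.1 r v⟩

theorem hrd {n : ℕ} {Q : Matrix ι (Fin n) K} {A : Fin 3 → Matrix (Fin n) (Fin n) K} {ν : K}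
    (b : BPkg arm J B F R P.1 D ν l Q A) (x : Fin n → K) (hx : (Qᵀ * (J * P.1) * Q) *ᵥ x = 0) :
    Q *ᵥ x ∈ Rd (J * P.1) (SLev0.PbK arm J B F R P.1 D ν) := by
  refine ⟨SLev0.coord_mem b x, fun a ha => ?_⟩
  obtain ⟨y, rfl⟩ := SLev0.exists_coord b ha
  have e : (Q *ᵥ y) ⬝ᵥ ((J * P.1) *ᵥ (Q *ᵥ x)) = y ⬝ᵥ ((Qᵀ * (J * P.1) * Q) *ᵥ x) := by
    rw [← vecMul_transpose, ← dotProduct_mulVec]
    simp only [mulVec_mulVec, Matrix.mul_assoc]
  rw [e, hx, dotProduct_zero]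

/-- the conversion of the generators -/
theorem gens_top (S : STop.Setup arm J B N W F f P R D l) {ν ν' : K}
    {n1 n2 : ℕ} {Q1 : Matrix ι (Fin n1) K} {A1 : Fin 3 → Matrix (Fin n1) (Fin n1) K}
    {Q2 : Matrix ι (Fin n2) K} {A2 : Fin 3 → Matrix (Fin n2) (Fin n2) K}
    (b1 : BPkg arm J B F R P.1 D ν l Q1 A1) (b2 : BPkg arm J B F R P.1 D ν' l Q2 A2)
    (h : SLev0.Gens arm J B F P.1 l (QGs arm J B N W F P R D)
      (SLev0.PbK arm J B F R P.1 D ν) (SLev0.PbK arm J B F R P.1 D ν')) :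
    STop.Gens arm J B N W F P R l Q1 A1 Q2 A2 := by
  intro s
  refine ⟨fun i j hij x y => ?_, fun x y hx => ?_, fun x y hy => ?_⟩
  · rw [← SLev0.pow_act b1, ← SLev0.pow_act b2]
    exact goodSW_of S (h.g1 s i j hij _ (SLev0.coord_mem b1 x) _ (SLev0.coord_mem b2 y))
  · exact goodSW_of S (h.g2 s _ (hrd b1 x hx) _ (SLev0.coord_mem b2 y))
  · exact goodSW_of S (h.g3 s _ (SLev0.coord_mem b1 x) _ (hrd b2 y hy))

/-- **membership in `QGs` from the values on the U-level blocks**: `(F u')ᵀ J w = 0` and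
`(F u')ᵀ J P (w u) = μ(ν) (F u')ᵀ J P (F u)` for `u ∈ Q_ν`, `u' ∈ Q_ν'`. -/
theorem mem_QGs (S : STop.Setup arm J B N W F f P R D l) {m w : Matrix ι δ K} (hw : w ∈ W)
    (hm : m - w ∈ N)
    (hrow : ∀ ν, ∀ u ∈ UBlk.Qb (S.hCtx F S.hF).data S.hR P.1 D ν, ∀ v,
      (F *ᵥ u) ⬝ᵥ ((J * w) *ᵥ v) = 0)
    (μ : K → K)
    (hval : ∀ ν, ∀ u ∈ UBlk.Qb (S.hCtx F S.hF).data S.hR P.1 D ν, ∀ ν',
      ∀ u' ∈ UBlk.Qb (S.hCtx F S.hF).data S.hR P.1 D ν',
      (F *ᵥ u') ⬝ᵥ ((J * P.1) *ᵥ (w *ᵥ u)) = μ ν * ((F *ᵥ u') ⬝ᵥ ((J * P.1) *ᵥ (F *ᵥ u)))) :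
    m ∈ QGs arm J B N W F P R D := by
  have hctx := S.hCtx F S.hF
  -- `PbK ν = F (Q_ν)`
  have hpb : ∀ ν, ∀ c ∈ SLev0.PbK arm J B F R P.1 D ν,
      ∃ u ∈ UBlk.Qb hctx.data S.hR P.1 D ν, F *ᵥ u = c := by
    rintro ν _ ⟨v, hv, rfl⟩
    rw [← UBlk.Qb_map hctx S.hR S.hD ν] at hv
    obtain ⟨u, hu, rfl⟩ := hv
    exact ⟨u, hu, rfl⟩
  have hpc : ∀ (C : (ι → K) → Prop), C 0 → (∀ x y, C x → C y → C (x + y)) →
      (∀ ν, ∀ u ∈ UBlk.Qb hctx.data S.hR P.1 D ν, C (F *ᵥ u)) →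
      ∀ a ∈ PC arm J B F R P.1, C a := by
    intro C h0 ha h a hmem
    rw [iSup_PbK S] at hmem
    refine Submodule.iSup_induction _ (motive := C) hmem (fun ν c hc => ?_) h0 ha
    obtain ⟨u, hu, rfl⟩ := hpb ν c hc
    exact h ν u hu
  refine ⟨w, hw, hm, ?_, μ, fun ν c hc r => ?_⟩
  · refine hpc (fun a => ∀ v, a ⬝ᵥ ((J * w) *ᵥ v) = 0) (fun v => zero_dotProduct _)
      (fun x y hx hy v => by rw [add_dotProduct, hx v, hy v, add_zero]) hrow
  · obtain ⟨u, hu, rfl⟩ := hpb ν c hc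
    set u1 : δ → K := UBlk.om arm J B F P.1 F r u with hu1
    have hu1m : u1 ∈ UBlk.Qb hctx.data S.hR P.1 D ν := UBlk.Qb_stable hctx S.hR S.hD r hu
    have e1 : (E K arm r * B * Fᵀ * (J * P.1)) *ᵥ (F *ᵥ u) = u1 := by
      rw [hu1, UBlk.om_eq hctx.data, mulVec_mulVec]
      simp only [Matrix.mul_assoc]
    have e2 : (M arm B r F F * (J * P.1)) *ᵥ (F *ᵥ u) = F *ᵥ u1 := by
      rw [← e1, mulVec_mulVec, mulVec_mulVec, mulVec_mulVec]
      unfold M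
      simp only [Matrix.mul_assoc]
    refine ⟨w *ᵥ u1 - μ ν • (F *ᵥ u1), ?_, ?_⟩
    · refine hpc (fun a => a ⬝ᵥ ((J * P.1) *ᵥ (w *ᵥ u1 - μ ν • (F *ᵥ u1))) = 0)
        (zero_dotProduct _) (fun x y hx hy => by rw [add_dotProduct, hx, hy, add_zero])
        (fun ν' u' hu' => ?_)
      rw [mulVec_sub, dotProduct_sub, mulVec_smul, dotProduct_smul, smul_eq_mul,
        hval ν u1 hu1m ν' u' hu', sub_self]
    · rw [e1, e2]
      abel

/-! ### the class `QGW`: `GoodSW` read in `Matrix ι δ K` -/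

section qgw

variable {ι : Type*} [Fintype ι] [DecidableEq ι] {δ : Type*} [Fintype δ] [DecidableEq δ]
variable {k K : Type*} [Field k] [Field K] [Algebra k K]
variable {arm : δ → Fin 3} {J : Matrix ι ι K} {B : Matrix δ δ K}
  {N W : Submodule K (Matrix ι δ K)} {g f : Matrix ι δ K} {R : Matrix δ ι K}
  {p : Matrix ι ι K × (Fin 3 → Matrix ι ι K)}

/-- `{m | ∃ w ∈ W, m - w ∈ N, rows, ζ-test}`: `x ∈ GoodSW s ↔ x (J p) g E_s ∈ QGW` -/
def QGW (arm : δ → Fin 3) (J : Matrix ι ι K) (B : Matrix δ δ K)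
    (N W : Submodule K (Matrix ι δ K)) (g : Matrix ι δ K)
    (p : Matrix ι ι K × (Fin 3 → Matrix ι ι K)) (P : Submodule K (ι → K)) :
    Submodule K (Matrix ι δ K) where
  carrier := {m | ∃ w ∈ W, m - w ∈ N ∧
        (∀ a ∈ P, ∀ v, a ⬝ᵥ ((J * w) *ᵥ v) = 0) ∧
        ∃ ζ ∈ NN arm J N g, pair J B (Pg arm g p) (act arm ζ.2 g) = 0 ∧
          ∀ a ∈ P, ∀ c ∈ P, ∀ r,
            a ⬝ᵥ ((J * p.1 * w) *ᵥ ((E K arm r * B * gᵀ * (J * p.1)) *ᵥ c)) =
              a ⬝ᵥ ((J * ζ.1) *ᵥ ((M arm B r g g * (J * p.1)) *ᵥ c))}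
  zero_mem' := ⟨0, W.zero_mem, by simp, fun a _ v => by simp, 0, (NN arm J N g).zero_mem, by
      rw [show act arm (0 : Matrix ι ι K × (Fin 3 → Matrix ι ι K)).2 g = 0 from act_zero arm g]
      simp [pair], fun a _ c _ r => by simp⟩
  add_mem' := by
    rintro x y ⟨w, h1, h2, h3, ζ, h4, h5, h6⟩ ⟨w', h1', h2', h3', ζ', h4', h5', h6'⟩
    refine ⟨w + w', W.add_mem h1 h1', ?_, fun a ha v => ?_, ζ + ζ',
      (NN arm J N g).add_mem h4 h4', ?_, fun a ha u hu r => ?_⟩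
    · rw [show x + y - (w + w') = (x - w) + (y - w') by abel]
      exact N.add_mem h2 h2'
    · rw [Matrix.mul_add, add_mulVec, dotProduct_add, h3 a ha, h3' a ha, add_zero]
    · rw [show act arm (ζ + ζ').2 g = act arm ζ.2 g + act arm ζ'.2 g from
        act_add_left arm ζ.2 ζ'.2 g, pair_add_right, h5, h5', add_zero]
    · rw [show (ζ + ζ').1 = ζ.1 + ζ'.1 from rfl, Matrix.mul_add, Matrix.mul_add, add_mulVec,
        add_mulVec, dotProduct_add, dotProduct_add, h6 a ha u hu r, h6' a ha u hu r]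
  smul_mem' := by
    rintro t x ⟨w, h1, h2, h3, ζ, h4, h5, h6⟩
    refine ⟨t • w, W.smul_mem t h1, ?_, fun a ha v => ?_, t • ζ,
      (NN arm J N g).smul_mem t h4, ?_, fun a ha u hu r => ?_⟩
    · rw [← smul_sub]
      exact N.smul_mem t h2
    · rw [Matrix.mul_smul, smul_mulVec, dotProduct_smul, h3 a ha, smul_zero]
    · rw [show act arm (t • ζ).2 g = t • act arm ζ.2 g from act_smul_left arm t ζ.2 g,
        pair_smul_right, h5, mul_zero]
    · rw [show (t • ζ).1 = t • ζ.1 from rfl, Matrix.mul_smul, Matrix.mul_smul, smul_mulVec,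
        smul_mulVec, dotProduct_smul, dotProduct_smul, h6 a ha u hu r]

theorem mem_GoodSW_iff {P : Submodule K (ι → K)} {s : Fin 3} {x : Matrix ι ι K} :
    x ∈ GoodSW arm J B N W g p P s ↔ x * (J * p.1) * g * E K arm s ∈ QGW arm J B N W g p P :=
  Iff.rfl

/-- **`QG ≤ QGW`** -/
theorem QG_le_QGW {S : Finset K} {q : K → Matrix ι ι K × (Fin 3 → Matrix ι ι K)}
    (h : Ctx k arm J B N W g) (h2 : (2 : K) ≠ 0) (hR : g * R * g = g)
    (hp : p ∈ NN arm J N g) (hf : f ∈ N ⊓ W) (hq : SBlk.Spec arm J N g f p.1 S q)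
    {D : End K (CoreM (SBlk.Ph arm J B g R p.1))}
    (hD : SBlk.IsD (SBlk.Ph arm J B g R p.1) (SBlk.Nh arm J B g f R p.1) D)
    {α : Type*} {nu : α → K} {P : Submodule K (ι → K)} (hPg : ∀ a ∈ P, ∃ u, g *ᵥ u = a)
    {Pb : α → Submodule K (ι → K)} (hP : P = ⨆ i, Pb i)
    (hPb : ∀ i, Pb i ≤ (PB (SBlk.Ph arm J B g R p.1) D (nu i)).map (SpS.Sg g).subtype)
    (hst : ∀ i r, ∀ c ∈ Pb i, (M arm B r g g * (J * p.1)) *ᵥ c ∈ Pb i) :
    SLev0.QG arm J B N W g p P Pb nu ≤ QGW arm J B N W g p P := by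
  rintro m ⟨w, hw, hN, hwP, μ, hV0⟩
  have hV : ∀ i, ∀ c ∈ Pb i, ∀ r, ∀ a ∈ P,
      a ⬝ᵥ ((J * p.1 * w) *ᵥ ((E K arm r * B * gᵀ * (J * p.1)) *ᵥ c)) =
        μ (nu i) * (a ⬝ᵥ ((J * p.1) *ᵥ ((M arm B r g g * (J * p.1)) *ᵥ c))) := by
    intro i c hc r a ha
    obtain ⟨rr, hrr, hwv⟩ := hV0 i c hc r
    rw [← mulVec_mulVec, hwv, mulVec_add, dotProduct_add, hrr a ha, add_zero, mulVec_smul,
      dotProduct_smul, smul_eq_mul]
  refine ⟨w, hw, hN, hwP, ∑ c ∈ S, μ c • q c,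
    Submodule.sum_mem _ fun c _ => (NN arm J N g).smul_mem _ (hq.mem c), ?_, ?_⟩
  · rw [SEnd4.act_sum_NN, SEnd4.pair_sum_right']
    refine Finset.sum_eq_zero fun c _ => ?_
    rw [show act arm (μ c • q c).2 g = μ c • act arm (q c).2 g from act_smul_left arm _ _ _,
      pair_smul_right, SEnd4.theta_spec h h2 hp hf hq, mul_zero]
  · have hfst : (∑ c ∈ S, μ c • q c).1 = ∑ c ∈ S, μ c • (q c).1 := Prod.fst_sum
    intro a ha c hc r
    obtain ⟨u', rfl⟩ := hPg a ha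
    rw [hP] at hc
    induction hc using Submodule.iSup_induction' with
    | mem i c hc =>
      rw [hV i c hc r _ ha]
      obtain ⟨v, hv⟩ : ∃ v, v = (M arm B r g g * (J * p.1)) *ᵥ c := ⟨_, rfl⟩
      have hvb : v ∈ (PB (SBlk.Ph arm J B g R p.1) D (nu i)).map (SpS.Sg g).subtype :=
        hPb i (by rw [hv]; exact hst i r c hc)
      have hvg : ∃ z, g *ᵥ z = v := by
        obtain ⟨v', -, rfl⟩ := hvb
        obtain ⟨z, hz⟩ := v'.2
        exact ⟨z, hz⟩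
      rw [← hv, hfst, Matrix.mul_sum, sum_mulVec, dotProduct_sum]
      obtain ⟨z, hz⟩ := hvg
      have h5 : (g *ᵥ u') ⬝ᵥ ((J * p.1) *ᵥ v) =
          ∑ c ∈ S, (g *ᵥ u') ⬝ᵥ ((J * (q c).1) *ᵥ v) := by
        rw [← hz]; exact SEnd4.spec_sum hq u' z
      rw [h5, Finset.mul_sum]
      refine Finset.sum_congr rfl fun c _ => ?_
      rw [Matrix.mul_smul, smul_mulVec, dotProduct_smul, smul_eq_mul]
      by_cases hc : c = nu i
      · rw [hc]
      · rw [SEnd5.spec_block' h hR hf hq hD hc hvb u', mul_zero, mul_zero]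
    | zero => simp only [mulVec_zero, dotProduct_zero]
    | add b c _ _ h1 h2 =>
      rw [mulVec_add, mulVec_add, dotProduct_add, h1, h2, mulVec_add, mulVec_add, dotProduct_add]

end qgw

/-- `QGs ≤ QGW` in the setup -/
theorem QGs_le (S : STop.Setup arm J B N W F f P R D l) :
    QGs arm J B N W F P R D ≤ QGW arm J B N W F P (PC arm J B F R P.1) := by
  have hctx := S.hCtx F S.hF
  obtain ⟨Sp, q, hq⟩ := SBlk.exists_spec hctx S.hR (S.hNil F S.hF) S.hP (f := f) S.hf.1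
  refine QG_le_QGW hctx (two_ne' K) S.hR S.hP S.hf.1 hq S.hD (fun a ha => ?_) (iSup_PbK S)
    (fun ν => le_rfl) ?_
  · obtain ⟨v, -, rfl⟩ := ha
    obtain ⟨u, hu⟩ := v.2
    exact ⟨u, hu⟩
  · rintro ν r _ ⟨v, hv, rfl⟩
    exact ⟨_, PB_stable (fun s x => S.hD.2 s x) ν r hv, PhS_coe S.hR P.1 r v⟩

/-- **`STop.Gens` is `SLev0.Gens` for `QGW`** -/
theorem gensW_of (S : STop.Setup arm J B N W F f P R D l) {ν ν' : K}
    {n1 n2 : ℕ} {Q1 : Matrix ι (Fin n1) K} {A1 : Fin 3 → Matrix (Fin n1) (Fin n1) K}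
    {Q2 : Matrix ι (Fin n2) K} {A2 : Fin 3 → Matrix (Fin n2) (Fin n2) K}
    (b1 : BPkg arm J B F R P.1 D ν l Q1 A1) (b2 : BPkg arm J B F R P.1 D ν' l Q2 A2)
    (h : STop.Gens arm J B N W F P R l Q1 A1 Q2 A2) :
    SLev0.Gens arm J B F P.1 l (QGW arm J B N W F P (PC arm J B F R P.1))
      (SLev0.PbK arm J B F R P.1 D ν) (SLev0.PbK arm J B F R P.1 D ν') := by
  refine ⟨fun s i j hij a ha c hc => ?_, fun s r hr c hc => ?_, fun s a ha r hr => ?_⟩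
  · obtain ⟨x, rfl⟩ := SLev0.exists_coord b1 ha
    obtain ⟨y, rfl⟩ := SLev0.exists_coord b2 hc
    rw [SLev0.pow_act b1, SLev0.pow_act b2]
    exact (h s).1 i j hij x y
  · obtain ⟨x, hx, rfl⟩ := SLev0.exists_coord_Rd b1 hr
    obtain ⟨y, rfl⟩ := SLev0.exists_coord b2 hc
    exact (h s).2.1 x y hx
  · obtain ⟨x, rfl⟩ := SLev0.exists_coord b1 ha
    obtain ⟨y, hy, rfl⟩ := SLev0.exists_coord_Rd b2 hr
    exact (h s).2.2 x y hy

/-- **`STop.Gens` from `SLev0.Gens QGW`** -/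
theorem gens_topW (S : STop.Setup arm J B N W F f P R D l) {ν ν' : K}
    {n1 n2 : ℕ} {Q1 : Matrix ι (Fin n1) K} {A1 : Fin 3 → Matrix (Fin n1) (Fin n1) K}
    {Q2 : Matrix ι (Fin n2) K} {A2 : Fin 3 → Matrix (Fin n2) (Fin n2) K}
    (b1 : BPkg arm J B F R P.1 D ν l Q1 A1) (b2 : BPkg arm J B F R P.1 D ν' l Q2 A2)
    (h : SLev0.Gens arm J B F P.1 l (QGW arm J B N W F P (PC arm J B F R P.1))
      (SLev0.PbK arm J B F R P.1 D ν) (SLev0.PbK arm J B F R P.1 D ν')) :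
    STop.Gens arm J B N W F P R l Q1 A1 Q2 A2 := by
  intro s
  refine ⟨fun i j hij x y => ?_, fun x y hx => ?_, fun x y hy => ?_⟩
  · rw [← SLev0.pow_act b1, ← SLev0.pow_act b2]
    exact h.g1 s i j hij _ (SLev0.coord_mem b1 x) _ (SLev0.coord_mem b2 y)
  · exact h.g2 s _ (hrd b1 x hx) _ (SLev0.coord_mem b2 y)
  · exact h.g3 s _ (SLev0.coord_mem b1 x) _ (hrd b2 y hy)

end Crest.Agent.R172.SQG
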