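import Crest.Agent.R172.SL2h560
import Crest.Agent.R172.SL2g182
import Crest.Agent.R172.SInst
import Crest.Agent.R172.SDecC926
import Crest.Agent.R172.SQG531

/-!
Row 172 (S0260), (t2), second level, B4 in the letters of `STop.Setup` / `SDecC`.
-/

set_option autoImplicit false
set_option linter.unusedSectionVars false
set_option linter.unusedFintypeInType false
set_option linter.unusedDecidableInType false
set_option linter.unusedVariables false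
set_option maxHeartbeats 1600000

namespace Crest.Agent.R172.SB4560

open Matrix Module Crest.Agent.R172.FO Crest.Agent.R172.Qt Crest.Agent.R172.SpS
open Crest.Agent.R172.SUX Crest.Agent.R172.SL2g560 Crest.Agent.R172.STop Crest.Agent.R172.SInst
open Crest.Agent.R172.SCM Crest.Agent.R172.SEnd Crest.Agent.R172.SEnd2
open Crest.Agent.R172.SC (PB PB_stable)
open Crest.Agent.R172.PL (CoreM)

variable {ι : Type} [Fintype ι] [DecidableEq ι] {δ : Type} [Fintype δ] [DecidableEq δ]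
variable {K : Type} [Field K] [Algebra ℂ K] [IsAlgClosed K]
variable {arm : δ → Fin 3} {J : Matrix ι ι K} {B : Matrix δ δ K}
  {N W : Submodule K (Matrix ι δ K)} {F f : Matrix ι δ K}
  {P : Matrix ι ι K × (Fin 3 → Matrix ι ι K)} {R : Matrix δ ι K}
  {D : End K (CoreM (PhS arm J B F R P.1))} {l : Fin 3 → ℕ}

theorem orthPb (S : Setup arm J B N W F f P R D l) {μ μ' : K} (hne : μ ≠ μ') {a b : ι → K}
    (ha : a ∈ SLev0.PbK arm J B F R P.1 D μ) (hb : b ∈ SLev0.PbK arm J B F R P.1 D μ') :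
    a ⬝ᵥ ((J * P.1) *ᵥ b) = 0 := by
  obtain ⟨v, hv, rfl⟩ := ha
  obtain ⟨w, hw, rfl⟩ := hb
  exact SCM.orth (k := ℂ) (N := N) (W := W) (S.hCtx F S.hF).data S.hR S.hP.1 S.hDB hne hv hw

theorem stPb (S : Setup arm J B N W F f P R D l) {μ : K} (s : Fin 3) (v : ℕ) {a : ι → K}
    (ha : a ∈ SLev0.PbK arm J B F R P.1 D μ) :
    ((M arm B s F F * (J * P.1)) ^ v) *ᵥ a ∈ SLev0.PbK arm J B F R P.1 D μ := by
  induction v with
  | zero => rwa [pow_zero, one_mulVec]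
  | succ v ih =>
    rw [pow_succ', ← mulVec_mulVec]
    obtain ⟨w, hw, e⟩ := ih
    rw [← e]
    exact ⟨_, PB_stable (fun s x => S.hD.2 s x) μ s hw, PhS_coe S.hR P.1 s w⟩

theorem formQ {n : ℕ} {Q : Matrix ι (Fin n) K} (x y : Fin n → K) :
    (Q *ᵥ x) ⬝ᵥ ((J * P.1) *ᵥ (Q *ᵥ y)) = x ⬝ᵥ ((Qᵀ * (J * P.1) * Q) *ᵥ y) := by
  rw [← vecMul_transpose, ← dotProduct_mulVec]
  simp only [mulVec_mulVec, Matrix.mul_assoc]

/-- **freeness of one block** -/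
theorem blk_free (S : Setup arm J B N W F f P R D l) {ν : K} {n : ℕ} {Q : Matrix ι (Fin n) K}
    {A : Fin 3 → Matrix (Fin n) (Fin n) K} (b : BPkg arm J B F R P.1 D ν l Q A) (s : Fin 3)
    {v : ℕ} (hv : v ≤ l s) (y : Fin n → K)
    (hy : (Qᵀ * (J * P.1) * Q) *ᵥ ((A s ^ (l s - v)) *ᵥ y) = 0) :
    ∃ y', (Qᵀ * (J * P.1) * Q) *ᵥ (y - (A s ^ v) *ᵥ y') = 0 := by
  have hc : Q *ᵥ y ∈ PC arm J B F R P.1 := by
    rw [SQG.iSup_PbK S]; exact Submodule.mem_iSup_of_mem ν (SLev0.coord_mem b y)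
  have h1 : ((M arm B s F F * (J * P.1)) ^ (l s - v)) *ᵥ (Q *ᵥ y) ∈
      Rd (J * P.1) (PC arm J B F R P.1) := by
    rw [SLev0.pow_act b]
    exact SEnd5.Rd_le_sup (SQG.iSup_PbK S) (fun i j hij a ha b hb => orthPb S hij ha hb) ν
      (SQG.hrd b _ hy)
  obtain ⟨c', hc', h2⟩ := (S.free s).2 v hv _ hc h1
  rw [SQG.iSup_PbK S, iSup_split_single (fun ν : K => SLev0.PbK arm J B F R P.1 D ν) ν] at hc'
  obtain ⟨a, ha, e, he, rfl⟩ := Submodule.mem_sup.1 hc'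
  obtain ⟨y', rfl⟩ := SLev0.exists_coord b ha
  have horth : ∀ p ∈ SLev0.PbK arm J B F R P.1 D ν,
      p ⬝ᵥ ((J * P.1) *ᵥ (((M arm B s F F * (J * P.1)) ^ v) *ᵥ e)) = 0 := by
    intro p hp
    refine Submodule.iSup_induction (fun i => ⨆ (_ : i ≠ ν), SLev0.PbK arm J B F R P.1 D i)
      (motive := fun e => p ⬝ᵥ ((J * P.1) *ᵥ (((M arm B s F F * (J * P.1)) ^ v) *ᵥ e)) = 0) he
      ?_ ?_ ?_
    · intro i x hx
      by_cases hi : i = ν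
      · subst hi
        simp only [ne_eq, not_true_eq_false, iSup_false, Submodule.mem_bot] at hx
        rw [hx, mulVec_zero, mulVec_zero, dotProduct_zero]
      · simp only [ne_eq, hi, not_false_eq_true, iSup_pos] at hx
        exact orthPb S (fun h => hi h.symm) hp (stPb S s v hx)
    · rw [mulVec_zero, mulVec_zero, dotProduct_zero]
    · intro x y hx hy
      rw [mulVec_add, mulVec_add, dotProduct_add, hx, hy, add_zero]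
  refine ⟨y', ?_⟩
  funext j
  have h3 := h2.2 _ (show Q *ᵥ Pi.single j 1 ∈ PC arm J B F R P.1 by
    rw [SQG.iSup_PbK S]; exact Submodule.mem_iSup_of_mem ν (SLev0.coord_mem b _))
  have e1 : Q *ᵥ y - ((M arm B s F F * (J * P.1)) ^ v) *ᵥ (Q *ᵥ y' + e) =
      Q *ᵥ (y - (A s ^ v) *ᵥ y') - ((M arm B s F F * (J * P.1)) ^ v) *ᵥ e := by
    rw [mulVec_add, SLev0.pow_act b, mulVec_sub]; abel
  rw [e1, mulVec_sub, dotProduct_sub, horth _ (SLev0.coord_mem b _), sub_zero, formQ,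
    single_one_dotProduct] at h3
  exact h3

section frames

variable {ν ν' : K} {n1 n2 : ℕ} {Q1 : Matrix ι (Fin n1) K}
  {A1 : Fin 3 → Matrix (Fin n1) (Fin n1) K}
  {Q2 : Matrix ι (Fin n2) K} {A2 : Fin 3 → Matrix (Fin n2) (Fin n2) K}
  {m1 m2 : ℕ} {U1 : Matrix δ (Fin m1) K} {U2 : Matrix δ (Fin m2) K}
  {a1 : Fin 3 → Matrix (Fin m1) (Fin m1) K} {a2 : Fin 3 → Matrix (Fin m2) (Fin m2) K}

/-- the surjection onto the coordinates, with all relations used below -/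
structure CC (F : Matrix ι δ K) (Q : Matrix ι (Fin n1) K)
    (A : Fin 3 → Matrix (Fin n1) (Fin n1) K) (GQ : Matrix (Fin n1) (Fin n1) K)
    (U : Matrix δ (Fin m1) K) (a : Fin 3 → Matrix (Fin m1) (Fin m1) K)
    (G : Matrix (Fin m1) (Fin m1) K) (C : Matrix (Fin n1) (Fin m1) K) : Prop where
  fu : F * U = Q * C
  onto : ∀ y, ∃ x, C *ᵥ x = y
  act : ∀ s, A s * C = C * a s
  form : Cᵀ * GQ * C = G

theorem CC.pow {Q : Matrix ι (Fin n1) K} {GQ : Matrix (Fin n1) (Fin n1) K}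
    {G : Matrix (Fin m1) (Fin m1) K} {C : Matrix (Fin n1) (Fin m1) K}
    (c : CC F Q A1 GQ U1 a1 G C) (s : Fin 3) (i : ℕ) (x : Fin m1 → K) :
    C *ᵥ ((a1 s ^ i) *ᵥ x) = (A1 s ^ i) *ᵥ (C *ᵥ x) := by
  induction i generalizing x with
  | zero => simp
  | succ i ih =>
    rw [pow_succ, pow_succ, ← mulVec_mulVec, ih, ← mulVec_mulVec]
    congr 1
    rw [mulVec_mulVec, ← c.act, ← mulVec_mulVec]

theorem CC.ker {Q : Matrix ι (Fin n1) K} {GQ : Matrix (Fin n1) (Fin n1) K}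
    {G : Matrix (Fin m1) (Fin m1) K} {C : Matrix (Fin n1) (Fin m1) K}
    (c : CC F Q A1 GQ U1 a1 G C) (x : Fin m1 → K) : G *ᵥ x = 0 ↔ GQ *ᵥ (C *ᵥ x) = 0 := by
  have e : G *ᵥ x = Cᵀ *ᵥ (GQ *ᵥ (C *ᵥ x)) := by
    rw [← c.form]; simp only [mulVec_mulVec, Matrix.mul_assoc]
  constructor
  · intro h
    rw [e] at h
    funext j
    obtain ⟨z, hz⟩ := c.onto (Pi.single j 1)
    have h1 : z ⬝ᵥ (Cᵀ *ᵥ (GQ *ᵥ (C *ᵥ x))) = 0 := by rw [h, dotProduct_zero]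
    rw [dotProduct_mulVec, vecMul_transpose, hz, single_one_dotProduct] at h1
    exact h1
  · intro h
    rw [e, h, mulVec_zero]

/-- freeness and powers at the frame level -/
theorem CC.free (S : Setup arm J B N W F f P R D l) (b : BPkg arm J B F R P.1 D ν l Q1 A1)
    {G : Matrix (Fin m1) (Fin m1) K} {C : Matrix (Fin n1) (Fin m1) K}
    (c : CC F Q1 A1 (Q1ᵀ * (J * P.1) * Q1) U1 a1 G C) (s : Fin 3) :
    (∀ y, G *ᵥ ((a1 s ^ l s) *ᵥ y) = 0) ∧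
    ∀ v ≤ l s, ∀ y, G *ᵥ ((a1 s ^ (l s - v)) *ᵥ y) = 0 →
      ∃ y', G *ᵥ (y - (a1 s ^ v) *ᵥ y') = 0 := by
  constructor
  · intro y
    rw [c.ker, c.pow]
    have h1 := b.blk.pow s (C *ᵥ y)
    rw [LinearMap.mem_ker, mulVecLin_apply, SCM.mulVecLin_pow_apply] at h1
    exact h1
  · intro v hv y hy
    rw [c.ker, c.pow] at hy
    obtain ⟨z, hz⟩ := blk_free S b s hv _ hy
    obtain ⟨y', rfl⟩ := c.onto z
    refine ⟨y', ?_⟩
    rw [c.ker, mulVec_sub C, c.pow]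
    exact hz

end frames

/-- `Gn ≤ FR` -/
theorem Gn_le_FR {n1 n2 : Type*} [Fintype n1] [DecidableEq n1] [Fintype n2] [DecidableEq n2]
    {A : Matrix n1 n1 K} {B' : Matrix n2 n2 K} {R1 : Submodule K (n1 → K)}
    {R2 : Submodule K (n2 → K)} {l : ℕ} : SL2g.Gn A B' R1 R2 l ≤ FR B' A R2 R1 l := by
  unfold SL2g.Gn
  refine Submodule.span_le.2 ?_
  rintro X (⟨i, j, y, z, hij, rfl⟩ | ⟨r, hr, z, rfl⟩ | ⟨y, r, hr, rfl⟩)
  · exact Submodule.subset_span (Or.inl ⟨i, j, y, z, hij, rfl⟩)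
  · exact Submodule.subset_span (Or.inr (Or.inl ⟨r, hr, z, rfl⟩))
  · exact Submodule.subset_span (Or.inr (Or.inr ⟨y, r, hr, rfl⟩))

section final

variable {ν ν' : K} {n1 n2 : ℕ} {Q1 : Matrix ι (Fin n1) K}
  {A1 : Fin 3 → Matrix (Fin n1) (Fin n1) K}
  {Q2 : Matrix ι (Fin n2) K} {A2 : Fin 3 → Matrix (Fin n2) (Fin n2) K}
  {m1 m2 : ℕ} {U1 : Matrix δ (Fin m1) K} {U2 : Matrix δ (Fin m2) K}
  {a1 : Fin 3 → Matrix (Fin m1) (Fin m1) K} {a2 : Fin 3 → Matrix (Fin m2) (Fin m2) K}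

/-- `(ker G)^⊥ = range G` for a skew `G` -/
theorem exists_of_perp {n : Type*} [Fintype n] [DecidableEq n] {G : Matrix n n K} (hG : Gᵀ = -G)
    {φ : n → K} (h : ∀ r, G *ᵥ r = 0 → φ ⬝ᵥ r = 0) : ∃ ψ, φ = G *ᵥ ψ := by
  by_contra hne
  have hnot : φ ∉ LinearMap.range G.mulVecLin := by
    rintro ⟨ψ, hψ⟩
    exact hne ⟨ψ, hψ.symm⟩
  obtain ⟨g, hg, hgr⟩ := Submodule.exists_dual_map_eq_bot_of_notMem hnot inferInstance
  let r : n → K := fun i => g (Pi.single i 1)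
  have hr : ∀ v : n → K, g v = v ⬝ᵥ r := by
    intro v
    have e : v = ∑ i, v i • (Pi.single i (1 : K) : n → K) := by
      funext j
      rw [Finset.sum_apply]
      simp [Pi.single_apply]
    conv_lhs => rw [e]
    rw [map_sum]
    unfold dotProduct
    exact Finset.sum_congr rfl fun i _ => by rw [map_smul, smul_eq_mul]
  apply hg
  rw [hr]
  refine h r ?_
  funext j
  have h1 : g (G *ᵥ Pi.single j 1) = 0 := by
    have : g (G.mulVecLin (Pi.single j 1)) ∈ Submodule.map g (LinearMap.range G.mulVecLin) :=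
      ⟨_, ⟨_, rfl⟩, rfl⟩
    rw [hgr] at this
    exact (Submodule.mem_bot K).1 this
  rw [hr] at h1
  have e2 : (G *ᵥ Pi.single j 1) ⬝ᵥ r = -((G *ᵥ r) j) := by
    have e3 : (G *ᵥ Pi.single j 1) ⬝ᵥ r = (Pi.single j (1 : K)) ⬝ᵥ (Gᵀ *ᵥ r) := by
      rw [dotProduct_mulVec, vecMul_transpose]
    rw [e3, hG, neg_mulVec, single_one_dotProduct]
    rfl
  rw [e2, neg_eq_zero] at h1
  exact h1

/-- **exact families with radical arms are filtered** -/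
theorem exact_FR (S : Setup arm J B N W F f P R D l) (b1 : BPkg arm J B F R P.1 D ν l Q1 A1)
    (b2 : BPkg arm J B F R P.1 D ν' l Q2 A2) {C1 : Matrix (Fin n1) (Fin m1) K}
    {C2 : Matrix (Fin n2) (Fin m2) K}
    (c1 : CC F Q1 A1 (Q1ᵀ * (J * P.1) * Q1) U1 a1 (U1ᵀ * (Fᵀ * J * (P.1 * F)) * U1) C1)
    (c2 : CC F Q2 A2 (Q2ᵀ * (J * P.1) * Q2) U2 a2 (U2ᵀ * (Fᵀ * J * (P.1 * F)) * U2) C2)
    (s : Fin 3) {c : K} {X : Matrix (Fin m2) (Fin m1) K}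
    (hX : (U2ᵀ * (Fᵀ * J * (P.1 * F)) * U2) * (X * (a1 s)ᵀ - c • (a2 s * X)) *
      (U1ᵀ * (Fᵀ * J * (P.1 * F)) * U1) = 0) :
    X ∈ FR (a2 s) (a1 s) (rad (Fᵀ * J * (P.1 * F)) U2) (rad (Fᵀ * J * (P.1 * F)) U1) (l s) := by
  obtain ⟨p1, f1⟩ := c1.free S b1 s
  obtain ⟨p2, -⟩ := c2.free S b2 s
  have hsk : (U1ᵀ * (Fᵀ * J * (P.1 * F)) * U1)ᵀ = -(U1ᵀ * (Fᵀ * J * (P.1 * F)) * U1) := by
    rw [← c1.form]
    rw [transpose_mul, transpose_mul, transpose_transpose, b1.skew]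
    simp only [Matrix.mul_assoc, Matrix.neg_mul, Matrix.mul_neg]
  have hrad1 : ∀ r, r ∈ rad (Fᵀ * J * (P.1 * F)) U1 ↔
      (U1ᵀ * (Fᵀ * J * (P.1 * F)) * U1) *ᵥ r = 0 := fun r => mem_rad
  have hrad2 : ∀ r, r ∈ rad (Fᵀ * J * (P.1 * F)) U2 ↔
      (U2ᵀ * (Fᵀ * J * (P.1 * F)) * U2) *ᵥ r = 0 := fun r => mem_rad
  have hst1 : ∀ r ∈ rad (Fᵀ * J * (P.1 * F)) U1, a1 s *ᵥ r ∈ rad (Fᵀ * J * (P.1 * F)) U1 := by
    intro r hr
    rw [hrad1, c1.ker] at hr ⊢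
    have h1 := c1.pow s 1 r
    rw [pow_one, pow_one] at h1
    rw [h1]
    have h2 := b1.blk.st s (C1 *ᵥ r) (by rw [LinearMap.mem_ker, mulVecLin_apply]; exact hr)
    rw [LinearMap.mem_ker, mulVecLin_apply, mulVecLin_apply] at h2
    exact h2
  have hst2 : ∀ r ∈ rad (Fᵀ * J * (P.1 * F)) U2, a2 s *ᵥ r ∈ rad (Fᵀ * J * (P.1 * F)) U2 := by
    intro r hr
    rw [hrad2, c2.ker] at hr ⊢
    have h1 := c2.pow s 1 r
    rw [pow_one, pow_one] at h1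
    rw [h1]
    have h2 := b2.blk.st s (C2 *ᵥ r) (by rw [LinearMap.mem_ker, mulVecLin_apply]; exact hr)
    rw [LinearMap.mem_ker, mulVecLin_apply, mulVecLin_apply] at h2
    exact h2
  refine Gn_le_FR (SL2g.exact_mem (c := -c) hst1 hst2 (fun y => (hrad2 _).2 (p2 y))
    (fun v hv y hy => ?_) fun φ hφ => ?_)
  · obtain ⟨y', hy'⟩ := f1 v hv y ((hrad1 _).1 hy)
    exact ⟨y', (hrad1 _).2 hy'⟩
  · obtain ⟨ψ, rfl⟩ := exists_of_perp hsk (fun r hr => hφ r ((hrad1 r).2 hr))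
    rw [hrad2]
    obtain ⟨G, hG⟩ : ∃ G, G = U1ᵀ * (Fᵀ * J * (P.1 * F)) * U1 := ⟨_, rfl⟩
    obtain ⟨G', hG'⟩ : ∃ G', G' = U2ᵀ * (Fᵀ * J * (P.1 * F)) * U2 := ⟨_, rfl⟩
    rw [← hG, ← hG'] at hX
    rw [← hG, ← hG', neg_smul, ← sub_eq_add_neg, mulVec_mulVec, mulVec_mulVec, hX, zero_mulVec]

/-- the generators in frame letters -/
theorem gens_fr {Q : Submodule K (Matrix ι δ K)} (b1 : BPkg arm J B F R P.1 D ν l Q1 A1)
    (b2 : BPkg arm J B F R P.1 D ν' l Q2 A2) {C1 : Matrix (Fin n1) (Fin m1) K}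
    {C2 : Matrix (Fin n2) (Fin m2) K} {G1 : Matrix (Fin m1) (Fin m1) K}
    {G2 : Matrix (Fin m2) (Fin m2) K}
    (c1 : CC F Q1 A1 (Q1ᵀ * (J * P.1) * Q1) U1 a1 G1 C1)
    (c2 : CC F Q2 A2 (Q2ᵀ * (J * P.1) * Q2) U2 a2 G2 C2)
    (h : SLev0.Gens arm J B F P.1 l Q (SLev0.PbK arm J B F R P.1 D ν')
      (SLev0.PbK arm J B F R P.1 D ν)) :
    (∀ s i j, i + j + 1 = l s → ∀ x y, vecMulVec ((F * U2) *ᵥ ((a2 s ^ i) *ᵥ x))
      ((F * U1) *ᵥ ((a1 s ^ j) *ᵥ y)) * (J * P.1) * F * E K arm s ∈ Q) ∧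
    (∀ s, ∀ r, G2 *ᵥ r = 0 → ∀ y,
      vecMulVec ((F * U2) *ᵥ r) ((F * U1) *ᵥ y) * (J * P.1) * F * E K arm s ∈ Q) ∧
    (∀ s x, ∀ r, G1 *ᵥ r = 0 →
      vecMulVec ((F * U2) *ᵥ x) ((F * U1) *ᵥ r) * (J * P.1) * F * E K arm s ∈ Q) := by
  refine ⟨fun s i j hij x y => ?_, fun s r hr y => ?_, fun s x r hr => ?_⟩
  · have h1 := h.g1 s i j hij _ (SLev0.coord_mem b2 (C2 *ᵥ x)) _ (SLev0.coord_mem b1 (C1 *ᵥ y))
    rw [SLev0.pow_act b2, SLev0.pow_act b1, ← c2.pow, ← c1.pow, mulVec_mulVec _ Q2, ← c2.fu,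
      mulVec_mulVec _ Q1, ← c1.fu] at h1
    exact h1
  · have h1 := h.g2 s _ (SQG.hrd b2 _ ((c2.ker r).1 hr)) _ (SLev0.coord_mem b1 (C1 *ᵥ y))
    rw [mulVec_mulVec _ Q2, ← c2.fu, mulVec_mulVec _ Q1, ← c1.fu] at h1
    exact h1
  · have h1 := h.g3 s _ (SLev0.coord_mem b2 (C2 *ᵥ x)) _ (SQG.hrd b1 _ ((c1.ker r).1 hr))
    rw [mulVec_mulVec _ Q2, ← c2.fu, mulVec_mulVec _ Q1, ← c1.fu] at h1
    exact h1

/-- `CC` from `SInst.exists_C` -/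
theorem exists_CC (S : Setup arm J B N W F f P R D l) (b1 : BPkg arm J B F R P.1 D ν l Q1 A1)
    (hU : UFr.Cq (UBlk.Qb (S.hCtx F S.hF).data S.hR P.1 D ν) U1)
    (hs : ∀ u ∈ UBlk.Qb (S.hCtx F S.hF).data S.hR P.1 D ν, ∃ x, u = U1 *ᵥ x)
    (ha : ∀ s, B * E K arm s * (Fᵀ * J * (P.1 * F)) * U1 = U1 * a1 s) :
    ∃ C1, CC F Q1 A1 (Q1ᵀ * (J * P.1) * Q1) U1 a1 (U1ᵀ * (Fᵀ * J * (P.1 * F)) * U1) C1 := by
  have hmem : ∀ x, U1 *ᵥ x ∈ UBlk.Qb (S.hCtx F S.hF).data S.hR P.1 D ν := by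
    intro x
    have h1 : U1 *ᵥ x = ∑ j, x j • (fun d => U1 d j) := by
      funext d
      rw [Finset.sum_apply]
      unfold Matrix.mulVec dotProduct
      exact Finset.sum_congr rfl fun j _ => by
        rw [Pi.smul_apply, smul_eq_mul, mul_comm]
    rw [h1]
    exact Submodule.sum_mem _ fun j _ => Submodule.smul_mem _ _ (hU j)
  obtain ⟨C, h1, h2, h3, -, h5⟩ := SInst.exists_C S b1 hU hs hmem ha
  exact ⟨C, h1, h2, h3, h5⟩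

/-- **B4: the 21-part** in the class `Q` of level 1 -/
theorem part21 (S : Setup arm J B N W F f P R D l) (b1 : BPkg arm J B F R P.1 D ν l Q1 A1)
    (b2 : BPkg arm J B F R P.1 D ν' l Q2 A2)
    (hU1 : UFr.Cq (UBlk.Qb (S.hCtx F S.hF).data S.hR P.1 D ν) U1)
    (hs1 : ∀ u ∈ UBlk.Qb (S.hCtx F S.hF).data S.hR P.1 D ν, ∃ x, u = U1 *ᵥ x)
    (ha1 : ∀ s, B * E K arm s * (Fᵀ * J * (P.1 * F)) * U1 = U1 * a1 s)
    (hU2 : UFr.Cq (UBlk.Qb (S.hCtx F S.hF).data S.hR P.1 D ν') U2)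
    (hs2 : ∀ u ∈ UBlk.Qb (S.hCtx F S.hF).data S.hR P.1 D ν', ∃ x, u = U2 *ᵥ x)
    (ha2 : ∀ s, B * E K arm s * (Fᵀ * J * (P.1 * F)) * U2 = U2 * a2 s)
    {Q : Submodule K (Matrix ι δ K)}
    (hL : SLev0.Gens arm J B F P.1 l Q (SLev0.PbK arm J B F R P.1 D ν')
      (SLev0.PbK arm J B F R P.1 D ν))
    {H : Matrix ι δ K} (h : Ctx ℂ arm J B N W H)
    {Pt : Matrix ι ι K × (Fin 3 → Matrix ι ι K)} (hP : Pt ∈ NN arm J N H)
    {Y : Fin 3 → Matrix δ δ K} {d : Derivation ℂ K K} (m : Mv ℂ arm J N W H Pt.1 Y d)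
    {e1 e2 : K} (fr : Fr J F H Pt.1 (Fᵀ * J * (P.1 * F)) e1 e2 U1 U2)
    {X' : Fin 3 → Matrix (Fin m2) (Fin m1) K}
    (hY : ∀ s, ∀ v ∈ W, v * Y s * Hᵀ = v * (U2 * X' s * U1ᵀ + U1 * (X' s)ᵀ * U2ᵀ) * Hᵀ)
    {Γ1 : Matrix (Fin m1) (Fin m1) K} {Γ2 : Matrix (Fin m2) (Fin m2) K}
    {β : Matrix (Fin m1) (Fin m2) K} {γ : Matrix (Fin m2) (Fin m1) K}
    (hN2 : ∀ v ∈ W, v * (U2.map d + ZY arm J H Pt.1 Y * U2) =
      v * (U2 * Γ2 + e2 ^ 2 • (U1 * β)))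
    (hN1 : ∀ v ∈ W, v * (U1.map d + ZY arm J H Pt.1 Y * U1) =
      v * (U1 * Γ1 + e1 ^ 2 • (U2 * γ)))
    {X : Fin 3 → Matrix (Fin m2) (Fin m1) K} {c c' : K}
    (hX : ∀ s, (U2ᵀ * (Fᵀ * J * (P.1 * F)) * U2) * (X s * (a1 s)ᵀ - c • (a2 s * X s)) *
      (U1ᵀ * (Fᵀ * J * (P.1 * F)) * U1) = 0)
    (hX' : ∀ s, (U2ᵀ * (Fᵀ * J * (P.1 * F)) * U2) * (X' s * (a1 s)ᵀ - c' • (a2 s * X' s)) *
      (U1ᵀ * (Fᵀ * J * (P.1 * F)) * U1) = 0) (x y z : K) :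
    ∑ s, F * (U2 * (Γ2 * X s + (X s).map d + X s * (Γ1 - x • (1 : Matrix (Fin m1) (Fin m1) K))ᵀ -
      y • X s + z • X' s) * U1ᵀ) * (Fᵀ * J * (P.1 * F)) * E K arm s ∈ Q := by
  obtain ⟨C1, c1⟩ := exists_CC S b1 hU1 hs1 ha1
  obtain ⟨C2, c2⟩ := exists_CC S b2 hU2 hs2 ha2
  obtain ⟨g1, g2, g3⟩ := gens_fr b1 b2 c1 c2 hL
  have hS0 : Fᵀ * J * (P.1 * F) = Fᵀ * (J * P.1) * F := by simp only [Matrix.mul_assoc]
  exact SL2h560.h21 h hP m fr hY hN2 hN1 (S.hCtx F S.hF).memW (η := J * P.1) hS0 ha1 ha2 g1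
    (fun s r hr y => g2 s r (mem_rad.1 hr) y) (fun s x r hr => g3 s x r (mem_rad.1 hr))
    (fun s => exact_FR S b1 b2 c1 c2 s (hX s)) (fun s => exact_FR S b1 b2 c1 c2 s (hX' s)) x y z

/-- **B4: the 12-part** in the class `Q` of level 1 -/
theorem part12 (S : Setup arm J B N W F f P R D l) (b1 : BPkg arm J B F R P.1 D ν l Q1 A1)
    (b2 : BPkg arm J B F R P.1 D ν' l Q2 A2)
    (hU1 : UFr.Cq (UBlk.Qb (S.hCtx F S.hF).data S.hR P.1 D ν) U1)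
    (hs1 : ∀ u ∈ UBlk.Qb (S.hCtx F S.hF).data S.hR P.1 D ν, ∃ x, u = U1 *ᵥ x)
    (ha1 : ∀ s, B * E K arm s * (Fᵀ * J * (P.1 * F)) * U1 = U1 * a1 s)
    (hU2 : UFr.Cq (UBlk.Qb (S.hCtx F S.hF).data S.hR P.1 D ν') U2)
    (hs2 : ∀ u ∈ UBlk.Qb (S.hCtx F S.hF).data S.hR P.1 D ν', ∃ x, u = U2 *ᵥ x)
    (ha2 : ∀ s, B * E K arm s * (Fᵀ * J * (P.1 * F)) * U2 = U2 * a2 s)
    {Q : Submodule K (Matrix ι δ K)}
    (hL : SLev0.Gens arm J B F P.1 l Q (SLev0.PbK arm J B F R P.1 D ν)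
      (SLev0.PbK arm J B F R P.1 D ν'))
    {X' : Fin 3 → Matrix (Fin m2) (Fin m1) K} {c' : K}
    (hX' : ∀ s, (U2ᵀ * (Fᵀ * J * (P.1 * F)) * U2) * (X' s * (a1 s)ᵀ - c' • (a2 s * X' s)) *
      (U1ᵀ * (Fᵀ * J * (P.1 * F)) * U1) = 0) :
    ∑ s, F * (U1 * (X' s)ᵀ * U2ᵀ) * (Fᵀ * J * (P.1 * F)) * E K arm s ∈ Q := by
  obtain ⟨C1, c1⟩ := exists_CC S b1 hU1 hs1 ha1
  obtain ⟨C2, c2⟩ := exists_CC S b2 hU2 hs2 ha2
  obtain ⟨g1, g2, g3⟩ := gens_fr b2 b1 c2 c1 hL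
  have hS0 : Fᵀ * J * (P.1 * F) = Fᵀ * (J * P.1) * F := by simp only [Matrix.mul_assoc]
  exact SL2h560.h12 (η := J * P.1) hS0 (A1 := a1) (A2 := a2) (l := l) g1
    (fun s r hr y => g2 s r (mem_rad.1 hr) y) (fun s x r hr => g3 s x r (mem_rad.1 hr))
    (fun s => exact_FR S b1 b2 c1 c2 s (hX' s))

end final

end Crest.Agent.R172.SB4560
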