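import Crest.Agent.R172.SL2g560
import Crest.Agent.R172.SL2g182
import Crest.Agent.R172.SQG531
import Crest.Agent.R172.UBlk

/-!
Row 172 (S0260), tame node (t2), level 2, leaf B4, last pieces: the generators in the frames from
`SLev0.Gens`; freeness of one block; exact families are filtered.
-/

set_option autoImplicit false
set_option linter.unusedSectionVars false
set_option linter.unusedFintypeInType false
set_option linter.unusedDecidableInType false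
set_option linter.unusedVariables false
set_option maxHeartbeats 1600000

namespace Crest.Agent.R172.SB4g182

open Matrix Module Crest.Agent.R172.FO Crest.Agent.R172.Qt Crest.Agent.R172.SpS
open Crest.Agent.R172.SEnd2 (PC PhS)
open Crest.Agent.R172.SEnd (Rd)
open Crest.Agent.R172.PL (CoreM)
open Crest.Agent.R172.SL2g560 (FR rad)

section frames

variable {ι : Type*} [Fintype ι] [DecidableEq ι] {δ : Type*} [Fintype δ] [DecidableEq δ]
variable {k K : Type*} [Field k] [Field K] [Algebra k K]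
variable {arm : δ → Fin 3} {J : Matrix ι ι K} {B : Matrix δ δ K}
  {N W : Submodule K (Matrix ι δ K)} {F : Matrix ι δ K} {X0 : Matrix ι ι K}
variable {n n1 n2 : Type*} [Fintype n] [DecidableEq n] [Fintype n1] [DecidableEq n1] [Fintype n2]
  [DecidableEq n2]
variable {S0 : Matrix δ δ K} {U : Matrix δ n K} {a : Fin 3 → Matrix n n K}
  {U1 : Matrix δ n1 K} {U2 : Matrix δ n2 K} {a1 : Fin 3 → Matrix n1 n1 K}
  {a2 : Fin 3 → Matrix n2 n2 K} {Pb Pb1 Pb2 : Submodule K (ι → K)} {l : Fin 3 → ℕ}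

theorem act_pow (hB : ∀ s, E K arm s * B = B * E K arm s) (hS0 : S0 = Fᵀ * (J * X0) * F)
    (ha : ∀ s, B * E K arm s * S0 * U = U * a s) (s : Fin 3) (i : ℕ) (x : n → K) :
    ((M arm B s F F * (J * X0)) ^ i) *ᵥ ((F * U) *ᵥ x) = (F * U) *ᵥ ((a s ^ i) *ᵥ x) := by
  have h1 : ∀ y : n → K, (M arm B s F F * (J * X0)) *ᵥ ((F * U) *ᵥ y) = (F * U) *ᵥ (a s *ᵥ y) := by
    intro y
    rw [mulVec_mulVec, mulVec_mulVec]
    congr 1
    have e1 : M arm B s F F * (J * X0) * (F * U) = F * (E K arm s * B * S0 * U) := by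
      rw [hS0]; unfold M; simp only [Matrix.mul_assoc]
    rw [e1, hB, ha, Matrix.mul_assoc]
  induction i generalizing x with
  | zero => simp
  | succ i ih =>
    rw [pow_succ, pow_succ, ← mulVec_mulVec, h1, ih]
    congr 1
    rw [mulVec_mulVec]

theorem rad_Rd (hS0 : S0 = Fᵀ * (J * X0) * F) (hmem : ∀ x, (F * U) *ᵥ x ∈ Pb)
    (hspan : ∀ v ∈ Pb, ∃ x, v = (F * U) *ᵥ x) (r : n → K) :
    (F * U) *ᵥ r ∈ Rd (J * X0) Pb ↔ r ∈ rad S0 U := by
  have e : ∀ y r : n → K, ((F * U) *ᵥ y) ⬝ᵥ ((J * X0) *ᵥ ((F * U) *ᵥ r)) =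
      y ⬝ᵥ ((Uᵀ * S0 * U) *ᵥ r) := by
    intro y r
    rw [hS0, ← vecMul_transpose, ← dotProduct_mulVec]
    simp only [mulVec_mulVec, Matrix.mul_assoc, transpose_mul]
  constructor
  · intro h
    rw [SL2g560.mem_rad]
    funext j
    have h1 := h.2 _ (hmem (Pi.single j 1))
    rw [e, single_one_dotProduct] at h1
    exact h1
  · intro h
    rw [SL2g560.mem_rad] at h
    refine ⟨hmem r, fun b hb => ?_⟩
    obtain ⟨y, rfl⟩ := hspan b hb
    rw [e, h, dotProduct_zero]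

/-- **the generators in the frames** -/
theorem gens (hB : ∀ s, E K arm s * B = B * E K arm s) (hS0 : S0 = Fᵀ * (J * X0) * F)
    (ha1 : ∀ s, B * E K arm s * S0 * U1 = U1 * a1 s)
    (ha2 : ∀ s, B * E K arm s * S0 * U2 = U2 * a2 s)
    (hmem1 : ∀ x, (F * U1) *ᵥ x ∈ Pb1) (hspan1 : ∀ v ∈ Pb1, ∃ x, v = (F * U1) *ᵥ x)
    (hmem2 : ∀ x, (F * U2) *ᵥ x ∈ Pb2) (hspan2 : ∀ v ∈ Pb2, ∃ x, v = (F * U2) *ᵥ x)
    {Q : Submodule K (Matrix ι δ K)} (hG : SLev0.Gens arm J B F X0 l Q Pb2 Pb1) :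
    (∀ s i j, i + j + 1 = l s → ∀ x y, vecMulVec ((F * U2) *ᵥ ((a2 s ^ i) *ᵥ x))
      ((F * U1) *ᵥ ((a1 s ^ j) *ᵥ y)) * (J * X0) * F * E K arm s ∈ Q) ∧
    (∀ s, ∀ r ∈ rad S0 U2, ∀ y,
      vecMulVec ((F * U2) *ᵥ r) ((F * U1) *ᵥ y) * (J * X0) * F * E K arm s ∈ Q) ∧
    (∀ s x, ∀ r ∈ rad S0 U1,
      vecMulVec ((F * U2) *ᵥ x) ((F * U1) *ᵥ r) * (J * X0) * F * E K arm s ∈ Q) := by
  refine ⟨fun s i j hij x y => ?_, fun s r hr y => ?_, fun s x r hr => ?_⟩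
  · rw [← act_pow hB hS0 ha2, ← act_pow hB hS0 ha1]
    exact hG.g1 s i j hij _ (hmem2 x) _ (hmem1 y)
  · exact hG.g2 s _ ((rad_Rd hS0 hmem2 hspan2 r).2 hr) _ (hmem1 y)
  · exact hG.g3 s _ (hmem2 x) _ ((rad_Rd hS0 hmem1 hspan1 r).2 hr)

/-- `FR` is `Gn` -/
theorem Gn_FR {A : Matrix n1 n1 K} {B' : Matrix n2 n2 K} {R1 : Submodule K (n1 → K)}
    {R2 : Submodule K (n2 → K)} {m : ℕ} : SL2g.Gn A B' R1 R2 m ≤ FR B' A R2 R1 m := by
  refine Submodule.span_le.2 ?_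
  rintro X (⟨i, j, y, z, hij, rfl⟩ | ⟨r, hr, z, rfl⟩ | ⟨y, r, hr, rfl⟩)
  · exact Submodule.subset_span (Or.inl ⟨i, j, y, z, hij, rfl⟩)
  · exact Submodule.subset_span (Or.inr (Or.inl ⟨r, hr, z, rfl⟩))
  · exact Submodule.subset_span (Or.inr (Or.inr ⟨y, r, hr, rfl⟩))

/-- the orthogonal of the kernel of a skew matrix is the range -/
theorem perp_ker {G : Matrix n n K} (hG : Gᵀ = -G) {φ : n → K}
    (h : ∀ r, G *ᵥ r = 0 → φ ⬝ᵥ r = 0) : ∃ y, φ = G *ᵥ y := by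
  let Fd : Dual K (n → K) :=
    { toFun := fun y => φ ⬝ᵥ y
      map_add' := fun a b => dotProduct_add _ _ _
      map_smul' := fun a b => dotProduct_smul _ _ _ }
  have hF : Fd ∈ LinearMap.range G.mulVecLin.dualMap := by
    rw [LinearMap.range_dualMap_eq_dualAnnihilator_ker, Submodule.mem_dualAnnihilator]
    intro y hy
    exact h y hy
  obtain ⟨g, hg⟩ := hF
  refine ⟨-(fun i => g (Pi.single i 1)), ?_⟩
  funext j
  have e2 := LinearMap.congr_fun hg (Pi.single j 1)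
  change g (G *ᵥ Pi.single j 1) = φ ⬝ᵥ Pi.single j 1 at e2
  rw [dotProduct_single_one] at e2
  have e3 : G *ᵥ (-(fun i => g (Pi.single i 1))) = Gᵀ *ᵥ (fun i => g (Pi.single i 1)) := by
    rw [hG, mulVec_neg, neg_mulVec]
  rw [← e2, e3, mulVec, dotProduct, mulVec_single_one]
  conv_lhs => rw [← Finset.univ_sum_single (G.col j), map_sum]
  refine Finset.sum_congr rfl fun i _ => ?_
  have : Pi.single i (G.col j i) = G.col j i • (Pi.single i (1 : K) : n → K) := by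
    rw [← Pi.single_smul', smul_eq_mul, mul_one]
  rw [this, map_smul, smul_eq_mul]
  rfl

theorem adj_frame (hsk : S0ᵀ = -S0) (hBs : Bᵀ = B) (hB : ∀ s, E K arm s * B = B * E K arm s)
    (ha : ∀ s, B * E K arm s * S0 * U = U * a s) (s : Fin 3) :
    (Uᵀ * S0 * U) * a s = -((a s)ᵀ * (Uᵀ * S0 * U)) := by
  have e3 := congrArg transpose (ha s)
  rw [transpose_mul, transpose_mul, transpose_mul, E_transpose, hBs, hsk, transpose_mul] at e3
  calc Uᵀ * S0 * U * a s = Uᵀ * S0 * (U * a s) := by rw [Matrix.mul_assoc]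
    _ = Uᵀ * S0 * (B * E K arm s * S0 * U) := by rw [ha]
    _ = -((Uᵀ * (-S0 * (E K arm s * B))) * (S0 * U)) := by
        rw [hB]; simp only [Matrix.mul_assoc, Matrix.neg_mul, Matrix.mul_neg, neg_neg]
    _ = _ := by rw [e3]; simp only [Matrix.mul_assoc]

/-- **exact families are filtered** (the arm condition of `SDec.Dec`). -/
theorem exact_FR (hsk : S0ᵀ = -S0) {A1 : Matrix n1 n1 K} {A2 : Matrix n2 n2 K} {m : ℕ}
    (hR1 : ∀ r ∈ rad S0 U1, A1 *ᵥ r ∈ rad S0 U1) (hR2 : ∀ r ∈ rad S0 U2, A2 *ᵥ r ∈ rad S0 U2)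
    (hl2 : ∀ y, (A2 ^ m) *ᵥ y ∈ rad S0 U2)
    (hf1 : ∀ v ≤ m, ∀ y, (A1 ^ (m - v)) *ᵥ y ∈ rad S0 U1 → ∃ y', y - (A1 ^ v) *ᵥ y' ∈ rad S0 U1)
    {c : K} {X : Matrix n2 n1 K}
    (hX : (U2ᵀ * S0 * U2) * (X * A1ᵀ - c • (A2 * X)) * (U1ᵀ * S0 * U1) = 0) :
    X ∈ FR A2 A1 (rad S0 U2) (rad S0 U1) m := by
  refine Gn_FR (SL2g.exact_mem hR1 hR2 hl2 hf1 (c := -c) fun φ hφ => ?_)
  obtain ⟨y, rfl⟩ := perp_ker (G := U1ᵀ * S0 * U1) (by
    rw [transpose_mul, transpose_mul, transpose_transpose, hsk, Matrix.neg_mul, Matrix.mul_neg,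
      ← Matrix.mul_assoc]) (fun r hr => hφ r (SL2g560.mem_rad.2 hr))
  rw [SL2g560.mem_rad, neg_smul, ← sub_eq_add_neg, mulVec_mulVec, mulVec_mulVec,
    hX, zero_mulVec]

end frames

section setup

variable {ι : Type} [Fintype ι] [DecidableEq ι] {δ : Type} [Fintype δ] [DecidableEq δ]
variable {K : Type} [Field K] [Algebra ℂ K] [IsAlgClosed K]
variable {arm : δ → Fin 3} {J : Matrix ι ι K} {B : Matrix δ δ K}
  {N W : Submodule K (Matrix ι δ K)} {F f : Matrix ι δ K}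
  {P : Matrix ι ι K × (Fin 3 → Matrix ι ι K)} {R : Matrix δ ι K}
  {D : End K (CoreM (PhS arm J B F R P.1))} {l : Fin 3 → ℕ}

/-- `F Q_ν ⊂ P_ν` -/
theorem Qb_mem (S : STop.Setup arm J B N W F f P R D l) {ν : K} {u : δ → K}
    (hu : u ∈ UBlk.Qb (S.hCtx F S.hF).data S.hR P.1 D ν) :
    F *ᵥ u ∈ SLev0.PbK arm J B F R P.1 D ν := by
  have h1 : gS F u ∈ (UBlk.Qb (S.hCtx F S.hF).data S.hR P.1 D ν).map (gS F) := ⟨u, hu, rfl⟩
  rw [UBlk.Qb_map (S.hCtx F S.hF) S.hR S.hD] at h1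
  exact ⟨_, h1, rfl⟩

/-- `P_ν ⊂ F Q_ν` -/
theorem Qb_surj (S : STop.Setup arm J B N W F f P R D l) {ν : K} {v : ι → K}
    (hv : v ∈ SLev0.PbK arm J B F R P.1 D ν) :
    ∃ u ∈ UBlk.Qb (S.hCtx F S.hF).data S.hR P.1 D ν, v = F *ᵥ u := by
  obtain ⟨w, hw, rfl⟩ := hv
  have hw' : w ∈ (UBlk.Qb (S.hCtx F S.hF).data S.hR P.1 D ν).map (gS F) := by
    rw [UBlk.Qb_map (S.hCtx F S.hF) S.hR S.hD]; exact hw
  obtain ⟨u, hu, rfl⟩ := hw'
  exact ⟨u, hu, rfl⟩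

/-- the operators preserve the blocks -/
theorem pbk_stable (S : STop.Setup arm J B N W F f P R D l) {ν : K} (s : Fin 3) {v : ι → K}
    (hv : v ∈ SLev0.PbK arm J B F R P.1 D ν) :
    (M arm B s F F * (J * P.1)) *ᵥ v ∈ SLev0.PbK arm J B F R P.1 D ν := by
  obtain ⟨v, hv, rfl⟩ := hv
  exact ⟨_, SC.PB_stable (fun s x => S.hD.2 s x) ν s hv, SEnd2.PhS_coe S.hR P.1 s v⟩

theorem pbk_pow (S : STop.Setup arm J B N W F f P R D l) {ν : K} (s : Fin 3) (i : ℕ) {v : ι → K}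
    (hv : v ∈ SLev0.PbK arm J B F R P.1 D ν) :
    ((M arm B s F F * (J * P.1)) ^ i) *ᵥ v ∈ SLev0.PbK arm J B F R P.1 D ν := by
  induction i generalizing v with
  | zero => rwa [pow_zero, one_mulVec]
  | succ i ih => rw [pow_succ, ← mulVec_mulVec]; exact ih (pbk_stable S s hv)

/-- different blocks are orthogonal -/
theorem pbk_orth (S : STop.Setup arm J B N W F f P R D l) {ν ν' : K} (hne : ν ≠ ν') {v v' : ι → K}
    (hv : v ∈ SLev0.PbK arm J B F R P.1 D ν) (hv' : v' ∈ SLev0.PbK arm J B F R P.1 D ν') :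
    v ⬝ᵥ ((J * P.1) *ᵥ v') = 0 := by
  obtain ⟨u, hu, rfl⟩ := Qb_surj S hv
  obtain ⟨u', hu', rfl⟩ := Qb_surj S hv'
  have h1 := UBlk.Qb_orth (S.hCtx F S.hF) S.hR S.hD (S.hNil F S.hF) S.hP S.hf.1 hne hu hu'
  rw [← h1, ← vecMul_transpose, ← dotProduct_mulVec]
  simp only [mulVec_mulVec, Matrix.mul_assoc]

/-- **freeness of one block** -/
theorem free_pbk (S : STop.Setup arm J B N W F f P R D l) (ν : K) (s : Fin 3) :
    (∀ c ∈ SLev0.PbK arm J B F R P.1 D ν, ((M arm B s F F * (J * P.1)) ^ l s) *ᵥ c ∈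
      Rd (J * P.1) (SLev0.PbK arm J B F R P.1 D ν)) ∧
    ∀ v ≤ l s, ∀ c ∈ SLev0.PbK arm J B F R P.1 D ν,
      ((M arm B s F F * (J * P.1)) ^ (l s - v)) *ᵥ c ∈
        Rd (J * P.1) (SLev0.PbK arm J B F R P.1 D ν) →
      ∃ c' ∈ SLev0.PbK arm J B F R P.1 D ν, c - ((M arm B s F F * (J * P.1)) ^ v) *ᵥ c' ∈
        Rd (J * P.1) (SLev0.PbK arm J B F R P.1 D ν) := by
  have hsup := SQG.iSup_PbK S
  have hle : ∀ ν : K, SLev0.PbK arm J B F R P.1 D ν ≤ PC arm J B F R P.1 := fun ν => by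
    rw [hsup]; exact le_iSup (fun ν : K => SLev0.PbK arm J B F R P.1 D ν) ν
  refine ⟨fun c hc => ⟨pbk_pow S s _ hc, fun b hb => ?_⟩, fun v hv c hc hr => ?_⟩
  · exact ((S.free s).1 c (hle ν hc)).2 b (hle ν hb)
  · -- the radical of the block lies in the radical
    have hr' : ((M arm B s F F * (J * P.1)) ^ (l s - v)) *ᵥ c ∈
        Rd (J * P.1) (PC arm J B F R P.1) := by
      refine ⟨hle ν hr.1, fun b hb => ?_⟩
      rw [hsup] at hb
      induction hb using Submodule.iSup_induction' with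
      | mem μ b hb =>
        by_cases h : μ = ν
        · subst h; exact hr.2 b hb
        · exact pbk_orth S h hb hr.1
      | zero => rw [zero_dotProduct]
      | add x y _ _ hx hy => rw [add_dotProduct, hx, hy, add_zero]
    obtain ⟨c', hc', h1⟩ := (S.free s).2 v hv c (hle ν hc) hr'
    -- project `c'` to the block
    have hproj : ∀ c' ∈ PC arm J B F R P.1, ∃ c1 ∈ SLev0.PbK arm J B F R P.1 D ν,
        ∀ b ∈ SLev0.PbK arm J B F R P.1 D ν,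
          b ⬝ᵥ ((J * P.1) *ᵥ (((M arm B s F F * (J * P.1)) ^ v) *ᵥ c')) =
            b ⬝ᵥ ((J * P.1) *ᵥ (((M arm B s F F * (J * P.1)) ^ v) *ᵥ c1)) := by
      intro c' hc'
      rw [hsup] at hc'
      induction hc' using Submodule.iSup_induction' with
      | mem μ x hx =>
        by_cases h : μ = ν
        · subst h; exact ⟨x, hx, fun b _ => rfl⟩
        · refine ⟨0, Submodule.zero_mem _, fun b hb => ?_⟩
          rw [pbk_orth S (Ne.symm h) hb (pbk_pow S s v hx), mulVec_zero, mulVec_zero,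
            dotProduct_zero]
      | zero => exact ⟨0, Submodule.zero_mem _, fun b _ => rfl⟩
      | add x y _ _ hx hy =>
        obtain ⟨x1, hx1, hx2⟩ := hx
        obtain ⟨y1, hy1, hy2⟩ := hy
        refine ⟨x1 + y1, Submodule.add_mem _ hx1 hy1, fun b hb => ?_⟩
        simp only [mulVec_add, dotProduct_add]
        rw [hx2 b hb, hy2 b hb]
    obtain ⟨c1, hc1, h2⟩ := hproj c' hc'
    refine ⟨c1, hc1, Submodule.sub_mem _ hc (pbk_pow S s v hc1), fun b hb => ?_⟩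
    have h3 := h1.2 b (hle ν hb)
    rw [mulVec_sub, dotProduct_sub] at h3 ⊢
    rw [← h2 b hb]; exact h3

variable {n : Type} [Fintype n] [DecidableEq n] {U : Matrix δ n K}
  {a : Fin 3 → Matrix n n K} {ν : K}

/-- **freeness of one block in a frame** -/
theorem free_frame (S : STop.Setup arm J B N W F f P R D l)
    (hmem : ∀ x, U *ᵥ x ∈ UBlk.Qb (S.hCtx F S.hF).data S.hR P.1 D ν)
    (hspan : ∀ u ∈ UBlk.Qb (S.hCtx F S.hF).data S.hR P.1 D ν, ∃ x, u = U *ᵥ x)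
    (ha : ∀ s, B * E K arm s * (Fᵀ * J * (P.1 * F)) * U = U * a s) (s : Fin 3) :
    (∀ r ∈ rad (Fᵀ * J * (P.1 * F)) U, a s *ᵥ r ∈ rad (Fᵀ * J * (P.1 * F)) U) ∧
    (∀ y, (a s ^ l s) *ᵥ y ∈ rad (Fᵀ * J * (P.1 * F)) U) ∧
    ∀ v ≤ l s, ∀ y, (a s ^ (l s - v)) *ᵥ y ∈ rad (Fᵀ * J * (P.1 * F)) U →
      ∃ y', y - (a s ^ v) *ᵥ y' ∈ rad (Fᵀ * J * (P.1 * F)) U := by
  have hS0 : Fᵀ * J * (P.1 * F) = Fᵀ * (J * P.1) * F := by simp only [Matrix.mul_assoc]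
  have hB := (S.hCtx F S.hF).data.B_arm
  have hmem' : ∀ x, (F * U) *ᵥ x ∈ SLev0.PbK arm J B F R P.1 D ν := fun x => by
    rw [← mulVec_mulVec]; exact Qb_mem S (hmem x)
  have hspan' : ∀ v ∈ SLev0.PbK arm J B F R P.1 D ν, ∃ x, v = (F * U) *ᵥ x := fun v hv => by
    obtain ⟨u, hu, rfl⟩ := Qb_surj S hv
    obtain ⟨x, rfl⟩ := hspan u hu
    exact ⟨x, by rw [mulVec_mulVec]⟩
  have hrd := rad_Rd hS0 hmem' hspan'
  obtain ⟨h1, h2⟩ := free_pbk S ν s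
  refine ⟨fun r hr => ?_, fun y => ?_, fun v hv y hy => ?_⟩
  · rw [← hrd]
    have e1 := act_pow hB hS0 ha s 1 r
    rw [pow_one, pow_one] at e1
    rw [← e1]
    refine ⟨pbk_stable S s (hmem' r), fun b hb => ?_⟩
    have h3 := ((hrd r).2 hr).2 _ (pbk_stable S s hb)
    obtain ⟨y, rfl⟩ := hspan' b hb
    have e2 := act_pow hB hS0 ha s 1 y
    rw [pow_one, pow_one] at e2
    rw [e2] at h3
    -- in coordinates: `G a r = -aᵀ G r`
    have hadj := adj_frame (UBlk.form_skew (g := F) (S.hCtx F S.hF).data.J_symm S.hP)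
      (S.hCtx F S.hF).data.B_symm hB ha s
    have e4 : ∀ y r : n → K, ((F * U) *ᵥ y) ⬝ᵥ ((J * P.1) *ᵥ ((F * U) *ᵥ r)) =
        y ⬝ᵥ ((Uᵀ * (Fᵀ * J * (P.1 * F)) * U) *ᵥ r) := by
      intro y r
      rw [← vecMul_transpose, ← dotProduct_mulVec]
      simp only [mulVec_mulVec, Matrix.mul_assoc, transpose_mul]
    rw [e1, e4, mulVec_mulVec, hadj, neg_mulVec, ← mulVec_mulVec,
      SL2g560.mem_rad.1 hr, mulVec_zero, neg_zero, dotProduct_zero]
  · rw [← hrd, ← act_pow hB hS0 ha]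
    exact h1 _ (hmem' y)
  · rw [← hrd, ← act_pow hB hS0 ha] at hy
    obtain ⟨c', hc', h3⟩ := h2 v hv _ (hmem' y) hy
    obtain ⟨y', rfl⟩ := hspan' c' hc'
    refine ⟨y', ?_⟩
    rw [← hrd, mulVec_sub, ← act_pow hB hS0 ha]
    exact h3

end setup

end Crest.Agent.R172.SB4g182
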