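import Crest.Agent.R172.SL2g560
import Crest.Agent.R172.SL2g182
import Crest.Agent.R172.SInst
import Crest.Agent.R172.SLev0

/-!
Row 172 (S0260), (t2), level 2, leaf B4 of `SDec.Geo2` in frame letters: the 21- and 12-parts of the
second derivative lie in every submodule which contains the generators of the pair of blocks.
-/

set_option autoImplicit false
set_option linter.unusedSectionVars false
set_option linter.unusedFintypeInType false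
set_option linter.unusedDecidableInType false
set_option linter.unusedVariables false

namespace Crest.Agent.R172.SB4x

open Matrix Module Crest.Agent.R172.FO Crest.Agent.R172.Qt Crest.Agent.R172.SpS
open Crest.Agent.R172.SBlk Crest.Agent.R172.UBlk Crest.Agent.R172.STop Crest.Agent.R172.SEnd
open Crest.Agent.R172.SEnd2 Crest.Agent.R172.SCM
open Crest.Agent.R172.Om (Kiso)
open Crest.Agent.R172.PL (CoreM Ainf)
open Crest.Agent.R172.SC (PB iSup_PB PB_le_Ainf)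
open Crest.Agent.R172.SUX (th ZY wd Mv Fr)
open Crest.Agent.R172.SInst (ctx QQb)
open Crest.Agent.R172.SL2g (Gn Gn_gen Gn_left Gn_right exact_mem)
open Crest.Agent.R172.SL2g560 (FR rad mem_rad)

section free

variable {ι : Type} [Fintype ι] [DecidableEq ι] {δ : Type} [Fintype δ] [DecidableEq δ]
variable {K : Type} [Field K] [Algebra ℂ K]
variable {arm : δ → Fin 3} {J : Matrix ι ι K} {B : Matrix δ δ K} {N W : Submodule K (Matrix ι δ K)}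
  {F f : Matrix ι δ K} {P : Matrix ι ι K × (Fin 3 → Matrix ι ι K)} {R : Matrix δ ι K}
  {D : End K (CoreM (PhS arm J B F R P.1))} {l : Fin 3 → ℕ}

theorem dot_T {α β : Type*} [Fintype α] [Fintype β] (A : Matrix α β K) (x : β → K) (y : α → K) :
    (A *ᵥ x) ⬝ᵥ y = x ⬝ᵥ (Aᵀ *ᵥ y) := by
  rw [dotProduct_mulVec, vecMul_transpose]

/-- `Φ` is skew adjoint -/
theorem adj (S : Setup arm J B N W F f P R D l) (s : Fin 3) (a w : ι → K) :
    a ⬝ᵥ ((J * P.1) *ᵥ ((M arm B s F F * (J * P.1)) *ᵥ w)) =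
      -(((M arm B s F F * (J * P.1)) *ᵥ a) ⬝ᵥ ((J * P.1) *ᵥ w)) := by
  have hD := (ctx S).data
  have hX : Skw J P.1 := S.hP.1
  have h1 : (J * P.1)ᵀ = -(J * P.1) := by rw [transpose_mul, hD.J_symm, hX.eq]
  have h2 : (M arm B s F F)ᵀ = M arm B s F F := by
    unfold M
    rw [transpose_mul, transpose_mul, transpose_mul, transpose_transpose, E_transpose, hD.B_symm,
      ← Matrix.mul_assoc, ← Matrix.mul_assoc, Matrix.mul_assoc F B, ← hD.B_arm]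
    simp only [Matrix.mul_assoc]
  rw [dot_T, transpose_mul, h1, h2, mulVec_mulVec, mulVec_mulVec, Matrix.neg_mul, Matrix.neg_mul,
    neg_mulVec, dotProduct_neg, neg_neg]
  congr 2
  simp only [Matrix.mul_assoc]

theorem adj_pow (S : Setup arm J B N W F f P R D l) (s : Fin 3) (v : ℕ) (a w : ι → K) :
    a ⬝ᵥ ((J * P.1) *ᵥ (((M arm B s F F * (J * P.1)) ^ v) *ᵥ w)) =
      (-1) ^ v * ((((M arm B s F F * (J * P.1)) ^ v) *ᵥ a) ⬝ᵥ ((J * P.1) *ᵥ w)) := by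
  have h := adj S s
  obtain ⟨Φ, hΦ⟩ : ∃ Φ, Φ = M arm B s F F * (J * P.1) := ⟨_, rfl⟩
  obtain ⟨η, hη⟩ : ∃ η, η = J * P.1 := ⟨_, rfl⟩
  rw [← hΦ, ← hη] at h ⊢
  induction v generalizing a with
  | zero => simp
  | succ v ih =>
    have e1 : (Φ ^ (v + 1)) *ᵥ w = Φ *ᵥ ((Φ ^ v) *ᵥ w) := by
      rw [mulVec_mulVec, ← pow_succ']
    have e2 : (Φ ^ (v + 1)) *ᵥ a = (Φ ^ v) *ᵥ (Φ *ᵥ a) := by
      rw [mulVec_mulVec, ← pow_succ]
    rw [e1, e2, h, ih, pow_succ (-1 : K)]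
    ring

/-- **freeness of one block modulo its radical** -/
theorem block_free [IsAlgClosed K] (S : Setup arm J B N W F f P R D l) {ν : K} {n : ℕ}
    {Q : Matrix ι (Fin n) K} {A : Fin 3 → Matrix (Fin n) (Fin n) K}
    (b : BPkg arm J B F R P.1 D ν l Q A) (s : Fin 3) {v : ℕ} (hv : v ≤ l s) {x : Fin n → K}
    (hx : (Qᵀ * (J * P.1) * Q) *ᵥ ((A s ^ (l s - v)) *ᵥ x) = 0) :
    ∃ x', (Qᵀ * (J * P.1) * Q) *ᵥ (x - (A s ^ v) *ᵥ x') = 0 := by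
  have hD := (ctx S).data
  have hX : Skw J P.1 := S.hP.1
  have hPC : ∀ y, Q *ᵥ y ∈ PC arm J B F R P.1 := by
    intro y
    obtain ⟨v', hv', e⟩ := b.mem y
    rw [← e]
    exact coe_mem_PC.2 (PB_le_Ainf ν hv')
  have hrd : ∀ y, (Qᵀ * (J * P.1) * Q) *ᵥ y = 0 → Q *ᵥ y ∈ Rd (J * P.1) (PC arm J B F R P.1) := by
    intro y hy
    obtain ⟨v', hv', e⟩ := b.mem y
    have h1 := (b.rad y v' e).2 hy
    rw [← e]
    exact (mem_Rd_PC (k := ℂ) (N := N) (W := W) hD S.hR hX (PB_le_Ainf ν hv')).2 h1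
  obtain ⟨c', hc', hcc⟩ := (S.free s).2 v hv (Q *ᵥ x) (hPC x) (by
    rw [SLev0.pow_act b]; exact hrd _ hx)
  -- decomposition of `c'`
  have hdec : ∃ x', ∀ y, (Q *ᵥ y) ⬝ᵥ ((J * P.1) *ᵥ (c' - Q *ᵥ x')) = 0 := by
    obtain ⟨w, hw, rfl⟩ := hc'
    have hw' : w ∈ ⨆ μ, PB (PhS arm J B F R P.1) D μ := by
      rw [iSup_PB S.hD.2 (Module.End.iSup_maxGenEigenspace_eq_top D)]
      exact hw
    refine Submodule.iSup_induction (p := fun μ => PB (PhS arm J B F R P.1) D μ)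
      (motive := fun w => ∃ x', ∀ y, (Q *ᵥ y) ⬝ᵥ ((J * P.1) *ᵥ ((w : ι → K) - Q *ᵥ x')) = 0)
      hw' ?_ ?_ ?_
    · intro μ w hw
      by_cases hμ : μ = ν
      · subst hμ
        obtain ⟨x', hx'⟩ := b.span w hw
        exact ⟨x', fun y => by rw [hx', sub_self, mulVec_zero, dotProduct_zero]⟩
      · refine ⟨0, fun y => ?_⟩
        obtain ⟨v', hv', e⟩ := b.mem y
        rw [mulVec_zero, sub_zero, ← e]
        exact orth (k := ℂ) (N := N) (W := W) hD S.hR hX S.hDB (Ne.symm hμ) hv' hw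
    · exact ⟨0, fun y => by rw [mulVec_zero, sub_zero, Submodule.coe_zero, mulVec_zero,
        dotProduct_zero]⟩
    · rintro a a' ⟨x1, h1⟩ ⟨x2, h2⟩
      refine ⟨x1 + x2, fun y => ?_⟩
      have e : ((a : ι → K) + (a' : ι → K)) - Q *ᵥ (x1 + x2) =
          ((a : ι → K) - Q *ᵥ x1) + ((a' : ι → K) - Q *ᵥ x2) := by
        rw [mulVec_add]; abel
      rw [Submodule.coe_add, e, mulVec_add, dotProduct_add, h1, h2, add_zero]
  obtain ⟨x', hx'⟩ := hdec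
  refine ⟨x', ?_⟩
  have key : ∀ y, y ⬝ᵥ ((Qᵀ * (J * P.1) * Q) *ᵥ (x - (A s ^ v) *ᵥ x')) = 0 := by
    intro y
    have e1 : y ⬝ᵥ ((Qᵀ * (J * P.1) * Q) *ᵥ (x - (A s ^ v) *ᵥ x')) =
        (Q *ᵥ y) ⬝ᵥ ((J * P.1) *ᵥ (Q *ᵥ x - Q *ᵥ ((A s ^ v) *ᵥ x'))) := by
      rw [dot_T, ← mulVec_sub, mulVec_mulVec, mulVec_mulVec]
    have e2 : Q *ᵥ x - Q *ᵥ ((A s ^ v) *ᵥ x') =
        (Q *ᵥ x - ((M arm B s F F * (J * P.1)) ^ v) *ᵥ c') +
          ((M arm B s F F * (J * P.1)) ^ v) *ᵥ (c' - Q *ᵥ x') := by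
      rw [mulVec_sub, SLev0.pow_act b]; abel
    have h1 : (Q *ᵥ y) ⬝ᵥ ((J * P.1) *ᵥ
        (Q *ᵥ x - ((M arm B s F F * (J * P.1)) ^ v) *ᵥ c')) = 0 := hcc.2 _ (hPC y)
    rw [e1, e2, mulVec_add, dotProduct_add, h1, adj_pow S, SLev0.pow_act b, hx', mul_zero,
      add_zero]
  funext i
  have := key (Pi.single i 1)
  rwa [single_one_dotProduct] at this

end free

section frame

variable {ι : Type} [Fintype ι] [DecidableEq ι] {δ : Type} [Fintype δ] [DecidableEq δ]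
variable {K : Type} [Field K] [Algebra ℂ K]
variable {arm : δ → Fin 3} {J : Matrix ι ι K} {B : Matrix δ δ K} {N W : Submodule K (Matrix ι δ K)}
  {F f : Matrix ι δ K} {P : Matrix ι ι K × (Fin 3 → Matrix ι ι K)} {R : Matrix δ ι K}
  {D : End K (CoreM (PhS arm J B F R P.1))} {l : Fin 3 → ℕ}

/-- a frame of the U-level block over the coordinates of `BPkg` (output of `SInst.exists_C`) -/
structure FU (J : Matrix ι ι K) (F : Matrix ι δ K) (X : Matrix ι ι K) {n m : ℕ}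
    (Q : Matrix ι (Fin n) K) (A : Fin 3 → Matrix (Fin n) (Fin n) K) (U : Matrix δ (Fin m) K)
    (a : Fin 3 → Matrix (Fin m) (Fin m) K) (C : Matrix (Fin n) (Fin m) K) : Prop where
  gU : F * U = Q * C
  onto : ∀ y, ∃ x, C *ᵥ x = y
  act : ∀ s, A s * C = C * a s
  gram : Cᵀ * (Qᵀ * (J * X) * Q) * C = Uᵀ * (Fᵀ * J * (X * F)) * U

variable {n m : ℕ} {Q : Matrix ι (Fin n) K} {A : Fin 3 → Matrix (Fin n) (Fin n) K}
  {U : Matrix δ (Fin m) K} {a : Fin 3 → Matrix (Fin m) (Fin m) K} {C : Matrix (Fin n) (Fin m) K}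
  {X : Matrix ι ι K}

theorem FU.mem (c : FU J F X Q A U a C) {x : Fin m → K} :
    x ∈ rad (Fᵀ * J * (X * F)) U ↔ (Qᵀ * (J * X) * Q) *ᵥ (C *ᵥ x) = 0 := by
  rw [mem_rad, ← c.gram]
  constructor
  · intro h
    have h1 : Cᵀ *ᵥ ((Qᵀ * (J * X) * Q) *ᵥ (C *ᵥ x)) = 0 := by
      rw [mulVec_mulVec, mulVec_mulVec]
      simpa only [Matrix.mul_assoc] using h
    funext i
    obtain ⟨y, hy⟩ := c.onto (Pi.single i 1)
    have h2 : (C *ᵥ y) ⬝ᵥ ((Qᵀ * (J * X) * Q) *ᵥ (C *ᵥ x)) = 0 := by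
      rw [dot_T, h1, dotProduct_zero]
    rwa [hy, single_one_dotProduct] at h2
  · intro h
    have e : (Cᵀ * (Qᵀ * (J * X) * Q) * C) *ᵥ x = Cᵀ *ᵥ ((Qᵀ * (J * X) * Q) *ᵥ (C *ᵥ x)) := by
      simp only [mulVec_mulVec, Matrix.mul_assoc]
    rw [e, h, mulVec_zero]

theorem FU.pow (c : FU J F X Q A U a C) (s : Fin 3) (i : ℕ) (x : Fin m → K) :
    C *ᵥ ((a s ^ i) *ᵥ x) = (A s ^ i) *ᵥ (C *ᵥ x) := by
  induction i generalizing x with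
  | zero => simp
  | succ i ih =>
    have e1 : (a s ^ (i + 1)) *ᵥ x = (a s ^ i) *ᵥ (a s *ᵥ x) := by
      rw [mulVec_mulVec, ← pow_succ]
    have e2 : (A s ^ (i + 1)) *ᵥ (C *ᵥ x) = (A s ^ i) *ᵥ (A s *ᵥ (C *ᵥ x)) := by
      rw [mulVec_mulVec (C *ᵥ x), ← pow_succ]
    have e3 : C *ᵥ (a s *ᵥ x) = A s *ᵥ (C *ᵥ x) := by
      rw [mulVec_mulVec, mulVec_mulVec, c.act]
    rw [e1, e2, ih, e3]

theorem FU.st {ν : K} (c : FU J F P.1 Q A U a C) (b : BPkg arm J B F R P.1 D ν l Q A) (s : Fin 3)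
    {x : Fin m → K} (hx : x ∈ rad (Fᵀ * J * (P.1 * F)) U) :
    a s *ᵥ x ∈ rad (Fᵀ * J * (P.1 * F)) U := by
  rw [c.mem] at hx ⊢
  have h1 := b.blk.st s _ (LinearMap.mem_ker.2 (by rw [mulVecLin_apply]; exact hx))
  rw [LinearMap.mem_ker, mulVecLin_apply, mulVecLin_apply] at h1
  have e3 : C *ᵥ (a s *ᵥ x) = A s *ᵥ (C *ᵥ x) := by
    rw [mulVec_mulVec, mulVec_mulVec, c.act]
  rw [e3]
  exact h1

theorem FU.pw {ν : K} (c : FU J F P.1 Q A U a C) (b : BPkg arm J B F R P.1 D ν l Q A) (s : Fin 3)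
    (x : Fin m → K) : (a s ^ l s) *ᵥ x ∈ rad (Fᵀ * J * (P.1 * F)) U := by
  rw [c.mem, c.pow]
  have h1 := b.blk.pow s (C *ᵥ x)
  rw [LinearMap.mem_ker, mulVecLin_apply, mulVecLin_pow_apply] at h1
  exact h1

theorem FU.free [IsAlgClosed K] (S : Setup arm J B N W F f P R D l) {ν : K}
    (c : FU J F P.1 Q A U a C) (b : BPkg arm J B F R P.1 D ν l Q A) (s : Fin 3) {v : ℕ}
    (hv : v ≤ l s) {x : Fin m → K}
    (hx : (a s ^ (l s - v)) *ᵥ x ∈ rad (Fᵀ * J * (P.1 * F)) U) :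
    ∃ x', x - (a s ^ v) *ᵥ x' ∈ rad (Fᵀ * J * (P.1 * F)) U := by
  rw [c.mem, c.pow] at hx
  obtain ⟨z, hz⟩ := block_free S b s hv hx
  obtain ⟨x', rfl⟩ := c.onto z
  refine ⟨x', ?_⟩
  rw [c.mem, mulVec_sub, c.pow]
  exact hz

/-- the annihilator of the kernel of a skew matrix is its range -/
theorem skew_range {G : Matrix (Fin m) (Fin m) K} (hG : Gᵀ = -G) {φ : Fin m → K}
    (h : ∀ r, G *ᵥ r = 0 → φ ⬝ᵥ r = 0) : ∃ ψ, φ = G *ᵥ ψ := by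
  by_contra hcon
  have hnot : φ ∉ LinearMap.range G.mulVecLin := by
    rintro ⟨ψ, hψ⟩
    exact hcon ⟨ψ, hψ.symm⟩
  obtain ⟨g, hg1, hg2⟩ := Submodule.exists_le_ker_of_notMem hnot
  obtain ⟨w, hw⟩ : ∃ w : Fin m → K, ∀ y, g y = w ⬝ᵥ y := by
    refine ⟨fun i => g (Pi.single i 1), fun y => ?_⟩
    rw [dotProduct]
    conv_lhs => rw [← Finset.univ_sum_single y, map_sum]
    refine Finset.sum_congr rfl fun i _ => ?_
    have : Pi.single i (y i) = y i • (Pi.single i (1 : K) : Fin m → K) := by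
      rw [← Pi.single_smul', smul_eq_mul, mul_one]
    rw [this, map_smul, smul_eq_mul, mul_comm]
  have h1 : G *ᵥ w = 0 := by
    have h2 : Gᵀ *ᵥ w = 0 := by
      funext i
      have h3 : g (G *ᵥ Pi.single i 1) = 0 := hg2 ⟨Pi.single i 1, rfl⟩
      rw [hw, dotProduct_comm, dot_T, single_one_dotProduct] at h3
      exact h3
    rw [hG, neg_mulVec, neg_eq_zero] at h2
    exact h2
  apply hg1
  rw [hw, dotProduct_comm]
  exact h w h1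

theorem Gn_le_FR {n1 n2 : ℕ} {A1 : Matrix (Fin n1) (Fin n1) K} {A2 : Matrix (Fin n2) (Fin n2) K}
    {R1 : Submodule K (Fin n1 → K)} {R2 : Submodule K (Fin n2 → K)} {l : ℕ} :
    Gn A1 A2 R1 R2 l ≤ FR A2 A1 R2 R1 l := by
  refine Submodule.span_le.2 ?_
  rintro X (⟨i, j, y, z, h, rfl⟩ | ⟨r, hr, z, rfl⟩ | ⟨y, r, hr, rfl⟩)
  · exact Submodule.subset_span (Or.inl ⟨i, j, y, z, h, rfl⟩)
  · exact Submodule.subset_span (Or.inr (Or.inl ⟨r, hr, z, rfl⟩))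
  · exact Submodule.subset_span (Or.inr (Or.inr ⟨y, r, hr, rfl⟩))

theorem FR_tr {n1 n2 : ℕ} {A1 : Matrix (Fin n1) (Fin n1) K} {A2 : Matrix (Fin n2) (Fin n2) K}
    {R1 : Submodule K (Fin n1 → K)} {R2 : Submodule K (Fin n2 → K)} {l : ℕ}
    {X : Matrix (Fin n2) (Fin n1) K} (hX : X ∈ FR A2 A1 R2 R1 l) : Xᵀ ∈ FR A1 A2 R1 R2 l := by
  induction hX using Submodule.span_induction with
  | mem M hM =>
    rcases hM with ⟨i, j, x, y, hij, rfl⟩ | ⟨r, hr, y, rfl⟩ | ⟨x, r, hr, rfl⟩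
    · rw [transpose_vecMulVec]
      exact Submodule.subset_span (Or.inl ⟨j, i, y, x, by omega, rfl⟩)
    · rw [transpose_vecMulVec]
      exact Submodule.subset_span (Or.inr (Or.inr ⟨y, r, hr, rfl⟩))
    · rw [transpose_vecMulVec]
      exact Submodule.subset_span (Or.inr (Or.inl ⟨r, hr, x, rfl⟩))
  | zero => rw [transpose_zero]; exact Submodule.zero_mem _
  | add X Y _ _ h1 h2 => rw [transpose_add]; exact Submodule.add_mem _ h1 h2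
  | smul c X _ h1 => rw [transpose_smul]; exact Submodule.smul_mem _ _ h1

variable {ν ν' : K} {n1 n2 m1 m2 : ℕ} {Q1 : Matrix ι (Fin n1) K}
  {A1 : Fin 3 → Matrix (Fin n1) (Fin n1) K} {Q2 : Matrix ι (Fin n2) K}
  {A2 : Fin 3 → Matrix (Fin n2) (Fin n2) K} {U1 : Matrix δ (Fin m1) K} {U2 : Matrix δ (Fin m2) K}
  {a1 : Fin 3 → Matrix (Fin m1) (Fin m1) K} {a2 : Fin 3 → Matrix (Fin m2) (Fin m2) K}
  {C1 : Matrix (Fin n1) (Fin m1) K} {C2 : Matrix (Fin n2) (Fin m2) K}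

/-- **a family with radical arms is filtered** (arm clause of `SDec.Dec`) -/
theorem filt_of_arm [IsAlgClosed K] (S : Setup arm J B N W F f P R D l)
    (u1 : FU J F P.1 Q1 A1 U1 a1 C1) (b1 : BPkg arm J B F R P.1 D ν l Q1 A1)
    (u2 : FU J F P.1 Q2 A2 U2 a2 C2) (b2 : BPkg arm J B F R P.1 D ν' l Q2 A2) (s : Fin 3) {c : K}
    {X : Matrix (Fin m2) (Fin m1) K}
    (harm : (U2ᵀ * (Fᵀ * J * (P.1 * F)) * U2) * (X * (a1 s)ᵀ - c • (a2 s * X)) *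
      (U1ᵀ * (Fᵀ * J * (P.1 * F)) * U1) = 0) :
    X ∈ FR (a2 s) (a1 s) (rad (Fᵀ * J * (P.1 * F)) U2) (rad (Fᵀ * J * (P.1 * F)) U1) (l s) := by
  have hsk : (Fᵀ * J * (P.1 * F))ᵀ = -(Fᵀ * J * (P.1 * F)) :=
    SUX.th_skew (ctx S) S.hP (ctx S).mem
  have hG1 : (U1ᵀ * (Fᵀ * J * (P.1 * F)) * U1)ᵀ = -(U1ᵀ * (Fᵀ * J * (P.1 * F)) * U1) := by
    rw [transpose_mul, transpose_mul, hsk, transpose_transpose]
    simp only [Matrix.mul_neg, Matrix.neg_mul, Matrix.mul_assoc]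
  apply Gn_le_FR
  refine exact_mem (c := -c) (fun r hr => u1.st b1 s hr) (fun r hr => u2.st b2 s hr)
    (fun y => u2.pw b2 s y) (fun v hv y hy => u1.free S b1 s hv hy) (fun φ hφ => ?_)
  obtain ⟨ψ, rfl⟩ := skew_range hG1 (fun r hr => hφ r (mem_rad.2 hr))
  rw [mem_rad]
  have e : X * (a1 s)ᵀ + -c • (a2 s * X) = X * (a1 s)ᵀ - c • (a2 s * X) := by
    rw [neg_smul, sub_eq_add_neg]
  rw [e, mulVec_mulVec, mulVec_mulVec, harm, zero_mulVec]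

theorem FU.gU_mulVec (c : FU J F X Q A U a C) (x : Fin m → K) :
    (F * U) *ᵥ x = Q *ᵥ (C *ᵥ x) := by rw [c.gU, mulVec_mulVec]

theorem FU.rd {ν : K} (c : FU J F P.1 Q A U a C) (b : BPkg arm J B F R P.1 D ν l Q A)
    {x : Fin m → K} (hx : x ∈ rad (Fᵀ * J * (P.1 * F)) U) :
    (F * U) *ᵥ x ∈ Rd (J * P.1) (SLev0.PbK arm J B F R P.1 D ν) := by
  rw [c.mem] at hx
  rw [c.gU_mulVec]
  refine ⟨SLev0.coord_mem b _, fun y hy => ?_⟩
  obtain ⟨z, rfl⟩ := SLev0.exists_coord b hy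
  have e : (Q *ᵥ z) ⬝ᵥ ((J * P.1) *ᵥ (Q *ᵥ (C *ᵥ x))) =
      z ⬝ᵥ ((Qᵀ * (J * P.1) * Q) *ᵥ (C *ᵥ x)) := by
    rw [dot_T]
    congr 1
    simp only [mulVec_mulVec, Matrix.mul_assoc]
  rw [e, hx, dotProduct_zero]

/-- **filtered tensors are good** -/
theorem img (u1 : FU J F P.1 Q1 A1 U1 a1 C1) (b1 : BPkg arm J B F R P.1 D ν l Q1 A1)
    (u2 : FU J F P.1 Q2 A2 U2 a2 C2) (b2 : BPkg arm J B F R P.1 D ν' l Q2 A2)
    {QQ : Submodule K (Matrix ι δ K)}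
    (hG : SLev0.Gens arm J B F P.1 l QQ (SLev0.PbK arm J B F R P.1 D ν')
      (SLev0.PbK arm J B F R P.1 D ν)) (s : Fin 3) {X : Matrix (Fin m2) (Fin m1) K}
    (hX : X ∈ FR (a2 s) (a1 s) (rad (Fᵀ * J * (P.1 * F)) U2) (rad (Fᵀ * J * (P.1 * F)) U1)
      (l s)) :
    F * (U2 * X * U1ᵀ) * (Fᵀ * J * (P.1 * F)) * E K arm s ∈ QQ := by
  refine SL2g560.img_mem (η := J * P.1) (by simp only [Matrix.mul_assoc]) ?_ ?_ ?_ hX
  · intro i j hij x y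
    rw [u2.gU_mulVec, u1.gU_mulVec, u2.pow, u1.pow, ← SLev0.pow_act b2, ← SLev0.pow_act b1]
    exact hG.g1 s i j hij _ (SLev0.coord_mem b2 _) _ (SLev0.coord_mem b1 _)
  · intro r hr y
    rw [u1.gU_mulVec]
    exact hG.g2 s _ (u2.rd b2 hr) _ (SLev0.coord_mem b1 _)
  · intro x r hr
    rw [u2.gU_mulVec]
    exact hG.g3 s _ (SLev0.coord_mem b2 _) _ (u1.rd b1 hr)

/-- **the 12-part** -/
theorem part12 (u1 : FU J F P.1 Q1 A1 U1 a1 C1) (b1 : BPkg arm J B F R P.1 D ν l Q1 A1)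
    (u2 : FU J F P.1 Q2 A2 U2 a2 C2) (b2 : BPkg arm J B F R P.1 D ν' l Q2 A2)
    {QQ : Submodule K (Matrix ι δ K)}
    (hG : SLev0.Gens arm J B F P.1 l QQ (SLev0.PbK arm J B F R P.1 D ν)
      (SLev0.PbK arm J B F R P.1 D ν')) (s : Fin 3) {X : Matrix (Fin m2) (Fin m1) K}
    (hX : X ∈ FR (a2 s) (a1 s) (rad (Fᵀ * J * (P.1 * F)) U2) (rad (Fᵀ * J * (P.1 * F)) U1)
      (l s)) :
    F * (U1 * Xᵀ * U2ᵀ) * (Fᵀ * J * (P.1 * F)) * E K arm s ∈ QQ :=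
  img u2 b2 u1 b1 hG s (FR_tr hX)

/-- **the 21-part** -/
theorem part21 (u1 : FU J F P.1 Q1 A1 U1 a1 C1) (b1 : BPkg arm J B F R P.1 D ν l Q1 A1)
    (u2 : FU J F P.1 Q2 A2 U2 a2 C2) (b2 : BPkg arm J B F R P.1 D ν' l Q2 A2)
    {QQ : Submodule K (Matrix ι δ K)}
    (hG : SLev0.Gens arm J B F P.1 l QQ (SLev0.PbK arm J B F R P.1 D ν')
      (SLev0.PbK arm J B F R P.1 D ν))
    {H : Matrix ι δ K} {Pt : Matrix ι ι K × (Fin 3 → Matrix ι ι K)} {c1 c2 : K}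
    {Y : Fin 3 → Matrix δ δ K} {d : Derivation ℂ K K} {Γ1 : Matrix (Fin m1) (Fin m1) K}
    {Γ2 : Matrix (Fin m2) (Fin m2) K} {β : Matrix (Fin m1) (Fin m2) K}
    {γ : Matrix (Fin m2) (Fin m1) K} (h : Ctx ℂ arm J B N W H) (hP : Pt ∈ NN arm J N H)
    (m : Mv ℂ arm J N W H Pt.1 Y d)
    (fr : Fr J F H Pt.1 (Fᵀ * J * (P.1 * F)) c1 c2 U1 U2)
    {X' : Fin 3 → Matrix (Fin m2) (Fin m1) K}
    (hY : ∀ s, ∀ v ∈ W, v * Y s * Hᵀ = v * (U2 * X' s * U1ᵀ + U1 * (X' s)ᵀ * U2ᵀ) * Hᵀ)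
    (hN2 : ∀ v ∈ W, v * (U2.map d + ZY arm J H Pt.1 Y * U2) =
      v * (U2 * Γ2 + c2 ^ 2 • (U1 * β)))
    (hN1 : ∀ v ∈ W, v * (U1.map d + ZY arm J H Pt.1 Y * U1) =
      v * (U1 * Γ1 + c1 ^ 2 • (U2 * γ)))
    (hF : F ∈ W)
    (ha1 : ∀ s, B * E K arm s * (Fᵀ * J * (P.1 * F)) * U1 = U1 * a1 s)
    (ha2 : ∀ s, B * E K arm s * (Fᵀ * J * (P.1 * F)) * U2 = U2 * a2 s) (s : Fin 3)
    {X Xp : Matrix (Fin m2) (Fin m1) K}
    (hX : X ∈ FR (a2 s) (a1 s) (rad (Fᵀ * J * (P.1 * F)) U2) (rad (Fᵀ * J * (P.1 * F)) U1)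
      (l s))
    (hXp : Xp ∈ FR (a2 s) (a1 s) (rad (Fᵀ * J * (P.1 * F)) U2) (rad (Fᵀ * J * (P.1 * F)) U1)
      (l s)) (e1 e2 e3 : K) :
    F * (U2 * (Γ2 * X + X.map d + X * (Γ1 - e1 • (1 : Matrix (Fin m1) (Fin m1) K))ᵀ - e2 • X +
      e3 • Xp) * U1ᵀ) * (Fᵀ * J * (P.1 * F)) * E K arm s ∈ QQ := by
  have h1 := SL2g560.fr_nab h hP m fr hY hN2 hN1 hF (M0 := Fᵀ * J * P.1)
    (by simp only [Matrix.mul_assoc]) ha1 ha2 hX
  apply img u1 b1 u2 b2 hG s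
  have e : Γ2 * X + X.map d + X * (Γ1 - e1 • (1 : Matrix (Fin m1) (Fin m1) K))ᵀ - e2 • X +
      e3 • Xp = (Γ2 * X + X.map d + X * Γ1ᵀ) - (e1 + e2) • X + e3 • Xp := by
    rw [transpose_sub, transpose_smul, transpose_one, Matrix.mul_sub, Matrix.mul_smul,
      Matrix.mul_one, add_smul]
    abel
  rw [e]
  exact Submodule.add_mem _ (Submodule.sub_mem _ h1 (Submodule.smul_mem _ _ hX))
    (Submodule.smul_mem _ _ hXp)

/-- the frame data from `SInst.exists_C` -/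
theorem exists_FU [IsAlgClosed K] (S : Setup arm J B N W F f P R D l)
    (b : BPkg arm J B F R P.1 D ν l Q A) (hU : UFr.Cq (QQb S ν) U)
    (hspan : ∀ u ∈ QQb S ν, ∃ x, u = U *ᵥ x) (hmem : ∀ x, U *ᵥ x ∈ QQb S ν)
    (ha : ∀ s, B * E K arm s * (Fᵀ * J * (P.1 * F)) * U = U * a s) :
    ∃ C : Matrix (Fin n) (Fin m) K, FU J F P.1 Q A U a C := by
  obtain ⟨C, h1, h2, h3, -, h5⟩ := SInst.exists_C S b hU hspan hmem ha
  exact ⟨C, h1, h2, h3, h5⟩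

end frame

end Crest.Agent.R172.SB4x
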