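import Crest.Agent.R172.SUX4b

/-!
Row 172 (S0260), (t2), second level, row L2-g: the 21- and 12-parts of the second derivative.
Class `FR` of the tensors filtered modulo the radicals; it is stable under the connection.
-/

set_option autoImplicit false
set_option linter.unusedSectionVars false
set_option linter.unusedFintypeInType false
set_option linter.unusedDecidableInType false
set_option linter.unusedVariables false
set_option maxHeartbeats 1600000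

namespace Crest.Agent.R172.SL2g560

open Matrix Module Crest.Agent.R172.FO Crest.Agent.R172.Qt Crest.Agent.R172.SpS
  Crest.Agent.R172.Om Crest.Agent.R172.SUX

section abs

variable {k K : Type*} [Field k] [Field K] [Algebra k K]
variable {n n1 n2 : Type*} [Fintype n] [DecidableEq n] [Fintype n1] [DecidableEq n1] [Fintype n2]
  [DecidableEq n2]

/-- the covariant derivative of a vector -/
def nv (d : Derivation k K K) (Γ : Matrix n n K) (v : n → K) : n → K :=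
  (fun i => d (v i)) + Γ *ᵥ v

omit [DecidableEq n] in
theorem der_mulVec (d : Derivation k K K) (A : Matrix n n K) (v : n → K) :
    (fun i => d ((A *ᵥ v) i)) = (A.map d) *ᵥ v + A *ᵥ (fun i => d (v i)) := by
  funext i
  simp only [Matrix.mulVec, dotProduct, map_sum, Derivation.leibniz, smul_eq_mul, Pi.add_apply,
    Matrix.map_apply]
  rw [← Finset.sum_add_distrib]
  exact Finset.sum_congr rfl fun j _ => by ring

omit [DecidableEq n] in
theorem nv_mul (d : Derivation k K K) (Γ A : Matrix n n K) (v : n → K) :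
    nv d Γ (A *ᵥ v) = (A.map d + Γ * A - A * Γ) *ᵥ v + A *ᵥ nv d Γ v := by
  unfold nv
  rw [der_mulVec, sub_mulVec, add_mulVec, mulVec_add, ← mulVec_mulVec, ← mulVec_mulVec]
  abel

omit [DecidableEq n] in
theorem nv_add (d : Derivation k K K) (Γ : Matrix n n K) (v w : n → K) :
    nv d Γ (v + w) = nv d Γ v + nv d Γ w := by
  unfold nv
  rw [mulVec_add]
  funext i
  simp only [Pi.add_apply, map_add]
  ring

theorem nv_pow {d : Derivation k K K} {Γ A : Matrix n n K} {a : K} {R : Submodule K (n → K)}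
    (hA : ∀ v, (A.map d + Γ * A - A * Γ) *ᵥ v - a • (A *ᵥ v) ∈ R) (hR : ∀ r ∈ R, A *ᵥ r ∈ R)
    (i : ℕ) (x : n → K) : ∃ x', nv d Γ ((A ^ i) *ᵥ x) - (A ^ i) *ᵥ x' ∈ R := by
  induction i with
  | zero => exact ⟨nv d Γ x, by rw [pow_zero, one_mulVec, one_mulVec, sub_self]; exact R.zero_mem⟩
  | succ i ih =>
    obtain ⟨x', hx'⟩ := ih
    refine ⟨a • x + x', ?_⟩
    have e : nv d Γ ((A ^ (i + 1)) *ᵥ x) - (A ^ (i + 1)) *ᵥ (a • x + x') =
        ((A.map d + Γ * A - A * Γ) *ᵥ ((A ^ i) *ᵥ x) - a • (A *ᵥ ((A ^ i) *ᵥ x))) +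
          A *ᵥ (nv d Γ ((A ^ i) *ᵥ x) - (A ^ i) *ᵥ x') := by
      rw [pow_succ', ← mulVec_mulVec, nv_mul, ← mulVec_mulVec, mulVec_add (A ^ i), mulVec_smul,
        mulVec_add A, mulVec_smul, mulVec_sub A]
      abel
    rw [e]
    exact R.add_mem (hA _) (hR _ hx')

/-- tensors filtered modulo the radicals -/
def FR (A2 : Matrix n2 n2 K) (A1 : Matrix n1 n1 K) (R2 : Submodule K (n2 → K))
    (R1 : Submodule K (n1 → K)) (l : ℕ) : Submodule K (Matrix n2 n1 K) :=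
  Submodule.span K {M | (∃ i j x y, i + j + 1 = l ∧
      M = vecMulVec ((A2 ^ i) *ᵥ x) ((A1 ^ j) *ᵥ y)) ∨
    (∃ r ∈ R2, ∃ y, M = vecMulVec r y) ∨ ∃ x, ∃ r ∈ R1, M = vecMulVec x r}

/-- the covariant derivative of a tensor -/
def nm (d : Derivation k K K) (Γ2 : Matrix n2 n2 K) (Γ1 : Matrix n1 n1 K) (X : Matrix n2 n1 K) :
    Matrix n2 n1 K := Γ2 * X + X.map d + X * Γ1ᵀ

omit [DecidableEq n1] [DecidableEq n2] in
theorem nm_vec (d : Derivation k K K) (Γ2 : Matrix n2 n2 K) (Γ1 : Matrix n1 n1 K) (x : n2 → K)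
    (y : n1 → K) : nm d Γ2 Γ1 (vecMulVec x y) =
      vecMulVec (nv d Γ2 x) y + vecMulVec x (nv d Γ1 y) := by
  unfold nm nv
  rw [Matrix.mul_vecMulVec, Matrix.vecMulVec_mul, vecMul_transpose]
  ext i j
  simp only [Matrix.add_apply, vecMulVec_apply, Matrix.map_apply, Derivation.leibniz, smul_eq_mul,
    Pi.add_apply]
  ring

omit [DecidableEq n1] [DecidableEq n2] in
theorem nm_add (d : Derivation k K K) (Γ2 : Matrix n2 n2 K) (Γ1 : Matrix n1 n1 K)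
    (X Y : Matrix n2 n1 K) : nm d Γ2 Γ1 (X + Y) = nm d Γ2 Γ1 X + nm d Γ2 Γ1 Y := by
  unfold nm
  rw [map_add_der, Matrix.mul_add, Matrix.add_mul]
  abel

omit [DecidableEq n1] [DecidableEq n2] in
theorem nm_smul (d : Derivation k K K) (Γ2 : Matrix n2 n2 K) (Γ1 : Matrix n1 n1 K) (c : K)
    (X : Matrix n2 n1 K) : nm d Γ2 Γ1 (c • X) = c • nm d Γ2 Γ1 X + (d c) • X := by
  unfold nm
  rw [SUX.map_smul_der, Matrix.mul_smul, Matrix.smul_mul, smul_add, smul_add]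
  abel

/-- **`FR` is stable under the connection** -/
theorem nm_mem {d : Derivation k K K} {A2 : Matrix n2 n2 K} {A1 : Matrix n1 n1 K}
    {R2 : Submodule K (n2 → K)} {R1 : Submodule K (n1 → K)} {l : ℕ} {Γ2 : Matrix n2 n2 K}
    {Γ1 : Matrix n1 n1 K} {a2 a1 : K}
    (hA2 : ∀ v, (A2.map d + Γ2 * A2 - A2 * Γ2) *ᵥ v - a2 • (A2 *ᵥ v) ∈ R2)
    (hA1 : ∀ v, (A1.map d + Γ1 * A1 - A1 * Γ1) *ᵥ v - a1 • (A1 *ᵥ v) ∈ R1)
    (st2 : ∀ r ∈ R2, A2 *ᵥ r ∈ R2) (st1 : ∀ r ∈ R1, A1 *ᵥ r ∈ R1)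
    (hR2 : ∀ r ∈ R2, nv d Γ2 r ∈ R2) (hR1 : ∀ r ∈ R1, nv d Γ1 r ∈ R1)
    {X : Matrix n2 n1 K} (hX : X ∈ FR A2 A1 R2 R1 l) : nm d Γ2 Γ1 X ∈ FR A2 A1 R2 R1 l := by
  have g1 : ∀ i j x y, i + j + 1 = l →
      vecMulVec ((A2 ^ i) *ᵥ x) ((A1 ^ j) *ᵥ y) ∈ FR A2 A1 R2 R1 l := fun i j x y hij =>
    Submodule.subset_span (Or.inl ⟨i, j, x, y, hij, rfl⟩)
  have g2 : ∀ r ∈ R2, ∀ y, vecMulVec r y ∈ FR A2 A1 R2 R1 l := fun r hr y =>
    Submodule.subset_span (Or.inr (Or.inl ⟨r, hr, y, rfl⟩))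
  have g3 : ∀ x, ∀ r ∈ R1, vecMulVec x r ∈ FR A2 A1 R2 R1 l := fun x r hr =>
    Submodule.subset_span (Or.inr (Or.inr ⟨x, r, hr, rfl⟩))
  induction hX using Submodule.span_induction with
  | mem M hM =>
    rcases hM with ⟨i, j, x, y, hij, rfl⟩ | ⟨r, hr, y, rfl⟩ | ⟨x, r, hr, rfl⟩
    · rw [nm_vec]
      obtain ⟨x', hx'⟩ := nv_pow (Γ := Γ2) hA2 st2 i x
      obtain ⟨y', hy'⟩ := nv_pow (Γ := Γ1) hA1 st1 j y
      have e1 : vecMulVec (nv d Γ2 ((A2 ^ i) *ᵥ x)) ((A1 ^ j) *ᵥ y) =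
          vecMulVec ((A2 ^ i) *ᵥ x') ((A1 ^ j) *ᵥ y) +
            vecMulVec (nv d Γ2 ((A2 ^ i) *ᵥ x) - (A2 ^ i) *ᵥ x') ((A1 ^ j) *ᵥ y) := by
        rw [← add_vecMulVec, add_sub_cancel]
      have e2 : vecMulVec ((A2 ^ i) *ᵥ x) (nv d Γ1 ((A1 ^ j) *ᵥ y)) =
          vecMulVec ((A2 ^ i) *ᵥ x) ((A1 ^ j) *ᵥ y') +
            vecMulVec ((A2 ^ i) *ᵥ x) (nv d Γ1 ((A1 ^ j) *ᵥ y) - (A1 ^ j) *ᵥ y') := by
        rw [← vecMulVec_add, add_sub_cancel]
      rw [e1, e2]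
      exact Submodule.add_mem _ (Submodule.add_mem _ (g1 i j x' y hij) (g2 _ hx' _))
        (Submodule.add_mem _ (g1 i j x y' hij) (g3 _ _ hy'))
    · rw [nm_vec]
      exact Submodule.add_mem _ (g2 _ (hR2 r hr) _) (g2 _ hr _)
    · rw [nm_vec]
      exact Submodule.add_mem _ (g3 _ _ hr) (g3 _ _ (hR1 r hr))
  | zero =>
    have : nm d Γ2 Γ1 (0 : Matrix n2 n1 K) = 0 := by
      unfold nm
      have e : (0 : Matrix n2 n1 K).map d = 0 := by ext i j; simp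
      rw [e, Matrix.mul_zero, Matrix.zero_mul, add_zero, add_zero]
    rw [this]
    exact Submodule.zero_mem _
  | add X Y _ _ h1 h2 => rw [nm_add]; exact Submodule.add_mem _ h1 h2
  | smul c X hX h1 =>
    rw [nm_smul]
    exact Submodule.add_mem _ (Submodule.smul_mem _ _ h1) (Submodule.smul_mem _ _ hX)

end abs

section frame

variable {ι : Type*} [Fintype ι] [DecidableEq ι] {δ : Type*} [Fintype δ] [DecidableEq δ]
variable {k K : Type*} [Field k] [Field K] [Algebra k K]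
variable {arm : δ → Fin 3} {J : Matrix ι ι K} {B : Matrix δ δ K}
  {N W : Submodule K (Matrix ι δ K)} {H F : Matrix ι δ K}
variable {n1 n2 : Type*} [Fintype n1] [Fintype n2] [DecidableEq n1] [DecidableEq n2]
variable {P : Matrix ι ι K × (Fin 3 → Matrix ι ι K)} {S0 : Matrix δ δ K} {c1 c2 : K}
  {U1 : Matrix δ n1 K} {U2 : Matrix δ n2 K} {Y : Fin 3 → Matrix δ δ K} {d : Derivation k K K}
  {Γ1 : Matrix n1 n1 K} {Γ2 : Matrix n2 n2 K} {β : Matrix n1 n2 K} {γ : Matrix n2 n1 K}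

/-- the derivative of the form of a block -/
theorem dG (h : Ctx k arm J B N W H) (hP : P ∈ NN arm J N H)
    (m : Mv k arm J N W H P.1 Y d) (fr : Fr J F H P.1 S0 c1 c2 U1 U2)
    {X' : Fin 3 → Matrix n2 n1 K}
    (hY : ∀ s, ∀ v ∈ W, v * Y s * Hᵀ = v * (U2 * X' s * U1ᵀ + U1 * (X' s)ᵀ * U2ᵀ) * Hᵀ)
    (hN1 : ∀ v ∈ W, v * (U1.map d + ZY arm J H P.1 Y * U1) =
      v * (U1 * Γ1 + c1 ^ 2 • (U2 * γ)))
    (hF : F ∈ W) {M0 : Matrix δ ι K} (hS0 : S0 = M0 * F) :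
    (U1ᵀ * S0 * U1).map d = Γ1ᵀ * (U1ᵀ * S0 * U1) + (U1ᵀ * S0 * U1) * Γ1 -
      (2 * (d c1 / c1)) • (U1ᵀ * S0 * U1) := by
  have hthH := th_skew h hP h.mem
  have hU2 := SUX4b.T_of hthH fr.skew fr.S2
  have hdR := SUX4b.dR h hP m fr (fun s => hY s H h.memW) (hN1 H h.memW)
  have horth' : U2ᵀ * S0 * U1 = 0 := fr.symm.orth
  have hsumE : ∀ A : Matrix n1 δ K, A * U1 = ∑ s, A * E K arm s * U1 := by
    intro A
    rw [← Matrix.sum_mul, ← Matrix.mul_sum, sum_E, Matrix.mul_one]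
  have hcc : U1ᵀ * S0 * (ZY arm J H P.1 Y * U1) =
      ∑ s, c2 ^ 2 • ((U1ᵀ * S0 * U1) * (X' s)ᵀ * (U2ᵀ * S0)) * E K arm s * U1 := by
    unfold ZY
    rw [Matrix.sum_mul, Matrix.mul_sum]
    refine Finset.sum_congr rfl fun s _ => ?_
    have e3 : ∀ A : Matrix δ δ K, U1ᵀ * S0 * (A * th J H P.1 H * E K arm s * U1) =
        U1ᵀ * M0 * (F * A * Hᵀ) * (J * (P.1 * H)) * E K arm s * U1 := by
      intro A
      rw [hS0]
      unfold th
      simp only [Matrix.mul_assoc]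
    rw [e3, hY s F hF, ← e3]
    have e4 : U1ᵀ * S0 * ((U2 * X' s * U1ᵀ + U1 * (X' s)ᵀ * U2ᵀ) * th J H P.1 H * E K arm s * U1) =
        (U1ᵀ * S0 * U2) * X' s * (U1ᵀ * (th J H P.1 H * E K arm s * U1)) +
        (U1ᵀ * S0 * U1) * (X' s)ᵀ * (U2ᵀ * th J H P.1 H) * E K arm s * U1 := by
      rw [Matrix.add_mul, Matrix.add_mul, Matrix.add_mul, Matrix.mul_add]
      simp only [Matrix.mul_assoc]
    rw [e4, fr.orth, Matrix.zero_mul, Matrix.zero_mul, zero_add, hU2, Matrix.mul_smul]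
  have h1 : U1ᵀ * S0 * U1.map d = (U1ᵀ * S0 * U1) * Γ1 -
      U1ᵀ * S0 * (ZY arm J H P.1 Y * U1) := by
    have e1 : U1ᵀ * S0 * (U1.map d + ZY arm J H P.1 Y * U1) = (U1ᵀ * S0 * U1) * Γ1 := by
      have e2 : ∀ A : Matrix δ n1 K, U1ᵀ * S0 * A = U1ᵀ * M0 * (F * A) := by
        intro A; rw [hS0]; simp only [Matrix.mul_assoc]
      rw [e2, hN1 F hF, ← e2, Matrix.mul_add, Matrix.mul_smul, ← Matrix.mul_assoc _ U2, fr.orth,
        Matrix.zero_mul, smul_zero, add_zero, ← Matrix.mul_assoc]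
    rw [Matrix.mul_add] at e1
    rw [← e1]; abel
  rw [map_mul_der, h1, hcc, hsumE ((U1ᵀ * S0).map d)]
  have h2 : ∀ s, (U1ᵀ * S0).map d * E K arm s * U1 =
      ((Γ1 - (2 * (d c1 / c1)) • (1 : Matrix n1 n1 K))ᵀ * (U1ᵀ * S0) +
        c2 ^ 2 • (γᵀ * (U2ᵀ * S0))) * E K arm s * U1 +
      c2 ^ 2 • ((U1ᵀ * S0 * U1) * (X' s)ᵀ * (U2ᵀ * S0)) * E K arm s * U1 := by
    intro s
    rw [hdR s, Matrix.add_mul, Matrix.add_mul]
  rw [Finset.sum_congr rfl fun s _ => h2 s, Finset.sum_add_distrib, ← hsumE, Matrix.add_mul,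
    Matrix.smul_mul, Matrix.mul_assoc γᵀ, horth', Matrix.mul_zero, smul_zero, add_zero,
    transpose_sub, transpose_smul, transpose_one, Matrix.sub_mul, Matrix.sub_mul, Matrix.smul_mul,
    Matrix.smul_mul, Matrix.one_mul, Matrix.mul_assoc Γ1ᵀ]
  abel

theorem LB (hD : Data k arm J B N W) (s : Fin 3) {a b : Type*} [Fintype a] [Fintype b]
    (V : Matrix a δ K) (U : Matrix δ b K) : V * E K arm s * B * (E K arm s * (S0 * U)) =
      V * (B * E K arm s * S0 * U) := by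
  have hBE : E K arm s * B = B * E K arm s := hD.B_arm s
  have hEE : E K arm s * E K arm s = E K arm s := E_mul_self arm s
  calc V * E K arm s * B * (E K arm s * (S0 * U))
      = V * (E K arm s * B) * E K arm s * (S0 * U) := by simp only [Matrix.mul_assoc]
    _ = V * B * (E K arm s * E K arm s) * (S0 * U) := by
        rw [hBE]; simp only [Matrix.mul_assoc]
    _ = _ := by rw [hEE]; simp only [Matrix.mul_assoc]

/-- **the weight of `A` under the connection, modulo the radical** -/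
theorem wt (h : Ctx k arm J B N W H) (hP : P ∈ NN arm J N H)
    (m : Mv k arm J N W H P.1 Y d) (fr : Fr J F H P.1 S0 c1 c2 U1 U2)
    {X' : Fin 3 → Matrix n2 n1 K}
    (hY : ∀ s, ∀ v ∈ W, v * Y s * Hᵀ = v * (U2 * X' s * U1ᵀ + U1 * (X' s)ᵀ * U2ᵀ) * Hᵀ)
    (hN1 : ∀ v ∈ W, v * (U1.map d + ZY arm J H P.1 Y * U1) =
      v * (U1 * Γ1 + c1 ^ 2 • (U2 * γ)))
    (hF : F ∈ W) {M0 : Matrix δ ι K} (hS0 : S0 = M0 * F)
    {A1 : Fin 3 → Matrix n1 n1 K} {A2 : Fin 3 → Matrix n2 n2 K}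
    (hA1 : ∀ s, B * E K arm s * S0 * U1 = U1 * A1 s)
    (hA2 : ∀ s, B * E K arm s * S0 * U2 = U2 * A2 s) (s : Fin 3) :
    (U1ᵀ * S0 * U1) * ((A1 s).map d + Γ1 * A1 s - A1 s * Γ1 + (2 * (d c1 / c1)) • A1 s) = 0 := by
  have hG := dG h hP m fr hY hN1 hF hS0
  have hdR := SUX4b.dR h hP m fr (fun s => hY s H h.memW) (hN1 H h.memW) s
  have horth' : U2ᵀ * S0 * U1 = 0 := fr.symm.orth
  set G : Matrix n1 n1 K := U1ᵀ * S0 * U1 with hGd
  set a : K := 2 * (d c1 / c1) with ha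
  have hEE : E K arm s * E K arm s = E K arm s := E_mul_self arm s
  set L : Matrix n1 δ K := U1ᵀ * S0 * E K arm s with hL
  have hLt : Lᵀ = -(E K arm s * (S0 * U1)) := by
    rw [hL, transpose_mul, transpose_mul, transpose_transpose, E_transpose, fr.skew,
      Matrix.neg_mul, Matrix.mul_neg]
  have hL2t : (U2ᵀ * S0 * E K arm s)ᵀ = -(E K arm s * (S0 * U2)) := by
    rw [transpose_mul, transpose_mul, transpose_transpose, E_transpose, fr.skew,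
      Matrix.neg_mul, Matrix.mul_neg]
  -- `G A = - L B Lᵀ`
  have hLB1 : L * B * (E K arm s * (S0 * U1)) = U1ᵀ * S0 * (B * E K arm s * S0 * U1) := by
    rw [hL]; exact LB h.data s _ U1
  have hLB2 : L * B * (E K arm s * (S0 * U2)) = U1ᵀ * S0 * (B * E K arm s * S0 * U2) := by
    rw [hL]; exact LB h.data s _ U2
  have hGA : G * A1 s = -(L * B * Lᵀ) := by
    rw [hLt, Matrix.mul_neg, neg_neg, hLB1, hA1 s, hGd]
    simp only [Matrix.mul_assoc]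
  have hL12 : L * B * (U2ᵀ * S0 * E K arm s)ᵀ = 0 := by
    rw [hL2t, Matrix.mul_neg, hLB2, hA2 s, ← Matrix.mul_assoc, fr.orth, Matrix.zero_mul,
      neg_zero]
  have hL21 : (U2ᵀ * S0 * E K arm s) * B * Lᵀ = 0 := by
    have := congrArg Matrix.transpose hL12
    rw [transpose_mul (L * B), transpose_transpose, transpose_mul L B, h.data.B_symm,
      transpose_zero, ← Matrix.mul_assoc] at this
    exact this
  have hBd : B.map d = 0 := h.data.B_const d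
  have hdL : L.map d = (Γ1 - a • (1 : Matrix n1 n1 K))ᵀ * L +
      (c2 ^ 2 • γᵀ + c2 ^ 2 • (G * (X' s)ᵀ)) * (U2ᵀ * S0 * E K arm s) := by
    have e1 : L.map d = (U1ᵀ * S0).map d * E K arm s := by
      rw [hL, map_mul_der, E_map_der, Matrix.mul_zero, add_zero]
    rw [e1, hdR, hL]
    simp only [Matrix.add_mul, Matrix.smul_mul, Matrix.mul_assoc]
    abel
  have hd1 : (G * A1 s).map d = (Γ1 - a • (1 : Matrix n1 n1 K))ᵀ * (G * A1 s) +
      (G * A1 s) * (Γ1 - a • (1 : Matrix n1 n1 K)) := by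
    have e1 : (L * B * Lᵀ).map d = L.map d * B * Lᵀ + L * B * (L.map d)ᵀ := by
      rw [map_mul_der, map_mul_der, hBd, Matrix.mul_zero, add_zero, map_transpose_der]
    have e2 : (-(L * B * Lᵀ)).map d = -((L * B * Lᵀ).map d) := by
      ext i j; simp
    rw [hGA, e2, e1, hdL]
    have e3 : ((Γ1 - a • (1 : Matrix n1 n1 K))ᵀ * L +
      (c2 ^ 2 • γᵀ + c2 ^ 2 • (G * (X' s)ᵀ)) * (U2ᵀ * S0 * E K arm s)) * B * Lᵀ =
        (Γ1 - a • (1 : Matrix n1 n1 K))ᵀ * (L * B * Lᵀ) := by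
      rw [Matrix.add_mul, Matrix.add_mul]
      have : (c2 ^ 2 • γᵀ + c2 ^ 2 • (G * (X' s)ᵀ)) * (U2ᵀ * S0 * E K arm s) * B * Lᵀ =
          (c2 ^ 2 • γᵀ + c2 ^ 2 • (G * (X' s)ᵀ)) * ((U2ᵀ * S0 * E K arm s) * B * Lᵀ) := by
        simp only [Matrix.mul_assoc]
      rw [this, hL21, Matrix.mul_zero, add_zero]
      simp only [Matrix.mul_assoc]
    have e4 : L * B * ((Γ1 - a • (1 : Matrix n1 n1 K))ᵀ * L +
      (c2 ^ 2 • γᵀ + c2 ^ 2 • (G * (X' s)ᵀ)) * (U2ᵀ * S0 * E K arm s))ᵀ =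
        (L * B * Lᵀ) * (Γ1 - a • (1 : Matrix n1 n1 K)) := by
      rw [transpose_add, Matrix.mul_add, transpose_mul, transpose_mul _ (U2ᵀ * S0 * E K arm s),
        transpose_transpose, ← Matrix.mul_assoc (L * B) (U2ᵀ * S0 * E K arm s)ᵀ, hL12,
        Matrix.zero_mul, add_zero, ← Matrix.mul_assoc]
    rw [e3, e4, Matrix.mul_neg, Matrix.neg_mul, neg_add]
  have hd2 : (G * A1 s).map d = G.map d * A1 s + G * (A1 s).map d := map_mul_der d G (A1 s)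
  rw [hd1, hG] at hd2
  have h5 : G * (A1 s).map d = (Γ1 - a • (1 : Matrix n1 n1 K))ᵀ * (G * A1 s) +
      (G * A1 s) * (Γ1 - a • (1 : Matrix n1 n1 K)) - (Γ1ᵀ * G + G * Γ1 - a • G) * A1 s := by
    rw [hd2]; abel
  rw [Matrix.mul_add, Matrix.mul_sub, Matrix.mul_add, h5, Matrix.mul_smul, transpose_sub,
    transpose_smul, transpose_one, Matrix.sub_mul, Matrix.mul_sub, Matrix.smul_mul,
    Matrix.mul_smul, Matrix.one_mul, Matrix.mul_one, Matrix.sub_mul, Matrix.add_mul,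
    Matrix.smul_mul]
  simp only [Matrix.mul_assoc]
  abel

/-- **the radical of a block is stable under the connection** -/
theorem rad_nab (h : Ctx k arm J B N W H) (hP : P ∈ NN arm J N H)
    (m : Mv k arm J N W H P.1 Y d) (fr : Fr J F H P.1 S0 c1 c2 U1 U2)
    {X' : Fin 3 → Matrix n2 n1 K}
    (hY : ∀ s, ∀ v ∈ W, v * Y s * Hᵀ = v * (U2 * X' s * U1ᵀ + U1 * (X' s)ᵀ * U2ᵀ) * Hᵀ)
    (hN1 : ∀ v ∈ W, v * (U1.map d + ZY arm J H P.1 Y * U1) =
      v * (U1 * Γ1 + c1 ^ 2 • (U2 * γ)))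
    (hF : F ∈ W) {M0 : Matrix δ ι K} (hS0 : S0 = M0 * F) {r : n1 → K}
    (hr : (U1ᵀ * S0 * U1) *ᵥ r = 0) : (U1ᵀ * S0 * U1) *ᵥ nv d Γ1 r = 0 := by
  have hG := dG h hP m fr hY hN1 hF hS0
  have h1 : (fun i => d (((U1ᵀ * S0 * U1) *ᵥ r) i)) = 0 := by
    rw [hr]; funext i; simp
  rw [der_mulVec, hG, sub_mulVec, add_mulVec, smul_mulVec, ← mulVec_mulVec r Γ1ᵀ, hr,
    mulVec_zero, zero_add, smul_zero, sub_zero] at h1
  unfold nv
  rw [mulVec_add, mulVec_mulVec, add_comm]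
  exact h1

/-- the radical of a block as a submodule -/
def rad (S0 : Matrix δ δ K) (U1 : Matrix δ n1 K) : Submodule K (n1 → K) :=
  LinearMap.ker (U1ᵀ * S0 * U1).mulVecLin

omit [DecidableEq n1] in
theorem mem_rad {r : n1 → K} : r ∈ rad S0 U1 ↔ (U1ᵀ * S0 * U1) *ᵥ r = 0 := by
  unfold rad
  rw [LinearMap.mem_ker, mulVecLin_apply]

/-- the radical is stable under `A` -/
theorem rad_A (h : Data k arm J B N W) (fr : Fr J F H P.1 S0 c1 c2 U1 U2)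
    {A1 : Fin 3 → Matrix n1 n1 K} (hA1 : ∀ s, B * E K arm s * S0 * U1 = U1 * A1 s) (s : Fin 3)
    {r : n1 → K} (hr : r ∈ rad S0 U1) : A1 s *ᵥ r ∈ rad S0 U1 := by
  rw [mem_rad] at hr ⊢
  have h1 : U1ᵀ * S0 * U1 * A1 s = -((A1 s)ᵀ * (U1ᵀ * S0 * U1)) := by
    have e1 := congrArg Matrix.transpose (hA1 s)
    rw [transpose_mul, transpose_mul, transpose_mul, transpose_mul, E_transpose, h.B_symm,
      fr.skew] at e1
    calc U1ᵀ * S0 * U1 * A1 s = U1ᵀ * S0 * (B * E K arm s * S0 * U1) := by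
          rw [hA1 s]; simp only [Matrix.mul_assoc]
      _ = -((U1ᵀ * (-S0 * (E K arm s * B))) * (S0 * U1)) := by
          rw [← h.B_arm s]
          simp only [Matrix.mul_assoc, Matrix.neg_mul, Matrix.mul_neg, neg_neg]
      _ = _ := by
          have e2 : (A1 s)ᵀ * U1ᵀ = U1ᵀ * (-S0 * (E K arm s * B)) := e1.symm
          rw [← e2]
          simp only [Matrix.mul_assoc]
  rw [mulVec_mulVec, h1, neg_mulVec, ← mulVec_mulVec, hr, mulVec_zero, neg_zero]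

/-- **`FR` of the blocks is stable under the connection of a move.** -/
theorem fr_nab (h : Ctx k arm J B N W H) (hP : P ∈ NN arm J N H)
    (m : Mv k arm J N W H P.1 Y d) (fr : Fr J F H P.1 S0 c1 c2 U1 U2)
    {X' : Fin 3 → Matrix n2 n1 K}
    (hY : ∀ s, ∀ v ∈ W, v * Y s * Hᵀ = v * (U2 * X' s * U1ᵀ + U1 * (X' s)ᵀ * U2ᵀ) * Hᵀ)
    (hN2 : ∀ v ∈ W, v * (U2.map d + ZY arm J H P.1 Y * U2) =
      v * (U2 * Γ2 + c2 ^ 2 • (U1 * β)))
    (hN1 : ∀ v ∈ W, v * (U1.map d + ZY arm J H P.1 Y * U1) =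
      v * (U1 * Γ1 + c1 ^ 2 • (U2 * γ)))
    (hF : F ∈ W) {M0 : Matrix δ ι K} (hS0 : S0 = M0 * F)
    {A1 : Fin 3 → Matrix n1 n1 K} {A2 : Fin 3 → Matrix n2 n2 K}
    (hA1 : ∀ s, B * E K arm s * S0 * U1 = U1 * A1 s)
    (hA2 : ∀ s, B * E K arm s * S0 * U2 = U2 * A2 s) {s : Fin 3} {l : ℕ} {X : Matrix n2 n1 K}
    (hX : X ∈ FR (A2 s) (A1 s) (rad S0 U2) (rad S0 U1) l) :
    Γ2 * X + X.map d + X * Γ1ᵀ ∈ FR (A2 s) (A1 s) (rad S0 U2) (rad S0 U1) l := by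
  have hY' : ∀ s, ∀ v ∈ W, v * Y s * Hᵀ =
      v * (U1 * (X' s)ᵀ * U2ᵀ + U2 * ((X' s)ᵀ)ᵀ * U1ᵀ) * Hᵀ := by
    intro s v hv
    rw [hY s v hv, transpose_transpose, add_comm]
  have w1 := wt h hP m fr hY hN1 hF hS0 hA1 hA2 s
  have w2 := wt h hP m fr.symm hY' hN2 hF hS0 hA2 hA1 s
  refine nm_mem (a2 := -(2 * (d c2 / c2))) (a1 := -(2 * (d c1 / c1))) (fun v => ?_) (fun v => ?_)
    (fun r hr => rad_A h.data fr.symm hA2 s hr) (fun r hr => rad_A h.data fr hA1 s hr)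
    (fun r hr => ?_) (fun r hr => ?_) hX
  · rw [mem_rad, neg_smul, sub_neg_eq_add, ← smul_mulVec, ← add_mulVec, mulVec_mulVec, w2,
      zero_mulVec]
  · rw [mem_rad, neg_smul, sub_neg_eq_add, ← smul_mulVec, ← add_mulVec, mulVec_mulVec, w1,
      zero_mulVec]
  · rw [mem_rad] at hr ⊢
    exact rad_nab h hP m fr.symm hY' hN2 hF hS0 hr
  · rw [mem_rad] at hr ⊢
    exact rad_nab h hP m fr hY hN1 hF hS0 hr

omit [DecidableEq ι] [DecidableEq n1] [DecidableEq n2] in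
theorem vec_img (S1 : Matrix δ δ K) (x : n2 → K) (y : n1 → K) (s : Fin 3)
    {η : Matrix ι ι K} (hS0 : S1 = Fᵀ * η * F) :
    F * (U2 * vecMulVec x y * U1ᵀ) * S1 * E K arm s =
      vecMulVec ((F * U2) *ᵥ x) ((F * U1) *ᵥ y) * η * F * E K arm s := by
  have e1 : F * (U2 * vecMulVec x y * U1ᵀ) * Fᵀ =
      vecMulVec ((F * U2) *ᵥ x) ((F * U1) *ᵥ y) := by
    rw [← Matrix.mul_assoc, ← Matrix.mul_assoc, Matrix.mul_assoc _ U1ᵀ, ← transpose_mul,
      Matrix.mul_vecMulVec, Matrix.vecMulVec_mul, vecMul_transpose]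
  rw [← e1, hS0]
  simp only [Matrix.mul_assoc]

omit [DecidableEq ι] in
/-- the image of `FR` in a submodule containing the generators -/
theorem img_mem {Q : Submodule K (Matrix ι δ K)} {A1 : Matrix n1 n1 K} {A2 : Matrix n2 n2 K}
    {R2 : Submodule K (n2 → K)} {R1 : Submodule K (n1 → K)} {l : ℕ} {s : Fin 3}
    {η : Matrix ι ι K} (hS0 : S0 = Fᵀ * η * F)
    (g1 : ∀ i j, i + j + 1 = l → ∀ x y, vecMulVec ((F * U2) *ᵥ ((A2 ^ i) *ᵥ x))
      ((F * U1) *ᵥ ((A1 ^ j) *ᵥ y)) * η * F * E K arm s ∈ Q)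
    (g2 : ∀ r ∈ R2, ∀ y, vecMulVec ((F * U2) *ᵥ r) ((F * U1) *ᵥ y) * η * F * E K arm s ∈ Q)
    (g3 : ∀ x, ∀ r ∈ R1, vecMulVec ((F * U2) *ᵥ x) ((F * U1) *ᵥ r) * η * F * E K arm s ∈ Q)
    {X : Matrix n2 n1 K} (hX : X ∈ FR A2 A1 R2 R1 l) :
    F * (U2 * X * U1ᵀ) * S0 * E K arm s ∈ Q := by
  induction hX using Submodule.span_induction with
  | mem M hM =>
    rcases hM with ⟨i, j, x, y, hij, rfl⟩ | ⟨r, hr, y, rfl⟩ | ⟨x, r, hr, rfl⟩
    · rw [vec_img S0 _ _ s hS0]; exact g1 i j hij x y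
    · rw [vec_img S0 _ _ s hS0]; exact g2 r hr y
    · rw [vec_img S0 _ _ s hS0]; exact g3 x r hr
  | zero => simp
  | add X Y _ _ h1 h2 =>
    rw [Matrix.mul_add, Matrix.add_mul, Matrix.mul_add, Matrix.add_mul, Matrix.add_mul]
    exact Q.add_mem h1 h2
  | smul c X _ h1 =>
    rw [Matrix.mul_smul, Matrix.smul_mul, Matrix.mul_smul, Matrix.smul_mul, Matrix.smul_mul]
    exact Q.smul_mem c h1

end frame

end Crest.Agent.R172.SL2g560
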