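import Crest.Agent.R172.SFil

/-!
Row 172 (S0260), S-side (t2), second level: the filtered tensors of a pair of blocks in coordinates,
their stability under a connection, and the `21`/`12`-parts of the second derivative.
-/

set_option autoImplicit false
set_option linter.unusedSectionVars false
set_option linter.unusedFintypeInType false
set_option linter.unusedDecidableInType false

namespace Crest.Agent.R172.SLev2a

open Matrix Module Crest.Agent.R172.FO Crest.Agent.R172.SEnd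

variable {K : Type*} [Field K]
variable {n1 n2 : Type*} [Fintype n1] [DecidableEq n1] [Fintype n2] [DecidableEq n2]

/-- the generators of the filtered tensors -/
def gens (A1 G1 : Matrix n1 n1 K) (A2 G2 : Matrix n2 n2 K) (l : ℕ) : Set (Matrix n2 n1 K) :=
  {m | (∃ i j x y, i + j + 1 = l ∧ m = vecMulVec ((A2 ^ i) *ᵥ x) ((A1 ^ j) *ᵥ y)) ∨
    (∃ r y, G2 *ᵥ r = 0 ∧ m = vecMulVec r y) ∨ (∃ x r, G1 *ᵥ r = 0 ∧ m = vecMulVec x r)}

/-- the filtered tensors -/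
def FilG (A1 G1 : Matrix n1 n1 K) (A2 G2 : Matrix n2 n2 K) (l : ℕ) : Submodule K (Matrix n2 n1 K) :=
  Submodule.span K (gens A1 G1 A2 G2 l)

section fil

variable {A1 G1 : Matrix n1 n1 K} {A2 G2 : Matrix n2 n2 K} {l : ℕ}

theorem mem_Rd_top {m : Type*} [Fintype m] [DecidableEq m] {η : Matrix m m K} {r : m → K} :
    r ∈ Rd η ⊤ ↔ η *ᵥ r = 0 := by
  constructor
  · rintro ⟨-, h⟩
    funext i
    have h1 := h (Pi.single i 1) trivial
    rwa [single_one_dotProduct] at h1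
  · intro h
    exact ⟨trivial, fun b _ => by rw [h, dotProduct_zero]⟩

theorem blk_pow (A2 : Matrix n2 n2 K) (A1 : Matrix n1 n1 K) (v : ℕ) :
    (fromBlocks A2 0 0 A1) ^ v = fromBlocks (A2 ^ v) 0 0 (A1 ^ v) := by
  induction v with
  | zero => simp
  | succ v ih => rw [pow_succ, ih, fromBlocks_multiply]; simp [pow_succ]

theorem diag_mulVec (A2 : Matrix n2 n2 K) (A1 : Matrix n1 n1 K) (a : n2 → K) (b : n1 → K) :
    fromBlocks A2 0 0 A1 *ᵥ Sum.elim a b = Sum.elim (A2 *ᵥ a) (A1 *ᵥ b) := by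
  rw [fromBlocks_mulVec]
  simp

theorem diag_mulVec' (A2 : Matrix n2 n2 K) (A1 : Matrix n1 n1 K) (a : n2 ⊕ n1 → K) :
    fromBlocks A2 0 0 A1 *ᵥ a = Sum.elim (A2 *ᵥ (a ∘ Sum.inl)) (A1 *ᵥ (a ∘ Sum.inr)) := by
  rw [fromBlocks_mulVec]
  simp

/-- the upper right block -/
def ur (K : Type*) [Field K] (n2 n1 : Type*) :
    Matrix (n2 ⊕ n1) (n2 ⊕ n1) K →ₗ[K] Matrix n2 n1 K where
  toFun M := M.toBlocks₁₂
  map_add' _ _ := rfl
  map_smul' _ _ := rfl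

theorem ur_vec (a b : n2 ⊕ n1 → K) :
    ur K n2 n1 (vecMulVec a b) = vecMulVec (a ∘ Sum.inl) (b ∘ Sum.inr) := rfl

theorem adj_pow' {m : Type*} [Fintype m] [DecidableEq m] {A G : Matrix m m K}
    (ha : Aᵀ * G = -(G * A)) (v : ℕ) : G * A ^ v = (-Aᵀ) ^ v * G := by
  induction v with
  | zero => simp
  | succ v ih =>
    rw [pow_succ, ← Matrix.mul_assoc, ih, Matrix.mul_assoc, pow_succ, Matrix.mul_assoc,
      Matrix.neg_mul, ha, neg_neg]

/-- **an exact tensor (modulo the radicals) is filtered** -/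
theorem fil_of (hG1 : G1ᵀ = -G1) (hG2 : G2ᵀ = -G2) (ha1 : A1ᵀ * G1 = -(G1 * A1))
    (ha2 : A2ᵀ * G2 = -(G2 * A2)) (hl1 : G1 * A1 ^ l = 0) (hl2 : G2 * A2 ^ l = 0)
    (hf1 : ∀ v ≤ l, ∀ x, G1 *ᵥ ((A1 ^ (l - v)) *ᵥ x) = 0 → ∃ y, G1 *ᵥ (x - (A1 ^ v) *ᵥ y) = 0)
    (hf2 : ∀ v ≤ l, ∀ x, G2 *ᵥ ((A2 ^ (l - v)) *ᵥ x) = 0 → ∃ y, G2 *ᵥ (x - (A2 ^ v) *ᵥ y) = 0)
    {c : K} {X : Matrix n2 n1 K} (hX : G2 * (X * A1ᵀ - c • (A2 * X)) * G1 = 0) :
    X ∈ FilG A1 G1 A2 G2 l := by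
  have h0 : G2 * X * G1 * A1 = -(c • (G2 * A2 * X * G1)) := by
    have e1 : G2 * X * G1 * A1 = -(G2 * X * (A1ᵀ * G1)) := by
      rw [ha1, Matrix.mul_neg, neg_neg]; simp only [Matrix.mul_assoc]
    have e2 := hX
    rw [Matrix.mul_sub, Matrix.sub_mul, sub_eq_zero, Matrix.mul_smul, Matrix.smul_mul] at e2
    rw [e1, ← Matrix.mul_assoc (G2 * X), Matrix.mul_assoc G2 X, e2]
    simp only [Matrix.mul_assoc]
  have key : ∀ v : ℕ, G2 * (X * G1 * A1 ^ v) = (-c) ^ v • (G2 * (A2 ^ v * (X * G1))) := by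
    intro v
    induction v with
    | zero => simp
    | succ v ih =>
      have e1 : G2 * (X * G1 * A1 ^ (v + 1)) = G2 * (X * G1 * A1 ^ v) * A1 := by
        rw [pow_succ]; simp only [Matrix.mul_assoc]
      rw [e1, ih, Matrix.smul_mul, ← Matrix.mul_assoc G2 (A2 ^ v), adj_pow' ha2]
      have e2 : (-A2ᵀ) ^ v * G2 * (X * G1) * A1 = (-A2ᵀ) ^ v * (G2 * X * G1 * A1) := by
        simp only [Matrix.mul_assoc]
      rw [e2, h0, Matrix.mul_neg, Matrix.mul_smul]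
      have e3 : (-A2ᵀ) ^ v * (G2 * A2 * X * G1) = G2 * (A2 ^ (v + 1) * (X * G1)) := by
        have : (-A2ᵀ) ^ v * (G2 * A2 * X * G1) = ((-A2ᵀ) ^ v * G2) * (A2 * X * G1) := by
          simp only [Matrix.mul_assoc]
        rw [this, ← adj_pow' ha2, pow_succ]
        simp only [Matrix.mul_assoc]
      rw [e3, pow_succ (-c) v]
      module
  have hmem := SFil.fil_mem (Φ := fromBlocks A2 0 0 A1) (η := fromBlocks G2 0 0 G1)
    (P := (⊤ : Submodule K (n2 ⊕ n1 → K))) (l := l)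
    (by rw [fromBlocks_transpose, fromBlocks_neg, hG1, hG2]; simp)
    (by
      rw [fromBlocks_transpose, fromBlocks_multiply, fromBlocks_multiply, fromBlocks_neg]
      simp [ha1, ha2])
    (fun _ _ => trivial)
    (fun c _ => by
      rw [mem_Rd_top, blk_pow, mulVec_mulVec, fromBlocks_multiply, hl1, hl2]
      simp)
    (fun v hv c _ h => by
      rw [mem_Rd_top, blk_pow, fromBlocks_mulVec, fromBlocks_mulVec] at h
      have e2 := congrArg (fun u => u ∘ Sum.inl) h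
      have e1 := congrArg (fun u => u ∘ Sum.inr) h
      obtain ⟨y2, hy2⟩ := hf2 v hv (c ∘ Sum.inl) (by
        funext i; have := congrFun e2 i; simpa using this)
      obtain ⟨y1, hy1⟩ := hf1 v hv (c ∘ Sum.inr) (by
        funext i; have := congrFun e1 i; simpa using this)
      refine ⟨Sum.elim y2 y1, trivial, ?_⟩
      rw [mulVec_sub, sub_eq_zero] at hy1 hy2
      rw [mem_Rd_top, blk_pow, diag_mulVec, mulVec_sub, diag_mulVec, diag_mulVec', hy1, hy2,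
        sub_self])
    (S := (FilG A1 G1 A2 G2 l).comap (ur K n2 n1))
    (fun r hr b _ => by
      rw [mem_Rd_top, fromBlocks_mulVec] at hr
      have e2 := congrArg (fun u => u ∘ Sum.inl) hr
      rw [Submodule.mem_comap, ur_vec]
      refine Submodule.subset_span (Or.inr (Or.inl ⟨_, _, ?_, rfl⟩))
      funext i; have := congrFun e2 i; simpa using this)
    (fun b _ r hr => by
      rw [mem_Rd_top, fromBlocks_mulVec] at hr
      have e1 := congrArg (fun u => u ∘ Sum.inr) hr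
      rw [Submodule.mem_comap, ur_vec]
      refine Submodule.subset_span (Or.inr (Or.inr ⟨_, _, ?_, rfl⟩))
      funext i; have := congrFun e1 i; simpa using this)
    (fun i j hij a _ b _ => by
      rw [Submodule.mem_comap, ur_vec, blk_pow, blk_pow, fromBlocks_mulVec, fromBlocks_mulVec]
      refine Submodule.subset_span (Or.inl ⟨i, j, a ∘ Sum.inl, b ∘ Sum.inr, hij, ?_⟩)
      simp)
    (x := fromBlocks 0 X 0 0)
    ⟨fun _ => trivial, fun _ => trivial⟩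
    (fun v c0 _ => by
      refine ⟨Sum.elim ((-c) ^ v • ((X * G1) *ᵥ (c0 ∘ Sum.inr))) 0, trivial, ?_⟩
      have hb : fromBlocks 0 X 0 0 * fromBlocks G2 0 0 G1 * (fromBlocks A2 0 0 A1) ^ v =
          fromBlocks 0 (X * G1 * A1 ^ v) 0 0 := by
        rw [blk_pow, fromBlocks_multiply, fromBlocks_multiply]; simp
      have hc : fromBlocks 0 (X * G1 * A1 ^ v) 0 0 *ᵥ c0 =
          Sum.elim ((X * G1 * A1 ^ v) *ᵥ (c0 ∘ Sum.inr)) (0 : n1 → K) := by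
        rw [fromBlocks_mulVec]; simp
      have h1 := congrArg (fun M => M *ᵥ (c0 ∘ Sum.inr)) (key v)
      rw [mem_Rd_top, hb, hc, mulVec_sub, blk_pow, diag_mulVec, diag_mulVec, diag_mulVec,
        mulVec_zero, mulVec_smul, mulVec_smul]
      have h2 : G2 *ᵥ (X * G1 * A1 ^ v) *ᵥ (c0 ∘ Sum.inr) =
          (-c) ^ v • (G2 *ᵥ A2 ^ v *ᵥ (X * G1) *ᵥ (c0 ∘ Sum.inr)) := by
        rw [mulVec_mulVec, mulVec_mulVec, mulVec_mulVec, ← smul_mulVec, Matrix.mul_assoc G2]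
        exact h1
      rw [h2]
      simp only [mulVec_zero, sub_self])
  rw [Submodule.mem_comap] at hmem
  exact hmem

end fil

section nab

variable {k : Type*} [Field k] [Algebra k K] {d : Derivation k K K}

/-- the derivative of a vector -/
def dv (d : Derivation k K K) {n : Type*} (x : n → K) : n → K := fun i => d (x i)

theorem dv_add {n : Type*} (x y : n → K) : dv d (x + y) = dv d x + dv d y := by
  funext i; simp [dv]

theorem dv_mulVec {m n : Type*} [Fintype n] (A : Matrix m n K) (x : n → K) :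
    dv d (A *ᵥ x) = (A.map d) *ᵥ x + A *ᵥ (dv d x) := by
  funext i
  simp only [dv, mulVec, dotProduct, map_sum, Derivation.leibniz, Pi.add_apply, Matrix.map_apply,
    smul_eq_mul, ← Finset.sum_add_distrib]
  exact Finset.sum_congr rfl fun j _ => by ring

/-- the connection on one side -/
def nv (d : Derivation k K K) {n : Type*} [Fintype n] (Γ : Matrix n n K) (x : n → K) : n → K :=
  dv d x + Γ *ᵥ x

variable {n : Type*} [Fintype n] [DecidableEq n] {A G Γ : Matrix n n K} {a g : K}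

theorem nv_rad (hG : G.map d = Γᵀ * G + G * Γ + g • G) {r : n → K} (hr : G *ᵥ r = 0) :
    G *ᵥ nv d Γ r = 0 := by
  have h1 := dv_mulVec (d := d) G r
  rw [hr, hG] at h1
  have h2 : dv d (0 : n → K) = 0 := by funext i; simp [dv]
  rw [h2, add_mulVec, add_mulVec, smul_mulVec, ← mulVec_mulVec, hr, mulVec_zero, smul_zero,
    zero_add, add_zero, ← mulVec_mulVec] at h1
  rw [nv, mulVec_add, add_comm]
  exact h1.symm

theorem nv_A (hA : G * (A.map d + Γ * A - A * Γ - a • A) = 0) (x : n → K) :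
    G *ᵥ (nv d Γ (A *ᵥ x) - A *ᵥ (nv d Γ x + a • x)) = 0 := by
  have h1 := congrArg (fun M => M *ᵥ x) hA
  simp only [zero_mulVec, ← mulVec_mulVec, sub_mulVec, add_mulVec, smul_mulVec] at h1
  rw [← h1, nv, nv, dv_mulVec]
  congr 1
  simp only [mulVec_add, mulVec_smul, mulVec_mulVec]
  module

theorem nv_pow (ha : Aᵀ * G = -(G * A))
    (hA : G * (A.map d + Γ * A - A * Γ - a • A) = 0) (i : ℕ) (x : n → K) :
    ∃ x', G *ᵥ (nv d Γ ((A ^ i) *ᵥ x) - (A ^ i) *ᵥ x') = 0 := by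
  induction i with
  | zero => exact ⟨nv d Γ x, by simp⟩
  | succ i ih =>
    obtain ⟨x', hx'⟩ := ih
    refine ⟨x' + a • x, ?_⟩
    have h1 := nv_A hA ((A ^ i) *ᵥ x)
    have h2 : G *ᵥ (A *ᵥ (nv d Γ ((A ^ i) *ᵥ x) - (A ^ i) *ᵥ x')) = 0 := by
      have e : G *ᵥ (A *ᵥ (nv d Γ ((A ^ i) *ᵥ x) - (A ^ i) *ᵥ x')) =
          -(Aᵀ *ᵥ (G *ᵥ (nv d Γ ((A ^ i) *ᵥ x) - (A ^ i) *ᵥ x'))) := by
        rw [mulVec_mulVec, mulVec_mulVec, ha, neg_mulVec, neg_neg]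
      rw [e, hx', mulVec_zero, neg_zero]
    have e : nv d Γ ((A ^ (i + 1)) *ᵥ x) - (A ^ (i + 1)) *ᵥ (x' + a • x) =
        (nv d Γ (A *ᵥ ((A ^ i) *ᵥ x)) - A *ᵥ (nv d Γ ((A ^ i) *ᵥ x) + a • ((A ^ i) *ᵥ x))) +
          A *ᵥ (nv d Γ ((A ^ i) *ᵥ x) - (A ^ i) *ᵥ x') := by
      rw [pow_succ', mulVec_mulVec]
      simp only [mulVec_add, mulVec_sub, mulVec_smul, mulVec_mulVec]
      module
    rw [e, mulVec_add, h1, h2, add_zero]

end nab

section stable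

variable {k : Type*} [Field k] [Algebra k K] {d : Derivation k K K}
variable {A1 G1 Γ1 : Matrix n1 n1 K} {A2 G2 Γ2 : Matrix n2 n2 K} {a1 a2 g1 g2 : K} {l : ℕ}

/-- the connection on the tensors -/
def nT (d : Derivation k K K) (Γ2 : Matrix n2 n2 K) (Γ1 : Matrix n1 n1 K) (X : Matrix n2 n1 K) :
    Matrix n2 n1 K := Γ2 * X + X.map d + X * Γ1ᵀ

theorem nT_add (X Y : Matrix n2 n1 K) : nT d Γ2 Γ1 (X + Y) = nT d Γ2 Γ1 X + nT d Γ2 Γ1 Y := by
  unfold nT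
  have : (X + Y).map d = X.map d + Y.map d := by ext i j; simp
  rw [this, Matrix.mul_add, Matrix.add_mul]
  abel

theorem nT_smul (c : K) (X : Matrix n2 n1 K) :
    nT d Γ2 Γ1 (c • X) = c • nT d Γ2 Γ1 X + d c • X := by
  unfold nT
  have : (c • X).map d = c • X.map d + d c • X := by
    ext i j
    simp only [map_apply, Matrix.smul_apply, smul_eq_mul, Derivation.leibniz, Matrix.add_apply]
    ring
  rw [this, Matrix.mul_smul, Matrix.smul_mul]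
  module

theorem nT_vec (x : n2 → K) (y : n1 → K) :
    nT d Γ2 Γ1 (vecMulVec x y) = vecMulVec (nv d Γ2 x) y + vecMulVec x (nv d Γ1 y) := by
  unfold nT nv
  rw [mul_vecMulVec, vecMulVec_mul, vecMul_transpose, add_vecMulVec, vecMulVec_add]
  have : (vecMulVec x y).map d = vecMulVec (dv d x) y + vecMulVec x (dv d y) := by
    ext i j
    simp only [map_apply, vecMulVec_apply, Derivation.leibniz, smul_eq_mul, Matrix.add_apply, dv]
    ring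
  rw [this]
  abel

theorem mem_left {r : n2 → K} (hr : G2 *ᵥ r = 0) (y : n1 → K) :
    vecMulVec r y ∈ FilG A1 G1 A2 G2 l :=
  Submodule.subset_span (Or.inr (Or.inl ⟨r, y, hr, rfl⟩))

theorem mem_right (x : n2 → K) {r : n1 → K} (hr : G1 *ᵥ r = 0) :
    vecMulVec x r ∈ FilG A1 G1 A2 G2 l :=
  Submodule.subset_span (Or.inr (Or.inr ⟨x, r, hr, rfl⟩))

theorem mem_pow {i j : ℕ} (hij : i + j + 1 = l) (x : n2 → K) (y : n1 → K) :
    vecMulVec ((A2 ^ i) *ᵥ x) ((A1 ^ j) *ᵥ y) ∈ FilG A1 G1 A2 G2 l :=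
  Submodule.subset_span (Or.inl ⟨i, j, x, y, hij, rfl⟩)

/-- **the filtered tensors are stable under the connection** -/
theorem nT_mem (ha1 : A1ᵀ * G1 = -(G1 * A1)) (ha2 : A2ᵀ * G2 = -(G2 * A2))
    (hA1 : G1 * (A1.map d + Γ1 * A1 - A1 * Γ1 - a1 • A1) = 0)
    (hA2 : G2 * (A2.map d + Γ2 * A2 - A2 * Γ2 - a2 • A2) = 0)
    (hG1 : G1.map d = Γ1ᵀ * G1 + G1 * Γ1 + g1 • G1)
    (hG2 : G2.map d = Γ2ᵀ * G2 + G2 * Γ2 + g2 • G2)
    {X : Matrix n2 n1 K} (hX : X ∈ FilG A1 G1 A2 G2 l) :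
    nT d Γ2 Γ1 X ∈ FilG A1 G1 A2 G2 l := by
  refine Submodule.span_induction (p := fun X _ => nT d Γ2 Γ1 X ∈ FilG A1 G1 A2 G2 l)
    ?_ ?_ ?_ ?_ hX
  · rintro m (⟨i, j, x, y, hij, rfl⟩ | ⟨r, y, hr, rfl⟩ | ⟨x, r, hr, rfl⟩)
    · obtain ⟨x', hx'⟩ := nv_pow ha2 hA2 i x
      obtain ⟨y', hy'⟩ := nv_pow ha1 hA1 j y
      rw [nT_vec]
      refine Submodule.add_mem _ ?_ ?_
      · have e : vecMulVec (nv d Γ2 ((A2 ^ i) *ᵥ x)) ((A1 ^ j) *ᵥ y) =
            vecMulVec (nv d Γ2 ((A2 ^ i) *ᵥ x) - (A2 ^ i) *ᵥ x') ((A1 ^ j) *ᵥ y) +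
              vecMulVec ((A2 ^ i) *ᵥ x') ((A1 ^ j) *ᵥ y) := by
          rw [← add_vecMulVec, sub_add_cancel]
        rw [e]
        exact Submodule.add_mem _ (mem_left hx' _) (mem_pow hij _ _)
      · have e : vecMulVec ((A2 ^ i) *ᵥ x) (nv d Γ1 ((A1 ^ j) *ᵥ y)) =
            vecMulVec ((A2 ^ i) *ᵥ x) (nv d Γ1 ((A1 ^ j) *ᵥ y) - (A1 ^ j) *ᵥ y') +
              vecMulVec ((A2 ^ i) *ᵥ x) ((A1 ^ j) *ᵥ y') := by
          rw [← vecMulVec_add, sub_add_cancel]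
        rw [e]
        exact Submodule.add_mem _ (mem_right _ hy') (mem_pow hij _ _)
    · rw [nT_vec]
      exact Submodule.add_mem _ (mem_left (nv_rad hG2 hr) _) (mem_left hr _)
    · rw [nT_vec]
      exact Submodule.add_mem _ (mem_right _ hr) (mem_right _ (nv_rad hG1 hr))
  · have : nT d Γ2 Γ1 (0 : Matrix n2 n1 K) = 0 := by
      unfold nT
      have : (0 : Matrix n2 n1 K).map d = 0 := by ext i j; simp
      rw [this]; simp
    rw [this]; exact Submodule.zero_mem _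
  · intro x y _ _ hx hy
    rw [nT_add]; exact Submodule.add_mem _ hx hy
  · intro c x hx' hx
    rw [nT_smul]
    exact Submodule.add_mem _ (Submodule.smul_mem _ _ hx) (Submodule.smul_mem _ _ hx')

theorem FilG_le {E : Type*} [AddCommGroup E] [Module K E] (L : Matrix n2 n1 K →ₗ[K] E)
    {Q : Submodule K E}
    (h1 : ∀ i j, i + j + 1 = l → ∀ x y, L (vecMulVec ((A2 ^ i) *ᵥ x) ((A1 ^ j) *ᵥ y)) ∈ Q)
    (h2 : ∀ r y, G2 *ᵥ r = 0 → L (vecMulVec r y) ∈ Q)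
    (h3 : ∀ x r, G1 *ᵥ r = 0 → L (vecMulVec x r) ∈ Q)
    {X : Matrix n2 n1 K} (hX : X ∈ FilG A1 G1 A2 G2 l) : L X ∈ Q := by
  have : FilG A1 G1 A2 G2 l ≤ Q.comap L := by
    refine Submodule.span_le.2 ?_
    rintro m (⟨i, j, x, y, hij, rfl⟩ | ⟨r, y, hr, rfl⟩ | ⟨x, r, hr, rfl⟩)
    · exact h1 i j hij x y
    · exact h2 r y hr
    · exact h3 x r hr
  exact this hX

theorem FilG_transpose {X : Matrix n2 n1 K} (hX : X ∈ FilG A1 G1 A2 G2 l) :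
    Xᵀ ∈ FilG A2 G2 A1 G1 l := by
  refine FilG_le (A1 := A1) (G1 := G1) (A2 := A2) (G2 := G2) (l := l)
    (Matrix.transposeLinearEquiv n2 n1 K K).toLinearMap (fun i j hij x y => ?_) (fun r y hr => ?_)
    (fun x r hr => ?_) hX
  · change (vecMulVec ((A2 ^ i) *ᵥ x) ((A1 ^ j) *ᵥ y))ᵀ ∈ _
    rw [transpose_vecMulVec]
    exact mem_pow (by omega) _ _
  · change (vecMulVec r y)ᵀ ∈ _
    rw [transpose_vecMulVec]
    exact mem_right _ hr
  · change (vecMulVec x r)ᵀ ∈ _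
    rw [transpose_vecMulVec]
    exact mem_left hr _

end stable

section parts

variable {k : Type*} [Field k] [Algebra k K] {d : Derivation k K K}
variable {A1 G1 Γ1 : Matrix n1 n1 K} {A2 G2 Γ2 : Matrix n2 n2 K} {a1 a2 g1 g2 : K} {l : ℕ}
variable {ι : Type*} [Fintype ι] [DecidableEq ι] {δ : Type*} [Fintype δ] [DecidableEq δ]

/-- `M ↦ F (U M Vᵀ) S E` -/
def qL (F : Matrix ι δ K) (U : Matrix δ n2 K) (V : Matrix δ n1 K) (S E : Matrix δ δ K) :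
    Matrix n2 n1 K →ₗ[K] Matrix ι δ K where
  toFun M := F * (U * M * Vᵀ) * S * E
  map_add' a b := by
    rw [Matrix.mul_add, Matrix.add_mul, Matrix.mul_add, Matrix.add_mul, Matrix.add_mul]
  map_smul' c a := by
    rw [Matrix.mul_smul, Matrix.smul_mul, Matrix.mul_smul, Matrix.smul_mul, Matrix.smul_mul]
    rfl

theorem qL_apply (F : Matrix ι δ K) (U : Matrix δ n2 K) (V : Matrix δ n1 K)
    (S E : Matrix δ δ K) (M : Matrix n2 n1 K) : qL F U V S E M = F * (U * M * Vᵀ) * S * E := rfl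

/-- the elementary tensors in `K^ι` -/
theorem qL_vec (F : Matrix ι δ K) (U : Matrix δ n2 K) (V : Matrix δ n1 K) (J P : Matrix ι ι K)
    (E : Matrix δ δ K) (x : n2 → K) (y : n1 → K) :
    qL F U V (Fᵀ * J * (P * F)) E (vecMulVec x y) =
      vecMulVec ((F * U) *ᵥ x) ((F * V) *ᵥ y) * (J * P) * F * E := by
  rw [qL_apply]
  have h1 : vecMulVec ((F * U) *ᵥ x) ((F * V) *ᵥ y) = (F * U) * vecMulVec x y * (F * V)ᵀ := by
    rw [mul_vecMulVec, vecMulVec_mul, vecMul_transpose]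
  rw [h1, transpose_mul]
  simp only [Matrix.mul_assoc]

/-- **the `21`-part of the second derivative.** -/
theorem gam_mem (ha1 : A1ᵀ * G1 = -(G1 * A1)) (ha2 : A2ᵀ * G2 = -(G2 * A2))
    (hA1 : G1 * (A1.map d + Γ1 * A1 - A1 * Γ1 - a1 • A1) = 0)
    (hA2 : G2 * (A2.map d + Γ2 * A2 - A2 * Γ2 - a2 • A2) = 0)
    (hG1 : G1.map d = Γ1ᵀ * G1 + G1 * Γ1 + g1 • G1)
    (hG2 : G2.map d = Γ2ᵀ * G2 + G2 * Γ2 + g2 • G2)
    {F : Matrix ι δ K} {U1 : Matrix δ n1 K} {U2 : Matrix δ n2 K} {S E : Matrix δ δ K}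
    {Q : Submodule K (Matrix ι δ K)}
    (h1 : ∀ i j, i + j + 1 = l → ∀ x y,
      qL F U2 U1 S E (vecMulVec ((A2 ^ i) *ᵥ x) ((A1 ^ j) *ᵥ y)) ∈ Q)
    (h2 : ∀ r y, G2 *ᵥ r = 0 → qL F U2 U1 S E (vecMulVec r y) ∈ Q)
    (h3 : ∀ x r, G1 *ᵥ r = 0 → qL F U2 U1 S E (vecMulVec x r) ∈ Q)
    {X X' : Matrix n2 n1 K} (hX : X ∈ FilG A1 G1 A2 G2 l) (hX' : X' ∈ FilG A1 G1 A2 G2 l)
    (κ1 κ2 κ3 : K) :
    F * (U2 * (Γ2 * X + X.map d + X * (Γ1 - κ1 • (1 : Matrix n1 n1 K))ᵀ - κ2 • X + κ3 • X') *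
      U1ᵀ) * S * E ∈ Q := by
  have e : Γ2 * X + X.map d + X * (Γ1 - κ1 • (1 : Matrix n1 n1 K))ᵀ - κ2 • X + κ3 • X' =
      nT d Γ2 Γ1 X - κ1 • X - κ2 • X + κ3 • X' := by
    unfold nT
    rw [transpose_sub, transpose_smul, transpose_one, Matrix.mul_sub, Matrix.mul_smul,
      Matrix.mul_one]
    abel
  rw [e]
  refine FilG_le (qL F U2 U1 S E) h1 h2 h3 (Submodule.add_mem _ (Submodule.sub_mem _
    (Submodule.sub_mem _ (nT_mem ha1 ha2 hA1 hA2 hG1 hG2 hX) (Submodule.smul_mem _ _ hX))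
    (Submodule.smul_mem _ _ hX)) (Submodule.smul_mem _ _ hX'))

/-- **the `12`-part of the second derivative.** -/
theorem gam_mem_t {F : Matrix ι δ K} {U1 : Matrix δ n1 K} {U2 : Matrix δ n2 K}
    {S E : Matrix δ δ K} {Q : Submodule K (Matrix ι δ K)}
    (h1 : ∀ i j, i + j + 1 = l → ∀ x y,
      qL F U1 U2 S E (vecMulVec ((A1 ^ i) *ᵥ x) ((A2 ^ j) *ᵥ y)) ∈ Q)
    (h2 : ∀ r y, G1 *ᵥ r = 0 → qL F U1 U2 S E (vecMulVec r y) ∈ Q)
    (h3 : ∀ x r, G2 *ᵥ r = 0 → qL F U1 U2 S E (vecMulVec x r) ∈ Q)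
    {X' : Matrix n2 n1 K} (hX' : X' ∈ FilG A1 G1 A2 G2 l) (κ : K) :
    F * (κ • (U1 * X'ᵀ * U2ᵀ)) * S * E ∈ Q := by
  have h := FilG_le (qL F U1 U2 S E) h1 h2 h3 (FilG_transpose hX')
  rw [Matrix.mul_smul, Matrix.smul_mul, Matrix.smul_mul]
  exact Q.smul_mem κ h

theorem pow_comm' {m n : Type*} [Fintype m] [DecidableEq m] [Fintype n] [DecidableEq n]
    {Bm : Matrix m m K} {C : Matrix m n K} {A : Matrix n n K} (h : Bm * C = C * A) (i : ℕ) :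
    C * A ^ i = Bm ^ i * C := by
  induction i with
  | zero => simp
  | succ i ih => rw [pow_succ, ← Matrix.mul_assoc, ih, pow_succ, Matrix.mul_assoc, ← h,
      ← Matrix.mul_assoc]

theorem rad_down {m n : Type*} [Fintype m] [DecidableEq m] [Fintype n] [DecidableEq n]
    {Gm : Matrix m m K} {C : Matrix m n K} {G : Matrix n n K} (h : Cᵀ * Gm * C = G)
    (ho : ∀ v, ∃ u, C *ᵥ u = v) {r : n → K} (hr : G *ᵥ r = 0) : Gm *ᵥ (C *ᵥ r) = 0 := by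
  funext i
  obtain ⟨u, hu⟩ := ho (Pi.single i 1)
  have h1 : (C *ᵥ u) ⬝ᵥ (Gm *ᵥ (C *ᵥ r)) = 0 := by
    rw [← vecMul_transpose, ← dotProduct_mulVec, mulVec_mulVec, mulVec_mulVec, h, hr,
      dotProduct_zero]
  rw [hu, single_one_dotProduct] at h1
  exact h1

/-- the generator memberships for frames `U_i` over a V-level package `Q_i = ` (`F U_i = Q_i C_i`). -/
theorem frame_gens {m1 m2 : Type*} [Fintype m1] [DecidableEq m1] [Fintype m2] [DecidableEq m2]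
    {J P : Matrix ι ι K} {F : Matrix ι δ K} {U1 : Matrix δ n1 K} {U2 : Matrix δ n2 K}
    {E : Matrix δ δ K} {Q1 : Matrix ι m1 K} {Q2 : Matrix ι m2 K} {C1 : Matrix m1 n1 K}
    {C2 : Matrix m2 n2 K} {B1 : Matrix m1 m1 K} {B2 : Matrix m2 m2 K}
    {Q : Submodule K (Matrix ι δ K)}
    (c1 : F * U1 = Q1 * C1) (c2 : F * U2 = Q2 * C2)
    (o1 : ∀ v, ∃ u, C1 *ᵥ u = v) (o2 : ∀ v, ∃ u, C2 *ᵥ u = v)
    (b1 : B1 * C1 = C1 * A1) (b2 : B2 * C2 = C2 * A2)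
    (hg1 : C1ᵀ * (Q1ᵀ * (J * P) * Q1) * C1 = G1) (hg2 : C2ᵀ * (Q2ᵀ * (J * P) * Q2) * C2 = G2)
    (hq : ∀ i j, i + j + 1 = l → ∀ x y,
      vecMulVec (Q2 *ᵥ ((B2 ^ i) *ᵥ x)) (Q1 *ᵥ ((B1 ^ j) *ᵥ y)) * (J * P) * F * E ∈ Q)
    (hq2 : ∀ x y, (Q2ᵀ * (J * P) * Q2) *ᵥ x = 0 →
      vecMulVec (Q2 *ᵥ x) (Q1 *ᵥ y) * (J * P) * F * E ∈ Q)
    (hq1 : ∀ x y, (Q1ᵀ * (J * P) * Q1) *ᵥ y = 0 →
      vecMulVec (Q2 *ᵥ x) (Q1 *ᵥ y) * (J * P) * F * E ∈ Q) :
    (∀ i j, i + j + 1 = l → ∀ x y, qL F U2 U1 (Fᵀ * J * (P * F)) E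
      (vecMulVec ((A2 ^ i) *ᵥ x) ((A1 ^ j) *ᵥ y)) ∈ Q) ∧
    (∀ r y, G2 *ᵥ r = 0 → qL F U2 U1 (Fᵀ * J * (P * F)) E (vecMulVec r y) ∈ Q) ∧
    (∀ x r, G1 *ᵥ r = 0 → qL F U2 U1 (Fᵀ * J * (P * F)) E (vecMulVec x r) ∈ Q) := by
  refine ⟨fun i j hij x y => ?_, fun r y hr => ?_, fun x r hr => ?_⟩
  · have h := hq i j hij (C2 *ᵥ x) (C1 *ᵥ y)
    have k2 : (B2 ^ i) *ᵥ (C2 *ᵥ x) = C2 *ᵥ ((A2 ^ i) *ᵥ x) := by
      rw [mulVec_mulVec, mulVec_mulVec, pow_comm' b2]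
    have k1 : (B1 ^ j) *ᵥ (C1 *ᵥ y) = C1 *ᵥ ((A1 ^ j) *ᵥ y) := by
      rw [mulVec_mulVec, mulVec_mulVec, pow_comm' b1]
    rw [k1, k2] at h
    rw [qL_vec, c1, c2, ← mulVec_mulVec (_) Q2, ← mulVec_mulVec (_) Q1]
    exact h
  · rw [qL_vec, c1, c2, ← mulVec_mulVec, ← mulVec_mulVec]
    exact hq2 _ _ (rad_down hg2 o2 hr)
  · rw [qL_vec, c1, c2, ← mulVec_mulVec, ← mulVec_mulVec]
    exact hq1 _ _ (rad_down hg1 o1 hr)

end parts

end Crest.Agent.R172.SLev2a
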