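import Crest.Agent.R172.SLevR455
import Crest.Agent.R172.SL2g560
import Crest.Agent.R172.SLev2a

/-!
Row 172 (S0260), tame node (t2), level 2, leaf B4: the `21`- and `12`-parts of the second derivative
are in every submodule containing the generators of level 1 (frames of `UBlk.Qb` in `K^δ`).
-/

set_option autoImplicit false
set_option linter.unusedSectionVars false
set_option linter.unusedVariables false
set_option maxHeartbeats 1000000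

namespace Crest.Agent.R172.SB4x930

open Matrix Module Crest.Agent.R172.FO Crest.Agent.R172.Qt
open Crest.Agent.R172.SpS Crest.Agent.R172.SEnd Crest.Agent.R172.SEnd2
open Crest.Agent.R172.Om (Kiso Scal)
open Crest.Agent.R172.PL (CoreM)
open Crest.Agent.R172.SUX (th wd ZY Mv)
open Crest.Agent.R172.UBlk (Qb Qb_rel Qb_exists Qb_stable Qb_map Qb_orth)
open Crest.Agent.R172.STop (Setup)
open Crest.Agent.R172.SLev0 (PbK)
open Crest.Agent.R172.SLevR455 (Qn mem_PbK map_mem_PbK PC_eq PC_ind)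
open Crest.Agent.R172.SLev2a

variable {ι : Type} [Fintype ι] [DecidableEq ι] {δ : Type} [Fintype δ] [DecidableEq δ]
variable {K : Type} [Field K] [Algebra ℂ K] [IsAlgClosed K]
variable {arm : δ → Fin 3} {J : Matrix ι ι K} {B : Matrix δ δ K} {N W : Submodule K (Matrix ι δ K)}
  {F f : Matrix ι δ K} {P : Matrix ι ι K × (Fin 3 → Matrix ι ι K)} {R : Matrix δ ι K}
  {D : End K (CoreM (PhS arm J B F R P.1))} {l : Fin 3 → ℕ}

theorem mem_frame {Q : Submodule K (δ → K)} {n : Type*} [Fintype n] {U : Matrix δ n K}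
    (hU : UFr.Cq Q U) (x : n → K) : U *ᵥ x ∈ Q := by
  have h : U *ᵥ x = ∑ j, x j • (fun d => U d j) := by
    funext i
    simp only [mulVec, dotProduct, Finset.sum_apply, Pi.smul_apply, smul_eq_mul]
    exact Finset.sum_congr rfl fun j _ => mul_comm _ _
  rw [h]
  exact Q.sum_mem fun j _ => Q.smul_mem _ (hU j)

theorem act (S : Setup arm J B N W F f P R D l) {n : Type*} [Fintype n] {U : Matrix δ n K}
    {a : Matrix n n K} {s : Fin 3} (ha : B * E K arm s * (Fᵀ * J * (P.1 * F)) * U = U * a) :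
    (M arm B s F F * (J * P.1)) * (F * U) = F * U * a := by
  have hBE := (S.hCtx F S.hF).data.B_arm s
  calc (M arm B s F F * (J * P.1)) * (F * U)
      = F * ((E K arm s * B) * (Fᵀ * J * (P.1 * F)) * U) := by
        unfold M; simp only [Matrix.mul_assoc]
    _ = F * (B * E K arm s * (Fᵀ * J * (P.1 * F)) * U) := by rw [hBE]
    _ = F * U * a := by rw [ha, Matrix.mul_assoc]

theorem act_pow (S : Setup arm J B N W F f P R D l) {n : Type*} [Fintype n] [DecidableEq n]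
    {U : Matrix δ n K} {a : Matrix n n K} {s : Fin 3}
    (ha : B * E K arm s * (Fᵀ * J * (P.1 * F)) * U = U * a) (i : ℕ) (x : n → K) :
    ((M arm B s F F * (J * P.1)) ^ i) *ᵥ (F *ᵥ (U *ᵥ x)) = F *ᵥ (U *ᵥ ((a ^ i) *ᵥ x)) := by
  have h := pow_comm' (act S ha) i
  have h2 := congrArg (fun A => A *ᵥ x) h
  simp only [← mulVec_mulVec] at h2
  exact h2.symm

theorem gram (x y : δ → K) : (F *ᵥ x) ⬝ᵥ ((J * P.1) *ᵥ (F *ᵥ y)) =
    x ⬝ᵥ ((Fᵀ * J * (P.1 * F)) *ᵥ y) := by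
  rw [form_gg]
  simp only [Matrix.mul_assoc]

theorem gramU {n : Type*} [Fintype n] {U : Matrix δ n K} (x y : n → K) :
    (F *ᵥ (U *ᵥ x)) ⬝ᵥ ((J * P.1) *ᵥ (F *ᵥ (U *ᵥ y))) =
      x ⬝ᵥ ((Uᵀ * (Fᵀ * J * (P.1 * F)) * U) *ᵥ y) := by
  rw [gram, ← vecMul_transpose, ← dotProduct_mulVec, mulVec_mulVec, mulVec_mulVec,
    ← Matrix.mul_assoc]

theorem stab (S : Setup arm J B N W F f P R D l) {μ : K} (s : Fin 3) (v : ℕ) {u : δ → K}
    (hu : u ∈ Qn S μ) :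
    ∃ u' ∈ Qn S μ, ((M arm B s F F * (J * P.1)) ^ v) *ᵥ (F *ᵥ u) = F *ᵥ u' := by
  induction v with
  | zero => exact ⟨u, hu, by rw [pow_zero, one_mulVec]⟩
  | succ v ih =>
    obtain ⟨u', hu', e⟩ := ih
    refine ⟨_, Qb_stable (S.hCtx F S.hF) S.hR S.hD s hu', ?_⟩
    have hBE := (S.hCtx F S.hF).data.B_arm s
    rw [pow_succ', ← mulVec_mulVec, e, mulVec_mulVec, UBlk.om_apply, mulVec_mulVec]
    congr 1
    calc (M arm B s F F * (J * P.1)) * F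
        = F * ((E K arm s * B) * (Fᵀ * J * (P.1 * F))) := by
          unfold M; simp only [Matrix.mul_assoc]
      _ = F * (B * E K arm s * (Fᵀ * J * (P.1 * F))) := by rw [hBE]
      _ = _ := by unfold th; simp only [Matrix.mul_assoc]

theorem orth' (S : Setup arm J B N W F f P R D l) {μ μ' : K} (hne : μ ≠ μ') {u u' : δ → K}
    (hu : u ∈ Qn S μ) (hu' : u' ∈ Qn S μ') :
    (F *ᵥ u) ⬝ᵥ ((J * P.1) *ᵥ (F *ᵥ u')) = 0 := by
  rw [gram]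
  exact Qb_orth (S.hCtx F S.hF) S.hR S.hD (S.hNil F S.hF) S.hP (S.hCtx f S.hf).mem hne hu hu'

theorem mem_PC (S : Setup arm J B N W F f P R D l) {μ : K} {u : δ → K} (hu : u ∈ Qn S μ) :
    F *ᵥ u ∈ PC arm J B F R P.1 := by
  rw [PC_eq S]
  exact Submodule.mem_iSup_of_mem μ (map_mem_PbK S hu)

/-- the `ν`-component of an element of `PC` as seen by the block `ν` -/
theorem comp (S : Setup arm J B N W F f P R D l) {ν : K} {n : Type*} [Fintype n] [DecidableEq n]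
    {U : Matrix δ n K} {a : Matrix n n K} {s : Fin 3} (hU : UFr.Cq (Qn S ν) U)
    (hsp : ∀ u ∈ Qn S ν, ∃ x, u = U *ᵥ x)
    (ha : B * E K arm s * (Fᵀ * J * (P.1 * F)) * U = U * a) (v : ℕ) :
    ∀ c ∈ PC arm J B F R P.1, ∃ y : n → K, ∀ x : n → K,
      (F *ᵥ (U *ᵥ x)) ⬝ᵥ ((J * P.1) *ᵥ (((M arm B s F F * (J * P.1)) ^ v) *ᵥ c)) =
        x ⬝ᵥ ((Uᵀ * (Fᵀ * J * (P.1 * F)) * U) *ᵥ ((a ^ v) *ᵥ y)) := by
  intro c hc
  rw [PC_eq S] at hc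
  refine Submodule.iSup_induction (p := fun μ => PbK arm J B F R P.1 D μ)
    (motive := fun c => ∃ y : n → K, ∀ x : n → K,
      (F *ᵥ (U *ᵥ x)) ⬝ᵥ ((J * P.1) *ᵥ (((M arm B s F F * (J * P.1)) ^ v) *ᵥ c)) =
        x ⬝ᵥ ((Uᵀ * (Fᵀ * J * (P.1 * F)) * U) *ᵥ ((a ^ v) *ᵥ y))) hc ?_ ?_ ?_
  · intro μ c hc
    obtain ⟨u, hu, rfl⟩ := mem_PbK S hc
    by_cases hμ : μ = ν
    · subst hμ
      obtain ⟨y, rfl⟩ := hsp u hu
      refine ⟨y, fun x => ?_⟩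
      rw [act_pow S ha, gramU]
    · refine ⟨0, fun x => ?_⟩
      obtain ⟨u', hu', e⟩ := stab S s v hu
      rw [e, orth' S (Ne.symm hμ) (mem_frame hU x) hu', mulVec_zero, mulVec_zero,
        dotProduct_zero]
  · exact ⟨0, fun x => by simp⟩
  · rintro c c' ⟨y, hy⟩ ⟨y', hy'⟩
    refine ⟨y + y', fun x => ?_⟩
    rw [mulVec_add, mulVec_add, dotProduct_add, hy, hy', mulVec_add, mulVec_add, dotProduct_add]

theorem zero_of_dot {n : Type*} [Fintype n] [DecidableEq n] {w : n → K}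
    (h : ∀ x : n → K, x ⬝ᵥ w = 0) : w = 0 := by
  funext i
  have h1 := h (Pi.single i 1)
  rwa [single_one_dotProduct] at h1

/-- **nilpotency and freeness (mod radical) of the frame of one block.** -/
theorem free_frame (S : Setup arm J B N W F f P R D l) {ν : K} {n : Type*} [Fintype n]
    [DecidableEq n] {U : Matrix δ n K} {a : Matrix n n K} {s : Fin 3}
    (hU : UFr.Cq (Qn S ν) U) (hsp : ∀ u ∈ Qn S ν, ∃ x, u = U *ᵥ x)
    (ha : B * E K arm s * (Fᵀ * J * (P.1 * F)) * U = U * a) :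
    (Uᵀ * (Fᵀ * J * (P.1 * F)) * U) * a ^ l s = 0 ∧
    ∀ v ≤ l s, ∀ x, (Uᵀ * (Fᵀ * J * (P.1 * F)) * U) *ᵥ ((a ^ (l s - v)) *ᵥ x) = 0 →
      ∃ y, (Uᵀ * (Fᵀ * J * (P.1 * F)) * U) *ᵥ (x - (a ^ v) *ᵥ y) = 0 := by
  obtain ⟨f1, f2⟩ := S.free s
  constructor
  · have h1 : ∀ y, ((Uᵀ * (Fᵀ * J * (P.1 * F)) * U) * a ^ l s) *ᵥ y = 0 := by
      intro y
      rw [← mulVec_mulVec]
      refine zero_of_dot fun x => ?_
      rw [← gramU, ← act_pow S ha]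
      exact (f1 _ (mem_PC S (mem_frame hU y))).2 _ (mem_PC S (mem_frame hU x))
    ext i j
    have h2 := congrFun (h1 (Pi.single j 1)) i
    simpa using h2
  · intro v hv x hx
    have hc := mem_PC S (mem_frame hU x)
    obtain ⟨c', hc', hr⟩ := f2 v hv _ hc (by
      rw [act_pow S ha]
      refine ⟨mem_PC S (mem_frame hU _), ?_⟩
      refine PC_ind S fun μ u hu => ?_
      by_cases hμ : μ = ν
      · subst hμ
        obtain ⟨z, rfl⟩ := hsp u hu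
        rw [gramU, hx, dotProduct_zero]
      · exact orth' S hμ hu (mem_frame hU _))
    obtain ⟨y, hy⟩ := comp S hU hsp ha v c' hc'
    refine ⟨y, zero_of_dot fun x' => ?_⟩
    have h3 := hr.2 _ (mem_PC S (mem_frame hU x'))
    rw [mulVec_sub, dotProduct_sub, hy, gramU] at h3
    rw [mulVec_sub, dotProduct_sub]
    exact h3

theorem S0_skew (S : Setup arm J B N W F f P R D l) :
    (Fᵀ * J * (P.1 * F))ᵀ = -(Fᵀ * J * (P.1 * F)) :=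
  UBlk.form_skew (S.hCtx F S.hF).data.J_symm S.hP

theorem G_skew (S : Setup arm J B N W F f P R D l) {n : Type*} [Fintype n] {U : Matrix δ n K} :
    (Uᵀ * (Fᵀ * J * (P.1 * F)) * U)ᵀ = -(Uᵀ * (Fᵀ * J * (P.1 * F)) * U) := by
  rw [transpose_mul, transpose_mul, transpose_transpose, S0_skew S]
  simp only [Matrix.neg_mul, Matrix.mul_neg, Matrix.mul_assoc]

theorem a_adj (S : Setup arm J B N W F f P R D l) {n : Type*} [Fintype n] {U : Matrix δ n K}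
    {a : Matrix n n K} {s : Fin 3} (ha : B * E K arm s * (Fᵀ * J * (P.1 * F)) * U = U * a) :
    aᵀ * (Uᵀ * (Fᵀ * J * (P.1 * F)) * U) = -((Uᵀ * (Fᵀ * J * (P.1 * F)) * U) * a) := by
  have hBE := (S.hCtx F S.hF).data.B_arm s
  have hBs := (S.hCtx F S.hF).data.B_symm
  have h1 : aᵀ * Uᵀ = -(Uᵀ * (Fᵀ * J * (P.1 * F)) * (B * E K arm s)) := by
    have hsk := S0_skew S
    generalize Fᵀ * J * (P.1 * F) = S0 at ha hsk ⊢
    rw [← transpose_mul, ← ha, transpose_mul, transpose_mul, transpose_mul, hsk,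
      E_transpose, hBs, hBE]
    simp only [Matrix.neg_mul, Matrix.mul_neg, Matrix.mul_assoc]
  calc aᵀ * (Uᵀ * (Fᵀ * J * (P.1 * F)) * U) = (aᵀ * Uᵀ) * ((Fᵀ * J * (P.1 * F)) * U) := by
        simp only [Matrix.mul_assoc]
    _ = -(Uᵀ * (Fᵀ * J * (P.1 * F)) * (B * E K arm s * (Fᵀ * J * (P.1 * F)) * U)) := by
        rw [h1]; simp only [Matrix.neg_mul, Matrix.mul_assoc]
    _ = _ := by rw [ha]; simp only [Matrix.mul_assoc]

/-- the generators of level 1 in frames -/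
theorem gens_q (S : Setup arm J B N W F f P R D l) {ν ν' : K} {n1 n2 : Type*} [Fintype n1]
    [DecidableEq n1] [Fintype n2] [DecidableEq n2] {U1 : Matrix δ n1 K} {U2 : Matrix δ n2 K}
    {a1 : Fin 3 → Matrix n1 n1 K} {a2 : Fin 3 → Matrix n2 n2 K}
    (hU1 : UFr.Cq (Qn S ν) U1) (hs1 : ∀ u ∈ Qn S ν, ∃ x, u = U1 *ᵥ x)
    (ha1 : ∀ s, B * E K arm s * (Fᵀ * J * (P.1 * F)) * U1 = U1 * a1 s)
    (hU2 : UFr.Cq (Qn S ν') U2) (hs2 : ∀ u ∈ Qn S ν', ∃ x, u = U2 *ᵥ x)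
    (ha2 : ∀ s, B * E K arm s * (Fᵀ * J * (P.1 * F)) * U2 = U2 * a2 s)
    {Q : Submodule K (Matrix ι δ K)}
    (g : SLev0.Gens arm J B F P.1 l Q (PbK arm J B F R P.1 D ν') (PbK arm J B F R P.1 D ν))
    (s : Fin 3) :
    (∀ i j, i + j + 1 = l s → ∀ x y, qL F U2 U1 (Fᵀ * J * (P.1 * F)) (E K arm s)
      (vecMulVec ((a2 s ^ i) *ᵥ x) ((a1 s ^ j) *ᵥ y)) ∈ Q) ∧
    (∀ r y, (U2ᵀ * (Fᵀ * J * (P.1 * F)) * U2) *ᵥ r = 0 →
      qL F U2 U1 (Fᵀ * J * (P.1 * F)) (E K arm s) (vecMulVec r y) ∈ Q) ∧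
    (∀ x r, (U1ᵀ * (Fᵀ * J * (P.1 * F)) * U1) *ᵥ r = 0 →
      qL F U2 U1 (Fᵀ * J * (P.1 * F)) (E K arm s) (vecMulVec x r) ∈ Q) := by
  refine ⟨fun i j hij x y => ?_, fun r y hr => ?_, fun x r hr => ?_⟩
  · rw [qL_vec, ← mulVec_mulVec, ← mulVec_mulVec, ← act_pow S (ha2 s), ← act_pow S (ha1 s)]
    exact g.g1 s i j hij _ (map_mem_PbK S (mem_frame hU2 x)) _ (map_mem_PbK S (mem_frame hU1 y))
  · rw [qL_vec, ← mulVec_mulVec, ← mulVec_mulVec]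
    refine g.g2 s _ ⟨map_mem_PbK S (mem_frame hU2 r), fun b hb => ?_⟩ _
      (map_mem_PbK S (mem_frame hU1 y))
    obtain ⟨u, hu, rfl⟩ := mem_PbK S hb
    obtain ⟨z, rfl⟩ := hs2 u hu
    rw [gramU, hr, dotProduct_zero]
  · rw [qL_vec, ← mulVec_mulVec, ← mulVec_mulVec]
    refine g.g3 s _ (map_mem_PbK S (mem_frame hU2 x)) _
      ⟨map_mem_PbK S (mem_frame hU1 r), fun b hb => ?_⟩
    obtain ⟨u, hu, rfl⟩ := mem_PbK S hb
    obtain ⟨z, rfl⟩ := hs1 u hu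
    rw [gramU, hr, dotProduct_zero]

/-- **B4.** the `21`- and `12`-parts of the second derivative -/
theorem parts (S : Setup arm J B N W F f P R D l) {ν ν' : K} {n1 n2 : Type} [Fintype n1]
    [DecidableEq n1] [Fintype n2] [DecidableEq n2] {U1 : Matrix δ n1 K} {U2 : Matrix δ n2 K}
    {a1 : Fin 3 → Matrix n1 n1 K} {a2 : Fin 3 → Matrix n2 n2 K}
    (hU1 : UFr.Cq (Qn S ν) U1) (hs1 : ∀ u ∈ Qn S ν, ∃ x, u = U1 *ᵥ x)
    (ha1 : ∀ s, B * E K arm s * (Fᵀ * J * (P.1 * F)) * U1 = U1 * a1 s)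
    (hU2 : UFr.Cq (Qn S ν') U2) (hs2 : ∀ u ∈ Qn S ν', ∃ x, u = U2 *ᵥ x)
    (ha2 : ∀ s, B * E K arm s * (Fᵀ * J * (P.1 * F)) * U2 = U2 * a2 s)
    {Q : Submodule K (Matrix ι δ K)}
    (g21 : SLev0.Gens arm J B F P.1 l Q (PbK arm J B F R P.1 D ν') (PbK arm J B F R P.1 D ν))
    (g12 : SLev0.Gens arm J B F P.1 l Q (PbK arm J B F R P.1 D ν) (PbK arm J B F R P.1 D ν'))
    {H : Matrix ι δ K} {Pt : Matrix ι ι K × (Fin 3 → Matrix ι ι K)} {Y : Fin 3 → Matrix δ δ K}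
    {d : Derivation ℂ K K} {c1 c2 : K} {X X' : Fin 3 → Matrix n2 n1 K} {Γ1 : Matrix n1 n1 K}
    {Γ2 : Matrix n2 n2 K} {β : Matrix n1 n2 K} {γ : Matrix n2 n1 K}
    (h : Ctx ℂ arm J B N W H) (hPt : Pt ∈ NN arm J N H) (m : Mv ℂ arm J N W H Pt.1 Y d)
    (fr : SUX.Fr J F H Pt.1 (Fᵀ * J * (P.1 * F)) c1 c2 U1 U2)
    (hY : ∀ s, ∀ v ∈ W, v * Y s * Hᵀ = v * (U2 * X' s * U1ᵀ + U1 * (X' s)ᵀ * U2ᵀ) * Hᵀ)
    (hN2 : ∀ v ∈ W, v * (U2.map d + ZY arm J H Pt.1 Y * U2) = v * (U2 * Γ2 + c2 ^ 2 • (U1 * β)))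
    (hN1 : ∀ v ∈ W, v * (U1.map d + ZY arm J H Pt.1 Y * U1) = v * (U1 * Γ1 + c1 ^ 2 • (U2 * γ)))
    {c c' : K}
    (hX : ∀ s, (U2ᵀ * (Fᵀ * J * (P.1 * F)) * U2) * (X s * (a1 s)ᵀ - c • (a2 s * X s)) *
      (U1ᵀ * (Fᵀ * J * (P.1 * F)) * U1) = 0)
    (hX' : ∀ s, (U2ᵀ * (Fᵀ * J * (P.1 * F)) * U2) * (X' s * (a1 s)ᵀ - c' • (a2 s * X' s)) *
      (U1ᵀ * (Fᵀ * J * (P.1 * F)) * U1) = 0) (κ : K) :
    (∑ s, F * (U2 * (Γ2 * X s + (X s).map d +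
        X s * (Γ1 - (2 * (d c1 / c1)) • (1 : Matrix n1 n1 K))ᵀ - (d c2 / c2) • X s +
          κ • X' s) * U1ᵀ) * (Fᵀ * J * (P.1 * F)) * E K arm s ∈ Q) ∧
    ∑ s, F * (U1 * (X' s)ᵀ * U2ᵀ) * (Fᵀ * J * (P.1 * F)) * E K arm s ∈ Q := by
  have hFW : F ∈ W := (S.hCtx F S.hF).memW
  have hS0 : Fᵀ * J * (P.1 * F) = (Fᵀ * J * P.1) * F := by simp only [Matrix.mul_assoc]
  have hY' : ∀ s, ∀ v ∈ W, v * Y s * Hᵀ = v * (U1 * (X' s)ᵀ * U2ᵀ + U2 * ((X' s)ᵀ)ᵀ * U1ᵀ) * Hᵀ := by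
    intro s v hv
    rw [hY s v hv, transpose_transpose, add_comm (U2 * X' s * U1ᵀ)]
  have dG1 := SL2g560.dG h hPt m fr hY hN1 hFW hS0
  have dG2 := SL2g560.dG h hPt m fr.symm hY' hN2 hFW hS0
  have w1 := SL2g560.wt h hPt m fr hY hN1 hFW hS0 ha1 ha2
  have w2 := SL2g560.wt h hPt m fr.symm hY' hN2 hFW hS0 ha2 ha1
  have hX1 : ∀ s, X s ∈ FilG (a1 s) (U1ᵀ * (Fᵀ * J * (P.1 * F)) * U1) (a2 s)
      (U2ᵀ * (Fᵀ * J * (P.1 * F)) * U2) (l s) := by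
    intro s
    obtain ⟨n1', f1'⟩ := free_frame S hU1 hs1 (ha1 s)
    obtain ⟨n2', f2'⟩ := free_frame S hU2 hs2 (ha2 s)
    exact fil_of (G_skew S) (G_skew S) (a_adj S (ha1 s)) (a_adj S (ha2 s)) n1' n2' f1' f2' (hX s)
  have hX2 : ∀ s, X' s ∈ FilG (a1 s) (U1ᵀ * (Fᵀ * J * (P.1 * F)) * U1) (a2 s)
      (U2ᵀ * (Fᵀ * J * (P.1 * F)) * U2) (l s) := by
    intro s
    obtain ⟨n1', f1'⟩ := free_frame S hU1 hs1 (ha1 s)
    obtain ⟨n2', f2'⟩ := free_frame S hU2 hs2 (ha2 s)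
    exact fil_of (G_skew S) (G_skew S) (a_adj S (ha1 s)) (a_adj S (ha2 s)) n1' n2' f1' f2' (hX' s)
  constructor
  · refine Q.sum_mem fun s _ => ?_
    obtain ⟨q1, q2, q3⟩ := gens_q S hU1 hs1 ha1 hU2 hs2 ha2 g21 s
    refine gam_mem (d := d) (a1 := -(2 * (d c1 / c1))) (a2 := -(2 * (d c2 / c2)))
      (g1 := -(2 * (d c1 / c1))) (g2 := -(2 * (d c2 / c2)))
      (a_adj S (ha1 s)) (a_adj S (ha2 s)) ?_ ?_ ?_ ?_ q1 q2 q3 (hX1 s) (hX2 s) _ _ _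
    · rw [neg_smul, sub_neg_eq_add]; exact w1 s
    · rw [neg_smul, sub_neg_eq_add]; exact w2 s
    · rw [neg_smul, ← sub_eq_add_neg]; exact dG1
    · rw [neg_smul, ← sub_eq_add_neg]; exact dG2
  · refine Q.sum_mem fun s _ => ?_
    obtain ⟨q1, q2, q3⟩ := gens_q S hU2 hs2 ha2 hU1 hs1 ha1 g12 s
    have h := gam_mem_t (F := F) (S := Fᵀ * J * (P.1 * F)) (E := E K arm s) (Q := Q)
      (U1 := U1) (U2 := U2) q1 q2 q3 (hX2 s) (1 : K)
    rwa [one_smul] at h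

end Crest.Agent.R172.SB4x930
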