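import Crest.Agent.R172.SUB
import Crest.Agent.R172.SGl1
import Crest.Agent.R172.QBlk

/-!
Row 172 (S0260), S-side (t2), level 1: the off-diagonal part `b(v,u) = vᵀ S0 (nabla u)` of the
connection between two different blocks is a twisted homomorphism, hence zero (helper7).
-/

set_option autoImplicit false
set_option linter.unusedSectionVars false
set_option linter.unusedFintypeInType false
set_option linter.unusedDecidableInType false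

namespace Crest.Agent.R172.SB7

open Matrix Module TensorProduct Crest.Agent.R172.FO Crest.Agent.R172.Qt Crest.Agent.R172.SpS
  Crest.Agent.R172.Om Crest.Agent.R172.SUX Crest.Agent.R172.SUB

variable {ι : Type*} [Fintype ι] [DecidableEq ι] {δ : Type*} [Fintype δ] [DecidableEq δ]
variable {k K : Type*} [Field k] [Field K] [Algebra k K]
variable {arm : δ → Fin 3} {J : Matrix ι ι K} {B : Matrix δ δ K}
  {N W : Submodule K (Matrix ι δ K)} {H F q : Matrix ι δ K} {S0 : Matrix δ δ K}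
variable {P P0 : Matrix ι ι K × (Fin 3 → Matrix ι ι K)} {Y : Fin 3 → Matrix δ δ K}
  {d : Derivation k K K}

theorem dot_skew {A : Matrix δ δ K} (hA : Aᵀ = -A) (v x : δ → K) :
    v ⬝ᵥ (A *ᵥ x) = -((A *ᵥ v) ⬝ᵥ x) := by
  rw [dotProduct_mulVec, ← mulVec_transpose, hA, neg_mulVec, neg_dotProduct]

theorem dot_om (hB : Bᵀ = B) (hBE : ∀ s, E K arm s * B = B * E K arm s) (hS : S0ᵀ = -S0)
    (r : Fin 3) (v x : δ → K) :
    v ⬝ᵥ (S0 *ᵥ ((B * E K arm r) *ᵥ x)) = -((SGl1.om arm B S0 r *ᵥ v) ⬝ᵥ x) := by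
  rw [dot_skew hS, dotProduct_mulVec, ← mulVec_transpose, transpose_mul, E_transpose, hB, hBE,
    mulVec_mulVec]
  rfl

/-- **the commutation of `b` with the operators** -/
theorem b_rel (h : Ctx k arm J B N W H) (hP : P ∈ NN arm J N H) (hY : ∀ r, (Y r)ᵀ = Y r)
    (m : Mv k arm J N W H P.1 Y d) (hS : S0ᵀ = -S0) {Qi Qj : Submodule K (δ → K)} {ci cj : K}
    (hci : ci ≠ 0)
    (Si : ∀ u ∈ Qi, th J H P.1 H *ᵥ u = ci ^ 2 • (S0 *ᵥ u))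
    (Sj : ∀ u ∈ Qj, th J H P.1 H *ᵥ u = cj ^ 2 • (S0 *ᵥ u))
    (orth : ∀ u ∈ Qi, ∀ v ∈ Qj, v ⬝ᵥ (S0 *ᵥ u) = 0)
    (st_i : ∀ r, ∀ u ∈ Qi, SGl1.om arm B S0 r *ᵥ u ∈ Qi)
    (st_j : ∀ r, ∀ u ∈ Qj, SGl1.om arm B S0 r *ᵥ u ∈ Qj)
    (r : Fin 3) {u v : δ → K} (hu : u ∈ Qi) (hv : v ∈ Qj)
    (hYE : v ⬝ᵥ (S0 *ᵥ ((Y r * th J H P.1 H) *ᵥ (om arm J B H P.1 r *ᵥ u))) =
      v ⬝ᵥ (S0 *ᵥ (om arm J B H P.1 r *ᵥ ((Y r * th J H P.1 H) *ᵥ u)))) :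
    v ⬝ᵥ (S0 *ᵥ nab arm J H P.1 Y d (SGl1.om arm B S0 r *ᵥ u)) =
      -(cj ^ 2 / ci ^ 2 * ((SGl1.om arm B S0 r *ᵥ v) ⬝ᵥ (S0 *ᵥ nab arm J H P.1 Y d u))) := by
  have hD := h.data
  have hSH := th_skew h hP h.mem
  have homH : om arm J B H P.1 r *ᵥ u = ci ^ 2 • (SGl1.om arm B S0 r *ᵥ u) := by
    unfold om omF
    rw [← mulVec_mulVec, Si u hu, mulVec_smul, mulVec_mulVec]
    rfl
  have e1 := nab_om h hP hY m r u
  have e2 := congrArg (fun x => v ⬝ᵥ (S0 *ᵥ x)) e1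
  simp only [mulVec_sub, mulVec_add, dotProduct_sub, dotProduct_add] at e2
  rw [hYE, add_sub_cancel_right, homH, nab_smul, mulVec_add, dotProduct_add, mulVec_smul,
    mulVec_smul, dotProduct_smul, dotProduct_smul, orth _ (st_i r u hu) v hv, smul_zero,
    add_zero] at e2
  have e3 : v ⬝ᵥ (S0 *ᵥ (om arm J B H P.1 r *ᵥ nab arm J H P.1 Y d u)) =
      -(cj ^ 2 * ((SGl1.om arm B S0 r *ᵥ v) ⬝ᵥ (S0 *ᵥ nab arm J H P.1 Y d u))) := by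
    unfold om omF
    rw [← mulVec_mulVec, dot_om hD.B_symm hD.B_arm hS, dot_skew hSH, Sj _ (st_j r v hv),
      smul_dotProduct, dot_skew hS, smul_eq_mul]
    ring
  rw [e3, smul_eq_mul] at e2
  have hc2 : ci ^ 2 ≠ 0 := pow_ne_zero 2 hci
  field_simp
  linear_combination e2

section twist

variable (arm B S0)

/-- the exceptional ratios of two blocks -/
def Exc (Qi Qj : Submodule K (δ → K)) (st_i : ∀ r, ∀ u ∈ Qi, SGl1.om arm B S0 r *ᵥ u ∈ Qi)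
    (st_j : ∀ r, ∀ u ∈ Qj, SGl1.om arm B S0 r *ᵥ u ∈ Qj) : Set K :=
  {c | ∃ x : Qi →ₗ[K] Dual K Qj, x ≠ 0 ∧ ∀ s,
    x ∘ₗ SGl1.rs (SGl1.om arm B S0 s) Qi (st_i s) =
      -(c • ((SGl1.rs (SGl1.om arm B S0 s) Qj (st_j s)).dualMap ∘ₗ x))}

variable {arm B S0}

theorem Exc_finite {Qi Qj : Submodule K (δ → K)}
    (st_i : ∀ r, ∀ u ∈ Qi, SGl1.om arm B S0 r *ᵥ u ∈ Qi)
    (st_j : ∀ r, ∀ u ∈ Qj, SGl1.om arm B S0 r *ᵥ u ∈ Qj)
    (pf : ⨆ s, LinearMap.range (SGl1.rs (SGl1.om arm B S0 s) Qi (st_i s)) = ⊤) :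
    (Exc arm B S0 Qi Qj st_i st_j).Finite :=
  QBlk.twist_finite_neg (α := fun s => SGl1.rs (SGl1.om arm B S0 s) Qi (st_i s))
    (fun s => (SGl1.rs (SGl1.om arm B S0 s) Qj (st_j s)).dualMap) pf

/-- **`b = 0`** -/
theorem b_zero (h : Ctx k arm J B N W H) (hP : P ∈ NN arm J N H) (hY : ∀ r, (Y r)ᵀ = Y r)
    (m : Mv k arm J N W H P.1 Y d) (hS : S0ᵀ = -S0) {Qi Qj : Submodule K (δ → K)} {ci cj : K}
    (hci : ci ≠ 0)
    (Si : ∀ u ∈ Qi, th J H P.1 H *ᵥ u = ci ^ 2 • (S0 *ᵥ u))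
    (Sj : ∀ u ∈ Qj, th J H P.1 H *ᵥ u = cj ^ 2 • (S0 *ᵥ u))
    (orth : ∀ u ∈ Qi, ∀ v ∈ Qj, v ⬝ᵥ (S0 *ᵥ u) = 0)
    (st_i : ∀ r, ∀ u ∈ Qi, SGl1.om arm B S0 r *ᵥ u ∈ Qi)
    (st_j : ∀ r, ∀ u ∈ Qj, SGl1.om arm B S0 r *ᵥ u ∈ Qj)
    (hYE : ∀ r, ∀ u ∈ Qi, ∀ v ∈ Qj,
      v ⬝ᵥ (S0 *ᵥ ((Y r * th J H P.1 H) *ᵥ (om arm J B H P.1 r *ᵥ u))) =
      v ⬝ᵥ (S0 *ᵥ (om arm J B H P.1 r *ᵥ ((Y r * th J H P.1 H) *ᵥ u))))
    (hc : cj ^ 2 / ci ^ 2 ∉ Exc arm B S0 Qi Qj st_i st_j) :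
    ∀ u ∈ Qi, ∀ v ∈ Qj, v ⬝ᵥ (S0 *ᵥ nab arm J H P.1 Y d u) = 0 := by
  let x : Qi →ₗ[K] Dual K Qj :=
    { toFun := fun u =>
        { toFun := fun v => (v : δ → K) ⬝ᵥ (S0 *ᵥ nab arm J H P.1 Y d (u : δ → K))
          map_add' := fun v v' => by rw [Submodule.coe_add, add_dotProduct]
          map_smul' := fun c v => by
            rw [Submodule.coe_smul, smul_dotProduct]; rfl }
      map_add' := fun u u' => by
        ext v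
        change (v : δ → K) ⬝ᵥ (S0 *ᵥ nab arm J H P.1 Y d ((u + u' : Qi) : δ → K)) = _
        rw [Submodule.coe_add, nab_add, mulVec_add, dotProduct_add]
        rfl
      map_smul' := fun c u => by
        ext v
        change (v : δ → K) ⬝ᵥ (S0 *ᵥ nab arm J H P.1 Y d ((c • u : Qi) : δ → K)) = _
        rw [Submodule.coe_smul, nab_smul, mulVec_add, dotProduct_add, mulVec_smul, mulVec_smul,
          dotProduct_smul, dotProduct_smul, orth _ u.2 _ v.2, smul_zero, add_zero]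
        rfl }
  have hx : x = 0 := by
    by_contra hne
    refine hc ⟨x, hne, fun s => ?_⟩
    ext u v
    change (v : δ → K) ⬝ᵥ (S0 *ᵥ nab arm J H P.1 Y d
      (SGl1.om arm B S0 s *ᵥ (u : δ → K))) = -(cj ^ 2 / ci ^ 2 *
        ((SGl1.om arm B S0 s *ᵥ (v : δ → K)) ⬝ᵥ (S0 *ᵥ nab arm J H P.1 Y d (u : δ → K))))
    exact b_rel h hP hY m hS hci Si Sj orth st_i st_j s u.2 v.2 (hYE s u u.2 v v.2)
  intro u hu v hv
  have h1 : x ⟨u, hu⟩ ⟨v, hv⟩ = 0 := by rw [hx]; rfl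
  exact h1

end twist

/-- the value of `wd q` on a block vector -/
theorem wd_val (m : Mv k arm J N W H P.1 Y d) {u : δ → K} {ci κi : K} (hci : ci ≠ 0)
    (Hi : H *ᵥ u = ci • (F *ᵥ u)) (qi : q *ᵥ u = κi • (F *ᵥ u)) :
    wd arm J H P.1 Y d q *ᵥ u = (κi * ci⁻¹) • (H *ᵥ nab arm J H P.1 Y d u) +
      (d (κi * ci⁻¹) * ci) • (F *ᵥ u) - q *ᵥ nab arm J H P.1 Y d u := by
  have e1 := F_nab (arm := arm) (J := J) (H := H) (Y := Y) (d := d) P.1 q u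
  have e2 : q *ᵥ u = (κi * ci⁻¹) • (H *ᵥ u) := by
    rw [qi, Hi, smul_smul, mul_assoc, inv_mul_cancel₀ hci, mul_one]
  rw [e2, dv_smul, H_nab m, Hi, smul_smul] at e1
  rw [e1]
  abel

/-- **the test of `wd q`** on two block vectors, at `(F, P0)` -/
theorem test (h : Ctx k arm J B N W F) (hP0 : P0 ∈ NN arm J N F) (hH : H ∈ N ⊓ W)
    (hq : q ∈ N ⊓ W) (m : Mv k arm J N W H P.1 Y d) {u v : δ → K} {ci cj κi κj : K} (hci : ci ≠ 0)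
    (Hi : H *ᵥ u = ci • (F *ᵥ u)) (qi : q *ᵥ u = κi • (F *ᵥ u))
    (tH : th J F P0.1 H *ᵥ v = cj • (th J F P0.1 F *ᵥ v))
    (tq : th J F P0.1 q *ᵥ v = κj • (th J F P0.1 F *ᵥ v)) :
    v ⬝ᵥ ((Fᵀ * J * P0.1) *ᵥ (wd arm J H P.1 Y d q *ᵥ u)) =
      (κi * ci⁻¹ * cj - κj) * (v ⬝ᵥ (th J F P0.1 F *ᵥ nab arm J H P.1 Y d u)) +
        d (κi * ci⁻¹) * ci * (v ⬝ᵥ (th J F P0.1 F *ᵥ u)) := by
  have hS := th_skew h hP0 h.mem
  have hSH := th_skew h hP0 hH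
  have hSq := th_skew h hP0 hq
  have hth : ∀ (X : Matrix ι δ K) (x : δ → K), (Fᵀ * J * P0.1) *ᵥ (X *ᵥ x) =
      th J F P0.1 X *ᵥ x := by
    intro X x
    unfold th
    rw [mulVec_mulVec]
    simp only [Matrix.mul_assoc]
  rw [wd_val m hci Hi qi, mulVec_sub, mulVec_add, mulVec_smul, mulVec_smul, hth, hth, hth,
    dotProduct_sub, dotProduct_add, dotProduct_smul, dotProduct_smul, dot_skew hSH, tH,
    dot_skew hSq, tq, smul_dotProduct, smul_dotProduct, dot_skew hS v (nab arm J H P.1 Y d u)]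
  simp only [smul_eq_mul]
  ring

end Crest.Agent.R172.SB7
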