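import Crest.Agent.R172.SB7a

/-!
Row 172 (S0260), S-side (t2), level 1: the hypothesis `hYE` of `SB7.b_zero` for the tensors
`Y = ten z + (ten z)ᵀ` of an exact family (helper7).
-/

set_option autoImplicit false
set_option linter.unusedSectionVars false
set_option linter.unusedFintypeInType false
set_option linter.unusedDecidableInType false

namespace Crest.Agent.R172.SB7

open Matrix Module TensorProduct Crest.Agent.R172.FO Crest.Agent.R172.Qt Crest.Agent.R172.SpS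
  Crest.Agent.R172.Om Crest.Agent.R172.SUX Crest.Agent.R172.SUB

variable {δ : Type*} [Fintype δ] [DecidableEq δ] {K : Type*} [Field K]
variable {arm : δ → Fin 3} {B S0 SH : Matrix δ δ K}

/-- the defect of `hYE` -/
def GG (S0 SH oH X : Matrix δ δ K) (u v : δ → K) : K :=
  v ⬝ᵥ (S0 *ᵥ (((X + Xᵀ) * SH) *ᵥ (oH *ᵥ u))) - v ⬝ᵥ (S0 *ᵥ (oH *ᵥ (((X + Xᵀ) * SH) *ᵥ u)))

theorem GG_zero (oH : Matrix δ δ K) (u v : δ → K) : GG S0 SH oH 0 u v = 0 := by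
  simp [GG]

theorem GG_add (oH X X' : Matrix δ δ K) (u v : δ → K) :
    GG S0 SH oH (X + X') u v = GG S0 SH oH X u v + GG S0 SH oH X' u v := by
  unfold GG
  have e : (X + X' + (X + X')ᵀ) * SH = (X + Xᵀ) * SH + (X' + X'ᵀ) * SH := by
    rw [← Matrix.add_mul, transpose_add]
    congr 1
    abel
  rw [e]
  simp only [add_mulVec, mulVec_add, dotProduct_add]
  ring

theorem GG_vec (oH : Matrix δ δ K) (a b u v : δ → K) :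
    GG S0 SH oH (vecMulVec a b) u v =
      (b ⬝ᵥ (SH *ᵥ (oH *ᵥ u))) * (v ⬝ᵥ (S0 *ᵥ a)) + (a ⬝ᵥ (SH *ᵥ (oH *ᵥ u))) * (v ⬝ᵥ (S0 *ᵥ b)) -
      (b ⬝ᵥ (SH *ᵥ u)) * (v ⬝ᵥ (S0 *ᵥ (oH *ᵥ a))) -
      (a ⬝ᵥ (SH *ᵥ u)) * (v ⬝ᵥ (S0 *ᵥ (oH *ᵥ b))) := by
  have e : ∀ x : δ → K, ((vecMulVec a b + (vecMulVec a b)ᵀ) * SH) *ᵥ x =
      (b ⬝ᵥ (SH *ᵥ x)) • a + (a ⬝ᵥ (SH *ᵥ x)) • b := by
    intro x
    rw [← mulVec_mulVec, add_mulVec, transpose_vecMulVec, vecMulVec_mulVec, vecMulVec_mulVec]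
    simp only [op_smul_eq_smul]
  unfold GG
  rw [e, e]
  simp only [mulVec_add, mulVec_smul, dotProduct_add, dotProduct_smul, smul_eq_mul]
  ring

section pair

variable {Q1 Q2 : Submodule K (δ → K)} {c1 c2 ρ : K}

/-- the data of the pair -/
structure PrD (arm : δ → Fin 3) (B S0 SH : Matrix δ δ K) (Q1 Q2 : Submodule K (δ → K))
    (c1 c2 ρ : K) : Prop where
  hB : Bᵀ = B
  hBE : ∀ s, E K arm s * B = B * E K arm s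
  skew : S0ᵀ = -S0
  S1 : ∀ u ∈ Q1, SH *ᵥ u = c1 ^ 2 • (S0 *ᵥ u)
  S2 : ∀ u ∈ Q2, SH *ᵥ u = c2 ^ 2 • (S0 *ᵥ u)
  st1 : ∀ r, ∀ u ∈ Q1, SGl1.om arm B S0 r *ᵥ u ∈ Q1
  st2 : ∀ r, ∀ u ∈ Q2, SGl1.om arm B S0 r *ᵥ u ∈ Q2
  o12 : ∀ u ∈ Q1, ∀ v ∈ Q2, v ⬝ᵥ (S0 *ᵥ u) = 0
  hρ : c1 * ρ = c2

theorem PrD.o21 (D : PrD arm B S0 SH Q1 Q2 c1 c2 ρ) : ∀ u ∈ Q2, ∀ v ∈ Q1, v ⬝ᵥ (S0 *ᵥ u) = 0 := by
  intro u hu v hv
  rw [dot_skew D.skew, dotProduct_comm, D.o12 v hv u hu, neg_zero]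

theorem oH_val {Qi : Submodule K (δ → K)} {ci : K}
    (Si : ∀ u ∈ Qi, SH *ᵥ u = ci ^ 2 • (S0 *ᵥ u)) (r : Fin 3) {u : δ → K} (hu : u ∈ Qi) :
    (B * E K arm r * SH) *ᵥ u = ci ^ 2 • (SGl1.om arm B S0 r *ᵥ u) := by
  rw [← mulVec_mulVec, Si u hu, mulVec_smul, mulVec_mulVec]
  rfl

/-- the functional -/
noncomputable def phi {P1 P2 : Type*} [AddCommGroup P1] [Module K P1] [AddCommGroup P2] [Module K P2]
    (f2 : P2 →ₗ[K] K) (f1 : P1 →ₗ[K] K) : P2 ⊗[K] P1 →ₗ[K] K :=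
  LinearMap.mul' K K ∘ₗ TensorProduct.map f2 f1

theorem phi_tmul {P1 P2 : Type*} [AddCommGroup P1] [Module K P1] [AddCommGroup P2] [Module K P2]
    (f2 : P2 →ₗ[K] K) (f1 : P1 →ₗ[K] K) (a : P2) (b : P1) : phi f2 f1 (a ⊗ₜ[K] b) = f2 a * f1 b := by
  simp [phi]

theorem phi_rad {P1 P2 : Type*} [AddCommGroup P1] [Module K P1] [AddCommGroup P2] [Module K P2]
    {f2 : P2 →ₗ[K] K} {f1 : P1 →ₗ[K] K} {R1 : Submodule K P1} {R2 : Submodule K P2}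
    (h2 : ∀ r ∈ R2, f2 r = 0) (h1 : ∀ r ∈ R1, f1 r = 0) {z : P2 ⊗[K] P1}
    (hz : z ∈ Dual.Rad R1 R2) : phi f2 f1 z = 0 := by
  have hle : Dual.Rad R1 R2 ≤ LinearMap.ker (phi f2 f1) := by
    refine sup_le (Submodule.span_le.2 ?_) (Submodule.span_le.2 ?_)
    · rintro _ ⟨r, hr, p, rfl⟩
      change phi f2 f1 _ = 0
      rw [phi_tmul, h2 r hr, zero_mul]
    · rintro _ ⟨p, r, hr, rfl⟩
      change phi f2 f1 _ = 0
      rw [phi_tmul, h1 r hr, mul_zero]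
  exact hle hz

/-- the functional `v ⬝ S0 a` on a block -/
def fl (S0 : Matrix δ δ K) (Q : Submodule K (δ → K)) (v : δ → K) : Q →ₗ[K] K where
  toFun a := v ⬝ᵥ (S0 *ᵥ (a : δ → K))
  map_add' a a' := by rw [Submodule.coe_add, mulVec_add, dotProduct_add]
  map_smul' c a := by rw [Submodule.coe_smul, mulVec_smul, dotProduct_smul]; rfl

theorem GG_12 (D : PrD arm B S0 SH Q1 Q2 c1 c2 ρ) (r : Fin 3) {u v : δ → K} (hu : u ∈ Q1)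
    (z : Q2 ⊗[K] Q1) :
    GG S0 SH (B * E K arm r * SH) (SGl1.ten Q2 Q1 z) u v =
      c1 ^ 4 * phi (fl S0 Q2 v) (fl S0 Q1 u) (Dual.defect (SGl1.rs (SGl1.om arm B S0 r) Q1 (D.st1 r))
        (-(SGl1.rs (SGl1.om arm B S0 r) Q2 (D.st2 r))) (ρ ^ 2) z) := by
  induction z using TensorProduct.induction_on with
  | zero => rw [map_zero, map_zero, map_zero, GG_zero, mul_zero]
  | tmul a b =>
    rw [SGl1.ten_tmul, GG_vec, oH_val D.S1 r hu, mulVec_smul, D.S1 _ (D.st1 r u hu), D.S1 u hu,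
      oH_val D.S2 r a.2, oH_val D.S1 r b.2, Dual.defect_tmul, map_sub, map_smul, phi_tmul, phi_tmul]
    have e1 : (b : δ → K) ⬝ᵥ (S0 *ᵥ (SGl1.om arm B S0 r *ᵥ u)) =
        u ⬝ᵥ (S0 *ᵥ (SGl1.om arm B S0 r *ᵥ (b : δ → K))) := by
      have := dot_om D.hB D.hBE D.skew r (b : δ → K) (S0 *ᵥ u)
      rw [mulVec_mulVec u (B * E K arm r) S0] at this
      change (b : δ → K) ⬝ᵥ (S0 *ᵥ ((B * E K arm r * S0) *ᵥ u)) = _
      rw [this, dot_skew D.skew, neg_neg, dotProduct_comm]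
    have e2 : (a : δ → K) ⬝ᵥ (S0 *ᵥ (SGl1.om arm B S0 r *ᵥ u)) = 0 :=
      D.o12 _ (D.st1 r u hu) _ a.2
    have e3 : (a : δ → K) ⬝ᵥ (S0 *ᵥ u) = 0 := D.o12 _ hu _ a.2
    have e4 : (b : δ → K) ⬝ᵥ (S0 *ᵥ u) = -(u ⬝ᵥ (S0 *ᵥ (b : δ → K))) := by
      rw [dot_skew D.skew, dotProduct_comm]
    change _ = c1 ^ 4 * ((v ⬝ᵥ (S0 *ᵥ (a : δ → K))) *
      (u ⬝ᵥ (S0 *ᵥ (SGl1.om arm B S0 r *ᵥ (b : δ → K)))) -
      ρ ^ 2 • ((v ⬝ᵥ (S0 *ᵥ (-(SGl1.om arm B S0 r *ᵥ (a : δ → K))))) *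
        (u ⬝ᵥ (S0 *ᵥ (b : δ → K)))))
    simp only [dotProduct_smul, mulVec_smul, smul_eq_mul, e1, e2, e3, e4, mulVec_neg,
      dotProduct_neg]
    rw [← D.hρ]
    ring
  | add x y hx hy => rw [map_add, map_add, map_add, GG_add, hx, hy, mul_add]

theorem GG_21 (D : PrD arm B S0 SH Q1 Q2 c1 c2 ρ) (r : Fin 3) {u v : δ → K} (hu : u ∈ Q2)
    (z : Q2 ⊗[K] Q1) :
    GG S0 SH (B * E K arm r * SH) (SGl1.ten Q2 Q1 z) u v =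
      (c1 ^ 2 * c2 ^ 2) * phi (fl S0 Q2 u) (fl S0 Q1 v)
        (Dual.defect (SGl1.rs (SGl1.om arm B S0 r) Q1 (D.st1 r))
        (-(SGl1.rs (SGl1.om arm B S0 r) Q2 (D.st2 r))) (ρ ^ 2) z) := by
  induction z using TensorProduct.induction_on with
  | zero => rw [map_zero, map_zero, map_zero, GG_zero, mul_zero]
  | tmul a b =>
    rw [SGl1.ten_tmul, GG_vec, oH_val D.S2 r hu, mulVec_smul, D.S2 _ (D.st2 r u hu), D.S2 u hu,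
      oH_val D.S2 r a.2, oH_val D.S1 r b.2, Dual.defect_tmul, map_sub, map_smul, phi_tmul, phi_tmul]
    have e1 : (a : δ → K) ⬝ᵥ (S0 *ᵥ (SGl1.om arm B S0 r *ᵥ u)) =
        u ⬝ᵥ (S0 *ᵥ (SGl1.om arm B S0 r *ᵥ (a : δ → K))) := by
      have := dot_om D.hB D.hBE D.skew r (a : δ → K) (S0 *ᵥ u)
      rw [mulVec_mulVec u (B * E K arm r) S0] at this
      change (a : δ → K) ⬝ᵥ (S0 *ᵥ ((B * E K arm r * S0) *ᵥ u)) = _
      rw [this, dot_skew D.skew, neg_neg, dotProduct_comm]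
    have e2 : (b : δ → K) ⬝ᵥ (S0 *ᵥ (SGl1.om arm B S0 r *ᵥ u)) = 0 :=
      D.o21 _ (D.st2 r u hu) _ b.2
    have e3 : (b : δ → K) ⬝ᵥ (S0 *ᵥ u) = 0 := D.o21 _ hu _ b.2
    have e4 : (a : δ → K) ⬝ᵥ (S0 *ᵥ u) = -(u ⬝ᵥ (S0 *ᵥ (a : δ → K))) := by
      rw [dot_skew D.skew, dotProduct_comm]
    change _ = (c1 ^ 2 * c2 ^ 2) * ((u ⬝ᵥ (S0 *ᵥ (a : δ → K))) *
      (v ⬝ᵥ (S0 *ᵥ (SGl1.om arm B S0 r *ᵥ (b : δ → K)))) -
      ρ ^ 2 • ((u ⬝ᵥ (S0 *ᵥ (-(SGl1.om arm B S0 r *ᵥ (a : δ → K))))) *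
        (v ⬝ᵥ (S0 *ᵥ (b : δ → K)))))
    simp only [dotProduct_smul, mulVec_smul, smul_eq_mul, e1, e2, e3, e4, mulVec_neg,
      dotProduct_neg]
    rw [← D.hρ]
    ring
  | add x y hx hy => rw [map_add, map_add, map_add, GG_add, hx, hy, mul_add]

/-- third block as the source -/
theorem GG_3x (_D : PrD arm B S0 SH Q1 Q2 c1 c2 ρ) (r : Fin 3) {Q3 : Submodule K (δ → K)} {c3 : K}
    (S3 : ∀ u ∈ Q3, SH *ᵥ u = c3 ^ 2 • (S0 *ᵥ u))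
    (st3 : ∀ r, ∀ u ∈ Q3, SGl1.om arm B S0 r *ᵥ u ∈ Q3)
    (o31 : ∀ u ∈ Q3, ∀ v ∈ Q1, v ⬝ᵥ (S0 *ᵥ u) = 0) (o32 : ∀ u ∈ Q3, ∀ v ∈ Q2, v ⬝ᵥ (S0 *ᵥ u) = 0)
    {u v : δ → K} (hu : u ∈ Q3) (z : Q2 ⊗[K] Q1) :
    GG S0 SH (B * E K arm r * SH) (SGl1.ten Q2 Q1 z) u v = 0 := by
  induction z using TensorProduct.induction_on with
  | zero => rw [map_zero, GG_zero]
  | tmul a b =>
    rw [SGl1.ten_tmul, GG_vec, oH_val S3 r hu, mulVec_smul, S3 _ (st3 r u hu), S3 u hu]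
    simp only [dotProduct_smul, smul_eq_mul, o31 _ (st3 r u hu) _ b.2, o32 _ (st3 r u hu) _ a.2,
      o31 _ hu _ b.2, o32 _ hu _ a.2]
    ring
  | add x y hx hy => rw [map_add, GG_add, hx, hy, add_zero]

/-- third block as the target -/
theorem GG_x3 (D : PrD arm B S0 SH Q1 Q2 c1 c2 ρ) (r : Fin 3) {Q3 : Submodule K (δ → K)}
    (o13 : ∀ u ∈ Q1, ∀ v ∈ Q3, v ⬝ᵥ (S0 *ᵥ u) = 0) (o23 : ∀ u ∈ Q2, ∀ v ∈ Q3, v ⬝ᵥ (S0 *ᵥ u) = 0)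
    {u v : δ → K} (hv : v ∈ Q3) (z : Q2 ⊗[K] Q1) :
    GG S0 SH (B * E K arm r * SH) (SGl1.ten Q2 Q1 z) u v = 0 := by
  induction z using TensorProduct.induction_on with
  | zero => rw [map_zero, GG_zero]
  | tmul a b =>
    rw [SGl1.ten_tmul, GG_vec, oH_val D.S2 r a.2, oH_val D.S1 r b.2]
    simp only [mulVec_smul, dotProduct_smul, smul_eq_mul, o13 _ (D.st1 r _ b.2) _ hv,
      o23 _ (D.st2 r _ a.2) _ hv, o13 _ b.2 _ hv, o23 _ a.2 _ hv]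
    ring
  | add x y hx hy => rw [map_add, GG_add, hx, hy, add_zero]

/-- **vanishing of the paired defect** from the second half of exactness in coordinates -/
theorem phi_defect {P1 P2 : Type*} [AddCommGroup P1] [Module K P1] [AddCommGroup P2] [Module K P2]
    {π1 : Q1 →ₗ[K] P1} {π2 : Q2 →ₗ[K] P2} {A1 : End K P1} {A2 : End K P2} {R1 : Submodule K P1}
    {R2 : Submodule K P2} (D : PrD arm B S0 SH Q1 Q2 c1 c2 ρ) (r : Fin 3)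
    (e1 : ∀ u, π1 (SGl1.rs (SGl1.om arm B S0 r) Q1 (D.st1 r) u) = A1 (π1 u))
    (e2 : ∀ u, π2 (SGl1.rs (SGl1.om arm B S0 r) Q2 (D.st2 r) u) = A2 (π2 u))
    {x2 x1 : δ → K} {f2 : P2 →ₗ[K] K} {f1 : P1 →ₗ[K] K}
    (g2 : ∀ a, fl S0 Q2 x2 a = f2 (π2 a)) (g1 : ∀ a, fl S0 Q1 x1 a = f1 (π1 a))
    (h2 : ∀ r ∈ R2, f2 r = 0) (h1 : ∀ r ∈ R1, f1 r = 0) {z : Q2 ⊗[K] Q1}
    (hz : Dual.defect A1 (-A2) (ρ ^ 2) (TensorProduct.map π2 π1 z) ∈ Dual.Rad R1 R2) :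
    phi (fl S0 Q2 x2) (fl S0 Q1 x1) (Dual.defect (SGl1.rs (SGl1.om arm B S0 r) Q1 (D.st1 r))
        (-(SGl1.rs (SGl1.om arm B S0 r) Q2 (D.st2 r))) (ρ ^ 2) z) = 0 := by
  rw [← phi_rad h2 h1 hz]
  clear hz
  induction z using TensorProduct.induction_on with
  | zero => simp only [map_zero]
  | tmul a b =>
    rw [Dual.defect_tmul, TensorProduct.map_tmul, Dual.defect_tmul, map_sub, map_sub, map_smul,
      map_smul, phi_tmul, phi_tmul, phi_tmul, phi_tmul, g2, g1, g2, g1, e1, LinearMap.neg_apply,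
      map_neg, e2, LinearMap.neg_apply]
  | add x y hx hy => simp only [map_add, hx, hy]

end pair

end Crest.Agent.R172.SB7
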