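import Crest.Agent.R172.SLev0
import Crest.Agent.R172.RJP3
import Crest.Agent.R172.STop

/-!
Row 172 (S0260), tame node (t2): the two levels for block packages WITHOUT injectivity (`Pk`), e.g.
`P = F * U` with `U` a frame of a block in `K^δ / ZZ`; and the bridge to `STop.Gens`.
-/

set_option autoImplicit false
set_option linter.unusedSectionVars false

namespace Crest.Agent.R172.SLev1

open Matrix Module Crest.Agent.R172.FO Crest.Agent.R172.Qt Crest.Agent.R172.SpS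
open Crest.Agent.R172.SEnd Crest.Agent.R172.SEnd2 Crest.Agent.R172.SEnd3 Crest.Agent.R172.SBlk
open Crest.Agent.R172.SEnd4 Crest.Agent.R172.SEndW Crest.Agent.R172.SEnd5 Crest.Agent.R172.SCM
open Crest.Agent.R172.SCB Crest.Agent.R172.SLev0
open Crest.Agent.R172.SC (PB)
open Crest.Agent.R172.PL (Wk Ainf Rad CoreM coreOp resOp)
open scoped TensorProduct

section pk

variable {ι : Type*} [Fintype ι] [DecidableEq ι] {δ : Type*} [Fintype δ] [DecidableEq δ]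
variable {k K : Type*} [Field k] [Field K] [Algebra k K]
variable {arm : δ → Fin 3} {J : Matrix ι ι K} {B : Matrix δ δ K}
  {N W : Submodule K (Matrix ι δ K)} {g f : Matrix ι δ K} {R : Matrix δ ι K}
variable {X : Matrix ι ι K} {l : Fin 3 → ℕ} {Pc Pc' : Submodule K (ι → K)}
  {n n' : ℕ} {P : Matrix ι (Fin n) K} {P' : Matrix ι (Fin n') K}
  {A : Fin 3 → Matrix (Fin n) (Fin n) K} {A' : Fin 3 → Matrix (Fin n') (Fin n') K}

/-- a block package, not necessarily injective -/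
structure Pk (arm : δ → Fin 3) (J : Matrix ι ι K) (B : Matrix δ δ K) (g : Matrix ι δ K)
    (X : Matrix ι ι K) (l : Fin 3 → ℕ) (Pc : Submodule K (ι → K)) {n : ℕ}
    (P : Matrix ι (Fin n) K) (A : Fin 3 → Matrix (Fin n) (Fin n) K) : Prop where
  mem : ∀ x, P *ᵥ x ∈ Pc
  span : ∀ a ∈ Pc, ∃ x, a = P *ᵥ x
  act : ∀ s, M arm B s g g * (J * X) * P = P * A s
  blk : BlkD (fun s => (A s).mulVecLin) (LinearMap.ker (Pᵀ * (J * X) * P).mulVecLin) l
  skew : (Pᵀ * (J * X) * P)ᵀ = -(Pᵀ * (J * X) * P)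
  adj : ∀ s, (A s)ᵀ * (Pᵀ * (J * X) * P) = -((Pᵀ * (J * X) * P) * A s)
  corner : ∀ s, ∃ x y, x ⬝ᵥ ((Pᵀ * (J * X) * P) *ᵥ ((A s ^ (l s - 1)) *ᵥ y)) ≠ 0

theorem Pk_of_BPkg {D : End K (CoreM (PhS arm J B g R X))} {ν : K}
    (b : BPkg arm J B g R X D ν l P A) : Pk arm J B g X l (PbK arm J B g R X D ν) P A where
  mem := SLev0.coord_mem b
  span := fun _ ha => SLev0.exists_coord b ha
  act := b.act
  blk := b.blk
  skew := b.skew
  adj := b.adj
  corner := b.corner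

theorem pow_act (b : Pk arm J B g X l Pc P A) (s : Fin 3) (i : ℕ) (x : Fin n → K) :
    ((M arm B s g g * (J * X)) ^ i) *ᵥ (P *ᵥ x) = P *ᵥ ((A s ^ i) *ᵥ x) := by
  induction i generalizing x with
  | zero => simp
  | succ i ih =>
    rw [pow_succ, pow_succ, ← mulVec_mulVec, ← mulVec_mulVec _ _ (A s), ← ih]
    congr 1
    rw [mulVec_mulVec, b.act, ← mulVec_mulVec]

theorem exists_coord_Rd (b : Pk arm J B g X l Pc P A) {a : ι → K}
    (ha : a ∈ Rd (J * X) Pc) :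
    ∃ x ∈ LinearMap.ker (Pᵀ * (J * X) * P).mulVecLin, a = P *ᵥ x := by
  obtain ⟨x, rfl⟩ := b.span _ ha.1
  refine ⟨x, ?_, rfl⟩
  rw [LinearMap.mem_ker, mulVecLin_apply]
  funext j
  have h1 := ha.2 _ (b.mem (Pi.single j 1))
  rw [form_gg, single_one_dotProduct] at h1
  exact h1

/-- **the two generator families of a pair of blocks from `span_exact2`** -/
theorem lev1 (b : Pk arm J B g X l Pc P A) (b' : Pk arm J B g X l Pc' P' A')
    {Λ : Set K} (hΛ : Λ.Infinite) (h0 : (0 : K) ∉ Λ) (c1 c2 : K) (hc1 : c1 ≠ 0) (hc2 : c2 ≠ 0)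
    (Q : Submodule K (Matrix ι δ K))
    (h : ∀ ρ ∈ Λ, ∀ x : Fin 3 → (Fin n' → K) ⊗[K] (Fin n → K),
      Dual.Exact (fun s => (A s).mulVecLin) (fun s => (A' s).mulVecLin)
        (LinearMap.ker (Pᵀ * (J * X) * P).mulVecLin)
        (LinearMap.ker (P'ᵀ * (J * X) * P').mulVecLin) (ρ ^ 2) x →
      ∑ t, TensorProduct.lift (c1 • bq arm J g X P' P t) (x t) +
        ρ • ∑ t, TensorProduct.lift (c2 • (bq arm J g X P P' t).flip) (x t) ∈ Q) :
    Gens arm J B g X l Q Pc' Pc ∧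
      Gens arm J B g X l Q Pc Pc' := by
  obtain ⟨m, hm⟩ := b.blk.kills
  obtain ⟨m', hm'⟩ := b'.blk.kills
  obtain ⟨h1, h2, h3⟩ := Dual.span_exact2 (A := fun s => (A s).mulVecLin)
    (B := fun s => (A' s).mulVecLin) (R1 := LinearMap.ker (Pᵀ * (J * X) * P).mulVecLin)
    (R2 := LinearMap.ker (P'ᵀ * (J * X) * P').mulVecLin) (l := l) hΛ h0 b.blk.perf b'.blk.perf
    b.blk.st b'.blk.st ⟨m, fun r hr w hw => hm w hw.ge r hr⟩ ⟨m', fun r hr w hw => hm' w hw.ge r hr⟩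
    b.blk.pow b'.blk.pow (fun Z h1 h2 => b.blk.gen Z h2 h1) (fun Z h1 h2 => b'.blk.gen Z h2 h1)
    (fun t => c1 • bq arm J g X P' P t) (fun t => c2 • (bq arm J g X P P' t).flip) Q h
  have u1 : ∀ m : Matrix ι δ K, c1 • m ∈ Q → m ∈ Q := fun m hm => by
    have := Q.smul_mem c1⁻¹ hm
    rwa [smul_smul, inv_mul_cancel₀ hc1, one_smul] at this
  have u2 : ∀ m : Matrix ι δ K, c2 • m ∈ Q → m ∈ Q := fun m hm => by
    have := Q.smul_mem c2⁻¹ hm
    rwa [smul_smul, inv_mul_cancel₀ hc2, one_smul] at this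
  refine ⟨⟨fun s i j hij a ha c hc => ?_, fun s r hr c hc => ?_, fun s a ha r hr => ?_⟩,
    ⟨fun s i j hij a ha c hc => ?_, fun s r hr c hc => ?_, fun s a ha r hr => ?_⟩⟩
  · obtain ⟨x, rfl⟩ := b'.span _ ha
    obtain ⟨y, rfl⟩ := b.span _ hc
    rw [pow_act b', pow_act b]
    have h4 := (h1 s j i (by omega) x y).1
    rw [mulVecLin_pow_apply, mulVecLin_pow_apply] at h4
    exact u1 _ h4
  · obtain ⟨x, hx, rfl⟩ := exists_coord_Rd b' hr
    obtain ⟨y, rfl⟩ := b.span _ hc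
    exact u1 _ (h2 s x hx y).1
  · obtain ⟨x, rfl⟩ := b'.span _ ha
    obtain ⟨y, hy, rfl⟩ := exists_coord_Rd b hr
    exact u1 _ (h3 s y hy x).1
  · obtain ⟨x, rfl⟩ := b.span _ ha
    obtain ⟨y, rfl⟩ := b'.span _ hc
    rw [pow_act b', pow_act b]
    have h4 := (h1 s i j hij y x).2
    rw [mulVecLin_pow_apply, mulVecLin_pow_apply] at h4
    exact u2 _ h4
  · obtain ⟨x, hx, rfl⟩ := exists_coord_Rd b hr
    obtain ⟨y, rfl⟩ := b'.span _ hc
    exact u2 _ (h3 s x hx y).2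
  · obtain ⟨x, rfl⟩ := b.span _ ha
    obtain ⟨y, hy, rfl⟩ := exists_coord_Rd b' hr
    exact u2 _ (h2 s y hy x).2

theorem gF_flip (b : Pk arm J B g X l Pc P A) (x y : Fin n → K) :
    gF J X P x y = -gF J X P y x := by
  rw [gF_apply, gF_apply, dotProduct_mulVec, ← mulVec_transpose, b.skew, neg_mulVec,
    neg_dotProduct, dotProduct_comm]

/-- conclusion of `RJM.main` in the form `Gens` -/
theorem gens_self (b : Pk arm J B g X l Pc P A) (Q : Submodule K (Matrix ι δ K))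
    (h1 : ∀ t, ∀ r ∈ LinearMap.ker (Pᵀ * (J * X) * P).mulVecLin, ∀ y,
      bq arm J g X P P t r y ∈ Q ∧ bq arm J g X P P t y r ∈ Q)
    (h2 : ∀ s i j, i + j + 1 = l s → ∀ x y, bq arm J g X P P s (((A s).mulVecLin ^ i) x)
      (((A s).mulVecLin ^ j) y) ∈ Q) :
    Gens arm J B g X l Q Pc Pc := by
  refine ⟨fun s i j hij a ha c hc => ?_, fun s r hr c hc => ?_, fun s a ha r hr => ?_⟩
  · obtain ⟨x, rfl⟩ := b.span _ ha
    obtain ⟨y, rfl⟩ := b.span _ hc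
    rw [pow_act b, pow_act b]
    have h4 := h2 s i j hij x y
    rw [mulVecLin_pow_apply, mulVecLin_pow_apply] at h4
    exact h4
  · obtain ⟨x, hx, rfl⟩ := exists_coord_Rd b hr
    obtain ⟨y, rfl⟩ := b.span _ hc
    exact (h1 s x hx y).1
  · obtain ⟨x, rfl⟩ := b.span _ ha
    obtain ⟨y, hy, rfl⟩ := exists_coord_Rd b hr
    exact (h1 s y hy x).2

/-- **second level, correction modulo `Z`** (`P1 = ν`, `P2 = ν'`) -/
theorem lev2Z (b : Pk arm J B g X l Pc P A) (b' : Pk arm J B g X l Pc' P' A')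
    (Z : Submodule K (Fin n → K)) (sZ : ∀ t, ∀ z ∈ Z, A t *ᵥ z ∈ Z)
    {Λ : Set K} (hΛ : Λ.Infinite) (h0 : (0 : K) ∉ Λ) {a1 a2 a3 : K}
    (ha1 : a1 ≠ 0) (ha2 : a2 ≠ 0) (ha3 : a3 ≠ 0) (Q : Submodule K (Matrix ι δ K))
    (hZq : ∀ t, ∀ z ∈ Z, ∀ y, bq arm J g X P P t z y ∈ Q)
    (hqZ : ∀ t, ∀ z ∈ Z, ∀ y, bq arm J g X P P t y z ∈ Q)
    (hex : ∀ ρ ∈ Λ, ∀ x, RJM.Ex (fun s => (A s).mulVecLin) (fun s => (A' s).mulVecLin)
        (LinearMap.ker (Pᵀ * (J * X) * P).mulVecLin)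
        (LinearMap.ker (P'ᵀ * (J * X) * P').mulVecLin) (ρ ^ 2) x →
      ∃ be, RJZ.Cor (fun s => (A s).mulVecLin) (fun s => (A' s).mulVecLin)
        (LinearMap.ker (Pᵀ * (J * X) * P).mulVecLin) Z (gF J X P') (-1) (ρ ^ 2) x be)
    (F2 : RJP.Pr K (Fin n → K) (Fin n' → K) (Fin 3) →
      (RJP.Pr K (Fin n → K) (Fin n' → K) (Fin 3) →ₗ[K] Matrix ι δ K))
    (hrel : ∀ ρ ∈ Λ, ∀ ρ' ∈ Λ, ∀ x be x' be',
      RJM.Ex (fun s => (A s).mulVecLin) (fun s => (A' s).mulVecLin)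
        (LinearMap.ker (Pᵀ * (J * X) * P).mulVecLin)
        (LinearMap.ker (P'ᵀ * (J * X) * P').mulVecLin) (ρ ^ 2) x →
      RJZ.Cor (fun s => (A s).mulVecLin) (fun s => (A' s).mulVecLin)
        (LinearMap.ker (Pᵀ * (J * X) * P).mulVecLin) Z (gF J X P') (-1) (ρ ^ 2) x be →
      RJM.Ex (fun s => (A s).mulVecLin) (fun s => (A' s).mulVecLin)
        (LinearMap.ker (Pᵀ * (J * X) * P).mulVecLin)
        (LinearMap.ker (P'ᵀ * (J * X) * P').mulVecLin) (ρ' ^ 2) x' →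
      RJZ.Cor (fun s => (A s).mulVecLin) (fun s => (A' s).mulVecLin)
        (LinearMap.ker (Pᵀ * (J * X) * P).mulVecLin) Z (gF J X P') (-1) (ρ' ^ 2) x' be' →
      ∑ t, (a1 • TensorProduct.lift ((bq arm J g X P P t) ∘ₗ be') (x t)
        + a2 • TensorProduct.lift ((bq arm J g X P P t).flip ∘ₗ be) (x' t)
        + a3 • TensorProduct.lift ((bq arm J g X P P t) ∘ₗ (RJM.ev (gF J X P') (x' t))) (x t)) +
          ρ' • F2 (x, be) (x', be') ∈ Q) :
    Gens arm J B g X l Q Pc Pc := by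
  obtain ⟨m, hm⟩ := b.blk.kills
  obtain ⟨m', hm'⟩ := b'.blk.kills
  have hker : ∀ r ∈ LinearMap.ker (P'ᵀ * (J * X) * P').mulVecLin, ∀ y, gF J X P' y r = 0 := by
    intro r hr y
    rw [LinearMap.mem_ker, mulVecLin_apply] at hr
    rw [gF_apply, hr, dotProduct_zero]
  obtain ⟨h1, h2⟩ := RJPZ.main (A := fun s => (A s).mulVecLin) (B := fun s => (A' s).mulVecLin)
    (R1 := LinearMap.ker (Pᵀ * (J * X) * P).mulVecLin)
    (R2 := LinearMap.ker (P'ᵀ * (J * X) * P').mulVecLin) (Z := Z) (l := l) (g := gF J X P')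
    (eps := -1) (m := max m m') (fun t z hz => by
      change (A t).mulVecLin z ∈ Z
      rw [mulVecLin_apply]; exact sZ t z hz)
    b.blk.top b'.blk.top b.blk.st b'.blk.st
    (fun w hw r hr => hm w (by omega) r hr) (fun w hw r hr => hm' w (by omega) r hr)
    (fun s => by have := b.blk.two_le s; omega) b.blk.pow b'.blk.pow b.blk.gen b'.blk.gen
    (neg_ne_zero.2 one_ne_zero)
    (fun r hr y => by rw [gF_flip b', hker r hr, neg_zero]) hker
    (fun t x y => by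
      rw [gF_apply, gF_apply, mulVecLin_apply, mulVecLin_apply, mulVec_mulVec,
        ← vecMul_transpose, ← dotProduct_mulVec, mulVec_mulVec, b'.adj, neg_mulVec,
        dotProduct_neg, neg_one_mul])
    (fun s => by
      obtain ⟨x, y, hxy⟩ := b'.corner s
      refine ⟨y, x, ?_⟩
      rw [gF_flip b', gF_apply, mulVecLin_pow_apply]
      exact neg_ne_zero.2 hxy)
    hΛ h0 (fun t => bq arm J g X P P t) Q ha1 ha2 ha3 hZq hqZ hex F2 hrel
  exact gens_self b Q h1 h2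

/-- **second level, triples `(x, b, k)`, corrections modulo `Z`, `Z2`** (`P1 = Pc`, `P2 = Pc'`) -/
theorem lev2K (b : Pk arm J B g X l Pc P A) (b' : Pk arm J B g X l Pc' P' A')
    (Z : Submodule K (Fin n → K)) (sZ : ∀ t, ∀ z ∈ Z, A t *ᵥ z ∈ Z)
    (Z2 : Submodule K (Fin n' → K))
    {Λ : Set K} (hΛ : Λ.Infinite) (h0 : (0 : K) ∉ Λ) {a1 a2 a3 : K}
    (ha1 : a1 ≠ 0) (ha2 : a2 ≠ 0) (ha3 : a3 ≠ 0) (Q : Submodule K (Matrix ι δ K))
    (hZq : ∀ t, ∀ z ∈ Z, ∀ y, bq arm J g X P P t z y ∈ Q)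
    (hqZ : ∀ t, ∀ z ∈ Z, ∀ y, bq arm J g X P P t y z ∈ Q)
    (hex : ∀ ρ ∈ Λ, ∀ x, RJM.Ex (fun s => (A s).mulVecLin) (fun s => (A' s).mulVecLin)
        (LinearMap.ker (Pᵀ * (J * X) * P).mulVecLin)
        (LinearMap.ker (P'ᵀ * (J * X) * P').mulVecLin) (ρ ^ 2) x →
      ∃ be, RJZ.Cor (fun s => (A s).mulVecLin) (fun s => (A' s).mulVecLin)
        (LinearMap.ker (Pᵀ * (J * X) * P).mulVecLin) Z (gF J X P') (-1) (ρ ^ 2) x be)
    (hexK : ∀ ρ ∈ Λ, ∀ x, RJM.Ex (fun s => (A s).mulVecLin) (fun s => (A' s).mulVecLin)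
        (LinearMap.ker (Pᵀ * (J * X) * P).mulVecLin)
        (LinearMap.ker (P'ᵀ * (J * X) * P').mulVecLin) (ρ ^ 2) x →
      ∃ ka, RJP3.CorK (fun s => (A s).mulVecLin) (fun s => (A' s).mulVecLin)
        (LinearMap.ker (P'ᵀ * (J * X) * P').mulVecLin) Z2 (gF J X P) (-1) (ρ ^ 2) x ka)
    (F2 : RJP.Pr K (Fin n → K) (Fin n' → K) (Fin 3) × ((Fin n → K) →ₗ[K] (Fin n' → K)) →
      (RJP.Pr K (Fin n → K) (Fin n' → K) (Fin 3) × ((Fin n → K) →ₗ[K] (Fin n' → K)) →ₗ[K]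
        Matrix ι δ K))
    (hrel : ∀ ρ ∈ Λ, ∀ ρ' ∈ Λ, ∀ x be ka x' be' ka',
      RJM.Ex (fun s => (A s).mulVecLin) (fun s => (A' s).mulVecLin)
        (LinearMap.ker (Pᵀ * (J * X) * P).mulVecLin)
        (LinearMap.ker (P'ᵀ * (J * X) * P').mulVecLin) (ρ ^ 2) x →
      RJZ.Cor (fun s => (A s).mulVecLin) (fun s => (A' s).mulVecLin)
        (LinearMap.ker (Pᵀ * (J * X) * P).mulVecLin) Z (gF J X P') (-1) (ρ ^ 2) x be →
      RJP3.CorK (fun s => (A s).mulVecLin) (fun s => (A' s).mulVecLin)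
        (LinearMap.ker (P'ᵀ * (J * X) * P').mulVecLin) Z2 (gF J X P) (-1) (ρ ^ 2) x ka →
      RJM.Ex (fun s => (A s).mulVecLin) (fun s => (A' s).mulVecLin)
        (LinearMap.ker (Pᵀ * (J * X) * P).mulVecLin)
        (LinearMap.ker (P'ᵀ * (J * X) * P').mulVecLin) (ρ' ^ 2) x' →
      RJZ.Cor (fun s => (A s).mulVecLin) (fun s => (A' s).mulVecLin)
        (LinearMap.ker (Pᵀ * (J * X) * P).mulVecLin) Z (gF J X P') (-1) (ρ' ^ 2) x' be' →
      RJP3.CorK (fun s => (A s).mulVecLin) (fun s => (A' s).mulVecLin)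
        (LinearMap.ker (P'ᵀ * (J * X) * P').mulVecLin) Z2 (gF J X P) (-1) (ρ' ^ 2) x' ka' →
      ∑ t, (a1 • TensorProduct.lift ((bq arm J g X P P t) ∘ₗ be') (x t)
        + a2 • TensorProduct.lift ((bq arm J g X P P t).flip ∘ₗ be) (x' t)
        + a3 • TensorProduct.lift ((bq arm J g X P P t) ∘ₗ (RJM.ev (gF J X P') (x' t))) (x t)) +
          ρ' • F2 ((x, be), ka) ((x', be'), ka') ∈ Q) :
    Gens arm J B g X l Q Pc Pc := by
  obtain ⟨m, hm⟩ := b.blk.kills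
  obtain ⟨m', hm'⟩ := b'.blk.kills
  have hker : ∀ r ∈ LinearMap.ker (P'ᵀ * (J * X) * P').mulVecLin, ∀ y, gF J X P' y r = 0 := by
    intro r hr y
    rw [LinearMap.mem_ker, mulVecLin_apply] at hr
    rw [gF_apply, hr, dotProduct_zero]
  obtain ⟨h1, h2⟩ := RJP3.main3 (A := fun s => (A s).mulVecLin) (B := fun s => (A' s).mulVecLin)
    (R1 := LinearMap.ker (Pᵀ * (J * X) * P).mulVecLin)
    (R2 := LinearMap.ker (P'ᵀ * (J * X) * P').mulVecLin) (Z := Z) (Z2 := Z2) (l := l)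
    (g := gF J X P') (eps := -1) (m := max m m') (fun t z hz => by
      change (A t).mulVecLin z ∈ Z
      rw [mulVecLin_apply]; exact sZ t z hz)
    b.blk.top b'.blk.top b.blk.st b'.blk.st
    (fun w hw r hr => hm w (by omega) r hr) (fun w hw r hr => hm' w (by omega) r hr)
    (fun s => by have := b.blk.two_le s; omega) b.blk.pow b'.blk.pow b.blk.gen b'.blk.gen
    (neg_ne_zero.2 one_ne_zero)
    (fun r hr y => by rw [gF_flip b', hker r hr, neg_zero]) hker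
    (fun t x y => by
      rw [gF_apply, gF_apply, mulVecLin_apply, mulVecLin_apply, mulVec_mulVec,
        ← vecMul_transpose, ← dotProduct_mulVec, mulVec_mulVec, b'.adj, neg_mulVec,
        dotProduct_neg, neg_one_mul])
    (fun s => by
      obtain ⟨x, y, hxy⟩ := b'.corner s
      refine ⟨y, x, ?_⟩
      rw [gF_flip b', gF_apply, mulVecLin_pow_apply]
      exact neg_ne_zero.2 hxy)
    (gF J X P) (-1) hΛ h0 (fun t => bq arm J g X P P t) Q ha1 ha2 ha3 hZq hqZ hex hexK F2 hrel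
  exact gens_self b Q h1 h2

end pk

section stop

variable {ι : Type} [Fintype ι] [DecidableEq ι] {δ : Type} [Fintype δ] [DecidableEq δ]
variable {K : Type} [Field K] [Algebra ℂ K] [IsAlgClosed K]
variable {arm : δ → Fin 3} {J : Matrix ι ι K} {B : Matrix δ δ K} {N W : Submodule K (Matrix ι δ K)}
  {F f : Matrix ι δ K} {P : Matrix ι ι K × (Fin 3 → Matrix ι ι K)} {R : Matrix δ ι K}
  {D : End K (CoreM (PhS arm J B F R P.1))} {l : Fin 3 → ℕ}

/-- the good class of a `Setup` -/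
abbrev QS (arm : δ → Fin 3) (J : Matrix ι ι K) (B : Matrix δ δ K)
    (N W : Submodule K (Matrix ι δ K)) (F : Matrix ι δ K)
    (P : Matrix ι ι K × (Fin 3 → Matrix ι ι K)) (R : Matrix δ ι K)
    (D : End K (CoreM (PhS arm J B F R P.1))) : Submodule K (Matrix ι δ K) :=
  QG arm J B N W F P (PC arm J B F R P.1) (fun ν : K => PbK arm J B F R P.1 D ν) id

/-- **the good class of a `Setup` gives `GoodSW`** -/
theorem good_of_QS (S : STop.Setup arm J B N W F f P R D l) {s : Fin 3} {x : Matrix ι ι K}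
    (hx : x * (J * P.1) * F * E K arm s ∈ QS arm J B N W F P R D) :
    x ∈ GoodSW arm J B N W F P (PC arm J B F R P.1) s := by
  have hc := S.hCtx F S.hF
  obtain ⟨S', q, hq⟩ := exists_spec hc S.hR (S.hNil F S.hF) S.hP S.hf.1
  have : CharZero K := charZero_of_injective_algebraMap (algebraMap ℂ K).injective
  have h2 : (2 : K) ≠ 0 := two_ne_zero
  refine GoodSW_of_QG hc h2 S.hR S.hP S.hf.1 hq S.hD PC_im ?_ (fun _ => le_rfl)
    ?_ hx
  · have h3 : Ainf (PhS arm J B F R P.1) = ⨆ ν, PB (PhS arm J B F R P.1) D ν :=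
      (SC.iSup_PB S.hD.2 (Module.End.iSup_maxGenEigenspace_eq_top D)).symm
    change (Ainf (PhS arm J B F R P.1)).map (SpS.Sg F).subtype = _
    rw [h3, Submodule.map_iSup]
  · rintro ν r _ ⟨v, hv, rfl⟩
    exact ⟨PhS arm J B F R P.1 r v, SC.PB_stable S.hD.2 ν r hv, PhS_coe S.hR P.1 r v⟩

/-- **`STop.Gens` from the generators in the good class** -/
theorem stopGens_of (S : STop.Setup arm J B N W F f P R D l) {ν ν' : K} {n1 n2 : ℕ}
    {Q1 : Matrix ι (Fin n1) K} {A1 : Fin 3 → Matrix (Fin n1) (Fin n1) K}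
    {Q2 : Matrix ι (Fin n2) K} {A2 : Fin 3 → Matrix (Fin n2) (Fin n2) K}
    (b1 : BPkg arm J B F R P.1 D ν l Q1 A1) (b2 : BPkg arm J B F R P.1 D ν' l Q2 A2)
    (h : Gens arm J B F P.1 l (QS arm J B N W F P R D) (PbK arm J B F R P.1 D ν)
      (PbK arm J B F R P.1 D ν')) :
    STop.Gens arm J B N W F P R l Q1 A1 Q2 A2 := by
  have hrd : ∀ {μ : K} {n : ℕ} {Q : Matrix ι (Fin n) K} {A : Fin 3 → Matrix (Fin n) (Fin n) K},
      BPkg arm J B F R P.1 D μ l Q A → ∀ x, (Qᵀ * (J * P.1) * Q) *ᵥ x = 0 →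
      Q *ᵥ x ∈ Rd (J * P.1) (PbK arm J B F R P.1 D μ) := by
    intro μ n Q A b x hx
    refine ⟨SLev0.coord_mem b x, fun a ha => ?_⟩
    obtain ⟨y, rfl⟩ := SLev0.exists_coord b ha
    rw [form_gg, hx, dotProduct_zero]
  intro s
  refine ⟨fun i j hij x y => good_of_QS S ?_, fun x y hx => good_of_QS S ?_,
    fun x y hy => good_of_QS S ?_⟩
  · have h1 := h.g1 s i j hij _ (SLev0.coord_mem b1 x) _ (SLev0.coord_mem b2 y)
    rwa [SLev0.pow_act b1, SLev0.pow_act b2] at h1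
  · exact h.g2 s _ (hrd b1 x hx) _ (SLev0.coord_mem b2 y)
  · exact h.g3 s _ (SLev0.coord_mem b1 x) _ (hrd b2 y hy)

end stop

end Crest.Agent.R172.SLev1
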