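import Crest.Agent.R172.SLev0
import Crest.Agent.R172.UFr
import Crest.Agent.R172.SULift

/-!
Row 172 (S0260), (t2), LEVEL 1: the relation of `SLev0.lev1` in coordinates, from `SGl1.first_pair`
and `SULift.exists_lift`.
-/

set_option autoImplicit false
set_option linter.unusedSectionVars false
set_option linter.unusedFintypeInType false
set_option linter.unusedDecidableInType false

namespace Crest.Agent.R172.SLevI84

open Module Matrix TensorProduct Crest.Agent.R172.FO Crest.Agent.R172.Qt Crest.Agent.R172.SpS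
open Crest.Agent.R172.SBlk Crest.Agent.R172.UBlk Crest.Agent.R172.SCM Crest.Agent.R172.SLev0
open Crest.Agent.R172.PL (CoreM)
open Crest.Agent.R172.SUX (th wd Mv)
open Crest.Agent.R172.SC (PB)
open Crest.Agent.R172.SGl1 (ten qa rs)

variable {ι : Type*} [Fintype ι] [DecidableEq ι] {δ : Type*} [Fintype δ] [DecidableEq δ]
variable {k K : Type*} [Field k] [Field K] [Algebra k K]
variable {arm : δ → Fin 3} {J : Matrix ι ι K} {B : Matrix δ δ K}
  {N W : Submodule K (Matrix ι δ K)} {g f : Matrix ι δ K}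
  {p : Matrix ι ι K × (Fin 3 → Matrix ι ι K)}

/-- stability in the letters of `SGl1` -/
theorem st (h : Ctx k arm J B N W g) {R : Matrix δ ι K} (hR : g * R * g = g)
    {D : End K (CoreM (Ph arm J B g R p.1))}
    (hD : IsD (Ph arm J B g R p.1) (Nh arm J B g f R p.1) D) (ν : K) (r : Fin 3)
    (u : δ → K) (hu : u ∈ Qb h.data hR p.1 D ν) :
    SGl1.om arm B (th J g p.1 g) r *ᵥ u ∈ Qb h.data hR p.1 D ν :=
  Qb_stable h hR hD r hu

theorem perf (h : Ctx k arm J B N W g) {R : Matrix δ ι K} (hR : g * R * g = g)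
    {D : End K (CoreM (Ph arm J B g R p.1))}
    (hD : IsD (Ph arm J B g R p.1) (Nh arm J B g f R p.1) D) (ν : K)
    (u : δ → K) (hu : u ∈ Qb h.data hR p.1 D ν) :
    ∃ c : Fin 3 → (δ → K), (∀ r, c r ∈ Qb h.data hR p.1 D ν) ∧
      ∑ r, SGl1.om arm B (th J g p.1 g) r *ᵥ (c r) = u :=
  Qb_exists h hR hD hu

section pi

variable (h : Ctx k arm J B N W g) {R : Matrix δ ι K} (hR : g * R * g = g)
  {D : End K (CoreM (Ph arm J B g R p.1))}
  (hD : IsD (Ph arm J B g R p.1) (Nh arm J B g f R p.1) D) [IsAlgClosed K]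
  {ν : K} {l : Fin 3 → ℕ} {n : ℕ} {P : Matrix ι (Fin n) K}
  {A : Fin 3 → Matrix (Fin n) (Fin n) K}

/-- `π : Q_ν → P_ν` in coordinates -/
theorem exists_pi (b : BPkg arm J B g R p.1 D ν l P A) :
    ∃ π : Qb h.data hR p.1 D ν →ₗ[K] (Fin n → K),
      (∀ u, P *ᵥ π u = g *ᵥ (u : δ → K)) ∧ Function.Surjective π ∧
      (∀ r u, π (rs (SGl1.om arm B (th J g p.1 g) r) (Qb h.data hR p.1 D ν)
        (st h hR hD ν r) u) = (A r).mulVecLin (π u)) ∧
      ∀ r u, π u = 0 → SGl1.om arm B (th J g p.1 g) r *ᵥ (u : δ → K) = 0 := by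
  have hmap := Qb_map h hR hD ν
  have hex : ∀ u : Qb h.data hR p.1 D ν, ∃ x : Fin n → K, P *ᵥ x = g *ᵥ (u : δ → K) := by
    intro u
    have h1 : gS g (u : δ → K) ∈ PB (Ph arm J B g R p.1) D ν := by
      rw [← hmap]; exact ⟨u, u.2, rfl⟩
    obtain ⟨x, hx⟩ := b.span _ h1
    exact ⟨x, by rw [← hx, gS_coe]⟩
  have hinj : ∀ x y : Fin n → K, P *ᵥ x = P *ᵥ y → x = y := by
    intro x y hxy
    have := b.inj (x - y) (by rw [mulVec_sub, hxy, sub_self])
    exact sub_eq_zero.1 this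
  choose π0 hπ0 using hex
  let π : Qb h.data hR p.1 D ν →ₗ[K] (Fin n → K) :=
    { toFun := π0
      map_add' := fun u v => hinj _ _ (by
        rw [mulVec_add, hπ0, hπ0, hπ0, Submodule.coe_add, mulVec_add])
      map_smul' := fun c u => hinj _ _ (by
        rw [RingHom.id_apply, mulVec_smul, hπ0, hπ0, Submodule.coe_smul, mulVec_smul]) }
  have hπ : ∀ u, P *ᵥ π u = g *ᵥ (u : δ → K) := hπ0
  refine ⟨π, hπ, fun x => ?_, fun r u => hinj _ _ ?_, fun r u hu => ?_⟩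
  · obtain ⟨v, hv, hvx⟩ := b.mem x
    have h1 : v ∈ (Qb h.data hR p.1 D ν).map (gS g) := by rw [hmap]; exact hv
    obtain ⟨u, hu, rfl⟩ := h1
    refine ⟨⟨u, hu⟩, hinj _ _ ?_⟩
    rw [hπ, ← hvx, gS_coe]
  · rw [hπ, SGl1.rs_coe, mulVecLin_apply, mulVec_mulVec, mulVec_mulVec, ← b.act,
      ← mulVec_mulVec _ _ P, hπ, mulVec_mulVec]
    congr 1
    unfold SGl1.om th M
    rw [← h.data.B_arm r]
    simp only [Matrix.mul_assoc]
  · have h1 : g *ᵥ (u : δ → K) = 0 := by rw [← hπ, hu, mulVec_zero]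
    unfold SGl1.om th
    have e : B * E K arm r * (gᵀ * J * (p.1 * g)) = (B * E K arm r * gᵀ * J * p.1) * g := by
      simp only [Matrix.mul_assoc]
    rw [e, ← mulVec_mulVec, h1, mulVec_zero]

end pi

section forms

variable {n n' : ℕ} {P : Matrix ι (Fin n) K} {P' : Matrix ι (Fin n') K}
  {Q1 Q2 : Submodule K (δ → K)} {π1 : Q1 →ₗ[K] (Fin n → K)} {π2 : Q2 →ₗ[K] (Fin n' → K)}

theorem bq_qa (h : Ctx k arm J B N W g) (hp : p ∈ NN arm J N g)
    (h1 : ∀ u, P *ᵥ π1 u = g *ᵥ (u : δ → K)) (h2 : ∀ u, P' *ᵥ π2 u = g *ᵥ (u : δ → K))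
    (t : Fin 3) (a : Q2) (b : Q1) :
    bq arm J g p.1 P' P t (π2 a) (π1 b) = -(qa arm g (th J g p.1 g) Q2 Q1 t a b) := by
  rw [bq_apply, SGl1.qa_apply, h1, h2]
  have e1 : vecMulVec (g *ᵥ (a : δ → K)) (g *ᵥ (b : δ → K)) * (J * p.1) * g =
      -(vecMulVec (g *ᵥ (a : δ → K)) (th J g p.1 g *ᵥ (b : δ → K))) := by
    rw [Matrix.mul_assoc, vecMulVec_mul]
    have e2 : (g *ᵥ (b : δ → K)) ᵥ* (J * p.1 * g) = -(th J g p.1 g *ᵥ (b : δ → K)) := by
      rw [← mulVec_transpose, mulVec_mulVec, ← neg_mulVec]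
      congr 1
      unfold th
      rw [transpose_mul, transpose_mul, h.data.J_symm]
      calc gᵀ * (p.1ᵀ * J) * g = gᵀ * (-(J * p.1)) * g := by rw [hp.1.eq]
        _ = _ := by simp only [Matrix.mul_neg, Matrix.neg_mul, Matrix.mul_assoc]
    rw [e2, vecMulVec_neg]
  rw [e1, Matrix.neg_mul]

theorem lift_bq (h : Ctx k arm J B N W g) (hp : p ∈ NN arm J N g)
    (h1 : ∀ u, P *ᵥ π1 u = g *ᵥ (u : δ → K)) (h2 : ∀ u, P' *ᵥ π2 u = g *ᵥ (u : δ → K))
    (t : Fin 3) (z : Q2 ⊗[K] Q1) :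
    TensorProduct.lift (bq arm J g p.1 P' P t) (TensorProduct.map π2 π1 z) =
      -(TensorProduct.lift (qa arm g (th J g p.1 g) Q2 Q1 t) z) := by
  have e : TensorProduct.lift (bq arm J g p.1 P' P t) ∘ₗ TensorProduct.map π2 π1 =
      -(TensorProduct.lift (qa arm g (th J g p.1 g) Q2 Q1 t)) :=
    TensorProduct.ext' fun a b => by
      rw [LinearMap.comp_apply, TensorProduct.map_tmul, TensorProduct.lift.tmul,
        LinearMap.neg_apply, TensorProduct.lift.tmul]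
      exact bq_qa h hp h1 h2 t a b
  exact LinearMap.congr_fun e z

theorem lift_bq_flip (h : Ctx k arm J B N W g) (hp : p ∈ NN arm J N g)
    (h1 : ∀ u, P *ᵥ π1 u = g *ᵥ (u : δ → K)) (h2 : ∀ u, P' *ᵥ π2 u = g *ᵥ (u : δ → K))
    (t : Fin 3) (z : Q2 ⊗[K] Q1) :
    TensorProduct.lift (bq arm J g p.1 P P' t).flip (TensorProduct.map π2 π1 z) =
      -(TensorProduct.lift (qa arm g (th J g p.1 g) Q1 Q2 t).flip z) := by
  have e : TensorProduct.lift (bq arm J g p.1 P P' t).flip ∘ₗ TensorProduct.map π2 π1 =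
      -(TensorProduct.lift (qa arm g (th J g p.1 g) Q1 Q2 t).flip) :=
    TensorProduct.ext' fun a b => by
      rw [LinearMap.comp_apply, TensorProduct.map_tmul, TensorProduct.lift.tmul,
        LinearMap.neg_apply, TensorProduct.lift.tmul, LinearMap.flip_apply, LinearMap.flip_apply]
      exact bq_qa h hp h2 h1 t b a
  exact LinearMap.congr_fun e z

/-- the test functional `a ⊗ b ↦ (y · G' a)(b · G w)` -/
noncomputable def phi (G : Matrix (Fin n) (Fin n) K) (G' : Matrix (Fin n') (Fin n') K)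
    (y : Fin n' → K) (w : Fin n → K) : (Fin n' → K) ⊗[K] (Fin n → K) →ₗ[K] K :=
  TensorProduct.lift (LinearMap.mk₂ K (fun a b => (y ⬝ᵥ (G' *ᵥ a)) * (b ⬝ᵥ (G *ᵥ w)))
    (fun a a' b => by rw [mulVec_add, dotProduct_add, add_mul])
    (fun c a b => by rw [mulVec_smul, dotProduct_smul, smul_eq_mul, smul_eq_mul, mul_assoc])
    (fun a b b' => by rw [add_dotProduct, mul_add])
    (fun c a b => by rw [smul_dotProduct, smul_eq_mul, smul_eq_mul]; ring))

theorem phi_tmul (G : Matrix (Fin n) (Fin n) K) (G' : Matrix (Fin n') (Fin n') K)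
    (y : Fin n' → K) (w : Fin n → K) (a : Fin n' → K) (b : Fin n → K) :
    phi G G' y w (a ⊗ₜ[K] b) = (y ⬝ᵥ (G' *ᵥ a)) * (b ⬝ᵥ (G *ᵥ w)) := rfl

theorem phi_rad {G : Matrix (Fin n) (Fin n) K} (hG : Gᵀ = -G) (G' : Matrix (Fin n') (Fin n') K)
    (y : Fin n' → K) (w : Fin n → K) {x : (Fin n' → K) ⊗[K] (Fin n → K)}
    (hx : x ∈ Dual.Rad (LinearMap.ker G.mulVecLin) (LinearMap.ker G'.mulVecLin)) :
    phi G G' y w x = 0 := by
  have hle : Dual.Rad (LinearMap.ker G.mulVecLin) (LinearMap.ker G'.mulVecLin) ≤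
      LinearMap.ker (phi G G' y w) := by
    refine sup_le (Submodule.span_le.2 ?_) (Submodule.span_le.2 ?_)
    · rintro _ ⟨r, hr, q, rfl⟩
      rw [LinearMap.mem_ker, mulVecLin_apply] at hr
      change phi G G' y w (r ⊗ₜ[K] q) = 0
      rw [phi_tmul, hr, dotProduct_zero, zero_mul]
    · rintro _ ⟨q, r, hr, rfl⟩
      rw [LinearMap.mem_ker, mulVecLin_apply] at hr
      change phi G G' y w (q ⊗ₜ[K] r) = 0
      have e : r ⬝ᵥ (G *ᵥ w) = 0 := by
        rw [dotProduct_mulVec, ← mulVec_transpose, hG, neg_mulVec, hr, neg_zero,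
          zero_dotProduct]
      rw [phi_tmul, e, mul_zero]
  exact hle hx

/-- **ARM** on pure tensors -/
theorem arm_eq (h : Ctx k arm J B N W g) (hp : p ∈ NN arm J N g)
    (h1 : ∀ u, P *ᵥ π1 u = g *ᵥ (u : δ → K)) (h2 : ∀ u, P' *ᵥ π2 u = g *ᵥ (u : δ → K))
    (hs1 : ∀ r, ∀ u ∈ Q1, SGl1.om arm B (th J g p.1 g) r *ᵥ u ∈ Q1)
    (hs2 : ∀ r, ∀ u ∈ Q2, SGl1.om arm B (th J g p.1 g) r *ᵥ u ∈ Q2)
    {A : Fin 3 → Matrix (Fin n) (Fin n) K} {A' : Fin 3 → Matrix (Fin n') (Fin n') K}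
    (c1 : ∀ r u, π1 (rs (SGl1.om arm B (th J g p.1 g) r) Q1 (hs1 r) u) =
      (A r).mulVecLin (π1 u))
    (c2 : ∀ r u, π2 (rs (SGl1.om arm B (th J g p.1 g) r) Q2 (hs2 r) u) =
      (A' r).mulVecLin (π2 u)) (c : K) (r : Fin 3) (q : Q2) (u : Q1) (z : Q2 ⊗[K] Q1) :
    (th J g p.1 g *ᵥ (q : δ → K)) ⬝ᵥ
        ((ten Q2 Q1 z * th J g p.1 g * SGl1.om arm B (th J g p.1 g) r) *ᵥ (u : δ → K)) -
      c * ((th J g p.1 g *ᵥ (q : δ → K)) ⬝ᵥ
        ((SGl1.om arm B (th J g p.1 g) r * ten Q2 Q1 z * th J g p.1 g) *ᵥ (u : δ → K))) =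
    phi (Pᵀ * (J * p.1) * P) (P'ᵀ * (J * p.1) * P') (π2 q) (π1 u)
      (Dual.defect (A r).mulVecLin (-(A' r).mulVecLin) c (TensorProduct.map π2 π1 z)) := by
  have hS : (th J g p.1 g)ᵀ = -(th J g p.1 g) := SUX.th_skew h hp h.mem
  have hGG : ∀ {m m' : ℕ} (X : Matrix ι (Fin m) K) (x : Fin m → K) (y : Fin m → K)
      (u v : δ → K), X *ᵥ x = g *ᵥ u → X *ᵥ y = g *ᵥ v →
      x ⬝ᵥ ((Xᵀ * (J * p.1) * X) *ᵥ y) = u ⬝ᵥ (th J g p.1 g *ᵥ v) := by
    intro m m' X x y u v hx hy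
    have e1 : x ⬝ᵥ ((Xᵀ * (J * p.1) * X) *ᵥ y) = (X *ᵥ x) ⬝ᵥ ((J * p.1) *ᵥ (X *ᵥ y)) := by
      rw [← mulVec_mulVec, ← mulVec_mulVec, dotProduct_mulVec, vecMul_transpose]
    have e2 : u ⬝ᵥ (th J g p.1 g *ᵥ v) = (g *ᵥ u) ⬝ᵥ ((J * p.1) *ᵥ (g *ᵥ v)) := by
      have : th J g p.1 g = gᵀ * (J * p.1) * g := by
        unfold th; simp only [Matrix.mul_assoc]
      rw [this, ← mulVec_mulVec, ← mulVec_mulVec, dotProduct_mulVec, vecMul_transpose]
    rw [e1, e2, hx, hy]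
  have key : ∀ w : Q2 ⊗[K] Q1,
      (th J g p.1 g *ᵥ (q : δ → K)) ⬝ᵥ
        ((ten Q2 Q1 w * th J g p.1 g * SGl1.om arm B (th J g p.1 g) r) *ᵥ (u : δ → K)) -
      c * ((th J g p.1 g *ᵥ (q : δ → K)) ⬝ᵥ
        ((SGl1.om arm B (th J g p.1 g) r * ten Q2 Q1 w * th J g p.1 g) *ᵥ (u : δ → K))) =
      phi (Pᵀ * (J * p.1) * P) (P'ᵀ * (J * p.1) * P') (π2 q) (π1 u)
        (Dual.defect (A r).mulVecLin (-(A' r).mulVecLin) c (TensorProduct.map π2 π1 w)) := by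
    intro w
    induction w using TensorProduct.induction_on with
    | zero => simp
    | add x y hx hy =>
      simp only [map_add, Matrix.add_mul, add_mulVec, dotProduct_add, mul_add]
      rw [← hx, ← hy]
      ring
    | tmul a b =>
      rw [TensorProduct.map_tmul, Dual.defect_tmul, map_sub, map_smul, phi_tmul,
        LinearMap.neg_apply, phi_tmul, mulVec_neg, dotProduct_neg, ← c1, ← c2, SGl1.ten_tmul]
      have f1 := hGG (m' := 0) P' (π2 q) (π2 a) q a (h2 q) (h2 a)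
      have f2 := hGG (m' := 0) P
        (π1 (rs (SGl1.om arm B (th J g p.1 g) r) Q1 (hs1 r) b)) (π1 u)
        (SGl1.om arm B (th J g p.1 g) r *ᵥ (b : δ → K)) u
        (by rw [h1]; rfl) (h1 u)
      have f3 := hGG (m' := 0) P' (π2 q)
        (π2 (rs (SGl1.om arm B (th J g p.1 g) r) Q2 (hs2 r) a)) q
        (SGl1.om arm B (th J g p.1 g) r *ᵥ (a : δ → K)) (h2 q) (by rw [h2]; rfl)
      have f4 := hGG (m' := 0) P (π1 b) (π1 u) b u (h1 b) (h1 u)
      rw [f1, f2, f3, f4]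
      have sk : ∀ x y : δ → K, (th J g p.1 g *ᵥ x) ⬝ᵥ y = -(x ⬝ᵥ (th J g p.1 g *ᵥ y)) := by
        intro x y
        rw [dotProduct_mulVec, ← mulVec_transpose, hS, neg_mulVec, neg_dotProduct, neg_neg]
      have g1 : (th J g p.1 g *ᵥ (q : δ → K)) ⬝ᵥ ((vecMulVec (a : δ → K) (b : δ → K) *
          th J g p.1 g * SGl1.om arm B (th J g p.1 g) r) *ᵥ (u : δ → K)) =
          -((q : δ → K) ⬝ᵥ (th J g p.1 g *ᵥ (a : δ → K))) *
            ((b : δ → K) ⬝ᵥ (th J g p.1 g *ᵥ (SGl1.om arm B (th J g p.1 g) r *ᵥ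
              (u : δ → K)))) := by
        rw [← sk, ← mulVec_mulVec, ← mulVec_mulVec, vecMulVec_mulVec]
        simp only [dotProduct_smul, op_smul_eq_smul, smul_eq_mul]
        ring
      have g2 : (th J g p.1 g *ᵥ (q : δ → K)) ⬝ᵥ ((SGl1.om arm B (th J g p.1 g) r *
          vecMulVec (a : δ → K) (b : δ → K) * th J g p.1 g) *ᵥ (u : δ → K)) =
          -((q : δ → K) ⬝ᵥ (th J g p.1 g *ᵥ (SGl1.om arm B (th J g p.1 g) r *ᵥ
            (a : δ → K)))) * ((b : δ → K) ⬝ᵥ (th J g p.1 g *ᵥ (u : δ → K))) := by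
        rw [← sk, ← mulVec_mulVec, ← mulVec_mulVec, vecMulVec_mulVec]
        simp only [mulVec_smul, dotProduct_smul, op_smul_eq_smul, smul_eq_mul]
        ring
      have g3 : (SGl1.om arm B (th J g p.1 g) r *ᵥ (b : δ → K)) ⬝ᵥ
          (th J g p.1 g *ᵥ (u : δ → K)) =
          -((b : δ → K) ⬝ᵥ (th J g p.1 g *ᵥ (SGl1.om arm B (th J g p.1 g) r *ᵥ
            (u : δ → K)))) := by
        have e1 : (SGl1.om arm B (th J g p.1 g) r)ᵀ * th J g p.1 g =
            -(th J g p.1 g * SGl1.om arm B (th J g p.1 g) r) := by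
          unfold SGl1.om
          rw [transpose_mul, transpose_mul, E_transpose, h.data.B_symm, hS,
            h.data.B_arm]
          simp only [Matrix.neg_mul, Matrix.mul_assoc]
        rw [dotProduct_comm, dotProduct_mulVec, ← mulVec_transpose, mulVec_mulVec, e1, neg_mulVec,
          neg_dotProduct, dotProduct_comm, mulVec_mulVec]
      rw [g1, g2, g3]
      simp only [smul_eq_mul]
      ring
  exact key z

end forms

theorem lift_smul' {M1 M2 E : Type*} [AddCommGroup M1] [Module K M1] [AddCommGroup M2]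
    [Module K M2] [AddCommGroup E] [Module K E] (c : K) (F : M1 →ₗ[K] M2 →ₗ[K] E)
    (x : M1 ⊗[K] M2) : TensorProduct.lift (c • F) x = c • TensorProduct.lift F x := by
  have : TensorProduct.lift (c • F) = c • TensorProduct.lift F :=
    TensorProduct.ext' fun a b => by simp
  rw [this, LinearMap.smul_apply]

theorem lift_neg' {M1 M2 E : Type*} [AddCommGroup M1] [Module K M1] [AddCommGroup M2]
    [Module K M2] [AddCommGroup E] [Module K E] (F : M1 →ₗ[K] M2 →ₗ[K] E)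
    (x : M1 ⊗[K] M2) : TensorProduct.lift (-F) x = -TensorProduct.lift F x := by
  have : TensorProduct.lift (-F) = -TensorProduct.lift F :=
    TensorProduct.ext' fun a b => by simp
  rw [this, LinearMap.neg_apply]

/-- the good class hypothesis at one parameter: `wd kk ∈ Q` for all moves of exact families of
`Q_ν' ⊗ Q_ν` whose arms are exact modulo the radicals -/
def Hyp (h : Ctx k arm J B N W g) {R : Matrix δ ι K} (hR : g * R * g = g)
    {D : End K (CoreM (Ph arm J B g R p.1))}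
    (hD : IsD (Ph arm J B g R p.1) (Nh arm J B g f R p.1) D) (ν ν' : K)
    (Q : Submodule K (Matrix ι δ K)) (t : K) (Pt : Matrix ι ι K) : Prop :=
  ∀ z : Fin 3 → Qb h.data hR p.1 D ν' ⊗[K] Qb h.data hR p.1 D ν,
    ∑ r, Dual.defect (rs (SGl1.om arm B (th J g p.1 g) r) _ (st h hR hD ν r))
      (-(rs (SGl1.om arm B (th J g p.1 g) r) _ (st h hR hD ν' r)))
      (((1 + t * ν') / (1 + t * ν)) ^ 2) (z r) = 0 →
    (∀ r, ∀ q ∈ Qb h.data hR p.1 D ν', ∀ u ∈ Qb h.data hR p.1 D ν,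
      (th J g p.1 g *ᵥ q) ⬝ᵥ ((ten _ _ (z r) * th J g p.1 g *
        SGl1.om arm B (th J g p.1 g) r) *ᵥ u) =
      ((1 + t * ν') / (1 + t * ν)) ^ 2 * ((th J g p.1 g *ᵥ q) ⬝ᵥ
        ((SGl1.om arm B (th J g p.1 g) r * ten _ _ (z r) * th J g p.1 g) *ᵥ u))) →
    ∀ d : Derivation k K K,
      Mv k arm J N W (g + t • f) Pt (fun r => ten _ _ (z r) + (ten _ _ (z r))ᵀ) d →
      wd arm J (g + t • f) Pt (fun r => ten _ _ (z r) + (ten _ _ (z r))ᵀ) d
        ((ν - ν')⁻¹ • (f - ν' • g)) ∈ Q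

/-- **(i)**: the generators of a pair of different blocks, from the good class hypothesis. -/
theorem gens_of [IsAlgClosed K] (h : Ctx k arm J B N W g) (h2 : (2 : K) ≠ 0)
    {R : Matrix δ ι K} (hR : g * R * g = g) {D : End K (CoreM (Ph arm J B g R p.1))}
    (hD : IsD (Ph arm J B g R p.1) (Nh arm J B g f R p.1) D)
    (hNil : NilW arm J B N g) (hp : p ∈ NN arm J N g) (hf : f ∈ N ⊓ W) {ν ν' : K}
    (hne : ν ≠ ν') {l : Fin 3 → ℕ} {n n' : ℕ} {P : Matrix ι (Fin n) K}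
    {A : Fin 3 → Matrix (Fin n) (Fin n) K} {P' : Matrix ι (Fin n') K}
    {A' : Fin 3 → Matrix (Fin n') (Fin n') K}
    (b : BPkg arm J B g R p.1 D ν l P A) (b' : BPkg arm J B g R p.1 D ν' l P' A')
    (Q : Submodule K (Matrix ι δ K)) (hN : N ≤ Q) {T : Set K} (hT : T.Infinite)
    (hT1 : ∀ t ∈ T, 1 + t * ν ≠ 0) (hT2 : ∀ t ∈ T, 1 + t * ν' ≠ 0)
    (hpar : ∀ t ∈ T, ∃ (Pt : Matrix ι ι K × (Fin 3 → Matrix ι ι K)) (Ri : Matrix δ ι K),
      Ctx k arm J B N W (g + t • f) ∧ Pt ∈ NN arm J N (g + t • f) ∧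
      Vert k arm J N W (g + t • f) Pt ∧ (g + t • f) * Ri * (g + t • f) = g + t • f ∧
      (g + t • f)ᵀ * J * (Pt.1 * g) = (g + t • f)ᵀ * J * (p.1 * g) ∧
      Hyp h hR hD ν ν' Q t Pt.1) :
    Gens arm J B g p.1 l Q (PbK arm J B g R p.1 D ν') (PbK arm J B g R p.1 D ν) ∧
      Gens arm J B g p.1 l Q (PbK arm J B g R p.1 D ν) (PbK arm J B g R p.1 D ν') := by
  obtain ⟨i, hi⟩ := IsAlgClosed.exists_pow_nat_eq (-1 : K) (n := 2) (by norm_num)
  have hi0 : i ≠ 0 := by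
    rintro rfl
    rw [zero_pow two_ne_zero] at hi
    exact one_ne_zero (neg_eq_zero.1 hi.symm)
  have hii : i * i = -1 := by rw [← sq, hi]
  obtain ⟨π1, hπ1, s1, co1, ki1⟩ := exists_pi h hR hD b
  obtain ⟨π2, hπ2, s2, co2, ki2⟩ := exists_pi h hR hD b'
  have hkk : (ν - ν')⁻¹ • (f - ν' • g) ∈ N ⊓ W :=
    Submodule.smul_mem _ _ (Submodule.sub_mem _ hf (Submodule.smul_mem _ _ h.mem))
  have hρ0 : ∀ t ∈ T, (1 + t * ν') / (1 + t * ν) ≠ 0 := fun t ht =>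
    div_ne_zero (hT2 t ht) (hT1 t ht)
  refine lev1 b b' (Λ := (fun s => i * s) '' ((fun t => (1 + t * ν') / (1 + t * ν)) '' T))
    ((SGl1.ratios_infinite hT hne hT1).image (mul_right_injective₀ hi0).injOn) ?_ 1 i one_ne_zero
    hi0 Q ?_
  · rintro ⟨_, ⟨t, ht, rfl⟩, h0⟩
    exact mul_ne_zero hi0 (hρ0 t ht) h0
  · rintro _ ⟨_, ⟨t, ht, rfl⟩, rfl⟩ x hx
    obtain ⟨Pt, Ri, hC, hPt, hV, hRi, hPF, hyp⟩ := hpar t ht
    simp only at hx ⊢
    set ρ : K := (1 + t * ν') / (1 + t * ν) with hρ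
    have hc : (1 + t * ν) * ρ = 1 + t * ν' := by
      rw [hρ, mul_div_cancel₀ _ (hT1 t ht)]
    have hsq : (i * ρ) ^ 2 = -(ρ ^ 2) := by rw [mul_pow, hi, neg_one_mul]
    have hdef : ∀ r, Dual.defect (A r).mulVecLin (-(A' r).mulVecLin) (ρ ^ 2) (x r) =
        Dual.defect (A r).mulVecLin (A' r).mulVecLin ((i * ρ) ^ 2) (x r) := by
      intro r
      rw [SULift.defect_neg, hsq]
      rfl
    obtain ⟨z, hz, hz0⟩ := SULift.exists_lift (st h hR hD ν) (st h hR hD ν') (perf h hR hD ν)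
      (perf h hR hD ν') s1 s2 (a := fun r => (A r).mulVecLin) (b := fun r => (A' r).mulVecLin)
      co1 co2 ki1 ki2 (hρ0 t ht) x (by
        rw [Finset.sum_congr rfl fun r _ => hdef r]
        exact hx.1)
    have hrel : SGl1.Rel g (g + t • f) ((ν - ν')⁻¹ • (f - ν' • g)) (th J g p.1 g)
        (th J (g + t • f) Pt.1 (g + t • f))
        (th J (g + t • f) Pt.1 ((ν - ν')⁻¹ • (f - ν' • g))) (Qb h.data hR p.1 D ν)
        (Qb h.data hR p.1 D ν') (1 + t * ν) (1 + t * ν') :=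
      SGl1.rel_of hne h.mem hf hC hPt (SUX.th_flip h hp hf) hPF
        (fun u hu => (Qb_rel h hR hD hNil hp hf hu).1)
        (fun u hu => (Qb_rel h hR hD hNil hp hf hu).1)
    have harm : ∀ r, ∀ q ∈ Qb h.data hR p.1 D ν', ∀ u ∈ Qb h.data hR p.1 D ν,
        (th J g p.1 g *ᵥ q) ⬝ᵥ ((ten _ _ (z r) * th J g p.1 g *
          SGl1.om arm B (th J g p.1 g) r) *ᵥ u) =
        ρ ^ 2 * ((th J g p.1 g *ᵥ q) ⬝ᵥ
          ((SGl1.om arm B (th J g p.1 g) r * ten _ _ (z r) * th J g p.1 g) *ᵥ u)) := by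
      intro r q hq u hu
      have e := arm_eq h hp hπ1 hπ2 (st h hR hD ν) (st h hR hD ν') co1 co2 (ρ ^ 2) r ⟨q, hq⟩
        ⟨u, hu⟩ (z r)
      rw [hz, hdef, phi_rad b.skew _ _ _ (hx.2 r), sub_eq_zero] at e
      exact e
    have hfirst := SGl1.first_pair hC h2 hRi hPt hV hkk hrel (hT1 t ht) (hT2 t ht) hc
      (st h hR hD ν) (st h hR hD ν') hz0 Q (hyp z hz0 harm)
    have hin : ∑ r, TensorProduct.lift (qa arm g (th J g p.1 g) _ _ r) (z r) +
        ρ • ∑ r, TensorProduct.lift (-(qa arm g (th J g p.1 g) _ _ r).flip) (z r) ∈ Q :=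
      (sup_le hN le_rfl : SGl1.QG N Q ≤ Q) hfirst
    have e1 : ∀ r, TensorProduct.lift ((1 : K) • bq arm J g p.1 P' P r) (x r) =
        -(TensorProduct.lift (qa arm g (th J g p.1 g) _ _ r) (z r)) := by
      intro r
      rw [one_smul, ← hz, lift_bq h hp hπ1 hπ2]
    have e2 : ∀ r, TensorProduct.lift (i • (bq arm J g p.1 P P' r).flip) (x r) =
        i • TensorProduct.lift (-(qa arm g (th J g p.1 g) _ _ r).flip) (z r) := by
      intro r
      rw [lift_smul', ← hz, lift_bq_flip h hp hπ1 hπ2, lift_neg']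
    rw [Finset.sum_congr rfl fun r _ => e1 r, Finset.sum_congr rfl fun r _ => e2 r,
      Finset.sum_neg_distrib, ← Finset.smul_sum, smul_smul]
    have e3 : i * ρ * i = -ρ := by
      calc i * ρ * i = (i * i) * ρ := by ring
        _ = -ρ := by rw [hii, neg_one_mul]
    rw [e3, neg_smul, ← neg_add]
    exact Q.neg_mem hin

end Crest.Agent.R172.SLevI84
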