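import Crest.Agent.R172.SB7b
import Crest.Agent.R172.SLevI84
import Crest.Agent.R172.SLev1

/-!
Row 172 (S0260), S-side (t2): LEVEL 1 complete, `theorem lev1 : STop.Lev1` (helper7), from 84's
`gens_of`, 26's `stopGens_of`, and `SB7.b_zero`, `SB7.test`, `SB7.GG_*`.
-/

set_option autoImplicit false
set_option linter.unusedSectionVars false
set_option linter.unusedVariables false
set_option linter.unusedFintypeInType false
set_option linter.unusedDecidableInType false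
set_option maxHeartbeats 1000000

namespace Crest.Agent.R172.SB7

open Matrix Module TensorProduct Crest.Agent.R172.FO Crest.Agent.R172.Qt Crest.Agent.R172.SpS
  Crest.Agent.R172.Om Crest.Agent.R172.SUX Crest.Agent.R172.SUB
open Crest.Agent.R172.SBlk Crest.Agent.R172.UBlk Crest.Agent.R172.SCM Crest.Agent.R172.SLev0
open Crest.Agent.R172.PL (CoreM Ainf)
open Crest.Agent.R172.SC (PB)
open Crest.Agent.R172.SGl1 (ten qa rs)
open Crest.Agent.R172.SEnd Crest.Agent.R172.SEnd2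

section arm

variable {δ : Type*} [Fintype δ] [DecidableEq δ] {K : Type*} [Field K]
variable {arm : δ → Fin 3} {B S0 SH : Matrix δ δ K} {Q1 Q2 : Submodule K (δ → K)} {c1 c2 ρ : K}

/-- ARM in terms of the paired defect -/
theorem arm_phi (D : PrD arm B S0 SH Q1 Q2 c1 c2 ρ) (r : Fin 3) {q u : δ → K}
    (z : Q2 ⊗[K] Q1) :
    (S0 *ᵥ q) ⬝ᵥ ((ten Q2 Q1 z * S0 * SGl1.om arm B S0 r) *ᵥ u) -
      ρ ^ 2 * ((S0 *ᵥ q) ⬝ᵥ ((SGl1.om arm B S0 r * ten Q2 Q1 z * S0) *ᵥ u)) =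
    -(phi (fl S0 Q2 q) (fl S0 Q1 u) (Dual.defect (rs (SGl1.om arm B S0 r) Q1 (D.st1 r))
        (-(rs (SGl1.om arm B S0 r) Q2 (D.st2 r))) (ρ ^ 2) z)) := by
  induction z using TensorProduct.induction_on with
  | zero => simp
  | tmul a b =>
    have s1 : ∀ x : δ → K, (S0 *ᵥ q) ⬝ᵥ x = -(q ⬝ᵥ (S0 *ᵥ x)) := by
      intro x
      rw [dot_skew D.skew, neg_neg]
    have e1 : (b : δ → K) ⬝ᵥ (S0 *ᵥ (SGl1.om arm B S0 r *ᵥ u)) =
        u ⬝ᵥ (S0 *ᵥ (SGl1.om arm B S0 r *ᵥ (b : δ → K))) := by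
      have := dot_om D.hB D.hBE D.skew r (b : δ → K) (S0 *ᵥ u)
      rw [mulVec_mulVec u (B * E K arm r) S0] at this
      change (b : δ → K) ⬝ᵥ (S0 *ᵥ ((B * E K arm r * S0) *ᵥ u)) = _
      rw [this, dot_skew D.skew, neg_neg, dotProduct_comm]
    have e4 : (b : δ → K) ⬝ᵥ (S0 *ᵥ u) = -(u ⬝ᵥ (S0 *ᵥ (b : δ → K))) := by
      rw [dot_skew D.skew, dotProduct_comm]
    have g1 : (ten Q2 Q1 (a ⊗ₜ[K] b) * S0 * SGl1.om arm B S0 r) *ᵥ u =
        ((b : δ → K) ⬝ᵥ (S0 *ᵥ (SGl1.om arm B S0 r *ᵥ u))) • (a : δ → K) := by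
      rw [SGl1.ten_tmul, ← mulVec_mulVec, ← mulVec_mulVec, vecMulVec_mulVec, op_smul_eq_smul]
    have g2 : (SGl1.om arm B S0 r * ten Q2 Q1 (a ⊗ₜ[K] b) * S0) *ᵥ u =
        ((b : δ → K) ⬝ᵥ (S0 *ᵥ u)) • (SGl1.om arm B S0 r *ᵥ (a : δ → K)) := by
      rw [SGl1.ten_tmul, ← mulVec_mulVec, ← mulVec_mulVec, vecMulVec_mulVec, op_smul_eq_smul,
        mulVec_smul]
    rw [g1, g2, dotProduct_smul, dotProduct_smul, s1, s1, e1, e4, Dual.defect_tmul, map_sub,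
      map_smul, phi_tmul, phi_tmul]
    change _ = -((q ⬝ᵥ (S0 *ᵥ (a : δ → K))) *
      (u ⬝ᵥ (S0 *ᵥ (SGl1.om arm B S0 r *ᵥ (b : δ → K)))) -
      ρ ^ 2 • ((q ⬝ᵥ (S0 *ᵥ (-(SGl1.om arm B S0 r *ᵥ (a : δ → K))))) *
        (u ⬝ᵥ (S0 *ᵥ (b : δ → K)))))
    simp only [smul_eq_mul, mulVec_neg, dotProduct_neg]
    ring
  | add x y hx hy =>
    simp only [map_add, Matrix.mul_add, Matrix.add_mul, add_mulVec, dotProduct_add, mul_add,
      neg_add]
    rw [← hx, ← hy]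
    ring

end arm

section hyp

variable {ι : Type*} [Fintype ι] [DecidableEq ι] {δ : Type*} [Fintype δ] [DecidableEq δ]
variable {k K : Type*} [Field k] [Field K] [Algebra k K] [IsAlgClosed K]
variable {arm : δ → Fin 3} {J : Matrix ι ι K} {B : Matrix δ δ K}
  {N W : Submodule K (Matrix ι δ K)} {g f : Matrix ι δ K}
  {p : Matrix ι ι K × (Fin 3 → Matrix ι ι K)}

/-- a good parameter -/
structure GoodT (h : Ctx k arm J B N W g) {R : Matrix δ ι K} (hR : g * R * g = g)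
    {D : End K (CoreM (Ph arm J B g R p.1))}
    (hD : IsD (Ph arm J B g R p.1) (Nh arm J B g f R p.1) D) (t : K) : Prop where
  ne : ∀ μ, D.maxGenEigenspace μ ≠ ⊥ → 1 + t * μ ≠ 0
  exc : ∀ μ μ', μ ≠ μ' → D.maxGenEigenspace μ ≠ ⊥ → D.maxGenEigenspace μ' ≠ ⊥ →
    (1 + t * μ') ^ 2 / (1 + t * μ) ^ 2 ∉ Exc arm B (th J g p.1 g) (Qb h.data hR p.1 D μ)
      (Qb h.data hR p.1 D μ') (SLevI84.st h hR hD μ) (SLevI84.st h hR hD μ')

/-- **`Hyp` of `SLevI84` for the good class** -/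
theorem hyp_of (h : Ctx k arm J B N W g) {R : Matrix δ ι K} (hR : g * R * g = g)
    {D : End K (CoreM (Ph arm J B g R p.1))}
    (hD : IsD (Ph arm J B g R p.1) (Nh arm J B g f R p.1) D)
    (hNil : NilW arm J B N g) (hp : p ∈ NN arm J N g) (hf : f ∈ N ⊓ W) (hff : fᵀ * J * f = 0)
    {ν ν' : K} (hne : ν ≠ ν') (hν : D.maxGenEigenspace ν ≠ ⊥) (hν' : D.maxGenEigenspace ν' ≠ ⊥)
    {t : K} (hG : GoodT h hR hD t) {Pt : Matrix ι ι K × (Fin 3 → Matrix ι ι K)}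
    (hC : Ctx k arm J B N W (g + t • f)) (hPt : Pt ∈ NN arm J N (g + t • f))
    {dY : Derivation k K K}
    (hY : ∀ f' ∈ N ⊓ W, (g + t • f)ᵀ * J * (Pt.1 * f') = (g + t • f)ᵀ * J * f'.map dY)
    (hPF : (g + t • f)ᵀ * J * (Pt.1 * g) = (g + t • f)ᵀ * J * (p.1 * g)) :
    SLevI84.Hyp h hR hD ν ν' (QG arm J B N W g p (PC arm J B g R p.1)
      (fun μ : K => PbK arm J B g R p.1 D μ) id) t Pt.1 := by
  intro z _ harm d m
  set H : Matrix ι δ K := g + t • f with hH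
  set S0 : Matrix δ δ K := th J g p.1 g with hS0
  set q : Matrix ι δ K := (ν - ν')⁻¹ • (f - ν' • g) with hq
  have hqm : q ∈ N ⊓ W :=
    Submodule.smul_mem _ _ (Submodule.sub_mem _ hf (Submodule.smul_mem _ _ h.mem))
  have hHm : H ∈ N ⊓ W := hC.mem
  have hn : ν - ν' ≠ 0 := sub_ne_zero.2 hne
  have hD' := h.data
  have hS : S0ᵀ = -S0 := th_skew h hp h.mem
  let κ : K → K := fun μ => (ν - ν')⁻¹ * (μ - ν')
  let c : K → K := fun μ => 1 + t * μ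
  -- values
  have hH1 : ∀ {μ : K} {u : δ → K}, u ∈ Qb h.data hR p.1 D μ → H *ᵥ u = c μ • (g *ᵥ u) :=
    fun hu => (UFr.at_H h hR hD hNil hp hf hff hY hPF hu).1
  have hSH : ∀ {μ : K} {u : δ → K}, u ∈ Qb h.data hR p.1 D μ →
      th J H Pt.1 H *ᵥ u = c μ ^ 2 • (S0 *ᵥ u) :=
    fun hu => (UFr.at_H h hR hD hNil hp hf hff hY hPF hu).2.2.2
  have hqv : ∀ {μ : K} {u : δ → K}, u ∈ Qb h.data hR p.1 D μ → q *ᵥ u = κ μ • (g *ᵥ u) := by
    intro μ u hu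
    rw [hq, smul_mulVec, sub_mulVec, smul_mulVec, (Qb_rel h hR hD hNil hp hf hu).1, ← sub_smul,
      smul_smul]
  have htf : ∀ {μ : K} {u : δ → K}, u ∈ Qb h.data hR p.1 D μ →
      th J g p.1 f *ᵥ u = μ • (S0 *ᵥ u) :=
    fun hu => (Qb_rel h hR hD hNil hp hf hu).2.1
  have htH : ∀ {μ : K} {u : δ → K}, u ∈ Qb h.data hR p.1 D μ →
      th J g p.1 H *ᵥ u = c μ • (S0 *ᵥ u) := by
    intro μ u hu
    have e : th J g p.1 H = th J g p.1 g + t • th J g p.1 f := by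
      rw [hH]; unfold th
      rw [Matrix.mul_add, Matrix.mul_add, Matrix.mul_smul, Matrix.mul_smul]
    rw [e, add_mulVec, smul_mulVec, htf hu, ← hS0, smul_smul]
    change _ = (1 + t * μ) • (S0 *ᵥ u)
    rw [add_smul, one_smul]
  have htq : ∀ {μ : K} {u : δ → K}, u ∈ Qb h.data hR p.1 D μ →
      th J g p.1 q *ᵥ u = κ μ • (S0 *ᵥ u) := by
    intro μ u hu
    have e : th J g p.1 q = (ν - ν')⁻¹ • (th J g p.1 f - ν' • th J g p.1 g) := by
      rw [hq]; unfold th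
      rw [Matrix.mul_smul, Matrix.mul_smul, Matrix.mul_sub, Matrix.mul_sub, Matrix.mul_smul,
        Matrix.mul_smul]
    rw [e, smul_mulVec, sub_mulVec, smul_mulVec, htf hu, ← hS0, ← sub_smul, smul_smul]
  have horth : ∀ {μ μ' : K}, μ ≠ μ' → ∀ u ∈ Qb h.data hR p.1 D μ,
      ∀ v ∈ Qb h.data hR p.1 D μ', v ⬝ᵥ (S0 *ᵥ u) = 0 :=
    fun hne u hu v hv => Qb_orth h hR hD hNil hp hf hne.symm hv hu
  have hst : ∀ μ : K, ∀ r, ∀ u ∈ Qb h.data hR p.1 D μ,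
      SGl1.om arm B S0 r *ᵥ u ∈ Qb h.data hR p.1 D μ := fun μ r u hu =>
    SLevI84.st h hR hD μ r u hu
  have hcν : c ν ≠ 0 := hG.ne ν hν
  have hcν' : c ν' ≠ 0 := hG.ne ν' hν'
  have hρ : c ν * ((1 + t * ν') / (1 + t * ν)) = c ν' := mul_div_cancel₀ _ hcν
  have PD : PrD arm B S0 (th J H Pt.1 H) (Qb h.data hR p.1 D ν) (Qb h.data hR p.1 D ν') (c ν)
      (c ν') ((1 + t * ν') / (1 + t * ν)) :=
    ⟨hD'.B_symm, hD'.B_arm, hS, fun u hu => hSH hu, fun u hu => hSH hu, hst ν, hst ν',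
      horth hne, hρ⟩
  have hphi : ∀ r, ∀ x ∈ Qb h.data hR p.1 D ν', ∀ u ∈ Qb h.data hR p.1 D ν,
      phi (fl S0 _ x) (fl S0 _ u) (Dual.defect (rs (SGl1.om arm B S0 r) _ (PD.st1 r))
        (-(rs (SGl1.om arm B S0 r) _ (PD.st2 r))) (((1 + t * ν') / (1 + t * ν)) ^ 2) (z r)) = 0 := by
    intro r x hx u hu
    have e := arm_phi PD r (q := x) (u := u) (z r)
    rw [harm r x hx u hu, sub_self] at e
    exact neg_eq_zero.1 e.symm
  have hYs : ∀ r, (ten _ _ (z r) + (ten _ _ (z r))ᵀ : Matrix δ δ K)ᵀ =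
      ten _ _ (z r) + (ten _ _ (z r))ᵀ := fun r => by
    rw [transpose_add, transpose_transpose, add_comm]
  -- hYE
  have hGG : ∀ {μ μ' : K}, μ ≠ μ' → ∀ r, ∀ u ∈ Qb h.data hR p.1 D μ,
      ∀ v ∈ Qb h.data hR p.1 D μ',
      GG S0 (th J H Pt.1 H) (B * E K arm r * th J H Pt.1 H) (ten _ _ (z r)) u v = 0 := by
    intro μ μ' hμ r u hu v hv
    by_cases h1 : μ = ν
    · subst h1
      by_cases h2 : μ' = ν'
      · subst h2
        rw [GG_12 PD r hu, hphi r v hv u hu, mul_zero]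
      · exact GG_x3 PD r (horth hμ) (horth fun e => h2 e.symm) hv (z r)
    · by_cases h3 : μ = ν'
      · subst h3
        by_cases h4 : μ' = ν
        · subst h4
          rw [GG_21 PD r hu, hphi r u hu v hv, mul_zero]
        · exact GG_x3 PD r (horth fun e => h4 e.symm) (horth hμ) hv (z r)
      · exact GG_3x PD r (c3 := c μ) (fun u hu => hSH hu) (hst μ) (horth h1) (horth h3) hu (z r)
  have hb : ∀ {μ μ' : K}, μ ≠ μ' → D.maxGenEigenspace μ ≠ ⊥ → D.maxGenEigenspace μ' ≠ ⊥ →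
      ∀ u ∈ Qb h.data hR p.1 D μ, ∀ v ∈ Qb h.data hR p.1 D μ',
      v ⬝ᵥ (S0 *ᵥ nab arm J H Pt.1 (fun r => ten _ _ (z r) + (ten _ _ (z r))ᵀ) d u) = 0 := by
    intro μ μ' hμ h1 h2
    refine b_zero hC hPt hYs m hS (hG.ne μ h1) (fun u hu => hSH hu) (fun u hu => hSH hu)
      (horth hμ) (hst μ) (hst μ') (fun r u hu v hv => ?_) (hG.exc μ μ' hμ h1 h2)
    exact sub_eq_zero.1 (hGG hμ r u hu v hv)
  -- blocks
  have hPB : ∀ {μ : K} {a : ι → K}, a ∈ PbK arm J B g R p.1 D μ →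
      ∃ u ∈ Qb h.data hR p.1 D μ, a = g *ᵥ u := by
    rintro μ _ ⟨w, hw, rfl⟩
    have h1 : w ∈ (Qb h.data hR p.1 D μ).map (gS g) := by
      rw [Qb_map h hR hD μ]; exact hw
    obtain ⟨u, hu, rfl⟩ := h1
    exact ⟨u, hu, by rw [Submodule.subtype_apply, gS_coe]⟩
  have hbot : ∀ {μ : K}, D.maxGenEigenspace μ = ⊥ → ∀ a ∈ PbK arm J B g R p.1 D μ, a = 0 := by
    rintro μ hμ _ ⟨w, hw, rfl⟩
    have h1 : w ∈ PB (PhS arm J B g R p.1) D μ := hw
    rw [STop.PB_bot hD.2 hμ, Submodule.mem_bot] at h1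
    rw [h1]; rfl
  have hPC : PC arm J B g R p.1 = ⨆ μ : K, PbK arm J B g R p.1 D μ := by
    have h3 : Ainf (PhS arm J B g R p.1) = ⨆ ν, PB (PhS arm J B g R p.1) D ν :=
      (SC.iSup_PB hD.2 (Module.End.iSup_maxGenEigenspace_eq_top D)).symm
    change (Ainf (PhS arm J B g R p.1)).map (SpS.Sg g).subtype = _
    rw [h3, Submodule.map_iSup]
  -- induction on `PC`
  have hind : ∀ (C : (ι → K) → Prop), C 0 → (∀ x y, C x → C y → C (x + y)) →
      (∀ μ : K, D.maxGenEigenspace μ ≠ ⊥ → ∀ v ∈ Qb h.data hR p.1 D μ, C (g *ᵥ v)) →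
      ∀ a ∈ PC arm J B g R p.1, C a := by
    intro C h0 ha hv a hau
    rw [hPC] at hau
    refine Submodule.iSup_induction _ (motive := C) hau (fun μ x hx => ?_) h0 ha
    by_cases hμ : D.maxGenEigenspace μ = ⊥
    · rw [hbot hμ x hx]; exact h0
    · obtain ⟨u, hu, rfl⟩ := hPB hx
      exact hv μ hμ u hu
  have hwp := m.w_perp hC (hC.perp q hqm)
  have hwW := m.w_mem hqm.2
  set wq : Matrix ι δ K := wd arm J H Pt.1 (fun r => ten (Qb h.data hR p.1 D ν')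
    (Qb h.data hR p.1 D ν) (z r) + (ten (Qb h.data hR p.1 D ν')
    (Qb h.data hR p.1 D ν) (z r))ᵀ) d q with hwq
  refine ⟨wq, hwW, by rw [sub_self]; exact N.zero_mem, ?_, fun μ => d (κ μ * (c μ)⁻¹) * c μ,
    fun μ a ha r => ?_⟩
  · intro a ha v
    refine hind (fun a => a ⬝ᵥ ((J * wq) *ᵥ v) = 0) (by rw [zero_dotProduct])
      (fun x y hx hy => by rw [add_dotProduct, hx, hy, add_zero]) (fun μ hμ u hu => ?_) a ha
    have e1 : g *ᵥ u = (c μ)⁻¹ • (H *ᵥ u) := by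
      rw [hH1 hu, smul_smul, inv_mul_cancel₀ (hG.ne μ hμ), one_smul]
    change (g *ᵥ u) ⬝ᵥ _ = 0
    rw [e1, smul_dotProduct]
    have e2 : (H *ᵥ u) ⬝ᵥ ((J * wq) *ᵥ v) =
        u ⬝ᵥ ((Hᵀ * J * wq) *ᵥ v) := by
      rw [Matrix.mul_assoc Hᵀ, ← mulVec_mulVec v Hᵀ, dotProduct_mulVec u Hᵀ, vecMul_transpose]
    rw [e2, hwp, zero_mulVec, dotProduct_zero, smul_zero]
  · by_cases hμ : D.maxGenEigenspace μ = ⊥
    · refine ⟨0, fun a _ => by rw [mulVec_zero, dotProduct_zero], ?_⟩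
      rw [hbot hμ a ha]
      simp only [mulVec_zero, smul_zero, add_zero]
    obtain ⟨u, hu, rfl⟩ := hPB ha
    have hu' := hst μ r u hu
    set u' : δ → K := SGl1.om arm B S0 r *ᵥ u with hu'd
    have e1 : (E K arm r * B * gᵀ * (J * p.1)) *ᵥ (g *ᵥ u) = u' := by
      rw [hu'd, mulVec_mulVec]
      congr 1
      unfold SGl1.om
      rw [hS0, ← hD'.B_arm r]
      unfold th
      simp only [Matrix.mul_assoc]
    have e2 : (M arm B r g g * (J * p.1)) *ᵥ (g *ᵥ u) = g *ᵥ u' := by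
      rw [hu'd, mulVec_mulVec, mulVec_mulVec]
      congr 1
      unfold SGl1.om M
      rw [hS0, ← hD'.B_arm r]
      unfold th
      simp only [Matrix.mul_assoc]
    rw [e1, e2]
    refine ⟨wq *ᵥ u' - (d (κ μ * (c μ)⁻¹) * c μ) • (g *ᵥ u'), ?_, ?_⟩
    · intro a ha'
      refine hind (fun a => a ⬝ᵥ ((J * p.1) *ᵥ (wq *ᵥ u' -
        (d (κ μ * (c μ)⁻¹) * c μ) • (g *ᵥ u'))) = 0) (by rw [zero_dotProduct])
        (fun x y hx hy => by rw [add_dotProduct, hx, hy, add_zero]) (fun μ' hμ' v hv => ?_) a ha'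
      have e3 : ∀ x : ι → K, (g *ᵥ v) ⬝ᵥ ((J * p.1) *ᵥ x) = v ⬝ᵥ ((gᵀ * J * p.1) *ᵥ x) := by
        intro x
        rw [Matrix.mul_assoc gᵀ, ← mulVec_mulVec x gᵀ, dotProduct_mulVec v gᵀ, vecMul_transpose]
      have e4 : (gᵀ * J * p.1) *ᵥ (g *ᵥ u') = S0 *ᵥ u' := by
        rw [hS0, mulVec_mulVec]
        congr 1
        unfold th
        simp only [Matrix.mul_assoc]
      have e5 := test (P0 := p) (P := Pt) (v := v) h hp hHm hqm m (hG.ne μ hμ) (hH1 hu') (hqv hu')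
        (htH hv) (htq hv)
      rw [← hwq] at e5
      change (g *ᵥ v) ⬝ᵥ _ = 0
      rw [e3, mulVec_sub, mulVec_smul, dotProduct_sub, dotProduct_smul, e4, e5, ← hS0]
      by_cases hμμ : μ = μ'
      · subst hμμ
        have hcμ : (1 + t * μ) ≠ 0 := hG.ne μ hμ
        have e6 : κ μ * (1 + t * μ)⁻¹ * c μ - κ μ = 0 := by
          change κ μ * (1 + t * μ)⁻¹ * (1 + t * μ) - κ μ = 0
          rw [mul_assoc, inv_mul_cancel₀ hcμ, mul_one, sub_self]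
        rw [e6, zero_mul, zero_add, smul_eq_mul]
        exact sub_self _
      · rw [hb hμμ hμ hμ' u' hu' v hv, horth hμμ u' hu' v hv, mul_zero, mul_zero, smul_zero,
          add_zero, sub_zero]
    · change _ = (d (κ μ * (c μ)⁻¹) * c μ) • (g *ᵥ u') + _
      abel

end hyp

end Crest.Agent.R172.SB7
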