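import Crest.Agent.R172.SB7c
import Crest.Agent.R172.PTy

/-!
Row 172 (S0260), S-side (t2): **LEVEL 1**, `theorem lev1 : STop.Lev1` (helper7).
-/

set_option autoImplicit false
set_option linter.unusedSectionVars false
set_option linter.unusedVariables false
set_option linter.unusedFintypeInType false
set_option linter.unusedDecidableInType false
set_option maxHeartbeats 1000000

namespace Crest.Agent.R172.SB7

open Matrix Module TensorProduct Crest.Agent.R172.FO Crest.Agent.R172.Qt Crest.Agent.R172.SpS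
  Crest.Agent.R172.Om Crest.Agent.R172.SUX Crest.Agent.R172.SUB
open Crest.Agent.R172.SBlk Crest.Agent.R172.UBlk Crest.Agent.R172.SCM Crest.Agent.R172.SLev0
open Crest.Agent.R172.PL (CoreM Ainf)
open Crest.Agent.R172.SC (PB)
open Crest.Agent.R172.SGl1 (ten qa rs)
open Crest.Agent.R172.SEnd Crest.Agent.R172.SEnd2

section fin

variable {K : Type*} [Field K]

theorem sq_pre_finite {E : Set K} (hE : E.Finite) : {x : K | x ^ 2 ∈ E}.Finite := by
  refine Set.Finite.preimage' (f := fun x : K => x ^ 2) hE fun b _ => ?_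
  by_cases hb : ∃ x0 : K, x0 ^ 2 = b
  · obtain ⟨x0, rfl⟩ := hb
    refine Set.Finite.subset (Set.toFinite {x0, -x0}) fun x hx => ?_
    have h1 : x ^ 2 = x0 ^ 2 := hx
    rcases sq_eq_sq_iff_eq_or_eq_neg.1 h1 with h | h
    · exact Or.inl h
    · exact Or.inr h
  · refine Set.Finite.subset Set.finite_empty fun x hx => hb ⟨x, hx⟩

variable [Algebra ℂ K]

theorem ratio_pre_finite {E : Set K} (hE : E.Finite) {μ μ' : K} (hne : μ ≠ μ') :
    {t : ℂ | 1 + algebraMap ℂ K t * μ ≠ 0 ∧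
      (1 + algebraMap ℂ K t * μ') ^ 2 / (1 + algebraMap ℂ K t * μ) ^ 2 ∈ E}.Finite := by
  refine Set.Finite.of_finite_image
    (f := fun t : ℂ => (1 + algebraMap ℂ K t * μ') / (1 + algebraMap ℂ K t * μ))
    ((sq_pre_finite hE).subset ?_) ?_
  · rintro _ ⟨t, ⟨_, h2⟩, rfl⟩
    change ((1 + algebraMap ℂ K t * μ') / (1 + algebraMap ℂ K t * μ)) ^ 2 ∈ E
    rw [div_pow]
    exact h2
  · intro s hs t ht hst
    simp only at hst
    rw [div_eq_div_iff hs.1 ht.1] at hst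
    have h3 : (algebraMap ℂ K s - algebraMap ℂ K t) * (μ' - μ) = 0 := by linear_combination hst
    rcases mul_eq_zero.1 h3 with h4 | h4
    · exact (algebraMap ℂ K).injective (sub_eq_zero.1 h4)
    · exact absurd (sub_eq_zero.1 h4).symm hne

theorem zero_pre_finite (μ : K) : {t : ℂ | 1 + algebraMap ℂ K t * μ = 0}.Finite := by
  refine Set.Subsingleton.finite fun s hs t ht => ?_
  have hs' : 1 + algebraMap ℂ K s * μ = 0 := hs
  have ht' : 1 + algebraMap ℂ K t * μ = 0 := ht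
  have hμ : μ ≠ 0 := by
    rintro rfl
    rw [mul_zero, add_zero] at hs'
    exact one_ne_zero hs'
  have h3 : (algebraMap ℂ K s - algebraMap ℂ K t) * μ = 0 := by linear_combination hs' - ht'
  rcases mul_eq_zero.1 h3 with h4 | h4
  · exact (algebraMap ℂ K).injective (sub_eq_zero.1 h4)
  · exact absurd h4 hμ

end fin

section good

variable {ι : Type*} [Fintype ι] [DecidableEq ι] {δ : Type*} [Fintype δ] [DecidableEq δ]
variable {K : Type*} [Field K] [Algebra ℂ K] [IsAlgClosed K]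
variable {arm : δ → Fin 3} {J : Matrix ι ι K} {B : Matrix δ δ K}
  {N W : Submodule K (Matrix ι δ K)} {g f : Matrix ι δ K}
  {p : Matrix ι ι K × (Fin 3 → Matrix ι ι K)}

theorem good_infinite (h : Ctx ℂ arm J B N W g) {R : Matrix δ ι K} (hR : g * R * g = g)
    {D : End K (CoreM (Ph arm J B g R p.1))}
    (hD : IsD (Ph arm J B g R p.1) (Nh arm J B g f R p.1) D) :
    {t : ℂ | GoodT h hR hD (algebraMap ℂ K t)}.Infinite := by
  have hfin : {ν | D.maxGenEigenspace ν ≠ ⊥}.Finite :=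
    WellFoundedGT.finite_ne_bot_of_iSupIndep (Module.End.independent_maxGenEigenspace D)
  set A : Set ℂ := ⋃ μ ∈ {ν | D.maxGenEigenspace ν ≠ ⊥},
    {t : ℂ | 1 + algebraMap ℂ K t * μ = 0} with hA
  set C : Set ℂ := ⋃ μ ∈ {ν | D.maxGenEigenspace ν ≠ ⊥}, ⋃ μ' ∈ {ν | D.maxGenEigenspace ν ≠ ⊥},
    {t : ℂ | μ ≠ μ' ∧ 1 + algebraMap ℂ K t * μ ≠ 0 ∧
      (1 + algebraMap ℂ K t * μ') ^ 2 / (1 + algebraMap ℂ K t * μ) ^ 2 ∈
        Exc arm B (th J g p.1 g) (Qb h.data hR p.1 D μ)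
      (Qb h.data hR p.1 D μ') (SLevI84.st h hR hD μ) (SLevI84.st h hR hD μ')} with hC
  have hAf : A.Finite := hfin.biUnion fun μ _ => zero_pre_finite μ
  have hCf : C.Finite := by
    refine hfin.biUnion fun μ _ => hfin.biUnion fun μ' _ => ?_
    by_cases hμ : μ = μ'
    · refine Set.Finite.subset Set.finite_empty fun t ht => ht.1 hμ
    · refine Set.Finite.subset (ratio_pre_finite (Exc_finite (SLevI84.st h hR hD μ)
        (SLevI84.st h hR hD μ') ?_) hμ) fun t ht => ht.2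
      exact SULift.rs_top (SLevI84.st h hR hD μ) (SLevI84.perf h hR hD μ)
  have hsub : (A ∪ C)ᶜ ⊆ {t : ℂ | GoodT h hR hD (algebraMap ℂ K t)} := by
    intro t ht
    rw [Set.mem_compl_iff, Set.mem_union, not_or] at ht
    obtain ⟨h1, h2⟩ := ht
    have hne : ∀ μ, D.maxGenEigenspace μ ≠ ⊥ → 1 + algebraMap ℂ K t * μ ≠ 0 := by
      intro μ hμ h0
      exact h1 (Set.mem_biUnion (x := μ) hμ h0)
    refine ⟨hne, fun μ μ' hμ h3 h4 h5 => h2 ?_⟩
    exact Set.mem_biUnion (x := μ) h3 (Set.mem_biUnion (x := μ') h4 ⟨hμ, hne μ h3, h5⟩)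
  exact (hAf.union hCf).infinite_compl.mono hsub

end good

/-- **LEVEL 1** -/
theorem lev1 : STop.Lev1 := by
  intro ι _ _ δ _ _ K _ _ _ arm J B N W F f P R D l S ν ν' hne n1 n2 Q1 A1 Q2 A2 b1 b2
  have hc := S.hCtx F S.hF
  have : CharZero K := charZero_of_injective_algebraMap (algebraMap ℂ K).injective
  have h2 : (2 : K) ≠ 0 := two_ne_zero
  have hNil := S.hNil F S.hF
  have hff : fᵀ * J * f = 0 := (S.hCtx f S.hf).iso
  have hnb : ∀ {μ : K} {n : ℕ} {Q : Matrix ι (Fin n) K} {A : Fin 3 → Matrix (Fin n) (Fin n) K},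
      BPkg arm J B F R P.1 D μ l Q A → D.maxGenEigenspace μ ≠ ⊥ := by
    intro μ n Q A b hμ
    obtain ⟨x, y, hxy⟩ := b.corner 0
    obtain ⟨v, hv, hvx⟩ := b.mem x
    rw [STop.PB_bot S.hD.2 hμ, Submodule.mem_bot] at hv
    have hx0 : x = 0 := b.inj x (by rw [← hvx, hv]; rfl)
    exact hxy (by rw [hx0, zero_dotProduct])
  obtain ⟨Y, dY, hYB, hYr, hform, hfam⟩ := PTy.exists_family h2 S.hCtx S.hNm S.hWm S.hF S.hf
    S.hV1 S.hP S.hV2
  have hinf := good_infinite hc S.hR S.hD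
  have hgens := SLevI84.gens_of hc h2 S.hR S.hD hNil S.hP S.hf.1 hne b1 b2
    (SLev1.QS arm J B N W F P R D) N_le_QG
    (T := (algebraMap ℂ K) '' {t : ℂ | GoodT hc S.hR S.hD (algebraMap ℂ K t)})
    (hinf.image (algebraMap ℂ K).injective.injOn)
    (by rintro _ ⟨t, ht, rfl⟩; exact ht.ne ν (hnb b1))
    (by rintro _ ⟨t, ht, rfl⟩; exact ht.ne ν' (hnb b2))
    (by
      rintro _ ⟨t, ht, rfl⟩
      obtain ⟨Pt, hPt, hVt, hYt, hPFt, -⟩ := hfam t
      have hHK : F + (algebraMap ℂ K t) • f ∈ Kiso J N W :=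
        (Kiso J N W).add_mem S.hF ((Kiso J N W).smul_mem _ S.hf)
      have hC := S.hCtx _ hHK
      obtain ⟨Ri, hRi⟩ := exists_gen_inv (F + (algebraMap ℂ K t) • f)
      exact ⟨Pt, Ri, hC, hPt, hVt, hRi, hPFt, hyp_of hc S.hR S.hD hNil S.hP S.hf.1 hff hne
        (hnb b1) (hnb b2) ht hC hPt hYt hPFt⟩)
  exact SLev1.stopGens_of S b1 b2 hgens.2

end Crest.Agent.R172.SB7
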