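import Mathlib.LinearAlgebra.Eigenspace.Minpoly
import Mathlib.LinearAlgebra.FiniteDimensional.Lemmas
import Mathlib.LinearAlgebra.Dual.Lemmas

/-!
Row 172 (S0260): the finite bad set of a pair of blocks (abstract).
-/

set_option autoImplicit false

namespace Crest.Agent.R172.SBad102

open Module LinearMap

variable {K V1 V2 ι : Type*} [Field K] [AddCommGroup V1] [Module K V1] [FiniteDimensional K V1]
  [AddCommGroup V2] [Module K V2] [FiniteDimensional K V2] [Fintype ι]

/-- a pencil `L b = s • R b` with `R` injective has finitely many singular `s`. -/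
theorem finite_pencil {E F : Type*} [AddCommGroup E] [Module K E] [FiniteDimensional K E]
    [AddCommGroup F] [Module K F] (L R : E →ₗ[K] F) (hR : Function.Injective R) :
    {s : K | ∃ b : E, b ≠ 0 ∧ L b = s • R b}.Finite := by
  obtain ⟨R', hR'⟩ := LinearMap.exists_leftInverse_of_injective R (LinearMap.ker_eq_bot.2 hR)
  refine (Module.End.finite_hasEigenvalue (R' ∘ₗ L)).subset ?_
  rintro s ⟨b, hb, h⟩
  refine Module.End.hasEigenvalue_of_hasEigenvector (x := b) ⟨?_, hb⟩
  rw [Module.End.mem_eigenspace_iff, LinearMap.comp_apply, h, map_smul]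
  congr 1
  exact LinearMap.congr_fun hR' b

/-- **finite bad set**, `V2` perfect. -/
theorem finite_bad (A : ι → End K V1) (C : ι → End K V2)
    (hperf : ∀ q : V2, ∃ f : ι → V2, q = ∑ r, C r (f r)) :
    {s : K | ∃ b : V1 →ₗ[K] V2 →ₗ[K] K, b ≠ 0 ∧ ∀ r u q, b (A r u) q = s * b u (C r q)}.Finite := by
  have h := finite_pencil (K := K) (E := V1 →ₗ[K] V2 →ₗ[K] K) (F := ι → V1 →ₗ[K] V2 →ₗ[K] K)
    (LinearMap.pi fun r => LinearMap.lcomp K (V2 →ₗ[K] K) (A r))
    (LinearMap.pi fun r => (LinearMap.llcomp K V1 (V2 →ₗ[K] K) (V2 →ₗ[K] K)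
      (LinearMap.lcomp K K (C r)))) (by
      refine (injective_iff_map_eq_zero _).2 fun b hb => ?_
      apply LinearMap.ext
      intro u
      apply LinearMap.ext
      intro q
      obtain ⟨f, rfl⟩ := hperf q
      rw [map_sum]
      refine Finset.sum_eq_zero fun r _ => ?_
      have h1 := LinearMap.congr_fun (LinearMap.congr_fun (congrFun hb r) u) (f r)
      exact h1)
  refine h.subset ?_
  rintro s ⟨b, hb, h1⟩
  refine ⟨b, hb, ?_⟩
  funext r
  apply LinearMap.ext
  intro u
  apply LinearMap.ext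
  intro q
  exact h1 r u q

/-- the same with `V1` perfect. -/
theorem finite_bad' (A : ι → End K V1) (C : ι → End K V2)
    (hperf : ∀ q : V1, ∃ f : ι → V1, q = ∑ r, A r (f r)) :
    {s : K | ∃ b : V1 →ₗ[K] V2 →ₗ[K] K, b ≠ 0 ∧ ∀ r u q, s * b (A r u) q = b u (C r q)}.Finite := by
  refine (finite_bad (K := K) C A hperf).subset ?_
  rintro s ⟨b, hb, h1⟩
  refine ⟨b.flip, fun h => hb ?_, fun r u q => ?_⟩
  · rw [← b.flip_flip, h]; rfl
  · rw [LinearMap.flip_apply, LinearMap.flip_apply, h1]

end Crest.Agent.R172.SBad102
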