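import Mathlib

/-!
Row 172 (S0260), S-side (t2): the finite bad set.  If `V2` is perfect, only finitely many `s` admit a
nonzero bilinear form `b` with `b (A r u) q = s b u (C r q)` for all `r`.
-/

set_option autoImplicit false

namespace Crest.Agent.R172.SBad731

open Module

variable {κ : Type*} {K : Type*} [Field K] {V1 V2 E : Type*} [AddCommGroup V1] [Module K V1]
  [AddCommGroup V2] [Module K V2] [AddCommGroup E] [Module K E]

/-- **finite bad set**, values in any finite-dimensional space -/
theorem finite_bad [Fintype κ] [FiniteDimensional K V1] [FiniteDimensional K V2]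
    [FiniteDimensional K E]
    (A : κ → End K V1) (C : κ → End K V2) (hC : ∀ q, ∃ f : κ → V2, q = ∑ t, C t (f t)) :
    {s : K | ∃ b : V1 →ₗ[K] V2 →ₗ[K] E, b ≠ 0 ∧ ∀ r u q, b (A r u) q = s • b u (C r q)}.Finite := by
  classical
  let X := V1 →ₗ[K] V2 →ₗ[K] E
  let L : X →ₗ[K] (κ → X) :=
    { toFun := fun b r => b ∘ₗ A r
      map_add' := fun b c => by funext r; exact LinearMap.add_comp _ _ _
      map_smul' := fun c b => by funext r; exact LinearMap.smul_comp _ _ _ }
  let R : X →ₗ[K] (κ → X) :=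
    { toFun := fun b r => b.compl₂ (C r)
      map_add' := fun b c => by funext r; ext u q; rfl
      map_smul' := fun c b => by funext r; ext u q; rfl }
  have hR : LinearMap.ker R = ⊥ := by
    rw [eq_bot_iff]
    intro b hb
    have h1 : ∀ r u q, b u (C r q) = 0 := by
      intro r u q
      have h2 : R b r = 0 := congrFun (LinearMap.mem_ker.1 hb) r
      have h3 : (R b r) u q = (0 : X) u q := by rw [h2]
      exact h3
    rw [Submodule.mem_bot]
    ext u q
    obtain ⟨f, hf⟩ := hC q
    rw [hf, map_sum]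
    simp [h1]
  obtain ⟨R', hR'⟩ := LinearMap.exists_leftInverse_of_injective R hR
  let T : End K X := R' ∘ₗ L
  refine (Module.End.finite_hasEigenvalue T).subset ?_
  rintro s ⟨b, hb, hs⟩
  have h1 : L b = s • R b := by
    funext r
    ext u q
    exact hs r u q
  refine Module.End.hasEigenvalue_of_hasEigenvector (x := b)
    ⟨Module.End.mem_eigenspace_iff.2 ?_, hb⟩
  change R' (L b) = s • b
  rw [h1, map_smul]
  congr 1
  exact LinearMap.congr_fun hR' b

/-- the scalar version, perfectness only of the second module -/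
theorem finite_bad_K [Fintype κ] [FiniteDimensional K V1] [FiniteDimensional K V2]
    (A : κ → End K V1) (C : κ → End K V2) (hC : ∀ q, ∃ f : κ → V2, q = ∑ t, C t (f t)) :
    {s : K | ∃ b : V1 →ₗ[K] V2 →ₗ[K] K, b ≠ 0 ∧ ∀ r u q, b (A r u) q = s * b u (C r q)}.Finite :=
  finite_bad A C hC

/-- twisted form: `c b(Au, q) = c' b(u, Cq)`, `c ≠ 0`: `b = 0` unless `c'/c` is in the bad set -/
theorem eq_zero_of [Fintype κ] {A : κ → End K V1} {C : κ → End K V2}
    {c c' : K} (hc : c ≠ 0)
    (hbad : c' / c ∉ {s : K | ∃ b : V1 →ₗ[K] V2 →ₗ[K] K, b ≠ 0 ∧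
      ∀ r u q, b (A r u) q = s * b u (C r q)})
    (b : V1 →ₗ[K] V2 →ₗ[K] K) (hb : ∀ r u q, c * b (A r u) q = c' * b u (C r q)) : b = 0 := by
  by_contra h
  refine hbad ⟨b, h, fun r u q => ?_⟩
  rw [div_mul_eq_mul_div, ← hb r u q, mul_div_cancel_left₀ _ hc]

end Crest.Agent.R172.SBad731
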