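import Crest.Agent.R172.SRel1
import Crest.Agent.R172.SA2h555

/-!
Row 172 (S0260), tame node (t2), S-side, LEVEL 1: the off-diagonal blocks of `∇` vanish on the core
(`beta`), and the first corrections lie in the good class `SLev0.QG`.
-/

set_option autoImplicit false
set_option linter.unusedSectionVars false
set_option maxHeartbeats 400000

namespace Crest.Agent.R172.SBet745

open Matrix Module TensorProduct Crest.Agent.R172.FO Crest.Agent.R172.Qt Crest.Agent.R172.SpS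
open Crest.Agent.R172.SBlk Crest.Agent.R172.SCM
open Crest.Agent.R172.SEnd2 (PhS)
open Crest.Agent.R172.UBlk (Qb Qb_map Qb_stable Qb_exists Qb_rel Qb_orth)
open Crest.Agent.R172.PL (CoreM)
open Crest.Agent.R172.SUX (th wd Mv ZY)
open Crest.Agent.R172.SLev0 (bq bq_apply PbK)
open Crest.Agent.R172.SRel1

variable {ι : Type*} [Fintype ι] [DecidableEq ι] {δ : Type*} [Fintype δ] [DecidableEq δ]
variable {k K : Type*} [Field k] [Field K] [Algebra k K]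
variable {arm : δ → Fin 3} {J : Matrix ι ι K} {B : Matrix δ δ K}
  {N W : Submodule K (Matrix ι δ K)} {g f : Matrix ι δ K} {R : Matrix δ ι K}
  {p : Matrix ι ι K × (Fin 3 → Matrix ι ι K)}
  {D : End K (CoreM (PhS arm J B g R p.1))} {ν ν' : K} {l : Fin 3 → ℕ} {n n' : ℕ}
  {P : Matrix ι (Fin n) K} {P' : Matrix ι (Fin n') K}
  {A : Fin 3 → Matrix (Fin n) (Fin n) K} {A' : Fin 3 → Matrix (Fin n') (Fin n') K}

/-! ### elementary pairings -/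

theorem vmv (a b x : δ → K) : vecMulVec a b *ᵥ x = (b ⬝ᵥ x) • a := by
  funext i
  simp only [mulVec, dotProduct, vecMulVec_apply, Pi.smul_apply, smul_eq_mul, Finset.sum_mul]
  exact Finset.sum_congr rfl fun j _ => by ring

theorem tt {α β : Type*} [Fintype α] [Fintype β] (M : Matrix ι α K) (M' : Matrix ι β K)
    (X : Matrix ι ι K) (x : α → K) (y : β → K) :
    x ⬝ᵥ ((Mᵀ * X * M') *ᵥ y) = (M *ᵥ x) ⬝ᵥ (X *ᵥ (M' *ᵥ y)) := by
  rw [Matrix.mul_assoc, ← mulVec_mulVec, dotProduct_mulVec, vecMul_transpose, ← mulVec_mulVec]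

theorem tdt {α β : Type*} [Fintype α] [Fintype β] (M : Matrix α β K) (x : β → K) (y : α → K) :
    (M *ᵥ x) ⬝ᵥ y = x ⬝ᵥ (Mᵀ *ᵥ y) := by
  rw [dotProduct_comm, dotProduct_mulVec, ← mulVec_transpose, dotProduct_comm]

theorem skd {α : Type*} [Fintype α] {S : Matrix α α K} (hS : Sᵀ = -S) (x y : α → K) :
    (S *ᵥ x) ⬝ᵥ y = -(x ⬝ᵥ (S *ᵥ y)) := by
  rw [tdt, hS, neg_mulVec, dotProduct_neg]

section tens

variable {Q1 Q2 : Submodule K (δ → K)}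

theorem ten_dot (z : Q2 ⊗[K] Q1) (x y : δ → K) (h : ∀ a ∈ Q2, a ⬝ᵥ y = 0) :
    y ⬝ᵥ (SGl1.ten Q2 Q1 z *ᵥ x) = 0 := by
  induction z using TensorProduct.induction_on with
  | zero => simp
  | tmul a b => rw [SGl1.ten_tmul, vmv, dotProduct_smul, dotProduct_comm y, h _ a.2, smul_zero]
  | add z z' h1 h2 => rw [map_add, add_mulVec, dotProduct_add, h1, h2, add_zero]

theorem ten_dot' (z : Q2 ⊗[K] Q1) (x y : δ → K) (h : ∀ b ∈ Q1, b ⬝ᵥ x = 0) :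
    y ⬝ᵥ (SGl1.ten Q2 Q1 z *ᵥ x) = 0 := by
  induction z using TensorProduct.induction_on with
  | zero => simp
  | tmul a b => rw [SGl1.ten_tmul, vmv, h _ b.2, zero_smul, dotProduct_zero]
  | add z z' h1 h2 => rw [map_add, add_mulVec, dotProduct_add, h1, h2, add_zero]

theorem tenT (z : Q2 ⊗[K] Q1) (x y : δ → K) :
    y ⬝ᵥ ((SGl1.ten Q2 Q1 z)ᵀ *ᵥ x) = x ⬝ᵥ (SGl1.ten Q2 Q1 z *ᵥ y) := by
  rw [← tdt, dotProduct_comm]

end tens

/-- the pairing functional of `V`-level tensors -/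
noncomputable def phi {m m' : ℕ} (w' : Fin m' → K) (w : Fin m → K) :
    (Fin m' → K) ⊗[K] (Fin m → K) →ₗ[K] K :=
  TensorProduct.lift (LinearMap.mk₂ K (fun x' x => (x' ⬝ᵥ w') * (x ⬝ᵥ w))
    (fun a b c => by rw [add_dotProduct, add_mul])
    (fun t a b => by rw [smul_dotProduct, smul_eq_mul, smul_eq_mul, mul_assoc])
    (fun a b c => by rw [add_dotProduct, mul_add])
    (fun t a b => by rw [smul_dotProduct, smul_eq_mul, smul_eq_mul, mul_left_comm]))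

theorem phi_tmul {m m' : ℕ} (w' : Fin m' → K) (w : Fin m → K) (x' : Fin m' → K)
    (x : Fin m → K) : phi w' w (x' ⊗ₜ[K] x) = (x' ⬝ᵥ w') * (x ⬝ᵥ w) := by
  rw [phi, TensorProduct.lift.tmul]; rfl

section arm

variable {Q1 Q2 : Submodule K (δ → K)} {π : Q1 →ₗ[K] (Fin n → K)} {π' : Q2 →ₗ[K] (Fin n' → K)}

/-- `a ⬝ S0 v` in coordinates -/
theorem dot_S0 {Q : Submodule K (δ → K)} {m : ℕ} {V : Matrix ι (Fin m) K}
    {σ : Q →ₗ[K] (Fin m → K)} (hσ : ∀ u, V *ᵥ (σ u) = g *ᵥ (u : δ → K)) (u v : Q) :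
    (u : δ → K) ⬝ᵥ (th J g p.1 g *ᵥ (v : δ → K)) =
      σ u ⬝ᵥ ((Vᵀ * (J * p.1) * V) *ᵥ σ v) := by
  rw [tt, hσ, hσ, ← tt]
  congr 2
  unfold th
  simp only [Matrix.mul_assoc]

/-- the `V`-level functional kills the radical tensors -/
theorem phi_rad (b : BPkg arm J B g R p.1 D ν l P A) (b' : BPkg arm J B g R p.1 D ν' l P' A')
    (y' : Fin n' → K) (y : Fin n → K) {x : (Fin n' → K) ⊗[K] (Fin n → K)}
    (hx : x ∈ Dual.Rad (LinearMap.ker (Pᵀ * (J * p.1) * P).mulVecLin)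
      (LinearMap.ker (P'ᵀ * (J * p.1) * P').mulVecLin)) :
    phi ((P'ᵀ * (J * p.1) * P') *ᵥ y') ((Pᵀ * (J * p.1) * P) *ᵥ y) x = 0 := by
  have key : Dual.Rad (LinearMap.ker (Pᵀ * (J * p.1) * P).mulVecLin)
      (LinearMap.ker (P'ᵀ * (J * p.1) * P').mulVecLin) ≤ LinearMap.ker
        (phi ((P'ᵀ * (J * p.1) * P') *ᵥ y') ((Pᵀ * (J * p.1) * P) *ᵥ y)) := by
    refine sup_le (Submodule.span_le.2 ?_) (Submodule.span_le.2 ?_)
    · rintro _ ⟨r, hr, q, rfl⟩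
      rw [SetLike.mem_coe, LinearMap.mem_ker, phi_tmul]
      rw [LinearMap.mem_ker, mulVecLin_apply] at hr
      have := skd b'.skew r y'
      rw [hr, zero_dotProduct] at this
      rw [neg_eq_zero.1 this.symm, zero_mul]
    · rintro _ ⟨q, r, hr, rfl⟩
      rw [SetLike.mem_coe, LinearMap.mem_ker, phi_tmul]
      rw [LinearMap.mem_ker, mulVecLin_apply] at hr
      have := skd b.skew r y
      rw [hr, zero_dotProduct] at this
      rw [neg_eq_zero.1 this.symm, mul_zero]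
  exact LinearMap.mem_ker.1 (key hx)

/-- **the arm relation**: a radical defect pairs to zero. -/
theorem arm_zero (hDt : Data k arm J B N W) (b : BPkg arm J B g R p.1 D ν l P A)
    (b' : BPkg arm J B g R p.1 D ν' l P' A')
    (hπ : ∀ u, P *ᵥ (π u) = g *ᵥ (u : δ → K)) (hπ' : ∀ u, P' *ᵥ (π' u) = g *ᵥ (u : δ → K))
    (s1 : ∀ r, ∀ u ∈ Q1, SGl1.om arm B (th J g p.1 g) r *ᵥ u ∈ Q1)
    (s2 : ∀ r, ∀ u ∈ Q2, SGl1.om arm B (th J g p.1 g) r *ᵥ u ∈ Q2) {c1 c2 ρ c : K}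
    (hρ : c1 * ρ = c2) (hc : c = -ρ ^ 2) (r : Fin 3) (z : Q2 ⊗[K] Q1)
    (hz : Dual.defect (A r).mulVecLin (A' r).mulVecLin c (TensorProduct.map π' π z) ∈
      Dual.Rad (LinearMap.ker (Pᵀ * (J * p.1) * P).mulVecLin)
        (LinearMap.ker (P'ᵀ * (J * p.1) * P').mulVecLin))
    {v u : δ → K} (hv : v ∈ Q2) (hu : u ∈ Q1) :
    c1 ^ 2 * ((th J g p.1 g *ᵥ v) ⬝ᵥ (SGl1.ten Q2 Q1 z *ᵥ
        (th J g p.1 g *ᵥ (SGl1.om arm B (th J g p.1 g) r *ᵥ u)))) +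
      c2 ^ 2 * ((th J g p.1 g *ᵥ (SGl1.om arm B (th J g p.1 g) r *ᵥ v)) ⬝ᵥ
        (SGl1.ten Q2 Q1 z *ᵥ (th J g p.1 g *ᵥ u))) = 0 := by
  have h0 := phi_rad b b' (π' ⟨v, hv⟩) (π ⟨u, hu⟩) hz
  obtain ⟨φ, hφ⟩ : ∃ φ, φ = phi ((P'ᵀ * (J * p.1) * P') *ᵥ π' ⟨v, hv⟩)
    ((Pᵀ * (J * p.1) * P) *ᵥ π ⟨u, hu⟩) := ⟨_, rfl⟩
  rw [← hφ] at h0
  have e1 : ∀ z : Q2 ⊗[K] Q1, (th J g p.1 g *ᵥ v) ⬝ᵥ (SGl1.ten Q2 Q1 z *ᵥ
        (th J g p.1 g *ᵥ (SGl1.om arm B (th J g p.1 g) r *ᵥ u))) =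
      -φ ((A r).mulVecLin.lTensor _ (TensorProduct.map π' π z)) := by
    intro z
    induction z using TensorProduct.induction_on with
    | zero => simp
    | tmul a b0 =>
      have a1 : (th J g p.1 g *ᵥ v) ⬝ᵥ (a : δ → K) =
          π' a ⬝ᵥ ((P'ᵀ * (J * p.1) * P') *ᵥ π' ⟨v, hv⟩) := by
        rw [dotProduct_comm]; exact dot_S0 hπ' a ⟨v, hv⟩
      have a2 : (b0 : δ → K) ⬝ᵥ (th J g p.1 g *ᵥ (SGl1.om arm B (th J g p.1 g) r *ᵥ u)) =
          -(((A r) *ᵥ π b0) ⬝ᵥ ((Pᵀ * (J * p.1) * P) *ᵥ π ⟨u, hu⟩)) := by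
        have a3 := dot_S0 (p := p) (J := J) hπ b0 (SGl1.rs _ Q1 (s1 r) ⟨u, hu⟩)
        rw [SGl1.rs_coe] at a3
        rw [a3, pi_om hDt b hπ s1 r, mulVecLin_apply, tdt, mulVec_mulVec, mulVec_mulVec, b.adj,
          neg_mulVec, dotProduct_neg, neg_neg]
      rw [SGl1.ten_tmul, vmv, dotProduct_smul, smul_eq_mul, a1, a2, TensorProduct.map_tmul,
        LinearMap.lTensor_tmul, hφ, phi_tmul, mulVecLin_apply]
      ring
    | add z z' h1 h2 =>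
      rw [map_add, add_mulVec, dotProduct_add, h1, h2, map_add, map_add, map_add, neg_add]
  have e2 : ∀ z : Q2 ⊗[K] Q1, (th J g p.1 g *ᵥ (SGl1.om arm B (th J g p.1 g) r *ᵥ v)) ⬝ᵥ
        (SGl1.ten Q2 Q1 z *ᵥ (th J g p.1 g *ᵥ u)) =
      -φ ((A' r).mulVecLin.rTensor _ (TensorProduct.map π' π z)) := by
    intro z
    induction z using TensorProduct.induction_on with
    | zero => simp
    | tmul a b0 =>
      have a1 : (b0 : δ → K) ⬝ᵥ (th J g p.1 g *ᵥ u) =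
          π b0 ⬝ᵥ ((Pᵀ * (J * p.1) * P) *ᵥ π ⟨u, hu⟩) := dot_S0 hπ b0 ⟨u, hu⟩
      have a2 : (th J g p.1 g *ᵥ (SGl1.om arm B (th J g p.1 g) r *ᵥ v)) ⬝ᵥ (a : δ → K) =
          -(((A' r) *ᵥ π' a) ⬝ᵥ ((P'ᵀ * (J * p.1) * P') *ᵥ π' ⟨v, hv⟩)) := by
        have a3 := dot_S0 (p := p) (J := J) hπ' a (SGl1.rs _ Q2 (s2 r) ⟨v, hv⟩)
        rw [SGl1.rs_coe] at a3
        rw [dotProduct_comm, a3, pi_om hDt b' hπ' s2 r, mulVecLin_apply, tdt, mulVec_mulVec,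
          mulVec_mulVec, b'.adj, neg_mulVec, dotProduct_neg, neg_neg]
      rw [SGl1.ten_tmul, vmv, dotProduct_smul, smul_eq_mul, a1, a2, TensorProduct.map_tmul,
        LinearMap.rTensor_tmul, hφ, phi_tmul, mulVecLin_apply]
      ring
    | add z z' h1 h2 =>
      rw [map_add, add_mulVec, dotProduct_add, h1, h2, map_add, map_add, map_add, neg_add]
  rw [e1, e2]
  have e3 : Dual.defect (A r).mulVecLin (A' r).mulVecLin c (TensorProduct.map π' π z) =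
      (A r).mulVecLin.lTensor _ (TensorProduct.map π' π z) -
        c • (A' r).mulVecLin.rTensor _ (TensorProduct.map π' π z) := rfl
  rw [e3, map_sub, map_smul, smul_eq_mul, hc] at h0
  rw [← hρ]
  linear_combination (-c1 ^ 2) * h0

end arm

/-! ### `∇` at `H = g + a f` -/

section nabla

variable [IsAlgClosed K] (h : Ctx k arm J B N W g) (hR : g * R * g = g)
  (hD : IsD (Ph arm J B g R p.1) (Nh arm J B g f R p.1) D) (hNil : NilW arm J B N g)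
  (hp : p ∈ NN arm J N g) (hf : f ∈ N ⊓ W) {a : K} (hH : Ctx k arm J B N W (g + a • f))
  {Pt : Matrix ι ι K × (Fin 3 → Matrix ι ι K)} (hPt : Pt ∈ NN arm J N (g + a • f))
  {Y : Fin 3 → Matrix δ δ K} (hYs : ∀ r, (Y r)ᵀ = Y r) {d : Derivation k K K}
  (m : Mv k arm J N W (g + a • f) Pt.1 Y d)
  (hS : ∀ μ : K, ∀ u ∈ Qb h.data hR p.1 D μ,
    th J (g + a • f) Pt.1 (g + a • f) *ᵥ u = (1 + a * μ) ^ 2 • (th J g p.1 g *ᵥ u))

include hNil hp hf hPt hYs m hS hD hH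

/-- the covariant derivative of the words, paired off-diagonally -/
theorem beta_rel {μ μ' : K} (hne : μ ≠ μ') (r : Fin 3) {u v : δ → K}
    (hu : u ∈ Qb h.data hR p.1 D μ) (hv : v ∈ Qb h.data hR p.1 D μ')
    (harm : (1 + a * μ) ^ 2 * ((th J g p.1 g *ᵥ v) ⬝ᵥ (Y r *ᵥ
        (th J g p.1 g *ᵥ (SGl1.om arm B (th J g p.1 g) r *ᵥ u)))) +
      (1 + a * μ') ^ 2 * ((th J g p.1 g *ᵥ (SGl1.om arm B (th J g p.1 g) r *ᵥ v)) ⬝ᵥ
        (Y r *ᵥ (th J g p.1 g *ᵥ u))) = 0) :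
    (1 + a * μ) ^ 2 * (SUB.nab arm J (g + a • f) Pt.1 Y d
        (SGl1.om arm B (th J g p.1 g) r *ᵥ u) ⬝ᵥ (th J g p.1 g *ᵥ v)) =
      -((1 + a * μ') ^ 2 * (SUB.nab arm J (g + a • f) Pt.1 Y d u ⬝ᵥ
        (th J g p.1 g *ᵥ (SGl1.om arm B (th J g p.1 g) r *ᵥ v)))) := by
  obtain ⟨H, hHe⟩ : ∃ H, H = g + a • f := ⟨_, rfl⟩
  rw [← hHe] at hH hPt m hS ⊢
  obtain ⟨c, hce⟩ : ∃ c, c = 1 + a * μ := ⟨_, rfl⟩
  obtain ⟨c', hce'⟩ : ∃ c', c' = 1 + a * μ' := ⟨_, rfl⟩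
  have hSu := hS μ
  have hSv := hS μ'
  rw [← hce] at harm hSu ⊢
  rw [← hce'] at harm hSv ⊢
  obtain ⟨S0, hS0⟩ : ∃ S0, S0 = th J g p.1 g := ⟨_, rfl⟩
  have hB := h.data.B_symm
  have hBE := h.data.B_arm r
  have hou : SGl1.om arm B (th J g p.1 g) r *ᵥ u ∈ Qb h.data hR p.1 D μ :=
    Qb_stable h hR hD r hu
  have hov : SGl1.om arm B (th J g p.1 g) r *ᵥ v ∈ Qb h.data hR p.1 D μ' :=
    Qb_stable h hR hD r hv
  have horth : (SGl1.om arm B (th J g p.1 g) r *ᵥ u) ⬝ᵥ (th J g p.1 g *ᵥ v) = 0 :=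
    Qb_orth h hR hD hNil hp hf hne hou hv
  rw [← hS0] at harm hSu hSv hou hov horth ⊢
  obtain ⟨SH, hSH⟩ : ∃ SH, SH = th J H Pt.1 H := ⟨_, rfl⟩
  have hskew : SHᵀ = -SH := by rw [hSH]; exact SUX.th_skew hH hPt hH.mem
  rw [← hSH] at hSu hSv
  -- `OM u = c² om u`
  have e1 : SUB.om arm J B H Pt.1 r *ᵥ u = c ^ 2 • (SGl1.om arm B S0 r *ᵥ u) := by
    unfold SUB.om SUB.omF SGl1.om
    rw [← hSH, ← mulVec_mulVec, hSu u hu, mulVec_smul, mulVec_mulVec]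
  -- the adjoint of `OM`
  have e2 : ∀ x : δ → K, (SUB.om arm J B H Pt.1 r *ᵥ x) ⬝ᵥ (S0 *ᵥ v) =
      -(c' ^ 2 * (x ⬝ᵥ (S0 *ᵥ (SGl1.om arm B S0 r *ᵥ v)))) := by
    intro x
    have e3 : (SUB.om arm J B H Pt.1 r)ᵀ = -(SH * (B * E K arm r)) := by
      unfold SUB.om SUB.omF
      rw [← hSH, transpose_mul, transpose_mul, hskew, E_transpose, hB, hBE, Matrix.neg_mul]
    rw [tdt, e3, neg_mulVec, ← mulVec_mulVec, mulVec_mulVec v]
    have e4 : SH *ᵥ ((B * E K arm r * S0) *ᵥ v) = c' ^ 2 • (S0 *ᵥ (SGl1.om arm B S0 r *ᵥ v)) :=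
      hSv _ hov
    rw [e4, dotProduct_neg, dotProduct_smul, smul_eq_mul]
  have e5 := SUB.nab_om hH hPt hYs m r u
  rw [e1, SUB.nab_smul] at e5
  have e6 := congrArg (fun x => x ⬝ᵥ (S0 *ᵥ v)) e5
  simp only [add_dotProduct, sub_dotProduct, smul_dotProduct, smul_eq_mul, horth, mul_zero,
    add_zero, e2] at e6
  have e7 : ((Y r * th J H Pt.1 H) *ᵥ (c ^ 2 • (SGl1.om arm B S0 r *ᵥ u))) ⬝ᵥ (S0 *ᵥ v) =
      c ^ 2 * (c ^ 2 * ((S0 *ᵥ v) ⬝ᵥ (Y r *ᵥ (S0 *ᵥ (SGl1.om arm B S0 r *ᵥ u))))) := by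
    rw [← hSH, mulVec_smul, ← mulVec_mulVec, hSu _ hou, mulVec_smul, smul_dotProduct,
      smul_dotProduct, smul_eq_mul, smul_eq_mul, dotProduct_comm (S0 *ᵥ v)]
  have e8 : ((Y r * th J H Pt.1 H) *ᵥ u) ⬝ᵥ (S0 *ᵥ (SGl1.om arm B S0 r *ᵥ v)) =
      c ^ 2 * ((S0 *ᵥ (SGl1.om arm B S0 r *ᵥ v)) ⬝ᵥ (Y r *ᵥ (S0 *ᵥ u))) := by
    rw [← hSH, ← mulVec_mulVec, hSu _ hu, mulVec_smul, smul_dotProduct, smul_eq_mul,
      dotProduct_comm (S0 *ᵥ (SGl1.om arm B S0 r *ᵥ v))]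
  rw [e7, e8] at e6
  linear_combination e6 + c ^ 2 * harm

/-- `β(u, v) = (∇u) ⬝ S0 v` as a bilinear map on different blocks -/
theorem exists_beta {μ μ' : K} (hne : μ ≠ μ') :
    ∃ b : Qb h.data hR p.1 D μ →ₗ[K] Qb h.data hR p.1 D μ' →ₗ[K] K, ∀ u v,
      b u v = SUB.nab arm J (g + a • f) Pt.1 Y d (u : δ → K) ⬝ᵥ (th J g p.1 g *ᵥ (v : δ → K)) := by
  refine ⟨LinearMap.mk₂ K (fun u v => SUB.nab arm J (g + a • f) Pt.1 Y d (u : δ → K) ⬝ᵥ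
    (th J g p.1 g *ᵥ (v : δ → K))) ?_ ?_ ?_ ?_, fun u v => rfl⟩
  · intro u u' v
    rw [Submodule.coe_add, SUB.nab_add, add_dotProduct]
  · intro t u v
    have horth : (u : δ → K) ⬝ᵥ (th J g p.1 g *ᵥ (v : δ → K)) = 0 :=
      Qb_orth h hR hD hNil hp hf hne u.2 v.2
    rw [Submodule.coe_smul, SUB.nab_smul, add_dotProduct, smul_dotProduct, smul_dotProduct,
      horth, smul_zero, add_zero]
  · intro u v v'
    rw [Submodule.coe_add, mulVec_add, dotProduct_add]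
  · intro t u v
    rw [Submodule.coe_smul, mulVec_smul, dotProduct_smul]

omit hPt hYs hS hH in
/-- **the first correction is in the good class** -/
theorem wd_mem_QG {α : Type*} {nu : α → K} {PP : Submodule K (ι → K)}
    {Pb : α → Submodule K (ι → K)}
    (hPb : ∀ i, ∀ c ∈ Pb i, ∃ u ∈ Qb h.data hR p.1 D (nu i), g *ᵥ u = c)
    (hPP : PP = ⨆ i, Pb i) (hc : ∀ i, 1 + a * nu i ≠ 0)
    (hβ : ∀ i j, nu i ≠ nu j → ∀ u ∈ Qb h.data hR p.1 D (nu i),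
      ∀ v ∈ Qb h.data hR p.1 D (nu j),
        SUB.nab arm J (g + a • f) Pt.1 Y d u ⬝ᵥ (th J g p.1 g *ᵥ v) = 0)
    (hper : gᵀ * J * wd arm J (g + a • f) Pt.1 Y d ((ν - ν')⁻¹ • (f - ν' • g)) = 0) :
    wd arm J (g + a • f) Pt.1 Y d ((ν - ν')⁻¹ • (f - ν' • g)) ∈
      SLev0.QG arm J B N W g p PP Pb nu := by
  have hk : (ν - ν')⁻¹ • (f - ν' • g) ∈ N ⊓ W :=
    Submodule.smul_mem _ _ (Submodule.sub_mem _ hf (Submodule.smul_mem _ _ h.mem))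
  obtain ⟨w, hw⟩ : ∃ w, w = wd arm J (g + a • f) Pt.1 Y d ((ν - ν')⁻¹ • (f - ν' • g)) :=
    ⟨_, rfl⟩
  have hwW : w ∈ W := by rw [hw]; exact m.w_mem hk.2
  rw [← hw] at hper ⊢
  refine SLev0.mem_QG.2 ⟨w, hwW, by rw [sub_self]; exact N.zero_mem, ?_,
    fun x => d ((ν - ν')⁻¹ * (x - ν') / (1 + a * x)) * (1 + a * x), ?_⟩
  · intro a0 ha0 v
    rw [hPP] at ha0
    refine Submodule.iSup_induction (p := Pb) (motive := fun a0 => a0 ⬝ᵥ ((J * w) *ᵥ v) = 0)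
      ha0 ?_ (zero_dotProduct _) fun x y hx hy => by rw [add_dotProduct, hx, hy, add_zero]
    intro i c hci
    obtain ⟨u, -, rfl⟩ := hPb i c hci
    rw [← mulVec_mulVec, ← tt, hper, zero_mulVec, dotProduct_zero]
  · intro i c hci r
    obtain ⟨u, hu, rfl⟩ := hPb i c hci
    have hou : SGl1.om arm B (th J g p.1 g) r *ᵥ u ∈ Qb h.data hR p.1 D (nu i) :=
      Qb_stable h hR hD r hu
    have e1 : (E K arm r * B * gᵀ * (J * p.1)) *ᵥ (g *ᵥ u) =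
        SGl1.om arm B (th J g p.1 g) r *ᵥ u := by
      rw [mulVec_mulVec]
      unfold SGl1.om th
      rw [← h.data.B_arm r]
      simp only [Matrix.mul_assoc]
    have e2 : (M arm B r g g * (J * p.1)) *ᵥ (g *ᵥ u) =
        g *ᵥ (SGl1.om arm B (th J g p.1 g) r *ᵥ u) := by
      rw [mulVec_mulVec, mulVec_mulVec]
      unfold SGl1.om th M
      rw [← h.data.B_arm r]
      simp only [Matrix.mul_assoc]
    rw [e1, e2]
    generalize SGl1.om arm B (th J g p.1 g) r *ᵥ u = v' at hou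
    have hfu := (Qb_rel h hR hD hNil hp hf hou).1
    have hci' := hc i
    have hHu : (g + a • f) *ᵥ v' = (1 + a * nu i) • (g *ᵥ v') := by
      rw [add_mulVec, smul_mulVec, hfu, smul_smul, add_smul, one_smul]
    have hku : ((ν - ν')⁻¹ • (f - ν' • g)) *ᵥ v' =
        ((ν - ν')⁻¹ * (nu i - ν') / (1 + a * nu i)) • ((g + a • f) *ᵥ v') := by
      rw [hHu, smul_mulVec, sub_mulVec, smul_mulVec, hfu, ← sub_smul, smul_smul, smul_smul,
        div_mul_cancel₀ _ hci']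
    have h3 := SUB.wd_block m hku
    rw [← hw] at h3
    refine ⟨-(((ν - ν')⁻¹ • (f - ν' • g) -
      ((ν - ν')⁻¹ * (nu i - ν') / (1 + a * nu i)) • (g + a • f)) *ᵥ
        SUB.nab arm J (g + a • f) Pt.1 Y d v'), ?_, ?_⟩
    · intro a0 ha0
      rw [hPP] at ha0
      refine Submodule.iSup_induction (p := Pb) (motive := fun a0 => a0 ⬝ᵥ ((J * p.1) *ᵥ
        (-(((ν - ν')⁻¹ • (f - ν' • g) -
          ((ν - ν')⁻¹ * (nu i - ν') / (1 + a * nu i)) • (g + a • f)) *ᵥ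
          SUB.nab arm J (g + a • f) Pt.1 Y d v'))) = 0)
        ha0 ?_ (zero_dotProduct _) fun x y hx hy => by rw [add_dotProduct, hx, hy, add_zero]
      intro j c hcj
      obtain ⟨v, hv, rfl⟩ := hPb j c hcj
      have hβ' : nu i ≠ nu j → SUB.nab arm J (g + a • f) Pt.1 Y d v' ⬝ᵥ
          (th J g p.1 g *ᵥ v) = 0 := fun hij => hβ i j hij v' hou v hv
      generalize SUB.nab arm J (g + a • f) Pt.1 Y d v' = z at hβ'
      have f1 : ∀ F : Matrix ι δ K, (g *ᵥ v) ⬝ᵥ ((J * p.1) *ᵥ (F *ᵥ z)) =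
          v ⬝ᵥ (th J g p.1 F *ᵥ z) := by
        intro F
        rw [← tt]
        unfold th
        simp only [Matrix.mul_assoc]
      have sg : v ⬝ᵥ (th J g p.1 g *ᵥ z) = -(z ⬝ᵥ (th J g p.1 g *ᵥ v)) := by
        have := skd (SUX.th_skew h hp h.mem) v z
        rw [dotProduct_comm z, this, neg_neg]
      have sf : v ⬝ᵥ (th J g p.1 f *ᵥ z) = -(nu j * (z ⬝ᵥ (th J g p.1 g *ᵥ v))) := by
        have h4 := skd (SUX.th_skew h hp hf) v z
        have h5 : th J g p.1 f *ᵥ v = nu j • (th J g p.1 g *ᵥ v) :=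
          (Qb_rel h hR hD hNil hp hf hv).2.1
        rw [h5, smul_dotProduct, smul_eq_mul] at h4
        rw [dotProduct_comm z, h4, neg_neg]
      rw [mulVec_neg, dotProduct_neg, neg_eq_zero]
      have f2 : ∀ x1 x2 : K, (g *ᵥ v) ⬝ᵥ ((J * p.1) *ᵥ ((x1 • f + x2 • g) *ᵥ z)) =
          -((x1 * nu j + x2) * (z ⬝ᵥ (th J g p.1 g *ᵥ v))) := by
        intro x1 x2
        rw [add_mulVec, smul_mulVec, smul_mulVec, mulVec_add, mulVec_smul, mulVec_smul,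
          dotProduct_add, dotProduct_smul, dotProduct_smul, f1, f1, sg, sf, smul_eq_mul,
          smul_eq_mul]
        ring
      have f3 : (ν - ν')⁻¹ • (f - ν' • g) -
          ((ν - ν')⁻¹ * (nu i - ν') / (1 + a * nu i)) • (g + a • f) =
          ((ν - ν')⁻¹ - ((ν - ν')⁻¹ * (nu i - ν') / (1 + a * nu i)) * a) • f +
            (-((ν - ν')⁻¹ * ν') - (ν - ν')⁻¹ * (nu i - ν') / (1 + a * nu i)) • g := by
        rw [smul_sub, smul_add, smul_smul, smul_smul, sub_smul, sub_smul, neg_smul]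
        abel
      rw [f3, f2]
      by_cases hij : nu i = nu j
      · rw [← hij]
        have f4 : ((ν - ν')⁻¹ - ((ν - ν')⁻¹ * (nu i - ν') / (1 + a * nu i)) * a) * nu i +
            (-((ν - ν')⁻¹ * ν') - (ν - ν')⁻¹ * (nu i - ν') / (1 + a * nu i)) = 0 := by
          have hq := div_mul_cancel₀ ((ν - ν')⁻¹ * (nu i - ν')) hci'
          linear_combination (-1) * hq
        rw [f4, zero_mul, neg_zero]
      · rw [hβ' hij, mul_zero, neg_zero]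
    · rw [h3, hHu, smul_smul, sub_eq_add_neg]

end nabla

end Crest.Agent.R172.SBet745
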