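import Crest.Agent.R172.SpS8
import Crest.Agent.R172.SEnd
import Crest.Agent.R172.SCoreA
import Crest.Agent.R172.TameCount1

/-!
Row 172 (S0260), node (t2): the perfect part `P = A^∞ (im g)` of `(im g, M_s(g) J X₀)` as a submodule
of `K^ι`, with the facts used by `SEnd.false_of_slack`, from `TameD`.
-/

set_option autoImplicit false
set_option linter.unusedSectionVars false
set_option maxHeartbeats 400000

namespace Crest.Agent.R172.SCP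

open Matrix Module Crest.Agent.R172.FO Crest.Agent.R172.Qt Crest.Agent.R172.Core
open Crest.Agent.R172.SpS
open Crest.Agent.R172.St (Nk T mem_T mem_Nk_zero mem_Nk_succ Nk_le_T T_stable T_closed T_eq_Nk)
open Crest.Agent.R172.PL (Wk Ainf Rad CoreM coreOp resOp)

section core

variable {K M : Type*} [Field K] [AddCommGroup M] [Module K M] [FiniteDimensional K M]

/-- free blocks: `ker S^(l-v) ≤ range S^v` -/
theorem ker_le_range {D S : End K M} (hc : ∀ x, D (S x) = S (D x))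
    (hs : ⨆ ν, D.maxGenEigenspace ν = ⊤) {l : ℕ}
    (h : ∀ ν, D.maxGenEigenspace ν ≠ ⊥ → (∀ x ∈ D.maxGenEigenspace ν, (S ^ l) x = 0) ∧
      l * finrank K (LinearMap.ker S ⊓ D.maxGenEigenspace ν : Submodule K M) =
        finrank K (D.maxGenEigenspace ν)) {v : ℕ} (hv : v ≤ l) {x : M}
    (hx : (S ^ (l - v)) x = 0) : ∃ y, (S ^ v) y = x := by
  have hcpow : ∀ j x, D ((S ^ j) x) = (S ^ j) (D x) := by
    intro j
    induction j with
    | zero => intro x; rfl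
    | succ j ih => intro x; rw [pow_succ', Module.End.mul_apply, Module.End.mul_apply, hc, ih]
  have hZ : ∀ x ∈ LinearMap.ker (S ^ (l - v)), D x ∈ LinearMap.ker (S ^ (l - v)) := by
    intro x hx
    rw [LinearMap.mem_ker] at hx ⊢
    rw [← hcpow, hx, map_zero]
  have h1 : LinearMap.ker (S ^ (l - v)) =
      ⨆ ν, LinearMap.ker (S ^ (l - v)) ⊓ D.maxGenEigenspace ν :=
    Submodule.eq_iSup_inf_genEigenspace ⊤ hZ hs
  have h2 : LinearMap.ker (S ^ (l - v)) ≤ LinearMap.range (S ^ v) := by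
    rw [h1]
    refine iSup_le fun ν => ?_
    by_cases hν : D.maxGenEigenspace ν = ⊥
    · rw [hν, inf_bot_eq]; exact bot_le
    obtain ⟨h3, h4⟩ := h ν hν
    have hst : ∀ x ∈ D.maxGenEigenspace ν, S x ∈ D.maxGenEigenspace ν :=
      gen_stable hc ν
    set S' := S.restrict hst with hS'
    have hpow : ∀ j (x : D.maxGenEigenspace ν), (((S' ^ j) x : D.maxGenEigenspace ν) : M) =
        (S ^ j) x := by
      intro j
      induction j with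
      | zero => intro x; rfl
      | succ j ih =>
        intro x
        rw [pow_succ', Module.End.mul_apply, pow_succ', Module.End.mul_apply, ← ih]
        rfl
    have h5 : S' ^ l = 0 := by
      apply LinearMap.ext
      intro x
      apply Subtype.ext
      rw [hpow, h3 _ x.2]
      rfl
    have h6 : finrank K (LinearMap.ker S') =
        finrank K (LinearMap.ker S ⊓ D.maxGenEigenspace ν : Submodule K M) := by
      have e : (LinearMap.ker S').map (D.maxGenEigenspace ν).subtype =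
          LinearMap.ker S ⊓ D.maxGenEigenspace ν := by
        ext y
        constructor
        · rintro ⟨z, hz, rfl⟩
          have hz' := congrArg Subtype.val (LinearMap.mem_ker.1 hz)
          exact ⟨hz', z.2⟩
        · rintro ⟨hy1, hy2⟩
          exact ⟨⟨y, hy2⟩, LinearMap.mem_ker.2 (Subtype.ext hy1), rfl⟩
      rw [← e]
      exact (Submodule.finrank_map_subtype_eq _ _).symm
    have h7 := TC.ker_eq_range h5 (by rw [h6, h4]) (Nat.sub_le l v)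
    rw [Nat.sub_sub_self hv] at h7
    rintro x ⟨hx1, hx2⟩
    have h8 : (⟨x, hx2⟩ : D.maxGenEigenspace ν) ∈ LinearMap.ker (S' ^ (l - v)) := by
      rw [LinearMap.mem_ker]
      apply Subtype.ext
      rw [hpow]
      exact hx1
    rw [h7] at h8
    obtain ⟨y, hy⟩ := h8
    refine ⟨y, ?_⟩
    rw [← hpow, hy]
  exact h2 hx

end core

section P

variable {K : Type*} [Field K] {ι : Type*} [Fintype ι] [DecidableEq ι]
variable {X : Type*} [AddCommGroup X] [Module K X] {ic : X →ₗ[K] (ι → K)}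
  {Φ : Fin 3 → End K X} {A : Matrix ι ι K} {m : Fin 3 → Matrix ι ι K}

/-- `P = A^∞ X` as a submodule of `K^ι` -/
def Pa (ic : X →ₗ[K] (ι → K)) (Φ : Fin 3 → End K X) : Submodule K (ι → K) := (Ainf Φ).map ic

theorem mem_Pa {a : ι → K} : a ∈ Pa ic Φ ↔ ∃ v, v ∈ Ainf Φ ∧ ic v = a :=
  Submodule.mem_map

theorem Pa_stable (hΦ : ∀ s v, ic (Φ s v) = m s *ᵥ ic v) (s : Fin 3) {a : ι → K}
    (ha : a ∈ Pa ic Φ) : m s *ᵥ a ∈ Pa ic Φ := by
  obtain ⟨v, hv, rfl⟩ := mem_Pa.1 ha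
  exact mem_Pa.2 ⟨Φ s v, PL.Ainf_stable s hv, hΦ s v⟩

theorem Pa_perf [FiniteDimensional K X] (hΦ : ∀ s v, ic (Φ s v) = m s *ᵥ ic v) {a : ι → K}
    (ha : a ∈ Pa ic Φ) :
    ∃ c : Fin 3 → (ι → K), (∀ s, c s ∈ Pa ic Φ) ∧ a = ∑ s, m s *ᵥ c s := by
  obtain ⟨v, hv, rfl⟩ := mem_Pa.1 ha
  obtain ⟨f, hf, hfv⟩ := PL.Ainf_exists Φ hv
  refine ⟨fun s => ic (f s), fun s => mem_Pa.2 ⟨f s, hf s, rfl⟩, ?_⟩
  rw [← hfv, map_sum]
  exact Finset.sum_congr rfl fun s _ => hΦ s (f s)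

theorem mem_Wk_word (hΦ : ∀ s v, ic (Φ s v) = m s *ᵥ ic v) (l : List (Fin 3))
    (u : X) : ∃ v : X, v ∈ Wk Φ l.length ∧ ic v = (l.map m).prod *ᵥ ic u := by
  induction l with
  | nil => exact ⟨u, by simp [Wk], by rw [List.map_nil, List.prod_nil, one_mulVec]⟩
  | cons s l ih =>
    obtain ⟨v, hv, hv2⟩ := ih
    refine ⟨Φ s v, PL.Wk_succ_mem hv s, ?_⟩
    rw [List.map_cons, List.prod_cons, ← mulVec_mulVec, ← hv2]
    exact hΦ s v

/-- long words map `X` into `P` -/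
theorem Pa_words [FiniteDimensional K X] (hΦ : ∀ s v, ic (Φ s v) = m s *ᵥ ic v) :
    ∃ n, ∀ l : List (Fin 3), n ≤ l.length → ∀ u, (l.map m).prod *ᵥ ic u ∈ Pa ic Φ := by
  obtain ⟨n, hn, hn'⟩ := PL.Ainf_eq_Wk Φ
  refine ⟨n, fun l hl u => ?_⟩
  obtain ⟨v, hv, hv2⟩ := mem_Wk_word hΦ l u
  rw [hn' _ hl, ← hn] at hv
  exact mem_Pa.2 ⟨v, hv, hv2⟩

theorem pow_coe' (hΦ : ∀ s v, ic (Φ s v) = m s *ᵥ ic v) (s : Fin 3) (j : ℕ)
    (v : X) : ic ((Φ s ^ j) v) = (m s ^ j) *ᵥ ic v := by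
  induction j with
  | zero => rw [pow_zero, pow_zero, one_mulVec]; rfl
  | succ j ih => rw [pow_succ', Module.End.mul_apply, hΦ, ih, mulVec_mulVec, ← pow_succ']

/-- the radical of `P` is the image of `T` -/
theorem mem_Rd_iff [FiniteDimensional K X] {Mt : Fin 3 → (Dual K X →ₗ[K] X)}
    {η : LinearMap.BilinForm K X}
    (hd : Dat Mt η) (hη : ∀ v w : X, η v w = (A *ᵥ ic v) ⬝ᵥ ic w) {v : X}
    (hv : v ∈ Ainf (Be Mt η)) :
    ic v ∈ SEnd.Rd A (Pa ic (Be Mt η)) ↔ v ∈ T (Be Mt η) := by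
  constructor
  · rintro ⟨-, h2⟩
    apply t_eta
    apply hd.mem_t
    intro w hw
    rw [hη, dotProduct_comm]
    exact h2 _ (mem_Pa.2 ⟨w, hw, rfl⟩)
  · intro hT
    refine ⟨mem_Pa.2 ⟨v, hv, rfl⟩, fun b hb => ?_⟩
    obtain ⟨w, hw, rfl⟩ := mem_Pa.1 hb
    have h1 := hd.eta_zero' hw hT
    rw [hη, dotProduct_comm] at h1
    exact h1

theorem coreOp_pow_zero_iff (s : Fin 3) (j : ℕ) {v : X} (hv : v ∈ Ainf Φ) :
    (coreOp Φ s ^ j) ((Rad Φ).mkQ ⟨v, hv⟩) = 0 ↔ (Φ s ^ j) v ∈ T Φ := by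
  rw [SC.coreOp_pow_mk]
  have h1 : (Rad Φ).mkQ ((resOp Φ s ^ j) ⟨v, hv⟩) = 0 ↔
      (((resOp Φ s ^ j) ⟨v, hv⟩ : Ainf Φ) : X) ∈ T Φ := Submodule.Quotient.mk_eq_zero _
  rw [h1, SC.resOp_pow_coe]

theorem pow_Ainf (s : Fin 3) (j : ℕ) {v : X} (hv : v ∈ Ainf Φ) : (Φ s ^ j) v ∈ Ainf Φ := by
  induction j with
  | zero => exact hv
  | succ j ih => rw [pow_succ', Module.End.mul_apply]; exact PL.Ainf_stable s ih

/-- freeness of `P` mod the radical -/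
theorem Pa_free [FiniteDimensional K X] (hΦ : ∀ s v, ic (Φ s v) = m s *ᵥ ic v)
    (hrd : ∀ v ∈ Ainf Φ, (ic v ∈ SEnd.Rd A (Pa ic Φ) ↔ v ∈ T Φ))
    {D : End K (CoreM Φ)} (hc : ∀ s x, D (coreOp Φ s x) = coreOp Φ s (D x))
    (hs : ⨆ ν, D.maxGenEigenspace ν = ⊤) (hT : Tame (coreOp Φ) D) (s : Fin 3) :
    ∃ l : ℕ, (∀ c ∈ Pa ic Φ, (m s ^ l) *ᵥ c ∈ SEnd.Rd A (Pa ic Φ)) ∧
      ∀ v ≤ l, ∀ c ∈ Pa ic Φ, (m s ^ (l - v)) *ᵥ c ∈ SEnd.Rd A (Pa ic Φ) →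
        ∃ c' ∈ Pa ic Φ, c - (m s ^ v) *ᵥ c' ∈ SEnd.Rd A (Pa ic Φ) := by
  obtain ⟨-, -, l, -, hl, -⟩ := hT
  have hblk : ∀ ν, D.maxGenEigenspace ν ≠ ⊥ →
      (∀ x ∈ D.maxGenEigenspace ν, (coreOp Φ s ^ l s) x = 0) ∧
      l s * finrank K (LinearMap.ker (coreOp Φ s) ⊓ D.maxGenEigenspace ν :
        Submodule K _) = finrank K (D.maxGenEigenspace ν) := fun ν hν =>
    ⟨((hl s ν hν).1 (l s)).2 le_rfl, (hl s ν hν).2⟩
  have hzero : ∀ x, (coreOp Φ s ^ l s) x = 0 := by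
    intro x
    have h1 : (⊤ : Submodule K (CoreM Φ)) ≤ LinearMap.ker (coreOp Φ s ^ l s) := by
      rw [← hs]
      refine iSup_le fun ν => ?_
      by_cases hν : D.maxGenEigenspace ν = ⊥
      · rw [hν]; exact bot_le
      · exact fun x hx => (hblk ν hν).1 x hx
    exact h1 (Submodule.mem_top (x := x))
  refine ⟨l s, ?_, ?_⟩
  · intro c hcP
    obtain ⟨v, hv, rfl⟩ := mem_Pa.1 hcP
    have h1 := hzero ((Rad Φ).mkQ ⟨v, hv⟩)
    rw [coreOp_pow_zero_iff] at h1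
    have h2 := (hrd _ (pow_Ainf s (l s) hv)).2 h1
    rwa [pow_coe' hΦ] at h2
  · intro v hv c hcP hrad
    obtain ⟨c, hcA, rfl⟩ := mem_Pa.1 hcP
    rw [← pow_coe' hΦ, hrd _ (pow_Ainf s _ hcA), ← coreOp_pow_zero_iff s _ hcA] at hrad
    obtain ⟨y, hy⟩ := ker_le_range (hc s) hs hblk hv hrad
    obtain ⟨⟨c', hc'⟩, rfl⟩ := (Rad Φ).mkQ_surjective y
    refine ⟨ic c', mem_Pa.2 ⟨c', hc', rfl⟩, ?_⟩
    rw [SC.coreOp_pow_mk, mk_eq, SC.resOp_pow_coe] at hy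
    have h3 : c - (Φ s ^ v) c' ∈ T Φ := by
      rw [← neg_sub]
      exact Submodule.neg_mem _ hy
    have h4 := (hrd _ (Submodule.sub_mem _ hcA (pow_Ainf s v hc'))).2 h3
    rwa [map_sub, pow_coe' hΦ] at h4

/-- zero operators are not tame -/
theorem not_tame_of_zero (h0 : ∀ s, Φ s = 0) {D : End K (CoreM Φ)}
    (hT : Tame (coreOp Φ) D) : False := by
  have hA : Ainf Φ = ⊥ := by
    rw [eq_bot_iff]
    refine (PL.Ainf_le_Wk _ 1).trans ?_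
    refine iSup_le fun s => ?_
    rw [h0, Submodule.map_zero]
  obtain ⟨⟨lam, mu, -, hlam, -⟩, -⟩ := hT
  apply hlam
  rw [eq_bot_iff]
  intro x _
  obtain ⟨⟨v, hv⟩, rfl⟩ := (Rad Φ).mkQ_surjective x
  have hv0 : v = 0 := by
    have := hv
    rw [hA] at this
    exact (Submodule.mem_bot K).1 this
  have hz : (⟨v, hv⟩ : Ainf Φ) = 0 := Subtype.ext hv0
  rw [hz, map_zero]
  exact Submodule.zero_mem _

/-- everything at once, abstract form -/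
theorem facts_abs [IsAlgClosed K] [FiniteDimensional K X] {Mt : Fin 3 → (Dual K X →ₗ[K] X)}
    {η : LinearMap.BilinForm K X} (hd : Dat Mt η)
    (hη : ∀ v w : X, η v w = (A *ᵥ ic v) ⬝ᵥ ic w)
    (hco : ∀ s v, ic (Be Mt η s v) = m s *ᵥ ic v)
    {Nt : Fin 3 → (Dual K X →ₗ[K] X)} (hT : TameD Mt Nt η) :
    ∃ P : Submodule K (ι → K), P = Pa ic (Be Mt η) ∧
    (∀ a ∈ P, ∃ v, ic v = a) ∧
    (∀ s, ∀ a ∈ P, m s *ᵥ a ∈ P) ∧
    (∀ a ∈ P, ∃ c : Fin 3 → (ι → K), (∀ s, c s ∈ P) ∧ a = ∑ s, m s *ᵥ c s) ∧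
    (∀ s, ∃ l : ℕ, (∀ c ∈ P, (m s ^ l) *ᵥ c ∈ SEnd.Rd A P) ∧
      ∀ v ≤ l, ∀ c ∈ P, (m s ^ (l - v)) *ᵥ c ∈ SEnd.Rd A P →
        ∃ c' ∈ P, c - (m s ^ v) *ᵥ c' ∈ SEnd.Rd A P) ∧
    (∃ n, ∀ l : List (Fin 3), n ≤ l.length → ∀ u, (l.map m).prod *ᵥ ic u ∈ P) ∧
    ((∀ s, Be Mt η s = 0) → False) := by
  obtain ⟨D, -, hD2, -, hD4⟩ := hT
  have hs : ⨆ ν, D.maxGenEigenspace ν = ⊤ := Module.End.iSup_maxGenEigenspace_eq_top D
  refine ⟨_, rfl, fun a ha => ?_, fun s a ha => Pa_stable hco s ha, fun a ha => Pa_perf hco ha,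
    fun s => Pa_free hco (fun v hv => mem_Rd_iff hd hη hv) hD2 hs hD4 s, Pa_words hco,
    fun h0 => not_tame_of_zero h0 hD4⟩
  obtain ⟨v, -, hv⟩ := mem_Pa.1 ha
  exact ⟨v, hv⟩

end P

section inst

variable {ι : Type*} [Fintype ι] [DecidableEq ι] {δ : Type*} [Fintype δ] [DecidableEq δ]
variable {k K : Type*} [Field k] [Field K] [Algebra k K]
variable {arm : δ → Fin 3} {J : Matrix ι ι K} {B : Matrix δ δ K}
  {N W : Submodule K (Matrix ι δ K)} {g : Matrix ι δ K}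

theorem dat (h : Ctx k arm J B N W g) {R : Matrix δ ι K} (hR : g * R * g = g)
    {p : Matrix ι ι K × (Fin 3 → Matrix ι ι K)} (hp : p ∈ NN arm J N g) :
    Dat (Mg arm B g) (bil g R (gᵀ * (J * p.1) * g)) := by
  obtain ⟨Tf, hS, -⟩ := exists_step h hR h.mem
  let φ : Xi J N arm g := ⟨gᵀ * J * (p.1 * g), ⟨⟨p, hp⟩, rfl⟩⟩
  have hb : (bil g R ∘ₗ (Xi J N arm g).subtype) φ = bil g R (gᵀ * (J * p.1) * g) := by
    change bil g R (φ : Matrix δ δ K) = _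
    have hφ : (φ : Matrix δ δ K) = gᵀ * (J * p.1) * g := by
      change gᵀ * J * (p.1 * g) = _
      simp only [Matrix.mul_assoc]
    rw [hφ]
  have h1 := hS.dat φ
  rwa [hb] at h1

/-- **all the facts on `P` used by `SEnd.false_of_slack`** -/
theorem facts [IsAlgClosed K] (h : Ctx k arm J B N W g) {R : Matrix δ ι K} (hR : g * R * g = g)
    {p : Matrix ι ι K × (Fin 3 → Matrix ι ι K)} (hp : p ∈ NN arm J N g) {f : Matrix ι δ K}
    (hT : TameD (Mg arm B g) (Ng arm B g R f) (bil g R (gᵀ * (J * p.1) * g))) :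
    ∃ P : Submodule K (ι → K),
      P = Pa (Sg g).subtype (Be (Mg arm B g) (bil g R (gᵀ * (J * p.1) * g))) ∧
    (∀ a ∈ P, ∃ u, g *ᵥ u = a) ∧
    (∀ s, ∀ a ∈ P, (M arm B s g g * (J * p.1)) *ᵥ a ∈ P) ∧
    (∀ a ∈ P, ∃ c : Fin 3 → (ι → K), (∀ s, c s ∈ P) ∧
      a = ∑ s, (M arm B s g g * (J * p.1)) *ᵥ c s) ∧
    (∀ s, ∃ l : ℕ, (∀ c ∈ P, ((M arm B s g g * (J * p.1)) ^ l) *ᵥ c ∈ SEnd.Rd (J * p.1) P) ∧
      ∀ v ≤ l, ∀ c ∈ P, ((M arm B s g g * (J * p.1)) ^ (l - v)) *ᵥ c ∈ SEnd.Rd (J * p.1) P →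
        ∃ c' ∈ P, c - ((M arm B s g g * (J * p.1)) ^ v) *ᵥ c' ∈ SEnd.Rd (J * p.1) P) ∧
    (∃ n, ∀ l : List (Fin 3), n ≤ l.length → ∀ u,
      (l.map fun s => M arm B s g g * (J * p.1)).prod *ᵥ (g *ᵥ u) ∈ P) ∧
    (gᵀ * J * (p.1 * g) = 0 → False) := by
  obtain ⟨P, h1, h2, h3, h4, h5, h6, h7⟩ := facts_abs (ic := (Sg g).subtype)
    (m := fun s => M arm B s g g * (J * p.1)) (A := J * p.1) (dat h hR hp)
    (fun v w => bil_coe hR (J * p.1) v w) (fun s v => Be_coe hR (J * p.1) s v) hT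
  refine ⟨P, h1, fun a ha => ?_, h3, h4, h5, ?_, fun h0 => h7 fun s => ?_⟩
  · obtain ⟨v, hv⟩ := h2 a ha
    obtain ⟨u, hu⟩ := gS_surj g v
    refine ⟨u, ?_⟩
    rw [← gS_coe, hu]
    exact hv
  · obtain ⟨n, hn⟩ := h6
    exact ⟨n, fun l hl u => hn l hl (gS g u)⟩
  · have e1 : gᵀ * (J * p.1) * g = 0 := by
      rw [← h0]; simp only [Matrix.mul_assoc]
    rw [e1, map_zero]
    apply LinearMap.ext
    intro v
    rw [Be_apply, LinearMap.zero_apply, map_zero, LinearMap.zero_apply]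

end inst

end Crest.Agent.R172.SCP
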