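import Crest.Agent.R172.UBlk
import Crest.Agent.R172.SUB2
import Crest.Agent.R172.SCore2

/-!
Row 172 (S0260), S-side (t2): the X-LEVEL frames of the blocks, `X = (δ → K) ⧸ ZW W` (helper580).

`BPkg0` = `BPkg` without injectivity of `P`.
`exists_pkgX` : a frame `U` (columns in 803's `Qb`, a basis of the block of `X`), `A s` with
`v (B E_s S0) U = v U A_s` for all `v ∈ W`, and `BPkg0` for `P := g U` with the same `l`.
-/

set_option autoImplicit false
set_option linter.unusedSectionVars false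

namespace Crest.Agent.R172.SCX

open Matrix Module Crest.Agent.R172.FO Crest.Agent.R172.Qt Crest.Agent.R172.SpS
open Crest.Agent.R172.SEnd Crest.Agent.R172.SEnd2 Crest.Agent.R172.SCB Crest.Agent.R172.SBlk
open Crest.Agent.R172.SCM
open Crest.Agent.R172.St (Nk T mem_T mem_Nk_zero mem_Nk_succ Nk_le_T T_stable T_closed T_eq_Nk)
open Crest.Agent.R172.PL (Wk Ainf Rad CoreM coreOp resOp Ainf_exists Ainf_stable)
open Crest.Agent.R172.SC (PB PB_mem PB_exists PB_stable PB_orth iSup_PB PB_le_Ainf)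
open Crest.Agent.R172.UBlk (Cov cov Qb Qb_map)
open Crest.Agent.R172.SUX (th)

variable {ι : Type*} [Fintype ι] [DecidableEq ι] {δ : Type*} [Fintype δ] [DecidableEq δ]
variable {k K : Type*} [Field k] [Field K] [Algebra k K]
variable {arm : δ → Fin 3} {J : Matrix ι ι K} {B : Matrix δ δ K}
  {N W : Submodule K (Matrix ι δ K)} {g : Matrix ι δ K} {R : Matrix δ ι K}

/-- `BPkg` without injectivity. -/
structure BPkg0 (arm : δ → Fin 3) (J : Matrix ι ι K) (B : Matrix δ δ K) (g : Matrix ι δ K)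
    (R : Matrix δ ι K) (X : Matrix ι ι K) (D : End K (CoreM (PhS arm J B g R X))) (ν : K)
    (l : Fin 3 → ℕ) {n : ℕ} (P : Matrix ι (Fin n) K) (A : Fin 3 → Matrix (Fin n) (Fin n) K) :
    Prop where
  col : Col (PB (PhS arm J B g R X) D ν) P
  mem : ∀ x, ∃ v ∈ PB (PhS arm J B g R X) D ν, ((v : Sg g) : ι → K) = P *ᵥ x
  span : ∀ v ∈ PB (PhS arm J B g R X) D ν, ∃ x, ((v : Sg g) : ι → K) = P *ᵥ x
  act : ∀ s, M arm B s g g * (J * X) * P = P * A s
  blk : BlkD (fun s => (A s).mulVecLin) (LinearMap.ker (Pᵀ * (J * X) * P).mulVecLin) l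
  rad : ∀ x, ∀ v : Sg g, (v : ι → K) = P *ᵥ x →
    (v ∈ T (PhS arm J B g R X) ↔ (Pᵀ * (J * X) * P) *ᵥ x = 0)
  skew : (Pᵀ * (J * X) * P)ᵀ = -(Pᵀ * (J * X) * P)
  adj : ∀ s, (A s)ᵀ * (Pᵀ * (J * X) * P) = -((Pᵀ * (J * X) * P) * A s)
  corner : ∀ s, ∃ x y, x ⬝ᵥ ((Pᵀ * (J * X) * P) *ᵥ ((A s ^ (l s - 1)) *ᵥ y)) ≠ 0

section

variable {X : Matrix ι ι K} {D : End K (CoreM (PhS arm J B g R X))} {ν : K} {l l' : Fin 3 → ℕ}
  {n n' : ℕ} {P : Matrix ι (Fin n) K} {A : Fin 3 → Matrix (Fin n) (Fin n) K}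
  {P' : Matrix ι (Fin n') K} {A' : Fin 3 → Matrix (Fin n') (Fin n') K}

theorem to0 (b : BPkg arm J B g R X D ν l P A) : BPkg0 arm J B g R X D ν l P A :=
  ⟨b.col, b.mem, b.span, b.act, b.blk, b.rad, b.skew, b.adj, b.corner⟩

theorem pow_act (b : BPkg0 arm J B g R X D ν l P A) (s : Fin 3) (i : ℕ) (x : Fin n → K) :
    ((M arm B s g g * (J * X)) ^ i) *ᵥ (P *ᵥ x) = P *ᵥ ((A s ^ i) *ᵥ x) := by
  induction i generalizing x with
  | zero => simp
  | succ i ih =>
    rw [pow_succ, pow_succ, ← mulVec_mulVec, ← mulVec_mulVec _ _ (A s), ← ih]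
    congr 1
    rw [mulVec_mulVec, b.act, ← mulVec_mulVec]

theorem l_pow (hR : g * R * g = g) (b : BPkg0 arm J B g R X D ν l P A) (s : Fin 3) :
    ∀ v ∈ PB (PhS arm J B g R X) D ν, (PhS arm J B g R X s ^ l s) v ∈ T (PhS arm J B g R X) := by
  intro v hv
  obtain ⟨x, hx⟩ := b.span v hv
  have h1 := b.blk.pow s x
  rw [mulVecLin_pow_apply, LinearMap.mem_ker, mulVecLin_apply] at h1
  refine (b.rad _ _ ?_).2 h1
  rw [PhS_pow_coe hR, hx, pow_act b]

theorem l_ne (hR : g * R * g = g) (b : BPkg0 arm J B g R X D ν l P A) (s : Fin 3) :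
    ∃ v ∈ PB (PhS arm J B g R X) D ν,
      (PhS arm J B g R X s ^ (l s - 1)) v ∉ T (PhS arm J B g R X) := by
  obtain ⟨x, hx⟩ := b.blk.ne s
  obtain ⟨v, hv, hvx⟩ := b.mem x
  refine ⟨v, hv, fun h => hx ?_⟩
  rw [mulVecLin_pow_apply, LinearMap.mem_ker, mulVecLin_apply]
  refine (b.rad _ _ ?_).1 h
  rw [PhS_pow_coe hR, hvx, pow_act b]

theorem l_le (hR : g * R * g = g) (b : BPkg0 arm J B g R X D ν l P A)
    (b' : BPkg0 arm J B g R X D ν l' P' A') (s : Fin 3) : l s ≤ l' s := by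
  by_contra hlt
  push Not at hlt
  obtain ⟨v, hv, hne⟩ := l_ne hR b s
  apply hne
  have h1 := l_pow hR b' s v hv
  have h2 : l s - 1 = (l s - 1 - l' s) + l' s := by omega
  rw [h2, pow_add, Module.End.mul_apply]
  have h3 : ∀ j, ∀ w ∈ T (PhS arm J B g R X), (PhS arm J B g R X s ^ j) w ∈
      T (PhS arm J B g R X) := by
    intro j
    induction j with
    | zero => intro w hw; exact hw
    | succ j ih =>
      intro w hw
      rw [pow_succ, Module.End.mul_apply]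
      exact ih _ (T_stable s hw)
  exact h3 _ _ h1

/-- **`l` is determined by the block.** -/
theorem l_unique (hR : g * R * g = g) (b : BPkg0 arm J B g R X D ν l P A)
    (b' : BPkg0 arm J B g R X D ν l' P' A') : l = l' :=
  funext fun s => le_antisymm (l_le hR b b' s) (l_le hR b' b s)

end

section X

variable (h : Ctx k arm J B N W g) (hR : g * R * g = g) (p0 : Matrix ι ι K)

/-- the operators on `X` -/
noncomputable abbrev oX : Fin 3 → End K ((δ → K) ⧸ SUB.ZW W) := fun s => SUB.omX h p0 s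

/-- `g : X → im g` -/
noncomputable def gX : ((δ → K) ⧸ SUB.ZW W) →ₗ[K] Sg g :=
  (SUB.ZW W).liftQ (gS g) fun v hv => by
    rw [LinearMap.mem_ker]
    apply Subtype.ext
    rw [gS_coe]
    exact hv g h.memW

theorem gX_mk (v : δ → K) : gX h ((SUB.ZW W).mkQ v) = gS g v := rfl

include hR in
theorem covX : Cov (oX h p0) (PhS arm J B g R p0) (gX h) where
  comm s x := by
    obtain ⟨v, rfl⟩ := (SUB.ZW W).mkQ_surjective x
    exact (cov h.data hR p0).comm s v
  surj y := by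
    obtain ⟨v, hv⟩ := gS_surj g y
    exact ⟨(SUB.ZW W).mkQ v, hv⟩
  ker s x hx := by
    obtain ⟨v, rfl⟩ := (SUB.ZW W).mkQ_surjective x
    have h1 := (cov h.data hR p0).ker s v hx
    change (SUB.ZW W).mkQ (UBlk.om arm J B g p0 g s v) = 0
    rw [h1, map_zero]

theorem cov1 : Cov (UBlk.om arm J B g p0 g) (oX h p0) (SUB.ZW W).mkQ where
  comm s x := rfl
  surj := (SUB.ZW W).mkQ_surjective
  ker s x hx := by
    have h1 : x ∈ SUB.ZW W := (Submodule.Quotient.mk_eq_zero _).1 hx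
    exact SUB.om_ZW h p0 s h1

theorem e_comp (m : CoreM (UBlk.om arm J B g p0 g)) :
    (cov h.data hR p0).e m = (covX h hR p0).e ((cov1 h p0).e m) := by
  obtain ⟨x, rfl⟩ := (Rad (UBlk.om arm J B g p0 g)).mkQ_surjective m
  rfl

theorem D_comp (D : End K (CoreM (PhS arm J B g R p0))) :
    (cov1 h p0).D ((covX h hR p0).D D) = (cov h.data hR p0).D D := by
  refine LinearMap.ext fun m => ?_
  apply (cov h.data hR p0).e.injective
  rw [(cov h.data hR p0).e_D, e_comp h hR p0, (cov1 h p0).e_D, (covX h hR p0).e_D, e_comp h hR p0]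

end X

/-- **X-level package.** -/
structure XPkg (h : Ctx k arm J B N W g) (hR : g * R * g = g) (p0 : Matrix ι ι K)
    (D : End K (CoreM (PhS arm J B g R p0))) (ν : K) (l : Fin 3 → ℕ) {n : ℕ}
    (U : Matrix δ (Fin n) K) (A : Fin 3 → Matrix (Fin n) (Fin n) K) : Prop where
  col : ∀ a, (fun d => U d a) ∈ Qb h.data hR p0 D ν
  mem : ∀ x, U *ᵥ x ∈ Qb h.data hR p0 D ν
  act : ∀ s, ∀ v ∈ W, v * (B * E K arm s * th J g p0 g) * U = v * U * A s
  indep : ∀ x, (∀ v ∈ W, v *ᵥ (U *ᵥ x) = 0) → x = 0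
  span : ∀ u ∈ Qb h.data hR p0 D ν, ∃ x, ∀ v ∈ W, v *ᵥ u = v *ᵥ (U *ᵥ x)
  pkg : BPkg0 arm J B g R p0 D ν l (g * U) A

theorem exists_XPkg [IsAlgClosed K] (h : Ctx k arm J B N W g) (hR : g * R * g = g)
    {p0 : Matrix ι ι K} (hX : Skw J p0) {D : End K (CoreM (PhS arm J B g R p0))}
    (hDc : ∀ s x, D (coreOp (PhS arm J B g R p0) s x) = coreOp (PhS arm J B g R p0) s (D x))
    (hDB : ∀ x y, BC (Mg arm B g) (bil g R (gᵀ * (J * p0) * g)) (D x) y =
      BC (Mg arm B g) (bil g R (gᵀ * (J * p0) * g)) x (D y))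
    (hT : Core.Tame (coreOp (PhS arm J B g R p0)) D) :
    ∃ l : Fin 3 → ℕ, ∑ s, (1 - 1 / (l s : ℚ)) = 2 ∧ ∀ ν, D.maxGenEigenspace ν ≠ ⊥ →
      ∃ (n : ℕ) (U : Matrix δ (Fin n) K) (A : Fin 3 → Matrix (Fin n) (Fin n) K),
        XPkg h hR p0 D ν l U A := by
  classical
  have hD := h.data
  have hcX := covX h hR p0
  have hc1 := cov1 h p0
  have htop := Module.End.iSup_maxGenEigenspace_eq_top (K := K) D
  have hDXc := hcX.D_comm hDc
  obtain ⟨l, hl, hb⟩ := blkD (a := oX h p0) hDXc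
    (Module.End.iSup_maxGenEigenspace_eq_top (hcX.D D))
    (fun v => by
      have h1 := congrArg (fun f => f v) (SUB.sum_omX h p0)
      rw [LinearMap.sum_apply, LinearMap.zero_apply] at h1
      exact h1)
    (hcX.tame hT)
  refine ⟨l, hl, fun ν hν => ?_⟩
  have hνX : (hcX.D D).maxGenEigenspace ν ≠ ⊥ := by
    intro h1
    apply hν
    rw [← UBlk.gen_map hcX.e (hcX.e_D D) ν, h1, Submodule.map_bot]
  have hbν := hb ν hνX
  -- the block of `X` and a basis
  set Y : Submodule K ((δ → K) ⧸ SUB.ZW W) := PB (oX h p0) (hcX.D D) ν with hY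
  have hmap1 : (Qb hD hR p0 D ν).map (SUB.ZW W).mkQ = Y := by
    have h1 := hc1.PB_map hDXc (Module.End.iSup_maxGenEigenspace_eq_top (hcX.D D)) ν
    have h2 : (cov1 h p0).D ((covX h hR p0).D D) = (cov h.data hR p0).D D := D_comp h hR p0 D
    rw [h2] at h1
    exact h1
  have hmap2 : (Qb hD hR p0 D ν).map (gS g) = PB (PhS arm J B g R p0) D ν :=
    (cov hD hR p0).PB_map hDc htop ν
  let bs := Module.finBasis K Y
  have hlift : ∀ a, ∃ u ∈ Qb hD hR p0 D ν, (SUB.ZW W).mkQ u = (bs a : Y) := by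
    intro a
    have h1 : ((bs a : Y) : (δ → K) ⧸ SUB.ZW W) ∈ (Qb hD hR p0 D ν).map (SUB.ZW W).mkQ := by
      rw [hmap1]; exact (bs a).2
    obtain ⟨u, hu, hu'⟩ := h1
    exact ⟨u, hu, hu'⟩
  choose u hu hub using hlift
  let U : Matrix δ (Fin (finrank K Y)) K := Matrix.of fun d a => u a d
  have hUx : ∀ x, U *ᵥ x = ∑ a, x a • u a := by
    intro x
    funext d
    rw [Finset.sum_apply]
    unfold Matrix.mulVec dotProduct
    exact Finset.sum_congr rfl fun a _ => by rw [Pi.smul_apply, smul_eq_mul, mul_comm]; rfl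
  have hUQ : ∀ x, U *ᵥ x ∈ Qb hD hR p0 D ν := by
    intro x
    rw [hUx]
    exact Submodule.sum_mem _ fun a _ => Submodule.smul_mem _ _ (hu a)
  let e := bs.equivFun
  have hes : ∀ x, ((e.symm x : Y) : (δ → K) ⧸ SUB.ZW W) = (SUB.ZW W).mkQ (U *ᵥ x) := by
    intro x
    rw [hUx, map_sum, Module.Basis.equivFun_symm_apply, Submodule.coe_sum]
    refine Finset.sum_congr rfl fun a _ => ?_
    rw [map_smul, hub, Submodule.coe_smul]
  let A : Fin 3 → Matrix (Fin (finrank K Y)) (Fin (finrank K Y)) K := fun s =>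
    LinearMap.toMatrix' (e.toLinearMap ∘ₗ (bA hDXc ν s) ∘ₗ e.symm.toLinearMap)
  have hA : ∀ s x, (A s).mulVecLin x = e (bA hDXc ν s (e.symm x)) := by
    intro s x
    change (LinearMap.toMatrix' _) *ᵥ x = _
    rw [← Matrix.toLin'_apply, Matrix.toLin'_toMatrix']
    rfl
  have hact : ∀ s x, (SUB.ZW W).mkQ ((B * E K arm s * th J g p0 g) *ᵥ (U *ᵥ x)) =
      (SUB.ZW W).mkQ (U *ᵥ (A s *ᵥ x)) := by
    intro s x
    have h1 := hA s x
    rw [mulVecLin_apply] at h1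
    rw [h1, ← hes, LinearEquiv.symm_apply_apply, bA_coe, hes]
    rfl
  have hW : ∀ {a b : δ → K}, (SUB.ZW W).mkQ a = (SUB.ZW W).mkQ b → ∀ v ∈ W, v *ᵥ a = v *ᵥ b := by
    intro a b hab v hv
    have h1 : a - b ∈ SUB.ZW W := (Submodule.Quotient.eq _).1 hab
    have h2 := h1 v hv
    rw [mulVec_sub] at h2
    exact sub_eq_zero.1 h2
  have hactW : ∀ s, ∀ v ∈ W, v * (B * E K arm s * th J g p0 g) * U = v * U * A s := by
    intro s v hv
    refine Matrix.ext_of_mulVec_single fun a => ?_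
    have h1 := hW (hact s (Pi.single a 1)) v hv
    rw [mulVec_mulVec, mulVec_mulVec, mulVec_mulVec] at h1
    rw [Matrix.mul_assoc v U, Matrix.mul_assoc v, ← Matrix.mul_assoc]
    rw [← mulVec_mulVec, ← mulVec_mulVec, ← mulVec_mulVec] at h1 ⊢
    first
      | exact h1
      | (simp only [mulVec_mulVec, Matrix.mul_assoc] at h1 ⊢; exact h1)
  -- the `V`-level matrix
  have hPx : ∀ x, (g * U) *ᵥ x = ((gS g (U *ᵥ x) : Sg g) : ι → K) := by
    intro x
    rw [gS_coe, mulVec_mulVec]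
  have hgPB : ∀ v ∈ Qb hD hR p0 D ν, gS g v ∈ PB (PhS arm J B g R p0) D ν := by
    intro v hv
    rw [← hmap2]
    exact ⟨v, hv, rfl⟩
  have hC : Col (PB (PhS arm J B g R p0) D ν) (g * U) := by
    intro a
    refine ⟨gS g (u a), hgPB _ (hu a), ?_⟩
    rw [gS_coe]
    funext i
    rfl
  have hspanX : ∀ v ∈ Qb hD hR p0 D ν, ∃ x, (SUB.ZW W).mkQ v = (SUB.ZW W).mkQ (U *ᵥ x) := by
    intro v hv
    have h1 : (SUB.ZW W).mkQ v ∈ Y := by
      rw [← hmap1]; exact ⟨v, hv, rfl⟩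
    refine ⟨e ⟨_, h1⟩, ?_⟩
    rw [← hes, LinearEquiv.symm_apply_apply]
  have hspan : ∀ v ∈ PB (PhS arm J B g R p0) D ν, ∃ x, ((v : Sg g) : ι → K) = (g * U) *ᵥ x := by
    intro v hv
    rw [← hmap2] at hv
    obtain ⟨w, hw, rfl⟩ := hv
    obtain ⟨x, hx⟩ := hspanX w hw
    refine ⟨x, ?_⟩
    rw [gS_coe, hW hx g h.memW, mulVec_mulVec]
  have hrad := mem_T_iff (k := k) (N := N) (W := W) hD hR hX hDc hDB hC hspan
  have hmap : (bR (oX h p0) (hcX.D D) ν).map e.toLinearMap =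
      LinearMap.ker ((g * U)ᵀ * (J * p0) * (g * U)).mulVecLin := by
    ext x
    rw [LinearMap.mem_ker, mulVecLin_apply, ← hrad x (gS g (U *ᵥ x)) (hPx x).symm]
    have h1 : ((e.symm x : Y) : (δ → K) ⧸ SUB.ZW W) ∈ T (oX h p0) ↔
        gS g (U *ᵥ x) ∈ T (PhS arm J B g R p0) := by
      rw [hcX.mem_T, hes, gX_mk]
    rw [← h1]
    constructor
    · rintro ⟨y, hy, rfl⟩
      change ((e.symm (e y) : Y) : (δ → K) ⧸ SUB.ZW W) ∈ _
      rw [LinearEquiv.symm_apply_apply]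
      exact hy
    · intro hx
      exact ⟨e.symm x, hx, e.apply_symm_apply x⟩
  have hblk : BlkD (fun s => (A s).mulVecLin)
      (LinearMap.ker ((g * U)ᵀ * (J * p0) * (g * U)).mulVecLin) l := by
    rw [← hmap]
    exact hbν.equiv e fun s y => by rw [hA, LinearEquiv.symm_apply_apply]
  have hact0 : ∀ s, M arm B s g g * (J * p0) * (g * U) = g * U * A s := by
    intro s
    rw [← hactW s g h.memW]
    unfold M th
    rw [← hD.B_arm]
    simp only [Matrix.mul_assoc]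
  refine ⟨_, U, A, ?_, hUQ, hactW, fun x hx => ?_, fun v hv => ?_, ?_⟩
  · intro a
    exact hu a
  · have h1 : (SUB.ZW W).mkQ (U *ᵥ x) = 0 := (Submodule.Quotient.mk_eq_zero _).2 fun v hv => hx v hv
    rw [← hes] at h1
    have h2 : e.symm x = 0 := Subtype.ext h1
    exact e.symm.map_eq_zero_iff.1 h2
  · obtain ⟨x, hx⟩ := hspanX v hv
    exact ⟨x, hW hx⟩
  · refine ⟨hC, col_mem hC, hspan, hact0, hblk, hrad, form_skew hD hX _,
      fun s => form_adj hD hX s (hact0 s) (hact0 s), fun s => ?_⟩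
    obtain ⟨y, hy⟩ := hblk.ne s
    by_contra hcon
    push Not at hcon
    apply hy
    rw [LinearMap.mem_ker]
    funext a
    have h1 := hcon (Pi.single a 1) y
    rw [single_one_dotProduct] at h1
    rw [mulVecLin_apply, mulVecLin_pow_apply]
    exact h1

/-- **X-level package with the same `l` as a given `BPkg`.** -/
theorem exists_XPkg_of [IsAlgClosed K] (h : Ctx k arm J B N W g) (hR : g * R * g = g)
    {p0 : Matrix ι ι K} (hX : Skw J p0) {D : End K (CoreM (PhS arm J B g R p0))}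
    (hDc : ∀ s x, D (coreOp (PhS arm J B g R p0) s x) = coreOp (PhS arm J B g R p0) s (D x))
    (hDB : ∀ x y, BC (Mg arm B g) (bil g R (gᵀ * (J * p0) * g)) (D x) y =
      BC (Mg arm B g) (bil g R (gᵀ * (J * p0) * g)) x (D y))
    (hT : Core.Tame (coreOp (PhS arm J B g R p0)) D) {ν : K} {l : Fin 3 → ℕ} {n' : ℕ}
    {P' : Matrix ι (Fin n') K} {A' : Fin 3 → Matrix (Fin n') (Fin n') K}
    (hν : D.maxGenEigenspace ν ≠ ⊥) (b : BPkg0 arm J B g R p0 D ν l P' A') :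
    ∃ (n : ℕ) (U : Matrix δ (Fin n) K) (A : Fin 3 → Matrix (Fin n) (Fin n) K),
      XPkg h hR p0 D ν l U A := by
  obtain ⟨l', -, hall⟩ := exists_XPkg h hR hX hDc hDB hT
  obtain ⟨n, U, A, hp⟩ := hall ν hν
  have : l = l' := l_unique hR b hp.pkg
  subst this
  exact ⟨n, U, A, hp⟩

end Crest.Agent.R172.SCX
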