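import Crest.Agent.R172.SUX6

/-!
Row 172 (S0260), S-side, row L2-d: the parity separation of the first level with all values,
on the `K^δ`-level triples `(X, β, γ)`.
-/

set_option autoImplicit false
set_option linter.unusedSectionVars false
set_option linter.unusedFintypeInType false
set_option linter.unusedDecidableInType false

namespace Crest.Agent.R172.SD937

open Matrix Module Crest.Agent.R172.FO Crest.Agent.R172.Qt Crest.Agent.R172.SpS
  Crest.Agent.R172.Om Crest.Agent.R172.SUX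

variable {ι : Type*} [Fintype ι] [DecidableEq ι] {δ : Type*} [Fintype δ] [DecidableEq δ]
variable {k K : Type*} [Field k] [Field K] [Algebra k K]
variable {arm : δ → Fin 3} {J : Matrix ι ι K} {B : Matrix δ δ K}
  {N W : Submodule K (Matrix ι δ K)} {H F f q : Matrix ι δ K}
variable {n1 n2 : Type*} [Fintype n1] [Fintype n2] [DecidableEq n1] [DecidableEq n2]
variable {P : Matrix ι ι K × (Fin 3 → Matrix ι ι K)} {S0 : Matrix δ δ K} {c1 c2 : K}
  {U1 : Matrix δ n1 K} {U2 : Matrix δ n2 K} {dY : Derivation k K K}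

/-- **uniqueness of corrections**: perfect to nilpotent. -/
theorem uniq {n m κ : Type*} [Fintype n] [DecidableEq n] [Fintype m] [DecidableEq m]
    (FU : Matrix κ n K) (a : Fin 3 → Matrix n n K) (b : Fin 3 → Matrix m m K) (G : Matrix n n K)
    {c : K} (hc : c ≠ 0) (hperf : ∀ y : m → K, ∃ f : Fin 3 → (m → K), y = ∑ s, b s *ᵥ f s)
    (hk : ∀ s x, FU *ᵥ x = 0 → FU *ᵥ (a s *ᵥ x) = 0) {l : ℕ}
    (nil : ∀ w : List (Fin 3), w.length = l → ∀ x, G *ᵥ x = 0 →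
      FU *ᵥ ((w.map a).prod *ᵥ x) = 0)
    {e : Matrix n m K} (hG : G * e = 0) (hrel : ∀ r, FU * (a r * e - c • (e * b r)) = 0) :
    FU * e = 0 := by
  have hkw : ∀ w : List (Fin 3), ∀ x, FU *ᵥ x = 0 → FU *ᵥ ((w.map a).prod *ᵥ x) = 0 := by
    intro w
    induction w with
    | nil => intro x hx; simpa using hx
    | cons s w ih =>
      intro x hx
      rw [List.map_cons, List.prod_cons, ← mulVec_mulVec]
      exact hk s _ (ih x hx)
  have key : ∀ j, j ≤ l → ∀ w : List (Fin 3), w.length = l - j → ∀ y : m → K,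
      FU *ᵥ ((w.map a).prod *ᵥ (e *ᵥ y)) = 0 := by
    intro j
    induction j with
    | zero =>
      intro _ w hw y
      refine nil w (by omega) _ ?_
      rw [mulVec_mulVec, hG, zero_mulVec]
    | succ j ih =>
      intro hj w hw y
      obtain ⟨f, rfl⟩ := hperf y
      have h1 : ∀ s, FU *ᵥ ((w.map a).prod *ᵥ (e *ᵥ (b s *ᵥ f s))) = 0 := by
        intro s
        have h2 := ih (by omega) (w ++ [s]) (by rw [List.length_append, hw]; simp; omega) (f s)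
        rw [List.map_append, List.prod_append, List.map_singleton, List.prod_singleton,
          ← mulVec_mulVec] at h2
        have h3 : FU *ᵥ (a s *ᵥ (e *ᵥ f s) - c • (e *ᵥ (b s *ᵥ f s))) = 0 := by
          have h4 := congrArg (fun M : Matrix κ m K => M *ᵥ f s) (hrel s)
          simp only [zero_mulVec] at h4
          rw [← mulVec_mulVec, sub_mulVec, smul_mulVec, ← mulVec_mulVec, ← mulVec_mulVec] at h4
          exact h4
        have h5 := hkw w _ h3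
        rw [mulVec_sub, mulVec_sub, mulVec_smul, mulVec_smul, h2, zero_sub, neg_eq_zero] at h5
        exact (smul_eq_zero.1 h5).resolve_left hc
      rw [mulVec_sum, mulVec_sum, mulVec_sum]
      exact Finset.sum_eq_zero fun s _ => h1 s
  ext i j
  have h1 := key l le_rfl [] (by simp) (Pi.single j 1)
  rw [List.map_nil, List.prod_nil, one_mulVec, mulVec_mulVec, mulVec_single_one] at h1
  exact congrFun h1 i

/-- the pencil of the triples `(X, β, γ)` at `c`. -/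
structure Pen (F : Matrix ι δ K) (S0 : Matrix δ δ K) (U1 : Matrix δ n1 K) (U2 : Matrix δ n2 K)
    (a1 : Fin 3 → Matrix n1 n1 K) (a2 : Fin 3 → Matrix n2 n2 K) (c : K)
    (y : D3 K n1 n2) : Prop where
  sum : ∑ s, (y.1 s * (a1 s)ᵀ + c • (a2 s * y.1 s)) = 0
  arm : ∀ s, (U2ᵀ * S0 * U2) * (y.1 s * (a1 s)ᵀ + c • (a2 s * y.1 s)) * (U1ᵀ * S0 * U1) = 0
  cor : ∀ r, F * U1 * (a1 r * y.2.1 - c • (y.2.1 * a2 r) - (a1 r * (y.1 r)ᵀ * (U2ᵀ * S0 * U2)
    - c • ((y.1 r)ᵀ * (U2ᵀ * S0 * U2) * a2 r))) = 0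
  cork : ∀ r, F * U2 * (c • (a2 r * y.2.2) - y.2.2 * a1 r - (c • (a2 r * y.1 r * (U1ᵀ * S0 * U1))
    - y.1 r * (U1ᵀ * S0 * U1) * a1 r)) = 0
  rb : (U1ᵀ * S0 * U1) * y.2.1 = 0
  rk : (U2ᵀ * S0 * U2) * y.2.2 = 0

/-- values of the pencil -/
abbrev GG (K ι n1 n2 : Type*) := (Matrix n2 n1 K × (Fin 3 → Matrix n2 n1 K)) ×
  ((Fin 3 → Matrix ι n2 K) × (Fin 3 → Matrix ι n1 K)) × (Matrix n1 n2 K × Matrix n2 n1 K)

/-- first part of the pencil -/
def alD (F : Matrix ι δ K) (S0 : Matrix δ δ K) (U1 : Matrix δ n1 K) (U2 : Matrix δ n2 K)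
    (a1 : Fin 3 → Matrix n1 n1 K) : D3 K n1 n2 →ₗ[K] GG K ι n1 n2 where
  toFun y := ((∑ s, y.1 s * (a1 s)ᵀ,
      fun s => (U2ᵀ * S0 * U2) * (y.1 s * (a1 s)ᵀ) * (U1ᵀ * S0 * U1)),
    (fun r => F * U1 * (a1 r * y.2.1 - a1 r * (y.1 r)ᵀ * (U2ᵀ * S0 * U2)),
      fun r => F * U2 * (y.1 r * (U1ᵀ * S0 * U1) * a1 r - y.2.2 * a1 r)),
    ((U1ᵀ * S0 * U1) * y.2.1, (U2ᵀ * S0 * U2) * y.2.2))
  map_add' a b := by
    refine Prod.ext (Prod.ext ?_ ?_) (Prod.ext (Prod.ext ?_ ?_) (Prod.ext ?_ ?_))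
    · simp only [Prod.fst_add, Pi.add_apply, Matrix.add_mul, Finset.sum_add_distrib]
    · funext s
      simp only [Prod.fst_add, Prod.snd_add, Pi.add_apply, Matrix.add_mul, Matrix.mul_add]
    · funext s
      simp only [Prod.fst_add, Prod.snd_add, Pi.add_apply, Matrix.add_mul, Matrix.mul_add,
        transpose_add, Matrix.mul_sub]
      abel
    · funext s
      simp only [Prod.fst_add, Prod.snd_add, Pi.add_apply, Matrix.add_mul, Matrix.mul_add,
        Matrix.mul_sub]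
      abel
    · simp only [Prod.fst_add, Prod.snd_add, Matrix.mul_add]
    · simp only [Prod.snd_add, Matrix.mul_add]
  map_smul' c a := by
    refine Prod.ext (Prod.ext ?_ ?_) (Prod.ext (Prod.ext ?_ ?_) (Prod.ext ?_ ?_))
    · simp only [Prod.smul_fst, Pi.smul_apply, Matrix.smul_mul, Finset.smul_sum,
        RingHom.id_apply]
    · funext s
      simp only [Prod.smul_fst, Prod.smul_snd, Pi.smul_apply, Matrix.smul_mul, Matrix.mul_smul,
        RingHom.id_apply]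
    · funext s
      simp only [Prod.smul_fst, Prod.smul_snd, Pi.smul_apply, Matrix.smul_mul, Matrix.mul_smul,
        RingHom.id_apply, transpose_smul, ← smul_sub]
    · funext s
      simp only [Prod.smul_fst, Prod.smul_snd, Pi.smul_apply, Matrix.smul_mul, Matrix.mul_smul,
        RingHom.id_apply, ← smul_sub]
    · simp only [Prod.smul_fst, Prod.smul_snd, Matrix.mul_smul, RingHom.id_apply]
    · simp only [Prod.smul_snd, Matrix.mul_smul, RingHom.id_apply]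

/-- second part of the pencil -/
def beD (F : Matrix ι δ K) (S0 : Matrix δ δ K) (U1 : Matrix δ n1 K) (U2 : Matrix δ n2 K)
    (a2 : Fin 3 → Matrix n2 n2 K) : D3 K n1 n2 →ₗ[K] GG K ι n1 n2 where
  toFun y := ((-∑ s, a2 s * y.1 s,
      fun s => -((U2ᵀ * S0 * U2) * (a2 s * y.1 s) * (U1ᵀ * S0 * U1))),
    (fun r => F * U1 * (y.2.1 * a2 r - (y.1 r)ᵀ * (U2ᵀ * S0 * U2) * a2 r),
      fun r => F * U2 * (a2 r * y.1 r * (U1ᵀ * S0 * U1) - a2 r * y.2.2)),
    (0, 0))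
  map_add' a b := by
    refine Prod.ext (Prod.ext ?_ ?_) (Prod.ext (Prod.ext ?_ ?_) (Prod.ext ?_ ?_))
    · simp only [Prod.fst_add, Pi.add_apply, Matrix.mul_add, Finset.sum_add_distrib]
      abel
    · funext s
      simp only [Prod.fst_add, Prod.snd_add, Pi.add_apply, Matrix.add_mul, Matrix.mul_add]
      abel
    · funext s
      simp only [Prod.fst_add, Prod.snd_add, Pi.add_apply, Matrix.add_mul, Matrix.mul_add,
        transpose_add, Matrix.mul_sub]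
      abel
    · funext s
      simp only [Prod.fst_add, Prod.snd_add, Pi.add_apply, Matrix.add_mul, Matrix.mul_add,
        Matrix.mul_sub]
      abel
    · simp
    · simp
  map_smul' c a := by
    refine Prod.ext (Prod.ext ?_ ?_) (Prod.ext (Prod.ext ?_ ?_) (Prod.ext ?_ ?_))
    · simp only [Prod.smul_fst, Pi.smul_apply, Matrix.mul_smul, Finset.smul_sum,
        RingHom.id_apply, smul_neg]
    · funext s
      simp only [Prod.smul_fst, Prod.smul_snd, Pi.smul_apply, Matrix.smul_mul, Matrix.mul_smul,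
        RingHom.id_apply, smul_neg]
    · funext s
      simp only [Prod.smul_fst, Prod.smul_snd, Pi.smul_apply, Matrix.smul_mul, Matrix.mul_smul,
        RingHom.id_apply, transpose_smul, ← smul_sub]
    · funext s
      simp only [Prod.smul_fst, Prod.smul_snd, Pi.smul_apply, Matrix.smul_mul, Matrix.mul_smul,
        RingHom.id_apply, ← smul_sub]
    · simp
    · simp

theorem pen_iff {a1 : Fin 3 → Matrix n1 n1 K} {a2 : Fin 3 → Matrix n2 n2 K} {c : K}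
    {y : D3 K n1 n2} : alD F S0 U1 U2 a1 y = c • beD F S0 U1 U2 a2 y ↔
      Pen F S0 U1 U2 a1 a2 c y := by
  have e1 : ∀ A C : Matrix n2 n1 K, A + c • C = 0 ↔ A = c • (-C) := by
    intro A C
    rw [smul_neg, eq_neg_iff_add_eq_zero]
  constructor
  · intro h
    have h1 := congrArg (fun z : GG K ι n1 n2 => z.1.1) h
    have h2 := congrArg (fun z : GG K ι n1 n2 => z.1.2) h
    have h3 := congrArg (fun z : GG K ι n1 n2 => z.2.1.1) h
    have h4 := congrArg (fun z : GG K ι n1 n2 => z.2.1.2) h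
    have h5 := congrArg (fun z : GG K ι n1 n2 => z.2.2.1) h
    have h6 := congrArg (fun z : GG K ι n1 n2 => z.2.2.2) h
    change ∑ s, y.1 s * (a1 s)ᵀ = c • (-∑ s, a2 s * y.1 s) at h1
    change (fun s => (U2ᵀ * S0 * U2) * (y.1 s * (a1 s)ᵀ) * (U1ᵀ * S0 * U1))
      = c • (fun s => -((U2ᵀ * S0 * U2) * (a2 s * y.1 s) * (U1ᵀ * S0 * U1))) at h2
    change (fun r => F * U1 * (a1 r * y.2.1 - a1 r * (y.1 r)ᵀ * (U2ᵀ * S0 * U2)))
      = c • (fun r => F * U1 * (y.2.1 * a2 r - (y.1 r)ᵀ * (U2ᵀ * S0 * U2) * a2 r)) at h3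
    change (fun r => F * U2 * (y.1 r * (U1ᵀ * S0 * U1) * a1 r - y.2.2 * a1 r))
      = c • (fun r => F * U2 * (a2 r * y.1 r * (U1ᵀ * S0 * U1) - a2 r * y.2.2)) at h4
    change (U1ᵀ * S0 * U1) * y.2.1 = c • 0 at h5
    change (U2ᵀ * S0 * U2) * y.2.2 = c • 0 at h6
    refine ⟨?_, fun s => ?_, fun r => ?_, fun r => ?_, by rw [h5, smul_zero],
      by rw [h6, smul_zero]⟩
    · rw [Finset.sum_add_distrib, ← Finset.smul_sum, e1]
      exact h1
    · have h7 := congrFun h2 s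
      rw [Matrix.mul_add, Matrix.add_mul, Matrix.mul_smul, Matrix.smul_mul, e1]
      exact h7
    · have h7 : F * U1 * (a1 r * y.2.1 - a1 r * (y.1 r)ᵀ * (U2ᵀ * S0 * U2))
        = c • (F * U1 * (y.2.1 * a2 r - (y.1 r)ᵀ * (U2ᵀ * S0 * U2) * a2 r)) := congrFun h3 r
      have h8 : a1 r * y.2.1 - c • (y.2.1 * a2 r) - (a1 r * (y.1 r)ᵀ * (U2ᵀ * S0 * U2)
          - c • ((y.1 r)ᵀ * (U2ᵀ * S0 * U2) * a2 r))
          = (a1 r * y.2.1 - a1 r * (y.1 r)ᵀ * (U2ᵀ * S0 * U2)) -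
            c • (y.2.1 * a2 r - (y.1 r)ᵀ * (U2ᵀ * S0 * U2) * a2 r) := by
        rw [smul_sub]; abel
      rw [h8, Matrix.mul_sub, h7, Matrix.mul_smul, sub_self]
    · have h7 : F * U2 * (y.1 r * (U1ᵀ * S0 * U1) * a1 r - y.2.2 * a1 r)
        = c • (F * U2 * (a2 r * y.1 r * (U1ᵀ * S0 * U1) - a2 r * y.2.2)) := congrFun h4 r
      have h8 : c • (a2 r * y.2.2) - y.2.2 * a1 r - (c • (a2 r * y.1 r * (U1ᵀ * S0 * U1))
          - y.1 r * (U1ᵀ * S0 * U1) * a1 r)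
          = (y.1 r * (U1ᵀ * S0 * U1) * a1 r - y.2.2 * a1 r) -
            c • (a2 r * y.1 r * (U1ᵀ * S0 * U1) - a2 r * y.2.2) := by
        rw [smul_sub]; abel
      rw [h8, Matrix.mul_sub, h7, Matrix.mul_smul, sub_self]
  · intro h
    refine Prod.ext (Prod.ext ?_ ?_) (Prod.ext (Prod.ext ?_ ?_) (Prod.ext ?_ ?_))
    · change ∑ s, y.1 s * (a1 s)ᵀ = c • (-∑ s, a2 s * y.1 s)
      rw [← e1, Finset.smul_sum, ← Finset.sum_add_distrib]
      exact h.sum
    · change (fun s => (U2ᵀ * S0 * U2) * (y.1 s * (a1 s)ᵀ) * (U1ᵀ * S0 * U1))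
        = c • (fun s => -((U2ᵀ * S0 * U2) * (a2 s * y.1 s) * (U1ᵀ * S0 * U1)))
      funext s
      have h7 := h.arm s
      rw [Matrix.mul_add, Matrix.add_mul, Matrix.mul_smul, Matrix.smul_mul, e1] at h7
      exact h7
    · change (fun r => F * U1 * (a1 r * y.2.1 - a1 r * (y.1 r)ᵀ * (U2ᵀ * S0 * U2)))
        = c • (fun r => F * U1 * (y.2.1 * a2 r - (y.1 r)ᵀ * (U2ᵀ * S0 * U2) * a2 r))
      funext r
      have h7 := h.cor r
      have h8 : a1 r * y.2.1 - c • (y.2.1 * a2 r) - (a1 r * (y.1 r)ᵀ * (U2ᵀ * S0 * U2)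
          - c • ((y.1 r)ᵀ * (U2ᵀ * S0 * U2) * a2 r))
          = (a1 r * y.2.1 - a1 r * (y.1 r)ᵀ * (U2ᵀ * S0 * U2)) -
            c • (y.2.1 * a2 r - (y.1 r)ᵀ * (U2ᵀ * S0 * U2) * a2 r) := by
        rw [smul_sub]; abel
      rw [h8, Matrix.mul_sub, Matrix.mul_smul, sub_eq_zero] at h7
      exact h7
    · change (fun r => F * U2 * (y.1 r * (U1ᵀ * S0 * U1) * a1 r - y.2.2 * a1 r))
        = c • (fun r => F * U2 * (a2 r * y.1 r * (U1ᵀ * S0 * U1) - a2 r * y.2.2))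
      funext r
      have h7 := h.cork r
      have h8 : c • (a2 r * y.2.2) - y.2.2 * a1 r - (c • (a2 r * y.1 r * (U1ᵀ * S0 * U1))
          - y.1 r * (U1ᵀ * S0 * U1) * a1 r)
          = (y.1 r * (U1ᵀ * S0 * U1) * a1 r - y.2.2 * a1 r) -
            c • (a2 r * y.1 r * (U1ᵀ * S0 * U1) - a2 r * y.2.2) := by
        rw [smul_sub]; abel
      rw [h8, Matrix.mul_sub, Matrix.mul_smul, sub_eq_zero] at h7
      exact h7
    · change (U1ᵀ * S0 * U1) * y.2.1 = c • 0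
      rw [h.rb, smul_zero]
    · change (U2ᵀ * S0 * U2) * y.2.2 = c • 0
      rw [h.rk, smul_zero]

/-- `I1`, `I2` only depend on `F U1 β`, `F U2 γ`. -/
theorem I_congr {S1 : Matrix ι δ K} (hS : S0 = Fᵀ * S1) {X : Fin 3 → Matrix n2 n1 K}
    {β β' : Matrix n1 n2 K} {γ γ' : Matrix n2 n1 K} (hb : F * U1 * (β - β') = 0)
    (hg : F * U2 * (γ - γ') = 0) :
    I1 arm F S0 U1 U2 (X, β, γ) = I1 arm F S0 U1 U2 (X, β', γ') ∧
      I2 arm F S0 U1 U2 (X, β, γ) = I2 arm F S0 U1 U2 (X, β', γ') := by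
  have h1 : F * (U1 * β) = F * (U1 * β') := by
    rw [Matrix.mul_sub, sub_eq_zero] at hb
    simpa only [Matrix.mul_assoc] using hb
  have h2 : F * (U2 * γ) = F * (U2 * γ') := by
    rw [Matrix.mul_sub, sub_eq_zero] at hg
    simpa only [Matrix.mul_assoc] using hg
  have h3 : βᵀ * (U1ᵀ * S0) = β'ᵀ * (U1ᵀ * S0) := by
    have e : ∀ b : Matrix n1 n2 K, bᵀ * (U1ᵀ * S0) = (F * (U1 * b))ᵀ * S1 := by
      intro b
      rw [hS, transpose_mul, transpose_mul]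
      simp only [Matrix.mul_assoc]
    rw [e, e, h1]
  have h4 : γᵀ * (U2ᵀ * S0) = γ'ᵀ * (U2ᵀ * S0) := by
    have e : ∀ b : Matrix n2 n1 K, bᵀ * (U2ᵀ * S0) = (F * (U2 * b))ᵀ * S1 := by
      intro b
      rw [hS, transpose_mul, transpose_mul]
      simp only [Matrix.mul_assoc]
    rw [e, e, h2]
  constructor
  · refine Prod.ext rfl (Prod.ext (Prod.ext ?_ rfl) (Prod.ext rfl ?_))
    · exact h2
    · change -(βᵀ * (U1ᵀ * S0)) = -(β'ᵀ * (U1ᵀ * S0))
      rw [h3]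
  · refine Prod.ext rfl (Prod.ext (Prod.ext rfl ?_) (Prod.ext ?_ rfl))
    · change -(F * (U1 * β)) = -(F * (U1 * β'))
      rw [h1]
    · exact h4

/-- **L2-d: parity separation with all values on the `K^δ`-level triples.** -/
theorem sep_values {a1 : Fin 3 → Matrix n1 n1 K} {a2 : Fin 3 → Matrix n2 n2 K}
    {S1 : Matrix ι δ K} (hS : S0 = Fᵀ * S1)
    (perf1 : ∀ y : n1 → K, ∃ f : Fin 3 → (n1 → K), y = ∑ s, a1 s *ᵥ f s)
    (perf2 : ∀ y : n2 → K, ∃ f : Fin 3 → (n2 → K), y = ∑ s, a2 s *ᵥ f s)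
    (hk1 : ∀ s x, (F * U1) *ᵥ x = 0 → (F * U1) *ᵥ (a1 s *ᵥ x) = 0)
    (hk2 : ∀ s x, (F * U2) *ᵥ x = 0 → (F * U2) *ᵥ (a2 s *ᵥ x) = 0) {l1 l2 : ℕ}
    (nil1 : ∀ w : List (Fin 3), w.length = l1 → ∀ x, (U1ᵀ * S0 * U1) *ᵥ x = 0 →
      (F * U1) *ᵥ ((w.map a1).prod *ᵥ x) = 0)
    (nil2 : ∀ w : List (Fin 3), w.length = l2 → ∀ x, (U2ᵀ * S0 * U2) *ᵥ x = 0 →
      (F * U2) *ᵥ ((w.map a2).prod *ᵥ x) = 0)
    {R : Set K} (hR : R.Infinite) (h0 : (0 : K) ∉ R)
    (hmv : ∀ ρ ∈ R, ∀ X : Fin 3 → Matrix n2 n1 K,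
      ∑ s, (X s * (a1 s)ᵀ + ρ ^ 2 • (a2 s * X s)) = 0 →
      (∀ s, (U2ᵀ * S0 * U2) * (X s * (a1 s)ᵀ + ρ ^ 2 • (a2 s * X s)) * (U1ᵀ * S0 * U1) = 0) →
      ∃ β γ, Pen F S0 U1 U2 a1 a2 (ρ ^ 2) (X, β, γ) ∧
        I1 arm F S0 U1 U2 (X, β, γ) + ρ • I2 arm F S0 U1 U2 (X, β, γ) ∈
          QQ5 J N W F f dY S0 U1 U2) :
    ∃ S : Set K, S.Finite ∧ ∀ c ∉ S, ∀ y, Pen F S0 U1 U2 a1 a2 c y →
      I1 arm F S0 U1 U2 y ∈ QQ5 J N W F f dY S0 U1 U2 ∧
        I2 arm F S0 U1 U2 y ∈ QQ5 J N W F f dY S0 U1 U2 := by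
  have hrel : ∀ ρ ∈ R, ∀ y, alD F S0 U1 U2 a1 y = ρ ^ 2 • beD F S0 U1 U2 a2 y →
      I1 arm F S0 U1 U2 (LinearMap.id (R := K) y) + ρ • I2 arm F S0 U1 U2 (LinearMap.id (R := K) y) ∈
        QQ5 J N W F f dY S0 U1 U2 := by
    intro ρ hρ y hy
    have hρ0 : ρ ≠ 0 := fun hh => h0 (hh ▸ hρ)
    have hc : ρ ^ 2 ≠ 0 := pow_ne_zero 2 hρ0
    obtain ⟨X, β, γ⟩ := y
    have hp := pen_iff.1 hy
    obtain ⟨β', γ', hp', hm⟩ := hmv ρ hρ X hp.sum hp.arm
    have hb : F * U1 * (β - β') = 0 := by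
      refine uniq (F * U1) a1 a2 (U1ᵀ * S0 * U1) hc perf2 hk1 nil1 ?_ fun r => ?_
      · have e1 : (U1ᵀ * S0 * U1) * β = 0 := hp.rb
        have e2 : (U1ᵀ * S0 * U1) * β' = 0 := hp'.rb
        rw [Matrix.mul_sub, e1, e2, sub_zero]
      · have e1 := hp.cor r
        have e2 := hp'.cor r
        have e3 : a1 r * (β - β') - ρ ^ 2 • ((β - β') * a2 r)
            = (a1 r * β - ρ ^ 2 • (β * a2 r) - (a1 r * (X r)ᵀ * (U2ᵀ * S0 * U2)
              - ρ ^ 2 • ((X r)ᵀ * (U2ᵀ * S0 * U2) * a2 r)))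
              - (a1 r * β' - ρ ^ 2 • (β' * a2 r) - (a1 r * (X r)ᵀ * (U2ᵀ * S0 * U2)
              - ρ ^ 2 • ((X r)ᵀ * (U2ᵀ * S0 * U2) * a2 r))) := by
          rw [Matrix.mul_sub, Matrix.sub_mul, smul_sub]
          abel
        rw [e3, Matrix.mul_sub]
        exact sub_eq_zero.2 (e1.trans e2.symm)
    have hg : F * U2 * (γ - γ') = 0 := by
      refine uniq (F * U2) a2 a1 (U2ᵀ * S0 * U2) (inv_ne_zero hc) perf1 hk2 nil2 ?_ fun r => ?_
      · have e1 : (U2ᵀ * S0 * U2) * γ = 0 := hp.rk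
        have e2 : (U2ᵀ * S0 * U2) * γ' = 0 := hp'.rk
        rw [Matrix.mul_sub, e1, e2, sub_zero]
      · have e1 := hp.cork r
        have e2 := hp'.cork r
        have e3 : ρ ^ 2 • (a2 r * (γ - γ') - (ρ ^ 2)⁻¹ • ((γ - γ') * a1 r))
            = (ρ ^ 2 • (a2 r * γ) - γ * a1 r - (ρ ^ 2 • (a2 r * X r * (U1ᵀ * S0 * U1))
              - X r * (U1ᵀ * S0 * U1) * a1 r))
              - (ρ ^ 2 • (a2 r * γ') - γ' * a1 r - (ρ ^ 2 • (a2 r * X r * (U1ᵀ * S0 * U1))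
              - X r * (U1ᵀ * S0 * U1) * a1 r)) := by
          rw [smul_sub, smul_smul, mul_inv_cancel₀ hc, one_smul, Matrix.mul_sub, Matrix.sub_mul,
            smul_sub]
          abel
        have e4 : ρ ^ 2 • (F * U2 * (a2 r * (γ - γ') - (ρ ^ 2)⁻¹ • ((γ - γ') * a1 r))) = 0 := by
          rw [← Matrix.mul_smul, e3, Matrix.mul_sub]
          exact sub_eq_zero.2 (e1.trans e2.symm)
        exact (smul_eq_zero.1 e4).resolve_left hc
    obtain ⟨g1, g2⟩ := I_congr (arm := arm) (X := X) hS hb hg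
    change I1 arm F S0 U1 U2 (X, β, γ) + ρ • I2 arm F S0 U1 U2 (X, β, γ) ∈ _
    rw [g1, g2]
    exact hm
  obtain ⟨S, hSf, h⟩ := first_sep (arm := arm) (J := J) (N := N) (W := W) (F := F) (f := f)
    (dY := dY) (S0 := S0) (U1 := U1) (U2 := U2) (alD F S0 U1 U2 a1) (beD F S0 U1 U2 a2)
    LinearMap.id hR hrel
  exact ⟨S, hSf, fun c hc y hy => h c hc y (pen_iff.2 hy)⟩

/-- literal exactness of the symmetric family from the frame relation. -/
theorem exact_frames {a1 : Fin 3 → Matrix n1 n1 K} {a2 : Fin 3 → Matrix n2 n2 K}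
    {P : Matrix ι ι K} (fr : Fr J F H P S0 c1 c2 U1 U2) (hs : (th J H P H)ᵀ = -th J H P H)
    (hB : Bᵀ = B) (ha1 : ∀ s, B * E K arm s * (S0 * U1) = U1 * a1 s)
    (ha2 : ∀ s, B * E K arm s * (S0 * U2) = U2 * a2 s) {X : Fin 3 → Matrix n2 n1 K}
    (hX : ∑ s, (X s * (a1 s)ᵀ + (c2 / c1) ^ 2 • (a2 s * X s)) = 0) :
    Exact arm J B H P (fun s => U2 * X s * U1ᵀ + U1 * (X s)ᵀ * U2ᵀ) := by
  have hc1 := fr.hc1
  have r1 := fr.rowS1 hs
  have r2 := fr.symm.rowS1 hs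
  have t1 : ∀ s, U1ᵀ * S0 * E K arm s * B = -((a1 s)ᵀ * U1ᵀ) := by
    intro s
    have h := congrArg Matrix.transpose (ha1 s)
    rw [transpose_mul, transpose_mul, transpose_mul, transpose_mul, E_transpose, hB, fr.skew] at h
    rw [← h]
    simp only [Matrix.mul_neg, Matrix.neg_mul, neg_neg, Matrix.mul_assoc]
  have t2 : ∀ s, U2ᵀ * S0 * E K arm s * B = -((a2 s)ᵀ * U2ᵀ) := by
    intro s
    have h := congrArg Matrix.transpose (ha2 s)
    rw [transpose_mul, transpose_mul, transpose_mul, transpose_mul, E_transpose, hB, fr.skew] at h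
    rw [← h]
    simp only [Matrix.mul_neg, Matrix.neg_mul, neg_neg, Matrix.mul_assoc]
  have hX2 : ∑ s, (c1 ^ 2 • (X s * (a1 s)ᵀ) + c2 ^ 2 • (a2 s * X s)) = 0 := by
    have h := congrArg (fun M => c1 ^ 2 • M) hX
    simp only [smul_zero] at h
    rw [Finset.smul_sum] at h
    rw [← h]
    refine Finset.sum_congr rfl fun s _ => ?_
    rw [smul_add, smul_smul]
    congr 2
    field_simp
  have hX3 : ∑ s, (c1 ^ 2 • (a1 s * (X s)ᵀ) + c2 ^ 2 • ((X s)ᵀ * (a2 s)ᵀ)) = 0 := by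
    have h := congrArg Matrix.transpose hX2
    rw [transpose_sum, transpose_zero] at h
    rw [← h]
    refine Finset.sum_congr rfl fun s _ => ?_
    rw [transpose_add, transpose_smul, transpose_smul, transpose_mul, transpose_mul,
      transpose_transpose]
  unfold Exact
  have key : ∀ s, (U2 * X s * U1ᵀ + U1 * (X s)ᵀ * U2ᵀ) * th J H P H * E K arm s * B -
      B * E K arm s * th J H P H * (U2 * X s * U1ᵀ + U1 * (X s)ᵀ * U2ᵀ)
      = -(U2 * (c1 ^ 2 • (X s * (a1 s)ᵀ) + c2 ^ 2 • (a2 s * X s)) * U1ᵀ)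
        - U1 * (c1 ^ 2 • (a1 s * (X s)ᵀ) + c2 ^ 2 • ((X s)ᵀ * (a2 s)ᵀ)) * U2ᵀ := by
    intro s
    have b1 : U2 * X s * U1ᵀ * th J H P H * E K arm s * B
        = -(c1 ^ 2 • (U2 * (X s * (a1 s)ᵀ) * U1ᵀ)) := by
      calc U2 * X s * U1ᵀ * th J H P H * E K arm s * B
          = U2 * X s * (U1ᵀ * th J H P H) * E K arm s * B := by simp only [Matrix.mul_assoc]
        _ = c1 ^ 2 • (U2 * X s * (U1ᵀ * S0 * E K arm s * B)) := by
            rw [r1, Matrix.mul_smul, Matrix.smul_mul, Matrix.smul_mul]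
            simp only [Matrix.mul_assoc]
        _ = _ := by
            rw [t1, Matrix.mul_neg, smul_neg]
            simp only [Matrix.mul_assoc]
    have b2 : U1 * (X s)ᵀ * U2ᵀ * th J H P H * E K arm s * B
        = -(c2 ^ 2 • (U1 * ((X s)ᵀ * (a2 s)ᵀ) * U2ᵀ)) := by
      calc U1 * (X s)ᵀ * U2ᵀ * th J H P H * E K arm s * B
          = U1 * (X s)ᵀ * (U2ᵀ * th J H P H) * E K arm s * B := by simp only [Matrix.mul_assoc]
        _ = c2 ^ 2 • (U1 * (X s)ᵀ * (U2ᵀ * S0 * E K arm s * B)) := by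
            rw [r2, Matrix.mul_smul, Matrix.smul_mul, Matrix.smul_mul]
            simp only [Matrix.mul_assoc]
        _ = _ := by
            rw [t2, Matrix.mul_neg, smul_neg]
            simp only [Matrix.mul_assoc]
    have b3 : B * E K arm s * th J H P H * (U2 * X s * U1ᵀ)
        = c2 ^ 2 • (U2 * (a2 s * X s) * U1ᵀ) := by
      calc B * E K arm s * th J H P H * (U2 * X s * U1ᵀ)
          = B * E K arm s * (th J H P H * U2) * X s * U1ᵀ := by simp only [Matrix.mul_assoc]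
        _ = c2 ^ 2 • ((B * E K arm s * (S0 * U2)) * X s * U1ᵀ) := by
            rw [fr.S2, Matrix.mul_smul, Matrix.smul_mul, Matrix.smul_mul]
        _ = _ := by rw [ha2]; simp only [Matrix.mul_assoc]
    have b4 : B * E K arm s * th J H P H * (U1 * (X s)ᵀ * U2ᵀ)
        = c1 ^ 2 • (U1 * (a1 s * (X s)ᵀ) * U2ᵀ) := by
      calc B * E K arm s * th J H P H * (U1 * (X s)ᵀ * U2ᵀ)
          = B * E K arm s * (th J H P H * U1) * (X s)ᵀ * U2ᵀ := by simp only [Matrix.mul_assoc]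
        _ = c1 ^ 2 • ((B * E K arm s * (S0 * U1)) * (X s)ᵀ * U2ᵀ) := by
            rw [fr.S1, Matrix.mul_smul, Matrix.smul_mul, Matrix.smul_mul]
        _ = _ := by rw [ha1]; simp only [Matrix.mul_assoc]
    rw [Matrix.add_mul, Matrix.add_mul, Matrix.add_mul, Matrix.mul_add, b1, b2, b3, b4,
      Matrix.mul_add, Matrix.mul_add, Matrix.add_mul, Matrix.add_mul, Matrix.mul_smul,
      Matrix.mul_smul, Matrix.mul_smul, Matrix.mul_smul, Matrix.smul_mul, Matrix.smul_mul,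
      Matrix.smul_mul, Matrix.smul_mul]
    abel
  simp only [key]
  rw [Finset.sum_sub_distrib, Finset.sum_neg_distrib, ← Matrix.sum_mul, ← Matrix.mul_sum, hX2,
    ← Matrix.sum_mul, ← Matrix.mul_sum, hX3]
  simp

end Crest.Agent.R172.SD937
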