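import Crest.Agent.R172.SDec
import Crest.Agent.R172.SUX6
import Crest.Agent.R172.RJP

/-!
Row 172 (S0260), tame node (t2), level 2: the pencil of `SDec.Dec`, uniqueness of the decorations
and the parity separation in the letters of `Dec` (helper70).
-/

set_option autoImplicit false
set_option linter.unusedSectionVars false
set_option linter.unusedVariables false

namespace Crest.Agent.R172.SDecP70

open Matrix Module Crest.Agent.R172.FO Crest.Agent.R172.Qt Crest.Agent.R172.SpS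
open Crest.Agent.R172.SUX (D3 th I1 I2 E5 QQ5)
open Crest.Agent.R172.SDec (Dec)

variable {ι : Type*} [Fintype ι] [DecidableEq ι] {δ : Type*} [Fintype δ] [DecidableEq δ]
variable {K : Type*} [Field K] {m1 m2 : ℕ}

/-- target of the pencil -/
abbrev GG (K ι : Type*) (m1 m2 : ℕ) :=
  Matrix (Fin m2) (Fin m1) K × (Fin 3 → Matrix (Fin m2) (Fin m1) K) ×
    Matrix (Fin m1) (Fin m2) K × Matrix (Fin m2) (Fin m1) K ×
    (Fin 3 → Matrix ι (Fin m2) K) × (Fin 3 → Matrix ι (Fin m1) K)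

section pencil

variable (F : Matrix ι δ K) (S0 : Matrix δ δ K) (U1 : Matrix δ (Fin m1) K)
  (U2 : Matrix δ (Fin m2) K) (a1 : Fin 3 → Matrix (Fin m1) (Fin m1) K)
  (a2 : Fin 3 → Matrix (Fin m2) (Fin m2) K)

/-- first part of the pencil -/
noncomputable def alD : D3 K (Fin m1) (Fin m2) →ₗ[K] GG K ι m1 m2 where
  toFun y := (∑ s, y.1 s * (a1 s)ᵀ,
    fun s => (U2ᵀ * S0 * U2) * (y.1 s * (a1 s)ᵀ) * (U1ᵀ * S0 * U1),
    (U1ᵀ * S0 * U1) * y.2.1, (U2ᵀ * S0 * U2) * y.2.2,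
    fun s => F * (U1 * (a1 s * (y.2.1 - (y.1 s)ᵀ * (U2ᵀ * S0 * U2)))),
    fun s => F * (U2 * ((y.2.2 - y.1 s * (U1ᵀ * S0 * U1)) * a1 s)))
  map_add' x y := by
    refine Prod.ext ?_ (Prod.ext ?_ (Prod.ext ?_ (Prod.ext ?_ (Prod.ext ?_ ?_))))
    · simp only [Prod.fst_add, Pi.add_apply, Matrix.add_mul, Finset.sum_add_distrib]
    · funext s
      simp only [Prod.fst_add, Prod.snd_add, Pi.add_apply, Matrix.add_mul, Matrix.mul_add]
    · simp only [Prod.fst_add, Prod.snd_add, Matrix.mul_add]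
    · simp only [Prod.fst_add, Prod.snd_add, Matrix.mul_add]
    · funext s
      simp only [Prod.fst_add, Prod.snd_add, Pi.add_apply, Matrix.add_mul, Matrix.mul_add,
        Matrix.mul_sub, transpose_add]
      abel
    · funext s
      simp only [Prod.fst_add, Prod.snd_add, Pi.add_apply, Matrix.add_mul, Matrix.mul_add,
        Matrix.mul_sub, Matrix.sub_mul]
      abel
  map_smul' c y := by
    refine Prod.ext ?_ (Prod.ext ?_ (Prod.ext ?_ (Prod.ext ?_ (Prod.ext ?_ ?_))))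
    · simp only [Prod.smul_fst, Pi.smul_apply, Matrix.smul_mul, Finset.smul_sum,
        RingHom.id_apply]
    · funext s
      simp only [Prod.smul_fst, Prod.smul_snd, Pi.smul_apply, Matrix.smul_mul, Matrix.mul_smul,
        RingHom.id_apply]
    · simp only [Prod.smul_fst, Prod.smul_snd, Matrix.mul_smul, RingHom.id_apply]
    · simp only [Prod.smul_fst, Prod.smul_snd, Matrix.mul_smul, RingHom.id_apply]
    · funext s
      simp only [Prod.smul_fst, Prod.smul_snd, Pi.smul_apply, Matrix.smul_mul, Matrix.mul_smul,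
        Matrix.mul_sub, transpose_smul, RingHom.id_apply, smul_sub]
    · funext s
      simp only [Prod.smul_fst, Prod.smul_snd, Pi.smul_apply, Matrix.smul_mul, Matrix.mul_smul,
        Matrix.mul_sub, Matrix.sub_mul, RingHom.id_apply, smul_sub]

/-- second part of the pencil -/
noncomputable def beD : D3 K (Fin m1) (Fin m2) →ₗ[K] GG K ι m1 m2 where
  toFun y := (∑ s, a2 s * y.1 s,
    fun s => (U2ᵀ * S0 * U2) * (a2 s * y.1 s) * (U1ᵀ * S0 * U1),
    0, 0,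
    fun s => -(F * (U1 * ((y.2.1 - (y.1 s)ᵀ * (U2ᵀ * S0 * U2)) * a2 s))),
    fun s => -(F * (U2 * (a2 s * (y.2.2 - y.1 s * (U1ᵀ * S0 * U1))))))
  map_add' x y := by
    refine Prod.ext ?_ (Prod.ext ?_ (Prod.ext ?_ (Prod.ext ?_ (Prod.ext ?_ ?_))))
    · simp only [Prod.fst_add, Pi.add_apply, Matrix.mul_add, Finset.sum_add_distrib]
    · funext s
      simp only [Prod.fst_add, Prod.snd_add, Pi.add_apply, Matrix.add_mul, Matrix.mul_add]
    · simp
    · simp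
    · funext s
      simp only [Prod.fst_add, Prod.snd_add, Pi.add_apply, Matrix.add_mul, Matrix.mul_add,
        Matrix.mul_sub, Matrix.sub_mul, transpose_add]
      abel
    · funext s
      simp only [Prod.fst_add, Prod.snd_add, Pi.add_apply, Matrix.add_mul, Matrix.mul_add,
        Matrix.mul_sub]
      abel
  map_smul' c y := by
    refine Prod.ext ?_ (Prod.ext ?_ (Prod.ext ?_ (Prod.ext ?_ (Prod.ext ?_ ?_))))
    · simp only [Prod.smul_fst, Pi.smul_apply, Matrix.mul_smul, Finset.smul_sum,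
        RingHom.id_apply]
    · funext s
      simp only [Prod.smul_fst, Prod.smul_snd, Pi.smul_apply, Matrix.smul_mul, Matrix.mul_smul,
        RingHom.id_apply]
    · simp
    · simp
    · funext s
      simp only [Prod.smul_fst, Prod.smul_snd, Pi.smul_apply, Matrix.smul_mul, Matrix.mul_smul,
        Matrix.mul_sub, Matrix.sub_mul, transpose_smul, RingHom.id_apply, smul_sub, smul_neg]
    · funext s
      simp only [Prod.smul_fst, Prod.smul_snd, Pi.smul_apply, Matrix.smul_mul, Matrix.mul_smul,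
        Matrix.mul_sub, RingHom.id_apply, smul_sub, smul_neg]

theorem dec_iff (c : K) (y : D3 K (Fin m1) (Fin m2)) :
    Dec F S0 U1 U2 a1 a2 c y ↔
      alD F S0 U1 U2 a1 y = c • beD F S0 U1 U2 a2 y := by
  have hs : ∑ s, (y.1 s * (a1 s)ᵀ - c • (a2 s * y.1 s)) = 0 ↔
      ∑ s, y.1 s * (a1 s)ᵀ = c • ∑ s, a2 s * y.1 s := by
    rw [Finset.sum_sub_distrib, ← Finset.smul_sum, sub_eq_zero]
  have ha : ∀ s, (U2ᵀ * S0 * U2) * (y.1 s * (a1 s)ᵀ - c • (a2 s * y.1 s)) * (U1ᵀ * S0 * U1) = 0 ↔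
      (U2ᵀ * S0 * U2) * (y.1 s * (a1 s)ᵀ) * (U1ᵀ * S0 * U1) =
        c • ((U2ᵀ * S0 * U2) * (a2 s * y.1 s) * (U1ᵀ * S0 * U1)) := by
    intro s
    rw [Matrix.mul_sub, Matrix.sub_mul, Matrix.mul_smul, Matrix.smul_mul, sub_eq_zero]
  have hb : ∀ s, F * (U1 * (a1 s * (y.2.1 - (y.1 s)ᵀ * (U2ᵀ * S0 * U2)) +
      c • ((y.2.1 - (y.1 s)ᵀ * (U2ᵀ * S0 * U2)) * a2 s))) = 0 ↔
      F * (U1 * (a1 s * (y.2.1 - (y.1 s)ᵀ * (U2ᵀ * S0 * U2)))) =
        c • (-(F * (U1 * ((y.2.1 - (y.1 s)ᵀ * (U2ᵀ * S0 * U2)) * a2 s)))) := by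
    intro s
    rw [Matrix.mul_add, Matrix.mul_add, Matrix.mul_smul, Matrix.mul_smul, smul_neg,
      eq_neg_iff_add_eq_zero]
  have hk : ∀ s, F * (U2 * (c • (a2 s * (y.2.2 - y.1 s * (U1ᵀ * S0 * U1))) +
      (y.2.2 - y.1 s * (U1ᵀ * S0 * U1)) * a1 s)) = 0 ↔
      F * (U2 * ((y.2.2 - y.1 s * (U1ᵀ * S0 * U1)) * a1 s)) =
        c • (-(F * (U2 * (a2 s * (y.2.2 - y.1 s * (U1ᵀ * S0 * U1)))))) := by
    intro s
    rw [add_comm, Matrix.mul_add, Matrix.mul_add, Matrix.mul_smul, Matrix.mul_smul, smul_neg,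
      eq_neg_iff_add_eq_zero]
  constructor
  · intro h
    refine Prod.ext (hs.1 h.sum) (Prod.ext (funext fun s => (ha s).1 (h.arm s)) (Prod.ext ?_
      (Prod.ext ?_ (Prod.ext (funext fun s => (hb s).1 (h.cb s))
        (funext fun s => (hk s).1 (h.ck s))))))
    · change (U1ᵀ * S0 * U1) * y.2.1 = c • (0 : Matrix (Fin m1) (Fin m2) K)
      rw [smul_zero]; exact h.rb
    · change (U2ᵀ * S0 * U2) * y.2.2 = c • (0 : Matrix (Fin m2) (Fin m1) K)
      rw [smul_zero]; exact h.rk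
  · intro h
    have h1 := congrArg (fun z => z.1) h
    have h2 := congrArg (fun z => z.2.1) h
    have h3 := congrArg (fun z => z.2.2.1) h
    have h4 := congrArg (fun z => z.2.2.2.1) h
    have h5 := congrArg (fun z => z.2.2.2.2.1) h
    have h6 := congrArg (fun z => z.2.2.2.2.2) h
    refine ⟨hs.2 h1, fun s => (ha s).2 (congrFun h2 s), ?_, ?_, fun s => (hb s).2 (congrFun h5 s),
      fun s => (hk s).2 (congrFun h6 s)⟩
    · change (U1ᵀ * S0 * U1) * y.2.1 = c • (0 : Matrix (Fin m1) (Fin m2) K) at h3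
      rw [smul_zero] at h3; exact h3
    · change (U2ᵀ * S0 * U2) * y.2.2 = c • (0 : Matrix (Fin m2) (Fin m1) K) at h4
      rw [smul_zero] at h4; exact h4

end pencil

/-- **perfect → nilpotent**, matrix form modulo `ker (F U)` -/
theorem uniq1 {m n : ℕ} {F : Matrix ι δ K} {U : Matrix δ (Fin m) K}
    {a : Fin 3 → Matrix (Fin m) (Fin m) K} {a' : Fin 3 → Matrix (Fin n) (Fin n) K}
    (hker : ∀ s x, F *ᵥ (U *ᵥ x) = 0 → F *ᵥ (U *ᵥ (a s *ᵥ x)) = 0)
    (hperf : ∀ x : Fin n → K, ∃ y : Fin 3 → Fin n → K, ∑ s, a' s *ᵥ y s = x)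
    {Gm : Matrix (Fin m) (Fin m) K} {L : ℕ}
    (hk : ∀ w : List (Fin 3), w.length = L → ∀ x, Gm *ᵥ x = 0 →
      F *ᵥ (U *ᵥ ((w.map a).prod *ᵥ x)) = 0)
    {e : K} (he : e ≠ 0) {dl : Matrix (Fin m) (Fin n) K} (h1 : Gm * dl = 0)
    (h2 : ∀ s, F * (U * (a s * dl + e • (dl * a' s))) = 0) : F * (U * dl) = 0 := by
  have hw : ∀ w : List (Fin 3), ∀ x, F *ᵥ (U *ᵥ x) = 0 →
      F *ᵥ (U *ᵥ ((w.map a).prod *ᵥ x)) = 0 := by
    intro w
    induction w with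
    | nil => intro x hx; simpa using hx
    | cons t w ih =>
      intro x hx
      rw [List.map_cons, List.prod_cons, ← mulVec_mulVec]
      exact hker t _ (ih x hx)
  have h3 : ∀ s y, F *ᵥ (U *ᵥ (dl *ᵥ (a' s *ᵥ y) + e⁻¹ • (a s *ᵥ (dl *ᵥ y)))) = 0 := by
    intro s y
    have h4 := congrArg (fun M : Matrix ι (Fin n) K => M *ᵥ y) (h2 s)
    simp only [← mulVec_mulVec, zero_mulVec] at h4
    rw [add_mulVec, smul_mulVec, ← mulVec_mulVec, ← mulVec_mulVec] at h4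
    have h5 : dl *ᵥ (a' s *ᵥ y) + e⁻¹ • (a s *ᵥ (dl *ᵥ y)) =
        e⁻¹ • (a s *ᵥ (dl *ᵥ y) + e • (dl *ᵥ (a' s *ᵥ y))) := by
      rw [smul_add, smul_smul, inv_mul_cancel₀ he, one_smul, add_comm]
    rw [h5, mulVec_smul, mulVec_smul, h4, smul_zero]
  have key : ∀ j, ∀ w : List (Fin 3), w.length + j = L → ∀ y,
      F *ᵥ (U *ᵥ ((w.map a).prod *ᵥ (dl *ᵥ y))) = 0 := by
    intro j
    induction j with
    | zero =>
      intro w hw' y
      refine hk w (by omega) _ ?_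
      rw [mulVec_mulVec, h1, zero_mulVec]
    | succ j ih =>
      intro w hw' y
      obtain ⟨y', rfl⟩ := hperf y
      rw [mulVec_sum, mulVec_sum, mulVec_sum, mulVec_sum]
      refine Finset.sum_eq_zero fun s _ => ?_
      have h6 := hw w _ (h3 s (y' s))
      have h7 := ih (w ++ [s]) (by simp; omega) (y' s)
      rw [List.map_append, List.prod_append, List.map_singleton, List.prod_singleton,
        ← mulVec_mulVec] at h7
      rw [mulVec_add, mulVec_smul, mulVec_add, mulVec_smul, mulVec_add, mulVec_smul, h7, smul_zero,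
        add_zero] at h6
      exact h6
  have h8 : ∀ y, (F * (U * dl)) *ᵥ y = 0 := by
    intro y
    have := key L [] (by simp) y
    simpa [← mulVec_mulVec] using this
  ext i j
  have h9 := congrFun (h8 (Pi.single j 1)) i
  rw [mulVec_single_one] at h9
  exact h9

section uniq

variable {F : Matrix ι δ K} {S0 X0 : Matrix δ δ K} {U1 : Matrix δ (Fin m1) K}
  {U2 : Matrix δ (Fin m2) K} {a1 : Fin 3 → Matrix (Fin m1) (Fin m1) K}
  {a2 : Fin 3 → Matrix (Fin m2) (Fin m2) K} {T : Matrix δ ι K} {B : Matrix δ δ K}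
  {arm : δ → Fin 3}

/-- `ker (F U)` is killed by the arms -/
theorem hker_of (hS : S0 = T * F) {m : ℕ} {U : Matrix δ (Fin m) K}
    {a : Fin 3 → Matrix (Fin m) (Fin m) K} (ha : ∀ s, B * E K arm s * S0 * U = U * a s) :
    ∀ s x, F *ᵥ (U *ᵥ x) = 0 → F *ᵥ (U *ᵥ (a s *ᵥ x)) = 0 := by
  intro s x hx
  have h1 : U *ᵥ (a s *ᵥ x) = 0 := by
    rw [mulVec_mulVec, ← ha, hS]
    have e : (B * E K arm s * (T * F) * U) *ᵥ x = (B * E K arm s * T) *ᵥ (F *ᵥ (U *ᵥ x)) := by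
      simp only [mulVec_mulVec, Matrix.mul_assoc]
    rw [e, hx, mulVec_zero]
  rw [h1, mulVec_zero]

/-- **uniqueness of the decorations** -/
theorem uniq (hS : S0 = T * F) (ha1 : ∀ s, B * E K arm s * S0 * U1 = U1 * a1 s)
    (ha2 : ∀ s, B * E K arm s * S0 * U2 = U2 * a2 s)
    (p1 : ∀ x : Fin m1 → K, ∃ y : Fin 3 → Fin m1 → K, ∑ s, a1 s *ᵥ y s = x)
    (p2 : ∀ x : Fin m2 → K, ∃ y : Fin 3 → Fin m2 → K, ∑ s, a2 s *ᵥ y s = x) {L1 L2 : ℕ}
    (k1 : ∀ w : List (Fin 3), w.length = L1 → ∀ x, (U1ᵀ * S0 * U1) *ᵥ x = 0 →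
      F *ᵥ (U1 *ᵥ ((w.map a1).prod *ᵥ x)) = 0)
    (k2 : ∀ w : List (Fin 3), w.length = L2 → ∀ x, (U2ᵀ * S0 * U2) *ᵥ x = 0 →
      F *ᵥ (U2 *ᵥ ((w.map a2).prod *ᵥ x)) = 0)
    {c : K} (hc : c ≠ 0) {X : Fin 3 → Matrix (Fin m2) (Fin m1) K}
    {b b' : Matrix (Fin m1) (Fin m2) K} {g g' : Matrix (Fin m2) (Fin m1) K}
    (h : Dec F S0 U1 U2 a1 a2 c (X, b, g)) (h' : Dec F S0 U1 U2 a1 a2 c (X, b', g')) :
    F * (U1 * (b - b')) = 0 ∧ S0 * (U1 * (b - b')) = 0 ∧ F * (U2 * (g - g')) = 0 ∧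
      S0 * (U2 * (g - g')) = 0 := by
  have e1 : F * (U1 * (b - b')) = 0 := by
    refine uniq1 (hker_of hS ha1) p2 k1 hc ?_ fun s => ?_
    · rw [Matrix.mul_sub, sub_eq_zero]
      exact (h.rb.trans h'.rb.symm : (U1ᵀ * S0 * U1) * b = (U1ᵀ * S0 * U1) * b')
    · have h1 := h.cb s
      have h2 := h'.cb s
      have h3 : F * (U1 * (a1 s * (b - b') + c • ((b - b') * a2 s))) =
          F * (U1 * (a1 s * (b - (X s)ᵀ * (U2ᵀ * S0 * U2)) +
            c • ((b - (X s)ᵀ * (U2ᵀ * S0 * U2)) * a2 s))) -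
          F * (U1 * (a1 s * (b' - (X s)ᵀ * (U2ᵀ * S0 * U2)) +
            c • ((b' - (X s)ᵀ * (U2ᵀ * S0 * U2)) * a2 s))) := by
        rw [← Matrix.mul_sub, ← Matrix.mul_sub]
        congr 2
        simp only [Matrix.mul_sub, Matrix.sub_mul, smul_sub]
        abel
      rw [h3]
      exact (sub_eq_zero.2 (h1.trans h2.symm))
  have e2 : F * (U2 * (g - g')) = 0 := by
    refine uniq1 (hker_of hS ha2) p1 k2 (inv_ne_zero hc) ?_ fun s => ?_
    · rw [Matrix.mul_sub, sub_eq_zero]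
      exact (h.rk.trans h'.rk.symm : (U2ᵀ * S0 * U2) * g = (U2ᵀ * S0 * U2) * g')
    · have h1 := h.ck s
      have h2 := h'.ck s
      have h3 : F * (U2 * (a2 s * (g - g') + c⁻¹ • ((g - g') * a1 s))) =
          c⁻¹ • (F * (U2 * (c • (a2 s * (g - X s * (U1ᵀ * S0 * U1))) +
            (g - X s * (U1ᵀ * S0 * U1)) * a1 s)) -
          F * (U2 * (c • (a2 s * (g' - X s * (U1ᵀ * S0 * U1))) +
            (g' - X s * (U1ᵀ * S0 * U1)) * a1 s))) := by
        have e3 : a2 s * (g - g') + c⁻¹ • ((g - g') * a1 s) =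
            c⁻¹ • ((c • (a2 s * (g - X s * (U1ᵀ * S0 * U1))) +
              (g - X s * (U1ᵀ * S0 * U1)) * a1 s) -
            (c • (a2 s * (g' - X s * (U1ᵀ * S0 * U1))) +
              (g' - X s * (U1ᵀ * S0 * U1)) * a1 s)) := by
          simp only [Matrix.mul_sub, Matrix.sub_mul, smul_sub, smul_add, smul_smul,
            inv_mul_cancel₀ hc, one_smul]
          abel
        rw [e3, Matrix.mul_smul, Matrix.mul_smul, Matrix.mul_sub, Matrix.mul_sub]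
      rw [h3]
      have h4 := sub_eq_zero.2 (h1.trans h2.symm)
      rw [h4, smul_zero]
  refine ⟨e1, ?_, e2, ?_⟩
  · rw [hS, Matrix.mul_assoc, e1, Matrix.mul_zero]
  · rw [hS, Matrix.mul_assoc, e2, Matrix.mul_zero]

/-- **parity separation in the letters of `Dec`** -/
theorem dec_sep (hS : S0 = T * F) (ha1 : ∀ s, B * E K arm s * S0 * U1 = U1 * a1 s)
    (ha2 : ∀ s, B * E K arm s * S0 * U2 = U2 * a2 s)
    (p1 : ∀ x : Fin m1 → K, ∃ y : Fin 3 → Fin m1 → K, ∑ s, a1 s *ᵥ y s = x)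
    (p2 : ∀ x : Fin m2 → K, ∃ y : Fin 3 → Fin m2 → K, ∑ s, a2 s *ᵥ y s = x) {L1 L2 : ℕ}
    (k1 : ∀ w : List (Fin 3), w.length = L1 → ∀ x, (U1ᵀ * S0 * U1) *ᵥ x = 0 →
      F *ᵥ (U1 *ᵥ ((w.map a1).prod *ᵥ x)) = 0)
    (k2 : ∀ w : List (Fin 3), w.length = L2 → ∀ x, (U2ᵀ * S0 * U2) *ᵥ x = 0 →
      F *ᵥ (U2 *ᵥ ((w.map a2).prod *ᵥ x)) = 0)
    {E' : Type*} [AddCommGroup E'] [Module K E'] (QQ : Submodule K E')
    (i1 i2 : D3 K (Fin m1) (Fin m2) →ₗ[K] E')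
    (hv : ∀ db dg, F * (U1 * db) = 0 → S0 * (U1 * db) = 0 → F * (U2 * dg) = 0 →
      S0 * (U2 * dg) = 0 → i1 (0, db, dg) = 0 ∧ i2 (0, db, dg) = 0)
    {Λ : Set K} (hΛ : Λ.Infinite) (h0 : (0 : K) ∉ Λ)
    (hex : ∀ r ∈ Λ, ∀ X : Fin 3 → Matrix (Fin m2) (Fin m1) K,
      ∑ s, (X s * (a1 s)ᵀ - (-(r ^ 2)) • (a2 s * X s)) = 0 →
      (∀ s, (U2ᵀ * S0 * U2) * (X s * (a1 s)ᵀ - (-(r ^ 2)) • (a2 s * X s)) *
        (U1ᵀ * S0 * U1) = 0) →
      ∃ b g, Dec F S0 U1 U2 a1 a2 (-(r ^ 2)) (X, b, g) ∧ i1 (X, b, g) + r • i2 (X, b, g) ∈ QQ) :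
    ∃ S : Set K, S.Finite ∧ ∀ c ∉ S, ∀ y, Dec F S0 U1 U2 a1 a2 c y → i1 y ∈ QQ ∧ i2 y ∈ QQ := by
  obtain ⟨S, hSf, h⟩ := RJP.par_sep (T := Unit) (alD F S0 U1 U2 a1) (-(beD F S0 U1 U2 a2)) QQ
    (fun _ => i1) (fun _ => i2) hΛ (by
      intro r hr y hy _
      have hd : Dec F S0 U1 U2 a1 a2 (-(r ^ 2)) y := by
        rw [dec_iff, hy, LinearMap.neg_apply, smul_neg, neg_smul]
      obtain ⟨b, g, hbg, hm⟩ := hex r hr y.1 hd.sum hd.arm
      have hr0 : -(r ^ 2) ≠ 0 := neg_ne_zero.2 (pow_ne_zero 2 fun h => h0 (h ▸ hr))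
      obtain ⟨z1, z2, z3, z4⟩ := uniq hS ha1 ha2 p1 p2 k1 k2 hr0
        (b := y.2.1) (g := y.2.2) hd hbg
      obtain ⟨v1, v2⟩ := hv _ _ z1 z2 z3 z4
      have e : y = (y.1, b, g) + ((0 : Fin 3 → Matrix (Fin m2) (Fin m1) K), y.2.1 - b,
          y.2.2 - g) := by
        refine Prod.ext ?_ (Prod.ext ?_ ?_)
        · exact (add_zero _).symm
        · exact (add_sub_cancel _ _).symm
        · exact (add_sub_cancel _ _).symm
      rw [e, map_add, map_add, v1, v2, add_zero, add_zero]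
      exact hm)
  refine ⟨(fun c => -c) '' S, hSf.image _, fun c hc y hy => ?_⟩
  refine h (-c) (fun hcS => hc ⟨-c, hcS, neg_neg c⟩) y ?_ ()
  rw [(dec_iff F S0 U1 U2 a1 a2 c y).1 hy, LinearMap.neg_apply, smul_neg, neg_smul, neg_neg]

/-- `I1`, `I2` vanish on invisible decorations -/
theorem I_zero (hsk : S0ᵀ = -S0) {db : Matrix (Fin m1) (Fin m2) K}
    {dg : Matrix (Fin m2) (Fin m1) K} (h1 : F * (U1 * db) = 0) (h2 : S0 * (U1 * db) = 0)
    (h3 : F * (U2 * dg) = 0) (h4 : S0 * (U2 * dg) = 0) :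
    I1 arm F S0 U1 U2 ((0 : Fin 3 → Matrix (Fin m2) (Fin m1) K), db, dg) = 0 ∧
      I2 arm F S0 U1 U2 ((0 : Fin 3 → Matrix (Fin m2) (Fin m1) K), db, dg) = 0 := by
  have t1 : dbᵀ * (U1ᵀ * S0) = 0 := by
    have := congrArg Matrix.transpose h2
    rw [transpose_mul, transpose_mul, hsk, transpose_zero, Matrix.mul_neg, neg_eq_zero,
      Matrix.mul_assoc] at this
    exact this
  have t2 : dgᵀ * (U2ᵀ * S0) = 0 := by
    have := congrArg Matrix.transpose h4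
    rw [transpose_mul, transpose_mul, hsk, transpose_zero, Matrix.mul_neg, neg_eq_zero,
      Matrix.mul_assoc] at this
    exact this
  constructor
  · refine Prod.ext ?_ (Prod.ext (Prod.ext ?_ ?_) (Prod.ext ?_ ?_))
    · change ∑ s, F * (U2 * (0 : Matrix (Fin m2) (Fin m1) K) * U1ᵀ * S0) * E K arm s = 0
      simp
    · exact h3
    · rfl
    · rfl
    · change -(dbᵀ * (U1ᵀ * S0)) = 0
      rw [t1, neg_zero]
  · refine Prod.ext ?_ (Prod.ext (Prod.ext ?_ ?_) (Prod.ext ?_ ?_))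
    · change -∑ s, F * (U1 * (0 : Matrix (Fin m2) (Fin m1) K)ᵀ * U2ᵀ * S0) * E K arm s = 0
      simp
    · rfl
    · change -(F * (U1 * db)) = 0
      rw [h1, neg_zero]
    · change dgᵀ * (U2ᵀ * S0) = 0
      exact t2
    · rfl

end uniq

end Crest.Agent.R172.SDecP70
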