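import Crest.Agent.R172.SDec
import Crest.Agent.R172.SInst

/-!
Row 172 (S0260), (t2), level 2: the degenerate cases of `SDec.Geo2` (an empty block): `Setup.pkg`
provides the package `BPkg` only for the eigenvalues of `D`.
-/

set_option autoImplicit false
set_option linter.unusedSectionVars false
set_option linter.unusedVariables false

namespace Crest.Agent.R172.SDeg255

open Module Matrix Crest.Agent.R172.FO Crest.Agent.R172.Qt Crest.Agent.R172.SpS
open Crest.Agent.R172.SBlk Crest.Agent.R172.UBlk Crest.Agent.R172.STop Crest.Agent.R172.SEnd2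
open Crest.Agent.R172.SCM Crest.Agent.R172.SInst Crest.Agent.R172.SDec
open Crest.Agent.R172.PL (CoreM Ainf coreOp)
open Crest.Agent.R172.SC Crest.Agent.R172.SCB
open Crest.Agent.R172.SUX (D3)

section abs

variable {K : Type*} [Field K] {X : Type*} [AddCommGroup X] [Module K X] [FiniteDimensional K X]

theorem PB_bot {a : Fin 3 → End K X} {D : End K (CoreM a)}
    (hD : ∀ s x, D (coreOp a s x) = coreOp a s (D x)) {ν : K}
    (h : D.maxGenEigenspace ν = ⊥) : PB a D ν = ⊥ := by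
  obtain ⟨n, hn⟩ := bR_kills hD ν
  have hT : ∀ p : PB a D ν, p ∈ bR a D ν := by
    intro p
    obtain ⟨h1, h2⟩ := PB_mem p.2
    rw [h, Submodule.mem_bot] at h2
    exact (mk_zero_iff h1).1 h2
  have key : ∀ j, (∀ p : PB a D ν, ∀ w : List (Fin 3), j ≤ w.length →
      (w.map (bA hD ν)).prod p = 0) → ∀ p : PB a D ν, p = 0 := by
    intro j
    induction j with
    | zero => intro hj p; simpa using hj p [] (by simp)
    | succ j ih =>
      intro hj
      refine ih fun p w hw => ?_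
      obtain ⟨f, hf⟩ := bA_perf hD ν p
      rw [hf, map_sum]
      refine Finset.sum_eq_zero fun t _ => ?_
      have h3 := hj (f t) (w ++ [t]) (by simp; omega)
      rw [List.map_append, List.prod_append, Module.End.mul_apply] at h3
      simpa using h3
  rw [eq_bot_iff]
  intro v hv
  have h4 := key n (fun p w hw => hn w hw p (hT p)) ⟨v, hv⟩
  rw [Submodule.mem_bot]
  exact congrArg Subtype.val h4

end abs

section em

variable {K : Type*} [Field K] {α : Type*} {m : ℕ}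

theorem colE (h : m = 0) (A : Matrix α (Fin m) K) : A = 0 := by
  subst h; ext i j; exact j.elim0

theorem rowE (h : m = 0) (A : Matrix (Fin m) α K) : A = 0 := by
  subst h; ext i j; exact i.elim0

end em

variable {ι : Type} [Fintype ι] [DecidableEq ι] {δ : Type} [Fintype δ] [DecidableEq δ]
variable {K : Type} [Field K] [Algebra ℂ K] [IsAlgClosed K]
variable {arm : δ → Fin 3} {J : Matrix ι ι K} {B : Matrix δ δ K} {N W : Submodule K (Matrix ι δ K)}
  {F f : Matrix ι δ K} {P : Matrix ι ι K × (Fin 3 → Matrix ι ι K)} {R : Matrix δ ι K}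
  {D : End K (CoreM (PhS arm J B F R P.1))} {l : Fin 3 → ℕ}

/-- the U-level block of a non-eigenvalue is zero -/
theorem Qb_bot (S : Setup arm J B N W F f P R D l) {ν : K} (h : D.maxGenEigenspace ν = ⊥) :
    QQb S ν = ⊥ := by
  rw [eq_bot_iff]
  intro u hu
  have h1 : ∀ v ∈ QQb S ν, F *ᵥ v = 0 := by
    intro v hv
    have h2 : gS F v ∈ PB (PhS arm J B F R P.1) D ν := by
      rw [← Qb_map (ctx S) S.hR S.hD ν]; exact ⟨v, hv, rfl⟩
    rw [PB_bot S.hD.2 h, Submodule.mem_bot] at h2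
    exact congrArg Subtype.val h2
  obtain ⟨c, hc, rfl⟩ := Qb_exists (ctx S) S.hR S.hD hu
  rw [Submodule.mem_bot]
  refine Finset.sum_eq_zero fun s _ => ?_
  rw [om_eq (ctx S).data, show E K arm s * B * (Fᵀ * J * (P.1 * F)) =
    E K arm s * B * (Fᵀ * J * P.1) * F by simp only [Matrix.mul_assoc], ← mulVec_mulVec,
    h1 _ (hc s), mulVec_zero]

theorem m_zero (S : Setup arm J B N W F f P R D l) {ν : K} (h : D.maxGenEigenspace ν = ⊥)
    {m : ℕ} {U : Matrix δ (Fin m) K} (hU : UFr.Cq (QQb S ν) U)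
    (hi : ∀ x, U *ᵥ x = 0 → x = 0) : m = 0 := by
  by_contra hm
  have hj : Fin m := ⟨0, Nat.pos_of_ne_zero hm⟩
  have h1 := hU hj
  rw [Qb_bot S h, Submodule.mem_bot] at h1
  have h2 : U *ᵥ (Pi.single hj 1) = 0 := by
    rw [mulVec_single_one]
    exact h1
  have h3 := congrFun (hi _ h2) hj
  simp at h3

theorem infK : Infinite K := Infinite.of_injective (algebraMap ℂ K) (algebraMap ℂ K).injective

/-- the conclusion of `Geo2` -/
def Concl (arm : δ → Fin 3) (J : Matrix ι ι K) (B : Matrix δ δ K)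
    (N W : Submodule K (Matrix ι δ K)) (F : Matrix ι δ K)
    (P : Matrix ι ι K × (Fin 3 → Matrix ι ι K)) (R : Matrix δ ι K)
    (D : End K (CoreM (PhS arm J B F R P.1))) {m1 m2 : ℕ} (U1 : Matrix δ (Fin m1) K)
    (U2 : Matrix δ (Fin m2) K) (a1 : Fin 3 → Matrix (Fin m1) (Fin m1) K)
    (a2 : Fin 3 → Matrix (Fin m2) (Fin m2) K) : Prop :=
    ∃ Λ : Set K, Λ.Infinite ∧ (0 : K) ∉ Λ ∧
      (∀ r ∈ Λ, ∀ X : Fin 3 → Matrix (Fin m2) (Fin m1) K,
        ∑ s, (X s * (a1 s)ᵀ - (-(r ^ 2)) • (a2 s * X s)) = 0 →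
        (∀ s, (U2ᵀ * (Fᵀ * J * (P.1 * F)) * U2) * (X s * (a1 s)ᵀ - (-(r ^ 2)) • (a2 s * X s)) *
          (U1ᵀ * (Fᵀ * J * (P.1 * F)) * U1) = 0) →
        ∃ β γ, Dec F (Fᵀ * J * (P.1 * F)) U1 U2 a1 a2 (-(r ^ 2)) (X, β, γ)) ∧
      (∀ r ∈ Λ, ∀ r' ∈ Λ, ∀ y y' : D3 K (Fin m1) (Fin m2),
        Dec F (Fᵀ * J * (P.1 * F)) U1 U2 a1 a2 (-(r ^ 2)) y →
        Dec F (Fᵀ * J * (P.1 * F)) U1 U2 a1 a2 (-(r' ^ 2)) y' →
        Rel2 arm F (Fᵀ * J * (P.1 * F)) U1 U2 r' y y' ∈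
          SLev0.QG arm J B N W F P (PC arm J B F R P.1)
            (fun μ : K => (SLev0.PbK arm J B F R P.1 D μ)) id)

theorem concl1 {m1 m2 : ℕ} (h : m1 = 0) (U1 : Matrix δ (Fin m1) K)
    (U2 : Matrix δ (Fin m2) K) (a1 : Fin 3 → Matrix (Fin m1) (Fin m1) K)
    (a2 : Fin 3 → Matrix (Fin m2) (Fin m2) K) : Concl arm J B N W F P R D U1 U2 a1 a2 := by
  have hU : U1 = 0 := colE h U1
  have := infK (K := K)
  refine ⟨{0}ᶜ, (Set.finite_singleton (0 : K)).infinite_compl, by simp, ?_, ?_⟩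
  · intro r _ X _ _
    refine ⟨0, 0, ⟨colE h _, fun s => colE h _, rowE h _, colE h _, fun s => ?_,
      fun s => colE h _⟩⟩
    rw [hU, Matrix.zero_mul, Matrix.mul_zero]
  · intro r _ r' _ y y' _ _
    have e1 : ∀ s, y.1 s = 0 := fun s => colE h _
    have e2 : y.2.2 = 0 := colE h _
    have e : Rel2 arm F (Fᵀ * J * (P.1 * F)) U1 U2 r' y y' = 0 := by
      unfold Rel2
      rw [Finset.sum_eq_zero fun s _ => ?_, Finset.sum_eq_zero fun s _ => ?_, smul_zero, add_zero]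
      · rw [e1 s, e2]
        simp only [Matrix.zero_mul, Matrix.mul_zero, add_zero, sub_zero]
      · rw [hU]
        simp only [Matrix.zero_mul, Matrix.mul_zero]
    rw [e]
    exact Submodule.zero_mem _

theorem concl2 {m1 m2 : ℕ} (h : m2 = 0) (U1 : Matrix δ (Fin m1) K)
    (U2 : Matrix δ (Fin m2) K) (a1 : Fin 3 → Matrix (Fin m1) (Fin m1) K)
    (a2 : Fin 3 → Matrix (Fin m2) (Fin m2) K) : Concl arm J B N W F P R D U1 U2 a1 a2 := by
  have hU : U2 = 0 := colE h U2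
  have := infK (K := K)
  refine ⟨{0}ᶜ, (Set.finite_singleton (0 : K)).infinite_compl, by simp, ?_, ?_⟩
  · intro r _ X _ _
    refine ⟨0, 0, ⟨rowE h _, fun s => rowE h _, colE h _, rowE h _, fun s => colE h _,
      fun s => ?_⟩⟩
    rw [hU, Matrix.zero_mul, Matrix.mul_zero]
  · intro r _ r' _ y y' _ _
    have e1 : ∀ s, y.1 s = 0 := fun s => rowE h _
    have e2 : ∀ s, y'.1 s = 0 := fun s => rowE h _
    have e : Rel2 arm F (Fᵀ * J * (P.1 * F)) U1 U2 r' y y' = 0 := by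
      unfold Rel2
      rw [Finset.sum_eq_zero fun s _ => ?_, Finset.sum_eq_zero fun s _ => ?_, smul_zero, add_zero]
      · rw [hU]
        simp only [Matrix.zero_mul, Matrix.mul_zero]
      · have e3 : (y'.1 s)ᵀ = 0 := colE h _
        rw [e1 s, e3]
        simp only [Matrix.zero_mul, Matrix.mul_zero, sub_zero]
    rw [e]
    exact Submodule.zero_mem _

/-- **reduction of `Geo2` to two eigenvalues with packages** -/
theorem geo2_of
    (H : ∀ {ι : Type} [Fintype ι] [DecidableEq ι] {δ : Type} [Fintype δ] [DecidableEq δ]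
    {K : Type} [Field K] [Algebra ℂ K] [IsAlgClosed K]
    {arm : δ → Fin 3} {J : Matrix ι ι K} {B : Matrix δ δ K} {N W : Submodule K (Matrix ι δ K)}
    {F f : Matrix ι δ K} {P : Matrix ι ι K × (Fin 3 → Matrix ι ι K)} {R : Matrix δ ι K}
    {D : End K (CoreM (PhS arm J B F R P.1))} {l : Fin 3 → ℕ}
    (S : STop.Setup arm J B N W F f P R D l) {ν ν' : K} (_ : ν ≠ ν')
    {m1 m2 : ℕ} {U1 : Matrix δ (Fin m1) K} {U2 : Matrix δ (Fin m2) K}
    {a1 : Fin 3 → Matrix (Fin m1) (Fin m1) K} {a2 : Fin 3 → Matrix (Fin m2) (Fin m2) K}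
    (_ : UFr.Cq (UBlk.Qb (S.hCtx F S.hF).data S.hR P.1 D ν) U1)
    (_ : ∀ u ∈ UBlk.Qb (S.hCtx F S.hF).data S.hR P.1 D ν, ∃ x, u = U1 *ᵥ x)
    (_ : ∀ x, U1 *ᵥ x = 0 → x = 0)
    (_ : ∀ s, B * E K arm s * (Fᵀ * J * (P.1 * F)) * U1 = U1 * a1 s)
    (_ : UFr.Cq (UBlk.Qb (S.hCtx F S.hF).data S.hR P.1 D ν') U2)
    (_ : ∀ u ∈ UBlk.Qb (S.hCtx F S.hF).data S.hR P.1 D ν', ∃ x, u = U2 *ᵥ x)
    (_ : ∀ x, U2 *ᵥ x = 0 → x = 0)
    (_ : ∀ s, B * E K arm s * (Fᵀ * J * (P.1 * F)) * U2 = U2 * a2 s)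
    (_ : STop.Lev1)
    {n1 n2 : ℕ} {Q1 : Matrix ι (Fin n1) K} {A1 : Fin 3 → Matrix (Fin n1) (Fin n1) K}
    {Q2 : Matrix ι (Fin n2) K} {A2 : Fin 3 → Matrix (Fin n2) (Fin n2) K}
    (_ : BPkg arm J B F R P.1 D ν l Q1 A1) (_ : BPkg arm J B F R P.1 D ν' l Q2 A2),
    Concl arm J B N W F P R D U1 U2 a1 a2) : Geo2 := by
  intro ι _ _ δ _ _ K _ _ _ arm J B N W F f P R D l S ν ν' hne m1 m2 U1 U2 a1 a2 h1 h2 h3 h4
    g1 g2 g3 g4 hL
  by_cases hν : D.maxGenEigenspace ν = ⊥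
  · exact concl1 (m_zero S hν h1 h3) U1 U2 a1 a2
  by_cases hν' : D.maxGenEigenspace ν' = ⊥
  · exact concl2 (m_zero S hν' g1 g3) U1 U2 a1 a2
  obtain ⟨n1, Q1, A1, b1⟩ := S.pkg ν hν
  obtain ⟨n2, Q2, A2, b2⟩ := S.pkg ν' hν'
  exact H S hne h1 h2 h3 h4 g1 g2 g3 g4 hL b1 b2

end Crest.Agent.R172.SDeg255
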