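import Crest.Agent.R172.Qt4
import Crest.Agent.R172.Om1

/-!
Row 172 (S0260), node S-delta (t2): the vertical derivation `δ` along `f` in normal form.

`g, f ∈ Kiso`, `P ∈ NN g`; a vertical derivation `δ` with `δ g = f`, `δ f = 0` can be corrected by
a vertical derivation fixing `g` and `f` such that `gᵀ J (δ P₀) g = 0`.
-/

set_option autoImplicit false
set_option linter.unusedSectionVars false

namespace Crest.Agent.R172.SDel

open Matrix Module Crest.Agent.R172.FO Crest.Agent.R172.Qt
open Crest.Agent.R172.Om (Kiso)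

variable {ι : Type*} [Fintype ι] [DecidableEq ι] {δ : Type*} [Fintype δ] [DecidableEq δ]
variable {k K : Type*} [Field k] [Field K] [Algebra k K]
variable {arm : δ → Fin 3} {J : Matrix ι ι K} {B : Matrix δ δ K}
  {N W : Submodule K (Matrix ι δ K)} {g : Matrix ι δ K}

theorem act_map_der (arm : δ → Fin 3) (X : Fin 3 → Matrix ι ι K) (F : Matrix ι δ K)
    (d : Derivation k K K) :
    (act arm X F).map d = act arm (fun s => (X s).map d) F + act arm X (F.map d) := by
  unfold act
  have h1 : ∀ (T : Finset (Fin 3)) (G : Fin 3 → Matrix ι δ K),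
      (∑ s ∈ T, G s).map d = ∑ s ∈ T, (G s).map d := by
    intro T G
    ext i j
    simp [Matrix.sum_apply, map_sum]
  rw [h1, ← Finset.sum_add_distrib]
  refine Finset.sum_congr rfl fun s _ => ?_
  rw [map_mul_der, map_mul_der, E_map_der, Matrix.mul_zero, add_zero, Matrix.add_mul]

theorem map_dsub {α β : Type*} (G : Matrix α β K) (d d' : Derivation k K K) :
    G.map (d - d') = G.map d - G.map d' := by
  ext i j; simp

/-- a vertical derivation preserves `N` and `W` -/
theorem vN {d : Derivation k K K}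
    (hd : Realises arm N W (0 : Fin 3 → Matrix ι ι K) (0 : Matrix δ δ K) d)
    {F : Matrix ι δ K} (hF : F ∈ N) : F.map d ∈ N := by
  have := hd.onN F hF
  rwa [act_zero, sub_zero] at this

theorem vW {d : Derivation k K K}
    (hd : Realises arm N W (0 : Fin 3 → Matrix ι ι K) (0 : Matrix δ δ K) d)
    {F : Matrix ι δ K} (hF : F ∈ W) : F.map d ∈ W := by
  have := hd.onW F hF
  rwa [transpose_zero, Matrix.mul_zero, sub_zero] at this

/-- for a vertical `δ` with `δ g = f ∈ 𝒦`: the form of `δ P₀` is the form of an element of `NN`. -/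
theorem form_der (h : Ctx k arm J B N W g) {f : Matrix ι δ K} (hf : f ∈ N ⊓ W)
    {P : Matrix ι ι K × (Fin 3 → Matrix ι ι K)} (hP : P ∈ NN arm J N g) {d : Derivation k K K}
    (hd : Realises arm N W (0 : Fin 3 → Matrix ι ι K) (0 : Matrix δ δ K) d)
    (hg : g.map d = f) :
    ∃ q ∈ NN arm J N g, gᵀ * J * (P.1.map d * g) = gᵀ * J * (q.1 * g) := by
  have hD := h.data
  have hgf := h.perp f hf
  -- N-part
  have hν : act arm (fun s => (P.2 s).map d) g ∈ N := by
    have h1 := vN hd (hP.2.1.pres g h.memN)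
    rw [act_map_der, hg] at h1
    have h2 := N.sub_mem h1 (hP.2.1.pres f hf.1)
    rwa [add_sub_cancel_right] at h2
  -- (P₀ - P_s) f is perpendicular to S
  have hPf : ∀ s, gᵀ * J * ((P.1 - P.2 s) * f) = 0 := by
    intro s
    obtain ⟨C, hC⟩ := hP.2.2 s
    have hsk : Skw J (P.1 - P.2 s) := hP.1.sub (hP.2.1.skw s)
    calc gᵀ * J * ((P.1 - P.2 s) * f) = gᵀ * (J * (P.1 - P.2 s)) * f := by
          simp only [Matrix.mul_assoc]
      _ = -(gᵀ * ((P.1 - P.2 s)ᵀ * J) * f) := by
          rw [hsk.eq]; simp only [Matrix.mul_neg, Matrix.neg_mul, neg_neg]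
      _ = -(((P.1 - P.2 s) * g)ᵀ * J * f) := by
          rw [transpose_mul]; simp only [Matrix.mul_assoc]
      _ = -(Cᵀ * (gᵀ * J * f)) := by
          rw [hC, transpose_mul]; simp only [Matrix.mul_assoc]
      _ = 0 := by rw [hgf, Matrix.mul_zero, neg_zero]
  -- the derivative of (P₀ - P_s) g = g C_s
  have hder : ∀ s, ∃ C C' : Matrix δ δ K,
      (P.1.map d - (P.2 s).map d) * g = f * C + g * C' - (P.1 - P.2 s) * f := by
    intro s
    obtain ⟨C, hC⟩ := hP.2.2 s
    refine ⟨C, C.map d, ?_⟩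
    have h2 : ((P.1 - P.2 s) * g).map d = (g * C).map d := by rw [hC]
    rw [map_mul_der, map_mul_der, map_sub_der, hg] at h2
    rw [eq_sub_iff_add_eq]
    exact h2
  have hg0 : ∀ C : Matrix δ δ K, gᵀ * J * (g * C) = 0 := fun C => by
    rw [← Matrix.mul_assoc, h.iso, Matrix.zero_mul]
  have hf0 : ∀ C : Matrix δ δ K, gᵀ * J * (f * C) = 0 := fun C => by
    rw [← Matrix.mul_assoc, hgf, Matrix.zero_mul]
  have hsum : P.1.map d * g = act arm (fun _ => P.1.map d) g := (act_const arm _ g).symm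
  have hdiff : P.1.map d * g - act arm (fun s => (P.2 s).map d) g =
      act arm (fun s => P.1.map d - (P.2 s).map d) g := by
    rw [hsum, act_sub_left]
  refine h.lift (a := P.1.map d * g) (h.W_mul _ h.memW) hν ?_ ?_
  · rw [← sub_eq_zero, ← Matrix.mul_sub, hdiff]
    unfold act
    rw [Matrix.mul_sum]
    refine Finset.sum_eq_zero fun s _ => ?_
    obtain ⟨C, C', hC⟩ := hder s
    have : gᵀ * J * ((P.1.map d - (P.2 s).map d) * g * E K arm s) =
        (gᵀ * J * ((P.1.map d - (P.2 s).map d) * g)) * E K arm s := by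
      simp only [Matrix.mul_assoc]
    rw [this, hC, Matrix.mul_sub, Matrix.mul_add, hg0, hf0, hPf, add_zero, sub_zero,
      Matrix.zero_mul]
  · intro q hq hq0
    have hNq := hq.2.1.pres g h.memN
    have e0 : Pg arm g q = q.1 * g - act arm q.2 g := rfl
    rw [e0, pair_sub_left, h.pair_N hNq hν, sub_zero]
    have e1 : act arm (fun s => (P.2 s).map d) g =
        P.1.map d * g - act arm (fun s => P.1.map d - (P.2 s).map d) g := by
      rw [← hdiff]; abel
    rw [e1, pair_sub_right, pair_W hD (h.W_mul _ h.memW) (h.W_mul _ h.memW), zero_sub,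
      neg_eq_zero]
    -- the three terms
    have hqg : (q.1 * g)ᵀ * J * g = 0 := by
      calc (q.1 * g)ᵀ * J * g = gᵀ * (q.1ᵀ * J) * g := by
            rw [transpose_mul]; simp only [Matrix.mul_assoc]
        _ = -(gᵀ * J * (q.1 * g)) := by
            rw [hq.1.eq]; simp only [Matrix.mul_neg, Matrix.neg_mul, Matrix.mul_assoc]
        _ = 0 := by rw [hq0, neg_zero]
    have hqf : (q.1 * g)ᵀ * J * f = 0 := by
      have h1 := h.tf_zero hf hq hq0
      calc (q.1 * g)ᵀ * J * f = gᵀ * (q.1ᵀ * J) * f := by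
            rw [transpose_mul]; simp only [Matrix.mul_assoc]
        _ = -(gᵀ * J * (q.1 * f)) := by
            rw [hq.1.eq]; simp only [Matrix.mul_neg, Matrix.neg_mul, Matrix.mul_assoc]
        _ = 0 := by rw [h1, neg_zero]
    have t1 : ∀ (C : Matrix δ δ K) (s : Fin 3), pair J B (q.1 * g) (f * C * E K arm s) = 0 := by
      intro C s
      unfold pair
      have : (q.1 * g)ᵀ * J * (f * C * E K arm s) * B = ((q.1 * g)ᵀ * J * f) * (C * E K arm s * B) := by
        simp only [Matrix.mul_assoc]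
      rw [this, hqf, Matrix.zero_mul, trace_zero]
    have t2 : ∀ (C : Matrix δ δ K) (s : Fin 3), pair J B (q.1 * g) (g * C * E K arm s) = 0 := by
      intro C s
      unfold pair
      have : (q.1 * g)ᵀ * J * (g * C * E K arm s) * B = ((q.1 * g)ᵀ * J * g) * (C * E K arm s * B) := by
        simp only [Matrix.mul_assoc]
      rw [this, hqg, Matrix.zero_mul, trace_zero]
    have e2 : act arm (fun s => P.1.map d - (P.2 s).map d) g =
        (act arm (fun s => P.1.map d - (P.2 s).map d) g + act arm (fun s => P.1 - P.2 s) f) -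
          act arm (fun s => P.1 - P.2 s) f := by abel
    have e3 : act arm (fun s => P.1 - P.2 s) f = P.1 * f - act arm P.2 f := by
      rw [act_sub_left, act_const]
    rw [e2, pair_sub_right]
    have e4 : pair J B (q.1 * g) (act arm (fun s => P.1 - P.2 s) f) = 0 := by
      rw [e3]
      exact h.pair_X_Pf hf hP hq.1 hq0
    rw [e4, sub_zero]
    have e5 : act arm (fun s => P.1.map d - (P.2 s).map d) g + act arm (fun s => P.1 - P.2 s) f =
        ∑ s, ((P.1.map d - (P.2 s).map d) * g + (P.1 - P.2 s) * f) * E K arm s := by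
      unfold act
      rw [← Finset.sum_add_distrib]
      refine Finset.sum_congr rfl fun s _ => ?_
      rw [Matrix.add_mul]
    rw [e5, Ctx.pair_sum_right]
    refine Finset.sum_eq_zero fun s _ => ?_
    obtain ⟨C, C', hC⟩ := hder s
    rw [hC, sub_add_cancel, Matrix.add_mul, pair_add_right, t1, t2, add_zero]

/-- **node S-delta**: the normalised vertical derivation along `f`. -/
theorem exists_delta (h : Ctx k arm J B N W g) {f : Matrix ι δ K} (hf : f ∈ N ⊓ W)
    {P : Matrix ι ι K × (Fin 3 → Matrix ι ι K)} (hP : P ∈ NN arm J N g)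
    (V1 : ∃ d : Derivation k K K, g.map d = f ∧ f.map d = 0 ∧
      Realises arm N W (0 : Fin 3 → Matrix ι ι K) (0 : Matrix δ δ K) d)
    (V2 : ∀ p' ∈ NN arm J N g, ∃ d : Derivation k K K, g.map d = 0 ∧ f.map d = 0 ∧
      Realises arm N W (0 : Fin 3 → Matrix ι ι K) (0 : Matrix δ δ K) d ∧
      P.1.map d = p'.1 ∧ ∀ s, (P.2 s).map d = p'.2 s) :
    ∃ d : Derivation k K K, g.map d = f ∧ f.map d = 0 ∧
      Realises arm N W (0 : Fin 3 → Matrix ι ι K) (0 : Matrix δ δ K) d ∧
      gᵀ * J * (P.1.map d * g) = 0 := by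
  obtain ⟨d, hdg, hdf, hd⟩ := V1
  obtain ⟨q, hq, hqe⟩ := form_der h hf hP hd hdg
  obtain ⟨d', hdg', hdf', hd', hdP, -⟩ := V2 q hq
  refine ⟨d - d', ?_, ?_, ⟨fun F hF => ?_, fun F hF => ?_⟩, ?_⟩
  · rw [map_dsub, hdg, hdg', sub_zero]
  · rw [map_dsub, hdf, hdf', sub_zero]
  · rw [map_dsub, act_zero, sub_zero]
    exact N.sub_mem (vN hd hF) (vN hd' hF)
  · rw [map_dsub, transpose_zero, Matrix.mul_zero, sub_zero]
    exact W.sub_mem (vW hd hF) (vW hd' hF)
  · rw [map_dsub, hdP, Matrix.sub_mul, Matrix.mul_sub, hqe, sub_self]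

end Crest.Agent.R172.SDel
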