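import Crest.Agent.R172.SCore2

/-!
Row 172 (S0260), S-side (t2): the intersection `Z ν` of the block `P ν` with the sum of the other blocks
(helper580): it is stable, contained in the radical, and its elements are sums of RADICAL elements of the
other blocks (so it is harmless by the first level).
-/

set_option autoImplicit false
set_option linter.unusedSectionVars false

namespace Crest.Agent.R172.SZ1

open Module
open Crest.Agent.R172.St (T mem_T T_stable)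
open Crest.Agent.R172.PL (Ainf CoreM coreOp resOp Rad)
open Crest.Agent.R172.SC (PB PB_mem PB_exists PB_stable PB_le_Ainf mk_zero_iff)

section abs

variable {K : Type*} [Field K] {X : Type*} [AddCommGroup X] [Module K X]
  {a : Fin 3 → End K X} {D : End K (CoreM a)}

/-- the sum of the other blocks -/
def Ot (a : Fin 3 → End K X) (D : End K (CoreM a)) (ν : K) : Submodule K X :=
  ⨆ (μ : K) (_ : μ ≠ ν), PB a D μ

theorem Ot_stable (hD : ∀ s x, D (coreOp a s x) = coreOp a s (D x)) (ν : K) (s : Fin 3) :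
    ∀ v ∈ Ot a D ν, a s v ∈ Ot a D ν := by
  have h : Ot a D ν ≤ (Ot a D ν).comap (a s) := by
    refine iSup_le fun μ => iSup_le fun hμ v hv => ?_
    exact Submodule.mem_iSup_of_mem μ (Submodule.mem_iSup_of_mem hμ (PB_stable hD μ s hv))
  exact fun v hv => h hv

/-- elements of the sum of the other blocks -/
theorem Ot_exists {ν : K} {v : X} (hv : v ∈ Ot a D ν) :
    ∃ (S : Finset K) (f : K → X), (∀ μ ∈ S, μ ≠ ν) ∧ (∀ μ ∈ S, f μ ∈ PB a D μ) ∧
      v = ∑ μ ∈ S, f μ := by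
  classical
  unfold Ot at hv
  rw [iSup_subtype'] at hv
  obtain ⟨f, hf1, hf2⟩ := (Submodule.mem_iSup_iff_exists_finsupp
    (fun μ : {μ : K // μ ≠ ν} => PB a D μ.1) v).1 hv
  refine ⟨f.support.map ⟨Subtype.val, Subtype.val_injective⟩,
    fun μ => if h : μ ≠ ν then f ⟨μ, h⟩ else 0, ?_, ?_, ?_⟩
  · intro μ hμ
    obtain ⟨x, -, rfl⟩ := Finset.mem_map.1 hμ
    exact x.2
  · intro μ hμ
    obtain ⟨x, -, rfl⟩ := Finset.mem_map.1 hμ
    change (if h : x.1 ≠ ν then f ⟨x.1, h⟩ else 0) ∈ PB a D x.1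
    rw [dif_pos x.2]
    exact hf1 x
  · rw [Finset.sum_map, ← hf2]
    refine Finset.sum_congr rfl fun x _ => ?_
    change f x = (if h : x.1 ≠ ν then f ⟨x.1, h⟩ else 0)
    rw [dif_pos x.2]

/-- **an element of `P ν` in the sum of the other blocks is a sum of radical elements of the other
blocks**, and it is in the radical itself. -/
theorem inter_rad {ν : K} {v : X} (hv : v ∈ PB a D ν) (hv' : v ∈ Ot a D ν) :
    v ∈ T a ∧ ∃ (S : Finset K) (f : K → X), (∀ μ ∈ S, μ ≠ ν) ∧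
      (∀ μ ∈ S, f μ ∈ PB a D μ ∧ f μ ∈ T a) ∧ v = ∑ μ ∈ S, f μ := by
  classical
  obtain ⟨S, f, h1, h2, h3⟩ := Ot_exists hv'
  obtain ⟨hA, hm⟩ := PB_mem hv
  -- the classes
  let c : K → CoreM a := fun μ => if h : f μ ∈ Ainf a then (Rad a).mkQ ⟨f μ, h⟩ else 0
  have hc : ∀ μ ∈ S, c μ ∈ D.maxGenEigenspace μ := by
    intro μ hμ
    obtain ⟨h4, h5⟩ := PB_mem (h2 μ hμ)
    simp only [c, dif_pos h4]
    exact h5
  have hAs : ∀ μ ∈ S, f μ ∈ Ainf a := fun μ hμ => PB_le_Ainf μ (h2 μ hμ)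
  have hsum : (Rad a).mkQ ⟨v, hA⟩ = ∑ μ ∈ S, c μ := by
    have h4 : (⟨v, hA⟩ : Ainf a) = ∑ μ ∈ S, (if h : f μ ∈ Ainf a then ⟨f μ, h⟩ else 0) := by
      apply Subtype.ext
      rw [Submodule.coe_sum]
      change v = _
      rw [h3]
      refine Finset.sum_congr rfl fun μ hμ => ?_
      rw [dif_pos (hAs μ hμ)]
    rw [h4, map_sum]
    refine Finset.sum_congr rfl fun μ hμ => ?_
    simp only [c, dif_pos (hAs μ hμ)]
  -- independence
  have hind := Module.End.independent_maxGenEigenspace D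
  have hνS : ν ∉ S := fun h => h1 ν h rfl
  have hzero : ∀ μ ∈ insert ν S, (if μ = ν then -(Rad a).mkQ ⟨v, hA⟩ else c μ) = 0 := by
    have h5 : ∑ μ ∈ insert ν S, (if μ = ν then -(Rad a).mkQ ⟨v, hA⟩ else c μ) = 0 := by
      rw [Finset.sum_insert hνS, if_pos rfl, hsum]
      have h6 : ∑ μ ∈ S, (if μ = ν then -∑ μ ∈ S, c μ else c μ) = ∑ μ ∈ S, c μ :=
        Finset.sum_congr rfl fun μ hμ => by rw [if_neg (h1 μ hμ)]
      rw [h6, neg_add_cancel]
    intro μ hμ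
    exact (iSupIndep_iff_finsetSum_eq_zero_imp_eq_zero _).1 hind (insert ν S)
      (fun μ => if μ = ν then -(Rad a).mkQ ⟨v, hA⟩ else c μ) (fun μ hμ => by
        by_cases h : μ = ν
        · rw [if_pos h, h]; exact Submodule.neg_mem _ hm
        · rw [if_neg h]
          exact hc μ ((Finset.mem_insert.1 hμ).resolve_left h)) h5 μ hμ
  refine ⟨?_, S, f, h1, fun μ hμ => ⟨h2 μ hμ, ?_⟩, h3⟩
  · have h6 := hzero ν (Finset.mem_insert_self ν S)
    rw [if_pos rfl, neg_eq_zero] at h6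
    exact (mk_zero_iff hA).1 h6
  · have h6 := hzero μ (Finset.mem_insert_of_mem hμ)
    rw [if_neg (h1 μ hμ)] at h6
    simp only [c, dif_pos (hAs μ hμ)] at h6
    exact (mk_zero_iff (hAs μ hμ)).1 h6

end abs

section mat

open Matrix Crest.Agent.R172.FO Crest.Agent.R172.Qt Crest.Agent.R172.SpS
  Crest.Agent.R172.SEnd Crest.Agent.R172.SEnd2 Crest.Agent.R172.SBlk Crest.Agent.R172.SCM

variable {ι : Type*} [Fintype ι] [DecidableEq ι] {δ : Type*} [Fintype δ] [DecidableEq δ]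
variable {K : Type*} [Field K]
variable {arm : δ → Fin 3} {J : Matrix ι ι K} {B : Matrix δ δ K}
  {g : Matrix ι δ K} {R : Matrix δ ι K} {X : Matrix ι ι K}
  {D : End K (CoreM (PhS arm J B g R X))} {ν : K} {l : Fin 3 → ℕ} {n : ℕ}
  {P : Matrix ι (Fin n) K} {A : Fin 3 → Matrix (Fin n) (Fin n) K}

/-- `Z ν` in the coordinates of the block `P` -/
def Zn (arm : δ → Fin 3) (J : Matrix ι ι K) (B : Matrix δ δ K) (g : Matrix ι δ K)
    (R : Matrix δ ι K) (X : Matrix ι ι K) (D : End K (CoreM (PhS arm J B g R X))) (ν : K)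
    {n : ℕ} (P : Matrix ι (Fin n) K) : Submodule K (Fin n → K) :=
  ((Ot (PhS arm J B g R X) D ν).map (Sg g).subtype).comap P.mulVecLin

theorem mem_Zn {x : Fin n → K} : x ∈ Zn arm J B g R X D ν P ↔
    ∃ v ∈ Ot (PhS arm J B g R X) D ν, ((v : Sg g) : ι → K) = P *ᵥ x := Iff.rfl

theorem Zn_stable (hR : g * R * g = g)
    (hDc : ∀ s x, D (coreOp (PhS arm J B g R X) s x) = coreOp (PhS arm J B g R X) s (D x))
    (h : BPkg arm J B g R X D ν l P A) (s : Fin 3) :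
    ∀ x ∈ Zn arm J B g R X D ν P, (A s).mulVecLin x ∈ Zn arm J B g R X D ν P := by
  intro x hx
  obtain ⟨v, hv, hvx⟩ := mem_Zn.1 hx
  refine mem_Zn.2 ⟨PhS arm J B g R X s v, Ot_stable hDc ν s v hv, ?_⟩
  rw [PhS_coe hR, hvx, mulVecLin_apply, mulVec_mulVec, mulVec_mulVec, h.act]

/-- **the elements of `Z ν`** : in the radical, and sums of radical elements of the other blocks. -/
theorem Zn_rad (h : BPkg arm J B g R X D ν l P A) {x : Fin n → K}
    (hx : x ∈ Zn arm J B g R X D ν P) :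
    (Pᵀ * (J * X) * P) *ᵥ x = 0 ∧ ∃ (S : Finset K) (f : K → Sg g), (∀ μ ∈ S, μ ≠ ν) ∧
      (∀ μ ∈ S, f μ ∈ PB (PhS arm J B g R X) D μ ∧ f μ ∈ T (PhS arm J B g R X)) ∧
      P *ᵥ x = ∑ μ ∈ S, ((f μ : Sg g) : ι → K) := by
  obtain ⟨v, hv, hvx⟩ := mem_Zn.1 hx
  obtain ⟨w, hw, hwx⟩ := h.mem x
  have hvw : w = v := Subtype.ext (hwx.trans hvx.symm)
  rw [hvw] at hw
  obtain ⟨h1, S, f, h2, h3, h4⟩ := inter_rad hw hv
  refine ⟨(h.rad x v hvx).1 h1, S, f, h2, h3, ?_⟩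
  rw [← hvx, h4, Submodule.coe_sum]

theorem Zn_le (h : BPkg arm J B g R X D ν l P A) :
    Zn arm J B g R X D ν P ≤ LinearMap.ker (Pᵀ * (J * X) * P).mulVecLin :=
  fun x hx => (Zn_rad h hx).1

/-- **harmlessness**: a property of vectors which is additive and holds for the radical elements of the
other blocks holds on `Z ν`. -/
theorem Zn_ind (h : BPkg arm J B g R X D ν l P A) {C : Submodule K (ι → K)}
    (hC : ∀ μ, μ ≠ ν → ∀ v ∈ PB (PhS arm J B g R X) D μ, v ∈ T (PhS arm J B g R X) →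
      ((v : Sg g) : ι → K) ∈ C) {x : Fin n → K} (hx : x ∈ Zn arm J B g R X D ν P) :
    P *ᵥ x ∈ C := by
  obtain ⟨-, S, f, h2, h3, h4⟩ := Zn_rad h hx
  rw [h4]
  exact C.sum_mem fun μ hμ => hC μ (h2 μ hμ) _ (h3 μ hμ).1 (h3 μ hμ).2

/-- **harmlessness for bilinear families** `(u, v) ↦ q u v` -/
theorem Zn_left {E : Type*} [AddCommGroup E] [Module K E]
    (h : BPkg arm J B g R X D ν l P A) (q : (ι → K) →ₗ[K] (ι → K) →ₗ[K] E) (Q : Submodule K E)
    (b : ι → K)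
    (hC : ∀ μ, μ ≠ ν → ∀ v ∈ PB (PhS arm J B g R X) D μ, v ∈ T (PhS arm J B g R X) →
      q ((v : Sg g) : ι → K) b ∈ Q) {x : Fin n → K} (hx : x ∈ Zn arm J B g R X D ν P) :
    q (P *ᵥ x) b ∈ Q :=
  Zn_ind h (C := Q.comap (q.flip b)) hC hx

theorem Zn_right {E : Type*} [AddCommGroup E] [Module K E]
    (h : BPkg arm J B g R X D ν l P A) (q : (ι → K) →ₗ[K] (ι → K) →ₗ[K] E) (Q : Submodule K E)
    (b : ι → K)
    (hC : ∀ μ, μ ≠ ν → ∀ v ∈ PB (PhS arm J B g R X) D μ, v ∈ T (PhS arm J B g R X) →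
      q b ((v : Sg g) : ι → K) ∈ Q) {x : Fin n → K} (hx : x ∈ Zn arm J B g R X D ν P) :
    q b (P *ᵥ x) ∈ Q :=
  Zn_ind h (C := Q.comap (q b)) hC hx

end mat

end Crest.Agent.R172.SZ1
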