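import Crest.Agent.R172.RJP3
import Crest.Agent.R172.CorU
import Crest.Agent.R172.SZ1
import Crest.Agent.R172.SLev0
import Crest.Agent.R172.SUB

/-!
Row 172 (S0260), S-side (t2), node L2-f (helper580): descent of the U-level corrections `β`, `γ` to the
V-level corrections `b`, `k` modulo `Z`, and uniqueness modulo `Z`.
-/

set_option autoImplicit false
set_option linter.unusedSectionVars false

open TensorProduct Module

namespace Crest.Agent.R172.SDesc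

open RJM (ev)
open RJP3 (evk CorK)

section abs

variable {K : Type*} [Field K] {P1 P2 V1 V2 τ : Type*} [AddCommGroup P1] [Module K P1]
  [AddCommGroup P2] [Module K P2] [AddCommGroup V1] [Module K V1] [AddCommGroup V2] [Module K V2]
variable {A : τ → End K P1} {B : τ → End K P2} {a : τ → End K V1} {b0 : τ → End K V2}
  {π1 : V1 →ₗ[K] P1} {π2 : V2 →ₗ[K] P2} {R1 Z : Submodule K P1} {R2 Z2 : Submodule K P2}

/-- **descent of `β`** -/
theorem exists_b (hπ2 : Function.Surjective π2)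
    (hA : ∀ t v, A t (π1 v) = π1 (a t v)) (hB : ∀ t v, B t (π2 v) = π2 (b0 t v))
    {g : P2 →ₗ[K] P2 →ₗ[K] K} {eps c : K} {x : τ → P2 ⊗[K] P1} {β : V2 →ₗ[K] V1}
    (hr : ∀ y, π1 (β y) ∈ R1) (hk : ∀ y, π2 y = 0 → π1 (β y) ∈ Z)
    (hc : ∀ t y, (π1 (a t (β y)) - (eps * c) • π1 (β (b0 t y))) -
      (A t (ev g (x t) (π2 y)) - (eps * c) • ev g (x t) (B t (π2 y))) ∈ Z) :
    ∃ b : P2 →ₗ[K] P1, RJZ.Cor A B R1 Z g eps c x b ∧ ∀ y, b (π2 y) - π1 (β y) ∈ Z := by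
  obtain ⟨σ, hσ⟩ := π2.exists_rightInverse_of_surjective (LinearMap.range_eq_top.2 hπ2)
  have hσ' : ∀ p, π2 (σ p) = p := fun p => by
    have := LinearMap.congr_fun hσ p
    exact this
  have hb : ∀ y, (π1 ∘ₗ β ∘ₗ σ) (π2 y) - π1 (β y) ∈ Z := by
    intro y
    have h1 : (π1 ∘ₗ β ∘ₗ σ) (π2 y) - π1 (β y) = π1 (β (σ (π2 y) - y)) := by
      rw [map_sub, map_sub]; rfl
    rw [h1]
    apply hk
    rw [map_sub, hσ', sub_self]
  refine ⟨π1 ∘ₗ β ∘ₗ σ, ⟨fun p => hr _, fun t p => ?_⟩, hb⟩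
  obtain ⟨y, rfl⟩ := hπ2 p
  -- replace `y` by `σ (π2 y)`
  have h2 := hc t (σ (π2 y))
  rw [hσ'] at h2
  have h3 := hb (b0 t (σ (π2 y)))
  rw [← hB, hσ'] at h3
  have h4 : A t ((π1 ∘ₗ β ∘ₗ σ) (π2 y)) = π1 (a t (β (σ (π2 y)))) := hA t _
  rw [h4]
  have h5 := Z.sub_mem h2 (Z.smul_mem (eps * c) h3)
  rw [smul_sub] at h5
  convert h5 using 1
  abel

/-- **uniqueness of `b` modulo `Z`** -/
theorem uniq_b {g : P2 →ₗ[K] P2 →ₗ[K] K} {eps c : K} {x : Fin 3 → P2 ⊗[K] P1}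
    {A : Fin 3 → End K P1} {B : Fin 3 → End K P2}
    (hec : eps * c ≠ 0) {b b' : P2 →ₗ[K] P1} (hb : RJZ.Cor A B R1 Z g eps c x b)
    (hb' : RJZ.Cor A B R1 Z g eps c x b')
    (hperf : ∀ p : P2, ∃ f : Fin 3 → P2, p = ∑ t, B t (f t))
    (sZ : ∀ t, ∀ z ∈ Z, A t z ∈ Z)
    (hkill : ∃ m, ∀ w : List (Fin 3), m ≤ w.length → ∀ r ∈ R1, (w.map A).prod r = 0) :
    ∀ p, b p - b' p ∈ Z := by
  obtain ⟨m, hm⟩ := hkill
  have hstep : ∀ t v, A t ((b - b') v) - (eps * c) • (b - b') (B t v) ∈ Z := by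
    intro t v
    have h1 := Z.sub_mem (hb.eq t v) (hb'.eq t v)
    convert h1 using 1
    rw [LinearMap.sub_apply, LinearMap.sub_apply, map_sub, smul_sub]
    abel
  have hword : ∀ (w : List (Fin 3)) v, (w.map A).prod ((b - b') v) -
      (eps * c) ^ w.length • (b - b') ((w.map B).prod v) ∈ Z := by
    intro w
    induction w with
    | nil => intro v; simp
    | cons s w ih =>
      intro v
      simp only [List.map_cons, List.prod_cons, Module.End.mul_apply, List.length_cons]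
      have h1 := sZ s _ (ih v)
      have h2 := Z.smul_mem ((eps * c) ^ w.length) (hstep s ((w.map B).prod v))
      have h3 := Z.add_mem h1 h2
      convert h3 using 1
      rw [map_sub, map_smul, smul_sub, smul_smul, ← pow_succ]
      abel
  have hfin := CorU.perf_words (B := B) hperf (Z.comap (b - b')) m (fun w hw v => by
    have h1 := hword w v
    have h2 : (b - b') v ∈ R1 := by
      rw [LinearMap.sub_apply]; exact R1.sub_mem (hb.mem v) (hb'.mem v)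
    rw [hm w hw.ge _ h2, zero_sub, Submodule.neg_mem_iff] at h1
    have h3 : (eps * c) ^ w.length ≠ 0 := pow_ne_zero _ hec
    exact (Z.smul_mem_iff h3).1 h1)
  intro p
  have := hfin p
  rw [Submodule.mem_comap, LinearMap.sub_apply] at this
  exact this

/-- **descent of `γ`** -/
theorem exists_k (hπ1 : Function.Surjective π1)
    (hA : ∀ t v, A t (π1 v) = π1 (a t v)) (hB : ∀ t v, B t (π2 v) = π2 (b0 t v))
    {g1 : P1 →ₗ[K] P1 →ₗ[K] K} {eps c : K} {x : τ → P2 ⊗[K] P1} {γ : V1 →ₗ[K] V2}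
    (hr : ∀ y, π2 (γ y) ∈ R2) (hk : ∀ y, π1 y = 0 → π2 (γ y) ∈ Z2)
    (hc : ∀ t y, eps • (π2 (γ (a t y)) - evk g1 (x t) (A t (π1 y))) -
      c • (π2 (b0 t (γ y)) - B t (evk g1 (x t) (π1 y))) ∈ Z2) :
    ∃ k : P1 →ₗ[K] P2, CorK A B R2 Z2 g1 eps c x k ∧ ∀ y, k (π1 y) - π2 (γ y) ∈ Z2 := by
  obtain ⟨σ, hσ⟩ := π1.exists_rightInverse_of_surjective (LinearMap.range_eq_top.2 hπ1)
  have hσ' : ∀ p, π1 (σ p) = p := fun p => by
    have := LinearMap.congr_fun hσ p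
    exact this
  have hb : ∀ y, (π2 ∘ₗ γ ∘ₗ σ) (π1 y) - π2 (γ y) ∈ Z2 := by
    intro y
    have h1 : (π2 ∘ₗ γ ∘ₗ σ) (π1 y) - π2 (γ y) = π2 (γ (σ (π1 y) - y)) := by
      rw [map_sub, map_sub]; rfl
    rw [h1]
    apply hk
    rw [map_sub, hσ', sub_self]
  refine ⟨π2 ∘ₗ γ ∘ₗ σ, ⟨fun p => hr _, fun t p => ?_⟩, hb⟩
  obtain ⟨y, rfl⟩ := hπ1 p
  have h2 := hc t (σ (π1 y))
  rw [hσ'] at h2
  have h3 := hb (a t (σ (π1 y)))
  rw [← hA, hσ'] at h3
  have h4 : B t ((π2 ∘ₗ γ ∘ₗ σ) (π1 y)) = π2 (b0 t (γ (σ (π1 y)))) := hB t _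
  rw [h4]
  have h5 := Z2.add_mem h2 (Z2.smul_mem eps h3)
  convert h5 using 1
  simp only [smul_sub]
  abel

/-- **uniqueness of `k` modulo `Z2`** -/
theorem uniq_k {g1 : P1 →ₗ[K] P1 →ₗ[K] K} {eps c : K} {x : Fin 3 → P2 ⊗[K] P1}
    {A : Fin 3 → End K P1} {B : Fin 3 → End K P2}
    (heps : eps ≠ 0) {k k' : P1 →ₗ[K] P2} (hk : CorK A B R2 Z2 g1 eps c x k)
    (hk' : CorK A B R2 Z2 g1 eps c x k')
    (hperf : ∀ p : P1, ∃ f : Fin 3 → P1, p = ∑ t, A t (f t))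
    (sZ : ∀ t, ∀ z ∈ Z2, B t z ∈ Z2)
    (hkill : ∃ m, ∀ w : List (Fin 3), m ≤ w.length → ∀ r ∈ R2, (w.map B).prod r = 0) :
    ∀ p, k p - k' p ∈ Z2 := by
  obtain ⟨m, hm⟩ := hkill
  have hstep : ∀ t v, c • B t ((k - k') v) - eps • (k - k') (A t v) ∈ Z2 := by
    intro t v
    have h1 := Z2.sub_mem (hk'.eq t v) (hk.eq t v)
    convert h1 using 1
    rw [LinearMap.sub_apply, LinearMap.sub_apply, map_sub]
    simp only [smul_sub]
    abel
  have hword : ∀ (w : List (Fin 3)) v, c ^ w.length • (w.map B).prod ((k - k') v) -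
      eps ^ w.length • (k - k') ((w.map A).prod v) ∈ Z2 := by
    intro w
    induction w with
    | nil => intro v; simp
    | cons s w ih =>
      intro v
      simp only [List.map_cons, List.prod_cons, Module.End.mul_apply, List.length_cons]
      have h1 := Z2.smul_mem c (sZ s _ (ih v))
      have h2 := Z2.smul_mem (eps ^ w.length) (hstep s ((w.map A).prod v))
      have h3 := Z2.add_mem h1 h2
      convert h3 using 1
      rw [map_sub, map_smul, map_smul, smul_sub, smul_sub, smul_smul, smul_smul, smul_smul,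
        smul_smul, pow_succ c, pow_succ eps, mul_comm (c ^ w.length) c, mul_comm c (eps ^ w.length)]
      abel
  have hfin := CorU.perf_words (B := A) hperf (Z2.comap (k - k')) m (fun w hw v => by
    have h1 := hword w v
    have h2 : (k - k') v ∈ R2 := by
      rw [LinearMap.sub_apply]; exact R2.sub_mem (hk.mem v) (hk'.mem v)
    rw [hm w hw.ge _ h2, smul_zero, zero_sub, Submodule.neg_mem_iff] at h1
    have h3 : eps ^ w.length ≠ 0 := pow_ne_zero _ heps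
    exact (Z2.smul_mem_iff h3).1 h1)
  intro p
  have := hfin p
  rw [Submodule.mem_comap, LinearMap.sub_apply] at this
  exact this

end abs

section mat

open Matrix Crest.Agent.R172.FO Crest.Agent.R172.Qt Crest.Agent.R172.SpS
  Crest.Agent.R172.SEnd Crest.Agent.R172.SEnd2 Crest.Agent.R172.SBlk Crest.Agent.R172.SCM
open Crest.Agent.R172.St (T)
open Crest.Agent.R172.PL (Ainf CoreM coreOp Rad)
open Crest.Agent.R172.SC (PB)
open Crest.Agent.R172.SZ1 (Zn Ot mem_Zn Zn_stable)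
open Crest.Agent.R172.SLev0 (gF)
open Crest.Agent.R172.SUX (ZY Mv)

variable {K : Type*} [Field K] {m1 m2 n1 n2 : ℕ}

/-- the matrix of a tensor -/
noncomputable def tm : (Fin m2 → K) ⊗[K] (Fin m1 → K) →ₗ[K] Matrix (Fin m2) (Fin m1) K :=
  TensorProduct.lift (LinearMap.mk₂ K vecMulVec (fun a b c => add_vecMulVec a b c)
    (fun t a b => smul_vecMulVec t a b) (fun a b c => vecMulVec_add a b c)
    (fun t a b => by rw [vecMulVec_smul]))

@[simp] theorem tm_tmul (a : Fin m2 → K) (b : Fin m1 → K) : tm (a ⊗ₜ[K] b) = vecMulVec a b := by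
  simp [tm]

/-- the bilinear form of a matrix -/
def gM {n : ℕ} (G : Matrix (Fin n) (Fin n) K) : (Fin n → K) →ₗ[K] (Fin n → K) →ₗ[K] K :=
  LinearMap.mk₂ K (fun x y => x ⬝ᵥ (G *ᵥ y))
    (fun x x' y => by rw [add_dotProduct]) (fun c x y => by rw [smul_dotProduct])
    (fun x y y' => by rw [mulVec_add, dotProduct_add])
    (fun c x y => by rw [mulVec_smul, dotProduct_smul])

theorem gM_apply {n : ℕ} (G : Matrix (Fin n) (Fin n) K) (x y : Fin n → K) :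
    gM G x y = x ⬝ᵥ (G *ᵥ y) := rfl

theorem dot_cong {n m : ℕ} (G : Matrix (Fin n) (Fin n) K) (C : Matrix (Fin n) (Fin m) K)
    (x y : Fin m → K) : (C *ᵥ x) ⬝ᵥ (G *ᵥ (C *ᵥ y)) = x ⬝ᵥ ((Cᵀ * G * C) *ᵥ y) := by
  rw [Matrix.mul_assoc, ← mulVec_mulVec y Cᵀ, dotProduct_mulVec x Cᵀ, vecMul_transpose]
  simp only [mulVec_mulVec, Matrix.mul_assoc]

theorem ev_map (G : Matrix (Fin n2) (Fin n2) K) (C1 : Matrix (Fin n1) (Fin m1) K)
    (C2 : Matrix (Fin n2) (Fin m2) K) (z : (Fin m2 → K) ⊗[K] (Fin m1 → K)) (y : Fin m2 → K) :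
    ev (gM G) (TensorProduct.map C2.mulVecLin C1.mulVecLin z) (C2 *ᵥ y) =
      C1 *ᵥ (((tm z)ᵀ * (C2ᵀ * G * C2)) *ᵥ y) := by
  induction z using TensorProduct.induction_on with
  | zero => simp
  | tmul a b =>
    rw [TensorProduct.map_tmul, RJM.ev_tmul, tm_tmul, gM_apply, mulVecLin_apply, mulVecLin_apply,
      dot_cong, transpose_vecMulVec, ← mulVec_mulVec y (vecMulVec b a), vecMulVec_mulVec,
      mulVec_smul]
    simp
  | add a b ha hb =>
    rw [map_add, map_add, LinearMap.add_apply, ha, hb, map_add, transpose_add, Matrix.add_mul,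
      add_mulVec, mulVec_add]

theorem evk_map (G : Matrix (Fin n1) (Fin n1) K) (C1 : Matrix (Fin n1) (Fin m1) K)
    (C2 : Matrix (Fin n2) (Fin m2) K) (z : (Fin m2 → K) ⊗[K] (Fin m1 → K)) (y : Fin m1 → K) :
    evk (gM G) (TensorProduct.map C2.mulVecLin C1.mulVecLin z) (C1 *ᵥ y) =
      C2 *ᵥ ((tm z * (C1ᵀ * G * C1)) *ᵥ y) := by
  induction z using TensorProduct.induction_on with
  | zero => simp
  | tmul a b =>
    rw [TensorProduct.map_tmul, RJP3.evk_tmul, tm_tmul, gM_apply, mulVecLin_apply,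
      mulVecLin_apply, dot_cong, ← mulVec_mulVec y (vecMulVec a b), vecMulVec_mulVec, mulVec_smul]
    simp
  | add a b ha hb =>
    rw [map_add, map_add, LinearMap.add_apply, ha, hb, map_add, Matrix.add_mul,
      add_mulVec, mulVec_add]

variable {ι : Type*} [Fintype ι] [DecidableEq ι] {δ : Type*} [Fintype δ] [DecidableEq δ]
variable {k : Type*} [Field k] [Algebra k K]
variable {arm : δ → Fin 3} {J : Matrix ι ι K} {B : Matrix δ δ K}
  {N W : Submodule K (Matrix ι δ K)} {F : Matrix ι δ K} {R : Matrix δ ι K} {X : Matrix ι ι K}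
  {D : End K (CoreM (PhS arm J B F R X))} {ν ν' : K} {l : Fin 3 → ℕ}
  {Q1 : Matrix ι (Fin n1) K} {A1 : Fin 3 → Matrix (Fin n1) (Fin n1) K}
  {Q2 : Matrix ι (Fin n2) K} {A2 : Fin 3 → Matrix (Fin n2) (Fin n2) K}
  {U1 : Matrix δ (Fin m1) K} {U2 : Matrix δ (Fin m2) K}
  {C1 : Matrix (Fin n1) (Fin m1) K} {C2 : Matrix (Fin n2) (Fin m2) K}

/-- membership in `Zn ν` from `F U1 y1 = F U2 y2` -/
theorem mem_Zn_of (hne : ν ≠ ν') (b2 : BPkg arm J B F R X D ν' l Q2 A2)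
    (hC1 : F * U1 = Q1 * C1) (hC2 : F * U2 = Q2 * C2) {y1 : Fin m1 → K} {y2 : Fin m2 → K}
    (h : (F * U1) *ᵥ y1 = (F * U2) *ᵥ y2) : C1 *ᵥ y1 ∈ Zn arm J B F R X D ν Q1 := by
  obtain ⟨v, hv, hvx⟩ := b2.mem (C2 *ᵥ y2)
  refine mem_Zn.2 ⟨v, Submodule.mem_iSup_of_mem ν' (Submodule.mem_iSup_of_mem hne.symm hv), ?_⟩
  rw [hvx, mulVec_mulVec, mulVec_mulVec, ← hC1, ← hC2, h]

/-- **kernel**: `β` maps `ker C2` into `Zn` -/
theorem ker_b {H : Matrix ι δ K} {P : Matrix ι ι K × (Fin 3 → Matrix ι ι K)}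
    {Y : Fin 3 → Matrix δ δ K} {d : Derivation k K K} (mv : Mv k arm J N W H P.1 Y d)
    {c1 c2 : K} (hc1 : c1 ≠ 0) (hc2 : c2 ≠ 0) (hne : ν ≠ ν')
    (b2 : BPkg arm J B F R X D ν' l Q2 A2)
    (hC1 : F * U1 = Q1 * C1) (hC2 : F * U2 = Q2 * C2)
    (H1 : H * U1 = c1 • (F * U1)) (H2 : H * U2 = c2 • (F * U2))
    {Γ2 : Matrix (Fin m2) (Fin m2) K} {β : Matrix (Fin m1) (Fin m2) K}
    (hN2 : H * (U2.map d + ZY arm J H P.1 Y * U2) = H * (U2 * Γ2 + c2 ^ 2 • (U1 * β)))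
    {y : Fin m2 → K} (hy : C2 *ᵥ y = 0) : C1 *ᵥ (β *ᵥ y) ∈ Zn arm J B F R X D ν Q1 := by
  have h0 : H *ᵥ (U2 *ᵥ y) = 0 := by
    rw [mulVec_mulVec, H2, hC2, smul_mulVec, ← mulVec_mulVec, hy, mulVec_zero, smul_zero]
  have h1 := SUB.H_nab (arm := arm) mv (U2 *ᵥ y)
  rw [h0] at h1
  have h2 : dv d (0 : ι → K) = 0 := by funext i; simp [dv]
  rw [h2] at h1
  have h3 : SUB.nab arm J H P.1 Y d (U2 *ᵥ y) =
      (U2.map d + ZY arm J H P.1 Y * U2) *ᵥ y + U2 *ᵥ (dv d y) := by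
    unfold SUB.nab
    rw [SpS.dv_mulVec, add_mulVec, ← mulVec_mulVec]
    abel
  rw [h3, mulVec_add, mulVec_mulVec, mulVec_mulVec, hN2, Matrix.mul_add, Matrix.mul_smul,
    ← Matrix.mul_assoc, ← Matrix.mul_assoc, H1, H2] at h1
  -- `0 = c2 F U2 (Γ2 y + dy) + c2² c1 F U1 β y`
  have h4 : (F * U1) *ᵥ (β *ᵥ y) = (F * U2) *ᵥ (-((c1 * c2)⁻¹ • (Γ2 *ᵥ y + dv d y))) := by
    have h5 : (c1 * c2 ^ 2) • ((F * U1) *ᵥ (β *ᵥ y)) =
        -(c2 • ((F * U2) *ᵥ (Γ2 *ᵥ y + dv d y))) := by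
      rw [eq_neg_iff_add_eq_zero, h1]
      simp only [add_mulVec, mulVec_add, smul_mulVec, Matrix.smul_mul, mulVec_mulVec, smul_add,
        smul_smul]
      rw [mul_comm c1 (c2 ^ 2)]
      abel
    have h6 : c1 * c2 ^ 2 ≠ 0 := mul_ne_zero hc1 (pow_ne_zero _ hc2)
    have h7 := congrArg (fun v => (c1 * c2 ^ 2)⁻¹ • v) h5
    simp only [smul_smul] at h7
    rw [inv_mul_cancel₀ h6, one_smul] at h7
    rw [h7, mulVec_neg, mulVec_smul, smul_neg, smul_smul]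
    congr 2
    field_simp
  exact mem_Zn_of hne b2 hC1 hC2 h4

end mat

end Crest.Agent.R172.SDesc
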