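import Crest.Agent.R172.SDesc

/-!
Row 172 (S0260), S-side (t2), node L2-f (helper580): the kernel condition of the corrections in
`K^δ` letters, and the descent of a decorated family to a `Cor` on the blocks.
-/

set_option autoImplicit false
set_option linter.unusedSectionVars false

open TensorProduct Module

namespace Crest.Agent.R172.SDesc2

open RJM (ev)
open RJP3 (evk CorK)
open SDesc
open Matrix Crest.Agent.R172.FO Crest.Agent.R172.Qt Crest.Agent.R172.SpS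
  Crest.Agent.R172.SEnd Crest.Agent.R172.SEnd2 Crest.Agent.R172.SBlk Crest.Agent.R172.SCM
open Crest.Agent.R172.PL (Ainf CoreM coreOp Rad)
open Crest.Agent.R172.SZ1 (Zn Ot mem_Zn Zn_stable)
open Crest.Agent.R172.SLev0 (gF)
open Crest.Agent.R172.SUX (ZY Mv)

variable {K : Type*} [Field K] {m1 m2 n1 n2 : ℕ}
variable {ι : Type*} [Fintype ι] [DecidableEq ι] {δ : Type*} [Fintype δ] [DecidableEq δ]
variable {k : Type*} [Field k] [Algebra k K]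
variable {arm : δ → Fin 3} {J : Matrix ι ι K} {B : Matrix δ δ K}
  {N W : Submodule K (Matrix ι δ K)} {F : Matrix ι δ K} {R : Matrix δ ι K} {X : Matrix ι ι K}
  {U1 : Matrix δ (Fin m1) K} {U2 : Matrix δ (Fin m2) K}

/-- **kernel condition for `β`**, in `K^δ` letters -/
theorem kb {H : Matrix ι δ K} {P : Matrix ι ι K × (Fin 3 → Matrix ι ι K)}
    {Y : Fin 3 → Matrix δ δ K} {d : Derivation k K K} (mv : Mv k arm J N W H P.1 Y d)
    {c1 c2 : K} (hc1 : c1 ≠ 0) (hc2 : c2 ≠ 0)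
    (H1 : H * U1 = c1 • (F * U1)) (H2 : H * U2 = c2 • (F * U2))
    {Γ2 : Matrix (Fin m2) (Fin m2) K} {β : Matrix (Fin m1) (Fin m2) K}
    (hN2 : H * (U2.map d + ZY arm J H P.1 Y * U2) = H * (U2 * Γ2 + c2 ^ 2 • (U1 * β)))
    (y : Fin m2 → K) (hy : (F * U2) *ᵥ y = 0) :
    ∃ z, (F * U1) *ᵥ (β *ᵥ y) = (F * U2) *ᵥ z := by
  have h0 : H *ᵥ (U2 *ᵥ y) = 0 := by
    rw [mulVec_mulVec, H2, smul_mulVec, hy, smul_zero]
  have h1 := SUB.H_nab (arm := arm) mv (U2 *ᵥ y)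
  rw [h0] at h1
  have h2 : dv d (0 : ι → K) = 0 := by funext i; simp [dv]
  rw [h2] at h1
  have h3 : SUB.nab arm J H P.1 Y d (U2 *ᵥ y) =
      (U2.map d + ZY arm J H P.1 Y * U2) *ᵥ y + U2 *ᵥ (dv d y) := by
    unfold SUB.nab
    rw [SpS.dv_mulVec, add_mulVec, ← mulVec_mulVec]
    abel
  rw [h3, mulVec_add, mulVec_mulVec, mulVec_mulVec, hN2, Matrix.mul_add, Matrix.mul_smul,
    ← Matrix.mul_assoc, ← Matrix.mul_assoc, H1, H2] at h1
  refine ⟨-((c1 * c2)⁻¹ • (Γ2 *ᵥ y + dv d y)), ?_⟩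
  have h5 : (c1 * c2 ^ 2) • ((F * U1) *ᵥ (β *ᵥ y)) =
      -(c2 • ((F * U2) *ᵥ (Γ2 *ᵥ y + dv d y))) := by
    rw [eq_neg_iff_add_eq_zero, h1]
    simp only [add_mulVec, mulVec_add, smul_mulVec, Matrix.smul_mul, mulVec_mulVec, smul_add,
      smul_smul]
    rw [mul_comm c1 (c2 ^ 2)]
    abel
  have h6 : c1 * c2 ^ 2 ≠ 0 := mul_ne_zero hc1 (pow_ne_zero _ hc2)
  have h7 := congrArg (fun v => (c1 * c2 ^ 2)⁻¹ • v) h5
  simp only [smul_smul] at h7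
  rw [inv_mul_cancel₀ h6, one_smul] at h7
  rw [h7, mulVec_neg, mulVec_smul, smul_neg, smul_smul]
  congr 2
  field_simp

/-- **kernel condition for `γ`**, in `K^δ` letters -/
theorem kk {H : Matrix ι δ K} {P : Matrix ι ι K × (Fin 3 → Matrix ι ι K)}
    {Y : Fin 3 → Matrix δ δ K} {d : Derivation k K K} (mv : Mv k arm J N W H P.1 Y d)
    {c1 c2 : K} (hc1 : c1 ≠ 0) (hc2 : c2 ≠ 0)
    (H1 : H * U1 = c1 • (F * U1)) (H2 : H * U2 = c2 • (F * U2))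
    {Γ1 : Matrix (Fin m1) (Fin m1) K} {γ : Matrix (Fin m2) (Fin m1) K}
    (hN1 : H * (U1.map d + ZY arm J H P.1 Y * U1) = H * (U1 * Γ1 + c1 ^ 2 • (U2 * γ)))
    (y : Fin m1 → K) (hy : (F * U1) *ᵥ y = 0) :
    ∃ z, (F * U2) *ᵥ (γ *ᵥ y) = (F * U1) *ᵥ z :=
  kb mv hc2 hc1 H2 H1 hN1 y hy

variable {D : End K (CoreM (PhS arm J B F R X))} {ν ν' : K} {l : Fin 3 → ℕ}
  {Q1 : Matrix ι (Fin n1) K} {A1 : Fin 3 → Matrix (Fin n1) (Fin n1) K}
  {Q2 : Matrix ι (Fin n2) K} {A2 : Fin 3 → Matrix (Fin n2) (Fin n2) K}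
  {C1 : Matrix (Fin n1) (Fin m1) K} {C2 : Matrix (Fin n2) (Fin m2) K}
  {a1 : Fin 3 → Matrix (Fin m1) (Fin m1) K} {a2 : Fin 3 → Matrix (Fin m2) (Fin m2) K}

end Crest.Agent.R172.SDesc2
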