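import Crest.Agent.R172.SDesc
import Crest.Agent.R172.SDec

/-!
Row 172 (S0260), S-side (t2), node L2-f (helper580): the kernel condition of the corrections in
`K^δ` letters, and the descent of a decorated family to a `Cor` on the blocks.
-/

set_option autoImplicit false
set_option linter.unusedSectionVars false

open TensorProduct Module

namespace Crest.Agent.R172.SDesc3

open RJM (ev)
open RJP3 (evk CorK)
open SDesc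
open Matrix Crest.Agent.R172.FO Crest.Agent.R172.Qt Crest.Agent.R172.SpS
  Crest.Agent.R172.SEnd Crest.Agent.R172.SEnd2 Crest.Agent.R172.SBlk Crest.Agent.R172.SCM
open Crest.Agent.R172.PL (Ainf CoreM coreOp Rad)
open Crest.Agent.R172.SZ1 (Zn Ot mem_Zn Zn_stable)
open Crest.Agent.R172.SLev0 (gF)
open Crest.Agent.R172.SUX (ZY Mv)

variable {K : Type*} [Field K] {m1 m2 n1 n2 : ℕ}
variable {ι : Type*} [Fintype ι] [DecidableEq ι] {δ : Type*} [Fintype δ] [DecidableEq δ]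
variable {k : Type*} [Field k] [Algebra k K]
variable {arm : δ → Fin 3} {J : Matrix ι ι K} {B : Matrix δ δ K}
  {N W : Submodule K (Matrix ι δ K)} {F : Matrix ι δ K} {R : Matrix δ ι K} {X : Matrix ι ι K}
  {U1 : Matrix δ (Fin m1) K} {U2 : Matrix δ (Fin m2) K}

/-- **kernel condition for `β`**, in `K^δ` letters -/
theorem kb {H : Matrix ι δ K} {P : Matrix ι ι K × (Fin 3 → Matrix ι ι K)}
    {Y : Fin 3 → Matrix δ δ K} {d : Derivation k K K} (mv : Mv k arm J N W H P.1 Y d)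
    {c1 c2 : K} (hc1 : c1 ≠ 0) (hc2 : c2 ≠ 0)
    (H1 : H * U1 = c1 • (F * U1)) (H2 : H * U2 = c2 • (F * U2))
    {Γ2 : Matrix (Fin m2) (Fin m2) K} {β : Matrix (Fin m1) (Fin m2) K}
    (hN2 : H * (U2.map d + ZY arm J H P.1 Y * U2) = H * (U2 * Γ2 + c2 ^ 2 • (U1 * β)))
    (y : Fin m2 → K) (hy : (F * U2) *ᵥ y = 0) :
    ∃ z, (F * U1) *ᵥ (β *ᵥ y) = (F * U2) *ᵥ z := by
  have h0 : H *ᵥ (U2 *ᵥ y) = 0 := by
    rw [mulVec_mulVec, H2, smul_mulVec, hy, smul_zero]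
  have h1 := SUB.H_nab (arm := arm) mv (U2 *ᵥ y)
  rw [h0] at h1
  have h2 : dv d (0 : ι → K) = 0 := by funext i; simp [dv]
  rw [h2] at h1
  have h3 : SUB.nab arm J H P.1 Y d (U2 *ᵥ y) =
      (U2.map d + ZY arm J H P.1 Y * U2) *ᵥ y + U2 *ᵥ (dv d y) := by
    unfold SUB.nab
    rw [SpS.dv_mulVec, add_mulVec, ← mulVec_mulVec]
    abel
  rw [h3, mulVec_add, mulVec_mulVec, mulVec_mulVec, hN2, Matrix.mul_add, Matrix.mul_smul,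
    ← Matrix.mul_assoc, ← Matrix.mul_assoc, H1, H2] at h1
  refine ⟨-((c1 * c2)⁻¹ • (Γ2 *ᵥ y + dv d y)), ?_⟩
  have h5 : (c1 * c2 ^ 2) • ((F * U1) *ᵥ (β *ᵥ y)) =
      -(c2 • ((F * U2) *ᵥ (Γ2 *ᵥ y + dv d y))) := by
    rw [eq_neg_iff_add_eq_zero, h1]
    simp only [add_mulVec, mulVec_add, smul_mulVec, Matrix.smul_mul, mulVec_mulVec, smul_add,
      smul_smul]
    rw [mul_comm c1 (c2 ^ 2)]
    abel
  have h6 : c1 * c2 ^ 2 ≠ 0 := mul_ne_zero hc1 (pow_ne_zero _ hc2)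
  have h7 := congrArg (fun v => (c1 * c2 ^ 2)⁻¹ • v) h5
  simp only [smul_smul] at h7
  rw [inv_mul_cancel₀ h6, one_smul] at h7
  rw [h7, mulVec_neg, mulVec_smul, smul_neg, smul_smul]
  congr 2
  field_simp

/-- **kernel condition for `γ`**, in `K^δ` letters -/
theorem kk {H : Matrix ι δ K} {P : Matrix ι ι K × (Fin 3 → Matrix ι ι K)}
    {Y : Fin 3 → Matrix δ δ K} {d : Derivation k K K} (mv : Mv k arm J N W H P.1 Y d)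
    {c1 c2 : K} (hc1 : c1 ≠ 0) (hc2 : c2 ≠ 0)
    (H1 : H * U1 = c1 • (F * U1)) (H2 : H * U2 = c2 • (F * U2))
    {Γ1 : Matrix (Fin m1) (Fin m1) K} {γ : Matrix (Fin m2) (Fin m1) K}
    (hN1 : H * (U1.map d + ZY arm J H P.1 Y * U1) = H * (U1 * Γ1 + c1 ^ 2 • (U2 * γ)))
    (y : Fin m1 → K) (hy : (F * U1) *ᵥ y = 0) :
    ∃ z, (F * U2) *ᵥ (γ *ᵥ y) = (F * U1) *ᵥ z :=
  kb mv hc2 hc1 H2 H1 hN1 y hy

variable {D : End K (CoreM (PhS arm J B F R X))} {ν ν' : K} {l : Fin 3 → ℕ}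
  {Q1 : Matrix ι (Fin n1) K} {A1 : Fin 3 → Matrix (Fin n1) (Fin n1) K}
  {Q2 : Matrix ι (Fin n2) K} {A2 : Fin 3 → Matrix (Fin n2) (Fin n2) K}
  {C1 : Matrix (Fin n1) (Fin m1) K} {C2 : Matrix (Fin n2) (Fin m2) K}
  {a1 : Fin 3 → Matrix (Fin m1) (Fin m1) K} {a2 : Fin 3 → Matrix (Fin m2) (Fin m2) K}

theorem form_pull {G : Matrix ι ι K} (hC1 : F * U1 = Q1 * C1) :
    U1ᵀ * (Fᵀ * J * (G * F)) * U1 = C1ᵀ * (Q1ᵀ * (J * G) * Q1) * C1 := by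
  have h : U1ᵀ * (Fᵀ * J * (G * F)) * U1 = (F * U1)ᵀ * (J * G) * (F * U1) := by
    rw [transpose_mul]; simp only [Matrix.mul_assoc]
  rw [h, hC1, transpose_mul]; simp only [Matrix.mul_assoc]

/-- **descent of a decorated family** -/
theorem cor_of_dec (hC1 : F * U1 = Q1 * C1) (hC2 : F * U2 = Q2 * C2)
    (hs1 : ∀ p, ∃ y, C1 *ᵥ y = p) (hs2 : ∀ p, ∃ y, C2 *ᵥ y = p)
    (ha1 : ∀ s, A1 s * C1 = C1 * a1 s) (ha2 : ∀ s, A2 s * C2 = C2 * a2 s)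
    (inj1 : ∀ x, Q1 *ᵥ x = 0 → x = 0) (hne : ν ≠ ν')
    (b2 : BPkg arm J B F R X D ν' l Q2 A2)
    {c : K} {y : SUX.D3 K (Fin m1) (Fin m2)}
    (hd : SDec.Dec F (Fᵀ * J * (X * F)) U1 U2 a1 a2 c y)
    (hk : ∀ κ, F *ᵥ (U2 *ᵥ κ) = 0 → ∃ κ2, F *ᵥ (U1 *ᵥ (y.2.1 *ᵥ κ)) = F *ᵥ (U2 *ᵥ κ2))
    {z : Fin 3 → (Fin m2 → K) ⊗[K] (Fin m1 → K)} (hz : ∀ s, tm (z s) = y.1 s)
    {x : Fin 3 → (Fin n2 → K) ⊗[K] (Fin n1 → K)}
    (hx : ∀ s, x s = TensorProduct.map C2.mulVecLin C1.mulVecLin (z s)) :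
    ∃ b, RJZ.Cor (fun s => (A1 s).mulVecLin) (fun s => (A2 s).mulVecLin)
        (LinearMap.ker (Q1ᵀ * (J * X) * Q1).mulVecLin) (Zn arm J B F R X D ν Q1)
        (gF J X Q2) (-1) c x b ∧
      ∀ y2, b (C2 *ᵥ y2) - C1 *ᵥ (y.2.1 *ᵥ y2) ∈ Zn arm J B F R X D ν Q1 := by
  have hG1 := form_pull (J := J) (G := X) hC1
  have hG2 := form_pull (J := J) (G := X) hC2
  have e1 : ∀ s v, A1 s *ᵥ (C1 *ᵥ v) = C1 *ᵥ (a1 s *ᵥ v) := fun s v => by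
    rw [mulVec_mulVec, ha1, mulVec_mulVec]
  have e2 : ∀ s v, A2 s *ᵥ (C2 *ᵥ v) = C2 *ᵥ (a2 s *ᵥ v) := fun s v => by
    rw [mulVec_mulVec, ha2, mulVec_mulVec]
  refine exists_b (π1 := C1.mulVecLin) (π2 := C2.mulVecLin)
    (a := fun s => (a1 s).mulVecLin) (b0 := fun s => (a2 s).mulVecLin) (β := y.2.1.mulVecLin)
    (fun p => hs2 p) (fun s v => e1 s v) (fun s v => e2 s v) ?_ ?_ ?_
  · -- radical
    intro v
    rw [LinearMap.mem_ker]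
    simp only [mulVecLin_apply]
    have h1 : C1ᵀ *ᵥ ((Q1ᵀ * (J * X) * Q1) *ᵥ (C1 *ᵥ (y.2.1 *ᵥ v))) = 0 := by
      have h2 := hd.rb
      rw [hG1] at h2
      have h3 := congrArg (fun M => M *ᵥ v) h2
      simpa only [mulVec_mulVec, Matrix.mul_assoc, zero_mulVec] using h3
    funext i
    obtain ⟨u, hu⟩ := hs1 (Pi.single i 1)
    have h4 : u ⬝ᵥ (C1ᵀ *ᵥ ((Q1ᵀ * (J * X) * Q1) *ᵥ (C1 *ᵥ (y.2.1 *ᵥ v)))) = 0 := by
      rw [h1, dotProduct_zero]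
    rw [dotProduct_mulVec, vecMul_transpose, hu, single_one_dotProduct] at h4
    simpa using h4
  · -- kernel
    intro v hv
    simp only [mulVecLin_apply] at hv ⊢
    have h1 : F *ᵥ (U2 *ᵥ v) = 0 := by
      rw [mulVec_mulVec, hC2, ← mulVec_mulVec, hv, mulVec_zero]
    obtain ⟨w, hw⟩ := hk v h1
    refine mem_Zn_of hne b2 hC1 hC2 (y2 := w) ?_
    rw [← mulVec_mulVec, hw, mulVec_mulVec]
  · -- the relation, exact
    intro s v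
    simp only [mulVecLin_apply]
    have hev : ∀ u, ev (gF J X Q2) (x s) (C2 *ᵥ u) =
        C1 *ᵥ (((y.1 s)ᵀ * (U2ᵀ * (Fᵀ * J * (X * F)) * U2)) *ᵥ u) := fun u => by
      rw [hx, hG2, ← hz]
      exact ev_map (Q2ᵀ * (J * X) * Q2) C1 C2 (z s) u
    rw [e2, hev, hev, e1]
    have h1 : C1 *ᵥ ((a1 s * (y.2.1 - (y.1 s)ᵀ * (U2ᵀ * (Fᵀ * J * (X * F)) * U2)) +
        c • ((y.2.1 - (y.1 s)ᵀ * (U2ᵀ * (Fᵀ * J * (X * F)) * U2)) * a2 s)) *ᵥ v) = 0 := by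
      apply inj1
      have h2 := congrArg (fun M => M *ᵥ v) (hd.cb s)
      rw [mulVec_mulVec, ← hC1, mulVec_mulVec, Matrix.mul_assoc]
      simpa only [zero_mulVec] using h2
    have h3 : (C1 *ᵥ (a1 s *ᵥ (y.2.1 *ᵥ v)) - (-1 * c) • C1 *ᵥ (y.2.1 *ᵥ (a2 s *ᵥ v))) -
        (C1 *ᵥ (a1 s *ᵥ (((y.1 s)ᵀ * (U2ᵀ * (Fᵀ * J * (X * F)) * U2)) *ᵥ v)) -
          (-1 * c) • C1 *ᵥ (((y.1 s)ᵀ * (U2ᵀ * (Fᵀ * J * (X * F)) * U2)) *ᵥ (a2 s *ᵥ v))) =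
        C1 *ᵥ ((a1 s * (y.2.1 - (y.1 s)ᵀ * (U2ᵀ * (Fᵀ * J * (X * F)) * U2)) +
        c • ((y.2.1 - (y.1 s)ᵀ * (U2ᵀ * (Fᵀ * J * (X * F)) * U2)) * a2 s)) *ᵥ v) := by
      generalize (y.1 s)ᵀ * (U2ᵀ * (Fᵀ * J * (X * F)) * U2) = G
      rw [add_mulVec, smul_mulVec, ← mulVec_mulVec v (a1 s), ← mulVec_mulVec v _ (a2 s),
        sub_mulVec, sub_mulVec, mulVec_add, mulVec_smul, mulVec_sub, mulVec_sub, mulVec_sub]
      rw [neg_one_mul, neg_smul, neg_smul, smul_sub]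
      abel
    rw [h3, h1]
    exact Submodule.zero_mem _

end Crest.Agent.R172.SDesc3
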