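import Crest.Agent.R172.RJP3

/-!
Row 172 (S0260), S-side, L2-f (second copy, helper683): descent of the corrections `β`, `γ` from the
`K^δ`-level modules `W_i` to the quotients `P_i` (`π_i : W_i → P_i` onto), modulo `Z`, `Z2`.
-/

set_option autoImplicit false
set_option linter.unusedSectionVars false

namespace Crest.Agent.R172.SDesc683

open Module TensorProduct
open Crest.Agent.R172.RJM (ev)
open Crest.Agent.R172.RJP3 (evk CorK)

variable {K : Type*} [Field K] {τ : Type*} [Fintype τ]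
variable {P1 P2 W1 W2 : Type*} [AddCommGroup P1] [Module K P1] [AddCommGroup P2] [Module K P2]
  [AddCommGroup W1] [Module K W1] [AddCommGroup W2] [Module K W2]
variable {p1 : W1 →ₗ[K] P1} {p2 : W2 →ₗ[K] P2}

/-- `ev` and the projections -/
theorem ev_map (g : P2 →ₗ[K] P2 →ₗ[K] K) (z : W2 ⊗[K] W1) (u : W2) :
    ev g (TensorProduct.map p2 p1 z) (p2 u) = p1 (ev (g.compl₁₂ p2 p2) z u) := by
  induction z using TensorProduct.induction_on with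
  | zero => simp
  | tmul a b => simp
  | add x y hx hy => simp only [map_add, LinearMap.add_apply, hx, hy]

/-- `evk` and the projections -/
theorem evk_map (g : P1 →ₗ[K] P1 →ₗ[K] K) (z : W2 ⊗[K] W1) (u : W1) :
    evk g (TensorProduct.map p2 p1 z) (p1 u) = p2 (evk (g.compl₁₂ p1 p1) z u) := by
  induction z using TensorProduct.induction_on with
  | zero => simp
  | tmul a b => simp
  | add x y hx hy => simp only [map_add, LinearMap.add_apply, hx, hy]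

/-- a linear map on `W2` whose values are in `Z` on `ker p2` descends modulo `Z` -/
theorem exists_desc (hp2 : Function.Surjective p2) (f : W2 →ₗ[K] P1) {Z : Submodule K P1}
    (hZ : ∀ u, p2 u = 0 → f u ∈ Z) : ∃ b : P2 →ₗ[K] P1, (∀ u, b (p2 u) - f u ∈ Z) ∧
      ∀ p, ∃ u, p2 u = p ∧ b p = f u := by
  obtain ⟨σ, hσ⟩ := p2.exists_rightInverse_of_surjective (LinearMap.range_eq_top.2 hp2)
  have hσ' : ∀ p, p2 (σ p) = p := fun p => congrArg (fun l : P2 →ₗ[K] P2 => l p) hσ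
  refine ⟨f ∘ₗ σ, fun u => ?_, fun p => ⟨σ p, hσ' p, rfl⟩⟩
  rw [LinearMap.comp_apply, ← map_sub]
  exact hZ _ (by rw [map_sub, hσ', sub_self])

section cor

variable {A : τ → End K P1} {B : τ → End K P2} {a : τ → End K W1} {bb : τ → End K W2}

/-- **descent of `β`** -/
theorem exists_cor (hp2 : Function.Surjective p2)
    (h1 : ∀ t u, p1 (a t u) = A t (p1 u)) (h2 : ∀ t u, p2 (bb t u) = B t (p2 u))
    {R1 Z : Submodule K P1} (sZ : ∀ t, ∀ z ∈ Z, A t z ∈ Z) {g : P2 →ₗ[K] P2 →ₗ[K] K} {eps c : K}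
    {x : τ → P2 ⊗[K] P1} {β : W2 →ₗ[K] W1} {e : τ → W2 →ₗ[K] W1}
    (he : ∀ t u, p1 (e t u) = ev g (x t) (p2 u))
    (hR : ∀ u, p1 (β u) ∈ R1) (hZ : ∀ u, p2 u = 0 → p1 (β u) ∈ Z)
    (hc : ∀ t u, p1 (a t (β u) - (eps * c) • β (bb t u)) -
      p1 (a t (e t u) - (eps * c) • e t (bb t u)) ∈ Z) :
    ∃ b : P2 →ₗ[K] P1, RJZ.Cor A B R1 Z g eps c x b ∧ ∀ u, b (p2 u) - p1 (β u) ∈ Z := by
  obtain ⟨b, hb, hb'⟩ := exists_desc hp2 (p1 ∘ₗ β) (Z := Z) (fun u hu => hZ u hu)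
  simp only [LinearMap.comp_apply] at hb hb'
  refine ⟨b, ⟨fun p => ?_, fun t p => ?_⟩, hb⟩
  · obtain ⟨u, -, h⟩ := hb' p
    rw [h]
    exact hR u
  · obtain ⟨u, rfl⟩ := hp2 p
    have e1 : A t (b (p2 u)) - (eps * c) • b (B t (p2 u)) -
        (A t (ev g (x t) (p2 u)) - (eps * c) • ev g (x t) (B t (p2 u))) =
        (A t (b (p2 u) - p1 (β u)) - (eps * c) • (b (p2 (bb t u)) - p1 (β (bb t u)))) +
        (p1 (a t (β u) - (eps * c) • β (bb t u)) -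
          p1 (a t (e t u) - (eps * c) • e t (bb t u))) := by
      rw [← h2, ← he, ← he, ← h1, map_sub p1, map_sub p1, map_smul, map_smul, h1 t (β u), map_sub,
        smul_sub]
      abel
    rw [e1]
    exact Z.add_mem (Z.sub_mem (sZ t _ (hb u)) (Z.smul_mem _ (hb _))) (hc t u)

/-- **descent of `γ`** -/
theorem exists_corK (hp1 : Function.Surjective p1)
    (h1 : ∀ t u, p1 (a t u) = A t (p1 u)) (h2 : ∀ t u, p2 (bb t u) = B t (p2 u))
    {R2 Z2 : Submodule K P2} (sZ : ∀ t, ∀ z ∈ Z2, B t z ∈ Z2) {g1 : P1 →ₗ[K] P1 →ₗ[K] K}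
    {eps c : K} {x : τ → P2 ⊗[K] P1} {γ : W1 →ₗ[K] W2} {e : τ → W1 →ₗ[K] W2}
    (he : ∀ t u, p2 (e t u) = evk g1 (x t) (p1 u))
    (hR : ∀ u, p2 (γ u) ∈ R2) (hZ : ∀ u, p1 u = 0 → p2 (γ u) ∈ Z2)
    (hc : ∀ t u, p2 (eps • (γ (a t u) - e t (a t u)) - c • (bb t (γ u) - bb t (e t u))) ∈ Z2) :
    ∃ k : P1 →ₗ[K] P2, CorK A B R2 Z2 g1 eps c x k ∧ ∀ u, k (p1 u) - p2 (γ u) ∈ Z2 := by
  obtain ⟨k, hk, hk'⟩ := exists_desc (p2 := p1) hp1 (p2 ∘ₗ γ) (Z := Z2) (fun u hu => hZ u hu)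
  simp only [LinearMap.comp_apply] at hk hk'
  refine ⟨k, ⟨fun p => ?_, fun t p => ?_⟩, hk⟩
  · obtain ⟨u, -, h⟩ := hk' p
    rw [h]
    exact hR u
  · obtain ⟨u, rfl⟩ := hp1 p
    have e1 : eps • (k (A t (p1 u)) - evk g1 (x t) (A t (p1 u))) -
        c • (B t (k (p1 u)) - B t (evk g1 (x t) (p1 u))) =
        (eps • (k (p1 (a t u)) - p2 (γ (a t u))) - c • B t (k (p1 u) - p2 (γ u))) +
        p2 (eps • (γ (a t u) - e t (a t u)) - c • (bb t (γ u) - bb t (e t u))) := by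
      rw [← h1, ← he, ← he]
      simp only [map_sub, map_smul, h2, smul_sub]
      abel
    rw [e1]
    exact Z2.add_mem (Z2.sub_mem (Z2.smul_mem _ (hk _)) (Z2.smul_mem _ (sZ t _ (hk u)))) (hc t u)

/-- **descent of the pair `(β, γ)`, the family being the image of `z : τ → W2 ⊗ W1`** -/
theorem exists_pair (hp1 : Function.Surjective p1) (hp2 : Function.Surjective p2)
    (h1 : ∀ t u, p1 (a t u) = A t (p1 u)) (h2 : ∀ t u, p2 (bb t u) = B t (p2 u))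
    {R1 Z : Submodule K P1} {R2 Z2 : Submodule K P2} (sZ : ∀ t, ∀ z ∈ Z, A t z ∈ Z)
    (sZ2 : ∀ t, ∀ z ∈ Z2, B t z ∈ Z2) {g : P2 →ₗ[K] P2 →ₗ[K] K} {g1 : P1 →ₗ[K] P1 →ₗ[K] K}
    {eps c : K} {x : τ → P2 ⊗[K] P1} {z : τ → W2 ⊗[K] W1}
    (hx : ∀ t, TensorProduct.map p2 p1 (z t) = x t) {β : W2 →ₗ[K] W1} {γ : W1 →ₗ[K] W2}
    (hR : ∀ u, p1 (β u) ∈ R1) (hZ : ∀ u, p2 u = 0 → p1 (β u) ∈ Z)
    (hR2 : ∀ u, p2 (γ u) ∈ R2) (hZ2 : ∀ u, p1 u = 0 → p2 (γ u) ∈ Z2)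
    (hc : ∀ t u, p1 (a t (β u - ev (g.compl₁₂ p2 p2) (z t) u) -
      (eps * c) • (β (bb t u) - ev (g.compl₁₂ p2 p2) (z t) (bb t u))) ∈ Z)
    (hc2 : ∀ t u, p2 (eps • (γ (a t u) - evk (g1.compl₁₂ p1 p1) (z t) (a t u)) -
      c • bb t (γ u - evk (g1.compl₁₂ p1 p1) (z t) u)) ∈ Z2) :
    ∃ (b : P2 →ₗ[K] P1) (k : P1 →ₗ[K] P2), RJZ.Cor A B R1 Z g eps c x b ∧
      CorK A B R2 Z2 g1 eps c x k ∧ (∀ u, b (p2 u) - p1 (β u) ∈ Z) ∧
      ∀ u, k (p1 u) - p2 (γ u) ∈ Z2 := by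
  obtain ⟨b, hb1, hb2⟩ := exists_cor (a := a) (bb := bb) (A := A) (B := B) (R1 := R1) (Z := Z)
    (g := g) (eps := eps) (c := c) (x := x) (β := β)
    (e := fun t => ev (g.compl₁₂ p2 p2) (z t)) hp2 h1 h2 sZ
    (fun t u => by rw [← hx t]; exact (ev_map g (z t) u).symm) hR hZ
    (fun t u => by
      have := hc t u
      convert this using 1
      simp only [map_sub, smul_sub]
      abel)
  obtain ⟨k, hk1, hk2⟩ := exists_corK (a := a) (bb := bb) (A := A) (B := B) (R2 := R2) (Z2 := Z2)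
    (g1 := g1) (eps := eps) (c := c) (x := x) (γ := γ)
    (e := fun t => evk (g1.compl₁₂ p1 p1) (z t)) hp1 h1 h2 sZ2
    (fun t u => by rw [← hx t]; exact (evk_map g1 (z t) u).symm) hR2 hZ2
    (fun t u => by
      have := hc2 t u
      rwa [map_sub (bb t)] at this)
  exact ⟨b, k, hb1, hk1, hb2, hk2⟩

end cor

end Crest.Agent.R172.SDesc683
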