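import Crest.Agent.R172.RJZ

/-!
Row 172 (S0260), row L2-f (second copy): descent of the off-diagonal block `β` of the connection from
the U-level `Y2 → Y1` to the V-level `P2 → P1` modulo `Z`, and uniqueness of the correction modulo `Z`.
-/

set_option autoImplicit false
set_option linter.unusedSectionVars false

namespace Crest.Agent.R172.SDesc99

open Module TensorProduct
open Crest.Agent.R172.RJM (DD Ex ev ev_tmul ev_DD)

variable {K : Type*} [Field K] {P1 P2 Y1 Y2 τ : Type*} [AddCommGroup P1] [Module K P1]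
  [AddCommGroup P2] [Module K P2] [AddCommGroup Y1] [Module K Y1] [AddCommGroup Y2] [Module K Y2]
  [Fintype τ]
  {A : τ → End K P1} {B : τ → End K P2} {R1 Z : Submodule K P1}
  {g : P2 →ₗ[K] P2 →ₗ[K] K} {eps c : K} {x : τ → P2 ⊗[K] P1}

/-- transport of `ev` along `π2 ⊗ π1` -/
theorem ev_map (π1 : Y1 →ₗ[K] P1) (π2 : Y2 →ₗ[K] P2) {gY : Y2 →ₗ[K] Y2 →ₗ[K] K}
    (hg : ∀ y y', gY y y' = g (π2 y) (π2 y')) (z : Y2 ⊗[K] Y1) (y : Y2) :
    ev g (TensorProduct.map π2 π1 z) (π2 y) = π1 (ev gY z y) := by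
  induction z using TensorProduct.induction_on with
  | zero => simp
  | tmul a b => simp [hg]
  | add a b ha hb => simp only [map_add, LinearMap.add_apply, ha, hb]

/-- **descent**: a U-level solution gives a V-level correction modulo `Z` -/
theorem descent {π1 : Y1 →ₗ[K] P1} {π2 : Y2 →ₗ[K] P2} (h2 : Function.Surjective π2)
    {bY : τ → End K Y2} (hb : ∀ t y, π2 (bY t y) = B t (π2 y))
    (sZ : ∀ t, ∀ z ∈ Z, A t z ∈ Z) {β : Y2 →ₗ[K] Y1} (hR : ∀ y, π1 (β y) ∈ R1)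
    (hd : ∀ y, π2 y = 0 → π1 (β y) ∈ Z)
    (hrel : ∀ t y, (A t (π1 (β y)) - (eps * c) • π1 (β (bY t y)))
      - (A t (ev g (x t) (π2 y)) - (eps * c) • ev g (x t) (B t (π2 y))) ∈ Z) :
    ∃ b : P2 →ₗ[K] P1, RJZ.Cor A B R1 Z g eps c x b ∧ ∀ y, b (π2 y) - π1 (β y) ∈ Z := by
  obtain ⟨σ, hσ⟩ := LinearMap.exists_rightInverse_of_surjective π2 (LinearMap.range_eq_top.2 h2)
  have hσ' : ∀ p, π2 (σ p) = p := fun p => LinearMap.congr_fun hσ p
  have key : ∀ y, (π1 ∘ₗ β ∘ₗ σ) (π2 y) - π1 (β y) ∈ Z := by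
    intro y
    have h3 : (π1 ∘ₗ β ∘ₗ σ) (π2 y) - π1 (β y) = π1 (β (σ (π2 y) - y)) := by
      simp only [LinearMap.comp_apply, map_sub]
    rw [h3]
    apply hd
    rw [map_sub, hσ', sub_self]
  refine ⟨π1 ∘ₗ β ∘ₗ σ, ⟨fun p => hR _, fun t p => ?_⟩, key⟩
  obtain ⟨y, rfl⟩ := h2 p
  have h4 := hrel t y
  have h5 := sZ t _ (key y)
  have h6 := Z.smul_mem (eps * c) (key (bY t y))
  rw [hb] at h6
  have h7 := Z.sub_mem (Z.add_mem h4 h5) h6
  rw [map_sub, smul_sub] at h7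
  convert h7 using 1
  abel

/-- **uniqueness modulo `Z`** -/
theorem uniq (sZ : ∀ t, ∀ z ∈ Z, A t z ∈ Z) (hB : ⨆ t, LinearMap.range (B t) = ⊤) {m : ℕ}
    (hN : ∀ w : List τ, w.length = m → ∀ r ∈ R1, (w.map A).prod r ∈ Z) {κ : K} (hκ : κ ≠ 0)
    {e : P2 →ₗ[K] P1} (he : ∀ p, e p ∈ R1) (hrel : ∀ t p, A t (e p) - κ • e (B t p) ∈ Z) :
    ∀ p, e p ∈ Z := by
  classical
  have pB : ∀ p : P2, p ∈ ⨆ t, LinearMap.range (B t) := fun p => by rw [hB]; trivial
  -- `W j` = span of the words of length `j` on `R1`, plus `Z`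
  let W : ℕ → Submodule K P1 := fun j =>
    (⨆ w : {w : List τ // w.length = j}, R1.map ((w.1.map A).prod)) ⊔ Z
  have hstep : ∀ j, (∀ p, e p ∈ W j) → ∀ p, e p ∈ W (j + 1) := by
    intro j hj p
    refine Submodule.iSup_induction (fun t => LinearMap.range (B t))
      (motive := fun p => e p ∈ W (j + 1)) (pB p) ?_ (by rw [map_zero]; exact Submodule.zero_mem _)
      (fun a b ha hb => by rw [map_add]; exact Submodule.add_mem _ ha hb)
    rintro t _ ⟨q, rfl⟩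
    have h1 : A t (e q) ∈ W (j + 1) := by
      have h2 : W j ≤ (W (j + 1)).comap (A t) := by
        refine sup_le (iSup_le fun w => ?_) fun z hz => ?_
        · rintro _ ⟨r, hr, rfl⟩
          refine Submodule.mem_sup_left (Submodule.mem_iSup_of_mem ⟨t :: w.1, by simp [w.2]⟩ ?_)
          refine ⟨r, hr, ?_⟩
          simp [Module.End.mul_apply]
        · exact Submodule.mem_sup_right (sZ t z hz)
      exact h2 (hj q)
    have h3 : κ • e (B t q) = A t (e q) - (A t (e q) - κ • e (B t q)) := by abel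
    have h4 : κ • e (B t q) ∈ W (j + 1) := by
      rw [h3]
      exact Submodule.sub_mem _ h1 (Submodule.mem_sup_right (hrel t q))
    have h5 := Submodule.smul_mem _ κ⁻¹ h4
    rwa [smul_smul, inv_mul_cancel₀ hκ, one_smul] at h5
  have hall : ∀ j p, e p ∈ W j := by
    intro j
    induction j with
    | zero =>
      intro p
      refine Submodule.mem_sup_left (Submodule.mem_iSup_of_mem ⟨[], rfl⟩ ⟨e p, he p, ?_⟩)
      simp
    | succ j ih => exact hstep j ih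
  intro p
  have h6 := hall m p
  have h7 : W m ≤ Z := by
    refine sup_le (iSup_le fun w => ?_) le_rfl
    rintro _ ⟨r, hr, rfl⟩
    exact hN w.1 w.2 r hr
  exact h7 h6

/-- two corrections of the same family agree modulo `Z` -/
theorem cor_unique (sZ : ∀ t, ∀ z ∈ Z, A t z ∈ Z) (hB : ⨆ t, LinearMap.range (B t) = ⊤) {m : ℕ}
    (hN : ∀ w : List τ, w.length = m → ∀ r ∈ R1, (w.map A).prod r = 0) (hκ : eps * c ≠ 0)
    {b b' : P2 →ₗ[K] P1} (h : RJZ.Cor A B R1 Z g eps c x b) (h' : RJZ.Cor A B R1 Z g eps c x b') :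
    ∀ p, b p - b' p ∈ Z := by
  refine uniq (e := b - b') sZ hB (m := m)
    (fun w hw r hr => by rw [hN w hw r hr]; exact Z.zero_mem) hκ
    (fun p => R1.sub_mem (h.mem p) (h'.mem p)) fun t p => ?_
  have h1 := Z.sub_mem (h.eq t p) (h'.eq t p)
  simp only [LinearMap.sub_apply, map_sub, smul_sub]
  convert h1 using 1
  abel

/-- descent and uniqueness together: EVERY correction `b` of `x` modulo `Z` is represented by `β` -/
theorem cor_of {π1 : Y1 →ₗ[K] P1} {π2 : Y2 →ₗ[K] P2} (h2 : Function.Surjective π2)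
    {bY : τ → End K Y2} (hb : ∀ t y, π2 (bY t y) = B t (π2 y))
    (sZ : ∀ t, ∀ z ∈ Z, A t z ∈ Z) (hB : ⨆ t, LinearMap.range (B t) = ⊤) {m : ℕ}
    (hN : ∀ w : List τ, w.length = m → ∀ r ∈ R1, (w.map A).prod r = 0) (hκ : eps * c ≠ 0)
    {β : Y2 →ₗ[K] Y1} (hR : ∀ y, π1 (β y) ∈ R1) (hd : ∀ y, π2 y = 0 → π1 (β y) ∈ Z)
    (hrel : ∀ t y, (A t (π1 (β y)) - (eps * c) • π1 (β (bY t y)))
      - (A t (ev g (x t) (π2 y)) - (eps * c) • ev g (x t) (B t (π2 y))) ∈ Z)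
    {b : P2 →ₗ[K] P1} (h : RJZ.Cor A B R1 Z g eps c x b) (y : Y2) : b (π2 y) - π1 (β y) ∈ Z := by
  obtain ⟨b', h', hb'⟩ := descent (g := g) (x := x) h2 hb sZ hR hd hrel
  have h3 := Z.add_mem (cor_unique sZ hB hN hκ h h' (π2 y)) (hb' y)
  convert h3 using 1
  abel

/-- the version in matrices and coordinates (frames `Fin n' → K` of the U-level) -/
theorem descent_mat {n1 n2 n1' n2' : Type*} [Fintype n1] [Fintype n2] [Fintype n1'] [Fintype n2']
    [DecidableEq n1] [DecidableEq n2] [DecidableEq n1'] [DecidableEq n2']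
    {A : τ → Matrix n1 n1 K} {B : τ → Matrix n2 n2 K} {bY : τ → Matrix n2' n2' K}
    {R1 Z : Submodule K (n1 → K)} {g : (n2 → K) →ₗ[K] (n2 → K) →ₗ[K] K}
    {x : τ → (n2 → K) ⊗[K] (n1 → K)} {π1 : Matrix n1 n1' K} {π2 : Matrix n2 n2' K}
    (h2 : ∀ p, ∃ y, π2.mulVec y = p) (hb : ∀ t, π2 * bY t = B t * π2)
    (sZ : ∀ t, ∀ z ∈ Z, (A t).mulVec z ∈ Z) {β : Matrix n1' n2' K}
    (hR : ∀ y, π1.mulVec (β.mulVec y) ∈ R1)
    (hd : ∀ y, π2.mulVec y = 0 → π1.mulVec (β.mulVec y) ∈ Z)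
    (hrel : ∀ t y, ((A t).mulVec (π1.mulVec (β.mulVec y)) -
        (eps * c) • π1.mulVec (β.mulVec ((bY t).mulVec y)))
      - ((A t).mulVec (ev g (x t) (π2.mulVec y)) -
        (eps * c) • ev g (x t) ((B t).mulVec (π2.mulVec y))) ∈ Z) :
    ∃ b : (n2 → K) →ₗ[K] (n1 → K), RJZ.Cor (fun t => (A t).mulVecLin) (fun t => (B t).mulVecLin)
      R1 Z g eps c x b ∧ ∀ y, b (π2.mulVec y) - π1.mulVec (β.mulVec y) ∈ Z :=
  descent (A := fun t => (A t).mulVecLin) (B := fun t => (B t).mulVecLin) (R1 := R1) (Z := Z)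
    (g := g) (x := x) (π1 := π1.mulVecLin) (π2 := π2.mulVecLin) (fun p => h2 p)
    (bY := fun t => (bY t).mulVecLin)
    (fun t y => by
      simp only [Matrix.mulVecLin_apply, Matrix.mulVec_mulVec]
      rw [hb]) sZ (β := β.mulVecLin) hR hd hrel

end Crest.Agent.R172.SDesc99
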