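import Crest.Agent.R172.RJP3

/-!
Row 172 (S0260), (t2), node S-SUX5: translation of the block form of the second derivative
(`second_blocks`, frames `U1`, `U2`) into the letters of `RJM.main`.
-/

set_option autoImplicit false
set_option linter.unusedSectionVars false
set_option linter.unusedFintypeInType false
set_option linter.unusedDecidableInType false

namespace Crest.Agent.R172.SUX5

open Finset TensorProduct Module Matrix
open Crest.Agent.R172.RJM

section T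

variable {K : Type*} [Field K] {P1 P2 : Type*} [AddCommGroup P1] [Module K P1]
  [AddCommGroup P2] [Module K P2] {n1 n2 : Type*} [Fintype n1] [DecidableEq n1] [Fintype n2]
  [DecidableEq n2] (e1 : Basis n1 K P1) (e2 : Basis n2 K P2)

/-- the matrix of a tensor: `tm (p2 ⊗ p1) i j = e2.repr p2 i * e1.repr p1 j` -/
noncomputable def tm : P2 ⊗[K] P1 →ₗ[K] Matrix n2 n1 K :=
  TensorProduct.lift (LinearMap.mk₂ K (fun p2 p1 => vecMulVec (e2.equivFun p2) (e1.equivFun p1))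
    (fun a b p => by rw [map_add, add_vecMulVec]) (fun c a p => by rw [map_smul, smul_vecMulVec])
    (fun a p q => by rw [map_add, vecMulVec_add]) (fun c a p => by rw [map_smul, vecMulVec_smul]))

@[simp] theorem tm_tmul (p2 : P2) (p1 : P1) :
    tm e1 e2 (p2 ⊗ₜ[K] p1) = vecMulVec (e2.equivFun p2) (e1.equivFun p1) := by
  simp [tm]

theorem toMatrix_repr (b : P2 →ₗ[K] P1) (p : P2) :
    LinearMap.toMatrix e2 e1 b *ᵥ e2.equivFun p = e1.equivFun (b p) := by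
  have := LinearMap.toMatrix_mulVec_repr e2 e1 b p
  exact this

theorem tm_map (b : P2 →ₗ[K] P1) (z : P2 ⊗[K] P1) :
    LinearMap.toMatrix e2 e1 b * tm e1 e2 z =
      TensorProduct.lift (LinearMap.mk₂ K (fun p2 p1 => vecMulVec (e1.equivFun (b p2))
        (e1.equivFun p1))
    (fun a b p => by rw [map_add, map_add, add_vecMulVec])
    (fun c a p => by rw [map_smul, map_smul, smul_vecMulVec])
    (fun a p q => by rw [map_add, vecMulVec_add])
    (fun c a p => by rw [map_smul, vecMulVec_smul])) z := by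
  induction z using TensorProduct.induction_on with
  | zero => simp
  | tmul x y =>
    rw [tm_tmul, mul_vecMulVec, toMatrix_repr]
    simp
  | add x y hx hy => rw [map_add, Matrix.mul_add, hx, hy, map_add]

theorem toMatrix_ev (g : P2 →ₗ[K] P2 →ₗ[K] K) {G : Matrix n2 n2 K}
    (hG : ∀ i j, g (e2 i) (e2 j) = G i j) (z : P2 ⊗[K] P1) :
    LinearMap.toMatrix e2 e1 (ev g z) = (tm e1 e2 z)ᵀ * G := by
  induction z using TensorProduct.induction_on with
  | zero => simp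
  | tmul x y =>
    ext i j
    rw [LinearMap.toMatrix_apply, ev_tmul, tm_tmul, transpose_vecMulVec, map_smul,
      Finsupp.smul_apply, Matrix.mul_apply]
    have h1 : g x (e2 j) = ∑ k, e2.equivFun x k * G k j := by
      conv_lhs => rw [← e2.sum_equivFun x]
      rw [map_sum, LinearMap.sum_apply]
      refine Finset.sum_congr rfl fun k _ => ?_
      rw [map_smul, LinearMap.smul_apply, hG, smul_eq_mul]
    rw [h1, smul_eq_mul, Finset.sum_mul]
    refine Finset.sum_congr rfl fun k _ => ?_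
    rw [vecMulVec_apply]
    change _ * e1.repr y i = e1.repr y i * _ * _
    ring
  | add x y hx hy => rw [map_add, map_add, hx, hy, map_add, transpose_add, Matrix.add_mul]

end T


section Q

variable {K : Type*} [Field K] {ι δ : Type*} [Fintype ι] [DecidableEq ι] [Fintype δ]
  [DecidableEq δ]

/-- `M ↦ F (U M Vᵀ) S E` -/
noncomputable def qm {n m : Type*} [Fintype n] [Fintype m] (F : Matrix ι δ K) (U : Matrix δ n K)
    (V : Matrix δ m K) (S E : Matrix δ δ K) : Matrix n m K →ₗ[K] Matrix ι δ K where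
  toFun M := F * (U * M * Vᵀ) * S * E
  map_add' M M' := by simp only [Matrix.mul_add, Matrix.add_mul]
  map_smul' c M := by
    simp only [Matrix.mul_smul, Matrix.smul_mul, RingHom.id_apply]

theorem qm_apply {n m : Type*} [Fintype n] [Fintype m] (F : Matrix ι δ K) (U : Matrix δ n K)
    (V : Matrix δ m K) (S E : Matrix δ δ K) (M : Matrix n m K) :
    qm F U V S E M = F * (U * M * Vᵀ) * S * E := rfl

variable {P1 P2 : Type*} [AddCommGroup P1] [Module K P1]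
  [AddCommGroup P2] [Module K P2] {n1 n2 : Type*} [Fintype n1] [DecidableEq n1] [Fintype n2]
  [DecidableEq n2] (e1 : Basis n1 K P1) (e2 : Basis n2 K P2)

/-- the bilinear map `q` : `q p p' = F (U p) (U p')ᵀ S E` -/
noncomputable def qb {X : Type*} [AddCommGroup X] [Module K X] (L : Matrix n1 n1 K →ₗ[K] X) :
    P1 →ₗ[K] P1 →ₗ[K] X :=
  LinearMap.mk₂ K (fun p p' => L (vecMulVec (e1.equivFun p) (e1.equivFun p')))
    (fun a b p => by rw [map_add, add_vecMulVec, map_add])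
    (fun c a p => by rw [map_smul, smul_vecMulVec, map_smul])
    (fun a p q => by rw [map_add, vecMulVec_add, map_add])
    (fun c a p => by rw [map_smul, vecMulVec_smul, map_smul])

@[simp] theorem qb_apply {X : Type*} [AddCommGroup X] [Module K X] (L : Matrix n1 n1 K →ₗ[K] X)
    (p p' : P1) : qb e1 L p p' = L (vecMulVec (e1.equivFun p) (e1.equivFun p')) := rfl

/-- first term -/
theorem lift_left {X : Type*} [AddCommGroup X] [Module K X] (L : Matrix n1 n1 K →ₗ[K] X)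
    (b : P2 →ₗ[K] P1) (z : P2 ⊗[K] P1) :
    TensorProduct.lift ((qb e1 L) ∘ₗ b) z = L (LinearMap.toMatrix e2 e1 b * tm e1 e2 z) := by
  induction z using TensorProduct.induction_on with
  | zero => simp
  | tmul x y =>
    rw [tm_tmul, mul_vecMulVec, toMatrix_repr]
    simp
  | add x y hx hy => rw [map_add, map_add, Matrix.mul_add, hx, hy, map_add]

/-- second term -/
theorem lift_right {X : Type*} [AddCommGroup X] [Module K X] (L : Matrix n1 n1 K →ₗ[K] X)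
    (b : P2 →ₗ[K] P1) (z : P2 ⊗[K] P1) :
    TensorProduct.lift ((qb e1 L).flip ∘ₗ b) z =
      L ((tm e1 e2 z)ᵀ * (LinearMap.toMatrix e2 e1 b)ᵀ) := by
  induction z using TensorProduct.induction_on with
  | zero => simp
  | tmul x y =>
    rw [tm_tmul, transpose_vecMulVec, vecMulVec_mul, vecMul_transpose, toMatrix_repr]
    simp
  | add x y hx hy => rw [map_add, map_add, transpose_add, Matrix.add_mul, hx, hy, map_add]

/-- third term -/
theorem lift_ev {X : Type*} [AddCommGroup X] [Module K X] (L : Matrix n1 n1 K →ₗ[K] X)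
    (g : P2 →ₗ[K] P2 →ₗ[K] K) {G : Matrix n2 n2 K} (hG : ∀ i j, g (e2 i) (e2 j) = G i j)
    (z z' : P2 ⊗[K] P1) :
    TensorProduct.lift ((qb e1 L) ∘ₗ (ev g z')) z =
      L ((tm e1 e2 z')ᵀ * G * tm e1 e2 z) := by
  rw [lift_left e1 e2, toMatrix_ev e1 e2 g hG]

/-- **the `(1,1)`-part of the second derivative is the relation of `RJM.main`** -/
theorem part11 {X : Type*} [AddCommGroup X] [Module K X] {τ : Type*} [Fintype τ]
    (L : τ → Matrix n1 n1 K →ₗ[K] X) (g : P2 →ₗ[K] P2 →ₗ[K] K) {G : Matrix n2 n2 K}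
    (hG : ∀ i j, g (e2 i) (e2 j) = G i j) (x x' : τ → P2 ⊗[K] P1) (b b' : P2 →ₗ[K] P1) :
    ∑ t, L t (LinearMap.toMatrix e2 e1 b' * tm e1 e2 (x t)
        - (tm e1 e2 (x' t))ᵀ * G * tm e1 e2 (x t)
        - (tm e1 e2 (x' t))ᵀ * (LinearMap.toMatrix e2 e1 b)ᵀ) =
      ∑ t, ((1 : K) • TensorProduct.lift ((qb e1 (L t)) ∘ₗ b') (x t)
        + (-1 : K) • TensorProduct.lift ((qb e1 (L t)).flip ∘ₗ b) (x' t)
        + (-1 : K) • TensorProduct.lift ((qb e1 (L t)) ∘ₗ (ev g (x' t))) (x t)) := by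
  refine Finset.sum_congr rfl fun t _ => ?_
  rw [lift_left e1 e2, lift_right e1 e2, lift_ev e1 e2 _ g hG, map_sub, map_sub]
  module

end Q


section S

variable {K : Type*} [Field K] {ι δ : Type*} [Fintype ι] [DecidableEq ι] [Fintype δ]
  [DecidableEq δ]
variable {P1 P2 : Type*} [AddCommGroup P1] [Module K P1]
  [AddCommGroup P2] [Module K P2] {n1 n2 : Type*} [Fintype n1] [DecidableEq n1] [Fintype n2]
  [DecidableEq n2] (e1 : Basis n1 K P1) (e2 : Basis n2 K P2) {τ : Type*} [Fintype τ]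

/-- the `(2,2)`-part as a function of two triples `(x, b, k)`, linear in the second one -/
noncomputable def F2 {X : Type*} [AddCommGroup X] [Module K X]
    (L2 : τ → Matrix n2 n2 K →ₗ[K] X) (G1 : Matrix n1 n1 K)
    (u : RJP.Pr K P1 P2 τ × (P1 →ₗ[K] P2)) :
    (RJP.Pr K P1 P2 τ × (P1 →ₗ[K] P2)) →ₗ[K] X where
  toFun v := ∑ t, L2 t (tm e1 e2 (u.1.1 t) * (LinearMap.toMatrix e1 e2 v.2)ᵀ
    + tm e1 e2 (u.1.1 t) * G1 * (tm e1 e2 (v.1.1 t))ᵀ
    - LinearMap.toMatrix e1 e2 u.2 * (tm e1 e2 (v.1.1 t))ᵀ)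
  map_add' v v' := by
    rw [← Finset.sum_add_distrib]
    refine Finset.sum_congr rfl fun t _ => ?_
    simp only [Prod.fst_add, Prod.snd_add, Pi.add_apply, map_add, transpose_add, Matrix.mul_add,
      map_sub]
    abel
  map_smul' c v := by
    rw [RingHom.id_apply, Finset.smul_sum]
    refine Finset.sum_congr rfl fun t _ => ?_
    simp only [Prod.smul_fst, Prod.smul_snd, Pi.smul_apply, map_smul, transpose_smul,
      Matrix.mul_smul, map_sub, map_add, smul_sub, smul_add]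

/-- `F2` in the form of the conclusion of `second_blocks` -/
theorem F2_apply {X : Type*} [AddCommGroup X] [Module K X]
    (L2 : τ → Matrix n2 n2 K →ₗ[K] X) (G1 : Matrix n1 n1 K) (x x' : τ → P2 ⊗[K] P1)
    (b b' : P2 →ₗ[K] P1) (k k' : P1 →ₗ[K] P2) :
    F2 e1 e2 L2 G1 ((x, b), k) ((x', b'), k') =
      ∑ t, L2 t (tm e1 e2 (x t) * (LinearMap.toMatrix e1 e2 k')ᵀ
    + tm e1 e2 (x t) * G1 * (tm e1 e2 (x' t))ᵀ
    - LinearMap.toMatrix e1 e2 k * (tm e1 e2 (x' t))ᵀ) := rfl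

/-- **the relation of `RJP3.main` from the block form of the second derivative** -/
theorem hrel_of {QQ : Submodule K (Matrix ι δ K)} {F : Matrix ι δ K} {U1 : Matrix δ n1 K}
    {U2 : Matrix δ n2 K} {S0 : Matrix δ δ K} {Ea : τ → Matrix δ δ K} {c1 c2 : K} (hc1 : c1 ≠ 0)
    (hc2 : c2 ≠ 0) (g : P2 →ₗ[K] P2 →ₗ[K] K) (hg : ∀ i j, g (e2 i) (e2 j) = (U2ᵀ * S0 * U2) i j)
    (x x' : τ → P2 ⊗[K] P1) (b b' : P2 →ₗ[K] P1) (k k' : P1 →ₗ[K] P2)
    {M21 : τ → Matrix n2 n1 K} {m12 : K}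
    (h21 : ∑ s, F * (U2 * M21 s * U1ᵀ) * S0 * Ea s ∈ QQ)
    (h12 : ∑ s, F * (U1 * (tm e1 e2 (x' s))ᵀ * U2ᵀ) * S0 * Ea s ∈ QQ)
    (hb : ∑ s, F * ((c1 * c2) • (U1 * (LinearMap.toMatrix e2 e1 b' * tm e1 e2 (x s)
          - (tm e1 e2 (x' s))ᵀ * (U2ᵀ * S0 * U2) * tm e1 e2 (x s)
          - (tm e1 e2 (x' s))ᵀ * (LinearMap.toMatrix e2 e1 b)ᵀ) * U1ᵀ)
        + c2 ^ 2 • (U2 * (tm e1 e2 (x s) * (LinearMap.toMatrix e1 e2 k')ᵀ
          + tm e1 e2 (x s) * (U1ᵀ * S0 * U1) * (tm e1 e2 (x' s))ᵀ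
          - LinearMap.toMatrix e1 e2 k * (tm e1 e2 (x' s))ᵀ) * U2ᵀ)
        + U2 * M21 s * U1ᵀ
        + m12 • (U1 * (tm e1 e2 (x' s))ᵀ * U2ᵀ)) * S0 * Ea s ∈ QQ) :
    ∑ t, ((1 : K) • TensorProduct.lift ((qb e1 (qm F U1 U1 S0 (Ea t))) ∘ₗ b') (x t)
        + (-1 : K) • TensorProduct.lift ((qb e1 (qm F U1 U1 S0 (Ea t))).flip ∘ₗ b) (x' t)
        + (-1 : K) • TensorProduct.lift ((qb e1 (qm F U1 U1 S0 (Ea t))) ∘ₗ (ev g (x' t))) (x t))
      + (c2 / c1) • F2 e1 e2 (fun t => qm F U2 U2 S0 (Ea t)) (U1ᵀ * S0 * U1) ((x, b), k)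
        ((x', b'), k') ∈ QQ := by
  rw [← part11 e1 e2 (fun t => qm F U1 U1 S0 (Ea t)) g hg x x' b b', F2_apply]
  have h2 : ∑ s, m12 • (F * (U1 * (tm e1 e2 (x' s))ᵀ * U2ᵀ) * S0 * Ea s) ∈ QQ := by
    rw [← Finset.smul_sum]
    exact QQ.smul_mem _ h12
  have h3 := QQ.smul_mem ((c1 * c2)⁻¹) (QQ.sub_mem (QQ.sub_mem hb h21) h2)
  convert h3 using 1
  rw [← Finset.sum_sub_distrib, ← Finset.sum_sub_distrib, Finset.smul_sum, Finset.smul_sum,
    ← Finset.sum_add_distrib]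
  refine Finset.sum_congr rfl fun s _ => ?_
  simp only [qm_apply, Matrix.mul_add, Matrix.add_mul, Matrix.mul_smul, Matrix.smul_mul]
  have e : (c2 / c1) = (c1 * c2)⁻¹ * c2 ^ 2 := by field_simp
  have e' : (c1 * c2)⁻¹ * (c1 * c2) = 1 := by field_simp
  rw [show ∀ a b c d : Matrix ι δ K, a + b + c + d - c - d = a + b from fun a b c d => by abel,
    smul_add, smul_smul, smul_smul, e', ← e, one_smul]

end S

section LL

variable {K Y G E : Type*} [Field K] [AddCommGroup Y] [Module K Y] [AddCommGroup G] [Module K G]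
  [AddCommGroup E] [Module K E]

/-- finite chains of the pencil `al - c be` modulo `𝓡` -/
structure Chn (al be : Y →ₗ[K] G) (𝓡 : Submodule K G) (Z : ℕ → Y) (n : ℕ) : Prop where
  h0 : al (Z 0) ∈ 𝓡
  h1 : ∀ k, al (Z (k + 1)) - be (Z k) ∈ 𝓡
  hn : ∀ k, n ≤ k → Z k = 0

/-- the space spanned by all members of all chains -/
def LL (al be : Y →ₗ[K] G) (𝓡 : Submodule K G) : Submodule K Y :=
  Submodule.span K {y | ∃ Z n k, Chn al be 𝓡 Z n ∧ y = Z k}

theorem mkQ_eq {𝓡 : Submodule K G} {a b : G} : 𝓡.mkQ a = 𝓡.mkQ b ↔ a - b ∈ 𝓡 :=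
  Submodule.Quotient.eq _

theorem LL_exact [FiniteDimensional K Y] (al be : Y →ₗ[K] G) (𝓡 : Submodule K G) :
    ∃ S : Set K, S.Finite ∧ ∀ c ∉ S, ∀ y, al y - c • be y ∈ 𝓡 → y ∈ LL al be 𝓡 := by
  obtain ⟨S, hS, n, hp⟩ := Pencil.pencil (𝓡.mkQ ∘ₗ al) (𝓡.mkQ ∘ₗ be)
  refine ⟨S, hS, fun c hc y hy => ?_⟩
  obtain ⟨Z, z0, z1, z2, rfl⟩ := hp c hc y (by
    change 𝓡.mkQ (al y) = c • 𝓡.mkQ (be y)
    rw [← map_smul, mkQ_eq]
    exact hy)
  refine Submodule.sum_mem _ fun k _ => Submodule.smul_mem _ _ (Submodule.subset_span ⟨Z, n, k, ?_, rfl⟩)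
  refine ⟨?_, fun k => ?_, z2⟩
  · have h : 𝓡.mkQ (al (Z 0)) = 𝓡.mkQ 0 := by rw [map_zero]; exact z0
    rw [mkQ_eq, sub_zero] at h
    exact h
  · exact mkQ_eq.1 (z1 k)

theorem LL_first (al be : Y →ₗ[K] G) (𝓡 : Submodule K G) (Q : Submodule K E)
    (i1 i2 : Y →ₗ[K] E) {R : Set K} (hR : R.Infinite)
    (hrel : ∀ r ∈ R, ∀ y, al y - r ^ 2 • be y ∈ 𝓡 → i1 y + r • i2 y ∈ Q) :
    ∀ y ∈ LL al be 𝓡, i1 y ∈ Q ∧ i2 y ∈ Q := by
  have key : ∀ Z n, Chn al be 𝓡 Z n → ∀ k, i1 (Z k) ∈ Q ∧ i2 (Z k) ∈ Q := by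
    intro Z n hZ k
    by_cases hk : n ≤ k
    · rw [hZ.hn k hk, map_zero, map_zero]
      exact ⟨Q.zero_mem, Q.zero_mem⟩
    · have hv := SepC.vander Q (2 * n)
        (fun j => if j % 2 = 0 then i1 (Z (j / 2)) else i2 (Z (j / 2))) R hR ?_
      · constructor
        · have := hv (2 * k) (by omega)
          simpa using this
        · have := hv (2 * k + 1) (by omega)
          have e1 : (2 * k + 1) % 2 = 1 := by omega
          have e2 : (2 * k + 1) / 2 = k := by omega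
          simpa [e1, e2] using this
      · intro r hr
        have h0 : (𝓡.mkQ ∘ₗ al) (Z 0) = 0 := by
          change 𝓡.mkQ (al (Z 0)) = 0
          rw [← map_zero 𝓡.mkQ, mkQ_eq, sub_zero]
          exact hZ.h0
        have h1 : ∀ k, (𝓡.mkQ ∘ₗ al) (Z (k + 1)) = (𝓡.mkQ ∘ₗ be) (Z k) := fun k =>
          mkQ_eq.2 (hZ.h1 k)
        have h3 := RJP.exact_of_chain h0 h1 hZ.hn (r ^ 2)
        have h4 := hrel r hr (∑ k ∈ range n, (r ^ 2) ^ k • Z k) (by
          rw [← map_smul] at h3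
          rw [← map_smul, ← mkQ_eq]
          exact h3)
        have key : ∀ m, ∑ k ∈ range (2 * m), r ^ k • (if k % 2 = 0 then i1 (Z (k / 2))
              else i2 (Z (k / 2)))
            = i1 (∑ k ∈ range m, (r ^ 2) ^ k • Z k)
              + r • i2 (∑ k ∈ range m, (r ^ 2) ^ k • Z k) := by
          intro m
          induction m with
          | zero => simp
          | succ m ih =>
            have e1 : (2 * m) % 2 = 0 := by omega
            have e2 : (2 * m + 1) % 2 = 1 := by omega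
            have e3 : (2 * m) / 2 = m := by omega
            have e4 : (2 * m + 1) / 2 = m := by omega
            rw [show 2 * (m + 1) = 2 * m + 1 + 1 by ring, Finset.sum_range_succ,
              Finset.sum_range_succ, ih, e1, e2, e3, e4]
            have e5 : i1 (∑ k ∈ range (m + 1), (r ^ 2) ^ k • Z k)
                = i1 (∑ k ∈ range m, (r ^ 2) ^ k • Z k) + (r ^ 2) ^ m • i1 (Z m) := by
              rw [Finset.sum_range_succ, map_add, map_smul]
            have e6 : i2 (∑ k ∈ range (m + 1), (r ^ 2) ^ k • Z k)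
                = i2 (∑ k ∈ range m, (r ^ 2) ^ k • Z k) + (r ^ 2) ^ m • i2 (Z m) := by
              rw [Finset.sum_range_succ, map_add, map_smul]
            rw [e5, e6, if_pos rfl, if_neg (by norm_num), ← pow_mul, smul_add, smul_smul,
              ← pow_succ' r (2 * m)]
            abel
        rw [key]
        exact h4
  intro y hy
  induction hy using Submodule.span_induction with
  | mem y h =>
    obtain ⟨Z, n, k, hZ, rfl⟩ := h
    exact key Z n hZ k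
  | zero => rw [map_zero, map_zero]; exact ⟨Q.zero_mem, Q.zero_mem⟩
  | add a b _ _ ha hb =>
    rw [map_add, map_add]
    exact ⟨Q.add_mem ha.1 hb.1, Q.add_mem ha.2 hb.2⟩
  | smul c a _ ha =>
    rw [map_smul, map_smul]
    exact ⟨Q.smul_mem _ ha.1, Q.smul_mem _ ha.2⟩

/-- the connection on the space of chain members -/
theorem LL_nab (al be : Y →ₗ[K] G) (𝓡 : Submodule K G) (N : Y → Y) (M : G → G) (dd : K → K)
    (Nadd : ∀ x y, N (x + y) = N x + N y) (Nsmul : ∀ (c : K) y, N (c • y) = dd c • y + c • N y)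
    (Madd : ∀ x y, M (x + y) = M x + M y) (MR : ∀ x ∈ 𝓡, M x ∈ 𝓡) (m1 m2 : K)
    (h1 : ∀ y, al (N y) = M (al y) - m1 • al y) (h2 : ∀ y, be (N y) = M (be y) - m2 • be y) :
    ∀ y ∈ LL al be 𝓡, N y ∈ LL al be 𝓡 := by
  have N0 : N 0 = 0 := by
    have := Nadd 0 0
    rw [add_zero] at this
    exact left_eq_add.1 this
  have M0 : M 0 = 0 := by
    have := Madd 0 0
    rw [add_zero] at this
    exact left_eq_add.1 this
  have Mneg : ∀ x, M (-x) = - M x := by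
    intro x
    have := Madd x (-x)
    rw [add_neg_cancel, M0] at this
    exact (neg_eq_of_add_eq_zero_right this.symm).symm
  have key : ∀ Z n, Chn al be 𝓡 Z n →
      Chn al be 𝓡 (fun k => N (Z k) + ((k : K) * (m1 - m2)) • Z k) n := by
    intro Z n hZ
    refine ⟨?_, fun k => ?_, fun k hk => ?_⟩
    · simp only [Nat.cast_zero, zero_mul, zero_smul, add_zero]
      rw [h1]
      exact 𝓡.sub_mem (MR _ hZ.h0) (𝓡.smul_mem _ hZ.h0)
    · have e := MR _ (hZ.h1 k)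
      rw [sub_eq_add_neg, Madd, Mneg] at e
      have e2 := 𝓡.smul_mem ((k : K) * (m1 - m2) - m2) (hZ.h1 k)
      have e3 := 𝓡.add_mem e e2
      convert e3 using 1
      rw [map_add, map_add, map_smul, map_smul, h1, h2]
      push_cast
      module
    · rw [hZ.hn k hk, N0, smul_zero, add_zero]
  intro y hy
  induction hy using Submodule.span_induction with
  | mem y h =>
    obtain ⟨Z, n, k, hZ, rfl⟩ := h
    have e1 : N (Z k) + ((k : K) * (m1 - m2)) • Z k ∈ LL al be 𝓡 :=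
      Submodule.subset_span ⟨_, n, k, key Z n hZ, rfl⟩
    have e2 : Z k ∈ LL al be 𝓡 := Submodule.subset_span ⟨Z, n, k, hZ, rfl⟩
    have := Submodule.sub_mem _ e1 (Submodule.smul_mem _ ((k : K) * (m1 - m2)) e2)
    rwa [add_sub_cancel_right] at this
  | zero => rw [N0]; exact Submodule.zero_mem _
  | add a b _ _ ha hb => rw [Nadd]; exact Submodule.add_mem _ ha hb
  | smul c a ha' ha =>
    rw [Nsmul]
    exact Submodule.add_mem _ (Submodule.smul_mem _ _ ha') (Submodule.smul_mem _ _ ha)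

end LL

section Nab

variable {K : Type*} [Field K] {k : Type*} [Field k] [Algebra k K]
variable {P1 P2 : Type*} [AddCommGroup P1] [Module K P1]
  [AddCommGroup P2] [Module K P2] {n1 n2 : Type*} [Fintype n1] [DecidableEq n1] [Fintype n2]
  [DecidableEq n2] (e1 : Basis n1 K P1) (e2 : Basis n2 K P2) {τ : Type*} [Fintype τ]

theorem tm_injective : Function.Injective (tm e1 e2) := by
  have h : Function.Surjective (tm e1 e2) := by
    intro M
    refine ⟨∑ i, ∑ j, M i j • (e2 i ⊗ₜ[K] e1 j), ?_⟩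
    rw [map_sum]
    ext a b
    rw [Matrix.sum_apply]
    have : ∀ i, (tm e1 e2 (∑ j, M i j • (e2 i ⊗ₜ[K] e1 j))) a b =
        if i = a then M a b else 0 := by
      intro i
      rw [map_sum, Matrix.sum_apply]
      rw [Finset.sum_eq_single b]
      · rw [map_smul, tm_tmul, Matrix.smul_apply, vecMulVec_apply]
        simp only [Basis.equivFun_self]
        by_cases h : i = a
        · subst h; simp
        · simp [h]
      · intro j _ hj
        rw [map_smul, tm_tmul, Matrix.smul_apply, vecMulVec_apply]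
        simp only [Basis.equivFun_self]
        simp [hj]
      · intro h; exact absurd (Finset.mem_univ _) h
    rw [Finset.sum_congr rfl fun i _ => this i]
    simp
  have : FiniteDimensional K P1 := e1.finiteDimensional_of_finite
  have : FiniteDimensional K P2 := e2.finiteDimensional_of_finite
  have hd : finrank K (P2 ⊗[K] P1) = finrank K (Matrix n2 n1 K) := by
    rw [finrank_tensorProduct, finrank_eq_card_basis e1, finrank_eq_card_basis e2,
      finrank_matrix, finrank_self, mul_one]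
  exact (LinearMap.injective_iff_surjective_of_finrank_eq_finrank hd).2 h

theorem tm_surjective : Function.Surjective (tm e1 e2) := by
  have : FiniteDimensional K P1 := e1.finiteDimensional_of_finite
  have : FiniteDimensional K P2 := e2.finiteDimensional_of_finite
  have hd : finrank K (P2 ⊗[K] P1) = finrank K (Matrix n2 n1 K) := by
    rw [finrank_tensorProduct, finrank_eq_card_basis e1, finrank_eq_card_basis e2,
      finrank_matrix, finrank_self, mul_one]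
  exact (LinearMap.injective_iff_surjective_of_finrank_eq_finrank hd).1 (tm_injective e1 e2)

/-- `tm` as an equivalence -/
noncomputable def tmE : P2 ⊗[K] P1 ≃ₗ[K] Matrix n2 n1 K :=
  LinearEquiv.ofBijective (tm e1 e2) ⟨tm_injective e1 e2, tm_surjective e1 e2⟩

theorem tmE_apply (z : P2 ⊗[K] P1) : tmE e1 e2 z = tm e1 e2 z := rfl

theorem tm_lTensor (f : End K P1) (z : P2 ⊗[K] P1) :
    tm e1 e2 (f.lTensor P2 z) = tm e1 e2 z * (LinearMap.toMatrix e1 e1 f)ᵀ := by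
  induction z using TensorProduct.induction_on with
  | zero => simp
  | tmul x y =>
    rw [LinearMap.lTensor_tmul, tm_tmul, tm_tmul, vecMulVec_mul, vecMul_transpose, toMatrix_repr]
  | add x y hx hy => rw [map_add, map_add, hx, hy, map_add, Matrix.add_mul]

theorem tm_rTensor (f : End K P2) (z : P2 ⊗[K] P1) :
    tm e1 e2 (f.rTensor P1 z) = LinearMap.toMatrix e2 e2 f * tm e1 e2 z := by
  induction z using TensorProduct.induction_on with
  | zero => simp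
  | tmul x y =>
    rw [LinearMap.rTensor_tmul, tm_tmul, tm_tmul, mul_vecMulVec, toMatrix_repr]
  | add x y hx hy => rw [map_add, map_add, hx, hy, map_add, Matrix.mul_add]

variable (d : Derivation k K K) (Γ1 : Matrix n1 n1 K) (Γ2 : Matrix n2 n2 K)

/-- the connection on matrices -/
def nM (X : Matrix n2 n1 K) : Matrix n2 n1 K := Γ2 * X + X.map d + X * Γ1ᵀ

/-- the connection on tensors -/
noncomputable def nT (z : P2 ⊗[K] P1) : P2 ⊗[K] P1 := (tmE e1 e2).symm (nM d Γ1 Γ2 (tm e1 e2 z))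

theorem tm_nT (z : P2 ⊗[K] P1) : tm e1 e2 (nT e1 e2 d Γ1 Γ2 z) = nM d Γ1 Γ2 (tm e1 e2 z) :=
  (tmE e1 e2).apply_symm_apply _

theorem map_add_d (X Y : Matrix n2 n1 K) : (X + Y).map d = X.map d + Y.map d := by
  ext i j; simp

theorem map_smul_d (c : K) (X : Matrix n2 n1 K) : (c • X).map d = d c • X + c • X.map d := by
  ext i j
  simp only [Matrix.map_apply, Matrix.smul_apply, Matrix.add_apply, smul_eq_mul,
    Derivation.leibniz]
  ring

theorem map_mul_d {a b c : Type*} [Fintype b] (X : Matrix a b K) (Y : Matrix b c K) :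
    (X * Y).map d = X.map d * Y + X * Y.map d := by
  ext i j
  simp only [Matrix.map_apply, Matrix.mul_apply, Matrix.add_apply, map_sum, Derivation.leibniz,
    smul_eq_mul]
  rw [← Finset.sum_add_distrib]
  refine Finset.sum_congr rfl fun l _ => ?_
  ring

theorem nM_add (X Y : Matrix n2 n1 K) : nM d Γ1 Γ2 (X + Y) = nM d Γ1 Γ2 X + nM d Γ1 Γ2 Y := by
  unfold nM
  rw [map_add_d, Matrix.mul_add, Matrix.add_mul]
  abel

theorem nM_smul (c : K) (X : Matrix n2 n1 K) :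
    nM d Γ1 Γ2 (c • X) = d c • X + c • nM d Γ1 Γ2 X := by
  unfold nM
  rw [map_smul_d, Matrix.mul_smul, Matrix.smul_mul, smul_add, smul_add]
  abel

theorem nT_add (x y : P2 ⊗[K] P1) :
    nT e1 e2 d Γ1 Γ2 (x + y) = nT e1 e2 d Γ1 Γ2 x + nT e1 e2 d Γ1 Γ2 y := by
  unfold nT
  rw [map_add, nM_add, map_add]

theorem nT_smul (c : K) (x : P2 ⊗[K] P1) :
    nT e1 e2 d Γ1 Γ2 (c • x) = d c • x + c • nT e1 e2 d Γ1 Γ2 x := by
  unfold nT
  rw [map_smul, nM_smul, map_add, map_smul, map_smul, ← tmE_apply, LinearEquiv.symm_apply_apply]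

theorem nT_zero : nT e1 e2 d Γ1 Γ2 (0 : P2 ⊗[K] P1) = 0 := by
  have := nT_add e1 e2 d Γ1 Γ2 (0 : P2 ⊗[K] P1) 0
  rw [add_zero] at this
  exact left_eq_add.1 this

theorem nT_left {f : End K P1} {m1 : K}
    (h : (LinearMap.toMatrix e1 e1 f).map d + Γ1 * LinearMap.toMatrix e1 e1 f
      - LinearMap.toMatrix e1 e1 f * Γ1 = m1 • LinearMap.toMatrix e1 e1 f) (z : P2 ⊗[K] P1) :
    f.lTensor P2 (nT e1 e2 d Γ1 Γ2 z) = nT e1 e2 d Γ1 Γ2 (f.lTensor P2 z) - m1 • f.lTensor P2 z := by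
  apply tm_injective e1 e2
  rw [map_sub, map_smul, tm_nT, tm_lTensor, tm_lTensor, tm_nT]
  unfold nM
  rw [map_mul_d]
  set φ := LinearMap.toMatrix e1 e1 f
  have h' : (φ.map d)ᵀ + φᵀ * Γ1ᵀ - Γ1ᵀ * φᵀ = m1 • φᵀ := by
    have := congrArg Matrix.transpose h
    simpa [transpose_mul] using this
  have e : φᵀ.map d = (φ.map d)ᵀ := rfl
  rw [e, ← Matrix.mul_smul, ← h', Matrix.mul_sub, Matrix.mul_add, Matrix.add_mul, Matrix.add_mul]
  simp only [Matrix.mul_assoc]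
  abel

theorem nT_right {f : End K P2} {m2 : K}
    (h : (LinearMap.toMatrix e2 e2 f).map d + Γ2 * LinearMap.toMatrix e2 e2 f
      - LinearMap.toMatrix e2 e2 f * Γ2 = m2 • LinearMap.toMatrix e2 e2 f) (z : P2 ⊗[K] P1) :
    f.rTensor P1 (nT e1 e2 d Γ1 Γ2 z) = nT e1 e2 d Γ1 Γ2 (f.rTensor P1 z) - m2 • f.rTensor P1 z := by
  apply tm_injective e1 e2
  rw [map_sub, map_smul, tm_nT, tm_rTensor, tm_rTensor, tm_nT]
  unfold nM
  rw [map_mul_d]
  set φ := LinearMap.toMatrix e2 e2 f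
  rw [← Matrix.smul_mul, ← h, Matrix.sub_mul, Matrix.add_mul, Matrix.mul_add, Matrix.mul_add]
  simp only [Matrix.mul_assoc]
  abel

/-- the connection on a block -/
noncomputable def nV {P : Type*} [AddCommGroup P] [Module K P] {n : Type*} [Fintype n]
    [DecidableEq n] (e : Basis n K P) (Γ : Matrix n n K) (p : P) : P :=
  e.equivFun.symm ((fun i => d (e.equivFun p i)) + Γ *ᵥ e.equivFun p)

theorem nT_tmul (x : P2) (y : P1) : nT e1 e2 d Γ1 Γ2 (x ⊗ₜ[K] y) =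
    nV d e2 Γ2 x ⊗ₜ[K] y + x ⊗ₜ[K] nV d e1 Γ1 y := by
  apply tm_injective e1 e2
  rw [tm_nT, map_add, tm_tmul, tm_tmul, tm_tmul]
  unfold nM nV
  rw [LinearEquiv.apply_symm_apply, LinearEquiv.apply_symm_apply, add_vecMulVec, vecMulVec_add,
    mul_vecMulVec, vecMulVec_mul, vecMul_transpose]
  have : (vecMulVec (e2.equivFun x) (e1.equivFun y)).map d =
      vecMulVec (fun i => d (e2.equivFun x i)) (e1.equivFun y)
        + vecMulVec (e2.equivFun x) (fun i => d (e1.equivFun y i)) := by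
    ext i j
    simp only [Matrix.map_apply, vecMulVec_apply, Matrix.add_apply, Derivation.leibniz,
      smul_eq_mul]
    ring
  rw [this]
  abel

theorem nT_rad {R1 : Submodule K P1} {R2 : Submodule K P2} (h1 : ∀ r ∈ R1, nV d e1 Γ1 r ∈ R1)
    (h2 : ∀ r ∈ R2, nV d e2 Γ2 r ∈ R2) (z : P2 ⊗[K] P1)
    (hz : z ∈ (RT R2 ⊔ TR R1 : Submodule K (P2 ⊗[K] P1))) :
    nT e1 e2 d Γ1 Γ2 z ∈ (RT R2 ⊔ TR R1 : Submodule K (P2 ⊗[K] P1)) := by
  have key : ∀ (S : Set (P2 ⊗[K] P1)), (∀ z ∈ S, z ∈ (RT R2 ⊔ TR R1 : Submodule K (P2 ⊗[K] P1))) →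
      (∀ z ∈ S, nT e1 e2 d Γ1 Γ2 z ∈ (RT R2 ⊔ TR R1 : Submodule K (P2 ⊗[K] P1))) →
      ∀ z ∈ Submodule.span K S,
        nT e1 e2 d Γ1 Γ2 z ∈ (RT R2 ⊔ TR R1 : Submodule K (P2 ⊗[K] P1)) := by
    intro S hS h z hz
    induction hz using Submodule.span_induction with
    | mem y hy => exact h y hy
    | zero => rw [nT_zero]; exact Submodule.zero_mem _
    | add a b _ _ ha hb => rw [nT_add]; exact Submodule.add_mem _ ha hb
    | smul c a ha' ha =>
      rw [nT_smul]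
      exact Submodule.add_mem _ (Submodule.smul_mem _ _ (Submodule.span_le.2 hS ha'))
        (Submodule.smul_mem _ _ ha)
  obtain ⟨a, ha, b, hb, rfl⟩ := Submodule.mem_sup.1 hz
  rw [nT_add]
  refine Submodule.add_mem _ (key {z | ∃ r ∈ R2, ∃ p : P1, z = r ⊗ₜ[K] p} ?_ ?_ a ha)
    (key {z | ∃ p : P2, ∃ r ∈ R1, z = p ⊗ₜ[K] r} ?_ ?_ b hb)
  · rintro _ ⟨r, hr, p, rfl⟩
    exact Submodule.mem_sup_left (Submodule.subset_span ⟨r, hr, p, rfl⟩)
  · rintro _ ⟨r, hr, p, rfl⟩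
    rw [nT_tmul]
    exact Submodule.add_mem _
      (Submodule.mem_sup_left (Submodule.subset_span ⟨_, h2 r hr, p, rfl⟩))
      (Submodule.mem_sup_left (Submodule.subset_span ⟨r, hr, _, rfl⟩))
  · rintro _ ⟨p, r, hr, rfl⟩
    exact Submodule.mem_sup_right (Submodule.subset_span ⟨p, r, hr, rfl⟩)
  · rintro _ ⟨p, r, hr, rfl⟩
    rw [nT_tmul]
    exact Submodule.add_mem _
      (Submodule.mem_sup_right (Submodule.subset_span ⟨_, r, hr, rfl⟩))
      (Submodule.mem_sup_right (Submodule.subset_span ⟨p, _, h1 r hr, rfl⟩))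

/-- first part of the pencil of `Ex` -/
noncomputable def alE (A : τ → End K P1) :
    (τ → P2 ⊗[K] P1) →ₗ[K] (P2 ⊗[K] P1) × (τ → P2 ⊗[K] P1) where
  toFun y := (∑ t, (A t).lTensor P2 (y t), fun t => (A t).lTensor P2 (y t))
  map_add' a b := by
    refine Prod.ext ?_ ?_
    · simp [Finset.sum_add_distrib]
    · funext t; simp
  map_smul' c a := by
    refine Prod.ext ?_ ?_
    · simp [Finset.smul_sum]
    · funext t; simp

/-- second part of the pencil of `Ex` -/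
noncomputable def beE (B : τ → End K P2) :
    (τ → P2 ⊗[K] P1) →ₗ[K] (P2 ⊗[K] P1) × (τ → P2 ⊗[K] P1) where
  toFun y := (∑ t, (B t).rTensor P1 (y t), fun t => (B t).rTensor P1 (y t))
  map_add' a b := by
    refine Prod.ext ?_ ?_
    · simp [Finset.sum_add_distrib]
    · funext t; simp
  map_smul' c a := by
    refine Prod.ext ?_ ?_
    · simp [Finset.smul_sum]
    · funext t; simp

/-- the submodule of trivial values -/
def RE (τ : Type*) (R1 : Submodule K P1) (R2 : Submodule K P2) :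
    Submodule K ((P2 ⊗[K] P1) × (τ → P2 ⊗[K] P1)) :=
  Submodule.prod ⊥ (Submodule.pi Set.univ fun _ => (RT R2 ⊔ TR R1 : Submodule K (P2 ⊗[K] P1)))

theorem mem_RE {R1 : Submodule K P1} {R2 : Submodule K P2}
    (v : (P2 ⊗[K] P1) × (τ → P2 ⊗[K] P1)) : v ∈ RE τ R1 R2 ↔
      v.1 = 0 ∧ ∀ t, v.2 t ∈ (RT R2 ⊔ TR R1 : Submodule K (P2 ⊗[K] P1)) := by
  unfold RE
  rw [Submodule.mem_prod, Submodule.mem_bot, Submodule.mem_pi]
  simp

theorem ex_iff {A : τ → End K P1} {B : τ → End K P2} {R1 : Submodule K P1} {R2 : Submodule K P2}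
    {c : K} {y : τ → P2 ⊗[K] P1} :
    alE A y - c • beE B y ∈ RE τ R1 R2 ↔ Ex A B R1 R2 c y := by
  rw [mem_RE]
  have h1 : (alE A y - c • beE B y).1 = ∑ t, DD A B c t (y t) := by
    change ∑ t, (A t).lTensor P2 (y t) - c • ∑ t, (B t).rTensor P1 (y t) = _
    rw [Finset.smul_sum, ← Finset.sum_sub_distrib]
    rfl
  constructor
  · rintro ⟨h, h'⟩
    exact ⟨h1 ▸ h, h'⟩
  · rintro ⟨h, h'⟩
    exact ⟨h1.trans h, h'⟩

/-- the space of members of chains of exact families -/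
noncomputable def LLE (A : τ → End K P1) (B : τ → End K P2) (R1 : Submodule K P1) (R2 : Submodule K P2) :
    Submodule K (τ → P2 ⊗[K] P1) := LL (alE A) (beE B) (RE τ R1 R2)

/-- **`LLE` is stable under the connection** -/
theorem LLE_nab {A : τ → End K P1} {B : τ → End K P2} {R1 : Submodule K P1} {R2 : Submodule K P2}
    {m1 m2 : K}
    (hA : ∀ t, (LinearMap.toMatrix e1 e1 (A t)).map d + Γ1 * LinearMap.toMatrix e1 e1 (A t)
      - LinearMap.toMatrix e1 e1 (A t) * Γ1 = m1 • LinearMap.toMatrix e1 e1 (A t))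
    (hB : ∀ t, (LinearMap.toMatrix e2 e2 (B t)).map d + Γ2 * LinearMap.toMatrix e2 e2 (B t)
      - LinearMap.toMatrix e2 e2 (B t) * Γ2 = m2 • LinearMap.toMatrix e2 e2 (B t))
    (h1 : ∀ r ∈ R1, nV d e1 Γ1 r ∈ R1) (h2 : ∀ r ∈ R2, nV d e2 Γ2 r ∈ R2)
    (y : τ → P2 ⊗[K] P1) (hy : y ∈ LLE A B R1 R2) :
    (fun t => nT e1 e2 d Γ1 Γ2 (y t)) ∈ LLE A B R1 R2 := by
  have nsum : ∀ f : τ → P2 ⊗[K] P1, nT e1 e2 d Γ1 Γ2 (∑ t, f t) = ∑ t, nT e1 e2 d Γ1 Γ2 (f t) := by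
    intro f
    classical
    induction (Finset.univ : Finset τ) using Finset.induction_on with
    | empty => simp [nT_zero]
    | insert a s ha ih => rw [Finset.sum_insert ha, Finset.sum_insert ha, nT_add, ih]
  refine LL_nab (alE A) (beE B) (RE τ R1 R2) (fun y t => nT e1 e2 d Γ1 Γ2 (y t))
    (fun v => (nT e1 e2 d Γ1 Γ2 v.1, fun t => nT e1 e2 d Γ1 Γ2 (v.2 t))) d ?_ ?_ ?_ ?_ m1 m2 ?_ ?_
    y hy
  · intro x y
    funext t
    exact nT_add _ _ _ _ _ _ _
  · intro c y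
    funext t
    exact nT_smul _ _ _ _ _ _ _
  · intro x y
    refine Prod.ext ?_ ?_
    · exact nT_add _ _ _ _ _ _ _
    · funext t
      exact nT_add _ _ _ _ _ _ _
  · intro v hv
    rw [mem_RE] at hv ⊢
    refine ⟨?_, fun t => nT_rad e1 e2 d Γ1 Γ2 h1 h2 _ (hv.2 t)⟩
    change nT e1 e2 d Γ1 Γ2 v.1 = 0
    rw [hv.1, nT_zero]
  · intro y
    refine Prod.ext ?_ ?_
    · change ∑ t, (A t).lTensor P2 (nT e1 e2 d Γ1 Γ2 (y t)) =
        nT e1 e2 d Γ1 Γ2 (∑ t, (A t).lTensor P2 (y t)) - m1 • ∑ t, (A t).lTensor P2 (y t)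
      rw [nsum, Finset.smul_sum, ← Finset.sum_sub_distrib]
      exact Finset.sum_congr rfl fun t _ => nT_left e1 e2 d Γ1 Γ2 (hA t) _
    · funext t
      exact nT_left e1 e2 d Γ1 Γ2 (hA t) _
  · intro y
    refine Prod.ext ?_ ?_
    · change ∑ t, (B t).rTensor P1 (nT e1 e2 d Γ1 Γ2 (y t)) =
        nT e1 e2 d Γ1 Γ2 (∑ t, (B t).rTensor P1 (y t)) - m2 • ∑ t, (B t).rTensor P1 (y t)
      rw [nsum, Finset.smul_sum, ← Finset.sum_sub_distrib]
      exact Finset.sum_congr rfl fun t _ => nT_right e1 e2 d Γ1 Γ2 (hB t) _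
    · funext t
      exact nT_right e1 e2 d Γ1 Γ2 (hB t) _

/-- exact families at almost all `c` are in `LLE` -/
theorem LLE_exact (A : τ → End K P1) (B : τ → End K P2) (R1 : Submodule K P1)
    (R2 : Submodule K P2) [FiniteDimensional K P1] [FiniteDimensional K P2] :
    ∃ S : Set K, S.Finite ∧ ∀ c ∉ S, ∀ y, Ex A B R1 R2 c y → y ∈ LLE A B R1 R2 := by
  obtain ⟨S, hS, h⟩ := LL_exact (alE A) (beE B) (RE τ R1 R2)
  exact ⟨S, hS, fun c hc y hy => h c hc y (ex_iff.2 hy)⟩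

/-- the first level on `LLE` -/
theorem LLE_first {E : Type*} [AddCommGroup E] [Module K E] {A : τ → End K P1}
    {B : τ → End K P2} {R1 : Submodule K P1} {R2 : Submodule K P2} (Q : Submodule K E)
    (i1 i2 : (τ → P2 ⊗[K] P1) →ₗ[K] E) {R : Set K} (hR : R.Infinite)
    (hrel : ∀ ρ ∈ R, ∀ y, Ex A B R1 R2 (ρ ^ 2) y → i1 y + ρ • i2 y ∈ Q) :
    ∀ y ∈ LLE A B R1 R2, i1 y ∈ Q ∧ i2 y ∈ Q :=
  LL_first (alE A) (beE B) (RE τ R1 R2) Q i1 i2 hR fun r hr y hy => hrel r hr y (ex_iff.1 hy)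

end Nab



section Final

variable {K : Type*} [Field K] {k : Type*} [Field k] [Algebra k K]
variable {ι δ : Type*} [Fintype ι] [DecidableEq ι] [Fintype δ] [DecidableEq δ]
variable {P1 P2 : Type*} [AddCommGroup P1] [Module K P1]
  [AddCommGroup P2] [Module K P2] {n1 n2 : Type*} [Fintype n1] [DecidableEq n1] [Fintype n2]
  [DecidableEq n2] (e1 : Basis n1 K P1) (e2 : Basis n2 K P2) {τ : Type*} [Fintype τ]

/-- the `(2,1)`-part of the second derivative is in `QQ` -/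
theorem part21 {QQ : Submodule K (Matrix ι δ K)} {F : Matrix ι δ K} {U1 : Matrix δ n1 K}
    {U2 : Matrix δ n2 K} {S0 : Matrix δ δ K} {Ea : τ → Matrix δ δ K}
    (d : Derivation k K K) (Γ1 : Matrix n1 n1 K) (Γ2 : Matrix n2 n2 K)
    {A : τ → End K P1} {B : τ → End K P2} {R1 : Submodule K P1} {R2 : Submodule K P2} {m1 m2 : K}
    (hA : ∀ t, (LinearMap.toMatrix e1 e1 (A t)).map d + Γ1 * LinearMap.toMatrix e1 e1 (A t)
      - LinearMap.toMatrix e1 e1 (A t) * Γ1 = m1 • LinearMap.toMatrix e1 e1 (A t))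
    (hB : ∀ t, (LinearMap.toMatrix e2 e2 (B t)).map d + Γ2 * LinearMap.toMatrix e2 e2 (B t)
      - LinearMap.toMatrix e2 e2 (B t) * Γ2 = m2 • LinearMap.toMatrix e2 e2 (B t))
    (h1 : ∀ r ∈ R1, nV d e1 Γ1 r ∈ R1) (h2 : ∀ r ∈ R2, nV d e2 Γ2 r ∈ R2)
    (q21 : ∀ y ∈ LLE A B R1 R2, ∑ s, F * (U2 * tm e1 e2 (y s) * U1ᵀ) * S0 * Ea s ∈ QQ)
    {x x' : τ → P2 ⊗[K] P1} (hx : x ∈ LLE A B R1 R2) (hx' : x' ∈ LLE A B R1 R2) (κ1 κ2 κ3 : K) :
    ∑ s, F * (U2 * (Γ2 * tm e1 e2 (x s) + (tm e1 e2 (x s)).map d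
      + tm e1 e2 (x s) * (Γ1 - κ1 • (1 : Matrix n1 n1 K))ᵀ - κ2 • tm e1 e2 (x s)
      + κ3 • tm e1 e2 (x' s)) * U1ᵀ) * S0 * Ea s ∈ QQ := by
  have e1' := LLE_nab e1 e2 d Γ1 Γ2 hA hB h1 h2 x hx
  have hy : (fun t => nT e1 e2 d Γ1 Γ2 (x t)) + (-(κ1 + κ2)) • x + κ3 • x' ∈ LLE A B R1 R2 :=
    Submodule.add_mem _ (Submodule.add_mem _ e1' (Submodule.smul_mem _ _ hx))
      (Submodule.smul_mem _ _ hx')
  have h3 := q21 _ hy
  convert h3 using 5 with s
  congr 2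
  rw [Pi.add_apply, Pi.add_apply, Pi.smul_apply, Pi.smul_apply, map_add, map_add, map_smul,
    map_smul, tm_nT]
  unfold nM
  rw [transpose_sub, transpose_smul, transpose_one, Matrix.mul_sub, Matrix.mul_smul,
    Matrix.mul_one]
  module

/-- **the relation `hrel` of `RJP3.main3` from `second_blocks`** -/
theorem hrel3 {QQ : Submodule K (Matrix ι δ K)} {F : Matrix ι δ K} {U1 : Matrix δ n1 K}
    {U2 : Matrix δ n2 K} {S0 : Matrix δ δ K} {Ea : τ → Matrix δ δ K} {c1 c2 : K} (hc1 : c1 ≠ 0)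
    (hc2 : c2 ≠ 0) (g : P2 →ₗ[K] P2 →ₗ[K] K) (hg : ∀ i j, g (e2 i) (e2 j) = (U2ᵀ * S0 * U2) i j)
    (d : Derivation k K K) (Γ1 : Matrix n1 n1 K) (Γ2 : Matrix n2 n2 K)
    {A : τ → End K P1} {B : τ → End K P2} {R1 : Submodule K P1} {R2 : Submodule K P2} {m1 m2 : K}
    (hA : ∀ t, (LinearMap.toMatrix e1 e1 (A t)).map d + Γ1 * LinearMap.toMatrix e1 e1 (A t)
      - LinearMap.toMatrix e1 e1 (A t) * Γ1 = m1 • LinearMap.toMatrix e1 e1 (A t))
    (hB : ∀ t, (LinearMap.toMatrix e2 e2 (B t)).map d + Γ2 * LinearMap.toMatrix e2 e2 (B t)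
      - LinearMap.toMatrix e2 e2 (B t) * Γ2 = m2 • LinearMap.toMatrix e2 e2 (B t))
    (h1 : ∀ r ∈ R1, nV d e1 Γ1 r ∈ R1) (h2 : ∀ r ∈ R2, nV d e2 Γ2 r ∈ R2)
    (q21 : ∀ y ∈ LLE A B R1 R2, ∑ s, F * (U2 * tm e1 e2 (y s) * U1ᵀ) * S0 * Ea s ∈ QQ)
    (q12 : ∀ y ∈ LLE A B R1 R2, ∑ s, F * (U1 * (tm e1 e2 (y s))ᵀ * U2ᵀ) * S0 * Ea s ∈ QQ)
    {x x' : τ → P2 ⊗[K] P1} (hx : x ∈ LLE A B R1 R2) (hx' : x' ∈ LLE A B R1 R2)
    (b b' : P2 →ₗ[K] P1) (kk kk' : P1 →ₗ[K] P2) (κ1 κ2 κ3 κ4 : K)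
    (hb : ∑ s, F * ((c1 * c2) • (U1 * (LinearMap.toMatrix e2 e1 b' * tm e1 e2 (x s)
          - (tm e1 e2 (x' s))ᵀ * (U2ᵀ * S0 * U2) * tm e1 e2 (x s)
          - (tm e1 e2 (x' s))ᵀ * (LinearMap.toMatrix e2 e1 b)ᵀ) * U1ᵀ)
        + c2 ^ 2 • (U2 * (tm e1 e2 (x s) * (LinearMap.toMatrix e1 e2 kk')ᵀ
          + tm e1 e2 (x s) * (U1ᵀ * S0 * U1) * (tm e1 e2 (x' s))ᵀ
          - LinearMap.toMatrix e1 e2 kk * (tm e1 e2 (x' s))ᵀ) * U2ᵀ)
        + U2 * (Γ2 * tm e1 e2 (x s) + (tm e1 e2 (x s)).map d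
          + tm e1 e2 (x s) * (Γ1 - κ1 • (1 : Matrix n1 n1 K))ᵀ - κ2 • tm e1 e2 (x s)
          + κ3 • tm e1 e2 (x' s)) * U1ᵀ
        + κ4 • (U1 * (tm e1 e2 (x' s))ᵀ * U2ᵀ)) * S0 * Ea s ∈ QQ) :
    ∑ t, ((1 : K) • TensorProduct.lift ((qb e1 (qm F U1 U1 S0 (Ea t))) ∘ₗ b') (x t)
        + (-1 : K) • TensorProduct.lift ((qb e1 (qm F U1 U1 S0 (Ea t))).flip ∘ₗ b) (x' t)
        + (-1 : K) • TensorProduct.lift ((qb e1 (qm F U1 U1 S0 (Ea t))) ∘ₗ (ev g (x' t))) (x t))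
      + (c2 / c1) • F2 e1 e2 (fun t => qm F U2 U2 S0 (Ea t)) (U1ᵀ * S0 * U1) ((x, b), kk)
        ((x', b'), kk') ∈ QQ :=
  hrel_of e1 e2 hc1 hc2 g hg x x' b b' kk kk'
    (M21 := fun s => Γ2 * tm e1 e2 (x s) + (tm e1 e2 (x s)).map d
      + tm e1 e2 (x s) * (Γ1 - κ1 • (1 : Matrix n1 n1 K))ᵀ - κ2 • tm e1 e2 (x s)
      + κ3 • tm e1 e2 (x' s)) (m12 := κ4)
    (part21 e1 e2 d Γ1 Γ2 hA hB h1 h2 q21 hx hx' κ1 κ2 κ3) (q12 x' hx') hb

/-- `q p p' = (F U p) (F U p')ᵀ J P F E` if `S0 = Fᵀ J P F` -/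
theorem qb_eq {F : Matrix ι δ K} {U1 : Matrix δ n1 K} {J P : Matrix ι ι K} {E : Matrix δ δ K}
    (p p' : P1) : qb e1 (qm F U1 U1 (Fᵀ * J * (P * F)) E) p p' =
      vecMulVec ((F * U1) *ᵥ e1.equivFun p) ((F * U1) *ᵥ e1.equivFun p') * (J * P) * F * E := by
  rw [qb_apply, qm_apply]
  have h : vecMulVec ((F * U1) *ᵥ e1.equivFun p) ((F * U1) *ᵥ e1.equivFun p') =
      F * U1 * vecMulVec (e1.equivFun p) (e1.equivFun p') * (U1ᵀ * Fᵀ) := by
    rw [mul_vecMulVec, ← transpose_mul, vecMulVec_mul, vecMul_transpose]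
  rw [h]
  simp only [Matrix.mul_assoc]

end Final

end Crest.Agent.R172.SUX5
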