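import Crest.Agent.R172.SDesc683
import Crest.Agent.R172.SUX5

/-!
Row 172 (S0260), S-side, L2-f in MATRIX letters (second copy, helper683): `C_i` : frames of `P_i`
(`F U_i = Q_i C_i`), `a, bb` the operators on the `K^δ`-level frames, `X_s : m2 × m1`,
`tm (x s) = C2 X_s C1ᵀ`; the corrections `β`, `γ` descend to `b`, `k` modulo `Z`, `Z2`.
-/

set_option autoImplicit false
set_option linter.unusedSectionVars false

namespace Crest.Agent.R172.SDesc683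

open Module TensorProduct Matrix
open Crest.Agent.R172.RJM (ev)
open Crest.Agent.R172.RJP3 (evk CorK)
open Crest.Agent.R172.SUX5 (tm)

variable {K : Type*} [Field K] {τ : Type*} [Fintype τ]
variable {n1 n2 m1 m2 : Type*} [Fintype n1] [DecidableEq n1] [Fintype n2] [DecidableEq n2]
  [Fintype m1] [DecidableEq m1] [Fintype m2] [DecidableEq m2]

/-- `ev` in matrix form -/
theorem ev_tm {G2 : Matrix n2 n2 K} {g : (n2 → K) →ₗ[K] (n2 → K) →ₗ[K] K}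
    (hg : ∀ x y, g x y = x ⬝ᵥ (G2 *ᵥ y)) (z : (n2 → K) ⊗[K] (n1 → K)) (p : n2 → K) :
    ev g z p = (tm (Pi.basisFun K n1) (Pi.basisFun K n2) z)ᵀ *ᵥ (G2 *ᵥ p) := by
  induction z using TensorProduct.induction_on with
  | zero => simp
  | tmul a b =>
    rw [RJM.ev_tmul, SUX5.tm_tmul, transpose_vecMulVec, hg]
    ext i
    simp only [Pi.smul_apply, smul_eq_mul, vecMulVec_mulVec, Pi.basisFun_equivFun,
      LinearEquiv.refl_apply]
    simp [mul_comm]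
  | add x y hx hy =>
    rw [map_add, LinearMap.add_apply, hx, hy, map_add, transpose_add, add_mulVec]

/-- `evk` in matrix form -/
theorem evk_tm {G1 : Matrix n1 n1 K} {g : (n1 → K) →ₗ[K] (n1 → K) →ₗ[K] K}
    (hg : ∀ x y, g x y = x ⬝ᵥ (G1 *ᵥ y)) (z : (n2 → K) ⊗[K] (n1 → K)) (p : n1 → K) :
    evk g z p = (tm (Pi.basisFun K n1) (Pi.basisFun K n2) z) *ᵥ (G1 *ᵥ p) := by
  induction z using TensorProduct.induction_on with
  | zero => simp
  | tmul a b =>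
    rw [RJP3.evk_tmul, SUX5.tm_tmul, hg]
    ext i
    simp only [Pi.smul_apply, smul_eq_mul, vecMulVec_mulVec, Pi.basisFun_equivFun,
      LinearEquiv.refl_apply]
    simp [mul_comm]
  | add x y hx hy =>
    rw [map_add, LinearMap.add_apply, hx, hy, map_add, add_mulVec]

/-- **L2-f in matrix letters** -/
theorem exists_pairM {A : τ → Matrix n1 n1 K} {B : τ → Matrix n2 n2 K} {a : τ → Matrix m1 m1 K}
    {bb : τ → Matrix m2 m2 K} {C1 : Matrix n1 m1 K} {C2 : Matrix n2 m2 K}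
    (o1 : ∀ y, ∃ x, C1 *ᵥ x = y) (o2 : ∀ y, ∃ x, C2 *ᵥ x = y)
    (h1 : ∀ t, A t * C1 = C1 * a t) (h2 : ∀ t, B t * C2 = C2 * bb t)
    {R1 Z : Submodule K (n1 → K)} {R2 Z2 : Submodule K (n2 → K)}
    (sZ : ∀ t, ∀ z ∈ Z, A t *ᵥ z ∈ Z) (sZ2 : ∀ t, ∀ z ∈ Z2, B t *ᵥ z ∈ Z2)
    {G1 : Matrix n1 n1 K} {G2 : Matrix n2 n2 K}
    {g : (n2 → K) →ₗ[K] (n2 → K) →ₗ[K] K} (hg : ∀ x y, g x y = x ⬝ᵥ (G2 *ᵥ y))
    {g1 : (n1 → K) →ₗ[K] (n1 → K) →ₗ[K] K} (hg1 : ∀ x y, g1 x y = x ⬝ᵥ (G1 *ᵥ y))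
    {eps c : K} {X : τ → Matrix m2 m1 K} {x : τ → (n2 → K) ⊗[K] (n1 → K)}
    (hx : ∀ t, tm (Pi.basisFun K n1) (Pi.basisFun K n2) (x t) = C2 * X t * C1ᵀ)
    {β : Matrix m1 m2 K} {γ : Matrix m2 m1 K}
    (hR : ∀ u, C1 *ᵥ (β *ᵥ u) ∈ R1) (hZ : ∀ u, C2 *ᵥ u = 0 → C1 *ᵥ (β *ᵥ u) ∈ Z)
    (hR2 : ∀ u, C2 *ᵥ (γ *ᵥ u) ∈ R2) (hZ2 : ∀ u, C1 *ᵥ u = 0 → C2 *ᵥ (γ *ᵥ u) ∈ Z2)
    (hc : ∀ t u, C1 *ᵥ ((a t * (β - (X t)ᵀ * (C2ᵀ * G2 * C2)) -
      (eps * c) • ((β - (X t)ᵀ * (C2ᵀ * G2 * C2)) * bb t)) *ᵥ u) ∈ Z)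
    (hc2 : ∀ t u, C2 *ᵥ ((eps • ((γ - X t * (C1ᵀ * G1 * C1)) * a t) -
      c • (bb t * (γ - X t * (C1ᵀ * G1 * C1)))) *ᵥ u) ∈ Z2) :
    ∃ (b : (n2 → K) →ₗ[K] (n1 → K)) (k : (n1 → K) →ₗ[K] (n2 → K)),
      RJZ.Cor (fun t => (A t).mulVecLin) (fun t => (B t).mulVecLin) R1 Z g eps c x b ∧
      CorK (fun t => (A t).mulVecLin) (fun t => (B t).mulVecLin) R2 Z2 g1 eps c x k ∧
      (∀ u, b (C2 *ᵥ u) - C1 *ᵥ (β *ᵥ u) ∈ Z) ∧ ∀ u, k (C1 *ᵥ u) - C2 *ᵥ (γ *ᵥ u) ∈ Z2 := by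
  obtain ⟨b, hb1, hb2⟩ := exists_cor (p1 := C1.mulVecLin) (p2 := C2.mulVecLin)
    (a := fun t => (a t).mulVecLin) (bb := fun t => (bb t).mulVecLin)
    (A := fun t => (A t).mulVecLin) (B := fun t => (B t).mulVecLin) (R1 := R1) (Z := Z)
    (g := g) (eps := eps) (c := c) (x := x) (β := β.mulVecLin)
    (e := fun t => ((X t)ᵀ * (C2ᵀ * G2 * C2)).mulVecLin) (fun y => o2 y)
    (fun t u => by
      simp only [mulVecLin_apply, mulVec_mulVec, h1 t])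
    (fun t u => by
      simp only [mulVecLin_apply, mulVec_mulVec, h2 t])
    (fun t z hz => sZ t z hz)
    (fun t u => by
      rw [mulVecLin_apply, mulVecLin_apply, mulVecLin_apply, ev_tm hg, hx t, transpose_mul,
        transpose_mul, transpose_transpose]
      simp only [mulVec_mulVec, Matrix.mul_assoc])
    (fun u => hR u) (fun u hu => hZ u hu)
    (fun t u => by
      have h := hc t u
      simp only [mulVecLin_apply]
      convert h using 1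
      rw [← mulVec_sub]
      congr 1
      simp only [Matrix.mul_sub, Matrix.sub_mul, sub_mulVec, smul_mulVec, mulVec_mulVec, smul_sub,
        Matrix.mul_assoc]
      abel)
  obtain ⟨k, hk1, hk2⟩ := exists_corK (p1 := C1.mulVecLin) (p2 := C2.mulVecLin)
    (a := fun t => (a t).mulVecLin) (bb := fun t => (bb t).mulVecLin)
    (A := fun t => (A t).mulVecLin) (B := fun t => (B t).mulVecLin) (R2 := R2) (Z2 := Z2)
    (g1 := g1) (eps := eps) (c := c) (x := x) (γ := γ.mulVecLin)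
    (e := fun t => (X t * (C1ᵀ * G1 * C1)).mulVecLin) (fun y => o1 y)
    (fun t u => by
      simp only [mulVecLin_apply, mulVec_mulVec, h1 t])
    (fun t u => by
      simp only [mulVecLin_apply, mulVec_mulVec, h2 t])
    (fun t z hz => sZ2 t z hz)
    (fun t u => by
      rw [mulVecLin_apply, mulVecLin_apply, mulVecLin_apply, evk_tm hg1, hx t]
      simp only [mulVec_mulVec, Matrix.mul_assoc])
    (fun u => hR2 u) (fun u hu => hZ2 u hu)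
    (fun t u => by
      have h := hc2 t u
      simp only [mulVecLin_apply]
      have e : (eps • ((γ - X t * (C1ᵀ * G1 * C1)) * a t) -
          c • (bb t * (γ - X t * (C1ᵀ * G1 * C1)))) *ᵥ u =
          eps • (γ *ᵥ (a t *ᵥ u) - (X t * (C1ᵀ * G1 * C1)) *ᵥ (a t *ᵥ u)) -
          c • (bb t *ᵥ (γ *ᵥ u) - bb t *ᵥ ((X t * (C1ᵀ * G1 * C1)) *ᵥ u)) := by
        simp only [Matrix.mul_sub, Matrix.sub_mul, sub_mulVec, smul_mulVec, mulVec_mulVec, smul_sub,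
          Matrix.mul_assoc]
      rw [e] at h
      exact h)
  exact ⟨b, k, hb1, hk1, fun u => hb2 u, fun u => hk2 u⟩

end Crest.Agent.R172.SDesc683
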