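import Crest.Agent.R172.SEnd2
import Crest.Agent.R172.SEnd3
import Crest.Agent.R172.SBlk

/-!
Row 172 (S0260), tame node (t2): block-scalar corrections are harmless for `GoodS`.
* `theta_spec` : `Θ(p, q_c) = 0` for the `T_f`-eigenforms `q_c` of `SBlk.Spec`;
* `spec_block` : `q_c` on the block `PB ν`;
* `GoodS_of_vside` : membership in `GoodS` from the V-side values of the correction.
-/

set_option autoImplicit false
set_option linter.unusedSectionVars false

namespace Crest.Agent.R172.SEnd4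

open Matrix Module Crest.Agent.R172.FO Crest.Agent.R172.Qt Crest.Agent.R172.SpS
open Crest.Agent.R172.SEnd Crest.Agent.R172.SEnd2 Crest.Agent.R172.SEnd3 Crest.Agent.R172.SBlk
open Crest.Agent.R172.SC (PB)
open Crest.Agent.R172.St (Nk T)
open Crest.Agent.R172.PL (Wk Ainf Rad CoreM coreOp resOp)

variable {ι : Type*} [Fintype ι] [DecidableEq ι] {δ : Type*} [Fintype δ] [DecidableEq δ]
variable {k K : Type*} [Field k] [Field K] [Algebra k K]
variable {arm : δ → Fin 3} {J : Matrix ι ι K} {B : Matrix δ δ K}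
  {N W : Submodule K (Matrix ι δ K)} {g f : Matrix ι δ K} {R : Matrix δ ι K}
  {p : Matrix ι ι K × (Fin 3 → Matrix ι ι K)} {S : Finset K}
  {q : K → Matrix ι ι K × (Fin 3 → Matrix ι ι K)}

theorem Pg_sub' (p p' : Matrix ι ι K × (Fin 3 → Matrix ι ι K)) :
    Pg arm g (p - p') = Pg arm g p - Pg arm g p' := by
  unfold Pg
  rw [show (p - p').2 = fun s => p.2 s - p'.2 s from rfl, act_sub_left,
    show (p - p').1 = p.1 - p'.1 from rfl, Matrix.sub_mul]
  abel

theorem act_sum_NN {α : Type*} (s : Finset α)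
    (z : α → Matrix ι ι K × (Fin 3 → Matrix ι ι K)) :
    act arm (∑ i ∈ s, z i).2 g = ∑ i ∈ s, act arm (z i).2 g := by
  classical
  induction s using Finset.induction_on with
  | empty =>
    rw [Finset.sum_empty, Finset.sum_empty]
    exact act_zero arm g
  | insert a s ha ih =>
    rw [Finset.sum_insert ha, Finset.sum_insert ha, ← ih]
    exact act_add_left arm (z a).2 (∑ i ∈ s, z i).2 g

theorem pair_sum_right' {α : Type*} (s : Finset α) (F : Matrix ι δ K) (G : α → Matrix ι δ K) :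
    pair J B F (∑ i ∈ s, G i) = ∑ i ∈ s, pair J B F (G i) := by
  classical
  induction s using Finset.induction_on with
  | empty => simp [pair]
  | insert a s ha ih => rw [Finset.sum_insert ha, Finset.sum_insert ha, pair_add_right, ih]

/-- `Θ` of two eigenforms -/
theorem theta_eig (h : Ctx k arm J B N W g) (h2 : (2 : K) ≠ 0) (hf : f ∈ N ⊓ W)
    (hq : Spec arm J N g f p.1 S q) (c c' : K) :
    pair J B (Pg arm g (q c)) (act arm (q c').2 g) = 0 := by
  by_cases hc : c = c'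
  · subst hc
    exact theta_self h h2 (hq.mem c)
  · have h1 := theta_sa h h2 (hq.mem c) (hq.mem c')
      ((NN arm J N g).smul_mem c (hq.mem c)) ((NN arm J N g).smul_mem c' (hq.mem c')) hf
      (by rw [hq.eig c, Prod.smul_fst, Matrix.smul_mul, Matrix.mul_smul])
      (by rw [hq.eig c', Prod.smul_fst, Matrix.smul_mul, Matrix.mul_smul])
    have e1 : Pg arm g (c • q c) = c • Pg arm g (q c) := by
      unfold Pg
      rw [show (c • q c).2 = fun s => c • (q c).2 s from rfl, act_smul_left,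
        show (c • q c).1 = c • (q c).1 from rfl, Matrix.smul_mul, smul_sub]
    have e2 : act arm (c' • q c').2 g = c' • act arm (q c').2 g := by
      rw [show (c' • q c').2 = fun s => c' • (q c').2 s from rfl, act_smul_left]
    rw [e1, e2, pair_smul_left, pair_smul_right] at h1
    have h3 : (c - c') * pair J B (Pg arm g (q c)) (act arm (q c').2 g) = 0 := by
      linear_combination h1
    exact (mul_eq_zero.1 h3).resolve_left (sub_ne_zero.2 hc)

/-- **`Θ(p, q_c) = 0`** -/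
theorem theta_spec (h : Ctx k arm J B N W g) (h2 : (2 : K) ≠ 0) (hp : p ∈ NN arm J N g)
    (hf : f ∈ N ⊓ W) (hq : Spec arm J N g f p.1 S q) (c : K) :
    pair J B (Pg arm g p) (act arm (q c).2 g) = 0 := by
  have hs : ∑ c ∈ S, q c ∈ NN arm J N g := Submodule.sum_mem _ fun c _ => hq.mem c
  have hd : p - ∑ c ∈ S, q c ∈ NN arm J N g := (NN arm J N g).sub_mem hp hs
  have hfst : (∑ c ∈ S, q c).1 = ∑ c ∈ S, (q c).1 := Prod.fst_sum
  have hd0 : gᵀ * J * ((p - ∑ c ∈ S, q c).1 * g) = 0 := by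
    rw [Prod.fst_sub, hfst, Matrix.sub_mul, Matrix.mul_sub, hq.sum, Matrix.sum_mul,
      Matrix.mul_sum, sub_self]
  -- first slot
  have h1 : pair J B (Pg arm g (q c)) (act arm (p - ∑ c ∈ S, q c).2 g) = 0 :=
    theta_form h (hq.mem c) hd hd0
  have h3 := h.skew_w (hq.mem c) hp
  have h4 : act arm (p - ∑ c ∈ S, q c).2 g =
      act arm p.2 g - ∑ c ∈ S, act arm (q c).2 g := by
    rw [← act_sum_NN]
    exact act_sub_left arm p.2 (∑ c ∈ S, q c).2 g
  rw [h4, pair_sub_right, pair_sum_right',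
    Finset.sum_eq_zero (fun c' _ => theta_eig h h2 hf hq c c'), sub_zero] at h1
  rw [h3, h1, neg_zero]

/-- `η = ∑ J q_c` on `im g × im g` -/
theorem spec_sum (hq : Spec arm J N g f p.1 S q) (u' u : δ → K) :
    (g *ᵥ u') ⬝ᵥ ((J * p.1) *ᵥ (g *ᵥ u)) =
      ∑ c ∈ S, (g *ᵥ u') ⬝ᵥ ((J * (q c).1) *ᵥ (g *ᵥ u)) := by
  rw [form_gg]
  have e1 : gᵀ * (J * p.1) * g = ∑ c ∈ S, gᵀ * (J * (q c).1) * g := by
    have h1 : gᵀ * (J * p.1) * g = gᵀ * J * (p.1 * g) := by simp only [Matrix.mul_assoc]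
    rw [h1, hq.sum]
    exact Finset.sum_congr rfl fun c _ => by simp only [Matrix.mul_assoc]
  rw [e1, sum_mulVec, dotProduct_sum]
  exact Finset.sum_congr rfl fun c _ => by rw [form_gg]

/-- `q_c` vanishes on the block `PB ν`, `c ≠ ν` -/
theorem spec_block (h : Ctx k arm J B N W g) (hR : g * R * g = g) (hf : f ∈ N ⊓ W)
    (hq : Spec arm J N g f p.1 S q) {D : End K (CoreM (Ph arm J B g R p.1))}
    (hD : IsD (Ph arm J B g R p.1) (Nh arm J B g f R p.1) D) {ν c : K} (hne : c ≠ ν)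
    {v : Sg g} (hv : v ∈ PB (Ph arm J B g R p.1) D ν) (u : δ → K) :
    (v : ι → K) ⬝ᵥ ((J * (q c).1) *ᵥ (g *ᵥ u)) = 0 := by
  have hle := (hq.par h hf hR).PB_le hD.1 hD.2 ν
  obtain ⟨w, hw⟩ := (Submodule.mem_iSup_finset_iff_exists_sum (s := Finset.univ)
      (fun s => LinearMap.range (Be (Mg arm B g) (bil g R (gᵀ * (J * (q ν).1) * g)) s)) v).1
      (by simpa using hle hv)
  have hu : ∀ s, ∃ u, Be (Mg arm B g) (bil g R (gᵀ * (J * (q ν).1) * g)) s u = (w s : Sg g) :=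
      fun s => (w s).2
  choose u' hu' using hu
  choose z hz using fun s => gS_surj g (u' s)
  have hva : (v : ι → K) = ∑ s, (M arm B s g g * (J * (q ν).1)) *ᵥ (g *ᵥ z s) := by
    rw [← hw, Submodule.coe_sum]
    refine Finset.sum_congr rfl fun s _ => ?_
    rw [← hu' s, Be_coe hR, ← hz s, gS_coe]
  rw [hva, sum_dotProduct]
  refine Finset.sum_eq_zero fun s _ => ?_
  have hsk := (Phi_adj h.data h.mem (hq.mem ν).1 s).1
  have e1 : ((M arm B s g g * (J * (q ν).1)) *ᵥ (g *ᵥ z s)) ⬝ᵥ ((J * (q c).1) *ᵥ (g *ᵥ u)) =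
      z s ⬝ᵥ ((gᵀ * (J * (q ν).1)ᵀ * (M arm B s g g)ᵀ * ((J * (q c).1) * g)) *ᵥ u) := by
    rw [mulVec_mulVec, ← vecMul_transpose, ← dotProduct_mulVec, mulVec_mulVec, mulVec_mulVec]
    congr 2
    rw [transpose_mul, transpose_mul]
    simp only [Matrix.mul_assoc]
  have e2 : gᵀ * (J * (q ν).1)ᵀ * (M arm B s g g)ᵀ * ((J * (q c).1) * g) =
      -((gᵀ * J * ((q ν).1 * g)) * (E K arm s * B) * (gᵀ * J * ((q c).1 * g))) := by
    rw [M_symm h.data h.mem h.mem, hsk]
    unfold M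
    simp only [Matrix.mul_neg, Matrix.neg_mul, Matrix.mul_assoc]
  rw [e1, e2, hq.cross h hf (fun hc => hne hc.symm), neg_zero, zero_mulVec, dotProduct_zero]

/-- **membership in `GoodS` from the V-side values of the correction.** -/
theorem GoodS_of_vside (h : Ctx k arm J B N W g) (h2 : (2 : K) ≠ 0) (hR : g * R * g = g)
    (hp : p ∈ NN arm J N g) (hf : f ∈ N ⊓ W) (hq : Spec arm J N g f p.1 S q)
    {D : End K (CoreM (Ph arm J B g R p.1))}
    (hD : IsD (Ph arm J B g R p.1) (Nh arm J B g f R p.1) D)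
    {P : Submodule K (ι → K)} (hP : P ≤ ⨆ ν, (PB (Ph arm J B g R p.1) D ν).map (Sg g).subtype)
    {s : Fin 3} {x : Matrix ι ι K} {w : Matrix ι δ K} (hw : w ∈ W)
    (hN : x * (J * p.1) * g * E K arm s - w ∈ N)
    (hwP : ∀ a ∈ P, ∀ v, a ⬝ᵥ ((J * w) *ᵥ v) = 0) (μ : K → K)
    (hV : ∀ ν, ∀ v ∈ PB (Ph arm J B g R p.1) D ν, ∃ r ∈ Rd (J * p.1) P, ∀ u : δ → K,
      ((v : Sg g) : ι → K) ⬝ᵥ ((J * p.1 * w) *ᵥ u) =
        μ ν * (((v : Sg g) : ι → K) ⬝ᵥ ((J * p.1) *ᵥ (g *ᵥ u))) +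
          r ⬝ᵥ ((J * p.1) *ᵥ (g *ᵥ u))) :
    x ∈ GoodS arm J B N W g p P s := by
  refine ⟨w, hw, hN, hwP, ∑ c ∈ S, μ c • q c,
    Submodule.sum_mem _ fun c _ => (NN arm J N g).smul_mem _ (hq.mem c), ?_, ?_⟩
  · rw [act_sum_NN, pair_sum_right']
    refine Finset.sum_eq_zero fun c _ => ?_
    rw [show act arm (μ c • q c).2 g = μ c • act arm (q c).2 g from act_smul_left arm _ _ _,
      pair_smul_right, theta_spec h h2 hp hf hq, mul_zero]
  · have hfst : (∑ c ∈ S, μ c • q c).1 = ∑ c ∈ S, μ c • (q c).1 := Prod.fst_sum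
    have key : ∀ a ∈ ⨆ ν, (PB (Ph arm J B g R p.1) D ν).map (Sg g).subtype, ∀ u, g *ᵥ u ∈ P →
        a ⬝ᵥ ((J * p.1 * w) *ᵥ u) = a ⬝ᵥ ((J * (∑ c ∈ S, μ c • q c).1) *ᵥ (g *ᵥ u)) := by
      intro a ha u hu
      induction ha using Submodule.iSup_induction' with
      | mem ν a ha =>
        obtain ⟨v, hv, rfl⟩ := ha
        obtain ⟨r, hr, hvr⟩ := hV ν v hv
        change ((v : Sg g) : ι → K) ⬝ᵥ _ = ((v : Sg g) : ι → K) ⬝ᵥ _
        have e1 : r ⬝ᵥ ((J * p.1) *ᵥ (g *ᵥ u)) = 0 := by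
          have h3 := hr.2 _ hu
          have hsk := (Phi_adj h.data h.mem hp.1 s).1
          rw [dotProduct_mulVec, ← mulVec_transpose, hsk, neg_mulVec, neg_dotProduct,
            dotProduct_comm, h3, neg_zero]
        rw [hvr u, e1, add_zero, hfst, Matrix.mul_sum, sum_mulVec, dotProduct_sum]
        obtain ⟨u', rfl⟩ := gS_surj g v
        rw [gS_coe, spec_sum hq, Finset.mul_sum]
        refine Finset.sum_congr rfl fun c _ => ?_
        rw [Matrix.mul_smul, smul_mulVec, dotProduct_smul, smul_eq_mul]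
        by_cases hc : c = ν
        · rw [hc]
        · have h4 := spec_block h hR hf hq hD hc hv u
          rw [gS_coe] at h4
          rw [h4, mul_zero, mul_zero]
      | zero => rw [zero_dotProduct, zero_dotProduct]
      | add a b _ _ h1 h2 => rw [add_dotProduct, add_dotProduct, h1, h2]
    intro a ha u hu
    exact key a (hP ha) u hu

end Crest.Agent.R172.SEnd4
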