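import Crest.Agent.R172.RJM
import Crest.Agent.R172.STop
import Crest.Agent.R172.SLev0
import Crest.Agent.R172.UFr
import Crest.Agent.R172.SL2g182
import Crest.Agent.R172.SL2g560

/-!
Row 172 (S0260), S-side, row L2-g (iii): an arm-exact tensor at `c ≠ 0` is filtered.
-/

set_option autoImplicit false
set_option linter.unusedSectionVars false
set_option linter.unusedVariables false

namespace Crest.Agent.R172.SExF108

open Matrix Module TensorProduct Crest.Agent.R172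

section higman

variable {K : Type*} [Field K] {M : Type*} [AddCommGroup M] [Module K M]

/-- Higman: a free `K[t]/t^l`-module has a trace-one operator -/
theorem exists_h (N : End K M) (l : ℕ) (hl : 1 ≤ l) (hN : N ^ l = 0)
    (hf : ∀ m, (N ^ (l - 1)) m = 0 → ∃ u, N u = m) :
    ∃ h : End K M, ∑ j ∈ Finset.range l, N ^ (l - 1 - j) * h * N ^ j = 1 := by
  classical
  obtain ⟨Y, hY⟩ := Submodule.exists_isCompl (LinearMap.range N)
  have hinj : Function.Injective ((N ^ (l - 1)) ∘ₗ Y.subtype) := by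
    rw [← LinearMap.ker_eq_bot, LinearMap.ker_eq_bot']
    intro y hy
    obtain ⟨u, hu⟩ := hf y hy
    have h1 : (y : M) ∈ LinearMap.range N ⊓ Y := ⟨⟨u, hu⟩, y.2⟩
    rw [hY.inf_eq_bot, Submodule.mem_bot] at h1
    exact Subtype.ext h1
  obtain ⟨q, hq⟩ := LinearMap.exists_leftInverse_of_injective _ (LinearMap.ker_eq_bot.2 hinj)
  let p : End K M := Y.subtype ∘ₗ q
  have hp : ∀ y ∈ Y, p ((N ^ (l - 1)) y) = y := by
    intro y hy
    have := LinearMap.congr_fun hq ⟨y, hy⟩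
    exact congrArg Subtype.val this
  let U : End K M := ∑ j ∈ Finset.range l, N ^ (l - 1 - j) * p * N ^ j
  have hc : Commute N U := by
    change N * U = U * N
    obtain ⟨m, rfl⟩ : ∃ m, l = m + 1 := ⟨l - 1, by omega⟩
    have e1 : N * U = ∑ j ∈ Finset.range (m + 1), N ^ (m + 1 - j) * p * N ^ j := by
      change N * (∑ j ∈ Finset.range (m + 1), N ^ (m + 1 - 1 - j) * p * N ^ j) = _
      rw [Finset.mul_sum]
      refine Finset.sum_congr rfl fun j hj => ?_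
      have hj' := Finset.mem_range.1 hj
      rw [show m + 1 - j = (m + 1 - 1 - j) + 1 by omega, pow_succ' N (m + 1 - 1 - j)]
      simp only [mul_assoc]
    have e2 : U * N = ∑ j ∈ Finset.range (m + 1), N ^ (m - j) * p * N ^ (j + 1) := by
      change (∑ j ∈ Finset.range (m + 1), N ^ (m + 1 - 1 - j) * p * N ^ j) * N = _
      rw [Finset.sum_mul]
      refine Finset.sum_congr rfl fun j hj => ?_
      rw [pow_succ]
      simp only [mul_assoc, Nat.add_sub_cancel]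
    rw [e1, e2, Finset.sum_range_succ' _ m, Finset.sum_range_succ _ m]
    simp only [Nat.sub_zero, hN, zero_mul, mul_zero, add_zero]
    refine Finset.sum_congr rfl fun j hj => ?_
    rw [show m + 1 - (j + 1) = m - j by omega]
  have hr : ∀ m, ∃ u, (U - 1) m = N u := by
    intro m
    have hm : m ∈ LinearMap.range N ⊔ Y := by rw [hY.sup_eq_top]; trivial
    obtain ⟨_, ⟨u, rfl⟩, y, hy, rfl⟩ := Submodule.mem_sup.1 hm
    have h1 : ∃ v, (U - 1) y = N v := by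
      obtain ⟨m, rfl⟩ : ∃ m, l = m + 1 := ⟨l - 1, by omega⟩
      refine ⟨∑ j ∈ Finset.range m, (N ^ (m - 1 - j) * p * N ^ j) y, ?_⟩
      have e1 : U y = ∑ j ∈ Finset.range (m + 1), (N ^ (m - j) * p * N ^ j) y := by
        change (∑ j ∈ Finset.range (m + 1), N ^ (m + 1 - 1 - j) * p * N ^ j) y = _
        rw [LinearMap.sum_apply]
        rfl
      rw [LinearMap.sub_apply, Module.End.one_apply, e1, Finset.sum_range_succ, map_sum]
      have e2 : (N ^ (m - m) * p * N ^ m) y = y := by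
        rw [Nat.sub_self, pow_zero, one_mul, Module.End.mul_apply]
        exact hp y hy
      rw [e2, add_sub_cancel_right]
      refine Finset.sum_congr rfl fun j hj => ?_
      have hj' := Finset.mem_range.1 hj
      rw [show m - j = (m - 1 - j) + 1 by omega, pow_succ']
      simp only [Module.End.mul_apply]
    obtain ⟨v, hv⟩ := h1
    refine ⟨(U - 1) u + v, ?_⟩
    have h2 : (U - 1) (N u) = N ((U - 1) u) := by
      have h3 : U (N u) = N (U u) := by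
        rw [← Module.End.mul_apply, ← hc.eq, Module.End.mul_apply]
      rw [LinearMap.sub_apply, h3, LinearMap.sub_apply, map_sub]
      rfl
    rw [map_add, h2, hv, map_add]
  have hk : ∀ k, ∀ m, ∃ u, ((U - 1) ^ k) m = (N ^ k) u := by
    intro k
    induction k with
    | zero => intro m; exact ⟨m, rfl⟩
    | succ k ih =>
      intro m
      obtain ⟨u, hu⟩ := ih m
      obtain ⟨v, hv⟩ := hr u
      refine ⟨v, ?_⟩
      have hc2 : Commute (N ^ k) (U - 1) := ((hc.sub_right (Commute.one_right N))).pow_left k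
      rw [pow_succ', Module.End.mul_apply, hu, ← Module.End.mul_apply, ← hc2.eq,
        Module.End.mul_apply, hv, pow_succ, Module.End.mul_apply]
  have hnil : IsNilpotent (U - 1) := ⟨l, by
    ext m
    obtain ⟨u, hu⟩ := hk l m
    rw [hu, hN, LinearMap.zero_apply, LinearMap.zero_apply]⟩
  have hu : IsUnit U := by
    have := hnil.isUnit_add_one
    rwa [sub_add_cancel] at this
  obtain ⟨u, hu⟩ := hu
  have hcu : Commute N (↑u⁻¹ : End K M) := by
    rw [← hu] at hc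
    exact hc.units_inv_right
  refine ⟨p * (↑u⁻¹ : End K M), ?_⟩
  have e3 : ∑ j ∈ Finset.range l, N ^ (l - 1 - j) * (p * (↑u⁻¹ : End K M)) * N ^ j = U * ↑u⁻¹ := by
    change _ = (∑ j ∈ Finset.range l, N ^ (l - 1 - j) * p * N ^ j) * _
    rw [Finset.sum_mul]
    refine Finset.sum_congr rfl fun j _ => ?_
    have := (hcu.pow_left j).eq
    rw [mul_assoc, mul_assoc, mul_assoc, ← this]
    simp only [mul_assoc]
  rw [e3, ← hu, Units.mul_inv]

/-- the same modulo a stable submodule; the operator kills the submodule -/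
theorem exists_h_mod (B : End K M) (R : Submodule K M) (l : ℕ) (hl : 1 ≤ l)
    (st : ∀ r ∈ R, B r ∈ R) (hB : ∀ m, (B ^ l) m ∈ R)
    (hf : ∀ m, (B ^ (l - 1)) m ∈ R → ∃ u, m - B u ∈ R) :
    ∃ h : End K M, (∀ r ∈ R, h r = 0) ∧
      ∀ m, m - ∑ j ∈ Finset.range l, (B ^ (l - 1 - j)) (h ((B ^ j) m)) ∈ R := by
  let N : End K (M ⧸ R) := R.mapQ R B st
  have hpow : ∀ j m, (N ^ j) (R.mkQ m) = R.mkQ ((B ^ j) m) := by
    intro j
    induction j with
    | zero => intro m; rfl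
    | succ j ih =>
      intro m
      rw [pow_succ', Module.End.mul_apply, ih, pow_succ', Module.End.mul_apply]
      rfl
  obtain ⟨h, hh⟩ := exists_h N l hl (by
      ext m
      change (N ^ l) (R.mkQ m) = 0
      rw [hpow]
      exact (Submodule.Quotient.mk_eq_zero _).2 (hB m)) (by
      intro m hm
      obtain ⟨m, rfl⟩ := R.mkQ_surjective m
      rw [hpow] at hm
      obtain ⟨u, hu⟩ := hf m ((Submodule.Quotient.mk_eq_zero _).1 hm)
      refine ⟨R.mkQ u, ?_⟩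
      change R.mkQ (B u) = R.mkQ m
      exact ((Submodule.Quotient.eq _).2 hu).symm)
  obtain ⟨σ, hσ⟩ := R.mkQ.exists_rightInverse_of_surjective (LinearMap.range_eq_top.2 R.mkQ_surjective)
  have hσ' : ∀ m, R.mkQ (σ m) = m := fun m => LinearMap.congr_fun hσ m
  refine ⟨σ ∘ₗ h ∘ₗ R.mkQ, ?_, ?_⟩
  · intro r hr
    rw [LinearMap.comp_apply, LinearMap.comp_apply]
    have : R.mkQ r = 0 := (Submodule.Quotient.mk_eq_zero _).2 hr
    rw [this, map_zero, map_zero]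
  · intro m
    apply (Submodule.Quotient.eq R).1
    change R.mkQ m = R.mkQ _
    rw [map_sum]
    have h1 := LinearMap.congr_fun hh (R.mkQ m)
    rw [Module.End.one_apply, LinearMap.sum_apply] at h1
    rw [← h1]
    refine Finset.sum_congr rfl fun j _ => ?_
    rw [← hpow, LinearMap.comp_apply, LinearMap.comp_apply, hσ', ← hpow, Module.End.mul_apply,
      Module.End.mul_apply]

end higman

section tensor

variable {K : Type*} [Field K] {P1 P2 : Type*} [AddCommGroup P1] [Module K P1]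
  [AddCommGroup P2] [Module K P2]

/-- the filtered tensors -/
def FilT (A : End K P1) (B : End K P2) (R1 : Submodule K P1) (R2 : Submodule K P2) (l : ℕ) :
    Submodule K (P2 ⊗[K] P1) :=
  Submodule.span K {z | ∃ i j, i + j + 1 = l ∧ ∃ (y2 : P2) (y1 : P1),
    z = ((B ^ i) y2) ⊗ₜ[K] ((A ^ j) y1)} ⊔ (RJM.RT R2 ⊔ RJM.TR R1)

theorem rt_l {R1 : Submodule K P1} {R2 : Submodule K P2} {A : End K P1}
    (st : ∀ r ∈ R1, A r ∈ R1) {x : P2 ⊗[K] P1} (hx : x ∈ (RJM.RT R2 ⊔ RJM.TR R1)) :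
    A.lTensor P2 x ∈ (RJM.RT R2 ⊔ RJM.TR R1 : Submodule K (P2 ⊗[K] P1)) := by
  have h : (RJM.RT R2 ⊔ RJM.TR R1 : Submodule K (P2 ⊗[K] P1)) ≤
      (RJM.RT R2 ⊔ RJM.TR R1).comap (A.lTensor P2) := by
    refine sup_le (Submodule.span_le.2 ?_) (Submodule.span_le.2 ?_)
    · rintro _ ⟨r, hr, p, rfl⟩
      refine Submodule.mem_sup_left (Submodule.subset_span ⟨r, hr, A p, ?_⟩)
      rw [LinearMap.lTensor_tmul]
    · rintro _ ⟨p, r, hr, rfl⟩
      refine Submodule.mem_sup_right (Submodule.subset_span ⟨p, A r, st r hr, ?_⟩)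
      rw [LinearMap.lTensor_tmul]
  exact h hx

theorem rt_r {R1 : Submodule K P1} {R2 : Submodule K P2} {B : End K P2}
    (st : ∀ r ∈ R2, B r ∈ R2) {x : P2 ⊗[K] P1} (hx : x ∈ (RJM.RT R2 ⊔ RJM.TR R1)) :
    B.rTensor P1 x ∈ (RJM.RT R2 ⊔ RJM.TR R1 : Submodule K (P2 ⊗[K] P1)) := by
  have h : (RJM.RT R2 ⊔ RJM.TR R1 : Submodule K (P2 ⊗[K] P1)) ≤
      (RJM.RT R2 ⊔ RJM.TR R1).comap (B.rTensor P1) := by
    refine sup_le (Submodule.span_le.2 ?_) (Submodule.span_le.2 ?_)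
    · rintro _ ⟨r, hr, p, rfl⟩
      refine Submodule.mem_sup_left (Submodule.subset_span ⟨B r, st r hr, p, ?_⟩)
      rw [LinearMap.rTensor_tmul]
    · rintro _ ⟨p, r, hr, rfl⟩
      refine Submodule.mem_sup_right (Submodule.subset_span ⟨B p, r, hr, ?_⟩)
      rw [LinearMap.rTensor_tmul]
  exact h hx

/-- **arm-exact implies filtered** -/
theorem exact_fil {A : End K P1} {B : End K P2} {R1 : Submodule K P1} {R2 : Submodule K P2}
    {l : ℕ} (hl : 1 ≤ l) (stA : ∀ r ∈ R1, A r ∈ R1) (stB : ∀ r ∈ R2, B r ∈ R2)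
    (hB : ∀ m, (B ^ l) m ∈ R2) (hf : ∀ m, (B ^ (l - 1)) m ∈ R2 → ∃ u, m - B u ∈ R2)
    {c : K} (hc : c ≠ 0) {x : P2 ⊗[K] P1}
    (hx : A.lTensor P2 x - c • B.rTensor P1 x ∈ (RJM.RT R2 ⊔ RJM.TR R1 : Submodule K (P2 ⊗[K] P1))) :
    x ∈ FilT A B R1 R2 l := by
  obtain ⟨h, h1, h2⟩ := exists_h_mod B R2 l hl stB hB hf
  -- (a) `x ≡ Σ B^i h B^j x`
  have ha : ∀ y : P2 ⊗[K] P1, y - ∑ j ∈ Finset.range l, (B ^ (l - 1 - j)).rTensor P1
      (h.rTensor P1 ((B ^ j).rTensor P1 y)) ∈ (RJM.RT R2 ⊔ RJM.TR R1 : Submodule K (P2 ⊗[K] P1)) := by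
    intro y
    induction y using TensorProduct.induction_on with
    | zero => simp
    | tmul p2 p1 =>
      simp only [LinearMap.rTensor_tmul]
      rw [← TensorProduct.sum_tmul, ← TensorProduct.sub_tmul]
      exact Submodule.mem_sup_left (Submodule.subset_span ⟨_, h2 p2, p1, rfl⟩)
    | add y z hy hz =>
      have := Submodule.add_mem _ hy hz
      simp only [map_add, Finset.sum_add_distrib]
      rw [add_sub_add_comm]
      exact this
  -- (b) `B^j x ≡ c^{-j} A^j x`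
  have hb : ∀ j, c ^ j • (B ^ j).rTensor P1 x - (A ^ j).lTensor P2 x ∈
      (RJM.RT R2 ⊔ RJM.TR R1 : Submodule K (P2 ⊗[K] P1)) := by
    intro j
    induction j with
    | zero =>
      simp only [pow_zero, one_smul]
      rw [show (1 : End K P2) = LinearMap.id from rfl, show (1 : End K P1) = LinearMap.id from rfl,
        LinearMap.rTensor_id, LinearMap.lTensor_id, sub_self]
      exact Submodule.zero_mem _
    | succ j ih =>
      have e1 : (B ^ (j + 1)).rTensor P1 x = B.rTensor P1 ((B ^ j).rTensor P1 x) := by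
        rw [pow_succ', Module.End.mul_eq_comp, LinearMap.rTensor_comp_apply]
      have e2 : (A ^ (j + 1)).lTensor P2 x = (A ^ j).lTensor P2 (A.lTensor P2 x) := by
        rw [pow_succ, Module.End.mul_eq_comp, LinearMap.lTensor_comp_apply]
      have e3 : (A ^ j).lTensor P2 (B.rTensor P1 x) = B.rTensor P1 ((A ^ j).lTensor P2 x) := by
        rw [← LinearMap.comp_apply, ← LinearMap.comp_apply, LinearMap.lTensor_comp_rTensor,
          LinearMap.rTensor_comp_lTensor]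
      have h3 := Submodule.smul_mem _ c (rt_r (R1 := R1) stB ih)
      have hst : ∀ r ∈ R1, (A ^ j) r ∈ R1 := by
        intro r hr
        clear ih e1 e2 e3 h3
        induction j with
        | zero => exact hr
        | succ j ih => rw [pow_succ', Module.End.mul_apply]; exact stA _ ih
      have h4 := rt_l (R2 := R2) hst hx
      have h5 := Submodule.sub_mem _ h3 h4
      convert h5 using 1
      rw [e1, e2, map_sub, map_smul, map_sub, map_smul, e3, smul_sub, smul_smul, pow_succ']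
      abel
  -- assembly
  have hh : ∀ i, ∀ y ∈ (RJM.RT R2 ⊔ RJM.TR R1 : Submodule K (P2 ⊗[K] P1)),
      (B ^ i).rTensor P1 (h.rTensor P1 y) ∈ (RJM.RT R2 ⊔ RJM.TR R1 : Submodule K (P2 ⊗[K] P1)) := by
    intro i y hy
    have h3 := rt_r (R1 := R1) (R2 := R2) (B := (B ^ i) * h) (fun r hr => by
      rw [Module.End.mul_apply, h1 r hr, map_zero]; exact R2.zero_mem) hy
    rwa [Module.End.mul_eq_comp, LinearMap.rTensor_comp_apply] at h3
  have hfil : ∀ j < l, ∀ y : P2 ⊗[K] P1, (B ^ (l - 1 - j)).rTensor P1 (h.rTensor P1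
      ((A ^ j).lTensor P2 y)) ∈ Submodule.span K {z : P2 ⊗[K] P1 | ∃ i j, i + j + 1 = l ∧
        ∃ (y2 : P2) (y1 : P1), z = ((B ^ i) y2) ⊗ₜ[K] ((A ^ j) y1)} := by
    intro j hj y
    induction y using TensorProduct.induction_on with
    | zero => simp
    | tmul p2 p1 =>
      simp only [LinearMap.rTensor_tmul, LinearMap.lTensor_tmul]
      exact Submodule.subset_span ⟨l - 1 - j, j, by omega, h p2, p1, rfl⟩
    | add y z hy hz =>
      simp only [map_add]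
      exact Submodule.add_mem _ hy hz
  have hterm : ∀ j ∈ Finset.range l, (B ^ (l - 1 - j)).rTensor P1 (h.rTensor P1
      ((B ^ j).rTensor P1 x)) ∈ FilT A B R1 R2 l := by
    intro j hj
    have hcj : c ^ j ≠ 0 := pow_ne_zero j hc
    have h3 := hh (l - 1 - j) _ (hb j)
    rw [map_sub, map_sub, map_smul, map_smul] at h3
    have h4 := hfil j (Finset.mem_range.1 hj) x
    have h5 : c ^ j • (B ^ (l - 1 - j)).rTensor P1 (h.rTensor P1 ((B ^ j).rTensor P1 x)) ∈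
        FilT A B R1 R2 l := by
      have h6 := Submodule.add_mem (FilT A B R1 R2 l) (Submodule.mem_sup_right h3)
        (Submodule.mem_sup_left h4)
      rwa [sub_add_cancel] at h6
    have h7 := Submodule.smul_mem _ (c ^ j)⁻¹ h5
    rwa [smul_smul, inv_mul_cancel₀ hcj, one_smul] at h7
  have h8 := Submodule.add_mem (FilT A B R1 R2 l) (Submodule.mem_sup_right (ha x))
    (Submodule.sum_mem _ hterm)
  rwa [sub_add_cancel] at h8

/-- from `RJM.Ex` -/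
theorem exact_mem {τ : Type*} [Fintype τ] {A : τ → End K P1} {B : τ → End K P2}
    {R1 : Submodule K P1} {R2 : Submodule K P2} {l : τ → ℕ} (hl : ∀ s, 1 ≤ l s)
    (stA : ∀ s, ∀ r ∈ R1, A s r ∈ R1) (stB : ∀ s, ∀ r ∈ R2, B s r ∈ R2)
    (hB : ∀ s m, (B s ^ l s) m ∈ R2)
    (hf : ∀ s m, (B s ^ (l s - 1)) m ∈ R2 → ∃ u, m - B s u ∈ R2)
    {c : K} (hc : c ≠ 0) {x : τ → P2 ⊗[K] P1} (hx : RJM.Ex A B R1 R2 c x) (s : τ) :
    x s ∈ FilT (A s) (B s) R1 R2 (l s) :=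
  exact_fil (hl s) (stA s) (stB s) (hB s) (hf s) hc (hx.arm s)

end tensor

section frames

open Crest.Agent.R172.FO Crest.Agent.R172.Qt Crest.Agent.R172.SpS
open Crest.Agent.R172.SEnd Crest.Agent.R172.SEnd2 Crest.Agent.R172.STop
open Crest.Agent.R172.SC (PB PB_mem PB_exists PB_stable PB_orth iSup_PB PB_le_Ainf)
open Crest.Agent.R172.PL (Wk Ainf Rad CoreM coreOp resOp Ainf_exists Ainf_stable)
open Crest.Agent.R172.UFr (Cq)
open Crest.Agent.R172.UBlk (Qb Qb_map)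

variable {ι : Type} [Fintype ι] [DecidableEq ι] {δ : Type} [Fintype δ] [DecidableEq δ]
variable {K : Type} [Field K] [Algebra ℂ K] [IsAlgClosed K]
variable {arm : δ → Fin 3} {J : Matrix ι ι K} {B : Matrix δ δ K} {N W : Submodule K (Matrix ι δ K)}
  {F f : Matrix ι δ K} {P : Matrix ι ι K × (Fin 3 → Matrix ι ι K)} {R : Matrix δ ι K}
  {D : End K (CoreM (PhS arm J B F R P.1))} {l : Fin 3 → ℕ}

theorem PC_iSup (S : Setup arm J B N W F f P R D l) :
    PC arm J B F R P.1 = ⨆ μ, SLev0.PbK arm J B F R P.1 D μ := by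
  have h3 : Ainf (PhS arm J B F R P.1) = ⨆ ν, PB (PhS arm J B F R P.1) D ν :=
    (iSup_PB S.hD.2 (Module.End.iSup_maxGenEigenspace_eq_top D)).symm
  unfold PC
  rw [h3, Submodule.map_iSup]

theorem PbK_orth (S : Setup arm J B N W F f P R D l) {ν μ : K} (hne : ν ≠ μ) {a b : ι → K}
    (ha : a ∈ SLev0.PbK arm J B F R P.1 D ν) (hb : b ∈ SLev0.PbK arm J B F R P.1 D μ) :
    a ⬝ᵥ ((J * P.1) *ᵥ b) = 0 := by
  obtain ⟨v, hv, rfl⟩ := ha
  obtain ⟨w, hw, rfl⟩ := hb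
  exact SCM.orth (k := ℂ) (N := N) (W := W) (S.hCtx F S.hF).data S.hR S.hP.1 S.hDB hne hv hw

theorem PbK_pow (S : Setup arm J B N W F f P R D l) {ν : K} (s : Fin 3) (j : ℕ) {a : ι → K}
    (ha : a ∈ SLev0.PbK arm J B F R P.1 D ν) :
    ((M arm B s F F * (J * P.1)) ^ j) *ᵥ a ∈ SLev0.PbK arm J B F R P.1 D ν := by
  obtain ⟨v, hv, rfl⟩ := ha
  refine ⟨(PhS arm J B F R P.1 s ^ j) v, ?_, PhS_pow_coe S.hR P.1 s j v⟩
  induction j with
  | zero => exact hv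
  | succ j ih =>
    rw [pow_succ', Module.End.mul_apply]
    exact PB_stable S.hD.2 ν s ih

section one

variable (S : Setup arm J B N W F f P R D l) {ν : K} {m : ℕ} {U : Matrix δ (Fin m) K}
  {a : Fin 3 → Matrix (Fin m) (Fin m) K}

include S

theorem fr_mem (hU : Cq (Qb (S.hCtx F S.hF).data S.hR P.1 D ν) U) (x : Fin m → K) :
    U *ᵥ x ∈ Qb (S.hCtx F S.hF).data S.hR P.1 D ν := by
  have e : U *ᵥ x = ∑ j, x j • (fun d => U d j) := by
    funext d
    rw [Finset.sum_apply]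
    unfold Matrix.mulVec dotProduct
    refine Finset.sum_congr rfl fun j _ => ?_
    rw [Pi.smul_apply, smul_eq_mul, mul_comm]
  rw [e]
  exact Submodule.sum_mem _ fun j _ => Submodule.smul_mem _ _ (hU j)

theorem fr_PbK (hU : Cq (Qb (S.hCtx F S.hF).data S.hR P.1 D ν) U) (x : Fin m → K) :
    F *ᵥ (U *ᵥ x) ∈ SLev0.PbK arm J B F R P.1 D ν := by
  have h1 : (Qb (S.hCtx F S.hF).data S.hR P.1 D ν).map (SpS.gS F) =
      PB (PhS arm J B F R P.1) D ν := Qb_map (S.hCtx F S.hF) S.hR S.hD ν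
  refine ⟨SpS.gS F (U *ᵥ x), ?_, rfl⟩
  rw [← h1]
  exact Submodule.mem_map_of_mem (fr_mem S hU x)

theorem fr_surj (hspan : ∀ u ∈ Qb (S.hCtx F S.hF).data S.hR P.1 D ν, ∃ x, u = U *ᵥ x)
    {b : ι → K} (hb : b ∈ SLev0.PbK arm J B F R P.1 D ν) : ∃ x, b = F *ᵥ (U *ᵥ x) := by
  have h1 : (Qb (S.hCtx F S.hF).data S.hR P.1 D ν).map (SpS.gS F) =
      PB (PhS arm J B F R P.1) D ν := Qb_map (S.hCtx F S.hF) S.hR S.hD ν
  obtain ⟨v, hv, rfl⟩ := hb
  rw [← h1] at hv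
  obtain ⟨u, hu, rfl⟩ := hv
  obtain ⟨x, rfl⟩ := hspan u hu
  exact ⟨x, rfl⟩

theorem fr_act (ha : ∀ s, B * E K arm s * (Fᵀ * J * (P.1 * F)) * U = U * a s) (s : Fin 3) (j : ℕ)
    (x : Fin m → K) : ((M arm B s F F * (J * P.1)) ^ j) *ᵥ (F *ᵥ (U *ᵥ x)) =
      F *ᵥ (U *ᵥ ((a s ^ j) *ᵥ x)) := by
  have hBE := (S.hCtx F S.hF).data.B_arm
  have h1 : M arm B s F F * (J * P.1) * (F * U) = F * U * a s := by
    calc M arm B s F F * (J * P.1) * (F * U)
        = F * (E K arm s * B) * (Fᵀ * J * (P.1 * F)) * U := by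
          unfold M; simp only [Matrix.mul_assoc]
      _ = F * (B * E K arm s * (Fᵀ * J * (P.1 * F)) * U) := by
          rw [hBE]; simp only [Matrix.mul_assoc]
      _ = F * U * a s := by rw [ha, Matrix.mul_assoc]
  have h2 := STop.pow_act h1 j x
  rw [← mulVec_mulVec x F U, ← mulVec_mulVec _ F U] at h2
  exact h2

/-- `F U z` is radical in the core iff `(Uᵀ S₀ U) z = 0` -/
theorem fr_Rd (hU : Cq (Qb (S.hCtx F S.hF).data S.hR P.1 D ν) U)
    (hspan : ∀ u ∈ Qb (S.hCtx F S.hF).data S.hR P.1 D ν, ∃ x, u = U *ᵥ x) (z : Fin m → K) :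
    F *ᵥ (U *ᵥ z) ∈ Rd (J * P.1) (PC arm J B F R P.1) ↔
      (Uᵀ * (Fᵀ * J * (P.1 * F)) * U) *ᵥ z = 0 := by
  have key : ∀ y, (F *ᵥ (U *ᵥ y)) ⬝ᵥ ((J * P.1) *ᵥ (F *ᵥ (U *ᵥ z))) =
      y ⬝ᵥ ((Uᵀ * (Fᵀ * J * (P.1 * F)) * U) *ᵥ z) := by
    intro y
    have e1 : (Uᵀ * (Fᵀ * J * (P.1 * F)) * U) *ᵥ z =
        (F * U)ᵀ *ᵥ ((J * P.1) *ᵥ (F *ᵥ (U *ᵥ z))) := by
      simp only [mulVec_mulVec, transpose_mul, Matrix.mul_assoc]
    rw [e1, dotProduct_mulVec y, vecMul_transpose, ← mulVec_mulVec y F U]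
  constructor
  · intro h
    funext i
    have h1 := h.2 (F *ᵥ (U *ᵥ Pi.single i 1)) (by
      rw [PC_iSup S]
      exact Submodule.mem_iSup_of_mem ν (fr_PbK S hU _))
    rw [key, single_one_dotProduct] at h1
    exact h1
  · intro h
    refine ⟨?_, fun b hb => ?_⟩
    · rw [PC_iSup S]
      exact Submodule.mem_iSup_of_mem ν (fr_PbK S hU _)
    · rw [PC_iSup S] at hb
      refine Submodule.iSup_induction (p := fun μ => SLev0.PbK arm J B F R P.1 D μ)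
        (motive := fun b => b ⬝ᵥ ((J * P.1) *ᵥ (F *ᵥ (U *ᵥ z))) = 0) hb ?_ (zero_dotProduct _) ?_
      · intro μ b hb
        by_cases hμ : μ = ν
        · subst hμ
          obtain ⟨y, rfl⟩ := fr_surj S hspan hb
          rw [key, h, dotProduct_zero]
        · exact PbK_orth S hμ hb (fr_PbK S hU z)
      · intro x y hx hy
        rw [add_dotProduct, hx, hy, add_zero]

/-- the radical in frame letters is stable -/
theorem fr_st (hU : Cq (Qb (S.hCtx F S.hF).data S.hR P.1 D ν) U)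
    (hspan : ∀ u ∈ Qb (S.hCtx F S.hF).data S.hR P.1 D ν, ∃ x, u = U *ᵥ x)
    (ha : ∀ s, B * E K arm s * (Fᵀ * J * (P.1 * F)) * U = U * a s) (s : Fin 3) :
    ∀ r ∈ LinearMap.ker (Uᵀ * (Fᵀ * J * (P.1 * F)) * U).mulVecLin,
      a s *ᵥ r ∈ LinearMap.ker (Uᵀ * (Fᵀ * J * (P.1 * F)) * U).mulVecLin := by
  intro r hr
  rw [LinearMap.mem_ker, mulVecLin_apply] at hr ⊢
  rw [← fr_Rd S hU hspan] at hr ⊢
  have hDt := (S.hCtx F S.hF).data
  have h1 := fr_act S ha s 1 r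
  rw [pow_one, pow_one] at h1
  rw [← h1]
  have had : (M arm B s F F * (J * P.1))ᵀ * (J * P.1) = -((J * P.1) * (M arm B s F F * (J * P.1))) := by
    have e1 : (J * P.1)ᵀ = -(J * P.1) := by rw [transpose_mul, hDt.J_symm, S.hP.1.eq]
    have e2 := SMove.M_symm hDt F s
    rw [transpose_mul, e1, e2]
    simp only [Matrix.neg_mul, Matrix.mul_assoc]
  have h2 := Rd_pow had (fun a ha => PC_stable S.hR s a ha) 1 hr
  rwa [pow_one] at h2

/-- **freeness of one block, in frame letters** (`hl2`, `hf1` of `SL2g.exact_mem`) -/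
theorem block_free (hU : Cq (Qb (S.hCtx F S.hF).data S.hR P.1 D ν) U)
    (hspan : ∀ u ∈ Qb (S.hCtx F S.hF).data S.hR P.1 D ν, ∃ x, u = U *ᵥ x)
    (ha : ∀ s, B * E K arm s * (Fᵀ * J * (P.1 * F)) * U = U * a s) (s : Fin 3) :
    (∀ y, ((a s) ^ l s) *ᵥ y ∈ LinearMap.ker (Uᵀ * (Fᵀ * J * (P.1 * F)) * U).mulVecLin) ∧
      ∀ v ≤ l s, ∀ y, ((a s) ^ (l s - v)) *ᵥ y ∈
        LinearMap.ker (Uᵀ * (Fᵀ * J * (P.1 * F)) * U).mulVecLin →
        ∃ y', y - ((a s) ^ v) *ᵥ y' ∈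
          LinearMap.ker (Uᵀ * (Fᵀ * J * (P.1 * F)) * U).mulVecLin := by
  have hPC : ∀ y, F *ᵥ (U *ᵥ y) ∈ PC arm J B F R P.1 := fun y => by
    rw [PC_iSup S]
    exact Submodule.mem_iSup_of_mem ν (fr_PbK S hU _)
  refine ⟨fun y => ?_, fun v hv y hy => ?_⟩
  · rw [LinearMap.mem_ker, mulVecLin_apply, ← fr_Rd S hU hspan, ← fr_act S ha]
    exact (S.free s).1 _ (hPC y)
  · rw [LinearMap.mem_ker, mulVecLin_apply, ← fr_Rd S hU hspan, ← fr_act S ha] at hy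
    obtain ⟨c, hc, hc2⟩ := (S.free s).2 v hv _ (hPC y) hy
    have hproj : ∃ y', ∀ b ∈ SLev0.PbK arm J B F R P.1 D ν,
        b ⬝ᵥ ((J * P.1) *ᵥ (((M arm B s F F * (J * P.1)) ^ v) *ᵥ c)) =
          b ⬝ᵥ ((J * P.1) *ᵥ (((M arm B s F F * (J * P.1)) ^ v) *ᵥ (F *ᵥ (U *ᵥ y')))) := by
      rw [PC_iSup S] at hc
      refine Submodule.iSup_induction (p := fun μ => SLev0.PbK arm J B F R P.1 D μ)
        (motive := fun c => ∃ y', ∀ b ∈ SLev0.PbK arm J B F R P.1 D ν,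
          b ⬝ᵥ ((J * P.1) *ᵥ (((M arm B s F F * (J * P.1)) ^ v) *ᵥ c)) =
          b ⬝ᵥ ((J * P.1) *ᵥ (((M arm B s F F * (J * P.1)) ^ v) *ᵥ (F *ᵥ (U *ᵥ y'))))) hc
        ?_ ⟨0, fun b _ => by simp⟩ ?_
      · intro μ c hc
        by_cases hμ : μ = ν
        · subst hμ
          obtain ⟨y', rfl⟩ := fr_surj S hspan hc
          exact ⟨y', fun b _ => rfl⟩
        · refine ⟨0, fun b hb => ?_⟩
          rw [PbK_orth S (Ne.symm hμ) hb (PbK_pow S s v hc)]
          simp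
      · rintro c1 c2 ⟨y1, h1⟩ ⟨y2, h2⟩
        refine ⟨y1 + y2, fun b hb => ?_⟩
        simp only [mulVec_add, dotProduct_add, h1 b hb, h2 b hb]
    obtain ⟨y', hy'⟩ := hproj
    refine ⟨y', ?_⟩
    rw [LinearMap.mem_ker, mulVecLin_apply]
    funext i
    have key : ∀ z, (F *ᵥ (U *ᵥ Pi.single i 1)) ⬝ᵥ ((J * P.1) *ᵥ (F *ᵥ (U *ᵥ z))) =
        ((Uᵀ * (Fᵀ * J * (P.1 * F)) * U) *ᵥ z) i := by
      intro z
      have e1 : (Uᵀ * (Fᵀ * J * (P.1 * F)) * U) *ᵥ z =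
          (F * U)ᵀ *ᵥ ((J * P.1) *ᵥ (F *ᵥ (U *ᵥ z))) := by
        simp only [mulVec_mulVec, transpose_mul, Matrix.mul_assoc]
      have e2 : ((Uᵀ * (Fᵀ * J * (P.1 * F)) * U) *ᵥ z) i = Pi.single i 1 ⬝ᵥ
          ((Uᵀ * (Fᵀ * J * (P.1 * F)) * U) *ᵥ z) := (single_one_dotProduct _ _).symm
      rw [e2, e1, dotProduct_mulVec (Pi.single i 1), vecMul_transpose, ← mulVec_mulVec _ F U]
    have hb := fr_PbK S hU (Pi.single i 1)
    rw [← key, mulVec_sub, mulVec_sub, mulVec_sub, dotProduct_sub, ← fr_act S ha, ← hy' _ hb,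
      ← dotProduct_sub, ← mulVec_sub]
    exact hc2.2 _ (hPC _)

end one

end frames

section final

open Crest.Agent.R172.FO Crest.Agent.R172.Qt Crest.Agent.R172.SpS
open Crest.Agent.R172.SEnd Crest.Agent.R172.SEnd2 Crest.Agent.R172.STop
open Crest.Agent.R172.PL (CoreM)
open Crest.Agent.R172.UFr (Cq)
open Crest.Agent.R172.UBlk (Qb)

theorem perp_range {K : Type*} [Field K] {n : ℕ} (G : Matrix (Fin n) (Fin n) K) (φ : Fin n → K)
    (h : ∀ r, G *ᵥ r = 0 → φ ⬝ᵥ r = 0) : ∃ ψ, φ = Gᵀ *ᵥ ψ := by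
  obtain ⟨H, hH⟩ := FO.exists_gen_inv G
  refine ⟨Hᵀ *ᵥ φ, ?_⟩
  funext i
  have h1 := h (Pi.single i 1 - (H * G) *ᵥ Pi.single i 1) (by
    rw [mulVec_sub, mulVec_mulVec, ← Matrix.mul_assoc, hH, sub_self])
  rw [dotProduct_sub, sub_eq_zero, dotProduct_single_one] at h1
  rw [h1, dotProduct_mulVec, dotProduct_single_one, mulVec_mulVec, ← transpose_mul,
    ← vecMul_transpose, transpose_transpose]

theorem arm_aux {K : Type*} [Field K] {n1 n2 : ℕ} {G1 : Matrix (Fin n1) (Fin n1) K}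
    {G2 : Matrix (Fin n2) (Fin n2) K} {Z : Matrix (Fin n2) (Fin n1) K} (hG1 : G1ᵀ = -G1)
    (harm : G2 * Z * G1 = 0) (φ : Fin n1 → K)
    (hφ : ∀ r ∈ LinearMap.ker G1.mulVecLin, φ ⬝ᵥ r = 0) : Z *ᵥ φ ∈ LinearMap.ker G2.mulVecLin := by
  obtain ⟨ψ, rfl⟩ := perp_range G1 φ (fun r hr => hφ r (by
    rw [LinearMap.mem_ker, mulVecLin_apply]; exact hr))
  rw [LinearMap.mem_ker, mulVecLin_apply, hG1, neg_mulVec, mulVec_neg, mulVec_neg, mulVec_mulVec,
    mulVec_mulVec, harm, zero_mulVec, neg_zero]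

variable {ι : Type} [Fintype ι] [DecidableEq ι] {δ : Type} [Fintype δ] [DecidableEq δ]
variable {K : Type} [Field K] [Algebra ℂ K] [IsAlgClosed K]
variable {arm : δ → Fin 3} {J : Matrix ι ι K} {B : Matrix δ δ K} {N W : Submodule K (Matrix ι δ K)}
  {F f : Matrix ι δ K} {P : Matrix ι ι K × (Fin 3 → Matrix ι ι K)} {R : Matrix δ ι K}
  {D : End K (CoreM (PhS arm J B F R P.1))} {l : Fin 3 → ℕ}

/-- **(B4 iii)** the arm condition of `SDec.Dec` implies filtered (182's letters) -/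
theorem exact_Gn (S : Setup arm J B N W F f P R D l) {ν ν' : K} {m1 m2 : ℕ}
    {U1 : Matrix δ (Fin m1) K} {U2 : Matrix δ (Fin m2) K}
    {a1 : Fin 3 → Matrix (Fin m1) (Fin m1) K} {a2 : Fin 3 → Matrix (Fin m2) (Fin m2) K}
    (hU1 : Cq (Qb (S.hCtx F S.hF).data S.hR P.1 D ν) U1)
    (hs1 : ∀ u ∈ Qb (S.hCtx F S.hF).data S.hR P.1 D ν, ∃ x, u = U1 *ᵥ x)
    (ha1 : ∀ s, B * E K arm s * (Fᵀ * J * (P.1 * F)) * U1 = U1 * a1 s)
    (hU2 : Cq (Qb (S.hCtx F S.hF).data S.hR P.1 D ν') U2)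
    (hs2 : ∀ u ∈ Qb (S.hCtx F S.hF).data S.hR P.1 D ν', ∃ x, u = U2 *ᵥ x)
    (ha2 : ∀ s, B * E K arm s * (Fᵀ * J * (P.1 * F)) * U2 = U2 * a2 s)
    {c : K} {s : Fin 3} {X : Matrix (Fin m2) (Fin m1) K}
    (harm : (U2ᵀ * (Fᵀ * J * (P.1 * F)) * U2) * (X * (a1 s)ᵀ - c • (a2 s * X)) *
      (U1ᵀ * (Fᵀ * J * (P.1 * F)) * U1) = 0) :
    X ∈ SL2g.Gn (a1 s) (a2 s) (LinearMap.ker (U1ᵀ * (Fᵀ * J * (P.1 * F)) * U1).mulVecLin)
      (LinearMap.ker (U2ᵀ * (Fᵀ * J * (P.1 * F)) * U2).mulVecLin) (l s) := by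
  have hsk : (Fᵀ * J * (P.1 * F))ᵀ = -(Fᵀ * J * (P.1 * F)) :=
    UBlk.form_skew (S.hCtx F S.hF).data.J_symm S.hP
  have hG1 : (U1ᵀ * (Fᵀ * J * (P.1 * F)) * U1)ᵀ = -(U1ᵀ * (Fᵀ * J * (P.1 * F)) * U1) := by
    rw [transpose_mul, transpose_mul, hsk, transpose_transpose]
    simp only [Matrix.neg_mul, Matrix.mul_neg, Matrix.mul_assoc]
  refine SL2g.exact_mem (c := -c) (fr_st S hU1 hs1 ha1 s) (fr_st S hU2 hs2 ha2 s)
    (block_free S hU2 hs2 ha2 s).1 (block_free S hU1 hs1 ha1 s).2 ?_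
  intro φ hφ
  have h1 := arm_aux hG1 harm φ hφ
  rwa [sub_eq_add_neg, ← neg_smul] at h1

/-- **(B4 iii)** in 560's letters -/
theorem exact_FR (S : Setup arm J B N W F f P R D l) {ν ν' : K} {m1 m2 : ℕ}
    {U1 : Matrix δ (Fin m1) K} {U2 : Matrix δ (Fin m2) K}
    {a1 : Fin 3 → Matrix (Fin m1) (Fin m1) K} {a2 : Fin 3 → Matrix (Fin m2) (Fin m2) K}
    (hU1 : Cq (Qb (S.hCtx F S.hF).data S.hR P.1 D ν) U1)
    (hs1 : ∀ u ∈ Qb (S.hCtx F S.hF).data S.hR P.1 D ν, ∃ x, u = U1 *ᵥ x)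
    (ha1 : ∀ s, B * E K arm s * (Fᵀ * J * (P.1 * F)) * U1 = U1 * a1 s)
    (hU2 : Cq (Qb (S.hCtx F S.hF).data S.hR P.1 D ν') U2)
    (hs2 : ∀ u ∈ Qb (S.hCtx F S.hF).data S.hR P.1 D ν', ∃ x, u = U2 *ᵥ x)
    (ha2 : ∀ s, B * E K arm s * (Fᵀ * J * (P.1 * F)) * U2 = U2 * a2 s)
    {c : K} {s : Fin 3} {X : Matrix (Fin m2) (Fin m1) K}
    (harm : (U2ᵀ * (Fᵀ * J * (P.1 * F)) * U2) * (X * (a1 s)ᵀ - c • (a2 s * X)) *
      (U1ᵀ * (Fᵀ * J * (P.1 * F)) * U1) = 0) :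
    X ∈ SL2g560.FR (a2 s) (a1 s) (SL2g560.rad (Fᵀ * J * (P.1 * F)) U2)
      (SL2g560.rad (Fᵀ * J * (P.1 * F)) U1) (l s) := by
  have h := exact_Gn S hU1 hs1 ha1 hU2 hs2 ha2 harm
  refine (Submodule.span_le (p := SL2g560.FR (a2 s) (a1 s) (SL2g560.rad (Fᵀ * J * (P.1 * F)) U2)
      (SL2g560.rad (Fᵀ * J * (P.1 * F)) U1) (l s))).2 ?_ h
  rintro M (⟨i, j, y, z, hij, rfl⟩ | ⟨r, hr, z, rfl⟩ | ⟨y, r, hr, rfl⟩)
  · exact Submodule.subset_span (Or.inl ⟨i, j, y, z, hij, rfl⟩)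
  · exact Submodule.subset_span (Or.inr (Or.inl ⟨r, SL2g560.mem_rad.2 (by
      rwa [LinearMap.mem_ker, mulVecLin_apply] at hr), z, rfl⟩))
  · exact Submodule.subset_span (Or.inr (Or.inr ⟨y, r, SL2g560.mem_rad.2 (by
      rwa [LinearMap.mem_ker, mulVecLin_apply] at hr), rfl⟩))

end final

end Crest.Agent.R172.SExF108
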