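import Crest.Agent.R172.SEnd

/-!
Row 172 (S0260), tame node (t2): filtered tensors are spanned by the elementary ones.

* `mem_span_vec` : `x ∈ A ⊗ B` is a sum of `vecMulVec a b`;
* `fil_mem` : a submodule of matrices containing `R ⊗ P`, `P ⊗ R` and `Φ^i P ⊗ Φ^j P`
  (`i + j + 1 = l`) contains every filtered tensor of `P ⊗ P`;
* `GS` : the good tensors of `SEnd.false_of_slack` as a submodule; `hSL_of_gen`.
-/

set_option autoImplicit false
set_option linter.unusedSectionVars false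

namespace Crest.Agent.R172.SFil

open Matrix Module Crest.Agent.R172.FO Crest.Agent.R172.Qt Crest.Agent.R172.SEnd

variable {ι : Type*} [Fintype ι] [DecidableEq ι]
variable {K : Type*} [Field K]

/-- a matrix with image in `A` and rows in `B` is a sum of `a ⊗ b` -/
theorem mem_of_vec {A B : Submodule K (ι → K)} {S : Submodule K (Matrix ι ι K)}
    (hS : ∀ a ∈ A, ∀ b ∈ B, vecMulVec a b ∈ S) {x : Matrix ι ι K}
    (hA : ∀ v, x *ᵥ v ∈ A) (hB : ∀ v, xᵀ *ᵥ v ∈ B) : x ∈ S := by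
  classical
  obtain ⟨n, b⟩ : ∃ n, Nonempty (Basis (Fin n) K A) := ⟨_, ⟨Module.finBasis K A⟩⟩
  obtain ⟨b⟩ := b
  obtain ⟨f, hf⟩ := A.subtype.exists_leftInverse_of_injective A.ker_subtype
  -- coordinate functionals as vectors
  let c : Fin n → (ι → K) := fun i j => b.repr (f (Pi.single j 1)) i
  have hc : ∀ i (v : ι → K), c i ⬝ᵥ v = b.repr (f v) i := by
    intro i v
    have h1 : v = ∑ j, v j • (Pi.single j (1 : K) : ι → K) := by
      funext t
      simp [Finset.sum_apply, Pi.single_apply]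
    conv_rhs => rw [h1]
    rw [map_sum, map_sum, Finsupp.finsetSum_apply]
    unfold dotProduct
    refine Finset.sum_congr rfl fun j _ => ?_
    rw [map_smul, map_smul, Finsupp.smul_apply, smul_eq_mul, mul_comm]
  have hfa : ∀ a (ha : a ∈ A), f a = ⟨a, ha⟩ := fun a ha => LinearMap.congr_fun hf ⟨a, ha⟩
  have hx : x = ∑ i, vecMulVec ((b i : A) : ι → K) (xᵀ *ᵥ c i) := by
    apply Matrix.ext_of_mulVec_single
    intro j
    rw [sum_mulVec]
    have h1 : x *ᵥ Pi.single j 1 = ∑ i, (b.repr (f (x *ᵥ Pi.single j 1)) i) • ((b i : A) : ι → K) := by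
      calc x *ᵥ Pi.single j 1 = ((f (x *ᵥ Pi.single j 1) : A) : ι → K) := by rw [hfa _ (hA _)]
        _ = ((∑ i, (b.repr (f (x *ᵥ Pi.single j 1)) i) • b i : A) : ι → K) := by
            rw [b.sum_repr]
        _ = _ := by rw [AddSubmonoidClass.coe_finsetSum]; rfl
    rw [h1]
    refine Finset.sum_congr rfl fun i _ => ?_
    rw [vmv, ← hc, dotProduct_mulVec, ← mulVec_transpose]
  rw [hx]
  exact S.sum_mem fun i _ => hS _ (b i).2 _ (hB _)

theorem PP_add {P : Submodule K (ι → K)} {x y : Matrix ι ι K} (hx : PP P x) (hy : PP P y) :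
    PP P (x + y) :=
  ⟨fun v => by rw [add_mulVec]; exact P.add_mem (hx.1 v) (hy.1 v),
    fun v => by rw [transpose_add, add_mulVec]; exact P.add_mem (hx.2 v) (hy.2 v)⟩

theorem PP_mul_left {P : Submodule K (ι → K)} {x Y : Matrix ι ι K} (hx : PP P x)
    (hY : ∀ a ∈ P, Y *ᵥ a ∈ P) : PP P (Y * x) :=
  ⟨fun v => by rw [← mulVec_mulVec]; exact hY _ (hx.1 v),
    fun v => by rw [transpose_mul, ← mulVec_mulVec]; exact hx.2 _⟩

/-- filtered tensors form a submodule -/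
def FilS (Φ η : Matrix ι ι K) (P : Submodule K (ι → K)) : Submodule K (Matrix ι ι K) where
  carrier := {x | Fil Φ η P x}
  zero_mem' := by
    intro v c _
    exact ⟨0, P.zero_mem, by simp [(Rd η P).zero_mem]⟩
  add_mem' := by
    intro x y hx hy v c hc
    obtain ⟨a, ha, ha'⟩ := hx v c hc
    obtain ⟨b, hb, hb'⟩ := hy v c hc
    refine ⟨a + b, P.add_mem ha hb, ?_⟩
    have := (Rd η P).add_mem ha' hb'
    rw [Matrix.add_mul, Matrix.add_mul, add_mulVec, mulVec_add]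
    convert this using 1
    abel
  smul_mem' := by
    intro t x hx v c hc
    obtain ⟨a, ha, ha'⟩ := hx v c hc
    refine ⟨t • a, P.smul_mem t ha, ?_⟩
    have := (Rd η P).smul_mem t ha'
    rw [Matrix.smul_mul, Matrix.smul_mul, smul_mulVec, mulVec_smul, ← smul_sub]
    exact this

theorem mem_FilS {Φ η : Matrix ι ι K} {P : Submodule K (ι → K)} {x : Matrix ι ι K} :
    x ∈ FilS Φ η P ↔ Fil Φ η P x := Iff.rfl

/-- for a skew form the radical is two-sided -/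
theorem Rd_left {η : Matrix ι ι K} (hη : ηᵀ = -η) {P : Submodule K (ι → K)} {r : ι → K}
    (hr : r ∈ Rd η P) {c : ι → K} (hc : c ∈ P) : r ⬝ᵥ (η *ᵥ c) = 0 := by
  have h1 := hr.2 c hc
  rw [dotProduct_mulVec, ← mulVec_transpose, hη, neg_mulVec, neg_dotProduct, neg_eq_zero] at h1
  rw [dotProduct_comm]
  exact h1

theorem Fil_rad' {Φ η : Matrix ι ι K} (hη : ηᵀ = -η) {P : Submodule K (ι → K)}
    (hst : ∀ a ∈ P, Φ *ᵥ a ∈ P) {r b : ι → K} (hr : r ∈ Rd η P) :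
    Fil Φ η P (vecMulVec b r) := by
  intro v c hc
  refine ⟨0, P.zero_mem, ?_⟩
  rw [mulVec_zero, sub_zero, ← mulVec_mulVec, ← mulVec_mulVec, vmv,
    Rd_left hη hr (pow_mem hst v c hc), zero_smul]
  exact (Rd η P).zero_mem

theorem vec_left (Y : Matrix ι ι K) (a b : ι → K) :
    Y * vecMulVec a b = vecMulVec (Y *ᵥ a) b := Matrix.mul_vecMulVec _ _ _

section main

variable {Φ η : Matrix ι ι K} {P : Submodule K (ι → K)} {l : ℕ}

/-- the projection onto a submodule as a matrix -/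
theorem exists_proj (A : Submodule K (ι → K)) :
    ∃ π : Matrix ι ι K, (∀ v, π *ᵥ v ∈ A) ∧ ∀ a ∈ A, π *ᵥ a = a := by
  obtain ⟨f, hf⟩ := A.subtype.exists_leftInverse_of_injective A.ker_subtype
  refine ⟨LinearMap.toMatrix' (A.subtype ∘ₗ f), fun v => ?_, fun a ha => ?_⟩
  · rw [LinearMap.toMatrix'_mulVec]
    exact (f v).2
  · rw [LinearMap.toMatrix'_mulVec]
    have h1 : f a = ⟨a, ha⟩ := LinearMap.congr_fun hf ⟨a, ha⟩
    change ((f a : A) : ι → K) = a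
    rw [h1]

/-- **filtered tensors are spanned by the elementary ones** -/
theorem fil_mem (hη : ηᵀ = -η) (had : Φᵀ * η = -(η * Φ)) (hst : ∀ a ∈ P, Φ *ᵥ a ∈ P)
    (hl1 : ∀ c ∈ P, (Φ ^ l) *ᵥ c ∈ Rd η P)
    (hl2 : ∀ v ≤ l, ∀ c ∈ P, (Φ ^ (l - v)) *ᵥ c ∈ Rd η P →
      ∃ c' ∈ P, c - (Φ ^ v) *ᵥ c' ∈ Rd η P)
    {S : Submodule K (Matrix ι ι K)}
    (hR1 : ∀ r ∈ Rd η P, ∀ b ∈ P, vecMulVec r b ∈ S)
    (hR2 : ∀ b ∈ P, ∀ r ∈ Rd η P, vecMulVec b r ∈ S)
    (hS : ∀ i j, i + j + 1 = l → ∀ a ∈ P, ∀ b ∈ P,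
      vecMulVec ((Φ ^ i) *ᵥ a) ((Φ ^ j) *ᵥ b) ∈ S)
    {x : Matrix ι ι K} (hx : PP P x) (hxF : Fil Φ η P x) : x ∈ S := by
  -- the induction
  have key : ∀ v ≤ l, ∃ s ∈ S ⊓ FilS Φ η P, ∃ z, PP P z ∧ x = s + Φ ^ v * z := by
    intro v
    induction v with
    | zero =>
      intro _
      exact ⟨0, Submodule.zero_mem _, x, hx, by rw [pow_zero, Matrix.one_mul, zero_add]⟩
    | succ v ih =>
      intro hv
      obtain ⟨s, hs, z, hz, hxz⟩ := ih (by omega)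
      have hzF : Fil Φ η P (Φ ^ v * z) := by
        have h1 : Φ ^ v * z = x - s := by rw [hxz, add_sub_cancel_left]
        rw [h1]
        exact (FilS Φ η P).sub_mem hxF hs.2
      -- the submodule `Φ P + R`
      obtain ⟨A, hA⟩ : ∃ A : Submodule K (ι → K), A = P.map (Matrix.toLin' Φ) ⊔ Rd η P := ⟨_, rfl⟩
      have hAmem : ∀ a ∈ A, ∃ c ∈ P, a - Φ *ᵥ c ∈ Rd η P := by
        intro a ha
        rw [hA, Submodule.mem_sup] at ha
        obtain ⟨y, ⟨c, hc, rfl⟩, r, hr, rfl⟩ := ha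
        refine ⟨c, hc, ?_⟩
        rw [Matrix.toLin'_apply, add_sub_cancel_left]
        exact hr
      have hmemA : ∀ c ∈ P, ∀ a, a - Φ *ᵥ c ∈ Rd η P → a ∈ A := by
        intro c hc a ha
        have h1 : a = Matrix.toLin' Φ c + (a - Φ *ᵥ c) := by
          rw [Matrix.toLin'_apply]; abel
        rw [hA, h1]
        exact Submodule.add_mem_sup ⟨c, hc, rfl⟩ ha
      have hAP : ∀ a ∈ A, a ∈ P := by
        intro a ha
        obtain ⟨c, hc, hr⟩ := hAmem a ha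
        have h1 := P.add_mem hr.1 (hst c hc)
        rwa [sub_add_cancel] at h1
      -- `z η Φ^(v+1) c ∈ A`
      have hzA : ∀ c ∈ P, (z * η * Φ ^ (v + 1)) *ᵥ c ∈ A := by
        intro c hc
        obtain ⟨c', hc', h1⟩ := hzF (v + 1) c hc
        have h2 : (z * η * Φ ^ (v + 1)) *ᵥ c ∈ P := by
          rw [← mulVec_mulVec, ← mulVec_mulVec]; exact hz.1 _
        obtain ⟨u, hu⟩ : ∃ u, u = (z * η * Φ ^ (v + 1)) *ᵥ c - Φ *ᵥ c' := ⟨_, rfl⟩
        have huP : u ∈ P := by rw [hu]; exact P.sub_mem h2 (hst _ hc')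
        have hu2 : (Φ ^ v) *ᵥ u ∈ Rd η P := by
          rw [hu, mulVec_sub, mulVec_mulVec, mulVec_mulVec, ← pow_succ, ← Matrix.mul_assoc,
            ← Matrix.mul_assoc]
          exact h1
        obtain ⟨c'', hc'', h3⟩ := hl2 (l - v) (by omega) u huP (by
          rw [show l - (l - v) = v by omega]; exact hu2)
        obtain ⟨m, hm⟩ : ∃ m, l - v = m + 1 := ⟨l - v - 1, by omega⟩
        refine hmemA (c' + (Φ ^ m) *ᵥ c'') (P.add_mem hc' (pow_mem hst m _ hc'')) _ ?_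
        have h4 : (z * η * Φ ^ (v + 1)) *ᵥ c - Φ *ᵥ (c' + (Φ ^ m) *ᵥ c'') =
            u - (Φ ^ (l - v)) *ᵥ c'' := by
          have h5 : (Φ ^ (l - v)) *ᵥ c'' = Φ *ᵥ ((Φ ^ m) *ᵥ c'') := by
            rw [hm, pow_succ', mulVec_mulVec]
          rw [hu, h5, mulVec_add]
          abel
        rw [h4]
        exact h3
      obtain ⟨π, hπ1, hπ2⟩ := exists_proj A
      -- the two parts
      have hp1 : PP P (π * z) :=
        ⟨fun w => by rw [← mulVec_mulVec]; exact hAP _ (hπ1 _),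
          fun w => by rw [transpose_mul, ← mulVec_mulVec]; exact hz.2 _⟩
      have hp2 : PP P (z - π * z) :=
        ⟨fun w => by rw [sub_mulVec]; exact P.sub_mem (hz.1 w) (hp1.1 w),
          fun w => by rw [transpose_sub, sub_mulVec]; exact P.sub_mem (hz.2 w) (hp1.2 w)⟩
      -- second part: rows in `{b ∈ P | Φ^(v+1) b ∈ R}`
      obtain ⟨Bm, hBm⟩ : ∃ Bm : Submodule K (ι → K),
          Bm = P ⊓ (Rd η P).comap (Matrix.toLin' (Φ ^ (v + 1))) := ⟨_, rfl⟩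
      have hpart2 : Φ ^ v * (z - π * z) ∈ S ⊓ FilS Φ η P := by
        have h1 : z - π * z ∈ (S ⊓ FilS Φ η P).comap (LinearMap.mulLeft K (Φ ^ v)) := by
          refine mem_of_vec (A := P) (B := Bm) ?_ hp2.1 ?_
          · intro a ha b hb
            rw [hBm] at hb
            obtain ⟨hbP, hb2⟩ := hb
            have hb3 : (Φ ^ (v + 1)) *ᵥ b ∈ Rd η P := by
              have := Submodule.mem_comap.1 hb2
              rwa [Matrix.toLin'_apply] at this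
            rw [Submodule.mem_comap, LinearMap.mulLeft_apply, vec_left]
            refine ⟨?_, Fil_one hη had hst ha hb3⟩
            obtain ⟨b', hb', h4⟩ := hl2 (l - (v + 1)) (by omega) b hbP (by
              rw [show l - (l - (v + 1)) = v + 1 by omega]; exact hb3)
            have h5 : vecMulVec ((Φ ^ v) *ᵥ a) b =
                vecMulVec ((Φ ^ v) *ᵥ a) ((Φ ^ (l - (v + 1))) *ᵥ b') +
                  vecMulVec ((Φ ^ v) *ᵥ a) (b - (Φ ^ (l - (v + 1))) *ᵥ b') := by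
              rw [← vecMulVec_add]
              congr 1
              abel
            rw [h5]
            exact S.add_mem (hS v _ (by omega) a ha b' hb')
              (hR2 _ (pow_mem hst v a ha) _ h4)
          · intro w
            rw [hBm]
            refine ⟨hp2.2 w, ?_⟩
            change Matrix.toLin' (Φ ^ (v + 1)) ((z - π * z)ᵀ *ᵥ w) ∈ Rd η P
            rw [Matrix.toLin'_apply]
            refine ⟨pow_mem hst _ _ (hp2.2 w), fun c hc => ?_⟩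
            -- `c η Φ^(v+1) yᵀ w = ± w (y η Φ^(v+1) c)` and `y η Φ^(v+1) c = 0`
            have h6 : ((z - π * z) * η * Φ ^ (v + 1)) *ᵥ c = 0 := by
              rw [Matrix.sub_mul, Matrix.sub_mul, sub_mulVec, Matrix.mul_assoc π,
                Matrix.mul_assoc π, ← mulVec_mulVec _ π, hπ2 _ (hzA c hc), sub_self]
            rw [adj_pow had, mul_eq_zero]
            right
            have h7 : ((Φ ^ (v + 1)) *ᵥ c) ⬝ᵥ (η *ᵥ ((z - π * z)ᵀ *ᵥ w)) =
                - (w ⬝ᵥ (((z - π * z) * η * Φ ^ (v + 1)) *ᵥ c)) := by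
              rw [dotProduct_mulVec, ← mulVec_transpose, hη, neg_mulVec, neg_dotProduct,
                dotProduct_comm, mulVec_transpose, ← dotProduct_mulVec, ← mulVec_mulVec,
                ← mulVec_mulVec]
            rw [h7, h6, dotProduct_zero, neg_zero]
        rw [Submodule.mem_comap, LinearMap.mulLeft_apply] at h1
        exact h1
      -- first part
      have hpart1 : ∃ s' ∈ S ⊓ FilS Φ η P, ∃ z', PP P z' ∧ Φ ^ v * (π * z) = s' + Φ ^ (v + 1) * z' := by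
        obtain ⟨T, hT⟩ : ∃ T : Submodule K (Matrix ι ι K), ∀ y, y ∈ T ↔
            ∃ s' ∈ S ⊓ FilS Φ η P, ∃ z', PP P z' ∧ Φ ^ v * y = s' + Φ ^ (v + 1) * z' := by
          refine ⟨⟨⟨⟨{y | ∃ s' ∈ S ⊓ FilS Φ η P, ∃ z', PP P z' ∧
            Φ ^ v * y = s' + Φ ^ (v + 1) * z'}, ?_⟩, ?_⟩, ?_⟩, fun y => Iff.rfl⟩
          · rintro y y' ⟨s1, h1, z1, h1', e1⟩ ⟨s2, h2, z2, h2', e2⟩
            refine ⟨s1 + s2, Submodule.add_mem _ h1 h2, z1 + z2, PP_add h1' h2', ?_⟩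
            rw [Matrix.mul_add, e1, e2, Matrix.mul_add]
            abel
          · refine ⟨0, Submodule.zero_mem _, 0, ⟨fun w => ?_, fun w => ?_⟩, ?_⟩
            · rw [zero_mulVec]; exact P.zero_mem
            · rw [transpose_zero, zero_mulVec]; exact P.zero_mem
            · rw [Matrix.mul_zero, Matrix.mul_zero, add_zero]
          · rintro t y ⟨s1, h1, z1, h1', e1⟩
            refine ⟨t • s1, Submodule.smul_mem _ t h1, t • z1, ⟨fun w => ?_, fun w => ?_⟩, ?_⟩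
            · rw [smul_mulVec]; exact P.smul_mem t (h1'.1 w)
            · rw [transpose_smul, smul_mulVec]; exact P.smul_mem t (h1'.2 w)
            · rw [Matrix.mul_smul, e1, smul_add, Matrix.mul_smul]
        rw [← hT]
        refine mem_of_vec (A := A) (B := P) ?_ (fun w => by
          rw [← mulVec_mulVec]; exact hπ1 _) hp1.2
        intro a ha b hb
        obtain ⟨c, hc, hr⟩ := hAmem a ha
        rw [hT]
        refine ⟨vecMulVec ((Φ ^ v) *ᵥ (a - Φ *ᵥ c)) b,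
          ⟨hR1 _ (Rd_pow had hst v hr) b hb, Fil_rad (Rd_pow had hst v hr)⟩,
          vecMulVec c b, PP_vec hc hb, ?_⟩
        rw [vec_left, vec_left, ← add_vecMulVec, mulVec_sub, mulVec_mulVec, ← pow_succ,
          sub_add_cancel]
      obtain ⟨s', hs', z', hz', e'⟩ := hpart1
      refine ⟨s + Φ ^ v * (z - π * z) + s', Submodule.add_mem _ (Submodule.add_mem _ hs hpart2) hs',
        z', hz', ?_⟩
      rw [hxz, add_assoc, add_assoc, ← e', Matrix.mul_sub]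
      abel
  obtain ⟨s, hs, z, hz, hxz⟩ := key l le_rfl
  rw [hxz]
  refine S.add_mem hs.1 (mem_of_vec (A := Rd η P) (B := P) hR1 (fun w => ?_) fun w => ?_)
  · rw [← mulVec_mulVec]; exact hl1 _ (hz.1 w)
  · rw [transpose_mul, ← mulVec_mulVec]; exact hz.2 _

end main

/-! ### blocks -/

section blocks

variable {n : Type*} [Fintype n]

theorem exists_sum {P : n → Submodule K (ι → K)} {r : ι → K} (hr : r ∈ ⨆ ν, P ν) :
    ∃ f : n → (ι → K), (∀ ν, f ν ∈ P ν) ∧ r = ∑ ν, f ν := by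
  classical
  induction hr using Submodule.iSup_induction' with
  | mem i x hx =>
    refine ⟨Pi.single i x, fun ν => ?_, ?_⟩
    · by_cases h : ν = i
      · subst h; rw [Pi.single_eq_same]; exact hx
      · rw [Pi.single_eq_of_ne h]; exact Submodule.zero_mem _
    · rw [Finset.sum_eq_single i]
      · rw [Pi.single_eq_same]
      · intro j _ hj; rw [Pi.single_eq_of_ne hj]
      · intro h; exact absurd (Finset.mem_univ i) h
  | zero => exact ⟨0, fun ν => Submodule.zero_mem _, by simp⟩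
  | add x y _ _ hx hy =>
    obtain ⟨f, hf, rfl⟩ := hx
    obtain ⟨g, hg, rfl⟩ := hy
    exact ⟨f + g, fun ν => Submodule.add_mem _ (hf ν) (hg ν), by
      rw [← Finset.sum_add_distrib]; rfl⟩

/-- bilinearity -/
theorem vec_sum_mem {S : Submodule K (Matrix ι ι K)} {A B : n → Submodule K (ι → K)}
    {X Y : Matrix ι ι K}
    (h : ∀ μ ν, ∀ a ∈ A μ, ∀ b ∈ B ν, vecMulVec (X *ᵥ a) (Y *ᵥ b) ∈ S) :
    ∀ a ∈ ⨆ μ, A μ, ∀ b ∈ ⨆ ν, B ν, vecMulVec (X *ᵥ a) (Y *ᵥ b) ∈ S := by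
  classical
  intro a ha b hb
  obtain ⟨f, hf, rfl⟩ := exists_sum ha
  obtain ⟨g, hg, rfl⟩ := exists_sum hb
  let L : (ι → K) →+ ((ι → K) →+ Matrix ι ι K) :=
    AddMonoidHom.mk' (fun a => AddMonoidHom.mk' (fun b => vecMulVec (X *ᵥ a) (Y *ᵥ b))
      (fun b b' => by rw [mulVec_add, vecMulVec_add]))
      (fun a a' => AddMonoidHom.ext fun b => by
        change vecMulVec (X *ᵥ (a + a')) (Y *ᵥ b) =
          vecMulVec (X *ᵥ a) (Y *ᵥ b) + vecMulVec (X *ᵥ a') (Y *ᵥ b)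
        rw [mulVec_add, add_vecMulVec])
  have h1 : vecMulVec (X *ᵥ ∑ μ, f μ) (Y *ᵥ ∑ ν, g ν) =
      ∑ μ, ∑ ν, vecMulVec (X *ᵥ f μ) (Y *ᵥ g ν) := by
    change L (∑ μ, f μ) (∑ ν, g ν) = ∑ μ, ∑ ν, L (f μ) (g ν)
    have e1 : L (∑ μ, f μ) = ∑ μ, L (f μ) := map_sum L f _
    rw [e1, AddMonoidHom.finsetSum_apply]
    exact Finset.sum_congr rfl fun μ _ => map_sum _ _ _
  rw [h1]
  exact S.sum_mem fun μ _ => S.sum_mem fun ν _ => h μ ν _ (hf μ) _ (hg ν)

/-- the radical of an orthogonal sum -/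
theorem Rd_iSup {η : Matrix ι ι K} {Pb : n → Submodule K (ι → K)}
    (horth : ∀ μ ν, μ ≠ ν → ∀ a ∈ Pb μ, ∀ b ∈ Pb ν, a ⬝ᵥ (η *ᵥ b) = 0) :
    Rd η (⨆ ν, Pb ν) ≤ ⨆ ν, Rd η (Pb ν) := by
  classical
  rintro r ⟨hr, hr2⟩
  obtain ⟨f, hf, rfl⟩ := exists_sum hr
  refine Submodule.sum_mem _ fun ν _ => Submodule.mem_iSup_of_mem ν ⟨hf ν, fun b hb => ?_⟩
  have h1 := hr2 b (Submodule.mem_iSup_of_mem ν hb)
  rw [mulVec_sum, dotProduct_sum, Finset.sum_eq_single ν] at h1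
  · exact h1
  · intro μ _ hμ
    exact horth ν μ hμ.symm b hb _ (hf μ)
  · intro h; exact absurd (Finset.mem_univ ν) h

/-- **`fil_mem` with blocks** -/
theorem fil_mem_blocks {Φ η : Matrix ι ι K} {P : Submodule K (ι → K)} {l : ℕ}
    {Pb : n → Submodule K (ι → K)} (hP : P = ⨆ ν, Pb ν)
    (horth : ∀ μ ν, μ ≠ ν → ∀ a ∈ Pb μ, ∀ b ∈ Pb ν, a ⬝ᵥ (η *ᵥ b) = 0)
    (hη : ηᵀ = -η) (had : Φᵀ * η = -(η * Φ)) (hst : ∀ a ∈ P, Φ *ᵥ a ∈ P)
    (hl1 : ∀ c ∈ P, (Φ ^ l) *ᵥ c ∈ Rd η P)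
    (hl2 : ∀ v ≤ l, ∀ c ∈ P, (Φ ^ (l - v)) *ᵥ c ∈ Rd η P →
      ∃ c' ∈ P, c - (Φ ^ v) *ᵥ c' ∈ Rd η P)
    {S : Submodule K (Matrix ι ι K)}
    (hR1 : ∀ μ ν, ∀ r ∈ Rd η (Pb μ), ∀ b ∈ Pb ν, vecMulVec r b ∈ S)
    (hR2 : ∀ μ ν, ∀ b ∈ Pb μ, ∀ r ∈ Rd η (Pb ν), vecMulVec b r ∈ S)
    (hS : ∀ i j, i + j + 1 = l → ∀ μ ν, ∀ a ∈ Pb μ, ∀ b ∈ Pb ν,
      vecMulVec ((Φ ^ i) *ᵥ a) ((Φ ^ j) *ᵥ b) ∈ S)
    {x : Matrix ι ι K} (hx : PP P x) (hxF : Fil Φ η P x) : x ∈ S := by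
  subst hP
  refine fil_mem hη had hst hl1 hl2 (fun r hr b hb => ?_) (fun b hb r hr => ?_)
    (fun i j hij a ha b hb => vec_sum_mem (hS i j hij) a ha b hb) hx hxF
  · have h := vec_sum_mem (X := 1) (Y := 1) (S := S) (A := fun μ => Rd η (Pb μ)) (B := Pb)
      (fun μ ν a ha b hb => by rw [one_mulVec, one_mulVec]; exact hR1 μ ν a ha b hb) r
      (Rd_iSup horth hr) b hb
    rwa [one_mulVec, one_mulVec] at h
  · have h := vec_sum_mem (X := 1) (Y := 1) (S := S) (A := Pb) (B := fun μ => Rd η (Pb μ))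
      (fun μ ν a ha b hb => by rw [one_mulVec, one_mulVec]; exact hR2 μ ν a ha b hb) b hb r
      (Rd_iSup horth hr)
    rwa [one_mulVec, one_mulVec] at h

end blocks

/-! ### the good tensors of `SEnd.false_of_slack` -/

section good

variable {δ : Type*} [Fintype δ] [DecidableEq δ] {k : Type*} [Field k] [Algebra k K]
variable {arm : δ → Fin 3} {J : Matrix ι ι K} {B : Matrix δ δ K}
  {N W : Submodule K (Matrix ι δ K)} {g : Matrix ι δ K}

/-- literally the conclusion of `hSL` in `SEnd.false_of_slack` -/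
def GS (arm : δ → Fin 3) (J : Matrix ι ι K) (B : Matrix δ δ K)
    (N W : Submodule K (Matrix ι δ K)) (g : Matrix ι δ K)
    (p : Matrix ι ι K × (Fin 3 → Matrix ι ι K)) (P : Submodule K (ι → K)) (s : Fin 3) :
    Submodule K (Matrix ι ι K) where
  carrier := {x | ∃ w ∈ W, x * (J * p.1) * g * E K arm s - w ∈ N ∧
        (∀ a ∈ P, ∀ v, a ⬝ᵥ ((J * w) *ᵥ v) = 0) ∧
        ∃ ζ ∈ NN arm J N g, pair J B (Pg arm g p) (act arm ζ.2 g) = 0 ∧
          ∀ a ∈ P, ∀ u, g *ᵥ u ∈ P →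
            a ⬝ᵥ ((J * p.1 * w) *ᵥ u) = a ⬝ᵥ ((J * ζ.1) *ᵥ (g *ᵥ u))}
  zero_mem' := by
    refine ⟨0, W.zero_mem, ?_, fun a _ v => ?_, 0, Submodule.zero_mem _, ?_, fun a _ u _ => ?_⟩
    · simp only [Matrix.zero_mul, sub_zero]; exact N.zero_mem
    · rw [Matrix.mul_zero, zero_mulVec, dotProduct_zero]
    · have : act arm (0 : Matrix ι ι K × (Fin 3 → Matrix ι ι K)).2 g = 0 := by
        unfold act; simp
      rw [this, pair_zero_right]
    · rw [Matrix.mul_zero, zero_mulVec, dotProduct_zero,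
        show (0 : Matrix ι ι K × (Fin 3 → Matrix ι ι K)).1 = 0 from rfl, Matrix.mul_zero,
        zero_mulVec, dotProduct_zero]
  add_mem' := by
    rintro x y ⟨w, hw, hN, hP, ζ, hζ, hθ, he⟩ ⟨w', hw', hN', hP', ζ', hζ', hθ', he'⟩
    refine ⟨w + w', W.add_mem hw hw', ?_, fun a ha v => ?_, ζ + ζ',
      Submodule.add_mem _ hζ hζ', ?_, fun a ha u hu => ?_⟩
    · have h1 : (x + y) * (J * p.1) * g * E K arm s - (w + w') =
          (x * (J * p.1) * g * E K arm s - w) + (y * (J * p.1) * g * E K arm s - w') := by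
        simp only [Matrix.add_mul]; abel
      rw [h1]
      exact N.add_mem hN hN'
    · rw [Matrix.mul_add, add_mulVec, dotProduct_add, hP a ha v, hP' a ha v, add_zero]
    · rw [show (ζ + ζ').2 = fun s => ζ.2 s + ζ'.2 s from rfl, act_add_left, pair_add_right, hθ, hθ',
        add_zero]
    · rw [Matrix.mul_add, add_mulVec, dotProduct_add, he a ha u hu, he' a ha u hu,
        show (ζ + ζ').1 = ζ.1 + ζ'.1 from rfl, Matrix.mul_add, add_mulVec, dotProduct_add]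
  smul_mem' := by
    rintro t x ⟨w, hw, hN, hP, ζ, hζ, hθ, he⟩
    refine ⟨t • w, W.smul_mem t hw, ?_, fun a ha v => ?_, t • ζ,
      Submodule.smul_mem _ t hζ, ?_, fun a ha u hu => ?_⟩
    · have h1 : (t • x) * (J * p.1) * g * E K arm s - t • w =
          t • (x * (J * p.1) * g * E K arm s - w) := by
        simp only [Matrix.smul_mul, smul_sub]
      rw [h1]
      exact N.smul_mem t hN
    · rw [Matrix.mul_smul, smul_mulVec, dotProduct_smul, hP a ha v, smul_zero]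
    · rw [show (t • ζ).2 = fun s => t • ζ.2 s from rfl, act_smul_left, pair_smul_right, hθ,
        mul_zero]
    · rw [Matrix.mul_smul, smul_mulVec, dotProduct_smul, he a ha u hu,
        show (t • ζ).1 = t • ζ.1 from rfl, Matrix.mul_smul, smul_mulVec, dotProduct_smul]

theorem mem_GS {p : Matrix ι ι K × (Fin 3 → Matrix ι ι K)} {P : Submodule K (ι → K)} {s : Fin 3}
    {x : Matrix ι ι K} : x ∈ GS arm J B N W g p P s ↔ ∃ w ∈ W,
      x * (J * p.1) * g * E K arm s - w ∈ N ∧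
        (∀ a ∈ P, ∀ v, a ⬝ᵥ ((J * w) *ᵥ v) = 0) ∧
        ∃ ζ ∈ NN arm J N g, pair J B (Pg arm g p) (act arm ζ.2 g) = 0 ∧
          ∀ a ∈ P, ∀ u, g *ᵥ u ∈ P →
            a ⬝ᵥ ((J * p.1 * w) *ᵥ u) = a ⬝ᵥ ((J * ζ.1) *ᵥ (g *ᵥ u)) := Iff.rfl

/-- **The END of (t2) from the elementary tensors of the blocks.** -/
theorem false_of_gen {n : Type*} [Fintype n] (h : Ctx k arm J B N W g) (h2 : (2 : K) ≠ 0)
    {p : Matrix ι ι K × (Fin 3 → Matrix ι ι K)} (hp : p ∈ NN arm J N g)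
    {P : Submodule K (ι → K)} (hPg : ∀ a ∈ P, ∃ u, g *ᵥ u = a)
    (hst : ∀ s, ∀ a ∈ P, (M arm B s g g * (J * p.1)) *ᵥ a ∈ P)
    (hperf : ∀ a ∈ P, ∃ c : Fin 3 → (ι → K), (∀ s, c s ∈ P) ∧
      a = ∑ s, (M arm B s g g * (J * p.1)) *ᵥ c s)
    {l : Fin 3 → ℕ}
    (hl1 : ∀ s, ∀ c ∈ P, ((M arm B s g g * (J * p.1)) ^ l s) *ᵥ c ∈ Rd (J * p.1) P)
    (hl2 : ∀ s, ∀ v ≤ l s, ∀ c ∈ P,
      ((M arm B s g g * (J * p.1)) ^ (l s - v)) *ᵥ c ∈ Rd (J * p.1) P →
        ∃ c' ∈ P, c - ((M arm B s g g * (J * p.1)) ^ v) *ᵥ c' ∈ Rd (J * p.1) P)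
    {Pb : n → Submodule K (ι → K)} (hP : P = ⨆ ν, Pb ν)
    (horth : ∀ μ ν, μ ≠ ν → ∀ a ∈ Pb μ, ∀ b ∈ Pb ν, a ⬝ᵥ ((J * p.1) *ᵥ b) = 0)
    (hR1 : ∀ s μ ν, ∀ r ∈ Rd (J * p.1) (Pb μ), ∀ b ∈ Pb ν,
      vecMulVec r b ∈ GS arm J B N W g p P s)
    (hR2 : ∀ s μ ν, ∀ b ∈ Pb μ, ∀ r ∈ Rd (J * p.1) (Pb ν),
      vecMulVec b r ∈ GS arm J B N W g p P s)
    (hS : ∀ s i j, i + j + 1 = l s → ∀ μ ν, ∀ a ∈ Pb μ, ∀ b ∈ Pb ν,
      vecMulVec (((M arm B s g g * (J * p.1)) ^ i) *ᵥ a)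
        (((M arm B s g g * (J * p.1)) ^ j) *ᵥ b) ∈ GS arm J B N W g p P s)
    (hI : INJ arm J N g P) : gᵀ * J * (p.1 * g) = 0 := by
  refine false_of_slack h h2 hp hPg hst hperf (fun s => ⟨l s, hl1 s, hl2 s⟩) (fun s x hx hxF => ?_) hI
  have hadj := Phi_adj h.data h.mem hp.1 s
  exact mem_GS.1 (fil_mem_blocks hP horth hadj.1 hadj.2 (hst s) (hl1 s) (hl2 s)
    (hR1 s) (hR2 s) (hS s) hx hxF)

end good

end Crest.Agent.R172.SFil
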