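import Crest.Agent.R172.STop
import Crest.Agent.R172.SLev0
import Crest.Agent.R172.SFil
import Crest.Agent.R172.SInst
import Crest.Agent.R172.SL2g560

/-!
Row 172 (S0260), tame node (t2), row L2-g: the filtered tensors of two blocks at the level of
arbitrary frames, stable under the connection; the `21` and `12` parts of the second derivative.
-/

set_option autoImplicit false
set_option linter.unusedSectionVars false
set_option linter.unusedVariables false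

namespace Crest.Agent.R172.SFilU41

open Matrix Module

variable {K : Type*} [Field K]
variable {n1 n2 : Type*} [Fintype n1] [Fintype n2] [DecidableEq n1] [DecidableEq n2]

/-- elementary filtered tensors -/
def FilU (l : ℕ) (A1 G1 : Matrix n1 n1 K) (A2 G2 : Matrix n2 n2 K) :
    Submodule K (Matrix n2 n1 K) :=
  Submodule.span K {M | (∃ i j, i + j + 1 = l ∧ ∃ x y,
      M = vecMulVec ((A2 ^ i) *ᵥ x) ((A1 ^ j) *ᵥ y)) ∨
    (∃ r y, G2 *ᵥ r = 0 ∧ M = vecMulVec r y) ∨ (∃ x r, G1 *ᵥ r = 0 ∧ M = vecMulVec x r)}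

variable {l : ℕ} {A1 G1 : Matrix n1 n1 K} {A2 G2 : Matrix n2 n2 K}

theorem gen {i j : ℕ} (h : i + j + 1 = l) (x : n2 → K) (y : n1 → K) :
    vecMulVec ((A2 ^ i) *ᵥ x) ((A1 ^ j) *ᵥ y) ∈ FilU l A1 G1 A2 G2 :=
  Submodule.subset_span (Or.inl ⟨i, j, h, x, y, rfl⟩)

theorem radL {r : n2 → K} (h : G2 *ᵥ r = 0) (y : n1 → K) :
    vecMulVec r y ∈ FilU l A1 G1 A2 G2 :=
  Submodule.subset_span (Or.inr (Or.inl ⟨r, y, h, rfl⟩))

theorem radR {r : n1 → K} (h : G1 *ᵥ r = 0) (x : n2 → K) :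
    vecMulVec x r ∈ FilU l A1 G1 A2 G2 :=
  Submodule.subset_span (Or.inr (Or.inr ⟨x, r, h, rfl⟩))

/-- a matrix is the sum of its columns -/
theorem sum_col (Z : Matrix n2 n1 K) : Z = ∑ a, vecMulVec (Z *ᵥ Pi.single a 1) (Pi.single a 1) := by
  ext i j
  rw [Matrix.sum_apply, Finset.sum_eq_single j]
  · rw [vecMulVec_apply, mulVec_single_one, Pi.single_eq_same, mul_one]; rfl
  · intro b _ hb
    rw [vecMulVec_apply, Pi.single_eq_of_ne (Ne.symm hb), mul_zero]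
  · intro h; exact absurd (Finset.mem_univ j) h

/-- a matrix is the sum of its rows -/
theorem sum_row (Z : Matrix n2 n1 K) :
    Z = ∑ a, vecMulVec (Pi.single a 1) (Zᵀ *ᵥ Pi.single a 1) := by
  ext i j
  rw [Matrix.sum_apply, Finset.sum_eq_single i]
  · rw [vecMulVec_apply, mulVec_single_one, Pi.single_eq_same, one_mul]; rfl
  · intro b _ hb
    rw [vecMulVec_apply, Pi.single_eq_of_ne (Ne.symm hb), zero_mul]
  · intro h; exact absurd (Finset.mem_univ i) h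

theorem left_rad {Z : Matrix n2 n1 K} (h : G2 * Z = 0) : Z ∈ FilU l A1 G1 A2 G2 := by
  rw [sum_col Z]
  refine Submodule.sum_mem _ fun a _ => radL ?_ _
  rw [mulVec_mulVec, h, zero_mulVec]

theorem right_rad {Z : Matrix n2 n1 K} (h : G1 * Zᵀ = 0) : Z ∈ FilU l A1 G1 A2 G2 := by
  rw [sum_row Z]
  refine Submodule.sum_mem _ fun a _ => radR ?_ _
  rw [mulVec_mulVec, h, zero_mulVec]

theorem core_mem {i j : ℕ} (h : i + j + 1 = l) (W : Matrix n2 n1 K) :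
    A2 ^ i * W * (A1 ^ j)ᵀ ∈ FilU l A1 G1 A2 G2 := by
  have e : A2 ^ i * W * (A1 ^ j)ᵀ =
      ∑ a, vecMulVec ((A2 ^ i) *ᵥ (W *ᵥ Pi.single a 1)) ((A1 ^ j) *ᵥ Pi.single a 1) := by
    conv_lhs => rw [sum_col W]
    rw [Matrix.mul_sum, Matrix.sum_mul]
    refine Finset.sum_congr rfl fun a _ => ?_
    rw [mul_vecMulVec, vecMulVec_mul, vecMul_transpose]
  rw [e]
  exact Submodule.sum_mem _ fun a _ => gen h _ _

section exact

theorem pow_rad {A G : Matrix n2 n2 K} (hst : ∀ r, G *ᵥ r = 0 → G *ᵥ (A *ᵥ r) = 0) (i : ℕ)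
    {r : n2 → K} (hr : G *ᵥ r = 0) : G *ᵥ ((A ^ i) *ᵥ r) = 0 := by
  induction i with
  | zero => simpa using hr
  | succ i ih => rw [pow_succ', ← mulVec_mulVec]; exact hst _ ih

theorem adj_pow {A G : Matrix n1 n1 K} (h : Aᵀ * G = -(G * A)) (i : ℕ) :
    (A ^ i)ᵀ * G = (-1 : K) ^ i • (G * A ^ i) := by
  induction i with
  | zero => simp
  | succ i ih =>
    rw [pow_succ, transpose_mul, Matrix.mul_assoc, ih, Matrix.mul_smul, ← Matrix.mul_assoc, h,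
      pow_succ (-1 : K), mul_smul, neg_one_smul, Matrix.neg_mul]
    congr 2
    rw [Matrix.mul_assoc, ← pow_succ', pow_succ]

/-- filtered -/
def Flt (l : ℕ) (A1 G1 : Matrix n1 n1 K) (A2 G2 : Matrix n2 n2 K) (X : Matrix n2 n1 K) : Prop :=
  ∀ i u, ∃ w, G2 *ᵥ (X *ᵥ (G1 *ᵥ ((A1 ^ i) *ᵥ u)) - (A2 ^ i) *ᵥ w) = 0

theorem Flt.add {X X' : Matrix n2 n1 K} (h : Flt l A1 G1 A2 G2 X) (h' : Flt l A1 G1 A2 G2 X') :
    Flt l A1 G1 A2 G2 (X + X') := by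
  intro i u
  obtain ⟨w, hw⟩ := h i u
  obtain ⟨w', hw'⟩ := h' i u
  refine ⟨w + w', ?_⟩
  have e : (X + X') *ᵥ (G1 *ᵥ ((A1 ^ i) *ᵥ u)) - (A2 ^ i) *ᵥ (w + w') =
      (X *ᵥ (G1 *ᵥ ((A1 ^ i) *ᵥ u)) - (A2 ^ i) *ᵥ w) +
        (X' *ᵥ (G1 *ᵥ ((A1 ^ i) *ᵥ u)) - (A2 ^ i) *ᵥ w') := by
    rw [add_mulVec, mulVec_add (A2 ^ i)]; abel
  rw [e, mulVec_add, hw, hw', add_zero]

theorem Flt.smul (c : K) {X : Matrix n2 n1 K} (h : Flt l A1 G1 A2 G2 X) :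
    Flt l A1 G1 A2 G2 (c • X) := by
  intro i u
  obtain ⟨w, hw⟩ := h i u
  refine ⟨c • w, ?_⟩
  have e : (c • X) *ᵥ (G1 *ᵥ ((A1 ^ i) *ᵥ u)) - (A2 ^ i) *ᵥ (c • w) =
      c • (X *ᵥ (G1 *ᵥ ((A1 ^ i) *ᵥ u)) - (A2 ^ i) *ᵥ w) := by
    rw [smul_mulVec, mulVec_smul (A2 ^ i), smul_sub]
  rw [e, mulVec_smul, hw, smul_zero]

theorem vmv (a : n2 → K) (b v : n1 → K) : vecMulVec a b *ᵥ v = (b ⬝ᵥ v) • a := by
  ext i
  simp only [mulVec, dotProduct, vecMulVec_apply, Pi.smul_apply, smul_eq_mul, Finset.sum_mul]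
  exact Finset.sum_congr rfl fun j _ => by ring

/-- the elementary tensors are filtered -/
theorem flt_of_mem (ha : A1ᵀ * G1 = -(G1 * A1)) (hs : G1ᵀ = -G1)
    (h0 : ∀ v, G1 *ᵥ ((A1 ^ l) *ᵥ v) = 0) (hst1 : ∀ r, G1 *ᵥ r = 0 → G1 *ᵥ (A1 *ᵥ r) = 0)
    {X : Matrix n2 n1 K} (hX : X ∈ FilU l A1 G1 A2 G2) : Flt l A1 G1 A2 G2 X := by
  refine Submodule.span_induction ?_ ?_ (fun a b _ _ => Flt.add) (fun c a _ => Flt.smul c) hX
  · rintro M (⟨p, q, hpq, x, y, rfl⟩ | ⟨r, y, hr, rfl⟩ | ⟨x, r, hr, rfl⟩)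
    · intro i u
      have e : ((A1 ^ q) *ᵥ y) ⬝ᵥ (G1 *ᵥ ((A1 ^ i) *ᵥ u)) =
          (-1 : K) ^ q * (y ⬝ᵥ (G1 *ᵥ ((A1 ^ (q + i)) *ᵥ u))) := by
        rw [← vecMul_transpose, ← dotProduct_mulVec, mulVec_mulVec _ _ G1, adj_pow ha, smul_mulVec,
          dotProduct_smul, smul_eq_mul, pow_add]
        simp only [mulVec_mulVec, Matrix.mul_assoc]
      by_cases hi : i ≤ p
      · refine ⟨(((A1 ^ q) *ᵥ y) ⬝ᵥ (G1 *ᵥ ((A1 ^ i) *ᵥ u))) • ((A2 ^ (p - i)) *ᵥ x), ?_⟩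
        have e2 : (A2 ^ p) *ᵥ x = (A2 ^ i) *ᵥ ((A2 ^ (p - i)) *ᵥ x) := by
          rw [mulVec_mulVec, ← pow_add, Nat.add_sub_cancel' hi]
        rw [vmv, mulVec_smul (A2 ^ i), ← e2, sub_self, mulVec_zero]
      · refine ⟨0, ?_⟩
        have e3 : G1 *ᵥ ((A1 ^ (q + i)) *ᵥ u) = 0 := by
          have : q + i = l + (q + i - l) := by omega
          rw [this, pow_add, ← mulVec_mulVec]
          exact h0 _
        rw [vmv, e, e3, dotProduct_zero, mul_zero, zero_smul, mulVec_zero (A2 ^ i), sub_zero,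
          mulVec_zero]
    · intro i u
      refine ⟨0, ?_⟩
      rw [vmv, mulVec_zero (A2 ^ i), sub_zero, mulVec_smul, hr, smul_zero]
    · intro i u
      refine ⟨0, ?_⟩
      have e : r ⬝ᵥ (G1 *ᵥ ((A1 ^ i) *ᵥ u)) = 0 := by
        have h1 : r ⬝ᵥ (G1 *ᵥ ((A1 ^ i) *ᵥ u)) = (G1ᵀ *ᵥ r) ⬝ᵥ ((A1 ^ i) *ᵥ u) := by
          rw [dotProduct_mulVec, ← mulVec_transpose]
        rw [h1, hs, neg_mulVec, hr, neg_zero, zero_dotProduct]
      rw [vmv, e, zero_smul, mulVec_zero (A2 ^ i), sub_zero, mulVec_zero]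
  · intro i u
    exact ⟨0, by rw [zero_mulVec, mulVec_zero, sub_zero, mulVec_zero]⟩

/-- **exact mod radical implies spanned by the elementary tensors** -/
theorem mem_of_flt (hl : 1 ≤ l) (ha : A1ᵀ * G1 = -(G1 * A1)) (hs : G1ᵀ = -G1)
    (h0 : ∀ v, G1 *ᵥ ((A1 ^ l) *ᵥ v) = 0) (hst1 : ∀ r, G1 *ᵥ r = 0 → G1 *ᵥ (A1 *ᵥ r) = 0)
    (hfree : ∀ v, G1 *ᵥ ((A1 ^ (l - 1)) *ᵥ v) = 0 → ∃ v', G1 *ᵥ (v - A1 *ᵥ v') = 0)
    (hst2 : ∀ r, G2 *ᵥ r = 0 → G2 *ᵥ (A2 *ᵥ r) = 0)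
    {X : Matrix n2 n1 K} (hX : Flt l A1 G1 A2 G2 X) : X ∈ FilU l A1 G1 A2 G2 := by
  classical
  have key : ∀ a, a ≤ l → ∃ Z : Matrix n2 n1 K, X - Z * (A1 ^ a)ᵀ ∈ FilU l A1 G1 A2 G2 := by
    intro a
    induction a with
    | zero => intro _; exact ⟨X, by simp⟩
    | succ a ih =>
      intro hal
      obtain ⟨Z, hZ⟩ := ih (by omega)
      have hF : Flt l A1 G1 A2 G2 (Z * (A1 ^ a)ᵀ) := by
        have h1 := Flt.add hX (Flt.smul (-1) (flt_of_mem ha hs h0 hst1 hZ))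
        have e : X + (-1 : K) • (X - Z * (A1 ^ a)ᵀ) = Z * (A1 ^ a)ᵀ := by
          rw [neg_one_smul]; abel
        rwa [e] at h1
      -- the space `A2^(l-1-a) P2 + R2`
      obtain ⟨π, hπ1, hπ2⟩ := SFil.exists_proj (ι := n2) (K := K)
        (LinearMap.range (A2 ^ (l - 1 - a)).mulVecLin ⊔ LinearMap.ker G2.mulVecLin)
      have hZ1 : ∀ u, Z *ᵥ (G1 *ᵥ ((A1 ^ (l - 1)) *ᵥ u)) ∈
          LinearMap.range (A2 ^ (l - 1 - a)).mulVecLin ⊔ LinearMap.ker G2.mulVecLin := by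
        intro u
        obtain ⟨w, hw⟩ := hF (l - 1 - a) u
        have e1 : (Z * (A1 ^ a)ᵀ) *ᵥ (G1 *ᵥ ((A1 ^ (l - 1 - a)) *ᵥ u)) =
            (-1 : K) ^ a • (Z *ᵥ (G1 *ᵥ ((A1 ^ (l - 1)) *ᵥ u))) := by
          have e2 : l - 1 = a + (l - 1 - a) := by omega
          rw [← mulVec_mulVec _ Z, mulVec_mulVec _ _ G1, adj_pow ha, smul_mulVec, mulVec_smul]
          conv_rhs => rw [e2, pow_add]
          simp only [mulVec_mulVec, Matrix.mul_assoc]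
        rw [e1] at hw
        have e3 : Z *ᵥ (G1 *ᵥ ((A1 ^ (l - 1)) *ᵥ u)) =
            (A2 ^ (l - 1 - a)) *ᵥ ((-1 : K) ^ a • w) +
            (-1 : K) ^ a • ((-1 : K) ^ a • (Z *ᵥ (G1 *ᵥ ((A1 ^ (l - 1)) *ᵥ u))) -
              (A2 ^ (l - 1 - a)) *ᵥ w) := by
          rw [smul_sub, smul_smul, ← mul_pow, neg_one_mul, neg_neg, one_pow, one_smul,
            mulVec_smul (A2 ^ (l - 1 - a))]
          abel
        rw [e3]
        refine Submodule.add_mem _ (Submodule.mem_sup_left ⟨_, rfl⟩) (Submodule.mem_sup_right ?_)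
        rw [LinearMap.mem_ker, mulVecLin_apply, mulVec_smul, hw, smul_zero]
      -- the two parts
      have hsplit : Z = π * Z + (Z - π * Z) := by abel
      have hZ2 : (Z - π * Z) * (G1 * A1 ^ (l - 1)) = 0 := by
        apply Matrix.ext_of_mulVec_single
        intro j
        rw [zero_mulVec, ← mulVec_mulVec, sub_mulVec, ← mulVec_mulVec _ π, ← mulVec_mulVec _ G1]
        rw [hπ2 _ (hZ1 _), sub_self]
      have hZ3 : ∀ v, G1 *ᵥ ((A1 ^ (l - 1)) *ᵥ ((Z - π * Z)ᵀ *ᵥ v)) = 0 := by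
        intro v
        have h1 := congrArg transpose hZ2
        rw [transpose_mul, transpose_mul, hs, Matrix.mul_neg, adj_pow ha, transpose_zero,
          Matrix.neg_mul, neg_eq_zero, Matrix.smul_mul] at h1
        have h2 := congrArg (fun A : Matrix n1 n2 K => ((-1 : K) ^ (l - 1)) • (A *ᵥ v)) h1
        simp only [smul_mulVec, smul_smul, ← mul_pow, neg_one_mul, neg_neg, one_pow, one_smul,
          zero_mulVec, smul_zero] at h2
        simpa only [mulVec_mulVec, Matrix.mul_assoc] using h2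
      -- columns
      choose V hV using fun j : n2 => hfree _ (hZ3 (Pi.single j 1))
      obtain ⟨V', hV'⟩ : ∃ V' : Matrix n1 n2 K, ∀ j, V' *ᵥ Pi.single j 1 = V j :=
        ⟨Matrix.of fun i j => V j i, fun j => by ext i; simp [mulVec_single_one, col_apply]⟩
      have hrad : G1 * ((Z - π * Z)ᵀ - A1 * V') = 0 := by
        apply Matrix.ext_of_mulVec_single
        intro j
        rw [← mulVec_mulVec, sub_mulVec, ← mulVec_mulVec _ A1, hV', hV, zero_mulVec]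
      refine ⟨V'ᵀ, ?_⟩
      have e4 : X - V'ᵀ * (A1 ^ (a + 1))ᵀ = (X - Z * (A1 ^ a)ᵀ) + π * Z * (A1 ^ a)ᵀ +
          ((Z - π * Z) - V'ᵀ * A1ᵀ) * (A1 ^ a)ᵀ := by
        have e5 : V'ᵀ * (A1 ^ (a + 1))ᵀ = V'ᵀ * A1ᵀ * (A1 ^ a)ᵀ := by
          rw [pow_succ, transpose_mul, Matrix.mul_assoc]
        rw [e5]
        simp only [Matrix.sub_mul]
        abel
      rw [e4]
      refine Submodule.add_mem _ (Submodule.add_mem _ hZ ?_) ?_
      · -- columns of `π Z` lie in `A2^(l-1-a) P2 + R2`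
        have hex : ∀ j : n1, ∃ (w' : n2 → K) (r : n2 → K), G2 *ᵥ r = 0 ∧
            π *ᵥ (Z *ᵥ Pi.single j 1) = (A2 ^ (l - 1 - a)) *ᵥ w' + r := by
          intro j
          obtain ⟨w, ⟨w', hw'⟩, r, hr, hwr⟩ := Submodule.mem_sup.1 (hπ1 (Z *ᵥ Pi.single j 1))
          refine ⟨w', r, hr, ?_⟩
          rw [← hwr, ← hw', mulVecLin_apply]
        choose w' r hr hwr using hex
        have e6 : π * Z * (A1 ^ a)ᵀ = ∑ j, (vecMulVec ((A2 ^ (l - 1 - a)) *ᵥ w' j)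
            ((A1 ^ a) *ᵥ Pi.single j 1) + vecMulVec (r j) ((A1 ^ a) *ᵥ Pi.single j 1)) := by
          conv_lhs => rw [sum_col Z]
          rw [Matrix.mul_sum, Matrix.sum_mul]
          refine Finset.sum_congr rfl fun j _ => ?_
          rw [mul_vecMulVec, vecMulVec_mul, vecMul_transpose, ← add_vecMulVec]
          rw [hwr j]
        rw [e6]
        refine Submodule.sum_mem _ fun j _ => Submodule.add_mem _ (gen (by omega) _ _) (radL ?_ _)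
        exact hr j
      · refine right_rad ?_
        rw [transpose_mul, transpose_transpose, transpose_sub, transpose_mul, transpose_transpose,
          transpose_transpose]
        apply Matrix.ext_of_mulVec_single
        intro j
        rw [← mulVec_mulVec, ← mulVec_mulVec, zero_mulVec]
        refine pow_rad hst1 a ?_
        rw [mulVec_mulVec, hrad, zero_mulVec]
  obtain ⟨Z, hZ⟩ := key l le_rfl
  have e : X = (X - Z * (A1 ^ l)ᵀ) + Z * (A1 ^ l)ᵀ := by abel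
  rw [e]
  refine Submodule.add_mem _ hZ (right_rad ?_)
  rw [transpose_mul, transpose_transpose]
  apply Matrix.ext_of_mulVec_single
  intro j
  rw [← mulVec_mulVec, ← mulVec_mulVec, zero_mulVec]
  exact h0 _

/-- exact mod radical implies filtered -/
theorem flt_of_exact (ha : A1ᵀ * G1 = -(G1 * A1))
    (hst2 : ∀ r, G2 *ᵥ r = 0 → G2 *ᵥ (A2 *ᵥ r) = 0) {c : K} {X : Matrix n2 n1 K}
    (hX : G2 * (X * A1ᵀ - c • (A2 * X)) * G1 = 0) : Flt l A1 G1 A2 G2 X := by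
  intro i
  induction i with
  | zero => intro u; exact ⟨X *ᵥ (G1 *ᵥ u), by simp⟩
  | succ i ih =>
    intro u
    obtain ⟨w, hw⟩ := ih u
    refine ⟨-(c • w), ?_⟩
    have h1 : G2 *ᵥ (X *ᵥ (A1ᵀ *ᵥ (G1 *ᵥ ((A1 ^ i) *ᵥ u))) -
        c • (A2 *ᵥ (X *ᵥ (G1 *ᵥ ((A1 ^ i) *ᵥ u))))) = 0 := by
      have h2 := congrArg (fun M : Matrix n2 n1 K => M *ᵥ ((A1 ^ i) *ᵥ u)) hX
      simp only [zero_mulVec] at h2
      rw [← h2]
      rw [← mulVec_mulVec _ (G2 * _) G1, ← mulVec_mulVec _ G2, sub_mulVec, smul_mulVec]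
      simp only [mulVec_mulVec, Matrix.mul_assoc]
    have e1 : X *ᵥ (G1 *ᵥ ((A1 ^ (i + 1)) *ᵥ u)) =
        -(X *ᵥ (A1ᵀ *ᵥ (G1 *ᵥ ((A1 ^ i) *ᵥ u)))) := by
      rw [mulVec_mulVec _ A1ᵀ G1, ha, neg_mulVec, mulVec_neg, neg_neg, pow_succ']
      simp only [mulVec_mulVec, Matrix.mul_assoc]
    have e2 : X *ᵥ (G1 *ᵥ ((A1 ^ (i + 1)) *ᵥ u)) - (A2 ^ (i + 1)) *ᵥ (-(c • w)) =
        -(X *ᵥ (A1ᵀ *ᵥ (G1 *ᵥ ((A1 ^ i) *ᵥ u))) -
          c • (A2 *ᵥ (X *ᵥ (G1 *ᵥ ((A1 ^ i) *ᵥ u))))) -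
        c • (A2 *ᵥ (X *ᵥ (G1 *ᵥ ((A1 ^ i) *ᵥ u)) - (A2 ^ i) *ᵥ w)) := by
      rw [e1, mulVec_neg _ (A2 ^ (i + 1)), mulVec_smul (A2 ^ (i + 1)), pow_succ', mulVec_sub A2,
        mulVec_mulVec _ A2 (A2 ^ i), smul_sub]
      abel
    rw [e2, mulVec_sub G2, mulVec_neg _ G2, h1, mulVec_smul G2, hst2 _ hw, smul_zero, neg_zero,
      sub_zero]

end exact

section conn

variable {k : Type*} [Field k] [Algebra k K] {d : Derivation k K K}

/-- the connection on vectors -/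
def nv (d : Derivation k K K) (Γ : Matrix n2 n2 K) (v : n2 → K) : n2 → K :=
  (fun a => d (v a)) + Γ *ᵥ v

theorem nv_mulVec {Γ : Matrix n2 n2 K} (A : Matrix n2 n2 K) (v : n2 → K) :
    nv d Γ (A *ᵥ v) = A *ᵥ nv d Γ v + (A.map d + Γ * A - A * Γ) *ᵥ v := by
  have e : (fun a => d ((A *ᵥ v) a)) = A.map d *ᵥ v + A *ᵥ (fun a => d (v a)) := by
    funext i
    simp only [mulVec, dotProduct, map_sum, Derivation.leibniz, smul_eq_mul, Matrix.map_apply,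
      Pi.add_apply]
    rw [← Finset.sum_add_distrib]
    exact Finset.sum_congr rfl fun j _ => by ring
  unfold nv
  rw [e, mulVec_add, sub_mulVec, add_mulVec, mulVec_mulVec, mulVec_mulVec]
  abel

theorem nv_pow {A G Γ : Matrix n2 n2 K} {c : K} (hw : G * (A.map d + Γ * A - A * Γ - c • A) = 0)
    (hst : ∀ r, G *ᵥ r = 0 → G *ᵥ (A *ᵥ r) = 0) (i : ℕ) (x : n2 → K) :
    ∃ x' r, nv d Γ ((A ^ i) *ᵥ x) = (A ^ i) *ᵥ x' + r ∧ G *ᵥ r = 0 := by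
  induction i with
  | zero => exact ⟨nv d Γ x, 0, by simp, mulVec_zero _⟩
  | succ i ih =>
    obtain ⟨x', r, h1, h2⟩ := ih
    refine ⟨x' + c • x, A *ᵥ r + (A.map d + Γ * A - A * Γ - c • A) *ᵥ ((A ^ i) *ᵥ x), ?_, ?_⟩
    · have e : A.map d + Γ * A - A * Γ = (A.map d + Γ * A - A * Γ - c • A) + c • A := by abel
      rw [pow_succ', ← mulVec_mulVec, nv_mulVec, h1]
      conv_lhs => rw [e]
      rw [add_mulVec _ (c • A), mulVec_add A, mulVec_add (A * A ^ i), mulVec_smul, smul_mulVec,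
        ← mulVec_mulVec _ A (A ^ i), ← mulVec_mulVec _ A (A ^ i)]
      abel
    · rw [mulVec_add, hst _ h2, mulVec_mulVec, hw, zero_mulVec, add_zero]

theorem nab_vec (Γ1 : Matrix n1 n1 K) (Γ2 : Matrix n2 n2 K) (u : n2 → K) (v : n1 → K) :
    Γ2 * vecMulVec u v + (vecMulVec u v).map d + vecMulVec u v * Γ1ᵀ =
      vecMulVec (nv d Γ2 u) v + vecMulVec u (nv d Γ1 v) := by
  have e : (vecMulVec u v).map d =
      vecMulVec (fun a => d (u a)) v + vecMulVec u (fun a => d (v a)) := by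
    ext i j
    simp only [Matrix.map_apply, vecMulVec_apply, Derivation.leibniz, smul_eq_mul,
      Matrix.add_apply]
    ring
  unfold nv
  rw [mul_vecMulVec, e, vecMulVec_mul, vecMul_transpose, add_vecMulVec, vecMulVec_add]
  abel

/-- **the connection preserves `FilU`** -/
theorem nab_mem {Γ1 : Matrix n1 n1 K} {Γ2 : Matrix n2 n2 K} {a1 a2 : K}
    (hw1 : G1 * (A1.map d + Γ1 * A1 - A1 * Γ1 - a1 • A1) = 0)
    (hw2 : G2 * (A2.map d + Γ2 * A2 - A2 * Γ2 - a2 • A2) = 0)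
    (hst1 : ∀ r, G1 *ᵥ r = 0 → G1 *ᵥ (A1 *ᵥ r) = 0)
    (hst2 : ∀ r, G2 *ᵥ r = 0 → G2 *ᵥ (A2 *ᵥ r) = 0)
    (hr1 : ∀ r, G1 *ᵥ r = 0 → G1 *ᵥ nv d Γ1 r = 0)
    (hr2 : ∀ r, G2 *ᵥ r = 0 → G2 *ᵥ nv d Γ2 r = 0)
    {X : Matrix n2 n1 K} (hX : X ∈ FilU l A1 G1 A2 G2) :
    Γ2 * X + X.map d + X * Γ1ᵀ ∈ FilU l A1 G1 A2 G2 := by
  refine Submodule.span_induction ?_ ?_ ?_ ?_ hX
  · rintro M (⟨p, q, hpq, x, y, rfl⟩ | ⟨r, y, hr, rfl⟩ | ⟨x, r, hr, rfl⟩)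
    · rw [nab_vec]
      obtain ⟨x', r, h1, h2⟩ := nv_pow hw2 hst2 p x
      obtain ⟨y', r', h1', h2'⟩ := nv_pow hw1 hst1 q y
      rw [h1, h1', add_vecMulVec, vecMulVec_add]
      exact Submodule.add_mem _ (Submodule.add_mem _ (gen hpq _ _) (radL h2 _))
        (Submodule.add_mem _ (gen hpq _ _) (radR h2' _))
    · rw [nab_vec]
      exact Submodule.add_mem _ (radL (hr2 _ hr) _) (radL hr _)
    · rw [nab_vec]
      exact Submodule.add_mem _ (radR hr _) (radR (hr1 _ hr) _)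
  · have : (0 : Matrix n2 n1 K).map d = 0 := by ext i j; simp
    rw [this, Matrix.mul_zero, Matrix.zero_mul, add_zero, add_zero]
    exact Submodule.zero_mem _
  · intro a b _ _ ha hb
    have e : Γ2 * (a + b) + (a + b).map d + (a + b) * Γ1ᵀ =
        (Γ2 * a + a.map d + a * Γ1ᵀ) + (Γ2 * b + b.map d + b * Γ1ᵀ) := by
      have : (a + b).map d = a.map d + b.map d := by ext i j; simp
      rw [this, Matrix.mul_add, Matrix.add_mul]; abel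
    rw [e]
    exact Submodule.add_mem _ ha hb
  · intro c a ha' ha
    have e : Γ2 * (c • a) + (c • a).map d + (c • a) * Γ1ᵀ =
        c • (Γ2 * a + a.map d + a * Γ1ᵀ) + d c • a := by
      have : (c • a).map d = c • a.map d + d c • a := by
        ext i j
        simp only [Matrix.map_apply, Matrix.smul_apply, smul_eq_mul, Derivation.leibniz,
          Matrix.add_apply]
        ring
      rw [this, Matrix.mul_smul, Matrix.smul_mul, smul_add, smul_add]; abel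
    rw [e]
    exact Submodule.add_mem _ (Submodule.smul_mem _ _ ha) (Submodule.smul_mem _ _ ha')

end conn

section comp

variable {m1 m2 : Type*} [Fintype m1] [Fintype m2] [DecidableEq m1] [DecidableEq m2]
variable {B1 H1 : Matrix m1 m1 K} {B2 H2 : Matrix m2 m2 K} {C1 : Matrix m1 n1 K}
  {C2 : Matrix m2 n2 K}

theorem inter_pow {n m : Type*} [Fintype n] [Fintype m] [DecidableEq n] [DecidableEq m]
    {A : Matrix n n K} {B : Matrix m m K} {C : Matrix m n K} (h : B * C = C * A) (i : ℕ) :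
    B ^ i * C = C * A ^ i := by
  induction i with
  | zero => simp
  | succ i ih => rw [pow_succ, Matrix.mul_assoc, h, ← Matrix.mul_assoc, ih, Matrix.mul_assoc,
      ← pow_succ]

/-- push forward -/
theorem push (hi1 : B1 * C1 = C1 * A1) (hi2 : B2 * C2 = C2 * A2)
    (hr1 : ∀ r, G1 *ᵥ r = 0 → H1 *ᵥ (C1 *ᵥ r) = 0) (hr2 : ∀ r, G2 *ᵥ r = 0 → H2 *ᵥ (C2 *ᵥ r) = 0)
    {X : Matrix n2 n1 K} (hX : X ∈ FilU l A1 G1 A2 G2) :
    C2 * X * C1ᵀ ∈ FilU l B1 H1 B2 H2 := by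
  have hC : ∀ (u : n2 → K) (v : n1 → K), C2 * vecMulVec u v * C1ᵀ =
      vecMulVec (C2 *ᵥ u) (C1 *ᵥ v) := by
    intro u v
    rw [mul_vecMulVec, vecMulVec_mul, vecMul_transpose]
  refine Submodule.span_induction ?_ ?_ ?_ ?_ hX
  · rintro M (⟨p, q, hpq, x, y, rfl⟩ | ⟨r, y, hr, rfl⟩ | ⟨x, r, hr, rfl⟩)
    · rw [hC, mulVec_mulVec, mulVec_mulVec, ← inter_pow hi2, ← inter_pow hi1, ← mulVec_mulVec,
        ← mulVec_mulVec]
      exact gen hpq _ _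
    · rw [hC]; exact radL (hr2 r hr) _
    · rw [hC]; exact radR (hr1 r hr) _
  · rw [Matrix.mul_zero, Matrix.zero_mul]; exact Submodule.zero_mem _
  · intro a b _ _ ha hb
    rw [Matrix.mul_add, Matrix.add_mul]; exact Submodule.add_mem _ ha hb
  · intro c a _ ha
    rw [Matrix.mul_smul, Matrix.smul_mul]; exact Submodule.smul_mem _ _ ha

/-- **lift** -/
theorem lift (hi1 : B1 * C1 = C1 * A1) (hi2 : B2 * C2 = C2 * A2)
    (ho1 : ∀ y, ∃ x, C1 *ᵥ x = y) (ho2 : ∀ y, ∃ x, C2 *ᵥ x = y)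
    (hG1 : G1 = C1ᵀ * H1 * C1) (hG2 : G2 = C2ᵀ * H2 * C2)
    {X : Matrix n2 n1 K} (hX : C2 * X * C1ᵀ ∈ FilU l B1 H1 B2 H2) :
    X ∈ FilU l A1 G1 A2 G2 := by
  have hC : ∀ (u : n2 → K) (v : n1 → K), C2 * vecMulVec u v * C1ᵀ =
      vecMulVec (C2 *ᵥ u) (C1 *ᵥ v) := by
    intro u v
    rw [mul_vecMulVec, vecMulVec_mul, vecMul_transpose]
  have h1 : ∀ Y ∈ FilU l B1 H1 B2 H2, ∃ X' ∈ FilU l A1 G1 A2 G2, C2 * X' * C1ᵀ = Y := by
    intro Y hY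
    refine Submodule.span_induction ?_ ?_ ?_ ?_ hY
    · rintro M (⟨p, q, hpq, x, y, rfl⟩ | ⟨r, y, hr, rfl⟩ | ⟨x, r, hr, rfl⟩)
      · obtain ⟨x, rfl⟩ := ho2 x
        obtain ⟨y, rfl⟩ := ho1 y
        refine ⟨_, gen hpq x y, ?_⟩
        rw [hC, mulVec_mulVec, mulVec_mulVec, ← inter_pow hi2, ← inter_pow hi1, ← mulVec_mulVec,
          ← mulVec_mulVec]
      · obtain ⟨r, rfl⟩ := ho2 r
        obtain ⟨y, rfl⟩ := ho1 y
        refine ⟨_, radL (r := r) (by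
          rw [hG2, ← mulVec_mulVec, ← mulVec_mulVec, hr, mulVec_zero]) y, hC _ _⟩
      · obtain ⟨x, rfl⟩ := ho2 x
        obtain ⟨r, rfl⟩ := ho1 r
        refine ⟨_, radR (r := r) (by
          rw [hG1, ← mulVec_mulVec, ← mulVec_mulVec, hr, mulVec_zero]) x, hC _ _⟩
    · exact ⟨0, Submodule.zero_mem _, by rw [Matrix.mul_zero, Matrix.zero_mul]⟩
    · rintro a b _ _ ⟨a', ha, ha'⟩ ⟨b', hb, hb'⟩
      exact ⟨a' + b', Submodule.add_mem _ ha hb, by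
        rw [Matrix.mul_add, Matrix.add_mul, ha', hb']⟩
    · rintro c a _ ⟨a', ha, ha'⟩
      exact ⟨c • a', Submodule.smul_mem _ _ ha, by rw [Matrix.mul_smul, Matrix.smul_mul, ha']⟩
  obtain ⟨X', hX', he⟩ := h1 _ hX
  -- sections
  obtain ⟨s1, hs1⟩ : ∃ s : Matrix n1 m1 K, C1 * s = 1 := by
    choose f hf using fun j : m1 => ho1 (Pi.single j 1)
    refine ⟨Matrix.of fun i j => f j i, ?_⟩
    apply Matrix.ext_of_mulVec_single
    intro j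
    have e0 : (Matrix.of fun i j => f j i) *ᵥ Pi.single j 1 = f j := by
      ext i; simp [mulVec_single_one, col_apply]
    rw [← mulVec_mulVec, one_mulVec, e0, hf]
  obtain ⟨s2, hs2⟩ : ∃ s : Matrix n2 m2 K, C2 * s = 1 := by
    choose f hf using fun j : m2 => ho2 (Pi.single j 1)
    refine ⟨Matrix.of fun i j => f j i, ?_⟩
    apply Matrix.ext_of_mulVec_single
    intro j
    have e0 : (Matrix.of fun i j => f j i) *ᵥ Pi.single j 1 = f j := by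
      ext i; simp [mulVec_single_one, col_apply]
    rw [← mulVec_mulVec, one_mulVec, e0, hf]
  have hz : C2 * (X - X') * C1ᵀ = 0 := by
    rw [Matrix.mul_sub, Matrix.sub_mul, he, sub_self]
  have e : X = X' + (((X - X') - s2 * (C2 * (X - X'))) +
      s2 * (C2 * ((X - X') - (X - X') * C1ᵀ * s1ᵀ))) := by
    have e1 : C2 * ((X - X') - (X - X') * C1ᵀ * s1ᵀ) = C2 * (X - X') := by
      rw [Matrix.mul_sub, ← Matrix.mul_assoc, ← Matrix.mul_assoc, hz, Matrix.zero_mul, sub_zero]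
    rw [e1]; abel
  rw [e]
  refine Submodule.add_mem _ hX' (Submodule.add_mem _ (left_rad ?_) (right_rad ?_))
  · rw [hG2, Matrix.mul_assoc, Matrix.mul_sub, ← Matrix.mul_assoc C2 s2, hs2, Matrix.one_mul,
      sub_self, Matrix.mul_zero]
  · rw [transpose_mul, transpose_mul, transpose_sub, transpose_mul, transpose_mul,
      transpose_transpose, transpose_transpose, hG1]
    have e2 : C1ᵀ * H1 * C1 * (((X - X')ᵀ - s1 * (C1 * (X - X')ᵀ)) * C2ᵀ * s2ᵀ) =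
        C1ᵀ * H1 * ((C1 * (X - X')ᵀ - C1 * s1 * (C1 * (X - X')ᵀ)) * C2ᵀ * s2ᵀ) := by
      simp only [Matrix.mul_sub, Matrix.sub_mul, Matrix.mul_assoc]
    rw [e2, hs1, Matrix.one_mul, sub_self, Matrix.zero_mul, Matrix.zero_mul, Matrix.mul_zero]

end comp

section inst

open Crest.Agent.R172.FO Crest.Agent.R172.Qt Crest.Agent.R172.SpS
open Crest.Agent.R172.SEnd Crest.Agent.R172.SEnd2 Crest.Agent.R172.SCM
open Crest.Agent.R172.PL (CoreM)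
open Crest.Agent.R172.SC (PB PB_stable iSup_PB)
open Crest.Agent.R172.STop (Setup)

variable {ι : Type} [Fintype ι] [DecidableEq ι] {δ : Type} [Fintype δ] [DecidableEq δ]
variable {K : Type} [Field K] [Algebra ℂ K] [IsAlgClosed K]
variable {arm : δ → Fin 3} {J : Matrix ι ι K} {B : Matrix δ δ K} {N W : Submodule K (Matrix ι δ K)}
  {F f : Matrix ι δ K} {P : Matrix ι ι K × (Fin 3 → Matrix ι ι K)} {R : Matrix δ ι K}
  {D : End K (CoreM (PhS arm J B F R P.1))} {l : Fin 3 → ℕ}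

theorem PC_eq (S : Setup arm J B N W F f P R D l) :
    PC arm J B F R P.1 = ⨆ ν, SLev0.PbK arm J B F R P.1 D ν := by
  have h3 : PL.Ainf (PhS arm J B F R P.1) = ⨆ ν, PB (PhS arm J B F R P.1) D ν :=
    (iSup_PB S.hD.2 (Module.End.iSup_maxGenEigenspace_eq_top D)).symm
  unfold PC
  rw [h3, Submodule.map_iSup]

theorem PbK_orth (S : Setup arm J B N W F f P R D l) {ν μ : K} (h : ν ≠ μ) :
    ∀ a ∈ SLev0.PbK arm J B F R P.1 D ν, ∀ b ∈ SLev0.PbK arm J B F R P.1 D μ,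
      a ⬝ᵥ ((J * P.1) *ᵥ b) = 0 := by
  rintro _ ⟨v, hv, rfl⟩ _ ⟨w, hw, rfl⟩
  exact SCM.orth (k := ℂ) (N := N) (W := W) (S.hCtx F S.hF).data S.hR S.hP.1 S.hDB h hv hw

theorem PbK_st (S : Setup arm J B N W F f P R D l) (μ : K) (s : Fin 3) :
    ∀ a ∈ SLev0.PbK arm J B F R P.1 D μ,
      (M arm B s F F * (J * P.1)) *ᵥ a ∈ SLev0.PbK arm J B F R P.1 D μ := by
  rintro _ ⟨v, hv, rfl⟩
  exact ⟨PhS arm J B F R P.1 s v, PB_stable S.hD.2 μ s hv, PhS_coe S.hR P.1 s v⟩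

theorem dot_form {n : ℕ} (Q : Matrix ι (Fin n) K) (X : Matrix ι ι K) (x y : Fin n → K) :
    (Q *ᵥ x) ⬝ᵥ (X *ᵥ (Q *ᵥ y)) = x ⬝ᵥ ((Qᵀ * X * Q) *ᵥ y) := by
  rw [Matrix.mul_assoc Qᵀ, ← mulVec_mulVec _ Qᵀ, dotProduct_mulVec x Qᵀ, vecMul_transpose,
    mulVec_mulVec y X Q]

/-- **freeness of one block** -/
theorem blk_free (S : Setup arm J B N W F f P R D l) {ν : K} {n : ℕ} {Q : Matrix ι (Fin n) K}
    {A : Fin 3 → Matrix (Fin n) (Fin n) K} (b : BPkg arm J B F R P.1 D ν l Q A) (s : Fin 3)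
    {x : Fin n → K} (hx : (Qᵀ * (J * P.1) * Q) *ᵥ ((A s ^ (l s - 1)) *ᵥ x) = 0) :
    ∃ y, (Qᵀ * (J * P.1) * Q) *ᵥ (x - A s *ᵥ y) = 0 := by
  have hl : 1 ≤ l s := le_trans (by norm_num) (b.blk.two_le s)
  have hmem : ∀ z, Q *ᵥ z ∈ SLev0.PbK arm J B F R P.1 D ν := fun z => SLev0.coord_mem b z
  have hle : ∀ μ, SLev0.PbK arm J B F R P.1 D μ ≤ PC arm J B F R P.1 := by
    intro μ
    rw [PC_eq S]
    exact le_iSup (fun ν => SLev0.PbK arm J B F R P.1 D ν) μ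
  have h1 : ((M arm B s F F * (J * P.1)) ^ (l s - 1)) *ᵥ (Q *ᵥ x) ∈
      Rd (J * P.1) (PC arm J B F R P.1) := by
    rw [SLev0.pow_act b]
    refine ⟨hle ν (hmem _), ?_⟩
    intro c hc
    rw [PC_eq S] at hc
    refine Submodule.iSup_induction (p := fun ν => SLev0.PbK arm J B F R P.1 D ν)
      (motive := fun c => c ⬝ᵥ ((J * P.1) *ᵥ (Q *ᵥ ((A s ^ (l s - 1)) *ᵥ x))) = 0) hc ?_
      (zero_dotProduct _) (fun a b ha hb => by rw [add_dotProduct, ha, hb, add_zero])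
    intro μ c hc
    by_cases hμ : μ = ν
    · subst hμ
      obtain ⟨z, rfl⟩ := SLev0.exists_coord b hc
      rw [dot_form, hx, dotProduct_zero]
    · exact PbK_orth S hμ c hc _ (hmem _)
  obtain ⟨c', hc', h2⟩ := (S.free s).2 1 hl (Q *ᵥ x) (hle ν (hmem x)) h1
  rw [pow_one] at h2
  -- the `ν` part of `c'`
  have key : ∃ y, ∀ a ∈ SLev0.PbK arm J B F R P.1 D ν,
      a ⬝ᵥ ((J * P.1) *ᵥ ((M arm B s F F * (J * P.1)) *ᵥ c')) =
        a ⬝ᵥ ((J * P.1) *ᵥ (Q *ᵥ (A s *ᵥ y))) := by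
    rw [PC_eq S] at hc'
    refine Submodule.iSup_induction (p := fun ν => SLev0.PbK arm J B F R P.1 D ν)
      (motive := fun c' => ∃ y, ∀ a ∈ SLev0.PbK arm J B F R P.1 D ν,
      a ⬝ᵥ ((J * P.1) *ᵥ ((M arm B s F F * (J * P.1)) *ᵥ c')) =
        a ⬝ᵥ ((J * P.1) *ᵥ (Q *ᵥ (A s *ᵥ y)))) hc' ?_ ?_ ?_
    · intro μ c hc
      by_cases hμ : μ = ν
      · subst hμ
        obtain ⟨z, rfl⟩ := SLev0.exists_coord b hc
        refine ⟨z, fun a _ => ?_⟩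
        have := SLev0.pow_act b s 1 z
        rw [pow_one, pow_one] at this
        rw [this]
      · refine ⟨0, fun a ha => ?_⟩
        rw [PbK_orth S (Ne.symm hμ) a ha _ (PbK_st S μ s c hc), mulVec_zero, mulVec_zero,
          mulVec_zero, dotProduct_zero]
    · exact ⟨0, fun a _ => by simp⟩
    · rintro c c2 ⟨y, hy⟩ ⟨y2, hy2⟩
      refine ⟨y + y2, fun a ha => ?_⟩
      rw [mulVec_add, mulVec_add, dotProduct_add, hy a ha, hy2 a ha, mulVec_add, mulVec_add,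
        mulVec_add, dotProduct_add]
  obtain ⟨y, hy⟩ := key
  refine ⟨y, ?_⟩
  funext i
  have h3 := h2.2 _ (hle ν (hmem (Pi.single i 1)))
  rw [mulVec_sub, dotProduct_sub, hy _ (hmem _), ← dotProduct_sub, ← mulVec_sub, ← mulVec_sub,
    dot_form, single_one_dotProduct] at h3
  exact h3

/-- **exact arms lie in the span of the elementary tensors** (U-level frames) -/
theorem fil_of_arm (S : Setup arm J B N W F f P R D l) {ν ν' : K}
    {n1 n2 : ℕ} {Q1 : Matrix ι (Fin n1) K} {A1 : Fin 3 → Matrix (Fin n1) (Fin n1) K}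
    {Q2 : Matrix ι (Fin n2) K} {A2 : Fin 3 → Matrix (Fin n2) (Fin n2) K}
    (b1 : BPkg arm J B F R P.1 D ν l Q1 A1) (b2 : BPkg arm J B F R P.1 D ν' l Q2 A2)
    {m1 m2 : ℕ} {U1 : Matrix δ (Fin m1) K} {U2 : Matrix δ (Fin m2) K}
    {a1 : Fin 3 → Matrix (Fin m1) (Fin m1) K} {a2 : Fin 3 → Matrix (Fin m2) (Fin m2) K}
    (hU1 : UFr.Cq (UBlk.Qb (S.hCtx F S.hF).data S.hR P.1 D ν) U1)
    (hs1 : ∀ u ∈ UBlk.Qb (S.hCtx F S.hF).data S.hR P.1 D ν, ∃ x, u = U1 *ᵥ x)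
    (ha1 : ∀ s, B * E K arm s * (Fᵀ * J * (P.1 * F)) * U1 = U1 * a1 s)
    (hU2 : UFr.Cq (UBlk.Qb (S.hCtx F S.hF).data S.hR P.1 D ν') U2)
    (hs2 : ∀ u ∈ UBlk.Qb (S.hCtx F S.hF).data S.hR P.1 D ν', ∃ x, u = U2 *ᵥ x)
    (ha2 : ∀ s, B * E K arm s * (Fᵀ * J * (P.1 * F)) * U2 = U2 * a2 s)
    {c : K} (s : Fin 3) {X : Matrix (Fin m2) (Fin m1) K}
    (hX : (U2ᵀ * (Fᵀ * J * (P.1 * F)) * U2) * (X * (a1 s)ᵀ - c • (a2 s * X)) *
      (U1ᵀ * (Fᵀ * J * (P.1 * F)) * U1) = 0) :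
    X ∈ FilU (l s) (a1 s) (U1ᵀ * (Fᵀ * J * (P.1 * F)) * U1) (a2 s)
      (U2ᵀ * (Fᵀ * J * (P.1 * F)) * U2) := by
  have hm1 : ∀ x, U1 *ᵥ x ∈ SInst.QQb S ν := by
    intro x
    have e' : U1 *ᵥ x = ∑ j, x j • (fun d => U1 d j) := by
      funext d
      rw [Finset.sum_apply]
      unfold Matrix.mulVec dotProduct
      exact Finset.sum_congr rfl fun j _ => by rw [Pi.smul_apply, smul_eq_mul, mul_comm]
    rw [e']
    exact Submodule.sum_mem _ fun j _ => Submodule.smul_mem _ _ (hU1 j)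
  have hm2 : ∀ x, U2 *ᵥ x ∈ SInst.QQb S ν' := by
    intro x
    have e' : U2 *ᵥ x = ∑ j, x j • (fun d => U2 d j) := by
      funext d
      rw [Finset.sum_apply]
      unfold Matrix.mulVec dotProduct
      exact Finset.sum_congr rfl fun j _ => by rw [Pi.smul_apply, smul_eq_mul, mul_comm]
    rw [e']
    exact Submodule.sum_mem _ fun j _ => Submodule.smul_mem _ _ (hU2 j)
  obtain ⟨C1, hF1, ho1, hi1, -, hG1⟩ := SInst.exists_C S b1 hU1 hs1 hm1 ha1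
  obtain ⟨C2, hF2, ho2, hi2, -, hG2⟩ := SInst.exists_C S b2 hU2 hs2 hm2 ha2
  rw [← hG1, ← hG2] at hX ⊢
  have hinj1 : ∀ v, C1ᵀ *ᵥ v = 0 → v = 0 := by
    intro v hv
    funext i
    obtain ⟨x, hx⟩ := ho1 (Pi.single i 1)
    have h1 : (C1 *ᵥ x) ⬝ᵥ v = 0 := by
      rw [← vecMul_transpose, ← dotProduct_mulVec, hv, dotProduct_zero]
    rw [hx, single_one_dotProduct] at h1
    exact h1
  have hinj2 : ∀ v, C2ᵀ *ᵥ v = 0 → v = 0 := by
    intro v hv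
    funext i
    obtain ⟨x, hx⟩ := ho2 (Pi.single i 1)
    have h1 : (C2 *ᵥ x) ⬝ᵥ v = 0 := by
      rw [← vecMul_transpose, ← dotProduct_mulVec, hv, dotProduct_zero]
    rw [hx, single_one_dotProduct] at h1
    exact h1
  have hst : ∀ {n : ℕ} {A G : Matrix (Fin n) (Fin n) K}, Aᵀ * G = -(G * A) →
      ∀ r, G *ᵥ r = 0 → G *ᵥ (A *ᵥ r) = 0 := by
    intro n A G h r hr
    rw [mulVec_mulVec, ← neg_eq_zero, ← neg_mulVec, ← h, ← mulVec_mulVec, hr, mulVec_zero]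
  -- the V-level statement
  have hV : C2 * X * C1ᵀ ∈ FilU (l s) (A1 s) (Q1ᵀ * (J * P.1) * Q1) (A2 s)
      (Q2ᵀ * (J * P.1) * Q2) := by
    refine mem_of_flt (le_trans (by norm_num) (b1.blk.two_le s)) (b1.adj s) b1.skew ?_
      (hst (b1.adj s)) (fun v hv => blk_free S b1 s hv) (hst (b2.adj s))
      (flt_of_exact (b1.adj s) (hst (b2.adj s)) (c := c) ?_)
    · intro v
      have h1 := b1.blk.pow s v
      rw [LinearMap.mem_ker, mulVecLin_apply, SCM.mulVecLin_pow_apply] at h1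
      exact h1
    · have e1 : C2ᵀ * ((Q2ᵀ * (J * P.1) * Q2) * (C2 * X * C1ᵀ * (A1 s)ᵀ -
          c • (A2 s * (C2 * X * C1ᵀ))) * (Q1ᵀ * (J * P.1) * Q1)) * C1 = 0 := by
        rw [← hX]
        have e2 : C1ᵀ * (A1 s)ᵀ = (a1 s)ᵀ * C1ᵀ := by
          rw [← transpose_mul, hi1, transpose_mul]
        have e3 : C2 * X * C1ᵀ * (A1 s)ᵀ - c • (A2 s * (C2 * X * C1ᵀ)) =
            C2 * (X * (a1 s)ᵀ - c • (a2 s * X)) * C1ᵀ := by
          rw [Matrix.mul_assoc (C2 * X), e2, ← Matrix.mul_assoc (A2 s), ← Matrix.mul_assoc (A2 s),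
            hi2, Matrix.mul_sub, Matrix.sub_mul, Matrix.mul_smul, Matrix.smul_mul]
          simp only [Matrix.mul_assoc]
        rw [e3]
        simp only [Matrix.mul_assoc]
      have e4 : ((Q2ᵀ * (J * P.1) * Q2) * (C2 * X * C1ᵀ * (A1 s)ᵀ -
          c • (A2 s * (C2 * X * C1ᵀ))) * (Q1ᵀ * (J * P.1) * Q1)) * C1 = 0 := by
        apply Matrix.ext_of_mulVec_single
        intro j
        rw [zero_mulVec]
        apply hinj2
        rw [mulVec_mulVec, ← Matrix.mul_assoc, e1, zero_mulVec]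
      apply Matrix.ext_of_mulVec_single
      intro j
      obtain ⟨x, hx⟩ := ho1 (Pi.single j 1)
      rw [← hx, mulVec_mulVec, e4, zero_mulVec, zero_mulVec]
  exact lift (hi1 s) (hi2 s) ho1 ho2 rfl rfl hV

/-- the same with 560's `FR` -/
theorem FilU_le_FR {n1 n2 : Type*} [Fintype n1] [Fintype n2] [DecidableEq n1] [DecidableEq n2]
    {A1 : Matrix n1 n1 K} {A2 : Matrix n2 n2 K} {S0 : Matrix δ δ K} {U1 : Matrix δ n1 K}
    {U2 : Matrix δ n2 K} {l : ℕ} : FilU l A1 (U1ᵀ * S0 * U1) A2 (U2ᵀ * S0 * U2) ≤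
      SL2g560.FR A2 A1 (SL2g560.rad S0 U2) (SL2g560.rad S0 U1) l := by
  refine Submodule.span_le.2 ?_
  rintro M (⟨i, j, h, x, y, rfl⟩ | ⟨r, y, h, rfl⟩ | ⟨x, r, h, rfl⟩)
  · exact Submodule.subset_span (Or.inl ⟨i, j, x, y, h, rfl⟩)
  · exact Submodule.subset_span (Or.inr (Or.inl ⟨r, SL2g560.mem_rad.2 h, y, rfl⟩))
  · exact Submodule.subset_span (Or.inr (Or.inr ⟨x, r, SL2g560.mem_rad.2 h, rfl⟩))

/-- **exact arms lie in 560's `FR`** (letters of `SDec.Geo22`; `hX` = `SDec.Dec.arm`) -/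
theorem exact_FR (S : Setup arm J B N W F f P R D l) {ν ν' : K}
    {n1 n2 : ℕ} {Q1 : Matrix ι (Fin n1) K} {A1 : Fin 3 → Matrix (Fin n1) (Fin n1) K}
    {Q2 : Matrix ι (Fin n2) K} {A2 : Fin 3 → Matrix (Fin n2) (Fin n2) K}
    (b1 : BPkg arm J B F R P.1 D ν l Q1 A1) (b2 : BPkg arm J B F R P.1 D ν' l Q2 A2)
    {m1 m2 : ℕ} {U1 : Matrix δ (Fin m1) K} {U2 : Matrix δ (Fin m2) K}
    {a1 : Fin 3 → Matrix (Fin m1) (Fin m1) K} {a2 : Fin 3 → Matrix (Fin m2) (Fin m2) K}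
    (hU1 : UFr.Cq (UBlk.Qb (S.hCtx F S.hF).data S.hR P.1 D ν) U1)
    (hs1 : ∀ u ∈ UBlk.Qb (S.hCtx F S.hF).data S.hR P.1 D ν, ∃ x, u = U1 *ᵥ x)
    (ha1 : ∀ s, B * E K arm s * (Fᵀ * J * (P.1 * F)) * U1 = U1 * a1 s)
    (hU2 : UFr.Cq (UBlk.Qb (S.hCtx F S.hF).data S.hR P.1 D ν') U2)
    (hs2 : ∀ u ∈ UBlk.Qb (S.hCtx F S.hF).data S.hR P.1 D ν', ∃ x, u = U2 *ᵥ x)
    (ha2 : ∀ s, B * E K arm s * (Fᵀ * J * (P.1 * F)) * U2 = U2 * a2 s)
    {c : K} (s : Fin 3) {X : Matrix (Fin m2) (Fin m1) K}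
    (hX : (U2ᵀ * (Fᵀ * J * (P.1 * F)) * U2) * (X * (a1 s)ᵀ - c • (a2 s * X)) *
      (U1ᵀ * (Fᵀ * J * (P.1 * F)) * U1) = 0) :
    X ∈ SL2g560.FR (a2 s) (a1 s) (SL2g560.rad (Fᵀ * J * (P.1 * F)) U2)
      (SL2g560.rad (Fᵀ * J * (P.1 * F)) U1) (l s) :=
  FilU_le_FR (fil_of_arm S b1 b2 hU1 hs1 ha1 hU2 hs2 ha2 s hX)

end inst

end Crest.Agent.R172.SFilU41
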