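import Crest.Agent.R172.UFr
import Crest.Agent.R172.SCore2

/-!
Row 172 (S0260), (t2), S-side: the comparison `π_i : K^δ`-frame of `Qb ν` → coordinates of `BPkg ν`:
`g U = P π`, `π` onto, `A π = π a`, `Uᵀ S₀ U = πᵀ (Pᵀ J X P) π`.
-/

set_option autoImplicit false
set_option linter.unusedSectionVars false
set_option linter.unusedFintypeInType false
set_option linter.unusedDecidableInType false

namespace Crest.Agent.R172.SFrm746

open Matrix Module Crest.Agent.R172.FO Crest.Agent.R172.Qt Crest.Agent.R172.SpS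
open Crest.Agent.R172.SBlk Crest.Agent.R172.UBlk Crest.Agent.R172.SCM Crest.Agent.R172.SEnd2
open Crest.Agent.R172.PL (CoreM)
open Crest.Agent.R172.SC (PB)

variable {ι : Type*} [Fintype ι] [DecidableEq ι] {δ : Type*} [Fintype δ] [DecidableEq δ]
variable {k K : Type*} [Field k] [Field K] [Algebra k K]
variable {arm : δ → Fin 3} {J : Matrix ι ι K} {B : Matrix δ δ K}
  {N W : Submodule K (Matrix ι δ K)} {g f : Matrix ι δ K}

theorem exists_pi {X : Matrix ι ι K} {m n : ℕ} {U : Matrix δ (Fin m) K}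
    {P : Matrix ι (Fin n) K} {a : Fin 3 → Matrix (Fin m) (Fin m) K}
    {A : Fin 3 → Matrix (Fin n) (Fin n) K} (hBs : ∀ s, E K arm s * B = B * E K arm s)
    (hgU : ∀ x, ∃ y, g *ᵥ (U *ᵥ x) = P *ᵥ y) (hPg : ∀ y, ∃ x, P *ᵥ y = g *ᵥ (U *ᵥ x))
    (inj : ∀ x, P *ᵥ x = 0 → x = 0)
    (hU : ∀ s, B * E K arm s * (gᵀ * J * (X * g)) * U = U * a s)
    (act : ∀ s, M arm B s g g * (J * X) * P = P * A s) :
    ∃ π : Matrix (Fin n) (Fin m) K, g * U = P * π ∧ (∀ y, ∃ x, π *ᵥ x = y) ∧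
      (∀ s, A s * π = π * a s) ∧
      Uᵀ * (gᵀ * J * (X * g)) * U = πᵀ * (Pᵀ * (J * X) * P) * π ∧
      (∀ x, π *ᵥ x = 0 ↔ g *ᵥ (U *ᵥ x) = 0) := by
  choose y hy using fun j : Fin m => hgU (Pi.single j 1)
  let π : Matrix (Fin n) (Fin m) K := Matrix.of fun i j => y j i
  have hπ : g * U = P * π := by
    ext i j
    have h1 := congrFun (hy j) i
    have h2 : (g *ᵥ (U *ᵥ Pi.single j 1)) i = (g * U) i j := by
      rw [mulVec_mulVec]
      simp
    rw [← h2, h1]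
    rfl
  have hx : ∀ x, g *ᵥ (U *ᵥ x) = P *ᵥ (π *ᵥ x) := by
    intro x
    rw [mulVec_mulVec, hπ, mulVec_mulVec]
  have hinj : ∀ x y, P *ᵥ x = P *ᵥ y → x = y := by
    intro x y hxy
    exact sub_eq_zero.1 (inj _ (by rw [mulVec_sub, hxy, sub_self]))
  refine ⟨π, hπ, fun v => ?_, fun s => ?_, ?_, fun x => ?_⟩
  · obtain ⟨x, hx'⟩ := hPg v
    refine ⟨x, hinj _ _ ?_⟩
    rw [← hx, hx']
  · have e : P * (A s * π) = P * (π * a s) := by
      rw [← Matrix.mul_assoc, ← act, Matrix.mul_assoc, ← hπ, ← Matrix.mul_assoc P, ← hπ,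
        Matrix.mul_assoc g U, ← hU]
      unfold M
      rw [show g * E K arm s * B = g * (E K arm s * B) from Matrix.mul_assoc _ _ _, hBs]
      simp only [Matrix.mul_assoc]
    ext i j
    have h1 := hinj ((A s * π) *ᵥ Pi.single j 1) ((π * a s) *ᵥ Pi.single j 1) (by
      rw [mulVec_mulVec, mulVec_mulVec, e])
    have h2 := congrFun h1 i
    simpa using h2
  · calc Uᵀ * (gᵀ * J * (X * g)) * U = (g * U)ᵀ * (J * X) * (g * U) := by
          rw [transpose_mul]; simp only [Matrix.mul_assoc]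
      _ = _ := by rw [hπ, transpose_mul]; simp only [Matrix.mul_assoc]
  · rw [hx]
    constructor
    · intro h0
      rw [h0, mulVec_zero]
    · exact inj _

variable {p : Matrix ι ι K × (Fin 3 → Matrix ι ι K)}

/-- the comparison for `BPkg` -/
theorem exists_pi_of_BPkg [IsAlgClosed K] (h : Ctx k arm J B N W g) {R : Matrix δ ι K}
    (hR : g * R * g = g) {D : End K (CoreM (PhS arm J B g R p.1))}
    (hD : IsD (PhS arm J B g R p.1) (Nh arm J B g f R p.1) D) {ν : K} {l : Fin 3 → ℕ} {m n : ℕ}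
    {P : Matrix ι (Fin n) K} {A : Fin 3 → Matrix (Fin n) (Fin n) K}
    (b : BPkg arm J B g R p.1 D ν l P A) {U : Matrix δ (Fin m) K}
    {a : Fin 3 → Matrix (Fin m) (Fin m) K} (hspan : ∀ u ∈ Qb h.data hR p.1 D ν, ∃ x, u = U *ᵥ x)
    (hmem : ∀ x, U *ᵥ x ∈ Qb h.data hR p.1 D ν)
    (hU : ∀ s, B * E K arm s * (gᵀ * J * (p.1 * g)) * U = U * a s) :
    ∃ π : Matrix (Fin n) (Fin m) K, g * U = P * π ∧ (∀ y, ∃ x, π *ᵥ x = y) ∧
      (∀ s, A s * π = π * a s) ∧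
      Uᵀ * (gᵀ * J * (p.1 * g)) * U = πᵀ * (Pᵀ * (J * p.1) * P) * π ∧
      (∀ x, π *ᵥ x = 0 ↔ g *ᵥ (U *ᵥ x) = 0) := by
  have hmap := Qb_map h hR hD ν
  refine exists_pi h.data.B_arm (fun x => ?_) (fun y => ?_) b.inj hU b.act
  · have h1 : gS g (U *ᵥ x) ∈ PB (PhS arm J B g R p.1) D ν := by
      rw [← hmap]
      exact ⟨_, hmem x, rfl⟩
    obtain ⟨y, hy⟩ := b.span _ h1
    exact ⟨y, hy⟩
  · obtain ⟨v, hv, hvy⟩ := b.mem y
    rw [← hmap] at hv
    obtain ⟨u, hu, rfl⟩ := hv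
    obtain ⟨x, rfl⟩ := hspan u hu
    exact ⟨x, hvy.symm⟩

end Crest.Agent.R172.SFrm746
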