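import Crest.Agent.R172.SN2

/-!
Row 172, node IND (c) for `S = im F`, `F` generic in `ZZ` (note "TAN" of helper111):
if `ω_Y(F,g) = Fᵀ J d_Y g = 0`, `w (ker F) ⊆ im F` and `ω_Y(w,g) ρ_s Fᵀ = 0` (total symmetry)
then all words of length 2 in `ω_Y(w,g) ρ_s` vanish, hence `ω_Y(w,g) = 0` by NIL^sp.
-/

set_option autoImplicit false

namespace Crest.Agent.R172.Tan

open Matrix Module

section
variable {K : Type*} [Field K] {α β : Type*} [Fintype α] [Fintype β] [DecidableEq α]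
  [DecidableEq β]

/-- generalised inverse -/
theorem exists_ginv (F : Matrix α β K) : ∃ G : Matrix β α K, F * G * F = F := by
  classical
  let f : (β → K) →ₗ[K] (α → K) := Matrix.toLin' F
  obtain ⟨g, hg⟩ := LinearMap.exists_rightInverse_of_surjective f.rangeRestrict
    (LinearMap.range_rangeRestrict f)
  obtain ⟨e, he⟩ := LinearMap.exists_extend (g : LinearMap.range f →ₗ[K] (β → K))
  refine ⟨LinearMap.toMatrix' e, ?_⟩
  apply Matrix.toLin'.injective
  rw [Matrix.toLin'_mul, Matrix.toLin'_mul, Matrix.toLin'_toMatrix']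
  refine LinearMap.ext fun v => ?_
  rw [LinearMap.comp_apply, LinearMap.comp_apply]
  change f (e (f v)) = f v
  have h1 : e (f v) = g ⟨f v, LinearMap.mem_range_self f v⟩ := by
    rw [← he]; rfl
  rw [h1]
  have h2 := congrArg Subtype.val (LinearMap.congr_fun hg ⟨f v, LinearMap.mem_range_self f v⟩)
  simpa using h2

/-- a derivative of `F` maps `ker F` into `im F`, in product form -/
theorem der_form {k : Type*} [Field k] [Algebra k K] (D : Derivation k K K)
    {F : Matrix α β K} {G : Matrix β α K} (h : F * G * F = F) :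
    F.map D = (F.map D * G) * F + F * (G * F).map D := by
  have h1 : (F * (G * F)).map D = F.map D := by rw [← Matrix.mul_assoc, h]
  rw [FO.map_mul_der] at h1
  rw [Matrix.mul_assoc (F.map D)]
  exact h1.symm

/-- if `w (ker F) ⊆ im F` then `w = A F + F h`. -/
theorem exists_form {w F : Matrix α β K}
    (hw : ∀ u : β → K, F *ᵥ u = 0 → ∃ v, w *ᵥ u = F *ᵥ v) :
    ∃ (A : Matrix α α K) (h : Matrix β β K), w = A * F + F * h := by
  classical
  obtain ⟨G, hG⟩ := exists_ginv F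
  have h1 : ∀ j : β, ∃ v, w *ᵥ ((1 - G * F) *ᵥ (Pi.single j 1)) = F *ᵥ v := by
    intro j
    apply hw
    rw [mulVec_mulVec, Matrix.mul_sub, ← Matrix.mul_assoc, hG, Matrix.mul_one, sub_self,
      zero_mulVec]
  choose v hv using h1
  refine ⟨w * G, Matrix.of fun i j => v j i, ?_⟩
  have h2 : w * (1 - G * F) = F * Matrix.of fun i j => v j i := by
    ext i j
    have := congrFun (hv j) i
    rw [mulVec_mulVec, mulVec_single_one] at this
    rw [← col_apply (w * (1 - G * F)) j i]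
    rw [this, mul_apply, mulVec, dotProduct]
    rfl
  rw [← h2, Matrix.mul_sub, Matrix.mul_one, Matrix.mul_assoc]
  abel

/-- the key identity: `ψ := wᵀ J x`; `Fᵀ J x = 0`, `w = A F + F h`, `ψ C Fᵀ = 0`
imply `ψ C ψ = 0`. -/
theorem psi_mul_psi {γ : Type*} {J : Matrix α α K} {w F : Matrix α β K} {x : Matrix α γ K}
    [Fintype γ] {A : Matrix α α K} {h : Matrix β β K} {C : Matrix γ β K}
    (hw : w = A * F + F * h) (hF : Fᵀ * J * x = 0) (hC : wᵀ * J * x * C * Fᵀ = 0) :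
    wᵀ * J * x * C * (wᵀ * J * x) = 0 := by
  have h1 : wᵀ * J * x = Fᵀ * (Aᵀ * J * x) := by
    have h2 : wᵀ = Fᵀ * Aᵀ + hᵀ * Fᵀ := by
      rw [hw, transpose_add, transpose_mul, transpose_mul]
    rw [h2, Matrix.add_mul, Matrix.add_mul]
    have h3 : hᵀ * Fᵀ * J * x = 0 := by
      rw [Matrix.mul_assoc, Matrix.mul_assoc, ← Matrix.mul_assoc Fᵀ, hF, Matrix.mul_zero]
    rw [h3, add_zero]
    simp only [Matrix.mul_assoc]
  calc wᵀ * J * x * C * (wᵀ * J * x) = wᵀ * J * x * C * (Fᵀ * (Aᵀ * J * x)) := by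
        rw [← h1]
    _ = (wᵀ * J * x * C * Fᵀ) * (Aᵀ * J * x) := by rw [Matrix.mul_assoc (wᵀ * J * x * C)]
    _ = 0 := by rw [hC, Matrix.zero_mul]

end

section
open Crest.AlgebraR.SpinSaturation Crest.Agent.R172.CF

variable {n : ℕ} {a : Fin 3 → Fin n → ℤ} {c : Cfg n a} {K : Type} [Field K] [Algebra ℂ K]

/-- words of length two -/
theorem words_two {X : Matrix c.δ c.δ K} (C : Fin 3 → Matrix c.δ c.δ K)
    (h : ∀ s, X * C s * X = 0) (l : List (Fin 3)) (hl : l.length = 2) :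
    (l.map fun s => X * C s).prod = 0 := by
  obtain ⟨s, t, rfl⟩ := List.length_eq_two.1 hl
  simp only [List.map_cons, List.map_nil, List.prod_cons, List.prod_nil, mul_one]
  rw [← Matrix.mul_assoc, h s, Matrix.zero_mul]

/-- **TAN**: `ω_Y(w,g) = wᵀ J (d_Y g) = 0`. Here `x = d_Y g`; `hF` is `F ∈ ZZ`; `hw` is
`w (ker F) ⊆ im F` (`exists_form`, `der_form`); `hts` is total symmetry
`ω_Y(w,g) ρ_s Fᵀ = ω_Y(w,F) ρ_s gᵀ = 0`. -/
theorem tan (R : Ranked c) (p : Pol c) {H : Matrix (Fin p.m) (Fin p.m) K} (hH : Hᵀ = -H)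
    (hgen : ∀ G : Matrix (Fin p.m) (Fin p.m) K, Gᵀ = -G → ∃ D : Derivation ℂ K K, H.map D = G)
    {α : Type*} [Fintype α] [DecidableEq α] {J : Matrix α α K} {w F x : Matrix α c.δ K}
    {A : Matrix α α K} {h : Matrix c.δ c.δ K}
    (hw : w = A * F + F * h) (hF : Fᵀ * J * x = 0)
    (hsk : (wᵀ * J * x)ᵀ = -(wᵀ * J * x)) (hXL : ∀ d, (wᵀ * J * x) d ∈ p.LH H)
    (hcomp : ∀ d e, c.arm d = c.arm e → 0 ≤ R.rk d + R.rk e → (wᵀ * J * x) d e = 0)
    (hts : ∀ s, wᵀ * J * x * (FO.E K c.arm s * c.B K) * Fᵀ = 0) :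
    wᵀ * J * x = 0 :=
  SN.nil_sp_X R p hH hgen (wᵀ * J * x) hsk hXL hcomp 2
    (words_two (fun s => FO.E K c.arm s * c.B K) fun s => psi_mul_psi hw hF (hts s))

end

end Crest.Agent.R172.Tan
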