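import Crest.Agent.R172.UFr
import Crest.Agent.R172.PTy
import Crest.Agent.R172.Tan

/-!
Row 172 (S0260), (t2), S-side: `Ainf (ω at (H_t, P_t)) = Ainf (ω at (F, P))` for almost all `t`
(second copy of helper266's `ainf_eq`, by the forms of `Spec` only).
-/

set_option autoImplicit false
set_option linter.unusedSectionVars false
set_option linter.unusedFintypeInType false
set_option linter.unusedDecidableInType false

namespace Crest.Agent.R172.SInf659

open Module Matrix Crest.Agent.R172.FO Crest.Agent.R172.Qt Crest.Agent.R172.SpS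
open Crest.Agent.R172.SBlk Crest.Agent.R172.UBlk
open Crest.Agent.R172.PL (Wk Ainf Wk_succ_mem Ainf_exists)
open Crest.Agent.R172.SUX (th)
open Crest.Agent.R172.Om (Kiso Om)
open Crest.Agent.R172.PTt Crest.Agent.R172.PTy

section pure

variable {K : Type*} [Field K] {V : Type*} [AddCommGroup V] [Module K V] {τ : Type*}

/-- perfect subspaces lie in `Ainf` -/
theorem le_Ainf {Φ : τ → End K V} {X : Submodule K V} (hX : X ≤ ⨆ s, X.map (Φ s)) :
    X ≤ Ainf Φ := by
  refine le_iInf fun k => ?_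
  induction k with
  | zero => exact le_top
  | succ k ih =>
    refine hX.trans (iSup_le fun s => ?_)
    rintro _ ⟨v, hv, rfl⟩
    exact Wk_succ_mem (ih hv) s

/-- **pure algebra**: orthogonal summands -/
theorem split [Fintype τ] [FiniteDimensional K V] {C : Finset K} {α : K → τ → End K V}
    {Φ Ψ : τ → End K V} (hs : ∀ s v, Φ s v = ∑ c ∈ C, α c s v)
    (hx : ∀ c ∈ C, ∀ c' ∈ C, c ≠ c' → ∀ s t v, α c s (α c' t v) = 0) {κ : K → K}
    (hΨ : ∀ c ∈ C, ∀ s t v, Ψ s (α c t v) = κ c • α c s (α c t v))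
    (hκ : ∀ c ∈ C, κ c = 0 → ∀ s v, α c s v = 0) : Ainf Φ ≤ Ainf Ψ := by
  classical
  set X : Submodule K V := ⨆ c ∈ C, ⨆ s, (Ainf Φ).map (α c s) with hX
  have hmem : ∀ c ∈ C, ∀ s, ∀ u ∈ Ainf Φ, α c s u ∈ X := by
    intro c hc s u hu
    exact Submodule.mem_iSup_of_mem c (Submodule.mem_iSup_of_mem hc
      (Submodule.mem_iSup_of_mem s ⟨u, hu, rfl⟩))
  have h1 : Ainf Φ ≤ X := by
    intro u hu
    obtain ⟨f, hf, rfl⟩ := Ainf_exists Φ hu
    refine Submodule.sum_mem _ fun s _ => ?_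
    rw [hs]
    exact Submodule.sum_mem _ fun c hc => hmem c hc s _ (hf s)
  have key : ∀ c ∈ C, ∀ s, ∀ x ∈ X, α c s x ∈ X.map (Ψ s) := by
    intro c hc s x hx'
    refine Submodule.iSup_induction (p := fun c => ⨆ (_ : c ∈ C), ⨆ s, (Ainf Φ).map (α c s))
      (motive := fun x => α c s x ∈ X.map (Ψ s)) hx' ?_ (by rw [map_zero]; exact Submodule.zero_mem _)
      (fun a b ha hb => by rw [map_add]; exact Submodule.add_mem _ ha hb)
    intro c' y hy
    by_cases hc' : c' ∈ C
    · rw [iSup_pos hc'] at hy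
      refine Submodule.iSup_induction (p := fun s => (Ainf Φ).map (α c' s))
        (motive := fun x => α c s x ∈ X.map (Ψ s)) hy ?_
        (by rw [map_zero]; exact Submodule.zero_mem _)
        (fun a b ha hb => by rw [map_add]; exact Submodule.add_mem _ ha hb)
      rintro t _ ⟨u, hu, rfl⟩
      by_cases hcc : c = c'
      · subst hcc
        by_cases hk : κ c = 0
        · rw [hκ c hc hk]; exact Submodule.zero_mem _
        · have h2 : α c s (α c t u) = Ψ s ((κ c)⁻¹ • α c t u) := by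
            rw [map_smul, hΨ c hc, smul_smul, inv_mul_cancel₀ hk, one_smul]
          rw [h2]
          exact ⟨_, Submodule.smul_mem _ _ (hmem c hc t u hu), rfl⟩
      · rw [hx c hc c' hc' hcc]; exact Submodule.zero_mem _
    · rw [iSup_neg hc', Submodule.mem_bot] at hy
      rw [hy, map_zero]; exact Submodule.zero_mem _
  refine h1.trans (le_Ainf ?_)
  refine iSup_le fun c => iSup_le fun hc => iSup_le fun s => ?_
  rintro _ ⟨u, hu, rfl⟩
  exact Submodule.mem_iSup_of_mem s (key c hc s u (h1 hu))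

end pure

variable {ι : Type*} [Fintype ι] [DecidableEq ι] {δ : Type*} [Fintype δ] [DecidableEq δ]
variable {k K : Type*} [Field k] [Field K] [Algebra k K]
variable {arm : δ → Fin 3} {J : Matrix ι ι K} {B : Matrix δ δ K}
  {N W : Submodule K (Matrix ι δ K)} {g f F : Matrix ι δ K}
  {p : Matrix ι ι K × (Fin 3 → Matrix ι ι K)} {S : Finset K}
  {q : K → Matrix ι ι K × (Fin 3 → Matrix ι ι K)}

/-- the comparison of `Ainf` from the forms -/
theorem ainf_le (hq : Spec arm J N g f p.1 S q) (h : Ctx k arm J B N W g) (hf : f ∈ N ⊓ W)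
    {X' : Matrix δ δ K} {κ : K → K}
    (hX : ∀ c ∈ S, ∀ t, X' * (E K arm t * B) * (gᵀ * J * ((q c).1 * g)) =
      κ c • ((gᵀ * J * ((q c).1 * g)) * (E K arm t * B) * (gᵀ * J * ((q c).1 * g))))
    (hκ : ∀ c ∈ S, κ c = 0 → gᵀ * J * ((q c).1 * g) = 0) :
    Ainf (om arm J B g p.1 g) ≤ Ainf (fun s => Matrix.mulVecLin (B * E K arm s * X')) := by
  refine split (C := S) (κ := κ)
    (α := fun c s => Matrix.mulVecLin (B * E K arm s * (gᵀ * J * ((q c).1 * g)))) ?_ ?_ ?_ ?_
  · intro s v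
    rw [om_apply]
    unfold th
    rw [hq.sum, Matrix.mul_sum, Matrix.sum_mulVec]
    rfl
  · intro c _ c' _ hne s t v
    simp only [mulVecLin_apply, mulVec_mulVec]
    have h1 := hq.cross h hf hne t
    have h2 : B * E K arm s * (gᵀ * J * ((q c).1 * g)) *
        (B * E K arm t * (gᵀ * J * ((q c').1 * g))) = 0 := by
      rw [← h.data.B_arm t]
      calc B * E K arm s * (gᵀ * J * ((q c).1 * g)) *
            (E K arm t * B * (gᵀ * J * ((q c').1 * g)))
          = B * E K arm s * ((gᵀ * J * ((q c).1 * g)) * (E K arm t * B) *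
            (gᵀ * J * ((q c').1 * g))) := by simp only [Matrix.mul_assoc]
        _ = 0 := by rw [h1, Matrix.mul_zero]
    rw [h2, zero_mulVec]
  · intro c hc s t v
    simp only [mulVecLin_apply, mulVec_mulVec]
    rw [← smul_mulVec]
    congr 1
    rw [← h.data.B_arm t]
    calc B * E K arm s * X' * (E K arm t * B * (gᵀ * J * ((q c).1 * g)))
        = B * E K arm s * (X' * (E K arm t * B) * (gᵀ * J * ((q c).1 * g))) := by
          simp only [Matrix.mul_assoc]
      _ = _ := by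
          rw [hX c hc t, Matrix.mul_smul]
          simp only [Matrix.mul_assoc]
  · intro c hc hk s v
    simp only [mulVecLin_apply]
    rw [hκ c hc hk, Matrix.mul_zero, zero_mulVec]

/-- the derived relation on the range of one form -/
theorem der_form (hq : Spec arm J N g f p.1 S q) (h : Ctx k arm J B N W g) (hf : f ∈ N ⊓ W)
    (d : Derivation k K K) {A : Matrix ι δ K} (hAg : Aᵀ * J * g = 0) (hAf : Aᵀ * J * f = 0)
    (c : K) (s : Fin 3) :
    (Aᵀ * J * f.map d) * (E K arm s * B) * (gᵀ * J * ((q c).1 * g)) =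
      c • ((Aᵀ * J * g.map d) * (E K arm s * B) * (gᵀ * J * ((q c).1 * g))) := by
  have h1 := congrArg (fun X => (Aᵀ * J * X * (J * ((q c).1 * g)))) (UFr.symm_der h hf d s)
  have e1 : Aᵀ * J * (f.map d * E K arm s * B * gᵀ + f * E K arm s * B * (g.map d)ᵀ) *
      (J * ((q c).1 * g)) = (Aᵀ * J * f.map d) * (E K arm s * B) * (gᵀ * J * ((q c).1 * g)) := by
    have e0 : Aᵀ * J * (f * E K arm s * B * (g.map d)ᵀ) = 0 := by
      calc Aᵀ * J * (f * E K arm s * B * (g.map d)ᵀ)
          = (Aᵀ * J * f) * (E K arm s * B * (g.map d)ᵀ) := by simp only [Matrix.mul_assoc]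
        _ = 0 := by rw [hAf, Matrix.zero_mul]
    rw [Matrix.mul_add, e0, add_zero]
    simp only [Matrix.mul_assoc]
  have e2 : Aᵀ * J * (g.map d * E K arm s * B * fᵀ + g * E K arm s * B * (f.map d)ᵀ) *
      (J * ((q c).1 * g)) =
      (Aᵀ * J * g.map d) * (E K arm s * B) * (fᵀ * (J * (q c).1) * g) := by
    have e0 : Aᵀ * J * (g * E K arm s * B * (f.map d)ᵀ) = 0 := by
      calc Aᵀ * J * (g * E K arm s * B * (f.map d)ᵀ)
          = (Aᵀ * J * g) * (E K arm s * B * (f.map d)ᵀ) := by simp only [Matrix.mul_assoc]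
        _ = 0 := by rw [hAg, Matrix.zero_mul]
    rw [Matrix.mul_add, e0, add_zero]
    simp only [Matrix.mul_assoc]
  rw [e1, e2, hq.flip h.data.J_symm c, Matrix.mul_smul] at h1
  exact h1

/-- **one step**: the form of `g' = g + σ f` on the ranges of the forms at `g`. -/
theorem step (hq : Spec arm J N g f p.1 S q) (h : Ctx k arm J B N W g) (hf : f ∈ N ⊓ W)
    (hff : fᵀ * J * f = 0) (hp : p ∈ NN arm J N g) {σ : k} {dY : Derivation k K K}
    (hd : (g + (algebraMap k K σ) • f)ᵀ * J * g.map dY =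
      (g + (algebraMap k K σ) • f)ᵀ * J * (p.1 * g)) {c : K} (hc : c ∈ S) (s : Fin 3) :
    ((g + (algebraMap k K σ) • f)ᵀ * J * (g + (algebraMap k K σ) • f).map dY) *
        (E K arm s * B) * (gᵀ * J * ((q c).1 * g)) =
      ((1 + algebraMap k K σ * c) ^ 2) • ((gᵀ * J * ((q c).1 * g)) * (E K arm s * B) *
        (gᵀ * J * ((q c).1 * g))) := by
  set a : K := algebraMap k K σ with ha
  set T : K → Matrix δ δ K := fun c => gᵀ * J * ((q c).1 * g) with hT
  have hgg : gᵀ * J * g = 0 := h.perp g h.mem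
  have hgf : gᵀ * J * f = 0 := h.perp f hf
  have hfg : fᵀ * J * g = 0 := by
    have := congrArg transpose hgf
    rw [transpose_mul, transpose_mul, transpose_transpose, h.data.J_symm, transpose_zero,
      ← Matrix.mul_assoc] at this
    exact this
  have hA : ∀ x : Matrix ι δ K, gᵀ * J * x = 0 → fᵀ * J * x = 0 → (g + a • f)ᵀ * J * x = 0 := by
    intro x h1 h2
    rw [transpose_add, transpose_smul, Matrix.add_mul, Matrix.add_mul, Matrix.smul_mul,
      Matrix.smul_mul, h1, h2, smul_zero, add_zero]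
  have h1 := der_form hq h hf dY (hA g hgg hfg) (hA f hgf hff) c s
  have hfl : fᵀ * J * (p.1 * g) = gᵀ * J * (p.1 * f) := SUX.th_flip h hp hf
  have e1 : (g + a • f)ᵀ * J * (p.1 * g) = ∑ c' ∈ S, (1 + a * c') • T c' := by
    rw [transpose_add, transpose_smul, Matrix.add_mul, Matrix.add_mul, Matrix.smul_mul,
      Matrix.smul_mul, hfl, hq.sum, hq.sumf, Finset.smul_sum, ← Finset.sum_add_distrib]
    exact Finset.sum_congr rfl fun c' _ => by rw [smul_smul, add_smul, one_smul]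
  have e2 : (g + a • f)ᵀ * J * (p.1 * g) * (E K arm s * B) * T c =
      (1 + a * c) • (T c * (E K arm s * B) * T c) := by
    rw [e1, Matrix.sum_mul, Matrix.sum_mul, Finset.sum_eq_single c]
    · rw [Matrix.smul_mul, Matrix.smul_mul]
    · intro c' _ hne
      rw [Matrix.smul_mul, Matrix.smul_mul, hq.cross h hf hne s, smul_zero]
    · intro hc'; exact absurd hc hc'
  have e3 : (g + a • f).map dY = g.map dY + a • f.map dY := map_add_const dY σ g f
  rw [e3, Matrix.mul_add, Matrix.mul_smul, Matrix.add_mul, Matrix.add_mul, Matrix.smul_mul,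
    Matrix.smul_mul, h1, hd, e2, smul_smul, smul_smul, ← add_smul]
  congr 1
  ring

/-- **the eigenvalue `1/t` of `f` does not occur at `H_t`**, for almost all `t`. -/
theorem no_eig (h2 : (2 : K) ≠ 0) (hCtx : ∀ g ∈ Kiso J N W, Ctx k arm J B N W g)
    (hNm : ∀ F, (∀ F' ∈ N, pair J B F' F = 0) → F ∈ N)
    (hWm : ∀ F, (∀ F' ∈ W, pair J B F' F = 0) → F ∈ W)
    (hF : F ∈ Kiso J N W) (hf : f ∈ Kiso J N W)
    (hV1 : ∀ w ∈ Kiso J N W, ∃ d : Derivation k K K, F.map d = w ∧ f.map d = 0 ∧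
      Realises arm N W (0 : Fin 3 → Matrix ι ι K) (0 : Matrix δ δ K) d) :
    ∃ Bad : Set k, Bad.Finite ∧ ∀ t ∉ Bad, ∀ q' ∈ NN arm J N (F + (algebraMap k K t) • f), ∀ c : K,
      (F + (algebraMap k K t) • f)ᵀ * J * (q'.1 * f) =
        c • ((F + (algebraMap k K t) • f)ᵀ * J * (q'.1 * (F + (algebraMap k K t) • f))) →
      1 - algebraMap k K t * c = 0 →
      (F + (algebraMap k K t) • f)ᵀ * J * (q'.1 * (F + (algebraMap k K t) • f)) = 0 := by
  have hCF := hCtx F hF
  have hD := hCF.data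
  obtain ⟨R, hR⟩ := Tan.exists_ginv F
  obtain ⟨Tf, -, hTf⟩ := exists_step hCF hR hf.1
  have hfin : {c : K | Tf.HasEigenvalue c}.Finite := Module.End.finite_hasEigenvalue Tf
  have hinj : Function.Injective fun t : k => -(algebraMap k K t)⁻¹ := by
    intro a b hab
    exact (algebraMap k K).injective (inv_injective (neg_injective hab))
  refine ⟨insert 0 ((fun t : k => -(algebraMap k K t)⁻¹) ⁻¹' {c : K | Tf.HasEigenvalue c}),
    (hfin.preimage hinj.injOn).insert 0, ?_⟩
  intro t ht q' hq' c he h1c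
  rw [Set.mem_insert_iff, not_or] at ht
  obtain ⟨ht0, ht1⟩ := ht
  set τ : K := algebraMap k K t with hτ
  have hτ0 : τ ≠ 0 := fun h => ht0 ((map_eq_zero _).1 h)
  have hHK : F + τ • f ∈ Kiso J N W := (Kiso J N W).add_mem hF ((Kiso J N W).smul_mem τ hf)
  have hCH := hCtx _ hHK
  obtain ⟨Y', d', -, hr, hform⟩ := exists_Y hCH h2 hq'
  obtain ⟨p', hp', -, hpf⟩ := exists_NN' hCH hr
  have hz : (F + τ • f)ᵀ * J * ((p' - q').1 * (F + τ • f)) = 0 := by
    rw [Prod.fst_sub, Matrix.sub_mul, Matrix.mul_sub, hpf _ hCH.mem, hform, sub_self]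
  have hz2 : ∀ f' ∈ N ⊓ W, (F + τ • f)ᵀ * J * f'.map d' = (F + τ • f)ᵀ * J * (q'.1 * f') := by
    intro f' hf'
    have h3 := hCH.tf_zero hf' ((NN arm J N (F + τ • f)).sub_mem hp' hq') hz
    rw [Prod.fst_sub, Matrix.sub_mul, Matrix.mul_sub, hpf f' hf', sub_eq_zero] at h3
    exact h3
  have hHF : (F + τ • f)ᵀ * J * F.map d' = 0 := by
    rw [hz2 F hF.1]
    have e : q'.1 * F = q'.1 * (F + τ • f) - τ • (q'.1 * f) := by
      rw [Matrix.mul_add, Matrix.mul_smul]; abel
    rw [e, Matrix.mul_sub, Matrix.mul_smul, he, smul_smul, ← one_smul K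
      ((F + τ • f)ᵀ * J * (q'.1 * (F + τ • f))), smul_smul, mul_one, ← sub_smul, h1c, zero_smul]
  have hFH : Fᵀ * J * (F + τ • f) = 0 := hF.2 _ hHK.1
  have hFH' : Fᵀ * J * (F + τ • f).map d' = 0 := by
    have := Om.Om_transpose hD d' hFH
    unfold Om at this
    rw [hHF, transpose_zero, neg_zero] at this
    exact this
  obtain ⟨p0, hp0, -, hp0f⟩ := exists_NN' hCF hr
  have hpH : Fᵀ * J * (p0.1 * F) + τ • (Fᵀ * J * (p0.1 * f)) = 0 := by
    rw [← Matrix.mul_smul, ← Matrix.mul_smul, ← Matrix.mul_add, ← Matrix.mul_add,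
      hp0f _ hHK.1, hFH']
  let φ : Xi J N arm F := ⟨Fᵀ * J * (p0.1 * F), ⟨⟨p0, hp0⟩, rfl⟩⟩
  have hφ : ((Tf φ : Xi J N arm F) : Matrix δ δ K) = Fᵀ * J * (p0.1 * f) :=
    hTf φ ⟨p0, hp0⟩ rfl
  have hφ0 : φ = 0 := by
    by_contra hne
    apply ht1
    change Tf.HasEigenvalue (-(τ)⁻¹)
    refine Module.End.hasEigenvalue_of_hasEigenvector (x := φ) ⟨?_, hne⟩
    rw [Module.End.mem_eigenspace_iff]
    apply Subtype.ext
    rw [hφ, Submodule.coe_smul]
    change _ = -τ⁻¹ • (Fᵀ * J * (p0.1 * F))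
    have h4 : Fᵀ * J * (p0.1 * F) = -(τ • (Fᵀ * J * (p0.1 * f))) := eq_neg_of_add_eq_zero_left hpH
    rw [h4, smul_neg, neg_smul, neg_neg, smul_smul, inv_mul_cancel₀ hτ0, one_smul]
  have hz3 : Fᵀ * J * (p0.1 * F) = 0 := congrArg (fun x : Xi J N arm F => (x : Matrix δ δ K)) hφ0
  have hFF : Fᵀ * J * F.map d' = 0 := by rw [← hp0f F hF.1, hz3]
  have hFf : Fᵀ * J * f.map d' = 0 := by
    rw [← hp0f f hf.1]; exact hCF.tf_zero hf.1 hp0 hz3
  have hfF : fᵀ * J * F.map d' = 0 := by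
    have := Om.Om_transpose hD d' (hf.2 F hF.1)
    unfold Om at this
    rw [hFf, transpose_zero, neg_zero] at this
    exact this
  have hFN : F.map d' ∈ N := by
    have := hr.onN F hF.1.1
    rwa [act_zero, sub_zero] at this
  have hfN : f.map d' ∈ N := by
    have := hr.onN f hf.1.1
    rwa [act_zero, sub_zero] at this
  have hff : fᵀ * J * f.map d' = 0 := by
    obtain ⟨d1, dF1, df1, hd1⟩ := hV1 f hf
    have := fb_zero hCF hNm hWm hf dF1 df1 hd1 (α := F.map d' - F * Y'ᵀ)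
      (β := f.map d' - f * Y'ᵀ) (ν := F.map d') (ν' := f.map d') (C := -Y'ᵀ)
      (hr.onW F hF.1.2) hFN (by rw [Matrix.mul_neg, sub_eq_add_neg]) (hr.onW f hf.1.2) hfN
      (by rw [Matrix.mul_neg, sub_eq_add_neg])
      (by rw [Matrix.mul_sub, hFF, ← Matrix.mul_assoc, hF.2 F hF.1, Matrix.zero_mul, sub_self])
    rw [Matrix.mul_sub, ← Matrix.mul_assoc _ f, hf.2 f hf.1, Matrix.zero_mul, sub_zero] at this
    exact this
  rw [← hform, map_add_const, Matrix.mul_add, Matrix.mul_smul]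
  rw [transpose_add, transpose_smul, Matrix.add_mul, Matrix.add_mul, Matrix.smul_mul,
    Matrix.smul_mul, Matrix.add_mul, Matrix.smul_mul, hFF, hfF, hFf, hff]
  simp

/-- **`Ainf (ω at (H_t, P_t)) = Ainf (ω at (F, P))`** for almost all `t`. -/
theorem ainf_eq [IsAlgClosed K] (h2 : (2 : K) ≠ 0) (hCtx : ∀ g ∈ Kiso J N W, Ctx k arm J B N W g)
    (hNm : ∀ F, (∀ F' ∈ N, pair J B F' F = 0) → F ∈ N)
    (hWm : ∀ F, (∀ F' ∈ W, pair J B F' F = 0) → F ∈ W)
    (hNil : ∀ g ∈ Kiso J N W, NilW arm J B N g)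
    (hF : F ∈ Kiso J N W) (hf : f ∈ Kiso J N W)
    (hV1 : ∀ w ∈ Kiso J N W, ∃ d : Derivation k K K, F.map d = w ∧ f.map d = 0 ∧
      Realises arm N W (0 : Fin 3 → Matrix ι ι K) (0 : Matrix δ δ K) d)
    {P : Matrix ι ι K × (Fin 3 → Matrix ι ι K)} (hP : P ∈ NN arm J N F)
    {dY : Derivation k K K} (hform : Fᵀ * J * F.map dY = Fᵀ * J * (P.1 * F)) :
    ∃ Bad : Set k, Bad.Finite ∧ ∀ t ∉ Bad, ∀ Pt ∈ NN arm J N (F + (algebraMap k K t) • f),
      (∀ f' ∈ N ⊓ W, (F + (algebraMap k K t) • f)ᵀ * J * (Pt.1 * f') =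
        (F + (algebraMap k K t) • f)ᵀ * J * f'.map dY) →
      (F + (algebraMap k K t) • f)ᵀ * J * (Pt.1 * F) =
        (F + (algebraMap k K t) • f)ᵀ * J * (P.1 * F) →
      Ainf (om arm J B (F + (algebraMap k K t) • f) Pt.1 (F + (algebraMap k K t) • f)) =
        Ainf (om arm J B F P.1 F) := by
  have hCF := hCtx F hF
  have hD := hCF.data
  obtain ⟨Bad, hBad, hno⟩ := no_eig h2 hCtx hNm hWm hF hf hV1
  obtain ⟨R, hR⟩ := Tan.exists_ginv F
  obtain ⟨S, q, hq⟩ := exists_spec hCF hR (hNil F hF) hP hf.1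
  have hinj : Function.Injective fun t : k => -(algebraMap k K t)⁻¹ := by
    intro a b hab
    exact (algebraMap k K).injective (inv_injective (neg_injective hab))
  refine ⟨Bad ∪ (fun t : k => -(algebraMap k K t)⁻¹) ⁻¹' (S : Set K),
    hBad.union (S.finite_toSet.preimage hinj.injOn), ?_⟩
  intro t ht Pt hPt hY hPF
  rw [Set.mem_union, not_or] at ht
  obtain ⟨ht1, ht2⟩ := ht
  have hno' := hno t ht1
  set τ : K := algebraMap k K t with hτ
  have hHK : F + τ • f ∈ Kiso J N W := (Kiso J N W).add_mem hF ((Kiso J N W).smul_mem τ hf)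
  have hCH := hCtx _ hHK
  have hback : F + τ • f + (algebraMap k K (-t)) • f = F := by
    rw [map_neg, ← hτ, neg_smul]; abel
  refine le_antisymm ?_ ?_
  · obtain ⟨RH, hRH⟩ := Tan.exists_ginv (F + τ • f)
    obtain ⟨S', q', hq'⟩ := exists_spec hCH hRH (hNil _ hHK) hPt hf.1
    have hd : (F + τ • f + (algebraMap k K (-t)) • f)ᵀ * J * (F + τ • f).map dY =
        (F + τ • f + (algebraMap k K (-t)) • f)ᵀ * J * (Pt.1 * (F + τ • f)) := by
      rw [hback]
      have h3 := Om.Om_transpose hD dY (hF.2 _ hHK.1)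
      unfold Om at h3
      rw [h3, ← hY F hF.1]
      have h4 := hPt.1.eq
      rw [transpose_mul, transpose_mul, transpose_mul, transpose_transpose, hD.J_symm]
      calc -(Fᵀ * Pt.1ᵀ * (J * (F + τ • f))) = -(Fᵀ * (Pt.1ᵀ * J) * (F + τ • f)) := by
            simp only [Matrix.mul_assoc]
        _ = _ := by
            rw [h4, Matrix.mul_neg, Matrix.neg_mul, neg_neg]
            simp only [Matrix.mul_assoc]
    have h5 := ainf_le hq' hCH hf.1 (X' := (F + τ • f + (algebraMap k K (-t)) • f)ᵀ * J *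
        (F + τ • f + (algebraMap k K (-t)) • f).map dY)
      (κ := fun c => (1 + algebraMap k K (-t) * c) ^ 2)
      (fun c hc s => step hq' hCH hf.1 (hf.2 f hf.1) hPt hd hc s)
      (fun c _ hk => hno' _ (hq'.mem c) c (hq'.eig c) (by
        have := pow_eq_zero_iff (two_ne_zero) |>.1 hk
        rw [map_neg, ← hτ, neg_mul] at this
        rw [sub_eq_add_neg]; exact this))
    rw [hback, hform] at h5
    exact h5
  · have hd : (F + τ • f)ᵀ * J * F.map dY = (F + τ • f)ᵀ * J * (P.1 * F) := by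
      rw [← hY F hF.1, hPF]
    have h5 := ainf_le hq hCF hf.1 (X' := (F + τ • f)ᵀ * J * (F + τ • f).map dY)
      (κ := fun c => (1 + τ * c) ^ 2)
      (fun c hc s => step hq hCF hf.1 (hf.2 f hf.1) hP hd hc s)
      (fun c hc hk => by
        exfalso
        apply ht2
        have h6 : 1 + τ * c = 0 := pow_eq_zero_iff (two_ne_zero) |>.1 hk
        have hτ0 : τ ≠ 0 := by
          intro h0; rw [h0, zero_mul, add_zero] at h6; exact one_ne_zero h6
        change -(τ)⁻¹ ∈ (S : Set K)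
        have h7 : c = -τ⁻¹ := by
          field_simp
          rw [mul_comm]
          exact eq_neg_of_add_eq_zero_right h6
        rw [← h7]; exact hc)
    rw [← hY _ hHK.1] at h5
    exact h5

end Crest.Agent.R172.SInf659
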