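import Crest.Agent.R172.SUXF
import Crest.Agent.R172.SUB

/-!
Row 172 (S0260), S-side (t2), level 2: the corrections `β`, `γ` descend modulo `P_1 ∩ P_2`:
`F U2 κ = 0` implies `F U1 β κ ∈ F U2` (from `H ∇(U2 κ) = d (H U2 κ) = 0`), and the same for `γ`.
-/

set_option autoImplicit false
set_option linter.unusedSectionVars false
set_option linter.unusedFintypeInType false
set_option linter.unusedDecidableInType false

namespace Crest.Agent.R172.SKer826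

open Matrix Module Crest.Agent.R172.FO Crest.Agent.R172.Qt Crest.Agent.R172.SpS
  Crest.Agent.R172.Om Crest.Agent.R172.SUX Crest.Agent.R172.SUB

variable {ι : Type*} [Fintype ι] [DecidableEq ι] {δ : Type*} [Fintype δ] [DecidableEq δ]
variable {k K : Type*} [Field k] [Field K] [Algebra k K]
variable {arm : δ → Fin 3} {J : Matrix ι ι K} {B : Matrix δ δ K}
  {N W : Submodule K (Matrix ι δ K)} {H F : Matrix ι δ K}
variable {n1 n2 : Type*} [Fintype n1] [Fintype n2]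
variable {P : Matrix ι ι K × (Fin 3 → Matrix ι ι K)} {S0 : Matrix δ δ K} {c1 c2 : K}
  {U1 : Matrix δ n1 K} {U2 : Matrix δ n2 K} {Y : Fin 3 → Matrix δ δ K} {d : Derivation k K K}
  {Γ1 : Matrix n1 n1 K} {Γ2 : Matrix n2 n2 K} {β : Matrix n1 n2 K} {γ : Matrix n2 n1 K}

/-- descent of `β` (only `H * (..)` of the frame relation is used) -/
theorem hker (m : Mv k arm J N W H P.1 Y d) (fr : Fr J F H P.1 S0 c1 c2 U1 U2)
    (hN2 : H * (U2.map d + ZY arm J H P.1 Y * U2) = H * (U2 * Γ2 + c2 ^ 2 • (U1 * β)))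
    (κ : n2 → K) (h0 : F *ᵥ (U2 *ᵥ κ) = 0) :
    ∃ κ2 : n2 → K, F *ᵥ (U1 *ᵥ (β *ᵥ κ)) = F *ᵥ (U2 *ᵥ κ2) := by
  have hv : ∀ u : n2 → K, H *ᵥ (U2 *ᵥ u) = c2 • F *ᵥ (U2 *ᵥ u) := by
    intro u
    rw [mulVec_mulVec, fr.H2, smul_mulVec, mulVec_mulVec]
  have hv1 : ∀ u : n1 → K, H *ᵥ (U1 *ᵥ u) = c1 • F *ᵥ (U1 *ᵥ u) := by
    intro u
    rw [mulVec_mulVec, fr.H1, smul_mulVec, mulVec_mulVec]
  have hH0 : H *ᵥ (U2 *ᵥ κ) = 0 := by rw [hv, h0, smul_zero]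
  have e1 := H_nab m (U2 *ᵥ κ)
  rw [hH0] at e1
  have e2 : dv d (0 : ι → K) = 0 := by funext i; simp [dv]
  rw [e2] at e1
  have e3 : nab arm J H P.1 Y d (U2 *ᵥ κ) =
      (U2.map d + ZY arm J H P.1 Y * U2) *ᵥ κ + U2 *ᵥ dv d κ := by
    unfold nab
    rw [dv_mulVec, add_mulVec, mulVec_mulVec]
    abel
  rw [e3, mulVec_add, mulVec_mulVec, hN2, ← mulVec_mulVec, add_mulVec, smul_mulVec, mulVec_add,
    mulVec_smul, ← mulVec_mulVec, ← mulVec_mulVec, hv, hv, hv1] at e1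
  have hc : c2 ^ 2 * c1 ≠ 0 := mul_ne_zero (pow_ne_zero _ fr.hc2) fr.hc1
  refine ⟨-((c2 ^ 2 * c1)⁻¹ • c2 • (Γ2 *ᵥ κ + dv d κ)), ?_⟩
  have e4 : (c2 ^ 2 * c1) • (F *ᵥ (U1 *ᵥ (β *ᵥ κ))) =
      -(c2 • F *ᵥ (U2 *ᵥ (Γ2 *ᵥ κ + dv d κ))) := by
    rw [mulVec_add, mulVec_add, smul_add, eq_neg_iff_add_eq_zero, mul_smul, e1]
    abel
  have e5 : F *ᵥ (U1 *ᵥ (β *ᵥ κ)) =
      (c2 ^ 2 * c1)⁻¹ • ((c2 ^ 2 * c1) • (F *ᵥ (U1 *ᵥ (β *ᵥ κ)))) := by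
    rw [smul_smul, inv_mul_cancel₀ hc, one_smul]
  rw [e5, e4, mulVec_neg, mulVec_neg, mulVec_smul, mulVec_smul, mulVec_smul, mulVec_smul, smul_neg]

/-- descent of `γ` -/
theorem hker' (m : Mv k arm J N W H P.1 Y d) (fr : Fr J F H P.1 S0 c1 c2 U1 U2)
    (hN1 : H * (U1.map d + ZY arm J H P.1 Y * U1) = H * (U1 * Γ1 + c1 ^ 2 • (U2 * γ)))
    (κ : n1 → K) (h0 : F *ᵥ (U1 *ᵥ κ) = 0) :
    ∃ κ2 : n1 → K, F *ᵥ (U2 *ᵥ (γ *ᵥ κ)) = F *ᵥ (U1 *ᵥ κ2) :=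
  hker m fr.symm hN1 κ h0

end Crest.Agent.R172.SKer826
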