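import Crest.Agent.R172.SNab934
import Crest.Agent.R172.UFr
import Crest.Agent.R172.SUB
import Crest.Agent.R172.QBlk
import Crest.Agent.R172.SBad97

/-!
Row 172 (S0260), S-side (t2), node L2-c / B1 (helper934): the block structure of the connection
`nab` of a move at `(H_t, P_t)`, `H_t = g + t f`, in `K^δ`.
-/

set_option autoImplicit false
set_option linter.unusedSectionVars false
set_option linter.unusedVariables false

namespace Crest.Agent.R172.SNabI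

open Module
open Crest.Agent.R172.St (Nk T mem_T mem_Nk_zero mem_Nk_succ Nk_le_T T_stable T_closed T_eq_Nk)
open Crest.Agent.R172.PL (Wk Ainf Rad CoreM coreOp resOp Ainf_exists Ainf_le_Wk Ainf_stable
  Ainf_eq_Wk coreOp_mk)
open Crest.Agent.R172.SC (PB PB_mem PB_exists PB_stable PB_le_Ainf PB_surj iSup_PB mk_zero_iff)
open Crest.Agent.R172.SNab

section hom

variable {K : Type*} [Field K] {X : Type*} [AddCommGroup X] [Module K X] [FiniteDimensional K X]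
  {a : Fin 3 → End K X} {D : End K (CoreM a)}

/-- **for almost all `t` the twisted Hom's vanish.** -/
theorem exists_hom0 (h2 : (2 : K) ≠ 0) (hD : ∀ s x, D (coreOp a s x) = coreOp a s (D x))
    (hs : ⨆ ν, D.maxGenEigenspace ν = ⊤) :
    ∃ S : Set K, S.Finite ∧ ∀ t ∉ S, (∀ ν, D.maxGenEigenspace ν ≠ ⊥ → 1 + t * ν ≠ 0) ∧
      Hom0 a D (fun ν => (1 + t * ν) ^ 2) := by
  classical
  have hE : {ν | D.maxGenEigenspace ν ≠ ⊥}.Finite :=
    WellFoundedGT.finite_ne_bot_of_iSupIndep (Module.End.independent_maxGenEigenspace D)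
  let α : ∀ ν : K, Fin 3 → End K (D.maxGenEigenspace ν) := fun ν r =>
    (coreOp a r).restrict (fun v hv => Core.gen_stable (hD r) ν v hv)
  let Bad : K → K → Set K := fun lam mu => {c | ∃ x : D.maxGenEigenspace lam →ₗ[K]
    D.maxGenEigenspace mu, x ≠ 0 ∧ ∀ s, x ∘ₗ α lam s = c • (α mu s ∘ₗ x)}
  have hperf : ∀ lam, ⨆ s, LinearMap.range (α lam s) = ⊤ := by
    intro lam
    rw [eq_top_iff]
    rintro ⟨m, hm⟩ -
    obtain ⟨f, hf, hfm⟩ := SC.gen_perfect hD hs lam m hm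
    have h3 : (⟨m, hm⟩ : D.maxGenEigenspace lam) = ∑ s, α lam s ⟨f s, hf s⟩ := by
      apply Subtype.ext
      rw [Submodule.coe_sum]
      exact hfm.symm
    rw [h3]
    exact Submodule.sum_mem _ fun s _ => Submodule.mem_iSup_of_mem s ⟨_, rfl⟩
  have hBad : ∀ lam mu, (Bad lam mu).Finite := fun lam mu =>
    QBlk.twist_finite (α mu) (hperf lam)
  let S1 : Set K := ⋃ ν ∈ {ν | D.maxGenEigenspace ν ≠ ⊥}, {t | 1 + t * ν = 0}
  let S2 : Set K := ⋃ lam ∈ {ν | D.maxGenEigenspace ν ≠ ⊥},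
    ⋃ mu ∈ {ν | D.maxGenEigenspace ν ≠ ⊥}, ⋃ c ∈ Bad lam mu,
      {t | lam ≠ mu ∧ 1 + t * lam ≠ 0 ∧ -((1 + t * mu) ^ 2 / (1 + t * lam) ^ 2) = -c}
  refine ⟨S1 ∪ S2, ?_, ?_⟩
  · refine Set.Finite.union (hE.biUnion fun ν _ => ?_) (hE.biUnion fun lam _ =>
      hE.biUnion fun mu _ => (hBad lam mu).biUnion fun c _ => ?_)
    · refine Set.Subsingleton.finite ?_
      intro s hs' t ht
      have e1 : 1 + s * ν = 0 := hs'
      have e2 : 1 + t * ν = 0 := ht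
      have hν : ν ≠ 0 := by
        rintro rfl
        rw [mul_zero, add_zero] at e1
        exact one_ne_zero e1
      have e3 : (s - t) * ν = 0 := by linear_combination e1 - e2
      exact sub_eq_zero.1 ((mul_eq_zero.1 e3).resolve_right hν)
    · by_cases hlm : lam = mu
      · refine Set.Finite.subset Set.finite_empty ?_
        rintro t ⟨h1, -⟩
        exact absurd hlm h1
      · refine (SBad97.ratio_finite hlm h2 (-c)).subset ?_
        rintro t ⟨-, h1, h3⟩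
        exact ⟨h1, h3⟩
  · intro t ht
    have ht1 : ∀ ν, D.maxGenEigenspace ν ≠ ⊥ → 1 + t * ν ≠ 0 := by
      intro ν hν h0
      exact ht (Or.inl (Set.mem_biUnion (x := ν) hν h0))
    refine ⟨ht1, ?_⟩
    intro lam mu hne x hx
    by_cases hl : D.maxGenEigenspace lam = ⊥
    · apply LinearMap.ext
      intro v
      have hv : v = 0 := Subtype.ext ((Submodule.eq_bot_iff _).1 hl _ v.2)
      rw [hv, map_zero, map_zero]
    by_cases hm : D.maxGenEigenspace mu = ⊥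
    · apply LinearMap.ext
      intro v
      exact Subtype.ext ((Submodule.eq_bot_iff _).1 hm _ (x v).2)
    by_contra hx0
    refine ht (Or.inr ?_)
    refine Set.mem_biUnion (x := lam) hl (Set.mem_biUnion (x := mu) hm ?_)
    refine Set.mem_biUnion (x := (1 + t * mu) ^ 2 / (1 + t * lam) ^ 2) ?_ ⟨hne, ht1 lam hl, rfl⟩
    refine ⟨x, hx0, fun s => ?_⟩
    apply LinearMap.ext
    intro v
    apply Subtype.ext
    have h3 := hx s v (α lam s v) rfl
    have h4 : (1 + t * lam) ^ 2 ≠ 0 := pow_ne_zero _ (ht1 lam hl)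
    change ((x (α lam s v) : D.maxGenEigenspace mu) : CoreM a) =
      ((1 + t * mu) ^ 2 / (1 + t * lam) ^ 2) • coreOp a s (x v : D.maxGenEigenspace mu)
    rw [div_eq_inv_mul, mul_smul, ← h3, smul_smul, inv_mul_cancel₀ h4, one_smul]

end hom

section inst

open Matrix Crest.Agent.R172.FO Crest.Agent.R172.Qt Crest.Agent.R172.SpS Crest.Agent.R172.SBlk
open Crest.Agent.R172.SUX (th Mv ZY)
open Crest.Agent.R172.UBlk (om om_eq om_apply cov Qb Qb_stable Qb_exists Qb_rel Qb_orth form_skew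
  iSup_Qb)
open Crest.Agent.R172.UFr (Cq)

variable {ι : Type*} [Fintype ι] [DecidableEq ι] {δ : Type*} [Fintype δ] [DecidableEq δ]
variable {k K : Type*} [Field k] [Field K] [Algebra k K]
variable {arm : δ → Fin 3} {J : Matrix ι ι K} {B : Matrix δ δ K}
  {N W : Submodule K (Matrix ι δ K)} {g f : Matrix ι δ K}
  {p : Matrix ι ι K × (Fin 3 → Matrix ι ι K)}

/-- `uᵀ S0 (ω_r v) = -(ω_r u)ᵀ S0 v` -/
theorem om_skew (h : Ctx k arm J B N W g) (hp : p ∈ NN arm J N g) (r : Fin 3) (u v : δ → K) :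
    u ⬝ᵥ ((gᵀ * J * (p.1 * g)) *ᵥ (om arm J B g p.1 g r v)) =
      -((om arm J B g p.1 g r u) ⬝ᵥ ((gᵀ * J * (p.1 * g)) *ᵥ v)) := by
  have hs := form_skew h.data.J_symm hp
  have hb := h.data.B_arm r
  have hB := h.data.B_symm
  have e1 : om arm J B g p.1 g r u = (B * E K arm r * (gᵀ * J * (p.1 * g))) *ᵥ u := rfl
  have e2 : om arm J B g p.1 g r v = (B * E K arm r * (gᵀ * J * (p.1 * g))) *ᵥ v := rfl
  rw [e1, e2]
  obtain ⟨S0, hS0⟩ : ∃ S0, S0 = gᵀ * J * (p.1 * g) := ⟨_, rfl⟩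
  rw [← hS0] at hs ⊢
  have e3 : (B * E K arm r * S0)ᵀ * S0 = -(S0 * (B * E K arm r * S0)) := by
    rw [transpose_mul, transpose_mul, hs, E_transpose, hB, ← hb]
    simp only [Matrix.neg_mul, Matrix.mul_assoc]
  rw [mulVec_mulVec, ← vecMul_transpose ((B * E K arm r * S0)) u, ← dotProduct_mulVec,
    mulVec_mulVec, e3, neg_mulVec, dotProduct_neg, neg_neg]

/-- the radical of the core is orthogonal to `Ainf` -/
theorem T_orth (h : Ctx k arm J B N W g) (hp : p ∈ NN arm J N g) {r : δ → K}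
    (hr : r ∈ T (om arm J B g p.1 g)) {u : δ → K} (hu : u ∈ Ainf (om arm J B g p.1 g)) :
    u ⬝ᵥ ((gᵀ * J * (p.1 * g)) *ᵥ r) = 0 := by
  obtain ⟨m, hm⟩ := mem_T.1 hr
  clear hr
  induction m generalizing r u with
  | zero => rw [mem_Nk_zero.1 hm, mulVec_zero, dotProduct_zero]
  | succ m ih =>
    obtain ⟨c, hc, rfl⟩ := Ainf_exists _ hu
    rw [sum_dotProduct]
    refine Finset.sum_eq_zero fun s _ => ?_
    have h1 := om_skew h hp s (c s) r
    rw [ih (hc s) (mem_Nk_succ.1 hm s)] at h1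
    exact neg_eq_zero.1 h1.symm

/-- vectors orthogonal to `Ainf` are nilpotent -/
theorem T_of_orth (h : Ctx k arm J B N W g) (hp : p ∈ NN arm J N g) {w : δ → K}
    (hw : ∀ v ∈ Ainf (om arm J B g p.1 g), v ⬝ᵥ ((gᵀ * J * (p.1 * g)) *ᵥ w) = 0) :
    w ∈ T (om arm J B g p.1 g) := by
  obtain ⟨m, hm, -⟩ := Ainf_eq_Wk (om arm J B g p.1 g)
  have key : ∀ j, ∀ w : δ → K, (∀ v ∈ Wk (om arm J B g p.1 g) j,
      v ⬝ᵥ ((gᵀ * J * (p.1 * g)) *ᵥ w) = 0) → w ∈ Nk (om arm J B g p.1 g) (j + 1) := by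
    intro j
    induction j with
    | zero =>
      intro w hw
      rw [mem_Nk_succ]
      intro s
      rw [mem_Nk_zero]
      have h0 : (gᵀ * J * (p.1 * g)) *ᵥ w = 0 := by
        funext i
        have := hw (Pi.single i 1) (Submodule.mem_top)
        rwa [single_one_dotProduct] at this
      change (B * E K arm s * (gᵀ * J * (p.1 * g))) *ᵥ w = 0
      rw [← mulVec_mulVec, h0, mulVec_zero]
    | succ j ih =>
      intro w hw
      rw [mem_Nk_succ]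
      intro s
      refine ih _ fun v hv => ?_
      have h1 := om_skew h hp s v w
      rw [h1, hw _ (Submodule.mem_iSup_of_mem s ⟨v, hv, rfl⟩), neg_zero]
  exact Nk_le_T _ _ (key m w (by rw [← hm]; exact hw))

/-- columns in a submodule -/
theorem mulVec_mem {Q : Submodule K (δ → K)} {n : Type*} [Fintype n] {U : Matrix δ n K}
    (hU : Cq Q U) (x : n → K) : U *ᵥ x ∈ Q := by
  have h1 : U *ᵥ x = ∑ j, x j • (fun d => U d j) := by
    funext d
    rw [Finset.sum_apply]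
    unfold Matrix.mulVec dotProduct
    exact Finset.sum_congr rfl fun j _ => by
      rw [Pi.smul_apply, smul_eq_mul, mul_comm]
  rw [h1]
  exact Submodule.sum_mem _ fun j _ => Submodule.smul_mem _ _ (hU j)

/-- the connection as an additive map -/
def nabH (arm : δ → Fin 3) (J : Matrix ι ι K) (H : Matrix ι δ K) (P : Matrix ι ι K)
    (Y : Fin 3 → Matrix δ δ K) (d : Derivation k K K) : (δ → K) →+ (δ → K) where
  toFun := SUB.nab arm J H P Y d
  map_zero' := SUB.nab_zero P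
  map_add' := SUB.nab_add P

@[simp] theorem nabH_apply (H : Matrix ι δ K) (P : Matrix ι ι K)
    (Y : Fin 3 → Matrix δ δ K) (d : Derivation k K K) (v : δ → K) :
    nabH arm J H P Y d v = SUB.nab arm J H P Y d v := rfl

section B1

variable (h : Ctx k arm J B N W g) {R : Matrix δ ι K} (hR : g * R * g = g)
  {D : End K (CoreM (Ph arm J B g R p.1))}
  (hD : IsD (Ph arm J B g R p.1) (Nh arm J B g f R p.1) D) [IsAlgClosed K]
  (hNil : NilW arm J B N g) (hp : p ∈ NN arm J N g) (hf : f ∈ N ⊓ W) (hff : fᵀ * J * f = 0)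
  {t : K} {Pt : Matrix ι ι K × (Fin 3 → Matrix ι ι K)} {dY : Derivation k K K}
  (hH : Ctx k arm J B N W (g + t • f)) (hPt : Pt ∈ NN arm J N (g + t • f))
  (hY : ∀ f' ∈ N ⊓ W, (g + t • f)ᵀ * J * (Pt.1 * f') = (g + t • f)ᵀ * J * f'.map dY)
  (hPF : (g + t • f)ᵀ * J * (Pt.1 * g) = (g + t • f)ᵀ * J * (p.1 * g))
  (hA : Ainf (om arm J B (g + t • f) Pt.1 (g + t • f)) ≤ Ainf (om arm J B g p.1 g))
  (hc : ∀ κ, ((cov h.data hR p.1).D D).maxGenEigenspace κ ≠ ⊥ → 1 + t * κ ≠ 0)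
  (hom : Hom0 (om arm J B g p.1 g) ((cov h.data hR p.1).D D) (fun κ => (1 + t * κ) ^ 2))
  {Y : Fin 3 → Matrix δ δ K} (hYs : ∀ r, (Y r)ᵀ = Y r) {d : Derivation k K K}
  (m : Mv k arm J N W (g + t • f) Pt.1 Y d)

include hD hNil hp hf hff hY hPF in
theorem S_H {κ : K} {u : δ → K} (hu : u ∈ Qb h.data hR p.1 D κ) :
    th J (g + t • f) Pt.1 (g + t • f) *ᵥ u =
      ((1 + t * κ) ^ 2) • ((gᵀ * J * (p.1 * g)) *ᵥ u) :=
  (UFr.at_H h hR hD hNil hp hf hff hY hPF hu).2.2.2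

include hD hNil hp hf hff hH hPt hY hPF hA hc hom hYs m in
theorem nb : NB (om arm J B g p.1 g) (om arm J B (g + t • f) Pt.1 (g + t • f))
    (fun r => (Y r * th J (g + t • f) Pt.1 (g + t • f)).mulVecLin)
    ((cov h.data hR p.1).D D) (fun κ => (1 + t * κ) ^ 2) (fun c => d c)
    (nabH arm J (g + t • f) Pt.1 Y d) where
  hD := (cov h.data hR p.1).D_comm hD.2
  hs := Module.End.iSup_maxGenEigenspace_eq_top _
  hsc := by
    intro κ u hu r
    have h1 := S_H h hR hD hNil hp hf hff hY hPF (κ := κ) (u := u) hu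
    change (B * E K arm r * th J (g + t • f) Pt.1 (g + t • f)) *ᵥ u =
      ((1 + t * κ) ^ 2) • ((B * E K arm r * (gᵀ * J * (p.1 * g))) *ᵥ u)
    rw [← mulVec_mulVec, h1, mulVec_smul, mulVec_mulVec]
  hsc0 := fun κ hκ => pow_ne_zero _ (hc κ hκ)
  ainf := hA
  hom := hom
  leib := fun c x => SUB.nab_smul Pt.1 c x
  rel := by
    intro r u
    have h1 := SUB.nab_om hH hPt hYs m r u
    change SUB.nab arm J (g + t • f) Pt.1 Y d (SUB.om arm J B (g + t • f) Pt.1 r *ᵥ u) = _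
    rw [h1, add_sub_assoc]
    rfl

variable {ν ν' : K} {n1 n2 : Type*} [Fintype n1] [Fintype n2] {U1 : Matrix δ n1 K}
  {U2 : Matrix δ n2 K} {A1 : Fin 3 → Matrix n1 n1 K} {A2 : Fin 3 → Matrix n2 n2 K}
  {X : Fin 3 → Matrix n2 n1 K}

include hD hNil hp hf in
theorem rows_zero {κ κ' : K} (hne : κ ≠ κ') {n : Type*} [Fintype n] {U : Matrix δ n K}
    (hU : Cq (Qb h.data hR p.1 D κ) U) {u : δ → K} (hu : u ∈ Qb h.data hR p.1 D κ') :
    Uᵀ *ᵥ ((gᵀ * J * (p.1 * g)) *ᵥ u) = 0 := by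
  funext i
  exact Qb_orth h hR hD hNil hp hf hne (hU i) hu

include hD hNil hp hf in
/-- a vector of the block orthogonal to its frame is nilpotent -/
theorem mem_T_of_frame {κ : K} {n : Type*} [Fintype n] {U : Matrix δ n K}
    (hU : Cq (Qb h.data hR p.1 D κ) U) (hs : ∀ u ∈ Qb h.data hR p.1 D κ, ∃ x, u = U *ᵥ x)
    {w : δ → K} (hw : w ∈ Qb h.data hR p.1 D κ)
    (h0 : Uᵀ *ᵥ ((gᵀ * J * (p.1 * g)) *ᵥ w) = 0) : w ∈ T (om arm J B g p.1 g) := by
  refine T_of_orth h hp fun v hv => ?_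
  rw [← iSup_Qb h hR hD] at hv
  induction hv using Submodule.iSup_induction' with
  | mem κ' v hv =>
    by_cases hk : κ' = κ
    · subst hk
      obtain ⟨x, rfl⟩ := hs v hv
      rw [← vecMul_transpose, ← dotProduct_mulVec, h0, dotProduct_zero]
    · exact Qb_orth h hR hD hNil hp hf hk hv hw
  | zero => rw [zero_dotProduct]
  | add x y _ _ hx hy => rw [add_dotProduct, hx, hy, add_zero]

include hD hNil hp hf hff hH hPt hY hPF hA hc hom hYs m in
/-- **(N3)**: third blocks -/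
theorem N3 (hU1 : Cq (Qb h.data hR p.1 D ν) U1) (hU2 : Cq (Qb h.data hR p.1 D ν') U2)
    (hYX : ∀ r, Y r = U2 * X r * U1ᵀ + U1 * (X r)ᵀ * U2ᵀ) {κ : K} (h1 : κ ≠ ν) (h2 : κ ≠ ν')
    {u : δ → K} (hu : u ∈ Qb h.data hR p.1 D κ) :
    SUB.nab arm J (g + t • f) Pt.1 Y d u ∈ Qb h.data hR p.1 D κ := by
  refine (nb h hR hD hNil hp hf hff hH hPt hY hPF hA hc hom hYs m).N3 ?_ hu
  intro r u hu
  change (Y r * th J (g + t • f) Pt.1 (g + t • f)) *ᵥ u = 0
  have r1 := rows_zero h hR hD hNil hp hf h1.symm hU1 hu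
  have r2 := rows_zero h hR hD hNil hp hf h2.symm hU2 hu
  rw [← mulVec_mulVec, S_H h hR hD hNil hp hf hff hY hPF hu, hYX, mulVec_smul]
  obtain ⟨w, hw⟩ : ∃ w, w = (gᵀ * J * (p.1 * g)) *ᵥ u := ⟨_, rfl⟩
  rw [← hw] at r1 r2 ⊢
  rw [add_mulVec, ← mulVec_mulVec _ (U2 * X r), ← mulVec_mulVec _ (U1 * (X r)ᵀ), r1, r2,
    mulVec_zero, mulVec_zero, add_zero, smul_zero]

include hD hNil hp hf hff hH hPt hY hPF hA hc hom hYs m in
/-- **(N1)**: `∇ Q_ν ⊂ Q_ν + rad Q_ν'` -/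
theorem N1 (hne : ν ≠ ν') (hU1 : Cq (Qb h.data hR p.1 D ν) U1)
    (hU2 : Cq (Qb h.data hR p.1 D ν') U2)
    (hs1 : ∀ u ∈ Qb h.data hR p.1 D ν, ∃ x, u = U1 *ᵥ x)
    (hs2 : ∀ u ∈ Qb h.data hR p.1 D ν', ∃ x, u = U2 *ᵥ x)
    (hA1 : ∀ s, B * E K arm s * (gᵀ * J * (p.1 * g)) * U1 = U1 * A1 s)
    (hA2 : ∀ s, B * E K arm s * (gᵀ * J * (p.1 * g)) * U2 = U2 * A2 s)
    (hYX : ∀ r, Y r = U2 * X r * U1ᵀ + U1 * (X r)ᵀ * U2ᵀ)
    (harm : ∀ r, (U2ᵀ * (gᵀ * J * (p.1 * g)) * U2) *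
      ((1 + t * ν) ^ 2 • (X r * (A1 r)ᵀ) + (1 + t * ν') ^ 2 • (A2 r * X r)) *
      (U1ᵀ * (gᵀ * J * (p.1 * g)) * U1) = 0)
    {u : δ → K} (hu : u ∈ Qb h.data hR p.1 D ν) :
    ∃ v ∈ Qb h.data hR p.1 D ν, ∃ r ∈ Qb h.data hR p.1 D ν', r ∈ T (om arm J B g p.1 g) ∧
      SUB.nab arm J (g + t • f) Pt.1 Y d u = v + r := by
  have hskew := form_skew h.data.J_symm hp
  obtain ⟨S0, hS0⟩ : ∃ S0, S0 = gᵀ * J * (p.1 * g) := ⟨_, rfl⟩
  -- the value of `G` on the block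
  have hG : ∀ r, ∀ x, (Y r * th J (g + t • f) Pt.1 (g + t • f)) *ᵥ (U1 *ᵥ x) =
      U2 *ᵥ ((1 + t * ν) ^ 2 • ((X r * (U1ᵀ * S0 * U1)) *ᵥ x)) := by
    intro r x
    have hx : U1 *ᵥ x ∈ Qb h.data hR p.1 D ν := mulVec_mem hU1 x
    rw [← mulVec_mulVec, S_H h hR hD hNil hp hf hff hY hPF hx, hYX, mulVec_smul, add_mulVec,
      Matrix.mul_assoc U1, ← mulVec_mulVec _ U1, ← mulVec_mulVec _ (X r)ᵀ,
      rows_zero h hR hD hNil hp hf hne.symm hU2 hx, mulVec_zero, mulVec_zero, add_zero,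
      mulVec_smul, hS0]
    simp only [mulVec_mulVec, Matrix.mul_assoc]
  refine (nb h hR hD hNil hp hf hff hH hPt hY hPF hA hc hom hYs m).N1 ?_ ?_ hne hu
  · intro r u hu
    obtain ⟨x, rfl⟩ := hs1 u hu
    change (Y r * th J (g + t • f) Pt.1 (g + t • f)) *ᵥ (U1 *ᵥ x) ∈ _
    rw [hG]
    exact mulVec_mem hU2 _
  · intro r u hu
    obtain ⟨x, rfl⟩ := hs1 u hu
    have e1 : om arm J B (g + t • f) Pt.1 (g + t • f) r (U1 *ᵥ x) =
        U1 *ᵥ ((1 + t * ν) ^ 2 • (A1 r *ᵥ x)) := by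
      change (B * E K arm r * th J (g + t • f) Pt.1 (g + t • f)) *ᵥ (U1 *ᵥ x) = _
      rw [← mulVec_mulVec, S_H h hR hD hNil hp hf hff hY hPF (mulVec_mem hU1 x), mulVec_smul,
        mulVec_mulVec, mulVec_mulVec, hA1, mulVec_smul, mulVec_mulVec]
    have e2 : ∀ y, om arm J B (g + t • f) Pt.1 (g + t • f) r (U2 *ᵥ y) =
        U2 *ᵥ ((1 + t * ν') ^ 2 • (A2 r *ᵥ y)) := by
      intro y
      change (B * E K arm r * th J (g + t • f) Pt.1 (g + t • f)) *ᵥ (U2 *ᵥ y) = _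
      rw [← mulVec_mulVec, S_H h hR hD hNil hp hf hff hY hPF (mulVec_mem hU2 y), mulVec_smul,
        mulVec_mulVec, mulVec_mulVec, hA2, mulVec_smul, mulVec_mulVec]
    have e3 : (fun r => (Y r * th J (g + t • f) Pt.1 (g + t • f)).mulVecLin) r
        (om arm J B (g + t • f) Pt.1 (g + t • f) r (U1 *ᵥ x)) -
        om arm J B (g + t • f) Pt.1 (g + t • f) r
          ((fun r => (Y r * th J (g + t • f) Pt.1 (g + t • f)).mulVecLin) r (U1 *ᵥ x)) =
        U2 *ᵥ (-((1 + t * ν) ^ 2 • (((1 + t * ν) ^ 2 • (X r * (A1 r)ᵀ) +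
          (1 + t * ν') ^ 2 • (A2 r * X r)) * (U1ᵀ * S0 * U1)) *ᵥ x)) := by
      change (Y r * th J (g + t • f) Pt.1 (g + t • f)) *ᵥ _ -
        om arm J B (g + t • f) Pt.1 (g + t • f) r
          ((Y r * th J (g + t • f) Pt.1 (g + t • f)) *ᵥ (U1 *ᵥ x)) = _
      have hGA : (U1ᵀ * S0 * U1) * A1 r = -((A1 r)ᵀ * (U1ᵀ * S0 * U1)) := by
        have e5 : (U1ᵀ * S0 * U1) * A1 r = U1ᵀ * S0 * (B * E K arm r * S0 * U1) := by
          rw [hS0, hA1, ← hS0]; simp only [Matrix.mul_assoc]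
        have e6 : (A1 r)ᵀ * (U1ᵀ * S0 * U1) = (B * E K arm r * S0 * U1)ᵀ * S0 * U1 := by
          rw [hS0, hA1, ← hS0, transpose_mul]; simp only [Matrix.mul_assoc]
        rw [e5, e6, transpose_mul, transpose_mul, transpose_mul, E_transpose, h.data.B_symm,
          hS0, hskew, ← hS0]
        have hb := h.data.B_arm r
        have e7 : E K arm r * B = B * E K arm r := hb
        rw [e7]
        simp only [Matrix.neg_mul, Matrix.mul_neg, neg_neg, Matrix.mul_assoc]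
      rw [e1, hG, hG, e2, ← mulVec_sub]
      congr 1
      rw [mulVec_smul, mulVec_mulVec, Matrix.mul_assoc (X r), hGA, mulVec_smul, mulVec_mulVec]
      simp only [Matrix.add_mul, Matrix.smul_mul, Matrix.mul_neg, neg_mulVec, smul_mulVec,
        add_mulVec, smul_neg, smul_add, smul_smul, Matrix.mul_assoc]
      rw [neg_add, sub_eq_add_neg]
      congr 2
      rw [mul_comm]
    rw [e3]
    refine mem_T_of_frame h hR hD hNil hp hf hU2 hs2 (mulVec_mem hU2 _) ?_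
    have e4 := congrArg (fun M : Matrix n2 n1 K => M *ᵥ x) (harm r)
    simp only [zero_mulVec] at e4
    rw [← hS0] at e4 ⊢
    rw [mulVec_mulVec, mulVec_mulVec, mulVec_neg, mulVec_smul, mulVec_mulVec]
    rw [Matrix.mul_assoc] at e4
    rw [e4, smul_zero, neg_zero]

include hD hNil hp hf hff hH hPt hY hPF hA hc hom hYs m in
/-- **B1**: all blocks -/
theorem B1 (hne : ν ≠ ν') (hU1 : Cq (Qb h.data hR p.1 D ν) U1)
    (hU2 : Cq (Qb h.data hR p.1 D ν') U2)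
    (hs1 : ∀ u ∈ Qb h.data hR p.1 D ν, ∃ x, u = U1 *ᵥ x)
    (hs2 : ∀ u ∈ Qb h.data hR p.1 D ν', ∃ x, u = U2 *ᵥ x)
    (hA1 : ∀ s, B * E K arm s * (gᵀ * J * (p.1 * g)) * U1 = U1 * A1 s)
    (hA2 : ∀ s, B * E K arm s * (gᵀ * J * (p.1 * g)) * U2 = U2 * A2 s)
    (hYX : ∀ r, Y r = U2 * X r * U1ᵀ + U1 * (X r)ᵀ * U2ᵀ)
    (harm : ∀ r, (U2ᵀ * (gᵀ * J * (p.1 * g)) * U2) *
      ((1 + t * ν) ^ 2 • (X r * (A1 r)ᵀ) + (1 + t * ν') ^ 2 • (A2 r * X r)) *
      (U1ᵀ * (gᵀ * J * (p.1 * g)) * U1) = 0) :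
    (∀ u ∈ Qb h.data hR p.1 D ν, ∃ v ∈ Qb h.data hR p.1 D ν, ∃ r ∈ Qb h.data hR p.1 D ν',
      r ∈ T (om arm J B g p.1 g) ∧ SUB.nab arm J (g + t • f) Pt.1 Y d u = v + r) ∧
    (∀ u ∈ Qb h.data hR p.1 D ν', ∃ v ∈ Qb h.data hR p.1 D ν', ∃ r ∈ Qb h.data hR p.1 D ν,
      r ∈ T (om arm J B g p.1 g) ∧ SUB.nab arm J (g + t • f) Pt.1 Y d u = v + r) ∧
    (∀ κ, κ ≠ ν → κ ≠ ν' → ∀ u ∈ Qb h.data hR p.1 D κ,
      SUB.nab arm J (g + t • f) Pt.1 Y d u ∈ Qb h.data hR p.1 D κ) := by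
  refine ⟨fun u hu => N1 h hR hD hNil hp hf hff hH hPt hY hPF hA hc hom hYs m hne hU1 hU2 hs1 hs2
      hA1 hA2 hYX harm hu,
    fun u hu => N1 (X := fun r => (X r)ᵀ) h hR hD hNil hp hf hff hH hPt hY hPF hA hc hom hYs m
      hne.symm hU2 hU1 hs2 hs1 hA2 hA1 (fun r => by rw [hYX, transpose_transpose, add_comm])
      (fun r => ?_) hu,
    fun κ h1 h2 u hu => N3 h hR hD hNil hp hf hff hH hPt hY hPF hA hc hom hYs m hU1 hU2 hYX h1 h2
      hu⟩
  have h1 := congrArg Matrix.transpose (harm r)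
  have hsk := form_skew h.data.J_symm hp
  obtain ⟨S0, hS0⟩ : ∃ S0, S0 = gᵀ * J * (p.1 * g) := ⟨_, rfl⟩
  rw [← hS0] at h1 hsk ⊢
  simp only [transpose_mul, transpose_add, transpose_smul, transpose_transpose, hsk,
    transpose_zero, Matrix.neg_mul, Matrix.mul_neg, neg_neg] at h1
  rw [add_comm]
  rw [← h1]
  simp only [Matrix.mul_assoc]

end B1

section bad

variable (h : Ctx k arm J B N W g) {R : Matrix δ ι K} (hR : g * R * g = g)
  {D : End K (CoreM (Ph arm J B g R p.1))}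
  (hD : IsD (Ph arm J B g R p.1) (Nh arm J B g f R p.1) D) [IsAlgClosed K]

include hD in
/-- **the finite bad set of parameters** in the ground field: outside of it the hypotheses `hc`,
`hom` of `B1` hold. -/
theorem exists_bad (h2 : (2 : K) ≠ 0) : ∃ S : Set k, S.Finite ∧ ∀ t ∉ S,
    (∀ κ, ((cov h.data hR p.1).D D).maxGenEigenspace κ ≠ ⊥ → 1 + algebraMap k K t * κ ≠ 0) ∧
      Hom0 (om arm J B g p.1 g) ((cov h.data hR p.1).D D)
        (fun κ => (1 + algebraMap k K t * κ) ^ 2) := by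
  obtain ⟨S, hS, hS2⟩ := exists_hom0 h2 ((cov h.data hR p.1).D_comm hD.2)
    (Module.End.iSup_maxGenEigenspace_eq_top ((cov h.data hR p.1).D D))
  refine ⟨(algebraMap k K) ⁻¹' S, hS.preimage (fun _ _ _ _ e => (algebraMap k K).injective e), ?_⟩
  intro t ht
  exact hS2 _ ht

end bad

end inst

end Crest.Agent.R172.SNabI
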