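import Crest.Agent.R172.SUX6
import Crest.Agent.R172.PTt

/-!
Row 172 (S0260), S-side: the class `QQ5` of `SUX6` with the values on the third blocks
(a family `Qm` of submodules): `w u = μ_m F u` on `Qm m`; parity separation of the first
derivative of `k_1` with all values.
-/

set_option autoImplicit false
set_option linter.unusedSectionVars false
set_option linter.unusedFintypeInType false
set_option linter.unusedDecidableInType false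

namespace Crest.Agent.R172.SUXt

open Matrix Module Crest.Agent.R172.FO Crest.Agent.R172.Qt Crest.Agent.R172.SpS
  Crest.Agent.R172.Om Crest.Agent.R172.SUX

variable {ι : Type*} [Fintype ι] [DecidableEq ι] {δ : Type*} [Fintype δ] [DecidableEq δ]
variable {k K : Type*} [Field k] [Field K] [Algebra k K]
variable {arm : δ → Fin 3} {J : Matrix ι ι K} {B : Matrix δ δ K}
  {N W : Submodule K (Matrix ι δ K)} {H F f q : Matrix ι δ K}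
variable {n1 n2 : Type*} [Fintype n1] [Fintype n2]
variable {P : Matrix ι ι K × (Fin 3 → Matrix ι ι K)} {S0 : Matrix δ δ K} {c1 c2 : K}
  {U1 : Matrix δ n1 K} {U2 : Matrix δ n2 K} {Y : Fin 3 → Matrix δ δ K} {d dY : Derivation k K K}
  {Γ1 : Matrix n1 n1 K} {Γ2 : Matrix n2 n2 K} {β : Matrix n1 n2 K} {γ : Matrix n2 n1 K}
  {X : Fin 3 → Matrix n2 n1 K}

/-- first level relations with values, modulo the scalars on the two blocks -/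
def QQ5t {α : Type*} (J : Matrix ι ι K) (N W : Submodule K (Matrix ι δ K)) (F f : Matrix ι δ K)
    (dY : Derivation k K K) (S0 : Matrix δ δ K) (U1 : Matrix δ n1 K) (U2 : Matrix δ n2 K)
    (Qm : α → Submodule K (δ → K)) : Submodule K (E5 K ι δ n1 n2) where
  carrier := {z | ∃ w ∈ W, Fᵀ * J * w = 0 ∧ fᵀ * J * w = 0 ∧ z.1 - w ∈ N ∧
    (∃ μ : K, w * U1 = z.2.1.1 + μ • (F * U1)) ∧ (∃ μ : K, w * U2 = z.2.1.2 + μ • (F * U2)) ∧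
    (∃ ν : K, U1ᵀ * (Fᵀ * J * w.map dY) = z.2.2.1 + ν • (U1ᵀ * S0)) ∧
    (∃ ν : K, U2ᵀ * (Fᵀ * J * w.map dY) = z.2.2.2 + ν • (U2ᵀ * S0)) ∧
    ∀ m, ∃ μ : K, ∀ u ∈ Qm m, w *ᵥ u = μ • (F *ᵥ u)}
  add_mem' := by
    rintro a b ⟨w, hw, h1, h2, h3, ⟨m1, h4⟩, ⟨m2, h5⟩, ⟨m3, h6⟩, ⟨m4, h7⟩, h8⟩
      ⟨w', hw', h1', h2', h3', ⟨m1', h4'⟩, ⟨m2', h5'⟩, ⟨m3', h6'⟩, ⟨m4', h7'⟩, h8'⟩
    have hd : (w + w').map dY = w.map dY + w'.map dY := by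
      ext i j; simp
    refine ⟨w + w', W.add_mem hw hw', by rw [Matrix.mul_add, h1, h1', add_zero],
      by rw [Matrix.mul_add, h2, h2', add_zero], ?_, ⟨m1 + m1', ?_⟩, ⟨m2 + m2', ?_⟩,
      ⟨m3 + m3', ?_⟩, ⟨m4 + m4', ?_⟩, fun m => ?_⟩
    · have : (a + b).1 - (w + w') = (a.1 - w) + (b.1 - w') := by rw [Prod.fst_add]; abel
      rw [this]; exact N.add_mem h3 h3'
    · rw [Matrix.add_mul, h4, h4', add_smul]
      simp only [Prod.snd_add, Prod.fst_add]; abel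
    · rw [Matrix.add_mul, h5, h5', add_smul]
      simp only [Prod.snd_add, Prod.fst_add]; abel
    · rw [hd, Matrix.mul_add, Matrix.mul_add, h6, h6', add_smul]
      simp only [Prod.snd_add, Prod.fst_add]; abel
    · rw [hd, Matrix.mul_add, Matrix.mul_add, h7, h7', add_smul]
      simp only [Prod.snd_add]; abel
    · obtain ⟨μ, h⟩ := h8 m
      obtain ⟨μ', h'⟩ := h8' m
      exact ⟨μ + μ', fun u hu => by rw [add_mulVec, h u hu, h' u hu, add_smul]⟩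
  zero_mem' := by
    have hd : (0 : Matrix ι δ K).map dY = 0 := map_zero_der' dY
    refine ⟨0, W.zero_mem, by simp, by simp, by simp, ⟨0, by simp⟩, ⟨0, by simp⟩, ⟨0, ?_⟩,
      ⟨0, ?_⟩, fun m => ⟨0, fun u _ => by rw [zero_mulVec, zero_smul]⟩⟩
    · rw [hd]; simp
    · rw [hd]; simp
  smul_mem' := by
    rintro c a ⟨w, hw, h1, h2, h3, ⟨m1, h4⟩, ⟨m2, h5⟩, ⟨m3, h6⟩, ⟨m4, h7⟩, h8⟩
    refine ⟨c • w, W.smul_mem c hw, by rw [Matrix.mul_smul, h1, smul_zero],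
      by rw [Matrix.mul_smul, h2, smul_zero], ?_, ⟨c * m1, ?_⟩, ⟨c * m2, ?_⟩,
      ⟨c * m3, ?_⟩, ⟨c * m4, ?_⟩, fun m => ?_⟩
    · have : (c • a).1 - c • w = c • (a.1 - w) := by rw [Prod.smul_fst, smul_sub]
      rw [this]; exact N.smul_mem c h3
    · rw [Matrix.smul_mul, h4, smul_add, smul_smul]; rfl
    · rw [Matrix.smul_mul, h5, smul_add, smul_smul]; rfl
    · rw [row_smul dY c h1, Matrix.mul_smul, h6, smul_add, smul_smul]; rfl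
    · rw [row_smul dY c h1, Matrix.mul_smul, h7, smul_add, smul_smul]; rfl
    · obtain ⟨μ, h⟩ := h8 m
      exact ⟨c * μ, fun u hu => by rw [smul_mulVec, h u hu, smul_smul]⟩

/-- all rows of `w_1 = wd q` against `𝒦iso` vanish (`PTt.alpha_zero`) -/
theorem wd_perp (h : Ctx k arm J B N W H) (hP : P ∈ NN arm J N H)
    (hNm : ∀ F, (∀ F' ∈ N, pair J B F' F = 0) → F ∈ N)
    (hWm : ∀ F, (∀ F' ∈ W, pair J B F' F = 0) → F ∈ W)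
    (m : Mv k arm J N W H P.1 Y d) (hqm : q ∈ N ⊓ W) (hqp : Hᵀ * J * q = 0)
    (fr : Fr J F H P.1 S0 c1 c2 U1 U2) (hq : K1 J F H P.1 S0 c1 U1 U2 q)
    (hY : ∀ s, ∀ v ∈ W, v * Y s * Hᵀ = v * (U2 * X s * U1ᵀ + U1 * (X s)ᵀ * U2ᵀ) * Hᵀ)
    {g' : Matrix ι δ K} (hg : g' ∈ Kiso J N W) : g'ᵀ * J * wd arm J H P.1 Y d q = 0 := by
  have e1 := first_blocks h hP m hqm hqp fr hq hY
  have hc1 := fr.hc1
  have hc2 := fr.hc2
  have a1 : F * U1 = c1⁻¹ • (H * U1) := by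
    rw [fr.H1, smul_smul, inv_mul_cancel₀ hc1, one_smul]
  have a2 : F * U2 = c2⁻¹ • (H * U2) := by
    rw [fr.H2, smul_smul, inv_mul_cancel₀ hc2, one_smul]
  refine PTt.alpha_zero h hg hNm hWm (m.w_mem hqm.2) e1
    (C := -∑ s, (c2 ^ 2 • c1⁻¹ • (U1 * (X s)ᵀ * U2ᵀ) - (c1 * c2) • c2⁻¹ • (U2 * X s * U1ᵀ)) * S0 *
      E K arm s) ?_ (m.w_perp h hqp)
  have a3 : ∑ s, (c2 ^ 2 • (F * (U1 * (X s)ᵀ * U2ᵀ)) - (c1 * c2) • (F * (U2 * X s * U1ᵀ))) * S0 *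
      E K arm s = H * ∑ s, (c2 ^ 2 • c1⁻¹ • (U1 * (X s)ᵀ * U2ᵀ) -
        (c1 * c2) • c2⁻¹ • (U2 * X s * U1ᵀ)) * S0 * E K arm s := by
    rw [Matrix.mul_sum]
    refine Finset.sum_congr rfl fun s _ => ?_
    have b1 : F * (U1 * (X s)ᵀ * U2ᵀ) = H * (c1⁻¹ • (U1 * (X s)ᵀ * U2ᵀ)) := by
      rw [Matrix.mul_assoc U1, ← Matrix.mul_assoc F, a1, Matrix.smul_mul, Matrix.mul_assoc,
        Matrix.mul_smul]
    have b2 : F * (U2 * X s * U1ᵀ) = H * (c2⁻¹ • (U2 * X s * U1ᵀ)) := by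
      rw [Matrix.mul_assoc U2, ← Matrix.mul_assoc F, a2, Matrix.smul_mul, Matrix.mul_assoc,
        Matrix.mul_smul]
    have b3 : ∀ A C : Matrix δ δ K, c2 ^ 2 • (H * c1⁻¹ • A) - (c1 * c2) • (H * c2⁻¹ • C) =
        H * (c2 ^ 2 • c1⁻¹ • A - (c1 * c2) • c2⁻¹ • C) := by
      intro A C
      rw [Matrix.mul_sub, Matrix.mul_smul H (c2 ^ 2), Matrix.mul_smul H (c1 * c2)]
    rw [b1, b2, b3, Matrix.mul_assoc H, Matrix.mul_assoc H]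
  rw [a3, Matrix.mul_neg]
  abel

/-- **the first derivative of `k_1` at `ρ = c2 / c1` in `QQ5`.** -/
theorem first_mem (h : Ctx k arm J B N W H) (hP : P ∈ NN arm J N H)
    (m : Mv k arm J N W H P.1 Y d) (hqm : q ∈ N ⊓ W) (hqp : Hᵀ * J * q = 0)
    (fr : Fr J F H P.1 S0 c1 c2 U1 U2) (hq : K1 J F H P.1 S0 c1 U1 U2 q)
    (hY : ∀ s, ∀ v ∈ W, v * Y s * Hᵀ = v * (U2 * X s * U1ᵀ + U1 * (X s)ᵀ * U2ᵀ) * Hᵀ)
    (hN2 : ∀ v ∈ W, v * (U2.map d + ZY arm J H P.1 Y * U2) = v * (U2 * Γ2 + c2 ^ 2 • (U1 * β)))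
    (hN1 : ∀ v ∈ W, v * (U1.map d + ZY arm J H P.1 Y * U1) = v * (U1 * Γ1 + c1 ^ 2 • (U2 * γ)))
    (hwF : Fᵀ * J * wd arm J H P.1 Y d q = 0) (hwf : fᵀ * J * wd arm J H P.1 Y d q = 0)
    (hrow : Hᵀ * J * (P.1 * wd arm J H P.1 Y d q)
      = Hᵀ * J * (wd arm J H P.1 Y d q).map dY) {α : Type*} {Qm : α → Submodule K (δ → K)}
    (hw3 : ∀ m, ∃ μ : K, ∀ u ∈ Qm m, wd arm J H P.1 Y d q *ᵥ u = μ • (F *ᵥ u)) :
    I1 arm F S0 U1 U2 (X, β, γ) + (c2 / c1) • I2 arm F S0 U1 U2 (X, β, γ)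
      ∈ QQ5t J N W F f dY S0 U1 U2 Qm := by
  set w : Matrix ι δ K := wd arm J H P.1 Y d q with hw
  have hc1 := fr.hc1
  have hc2 := fr.hc2
  have e1 := first_blocks h hP m hqm hqp fr hq hY
  have l1 := wd_U1 fr hq m.dH (hN1 H h.mem.2) (hN1 q hqm.2)
  have l2 := wd_U2 (P := P) (F := F) (S0 := S0) hq (hN2 q hqm.2)
  have v1 := row_wd1 h hP m hqm fr hq (hN1 H h.mem.2) (hN1 q hqm.2)
  have v2 := row_wd2 h hP m hqm fr hq (hN2 q hqm.2)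
  rw [← hw] at e1 l1 l2 v1 v2
  rw [row_of_Y fr.H1 hrow] at v1
  rw [row_of_Y fr.H2 hrow] at v2
  refine ⟨(c1 * c2)⁻¹ • w, W.smul_mem _ (m.w_mem hqm.2), by rw [Matrix.mul_smul, hwF, smul_zero],
    by rw [Matrix.mul_smul, hwf, smul_zero], ?_, ⟨-((c1 * c2)⁻¹ * (d c1 / c1)), ?_⟩, ⟨0, ?_⟩,
    ⟨-((c1 * c2)⁻¹ * (c1⁻¹ * d c1)), ?_⟩, ⟨0, ?_⟩, fun m => ?_⟩
  · have h2 := N.smul_mem (-(c1 * c2)⁻¹) e1
    have h3 : (I1 arm F S0 U1 U2 (X, β, γ) + (c2 / c1) • I2 arm F S0 U1 U2 (X, β, γ)).1 -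
        (c1 * c2)⁻¹ • w = -(c1 * c2)⁻¹ • (∑ s, (c2 ^ 2 • (F * (U1 * (X s)ᵀ * U2ᵀ)) -
          (c1 * c2) • (F * (U2 * X s * U1ᵀ))) * S0 * E K arm s + w) := by
      have a1 : (I1 arm F S0 U1 U2 (X, β, γ) + (c2 / c1) • I2 arm F S0 U1 U2 (X, β, γ)).1
          = ∑ s, F * (U2 * X s * U1ᵀ * S0) * E K arm s +
            (c2 / c1) • (-∑ s, F * (U1 * (X s)ᵀ * U2ᵀ * S0) * E K arm s) := rfl
      rw [a1, smul_add, smul_neg, Finset.smul_sum, Finset.smul_sum, neg_smul, sub_eq_add_neg,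
        ← Finset.sum_neg_distrib, ← Finset.sum_add_distrib]
      congr 1
      refine Finset.sum_congr rfl fun s _ => ?_
      rw [Matrix.sub_mul, Matrix.sub_mul, smul_sub]
      simp only [Matrix.smul_mul, smul_smul, neg_mul]
      rw [inv_mul_cancel₀ (mul_ne_zero hc1 hc2), neg_smul, neg_smul, one_smul]
      have a2 : (c1 * c2)⁻¹ * c2 ^ 2 = c2 / c1 := by field_simp
      rw [a2]
      simp only [Matrix.mul_assoc]
      abel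
    rw [h3]
    exact h2
  · have a1 : (I1 arm F S0 U1 U2 (X, β, γ) + (c2 / c1) • I2 arm F S0 U1 U2 (X, β, γ)).2.1.1
        = F * (U2 * γ) + (c2 / c1) • (0 : Matrix ι n1 K) := rfl
    rw [a1, Matrix.smul_mul, l1, smul_sub, smul_smul, smul_smul,
      inv_mul_cancel₀ (mul_ne_zero hc1 hc2), one_smul, smul_zero, add_zero, neg_smul,
      Matrix.mul_assoc, sub_eq_add_neg]
  · have a1 : (I1 arm F S0 U1 U2 (X, β, γ) + (c2 / c1) • I2 arm F S0 U1 U2 (X, β, γ)).2.1.2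
        = 0 + (c2 / c1) • (-(F * (U1 * β))) := rfl
    have a2 : (c1 * c2)⁻¹ * c2 ^ 2 = c2 / c1 := by field_simp
    rw [a1, Matrix.smul_mul, l2, smul_neg, smul_smul, a2, zero_smul, add_zero, zero_add, smul_neg,
      Matrix.mul_assoc]
  · have a1 : (I1 arm F S0 U1 U2 (X, β, γ) + (c2 / c1) • I2 arm F S0 U1 U2 (X, β, γ)).2.2.1
        = 0 + (c2 / c1) • (γᵀ * (U2ᵀ * S0)) := rfl
    have a2 : U1ᵀ * (Fᵀ * J * w.map dY) = c1⁻¹ • ((c1 * c2 ^ 2) • (γᵀ * (U2ᵀ * S0))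
        - d c1 • (U1ᵀ * S0)) := by
      rw [← v1, smul_smul, inv_mul_cancel₀ hc1, one_smul]
    rw [a1, row_smul dY _ hwF, Matrix.mul_smul, a2, zero_add, smul_sub, smul_sub, smul_smul,
      smul_smul, smul_smul, smul_smul, neg_smul, sub_eq_add_neg]
    congr 2
    · field_simp
    · congr 1
      ring
  · have a1 : (I1 arm F S0 U1 U2 (X, β, γ) + (c2 / c1) • I2 arm F S0 U1 U2 (X, β, γ)).2.2.2
        = -(βᵀ * (U1ᵀ * S0)) + (c2 / c1) • (0 : Matrix n2 δ K) := rfl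
    have a2 : U2ᵀ * (Fᵀ * J * w.map dY) = c2⁻¹ • (-((c1 * c2 ^ 2) • (βᵀ * (U1ᵀ * S0)))) := by
      rw [← v2, smul_smul, inv_mul_cancel₀ hc2, one_smul]
    rw [a1, row_smul dY _ hwF, Matrix.mul_smul, a2, smul_zero, add_zero, zero_smul, add_zero,
      smul_neg, smul_neg, smul_smul, smul_smul]
    have a3 : (c1 * c2)⁻¹ * c2⁻¹ * (c1 * c2 ^ 2) = 1 := by field_simp
    rw [a3, one_smul]
  · obtain ⟨μ, h⟩ := hw3 m
    exact ⟨(c1 * c2)⁻¹ * μ, fun u hu => by rw [smul_mulVec, h u hu, smul_smul]⟩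

/-- `first_mem` with the rows discharged by `wd_perp` -/
theorem first_mem' (h : Ctx k arm J B N W H) (hP : P ∈ NN arm J N H)
    (hNm : ∀ F, (∀ F' ∈ N, pair J B F' F = 0) → F ∈ N)
    (hWm : ∀ F, (∀ F' ∈ W, pair J B F' F = 0) → F ∈ W)
    (hFk : F ∈ Kiso J N W) (hfk : f ∈ Kiso J N W)
    (m : Mv k arm J N W H P.1 Y d) (hqm : q ∈ N ⊓ W) (hqp : Hᵀ * J * q = 0)
    (fr : Fr J F H P.1 S0 c1 c2 U1 U2) (hq : K1 J F H P.1 S0 c1 U1 U2 q)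
    (hY : ∀ s, ∀ v ∈ W, v * Y s * Hᵀ = v * (U2 * X s * U1ᵀ + U1 * (X s)ᵀ * U2ᵀ) * Hᵀ)
    (hN2 : ∀ v ∈ W, v * (U2.map d + ZY arm J H P.1 Y * U2) = v * (U2 * Γ2 + c2 ^ 2 • (U1 * β)))
    (hN1 : ∀ v ∈ W, v * (U1.map d + ZY arm J H P.1 Y * U1) = v * (U1 * Γ1 + c1 ^ 2 • (U2 * γ)))
    (hrow : ∀ w : Matrix ι δ K, Hᵀ * J * w = 0 → Hᵀ * J * (P.1 * w) = Hᵀ * J * w.map dY)
    {α : Type*} {Qm : α → Submodule K (δ → K)}
    (hw3 : ∀ m, ∃ μ : K, ∀ u ∈ Qm m, wd arm J H P.1 Y d q *ᵥ u = μ • (F *ᵥ u)) :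
    I1 arm F S0 U1 U2 (X, β, γ) + (c2 / c1) • I2 arm F S0 U1 U2 (X, β, γ)
      ∈ QQ5t J N W F f dY S0 U1 U2 Qm :=
  first_mem h hP m hqm hqp fr hq hY hN2 hN1 (wd_perp h hP hNm hWm m hqm hqp fr hq hY hFk)
    (wd_perp h hP hNm hWm m hqm hqp fr hq hY hfk) (hrow _ (m.w_perp h hqp)) hw3

/-- the rows at any parameter (`hwp` and `V1`, `V2` of `second_blocks`) -/
theorem rows_at {t : K} {w : Matrix ι δ K} {P : Matrix ι ι K}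
    (fr : Fr J F (F + t • f) P S0 c1 c2 U1 U2)
    (hF : Fᵀ * J * w = 0) (hf : fᵀ * J * w = 0)
    (hrow : ∀ w : Matrix ι δ K, (F + t • f)ᵀ * J * w = 0 →
      (F + t • f)ᵀ * J * (P * w) = (F + t • f)ᵀ * J * w.map dY) {ν1 ν2 : K}
    (v1 : U1ᵀ * (Fᵀ * J * w.map dY) = ν1 • (U1ᵀ * S0))
    (v2 : U2ᵀ * (Fᵀ * J * w.map dY) = ν2 • (U2ᵀ * S0) - βᵀ * (U1ᵀ * S0)) :
    (F + t • f)ᵀ * J * w = 0 ∧ U1ᵀ * th J (F + t • f) P w = (c1 * ν1) • (U1ᵀ * S0) ∧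
      U2ᵀ * th J (F + t • f) P w = (c2 * ν2) • (U2ᵀ * S0) - c2 • (βᵀ * (U1ᵀ * S0)) := by
  have h0 : (F + t • f)ᵀ * J * w = 0 := by
    rw [transpose_add, transpose_smul, Matrix.add_mul, Matrix.add_mul, Matrix.smul_mul,
      Matrix.smul_mul, hF, hf, smul_zero, add_zero]
  refine ⟨h0, ?_, ?_⟩
  · rw [row_of_Y fr.H1 (hrow w h0), v1, smul_smul]
  · rw [row_of_Y fr.H2 (hrow w h0), v2, smul_sub, smul_smul]

/-- **parity separation of the first level, with all values.** -/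
theorem first_sep {Yt G : Type*} [AddCommGroup Yt] [Module K Yt] [FiniteDimensional K Yt]
    [AddCommGroup G] [Module K G] (al be : Yt →ₗ[K] G) (D : Yt →ₗ[K] D3 K n1 n2) {R : Set K}
    {α : Type*} {Qm : α → Submodule K (δ → K)}
    (hR : R.Infinite)
    (hrel : ∀ ρ ∈ R, ∀ y, al y = ρ ^ 2 • be y →
      I1 arm F S0 U1 U2 (D y) + ρ • I2 arm F S0 U1 U2 (D y) ∈ QQ5t J N W F f dY S0 U1 U2 Qm) :
    ∃ S : Set K, S.Finite ∧ ∀ c ∉ S, ∀ y, al y = c • be y →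
      I1 arm F S0 U1 U2 (D y) ∈ QQ5t J N W F f dY S0 U1 U2 Qm ∧
        I2 arm F S0 U1 U2 (D y) ∈ QQ5t J N W F f dY S0 U1 U2 Qm := by
  obtain ⟨S, hS, h⟩ := RJP.par_sep (T := Unit) al be (QQ5t J N W F f dY S0 U1 U2 Qm)
    (fun _ => I1 arm F S0 U1 U2 ∘ₗ D) (fun _ => I2 arm F S0 U1 U2 ∘ₗ D) hR
    (fun r hr y hy _ => hrel r hr y hy)
  exact ⟨S, hS, fun c hc y hy => h c hc y hy ()⟩

/-- the hypotheses `hn, L1, L2, V1, V2` of `second_blocks` from the even part. -/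
theorem even_data {α : Type*} {Qm : α → Submodule K (δ → K)} (hm : I1 arm F S0 U1 U2 (X, β, γ) ∈ QQ5t J N W F f dY S0 U1 U2 Qm) :
    ∃ w ∈ W, Fᵀ * J * w = 0 ∧ fᵀ * J * w = 0 ∧
      ∑ s, F * (U2 * X s * U1ᵀ * S0) * E K arm s - w ∈ N ∧
      ∃ μ1 μ2 ν1 ν2 : K, w * U1 = μ1 • (F * U1) + F * (U2 * γ) ∧ w * U2 = μ2 • (F * U2) ∧
        U1ᵀ * (Fᵀ * J * w.map dY) = ν1 • (U1ᵀ * S0) ∧
        U2ᵀ * (Fᵀ * J * w.map dY) = ν2 • (U2ᵀ * S0) - βᵀ * (U1ᵀ * S0) ∧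
        ∀ m, ∃ μ : K, ∀ u ∈ Qm m, w *ᵥ u = μ • (F *ᵥ u) := by
  obtain ⟨w, hw, h1, h2, h3, ⟨m1, h4⟩, ⟨m2, h5⟩, ⟨m3, h6⟩, ⟨m4, h7⟩, h8⟩ := hm
  refine ⟨w, hw, h1, h2, h3, m1, m2, m3, m4, ?_, ?_, ?_, ?_, h8⟩
  · rw [h4, add_comm]; rfl
  · rw [h5]; change 0 + _ = _; rw [zero_add]
  · rw [h6]; change 0 + _ = _; rw [zero_add]
  · rw [h7]; change -(βᵀ * (U1ᵀ * S0)) + _ = _; rw [add_comm, ← sub_eq_add_neg]

end Crest.Agent.R172.SUXt
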