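import Crest.Agent.R172.SUX6

/-!
Row 172 (S0260), S-side: `SUX6.first_mem` with a free submodule `Wc` for the corrections `w`
(values and rows on the third blocks); `first_sep`, `even_data` of `SUX6` apply verbatim to `Wc`.
-/

set_option autoImplicit false
set_option linter.unusedSectionVars false
set_option linter.unusedFintypeInType false
set_option linter.unusedDecidableInType false

namespace Crest.Agent.R172.SUX6w946

open Matrix Module Crest.Agent.R172.FO Crest.Agent.R172.Qt Crest.Agent.R172.SpS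
  Crest.Agent.R172.Om Crest.Agent.R172.SUX

variable {ι : Type*} [Fintype ι] [DecidableEq ι] {δ : Type*} [Fintype δ] [DecidableEq δ]
variable {k K : Type*} [Field k] [Field K] [Algebra k K]
variable {arm : δ → Fin 3} {J : Matrix ι ι K} {B : Matrix δ δ K}
  {N W Wc : Submodule K (Matrix ι δ K)} {H F f q : Matrix ι δ K}
variable {n1 n2 : Type*} [Fintype n1] [Fintype n2]
variable {P : Matrix ι ι K × (Fin 3 → Matrix ι ι K)} {S0 : Matrix δ δ K} {c1 c2 : K}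
  {U1 : Matrix δ n1 K} {U2 : Matrix δ n2 K} {Y : Fin 3 → Matrix δ δ K} {d dY : Derivation k K K}
  {Γ1 : Matrix n1 n1 K} {Γ2 : Matrix n2 n2 K} {β : Matrix n1 n2 K} {γ : Matrix n2 n1 K}
  {X : Fin 3 → Matrix n2 n1 K}

/-- the corrections which are scalar on a further block `U` -/
def Wv (W : Submodule K (Matrix ι δ K)) (F : Matrix ι δ K) {α : Type*} {nn : α → Type*}
    [∀ a, Fintype (nn a)] (U : ∀ a, Matrix δ (nn a) K) : Submodule K (Matrix ι δ K) where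
  carrier := {w | w ∈ W ∧ ∀ a, ∃ μ : K, w * U a = μ • (F * U a)}
  zero_mem' := ⟨W.zero_mem, fun a => ⟨0, by simp⟩⟩
  add_mem' := by
    rintro w w' ⟨h1, h2⟩ ⟨h1', h2'⟩
    refine ⟨W.add_mem h1 h1', fun a => ?_⟩
    obtain ⟨m, hm⟩ := h2 a
    obtain ⟨m', hm'⟩ := h2' a
    exact ⟨m + m', by rw [Matrix.add_mul, hm, hm', add_smul]⟩
  smul_mem' := by
    rintro c w ⟨h1, h2⟩
    refine ⟨W.smul_mem c h1, fun a => ?_⟩
    obtain ⟨m, hm⟩ := h2 a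
    exact ⟨c * m, by rw [Matrix.smul_mul, hm, smul_smul]⟩

theorem Wv_le {F : Matrix ι δ K} {α : Type*} {nn : α → Type*} [∀ a, Fintype (nn a)]
    {U : ∀ a, Matrix δ (nn a) K} : Wv W F U ≤ W := fun _ h => h.1

theorem mem_Wv {F : Matrix ι δ K} {α : Type*} {nn : α → Type*} [∀ a, Fintype (nn a)]
    {U : ∀ a, Matrix δ (nn a) K} {w : Matrix ι δ K} :
    w ∈ Wv W F U ↔ w ∈ W ∧ ∀ a, ∃ μ : K, w * U a = μ • (F * U a) := Iff.rfl

/-- **the first derivative of `k_1` at `ρ = c2 / c1` in `QQ5`, with `wd q` in a prescribed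
submodule `Wc`** (e.g. `W` with the values and rows on the third blocks). -/
theorem first_memC (h : Ctx k arm J B N W H) (hP : P ∈ NN arm J N H)
    (m : Mv k arm J N W H P.1 Y d) (hqm : q ∈ N ⊓ W) (hqp : Hᵀ * J * q = 0)
    (fr : Fr J F H P.1 S0 c1 c2 U1 U2) (hq : K1 J F H P.1 S0 c1 U1 U2 q)
    (hY : ∀ s, ∀ v ∈ W, v * Y s * Hᵀ = v * (U2 * X s * U1ᵀ + U1 * (X s)ᵀ * U2ᵀ) * Hᵀ)
    (hN2 : ∀ v ∈ W, v * (U2.map d + ZY arm J H P.1 Y * U2) = v * (U2 * Γ2 + c2 ^ 2 • (U1 * β)))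
    (hN1 : ∀ v ∈ W, v * (U1.map d + ZY arm J H P.1 Y * U1) = v * (U1 * Γ1 + c1 ^ 2 • (U2 * γ)))
    (hwF : Fᵀ * J * wd arm J H P.1 Y d q = 0) (hwf : fᵀ * J * wd arm J H P.1 Y d q = 0)
    (hrow : Hᵀ * J * (P.1 * wd arm J H P.1 Y d q)
      = Hᵀ * J * (wd arm J H P.1 Y d q).map dY)
    (hC : wd arm J H P.1 Y d q ∈ Wc) :
    I1 arm F S0 U1 U2 (X, β, γ) + (c2 / c1) • I2 arm F S0 U1 U2 (X, β, γ)
      ∈ QQ5 J N Wc F f dY S0 U1 U2 := by
  set w : Matrix ι δ K := wd arm J H P.1 Y d q with hw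
  have hc1 := fr.hc1
  have hc2 := fr.hc2
  have e1 := first_blocks h hP m hqm hqp fr hq hY
  have l1 := wd_U1 fr hq m.dH (hN1 H h.mem.2) (hN1 q hqm.2)
  have l2 := wd_U2 (P := P) (F := F) (S0 := S0) hq (hN2 q hqm.2)
  have v1 := row_wd1 h hP m hqm fr hq (hN1 H h.mem.2) (hN1 q hqm.2)
  have v2 := row_wd2 h hP m hqm fr hq (hN2 q hqm.2)
  rw [← hw] at e1 l1 l2 v1 v2
  rw [row_of_Y fr.H1 hrow] at v1
  rw [row_of_Y fr.H2 hrow] at v2
  refine ⟨(c1 * c2)⁻¹ • w, Wc.smul_mem _ hC, by rw [Matrix.mul_smul, hwF, smul_zero],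
    by rw [Matrix.mul_smul, hwf, smul_zero], ?_, ⟨-((c1 * c2)⁻¹ * (d c1 / c1)), ?_⟩, ⟨0, ?_⟩,
    ⟨-((c1 * c2)⁻¹ * (c1⁻¹ * d c1)), ?_⟩, ⟨0, ?_⟩⟩
  · have h2 := N.smul_mem (-(c1 * c2)⁻¹) e1
    have h3 : (I1 arm F S0 U1 U2 (X, β, γ) + (c2 / c1) • I2 arm F S0 U1 U2 (X, β, γ)).1 -
        (c1 * c2)⁻¹ • w = -(c1 * c2)⁻¹ • (∑ s, (c2 ^ 2 • (F * (U1 * (X s)ᵀ * U2ᵀ)) -
          (c1 * c2) • (F * (U2 * X s * U1ᵀ))) * S0 * E K arm s + w) := by
      have a1 : (I1 arm F S0 U1 U2 (X, β, γ) + (c2 / c1) • I2 arm F S0 U1 U2 (X, β, γ)).1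
          = ∑ s, F * (U2 * X s * U1ᵀ * S0) * E K arm s +
            (c2 / c1) • (-∑ s, F * (U1 * (X s)ᵀ * U2ᵀ * S0) * E K arm s) := rfl
      rw [a1, smul_add, smul_neg, Finset.smul_sum, Finset.smul_sum, neg_smul, sub_eq_add_neg,
        ← Finset.sum_neg_distrib, ← Finset.sum_add_distrib]
      congr 1
      refine Finset.sum_congr rfl fun s _ => ?_
      rw [Matrix.sub_mul, Matrix.sub_mul, smul_sub]
      simp only [Matrix.smul_mul, smul_smul, neg_mul]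
      rw [inv_mul_cancel₀ (mul_ne_zero hc1 hc2), neg_smul, neg_smul, one_smul]
      have a2 : (c1 * c2)⁻¹ * c2 ^ 2 = c2 / c1 := by field_simp
      rw [a2]
      simp only [Matrix.mul_assoc]
      abel
    rw [h3]
    exact h2
  · have a1 : (I1 arm F S0 U1 U2 (X, β, γ) + (c2 / c1) • I2 arm F S0 U1 U2 (X, β, γ)).2.1.1
        = F * (U2 * γ) + (c2 / c1) • (0 : Matrix ι n1 K) := rfl
    rw [a1, Matrix.smul_mul, l1, smul_sub, smul_smul, smul_smul,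
      inv_mul_cancel₀ (mul_ne_zero hc1 hc2), one_smul, smul_zero, add_zero, neg_smul,
      Matrix.mul_assoc, sub_eq_add_neg]
  · have a1 : (I1 arm F S0 U1 U2 (X, β, γ) + (c2 / c1) • I2 arm F S0 U1 U2 (X, β, γ)).2.1.2
        = 0 + (c2 / c1) • (-(F * (U1 * β))) := rfl
    have a2 : (c1 * c2)⁻¹ * c2 ^ 2 = c2 / c1 := by field_simp
    rw [a1, Matrix.smul_mul, l2, smul_neg, smul_smul, a2, zero_smul, add_zero, zero_add, smul_neg,
      Matrix.mul_assoc]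
  · have a1 : (I1 arm F S0 U1 U2 (X, β, γ) + (c2 / c1) • I2 arm F S0 U1 U2 (X, β, γ)).2.2.1
        = 0 + (c2 / c1) • (γᵀ * (U2ᵀ * S0)) := rfl
    have a2 : U1ᵀ * (Fᵀ * J * w.map dY) = c1⁻¹ • ((c1 * c2 ^ 2) • (γᵀ * (U2ᵀ * S0))
        - d c1 • (U1ᵀ * S0)) := by
      rw [← v1, smul_smul, inv_mul_cancel₀ hc1, one_smul]
    rw [a1, row_smul dY _ hwF, Matrix.mul_smul, a2, zero_add, smul_sub, smul_sub, smul_smul,
      smul_smul, smul_smul, smul_smul, neg_smul, sub_eq_add_neg]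
    congr 2
    · field_simp
    · congr 1
      ring
  · have a1 : (I1 arm F S0 U1 U2 (X, β, γ) + (c2 / c1) • I2 arm F S0 U1 U2 (X, β, γ)).2.2.2
        = -(βᵀ * (U1ᵀ * S0)) + (c2 / c1) • (0 : Matrix n2 δ K) := rfl
    have a2 : U2ᵀ * (Fᵀ * J * w.map dY) = c2⁻¹ • (-((c1 * c2 ^ 2) • (βᵀ * (U1ᵀ * S0)))) := by
      rw [← v2, smul_smul, inv_mul_cancel₀ hc2, one_smul]
    rw [a1, row_smul dY _ hwF, Matrix.mul_smul, a2, smul_zero, add_zero, zero_smul, add_zero,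
      smul_neg, smul_neg, smul_smul, smul_smul]
    have a3 : (c1 * c2)⁻¹ * c2⁻¹ * (c1 * c2 ^ 2) = 1 := by field_simp
    rw [a3, one_smul]

end Crest.Agent.R172.SUX6w946
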