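import Crest.Agent.R172.SInst
import Crest.Agent.R172.SDec

/-!
Row 172 (S0260), (t2), `Lev2`, leaf B3: uniqueness of the corrections (perfect → nilpotent).
-/

set_option autoImplicit false
set_option linter.unusedSectionVars false
set_option linter.unusedFintypeInType false
set_option linter.unusedDecidableInType false
set_option linter.unusedVariables false

namespace Crest.Agent.R172.SUniq803

open Module Matrix Crest.Agent.R172.FO Crest.Agent.R172.Qt Crest.Agent.R172.SpS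
open Crest.Agent.R172.SBlk Crest.Agent.R172.UBlk Crest.Agent.R172.STop Crest.Agent.R172.SEnd2
open Crest.Agent.R172.SCM Crest.Agent.R172.SInst
open Crest.Agent.R172.Om (Kiso)
open Crest.Agent.R172.PL (CoreM Ainf)

section abs

variable {K : Type*} [Field K]

/-- **perfect → nilpotent** -/
theorem perf_nil {n m : Type*} [Fintype n] [Fintype m] [DecidableEq n] [DecidableEq m]
    {A : Fin 3 → Matrix n n K} {a : Fin 3 → Matrix m m K} {R : Submodule K (n → K)}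
    (hperf : ∀ x : m → K, ∃ y : Fin 3 → (m → K), x = ∑ s, a s *ᵥ y s)
    (hkills : ∃ N, ∀ w : List (Fin 3), N ≤ w.length → ∀ r ∈ R,
      (w.map fun s => (A s).mulVecLin).prod r = 0)
    {δ : Matrix n m K} (hδ : ∀ x, δ *ᵥ x ∈ R) {c : K} (hc : c ≠ 0)
    (h : ∀ s, A s * δ + c • (δ * a s) = 0) : δ = 0 := by
  obtain ⟨N, hN⟩ := hkills
  have key : ∀ j, j ≤ N → ∀ x, ∀ w : List (Fin 3), N - j ≤ w.length →
      (w.map fun s => (A s).mulVecLin).prod (δ *ᵥ x) = 0 := by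
    intro j
    induction j with
    | zero => intro _ x w hw; exact hN w (by omega) _ (hδ x)
    | succ j ih =>
      intro hj x w hw
      obtain ⟨y, hy⟩ := hperf x
      have h1 : δ *ᵥ x = -c⁻¹ • ∑ s, A s *ᵥ (δ *ᵥ y s) := by
        have h2 : ∀ s, A s *ᵥ (δ *ᵥ y s) = -c • (δ *ᵥ (a s *ᵥ y s)) := by
          intro s
          have h3 := congrArg (fun X => X *ᵥ y s) (h s)
          simp only [add_mulVec, smul_mulVec, zero_mulVec, ← mulVec_mulVec] at h3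
          rw [neg_smul]
          exact eq_neg_of_add_eq_zero_left h3
        rw [Finset.sum_congr rfl fun s _ => h2 s, ← Finset.smul_sum, ← mulVec_sum, ← hy,
          smul_smul]
        have h4 : -c⁻¹ * -c = 1 := by rw [neg_mul_neg, inv_mul_cancel₀ hc]
        rw [h4, one_smul]
      rw [h1, map_smul, map_sum]
      have h5 : ∀ s, (w.map fun s => (A s).mulVecLin).prod (A s *ᵥ (δ *ᵥ y s)) = 0 := by
        intro s
        have h6 := ih (by omega) (y s) (w ++ [s]) (by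
          rw [List.length_append, List.length_singleton]; omega)
        rw [List.map_append, List.prod_append, List.map_singleton, List.prod_singleton,
          Module.End.mul_apply] at h6
        exact h6
      rw [Finset.sum_eq_zero fun s _ => h5 s, smul_zero]
  have h0 : ∀ x, δ *ᵥ x = 0 := fun x => by
    have := key N le_rfl x [] (by simp)
    simpa using this
  ext i j
  have := congrFun (h0 (Pi.single j 1)) i
  simpa using this

end abs

variable {ι : Type} [Fintype ι] [DecidableEq ι] {δ : Type} [Fintype δ] [DecidableEq δ]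
variable {K : Type} [Field K] [Algebra ℂ K] [IsAlgClosed K]
variable {arm : δ → Fin 3} {J : Matrix ι ι K} {B : Matrix δ δ K} {N W : Submodule K (Matrix ι δ K)}
  {F f : Matrix ι δ K} {P : Matrix ι ι K × (Fin 3 → Matrix ι ι K)} {R : Matrix δ ι K}
  {D : End K (CoreM (PhS arm J B F R P.1))} {l : Fin 3 → ℕ}

/-- frames are perfect -/
theorem frame_perf (S : Setup arm J B N W F f P R D l) {ν : K} {m : ℕ}
    {U : Matrix δ (Fin m) K} {a : Fin 3 → Matrix (Fin m) (Fin m) K}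
    (hspan : ∀ u ∈ QQb S ν, ∃ x, u = U *ᵥ x) (hmem : ∀ x, U *ᵥ x ∈ QQb S ν)
    (hinj : ∀ x, U *ᵥ x = 0 → x = 0)
    (ha : ∀ s, B * E K arm s * (Fᵀ * J * (P.1 * F)) * U = U * a s) (x : Fin m → K) :
    ∃ y : Fin 3 → (Fin m → K), x = ∑ s, a s *ᵥ y s := by
  obtain ⟨c, hc, hs⟩ := Qb_exists (ctx S) S.hR S.hD (hmem x)
  choose y hy using fun s => hspan (c s) (hc s)
  refine ⟨y, ?_⟩
  have h1 : U *ᵥ (x - ∑ s, a s *ᵥ y s) = 0 := by
    rw [mulVec_sub, mulVec_sum, ← hs, sub_eq_zero]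
    refine Finset.sum_congr rfl fun s _ => ?_
    rw [mulVec_mulVec, ← ha s, ← mulVec_mulVec, ← hy s]
    rfl
  exact sub_eq_zero.1 (hinj _ h1)

/-- `Cᵀ` is injective if `C` is onto -/
theorem inj_of_onto {n m : ℕ} {C : Matrix (Fin n) (Fin m) K} (hC : ∀ y, ∃ x, C *ᵥ x = y)
    {v : Fin n → K} (hv : Cᵀ *ᵥ v = 0) : v = 0 := by
  apply dotProduct_eq_zero
  intro w
  obtain ⟨x, rfl⟩ := hC w
  rw [dotProduct_mulVec, ← mulVec_transpose, hv, zero_dotProduct]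

/-- **uniqueness** of the correction `β` -/
theorem uniq (S : Setup arm J B N W F f P R D l) {ν1 ν2 : K} {n1 : ℕ}
    {Q1 : Matrix ι (Fin n1) K} {A1 : Fin 3 → Matrix (Fin n1) (Fin n1) K}
    (b1 : BPkg arm J B F R P.1 D ν1 l Q1 A1) {m1 m2 : ℕ}
    {U1 : Matrix δ (Fin m1) K} {a1 : Fin 3 → Matrix (Fin m1) (Fin m1) K}
    (hU1 : UFr.Cq (QQb S ν1) U1)
    (hspan1 : ∀ u ∈ QQb S ν1, ∃ x, u = U1 *ᵥ x) (hmem1 : ∀ x, U1 *ᵥ x ∈ QQb S ν1)
    (ha1 : ∀ s, B * E K arm s * (Fᵀ * J * (P.1 * F)) * U1 = U1 * a1 s)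
    {U2 : Matrix δ (Fin m2) K} {a2 : Fin 3 → Matrix (Fin m2) (Fin m2) K}
    (hspan2 : ∀ u ∈ QQb S ν2, ∃ x, u = U2 *ᵥ x) (hmem2 : ∀ x, U2 *ᵥ x ∈ QQb S ν2)
    (hinj2 : ∀ x, U2 *ᵥ x = 0 → x = 0)
    (ha2 : ∀ s, B * E K arm s * (Fᵀ * J * (P.1 * F)) * U2 = U2 * a2 s)
    {β : Matrix (Fin m1) (Fin m2) K} {c : K} (hc : c ≠ 0)
    (rb : (U1ᵀ * (Fᵀ * J * (P.1 * F)) * U1) * β = 0)
    (cb : ∀ s, F * U1 * (a1 s * β + c • (β * a2 s)) = 0) :
    F * U1 * β = 0 ∧ (Fᵀ * J * (P.1 * F)) * U1 * β = 0 ∧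
      ∀ X : Matrix ι ι K, Fᵀ * J * (X * F) * U1 * β = 0 := by
  obtain ⟨C, h1, h2, h3, h4, h5⟩ := exists_C S b1 hU1 hspan1 hmem1 ha1
  have hδ0 : (Q1ᵀ * (J * P.1) * Q1) * (C * β) = 0 := by
    rw [← h5] at rb
    have e : Cᵀ * ((Q1ᵀ * (J * P.1) * Q1) * (C * β)) = 0 := by
      rw [← rb]; simp only [Matrix.mul_assoc]
    ext i j
    have h6 : (fun i => ((Q1ᵀ * (J * P.1) * Q1) * (C * β)) i j) = 0 := by
      apply inj_of_onto h2
      funext i
      exact congrFun (congrFun e i) j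
    exact congrFun h6 i
  have hC : C * β = 0 := by
    refine perf_nil (A := A1) (a := a2) (frame_perf S hspan2 hmem2 hinj2 ha2) b1.blk.kills
      (fun x => ?_) hc fun s => ?_
    · rw [LinearMap.mem_ker, mulVecLin_apply, mulVec_mulVec, hδ0, zero_mulVec]
    · have e : Q1 * (A1 s * (C * β) + c • (C * β * a2 s)) = 0 := by
        rw [← cb s, h1]
        rw [← Matrix.mul_assoc (A1 s), h3 s]
        simp only [Matrix.mul_add, Matrix.mul_smul, Matrix.mul_assoc]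
      ext i j
      have h6 : (fun i => (A1 s * (C * β) + c • (C * β * a2 s)) i j) = 0 := by
        apply b1.inj
        funext i
        exact congrFun (congrFun e i) j
      exact congrFun h6 i
  have hF : F * U1 * β = 0 := by
    rw [h1, Matrix.mul_assoc, hC, Matrix.mul_zero]
  refine ⟨hF, ?_, fun X => ?_⟩
  · calc (Fᵀ * J * (P.1 * F)) * U1 * β = Fᵀ * J * P.1 * (F * U1 * β) := by
          simp only [Matrix.mul_assoc]
      _ = 0 := by rw [hF, Matrix.mul_zero]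
  · calc Fᵀ * J * (X * F) * U1 * β = Fᵀ * J * X * (F * U1 * β) := by
          simp only [Matrix.mul_assoc]
      _ = 0 := by rw [hF, Matrix.mul_zero]

/-- `uniq` without a package -/
theorem uniq' (S : Setup arm J B N W F f P R D l) {ν1 ν2 : K} {m1 m2 : ℕ}
    {U1 : Matrix δ (Fin m1) K} {a1 : Fin 3 → Matrix (Fin m1) (Fin m1) K}
    (hU1 : UFr.Cq (QQb S ν1) U1)
    (hspan1 : ∀ u ∈ QQb S ν1, ∃ x, u = U1 *ᵥ x) (hmem1 : ∀ x, U1 *ᵥ x ∈ QQb S ν1)
    (ha1 : ∀ s, B * E K arm s * (Fᵀ * J * (P.1 * F)) * U1 = U1 * a1 s)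
    {U2 : Matrix δ (Fin m2) K} {a2 : Fin 3 → Matrix (Fin m2) (Fin m2) K}
    (hspan2 : ∀ u ∈ QQb S ν2, ∃ x, u = U2 *ᵥ x) (hmem2 : ∀ x, U2 *ᵥ x ∈ QQb S ν2)
    (hinj2 : ∀ x, U2 *ᵥ x = 0 → x = 0)
    (ha2 : ∀ s, B * E K arm s * (Fᵀ * J * (P.1 * F)) * U2 = U2 * a2 s)
    {β : Matrix (Fin m1) (Fin m2) K} {c : K} (hc : c ≠ 0)
    (rb : (U1ᵀ * (Fᵀ * J * (P.1 * F)) * U1) * β = 0)
    (cb : ∀ s, F * U1 * (a1 s * β + c • (β * a2 s)) = 0) :
    F * U1 * β = 0 ∧ (Fᵀ * J * (P.1 * F)) * U1 * β = 0 ∧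
      ∀ X : Matrix ι ι K, Fᵀ * J * (X * F) * U1 * β = 0 := by
  by_cases hν : D.maxGenEigenspace ν1 = ⊥
  · have hF1 : F * U1 = 0 := by
      ext i j
      have h1 : gS F (fun d => U1 d j) ∈ SC.PB (PhS arm J B F R P.1) D ν1 := by
        rw [← Qb_map (ctx S) S.hR S.hD ν1]; exact ⟨_, hU1 j, rfl⟩
      rw [PB_bot S.hD.2 hν, Submodule.mem_bot] at h1
      have h2 := congrArg (fun v : SpS.Sg F => (v : ι → K)) h1
      exact congrFun h2 i
    have hF : F * U1 * β = 0 := by rw [hF1, Matrix.zero_mul]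
    refine ⟨hF, ?_, fun X => ?_⟩
    · calc (Fᵀ * J * (P.1 * F)) * U1 * β = Fᵀ * J * P.1 * (F * U1 * β) := by
            simp only [Matrix.mul_assoc]
        _ = 0 := by rw [hF, Matrix.mul_zero]
    · calc Fᵀ * J * (X * F) * U1 * β = Fᵀ * J * X * (F * U1 * β) := by
            simp only [Matrix.mul_assoc]
        _ = 0 := by rw [hF, Matrix.mul_zero]
  · obtain ⟨n, Q, A, b1⟩ := S.pkg ν1 hν
    exact uniq S b1 hU1 hspan1 hmem1 ha1 hspan2 hmem2 hinj2 ha2 hc rb cb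

/-- membership of all combinations -/
theorem mem_of_Cq {Q : Submodule K (δ → K)} {m : ℕ} {U : Matrix δ (Fin m) K}
    (hU : UFr.Cq Q U) (x : Fin m → K) : U *ᵥ x ∈ Q := by
  have h1 : U *ᵥ x = ∑ j, x j • (fun d => U d j) := by
    funext d
    rw [Finset.sum_apply]
    unfold Matrix.mulVec dotProduct
    exact Finset.sum_congr rfl fun j _ => by
      rw [Pi.smul_apply, smul_eq_mul, mul_comm]
  rw [h1]
  exact Submodule.sum_mem _ fun j _ => Submodule.smul_mem _ _ (hU j)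

/-- **uniqueness of the decorations** (letters of `SDec.Geo2`) -/
theorem dec_uniq (S : Setup arm J B N W F f P R D l) {ν ν' : K}
    {m1 m2 : ℕ} {U1 : Matrix δ (Fin m1) K} {U2 : Matrix δ (Fin m2) K}
    {a1 : Fin 3 → Matrix (Fin m1) (Fin m1) K} {a2 : Fin 3 → Matrix (Fin m2) (Fin m2) K}
    (hU1 : UFr.Cq (UBlk.Qb (S.hCtx F S.hF).data S.hR P.1 D ν) U1)
    (hspan1 : ∀ u ∈ UBlk.Qb (S.hCtx F S.hF).data S.hR P.1 D ν, ∃ x, u = U1 *ᵥ x)
    (hinj1 : ∀ x, U1 *ᵥ x = 0 → x = 0)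
    (ha1 : ∀ s, B * E K arm s * (Fᵀ * J * (P.1 * F)) * U1 = U1 * a1 s)
    (hU2 : UFr.Cq (UBlk.Qb (S.hCtx F S.hF).data S.hR P.1 D ν') U2)
    (hspan2 : ∀ u ∈ UBlk.Qb (S.hCtx F S.hF).data S.hR P.1 D ν', ∃ x, u = U2 *ᵥ x)
    (hinj2 : ∀ x, U2 *ᵥ x = 0 → x = 0)
    (ha2 : ∀ s, B * E K arm s * (Fᵀ * J * (P.1 * F)) * U2 = U2 * a2 s)
    {c : K} (hc : c ≠ 0) {y y' : SUX.D3 K (Fin m1) (Fin m2)}
    (hy : SDec.Dec F (Fᵀ * J * (P.1 * F)) U1 U2 a1 a2 c y)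
    (hy' : SDec.Dec F (Fᵀ * J * (P.1 * F)) U1 U2 a1 a2 c y') (hX : y.1 = y'.1) :
    (F * U1 * y.2.1 = F * U1 * y'.2.1 ∧
      ∀ X : Matrix ι ι K, Fᵀ * J * (X * F) * U1 * y.2.1 = Fᵀ * J * (X * F) * U1 * y'.2.1) ∧
    (F * U2 * y.2.2 = F * U2 * y'.2.2 ∧
      ∀ X : Matrix ι ι K, Fᵀ * J * (X * F) * U2 * y.2.2 = Fᵀ * J * (X * F) * U2 * y'.2.2) := by
  have hb := uniq' S (ν1 := ν) (ν2 := ν') hU1 hspan1 (mem_of_Cq hU1) ha1 hspan2
    (mem_of_Cq hU2) hinj2 ha2 (β := y.2.1 - y'.2.1) hc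
    (by rw [Matrix.mul_sub, hy.rb, hy'.rb, sub_zero])
    (fun s => by
      have e1 := hy.cb s
      have e2 := hy'.cb s
      rw [hX] at e1
      have e3 := sub_eq_zero.2 (e1.trans e2.symm)
      rw [← e3, ← Matrix.mul_sub, ← Matrix.mul_sub, Matrix.mul_assoc]
      congr 2
      simp only [Matrix.mul_sub, Matrix.sub_mul, smul_sub]
      abel)
  have hk := uniq' S (ν1 := ν') (ν2 := ν) hU2 hspan2 (mem_of_Cq hU2) ha2 hspan1
    (mem_of_Cq hU1) hinj1 ha1 (β := y.2.2 - y'.2.2) (inv_ne_zero hc)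
    (by rw [Matrix.mul_sub, hy.rk, hy'.rk, sub_zero])
    (fun s => by
      have e1 := hy.ck s
      have e2 := hy'.ck s
      rw [hX] at e1
      have e3 := sub_eq_zero.2 (e1.trans e2.symm)
      have e4 : F * (U2 * (c • (a2 s * (y.2.2 - y'.2.2)) + (y.2.2 - y'.2.2) * a1 s)) = 0 := by
        rw [← e3, ← Matrix.mul_sub, ← Matrix.mul_sub]
        congr 2
        simp only [Matrix.mul_sub, Matrix.sub_mul, smul_sub]
        abel
      have e5 : a2 s * (y.2.2 - y'.2.2) + c⁻¹ • ((y.2.2 - y'.2.2) * a1 s) =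
          c⁻¹ • (c • (a2 s * (y.2.2 - y'.2.2)) + (y.2.2 - y'.2.2) * a1 s) := by
        rw [smul_add, smul_smul, inv_mul_cancel₀ hc, one_smul]
      rw [e5, Matrix.mul_smul, Matrix.mul_assoc, e4, smul_zero])
  refine ⟨⟨?_, fun X => ?_⟩, ?_, fun X => ?_⟩
  · rw [← sub_eq_zero, ← Matrix.mul_sub]; exact hb.1
  · rw [← sub_eq_zero, ← Matrix.mul_sub]; exact hb.2.2 X
  · rw [← sub_eq_zero, ← Matrix.mul_sub]; exact hk.1
  · rw [← sub_eq_zero, ← Matrix.mul_sub]; exact hk.2.2 X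

end Crest.Agent.R172.SUniq803
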