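import Crest.Agent.R172.SMv16
import Crest.Agent.R172.SB2H16
import Crest.Agent.R172.SNabI934
import Crest.Agent.R172.SInf659
import Crest.Agent.R172.SKer826
import Crest.Agent.R172.SDec2
import Crest.Agent.R172.STop
import Crest.Agent.R172.SUniq803
import Crest.Agent.R172.SUX6w946
import Crest.Agent.R172.SUX6t515
import Crest.Agent.R172.PTy

/-!
Row 172 (S0260), S-side (t2), level 2, geometric half: the moves of `Geo22` in `Setup` letters.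
-/

set_option autoImplicit false
set_option linter.unusedSectionVars false
set_option linter.unusedVariables false
set_option maxHeartbeats 1600000

namespace Crest.Agent.R172.SG213

open Matrix Module Crest.Agent.R172.FO Crest.Agent.R172.Qt Crest.Agent.R172.SpS
open Crest.Agent.R172.SEnd2 (PC PhS)
open Crest.Agent.R172.Om (Kiso)
open Crest.Agent.R172.SUX (D3 th ZY wd Mv Fr K1 I1 I2 QQ5)
open Crest.Agent.R172.PL (CoreM Ainf)
open Crest.Agent.R172.UBlk (Qb Qb_stable Qb_exists Qb_rel Qb_orth Qb_H cov)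
open Crest.Agent.R172.SUB (nab H_nab F_nab dv_smul)
open Crest.Agent.R172.SMv16 (Yf Yf_symm exists_mv)
open Crest.Agent.R172.SDec (Dec ZB Rel2)
open Crest.Agent.R172.STop (Setup)

section third

variable {ι : Type*} [Fintype ι] [DecidableEq ι] {δ : Type*} [Fintype δ] [DecidableEq δ]
variable {k K : Type*} [Field k] [Field K] [Algebra k K]
variable {arm : δ → Fin 3} {J : Matrix ι ι K} {B : Matrix δ δ K}
  {N W : Submodule K (Matrix ι δ K)} {g f : Matrix ι δ K}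
  {p : Matrix ι ι K × (Fin 3 → Matrix ι ι K)}

/-- values of `wd w` on a block that is preserved by the connection -/
theorem third_val {Q : Submodule K (δ → K)} {c a : K} {Pt : Matrix ι ι K × (Fin 3 → Matrix ι ι K)}
    (hHW : g + a • f ∈ W) (hQ : ∀ u ∈ Q, (g + a • f) *ᵥ u = c • (g *ᵥ u)) (hc : c ≠ 0)
    {Y : Fin 3 → Matrix δ δ K} {d : Derivation k K K}
    (m : Mv k arm J N W (g + a • f) Pt.1 Y d)
    (h3 : ∀ u ∈ Q, nab arm J (g + a • f) Pt.1 Y d u ∈ Q)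
    {w : Matrix ι δ K} {μ : K} (L3 : ∀ u ∈ Q, w *ᵥ u = μ • (g *ᵥ u)) {u : δ → K} (hu : u ∈ Q) :
    wd arm J (g + a • f) Pt.1 Y d w *ᵥ u = (d μ - μ * (d c / c)) • (g *ᵥ u) := by
  have a1 := H_nab m u
  rw [hQ u hu, hQ _ (h3 u hu), dv_smul] at a1
  have a2 : dv d (g *ᵥ u) = g *ᵥ nab arm J (g + a • f) Pt.1 Y d u - (d c / c) • (g *ᵥ u) := by
    have a3 : c • dv d (g *ᵥ u) =
        c • (g *ᵥ nab arm J (g + a • f) Pt.1 Y d u) - d c • (g *ᵥ u) := eq_sub_of_add_eq a1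
    have a4 := congrArg (fun x => c⁻¹ • x) a3
    simp only [smul_smul, smul_sub, inv_mul_cancel₀ hc, one_smul] at a4
    rw [a4, div_eq_inv_mul]
  have a5 := F_nab (arm := arm) (J := J) (H := g + a • f) (Y := Y) (d := d) Pt.1 w u
  rw [L3 u hu, L3 _ (h3 u hu), dv_smul, a2] at a5
  have a6 : wd arm J (g + a • f) Pt.1 Y d w *ᵥ u =
      (μ • (g *ᵥ nab arm J (g + a • f) Pt.1 Y d u - (d c / c) • (g *ᵥ u)) + d μ • (g *ᵥ u)) -
        μ • (g *ᵥ nab arm J (g + a • f) Pt.1 Y d u) := by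
    rw [a5]; abel
  rw [a6]
  module

end third

variable {ι : Type} [Fintype ι] [DecidableEq ι] {δ : Type} [Fintype δ] [DecidableEq δ]
variable {K : Type} [Field K] [Algebra ℂ K] [IsAlgClosed K]
variable {arm : δ → Fin 3} {J : Matrix ι ι K} {B : Matrix δ δ K}
  {N W : Submodule K (Matrix ι δ K)} {F f : Matrix ι δ K}
  {P : Matrix ι ι K × (Fin 3 → Matrix ι ι K)} {R : Matrix δ ι K}
  {D : End K (CoreM (PhS arm J B F R P.1))} {l : Fin 3 → ℕ}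

/-- the corrections: scalar on the third blocks -/
def Wc (S : Setup arm J B N W F f P R D l) (ν ν' : K) : Submodule K (Matrix ι δ K) where
  carrier := {w | w ∈ W ∧ ∀ κ : K, κ ≠ ν → κ ≠ ν' → ∃ μ : K,
    ∀ u ∈ Qb (S.hCtx F S.hF).data S.hR P.1 D κ, w *ᵥ u = μ • (F *ᵥ u)}
  zero_mem' := ⟨W.zero_mem, fun κ _ _ => ⟨0, fun u _ => by simp⟩⟩
  add_mem' := by
    rintro w w' ⟨h1, h2⟩ ⟨h1', h2'⟩
    refine ⟨W.add_mem h1 h1', fun κ hκ hκ' => ?_⟩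
    obtain ⟨m, hm⟩ := h2 κ hκ hκ'
    obtain ⟨m', hm'⟩ := h2' κ hκ hκ'
    exact ⟨m + m', fun u hu => by rw [add_mulVec, hm u hu, hm' u hu, add_smul]⟩
  smul_mem' := by
    rintro c w ⟨h1, h2⟩
    refine ⟨W.smul_mem c h1, fun κ hκ hκ' => ?_⟩
    obtain ⟨m, hm⟩ := h2 κ hκ hκ'
    exact ⟨c * m, fun u hu => by rw [smul_mulVec, hm u hu, smul_smul]⟩

/-- everything known about one move -/
structure MD (S : Setup arm J B N W F f P R D l) (dY : Derivation ℂ K K) (ν ν' : K)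
    {m1 m2 : ℕ} (U1 : Matrix δ (Fin m1) K) (U2 : Matrix δ (Fin m2) K)
    (a1 : Fin 3 → Matrix (Fin m1) (Fin m1) K) (a2 : Fin 3 → Matrix (Fin m2) (Fin m2) K)
    (X : Fin 3 → Matrix (Fin m2) (Fin m1) K) (a : K)
    (Pt : Matrix ι ι K × (Fin 3 → Matrix ι ι K)) (d : Derivation ℂ K K)
    (Γ1 : Matrix (Fin m1) (Fin m1) K) (Γ2 : Matrix (Fin m2) (Fin m2) K)
    (β : Matrix (Fin m1) (Fin m2) K) (γ : Matrix (Fin m2) (Fin m1) K) : Prop where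
  hc : ∀ κ, Qb (S.hCtx F S.hF).data S.hR P.1 D κ ≠ ⊥ → 1 + a * κ ≠ 0
  hH : F + a • f ∈ Kiso J N W
  hPt : Pt ∈ NN arm J N (F + a • f)
  m : Mv ℂ arm J N W (F + a • f) Pt.1 (Yf U1 U2 X) d
  fr : Fr J F (F + a • f) Pt.1 (Fᵀ * J * (P.1 * F)) (1 + a * ν) (1 + a * ν') U1 U2
  k1 : K1 J F (F + a • f) Pt.1 (Fᵀ * J * (P.1 * F)) (1 + a * ν) U1 U2
    ((ν - ν')⁻¹ • (f - ν' • F))
  N2 : U2.map d + ZY arm J (F + a • f) Pt.1 (Yf U1 U2 X) * U2 =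
    U2 * Γ2 + (1 + a * ν') ^ 2 • (U1 * β)
  N1 : U1.map d + ZY arm J (F + a • f) Pt.1 (Yf U1 U2 X) * U1 =
    U1 * Γ1 + (1 + a * ν) ^ 2 • (U2 * γ)
  dec : Dec F (Fᵀ * J * (P.1 * F)) U1 U2 a1 a2 (-(((1 + a * ν') / (1 + a * ν)) ^ 2)) (X, β, γ)
  third : ∀ κ, κ ≠ ν → κ ≠ ν' → ∀ u ∈ Qb (S.hCtx F S.hF).data S.hR P.1 D κ,
    nab arm J (F + a • f) Pt.1 (Yf U1 U2 X) d u ∈ Qb (S.hCtx F S.hF).data S.hR P.1 D κ
  hrow : ∀ w : Matrix ι δ K, (F + a • f)ᵀ * J * w = 0 →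
    (F + a • f)ᵀ * J * (Pt.1 * w) = (F + a • f)ᵀ * J * w.map dY

/-- **the moves** -/
theorem exists_MD (S : Setup arm J B N W F f P R D l) {ν ν' : K} (hne : ν ≠ ν')
    {m1 m2 : ℕ} {U1 : Matrix δ (Fin m1) K} {U2 : Matrix δ (Fin m2) K}
    {a1 : Fin 3 → Matrix (Fin m1) (Fin m1) K} {a2 : Fin 3 → Matrix (Fin m2) (Fin m2) K}
    (hU1 : UFr.Cq (Qb (S.hCtx F S.hF).data S.hR P.1 D ν) U1)
    (hs1 : ∀ u ∈ Qb (S.hCtx F S.hF).data S.hR P.1 D ν, ∃ x, u = U1 *ᵥ x)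
    (ha1 : ∀ s, B * E K arm s * (Fᵀ * J * (P.1 * F)) * U1 = U1 * a1 s)
    (hU2 : UFr.Cq (Qb (S.hCtx F S.hF).data S.hR P.1 D ν') U2)
    (hs2 : ∀ u ∈ Qb (S.hCtx F S.hF).data S.hR P.1 D ν', ∃ x, u = U2 *ᵥ x)
    (ha2 : ∀ s, B * E K arm s * (Fᵀ * J * (P.1 * F)) * U2 = U2 * a2 s) :
    ∃ (dY : Derivation ℂ K K) (bad : Set ℂ), bad.Finite ∧ ∀ t ∉ bad,
      1 + algebraMap ℂ K t * ν ≠ 0 → 1 + algebraMap ℂ K t * ν' ≠ 0 →
      ∀ X : Fin 3 → Matrix (Fin m2) (Fin m1) K,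
      ∑ s, (X s * (a1 s)ᵀ - (-(((1 + algebraMap ℂ K t * ν') / (1 + algebraMap ℂ K t * ν)) ^ 2)) •
        (a2 s * X s)) = 0 →
      (∀ s, (U2ᵀ * (Fᵀ * J * (P.1 * F)) * U2) * (X s * (a1 s)ᵀ -
        (-(((1 + algebraMap ℂ K t * ν') / (1 + algebraMap ℂ K t * ν)) ^ 2)) • (a2 s * X s)) *
          (U1ᵀ * (Fᵀ * J * (P.1 * F)) * U1) = 0) →
      ∃ Pt d Γ1 Γ2 β γ, MD S dY ν ν' U1 U2 a1 a2 X (algebraMap ℂ K t) Pt d Γ1 Γ2 β γ := by
  have h := S.hCtx F S.hF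
  have h2 : (2 : K) ≠ 0 := by
    have : CharZero K := charZero_of_injective_algebraMap (algebraMap ℂ K).injective
    exact two_ne_zero
  have hff : fᵀ * J * f = 0 := S.hf.2 f S.hf.1
  obtain ⟨Y0, dY, hY0, hr, hform, hfam⟩ := PTy.exists_family (k := ℂ) h2 S.hCtx S.hNm S.hWm S.hF
    S.hf S.hV1 S.hP S.hV2
  obtain ⟨B1, hB1, hA⟩ := SInf659.ainf_eq h2 S.hCtx S.hNm S.hWm S.hNil S.hF S.hf S.hV1 S.hP hform
  obtain ⟨B2, hB2, hB2'⟩ := SNabI.exists_bad (k := ℂ) h S.hR S.hD h2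
  refine ⟨dY, B1 ∪ B2 ∪ {0}, (hB1.union hB2).union (Set.finite_singleton 0), ?_⟩
  intro t ht hc1 hc2 X hsum harm
  rw [Set.mem_union, Set.mem_union, not_or, not_or] at ht
  obtain ⟨⟨ht1, ht2⟩, ht3⟩ := ht
  have ht0 : t ≠ 0 := fun h0 => ht3 (by rw [h0]; rfl)
  obtain ⟨Pt, hPt, hV, hY, hPF, hrw⟩ := hfam t
  obtain ⟨hc, hom⟩ := hB2' t ht2
  set a : K := algebraMap ℂ K t with ha
  have ha0 : a ≠ 0 := by
    rw [ha]; exact (map_ne_zero (algebraMap ℂ K)).2 ht0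
  have hH : F + a • f ∈ Kiso J N W :=
    (Kiso J N W).add_mem S.hF ((Kiso J N W).smul_mem _ S.hf)
  have hCH := S.hCtx _ hH
  obtain ⟨Ri, hRi⟩ := FO.exists_gen_inv (F + a • f)
  have hNil := S.hNil F S.hF
  have fr := UFr.fr h S.hR S.hD hNil S.hP S.hf.1 hff hY hPF hne hc1 hc2 hU1 hU2
  have hk1 := UFr.k1 h S.hR S.hD hNil S.hP S.hf.1 hff hY hPF hne hU1 hU2
  obtain ⟨d, m⟩ := exists_mv hCH h2 hRi hPt hV fr ha1 ha2 rfl hsum
  have hA' := (hA t ht1 Pt hPt hY hPF).le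
  obtain ⟨i1, i2, i3⟩ := SNabI.B1 h S.hR S.hD hNil S.hP S.hf.1 hff hCH hPt hY hPF hA' hc hom
    (Y := Yf U1 U2 X) Yf_symm m hne hU1 hU2 hs1 hs2 ha1 ha2 (fun r => rfl) (fun r => by
      have e := harm r
      have e2 : (1 + a * ν) ^ 2 • (X r * (a1 r)ᵀ) + (1 + a * ν') ^ 2 • (a2 r * X r) =
          (1 + a * ν) ^ 2 • (X r * (a1 r)ᵀ -
            (-(((1 + a * ν') / (1 + a * ν)) ^ 2)) • (a2 r * X r)) := by
        have hr2 : (1 + a * ν) ^ 2 * ((1 + a * ν') / (1 + a * ν)) ^ 2 = (1 + a * ν') ^ 2 := by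
          rw [← mul_pow, mul_div_cancel₀ _ hc1]
        rw [smul_sub, neg_smul, smul_neg, sub_neg_eq_add, smul_smul, hr2]
      rw [e2, Matrix.mul_smul, Matrix.smul_mul, e, smul_zero])
  have hρ0 : 1 + a * ν ≠ 1 + a * ν' := by
    intro h3
    have h4 : a * (ν - ν') = 0 := by linear_combination h3
    rcases mul_eq_zero.1 h4 with h5 | h5
    · exact ha0 h5
    · exact hne (sub_eq_zero.1 h5)
  obtain ⟨Γ1, Γ2, β, γ, e2, e1, hdec⟩ := SB2H16.dec_of_B1 hCH hPt m fr hρ0 hU1 hs1 ha1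
    (fun u hu => Qb_exists h S.hR S.hD hu) hU2 hs2 ha2 (fun u hu => Qb_exists h S.hR S.hD hu)
    (fun r => rfl) i1 i2 rfl hsum harm
  refine ⟨Pt, d, Γ1, Γ2, β, γ, ?_, hH, hPt, m, fr, hk1, e2, e1, hdec, i3, ?_⟩
  · intro κ hκ
    refine hc κ fun h3 => hκ ?_
    exact STop.PB_bot ((cov h.data S.hR P.1).D_comm S.hD.2) h3
  · intro w hw
    have e3 := hrw w hw
    have e4 : (Pt.1 * (F + a • f))ᵀ * J * w = -((F + a • f)ᵀ * J * (Pt.1 * w)) := by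
      have hsk : Pt.1ᵀ * J = -(J * Pt.1) := Skw.eq hPt.1
      rw [transpose_mul, Matrix.mul_assoc _ Pt.1ᵀ, hsk]
      simp only [Matrix.mul_neg, Matrix.neg_mul, Matrix.mul_assoc]
    rw [e4] at e3
    exact neg_injective e3

end Crest.Agent.R172.SG213
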