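import Crest.Agent.R172.SLev1h455

/-!
Row 172 (S0260), tame node (t2), LEVEL 1 (copy of helper455): `STop.Lev1`.
-/

set_option autoImplicit false
set_option linter.unusedSectionVars false
set_option linter.unusedVariables false
set_option maxHeartbeats 1000000

namespace Crest.Agent.R172.SLevA455

open Matrix Module TensorProduct Crest.Agent.R172.FO Crest.Agent.R172.Qt
open Crest.Agent.R172.SpS Crest.Agent.R172.SEnd Crest.Agent.R172.SEnd2
open Crest.Agent.R172.Om (Kiso Scal)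
open Crest.Agent.R172.PL (Wk Ainf Rad CoreM coreOp resOp)
open Crest.Agent.R172.SEndW Crest.Agent.R172.SCM Crest.Agent.R172.SCB
open Crest.Agent.R172.SC (PB iSup_PB)
open Crest.Agent.R172.SUX (th wd ZY Mv)
open Crest.Agent.R172.STop (Setup)
open Crest.Agent.R172.SLev0 (PbK bq)
open Crest.Agent.R172.SLevR455 Crest.Agent.R172.SLev1h455

variable {ι : Type} [Fintype ι] [DecidableEq ι] {δ : Type} [Fintype δ] [DecidableEq δ]
variable {K : Type} [Field K] [Algebra ℂ K] [IsAlgClosed K]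
variable {arm : δ → Fin 3} {J : Matrix ι ι K} {B : Matrix δ δ K} {N W : Submodule K (Matrix ι δ K)}
  {F f : Matrix ι δ K} {P : Matrix ι ι K × (Fin 3 → Matrix ι ι K)} {R : Matrix δ ι K}
  {D : End K (CoreM (PhS arm J B F R P.1))} {l : Fin 3 → ℕ}

theorem two_ne (K : Type) [Field K] [Algebra ℂ K] : (2 : K) ≠ 0 := by
  have : CharZero K := charZero_of_injective_algebraMap (algebraMap ℂ K).injective
  exact two_ne_zero

theorem PbK_st (S : Setup arm J B N W F f P R D l) (μ : K) (r : Fin 3) :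
    ∀ c ∈ PbK arm J B F R P.1 D μ,
      (M arm B r F F * (J * P.1)) *ᵥ c ∈ PbK arm J B F R P.1 D μ := by
  intro c hc
  obtain ⟨u, hu, rfl⟩ := mem_PbK S hc
  rw [← SRelC.F_om (S.hCtx F S.hF).data]
  exact map_mem_PbK S (st S μ r u hu)

/-- `QGd ⇒ GoodSW` -/
theorem good_of (S : Setup arm J B N W F f P R D l) {s : Fin 3} {x : Matrix ι ι K}
    (hx : x * (J * P.1) * F * E K arm s ∈ QGd S) :
    x ∈ GoodSW arm J B N W F P (PC arm J B F R P.1) s := by
  have hC := S.hCtx F S.hF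
  obtain ⟨T, q, hq⟩ := SBlk.exists_spec hC S.hR (S.hNil F S.hF) S.hP S.hf.1
  exact SLev0.GoodSW_of_QG hC (two_ne K) S.hR S.hP S.hf.1 hq S.hD PC_im (PC_eq S)
    (fun μ => le_rfl) (fun μ r => PbK_st S μ r) hx

/-- `SLev0.Gens ⇒ STop.Gens` -/
theorem gens_of (S : Setup arm J B N W F f P R D l) {ν ν' : K} {n1 n2 : ℕ}
    {Q1 : Matrix ι (Fin n1) K} {A1 : Fin 3 → Matrix (Fin n1) (Fin n1) K}
    {Q2 : Matrix ι (Fin n2) K} {A2 : Fin 3 → Matrix (Fin n2) (Fin n2) K}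
    (b1 : BPkg arm J B F R P.1 D ν l Q1 A1) (b2 : BPkg arm J B F R P.1 D ν' l Q2 A2)
    (h : SLev0.Gens arm J B F P.1 l (QGd S) (PbK arm J B F R P.1 D ν)
      (PbK arm J B F R P.1 D ν')) : STop.Gens arm J B N W F P R l Q1 A1 Q2 A2 := by
  have hrd : ∀ {μ : K} {n : ℕ} {Q : Matrix ι (Fin n) K} {A : Fin 3 → Matrix (Fin n) (Fin n) K}
      (b : BPkg arm J B F R P.1 D μ l Q A) (x : Fin n → K), (Qᵀ * (J * P.1) * Q) *ᵥ x = 0 →
      Q *ᵥ x ∈ Rd (J * P.1) (PbK arm J B F R P.1 D μ) := by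
    intro μ n Q A b x hx
    refine ⟨SLev0.coord_mem b x, fun c hc => ?_⟩
    obtain ⟨y, rfl⟩ := SLev0.exists_coord b hc
    rw [form_gg, hx, dotProduct_zero]
  intro s
  refine ⟨fun i j hij x y => ?_, fun x y hx => ?_, fun x y hy => ?_⟩
  · have h1 := h.g1 s i j hij _ (SLev0.coord_mem b1 x) _ (SLev0.coord_mem b2 y)
    rw [SLev0.pow_act b1, SLev0.pow_act b2] at h1
    exact good_of S h1
  · exact good_of S (h.g2 s _ (hrd b1 x hx) _ (SLev0.coord_mem b2 y))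
  · exact good_of S (h.g3 s _ (SLev0.coord_mem b1 x) _ (hrd b2 y hy))

/-- the two pairs of blocks, in the letters of `SLev0` -/
theorem gens0 (S : Setup arm J B N W F f P R D l) {ν ν' : K} (hne : ν ≠ ν') {n1 n2 : ℕ}
    {Q1 : Matrix ι (Fin n1) K} {A1 : Fin 3 → Matrix (Fin n1) (Fin n1) K}
    {Q2 : Matrix ι (Fin n2) K} {A2 : Fin 3 → Matrix (Fin n2) (Fin n2) K}
    (b1 : BPkg arm J B F R P.1 D ν l Q1 A1) (b2 : BPkg arm J B F R P.1 D ν' l Q2 A2) :
    SLev0.Gens arm J B F P.1 l (QGd S) (PbK arm J B F R P.1 D ν') (PbK arm J B F R P.1 D ν) ∧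
    SLev0.Gens arm J B F P.1 l (QGd S) (PbK arm J B F R P.1 D ν)
      (PbK arm J B F R P.1 D ν') := by
  set I : K := algebraMap ℂ K Complex.I with hIdef
  have hI : I ^ 2 = -1 := by
    rw [hIdef, ← map_pow, Complex.I_sq, map_neg, map_one]
  have hI0 : I ≠ 0 := by
    intro h
    rw [h] at hI
    norm_num at hI
  obtain ⟨Bad, hBad, hrel⟩ := relation S (two_ne K) hne b1 b2 hI
  let φ : ℂ → K := fun t => I⁻¹ * ((1 + algebraMap ℂ K t * ν') / (1 + algebraMap ℂ K t * ν))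
  have hΛ : (φ '' Badᶜ).Infinite := by
    refine Set.Infinite.image ?_ hBad.infinite_compl
    intro t ht s hs hts
    obtain ⟨⟨h1, h2⟩, -⟩ := hrel t ht
    obtain ⟨⟨h3, h4⟩, -⟩ := hrel s hs
    have h5 : (1 + algebraMap ℂ K t * ν') / (1 + algebraMap ℂ K t * ν) =
        (1 + algebraMap ℂ K s * ν') / (1 + algebraMap ℂ K s * ν) :=
      mul_left_cancel₀ (inv_ne_zero hI0) hts
    rw [div_eq_div_iff h1 h3] at h5
    have h6 : (algebraMap ℂ K t - algebraMap ℂ K s) * (ν' - ν) = 0 := by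
      linear_combination h5
    rcases mul_eq_zero.1 h6 with h7 | h7
    · exact (algebraMap ℂ K).injective (sub_eq_zero.1 h7)
    · exact absurd (sub_eq_zero.1 h7).symm hne
  have h0 : (0 : K) ∉ φ '' Badᶜ := by
    rintro ⟨t, ht, h⟩
    obtain ⟨⟨h1, h2⟩, -⟩ := hrel t ht
    exact (mul_ne_zero (inv_ne_zero hI0) (div_ne_zero h2 h1)) h
  refine SLev0.lev1 b1 b2 hΛ h0 1 (-I) one_ne_zero (neg_ne_zero.2 hI0) (QGd S) ?_
  rintro _ ⟨t, ht, rfl⟩ x hx
  obtain ⟨⟨h1, h2⟩, h3⟩ := hrel t ht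
  refine h3 _ ?_ x hx
  change (1 + algebraMap ℂ K t * ν) * (I * (I⁻¹ * ((1 + algebraMap ℂ K t * ν') /
    (1 + algebraMap ℂ K t * ν)))) = _
  rw [← mul_assoc I, mul_inv_cancel₀ hI0, one_mul, mul_div_cancel₀ _ h1]

/-- **LEVEL 1** -/
theorem lev1 : STop.Lev1 := by
  intro ι _ _ δ _ _ K _ _ _ arm J B N W F f P R D l S ν ν' hne n1 n2 Q1 A1 Q2 A2 b1 b2
  exact gens_of S b1 b2 (gens0 S hne b1 b2).2

end Crest.Agent.R172.SLevA455
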