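import Crest.Agent.R172.STop
import Crest.Agent.R172.SLev0
import Crest.Agent.R172.UFr

/-!
Row 172 (S0260), tame node (t2), level 2: exactness of a family in frame letters and uniqueness of
the decoration (`SDec.Dec`).
-/

set_option autoImplicit false
set_option linter.unusedSectionVars false
set_option linter.unusedVariables false

namespace Crest.Agent.R172.SU170

open Matrix Module Crest.Agent.R172.FO Crest.Agent.R172.Qt Crest.Agent.R172.SpS
open Crest.Agent.R172.SUX (th)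
open Crest.Agent.R172.SCM
open Crest.Agent.R172.PL (CoreM)
open Crest.Agent.R172.SEnd2 (PC PhS)

section exact

variable {ι : Type*} [Fintype ι] [DecidableEq ι] {δ : Type*} [Fintype δ] [DecidableEq δ]
variable {K : Type*} [Field K]
variable {arm : δ → Fin 3} {J : Matrix ι ι K} {B : Matrix δ δ K}
variable {n1 n2 : Type*} [Fintype n1] [Fintype n2]
variable {H F : Matrix ι δ K} {P : Matrix ι ι K} {S0 : Matrix δ δ K} {c1 c2 : K}
  {U1 : Matrix δ n1 K} {U2 : Matrix δ n2 K} {a1 : Fin 3 → Matrix n1 n1 K}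
  {a2 : Fin 3 → Matrix n2 n2 K}

/-- **exactness in frame letters** -/
theorem exact_frames (fr : SUX.Fr J F H P S0 c1 c2 U1 U2) (hS : (th J H P H)ᵀ = -th J H P H)
    (hB : Bᵀ = B) (h1 : ∀ s, B * E K arm s * S0 * U1 = U1 * a1 s)
    (h2 : ∀ s, B * E K arm s * S0 * U2 = U2 * a2 s) {c : K} (hc : c = -((c2 / c1) ^ 2))
    {X : Fin 3 → Matrix n2 n1 K}
    (hX : ∑ s, (X s * (a1 s)ᵀ - c • (a2 s * X s)) = 0) :
    SUX.Exact arm J B H P (fun s => U2 * X s * U1ᵀ + U1 * (X s)ᵀ * U2ᵀ) := by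
  have hc1 := fr.hc1
  have r1 : ∀ s, U1ᵀ * (th J H P H * E K arm s * B) = -(c1 ^ 2 • ((a1 s)ᵀ * U1ᵀ)) := by
    intro s
    have e := congrArg Matrix.transpose (h1 s)
    rw [transpose_mul, transpose_mul, transpose_mul, transpose_mul, hB, E_transpose, fr.skew] at e
    have e2 := congrArg Matrix.transpose fr.S1
    rw [transpose_mul, hS, transpose_smul, transpose_mul, fr.skew, Matrix.mul_neg,
      Matrix.mul_neg, smul_neg, neg_inj] at e2
    rw [← Matrix.mul_assoc, ← Matrix.mul_assoc, e2, ← e]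
    simp only [Matrix.smul_mul, Matrix.mul_assoc, Matrix.neg_mul, Matrix.mul_neg, smul_neg, neg_neg]
  have r2 : ∀ s, U2ᵀ * (th J H P H * E K arm s * B) = -(c2 ^ 2 • ((a2 s)ᵀ * U2ᵀ)) := by
    intro s
    have e := congrArg Matrix.transpose (h2 s)
    rw [transpose_mul, transpose_mul, transpose_mul, transpose_mul, hB, E_transpose, fr.skew] at e
    have e2 := congrArg Matrix.transpose fr.S2
    rw [transpose_mul, hS, transpose_smul, transpose_mul, fr.skew, Matrix.mul_neg,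
      Matrix.mul_neg, smul_neg, neg_inj] at e2
    rw [← Matrix.mul_assoc, ← Matrix.mul_assoc, e2, ← e]
    simp only [Matrix.smul_mul, Matrix.mul_assoc, Matrix.neg_mul, Matrix.mul_neg, smul_neg, neg_neg]
  have l1 : ∀ s, B * E K arm s * th J H P H * U1 = c1 ^ 2 • (U1 * a1 s) := by
    intro s
    rw [Matrix.mul_assoc, fr.S1, Matrix.mul_smul, ← Matrix.mul_assoc, h1 s]
  have l2 : ∀ s, B * E K arm s * th J H P H * U2 = c2 ^ 2 • (U2 * a2 s) := by
    intro s
    rw [Matrix.mul_assoc, fr.S2, Matrix.mul_smul, ← Matrix.mul_assoc, h2 s]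
  have hcc : c1 ^ 2 * c = -(c2 ^ 2) := by
    rw [hc]; field_simp
  have key : ∀ s, (U2 * X s * U1ᵀ + U1 * (X s)ᵀ * U2ᵀ) * th J H P H * E K arm s * B -
      B * E K arm s * th J H P H * (U2 * X s * U1ᵀ + U1 * (X s)ᵀ * U2ᵀ) =
      -(c1 ^ 2 • (U2 * (X s * (a1 s)ᵀ - c • (a2 s * X s)) * U1ᵀ)) -
      (c1 ^ 2 • (U1 * (X s * (a1 s)ᵀ - c • (a2 s * X s))ᵀ * U2ᵀ)) := by
    intro s
    have e1 : (U2 * X s * U1ᵀ + U1 * (X s)ᵀ * U2ᵀ) * th J H P H * E K arm s * B =
        U2 * X s * (U1ᵀ * (th J H P H * E K arm s * B)) +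
        U1 * (X s)ᵀ * (U2ᵀ * (th J H P H * E K arm s * B)) := by
      simp only [Matrix.add_mul, Matrix.mul_assoc]
    have e2 : B * E K arm s * th J H P H * (U2 * X s * U1ᵀ + U1 * (X s)ᵀ * U2ᵀ) =
        (B * E K arm s * th J H P H * U2) * X s * U1ᵀ +
        (B * E K arm s * th J H P H * U1) * (X s)ᵀ * U2ᵀ := by
      simp only [Matrix.mul_add, Matrix.mul_assoc]
    rw [e1, e2, r1, r2, l1, l2]
    simp only [transpose_sub, transpose_smul, transpose_mul, transpose_transpose, Matrix.mul_sub,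
      Matrix.sub_mul, Matrix.mul_neg, Matrix.mul_smul, Matrix.smul_mul, smul_sub, smul_smul, hcc,
      neg_smul, Matrix.mul_assoc]
    abel
  unfold SUX.Exact
  rw [Finset.sum_congr rfl fun s _ => key s, Finset.sum_sub_distrib, Finset.sum_neg_distrib,
    ← Finset.smul_sum, ← Finset.smul_sum, ← Matrix.sum_mul, ← Matrix.sum_mul, ← Matrix.mul_sum,
    ← Matrix.mul_sum, ← transpose_sum, hX]
  simp

end exact

section kill

variable {K : Type*} [Field K] {ι : Type*} [Fintype ι] {δ : Type*} [Fintype δ] {m1 m2 : ℕ}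
variable {Fu : Matrix ι (Fin m1) K} {a1 : Fin 3 → Matrix (Fin m1) (Fin m1) K}
  {a2 : Fin 3 → Matrix (Fin m2) (Fin m2) K} {G1 : Matrix (Fin m1) (Fin m1) K}

/-- **uniqueness** : radical-valued intertwiners of a perfect module vanish. -/
theorem kill {c : K} (hc : c ≠ 0)
    (hperf : ∀ y : Fin m2 → K, ∃ f : Fin 3 → (Fin m2 → K), y = ∑ s, a2 s *ᵥ f s)
    {M : ℕ} (hkill : ∀ x, G1 *ᵥ x = 0 → ∀ w : List (Fin 3), w.length = M →
      Fu *ᵥ ((w.map fun s => (a1 s).mulVecLin).prod x) = 0)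
    (hker : ∀ s x, Fu *ᵥ x = 0 → Fu *ᵥ (a1 s *ᵥ x) = 0)
    {b : Matrix (Fin m1) (Fin m2) K} (h0 : G1 * b = 0)
    (h1 : ∀ s, Fu * (a1 s * b + c • (b * a2 s)) = 0) : Fu * b = 0 := by
  -- `K j = {x | words of length j send x to ker Fu}`
  have step : ∀ j, ∀ y : Fin m2 → K, ∀ w : List (Fin 3), w.length + j = M →
      Fu *ᵥ ((w.map fun s => (a1 s).mulVecLin).prod (b *ᵥ y)) = 0 := by
    intro j
    induction j with
    | zero =>
      intro y w hw
      refine hkill _ ?_ w (by omega)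
      rw [mulVec_mulVec, h0, zero_mulVec]
    | succ j ih =>
      intro y w hw
      obtain ⟨f, rfl⟩ := hperf y
      rw [mulVec_sum, map_sum, mulVec_sum]
      refine Finset.sum_eq_zero fun s _ => ?_
      have e1 : Fu *ᵥ (a1 s *ᵥ (b *ᵥ f s) + c • (b *ᵥ (a2 s *ᵥ f s))) = 0 := by
        have := congrArg (fun A => A *ᵥ f s) (h1 s)
        simp only [zero_mulVec] at this
        rw [← mulVec_mulVec, add_mulVec, smul_mulVec, ← mulVec_mulVec, ← mulVec_mulVec] at this
        exact this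
      have hword : ∀ (w : List (Fin 3)) (x : Fin m1 → K), Fu *ᵥ x = 0 →
          Fu *ᵥ ((w.map fun s => (a1 s).mulVecLin).prod x) = 0 := by
        intro w
        induction w with
        | nil => intro x hx; simpa using hx
        | cons t w ihw =>
          intro x hx
          rw [List.map_cons, List.prod_cons, Module.End.mul_apply, mulVecLin_apply]
          exact hker t _ (ihw x hx)
      have e2 := hword w _ e1
      rw [map_add, mulVec_add, map_smul, mulVec_smul] at e2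
      have e3 : Fu *ᵥ ((w.map fun s => (a1 s).mulVecLin).prod (a1 s *ᵥ (b *ᵥ f s))) = 0 := by
        have := ih (f s) (w ++ [s]) (by rw [List.length_append, List.length_singleton]; omega)
        rw [List.map_append, List.prod_append, Module.End.mul_apply, List.map_singleton,
          List.prod_singleton, mulVecLin_apply] at this
        exact this
      rw [e3, zero_add] at e2
      rcases smul_eq_zero.1 e2 with h | h
      · exact absurd h hc
      · exact h
  apply Matrix.ext_of_mulVec_single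
  intro j
  have := step M (Pi.single j 1) [] (by simp)
  rw [List.map_nil, List.prod_nil, Module.End.one_apply] at this
  rw [← mulVec_mulVec, this, zero_mulVec]

end kill

section inst

variable {ι : Type} [Fintype ι] [DecidableEq ι] {δ : Type} [Fintype δ] [DecidableEq δ]
variable {K : Type} [Field K] [Algebra ℂ K] [IsAlgClosed K]
variable {arm : δ → Fin 3} {J : Matrix ι ι K} {B : Matrix δ δ K} {N W : Submodule K (Matrix ι δ K)}
  {F f : Matrix ι δ K} {P : Matrix ι ι K × (Fin 3 → Matrix ι ι K)} {R : Matrix δ ι K}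
  {D : End K (CoreM (PhS arm J B F R P.1))} {l : Fin 3 → ℕ}

/-- perfectness in coordinates -/
theorem perf (S : STop.Setup arm J B N W F f P R D l) {ν : K} {m : ℕ}
    {U : Matrix δ (Fin m) K} {a : Fin 3 → Matrix (Fin m) (Fin m) K}
    (hspan : ∀ u ∈ UBlk.Qb (S.hCtx F S.hF).data S.hR P.1 D ν, ∃ x, u = U *ᵥ x)
    (hmem : ∀ x, U *ᵥ x ∈ UBlk.Qb (S.hCtx F S.hF).data S.hR P.1 D ν)
    (hinj : ∀ x, U *ᵥ x = 0 → x = 0)
    (ha : ∀ s, B * E K arm s * (Fᵀ * J * (P.1 * F)) * U = U * a s) (y : Fin m → K) :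
    ∃ g : Fin 3 → (Fin m → K), y = ∑ s, a s *ᵥ g s := by
  obtain ⟨c, hc, hs⟩ := UBlk.Qb_exists (S.hCtx F S.hF) S.hR S.hD (hmem y)
  choose g hg using fun s => hspan _ (hc s)
  refine ⟨g, ?_⟩
  have h1 : U *ᵥ (y - ∑ s, a s *ᵥ g s) = 0 := by
    rw [mulVec_sub, mulVec_sum, sub_eq_zero, ← hs]
    refine Finset.sum_congr rfl fun s _ => ?_
    rw [mulVec_mulVec, ← ha s, ← mulVec_mulVec, ← hg s,
      UBlk.om_eq (S.hCtx F S.hF).data, (S.hCtx F S.hF).data.B_arm s]
  exact sub_eq_zero.1 (hinj _ h1)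

/-- long words kill the radical in coordinates -/
theorem kills (S : STop.Setup arm J B N W F f P R D l) {ν : K} {n : ℕ}
    {Q : Matrix ι (Fin n) K} {A : Fin 3 → Matrix (Fin n) (Fin n) K}
    (b : BPkg arm J B F R P.1 D ν l Q A) {m : ℕ}
    {U : Matrix δ (Fin m) K} {a : Fin 3 → Matrix (Fin m) (Fin m) K}
    {C : Matrix (Fin n) (Fin m) K} (hFC : F * U = Q * C) (hCs : ∀ y, ∃ x, C *ᵥ x = y)
    (hCa : ∀ s, A s * C = C * a s)
    (hCG : Cᵀ * (Qᵀ * (J * P.1) * Q) * C = Uᵀ * (Fᵀ * J * (P.1 * F)) * U) :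
    ∃ M : ℕ, ∀ x, (Uᵀ * (Fᵀ * J * (P.1 * F)) * U) *ᵥ x = 0 → ∀ w : List (Fin 3), w.length = M →
      (F * U) *ᵥ ((w.map fun s => (a s).mulVecLin).prod x) = 0 := by
  obtain ⟨M, hM⟩ := b.blk.kills
  refine ⟨M, fun x hx w hw => ?_⟩
  have h1 : (Qᵀ * (J * P.1) * Q) *ᵥ (C *ᵥ x) = 0 := by
    have h2 : ∀ z, z ⬝ᵥ ((Qᵀ * (J * P.1) * Q) *ᵥ (C *ᵥ x)) = 0 := by
      intro z
      obtain ⟨y, rfl⟩ := hCs z
      have e : (C *ᵥ y) ⬝ᵥ ((Qᵀ * (J * P.1) * Q) *ᵥ (C *ᵥ x)) =
          y ⬝ᵥ ((Cᵀ * (Qᵀ * (J * P.1) * Q) * C) *ᵥ x) := by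
        rw [← vecMul_transpose, ← dotProduct_mulVec, mulVec_mulVec, mulVec_mulVec]
      rw [e, hCG, hx, dotProduct_zero]
    funext i
    have := h2 (Pi.single i 1)
    rwa [single_one_dotProduct] at this
  have h3 : ∀ (w : List (Fin 3)) (x : Fin m → K),
      C *ᵥ ((w.map fun s => (a s).mulVecLin).prod x) =
        (w.map fun s => (A s).mulVecLin).prod (C *ᵥ x) := by
    intro w
    induction w with
    | nil => intro x; simp
    | cons t w ih =>
      intro x
      rw [List.map_cons, List.prod_cons, Module.End.mul_apply, mulVecLin_apply, mulVec_mulVec,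
        ← hCa t, ← mulVec_mulVec, ih, List.map_cons, List.prod_cons, Module.End.mul_apply,
        mulVecLin_apply]
  rw [hFC, ← mulVec_mulVec, h3, hM w (by omega) _ (by
    rw [LinearMap.mem_ker, mulVecLin_apply]; exact h1), mulVec_zero]

end inst

end Crest.Agent.R172.SU170
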