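import Crest.Agent.R172.SUXF

/-!
Row 172 (S0260), S-side: the second derivative in block form (second copy, helper560).
-/

set_option autoImplicit false
set_option linter.unusedSectionVars false
set_option linter.unusedFintypeInType false
set_option linter.unusedDecidableInType false
set_option linter.unusedVariables false
set_option maxHeartbeats 1600000

namespace Crest.Agent.R172.SUX4b

open Matrix Module Crest.Agent.R172.FO Crest.Agent.R172.Qt Crest.Agent.R172.SpS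
  Crest.Agent.R172.Om Crest.Agent.R172.SUX

variable {ι : Type*} [Fintype ι] [DecidableEq ι] {δ : Type*} [Fintype δ] [DecidableEq δ]
variable {k K : Type*} [Field k] [Field K] [Algebra k K]
variable {arm : δ → Fin 3} {J : Matrix ι ι K} {B : Matrix δ δ K}
  {N W : Submodule K (Matrix ι δ K)} {H F : Matrix ι δ K}
variable {n1 n2 : Type*} [Fintype n1] [Fintype n2] [DecidableEq n1] [DecidableEq n2]
variable {P : Matrix ι ι K × (Fin 3 → Matrix ι ι K)} {S0 : Matrix δ δ K} {c1 c2 : K}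
  {U1 : Matrix δ n1 K} {U2 : Matrix δ n2 K} {Y : Fin 3 → Matrix δ δ K} {d : Derivation k K K}
  {Γ1 : Matrix n1 n1 K} {Γ2 : Matrix n2 n2 K} {β : Matrix n1 n2 K} {γ : Matrix n2 n1 K}

theorem T_of {n : Type*} [Fintype n] {T : Matrix δ δ K} (hT : Tᵀ = -T) (hS : S0ᵀ = -S0)
    {U : Matrix δ n K} {c : K} (h : T * U = c • (S0 * U)) : Uᵀ * T = c • (Uᵀ * S0) := by
  have h1 := congrArg Matrix.transpose h
  rw [transpose_mul, hT, transpose_smul, transpose_mul, hS, Matrix.mul_neg, Matrix.mul_neg,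
    smul_neg] at h1
  exact neg_injective h1

/-- the derivative of `U1ᵀ S0` at one arm -/
theorem dR (h : Ctx k arm J B N W H) (hP : P ∈ NN arm J N H)
    (m : Mv k arm J N W H P.1 Y d) (fr : Fr J F H P.1 S0 c1 c2 U1 U2)
    {X' : Fin 3 → Matrix n2 n1 K}
    (hY : ∀ s, H * Y s * Hᵀ = H * (U2 * X' s * U1ᵀ + U1 * (X' s)ᵀ * U2ᵀ) * Hᵀ)
    (hN1 : H * (U1.map d + ZY arm J H P.1 Y * U1) = H * (U1 * Γ1 + c1 ^ 2 • (U2 * γ)))
    (s : Fin 3) :
    (U1ᵀ * S0).map d * E K arm s = ((Γ1 - (2 * (d c1 / c1)) • (1 : Matrix n1 n1 K))ᵀ * (U1ᵀ * S0)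
      + c2 ^ 2 • (γᵀ * (U2ᵀ * S0))
      + c2 ^ 2 • ((U1ᵀ * S0 * U1) * (X' s)ᵀ * (U2ᵀ * S0))) * E K arm s := by
  have hthH := th_skew h hP h.mem
  have hU1 := T_of hthH fr.skew fr.S1
  have hU2 := T_of hthH fr.skew fr.S2
  have hc := fr.hc1
  set T : Matrix δ δ K := th J H P.1 H with hT
  set Z : Matrix δ δ K := ZY arm J H P.1 Y with hZ
  -- derivative of `T`
  have hdT : T.map d = Zᵀ * T + T * Z := by
    rw [hT]
    unfold th
    rw [map_mul_der, map_mul_der, map_mul_der, h.data.J_const, map_transpose_der, m.dH, ← hZ,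
      Matrix.mul_zero, add_zero]
    have e1 := m.dP H h.mem
    rw [Matrix.mul_add, e1, zero_add, transpose_mul]
    simp only [Matrix.mul_assoc]
  have h1 : (U1ᵀ).map d * T + U1ᵀ * (Zᵀ * T + T * Z) =
      d (c1 ^ 2) • (U1ᵀ * S0) + c1 ^ 2 • (U1ᵀ * S0).map d := by
    rw [← hdT, ← map_mul_der, hU1, SUX.map_smul_der]
  -- the `∇U1` part
  have h2 : (U1ᵀ).map d * T + U1ᵀ * (Zᵀ * T) = c1 ^ 2 • (Γ1ᵀ * (U1ᵀ * S0)) +
      (c1 ^ 2 * c2 ^ 2) • (γᵀ * (U2ᵀ * S0)) := by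
    have e1 : (U1ᵀ).map d * T + U1ᵀ * (Zᵀ * T) = (H * (U1.map d + Z * U1))ᵀ * (J * (P.1 * H)) := by
      rw [hT]
      unfold th
      rw [transpose_mul, transpose_add, transpose_mul, map_transpose_der, Matrix.add_mul,
        Matrix.add_mul]
      simp only [Matrix.mul_assoc]
    rw [e1, hN1]
    have e2 : (H * (U1 * Γ1 + c1 ^ 2 • (U2 * γ)))ᵀ * (J * (P.1 * H)) =
        Γ1ᵀ * (U1ᵀ * T) + c1 ^ 2 • (γᵀ * (U2ᵀ * T)) := by
      rw [hT]
      unfold th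
      rw [transpose_mul, transpose_add, transpose_smul, transpose_mul, transpose_mul,
        Matrix.add_mul, Matrix.add_mul, Matrix.smul_mul, Matrix.smul_mul]
      simp only [Matrix.mul_assoc]
    rw [e2, hU1, hU2, Matrix.mul_smul, Matrix.mul_smul, smul_smul]
  -- the `Z` part
  have h3 : U1ᵀ * (T * Z) * E K arm s =
      (c1 ^ 2 * c2 ^ 2) • ((U1ᵀ * S0 * U1) * (X' s)ᵀ * (U2ᵀ * S0)) * E K arm s := by
    have e1 : U1ᵀ * (T * Z) * E K arm s = U1ᵀ * T * Y s * T * E K arm s := by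
      rw [hZ]
      unfold ZY
      rw [Matrix.mul_sum, Matrix.mul_sum, Matrix.sum_mul, Finset.sum_eq_single s]
      · rw [← hT]
        have : E K arm s * E K arm s = E K arm s := E_mul_self arm s
        calc U1ᵀ * (T * (Y s * T * E K arm s)) * E K arm s
            = U1ᵀ * T * Y s * T * (E K arm s * E K arm s) := by simp only [Matrix.mul_assoc]
          _ = _ := by rw [this]
      · intro r _ hr
        have : E K arm r * E K arm s = 0 := E_mul_ne arm hr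
        calc U1ᵀ * (T * (Y r * th J H P.1 H * E K arm r)) * E K arm s
            = U1ᵀ * (T * (Y r * th J H P.1 H * (E K arm r * E K arm s))) := by
              simp only [Matrix.mul_assoc]
          _ = 0 := by rw [this]; simp
      · intro hs; exact absurd (Finset.mem_univ s) hs
    rw [e1]
    have e2 : U1ᵀ * T * Y s * T = U1ᵀ * T * (U2 * X' s * U1ᵀ + U1 * (X' s)ᵀ * U2ᵀ) * T := by
      have e3 : ∀ A : Matrix δ δ K, U1ᵀ * T * A * T = U1ᵀ * Hᵀ * J * P.1 * (H * A * Hᵀ) *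
          (J * (P.1 * H)) := by
        intro A
        rw [hT]
        unfold th
        simp only [Matrix.mul_assoc]
      rw [e3, e3, hY s]
    rw [e2, hU1, Matrix.smul_mul, Matrix.smul_mul, Matrix.mul_add]
    have e4 : U1ᵀ * S0 * (U2 * X' s * U1ᵀ) = 0 := by
      rw [← Matrix.mul_assoc, ← Matrix.mul_assoc, fr.orth, Matrix.zero_mul, Matrix.zero_mul]
    rw [e4, zero_add]
    have e5 : U1ᵀ * S0 * (U1 * (X' s)ᵀ * U2ᵀ) * T =
        (U1ᵀ * S0 * U1) * (X' s)ᵀ * (U2ᵀ * T) := by simp only [Matrix.mul_assoc]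
    rw [e5, hU2, Matrix.mul_smul, smul_smul]
  -- combine
  have h4 : (c1 ^ 2) • ((U1ᵀ * S0).map d * E K arm s) =
      (c1 ^ 2 • (Γ1ᵀ * (U1ᵀ * S0)) + (c1 ^ 2 * c2 ^ 2) • (γᵀ * (U2ᵀ * S0))) * E K arm s +
      (c1 ^ 2 * c2 ^ 2) • ((U1ᵀ * S0 * U1) * (X' s)ᵀ * (U2ᵀ * S0)) * E K arm s -
      (d (c1 ^ 2)) • ((U1ᵀ * S0) * E K arm s) := by
    rw [← h3, ← h2]
    have e6 := congrArg (fun A : Matrix n1 δ K => A * E K arm s) h1
    simp only [Matrix.add_mul, Matrix.smul_mul, Matrix.mul_add] at e6 ⊢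
    rw [eq_sub_iff_add_eq, add_comm, ← e6]
    abel
  have h5 : d (c1 ^ 2) = 2 * c1 * d c1 := by
    rw [pow_two, Derivation.leibniz]
    simp only [smul_eq_mul]
    ring
  rw [h5] at h4
  have h6 : (U1ᵀ * S0).map d * E K arm s = (c1 ^ 2)⁻¹ • ((c1 ^ 2) • ((U1ᵀ * S0).map d * E K arm s)) := by
    rw [smul_smul, inv_mul_cancel₀ (pow_ne_zero 2 hc), one_smul]
  rw [h6, h4]
  simp only [transpose_sub, transpose_smul, transpose_one, Matrix.add_mul, Matrix.sub_mul,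
    Matrix.smul_mul, Matrix.one_mul, smul_add, smul_sub, smul_smul]
  have hc2 : c1 ^ 2 ≠ 0 := pow_ne_zero 2 hc
  have s1 : (c1 ^ 2)⁻¹ * c1 ^ 2 = 1 := inv_mul_cancel₀ hc2
  have s2 : (c1 ^ 2)⁻¹ * (c1 ^ 2 * c2 ^ 2) = c2 ^ 2 := by field_simp
  have s3 : (c1 ^ 2)⁻¹ * (2 * c1 * d c1) = 2 * (d c1 / c1) := by field_simp
  rw [s1, s2, s3, one_smul]
  abel

/-- **second derivative, block form** -/
theorem second_blocks (h : Ctx k arm J B N W H) (hP : P ∈ NN arm J N H)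
    (m : Mv k arm J N W H P.1 Y d) (fr : Fr J F H P.1 S0 c1 c2 U1 U2)
    {X X' : Fin 3 → Matrix n2 n1 K} {β0 : Matrix n1 n2 K} {γ0 : Matrix n2 n1 K}
    {w : Matrix ι δ K} {μ1 μ2 ν1 ν2 : K}
    (hY : ∀ s, ∀ v ∈ W, v * Y s * Hᵀ = v * (U2 * X' s * U1ᵀ + U1 * (X' s)ᵀ * U2ᵀ) * Hᵀ)
    (hN2 : ∀ v ∈ W, v * (U2.map d + ZY arm J H P.1 Y * U2) = v * (U2 * Γ2 + c2 ^ 2 • (U1 * β)))
    (hN1 : ∀ v ∈ W, v * (U1.map d + ZY arm J H P.1 Y * U1) = v * (U1 * Γ1 + c1 ^ 2 • (U2 * γ)))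
    (hF : F ∈ N ⊓ W) (hFp : Hᵀ * J * F = 0) (hw : w ∈ W) (hwp : Hᵀ * J * w = 0)
    (hn : ∑ s, F * (U2 * X s * U1ᵀ * S0) * E K arm s - w ∈ N)
    (L1 : w * U1 = μ1 • (F * U1) + F * (U2 * γ0)) (L2 : w * U2 = μ2 • (F * U2))
    (V1 : U1ᵀ * th J H P.1 w = (c1 * ν1) • (U1ᵀ * S0))
    (V2 : U2ᵀ * th J H P.1 w = (c2 * ν2) • (U2ᵀ * S0) - c2 • (β0ᵀ * (U1ᵀ * S0))) :
    ∑ s, F * ((c1 * c2) • (U1 * (β * X s - (X' s)ᵀ * (U2ᵀ * S0 * U2) * X s - (X' s)ᵀ * β0ᵀ) * U1ᵀ)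
      + c2 ^ 2 • (U2 * (X s * γᵀ + X s * (U1ᵀ * S0 * U1) * (X' s)ᵀ - γ0 * (X' s)ᵀ) * U2ᵀ)
      + U2 * (Γ2 * X s + (X s).map d + X s * (Γ1 - (2 * (d c1 / c1)) • (1 : Matrix n1 n1 K))ᵀ
          - (d c2 / c2) • X s + (c1 * c2 * ν1 - μ2 * c1 ^ 2) • X' s) * U1ᵀ
      + (c1 * c2 * ν2 - μ1 * c2 ^ 2) • (U1 * (X' s)ᵀ * U2ᵀ)) * S0 * E K arm s
      - wd arm J H P.1 Y d w ∈ N := by
  have key := m.second (A := fun s => U2 * X s * U1ᵀ * S0) hFp hwp hn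
  have hHW : H ∈ W := h.memW
  have hthH := th_skew h hP h.mem
  have hthF := th_skew h hP hF
  have hU1 := T_of hthH fr.skew fr.S1
  have hU2 := T_of hthH fr.skew fr.S2
  have hF1 := T_of hthF fr.skew fr.T1
  have hF2 := T_of hthF fr.skew fr.T2
  have hR := dR h hP m fr (fun s => hY s H hHW) (hN1 H hHW)
  have hdFU := dFU fr.symm m.dH (hN2 H hHW)
  -- `wd F * U2`
  have hwF : wd arm J H P.1 Y d F * U2 = (c1 * c2 - c2 ^ 2) • (F * (U1 * β)) -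
      (d c2 / c2) • (F * U2) := by
    have e1 : wd arm J H P.1 Y d F * U2 = (F * U2).map d -
        F * (U2.map d + ZY arm J H P.1 Y * U2) := by
      unfold wd
      rw [map_mul_der, Matrix.sub_mul, Matrix.mul_add, ← Matrix.mul_assoc]
      abel
    rw [e1, hdFU, hN2 F hF.2, Matrix.mul_add, Matrix.mul_smul]
    simp only [Matrix.mul_assoc]
    module
  have hsum : ∀ s, (F * (ZY arm J H P.1 Y * (U2 * X s * U1ᵀ * S0) +
        (U2 * X s * U1ᵀ * S0).map d) + wd arm J H P.1 Y d F * (U2 * X s * U1ᵀ * S0) -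
        w * Y s * th J H P.1 H -
        H * Y s * (th J H P.1 F * (U2 * X s * U1ᵀ * S0) - th J H P.1 w)) * E K arm s =
      F * ((c1 * c2) • (U1 * (β * X s - (X' s)ᵀ * (U2ᵀ * S0 * U2) * X s - (X' s)ᵀ * β0ᵀ) * U1ᵀ)
      + c2 ^ 2 • (U2 * (X s * γᵀ + X s * (U1ᵀ * S0 * U1) * (X' s)ᵀ - γ0 * (X' s)ᵀ) * U2ᵀ)
      + U2 * (Γ2 * X s + (X s).map d + X s * (Γ1 - (2 * (d c1 / c1)) • (1 : Matrix n1 n1 K))ᵀ
          - (d c2 / c2) • X s + (c1 * c2 * ν1 - μ2 * c1 ^ 2) • X' s) * U1ᵀ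
      + (c1 * c2 * ν2 - μ1 * c2 ^ 2) • (U1 * (X' s)ᵀ * U2ᵀ)) * S0 * E K arm s := by
    intro s
    -- (a)
    have ta : F * (ZY arm J H P.1 Y * (U2 * X s * U1ᵀ * S0) + (U2 * X s * U1ᵀ * S0).map d) =
        F * (U2 * Γ2 + c2 ^ 2 • (U1 * β)) * (X s * (U1ᵀ * S0)) +
        F * U2 * (X s).map d * (U1ᵀ * S0) + F * U2 * X s * (U1ᵀ * S0).map d := by
      rw [← hN2 F hF.2]
      have e1 : U2 * X s * U1ᵀ * S0 = U2 * X s * (U1ᵀ * S0) := by simp only [Matrix.mul_assoc]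
      rw [e1, map_mul_der, map_mul_der]
      simp only [Matrix.mul_add, Matrix.add_mul, Matrix.mul_assoc]
      abel
    -- (b)
    have tb : wd arm J H P.1 Y d F * (U2 * X s * U1ᵀ * S0) =
        ((c1 * c2 - c2 ^ 2) • (F * (U1 * β)) - (d c2 / c2) • (F * U2)) * (X s * (U1ᵀ * S0)) := by
      rw [← hwF]
      simp only [Matrix.mul_assoc]
    -- (c)
    have tc : w * Y s * th J H P.1 H = c1 ^ 2 • ((μ2 • (F * U2)) * X' s * (U1ᵀ * S0)) +
        c2 ^ 2 • ((μ1 • (F * U1) + F * (U2 * γ0)) * (X' s)ᵀ * (U2ᵀ * S0)) := by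
      have e1 : w * Y s * th J H P.1 H = w * Y s * Hᵀ * (J * (P.1 * H)) := by
        unfold th; simp only [Matrix.mul_assoc]
      have e2 : w * (U2 * X' s * U1ᵀ + U1 * (X' s)ᵀ * U2ᵀ) * Hᵀ * (J * (P.1 * H)) =
          (w * U2) * X' s * (U1ᵀ * th J H P.1 H) + (w * U1) * (X' s)ᵀ * (U2ᵀ * th J H P.1 H) := by
        unfold th
        simp only [Matrix.mul_add, Matrix.add_mul, Matrix.mul_assoc]
      rw [e1, hY s w hw, e2, hU1, hU2, L1, L2, Matrix.mul_smul, Matrix.mul_smul]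
    -- (d)
    have td : H * Y s * (th J H P.1 F * (U2 * X s * U1ᵀ * S0)) =
        (c1 * c2) • (F * U1 * (X' s)ᵀ * (U2ᵀ * S0 * U2) * X s * (U1ᵀ * S0)) := by
      have e1 : H * Y s * (th J H P.1 F * (U2 * X s * U1ᵀ * S0)) =
          H * Y s * Hᵀ * (J * (P.1 * F) * (U2 * X s * U1ᵀ * S0)) := by
        unfold th; simp only [Matrix.mul_assoc]
      have e2 : H * (U2 * X' s * U1ᵀ + U1 * (X' s)ᵀ * U2ᵀ) * Hᵀ *
          (J * (P.1 * F) * (U2 * X s * U1ᵀ * S0)) =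
          (H * U2) * X' s * (U1ᵀ * th J H P.1 F) * U2 * X s * (U1ᵀ * S0) +
          (H * U1) * (X' s)ᵀ * (U2ᵀ * th J H P.1 F) * U2 * X s * (U1ᵀ * S0) := by
        unfold th
        simp only [Matrix.mul_add, Matrix.add_mul, Matrix.mul_assoc]
      rw [e1, hY s H hHW, e2, hF1, hF2, fr.H1, fr.H2]
      have e3 : c2 • (F * U2) * X' s * c1 • (U1ᵀ * S0) * U2 * X s * (U1ᵀ * S0) = 0 := by
        have : c2 • (F * U2) * X' s * c1 • (U1ᵀ * S0) * U2 * X s * (U1ᵀ * S0) =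
            c2 • c1 • (F * U2 * X' s * (U1ᵀ * S0 * U2) * X s * (U1ᵀ * S0)) := by
          simp only [Matrix.smul_mul, Matrix.mul_smul, Matrix.mul_assoc]
          exact smul_comm _ _ _
        rw [this, fr.orth]
        simp
      rw [e3, zero_add]
      simp only [Matrix.smul_mul, Matrix.mul_smul, Matrix.mul_assoc, smul_smul]
      rw [mul_comm c2 c1]
    -- (e)
    have te : H * Y s * th J H P.1 w = (c1 * c2 * ν1) • (F * U2 * X' s * (U1ᵀ * S0)) +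
        (c1 * c2 * ν2) • (F * U1 * (X' s)ᵀ * (U2ᵀ * S0)) -
        (c1 * c2) • (F * U1 * (X' s)ᵀ * β0ᵀ * (U1ᵀ * S0)) := by
      have e1 : H * Y s * th J H P.1 w = H * Y s * Hᵀ * (J * (P.1 * w)) := by
        unfold th; simp only [Matrix.mul_assoc]
      have e2 : H * (U2 * X' s * U1ᵀ + U1 * (X' s)ᵀ * U2ᵀ) * Hᵀ * (J * (P.1 * w)) =
          (H * U2) * X' s * (U1ᵀ * th J H P.1 w) + (H * U1) * (X' s)ᵀ * (U2ᵀ * th J H P.1 w) := by
        unfold th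
        simp only [Matrix.mul_add, Matrix.add_mul, Matrix.mul_assoc]
      rw [e1, hY s H hHW, e2, V1, V2, fr.H1, fr.H2]
      simp only [Matrix.smul_mul, Matrix.mul_smul, Matrix.mul_sub, smul_smul, Matrix.mul_assoc]
      module
    rw [Matrix.mul_sub (H * Y s), ta, tb, tc, td, te]
    have tr : F * U2 * X s * (U1ᵀ * S0).map d * E K arm s =
        F * U2 * X s * (((Γ1 - (2 * (d c1 / c1)) • (1 : Matrix n1 n1 K))ᵀ * (U1ᵀ * S0)
      + c2 ^ 2 • (γᵀ * (U2ᵀ * S0))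
      + c2 ^ 2 • ((U1ᵀ * S0 * U1) * (X' s)ᵀ * (U2ᵀ * S0))) * E K arm s) := by
      rw [← hR s]
      simp only [Matrix.mul_assoc]
    simp only [Matrix.add_mul, Matrix.sub_mul]
    rw [tr]
    simp only [Matrix.mul_add, Matrix.add_mul, Matrix.mul_sub, Matrix.sub_mul, Matrix.smul_mul,
      Matrix.mul_smul, smul_smul, smul_add, smul_sub, Matrix.mul_assoc]
    module
  rw [Finset.sum_congr rfl fun s _ => hsum s] at key
  exact key

end Crest.Agent.R172.SUX4b
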