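import Crest.Agent.R172.SUX6
import Crest.Agent.R172.SUX4b

/-!
Row 172 (S0260), S-side: the second level relation in matrix form.
-/

set_option autoImplicit false
set_option linter.unusedSectionVars false
set_option linter.unusedFintypeInType false
set_option linter.unusedDecidableInType false

namespace Crest.Agent.R172.SUX

open Matrix Module Crest.Agent.R172.FO Crest.Agent.R172.Qt Crest.Agent.R172.SpS
  Crest.Agent.R172.Om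

variable {ι : Type*} [Fintype ι] [DecidableEq ι] {δ : Type*} [Fintype δ] [DecidableEq δ]
variable {k K : Type*} [Field k] [Field K] [Algebra k K]
variable {arm : δ → Fin 3} {J : Matrix ι ι K} {B : Matrix δ δ K}
  {N W W' : Submodule K (Matrix ι δ K)} {H F f q : Matrix ι δ K}
variable {n1 n2 : Type*} [Fintype n1] [Fintype n2] [DecidableEq n1] [DecidableEq n2]
variable {P : Matrix ι ι K × (Fin 3 → Matrix ι ι K)} {S0 : Matrix δ δ K} {c1 c2 : K}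
  {U1 : Matrix δ n1 K} {U2 : Matrix δ n2 K} {Y : Fin 3 → Matrix δ δ K} {d dY : Derivation k K K}
  {Γ1 : Matrix n1 n1 K} {Γ2 : Matrix n2 n2 K} {β β0 : Matrix n1 n2 K} {γ γ0 : Matrix n2 n1 K}
  {X X' : Fin 3 → Matrix n2 n1 K}

/-- the class of corrections `w` of the first level at a triple `(X, β0, γ0)` -/
structure WCls (arm : δ → Fin 3) (J : Matrix ι ι K) (N W' : Submodule K (Matrix ι δ K))
    (F f : Matrix ι δ K) (dY : Derivation k K K) (S0 : Matrix δ δ K) (U1 : Matrix δ n1 K)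
    (U2 : Matrix δ n2 K) (X : Fin 3 → Matrix n2 n1 K) (β0 : Matrix n1 n2 K)
    (γ0 : Matrix n2 n1 K) (w : Matrix ι δ K) (μ1 μ2 ν1 ν2 : K) : Prop where
  mem : w ∈ W'
  pF : Fᵀ * J * w = 0
  pf : fᵀ * J * w = 0
  hn : ∑ s, F * (U2 * X s * U1ᵀ * S0) * E K arm s - w ∈ N
  L1 : w * U1 = μ1 • (F * U1) + F * (U2 * γ0)
  L2 : w * U2 = μ2 • (F * U2)
  R1 : U1ᵀ * (Fᵀ * J * w.map dY) = ν1 • (U1ᵀ * S0)
  R2 : U2ᵀ * (Fᵀ * J * w.map dY) = ν2 • (U2ᵀ * S0) - β0ᵀ * (U1ᵀ * S0)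

omit [DecidableEq n1] [DecidableEq n2] in
theorem exists_WCls (hm : I1 arm F S0 U1 U2 (X, β0, γ0) ∈ QQ5 J N W' F f dY S0 U1 U2) :
    ∃ w, ∃ μ1 μ2 ν1 ν2 : K, WCls arm J N W' F f dY S0 U1 U2 X β0 γ0 w μ1 μ2 ν1 ν2 := by
  obtain ⟨w, hw, h1, h2, h3, m1, m2, m3, m4, h4, h5, h6, h7⟩ := even_data hm
  exact ⟨w, m1, m2, m3, m4, hw, h1, h2, h3, h4, h5, h6, h7⟩

/-- the `Q1 ⊗ Q1` part -/
def A11 (S0 : Matrix δ δ K) (U1 : Matrix δ n1 K) (U2 : Matrix δ n2 K)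
    (X : Fin 3 → Matrix n2 n1 K) (β0 : Matrix n1 n2 K) (X' : Fin 3 → Matrix n2 n1 K)
    (β : Matrix n1 n2 K) (s : Fin 3) : Matrix δ δ K :=
  U1 * (β * X s - (X' s)ᵀ * (U2ᵀ * S0 * U2) * X s - (X' s)ᵀ * β0ᵀ) * U1ᵀ

/-- the `Q2 ⊗ Q2` part -/
def A22 (S0 : Matrix δ δ K) (U1 : Matrix δ n1 K) (U2 : Matrix δ n2 K)
    (X : Fin 3 → Matrix n2 n1 K) (γ0 : Matrix n2 n1 K) (X' : Fin 3 → Matrix n2 n1 K)
    (γ : Matrix n2 n1 K) (s : Fin 3) : Matrix δ δ K :=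
  U2 * (X s * γᵀ + X s * (U1ᵀ * S0 * U1) * (X' s)ᵀ - γ0 * (X' s)ᵀ) * U2ᵀ

/-- **the second level relation in matrix form.** -/
theorem second_mem (h : Ctx k arm J B N W H) (hP : P ∈ NN arm J N H)
    (m : Mv k arm J N W H P.1 Y d) (fr : Fr J F H P.1 S0 c1 c2 U1 U2)
    (hY : ∀ s, ∀ v ∈ W, v * Y s * Hᵀ = v * (U2 * X' s * U1ᵀ + U1 * (X' s)ᵀ * U2ᵀ) * Hᵀ)
    (hN2 : ∀ v ∈ W, v * (U2.map d + ZY arm J H P.1 Y * U2) = v * (U2 * Γ2 + c2 ^ 2 • (U1 * β)))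
    (hN1 : ∀ v ∈ W, v * (U1.map d + ZY arm J H P.1 Y * U1) = v * (U1 * Γ1 + c1 ^ 2 • (U2 * γ)))
    (hF : F ∈ N ⊓ W) (hFp : Hᵀ * J * F = 0) (hWW : W' ≤ W)
    (hHc : ∀ w : Matrix ι δ K, Fᵀ * J * w = 0 → fᵀ * J * w = 0 → Hᵀ * J * w = 0)
    (hrow : ∀ w ∈ W, Hᵀ * J * w = 0 → Hᵀ * J * (P.1 * w) = Hᵀ * J * w.map dY)
    {w : Matrix ι δ K} {μ1 μ2 ν1 ν2 : K}
    (cw : WCls arm J N W' F f dY S0 U1 U2 X β0 γ0 w μ1 μ2 ν1 ν2)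
    {Q : Submodule K (Matrix ι δ K)} (hNQ : N ≤ Q) (hwQ : wd arm J H P.1 Y d w ∈ Q)
    (h21 : ∑ s, F * (U2 * (Γ2 * X s + (X s).map d +
        X s * (Γ1 - (2 * (d c1 / c1)) • (1 : Matrix n1 n1 K))ᵀ - (d c2 / c2) • X s +
          (c1 * c2 * ν1 - μ2 * c1 ^ 2) • X' s) * U1ᵀ) * S0 * E K arm s ∈ Q)
    (h12 : ∑ s, F * (U1 * (X' s)ᵀ * U2ᵀ) * S0 * E K arm s ∈ Q) :
    ∑ s, F * A11 S0 U1 U2 X β0 X' β s * S0 * E K arm s +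
      (c2 / c1) • ∑ s, F * A22 S0 U1 U2 X γ0 X' γ s * S0 * E K arm s ∈ Q := by
  have hc1 := fr.hc1
  have hc2 := fr.hc2
  have hw := hWW cw.mem
  have hwp := hHc w cw.pF cw.pf
  have hr := hrow w hw hwp
  have V1 : U1ᵀ * th J H P.1 w = (c1 * ν1) • (U1ᵀ * S0) := by
    rw [row_of_Y fr.H1 hr, cw.R1, smul_smul]
  have V2 : U2ᵀ * th J H P.1 w = (c2 * ν2) • (U2ᵀ * S0) - c2 • (β0ᵀ * (U1ᵀ * S0)) := by
    rw [row_of_Y fr.H2 hr, cw.R2, smul_sub, smul_smul]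
  have key := SUX4b.second_blocks h hP m fr hY hN2 hN1 hF hFp hw hwp cw.hn cw.L1 cw.L2 V1 V2
  have h1 := Q.add_mem (hNQ key) hwQ
  rw [sub_add_cancel] at h1
  have e1 : ∑ s, F * ((c1 * c2) • (U1 * (β * X s - (X' s)ᵀ * (U2ᵀ * S0 * U2) * X s
      - (X' s)ᵀ * β0ᵀ) * U1ᵀ)
      + c2 ^ 2 • (U2 * (X s * γᵀ + X s * (U1ᵀ * S0 * U1) * (X' s)ᵀ - γ0 * (X' s)ᵀ) * U2ᵀ)
      + U2 * (Γ2 * X s + (X s).map d + X s * (Γ1 - (2 * (d c1 / c1)) • (1 : Matrix n1 n1 K))ᵀ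
          - (d c2 / c2) • X s + (c1 * c2 * ν1 - μ2 * c1 ^ 2) • X' s) * U1ᵀ
      + (c1 * c2 * ν2 - μ1 * c2 ^ 2) • (U1 * (X' s)ᵀ * U2ᵀ)) * S0 * E K arm s
      = (c1 * c2) • ∑ s, F * A11 S0 U1 U2 X β0 X' β s * S0 * E K arm s +
        c2 ^ 2 • ∑ s, F * A22 S0 U1 U2 X γ0 X' γ s * S0 * E K arm s +
        ∑ s, F * (U2 * (Γ2 * X s + (X s).map d +
          X s * (Γ1 - (2 * (d c1 / c1)) • (1 : Matrix n1 n1 K))ᵀ - (d c2 / c2) • X s +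
          (c1 * c2 * ν1 - μ2 * c1 ^ 2) • X' s) * U1ᵀ) * S0 * E K arm s +
        (c1 * c2 * ν2 - μ1 * c2 ^ 2) • ∑ s, F * (U1 * (X' s)ᵀ * U2ᵀ) * S0 * E K arm s := by
    rw [Finset.smul_sum, Finset.smul_sum, Finset.smul_sum, ← Finset.sum_add_distrib,
      ← Finset.sum_add_distrib, ← Finset.sum_add_distrib]
    refine Finset.sum_congr rfl fun s _ => ?_
    unfold A11 A22
    rw [Matrix.mul_add F, Matrix.mul_add F, Matrix.mul_add F, Matrix.mul_smul F, Matrix.mul_smul F,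
      Matrix.mul_smul F, Matrix.add_mul, Matrix.add_mul, Matrix.add_mul, Matrix.add_mul,
      Matrix.add_mul, Matrix.add_mul, Matrix.smul_mul, Matrix.smul_mul, Matrix.smul_mul,
      Matrix.smul_mul, Matrix.smul_mul, Matrix.smul_mul]
  rw [e1] at h1
  have h2 := Q.sub_mem (Q.sub_mem h1 (Q.smul_mem (c1 * c2 * ν2 - μ1 * c2 ^ 2) h12)) h21
  rw [add_sub_cancel_right, add_sub_cancel_right] at h2
  have h3 := Q.smul_mem (c1 * c2)⁻¹ h2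
  rw [smul_add, smul_smul, smul_smul, inv_mul_cancel₀ (mul_ne_zero hc1 hc2), one_smul] at h3
  have a2 : (c1 * c2)⁻¹ * c2 ^ 2 = c2 / c1 := by field_simp
  rw [a2] at h3
  exact h3

end Crest.Agent.R172.SUX
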