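import Crest.Agent.R172.SUXF

/-!
Row 172 (S0260), S-side (t2): the values of the second level correction `w'' = wd w` on the two
blocks (note 16790 of helper937).
-/

set_option autoImplicit false
set_option linter.unusedSectionVars false
set_option linter.unusedFintypeInType false
set_option linter.unusedDecidableInType false

namespace Crest.Agent.R172.SUXv

open Matrix Module Crest.Agent.R172.FO Crest.Agent.R172.Qt Crest.Agent.R172.SpS
  Crest.Agent.R172.Om Crest.Agent.R172.SUX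

variable {ι : Type*} [Fintype ι] [DecidableEq ι] {δ : Type*} [Fintype δ] [DecidableEq δ]
variable {k K : Type*} [Field k] [Field K] [Algebra k K]
variable {arm : δ → Fin 3} {J : Matrix ι ι K} {W : Submodule K (Matrix ι δ K)}
  {F H w : Matrix ι δ K} {P : Matrix ι ι K} {Y : Fin 3 → Matrix δ δ K} {d : Derivation k K K}
variable {n1 n2 : Type*} [Fintype n1] [Fintype n2]
variable {S0 : Matrix δ δ K} {c1 c2 : K} {U1 : Matrix δ n1 K} {U2 : Matrix δ n2 K}
  {Γ1 : Matrix n1 n1 K} {Γ2 : Matrix n2 n2 K} {β : Matrix n1 n2 K} {γ γ0 : Matrix n2 n1 K}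
  {μ1 μ2 : K}

/-- `(wd w) U = d(w U) - w (∇ U)` -/
theorem wd_mul {n : Type*} [Fintype n] (w : Matrix ι δ K) (U : Matrix δ n K) :
    wd arm J H P Y d w * U = (w * U).map d - w * (U.map d + ZY arm J H P Y * U) := by
  unfold wd
  rw [map_mul_der, Matrix.sub_mul, Matrix.mul_add]
  simp only [Matrix.mul_assoc]
  abel

theorem wd_U2 (fr : Fr J F H P S0 c1 c2 U1 U2) (hd : H.map d = H * ZY arm J H P Y)
    (hHW : H ∈ W) (hw : w ∈ W)
    (hN2 : ∀ v ∈ W, v * (U2.map d + ZY arm J H P Y * U2) = v * (U2 * Γ2 + c2 ^ 2 • (U1 * β)))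
    (L1 : w * U1 = μ1 • (F * U1) + F * (U2 * γ0)) (L2 : w * U2 = μ2 • (F * U2)) :
    wd arm J H P Y d w * U2 = (d μ2 - μ2 * (d c2 / c2)) • (F * U2) +
      (μ2 * (c1 * c2) - μ1 * c2 ^ 2) • (F * U1 * β) - c2 ^ 2 • (F * U2 * (γ0 * β)) := by
  have hF := dFU fr.symm hd (hN2 H hHW)
  rw [wd_mul, L2, SUX.map_smul_der, hF, hN2 w hw, Matrix.mul_add, Matrix.mul_smul,
    ← Matrix.mul_assoc, ← Matrix.mul_assoc, L2, L1]
  simp only [Matrix.add_mul, Matrix.smul_mul, Matrix.mul_assoc, smul_add, smul_sub, smul_smul,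
    sub_smul, mul_comm c2 c1, mul_comm (c2 ^ 2) μ1]
  abel

theorem wd_U1 (fr : Fr J F H P S0 c1 c2 U1 U2) (hd : H.map d = H * ZY arm J H P Y)
    (hHW : H ∈ W) (hw : w ∈ W)
    (hN2 : ∀ v ∈ W, v * (U2.map d + ZY arm J H P Y * U2) = v * (U2 * Γ2 + c2 ^ 2 • (U1 * β)))
    (hN1 : ∀ v ∈ W, v * (U1.map d + ZY arm J H P Y * U1) = v * (U1 * Γ1 + c1 ^ 2 • (U2 * γ)))
    (L1 : w * U1 = μ1 • (F * U1) + F * (U2 * γ0)) (L2 : w * U2 = μ2 • (F * U2)) :
    wd arm J H P Y d w * U1 = (d μ1 - μ1 * (d c1 / c1)) • (F * U1) +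
      F * (U2 * (Γ2 * γ0 + γ0.map d - γ0 * Γ1 + (μ1 * (c1 * c2) - μ2 * c1 ^ 2) • γ
        - (d c2 / c2) • γ0)) + (c1 * c2) • (F * U1 * (β * γ0)) := by
  have hF2 := dFU fr.symm hd (hN2 H hHW)
  have hF1 := dFU fr hd (hN1 H hHW)
  have e1 : (w * U1).map d = d μ1 • (F * U1) + μ1 • (F * U1).map d +
      ((F * U2).map d * γ0 + F * U2 * γ0.map d) := by
    rw [L1, map_add_der, SUX.map_smul_der, ← Matrix.mul_assoc, map_mul_der d (F * U2) γ0]
  rw [wd_mul, e1, hF1, hF2, hN1 w hw, Matrix.mul_add, Matrix.mul_smul,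
    ← Matrix.mul_assoc, ← Matrix.mul_assoc, L2, L1]
  simp only [Matrix.add_mul, Matrix.sub_mul, Matrix.mul_add, Matrix.mul_sub, Matrix.smul_mul,
    Matrix.mul_smul, Matrix.mul_assoc, smul_add, smul_sub, smul_smul,
    sub_smul, mul_comm c2 c1, mul_comm (c1 ^ 2) μ2]
  abel

end Crest.Agent.R172.SUXv
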