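import Crest.Agent.R172.SLev0
import Crest.Agent.R172.UFr
import Crest.Agent.R172.SUX4v
import Crest.Agent.R172.SUB

/-!
Row 172 (S0260), (t2), level 2, piece L2-h: the second level correction `w'' = wd w` is in the good
class `QG` (values on all blocks).
-/

set_option autoImplicit false
set_option linter.unusedSectionVars false
set_option linter.unusedFintypeInType false
set_option linter.unusedDecidableInType false

namespace Crest.Agent.R172.SWd275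

open Matrix Module Crest.Agent.R172.FO Crest.Agent.R172.Qt Crest.Agent.R172.SpS
open Crest.Agent.R172.SBlk Crest.Agent.R172.UBlk Crest.Agent.R172.SEnd2
open Crest.Agent.R172.PL (Wk Ainf Rad CoreM coreOp resOp)
open Crest.Agent.R172.SC (PB)
open Crest.Agent.R172.SUX (th ZY wd Mv)
open Crest.Agent.R172.UFr (Cq)

variable {ι : Type*} [Fintype ι] [DecidableEq ι] {δ : Type*} [Fintype δ] [DecidableEq δ]
variable {k K : Type*} [Field k] [Field K] [Algebra k K]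
variable {arm : δ → Fin 3} {J : Matrix ι ι K} {B : Matrix δ δ K}
  {N W : Submodule K (Matrix ι δ K)} {g f : Matrix ι δ K}
  {p : Matrix ι ι K × (Fin 3 → Matrix ι ι K)}

/-- `a · (A b) = (Aᵀ a) · b`, the other way round -/
theorem tdot' {α β : Type*} [Fintype α] [Fintype β] (A : Matrix α β K) (a : β → K) (b : α → K) :
    a ⬝ᵥ (Aᵀ *ᵥ b) = (A *ᵥ a) ⬝ᵥ b := by
  rw [dotProduct_comm, tdot, dotProduct_comm]

/-! ### matrix part: the radical is stable -/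

section mat

variable {n1 n2 : Type*} [Fintype n1] [Fintype n2]
variable {H : Matrix ι δ K} {P : Matrix ι ι K × (Fin 3 → Matrix ι ι K)} {S0 : Matrix δ δ K}
  {c1 c2 : K} {U1 : Matrix δ n1 K} {U2 : Matrix δ n2 K} {Y : Fin 3 → Matrix δ δ K}
  {d : Derivation k K K} {Γ2 : Matrix n2 n2 K} {β : Matrix n1 n2 K}

/-- `d (c2² G2) = c2² (Γ2ᵀ G2 + G2 Γ2)`, `G2 = U2ᵀ S0 U2`. -/
theorem form_der (h : Ctx k arm J B N W H) (hP : P ∈ NN arm J N H)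
    (m : Mv k arm J N W H P.1 Y d) (fr : SUX.Fr J g H P.1 S0 c1 c2 U1 U2)
    (hN2 : ∀ v ∈ W, v * (U2.map d + ZY arm J H P.1 Y * U2) = v * (U2 * Γ2 + c2 ^ 2 • (U1 * β))) :
    (c2 ^ 2 • (U2ᵀ * S0 * U2)).map d =
      c2 ^ 2 • (Γ2ᵀ * (U2ᵀ * S0 * U2) + (U2ᵀ * S0 * U2) * Γ2) := by
  have hs := SUX.th_skew h hP h.mem
  have r2 : U2ᵀ * th J H P.1 H = c2 ^ 2 • (U2ᵀ * S0) := fr.symm.rowS1 hs
  have e0 : c2 ^ 2 • (U2ᵀ * S0 * U2) = U2ᵀ * th J H P.1 H * U2 := by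
    rw [r2, Matrix.smul_mul]
  have horth : U2ᵀ * S0 * U1 = 0 := fr.symm.orth
  -- `S_H ∇U2`
  have e1 : th J H P.1 H * (U2.map d + ZY arm J H P.1 Y * U2) =
      th J H P.1 H * (U2 * Γ2 + c2 ^ 2 • (U1 * β)) := by
    have a1 : ∀ X : Matrix δ n2 K, th J H P.1 H * X = Hᵀ * J * (P.1 * (H * X)) := by
      intro X; unfold th; simp only [Matrix.mul_assoc]
    rw [a1, a1, hN2 H h.memW]
  have e2 : U2ᵀ * (th J H P.1 H * (U2.map d + ZY arm J H P.1 Y * U2)) =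
      c2 ^ 2 • ((U2ᵀ * S0 * U2) * Γ2) := by
    rw [e1, ← Matrix.mul_assoc, r2, Matrix.mul_add, Matrix.smul_mul, Matrix.smul_mul,
      Matrix.mul_smul, ← Matrix.mul_assoc, ← Matrix.mul_assoc, horth, Matrix.zero_mul, smul_zero,
      smul_zero, add_zero]
  have e3 : (U2.map d + ZY arm J H P.1 Y * U2)ᵀ * th J H P.1 H * U2 =
      c2 ^ 2 • (Γ2ᵀ * (U2ᵀ * S0 * U2)) := by
    have a1 := congrArg Matrix.transpose e2
    rw [transpose_mul, transpose_mul, hs, transpose_transpose, transpose_smul, transpose_mul,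
      transpose_mul, transpose_mul, transpose_transpose, fr.skew, Matrix.mul_neg, Matrix.neg_mul,
      Matrix.neg_mul, Matrix.mul_neg, Matrix.mul_neg, smul_neg] at a1
    have a2 := neg_injective a1
    rw [a2, Matrix.mul_assoc U2ᵀ]
  have e4 : (U2ᵀ * th J H P.1 H * U2).map d =
      (U2.map d + ZY arm J H P.1 Y * U2)ᵀ * th J H P.1 H * U2 +
        U2ᵀ * (th J H P.1 H * (U2.map d + ZY arm J H P.1 Y * U2)) := by
    rw [map_mul_der, map_mul_der, map_transpose_der, SUB.S_map h m, transpose_add, transpose_mul]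
    simp only [Matrix.mul_add, Matrix.add_mul, Matrix.mul_assoc]
    abel
  rw [e0, e4, e3, e2, smul_add]

/-- the radical is stable under `Γ2 + d`. -/
theorem rad_der (h : Ctx k arm J B N W H) (hP : P ∈ NN arm J N H)
    (m : Mv k arm J N W H P.1 Y d) (fr : SUX.Fr J g H P.1 S0 c1 c2 U1 U2)
    (hN2 : ∀ v ∈ W, v * (U2.map d + ZY arm J H P.1 Y * U2) = v * (U2 * Γ2 + c2 ^ 2 • (U1 * β)))
    {γ0 : Matrix n2 n1 K} (hγ0 : (U2ᵀ * S0 * U2) * γ0 = 0) :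
    (U2ᵀ * S0 * U2) * (Γ2 * γ0 + γ0.map d) = 0 := by
  have h1 := form_der h hP m fr hN2
  have h2 : (c2 ^ 2 • (U2ᵀ * S0 * U2)) * γ0 = 0 := by rw [Matrix.smul_mul, hγ0, smul_zero]
  have h3 := congrArg (fun A : Matrix n2 n1 K => A.map d) h2
  simp only [map_mul_der] at h3
  rw [h1, SUX.map_zero_der', Matrix.smul_mul, Matrix.smul_mul, Matrix.add_mul,
    Matrix.mul_assoc Γ2ᵀ, hγ0, Matrix.mul_zero, zero_add, ← smul_add] at h3
  have hc : c2 ^ 2 ≠ 0 := pow_ne_zero 2 fr.hc2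
  have h4 := (smul_eq_zero.1 h3).resolve_left hc
  rw [Matrix.mul_add, ← Matrix.mul_assoc]
  exact h4

end mat

/-! ### blocks -/

section blk

variable (h : Ctx k arm J B N W g) {R : Matrix δ ι K} (hR : g * R * g = g)
  {D : End K (CoreM (Ph arm J B g R p.1))}
  (hD : IsD (Ph arm J B g R p.1) (Nh arm J B g f R p.1) D)
variable [IsAlgClosed K]

/-- `v` is orthogonal to all blocks -/
def Perp (h : Ctx k arm J B N W g) {R : Matrix δ ι K} (hR : g * R * g = g)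
    (D : End K (CoreM (Ph arm J B g R p.1))) (v : δ → K) : Prop :=
  ∀ κ, ∀ u ∈ Qb h.data hR p.1 D κ, u ⬝ᵥ ((gᵀ * J * (p.1 * g)) *ᵥ v) = 0

omit [IsAlgClosed K] in
theorem Perp.add {v v' : δ → K} (a : Perp (p := p) h hR D v) (b : Perp (p := p) h hR D v') :
    Perp (p := p) h hR D (v + v') := fun κ u hu => by
  rw [mulVec_add, dotProduct_add, a κ u hu, b κ u hu, add_zero]

omit [IsAlgClosed K] in
theorem Perp.smul {v : δ → K} (c : K) (a : Perp (p := p) h hR D v) :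
    Perp (p := p) h hR D (c • v) := fun κ u hu => by
  rw [mulVec_smul, dotProduct_smul, a κ u hu, smul_zero]

include hD

/-- the elements of `P = PC` come from `A^∞ K^δ` -/
theorem perp_PC {v : δ → K} (hv : Perp (p := p) h hR D v) {a : ι → K}
    (ha : a ∈ PC arm J B g R p.1) : a ⬝ᵥ ((J * p.1) *ᵥ (g *ᵥ v)) = 0 := by
  obtain ⟨y, hy, rfl⟩ := ha
  obtain ⟨x, hx, rfl⟩ := (cov h.data hR p.1).ainf_surj hy
  have hx' : x ∈ ⨆ κ, Qb h.data hR p.1 D κ := by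
    rw [iSup_Qb h hR hD]; exact hx
  have key : ∀ x : δ → K, (g *ᵥ x) ⬝ᵥ ((J * p.1) *ᵥ (g *ᵥ v)) =
      x ⬝ᵥ ((gᵀ * J * (p.1 * g)) *ᵥ v) := by
    intro x
    rw [← tdot' g x, mulVec_mulVec, mulVec_mulVec]
    congr 2
    simp only [Matrix.mul_assoc]
  change (g *ᵥ x) ⬝ᵥ ((J * p.1) *ᵥ (g *ᵥ v)) = 0
  rw [key]
  refine Submodule.iSup_induction (p := fun κ => Qb h.data hR p.1 D κ)
    (motive := fun x => x ⬝ᵥ ((gᵀ * J * (p.1 * g)) *ᵥ v) = 0) hx' (fun κ u hu => hv κ u hu)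
    (by rw [zero_dotProduct]) (fun a b ha hb => by rw [add_dotProduct, ha, hb, add_zero])

/-- the vectors of `P` are `J w`-orthogonal if this is so at a point `g + a f` -/
theorem perp_J {w : Matrix ι δ K} (hw : ∀ κ, ∀ u ∈ Qb h.data hR p.1 D κ, ∀ v,
      (g *ᵥ u) ⬝ᵥ ((J * w) *ᵥ v) = 0) {a : ι → K} (ha : a ∈ PC arm J B g R p.1) (v : δ → K) :
    a ⬝ᵥ ((J * w) *ᵥ v) = 0 := by
  obtain ⟨y, hy, rfl⟩ := ha
  obtain ⟨x, hx, rfl⟩ := (cov h.data hR p.1).ainf_surj hy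
  have hx' : x ∈ ⨆ κ, Qb h.data hR p.1 D κ := by
    rw [iSup_Qb h hR hD]; exact hx
  change (g *ᵥ x) ⬝ᵥ ((J * w) *ᵥ v) = 0
  refine Submodule.iSup_induction (p := fun κ => Qb h.data hR p.1 D κ)
    (motive := fun x => (g *ᵥ x) ⬝ᵥ ((J * w) *ᵥ v) = 0) hx' (fun κ u hu => hw κ u hu v)
    (by rw [mulVec_zero, zero_dotProduct])
    (fun a b ha hb => by rw [mulVec_add, add_dotProduct, ha, hb, add_zero])

/-- **membership in `QG` from values on the blocks of `K^δ`** -/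
theorem QG_of_vals {α : Type*} {Pb : α → Submodule K (ι → K)} {nu : α → K}
    (hPb : ∀ i, Pb i ≤ (PB (Ph arm J B g R p.1) D (nu i)).map (Sg g).subtype)
    {w m : Matrix ι δ K} (hw : w ∈ W) (hmw : m - w ∈ N)
    (hJ : ∀ κ, ∀ u ∈ Qb h.data hR p.1 D κ, ∀ v, (g *ᵥ u) ⬝ᵥ ((J * w) *ᵥ v) = 0)
    (μ : K → K) (hv : ∀ i, ∀ u ∈ Qb h.data hR p.1 D (nu i), ∃ v, Perp (p := p) h hR D v ∧
      w *ᵥ u = μ (nu i) • (g *ᵥ u) + g *ᵥ v) :
    m ∈ SLev0.QG arm J B N W g p (PC arm J B g R p.1) Pb nu := by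
  refine ⟨w, hw, hmw, fun a ha v => perp_J h hR hD hJ ha v, μ, fun i c hc r => ?_⟩
  obtain ⟨y, hy, rfl⟩ := hPb i hc
  rw [SetLike.mem_coe, ← Qb_map h hR hD] at hy
  obtain ⟨u, hu, rfl⟩ := hy
  have hu' := Qb_stable h hR hD r hu
  obtain ⟨v, hv1, hv2⟩ := hv i _ hu'
  refine ⟨g *ᵥ v, fun a ha => perp_PC h hR hD hv1 ha, ?_⟩
  have e1 : (E K arm r * B * gᵀ * (J * p.1)) *ᵥ (g *ᵥ u) = om arm J B g p.1 g r u := by
    rw [om_eq h.data, mulVec_mulVec]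
    congr 1
    simp only [Matrix.mul_assoc]
  have e2 : (M arm B r g g * (J * p.1)) *ᵥ (g *ᵥ u) = g *ᵥ om arm J B g p.1 g r u := by
    have e3 : M arm B r g g * (J * p.1) = g * (E K arm r * B * gᵀ * (J * p.1)) := by
      unfold M
      simp only [Matrix.mul_assoc]
    rw [← e1, e3, ← mulVec_mulVec]
  change w *ᵥ ((E K arm r * B * gᵀ * (J * p.1)) *ᵥ (g *ᵥ u)) =
    μ (nu i) • ((M arm B r g g * (J * p.1)) *ᵥ (g *ᵥ u)) + g *ᵥ v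
  rw [e1, e2]
  exact hv2

variable (hNil : NilW arm J B N g) (hp : p ∈ NN arm J N g) (hf : f ∈ N ⊓ W)

include hNil hp hf

/-- radical vectors of a block are orthogonal to all blocks -/
theorem perp_blk {ν : K} {n : Type*} [Fintype n] {U : Matrix δ n K}
    (hsp : ∀ u ∈ Qb h.data hR p.1 D ν, ∃ x, u = U *ᵥ x)
    (hmem : ∀ x, U *ᵥ x ∈ Qb h.data hR p.1 D ν) {y : n → K}
    (hy : (Uᵀ * (gᵀ * J * (p.1 * g)) * U) *ᵥ y = 0) : Perp (p := p) h hR D (U *ᵥ y) := by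
  intro κ u hu
  by_cases hκ : κ = ν
  · subst hκ
    obtain ⟨x, rfl⟩ := hsp u hu
    have hz : Uᵀ *ᵥ ((gᵀ * J * (p.1 * g)) *ᵥ (U *ᵥ y)) = 0 := by
      rw [mulVec_mulVec, mulVec_mulVec]
      simpa only [Matrix.mul_assoc] using hy
    rw [← tdot' U x, hz, dotProduct_zero]
  · exact Qb_orth h hR hD hNil hp hf hκ hu (hmem y)

/-- **the values of `w'' = wd w` on all blocks** -/
theorem vals {a : K} {Pt : Matrix ι ι K × (Fin 3 → Matrix ι ι K)} {ν ν' : K}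
    {n1 n2 : Type*} [Fintype n1] [Fintype n2] {U1 : Matrix δ n1 K} {U2 : Matrix δ n2 K}
    (hH : Ctx k arm J B N W (g + a • f)) (hPt : Pt ∈ NN arm J N (g + a • f))
    {Y : Fin 3 → Matrix δ δ K} {d : Derivation k K K}
    (m : Mv k arm J N W (g + a • f) Pt.1 Y d) {c1 c2 : K}
    (fr : SUX.Fr J g (g + a • f) Pt.1 (gᵀ * J * (p.1 * g)) c1 c2 U1 U2)
    (hsp1 : ∀ u ∈ Qb h.data hR p.1 D ν, ∃ x, u = U1 *ᵥ x)
    (hmem1 : ∀ x, U1 *ᵥ x ∈ Qb h.data hR p.1 D ν)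
    (hsp2 : ∀ u ∈ Qb h.data hR p.1 D ν', ∃ x, u = U2 *ᵥ x)
    (hmem2 : ∀ x, U2 *ᵥ x ∈ Qb h.data hR p.1 D ν')
    {Γ1 : Matrix n1 n1 K} {Γ2 : Matrix n2 n2 K} {β : Matrix n1 n2 K} {γ γ0 : Matrix n2 n1 K}
    (hN2 : ∀ v ∈ W, v * (U2.map d + ZY arm J (g + a • f) Pt.1 Y * U2) =
      v * (U2 * Γ2 + c2 ^ 2 • (U1 * β)))
    (hN1 : ∀ v ∈ W, v * (U1.map d + ZY arm J (g + a • f) Pt.1 Y * U1) =
      v * (U1 * Γ1 + c1 ^ 2 • (U2 * γ)))
    (hβ : (U1ᵀ * (gᵀ * J * (p.1 * g)) * U1) * β = 0)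
    (hγ : (U2ᵀ * (gᵀ * J * (p.1 * g)) * U2) * γ = 0)
    (hγ0 : (U2ᵀ * (gᵀ * J * (p.1 * g)) * U2) * γ0 = 0)
    (hc3 : ∀ κ, κ ≠ ν → κ ≠ ν' → Qb h.data hR p.1 D κ ≠ ⊥ → 1 + a * κ ≠ 0)
    (hN3 : ∀ κ, κ ≠ ν → κ ≠ ν' → ∀ u ∈ Qb h.data hR p.1 D κ, ∃ u' ∈ Qb h.data hR p.1 D κ,
      ∀ v ∈ W, v *ᵥ SUB.nab arm J (g + a • f) Pt.1 Y d u = v *ᵥ u')
    {w : Matrix ι δ K} (hw : w ∈ W) {μ : K → K}
    (L1 : w * U1 = μ ν • (g * U1) + g * (U2 * γ0)) (L2 : w * U2 = μ ν' • (g * U2))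
    (L3 : ∀ κ, κ ≠ ν → κ ≠ ν' → ∀ u ∈ Qb h.data hR p.1 D κ, w *ᵥ u = μ κ • (g *ᵥ u)) :
    ∃ μ' : K → K, ∀ κ, ∀ u ∈ Qb h.data hR p.1 D κ, ∃ v, Perp (p := p) h hR D v ∧
      wd arm J (g + a • f) Pt.1 Y d w *ᵥ u = μ' κ • (g *ᵥ u) + g *ᵥ v := by
  classical
  refine ⟨fun κ => if κ = ν then d (μ ν) - μ ν * (d c1 / c1) else if κ = ν' then
    d (μ ν') - μ ν' * (d c2 / c2) else d (μ κ) - μ κ * (d (1 + a * κ) / (1 + a * κ)),
    fun κ u hu => ?_⟩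
  have hHW := hH.memW
  by_cases h1 : κ = ν
  · subst h1
    obtain ⟨x, rfl⟩ := hsp1 u hu
    have e1 := SUXv.wd_U1 fr m.dH hHW hw hN2 hN1 L1 L2
    have hg2 : (U2ᵀ * (gᵀ * J * (p.1 * g)) * U2) * (Γ2 * γ0 + γ0.map d - γ0 * Γ1 +
        (μ κ * (c1 * c2) - μ ν' * c1 ^ 2) • γ - (d c2 / c2) • γ0) = 0 := by
      rw [Matrix.mul_sub, Matrix.mul_add, Matrix.mul_sub, rad_der hH hPt m fr hN2 hγ0,
        ← Matrix.mul_assoc _ γ0, hγ0, Matrix.zero_mul, Matrix.mul_smul, hγ, Matrix.mul_smul, hγ0]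
      simp
    refine ⟨U2 *ᵥ ((Γ2 * γ0 + γ0.map d - γ0 * Γ1 +
        (μ κ * (c1 * c2) - μ ν' * c1 ^ 2) • γ - (d c2 / c2) • γ0) *ᵥ x) +
        (c1 * c2) • (U1 *ᵥ ((β * γ0) *ᵥ x)), ?_, ?_⟩
    · refine (perp_blk h hR hD hNil hp hf hsp2 hmem2 ?_).add h hR
        ((perp_blk h hR hD hNil hp hf hsp1 hmem1 ?_).smul h hR _)
      · rw [mulVec_mulVec, hg2, zero_mulVec]
      · rw [mulVec_mulVec, ← Matrix.mul_assoc, hβ, Matrix.zero_mul, zero_mulVec]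
    · beta_reduce
      rw [if_pos rfl, mulVec_mulVec x, e1, add_mulVec, add_mulVec, smul_mulVec, smul_mulVec,
        mulVec_add, mulVec_smul, add_assoc]
      simp only [mulVec_mulVec, Matrix.mul_assoc]
  · by_cases h2 : κ = ν'
    · subst h2
      obtain ⟨x, rfl⟩ := hsp2 u hu
      have e1 := SUXv.wd_U2 fr m.dH hHW hw hN2 L1 L2
      refine ⟨(μ κ * (c1 * c2) - μ ν * c2 ^ 2) • (U1 *ᵥ (β *ᵥ x)) +
        (-(c2 ^ 2)) • (U2 *ᵥ ((γ0 * β) *ᵥ x)), ?_, ?_⟩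
      · refine ((perp_blk h hR hD hNil hp hf hsp1 hmem1 ?_).smul h hR _).add h hR
          ((perp_blk h hR hD hNil hp hf hsp2 hmem2 ?_).smul h hR _)
        · rw [mulVec_mulVec, hβ, zero_mulVec]
        · rw [mulVec_mulVec, ← Matrix.mul_assoc, hγ0, Matrix.zero_mul, zero_mulVec]
      · beta_reduce
        rw [if_neg h1, if_pos rfl, mulVec_mulVec x, e1, sub_mulVec, add_mulVec, smul_mulVec,
          smul_mulVec, smul_mulVec, mulVec_add, mulVec_smul, mulVec_smul, neg_smul]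
        simp only [mulVec_mulVec, Matrix.mul_assoc]
        abel
    · beta_reduce
      rw [if_neg h1, if_neg h2]
      by_cases hb : Qb h.data hR p.1 D κ = ⊥
      · rw [hb, Submodule.mem_bot] at hu
        subst hu
        exact ⟨0, fun κ u _ => by rw [mulVec_zero, dotProduct_zero], by simp⟩
      have hc := hc3 κ h1 h2 hb
      obtain ⟨u', hu', hW⟩ := hN3 κ h1 h2 u hu
      refine ⟨0, fun κ u _ => by rw [mulVec_zero, dotProduct_zero], ?_⟩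
      rw [mulVec_zero, add_zero]
      have a1 := SUB.H_nab m u
      rw [Qb_H h hR hD hNil hp hf hu, hW _ hHW, Qb_H h hR hD hNil hp hf hu', SUB.dv_smul] at a1
      have a2 : dv d (g *ᵥ u) = g *ᵥ u' - (d (1 + a * κ) / (1 + a * κ)) • (g *ᵥ u) := by
        have a3 : (1 + a * κ) • dv d (g *ᵥ u) =
            (1 + a * κ) • (g *ᵥ u') - d (1 + a * κ) • (g *ᵥ u) := eq_sub_of_add_eq a1
        have a4 := congrArg (fun x => (1 + a * κ)⁻¹ • x) a3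
        simp only [smul_smul, smul_sub, inv_mul_cancel₀ hc, one_smul] at a4
        rw [a4, div_eq_inv_mul]
      have a5 := SUB.F_nab (arm := arm) (J := J) (H := g + a • f) (Y := Y) (d := d) Pt.1 w u
      rw [hW w hw, L3 κ h1 h2 u hu, L3 κ h1 h2 u' hu', SUB.dv_smul, a2] at a5
      have a6 : wd arm J (g + a • f) Pt.1 Y d w *ᵥ u =
          (μ κ • (g *ᵥ u' - (d (1 + a * κ) / (1 + a * κ)) • (g *ᵥ u)) + d (μ κ) • (g *ᵥ u)) -
            μ κ • (g *ᵥ u') := by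
        rw [a5]; abel
      rw [a6]
      module

/-- **L2-h: `w'' = wd w` is good.** -/
theorem wd_QG {a : K} {Pt : Matrix ι ι K × (Fin 3 → Matrix ι ι K)} {ν ν' : K}
    {n1 n2 : Type*} [Fintype n1] [Fintype n2] {U1 : Matrix δ n1 K} {U2 : Matrix δ n2 K}
    (hH : Ctx k arm J B N W (g + a • f)) (hPt : Pt ∈ NN arm J N (g + a • f))
    {Y : Fin 3 → Matrix δ δ K} {d : Derivation k K K}
    (m : Mv k arm J N W (g + a • f) Pt.1 Y d) {c1 c2 : K}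
    (fr : SUX.Fr J g (g + a • f) Pt.1 (gᵀ * J * (p.1 * g)) c1 c2 U1 U2)
    (hsp1 : ∀ u ∈ Qb h.data hR p.1 D ν, ∃ x, u = U1 *ᵥ x)
    (hmem1 : ∀ x, U1 *ᵥ x ∈ Qb h.data hR p.1 D ν)
    (hsp2 : ∀ u ∈ Qb h.data hR p.1 D ν', ∃ x, u = U2 *ᵥ x)
    (hmem2 : ∀ x, U2 *ᵥ x ∈ Qb h.data hR p.1 D ν')
    {Γ1 : Matrix n1 n1 K} {Γ2 : Matrix n2 n2 K} {β : Matrix n1 n2 K} {γ γ0 : Matrix n2 n1 K}
    (hN2 : ∀ v ∈ W, v * (U2.map d + ZY arm J (g + a • f) Pt.1 Y * U2) =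
      v * (U2 * Γ2 + c2 ^ 2 • (U1 * β)))
    (hN1 : ∀ v ∈ W, v * (U1.map d + ZY arm J (g + a • f) Pt.1 Y * U1) =
      v * (U1 * Γ1 + c1 ^ 2 • (U2 * γ)))
    (hβ : (U1ᵀ * (gᵀ * J * (p.1 * g)) * U1) * β = 0)
    (hγ : (U2ᵀ * (gᵀ * J * (p.1 * g)) * U2) * γ = 0)
    (hγ0 : (U2ᵀ * (gᵀ * J * (p.1 * g)) * U2) * γ0 = 0)
    (hc : ∀ κ, Qb h.data hR p.1 D κ ≠ ⊥ → 1 + a * κ ≠ 0)
    (hN3 : ∀ κ, κ ≠ ν → κ ≠ ν' → ∀ u ∈ Qb h.data hR p.1 D κ, ∃ u' ∈ Qb h.data hR p.1 D κ,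
      ∀ v ∈ W, v *ᵥ SUB.nab arm J (g + a • f) Pt.1 Y d u = v *ᵥ u')
    {w : Matrix ι δ K} (hw : w ∈ W) (hwp : (g + a • f)ᵀ * J * w = 0) {μ : K → K}
    (L1 : w * U1 = μ ν • (g * U1) + g * (U2 * γ0)) (L2 : w * U2 = μ ν' • (g * U2))
    (L3 : ∀ κ, κ ≠ ν → κ ≠ ν' → ∀ u ∈ Qb h.data hR p.1 D κ, w *ᵥ u = μ κ • (g *ᵥ u))
    {α : Type*} {Pb : α → Submodule K (ι → K)} {nu : α → K}
    (hPb : ∀ i, Pb i ≤ (PB (Ph arm J B g R p.1) D (nu i)).map (Sg g).subtype)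
    {x : Matrix ι δ K} (hx : x - wd arm J (g + a • f) Pt.1 Y d w ∈ N) :
    x ∈ SLev0.QG arm J B N W g p (PC arm J B g R p.1) Pb nu := by
  obtain ⟨μ', hμ'⟩ := vals h hR hD hNil hp hf hH hPt m fr hsp1 hmem1 hsp2 hmem2 hN2 hN1 hβ hγ hγ0
    (fun κ _ _ hb => hc κ hb) hN3 hw L1 L2 L3
  have hwJ : (g + a • f)ᵀ * J * wd arm J (g + a • f) Pt.1 Y d w = 0 := m.w_perp hH hwp
  refine QG_of_vals h hR hD hPb (m.w_mem hw) hx (fun κ u hu v => ?_) μ' fun i u hu => hμ' _ u hu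
  by_cases hb : Qb h.data hR p.1 D κ = ⊥
  · rw [hb, Submodule.mem_bot] at hu
    rw [hu, mulVec_zero, zero_dotProduct]
  have e1 : ((g + a • f) *ᵥ u) ⬝ᵥ ((J * wd arm J (g + a • f) Pt.1 Y d w) *ᵥ v) = 0 := by
    rw [← tdot' (g + a • f) u, mulVec_mulVec, ← Matrix.mul_assoc, hwJ, zero_mulVec,
      dotProduct_zero]
  rw [Qb_H h hR hD hNil hp hf hu, smul_dotProduct, smul_eq_mul] at e1
  exact (mul_eq_zero.1 e1).resolve_left (hc κ hb)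

end blk

end Crest.Agent.R172.SWd275
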