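import Crest.Agent.R172.SGeo869b
import Crest.Agent.R172.SB4x117
import Crest.Agent.R172.SDecP70
import Crest.Agent.R172.SWd275
import Crest.Agent.R172.SUX7
import Crest.Agent.R172.SLevA455
import Crest.Agent.R172.SUniq803
import Crest.Agent.R172.SU170
import Crest.Agent.R172.SKer826

/-!
Row 172 (S0260), S-side (t2), level 2, geometric half: the second clause of `Geo22`.
-/

set_option autoImplicit false
set_option linter.unusedSectionVars false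
set_option linter.unusedVariables false
set_option maxHeartbeats 1600000

namespace Crest.Agent.R172.SG213b

open Matrix Module Crest.Agent.R172.FO Crest.Agent.R172.Qt Crest.Agent.R172.SpS
open Crest.Agent.R172.SEnd2 (PC PhS)
open Crest.Agent.R172.Om (Kiso)
open Crest.Agent.R172.SCM (BPkg)
open Crest.Agent.R172.SUX (D3 th ZY wd Mv Fr K1 I1 I2 QQ5)
open Crest.Agent.R172.PL (CoreM Ainf)
open Crest.Agent.R172.UBlk (Qb Qb_stable Qb_exists Qb_rel Qb_orth Qb_H cov)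
open Crest.Agent.R172.SInst (QQb)
open Crest.Agent.R172.SGeo869 (MvD W3 ExM Ym)
open Crest.Agent.R172.SDec (Dec ZB Rel2)
open Crest.Agent.R172.STop (Setup)
open Crest.Agent.R172.SLev0 (PbK QG)

variable {ι : Type} [Fintype ι] [DecidableEq ι] {δ : Type} [Fintype δ] [DecidableEq δ]
variable {K : Type} [Field K] [Algebra ℂ K] [IsAlgClosed K]
variable {arm : δ → Fin 3} {J : Matrix ι ι K} {B : Matrix δ δ K}
  {N W : Submodule K (Matrix ι δ K)} {F f : Matrix ι δ K}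
  {P : Matrix ι ι K × (Fin 3 → Matrix ι ι K)} {R : Matrix δ ι K}
  {D : End K (CoreM (PhS arm J B F R P.1))} {l : Fin 3 → ℕ}

/-- **the second clause at one move** -/
theorem rel2 (S : Setup arm J B N W F f P R D l) {ν ν' : K} (hne : ν ≠ ν')
    {n1 n2 : ℕ} {Q1 : Matrix ι (Fin n1) K} {A1 : Fin 3 → Matrix (Fin n1) (Fin n1) K}
    {Q2 : Matrix ι (Fin n2) K} {A2 : Fin 3 → Matrix (Fin n2) (Fin n2) K}
    (b1 : BPkg arm J B F R P.1 D ν l Q1 A1) (b2 : BPkg arm J B F R P.1 D ν' l Q2 A2)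
    {m1 m2 : ℕ} {U1 : Matrix δ (Fin m1) K} {U2 : Matrix δ (Fin m2) K}
    {a1 : Fin 3 → Matrix (Fin m1) (Fin m1) K} {a2 : Fin 3 → Matrix (Fin m2) (Fin m2) K}
    (hU1 : UFr.Cq (QQb S ν) U1) (hs1 : ∀ u ∈ QQb S ν, ∃ x, u = U1 *ᵥ x)
    (ha1 : ∀ s, B * E K arm s * (Fᵀ * J * (P.1 * F)) * U1 = U1 * a1 s)
    (hU2 : UFr.Cq (QQb S ν') U2) (hs2 : ∀ u ∈ QQb S ν', ∃ x, u = U2 *ᵥ x)
    (ha2 : ∀ s, B * E K arm s * (Fᵀ * J * (P.1 * F)) * U2 = U2 * a2 s)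
    {a : K} (hc : ∀ κ, QQb S κ ≠ ⊥ → 1 + a * κ ≠ 0)
    {Pt : Matrix ι ι K × (Fin 3 → Matrix ι ι K)} {dY : Derivation ℂ K K}
    {X' : Fin 3 → Matrix (Fin m2) (Fin m1) K} {d : Derivation ℂ K K}
    {Γ1 : Matrix (Fin m1) (Fin m1) K} {Γ2 : Matrix (Fin m2) (Fin m2) K}
    {β : Matrix (Fin m1) (Fin m2) K} {γ : Matrix (Fin m2) (Fin m1) K}
    (M : MvD arm J B N W F f (F + a • f) Pt (Fᵀ * J * (P.1 * F)) dY (QQb S) ν ν' (1 + a * ν)
      (1 + a * ν') U1 U2 a1 a2 X' d Γ1 Γ2 β γ) {c0 : K} {y : D3 K (Fin m1) (Fin m2)}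
    (hy : Dec F (Fᵀ * J * (P.1 * F)) U1 U2 a1 a2 c0 y)
    (hI : I1 arm F (Fᵀ * J * (P.1 * F)) U1 U2 y ∈
      QQ5 J N (W3 W F (QQb S) ν ν') F f dY (Fᵀ * J * (P.1 * F)) U1 U2) :
    Rel2 arm F (Fᵀ * J * (P.1 * F)) U1 U2 ((1 + a * ν') / (1 + a * ν)) y (X', β, γ) ∈
      QG arm J B N W F P (PC arm J B F R P.1) (fun μ : K => (PbK arm J B F R P.1 D μ)) id := by
  classical
  obtain ⟨X, β0, γ0⟩ := y
  obtain ⟨w, μ1, μ2, ν1, ν2, cw⟩ := SUX.exists_WCls hI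
  have hm1 : ∀ x, U1 *ᵥ x ∈ QQb S ν := SUniq803.mem_of_Cq hU1
  have hm2 : ∀ x, U2 *ᵥ x ∈ QQb S ν' := SUniq803.mem_of_Cq hU2
  obtain ⟨C1, u1⟩ := SB4x.exists_FU S b1 hU1 hs1 hm1 ha1
  obtain ⟨C2, u2⟩ := SB4x.exists_FU S b2 hU2 hs2 hm2 ha2
  obtain ⟨g21, g12⟩ := SLevA455.gens0 S hne b1 b2
  have hN2 : ∀ v ∈ W, v * (U2.map d + ZY arm J (F + a • f) Pt.1 (Ym U1 U2 X') * U2) =
      v * (U2 * Γ2 + (1 + a * ν') ^ 2 • (U1 * β)) := fun v _ => by rw [M.hN2]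
  have hN1 : ∀ v ∈ W, v * (U1.map d + ZY arm J (F + a • f) Pt.1 (Ym U1 U2 X') * U1) =
      v * (U1 * Γ1 + (1 + a * ν) ^ 2 • (U2 * γ)) := fun v _ => by rw [M.hN1]
  have hHc : ∀ w : Matrix ι δ K, Fᵀ * J * w = 0 → fᵀ * J * w = 0 →
      (F + a • f)ᵀ * J * w = 0 := by
    intro w h1 h2
    rw [transpose_add, transpose_smul, Matrix.add_mul, Matrix.add_mul, Matrix.smul_mul,
      Matrix.smul_mul, h1, h2, smul_zero, add_zero]
  have hWW : W3 W F (QQb S) ν ν' ≤ W := fun w hw => hw.1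
  have hwW := hWW cw.mem
  have hXf : ∀ s, X s ∈ _ := fun s => SB4x.filt_of_arm S u1 b1 u2 b2 s (hy.arm s)
  have hXf' : ∀ s, X' s ∈ _ := fun s => SB4x.filt_of_arm S u1 b1 u2 b2 s (M.dec.arm s)
  -- the values on the third blocks
  have h3 := cw.mem.2
  let μf : K → K := fun κ => if h1 : κ = ν then μ1 else if h2 : κ = ν' then μ2 else
    Classical.choose (h3 κ h1 h2)
  have hμ1 : μf ν = μ1 := by simp only [μf, dif_pos]
  have hμ2 : μf ν' = μ2 := by simp only [μf, dif_neg hne.symm, dif_pos]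
  have hμ3 : ∀ κ, κ ≠ ν → κ ≠ ν' → ∀ u ∈ QQb S κ, w *ᵥ u = μf κ • (F *ᵥ u) := by
    intro κ h1 h2 u hu
    have h4 := Classical.choose_spec (h3 κ h1 h2) u hu
    simp only [μf, dif_neg h1, dif_neg h2]
    exact h4
  have hwQ : wd arm J (F + a • f) Pt.1 (Ym U1 U2 X') d w ∈
      QG arm J B N W F P (PC arm J B F R P.1) (fun μ : K => (PbK arm J B F R P.1 D μ)) id := by
    refine SWd275.wd_QG (SInst.ctx S) S.hR S.hD (S.hNil F S.hF) S.hP (SInst.hfNW S) M.ctx M.hPt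
      M.mv M.fr hs1 hm1 hs2 hm2 hN2 hN1 M.dec.rb M.dec.rk (γ0 := γ0) hy.rk hc M.n3 hwW
      (hHc w cw.pF cw.pf) (μ := μf) (by rw [hμ1]; exact cw.L1) (by rw [hμ2]; exact cw.L2) hμ3
      (fun i => le_rfl) ?_
    rw [sub_self]; exact N.zero_mem
  have key := SUX.second_mem M.ctx M.hPt M.mv M.fr (fun s v _ => rfl) hN2 hN1 S.hF.1
    (M.ctx.perp F S.hF.1) hWW hHc (fun w hw hw2 => M.row w hw2) cw SLev0.N_le_QG hwQ
    (Submodule.sum_mem _ fun s _ => SB4x.part21 u1 b1 u2 b2 g21 M.ctx M.hPt M.mv M.fr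
      (fun s v _ => rfl) hN2 hN1 S.hF.1.2 ha1 ha2 s (hXf s) (hXf' s) _ _ _)
    (Submodule.sum_mem _ fun s _ => SB4x.part12 u1 b1 u2 b2 g12 s (hXf' s))
  exact key

end Crest.Agent.R172.SG213b
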