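import Crest.Agent.R172.SG213b

/-!
Row 172 (S0260), S-side (t2), level 2: **the geometric half `geo22 : SDec.Geo22`.**
-/

set_option autoImplicit false
set_option linter.unusedSectionVars false
set_option linter.unusedVariables false
set_option maxHeartbeats 1600000

namespace Crest.Agent.R172.SG213c

open Matrix Module Crest.Agent.R172.FO Crest.Agent.R172.Qt Crest.Agent.R172.SpS
open Crest.Agent.R172.SEnd2 (PC PhS)
open Crest.Agent.R172.Om (Kiso)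
open Crest.Agent.R172.SCM (BPkg)
open Crest.Agent.R172.SUX (D3 th ZY wd Mv Fr K1 I1 I2 QQ5)
open Crest.Agent.R172.PL (CoreM Ainf)
open Crest.Agent.R172.UBlk (Qb Qb_stable Qb_exists Qb_rel Qb_orth Qb_H cov)
open Crest.Agent.R172.SInst (QQb)
open Crest.Agent.R172.SGeo869 (MvD W3 ExM Ym)
open Crest.Agent.R172.SDec (Dec ZB Rel2)
open Crest.Agent.R172.STop (Setup)
open Crest.Agent.R172.SLev0 (PbK QG)

section small

variable {K : Type*} [Field K]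

theorem word_eq {m : ℕ} (a : Fin 3 → Matrix (Fin m) (Fin m) K) (w : List (Fin 3))
    (x : Fin m → K) :
    (w.map fun s => (a s).mulVecLin).prod x = (w.map a).prod *ᵥ x := by
  induction w with
  | nil => simp
  | cons s w ih =>
    rw [List.map_cons, List.prod_cons, List.map_cons, List.prod_cons, Module.End.mul_apply, ih,
      mulVecLin_apply, mulVec_mulVec]

theorem sq_finite {Sf : Set K} (hSf : Sf.Finite) : {r : K | -(r ^ 2) ∈ Sf}.Finite := by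
  refine Set.Finite.preimage' (f := fun r : K => -(r ^ 2)) hSf fun c _ => ?_
  by_cases h : ∃ r0 : K, -(r0 ^ 2) = c
  · obtain ⟨r0, h0⟩ := h
    refine (Set.toFinite {r0, -r0}).subset ?_
    intro r hr
    have h1 : -(r ^ 2) = c := hr
    have h2 : r ^ 2 = r0 ^ 2 := neg_injective (h1.trans h0.symm)
    rcases sq_eq_sq_iff_eq_or_eq_neg.1 h2 with h3 | h3
    · exact Or.inl h3
    · exact Or.inr h3
  · refine Set.finite_empty.subset ?_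
    intro r hr
    exact h ⟨r, hr⟩

/-- `Rel2` only depends on the visible part of the corrections -/
theorem rel2_congr {ι : Type*} {δ : Type*} [Fintype δ] [DecidableEq δ] {arm : δ → Fin 3}
    {F : Matrix ι δ K} {S0 : Matrix δ δ K} (hsk : S0ᵀ = -S0) {m1 m2 : ℕ}
    {U1 : Matrix δ (Fin m1) K} {U2 : Matrix δ (Fin m2) K} {r : K} {y y' : D3 K (Fin m1) (Fin m2)}
    {β : Matrix (Fin m1) (Fin m2) K} {γ : Matrix (Fin m2) (Fin m1) K}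
    (h1 : F * (U1 * (y'.2.1 - β)) = 0) (h2 : S0 * (U2 * (y'.2.2 - γ)) = 0) :
    Rel2 arm F S0 U1 U2 r y y' = Rel2 arm F S0 U1 U2 r y (y'.1, β, γ) := by
  have e1 : F * (U1 * y'.2.1) = F * (U1 * β) := by
    rw [Matrix.mul_sub, Matrix.mul_sub, sub_eq_zero] at h1; exact h1
  have e2 : y'.2.2ᵀ * (U2ᵀ * S0) = γᵀ * (U2ᵀ * S0) := by
    have h3 := congrArg Matrix.transpose h2
    rw [transpose_mul, transpose_mul, hsk, transpose_zero, Matrix.mul_neg, neg_eq_zero,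
      transpose_sub, Matrix.sub_mul, Matrix.sub_mul, sub_eq_zero, Matrix.mul_assoc,
      Matrix.mul_assoc] at h3
    exact h3
  unfold Rel2
  refine congrArg₂ (· + ·) (Finset.sum_congr rfl fun s _ => ?_)
    (congrArg (fun A => r • A) (Finset.sum_congr rfl fun s _ => ?_))
  · have e3 : ∀ b : Matrix (Fin m1) (Fin m2) K,
        F * (U1 * (b * y.1 s - (y'.1 s)ᵀ * (U2ᵀ * S0 * U2) * y.1 s
          - (y'.1 s)ᵀ * y.2.1ᵀ) * U1ᵀ) * S0 * E K arm s =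
        (F * (U1 * b) * y.1 s - F * (U1 * ((y'.1 s)ᵀ * (U2ᵀ * S0 * U2) * y.1 s))
          - F * (U1 * ((y'.1 s)ᵀ * y.2.1ᵀ))) * U1ᵀ * S0 * E K arm s := by
      intro b
      simp only [Matrix.mul_sub, Matrix.sub_mul, Matrix.mul_assoc]
    change F * (U1 * (y'.2.1 * y.1 s - (y'.1 s)ᵀ * (U2ᵀ * S0 * U2) * y.1 s
          - (y'.1 s)ᵀ * y.2.1ᵀ) * U1ᵀ) * S0 * E K arm s = F * (U1 * (β * y.1 s -
          (y'.1 s)ᵀ * (U2ᵀ * S0 * U2) * y.1 s - (y'.1 s)ᵀ * y.2.1ᵀ) * U1ᵀ) * S0 * E K arm s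
    rw [e3, e3, e1]
  · have e3 : ∀ g : Matrix (Fin m2) (Fin m1) K,
        F * (U2 * (y.1 s * gᵀ + y.1 s * (U1ᵀ * S0 * U1) * (y'.1 s)ᵀ
          - y.2.2 * (y'.1 s)ᵀ) * U2ᵀ) * S0 * E K arm s =
        (F * (U2 * y.1 s) * (gᵀ * (U2ᵀ * S0)) + F * (U2 * (y.1 s * (U1ᵀ * S0 * U1) * (y'.1 s)ᵀ
          - y.2.2 * (y'.1 s)ᵀ)) * (U2ᵀ * S0)) * E K arm s := by
      intro g
      simp only [Matrix.mul_sub, Matrix.sub_mul, Matrix.mul_add, Matrix.add_mul, Matrix.mul_assoc]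
      abel
    change F * (U2 * (y.1 s * y'.2.2ᵀ + y.1 s * (U1ᵀ * S0 * U1) * (y'.1 s)ᵀ
          - y.2.2 * (y'.1 s)ᵀ) * U2ᵀ) * S0 * E K arm s = F * (U2 * (y.1 s * γᵀ +
          y.1 s * (U1ᵀ * S0 * U1) * (y'.1 s)ᵀ - y.2.2 * (y'.1 s)ᵀ) * U2ᵀ) * S0 * E K arm s
    rw [e3, e3, e2]

end small

/-- **LEVEL 2, geometric half.** -/
theorem geo22 : SDec.Geo22 := by
  intro ι _ _ δ _ _ K _ _ _ arm J B N W F f P R D l S ν ν' hne n1 n2 Q1 A1 Q2 A2 b1 b2 m1 m2 U1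
    U2 a1 a2 hU1 hs1 hi1 ha1 hU2 hs2 hi2 ha2
  classical
  have hm1 : ∀ x, U1 *ᵥ x ∈ QQb S ν := SUniq803.mem_of_Cq hU1
  have hm2 : ∀ x, U2 *ᵥ x ∈ QQb S ν' := SUniq803.mem_of_Cq hU2
  obtain ⟨dY, bad, hbad, hM⟩ := SGeo869.exists_MvD S hne hU1 hs1 ha1 hU2 hs2 ha2
  have hsk : (Fᵀ * J * (P.1 * F))ᵀ = -(Fᵀ * J * (P.1 * F)) :=
    SUX.th_skew (SInst.ctx S) S.hP (SInst.ctx S).mem
  have hΛ0 : (SMv16.Lam ℂ bad ν ν').Infinite := SMv16.Lam_infinite hbad hne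
  have h00 : (0 : K) ∉ SMv16.Lam ℂ bad ν ν' := SMv16.Lam_zero bad ν ν'
  have hmv : ∀ r ∈ SMv16.Lam ℂ bad ν ν', ∃ a : K, (∀ κ, QQb S κ ≠ ⊥ → 1 + a * κ ≠ 0) ∧
      r = (1 + a * ν') / (1 + a * ν) ∧ ∀ X, ExM (Fᵀ * J * (P.1 * F)) U1 U2 a1 a2 (-(r ^ 2)) X →
        ∃ Pt d Γ1 Γ2 β γ, MvD arm J B N W F f (F + a • f) Pt
          (Fᵀ * J * (P.1 * F)) dY (QQb S) ν ν' (1 + a * ν)
          (1 + a * ν') U1 U2 a1 a2 X d Γ1 Γ2 β γ := by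
    rintro r ⟨t, ht, h1, h2, rfl⟩
    exact ⟨algebraMap ℂ K t, (hM t ht h1 h2).1, rfl, (hM t ht h1 h2).2⟩
  obtain ⟨C1, u1⟩ := SB4x.exists_FU S b1 hU1 hs1 hm1 ha1
  obtain ⟨C2, u2⟩ := SB4x.exists_FU S b2 hU2 hs2 hm2 ha2
  obtain ⟨L1, hL1⟩ := SU170.kills S b1 u1.gU u1.onto u1.act u1.gram
  obtain ⟨L2, hL2⟩ := SU170.kills S b2 u2.gU u2.onto u2.act u2.gram
  have p1 : ∀ x : Fin m1 → K, ∃ y : Fin 3 → Fin m1 → K, ∑ s, a1 s *ᵥ y s = x := fun x => by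
    obtain ⟨y, hy⟩ := SU170.perf S hs1 hm1 hi1 ha1 x
    exact ⟨y, hy.symm⟩
  have p2 : ∀ x : Fin m2 → K, ∃ y : Fin 3 → Fin m2 → K, ∑ s, a2 s *ᵥ y s = x := fun x => by
    obtain ⟨y, hy⟩ := SU170.perf S hs2 hm2 hi2 ha2 x
    exact ⟨y, hy.symm⟩
  have k1 : ∀ w : List (Fin 3), w.length = L1 → ∀ x,
      (U1ᵀ * (Fᵀ * J * (P.1 * F)) * U1) *ᵥ x = 0 →
      F *ᵥ (U1 *ᵥ ((w.map a1).prod *ᵥ x)) = 0 := by
    intro w hw x hx
    have h1 := hL1 x hx w hw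
    rw [word_eq, ← mulVec_mulVec] at h1
    exact h1
  have k2 : ∀ w : List (Fin 3), w.length = L2 → ∀ x,
      (U2ᵀ * (Fᵀ * J * (P.1 * F)) * U2) *ᵥ x = 0 →
      F *ᵥ (U2 *ᵥ ((w.map a2).prod *ᵥ x)) = 0 := by
    intro w hw x hx
    have h1 := hL2 x hx w hw
    rw [word_eq, ← mulVec_mulVec] at h1
    exact h1
  have hS : Fᵀ * J * (P.1 * F) = (Fᵀ * J * P.1) * F := by simp only [Matrix.mul_assoc]
  obtain ⟨Sf, hSf, hsep⟩ := SDecP70.dec_sep (T := Fᵀ * J * P.1) hS ha1 ha2 p1 p2 k1 k2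
    (QQ5 J N (W3 W F (QQb S) ν ν') F f dY (Fᵀ * J * (P.1 * F)) U1 U2)
    (I1 arm F (Fᵀ * J * (P.1 * F)) U1 U2) (I2 arm F (Fᵀ * J * (P.1 * F)) U1 U2)
    (fun db dg h1 h2 h3 h4 => SDecP70.I_zero hsk h1 h2 h3 h4) hΛ0 h00
    (fun r hr X hsum harm => by
      obtain ⟨a, hc, rfl, hX⟩ := hmv r hr
      obtain ⟨Pt, d, Γ1, Γ2, β, γ, M⟩ := hX X ⟨hsum, harm⟩
      exact ⟨β, γ, M.dec, SGeo869.first S hne hc M⟩)
  refine ⟨SMv16.Lam ℂ bad ν ν' \ {r : K | -(r ^ 2) ∈ Sf}, hΛ0.diff (sq_finite hSf),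
    fun h => h00 h.1, ?_, ?_⟩
  · intro r hr X hsum harm
    obtain ⟨a, hc, rfl, hX⟩ := hmv r hr.1
    obtain ⟨Pt, d, Γ1, Γ2, β, γ, M⟩ := hX X ⟨hsum, harm⟩
    refine ⟨β, γ, M.dec, ⟨fun x hx => ?_, fun x hx => ?_⟩⟩
    · exact SKer826.hker M.mv M.fr (by rw [M.hN2]) x hx
    · exact SKer826.hker' M.mv M.fr (by rw [M.hN1]) x hx
  · intro r hr r' hr' y y' hy hy'
    obtain ⟨a, hc, rfl, hX⟩ := hmv r' hr'.1
    obtain ⟨Pt, d, Γ1, Γ2, β, γ, M⟩ := hX y'.1 ⟨hy'.sum, hy'.arm⟩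
    have hI := (hsep (-(r ^ 2)) hr.2 y hy).1
    have key := SG213b.rel2 S hne b1 b2 hU1 hs1 ha1 hU2 hs2 ha2 hc M hy hI
    have hr0 : -(((1 + a * ν') / (1 + a * ν)) ^ 2) ≠ 0 :=
      neg_ne_zero.2 (pow_ne_zero 2 fun h => h00 (h ▸ hr'.1))
    obtain ⟨z1, z2, z3, z4⟩ := SDecP70.uniq hS ha1 ha2 p1 p2 k1 k2 hr0
      (b := y'.2.1) (g := y'.2.2) hy' M.dec
    rw [rel2_congr hsk z1 z4]
    exact key

end Crest.Agent.R172.SG213c
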