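import Crest.Agent.R172.SUXF

/-!
Row 172 (S0260), (t2), level 2 (952's referee remark on `SDec.Dec`): the corrections `β`, `γ` of a
move send the kernel of the frame of one block into the intersection of the two blocks
(`F U₂ x = 0 → F U₁ β x ∈ im (F U₂)` and conversely).
-/

set_option autoImplicit false
set_option linter.unusedSectionVars false
set_option linter.unusedFintypeInType false
set_option linter.unusedDecidableInType false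

namespace Crest.Agent.R172.SZb978

open Matrix Module Crest.Agent.R172.FO Crest.Agent.R172.Qt Crest.Agent.R172.SpS
open Crest.Agent.R172.SUX (ZY)

variable {ι : Type*} [Fintype ι] [DecidableEq ι] {δ : Type*} [Fintype δ] [DecidableEq δ]
variable {k K : Type*} [Field k] [Field K] [Algebra k K]
variable {arm : δ → Fin 3} {J : Matrix ι ι K}
  {W : Submodule K (Matrix ι δ K)} {H F : Matrix ι δ K} {P : Matrix ι ι K}
variable {n1 n2 : Type*} [Fintype n1] [Fintype n2]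
variable {c1 c2 : K} {U1 : Matrix δ n1 K} {U2 : Matrix δ n2 K} {Y : Fin 3 → Matrix δ δ K}
  {d : Derivation k K K}

/-- the basic computation, one block -/
theorem key (hHW : H ∈ W) (hdH : H.map d = H * ZY arm J H P Y) (hc1 : c1 ≠ 0) (hc2 : c2 ≠ 0)
    (H1 : H * U1 = c1 • (F * U1)) (H2 : H * U2 = c2 • (F * U2)) {e : K} (he : e ≠ 0)
    {Γ2 : Matrix n2 n2 K} {β : Matrix n1 n2 K}
    (hN : ∀ v ∈ W, v * (U2.map d + ZY arm J H P Y * U2) = v * (U2 * Γ2 + e • (U1 * β)))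
    (x : n2 → K) (hx : F *ᵥ (U2 *ᵥ x) = 0) :
    ∃ z, F *ᵥ (U1 *ᵥ (β *ᵥ x)) = F *ᵥ (U2 *ᵥ z) := by
  have h0 : H *ᵥ (U2 *ᵥ x) = 0 := by
    rw [mulVec_mulVec, H2, smul_mulVec, ← mulVec_mulVec, hx, smul_zero]
  have h1 : dv d (H *ᵥ (U2 *ᵥ x)) = 0 := by
    rw [h0]; funext i; simp [dv]
  rw [dv_mulVec, dv_mulVec, hdH] at h1
  have h2 := congrArg (fun A : Matrix ι n2 K => A *ᵥ x) (hN H hHW)
  simp only [Matrix.mul_add, add_mulVec, ← mulVec_mulVec, Matrix.mul_smul, smul_mulVec] at h2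
  simp only [← mulVec_mulVec, mulVec_add] at h1
  have h3 : H *ᵥ (U2 *ᵥ (Γ2 *ᵥ x + dv d x)) + e • (H *ᵥ (U1 *ᵥ (β *ᵥ x))) = 0 := by
    rw [mulVec_add, mulVec_add]
    have h4 : H *ᵥ (U2 *ᵥ (Γ2 *ᵥ x)) + e • (H *ᵥ (U1 *ᵥ (β *ᵥ x))) =
        H *ᵥ ((U2.map d) *ᵥ x) + H *ᵥ (ZY arm J H P Y *ᵥ (U2 *ᵥ x)) := by
      rw [h2]
    calc H *ᵥ (U2 *ᵥ (Γ2 *ᵥ x)) + H *ᵥ (U2 *ᵥ dv d x) + e • (H *ᵥ (U1 *ᵥ (β *ᵥ x)))
        = (H *ᵥ (U2 *ᵥ (Γ2 *ᵥ x)) + e • (H *ᵥ (U1 *ᵥ (β *ᵥ x)))) + H *ᵥ (U2 *ᵥ dv d x) := by abel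
      _ = 0 := by
          rw [h4, ← h1]; abel
  rw [mulVec_mulVec _ H U2, mulVec_mulVec _ H U1, H1, H2, smul_mulVec, smul_mulVec, smul_smul,
    ← mulVec_mulVec, ← mulVec_mulVec] at h3
  refine ⟨-((e * c1)⁻¹ * c2) • (Γ2 *ᵥ x + dv d x), ?_⟩
  have h5 : (e * c1) • (F *ᵥ (U1 *ᵥ (β *ᵥ x))) = -(c2 • (F *ᵥ (U2 *ᵥ (Γ2 *ᵥ x + dv d x)))) :=
    eq_neg_of_add_eq_zero_right h3
  have h6 : e * c1 ≠ 0 := mul_ne_zero he hc1
  rw [mulVec_smul, mulVec_smul, neg_smul, mul_smul, ← smul_neg, ← h5, smul_smul,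
    inv_mul_cancel₀ h6, one_smul]

/-- **zb**: `F U₂ x = 0 → F U₁ β x ∈ im (F U₂)` -/
theorem zb {S0 : Matrix δ δ K} {Γ2 : Matrix n2 n2 K} {β : Matrix n1 n2 K}
    (hHW : H ∈ W) (hdH : H.map d = H * ZY arm J H P Y) (fr : SUX.Fr J F H P S0 c1 c2 U1 U2)
    (hN2 : ∀ v ∈ W, v * (U2.map d + ZY arm J H P Y * U2) = v * (U2 * Γ2 + c2 ^ 2 • (U1 * β)))
    (x : n2 → K) (hx : F *ᵥ (U2 *ᵥ x) = 0) :
    ∃ z, F *ᵥ (U1 *ᵥ (β *ᵥ x)) = F *ᵥ (U2 *ᵥ z) :=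
  key hHW hdH fr.hc1 fr.hc2 fr.H1 fr.H2 (pow_ne_zero 2 fr.hc2) hN2 x hx

/-- **zk**: `F U₁ x = 0 → F U₂ γ x ∈ im (F U₁)` -/
theorem zk {S0 : Matrix δ δ K} {Γ1 : Matrix n1 n1 K} {γ : Matrix n2 n1 K}
    (hHW : H ∈ W) (hdH : H.map d = H * ZY arm J H P Y) (fr : SUX.Fr J F H P S0 c1 c2 U1 U2)
    (hN1 : ∀ v ∈ W, v * (U1.map d + ZY arm J H P Y * U1) = v * (U1 * Γ1 + c1 ^ 2 • (U2 * γ)))
    (x : n1 → K) (hx : F *ᵥ (U1 *ᵥ x) = 0) :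
    ∃ z, F *ᵥ (U2 *ᵥ (γ *ᵥ x)) = F *ᵥ (U1 *ᵥ z) :=
  key hHW hdH fr.hc2 fr.hc1 fr.H2 fr.H1 (pow_ne_zero 2 fr.hc1) hN1 x hx

/-- the linear form of `zb` (independent of `c`): usable as one more column of the pencil -/
theorem zb_iff {β : Matrix n1 n2 K} :
    (∀ x, F *ᵥ (U2 *ᵥ x) = 0 → ∃ z, F *ᵥ (U1 *ᵥ (β *ᵥ x)) = F *ᵥ (U2 *ᵥ z)) ↔
      ((LinearMap.range (F * U2).mulVecLin).mkQ ∘ₗ (F * U1).mulVecLin ∘ₗ β.mulVecLin) ∘ₗ
        (LinearMap.ker (F * U2).mulVecLin).subtype = 0 := by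
  constructor
  · intro h
    ext x
    obtain ⟨z, hz⟩ := h x.1 (by
      have := x.2
      rwa [LinearMap.mem_ker, mulVecLin_apply, ← mulVec_mulVec] at this)
    simp only [LinearMap.comp_apply, Submodule.subtype_apply, LinearMap.zero_apply]
    rw [Submodule.mkQ_apply, Submodule.Quotient.mk_eq_zero]
    refine ⟨z, ?_⟩
    rw [mulVecLin_apply, mulVecLin_apply, mulVecLin_apply, ← mulVec_mulVec, ← mulVec_mulVec, hz]
  · intro h x hx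
    have h1 := LinearMap.congr_fun h ⟨x, by
      rw [LinearMap.mem_ker, mulVecLin_apply, ← mulVec_mulVec]; exact hx⟩
    simp only [LinearMap.comp_apply, Submodule.subtype_apply, LinearMap.zero_apply] at h1
    rw [Submodule.mkQ_apply, Submodule.Quotient.mk_eq_zero] at h1
    obtain ⟨z, hz⟩ := h1
    refine ⟨z, ?_⟩
    rw [mulVecLin_apply, mulVecLin_apply, mulVecLin_apply, ← mulVec_mulVec, ← mulVec_mulVec] at hz
    exact hz.symm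

end Crest.Agent.R172.SZb978
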