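import Crest.Agent.R172.SDec2
import Crest.Agent.R172.SNabI934
import Crest.Agent.R172.SWd275
import Crest.Agent.R172.SInf266
import Crest.Agent.R172.SMv16
import Crest.Agent.R172.SB2H16
import Crest.Agent.R172.SUX7
import Crest.Agent.R172.SUX6t515
import Crest.Agent.R172.SD937
import Crest.Agent.R172.SUniq803
import Crest.Agent.R172.SB4x117
import Crest.Agent.R172.SZb978
import Crest.Agent.R172.SLevA455
import Crest.Agent.R172.SDecP70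

/-!
Row 172 (S0260), tame node (t2), level 2: the geometric half `SDec.Geo22`.
-/

set_option autoImplicit false
set_option linter.unusedSectionVars false
set_option linter.unusedVariables false
set_option maxHeartbeats 4000000

namespace Crest.Agent.R172.SG515

open Matrix Module Crest.Agent.R172.FO Crest.Agent.R172.Qt Crest.Agent.R172.SpS
open Crest.Agent.R172.SEnd2 (PC PhS)
open Crest.Agent.R172.SUX
open Crest.Agent.R172.PL (CoreM Ainf)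
open Crest.Agent.R172.STop (Setup)
open Crest.Agent.R172.SInst (ctx QQb)
open Crest.Agent.R172.SDec (Dec Rel2 ZB Geo22)
open Crest.Agent.R172.SLevA455 (two_ne)
open Crest.Agent.R172.Om (Kiso)

variable {ι : Type} [Fintype ι] [DecidableEq ι] {δ : Type} [Fintype δ] [DecidableEq δ]
variable {K : Type} [Field K] [Algebra ℂ K] [IsAlgClosed K]
variable {arm : δ → Fin 3} {J : Matrix ι ι K} {B : Matrix δ δ K} {N W : Submodule K (Matrix ι δ K)}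
  {F f : Matrix ι δ K} {P : Matrix ι ι K × (Fin 3 → Matrix ι ι K)} {R : Matrix δ ι K}
  {D : End K (CoreM (PhS arm J B F R P.1))} {l : Fin 3 → ℕ}

/-- the data at a good parameter -/
structure TD (S : Setup arm J B N W F f P R D l) (ν ν' : K) {m1 m2 : ℕ}
    (U1 : Matrix δ (Fin m1) K) (U2 : Matrix δ (Fin m2) K)
    (a1 : Fin 3 → Matrix (Fin m1) (Fin m1) K) (a2 : Fin 3 → Matrix (Fin m2) (Fin m2) K)
    (dY : Derivation ℂ K K) (a : K) (Pt : Matrix ι ι K × (Fin 3 → Matrix ι ι K)) : Prop where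
  hH : Ctx ℂ arm J B N W (F + a • f)
  hPt : Pt ∈ NN arm J N (F + a • f)
  hc : ∀ κ, QQb S κ ≠ ⊥ → 1 + a * κ ≠ 0
  fr : Fr J F (F + a • f) Pt.1 (Fᵀ * J * (P.1 * F)) (1 + a * ν) (1 + a * ν') U1 U2
  k1 : K1 J F (F + a • f) Pt.1 (Fᵀ * J * (P.1 * F)) (1 + a * ν) U1 U2
    ((ν - ν')⁻¹ • (f - ν' • F))
  hrow : ∀ w : Matrix ι δ K, (F + a • f)ᵀ * J * w = 0 →
    (F + a • f)ᵀ * J * (Pt.1 * w) = (F + a • f)ᵀ * J * w.map dY
  mv : ∀ X : Fin 3 → Matrix (Fin m2) (Fin m1) K,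
    ∑ s, (X s * (a1 s)ᵀ - (-(((1 + a * ν') / (1 + a * ν)) ^ 2)) • (a2 s * X s)) = 0 →
    (∀ s, (U2ᵀ * (Fᵀ * J * (P.1 * F)) * U2) *
      (X s * (a1 s)ᵀ - (-(((1 + a * ν') / (1 + a * ν)) ^ 2)) • (a2 s * X s)) *
      (U1ᵀ * (Fᵀ * J * (P.1 * F)) * U1) = 0) →
    ∃ (d : Derivation ℂ K K) (Γ1 : Matrix (Fin m1) (Fin m1) K) (Γ2 : Matrix (Fin m2) (Fin m2) K)
      (β : Matrix (Fin m1) (Fin m2) K) (γ : Matrix (Fin m2) (Fin m1) K),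
      Mv ℂ arm J N W (F + a • f) Pt.1 (fun r => U2 * X r * U1ᵀ + U1 * (X r)ᵀ * U2ᵀ) d ∧
      U2.map d + ZY arm J (F + a • f) Pt.1 (fun r => U2 * X r * U1ᵀ + U1 * (X r)ᵀ * U2ᵀ) * U2 =
        U2 * Γ2 + (1 + a * ν') ^ 2 • (U1 * β) ∧
      U1.map d + ZY arm J (F + a • f) Pt.1 (fun r => U2 * X r * U1ᵀ + U1 * (X r)ᵀ * U2ᵀ) * U1 =
        U1 * Γ1 + (1 + a * ν) ^ 2 • (U2 * γ) ∧
      Dec F (Fᵀ * J * (P.1 * F)) U1 U2 a1 a2 (-(((1 + a * ν') / (1 + a * ν)) ^ 2)) (X, β, γ) ∧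
      ∀ κ, κ ≠ ν → κ ≠ ν' → ∀ u ∈ QQb S κ, SUB.nab arm J (F + a • f) Pt.1
        (fun r => U2 * X r * U1ᵀ + U1 * (X r)ᵀ * U2ᵀ) d u ∈ QQb S κ

theorem exists_TD (S : Setup arm J B N W F f P R D l) {ν ν' : K} (hne : ν ≠ ν')
    {m1 m2 : ℕ} {U1 : Matrix δ (Fin m1) K} {U2 : Matrix δ (Fin m2) K}
    {a1 : Fin 3 → Matrix (Fin m1) (Fin m1) K} {a2 : Fin 3 → Matrix (Fin m2) (Fin m2) K}
    (hU1 : UFr.Cq (QQb S ν) U1) (hs1 : ∀ u ∈ QQb S ν, ∃ x, u = U1 *ᵥ x)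
    (ha1 : ∀ s, B * E K arm s * (Fᵀ * J * (P.1 * F)) * U1 = U1 * a1 s)
    (hU2 : UFr.Cq (QQb S ν') U2) (hs2 : ∀ u ∈ QQb S ν', ∃ x, u = U2 *ᵥ x)
    (ha2 : ∀ s, B * E K arm s * (Fᵀ * J * (P.1 * F)) * U2 = U2 * a2 s) :
    ∃ (T0 : Set ℂ) (dY : Derivation ℂ K K), T0.Finite ∧ ∀ t ∉ T0,
      1 + algebraMap ℂ K t * ν ≠ 0 → 1 + algebraMap ℂ K t * ν' ≠ 0 →
      ∃ Pt, TD S ν ν' U1 U2 a1 a2 dY (algebraMap ℂ K t) Pt := by
  obtain ⟨Sb, hSb, hgood⟩ := SNabI.exists_bad (k := ℂ) (ctx S) S.hR S.hD (two_ne K)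
  obtain ⟨Y0, dY, -, hreal, hform, hfam⟩ := SInst.family S (two_ne K)
  obtain ⟨Sa, hSa, hA⟩ := SInf266.ainf_eq (two_ne K) S.hCtx S.hNm S.hWm S.hNil S.hF S.hf S.hV1
    S.hP hreal hform
  refine ⟨Sb ∪ Sa ∪ {0}, dY, (hSb.union hSa).union (Set.finite_singleton _),
    fun t ht h1 h2 => ?_⟩
  simp only [Set.mem_union, Set.mem_singleton_iff, not_or] at ht
  obtain ⟨⟨htb, hta⟩, ht0⟩ := ht
  obtain ⟨hc, hom⟩ := hgood t htb
  obtain ⟨Pt, Ri, hHK, hCH, hPt, hV, hRi, hY, hPF, hrow⟩ := hfam t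
  obtain ⟨fr, k1⟩ := SInst.fr_k1 S hY hPF hne h1 h2 hU1 hU2
  refine ⟨Pt, hCH, hPt, ?_, fr, k1, ?_, ?_⟩
  · intro κ hκ
    refine hc κ fun h0 => hκ ?_
    rw [eq_bot_iff]
    intro u hu
    exact (Submodule.mem_bot K).2
      (SNab.PB_zero ((UBlk.cov (ctx S).data S.hR P.1).D_comm S.hD.2) h0 hu)
  · intro w hw
    have h3 := hrow w hw
    have h4 : (Pt.1)ᵀ * J = -(J * Pt.1) := hPt.1.eq
    rw [transpose_mul, Matrix.mul_assoc _ (Pt.1)ᵀ, h4] at h3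
    have h5 : (F + (algebraMap ℂ K t) • f)ᵀ * -(J * Pt.1) * w =
      -((F + (algebraMap ℂ K t) • f)ᵀ * J * (Pt.1 * w)) := by
      simp only [Matrix.mul_neg, Matrix.neg_mul, Matrix.mul_assoc]
    rw [h5] at h3
    exact neg_injective h3
  · intro X hsum harm
    obtain ⟨d, m⟩ := SMv16.exists_mv hCH (two_ne K) hRi hPt hV fr ha1 ha2 rfl hsum
    have hne' : 1 + algebraMap ℂ K t * ν ≠ 1 + algebraMap ℂ K t * ν' := SMv16.c_ne ht0 hne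
    have hB := SNabI.B1 (ctx S) S.hR S.hD (S.hNil F S.hF) S.hP S.hf.1 (SInst.hff S) hCH hPt hY hPF
      (hA t hta Pt hPt hY).le hc hom (fun r => SMv16.Yf_symm r) m hne hU1 hU2 hs1 hs2 ha1 ha2
      (X := X) (fun r => rfl) (fun r => by
        have e : (1 + algebraMap ℂ K t * ν) ^ 2 • (X r * (a1 r)ᵀ -
            (-(((1 + algebraMap ℂ K t * ν') / (1 + algebraMap ℂ K t * ν)) ^ 2)) • (a2 r * X r)) =
            (1 + algebraMap ℂ K t * ν) ^ 2 • (X r * (a1 r)ᵀ) +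
              (1 + algebraMap ℂ K t * ν') ^ 2 • (a2 r * X r) := by
          have e0 : (1 + algebraMap ℂ K t * ν) ^ 2 *
              ((1 + algebraMap ℂ K t * ν') / (1 + algebraMap ℂ K t * ν)) ^ 2 =
              (1 + algebraMap ℂ K t * ν') ^ 2 := by
            field_simp
          rw [neg_smul, sub_neg_eq_add, smul_add, smul_smul, e0]
        rw [← e, Matrix.mul_smul, Matrix.smul_mul, harm r, smul_zero])
    obtain ⟨i1, i2, i3⟩ := hB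
    have hp : ∀ μ, ∀ u ∈ QQb S μ, ∃ c : Fin 3 → δ → K, (∀ s, c s ∈ QQb S μ) ∧
        ∑ s, (B * E K arm s * (Fᵀ * J * (P.1 * F))) *ᵥ c s = u := fun μ u hu =>
      UBlk.Qb_exists (ctx S) S.hR S.hD hu
    obtain ⟨Γ1, Γ2, β, γ, e2, e1, hdec⟩ := SB2H16.dec_of_B1 hCH hPt m fr hne' hU1 hs1 ha1 (hp ν)
      hU2 hs2 ha2 (hp ν') (X := X) (fun r => rfl) i1 i2 rfl hsum harm
    exact ⟨d, Γ1, Γ2, β, γ, m, e2, e1, hdec, i3⟩

/-- **the second clause at one pair of parameters** -/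
theorem rel2_at (S : Setup arm J B N W F f P R D l) {ν ν' : K} (hne : ν ≠ ν')
    {n1 n2 : ℕ} {Q1 : Matrix ι (Fin n1) K} {A1 : Fin 3 → Matrix (Fin n1) (Fin n1) K}
    {Q2 : Matrix ι (Fin n2) K} {A2 : Fin 3 → Matrix (Fin n2) (Fin n2) K}
    (b1 : SCM.BPkg arm J B F R P.1 D ν l Q1 A1) (b2 : SCM.BPkg arm J B F R P.1 D ν' l Q2 A2)
    {m1 m2 : ℕ} {U1 : Matrix δ (Fin m1) K} {U2 : Matrix δ (Fin m2) K}
    {a1 : Fin 3 → Matrix (Fin m1) (Fin m1) K} {a2 : Fin 3 → Matrix (Fin m2) (Fin m2) K}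
    (hU1 : UFr.Cq (QQb S ν) U1) (hs1 : ∀ u ∈ QQb S ν, ∃ x, u = U1 *ᵥ x)
    (hi1 : ∀ x, U1 *ᵥ x = 0 → x = 0)
    (ha1 : ∀ s, B * E K arm s * (Fᵀ * J * (P.1 * F)) * U1 = U1 * a1 s)
    (hU2 : UFr.Cq (QQb S ν') U2) (hs2 : ∀ u ∈ QQb S ν', ∃ x, u = U2 *ᵥ x)
    (hi2 : ∀ x, U2 *ᵥ x = 0 → x = 0)
    (ha2 : ∀ s, B * E K arm s * (Fᵀ * J * (P.1 * F)) * U2 = U2 * a2 s)
    {dY : Derivation ℂ K K} {a : K} {Pt : Matrix ι ι K × (Fin 3 → Matrix ι ι K)}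
    (T : TD S ν ν' U1 U2 a1 a2 dY a Pt) {c : K} {y y' : D3 K (Fin m1) (Fin m2)}
    (hy : Dec F (Fᵀ * J * (P.1 * F)) U1 U2 a1 a2 c y)
    (hI : I1 arm F (Fᵀ * J * (P.1 * F)) U1 U2 y ∈ SUXt.QQ5t J N W F f dY (Fᵀ * J * (P.1 * F))
      U1 U2 (fun κ : {κ : K // κ ≠ ν ∧ κ ≠ ν'} => QQb S κ.1))
    (hy' : Dec F (Fᵀ * J * (P.1 * F)) U1 U2 a1 a2
      (-(((1 + a * ν') / (1 + a * ν)) ^ 2)) y') :
    Rel2 arm F (Fᵀ * J * (P.1 * F)) U1 U2 ((1 + a * ν') / (1 + a * ν)) y y' ∈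
      SLev0.QG arm J B N W F P (PC arm J B F R P.1)
        (fun μ : K => (SLev0.PbK arm J B F R P.1 D μ)) id := by
  classical
  obtain ⟨X, β0, γ0⟩ := y
  obtain ⟨X', β', γ'⟩ := y'
  obtain ⟨d, Γ1, Γ2, β, γ, m, e2, e1, hdec, h3⟩ := T.mv X' hy'.sum hy'.arm
  have hc1 := T.fr.hc1
  have hc2 := T.fr.hc2
  have hρ : -(((1 + a * ν') / (1 + a * ν)) ^ 2) ≠ 0 :=
    neg_ne_zero.2 (pow_ne_zero 2 (div_ne_zero hc2 hc1))
  obtain ⟨⟨u1, u1'⟩, u2, u2'⟩ := SUniq803.dec_uniq S hU1 hs1 hi1 ha1 hU2 hs2 hi2 ha2 hρ hy' hdec rfl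
  obtain ⟨w, hw, wF, wf, wN, μ1, μ2, ν1, ν2, L1, L2, R1, R2, L3⟩ := SUXt.even_data hI
  obtain ⟨C1, FU1⟩ := SB4x.exists_FU S b1 hU1 hs1 (SUniq803.mem_of_Cq hU1) ha1
  obtain ⟨C2, FU2⟩ := SB4x.exists_FU S b2 hU2 hs2 (SUniq803.mem_of_Cq hU2) ha2
  obtain ⟨g21, g12⟩ := SLevA455.gens0 S hne b1 b2
  have hX : ∀ s, X s ∈ _ := fun s => SB4x.filt_of_arm S FU1 b1 FU2 b2 s (hy.arm s)
  have hX' : ∀ s, X' s ∈ _ := fun s => SB4x.filt_of_arm S FU1 b1 FU2 b2 s (hy'.arm s)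
  have hN2 : ∀ v ∈ W, v * (U2.map d + ZY arm J (F + a • f) Pt.1
      (fun r => U2 * X' r * U1ᵀ + U1 * (X' r)ᵀ * U2ᵀ) * U2) =
      v * (U2 * Γ2 + (1 + a * ν') ^ 2 • (U1 * β)) := fun v _ => by rw [e2]
  have hN1 : ∀ v ∈ W, v * (U1.map d + ZY arm J (F + a • f) Pt.1
      (fun r => U2 * X' r * U1ᵀ + U1 * (X' r)ᵀ * U2ᵀ) * U1) =
      v * (U1 * Γ1 + (1 + a * ν) ^ 2 • (U2 * γ)) := fun v _ => by rw [e1]
  have hHc : ∀ w : Matrix ι δ K, Fᵀ * J * w = 0 → fᵀ * J * w = 0 →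
      (F + a • f)ᵀ * J * w = 0 := fun w h1 h2 => by
    rw [transpose_add, transpose_smul, Matrix.add_mul, Matrix.add_mul, h1, Matrix.smul_mul,
      Matrix.smul_mul, h2, smul_zero, add_zero]
  have hHF : (F + a • f)ᵀ * J * F = 0 := T.hH.perp F (S.hCtx F S.hF).mem
  have cw : WCls arm J N W F f dY (Fᵀ * J * (P.1 * F)) U1 U2 X β0 γ0 w μ1 μ2 ν1 ν2 :=
    ⟨hw, wF, wf, wN, L1, L2, R1, R2⟩
  choose μ3 hμ3 using L3
  let μ : K → K := fun κ => if h1 : κ = ν then μ1 else if h2 : κ = ν' then μ2 else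
    μ3 ⟨κ, h1, h2⟩
  have hwQ : wd arm J (F + a • f) Pt.1 (fun r => U2 * X' r * U1ᵀ + U1 * (X' r)ᵀ * U2ᵀ) d w ∈
      SLev0.QG arm J B N W F P (PC arm J B F R P.1)
        (fun μ : K => (SLev0.PbK arm J B F R P.1 D μ)) id := by
    refine SWd275.wd_QG (ctx S) S.hR S.hD (S.hNil F S.hF) S.hP S.hf.1 T.hH T.hPt m T.fr hs1
      (SUniq803.mem_of_Cq hU1) hs2 (SUniq803.mem_of_Cq hU2) hN2 hN1 hdec.rb hdec.rk hy.rk T.hc
      (fun κ k1 k2 u hu => ⟨_, h3 κ k1 k2 u hu, fun v _ => rfl⟩) hw (hHc w wF wf)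
      (μ := μ) (γ0 := γ0) ?_ ?_ ?_ (nu := id) (fun i => le_rfl) (by
        rw [sub_self]; exact N.zero_mem)
    · have : μ ν = μ1 := dif_pos rfl
      rw [this]; exact L1
    · have : μ ν' = μ2 := by
        change (if h1 : ν' = ν then μ1 else if h2 : ν' = ν' then μ2 else μ3 ⟨ν', h1, h2⟩) = μ2
        rw [dif_neg hne.symm, dif_pos rfl]
      rw [this]; exact L2
    · intro κ k1 k2 u hu
      have : μ κ = μ3 ⟨κ, k1, k2⟩ := by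
        change (if h1 : κ = ν then μ1 else if h2 : κ = ν' then μ2 else μ3 ⟨κ, h1, h2⟩) = _
        rw [dif_neg k1, dif_neg k2]
      rw [this]; exact hμ3 ⟨κ, k1, k2⟩ u hu
  have key := second_mem T.hH T.hPt m T.fr (fun s v _ => rfl) hN2 hN1 (S.hCtx F S.hF).mem hHF
    le_rfl hHc (fun w _ h => T.hrow w h) cw (Q := SLev0.QG arm J B N W F P (PC arm J B F R P.1)
        (fun μ : K => (SLev0.PbK arm J B F R P.1 D μ)) id) SLev0.N_le_QG hwQ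
    (Submodule.sum_mem _ fun s _ => SB4x.part21 FU1 b1 FU2 b2 g21 T.hH T.hPt m T.fr
      (X' := X') (fun s v _ => rfl) hN2 hN1 (S.hCtx F S.hF).memW ha1 ha2 s (hX s) (hX' s) _ _ _)
    (Submodule.sum_mem _ fun s _ => SB4x.part12 FU1 b1 FU2 b2 g12 s (hX' s))
  have k1 : ∀ s, F * A11 (Fᵀ * J * (P.1 * F)) U1 U2 X β0 X' β s * (Fᵀ * J * (P.1 * F)) =
      F * (U1 * (β' * X s - (X' s)ᵀ * (U2ᵀ * (Fᵀ * J * (P.1 * F)) * U2) * X s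
        - (X' s)ᵀ * β0ᵀ) * U1ᵀ) * (Fᵀ * J * (P.1 * F)) := by
    intro s
    have q1 : F * (U1 * β') = F * (U1 * β) := by
      simpa only [Matrix.mul_assoc] using u1
    have q2 : ∀ b : Matrix (Fin m1) (Fin m2) K,
        F * (U1 * (b * X s - (X' s)ᵀ * (U2ᵀ * (Fᵀ * J * (P.1 * F)) * U2) * X s
        - (X' s)ᵀ * β0ᵀ) * U1ᵀ) * (Fᵀ * J * (P.1 * F)) =
        F * (U1 * b) * (X s * U1ᵀ * (Fᵀ * J * (P.1 * F))) -
        F * (U1 * ((X' s)ᵀ * (U2ᵀ * (Fᵀ * J * (P.1 * F)) * U2) * X s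
        + (X' s)ᵀ * β0ᵀ) * U1ᵀ) * (Fᵀ * J * (P.1 * F)) := by
      intro b
      rw [sub_sub, Matrix.mul_sub U1, Matrix.sub_mul, Matrix.mul_sub F, Matrix.sub_mul]
      congr 1
      simp only [Matrix.mul_assoc]
    unfold A11
    rw [q2, q2, q1]
  have k2 : ∀ s, F * A22 (Fᵀ * J * (P.1 * F)) U1 U2 X γ0 X' γ s * (Fᵀ * J * (P.1 * F)) =
      F * (U2 * (X s * γ'ᵀ + X s * (U1ᵀ * (Fᵀ * J * (P.1 * F)) * U1) * (X' s)ᵀ
        - γ0 * (X' s)ᵀ) * U2ᵀ) * (Fᵀ * J * (P.1 * F)) := by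
    intro s
    have q1 : γᵀ * U2ᵀ * Fᵀ = γ'ᵀ * U2ᵀ * Fᵀ := by
      have := congrArg Matrix.transpose u2
      rw [transpose_mul, transpose_mul, transpose_mul, transpose_mul] at this
      simpa only [Matrix.mul_assoc] using this.symm
    unfold A22
    have q2 : ∀ g : Matrix (Fin m2) (Fin m1) K,
        F * (U2 * (X s * gᵀ + X s * (U1ᵀ * (Fᵀ * J * (P.1 * F)) * U1) * (X' s)ᵀ
        - γ0 * (X' s)ᵀ) * U2ᵀ) * (Fᵀ * J * (P.1 * F)) =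
        F * U2 * X s * (gᵀ * U2ᵀ * Fᵀ) * (J * (P.1 * F)) +
        F * (U2 * (X s * (U1ᵀ * (Fᵀ * J * (P.1 * F)) * U1) * (X' s)ᵀ
        - γ0 * (X' s)ᵀ) * U2ᵀ) * (Fᵀ * J * (P.1 * F)) := by
      intro g
      rw [add_sub_assoc, Matrix.mul_add U2, Matrix.add_mul, Matrix.mul_add F, Matrix.add_mul]
      congr 1
      simp only [Matrix.mul_assoc]
    rw [q2, q2, q1]
  unfold Rel2
  simp only [k1, k2] at key
  exact key

theorem H_blk (S : Setup arm J B N W F f P R D l) {κ a : K} {u : δ → K} (hu : u ∈ QQb S κ) :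
    (F + a • f) *ᵥ u = (1 + a * κ) • (F *ᵥ u) := by
  rw [add_mulVec, smul_mulVec, SInst.rel S hu, add_smul, one_smul, smul_smul]

theorem q_blk (S : Setup arm J B N W F f P R D l) {ν ν' κ a : K} {u : δ → K}
    (hu : u ∈ QQb S κ) (hc : 1 + a * κ ≠ 0) :
    ((ν - ν')⁻¹ • (f - ν' • F)) *ᵥ u =
      ((ν - ν')⁻¹ * (κ - ν') * (1 + a * κ)⁻¹) • ((F + a • f) *ᵥ u) := by
  rw [H_blk S hu, smul_mulVec, sub_mulVec, smul_mulVec, SInst.rel S hu, ← sub_smul, smul_smul,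
    smul_smul, mul_assoc ((ν - ν')⁻¹ * (κ - ν')), inv_mul_cancel₀ hc, mul_one]

theorem sq_fin (c : K) : {r : K | r ^ 2 = c}.Finite := by
  by_cases h : ∃ r0 : K, r0 ^ 2 = c
  · obtain ⟨r0, h0⟩ := h
    refine (Set.toFinite {r0, -r0}).subset ?_
    intro r hr
    have h1 : r ^ 2 = r0 ^ 2 := by rw [h0]; exact hr
    rcases sq_eq_sq_iff_eq_or_eq_neg.1 h1 with h | h
    · left; exact h
    · right; exact h
  · refine Set.Finite.subset Set.finite_empty ?_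
    intro r hr
    exact h ⟨r, hr⟩

/-- **LEVEL 2, geometric half** -/
theorem geo22 : Geo22 := by
  intro ι _ _ δ _ _ K _ _ _ arm J B N W F f P R D l S ν ν' hne n1 n2 Q1 A1 Q2 A2 b1 b2 m1 m2
    U1 U2 a1 a2 hU1 hs1 hi1 ha1 hU2 hs2 hi2 ha2
  classical
  obtain ⟨T0, dY, hT0, hTD⟩ := exists_TD S hne hU1 hs1 ha1 hU2 hs2 ha2
  have hqm : (ν - ν')⁻¹ • (f - ν' • F) ∈ N ⊓ W :=
    (N ⊓ W).smul_mem _ ((N ⊓ W).sub_mem S.hf.1 ((N ⊓ W).smul_mem _ (S.hCtx F S.hF).mem))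
  have hfirst : ∀ ρ ∈ SMv16.Lam ℂ T0 ν ν', ∀ y : D3 K (Fin m1) (Fin m2),
      Dec F (Fᵀ * J * (P.1 * F)) U1 U2 a1 a2 (-(ρ ^ 2)) y →
      I1 arm F (Fᵀ * J * (P.1 * F)) U1 U2 y + ρ • I2 arm F (Fᵀ * J * (P.1 * F)) U1 U2 y ∈
        SUXt.QQ5t J N W F f dY (Fᵀ * J * (P.1 * F)) U1 U2
          (fun κ : {κ : K // κ ≠ ν ∧ κ ≠ ν'} => QQb S κ.1) := by
    rintro ρ ⟨t, ht, h1, h2, rfl⟩ ⟨X, β0, γ0⟩ hy
    obtain ⟨Pt, T⟩ := hTD t ht h1 h2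
    obtain ⟨d, Γ1, Γ2, β, γ, m, e2, e1, hdec, h3⟩ := T.mv X hy.sum hy.arm
    have hρ : -(((1 + algebraMap ℂ K t * ν') / (1 + algebraMap ℂ K t * ν)) ^ 2) ≠ 0 :=
      neg_ne_zero.2 (pow_ne_zero 2 (div_ne_zero h2 h1))
    obtain ⟨⟨u1, -⟩, u2, -⟩ :=
      SUniq803.dec_uniq S hU1 hs1 hi1 ha1 hU2 hs2 hi2 ha2 hρ hy hdec rfl
    have key := SUXt.first_mem' T.hH T.hPt S.hNm S.hWm S.hF S.hf m hqm (T.hH.perp _ hqm) T.fr T.k1
      (X := X) (fun s v _ => rfl) (fun v _ => by rw [e2]) (fun v _ => by rw [e1]) T.hrow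
      (Qm := fun κ : {κ : K // κ ≠ ν ∧ κ ≠ ν'} => QQb S κ.1) (fun κ => by
        by_cases hb : QQb S κ.1 = ⊥
        · refine ⟨0, fun u hu => ?_⟩
          have hu' : u ∈ (⊥ : Submodule K (δ → K)) := hb ▸ hu
          rw [(Submodule.mem_bot K).1 hu', mulVec_zero, mulVec_zero, smul_zero]
        · have hc := T.hc κ.1 hb
          refine ⟨d ((ν - ν')⁻¹ * (κ.1 - ν') * (1 + algebraMap ℂ K t * κ.1)⁻¹) *
            (1 + algebraMap ℂ K t * κ.1), fun u hu => ?_⟩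
          rw [SUB.wd_block' m (q_blk S hu hc) (add_zero _).symm
            (q_blk S (h3 κ.1 κ.2.1 κ.2.2 u hu) hc) (mu := 0) (by simp), smul_zero, add_zero,
            mulVec_smul, H_blk S hu, smul_smul])
    obtain ⟨g1, g2⟩ := SD937.I_congr (arm := arm) (F := F) (S0 := Fᵀ * J * (P.1 * F))
      (U1 := U1) (U2 := U2) (S1 := J * (P.1 * F)) (Matrix.mul_assoc _ _ _) (X := X)
      (β := β0) (β' := β) (γ := γ0) (γ' := γ)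
      (by rw [Matrix.mul_sub, sub_eq_zero]; exact u1) (by rw [Matrix.mul_sub, sub_eq_zero]; exact u2)
    rw [g1, g2]
    exact key
  obtain ⟨Sc, hSc, hsep⟩ := SUXt.first_sep (arm := arm) (J := J) (N := N) (W := W) (F := F) (f := f)
    (dY := dY) (S0 := Fᵀ * J * (P.1 * F)) (U1 := U1) (U2 := U2)
    (Qm := fun κ : {κ : K // κ ≠ ν ∧ κ ≠ ν'} => QQb S κ.1)
    (SDecP70.alD F (Fᵀ * J * (P.1 * F)) U1 U2 a1) (-(SDecP70.beD F (Fᵀ * J * (P.1 * F)) U1 U2 a2))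
    LinearMap.id (SMv16.Lam_infinite hT0 hne) (fun ρ hρ y hy => hfirst ρ hρ y
      ((SDecP70.dec_iff _ _ _ _ _ _ _ _).2 (by
        rw [hy, LinearMap.neg_apply, smul_neg, neg_smul])))
  refine ⟨{r | r ∈ SMv16.Lam ℂ T0 ν ν' ∧ r ^ 2 ∉ Sc}, ?_, ?_, ?_, ?_⟩
  · have hfin : {r : K | r ^ 2 ∈ Sc}.Finite := by
      refine (hSc.biUnion fun c _ => sq_fin c).subset ?_
      intro r hr
      exact Set.mem_iUnion₂.2 ⟨r ^ 2, hr, rfl⟩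
    exact (SMv16.Lam_infinite hT0 hne).sdiff hfin
  · rintro ⟨h, -⟩
    exact SMv16.Lam_zero T0 ν ν' h
  · rintro r ⟨⟨t, ht, h1, h2, rfl⟩, -⟩ X hsum harm
    obtain ⟨Pt, T⟩ := hTD t ht h1 h2
    obtain ⟨d, Γ1, Γ2, β, γ, m, e2, e1, hdec, -⟩ := T.mv X hsum harm
    exact ⟨β, γ, hdec, fun x hx => SZb978.zb T.hH.memW m.dH T.fr (fun v _ => by rw [e2]) x hx,
      fun x hx => SZb978.zk T.hH.memW m.dH T.fr (fun v _ => by rw [e1]) x hx⟩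
  · rintro r ⟨-, hrS⟩ r' ⟨⟨t, ht, h1, h2, rfl⟩, -⟩ y y' hy hy'
    obtain ⟨Pt, T⟩ := hTD t ht h1 h2
    have hI := (hsep (r ^ 2) hrS y (by
      rw [(SDecP70.dec_iff _ _ _ _ _ _ _ _).1 hy, LinearMap.neg_apply, smul_neg, neg_smul])).1
    exact rel2_at S hne b1 b2 hU1 hs1 hi1 ha1 hU2 hs2 hi2 ha2 T hy hI hy'

end Crest.Agent.R172.SG515
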