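import Crest.Agent.R172.SUB
import Crest.Agent.R172.SGl1
import Crest.Agent.R172.QBlk
import Crest.Agent.R172.UBlk
import Crest.Agent.R172.SLev0
import Crest.Agent.R172.STop

/-!
Row 172 (S0260), (t2), S-side: the good class of `wd k` (level 1).

`β(u, q) = q · (S ∇u)` for `u ∈ Q_i`, `q ∈ Q_j`, `i ≠ j`, is bilinear and
`c_i² β(om_r u, q) = - c_j² β(u, om_r q)`; so it vanishes for almost all parameters, and then
`wd k` on `Q_i` is block scalar plus a radical part.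
-/

set_option autoImplicit false
set_option linter.unusedSectionVars false
set_option linter.unusedFintypeInType false
set_option linter.unusedDecidableInType false

namespace Crest.Agent.R172.SNab753

open Matrix Module Crest.Agent.R172.FO Crest.Agent.R172.Qt Crest.Agent.R172.SpS
  Crest.Agent.R172.Om Crest.Agent.R172.SUX
open Crest.Agent.R172.SUB (nab nab_om nab_add nab_smul dv_smul F_nab wd_H)
open Crest.Agent.R172.SGl1 (om rs rs_coe ten)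
open scoped TensorProduct

variable {ι : Type*} [Fintype ι] [DecidableEq ι] {δ : Type*} [Fintype δ] [DecidableEq δ]
variable {k K : Type*} [Field k] [Field K] [Algebra k K]
variable {arm : δ → Fin 3} {J : Matrix ι ι K} {B : Matrix δ δ K}
  {N W : Submodule K (Matrix ι δ K)}

/-- skew forms -/
theorem sk {S : Matrix δ δ K} (hS : Sᵀ = -S) (x y : δ → K) :
    x ⬝ᵥ (S *ᵥ y) = -((S *ᵥ x) ⬝ᵥ y) := by
  have h1 : S *ᵥ x = -(Sᵀ *ᵥ x) := by rw [hS, neg_mulVec, neg_neg]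
  rw [h1, neg_dotProduct, neg_neg, mulVec_transpose, ← dotProduct_mulVec]

section one

variable {H : Matrix ι δ K} {P : Matrix ι ι K × (Fin 3 → Matrix ι ι K)} {S : Matrix δ δ K}
  {Y : Fin 3 → Matrix δ δ K} {d : Derivation k K K} {Qa Qc : Submodule K (δ → K)} {a c : K}

/-- **the relation of `β`** -/
theorem beta_rel (h : Ctx k arm J B N W H) (hP : P ∈ NN arm J N H) (hY : ∀ r, (Y r)ᵀ = Y r)
    (m : Mv k arm J N W H P.1 Y d) (hSk : Sᵀ = -S)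
    (hSa : ∀ u ∈ Qa, th J H P.1 H *ᵥ u = a ^ 2 • S *ᵥ u)
    (hSc : ∀ u ∈ Qc, th J H P.1 H *ᵥ u = c ^ 2 • S *ᵥ u)
    (hsta : ∀ r, ∀ u ∈ Qa, om arm B S r *ᵥ u ∈ Qa) (hstc : ∀ r, ∀ u ∈ Qc, om arm B S r *ᵥ u ∈ Qc)
    (horth : ∀ u ∈ Qa, ∀ q ∈ Qc, q ⬝ᵥ (S *ᵥ u) = 0)
    (hdef : ∀ r, ∀ u ∈ Qa, ∀ q ∈ Qc, (S *ᵥ q) ⬝ᵥ ((Y r * th J H P.1 H * E K arm r * B -
      B * E K arm r * th J H P.1 H * Y r) *ᵥ (S *ᵥ u)) = 0)
    (r : Fin 3) {u : δ → K} (hu : u ∈ Qa) {q : δ → K} (hq : q ∈ Qc) :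
    a ^ 2 * (q ⬝ᵥ (S *ᵥ nab arm J H P.1 Y d (om arm B S r *ᵥ u))) =
      -(c ^ 2 * ((om arm B S r *ᵥ q) ⬝ᵥ (S *ᵥ nab arm J H P.1 Y d u))) := by
  have hD := h.data
  have hHsk : (th J H P.1 H)ᵀ = -th J H P.1 H := th_skew h hP h.mem
  set SH := th J H P.1 H with hSH
  have homH : SUB.om arm J B H P.1 r = B * E K arm r * SH := rfl
  have e1 : SUB.om arm J B H P.1 r *ᵥ u = a ^ 2 • (om arm B S r *ᵥ u) := by
    rw [homH, ← mulVec_mulVec, hSa u hu, mulVec_smul, mulVec_mulVec]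
    rfl
  have h1 := nab_om h hP hY m r u
  rw [← hSH] at h1
  rw [e1, nab_smul] at h1
  have h2 := congrArg (fun y => q ⬝ᵥ (S *ᵥ y)) h1
  simp only [mulVec_add, mulVec_sub, mulVec_smul, dotProduct_add, dotProduct_sub,
    dotProduct_smul, smul_eq_mul] at h2
  have h3 : q ⬝ᵥ (S *ᵥ (om arm B S r *ᵥ u)) = 0 := horth _ (hsta r u hu) q hq
  have h4 : q ⬝ᵥ (S *ᵥ (SUB.om arm J B H P.1 r *ᵥ nab arm J H P.1 Y d u)) =
      -(c ^ 2 * ((om arm B S r *ᵥ q) ⬝ᵥ (S *ᵥ nab arm J H P.1 Y d u))) := by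
    generalize nab arm J H P.1 Y d u = y
    rw [sk hSk, sk hSk, neg_mul_eq_mul_neg, neg_neg]
    have e2 : SUB.om arm J B H P.1 r *ᵥ y = (B * E K arm r) *ᵥ (SH *ᵥ y) := by
      rw [homH, ← mulVec_mulVec]
    have e3 : (S *ᵥ q) ⬝ᵥ ((B * E K arm r) *ᵥ (SH *ᵥ y)) =
        (om arm B S r *ᵥ q) ⬝ᵥ (SH *ᵥ y) := by
      have e4 : (B * E K arm r)ᵀ = B * E K arm r := by
        rw [transpose_mul, E_transpose, hD.B_symm, hD.B_arm]
      have e5 : om arm B S r *ᵥ q = (B * E K arm r)ᵀ *ᵥ (S *ᵥ q) := by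
        rw [e4, mulVec_mulVec]; rfl
      rw [e5, mulVec_transpose, ← dotProduct_mulVec]
    rw [e2, e3, sk hHsk, hSc _ (hstc r q hq), smul_dotProduct, smul_eq_mul, neg_neg]
  have h5 : q ⬝ᵥ (S *ᵥ ((Y r * SH) *ᵥ (om arm B S r *ᵥ u))) * a ^ 2 -
      q ⬝ᵥ (S *ᵥ (SUB.om arm J B H P.1 r *ᵥ ((Y r * SH) *ᵥ u))) = 0 := by
    have e6 := hdef r u hu q hq
    have e7 : q ⬝ᵥ (S *ᵥ ((Y r * SH) *ᵥ (om arm B S r *ᵥ u))) * a ^ 2 =
        -(a ^ 2 * ((S *ᵥ q) ⬝ᵥ ((Y r * SH * E K arm r * B) *ᵥ (S *ᵥ u)))) := by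
      rw [sk hSk]
      have : (Y r * SH) *ᵥ (om arm B S r *ᵥ u) = (Y r * SH * E K arm r * B) *ᵥ (S *ᵥ u) := by
        rw [mulVec_mulVec, mulVec_mulVec]
        congr 1
        unfold om
        rw [← hD.B_arm]
        simp only [Matrix.mul_assoc]
      rw [this]; ring
    have e8 : q ⬝ᵥ (S *ᵥ (SUB.om arm J B H P.1 r *ᵥ ((Y r * SH) *ᵥ u))) =
        -(a ^ 2 * ((S *ᵥ q) ⬝ᵥ ((B * E K arm r * SH * Y r) *ᵥ (S *ᵥ u)))) := by
      rw [sk hSk, homH]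
      have : (B * E K arm r * SH) *ᵥ ((Y r * SH) *ᵥ u) =
          a ^ 2 • ((B * E K arm r * SH * Y r) *ᵥ (S *ᵥ u)) := by
        rw [← mulVec_mulVec u (Y r) SH, hSa u hu, mulVec_smul, mulVec_smul, mulVec_mulVec]
      rw [this, dotProduct_smul, smul_eq_mul]
    rw [sub_mulVec, dotProduct_sub] at e6
    rw [e7, e8]
    linear_combination (-(a ^ 2)) * e6
  rw [h3, h4] at h2
  linear_combination h2 + h5

/-- `β` as a bilinear map -/
noncomputable def bx (arm : δ → Fin 3) (J : Matrix ι ι K) (H : Matrix ι δ K) (Pm : Matrix ι ι K)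
    (Y : Fin 3 → Matrix δ δ K) (d : Derivation k K K) (S : Matrix δ δ K)
    (Qa Qc : Submodule K (δ → K)) (horth : ∀ u ∈ Qa, ∀ q ∈ Qc, q ⬝ᵥ (S *ᵥ u) = 0) :
    Qa →ₗ[K] Module.Dual K Qc :=
  LinearMap.mk₂ K (fun (u : Qa) (q : Qc) => (q : δ → K) ⬝ᵥ (S *ᵥ nab arm J H Pm Y d (u : δ → K)))
    (fun u u' q => by rw [Submodule.coe_add, nab_add, mulVec_add, dotProduct_add])
    (fun t u q => by
      rw [Submodule.coe_smul, nab_smul, mulVec_add, dotProduct_add, mulVec_smul, mulVec_smul,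
        dotProduct_smul, dotProduct_smul, horth _ u.2 _ q.2, smul_zero, add_zero])
    (fun u q q' => by rw [Submodule.coe_add, add_dotProduct])
    (fun t u q => by rw [Submodule.coe_smul, smul_dotProduct])

@[simp] theorem bx_apply (Pm : Matrix ι ι K) (horth : ∀ u ∈ Qa, ∀ q ∈ Qc, q ⬝ᵥ (S *ᵥ u) = 0)
    (u : Qa) (q : Qc) : bx arm J H Pm Y d S Qa Qc horth u q =
      (q : δ → K) ⬝ᵥ (S *ᵥ nab arm J H Pm Y d (u : δ → K)) := rfl

/-- the exceptional ratios of a pair -/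
def Bd (arm : δ → Fin 3) (B : Matrix δ δ K) (S : Matrix δ δ K) (Qa Qc : Submodule K (δ → K))
    (hsta : ∀ r, ∀ u ∈ Qa, om arm B S r *ᵥ u ∈ Qa) (hstc : ∀ r, ∀ u ∈ Qc, om arm B S r *ᵥ u ∈ Qc) :
    Set K :=
  {s | ∃ x : Qa →ₗ[K] Module.Dual K Qc, x ≠ 0 ∧ ∀ r, x ∘ₗ rs (om arm B S r) Qa (hsta r) =
    -(s • ((rs (om arm B S r) Qc (hstc r)).dualMap ∘ₗ x))}

theorem Bd_finite (hsta : ∀ r, ∀ u ∈ Qa, om arm B S r *ᵥ u ∈ Qa)
    (hstc : ∀ r, ∀ u ∈ Qc, om arm B S r *ᵥ u ∈ Qc)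
    (hperf : ∀ u ∈ Qa, ∃ v : Fin 3 → (δ → K), (∀ r, v r ∈ Qa) ∧ ∑ r, om arm B S r *ᵥ v r = u) :
    (Bd arm B S Qa Qc hsta hstc).Finite := by
  refine QBlk.twist_finite_neg (α := fun r => rs (om arm B S r) Qa (hsta r))
    (fun r => (rs (om arm B S r) Qc (hstc r)).dualMap) ?_
  rw [eq_top_iff]
  rintro u -
  obtain ⟨v, hv, e⟩ := hperf u u.2
  have h1 : u = ∑ r, rs (om arm B S r) Qa (hsta r) ⟨v r, hv r⟩ := by
    apply Subtype.ext
    rw [← e, Submodule.coe_sum]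
    exact Finset.sum_congr rfl fun r _ => by rw [rs_coe]
  rw [h1]
  exact Submodule.sum_mem _ fun r _ => Submodule.mem_iSup_of_mem r ⟨_, rfl⟩

/-- **`β = 0`** -/
theorem beta_zero (h : Ctx k arm J B N W H) (hP : P ∈ NN arm J N H) (hY : ∀ r, (Y r)ᵀ = Y r)
    (m : Mv k arm J N W H P.1 Y d) (hSk : Sᵀ = -S)
    (hSa : ∀ u ∈ Qa, th J H P.1 H *ᵥ u = a ^ 2 • S *ᵥ u)
    (hSc : ∀ u ∈ Qc, th J H P.1 H *ᵥ u = c ^ 2 • S *ᵥ u)
    (hsta : ∀ r, ∀ u ∈ Qa, om arm B S r *ᵥ u ∈ Qa) (hstc : ∀ r, ∀ u ∈ Qc, om arm B S r *ᵥ u ∈ Qc)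
    (horth : ∀ u ∈ Qa, ∀ q ∈ Qc, q ⬝ᵥ (S *ᵥ u) = 0)
    (hdef : ∀ r, ∀ u ∈ Qa, ∀ q ∈ Qc, (S *ᵥ q) ⬝ᵥ ((Y r * th J H P.1 H * E K arm r * B -
      B * E K arm r * th J H P.1 H * Y r) *ᵥ (S *ᵥ u)) = 0)
    (ha : a ≠ 0) (hbad : (c / a) ^ 2 ∉ Bd arm B S Qa Qc hsta hstc)
    {u : δ → K} (hu : u ∈ Qa) {q : δ → K} (hq : q ∈ Qc) :
    q ⬝ᵥ (S *ᵥ nab arm J H P.1 Y d u) = 0 := by
  have h1 : bx arm J H P.1 Y d S Qa Qc horth = 0 := by
    by_contra hne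
    refine hbad ⟨_, hne, fun r => ?_⟩
    ext u q
    have h2 := beta_rel h hP hY m hSk hSa hSc hsta hstc horth hdef r u.2 q.2
    simp only [LinearMap.comp_apply, LinearMap.neg_apply, LinearMap.smul_apply,
      LinearMap.dualMap_apply, bx_apply, rs_coe, smul_eq_mul]
    have ha2 : a ^ 2 ≠ 0 := pow_ne_zero 2 ha
    rw [div_pow]
    field_simp
    linear_combination h2
  have h3 := LinearMap.congr_fun (LinearMap.congr_fun h1 ⟨u, hu⟩) ⟨q, hq⟩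
  simpa using h3

end one

section mem

variable {F f H : Matrix ι δ K} {P0 : Matrix ι ι K} {P : Matrix ι ι K × (Fin 3 → Matrix ι ι K)}
  {Y : Fin 3 → Matrix δ δ K} {d : Derivation k K K}

/-- **the value of `wd k`** on a vector with `k v = κ F v`, `H v = c F v`. -/
theorem wd_val (m : Mv k arm J N W H P.1 Y d) {kk : Matrix ι δ K} {c κ : K} (hc : c ≠ 0)
    {v : δ → K} (hH : H *ᵥ v = c • F *ᵥ v) (hk : kk *ᵥ v = κ • F *ᵥ v) :
    wd arm J H P.1 Y d kk *ᵥ v = (d κ - κ * c⁻¹ * d c) • F *ᵥ v +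
      ((κ * c⁻¹) • H - kk) *ᵥ nab arm J H P.1 Y d v := by
  have h1 := F_nab (arm := arm) (J := J) (H := H) (Y := Y) (d := d) P.1 kk v
  have h2 := F_nab (arm := arm) (J := J) (H := H) (Y := Y) (d := d) P.1 H v
  rw [wd_H m, zero_mulVec, add_zero, hH, dv_smul] at h2
  rw [hk, dv_smul] at h1
  have h3 : dv d (F *ᵥ v) = c⁻¹ • (H *ᵥ nab arm J H P.1 Y d v - d c • F *ᵥ v) := by
    rw [← h2, add_sub_cancel_right, smul_smul, inv_mul_cancel₀ hc, one_smul]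
  rw [h3] at h1
  have h4 : wd arm J H P.1 Y d kk *ᵥ v = κ • c⁻¹ • (H *ᵥ nab arm J H P.1 Y d v - d c • F *ᵥ v) +
      d κ • F *ᵥ v - kk *ᵥ nab arm J H P.1 Y d v := by
    rw [h1]; abel
  rw [h4, sub_mulVec, smul_mulVec]
  module

end mem

section blocks

open Crest.Agent.R172.SBlk Crest.Agent.R172.SEnd2
open Crest.Agent.R172.UBlk hiding om
open Crest.Agent.R172.PL (Wk Ainf Rad CoreM coreOp resOp)
open Crest.Agent.R172.SC (PB)
open Crest.Agent.R172.SLev0 (PbK QG)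

variable {F f : Matrix ι δ K} {p P : Matrix ι ι K × (Fin 3 → Matrix ι ι K)}
  {Y : Fin 3 → Matrix δ δ K} {d : Derivation k K K}

variable (h0 : Ctx k arm J B N W F) {R : Matrix δ ι K} (hR : F * R * F = F)
  {D : End K (CoreM (Ph arm J B F R p.1))}
  (hD : IsD (Ph arm J B F R p.1) (Nh arm J B F f R p.1) D)

include hD

theorem Qst (ν : K) (r : Fin 3) (u : δ → K) (hu : u ∈ Qb h0.data hR p.1 D ν) :
    om arm B (th J F p.1 F) r *ᵥ u ∈ Qb h0.data hR p.1 D ν :=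
  Qb_stable h0 hR hD r hu

theorem Qperf (ν : K) (u : δ → K) (hu : u ∈ Qb h0.data hR p.1 D ν) :
    ∃ v : Fin 3 → (δ → K), (∀ r, v r ∈ Qb h0.data hR p.1 D ν) ∧
      ∑ r, om arm B (th J F p.1 F) r *ᵥ v r = u :=
  Qb_exists h0 hR hD hu

/-- the exceptional parameters -/
def BadT : Set K := {t | ∃ ν ν' : K, ν ≠ ν' ∧ Qb h0.data hR p.1 D ν ≠ ⊥ ∧
  Qb h0.data hR p.1 D ν' ≠ ⊥ ∧ (1 + t * ν ≠ 0) ∧ ((1 + t * ν') / (1 + t * ν)) ^ 2 ∈
    Bd arm B (th J F p.1 F) (Qb h0.data hR p.1 D ν) (Qb h0.data hR p.1 D ν')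
      (Qst h0 hR hD ν) (Qst h0 hR hD ν')}

theorem finite_blocks : {ν : K | Qb h0.data hR p.1 D ν ≠ ⊥}.Finite := by
  have h1 := WellFoundedGT.finite_ne_bot_of_iSupIndep
    (Module.End.independent_maxGenEigenspace ((cov h0.data hR p.1).D D))
  refine h1.subset fun ν hν => ?_
  intro h2
  exact hν (STop.PB_bot ((cov h0.data hR p.1).D_comm hD.2) h2)

theorem BadT_finite : (BadT h0 hR hD).Finite := by
  have hE := finite_blocks h0 hR hD
  have h1 : BadT h0 hR hD ⊆ ⋃ ν ∈ {ν : K | Qb h0.data hR p.1 D ν ≠ ⊥},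
      ⋃ ν' ∈ {ν : K | Qb h0.data hR p.1 D ν ≠ ⊥}, {t : K | ν ≠ ν' ∧ 1 + t * ν ≠ 0 ∧
        ((1 + t * ν') / (1 + t * ν)) ^ 2 ∈
        Bd arm B (th J F p.1 F) (Qb h0.data hR p.1 D ν) (Qb h0.data hR p.1 D ν')
          (Qst h0 hR hD ν) (Qst h0 hR hD ν')} := by
    rintro t ⟨ν, ν', h1, h2, h3, h4, h5⟩
    simp only [Set.mem_iUnion]
    exact ⟨ν, h2, ν', h3, h1, h4, h5⟩
  refine (hE.biUnion fun ν _ => hE.biUnion fun ν' _ => ?_).subset h1
  by_cases hne : ν = ν'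
  · refine Set.Finite.subset Set.finite_empty ?_
    rintro t ⟨h2, -⟩
    exact absurd hne h2
  have hB := Bd_finite (Qst h0 hR hD ν) (Qst h0 hR hD ν') (Qperf h0 hR hD ν)
  -- squares: finite set of ratios
  have hB2 : {s : K | s ^ 2 ∈ Bd arm B (th J F p.1 F) (Qb h0.data hR p.1 D ν)
      (Qb h0.data hR p.1 D ν') (Qst h0 hR hD ν) (Qst h0 hR hD ν')}.Finite := by
    refine Set.Finite.preimage' hB fun b _ => ?_
    refine Set.Finite.subset (Polynomial.finite_setOf_isRoot (p := Polynomial.X ^ 2 -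
      Polynomial.C b) (Polynomial.X_pow_sub_C_ne_zero (by norm_num) b)) ?_
    intro s hs
    simp only [Set.mem_preimage, Set.mem_singleton_iff] at hs
    simp [Polynomial.IsRoot, hs]
  refine Set.Finite.of_finite_image (f := fun t => (1 + t * ν') / (1 + t * ν))
    (hB2.subset ?_) ?_
  · rintro _ ⟨t, ⟨-, -, h3⟩, rfl⟩
    exact h3
  · rintro s ⟨-, hs, -⟩ t ⟨-, ht, -⟩ hst
    simp only at hst
    rw [div_eq_div_iff hs ht] at hst
    have h3 : (s - t) * (ν' - ν) = 0 := by linear_combination hst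
    rcases mul_eq_zero.1 h3 with h4 | h4
    · exact sub_eq_zero.1 h4
    · exact absurd (sub_eq_zero.1 h4).symm hne

variable [IsAlgClosed K]

theorem exU {ν : K} {a : ι → K} (ha : a ∈ PbK arm J B F R p.1 D ν) :
    ∃ u ∈ Qb h0.data hR p.1 D ν, F *ᵥ u = a := by
  obtain ⟨v, hv, rfl⟩ := ha
  have h1 : v ∈ (Qb h0.data hR p.1 D ν).map (gS F) := by
    rw [Qb_map h0 hR hD ν]; exact hv
  obtain ⟨u, hu, rfl⟩ := h1
  exact ⟨u, hu, rfl⟩

theorem PC_eq : PC arm J B F R p.1 = ⨆ ν, PbK arm J B F R p.1 D ν := by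
  unfold PC
  rw [← SC.iSup_PB hD.2 (Module.End.iSup_maxGenEigenspace_eq_top D), Submodule.map_iSup]

variable (hNil : NilW arm J B N F) (hp : p ∈ NN arm J N F) (hf : f ∈ N ⊓ W)

include hNil hp hf

/-- **the good class** of `wd k`, `k = α F + β f`. -/
theorem wd_mem_QG {t : K} {H : Matrix ι δ K} (hHt : H = F + t • f)
    (h : Ctx k arm J B N W H) (hP : P ∈ NN arm J N H)
    (hSH : ∀ ν, ∀ u ∈ Qb h0.data hR p.1 D ν,
      th J H P.1 H *ᵥ u = (1 + t * ν) ^ 2 • (th J F p.1 F *ᵥ u))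
    (hc : ∀ ν, Qb h0.data hR p.1 D ν ≠ ⊥ → 1 + t * ν ≠ 0) (ht : t ∉ BadT h0 hR hD)
    (hY : ∀ r, (Y r)ᵀ = Y r) (m : Mv k arm J N W H P.1 Y d)
    (hdef : ∀ r, ∀ ν ν', ∀ u ∈ Qb h0.data hR p.1 D ν, ∀ q ∈ Qb h0.data hR p.1 D ν',
      (th J F p.1 F *ᵥ q) ⬝ᵥ ((Y r * th J H P.1 H * E K arm r * B -
      B * E K arm r * th J H P.1 H * Y r) *ᵥ (th J F p.1 F *ᵥ u)) = 0)
    {kk : Matrix ι δ K} {α β : K} (hkk : kk = α • F + β • f) :
    wd arm J H P.1 Y d kk ∈ QG arm J B N W F p (PC arm J B F R p.1)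
      (fun ν => PbK arm J B F R p.1 D ν) (fun ν => ν) := by
  have hS : (th J F p.1 F)ᵀ = -th J F p.1 F := th_skew h0 hp h0.mem
  have hkW : kk ∈ W := by
    rw [hkk]
    exact W.add_mem (W.smul_mem _ h0.memW) (W.smul_mem _ hf.2)
  have hHW : H ∈ N ⊓ W := h.mem
  have hkN : kk ∈ N ⊓ W := by
    rw [hkk]
    exact Submodule.add_mem _ (Submodule.smul_mem _ _ h0.mem) (Submodule.smul_mem _ _ hf)
  have hkperp : Hᵀ * J * kk = 0 := h.perp kk hkN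
  have hwperp := m.w_perp h hkperp
  set w := wd arm J H P.1 Y d kk with hw
  have hfu : ∀ {ν : K} {u : δ → K}, u ∈ Qb h0.data hR p.1 D ν → f *ᵥ u = ν • (F *ᵥ u) :=
    fun hu => (Qb_rel h0 hR hD hNil hp hf hu).1
  have hHu : ∀ {ν : K} {u : δ → K}, u ∈ Qb h0.data hR p.1 D ν →
      H *ᵥ u = (1 + t * ν) • (F *ᵥ u) := fun hu => by
    rw [hHt]; exact Qb_H h0 hR hD hNil hp hf hu
  have hku : ∀ {ν : K} {u : δ → K}, u ∈ Qb h0.data hR p.1 D ν →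
      kk *ᵥ u = (α + β * ν) • (F *ᵥ u) := fun hu => by
    rw [hkk, add_mulVec, smul_mulVec, smul_mulVec, hfu hu, smul_smul, add_smul]
  have hne : ∀ {ν : K} {u : δ → K}, u ∈ Qb h0.data hR p.1 D ν → u ≠ 0 →
      Qb h0.data hR p.1 D ν ≠ ⊥ := fun hu hu0 hb => by
    rw [hb] at hu
    exact hu0 ((Submodule.mem_bot K).1 hu)
  -- `β = 0`
  have hβ0 : ∀ ν ν' : K, ν ≠ ν' → ∀ u ∈ Qb h0.data hR p.1 D ν, ∀ q ∈ Qb h0.data hR p.1 D ν',
      q ⬝ᵥ (th J F p.1 F *ᵥ nab arm J H P.1 Y d u) = 0 := by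
    intro ν ν' hνν u hu q hq
    by_cases hu0 : u = 0
    · rw [hu0, SUB.nab_zero, mulVec_zero, dotProduct_zero]
    by_cases hq0 : q = 0
    · rw [hq0, zero_dotProduct]
    refine beta_zero (a := 1 + t * ν) (c := 1 + t * ν') h hP hY m hS (hSH ν) (hSH ν')
      (Qst h0 hR hD ν) (Qst h0 hR hD ν')
      (fun u hu q hq => Qb_orth h0 hR hD hNil hp hf (Ne.symm hνν) hq hu)
      (fun r u hu q hq => hdef r ν ν' u hu q hq) (hc ν (hne hu hu0)) ?_ hu hq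
    intro hbad
    exact ht ⟨ν, ν', hνν, hne hu hu0, hne hq hq0, hc ν (hne hu hu0), hbad⟩
  -- the pairing with `F u1`
  have hpair : ∀ (x : K) (y : K) {ν1 : K} {u1 : δ → K}, u1 ∈ Qb h0.data hR p.1 D ν1 →
      ∀ v : δ → K, (F *ᵥ u1) ⬝ᵥ ((J * p.1) *ᵥ ((x • F + y • f) *ᵥ v)) =
        (x + y * ν1) * (u1 ⬝ᵥ (th J F p.1 F *ᵥ v)) := by
    intro x y ν1 u1 hu1 v
    have hS2 : (th J F p.1 f)ᵀ = -th J F p.1 f := th_skew h0 hp hf
    have e0 : ∀ z : ι → K, (F *ᵥ u1) ⬝ᵥ z = u1 ⬝ᵥ (Fᵀ *ᵥ z) := fun z => by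
      rw [dotProduct_comm, ← tdot, dotProduct_comm]
    have e1 : Fᵀ *ᵥ ((J * p.1) *ᵥ ((x • F + y • f) *ᵥ v)) =
        x • (th J F p.1 F *ᵥ v) + y • (th J F p.1 f *ᵥ v) := by
      rw [mulVec_mulVec, mulVec_mulVec, ← smul_mulVec, ← smul_mulVec, ← add_mulVec]
      congr 1
      unfold th
      rw [Matrix.mul_add, Matrix.mul_smul, Matrix.mul_smul]
      simp only [Matrix.mul_assoc]
    have e2 : th J F p.1 f *ᵥ u1 = ν1 • (th J F p.1 F *ᵥ u1) :=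
      (Qb_rel h0 hR hD hNil hp hf hu1).2.1
    rw [e0, e1, dotProduct_add, dotProduct_smul, dotProduct_smul, sk hS2, e2, smul_dotProduct,
      sk hS]
    simp only [smul_eq_mul]
    ring
  refine ⟨w, m.w_mem hkW, by rw [sub_self]; exact N.zero_mem, ?_,
    fun ν => d (α + β * ν) - (α + β * ν) * (1 + t * ν)⁻¹ * d (1 + t * ν), ?_⟩
  · intro a ha v
    rw [PC_eq hD] at ha
    refine Submodule.iSup_induction (p := fun ν => PbK arm J B F R p.1 D ν)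
      (motive := fun a => a ⬝ᵥ ((J * w) *ᵥ v) = 0) ha ?_ (zero_dotProduct _) ?_
    · intro ν a ha
      obtain ⟨u, hu, rfl⟩ := exU h0 hR hD ha
      by_cases hu0 : u = 0
      · rw [hu0, mulVec_zero, zero_dotProduct]
      have hc1 := hc ν (hne hu hu0)
      have e1 : (H *ᵥ u) ⬝ᵥ ((J * w) *ᵥ v) = 0 := by
        rw [dotProduct_comm, ← tdot, dotProduct_comm, mulVec_mulVec, ← Matrix.mul_assoc, hwperp,
          zero_mulVec, dotProduct_zero]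
      rw [hHu hu, smul_dotProduct, smul_eq_mul] at e1
      exact (mul_eq_zero.1 e1).resolve_left hc1
    · intro a b ha hb
      rw [add_dotProduct, ha, hb, add_zero]
  · intro ν c hcP r
    obtain ⟨u, hu, rfl⟩ := exU h0 hR hD hcP
    have e1 : (E K arm r * B * Fᵀ * (J * p.1)) *ᵥ (F *ᵥ u) = om arm B (th J F p.1 F) r *ᵥ u := by
      rw [mulVec_mulVec]
      congr 1
      unfold om th
      rw [← h0.data.B_arm]
      simp only [Matrix.mul_assoc]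
    have e2 : (M arm B r F F * (J * p.1)) *ᵥ (F *ᵥ u) =
        F *ᵥ (om arm B (th J F p.1 F) r *ᵥ u) := by
      rw [mulVec_mulVec, mulVec_mulVec]
      congr 1
      unfold om th M
      rw [← h0.data.B_arm]
      simp only [Matrix.mul_assoc]
    rw [e1, e2]
    have hu' := Qst h0 hR hD ν r u hu
    set u' := om arm B (th J F p.1 F) r *ᵥ u with hu'd
    by_cases hu0 : u' = 0
    · refine ⟨0, fun a _ => by rw [mulVec_zero, dotProduct_zero], ?_⟩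
      rw [hu0]; simp
    have hc1 := hc ν (hne hu' hu0)
    refine ⟨(((α + β * ν) * (1 + t * ν)⁻¹) • H - kk) *ᵥ nab arm J H P.1 Y d u',
      fun a ha => ?_, wd_val m hc1 (hHu hu') (hku hu')⟩
    rw [PC_eq hD] at ha
    refine Submodule.iSup_induction (p := fun ν => PbK arm J B F R p.1 D ν)
      (motive := fun a => a ⬝ᵥ ((J * p.1) *ᵥ ((((α + β * ν) * (1 + t * ν)⁻¹) • H - kk) *ᵥ
        nab arm J H P.1 Y d u')) = 0) ha ?_ (zero_dotProduct _) ?_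
    · intro ν1 a ha
      obtain ⟨u1, hu1, rfl⟩ := exU h0 hR hD ha
      have e3 : ((α + β * ν) * (1 + t * ν)⁻¹) • H - kk =
          ((α + β * ν) * (1 + t * ν)⁻¹ - α) • F +
            ((α + β * ν) * (1 + t * ν)⁻¹ * t - β) • f := by
        rw [hHt, hkk]; module
      rw [e3, hpair _ _ hu1]
      by_cases h1 : ν = ν1
      · subst h1
        have : (α + β * ν) * (1 + t * ν)⁻¹ - α + ((α + β * ν) * (1 + t * ν)⁻¹ * t - β) * ν = 0 := by
          have h2 : (1 + t * ν)⁻¹ * (1 + t * ν) = 1 := inv_mul_cancel₀ hc1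
          linear_combination (α + β * ν) * h2
        rw [this, zero_mul]
      · rw [hβ0 ν ν1 h1 u' hu' u1 hu1, mul_zero]
    · intro a b ha hb
      rw [add_dotProduct, ha, hb, add_zero]

end blocks

end Crest.Agent.R172.SNab753
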