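import Crest.Agent.R172.SUB2
import Crest.Agent.R172.PTy

/-!
Row 172 (S0260), S-side (t2): the first level corrections are orthogonal to ALL of `⟨F, f⟩`.

For a move `Mv` at `(H, P)` and `f ∈ 𝒦iso`: `fᵀ J (wd f) = 0`.  Together with `Hᵀ J (wd f) = 0`
(`Mv.w_perp`) this gives `H'ᵀ J w = 0` at every `H' = F + t' f`.
-/

set_option autoImplicit false
set_option linter.unusedSectionVars false

namespace Crest.Agent.R172.SPerp355

open Matrix Module Crest.Agent.R172.FO Crest.Agent.R172.Qt Crest.Agent.R172.SpS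
  Crest.Agent.R172.Om Crest.Agent.R172.SUX Crest.Agent.R172.PTy

variable {ι : Type*} [Fintype ι] [DecidableEq ι] {δ : Type*} [Fintype δ] [DecidableEq δ]
variable {k K : Type*} [Field k] [Field K] [Algebra k K]
variable {arm : δ → Fin 3} {J : Matrix ι ι K} {B : Matrix δ δ K}
  {N W : Submodule K (Matrix ι δ K)} {H : Matrix ι δ K}
  {P : Matrix ι ι K × (Fin 3 → Matrix ι ι K)} {Y : Fin 3 → Matrix δ δ K}
  {d : Derivation k K K}

/-- the flip at `f` : `fᵀ J p H = Hᵀ J p f` -/
theorem key (hH : Ctx k arm J B N W H) {f : Matrix ι δ K} (hf : Ctx k arm J B N W f)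
    (hP : P ∈ NN arm J N H) {p : Matrix ι ι K × (Fin 3 → Matrix ι ι K)} (hp : p ∈ NN arm J N f)
    (Y : Matrix δ δ K) (r : Fin 3) :
    trace (fᵀ * J * (p.1 * f) * (Y * th J H P.1 H * E K arm r) * B) =
      trace (fᵀ * J * (p.1 * H) * (Y * th J H P.1 f * E K arm r) * B) := by
  have hD := hH.data
  have hfl : Hᵀ * J * (p.1 * f) = fᵀ * J * (p.1 * H) := by
    first | exact PTt.flip hf hH.mem hp | exact (PTt.flip hf hH.mem hp).symm
  have hs := hD.symm_arm hf.mem hH.mem r
  unfold M at hs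
  have e1 : trace (fᵀ * J * (p.1 * f) * (Y * th J H P.1 H * E K arm r) * B) =
      trace (Y * (Hᵀ * J * P.1) * (H * E K arm r * B * fᵀ) * (J * p.1 * f)) := by
    have : fᵀ * J * (p.1 * f) * (Y * th J H P.1 H * E K arm r) * B =
        (fᵀ * (J * p.1 * f)) * (Y * (Hᵀ * J * P.1) * (H * E K arm r * B)) := by
      unfold th; simp only [Matrix.mul_assoc]
    rw [this, trace_mul_comm]
    simp only [Matrix.mul_assoc]
  have e2 : trace (fᵀ * J * (p.1 * H) * (Y * th J H P.1 f * E K arm r) * B) =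
      trace (Y * (Hᵀ * J * P.1) * (f * E K arm r * B * Hᵀ) * (J * p.1 * f)) := by
    rw [← hfl]
    have : Hᵀ * J * (p.1 * f) * (Y * th J H P.1 f * E K arm r) * B =
        (Hᵀ * (J * p.1 * f)) * (Y * (Hᵀ * J * P.1) * (f * E K arm r * B)) := by
      unfold th; simp only [Matrix.mul_assoc]
    rw [this, trace_mul_comm]
    simp only [Matrix.mul_assoc]
  rw [e1, e2, hs]

/-- **`fᵀ J (wd f) = 0`** -/
theorem fperp (h2 : (2 : K) ≠ 0) (hH : Ctx k arm J B N W H) {f : Matrix ι δ K}
    (hf : Ctx k arm J B N W f) (hP : P ∈ NN arm J N H) (m : Mv k arm J N W H P.1 Y d) :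
    fᵀ * J * wd arm J H P.1 Y d f = 0 := by
  have hD := hH.data
  have hff : fᵀ * J * f = 0 := hf.perp f hf.mem
  have hHf : Hᵀ * J * f = 0 := hH.perp f hf.mem
  obtain ⟨w, hw⟩ : ∃ w, w = wd arm J H P.1 Y d f := ⟨_, rfl⟩
  have hwW : w ∈ W := hw ▸ m.w_mem hf.memW
  have hfirst := m.first hf.memN hHf
  rw [← hw] at hfirst ⊢
  have hdf : f.map d = f * ZY arm J H P.1 Y + w := by rw [hw]; unfold wd; abel
  -- skew
  have hsk : (fᵀ * J * w)ᵀ = -(fᵀ * J * w) := by
    have h1 := congrArg (fun A : Matrix δ δ K => A.map d) hff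
    simp only [map_mul_der, hD.J_const, Matrix.mul_zero, add_zero, map_transpose_der,
      SUX.map_zero_der', hdf] at h1
    have h3 : (f * ZY arm J H P.1 Y + w)ᵀ * J * f =
        (ZY arm J H P.1 Y)ᵀ * (fᵀ * J * f) + wᵀ * J * f := by
      rw [transpose_add, transpose_mul, Matrix.add_mul, Matrix.add_mul]
      simp only [Matrix.mul_assoc]
    have h4 : fᵀ * J * (f * ZY arm J H P.1 Y + w) =
        (fᵀ * J * f) * ZY arm J H P.1 Y + fᵀ * J * w := by
      rw [Matrix.mul_add]; simp only [Matrix.mul_assoc]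
    rw [h3, h4, hff, Matrix.mul_zero, Matrix.zero_mul, zero_add, zero_add] at h1
    have h5 : (fᵀ * J * w)ᵀ = wᵀ * J * f := by
      rw [transpose_mul, transpose_mul, transpose_transpose, hD.J_symm, Matrix.mul_assoc]
    rw [h5]
    exact eq_neg_of_add_eq_zero_left h1
  -- symmetric
  obtain ⟨Bi, hBi⟩ := hD.B_unit.exists_right_inv
  have hBi' : Bi * B = 1 := mul_eq_one_comm.1 hBi
  have htr : ∀ ξ : Matrix δ δ K, ξᵀ * B + B * ξ = 0 → trace (ξ * (fᵀ * J * w) * B) = 0 := by
    intro ξ hξ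
    obtain ⟨d', hd'⟩ := hD.dir (0 : Fin 3 → Matrix ι ι K) ξ (fun s => by simp) hξ
    obtain ⟨p, hp, -, hpf⟩ := exists_NN' hf hd'
    have a1 : pair J B (f.map d' - f * ξᵀ) w = 0 := by
      have h4 : w * B * (f.map d' - f * ξᵀ)ᵀ = 0 := hD.W_iso _ hwW _ (hd'.onW f hf.memW)
      unfold pair
      rw [Matrix.mul_assoc, Matrix.mul_assoc, trace_mul_comm, Matrix.mul_assoc, h4,
        Matrix.mul_zero, trace_zero]
    have a2 : f.map d' ∈ N := by
      have := hd'.onN f hf.memN
      rwa [act_zero, sub_zero] at this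
    have a3 := hD.N_iso _ a2 _ hfirst
    rw [pair_sub_left, sub_eq_zero] at a1
    have a4 : pair J B (f * ξᵀ) w = trace (ξ * (fᵀ * J * w) * B) := by
      unfold pair
      rw [transpose_mul, transpose_transpose]
      simp only [Matrix.mul_assoc]
    rw [← a4, ← a1]
    rw [pair_add_right] at a3
    have hHd : (f.map d')ᵀ * J * H = -(fᵀ * J * H.map d') := by
      have hfH : fᵀ * J * H = 0 := hf.perp H hH.mem
      have h1 := congrArg (fun A : Matrix δ δ K => A.map d') hfH
      simp only [map_mul_der, hD.J_const, Matrix.mul_zero, add_zero, map_transpose_der,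
        SUX.map_zero_der'] at h1
      exact eq_neg_of_add_eq_zero_left h1
    have hfd : (f.map d')ᵀ * J * f = -(fᵀ * J * f.map d') := by
      have h1 := congrArg (fun A : Matrix δ δ K => A.map d') hff
      simp only [map_mul_der, hD.J_const, Matrix.mul_zero, add_zero, map_transpose_der,
        SUX.map_zero_der'] at h1
      exact eq_neg_of_add_eq_zero_left h1
    have a5 : pair J B (f.map d') (∑ r, (f * Y r * th J H P.1 H - H * Y r * th J H P.1 f) *
        E K arm r) = 0 := by
      unfold pair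
      rw [Matrix.mul_sum, Matrix.sum_mul, trace_sum]
      refine Finset.sum_eq_zero fun r _ => ?_
      have b1 : (f.map d')ᵀ * J * ((f * Y r * th J H P.1 H - H * Y r * th J H P.1 f) *
          E K arm r) * B = -(fᵀ * J * (p.1 * f) * (Y r * th J H P.1 H * E K arm r) * B) +
            fᵀ * J * (p.1 * H) * (Y r * th J H P.1 f * E K arm r) * B := by
        have b2 : (f.map d')ᵀ * J * ((f * Y r * th J H P.1 H - H * Y r * th J H P.1 f) *
          E K arm r) * B = ((f.map d')ᵀ * J * f) * (Y r * th J H P.1 H * E K arm r) * B -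
            ((f.map d')ᵀ * J * H) * (Y r * th J H P.1 f * E K arm r) * B := by
          rw [Matrix.sub_mul, Matrix.mul_sub, Matrix.sub_mul]
          simp only [Matrix.mul_assoc]
        rw [b2, hHd, hfd, ← hpf f hf.mem, ← hpf H hH.mem]
        simp only [Matrix.neg_mul, sub_neg_eq_add]
      rw [b1, trace_add, trace_neg, key hH hf hP hp (Y r) r, neg_add_cancel]
    rw [a5, zero_add] at a3
    exact a3
  have hsym : (fᵀ * J * w)ᵀ = fᵀ * J * w := by
    refine symm_of_trace_skew _ fun G hG => ?_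
    have h1 := htr (Bi * G) (by
      have hBit : Biᵀ = Bi := by
        have : B * Biᵀ = 1 := by
          have := congrArg transpose hBi'
          rwa [transpose_mul, transpose_one, hD.B_symm] at this
        calc Biᵀ = (Bi * B) * Biᵀ := by rw [hBi', Matrix.one_mul]
          _ = Bi := by rw [Matrix.mul_assoc, this, Matrix.mul_one]
      rw [transpose_mul, hG, hBit, Matrix.mul_assoc, hBi', Matrix.mul_one, ← Matrix.mul_assoc,
        hBi, Matrix.one_mul, neg_add_cancel])
    have h3 : trace (Bi * G * (fᵀ * J * w) * B) = trace (G * (fᵀ * J * w)) := by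
      rw [trace_mul_comm, Matrix.mul_assoc Bi, ← Matrix.mul_assoc B Bi, hBi, Matrix.one_mul]
    rwa [h3] at h1
  have h7 : (2 : K) • (fᵀ * J * w) = 0 := by
    rw [two_smul]
    have h8 := hsk
    rw [hsym] at h8
    exact eq_neg_iff_add_eq_zero.1 h8
  exact (smul_eq_zero.1 h7).resolve_left h2

theorem wd_add' (F G : Matrix ι δ K) : wd arm J H P.1 Y d (F + G) =
    wd arm J H P.1 Y d F + wd arm J H P.1 Y d G := by
  unfold wd
  rw [map_add_der, Matrix.add_mul]
  abel

theorem wd_smul' (c : K) (F : Matrix ι δ K) : wd arm J H P.1 Y d (c • F) =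
    c • wd arm J H P.1 Y d F + d c • F := by
  unfold wd
  have e : (c • F).map d = c • F.map d + d c • F := by
    ext i j
    simp only [Matrix.map_apply, Matrix.smul_apply, Matrix.add_apply, smul_eq_mul,
      Derivation.leibniz]
    ring
  rw [e, Matrix.smul_mul, smul_sub]
  abel

/-- **the corrections are orthogonal to `F` and to `f`**, hence to every `F + s f`. -/
theorem perp_all (h2 : (2 : K) ≠ 0) (hCtx : ∀ g ∈ Kiso J N W, Ctx k arm J B N W g)
    {F f : Matrix ι δ K} (hF : F ∈ Kiso J N W) (hf : f ∈ Kiso J N W) {t : k}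
    (hP : P ∈ NN arm J N (F + algebraMap k K t • f))
    (m : Mv k arm J N W (F + algebraMap k K t • f) P.1 Y d) (a b : K) :
    Fᵀ * J * wd arm J (F + algebraMap k K t • f) P.1 Y d (a • F + b • f) = 0 ∧
    fᵀ * J * wd arm J (F + algebraMap k K t • f) P.1 Y d (a • F + b • f) = 0 ∧
    ∀ s : K, (F + s • f)ᵀ * J * wd arm J (F + algebraMap k K t • f) P.1 Y d (a • F + b • f) = 0 := by
  have hH : F + algebraMap k K t • f ∈ Kiso J N W :=
    (Kiso J N W).add_mem hF ((Kiso J N W).smul_mem _ hf)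
  have hCH := hCtx _ hH
  have hCf := hCtx _ hf
  have hCF := hCtx _ hF
  have f1 := fperp h2 hCH hCf hP m
  have hHf : (F + algebraMap k K t • f)ᵀ * J * f = 0 := hCH.perp f hf.1
  have f2 := m.w_perp hCH hHf
  obtain ⟨τ, hτ⟩ : ∃ τ : K, τ = algebraMap k K t := ⟨_, rfl⟩
  have hdτ : d τ = 0 := by rw [hτ]; exact d.map_algebraMap t
  rw [← hτ] at f1 f2 m ⊢
  have f3 : Fᵀ * J * wd arm J (F + τ • f) P.1 Y d f = 0 := by
    have e : Fᵀ * J * wd arm J (F + τ • f) P.1 Y d f =
        (F + τ • f)ᵀ * J * wd arm J (F + τ • f) P.1 Y d f -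
          τ • (fᵀ * J * wd arm J (F + τ • f) P.1 Y d f) := by
      rw [transpose_add, transpose_smul, Matrix.add_mul, Matrix.smul_mul, Matrix.add_mul,
        Matrix.smul_mul]
      abel
    rw [e, f1, f2, smul_zero, sub_zero]
  have f4 : wd arm J (F + τ • f) P.1 Y d F = -(τ • wd arm J (F + τ • f) P.1 Y d f) := by
    have e := wd_add' (arm := arm) (J := J) (H := F + τ • f) (P := P) (Y := Y) (d := d) F (τ • f)
    rw [wd_smul', hdτ, zero_smul, add_zero] at e
    have e0 : wd arm J (F + τ • f) P.1 Y d (F + τ • f) = 0 := by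
      unfold wd
      rw [m.dH, sub_self]
    rw [e0] at e
    exact eq_neg_of_add_eq_zero_left e.symm
  have hFF : Fᵀ * J * F = 0 := hCF.perp F hF.1
  have hFf : Fᵀ * J * f = 0 := hCF.perp f hf.1
  have hfF : fᵀ * J * F = 0 := hCf.perp F hF.1
  have hff : fᵀ * J * f = 0 := hCf.perp f hf.1
  have g1 : Fᵀ * J * wd arm J (F + τ • f) P.1 Y d (a • F + b • f) = 0 := by
    rw [wd_add', wd_smul', wd_smul', f4]
    simp only [Matrix.mul_add, Matrix.mul_smul, Matrix.mul_neg, f3, hFF, hFf, smul_zero, neg_zero,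
      add_zero]
  have g2 : fᵀ * J * wd arm J (F + τ • f) P.1 Y d (a • F + b • f) = 0 := by
    rw [wd_add', wd_smul', wd_smul', f4]
    simp only [Matrix.mul_add, Matrix.mul_smul, Matrix.mul_neg, f1, hfF, hff, smul_zero, neg_zero,
      add_zero]
  refine ⟨g1, g2, fun s => ?_⟩
  rw [transpose_add, transpose_smul, Matrix.add_mul, Matrix.smul_mul, Matrix.add_mul,
    Matrix.smul_mul, g1, g2, smul_zero, add_zero]

end Crest.Agent.R172.SPerp355
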