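import Crest.Agent.R172.SDec2
import Crest.Agent.R172.SInst
import Crest.Agent.R172.SLevA455
import Crest.Agent.R172.SB2H16
import Crest.Agent.R172.SMv16
import Crest.Agent.R172.SDecP70
import Crest.Agent.R172.SUniq803
import Crest.Agent.R172.SPerp355
import Crest.Agent.R172.SNab753
import Crest.Agent.R172.SUX7
import Crest.Agent.R172.SZb978

/-!
Row 172 (S0260), (t2), level 2, geometric half (copy of helper267): the first level.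
-/

set_option autoImplicit false
set_option linter.unusedSectionVars false
set_option linter.unusedVariables false
set_option linter.unusedFintypeInType false
set_option linter.unusedDecidableInType false
set_option maxHeartbeats 1600000

namespace Crest.Agent.R172.SGeo267

open Matrix Module Crest.Agent.R172.FO Crest.Agent.R172.Qt Crest.Agent.R172.SpS
open Crest.Agent.R172.SEnd2 (PC PhS)
open Crest.Agent.R172.SUX (D3 th wd ZY Mv Fr K1 E5 QQ5 I1 I2)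
open Crest.Agent.R172.PL (CoreM)
open Crest.Agent.R172.STop (Setup)
open Crest.Agent.R172.SInst (QQb)
open Crest.Agent.R172.SDec
open Crest.Agent.R172.Om (Kiso)

variable {ι : Type} [Fintype ι] [DecidableEq ι] {δ : Type} [Fintype δ] [DecidableEq δ]
variable {K : Type} [Field K] [Algebra ℂ K] [IsAlgClosed K]
variable {arm : δ → Fin 3} {J : Matrix ι ι K} {B : Matrix δ δ K} {N W : Submodule K (Matrix ι δ K)}
  {F f : Matrix ι δ K} {P : Matrix ι ι K × (Fin 3 → Matrix ι ι K)} {R : Matrix δ ι K}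
  {D : End K (CoreM (PhS arm J B F R P.1))} {l : Fin 3 → ℕ}

/-- the inclusions of the covariant derivative (row B1) -/
structure Inc (S : Setup arm J B N W F f P R D l) (ν ν' : K) (H : Matrix ι δ K)
    (X0 : Matrix ι ι K) (Y : Fin 3 → Matrix δ δ K) (d : Derivation ℂ K K) : Prop where
  i1 : ∀ u ∈ QQb S ν, ∃ v ∈ QQb S ν, ∃ r ∈ QQb S ν',
    r ∈ St.T (fun s => (B * E K arm s * (Fᵀ * J * (P.1 * F))).mulVecLin) ∧
      SUB.nab arm J H X0 Y d u = v + r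
  i2 : ∀ u ∈ QQb S ν', ∃ v ∈ QQb S ν', ∃ r ∈ QQb S ν,
    r ∈ St.T (fun s => (B * E K arm s * (Fᵀ * J * (P.1 * F))).mulVecLin) ∧
      SUB.nab arm J H X0 Y d u = v + r
  i3 : ∀ κ, κ ≠ ν → κ ≠ ν' → ∀ u ∈ QQb S κ, SUB.nab arm J H X0 Y d u ∈ QQb S κ

/-- the class of relations with values on the third blocks -/
def W3 (S : Setup arm J B N W F f P R D l) (ν ν' : K) : Submodule K (Matrix ι δ K) where
  carrier := {w | w ∈ W ∧ ∀ κ, κ ≠ ν → κ ≠ ν' → ∃ μ : K, ∀ u ∈ QQb S κ, w *ᵥ u = μ • (F *ᵥ u)}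
  add_mem' := by
    rintro a b ⟨ha, h1⟩ ⟨hb, h2⟩
    refine ⟨W.add_mem ha hb, fun κ k1 k2 => ?_⟩
    obtain ⟨x, hx⟩ := h1 κ k1 k2
    obtain ⟨y, hy⟩ := h2 κ k1 k2
    exact ⟨x + y, fun u hu => by rw [add_mulVec, hx u hu, hy u hu, add_smul]⟩
  zero_mem' := ⟨W.zero_mem, fun κ _ _ => ⟨0, fun u _ => by rw [zero_mulVec, zero_smul]⟩⟩
  smul_mem' := by
    rintro c a ⟨ha, h1⟩
    refine ⟨W.smul_mem c ha, fun κ k1 k2 => ?_⟩
    obtain ⟨x, hx⟩ := h1 κ k1 k2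
    exact ⟨c * x, fun u hu => by rw [smul_mulVec, hx u hu, smul_smul]⟩

theorem W3_le (S : Setup arm J B N W F f P R D l) (ν ν' : K) : W3 S ν ν' ≤ W := fun _ h => h.1

theorem row_of {H w : Matrix ι δ K} {X0 : Matrix ι ι K} {dY : Derivation ℂ K K}
    (hX : Qt.Skw J X0) (h : (X0 * H)ᵀ * J * w = -(Hᵀ * J * w.map dY)) :
    Hᵀ * J * (X0 * w) = Hᵀ * J * w.map dY := by
  have e : (X0 * H)ᵀ * J * w = -(Hᵀ * J * (X0 * w)) := by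
    have e1 : (X0 * H)ᵀ * J * w = Hᵀ * (X0ᵀ * J) * w := by
      rw [transpose_mul]; simp only [Matrix.mul_assoc]
    rw [e1, hX.eq]
    simp only [Matrix.mul_neg, Matrix.neg_mul, Matrix.mul_assoc]
  rw [e] at h
  exact neg_injective h

theorem perf' (S : Setup arm J B N W F f P R D l) (μ : K) :
    ∀ u ∈ QQb S μ, ∃ c : Fin 3 → δ → K, (∀ s, c s ∈ QQb S μ) ∧
      ∑ s, (B * E K arm s * (Fᵀ * J * (P.1 * F))) *ᵥ c s = u := fun u hu =>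
  SLev1h455.perf S μ u hu

/-- **the decorated move** -/
theorem dec_move (S : Setup arm J B N W F f P R D l) {ν ν' : K} (hne : ν ≠ ν')
    {m1 m2 : ℕ} {U1 : Matrix δ (Fin m1) K} {U2 : Matrix δ (Fin m2) K}
    {a1 : Fin 3 → Matrix (Fin m1) (Fin m1) K} {a2 : Fin 3 → Matrix (Fin m2) (Fin m2) K}
    (hU1 : UFr.Cq (QQb S ν) U1) (hs1 : ∀ u ∈ QQb S ν, ∃ x, u = U1 *ᵥ x)
    (ha1 : ∀ s, B * E K arm s * (Fᵀ * J * (P.1 * F)) * U1 = U1 * a1 s)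
    (hU2 : UFr.Cq (QQb S ν') U2) (hs2 : ∀ u ∈ QQb S ν', ∃ x, u = U2 *ᵥ x)
    (ha2 : ∀ s, B * E K arm s * (Fᵀ * J * (P.1 * F)) * U2 = U2 * a2 s)
    {t : ℂ} (ht : t ≠ 0) (hc1 : 1 + algebraMap ℂ K t * ν ≠ 0)
    (hc2 : 1 + algebraMap ℂ K t * ν' ≠ 0)
    {Pt : Matrix ι ι K × (Fin 3 → Matrix ι ι K)} {Ri : Matrix δ ι K} {dY : Derivation ℂ K K}
    (hPt : Pt ∈ NN arm J N (F + (algebraMap ℂ K t) • f))
    (hV : Vert ℂ arm J N W (F + (algebraMap ℂ K t) • f) Pt)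
    (hRi : (F + (algebraMap ℂ K t) • f) * Ri * (F + (algebraMap ℂ K t) • f) =
      F + (algebraMap ℂ K t) • f)
    (hY : ∀ f' ∈ N ⊓ W, (F + (algebraMap ℂ K t) • f)ᵀ * J * (Pt.1 * f') =
      (F + (algebraMap ℂ K t) • f)ᵀ * J * f'.map dY)
    (hPF : (F + (algebraMap ℂ K t) • f)ᵀ * J * (Pt.1 * F) =
      (F + (algebraMap ℂ K t) • f)ᵀ * J * (P.1 * F))
    {X : Fin 3 → Matrix (Fin m2) (Fin m1) K}
    (hB : ∀ d, Mv ℂ arm J N W (F + (algebraMap ℂ K t) • f) Pt.1 (SMv16.Yf U1 U2 X) d →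
      Inc S ν ν' (F + (algebraMap ℂ K t) • f) Pt.1 (SMv16.Yf U1 U2 X) d) {r : K}
    (hr : r = (1 + algebraMap ℂ K t * ν') / (1 + algebraMap ℂ K t * ν))
    (hsum : ∑ s, (X s * (a1 s)ᵀ - (-(r ^ 2)) • (a2 s * X s)) = 0)
    (harm : ∀ s, (U2ᵀ * (Fᵀ * J * (P.1 * F)) * U2) * (X s * (a1 s)ᵀ - (-(r ^ 2)) • (a2 s * X s)) *
      (U1ᵀ * (Fᵀ * J * (P.1 * F)) * U1) = 0) :
    ∃ (d : Derivation ℂ K K) (Γ1 : Matrix (Fin m1) (Fin m1) K) (Γ2 : Matrix (Fin m2) (Fin m2) K)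
      (β : Matrix (Fin m1) (Fin m2) K) (γ : Matrix (Fin m2) (Fin m1) K),
      Mv ℂ arm J N W (F + (algebraMap ℂ K t) • f) Pt.1 (SMv16.Yf U1 U2 X) d ∧
      U2.map d + ZY arm J (F + (algebraMap ℂ K t) • f) Pt.1 (SMv16.Yf U1 U2 X) * U2 =
        U2 * Γ2 + (1 + algebraMap ℂ K t * ν') ^ 2 • (U1 * β) ∧
      U1.map d + ZY arm J (F + (algebraMap ℂ K t) • f) Pt.1 (SMv16.Yf U1 U2 X) * U1 =
        U1 * Γ1 + (1 + algebraMap ℂ K t * ν) ^ 2 • (U2 * γ) ∧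
      Dec F (Fᵀ * J * (P.1 * F)) U1 U2 a1 a2 (-(r ^ 2)) (X, β, γ) ∧
      Inc S ν ν' (F + (algebraMap ℂ K t) • f) Pt.1 (SMv16.Yf U1 U2 X) d := by
  have h2 : (2 : K) ≠ 0 := SLevA455.two_ne K
  have hH : F + (algebraMap ℂ K t) • f ∈ Kiso J N W :=
    Submodule.add_mem _ S.hF (Submodule.smul_mem _ _ S.hf)
  have hCH := S.hCtx _ hH
  obtain ⟨fr, k1⟩ := SInst.fr_k1 S hY hPF hne hc1 hc2 hU1 hU2
  obtain ⟨d, m⟩ := SMv16.exists_mv hCH h2 hRi hPt hV fr ha1 ha2 hr hsum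
  have hI := hB d m
  obtain ⟨Γ1, Γ2, β, γ, e2, e1, hDec⟩ := SB2H16.dec_of_B1 hCH hPt m fr (SMv16.c_ne ht hne)
    hU1 hs1 ha1 (perf' S ν) hU2 hs2 ha2 (perf' S ν') (fun r => rfl) hI.i1 hI.i2 hr hsum harm
  exact ⟨d, Γ1, Γ2, β, γ, m, e2, e1, hDec, hI⟩

/-- the value of `wd q` on the third blocks -/
theorem wd_W3 (S : Setup arm J B N W F f P R D l) {ν ν' : K} {t : ℂ}
    {Pt : Matrix ι ι K × (Fin 3 → Matrix ι ι K)} {Y : Fin 3 → Matrix δ δ K}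
    {d : Derivation ℂ K K}
    (m : Mv ℂ arm J N W (F + (algebraMap ℂ K t) • f) Pt.1 Y d)
    (hI : Inc S ν ν' (F + (algebraMap ℂ K t) • f) Pt.1 Y d)
    (hc : ∀ κ, κ ≠ ν → κ ≠ ν' → QQb S κ ≠ ⊥ → 1 + algebraMap ℂ K t * κ ≠ 0) (b : K) :
    wd arm J (F + (algebraMap ℂ K t) • f) Pt.1 Y d (b • (f - ν' • F)) ∈ W3 S ν ν' := by
  have hF := SInst.ctx S
  refine ⟨m.w_mem (W.smul_mem _ (W.sub_mem (SInst.hfNW S).2 (W.smul_mem _ hF.memW))),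
    fun κ k1 k2 => ?_⟩
  by_cases hb : QQb S κ = ⊥
  · refine ⟨0, fun u hu => ?_⟩
    rw [hb, Submodule.mem_bot] at hu
    rw [hu, mulVec_zero, mulVec_zero, smul_zero]
  have hcκ := hc κ k1 k2 hb
  have hq : ∀ u ∈ QQb S κ, (b • (f - ν' • F)) *ᵥ u = (b * (κ - ν')) • (F *ᵥ u) := by
    intro u hu
    rw [smul_mulVec, sub_mulVec, smul_mulVec, SInst.rel S hu, ← sub_smul, smul_smul]
  have hH : ∀ u ∈ QQb S κ, (F + (algebraMap ℂ K t) • f) *ᵥ u =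
      (1 + algebraMap ℂ K t * κ) • (F *ᵥ u) := by
    intro u hu
    rw [add_mulVec, smul_mulVec, SInst.rel S hu, smul_smul, add_smul, one_smul]
  refine ⟨d (b * (κ - ν')) - b * (κ - ν') * (1 + algebraMap ℂ K t * κ)⁻¹ *
    d (1 + algebraMap ℂ K t * κ), fun u hu => ?_⟩
  rw [SNab753.wd_val m hcκ (hH u hu) (hq u hu)]
  have h1 := hI.i3 κ k1 k2 u hu
  have h3 : b * (κ - ν') * (1 + algebraMap ℂ K t * κ)⁻¹ * (1 + algebraMap ℂ K t * κ) =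
      b * (κ - ν') := by
    rw [mul_assoc, inv_mul_cancel₀ hcκ, mul_one]
  rw [sub_mulVec, smul_mulVec, hH _ h1, hq _ h1, smul_smul, h3, sub_self, add_zero]

/-- **first level at one good `t`** -/
theorem first_QQ (S : Setup arm J B N W F f P R D l) {ν ν' : K} (hne : ν ≠ ν')
    {m1 m2 : ℕ} {U1 : Matrix δ (Fin m1) K} {U2 : Matrix δ (Fin m2) K}
    (hU1 : UFr.Cq (QQb S ν) U1) (hU2 : UFr.Cq (QQb S ν') U2)
    {t : ℂ} (hc1 : 1 + algebraMap ℂ K t * ν ≠ 0)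
    (hc2 : 1 + algebraMap ℂ K t * ν' ≠ 0)
    (hc : ∀ κ, κ ≠ ν → κ ≠ ν' → QQb S κ ≠ ⊥ → 1 + algebraMap ℂ K t * κ ≠ 0)
    {Pt : Matrix ι ι K × (Fin 3 → Matrix ι ι K)} {dY : Derivation ℂ K K}
    (hPt : Pt ∈ NN arm J N (F + (algebraMap ℂ K t) • f))
    (hY : ∀ f' ∈ N ⊓ W, (F + (algebraMap ℂ K t) • f)ᵀ * J * (Pt.1 * f') =
      (F + (algebraMap ℂ K t) • f)ᵀ * J * f'.map dY)
    (hPF : (F + (algebraMap ℂ K t) • f)ᵀ * J * (Pt.1 * F) =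
      (F + (algebraMap ℂ K t) • f)ᵀ * J * (P.1 * F))
    (hrow : ∀ w : Matrix ι δ K, (F + (algebraMap ℂ K t) • f)ᵀ * J * w = 0 →
          (Pt.1 * (F + (algebraMap ℂ K t) • f))ᵀ * J * w =
            -((F + (algebraMap ℂ K t) • f)ᵀ * J * w.map dY))
    {X : Fin 3 → Matrix (Fin m2) (Fin m1) K} {d : Derivation ℂ K K}
    {Γ1 : Matrix (Fin m1) (Fin m1) K} {Γ2 : Matrix (Fin m2) (Fin m2) K}
    {β : Matrix (Fin m1) (Fin m2) K} {γ : Matrix (Fin m2) (Fin m1) K}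
    (m : Mv ℂ arm J N W (F + (algebraMap ℂ K t) • f) Pt.1 (SMv16.Yf U1 U2 X) d)
    (e2 : U2.map d + ZY arm J (F + (algebraMap ℂ K t) • f) Pt.1 (SMv16.Yf U1 U2 X) * U2 =
        U2 * Γ2 + (1 + algebraMap ℂ K t * ν') ^ 2 • (U1 * β))
    (e1 : U1.map d + ZY arm J (F + (algebraMap ℂ K t) • f) Pt.1 (SMv16.Yf U1 U2 X) * U1 =
        U1 * Γ1 + (1 + algebraMap ℂ K t * ν) ^ 2 • (U2 * γ))
    (hI : Inc S ν ν' (F + (algebraMap ℂ K t) • f) Pt.1 (SMv16.Yf U1 U2 X) d) :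
    I1 arm F (Fᵀ * J * (P.1 * F)) U1 U2 (X, β, γ) +
      ((1 + algebraMap ℂ K t * ν') / (1 + algebraMap ℂ K t * ν)) •
        I2 arm F (Fᵀ * J * (P.1 * F)) U1 U2 (X, β, γ) ∈
      QQ5 J N (W3 S ν ν') F f dY (Fᵀ * J * (P.1 * F)) U1 U2 := by
  have h2 : (2 : K) ≠ 0 := SLevA455.two_ne K
  have hH : F + (algebraMap ℂ K t) • f ∈ Kiso J N W :=
    Submodule.add_mem _ S.hF (Submodule.smul_mem _ _ S.hf)
  have hCH := S.hCtx _ hH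
  obtain ⟨fr, k1⟩ := SInst.fr_k1 S hY hPF hne hc1 hc2 hU1 hU2
  have hqm : (ν - ν')⁻¹ • (f - ν' • F) ∈ N ⊓ W :=
    (N ⊓ W).smul_mem _ ((N ⊓ W).sub_mem (SInst.hfNW S) ((N ⊓ W).smul_mem _ (SInst.ctx S).mem))
  have hqp : (F + (algebraMap ℂ K t) • f)ᵀ * J * ((ν - ν')⁻¹ • (f - ν' • F)) = 0 :=
    hCH.perp _ hqm
  have hq : (ν - ν')⁻¹ • (f - ν' • F) = (-((ν - ν')⁻¹ * ν')) • F + (ν - ν')⁻¹ • f := by
    rw [smul_sub, smul_smul, neg_smul]; abel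
  obtain ⟨p1, p2, -⟩ := SPerp355.perp_all h2 S.hCtx S.hF S.hf hPt m (-((ν - ν')⁻¹ * ν'))
    ((ν - ν')⁻¹)
  rw [← hq] at p1 p2
  have hwp := m.w_perp hCH hqp
  refine SUX.first_mem' hCH hPt m hqm hqp fr k1 (fun s v hv => rfl) (fun v hv => by rw [e2])
    (fun v hv => by rw [e1]) p1 p2 (row_of hPt.1 (hrow _ hwp)) ?_
  exact wd_W3 S m hI hc _

end Crest.Agent.R172.SGeo267
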