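import Crest.Agent.R172.SUXF

/-!
Row 172 (S0260), S-side (t2), Lev2: the descent fields `zb`, `zk` (952 17211, 28 17242) of a
decorated family from the frame form of the connection.
-/

set_option autoImplicit false
set_option linter.unusedSectionVars false
set_option maxHeartbeats 1600000

namespace Crest.Agent.R172.SZb252

open Matrix Module Crest.Agent.R172.FO Crest.Agent.R172.Qt Crest.Agent.R172.SpS
  Crest.Agent.R172.Om Crest.Agent.R172.SUX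

variable {ι : Type*} [Fintype ι] [DecidableEq ι] {δ : Type*} [Fintype δ] [DecidableEq δ]
variable {k K : Type*} [Field k] [Field K] [Algebra k K]
variable {arm : δ → Fin 3} {J : Matrix ι ι K}
  {F H : Matrix ι δ K} {P : Matrix ι ι K} {Y : Fin 3 → Matrix δ δ K} {d : Derivation k K K}
variable {n1 n2 : Type*} [Fintype n1] [Fintype n2]
variable {S0 : Matrix δ δ K} {c1 c2 : K} {U1 : Matrix δ n1 K} {U2 : Matrix δ n2 K}
  {Γ1 : Matrix n1 n1 K} {Γ2 : Matrix n2 n2 K} {β : Matrix n1 n2 K} {γ : Matrix n2 n1 K}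

/-- derivative of `A x = 0` -/
theorem der_mulVec {α β' : Type*} [Fintype β'] (d : Derivation k K K) (A : Matrix α β' K)
    (x : β' → K) (h : A *ᵥ x = 0) : A.map d *ᵥ x + A *ᵥ (fun j => d (x j)) = 0 := by
  funext i
  have h1 := congrArg d (congrFun h i)
  simp only [mulVec, dotProduct, Pi.zero_apply, map_zero, map_sum, Derivation.leibniz,
    smul_eq_mul] at h1
  simp only [Pi.add_apply, mulVec, dotProduct, Matrix.map_apply, Pi.zero_apply]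
  rw [← h1, ← Finset.sum_add_distrib]
  exact Finset.sum_congr rfl fun j _ => by ring

/-- **`zb`**: `F U2 x = 0 ⟹ F U1 β x ∈ im (F U2)` -/
theorem zb (fr : Fr J F H P S0 c1 c2 U1 U2) (hd : H.map d = H * ZY arm J H P Y)
    (hN2 : H * (U2.map d + ZY arm J H P Y * U2) = H * (U2 * Γ2 + c2 ^ 2 • (U1 * β)))
    (x : n2 → K) (hx : F *ᵥ (U2 *ᵥ x) = 0) :
    ∃ z, F *ᵥ (U1 *ᵥ (β *ᵥ x)) = F *ᵥ (U2 *ᵥ z) := by
  have hc1 := fr.hc1
  have hc2 := fr.hc2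
  have h1 := dFU fr.symm hd hN2
  have hx' : (F * U2) *ᵥ x = 0 := by rw [← mulVec_mulVec, hx]
  have h2 := der_mulVec d (F * U2) x hx'
  rw [h1] at h2
  simp only [add_mulVec, sub_mulVec, smul_mulVec] at h2
  have e1 : (F * U2 * Γ2) *ᵥ x = F *ᵥ (U2 *ᵥ (Γ2 *ᵥ x)) := by
    simp only [mulVec_mulVec, Matrix.mul_assoc]
  have e2 : (F * U1 * β) *ᵥ x = F *ᵥ (U1 *ᵥ (β *ᵥ x)) := by
    simp only [mulVec_mulVec, Matrix.mul_assoc]
  have e3 : (F * U2) *ᵥ (fun j => d (x j)) = F *ᵥ (U2 *ᵥ (fun j => d (x j))) := by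
    simp only [mulVec_mulVec]
  rw [e1, e2, e3, hx', smul_zero, sub_zero] at h2
  refine ⟨-((c2 * c1)⁻¹ • (Γ2 *ᵥ x + fun j => d (x j))), ?_⟩
  have h3 : (c2 * c1) • (F *ᵥ (U1 *ᵥ (β *ᵥ x))) =
      -(F *ᵥ (U2 *ᵥ (Γ2 *ᵥ x + fun j => d (x j)))) := by
    rw [mulVec_add, mulVec_add, eq_neg_iff_add_eq_zero, ← h2]
    abel
  have h4 : F *ᵥ (U1 *ᵥ (β *ᵥ x)) = (c2 * c1)⁻¹ • ((c2 * c1) • (F *ᵥ (U1 *ᵥ (β *ᵥ x)))) := by
    rw [smul_smul, inv_mul_cancel₀ (mul_ne_zero hc2 hc1), one_smul]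
  rw [h4, h3, mulVec_neg, mulVec_neg, mulVec_smul, mulVec_smul, smul_neg]

/-- **`zk`**: `F U1 x = 0 ⟹ F U2 γ x ∈ im (F U1)` -/
theorem zk (fr : Fr J F H P S0 c1 c2 U1 U2) (hd : H.map d = H * ZY arm J H P Y)
    (hN1 : H * (U1.map d + ZY arm J H P Y * U1) = H * (U1 * Γ1 + c1 ^ 2 • (U2 * γ)))
    (x : n1 → K) (hx : F *ᵥ (U1 *ᵥ x) = 0) :
    ∃ z, F *ᵥ (U2 *ᵥ (γ *ᵥ x)) = F *ᵥ (U1 *ᵥ z) := zb fr.symm hd hN1 x hx

end Crest.Agent.R172.SZb252
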