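import Crest.Agent.R172.SNabI934
import Crest.Agent.R172.SB2H16
import Crest.Agent.R172.SMv16
import Crest.Agent.R172.SInf659
import Crest.Agent.R172.SDec2
import Crest.Agent.R172.SZb252
import Crest.Agent.R172.SInst
import Crest.Agent.R172.SUX6t515

/-!
Row 172 (S0260), S-side, level 2, geometric half: the moves at the good parameters.
-/

set_option autoImplicit false
set_option linter.unusedSectionVars false
set_option linter.unusedFintypeInType false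
set_option linter.unusedDecidableInType false
set_option linter.unusedVariables false
set_option maxHeartbeats 1600000

namespace Crest.Agent.R172.SGeo343

open Module Matrix Crest.Agent.R172.FO Crest.Agent.R172.Qt Crest.Agent.R172.SpS
open Crest.Agent.R172.SBlk Crest.Agent.R172.UBlk Crest.Agent.R172.STop Crest.Agent.R172.SEnd2
open Crest.Agent.R172.SCM Crest.Agent.R172.SInst
open Crest.Agent.R172.Om (Kiso)
open Crest.Agent.R172.PL (CoreM Ainf)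
open Crest.Agent.R172.SC (PB)
open Crest.Agent.R172.SUX (th ZY wd Mv D3 Fr K1)
open Crest.Agent.R172.SDec (Dec ZB Rel2)
open Crest.Agent.R172.SMv16 (Yf Yf_symm)

variable {ι : Type} [Fintype ι] [DecidableEq ι] {δ : Type} [Fintype δ] [DecidableEq δ]
variable {K : Type} [Field K] [Algebra ℂ K]
variable {arm : δ → Fin 3} {J : Matrix ι ι K} {B : Matrix δ δ K} {N W : Submodule K (Matrix ι δ K)}
  {F f : Matrix ι δ K} {P : Matrix ι ι K × (Fin 3 → Matrix ι ι K)} {R : Matrix δ ι K}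
  {D : End K (CoreM (PhS arm J B F R P.1))} {l : Fin 3 → ℕ}
variable {m1 m2 : ℕ} {U1 : Matrix δ (Fin m1) K} {U2 : Matrix δ (Fin m2) K}
  {a1 : Fin 3 → Matrix (Fin m1) (Fin m1) K} {a2 : Fin 3 → Matrix (Fin m2) (Fin m2) K}

/-- the facts at one good parameter `a`, `H = F + a f` -/
structure At (S : Setup arm J B N W F f P R D l) (ν ν' : K) (U1 : Matrix δ (Fin m1) K)
    (U2 : Matrix δ (Fin m2) K) (a1 : Fin 3 → Matrix (Fin m1) (Fin m1) K)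
    (a2 : Fin 3 → Matrix (Fin m2) (Fin m2) K) (dY : Derivation ℂ K K) (a : K)
    (Pt : Matrix ι ι K × (Fin 3 → Matrix ι ι K)) : Prop where
  c1 : 1 + a * ν ≠ 0
  c2 : 1 + a * ν' ≠ 0
  hc : ∀ κ, QQb S κ ≠ ⊥ → 1 + a * κ ≠ 0
  hC : Ctx ℂ arm J B N W (F + a • f)
  hP : Pt ∈ NN arm J N (F + a • f)
  hY : ∀ f' ∈ N ⊓ W, (F + a • f)ᵀ * J * (Pt.1 * f') = (F + a • f)ᵀ * J * f'.map dY
  hPF : (F + a • f)ᵀ * J * (Pt.1 * F) = (F + a • f)ᵀ * J * (P.1 * F)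
  hz : ∀ w : Matrix ι δ K, (F + a • f)ᵀ * J * w = 0 →
          (Pt.1 * (F + a • f))ᵀ * J * w = -((F + a • f)ᵀ * J * w.map dY)
  fr : Fr J F (F + a • f) Pt.1 (Fᵀ * J * (P.1 * F)) (1 + a * ν) (1 + a * ν') U1 U2
  k1 : K1 J F (F + a • f) Pt.1 (Fᵀ * J * (P.1 * F)) (1 + a * ν) U1 U2
      ((ν - ν')⁻¹ • (f - ν' • F))
  mv : ∀ X : Fin 3 → Matrix (Fin m2) (Fin m1) K,
    ∑ s, (X s * (a1 s)ᵀ - (-(((1 + a * ν') / (1 + a * ν)) ^ 2)) • (a2 s * X s)) = 0 →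
    (∀ s, (U2ᵀ * (Fᵀ * J * (P.1 * F)) * U2) *
      (X s * (a1 s)ᵀ - (-(((1 + a * ν') / (1 + a * ν)) ^ 2)) • (a2 s * X s)) *
      (U1ᵀ * (Fᵀ * J * (P.1 * F)) * U1) = 0) →
    ∃ (d : Derivation ℂ K K) (Γ1 : Matrix (Fin m1) (Fin m1) K) (Γ2 : Matrix (Fin m2) (Fin m2) K)
      (β : Matrix (Fin m1) (Fin m2) K) (γ : Matrix (Fin m2) (Fin m1) K),
      Mv ℂ arm J N W (F + a • f) Pt.1 (Yf U1 U2 X) d ∧
      U2.map d + ZY arm J (F + a • f) Pt.1 (Yf U1 U2 X) * U2 =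
        U2 * Γ2 + (1 + a * ν') ^ 2 • (U1 * β) ∧
      U1.map d + ZY arm J (F + a • f) Pt.1 (Yf U1 U2 X) * U1 =
        U1 * Γ1 + (1 + a * ν) ^ 2 • (U2 * γ) ∧
      Dec F (Fᵀ * J * (P.1 * F)) U1 U2 a1 a2 (-(((1 + a * ν') / (1 + a * ν)) ^ 2)) (X, β, γ) ∧
      ZB F U1 U2 (X, β, γ) ∧
      ∀ κ, κ ≠ ν → κ ≠ ν' → ∀ u ∈ QQb S κ,
        SUB.nab arm J (F + a • f) Pt.1 (Yf U1 U2 X) d u ∈ QQb S κ

theorem Qb_ne_bot [IsAlgClosed K] (S : Setup arm J B N W F f P R D l) {κ : K}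
    (h : ((cov (ctx S).data S.hR P.1).D D).maxGenEigenspace κ = ⊥) : QQb S κ = ⊥ := by
  rw [Submodule.eq_bot_iff]
  intro u hu
  exact SNab.PB_zero ((cov (ctx S).data S.hR P.1).D_comm S.hD.2) h hu

theorem exists_At [IsAlgClosed K] (S : Setup arm J B N W F f P R D l) (h2 : (2 : K) ≠ 0)
    {ν ν' : K} (hne : ν ≠ ν')
    (hU1 : UFr.Cq (QQb S ν) U1) (hs1 : ∀ u ∈ QQb S ν, ∃ x, u = U1 *ᵥ x)
    (ha1 : ∀ s, B * E K arm s * (Fᵀ * J * (P.1 * F)) * U1 = U1 * a1 s)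
    (hU2 : UFr.Cq (QQb S ν') U2) (hs2 : ∀ u ∈ QQb S ν', ∃ x, u = U2 *ᵥ x)
    (ha2 : ∀ s, B * E K arm s * (Fᵀ * J * (P.1 * F)) * U2 = U2 * a2 s) :
    ∃ (dY : Derivation ℂ K K) (Bad : Set ℂ), Bad.Finite ∧ ∀ t ∉ Bad,
      1 + algebraMap ℂ K t * ν ≠ 0 → 1 + algebraMap ℂ K t * ν' ≠ 0 →
      ∃ Pt, At S ν ν' U1 U2 a1 a2 dY (algebraMap ℂ K t) Pt := by
  obtain ⟨Y0, dY, -, -, hform, fam⟩ := SInst.family S h2
  obtain ⟨B1, hB1, hA⟩ := SInf659.ainf_eq h2 S.hCtx S.hNm S.hWm S.hNil S.hF S.hf S.hV1 S.hP hform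
  obtain ⟨B2, hB2, hhom⟩ := SNabI.exists_hom0 h2 ((cov (ctx S).data S.hR P.1).D_comm S.hD.2)
    ((cov (ctx S).data S.hR P.1).D_top (Module.End.iSup_maxGenEigenspace_eq_top _))
  refine ⟨dY, B1 ∪ (algebraMap ℂ K) ⁻¹' B2 ∪ {0}, (hB1.union
    (hB2.preimage (algebraMap ℂ K).injective.injOn)).union (Set.finite_singleton 0), ?_⟩
  intro t ht hc1 hc2
  simp only [Set.mem_union, Set.mem_preimage, Set.mem_singleton_iff, not_or] at ht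
  obtain ⟨⟨ht1, ht2⟩, ht0⟩ := ht
  obtain ⟨Pt, Ri, hK, hC, hP, hV, hRi, hY, hPF, hz⟩ := fam t
  obtain ⟨fr, k1⟩ := SInst.fr_k1 S hY hPF hne hc1 hc2 hU1 hU2
  refine ⟨Pt, hc1, hc2, ?_, hC, hP, hY, hPF, hz, fr, k1, ?_⟩
  · intro κ hκ
    exact (hhom _ ht2).1 κ (fun h => hκ (Qb_ne_bot S h))
  · intro X hsum harm
    obtain ⟨d, m⟩ := SMv16.exists_mv hC h2 hRi hP hV fr ha1 ha2 rfl hsum
    have harm' : ∀ r, (U2ᵀ * (Fᵀ * J * (P.1 * F)) * U2) *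
        ((1 + algebraMap ℂ K t * ν) ^ 2 • (X r * (a1 r)ᵀ) +
          (1 + algebraMap ℂ K t * ν') ^ 2 • (a2 r * X r)) *
        (U1ᵀ * (Fᵀ * J * (P.1 * F)) * U1) = 0 := by
      intro r
      have h1 := congrArg (fun M => (1 + algebraMap ℂ K t * ν) ^ 2 • M) (harm r)
      simp only [smul_zero] at h1
      rw [← Matrix.smul_mul, ← Matrix.mul_smul, smul_sub, smul_smul] at h1
      have h3 : (1 + algebraMap ℂ K t * ν) ^ 2 *
          -(((1 + algebraMap ℂ K t * ν') / (1 + algebraMap ℂ K t * ν)) ^ 2) =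
          -((1 + algebraMap ℂ K t * ν') ^ 2) := by
        field_simp
      rw [h3, neg_smul, sub_neg_eq_add] at h1
      exact h1
    obtain ⟨i1, i2, i3⟩ := SNabI.B1 (ctx S) S.hR S.hD (S.hNil F S.hF) S.hP (hfNW S) (hff S)
      hC hP hY hPF (hA t ht1 Pt hP hY hPF).le (hhom _ ht2).1 (hhom _ ht2).2 Yf_symm m hne
      hU1 hU2 hs1 hs2 ha1 ha2 (fun r => rfl) harm'
    obtain ⟨Γ1, Γ2, β, γ, hN2, hN1, hDec⟩ := SB2H16.dec_of_B1 hC hP m fr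
      (SMv16.c_ne ht0 hne) hU1 hs1 ha1
      (fun u hu => Qb_exists (ctx S) S.hR S.hD hu) hU2 hs2 ha2
      (fun u hu => Qb_exists (ctx S) S.hR S.hD hu) (fun r => rfl) i1 i2 rfl hsum harm
    refine ⟨d, Γ1, Γ2, β, γ, m, hN2, hN1, hDec, ⟨?_, ?_⟩, i3⟩
    · exact SZb252.zb fr m.dH (congrArg (fun M => (F + (algebraMap ℂ K t) • f) * M) hN2)
    · exact SZb252.zk fr m.dH (congrArg (fun M => (F + (algebraMap ℂ K t) • f) * M) hN1)

end Crest.Agent.R172.SGeo343
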