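import Crest.Agent.R172.SD937
import Crest.Agent.R172.SUX6t515
import Crest.Agent.R172.SDec

/-!
Row 172 (S0260), S-side, level 2, leaf B3 with the values on the third blocks, in the letters of
`SDec.Dec`: parity separation of the first level.
-/

set_option autoImplicit false
set_option linter.unusedSectionVars false
set_option linter.unusedFintypeInType false
set_option linter.unusedDecidableInType false
set_option maxHeartbeats 4000000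

namespace Crest.Agent.R172.SSep513

open Matrix Module Crest.Agent.R172.FO Crest.Agent.R172.Qt Crest.Agent.R172.SpS
  Crest.Agent.R172.Om Crest.Agent.R172.SUX Crest.Agent.R172.SD937
open Crest.Agent.R172.SUXt (QQ5t)

variable {ι : Type*} [Fintype ι] [DecidableEq ι] {δ : Type*} [Fintype δ] [DecidableEq δ]
variable {k K : Type*} [Field k] [Field K] [Algebra k K]
variable {arm : δ → Fin 3} {J : Matrix ι ι K} {B : Matrix δ δ K}
  {N W : Submodule K (Matrix ι δ K)} {H F f q : Matrix ι δ K}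

section gen

variable {n1 n2 : Type*} [Fintype n1] [Fintype n2] [DecidableEq n1] [DecidableEq n2]
variable {P : Matrix ι ι K × (Fin 3 → Matrix ι ι K)} {S0 : Matrix δ δ K} {c1 c2 : K}
  {U1 : Matrix δ n1 K} {U2 : Matrix δ n2 K} {dY : Derivation k K K}

/-- **L2-d: parity separation with all values on the `K^δ`-level triples.** -/
theorem sep_valuesT {α : Type*} {Qm : α → Submodule K (δ → K)} {a1 : Fin 3 → Matrix n1 n1 K} {a2 : Fin 3 → Matrix n2 n2 K}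
    {S1 : Matrix ι δ K} (hS : S0 = Fᵀ * S1)
    (perf1 : ∀ y : n1 → K, ∃ f : Fin 3 → (n1 → K), y = ∑ s, a1 s *ᵥ f s)
    (perf2 : ∀ y : n2 → K, ∃ f : Fin 3 → (n2 → K), y = ∑ s, a2 s *ᵥ f s)
    (hk1 : ∀ s x, (F * U1) *ᵥ x = 0 → (F * U1) *ᵥ (a1 s *ᵥ x) = 0)
    (hk2 : ∀ s x, (F * U2) *ᵥ x = 0 → (F * U2) *ᵥ (a2 s *ᵥ x) = 0) {l1 l2 : ℕ}
    (nil1 : ∀ w : List (Fin 3), w.length = l1 → ∀ x, (U1ᵀ * S0 * U1) *ᵥ x = 0 →
      (F * U1) *ᵥ ((w.map a1).prod *ᵥ x) = 0)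
    (nil2 : ∀ w : List (Fin 3), w.length = l2 → ∀ x, (U2ᵀ * S0 * U2) *ᵥ x = 0 →
      (F * U2) *ᵥ ((w.map a2).prod *ᵥ x) = 0)
    {R : Set K} (hR : R.Infinite) (h0 : (0 : K) ∉ R)
    (hmv : ∀ ρ ∈ R, ∀ X : Fin 3 → Matrix n2 n1 K,
      ∑ s, (X s * (a1 s)ᵀ + ρ ^ 2 • (a2 s * X s)) = 0 →
      (∀ s, (U2ᵀ * S0 * U2) * (X s * (a1 s)ᵀ + ρ ^ 2 • (a2 s * X s)) * (U1ᵀ * S0 * U1) = 0) →
      ∃ β γ, Pen F S0 U1 U2 a1 a2 (ρ ^ 2) (X, β, γ) ∧
        I1 arm F S0 U1 U2 (X, β, γ) + ρ • I2 arm F S0 U1 U2 (X, β, γ) ∈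
          QQ5t J N W F f dY S0 U1 U2 Qm) :
    ∃ S : Set K, S.Finite ∧ ∀ c ∉ S, ∀ y, Pen F S0 U1 U2 a1 a2 c y →
      I1 arm F S0 U1 U2 y ∈ QQ5t J N W F f dY S0 U1 U2 Qm ∧
        I2 arm F S0 U1 U2 y ∈ QQ5t J N W F f dY S0 U1 U2 Qm := by
  have hrel : ∀ ρ ∈ R, ∀ y, alD F S0 U1 U2 a1 y = ρ ^ 2 • beD F S0 U1 U2 a2 y →
      I1 arm F S0 U1 U2 (LinearMap.id (R := K) y) + ρ • I2 arm F S0 U1 U2 (LinearMap.id (R := K) y) ∈
        QQ5t J N W F f dY S0 U1 U2 Qm := by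
    intro ρ hρ y hy
    have hρ0 : ρ ≠ 0 := fun hh => h0 (hh ▸ hρ)
    have hc : ρ ^ 2 ≠ 0 := pow_ne_zero 2 hρ0
    obtain ⟨X, β, γ⟩ := y
    have hp := pen_iff.1 hy
    obtain ⟨β', γ', hp', hm⟩ := hmv ρ hρ X hp.sum hp.arm
    have hb : F * U1 * (β - β') = 0 := by
      refine uniq (F * U1) a1 a2 (U1ᵀ * S0 * U1) hc perf2 hk1 nil1 ?_ fun r => ?_
      · have e1 : (U1ᵀ * S0 * U1) * β = 0 := hp.rb
        have e2 : (U1ᵀ * S0 * U1) * β' = 0 := hp'.rb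
        rw [Matrix.mul_sub, e1, e2, sub_zero]
      · have e1 := hp.cor r
        have e2 := hp'.cor r
        have e3 : a1 r * (β - β') - ρ ^ 2 • ((β - β') * a2 r)
            = (a1 r * β - ρ ^ 2 • (β * a2 r) - (a1 r * (X r)ᵀ * (U2ᵀ * S0 * U2)
              - ρ ^ 2 • ((X r)ᵀ * (U2ᵀ * S0 * U2) * a2 r)))
              - (a1 r * β' - ρ ^ 2 • (β' * a2 r) - (a1 r * (X r)ᵀ * (U2ᵀ * S0 * U2)
              - ρ ^ 2 • ((X r)ᵀ * (U2ᵀ * S0 * U2) * a2 r))) := by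
          rw [Matrix.mul_sub, Matrix.sub_mul, smul_sub]
          abel
        rw [e3, Matrix.mul_sub]
        exact sub_eq_zero.2 (e1.trans e2.symm)
    have hg : F * U2 * (γ - γ') = 0 := by
      refine uniq (F * U2) a2 a1 (U2ᵀ * S0 * U2) (inv_ne_zero hc) perf1 hk2 nil2 ?_ fun r => ?_
      · have e1 : (U2ᵀ * S0 * U2) * γ = 0 := hp.rk
        have e2 : (U2ᵀ * S0 * U2) * γ' = 0 := hp'.rk
        rw [Matrix.mul_sub, e1, e2, sub_zero]
      · have e1 := hp.cork r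
        have e2 := hp'.cork r
        have e3 : ρ ^ 2 • (a2 r * (γ - γ') - (ρ ^ 2)⁻¹ • ((γ - γ') * a1 r))
            = (ρ ^ 2 • (a2 r * γ) - γ * a1 r - (ρ ^ 2 • (a2 r * X r * (U1ᵀ * S0 * U1))
              - X r * (U1ᵀ * S0 * U1) * a1 r))
              - (ρ ^ 2 • (a2 r * γ') - γ' * a1 r - (ρ ^ 2 • (a2 r * X r * (U1ᵀ * S0 * U1))
              - X r * (U1ᵀ * S0 * U1) * a1 r)) := by
          rw [smul_sub, smul_smul, mul_inv_cancel₀ hc, one_smul, Matrix.mul_sub, Matrix.sub_mul,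
            smul_sub]
          abel
        have e4 : ρ ^ 2 • (F * U2 * (a2 r * (γ - γ') - (ρ ^ 2)⁻¹ • ((γ - γ') * a1 r))) = 0 := by
          rw [← Matrix.mul_smul, e3, Matrix.mul_sub]
          exact sub_eq_zero.2 (e1.trans e2.symm)
        exact (smul_eq_zero.1 e4).resolve_left hc
    obtain ⟨g1, g2⟩ := I_congr (arm := arm) (X := X) hS hb hg
    change I1 arm F S0 U1 U2 (X, β, γ) + ρ • I2 arm F S0 U1 U2 (X, β, γ) ∈ _
    rw [g1, g2]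
    exact hm
  obtain ⟨S, hSf, h⟩ := SUXt.first_sep (arm := arm) (Qm := Qm) (J := J) (N := N) (W := W) (F := F) (f := f)
    (dY := dY) (S0 := S0) (U1 := U1) (U2 := U2) (alD F S0 U1 U2 a1) (beD F S0 U1 U2 a2)
    LinearMap.id hR hrel
  exact ⟨S, hSf, fun c hc y hy => h c hc y (pen_iff.2 hy)⟩


end gen

section dec

variable {m1 m2 : ℕ} {S0 : Matrix δ δ K} {U1 : Matrix δ (Fin m1) K} {U2 : Matrix δ (Fin m2) K}
  {a1 : Fin 3 → Matrix (Fin m1) (Fin m1) K} {a2 : Fin 3 → Matrix (Fin m2) (Fin m2) K}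

theorem pen_of_dec {c : K} {y : D3 K (Fin m1) (Fin m2)}
    (h : SDec.Dec F S0 U1 U2 a1 a2 (-c) y) : Pen F S0 U1 U2 a1 a2 c y := by
  have e1 : ∀ A C : Matrix (Fin m2) (Fin m1) K, A - (-c) • C = A + c • C := by
    intro A C
    rw [neg_smul, sub_neg_eq_add]
  refine ⟨?_, fun s => ?_, fun r => ?_, fun r => ?_, h.rb, h.rk⟩
  · rw [← h.sum]
    exact Finset.sum_congr rfl fun s _ => (e1 _ _).symm
  · rw [← h.arm s, e1]
  · have h1 := h.cb r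
    rw [neg_smul, ← sub_eq_add_neg] at h1
    rw [← h1]
    simp only [Matrix.mul_assoc, Matrix.mul_sub, Matrix.sub_mul, Matrix.mul_smul, smul_sub]
    abel
  · have h1 := h.ck r
    rw [← neg_eq_zero, ← Matrix.mul_neg, ← Matrix.mul_neg] at h1
    rw [← h1]
    simp only [Matrix.mul_assoc, Matrix.mul_sub, Matrix.sub_mul, Matrix.mul_smul, smul_sub,
      Matrix.mul_add, neg_smul, Matrix.mul_neg]
    abel

/-- corrections are unique: `F U1 β` and `F U2 γ` only depend on `X`. -/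
theorem uniq_pen {c : K} (hc : c ≠ 0)
    (perf1 : ∀ y : Fin m1 → K, ∃ f : Fin 3 → (Fin m1 → K), y = ∑ s, a1 s *ᵥ f s)
    (perf2 : ∀ y : Fin m2 → K, ∃ f : Fin 3 → (Fin m2 → K), y = ∑ s, a2 s *ᵥ f s)
    (hk1 : ∀ s x, (F * U1) *ᵥ x = 0 → (F * U1) *ᵥ (a1 s *ᵥ x) = 0)
    (hk2 : ∀ s x, (F * U2) *ᵥ x = 0 → (F * U2) *ᵥ (a2 s *ᵥ x) = 0) {l1 l2 : ℕ}
    (nil1 : ∀ w : List (Fin 3), w.length = l1 → ∀ x, (U1ᵀ * S0 * U1) *ᵥ x = 0 →
      (F * U1) *ᵥ ((w.map a1).prod *ᵥ x) = 0)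
    (nil2 : ∀ w : List (Fin 3), w.length = l2 → ∀ x, (U2ᵀ * S0 * U2) *ᵥ x = 0 →
      (F * U2) *ᵥ ((w.map a2).prod *ᵥ x) = 0)
    {X : Fin 3 → Matrix (Fin m2) (Fin m1) K} {β β' : Matrix (Fin m1) (Fin m2) K}
    {γ γ' : Matrix (Fin m2) (Fin m1) K}
    (hp : Pen F S0 U1 U2 a1 a2 c (X, β, γ)) (hp' : Pen F S0 U1 U2 a1 a2 c (X, β', γ')) :
    F * U1 * (β - β') = 0 ∧ F * U2 * (γ - γ') = 0 := by
  constructor
  · refine uniq (F * U1) a1 a2 (U1ᵀ * S0 * U1) hc perf2 hk1 nil1 ?_ fun r => ?_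
    · have e1 : (U1ᵀ * S0 * U1) * β = 0 := hp.rb
      have e2 : (U1ᵀ * S0 * U1) * β' = 0 := hp'.rb
      rw [Matrix.mul_sub, e1, e2, sub_zero]
    · have e1 := hp.cor r
      have e2 := hp'.cor r
      have e3 : a1 r * (β - β') - c • ((β - β') * a2 r)
          = (a1 r * β - c • (β * a2 r) - (a1 r * (X r)ᵀ * (U2ᵀ * S0 * U2)
            - c • ((X r)ᵀ * (U2ᵀ * S0 * U2) * a2 r)))
            - (a1 r * β' - c • (β' * a2 r) - (a1 r * (X r)ᵀ * (U2ᵀ * S0 * U2)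
            - c • ((X r)ᵀ * (U2ᵀ * S0 * U2) * a2 r))) := by
        rw [Matrix.mul_sub, Matrix.sub_mul, smul_sub]
        abel
      rw [e3, Matrix.mul_sub]
      exact sub_eq_zero.2 (e1.trans e2.symm)
  · refine uniq (F * U2) a2 a1 (U2ᵀ * S0 * U2) (inv_ne_zero hc) perf1 hk2 nil2 ?_ fun r => ?_
    · have e1 : (U2ᵀ * S0 * U2) * γ = 0 := hp.rk
      have e2 : (U2ᵀ * S0 * U2) * γ' = 0 := hp'.rk
      rw [Matrix.mul_sub, e1, e2, sub_zero]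
    · have e1 := hp.cork r
      have e2 := hp'.cork r
      have e3 : c • (a2 r * (γ - γ') - c⁻¹ • ((γ - γ') * a1 r))
          = (c • (a2 r * γ) - γ * a1 r - (c • (a2 r * X r * (U1ᵀ * S0 * U1))
            - X r * (U1ᵀ * S0 * U1) * a1 r))
            - (c • (a2 r * γ') - γ' * a1 r - (c • (a2 r * X r * (U1ᵀ * S0 * U1))
            - X r * (U1ᵀ * S0 * U1) * a1 r)) := by
        rw [smul_sub, smul_smul, mul_inv_cancel₀ hc, one_smul, Matrix.mul_sub, Matrix.sub_mul,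
          smul_sub]
        abel
      have e4 : c • (F * U2 * (a2 r * (γ - γ') - c⁻¹ • ((γ - γ') * a1 r))) = 0 := by
        rw [← Matrix.mul_smul, e3, Matrix.mul_sub]
        exact sub_eq_zero.2 (e1.trans e2.symm)
      exact (smul_eq_zero.1 e4).resolve_left hc

end dec

end Crest.Agent.R172.SSep513
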