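import Crest.Agent.R172.SGeo455a
import Crest.Agent.R172.SGeo343
import Crest.Agent.R172.SSep513
import Crest.Agent.R172.SB4x117
import Crest.Agent.R172.SUniq803
import Crest.Agent.R172.SWd275
import Crest.Agent.R172.SNab753
import Crest.Agent.R172.SUX7

/-!
Row 172 (S0260), tame node (t2), LEVEL 2, geometric half (copy of helper455): `SDec.Geo22`.
-/

set_option autoImplicit false
set_option linter.unusedSectionVars false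
set_option linter.unusedVariables false
set_option maxHeartbeats 2000000

namespace Crest.Agent.R172.SGeo455

open Matrix Module Crest.Agent.R172.FO Crest.Agent.R172.Qt
open Crest.Agent.R172.SpS Crest.Agent.R172.SEnd Crest.Agent.R172.SEnd2
open Crest.Agent.R172.Om (Kiso Scal)
open Crest.Agent.R172.PL (Wk Ainf Rad CoreM coreOp resOp)
open Crest.Agent.R172.SCM Crest.Agent.R172.SCB
open Crest.Agent.R172.SC (PB iSup_PB)
open Crest.Agent.R172.SUX (th wd ZY Mv Fr K1 D3 I1 I2)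
open Crest.Agent.R172.UBlk (Qb Qb_rel Qb_exists Qb_stable Qb_map Qb_orth Qb_H)
open Crest.Agent.R172.STop (Setup)
open Crest.Agent.R172.SLev0 (PbK bq)
open Crest.Agent.R172.SInst (QQb ctx)
open Crest.Agent.R172.SGeo343 (At)
open Crest.Agent.R172.SDec (Dec ZB Rel2)
open Crest.Agent.R172.SUXt (QQ5t)
open Crest.Agent.R172.SLev1h455 (QGd)
open Crest.Agent.R172.SMv16 (Yf Lam)

variable {ι : Type} [Fintype ι] [DecidableEq ι] {δ : Type} [Fintype δ] [DecidableEq δ]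
variable {K : Type} [Field K] [Algebra ℂ K] [IsAlgClosed K]
variable {arm : δ → Fin 3} {J : Matrix ι ι K} {B : Matrix δ δ K} {N W : Submodule K (Matrix ι δ K)}
  {F f : Matrix ι δ K} {P : Matrix ι ι K × (Fin 3 → Matrix ι ι K)} {R : Matrix δ ι K}
  {D : End K (CoreM (PhS arm J B F R P.1))} {l : Fin 3 → ℕ}
variable {S : Setup arm J B N W F f P R D l} {ν ν' : K} {m1 m2 : ℕ} {U1 : Matrix δ (Fin m1) K}
  {U2 : Matrix δ (Fin m2) K} {a1 : Fin 3 → Matrix (Fin m1) (Fin m1) K}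
  {a2 : Fin 3 → Matrix (Fin m2) (Fin m2) K} {dY : Derivation ℂ K K} {a : K}
  {Pt : Matrix ι ι K × (Fin 3 → Matrix ι ι K)}

/-- the rows at a good parameter -/
theorem row (A : At S ν ν' U1 U2 a1 a2 dY a Pt) (w : Matrix ι δ K)
    (hw : (F + a • f)ᵀ * J * w = 0) :
    (F + a • f)ᵀ * J * (Pt.1 * w) = (F + a • f)ᵀ * J * w.map dY := by
  have h := A.hz w hw
  rw [transpose_mul, Matrix.mul_assoc (F + a • f)ᵀ, A.hP.1.eq, Matrix.mul_neg, Matrix.neg_mul,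
    neg_inj] at h
  rw [← h]
  simp only [Matrix.mul_assoc]

theorem km (S : Setup arm J B N W F f P R D l) (ν ν' : K) :
    (ν - ν')⁻¹ • (f - ν' • F) ∈ N ⊓ W :=
  (N ⊓ W).smul_mem _ ((N ⊓ W).sub_mem S.hf.1 ((N ⊓ W).smul_mem _ (S.hCtx F S.hF).mem))

/-- the value of `wd k1` on a third block -/
theorem third (A : At S ν ν' U1 U2 a1 a2 dY a Pt) {Yr : Fin 3 → Matrix δ δ K}
    {d : Derivation ℂ K K} (m : Mv ℂ arm J N W (F + a • f) Pt.1 Yr d)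
    (hN3 : ∀ κ, κ ≠ ν → κ ≠ ν' → ∀ u ∈ QQb S κ,
      SUB.nab arm J (F + a • f) Pt.1 Yr d u ∈ QQb S κ) (κ : K) (h1 : κ ≠ ν) (h2 : κ ≠ ν') :
    ∃ μ : K, ∀ u ∈ QQb S κ,
      wd arm J (F + a • f) Pt.1 Yr d ((ν - ν')⁻¹ • (f - ν' • F)) *ᵥ u = μ • (F *ᵥ u) := by
  by_cases hb : QQb S κ = ⊥
  · refine ⟨0, fun u hu => ?_⟩
    rw [hb, Submodule.mem_bot] at hu
    rw [hu, mulVec_zero, mulVec_zero, smul_zero]
  have hc := A.hc κ hb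
  have hH : ∀ u ∈ QQb S κ, (F + a • f) *ᵥ u = (1 + a * κ) • (F *ᵥ u) := fun u hu =>
    Qb_H (ctx S) S.hR S.hD (S.hNil F S.hF) S.hP S.hf.1 hu
  have hk : ∀ u ∈ QQb S κ, ((ν - ν')⁻¹ • (f - ν' • F)) *ᵥ u =
      ((ν - ν')⁻¹ * (κ - ν')) • (F *ᵥ u) := fun u hu => by
    rw [smul_mulVec, sub_mulVec, smul_mulVec, SInst.rel S hu, ← sub_smul, smul_smul]
  refine ⟨d ((ν - ν')⁻¹ * (κ - ν')) - ((ν - ν')⁻¹ * (κ - ν')) * (1 + a * κ)⁻¹ * d (1 + a * κ),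
    fun u hu => ?_⟩
  have hn := hN3 κ h1 h2 u hu
  rw [SNab753.wd_val m hc (hH u hu) (hk u hu), sub_mulVec, smul_mulVec, hH _ hn, hk _ hn,
    smul_smul, inv_mul_cancel_right₀ hc, sub_self, add_zero]

theorem mem5 (A : At S ν ν' U1 U2 a1 a2 dY a Pt) {X : Fin 3 → Matrix (Fin m2) (Fin m1) K}
    {d : Derivation ℂ K K} {Γ1 : Matrix (Fin m1) (Fin m1) K} {Γ2 : Matrix (Fin m2) (Fin m2) K}
    {β : Matrix (Fin m1) (Fin m2) K} {γ : Matrix (Fin m2) (Fin m1) K}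
    (m : Mv ℂ arm J N W (F + a • f) Pt.1 (Yf U1 U2 X) d)
    (hN2 : U2.map d + ZY arm J (F + a • f) Pt.1 (Yf U1 U2 X) * U2 =
        U2 * Γ2 + (1 + a * ν') ^ 2 • (U1 * β))
    (hN1 : U1.map d + ZY arm J (F + a • f) Pt.1 (Yf U1 U2 X) * U1 =
        U1 * Γ1 + (1 + a * ν) ^ 2 • (U2 * γ))
    (hN3 : ∀ κ, κ ≠ ν → κ ≠ ν' → ∀ u ∈ QQb S κ,
      SUB.nab arm J (F + a • f) Pt.1 (Yf U1 U2 X) d u ∈ QQb S κ) :
    I1 arm F (Fᵀ * J * (P.1 * F)) U1 U2 (X, β, γ) +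
      ((1 + a * ν') / (1 + a * ν)) • I2 arm F (Fᵀ * J * (P.1 * F)) U1 U2 (X, β, γ) ∈
      QQ5t J N W F f dY (Fᵀ * J * (P.1 * F)) U1 U2
        (fun κ : {κ : K // κ ≠ ν ∧ κ ≠ ν'} => QQb S κ.1) :=
  SUXt.first_mem' A.hC A.hP S.hNm S.hWm S.hF S.hf m (km S ν ν') (A.hC.perp _ (km S ν ν')) A.fr A.k1
    (fun s v _ => rfl) (fun v _ => by rw [hN2]) (fun v _ => by rw [hN1]) (row A)
    (fun κ => third A m hN3 κ.1 κ.2.1 κ.2.2)

/-- **the relation of level 2 at one parameter** -/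
theorem rel2 {n1 n2 : ℕ} {Q1 : Matrix ι (Fin n1) K}
    {A1 : Fin 3 → Matrix (Fin n1) (Fin n1) K} {Q2 : Matrix ι (Fin n2) K}
    {A2 : Fin 3 → Matrix (Fin n2) (Fin n2) K} (hne : ν ≠ ν')
    (b1 : BPkg arm J B F R P.1 D ν l Q1 A1) (b2 : BPkg arm J B F R P.1 D ν' l Q2 A2)
    (f1 : Frm S ν U1 a1) (f2 : Frm S ν' U2 a2)
    (A : At S ν ν' U1 U2 a1 a2 dY a Pt) {c0 : K} {y y' : D3 K (Fin m1) (Fin m2)}
    (hy : Dec F (Fᵀ * J * (P.1 * F)) U1 U2 a1 a2 c0 y)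
    (hI : I1 arm F (Fᵀ * J * (P.1 * F)) U1 U2 y ∈ QQ5t J N W F f dY (Fᵀ * J * (P.1 * F)) U1 U2
        (fun κ : {κ : K // κ ≠ ν ∧ κ ≠ ν'} => QQb S κ.1))
    (hy' : Dec F (Fᵀ * J * (P.1 * F)) U1 U2 a1 a2 (-(((1 + a * ν') / (1 + a * ν)) ^ 2)) y') :
    Rel2 arm F (Fᵀ * J * (P.1 * F)) U1 U2 ((1 + a * ν') / (1 + a * ν)) y y' ∈ QGd S := by
  classical
  obtain ⟨d, Γ1, Γ2, β, γ, m, hN2, hN1, hD, -, hN3⟩ := A.mv y'.1 hy'.sum hy'.arm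
  have hc0 : -(((1 + a * ν') / (1 + a * ν)) ^ 2) ≠ 0 :=
    neg_ne_zero.2 (pow_ne_zero _ (div_ne_zero A.c2 A.c1))
  obtain ⟨⟨ub, -⟩, -, ug⟩ := SUniq803.dec_uniq S f1.col f1.span f1.inj f1.act f2.col f2.span f2.inj
    f2.act hc0 hD hy' rfl
  obtain ⟨X, β0, γ0⟩ := y
  obtain ⟨w, hw, w1, w2, hn, μ1, μ2, ν1, ν2, L1, L2, R1, R2, h3⟩ := SUXt.even_data hI
  choose μ3 hμ3 using h3
  have hwp : (F + a • f)ᵀ * J * w = 0 := by
    rw [transpose_add, transpose_smul, Matrix.add_mul, Matrix.add_mul, Matrix.smul_mul,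
      Matrix.smul_mul, w1, w2, smul_zero, add_zero]
  obtain ⟨C1, u1⟩ := SB4x.exists_FU S b1 f1.col f1.span f1.mem f1.act
  obtain ⟨C2, u2⟩ := SB4x.exists_FU S b2 f2.col f2.span f2.mem f2.act
  have hX := fun s => SB4x.filt_of_arm S u1 b1 u2 b2 s (hy.arm s)
  have hX' := fun s => SB4x.filt_of_arm S u1 b1 u2 b2 s (hy'.arm s)
  obtain ⟨g1, g2⟩ := SLevA455.gens0 S hne b1 b2
  have hN2' : ∀ v ∈ W, v * (U2.map d + ZY arm J (F + a • f) Pt.1 (Yf U1 U2 y'.1) * U2) =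
      v * (U2 * Γ2 + (1 + a * ν') ^ 2 • (U1 * β)) := fun v _ => by rw [hN2]
  have hN1' : ∀ v ∈ W, v * (U1.map d + ZY arm J (F + a • f) Pt.1 (Yf U1 U2 y'.1) * U1) =
      v * (U1 * Γ1 + (1 + a * ν) ^ 2 • (U2 * γ)) := fun v _ => by rw [hN1]
  have hwQ : wd arm J (F + a • f) Pt.1 (Yf U1 U2 y'.1) d w ∈ QGd S := by
    refine SWd275.wd_QG (ctx S) S.hR S.hD (S.hNil F S.hF) S.hP S.hf.1 A.hC A.hP m A.fr f1.span
      f1.mem f2.span f2.mem hN2' hN1' hD.rb hD.rk hy.rk A.hc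
      (fun κ h1 h2 u hu => ⟨_, hN3 κ h1 h2 u hu, fun v _ => rfl⟩) hw hwp
      (μ := fun κ => if h : κ = ν then μ1 else if h' : κ = ν' then μ2 else μ3 ⟨κ, h, h'⟩)
      ?_ ?_ ?_ (fun i => le_rfl) (by rw [sub_self]; exact N.zero_mem)
    · simp only [dite_true]
      exact L1
    · simp only [dite_true, dif_neg hne.symm]
      exact L2
    · intro κ h1 h2 u hu
      simp only [dif_neg h1, dif_neg h2]
      exact hμ3 ⟨κ, h1, h2⟩ u hu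
  have key := SUX.second_mem A.hC A.hP m A.fr (X' := y'.1) (fun s v _ => rfl) hN2' hN1'
    (ctx S).mem (A.hC.perp _ (ctx S).mem) le_rfl
    (fun w h1 h2 => by
      rw [transpose_add, transpose_smul, Matrix.add_mul, Matrix.add_mul, Matrix.smul_mul,
        Matrix.smul_mul, h1, h2, smul_zero, add_zero])
    (fun w _ h => row A w h)
    (⟨hw, w1, w2, hn, L1, L2, R1, R2⟩ : SUX.WCls arm J N W F f dY _ U1 U2 X β0 γ0 w μ1 μ2 ν1 ν2)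
    (Q := QGd S) SLev0.N_le_QG hwQ
    (Submodule.sum_mem _ fun s _ => SB4x.part21 u1 b1 u2 b2 g1 A.hC A.hP m A.fr
      (fun s v _ => rfl) hN2' hN1' (ctx S).memW f1.act f2.act s (hX s) (hX' s) _ _ _)
    (Submodule.sum_mem _ fun s _ => SB4x.part12 u1 b1 u2 b2 g2 s (hX' s))
  have eb : F * U1 * β = F * U1 * y'.2.1 := ub
  have eg : γᵀ * (U2ᵀ * (Fᵀ * J * (P.1 * F))) = y'.2.2ᵀ * (U2ᵀ * (Fᵀ * J * (P.1 * F))) := by
    have h4 := congrArg transpose (ug P.1)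
    have hsk := S0_skew S
    have h5 : ∀ g : Matrix (Fin m2) (Fin m1) K, (Fᵀ * J * (P.1 * F) * U2 * g)ᵀ =
        -(gᵀ * (U2ᵀ * (Fᵀ * J * (P.1 * F)))) := by
      intro g
      rw [transpose_mul, transpose_mul, hsk, Matrix.mul_neg, Matrix.mul_neg]
    have h6 : (Fᵀ * J * (P.1 * F) * U2 * γ)ᵀ = (Fᵀ * J * (P.1 * F) * U2 * y'.2.2)ᵀ := h4
    rw [h5, h5, neg_inj] at h6
    exact h6
  have k1 : ∀ s, F * (U1 * (y'.2.1 * X s - (y'.1 s)ᵀ * (U2ᵀ * (Fᵀ * J * (P.1 * F)) * U2) * X s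
      - (y'.1 s)ᵀ * β0ᵀ) * U1ᵀ) =
      F * SUX.A11 (Fᵀ * J * (P.1 * F)) U1 U2 X β0 y'.1 β s := by
    intro s
    unfold SUX.A11
    have e : ∀ b : Matrix (Fin m1) (Fin m2) K, F * (U1 * (b * X s -
        (y'.1 s)ᵀ * (U2ᵀ * (Fᵀ * J * (P.1 * F)) * U2) * X s - (y'.1 s)ᵀ * β0ᵀ) * U1ᵀ) =
        (F * U1 * b) * X s * U1ᵀ - F * (U1 * ((y'.1 s)ᵀ * (U2ᵀ * (Fᵀ * J * (P.1 * F)) * U2) * X s
          + (y'.1 s)ᵀ * β0ᵀ) * U1ᵀ) := by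
      intro b
      simp only [Matrix.mul_sub, Matrix.sub_mul, Matrix.mul_add, Matrix.add_mul, Matrix.mul_assoc]
      abel
    rw [e, e, eb]
  have k2 : ∀ s, F * (U2 * (X s * y'.2.2ᵀ + X s * (U1ᵀ * (Fᵀ * J * (P.1 * F)) * U1) * (y'.1 s)ᵀ
      - γ0 * (y'.1 s)ᵀ) * U2ᵀ) * (Fᵀ * J * (P.1 * F)) =
      F * SUX.A22 (Fᵀ * J * (P.1 * F)) U1 U2 X γ0 y'.1 γ s * (Fᵀ * J * (P.1 * F)) := by
    intro s
    unfold SUX.A22
    have e : ∀ g : Matrix (Fin m2) (Fin m1) K, F * (U2 * (X s * gᵀ +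
        X s * (U1ᵀ * (Fᵀ * J * (P.1 * F)) * U1) * (y'.1 s)ᵀ
        - γ0 * (y'.1 s)ᵀ) * U2ᵀ) * (Fᵀ * J * (P.1 * F)) =
        F * U2 * X s * (gᵀ * (U2ᵀ * (Fᵀ * J * (P.1 * F)))) +
        F * (U2 * (X s * (U1ᵀ * (Fᵀ * J * (P.1 * F)) * U1) * (y'.1 s)ᵀ
        - γ0 * (y'.1 s)ᵀ) * U2ᵀ) * (Fᵀ * J * (P.1 * F)) := by
      intro g
      simp only [Matrix.mul_sub, Matrix.sub_mul, Matrix.mul_add, Matrix.add_mul, Matrix.mul_assoc]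
      abel
    rw [e, e, eg]
  unfold Rel2
  simp only [k1, k2]
  exact key

theorem geo22 : SDec.Geo22 := by
  intro ι _ _ δ _ _ K _ _ _ arm J B N W F f P R D l S ν ν' hne n1 n2 Q1 A1 Q2 A2 b1 b2 m1 m2 U1 U2
    a1 a2 hU1 hs1 hi1 ha1 hU2 hs2 hi2 ha2
  have h2 := SLevA455.two_ne K
  have f1 : Frm S ν U1 a1 := ⟨hU1, hs1, hi1, ha1⟩
  have f2 : Frm S ν' U2 a2 := ⟨hU2, hs2, hi2, ha2⟩
  obtain ⟨dY, Bad, hBad, hAt⟩ := SGeo343.exists_At S h2 hne hU1 hs1 ha1 hU2 hs2 ha2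
  have hR : (Lam ℂ Bad ν ν').Infinite := SMv16.Lam_infinite hBad hne
  obtain ⟨L1, nil1⟩ := f1.nil b1
  obtain ⟨L2, nil2⟩ := f2.nil b2
  obtain ⟨Sf, hSf, hsep⟩ := SSep513.sep_valuesT (arm := arm) (J := J) (N := N) (W := W) (F := F)
    (f := f) (dY := dY) (S0 := Fᵀ * J * (P.1 * F)) (U1 := U1) (U2 := U2)
    (Qm := fun κ : {κ : K // κ ≠ ν ∧ κ ≠ ν'} => QQb S κ.1) (a1 := a1) (a2 := a2)
    (S1 := J * (P.1 * F)) (by simp only [Matrix.mul_assoc]) f1.perf f2.perf f1.ker f2.ker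
    nil1 nil2 hR (SMv16.Lam_zero Bad ν ν') (by
      rintro ρ ⟨t, ht, h1, h2', rfl⟩ X hsum harm
      obtain ⟨Pt, A⟩ := hAt t ht h1 h2'
      obtain ⟨d, Γ1, Γ2, β, γ, m, hN2, hN1, hD, -, hN3⟩ := A.mv X
        (by simpa only [neg_smul, sub_neg_eq_add] using hsum)
        (by simpa only [neg_smul, sub_neg_eq_add] using harm)
      exact ⟨β, γ, SSep513.pen_of_dec hD, mem5 A m hN2 hN1 hN3⟩)
  have hB2 : {s : K | s ^ 2 ∈ Sf}.Finite := by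
    refine Set.Finite.preimage' hSf fun b _ => ?_
    refine Set.Finite.subset (Polynomial.finite_setOf_isRoot (p := Polynomial.X ^ 2 -
      Polynomial.C b) (Polynomial.X_pow_sub_C_ne_zero (by norm_num) b)) ?_
    intro s hs
    simp only [Set.mem_preimage, Set.mem_singleton_iff] at hs
    simp [Polynomial.IsRoot, hs]
  refine ⟨Lam ℂ Bad ν ν' \ {s | s ^ 2 ∈ Sf}, hR.diff hB2,
    fun h => SMv16.Lam_zero Bad ν ν' h.1, ?_, ?_⟩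
  · rintro r ⟨⟨t, ht, h1, h2', rfl⟩, -⟩ X hsum harm
    obtain ⟨Pt, A⟩ := hAt t ht h1 h2'
    obtain ⟨d, Γ1, Γ2, β, γ, -, -, -, hD, hZ, -⟩ := A.mv X hsum harm
    exact ⟨β, γ, hD, hZ⟩
  · rintro r ⟨-, hr⟩ r' ⟨⟨t, ht, h1, h2', rfl⟩, -⟩ y y' hy hy'
    obtain ⟨Pt, A⟩ := hAt t ht h1 h2'
    exact rel2 hne b1 b2 f1 f2 A hy (hsep (r ^ 2) hr y (SSep513.pen_of_dec hy)).1 hy'

end Crest.Agent.R172.SGeo455
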