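import Crest.Agent.R172.SL2g560

/-!
Row 172 (S0260), (t2), second level: the hypotheses `h21`, `h12` of `SUX7.second_mem` from
`X_s`, `X'_s` filtered modulo radicals.
-/

set_option autoImplicit false
set_option linter.unusedSectionVars false
set_option linter.unusedFintypeInType false
set_option linter.unusedDecidableInType false
set_option linter.unusedVariables false
set_option maxHeartbeats 800000

namespace Crest.Agent.R172.SL2h560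

open Matrix Module Crest.Agent.R172.FO Crest.Agent.R172.Qt Crest.Agent.R172.SpS
  Crest.Agent.R172.Om Crest.Agent.R172.SUX Crest.Agent.R172.SL2g560

variable {ι : Type*} [Fintype ι] [DecidableEq ι] {δ : Type*} [Fintype δ] [DecidableEq δ]
variable {k K : Type*} [Field k] [Field K] [Algebra k K]
variable {arm : δ → Fin 3} {J : Matrix ι ι K} {B : Matrix δ δ K}
  {N W : Submodule K (Matrix ι δ K)} {H F : Matrix ι δ K}
variable {n1 n2 : Type*} [Fintype n1] [Fintype n2] [DecidableEq n1] [DecidableEq n2]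
variable {P : Matrix ι ι K × (Fin 3 → Matrix ι ι K)} {S0 : Matrix δ δ K} {c1 c2 : K}
  {U1 : Matrix δ n1 K} {U2 : Matrix δ n2 K} {Y : Fin 3 → Matrix δ δ K} {d : Derivation k K K}
  {Γ1 : Matrix n1 n1 K} {Γ2 : Matrix n2 n2 K} {β : Matrix n1 n2 K} {γ : Matrix n2 n1 K}

/-- the shifted derivative lies in `FR` -/
theorem shift_mem (h : Ctx k arm J B N W H) (hP : P ∈ NN arm J N H)
    (m : Mv k arm J N W H P.1 Y d) (fr : Fr J F H P.1 S0 c1 c2 U1 U2)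
    {X' : Fin 3 → Matrix n2 n1 K}
    (hY : ∀ s, ∀ v ∈ W, v * Y s * Hᵀ = v * (U2 * X' s * U1ᵀ + U1 * (X' s)ᵀ * U2ᵀ) * Hᵀ)
    (hN2 : ∀ v ∈ W, v * (U2.map d + ZY arm J H P.1 Y * U2) =
      v * (U2 * Γ2 + c2 ^ 2 • (U1 * β)))
    (hN1 : ∀ v ∈ W, v * (U1.map d + ZY arm J H P.1 Y * U1) =
      v * (U1 * Γ1 + c1 ^ 2 • (U2 * γ)))
    (hF : F ∈ W) {M0 : Matrix δ ι K} (hS0 : S0 = M0 * F)
    {A1 : Fin 3 → Matrix n1 n1 K} {A2 : Fin 3 → Matrix n2 n2 K}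
    (hA1 : ∀ s, B * E K arm s * S0 * U1 = U1 * A1 s)
    (hA2 : ∀ s, B * E K arm s * S0 * U2 = U2 * A2 s) {l : Fin 3 → ℕ}
    {X : Fin 3 → Matrix n2 n1 K}
    (hX : ∀ s, X s ∈ FR (A2 s) (A1 s) (rad S0 U2) (rad S0 U1) (l s))
    (hX' : ∀ s, X' s ∈ FR (A2 s) (A1 s) (rad S0 U2) (rad S0 U1) (l s)) (a b c : K) (s : Fin 3) :
    Γ2 * X s + (X s).map d + X s * (Γ1 - a • (1 : Matrix n1 n1 K))ᵀ - b • X s + c • X' s ∈
      FR (A2 s) (A1 s) (rad S0 U2) (rad S0 U1) (l s) := by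
  have h1 := fr_nab h hP m fr hY hN2 hN1 hF hS0 hA1 hA2 (hX s)
  have e1 : Γ2 * X s + (X s).map d + X s * (Γ1 - a • (1 : Matrix n1 n1 K))ᵀ - b • X s +
      c • X' s = (Γ2 * X s + (X s).map d + X s * Γ1ᵀ) - a • X s - b • X s + c • X' s := by
    rw [transpose_sub, transpose_smul, transpose_one, Matrix.mul_sub, Matrix.mul_smul,
      Matrix.mul_one]
    abel
  rw [e1]
  exact Submodule.add_mem _ (Submodule.sub_mem _ (Submodule.sub_mem _ h1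
    (Submodule.smul_mem _ _ (hX s))) (Submodule.smul_mem _ _ (hX s)))
    (Submodule.smul_mem _ _ (hX' s))

/-- **`h21` of `SUX7.second_mem`** -/
theorem h21 (h : Ctx k arm J B N W H) (hP : P ∈ NN arm J N H)
    (m : Mv k arm J N W H P.1 Y d) (fr : Fr J F H P.1 S0 c1 c2 U1 U2)
    {X' : Fin 3 → Matrix n2 n1 K}
    (hY : ∀ s, ∀ v ∈ W, v * Y s * Hᵀ = v * (U2 * X' s * U1ᵀ + U1 * (X' s)ᵀ * U2ᵀ) * Hᵀ)
    (hN2 : ∀ v ∈ W, v * (U2.map d + ZY arm J H P.1 Y * U2) =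
      v * (U2 * Γ2 + c2 ^ 2 • (U1 * β)))
    (hN1 : ∀ v ∈ W, v * (U1.map d + ZY arm J H P.1 Y * U1) =
      v * (U1 * Γ1 + c1 ^ 2 • (U2 * γ)))
    (hF : F ∈ W) {η : Matrix ι ι K} (hS0 : S0 = Fᵀ * η * F)
    {A1 : Fin 3 → Matrix n1 n1 K} {A2 : Fin 3 → Matrix n2 n2 K}
    (hA1 : ∀ s, B * E K arm s * S0 * U1 = U1 * A1 s)
    (hA2 : ∀ s, B * E K arm s * S0 * U2 = U2 * A2 s) {l : Fin 3 → ℕ}
    {Q : Submodule K (Matrix ι δ K)}
    (g1 : ∀ s i j, i + j + 1 = l s → ∀ x y, vecMulVec ((F * U2) *ᵥ ((A2 s ^ i) *ᵥ x))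
      ((F * U1) *ᵥ ((A1 s ^ j) *ᵥ y)) * η * F * E K arm s ∈ Q)
    (g2 : ∀ s, ∀ r ∈ rad S0 U2, ∀ y,
      vecMulVec ((F * U2) *ᵥ r) ((F * U1) *ᵥ y) * η * F * E K arm s ∈ Q)
    (g3 : ∀ s x, ∀ r ∈ rad S0 U1,
      vecMulVec ((F * U2) *ᵥ x) ((F * U1) *ᵥ r) * η * F * E K arm s ∈ Q)
    {X : Fin 3 → Matrix n2 n1 K}
    (hX : ∀ s, X s ∈ FR (A2 s) (A1 s) (rad S0 U2) (rad S0 U1) (l s))
    (hX' : ∀ s, X' s ∈ FR (A2 s) (A1 s) (rad S0 U2) (rad S0 U1) (l s)) (a b c : K) :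
    ∑ s, F * (U2 * (Γ2 * X s + (X s).map d + X s * (Γ1 - a • (1 : Matrix n1 n1 K))ᵀ -
      b • X s + c • X' s) * U1ᵀ) * S0 * E K arm s ∈ Q :=
  Q.sum_mem fun s _ => img_mem hS0 (g1 s) (g2 s) (g3 s)
    (shift_mem h hP m fr hY hN2 hN1 hF (M0 := Fᵀ * η) hS0 hA1 hA2 hX hX' a b c s)

omit [DecidableEq n1] [DecidableEq n2] in
theorem FR_tr [DecidableEq n1] [DecidableEq n2] {A1 : Matrix n1 n1 K} {A2 : Matrix n2 n2 K}
    {R2 : Submodule K (n2 → K)} {R1 : Submodule K (n1 → K)} {l : ℕ} {X : Matrix n2 n1 K}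
    (hX : X ∈ FR A2 A1 R2 R1 l) : Xᵀ ∈ FR A1 A2 R1 R2 l := by
  induction hX using Submodule.span_induction with
  | mem M hM =>
    rcases hM with ⟨i, j, x, y, hij, rfl⟩ | ⟨r, hr, y, rfl⟩ | ⟨x, r, hr, rfl⟩
    · rw [transpose_vecMulVec]
      exact Submodule.subset_span (Or.inl ⟨j, i, y, x, by omega, rfl⟩)
    · rw [transpose_vecMulVec]
      exact Submodule.subset_span (Or.inr (Or.inr ⟨y, r, hr, rfl⟩))
    · rw [transpose_vecMulVec]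
      exact Submodule.subset_span (Or.inr (Or.inl ⟨r, hr, x, rfl⟩))
  | zero => rw [transpose_zero]; exact Submodule.zero_mem _
  | add X Y _ _ h1 h2 => rw [transpose_add]; exact Submodule.add_mem _ h1 h2
  | smul c X _ h1 => rw [transpose_smul]; exact Submodule.smul_mem _ c h1

/-- **`h12` of `SUX7.second_mem`** (generators of the pair `(1,2)`) -/
theorem h12 {η : Matrix ι ι K} (hS0 : S0 = Fᵀ * η * F)
    {A1 : Fin 3 → Matrix n1 n1 K} {A2 : Fin 3 → Matrix n2 n2 K} {l : Fin 3 → ℕ}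
    {Q : Submodule K (Matrix ι δ K)}
    (g1 : ∀ s i j, i + j + 1 = l s → ∀ x y, vecMulVec ((F * U1) *ᵥ ((A1 s ^ i) *ᵥ x))
      ((F * U2) *ᵥ ((A2 s ^ j) *ᵥ y)) * η * F * E K arm s ∈ Q)
    (g2 : ∀ s, ∀ r ∈ rad S0 U1, ∀ y,
      vecMulVec ((F * U1) *ᵥ r) ((F * U2) *ᵥ y) * η * F * E K arm s ∈ Q)
    (g3 : ∀ s x, ∀ r ∈ rad S0 U2,
      vecMulVec ((F * U1) *ᵥ x) ((F * U2) *ᵥ r) * η * F * E K arm s ∈ Q)
    {X' : Fin 3 → Matrix n2 n1 K}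
    (hX' : ∀ s, X' s ∈ FR (A2 s) (A1 s) (rad S0 U2) (rad S0 U1) (l s)) :
    ∑ s, F * (U1 * (X' s)ᵀ * U2ᵀ) * S0 * E K arm s ∈ Q :=
  Q.sum_mem fun s _ => img_mem hS0 (g1 s) (g2 s) (g3 s) (FR_tr (hX' s))

end Crest.Agent.R172.SL2h560
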