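import Crest.Agent.R172.SLevA455
import Crest.Agent.R172.SLev2a
import Crest.Agent.R172.SL2h560
import Crest.Agent.R172.SDec2

/-!
Row 172 (S0260), tame node (t2), LEVEL 2, geometric half (copy of helper455), I: frames of the
blocks.
-/

set_option autoImplicit false
set_option linter.unusedSectionVars false
set_option linter.unusedVariables false
set_option maxHeartbeats 1000000

namespace Crest.Agent.R172.SGeo455

open Matrix Module Crest.Agent.R172.FO Crest.Agent.R172.Qt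
open Crest.Agent.R172.SpS Crest.Agent.R172.SEnd Crest.Agent.R172.SEnd2
open Crest.Agent.R172.Om (Kiso Scal)
open Crest.Agent.R172.PL (Wk Ainf Rad CoreM coreOp resOp)
open Crest.Agent.R172.SEndW Crest.Agent.R172.SCM Crest.Agent.R172.SCB
open Crest.Agent.R172.SC (PB iSup_PB)
open Crest.Agent.R172.SUX (th wd ZY Mv)
open Crest.Agent.R172.UBlk (Qb Qb_rel Qb_exists Qb_stable Qb_map Qb_orth)
open Crest.Agent.R172.STop (Setup)
open Crest.Agent.R172.SLev0 (PbK bq)
open Crest.Agent.R172.SLevR455 Crest.Agent.R172.SLev1h455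
open Crest.Agent.R172.SGl1 (om rs rs_coe ten)

variable {ι : Type} [Fintype ι] [DecidableEq ι] {δ : Type} [Fintype δ] [DecidableEq δ]
variable {K : Type} [Field K] [Algebra ℂ K] [IsAlgClosed K]
variable {arm : δ → Fin 3} {J : Matrix ι ι K} {B : Matrix δ δ K} {N W : Submodule K (Matrix ι δ K)}
  {F f : Matrix ι δ K} {P : Matrix ι ι K × (Fin 3 → Matrix ι ι K)} {R : Matrix δ ι K}
  {D : End K (CoreM (PhS arm J B F R P.1))} {l : Fin 3 → ℕ}

/-- a frame of the block -/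
structure Frm (S : Setup arm J B N W F f P R D l) (ν : K) {m : ℕ} (U : Matrix δ (Fin m) K)
    (a : Fin 3 → Matrix (Fin m) (Fin m) K) : Prop where
  col : UFr.Cq (Qb (S.hCtx F S.hF).data S.hR P.1 D ν) U
  span : ∀ u ∈ Qb (S.hCtx F S.hF).data S.hR P.1 D ν, ∃ x, u = U *ᵥ x
  inj : ∀ x, U *ᵥ x = 0 → x = 0
  act : ∀ s, B * E K arm s * (Fᵀ * J * (P.1 * F)) * U = U * a s

/-- the form of a frame -/
abbrev GU (J : Matrix ι ι K) (F : Matrix ι δ K) (P0 : Matrix ι ι K) {m : ℕ}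
    (U : Matrix δ (Fin m) K) : Matrix (Fin m) (Fin m) K := Uᵀ * (Fᵀ * J * (P0 * F)) * U

section one

variable {S : Setup arm J B N W F f P R D l} {ν : K} {m : ℕ} {U : Matrix δ (Fin m) K}
  {a : Fin 3 → Matrix (Fin m) (Fin m) K}

theorem Frm.mem (h : Frm S ν U a) (x : Fin m → K) : U *ᵥ x ∈ Qn S ν := by
  have e' : U *ᵥ x = ∑ j, x j • (fun d => U d j) := by
    funext d
    rw [Finset.sum_apply]
    unfold Matrix.mulVec dotProduct
    exact Finset.sum_congr rfl fun j _ => by rw [Pi.smul_apply, smul_eq_mul, mul_comm]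
  rw [e']
  exact Submodule.sum_mem _ fun j _ => Submodule.smul_mem _ _ (h.col j)

theorem Frm.hom (h : Frm S ν U a) (s : Fin 3) (x : Fin m → K) :
    om arm B (th J F P.1 F) s *ᵥ (U *ᵥ x) = U *ᵥ (a s *ᵥ x) := by
  rw [mulVec_mulVec, mulVec_mulVec, ← h.act s]
  rfl

theorem Frm.perf (h : Frm S ν U a) (y : Fin m → K) :
    ∃ g : Fin 3 → (Fin m → K), y = ∑ s, a s *ᵥ g s := by
  obtain ⟨c, hc, e⟩ := SLev1h455.perf S ν _ (h.mem y)
  choose g hg using fun s => h.span _ (hc s)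
  refine ⟨g, ?_⟩
  rw [← sub_eq_zero]
  apply h.inj
  rw [mulVec_sub, mulVec_sum, ← e, sub_eq_zero]
  refine Finset.sum_congr rfl fun s _ => ?_
  rw [hg s, h.hom]

theorem S0_skew (S : Setup arm J B N W F f P R D l) :
    (Fᵀ * J * (P.1 * F))ᵀ = -(Fᵀ * J * (P.1 * F)) :=
  SUX.th_skew (S.hCtx F S.hF) S.hP (S.hCtx F S.hF).mem

theorem S0_eta : Fᵀ * J * (P.1 * F) = Fᵀ * (J * P.1) * F := by simp only [Matrix.mul_assoc]

theorem GU_skew (S : Setup arm J B N W F f P R D l) : (GU J F P.1 U)ᵀ = -(GU J F P.1 U) := by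
  unfold GU
  rw [transpose_mul, transpose_mul, transpose_transpose, S0_skew S]
  simp only [Matrix.mul_neg, Matrix.neg_mul, Matrix.mul_assoc]

theorem Frm.ker (h : Frm S ν U a) (s : Fin 3) (x : Fin m → K) (hx : (F * U) *ᵥ x = 0) :
    (F * U) *ᵥ (a s *ᵥ x) = 0 := by
  have e : F * U * a s = F * (B * E K arm s * (Fᵀ * J * P.1)) * (F * U) := by
    rw [Matrix.mul_assoc, ← h.act s]
    simp only [Matrix.mul_assoc]
  rw [mulVec_mulVec, e, ← mulVec_mulVec, hx, mulVec_zero]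

/-- words -/
theorem word_C {n : ℕ} {C : Matrix (Fin n) (Fin m) K} {A : Fin 3 → Matrix (Fin n) (Fin n) K}
    (hC : ∀ s, A s * C = C * a s) (w : List (Fin 3)) (x : Fin m → K) :
    C *ᵥ ((w.map a).prod *ᵥ x) = (w.map fun s => (A s).mulVecLin).prod (C *ᵥ x) := by
  induction w with
  | nil => simp
  | cons s w ih =>
    rw [List.map_cons, List.prod_cons, ← mulVec_mulVec, List.map_cons, List.prod_cons,
      Module.End.mul_apply, ← ih, mulVecLin_apply, mulVec_mulVec, ← hC s, ← mulVec_mulVec]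

/-- the radical of a frame is nilpotent under `F` -/
theorem Frm.nil (h : Frm S ν U a) {n : ℕ} {Q : Matrix ι (Fin n) K}
    {A : Fin 3 → Matrix (Fin n) (Fin n) K} (b : BPkg arm J B F R P.1 D ν l Q A) :
    ∃ L : ℕ, ∀ w : List (Fin 3), w.length = L → ∀ x, GU J F P.1 U *ᵥ x = 0 →
      (F * U) *ᵥ ((w.map a).prod *ᵥ x) = 0 := by
  obtain ⟨C, c1, c2, c3, c4, c5⟩ := SInst.exists_C S b h.col h.span h.mem h.act
  obtain ⟨L, hL⟩ := b.blk.kills
  refine ⟨L, fun w hw x hx => ?_⟩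
  rw [c1, ← mulVec_mulVec, word_C c3]
  have h1 : (Qᵀ * (J * P.1) * Q) *ᵥ (C *ᵥ x) = 0 := SLev2a.rad_down c5 c2 hx
  rw [hL w hw.ge _ (by rw [LinearMap.mem_ker, mulVecLin_apply]; exact h1), mulVec_zero]

end one

end Crest.Agent.R172.SGeo455
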