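import Crest.Agent.R172.SLevA0

/-!
Row 172 (S0260), S-side (t2), first level: the correction `w = wd k` is good.
-/

set_option autoImplicit false
set_option linter.unusedSectionVars false
set_option linter.unusedFintypeInType false
set_option linter.unusedDecidableInType false

namespace Crest.Agent.R172.SLevA

open Matrix Module TensorProduct Crest.Agent.R172.FO Crest.Agent.R172.Qt Crest.Agent.R172.SpS
  Crest.Agent.R172.Om Crest.Agent.R172.SUX Crest.Agent.R172.SGl1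

variable {ι : Type*} [Fintype ι] [DecidableEq ι] {δ : Type*} [Fintype δ] [DecidableEq δ]
variable {k K : Type*} [Field k] [Field K] [Algebra k K]
variable {arm : δ → Fin 3} {J : Matrix ι ι K} {B : Matrix δ δ K}
  {N W : Submodule K (Matrix ι δ K)} {H F kk : Matrix ι δ K}

/-- **values of `wd kk`** on the blocks -/
theorem wd_value (hF : Ctx k arm J B N W F) {P Pt : Matrix ι ι K × (Fin 3 → Matrix ι ι K)}
    (hP : P ∈ NN arm J N F) (hH : H ∈ N ⊓ W) (hkk : kk ∈ N ⊓ W)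
    {Y : Fin 3 → Matrix δ δ K} {d : Derivation k K K} (m : Mv k arm J N W H Pt.1 Y d)
    {Qb : K → Submodule K (δ → K)} {c κ : K → K}
    (hc : ∀ ν, ∀ u ∈ Qb ν, u ≠ 0 → c ν ≠ 0)
    (HQ : ∀ ν, ∀ u ∈ Qb ν, H *ᵥ u = c ν • F *ᵥ u)
    (kQ : ∀ ν, ∀ u ∈ Qb ν, kk *ᵥ u = κ ν • F *ᵥ u)
    (β0 : ∀ ν ν', ν ≠ ν' → ∀ u ∈ Qb ν, ∀ q ∈ Qb ν',
      SUB.nab arm J H Pt.1 Y d u ⬝ᵥ (th J F P.1 F *ᵥ q) = 0) (ν : K) (u : δ → K)
    (hu : u ∈ Qb ν) :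
    ∃ rr : ι → K, (∀ ν', ∀ q ∈ Qb ν', (F *ᵥ q) ⬝ᵥ ((J * P.1) *ᵥ rr) = 0) ∧
      wd arm J H Pt.1 Y d kk *ᵥ u = (d (κ ν / c ν) * c ν) • (F *ᵥ u) + rr := by
  by_cases hu0 : u = 0
  · refine ⟨0, fun ν' q _ => by rw [mulVec_zero, dotProduct_zero], ?_⟩
    rw [hu0, mulVec_zero, mulVec_zero, smul_zero, add_zero]
  have hcν := hc ν u hu hu0
  set lam := κ ν / c ν with hlam
  have h1 : kk *ᵥ u = lam • (H *ᵥ u) := by
    rw [kQ ν u hu, HQ ν u hu, smul_smul, hlam, div_mul_cancel₀ _ hcν]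
  have h2 := SUB.wd_block m h1
  refine ⟨-((kk - lam • H) *ᵥ SUB.nab arm J H Pt.1 Y d u), fun ν' q hq => ?_, ?_⟩
  · set v := SUB.nab arm J H Pt.1 Y d u with hv
    have hX : kk - lam • H ∈ N ⊓ W := Submodule.sub_mem _ hkk (Submodule.smul_mem _ _ hH)
    have hθ := th_skew hF hP hX
    have hXq : (kk - lam • H) *ᵥ q = (κ ν' - lam * c ν') • (F *ᵥ q) := by
      rw [sub_mulVec, smul_mulVec, kQ ν' q hq, HQ ν' q hq, smul_smul, sub_smul]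
    have hθq : th J F P.1 (kk - lam • H) *ᵥ q = (κ ν' - lam * c ν') • (th J F P.1 F *ᵥ q) := by
      unfold th
      have e1 : ∀ X : Matrix ι δ K, (Fᵀ * J * (P.1 * X)) *ᵥ q = (Fᵀ * J * P.1) *ᵥ (X *ᵥ q) := by
        intro X
        rw [mulVec_mulVec]
        simp only [Matrix.mul_assoc]
      rw [e1, e1, hXq, mulVec_smul]
    have e2 : (F *ᵥ q) ⬝ᵥ ((J * P.1) *ᵥ ((kk - lam • H) *ᵥ v)) =
        q ⬝ᵥ (th J F P.1 (kk - lam • H) *ᵥ v) := by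
      unfold th
      rw [mulVec_mulVec, ← vecMul_transpose, ← dotProduct_mulVec, mulVec_mulVec]
      simp only [Matrix.mul_assoc]
    rw [mulVec_neg, dotProduct_neg, e2, skew_dot hθ, neg_neg, hθq, dotProduct_smul]
    by_cases hνν : ν = ν'
    · rw [← hνν, hlam, div_mul_cancel₀ _ hcν, sub_self, zero_smul]
    · rw [β0 ν ν' hνν u hu q hq, smul_zero]
  · rw [h2, HQ ν u hu, smul_smul, sub_eq_add_neg]

/-- the pairing of a tensor with `S u`, `S q` -/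
noncomputable def Pr (S : Matrix δ δ K) (Q2 Q1 : Submodule K (δ → K)) (u q : δ → K) :
    Q2 ⊗[K] Q1 →ₗ[K] K :=
  TensorProduct.lift (LinearMap.mk₂ K
    (fun a b => ((b : δ → K) ⬝ᵥ (S *ᵥ u)) * ((a : δ → K) ⬝ᵥ (S *ᵥ q)))
    (fun a a' b => by rw [Submodule.coe_add, add_dotProduct, mul_add])
    (fun t a b => by
      rw [Submodule.coe_smul, smul_dotProduct, smul_eq_mul, smul_eq_mul]; ring)
    (fun a b b' => by rw [Submodule.coe_add, add_dotProduct, add_mul])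
    (fun t a b => by
      rw [Submodule.coe_smul, smul_dotProduct, smul_eq_mul, smul_eq_mul]; ring))

theorem Pr_tmul (S : Matrix δ δ K) {Q2 Q1 : Submodule K (δ → K)} (u q : δ → K) (a : Q2) (b : Q1) :
    Pr S Q2 Q1 u q (a ⊗ₜ[K] b) = ((b : δ → K) ⬝ᵥ (S *ᵥ u)) * ((a : δ → K) ⬝ᵥ (S *ᵥ q)) := by
  simp [Pr]

theorem ten_pr (S : Matrix δ δ K) {Q2 Q1 : Submodule K (δ → K)} (u q : δ → K) (z : Q2 ⊗[K] Q1) :
    ((ten Q2 Q1 z) *ᵥ (S *ᵥ u)) ⬝ᵥ (S *ᵥ q) = Pr S Q2 Q1 u q z := by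
  induction z using TensorProduct.induction_on with
  | zero => simp
  | tmul a b =>
    rw [ten_tmul, Pr_tmul, vecMulVec_mulVec, op_smul_eq_smul, smul_dotProduct, smul_eq_mul]
  | add x y hx hy => rw [map_add, map_add, add_mulVec, add_dotProduct, hx, hy]

theorem tent_pr (S : Matrix δ δ K) {Q2 Q1 : Submodule K (δ → K)} (u q : δ → K) (z : Q2 ⊗[K] Q1) :
    ((ten Q2 Q1 z)ᵀ *ᵥ (S *ᵥ u)) ⬝ᵥ (S *ᵥ q) = Pr S Q2 Q1 q u z := by
  induction z using TensorProduct.induction_on with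
  | zero => simp
  | tmul a b =>
    rw [ten_tmul, Pr_tmul, transpose_vecMulVec, vecMulVec_mulVec, op_smul_eq_smul,
      smul_dotProduct, smul_eq_mul, mul_comm]
  | add x y hx hy => rw [map_add, map_add, transpose_add, add_mulVec, add_dotProduct, hx, hy]

theorem Pr_zero1 {S : Matrix δ δ K} {Q2 Q1 : Submodule K (δ → K)} {u q : δ → K}
    (h : ∀ b ∈ Q1, b ⬝ᵥ (S *ᵥ u) = 0) (z : Q2 ⊗[K] Q1) : Pr S Q2 Q1 u q z = 0 := by
  induction z using TensorProduct.induction_on with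
  | zero => simp
  | tmul a b => rw [Pr_tmul, h b b.2, zero_mul]
  | add x y hx hy => rw [map_add, hx, hy, add_zero]

theorem Pr_zero2 {S : Matrix δ δ K} {Q2 Q1 : Submodule K (δ → K)} {u q : δ → K}
    (h : ∀ a ∈ Q2, a ⬝ᵥ (S *ᵥ q) = 0) (z : Q2 ⊗[K] Q1) : Pr S Q2 Q1 u q z = 0 := by
  induction z using TensorProduct.induction_on with
  | zero => simp
  | tmul a b => rw [Pr_tmul, h a a.2, mul_zero]
  | add x y hx hy => rw [map_add, hx, hy, add_zero]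

theorem Pr_defect (hB : Bᵀ = B) (hBE : ∀ r, E K arm r * B = B * E K arm r) {S : Matrix δ δ K}
    (hS : Sᵀ = -S) {Q1 Q2 : Submodule K (δ → K)}
    (h1 : ∀ r, ∀ u ∈ Q1, om arm B S r *ᵥ u ∈ Q1) (h2 : ∀ r, ∀ u ∈ Q2, om arm B S r *ᵥ u ∈ Q2)
    (ρ : K) (r : Fin 3) (u q : δ → K) (z : Q2 ⊗[K] Q1) :
    Pr S Q2 Q1 u q (Dual.defect (rs (om arm B S r) Q1 (h1 r))
        (-(rs (om arm B S r) Q2 (h2 r))) (ρ ^ 2) z) =
      -(Pr S Q2 Q1 (om arm B S r *ᵥ u) q z + ρ ^ 2 * Pr S Q2 Q1 u (om arm B S r *ᵥ q) z) := by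
  induction z using TensorProduct.induction_on with
  | zero => simp
  | tmul a b =>
    rw [Dual.defect_tmul, map_sub, map_smul, Pr_tmul, Pr_tmul, Pr_tmul, Pr_tmul, rs_coe,
      LinearMap.neg_apply, Submodule.coe_neg, rs_coe, om_adj hB hBE hS, neg_dotProduct,
      om_adj hB hBE hS, smul_eq_mul]
    ring
  | add x y hx hy =>
    simp only [map_add, hx, hy]
    ring

/-- **the `Y`-terms cancel** -/
theorem harm_all (hB : Bᵀ = B) (hBE : ∀ r, E K arm r * B = B * E K arm r)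
    {S SH : Matrix δ δ K} (hS : Sᵀ = -S) {Qb : K → Submodule K (δ → K)} {c : K → K}
    (sH : ∀ ν, ∀ u ∈ Qb ν, SH *ᵥ u = c ν ^ 2 • S *ᵥ u)
    (st : ∀ ν r, ∀ u ∈ Qb ν, om arm B S r *ᵥ u ∈ Qb ν)
    (orth : ∀ ν ν', ν ≠ ν' → ∀ u ∈ Qb ν, ∀ q ∈ Qb ν', u ⬝ᵥ (S *ᵥ q) = 0)
    {ν1 ν2 : K} (hν : ν1 ≠ ν2) {ρ : K} (hρ : c ν1 * ρ = c ν2) {r : Fin 3}
    {z : Qb ν2 ⊗[K] Qb ν1}
    (hrad : ∀ u ∈ Qb ν1, ∀ q ∈ Qb ν2, Pr S (Qb ν2) (Qb ν1) u q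
      (Dual.defect (rs (om arm B S r) (Qb ν1) (st ν1 r))
        (-(rs (om arm B S r) (Qb ν2) (st ν2 r))) (ρ ^ 2) z) = 0)
    {ν ν' : K} (hνν : ν ≠ ν') (u : δ → K) (hu : u ∈ Qb ν) (q : δ → K) (hq : q ∈ Qb ν') :
    (((ten (Qb ν2) (Qb ν1) z + (ten (Qb ν2) (Qb ν1) z)ᵀ) * SH) *ᵥ (om arm B S r *ᵥ u)) ⬝ᵥ
        (S *ᵥ q) * c ν ^ 2 +
      (((ten (Qb ν2) (Qb ν1) z + (ten (Qb ν2) (Qb ν1) z)ᵀ) * SH) *ᵥ u) ⬝ᵥ
        (S *ᵥ (om arm B S r *ᵥ q)) * c ν' ^ 2 = 0 := by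
  have hou := st ν r u hu
  have hoq := st ν' r q hq
  have e1 : ∀ v ∈ Qb ν, ∀ p : δ → K,
      (((ten (Qb ν2) (Qb ν1) z + (ten (Qb ν2) (Qb ν1) z)ᵀ) * SH) *ᵥ v) ⬝ᵥ (S *ᵥ p) =
      c ν ^ 2 * (Pr S (Qb ν2) (Qb ν1) v p z + Pr S (Qb ν2) (Qb ν1) p v z) := by
    intro v hv p
    rw [← mulVec_mulVec, sH ν v hv, mulVec_smul, smul_dotProduct, add_mulVec, add_dotProduct,
      ten_pr, tent_pr, smul_eq_mul]
  rw [e1 _ hou, e1 _ hu]
  -- zero facts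
  have z1 : ∀ v w : δ → K, ∀ μ, μ ≠ ν1 → v ∈ Qb μ → Pr S (Qb ν2) (Qb ν1) v w z = 0 :=
    fun v w μ hμ hv => Pr_zero1 (fun b hb => orth ν1 μ hμ.symm b hb v hv) z
  have z2 : ∀ v w : δ → K, ∀ μ, μ ≠ ν2 → w ∈ Qb μ → Pr S (Qb ν2) (Qb ν1) v w z = 0 :=
    fun v w μ hμ hw => Pr_zero2 (fun a ha => orth ν2 μ hμ.symm a ha w hw) z
  by_cases ha : ν = ν1
  · subst ha
    by_cases hb : ν' = ν2
    · subst hb
      have h1 := hrad u hu q hq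
      rw [Pr_defect hB hBE hS] at h1
      rw [z1 q (om arm B S r *ᵥ u) ν' hνν.symm hq, z1 (om arm B S r *ᵥ q) u ν' hνν.symm hoq,
        ← hρ]
      linear_combination (-(c ν ^ 4)) * h1
    · rw [z2 (om arm B S r *ᵥ u) q ν' hb hq, z1 q (om arm B S r *ᵥ u) ν' hνν.symm hq,
        z2 u (om arm B S r *ᵥ q) ν' hb hoq, z1 (om arm B S r *ᵥ q) u ν' hνν.symm hoq]
      ring
  · by_cases hb : ν = ν2
    · subst hb
      by_cases hc : ν' = ν1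
      · subst hc
        have h1 := hrad q hq u hu
        rw [Pr_defect hB hBE hS] at h1
        rw [z1 (om arm B S r *ᵥ u) q ν ha hou, z1 u (om arm B S r *ᵥ q) ν ha hu, ← hρ]
        linear_combination (-(c ν' ^ 4 * ρ ^ 2)) * h1
      · rw [z1 (om arm B S r *ᵥ u) q ν ha hou, z1 u (om arm B S r *ᵥ q) ν ha hu,
          z1 q (om arm B S r *ᵥ u) ν' hc hq, z1 (om arm B S r *ᵥ q) u ν' hc hoq]
        ring
    · rw [z1 (om arm B S r *ᵥ u) q ν ha hou, z2 q (om arm B S r *ᵥ u) ν hb hou,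
        z1 u (om arm B S r *ᵥ q) ν ha hu, z2 (om arm B S r *ᵥ q) u ν hb hu]
      ring

/-- the radical of the V-level modules is invisible -/
theorem Pr_rad {S : Matrix δ δ K} {η : Matrix ι ι K} (hSη : S = Fᵀ * η * F)
    {Q1 Q2 : Submodule K (δ → K)} {P1 P2 : Type*} [AddCommGroup P1] [Module K P1]
    [AddCommGroup P2] [Module K P2] (π1 : Q1 →ₗ[K] P1) (π2 : Q2 →ₗ[K] P2)
    (i1 : P1 →ₗ[K] (ι → K)) (i2 : P2 →ₗ[K] (ι → K))
    (e1 : ∀ u : Q1, i1 (π1 u) = F *ᵥ (u : δ → K)) (e2 : ∀ u : Q2, i2 (π2 u) = F *ᵥ (u : δ → K))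
    {R1 : Submodule K P1} {R2 : Submodule K P2}
    (r1 : ∀ r ∈ R1, ∀ u ∈ Q1, i1 r ⬝ᵥ (η *ᵥ (F *ᵥ u)) = 0)
    (r2 : ∀ r ∈ R2, ∀ u ∈ Q2, i2 r ⬝ᵥ (η *ᵥ (F *ᵥ u)) = 0) {z : Q2 ⊗[K] Q1}
    (hz : TensorProduct.map π2 π1 z ∈ Dual.Rad R1 R2) :
    ∀ u ∈ Q1, ∀ q ∈ Q2, Pr S Q2 Q1 u q z = 0 := by
  intro u hu q hq
  let V : P2 ⊗[K] P1 →ₗ[K] K := TensorProduct.lift (LinearMap.mk₂ K
    (fun a b => (i1 b ⬝ᵥ (η *ᵥ (F *ᵥ u))) * (i2 a ⬝ᵥ (η *ᵥ (F *ᵥ q))))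
    (fun a a' b => by rw [map_add, add_dotProduct, mul_add])
    (fun t a b => by rw [map_smul, smul_dotProduct, smul_eq_mul, smul_eq_mul]; ring)
    (fun a b b' => by rw [map_add, add_dotProduct, add_mul])
    (fun t a b => by rw [map_smul, smul_dotProduct, smul_eq_mul, smul_eq_mul]; ring))
  have hV : ∀ a b, V (a ⊗ₜ[K] b) = (i1 b ⬝ᵥ (η *ᵥ (F *ᵥ u))) * (i2 a ⬝ᵥ (η *ᵥ (F *ᵥ q))) := by
    intro a b
    simp [V]
  have hSd : ∀ v w : δ → K, v ⬝ᵥ (S *ᵥ w) = (F *ᵥ v) ⬝ᵥ (η *ᵥ (F *ᵥ w)) := by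
    intro v w
    rw [hSη, ← mulVec_mulVec, ← mulVec_mulVec, dotProduct_mulVec, vecMul_transpose]
  have h1 : ∀ y : Q2 ⊗[K] Q1, Pr S Q2 Q1 u q y = V (TensorProduct.map π2 π1 y) := by
    intro y
    induction y using TensorProduct.induction_on with
    | zero => simp
    | tmul a b => rw [Pr_tmul, TensorProduct.map_tmul, hV, e1, e2, hSd, hSd]
    | add x y hx hy => simp only [map_add, hx, hy]
  rw [h1]
  have h2 : Dual.Rad R1 R2 ≤ LinearMap.ker V := by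
    unfold Dual.Rad
    refine sup_le (Submodule.span_le.2 ?_) (Submodule.span_le.2 ?_)
    · rintro _ ⟨r, hr, p, rfl⟩
      change V _ = 0
      rw [hV, r2 r hr q hq, mul_zero]
    · rintro _ ⟨p, r, hr, rfl⟩
      change V _ = 0
      rw [hV, r1 r hr u hu, zero_mul]
  exact h2 hz

end Crest.Agent.R172.SLevA
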