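import Crest.Agent.R172.SGl1
import Crest.Agent.R172.SULift
import Crest.Agent.R172.SLev0

/-!
Row 172 (S0260), S-side (t2), level 1: the relation of `SLev0.lev1` in coordinates from
`SGl1.first_pair` and the U-lift `SULift.exists_lift`.
-/

set_option autoImplicit false
set_option linter.unusedSectionVars false
set_option linter.unusedFintypeInType false
set_option linter.unusedDecidableInType false

namespace Crest.Agent.R172.SRelC

open Matrix Module TensorProduct Crest.Agent.R172.FO Crest.Agent.R172.Qt Crest.Agent.R172.SpS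
  Crest.Agent.R172.Om Crest.Agent.R172.SUX Crest.Agent.R172.SGl1
open Crest.Agent.R172.SLev0 (bq bq_apply)

variable {ι : Type*} [Fintype ι] [DecidableEq ι] {δ : Type*} [Fintype δ] [DecidableEq δ]
variable {k K : Type*} [Field k] [Field K] [Algebra k K]
variable {arm : δ → Fin 3} {J : Matrix ι ι K} {B : Matrix δ δ K}
  {N W : Submodule K (Matrix ι δ K)}

/-- the coordinate map of a `U`-level block -/
theorem exists_pi {Q : Submodule K (δ → K)} {F : Matrix ι δ K} {n : ℕ} {P : Matrix ι (Fin n) K}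
    (inj : ∀ x, P *ᵥ x = 0 → x = 0) (h : ∀ u ∈ Q, ∃ x, F *ᵥ u = P *ᵥ x) :
    ∃ π : Q →ₗ[K] (Fin n → K), ∀ u : Q, P *ᵥ (π u) = F *ᵥ (u : δ → K) := by
  have hk : LinearMap.ker P.mulVecLin = ⊥ := by
    rw [LinearMap.ker_eq_bot']
    intro x hx
    exact inj x hx
  obtain ⟨L, hL⟩ := P.mulVecLin.exists_leftInverse_of_injective hk
  refine ⟨L ∘ₗ F.mulVecLin ∘ₗ Q.subtype, fun u => ?_⟩
  obtain ⟨x, hx⟩ := h u u.2
  have h1 : L (P *ᵥ x) = x := LinearMap.congr_fun hL x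
  change P *ᵥ (L (F *ᵥ (u : δ → K))) = _
  rw [hx, h1]

theorem pi_surj {Q : Submodule K (δ → K)} {F : Matrix ι δ K} {n : ℕ} {P : Matrix ι (Fin n) K}
    (inj : ∀ x, P *ᵥ x = 0 → x = 0) {π : Q →ₗ[K] (Fin n → K)}
    (hπ : ∀ u : Q, P *ᵥ (π u) = F *ᵥ (u : δ → K)) (h : ∀ x, ∃ u ∈ Q, F *ᵥ u = P *ᵥ x) :
    Function.Surjective π := by
  intro x
  obtain ⟨u, hu, hx⟩ := h x
  refine ⟨⟨u, hu⟩, ?_⟩
  have h1 := inj (π ⟨u, hu⟩ - x) (by rw [mulVec_sub, hπ, hx, sub_self])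
  exact sub_eq_zero.1 h1

/-- `F ω_r = M_r (J P) F` -/
theorem F_om (hD : Data k arm J B N W) (F : Matrix ι δ K) (P0 : Matrix ι ι K) (r : Fin 3)
    (u : δ → K) : F *ᵥ (om arm B (th J F P0 F) r *ᵥ u) = (M arm B r F F * (J * P0)) *ᵥ (F *ᵥ u) := by
  rw [mulVec_mulVec, mulVec_mulVec]
  congr 1
  unfold om th M
  rw [← hD.B_arm]
  simp only [Matrix.mul_assoc]

theorem om_zero (F : Matrix ι δ K) (P0 : Matrix ι ι K) (r : Fin 3) {u : δ → K}
    (hu : F *ᵥ u = 0) : om arm B (th J F P0 F) r *ᵥ u = 0 := by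
  have : om arm B (th J F P0 F) r = B * E K arm r * (Fᵀ * J * P0) * F := by
    unfold om th
    simp only [Matrix.mul_assoc]
  rw [this, ← mulVec_mulVec, hu, mulVec_zero]

theorem pi_act (hD : Data k arm J B N W) {Q : Submodule K (δ → K)} {F : Matrix ι δ K}
    {P0 : Matrix ι ι K} {n : ℕ} {P : Matrix ι (Fin n) K}
    (inj : ∀ x, P *ᵥ x = 0 → x = 0) {π : Q →ₗ[K] (Fin n → K)}
    (hπ : ∀ u : Q, P *ᵥ (π u) = F *ᵥ (u : δ → K)) {A : Fin 3 → Matrix (Fin n) (Fin n) K}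
    (act : ∀ s, M arm B s F F * (J * P0) * P = P * A s)
    (hs : ∀ r, ∀ u ∈ Q, om arm B (th J F P0 F) r *ᵥ u ∈ Q) (r : Fin 3) (u : Q) :
    π (rs (om arm B (th J F P0 F) r) Q (hs r) u) = (A r).mulVecLin (π u) := by
  have h1 := inj (π (rs (om arm B (th J F P0 F) r) Q (hs r) u) - (A r).mulVecLin (π u)) (by
    rw [mulVec_sub, hπ, rs_coe, F_om hD, ← hπ, mulVecLin_apply, mulVec_mulVec, mulVec_mulVec,
      act, sub_self])
  exact sub_eq_zero.1 h1

/-- `(J P) F` in a row -/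
theorem row_bq (hJ : Jᵀ = J) {P0 : Matrix ι ι K} (hP0 : Skw J P0) (F : Matrix ι δ K)
    {a b : ι → K} {v : δ → K} (hb : b = F *ᵥ v) (s : Fin 3) :
    vecMulVec a b * (J * P0) * F * E K arm s =
      -(vecMulVec a ((th J F P0 F) *ᵥ v) * E K arm s) := by
  have e1 : (J * P0)ᵀ = -(J * P0) := by rw [transpose_mul, hJ, hP0.eq]
  have e2 : vecMulVec a b * (J * P0) * F = -(vecMulVec a ((th J F P0 F) *ᵥ v)) := by
    rw [Matrix.mul_assoc, Matrix.vecMulVec_mul, ← mulVec_transpose, transpose_mul, e1, hb,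
      Matrix.mul_neg, neg_mulVec, mulVec_mulVec]
    have e3 : Fᵀ * (J * P0) * F = th J F P0 F := by
      unfold th; simp only [Matrix.mul_assoc]
    rw [e3]
    ext i j
    simp [vecMulVec_apply]
  rw [e2, Matrix.neg_mul]

/-- **the relation in coordinates.** -/
theorem rel_coord {F H kk : Matrix ι δ K} {P0 : Matrix ι ι K} {Q1 Q2 : Submodule K (δ → K)}
    {c1 c2 ρ : K} (h : Ctx k arm J B N W H) (h2 : (2 : K) ≠ 0) {Ri : Matrix δ ι K}
    (hR : H * Ri * H = H) {Pt : Matrix ι ι K × (Fin 3 → Matrix ι ι K)} (hPt : Pt ∈ NN arm J N H)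
    (hV : Vert k arm J N W H Pt) (hk : kk ∈ N ⊓ W) (hP0 : Skw J P0)
    (Rl : Rel F H kk (th J F P0 F) (th J H Pt.1 H) (th J H Pt.1 kk) Q1 Q2 c1 c2)
    (hc1 : c1 ≠ 0) (hc2 : c2 ≠ 0) (hρ : c1 * ρ = c2)
    (h1 : ∀ r, ∀ u ∈ Q1, om arm B (th J F P0 F) r *ᵥ u ∈ Q1)
    (h2' : ∀ r, ∀ u ∈ Q2, om arm B (th J F P0 F) r *ᵥ u ∈ Q2)
    (p1 : ∀ u ∈ Q1, ∃ c : Fin 3 → (δ → K), (∀ r, c r ∈ Q1) ∧
      ∑ r, om arm B (th J F P0 F) r *ᵥ (c r) = u)
    (p2 : ∀ u ∈ Q2, ∃ c : Fin 3 → (δ → K), (∀ r, c r ∈ Q2) ∧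
      ∑ r, om arm B (th J F P0 F) r *ᵥ (c r) = u)
    {n1 n2 : ℕ} {P1 : Matrix ι (Fin n1) K} {P2 : Matrix ι (Fin n2) K}
    (i1 : ∀ x, P1 *ᵥ x = 0 → x = 0) (i2 : ∀ x, P2 *ᵥ x = 0 → x = 0)
    {A1 : Fin 3 → Matrix (Fin n1) (Fin n1) K} {A2 : Fin 3 → Matrix (Fin n2) (Fin n2) K}
    (a1 : ∀ s, M arm B s F F * (J * P0) * P1 = P1 * A1 s)
    (a2 : ∀ s, M arm B s F F * (J * P0) * P2 = P2 * A2 s)
    {π1 : Q1 →ₗ[K] (Fin n1 → K)} {π2 : Q2 →ₗ[K] (Fin n2 → K)}
    (e1 : ∀ u : Q1, P1 *ᵥ (π1 u) = F *ᵥ (u : δ → K))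
    (e2 : ∀ u : Q2, P2 *ᵥ (π2 u) = F *ᵥ (u : δ → K))
    (s1 : Function.Surjective π1) (s2 : Function.Surjective π2)
    {x : Fin 3 → (Fin n2 → K) ⊗[K] (Fin n1 → K)}
    (hx : ∑ r, Dual.defect ((A1 r).mulVecLin) (-((A2 r).mulVecLin)) (ρ ^ 2) (x r) = 0)
    (G : Submodule K (Matrix ι δ K))
    (hG : ∀ z : Fin 3 → Q2 ⊗[K] Q1, (∀ r, TensorProduct.map π2 π1 (z r) = x r) →
      ∑ r, Dual.defect (rs (om arm B (th J F P0 F) r) Q1 (h1 r))
        (-(rs (om arm B (th J F P0 F) r) Q2 (h2' r))) (ρ ^ 2) (z r) = 0 →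
      ∀ d : Derivation k K K,
        Mv k arm J N W H Pt.1 (fun r => ten Q2 Q1 (z r) + (ten Q2 Q1 (z r))ᵀ) d →
        wd arm J H Pt.1 (fun r => ten Q2 Q1 (z r) + (ten Q2 Q1 (z r))ᵀ) d kk ∈ G) :
    ∑ r, TensorProduct.lift (bq arm J F P0 P2 P1 r) (x r) +
      ρ • ∑ r, TensorProduct.lift (-(bq arm J F P0 P1 P2 r).flip) (x r) ∈ SGl1.QG N G := by
  have hD := h.data
  have hρ0 : ρ ≠ 0 := by
    rintro rfl
    exact hc2 (by rw [← hρ, mul_zero])
  obtain ⟨z, hz, hz0⟩ := SULift.exists_lift h1 h2' p1 p2 s1 s2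
    (fun r u => pi_act hD i1 e1 a1 h1 r u) (fun r u => pi_act hD i2 e2 a2 h2' r u)
    (fun r u hu => om_zero F P0 r (by rw [← e1, hu, mulVec_zero]))
    (fun r u hu => om_zero F P0 r (by rw [← e2, hu, mulVec_zero])) hρ0 x hx
  have h3 := first_pair h h2 hR hPt hV hk Rl hc1 hc2 hρ h1 h2' hz0 G (hG z hz hz0)
  have h4 := (SGl1.QG N G).neg_mem h3
  convert h4 using 1
  have t1 : ∀ r, TensorProduct.lift (bq arm J F P0 P2 P1 r) (x r) =
      -TensorProduct.lift (qa arm F (th J F P0 F) Q2 Q1 r) (z r) := by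
    intro r
    rw [← hz r]
    generalize z r = y
    induction y using TensorProduct.induction_on with
    | zero => simp
    | tmul a b =>
      rw [TensorProduct.map_tmul, TensorProduct.lift.tmul, TensorProduct.lift.tmul, bq_apply,
        qa_apply, row_bq hD.J_symm hP0 F (e1 b) r, e2]
    | add y y' hy hy' =>
      rw [map_add, map_add, map_add, hy, hy', neg_add]
  have t2 : ∀ r, TensorProduct.lift (-(bq arm J F P0 P1 P2 r).flip) (x r) =
      -TensorProduct.lift (-(qa arm F (th J F P0 F) Q1 Q2 r).flip) (z r) := by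
    intro r
    rw [← hz r]
    generalize z r = y
    induction y using TensorProduct.induction_on with
    | zero => simp
    | tmul a b =>
      rw [TensorProduct.map_tmul, TensorProduct.lift.tmul, TensorProduct.lift.tmul,
        LinearMap.neg_apply, LinearMap.neg_apply, LinearMap.flip_apply, bq_apply,
        LinearMap.neg_apply, LinearMap.neg_apply, LinearMap.flip_apply,
        qa_apply, row_bq hD.J_symm hP0 F (e2 a) r, e1]
    | add y y' hy hy' =>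
      rw [map_add, map_add, map_add, hy, hy', neg_add]
  rw [Finset.sum_congr rfl fun r _ => t1 r, Finset.sum_congr rfl fun r _ => t2 r,
    Finset.sum_neg_distrib, Finset.sum_neg_distrib, smul_neg, neg_add]

/-- exactness for the operators `A`, `A'` at `ρ²` is exactness for `A`, `-A'` at `(i ρ)²` -/
theorem exact_sign {P1 P2 : Type*} [AddCommGroup P1] [Module K P1] [AddCommGroup P2] [Module K P2]
    {A : Fin 3 → End K P1} {A' : Fin 3 → End K P2} {I ρ : K} (hI : I ^ 2 = -1)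
    {x : Fin 3 → P2 ⊗[K] P1} (hx : ∑ r, Dual.defect (A r) (A' r) (ρ ^ 2) (x r) = 0) :
    ∑ r, Dual.defect (A r) (-(A' r)) ((I * ρ) ^ 2) (x r) = 0 := by
  rw [← hx]
  refine Finset.sum_congr rfl fun r _ => ?_
  rw [SULift.defect_neg, mul_pow, hI]
  unfold Dual.defect
  rw [LinearMap.sub_apply, LinearMap.smul_apply]
  congr 2
  ring

/-- the form of the relation used by `SLev0.lev1` (`c1 = 1`, `c2 = -I`) -/
theorem rel_form {F : Matrix ι δ K} {P0 : Matrix ι ι K} {n1 n2 : ℕ} {P1 : Matrix ι (Fin n1) K}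
    {P2 : Matrix ι (Fin n2) K} {I ρ : K} {Q : Submodule K (Matrix ι δ K)}
    {x : Fin 3 → (Fin n2 → K) ⊗[K] (Fin n1 → K)}
    (h : ∑ r, TensorProduct.lift (bq arm J F P0 P2 P1 r) (x r) +
      (I * ρ) • ∑ r, TensorProduct.lift (-(bq arm J F P0 P1 P2 r).flip) (x r) ∈ Q) :
    ∑ t, TensorProduct.lift ((1 : K) • bq arm J F P0 P2 P1 t) (x t) +
      ρ • ∑ t, TensorProduct.lift ((-I) • (bq arm J F P0 P1 P2 t).flip) (x t) ∈ Q := by
  have t1 : ∀ r, TensorProduct.lift (-(bq arm J F P0 P1 P2 r).flip) (x r) =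
      -TensorProduct.lift ((bq arm J F P0 P1 P2 r).flip) (x r) := by
    intro r
    generalize x r = y
    induction y using TensorProduct.induction_on with
    | zero => simp
    | tmul a b => simp
    | add y y' hy hy' => rw [map_add, map_add, hy, hy', neg_add]
  have t2 : ∀ r, TensorProduct.lift ((-I) • (bq arm J F P0 P1 P2 r).flip) (x r) =
      (-I) • TensorProduct.lift ((bq arm J F P0 P1 P2 r).flip) (x r) := by
    intro r
    generalize x r = y
    induction y using TensorProduct.induction_on with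
    | zero => simp
    | tmul a b => simp
    | add y y' hy hy' => rw [map_add, map_add, hy, hy', smul_add]
  convert h using 2
  · exact Finset.sum_congr rfl fun r _ => by rw [one_smul]
  · rw [Finset.sum_congr rfl fun r _ => t1 r, Finset.sum_congr rfl fun r _ => t2 r,
      Finset.sum_neg_distrib, ← Finset.smul_sum, smul_neg, smul_smul, ← neg_smul]
    congr 1
    ring

end Crest.Agent.R172.SRelC
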