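import Crest.Agent.R172.SLevR455
import Crest.Agent.R172.SLevA1
import Crest.Agent.R172.SRelC
import Crest.Agent.R172.SBad97
import Crest.Agent.R172.SInst

/-!
Row 172 (S0260), tame node (t2), LEVEL 1 (copy of helper455): `STop.Lev1`.
-/

set_option autoImplicit false
set_option linter.unusedSectionVars false
set_option linter.unusedVariables false
set_option maxHeartbeats 1000000

namespace Crest.Agent.R172.SLev1h455

open Matrix Module TensorProduct Crest.Agent.R172.FO Crest.Agent.R172.Qt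
open Crest.Agent.R172.SpS Crest.Agent.R172.SEnd Crest.Agent.R172.SEnd2
open Crest.Agent.R172.Om (Kiso Scal)
open Crest.Agent.R172.PL (Wk Ainf Rad CoreM coreOp resOp)
open Crest.Agent.R172.SEndW Crest.Agent.R172.SCM Crest.Agent.R172.SCB
open Crest.Agent.R172.SC (PB iSup_PB)
open Crest.Agent.R172.SUX (th wd ZY Mv)
open Crest.Agent.R172.UBlk (Qb Qb_rel Qb_exists Qb_stable Qb_map Qb_orth)
open Crest.Agent.R172.UFr (at_H)
open Crest.Agent.R172.STop (Setup)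
open Crest.Agent.R172.SLev0 (PbK bq)
open Crest.Agent.R172.SLevR455
open Crest.Agent.R172.SGl1 (om rs rs_coe ten)

variable {ι : Type} [Fintype ι] [DecidableEq ι] {δ : Type} [Fintype δ] [DecidableEq δ]
variable {K : Type} [Field K] [Algebra ℂ K] [IsAlgClosed K]
variable {arm : δ → Fin 3} {J : Matrix ι ι K} {B : Matrix δ δ K} {N W : Submodule K (Matrix ι δ K)}
  {F f : Matrix ι δ K} {P : Matrix ι ι K × (Fin 3 → Matrix ι ι K)} {R : Matrix δ ι K}
  {D : End K (CoreM (PhS arm J B F R P.1))} {l : Fin 3 → ℕ}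

theorem st (S : Setup arm J B N W F f P R D l) (μ : K) (r : Fin 3) :
    ∀ u ∈ Qn S μ, om arm B (th J F P.1 F) r *ᵥ u ∈ Qn S μ := fun u hu =>
  Qb_stable (S.hCtx F S.hF) S.hR S.hD r hu

theorem perf (S : Setup arm J B N W F f P R D l) (μ : K) :
    ∀ u ∈ Qn S μ, ∃ c : Fin 3 → (δ → K), (∀ r, c r ∈ Qn S μ) ∧
      ∑ r, om arm B (th J F P.1 F) r *ᵥ (c r) = u := fun u hu =>
  Qb_exists (S.hCtx F S.hF) S.hR S.hD hu

/-- the finite bad set -/
theorem exists_Bad (S : Setup arm J B N W F f P R D l) (h2 : (2 : K) ≠ 0) (ν ν' : K) :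
    ∃ Bad : Set ℂ, Bad.Finite ∧ ∀ t ∉ Bad, (1 + algebraMap ℂ K t * ν ≠ 0 ∧
      1 + algebraMap ℂ K t * ν' ≠ 0) ∧ ∀ μ, D.maxGenEigenspace μ ≠ ⊥ →
      1 + algebraMap ℂ K t * μ ≠ 0 ∧ ∀ μ', D.maxGenEigenspace μ' ≠ ⊥ → μ ≠ μ' →
      ∀ b : Qn S μ →ₗ[K] Qn S μ' →ₗ[K] K,
        (∀ r u q, b (rs (om arm B (th J F P.1 F) r) (Qn S μ) (st S μ r) u) q =
          (-((1 + algebraMap ℂ K t * μ') ^ 2 / (1 + algebraMap ℂ K t * μ) ^ 2)) *
            b u (rs (om arm B (th J F P.1 F) r) (Qn S μ') (st S μ' r) q)) → b = 0 := by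
  classical
  have hfin : {ν | D.maxGenEigenspace ν ≠ ⊥}.Finite :=
    WellFoundedGT.finite_ne_bot_of_iSupIndep (Module.End.independent_maxGenEigenspace D)
  have hinj : Function.Injective (algebraMap ℂ K) := (algebraMap ℂ K).injective
  have hone : ∀ μ : K, {t : K | 1 + t * μ = 0}.Finite := by
    intro μ
    refine Set.Subsingleton.finite ?_
    intro s hs t ht
    have hs' : 1 + s * μ = 0 := hs
    have ht' : 1 + t * μ = 0 := ht
    have hμ0 : μ ≠ 0 := by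
      rintro rfl
      rw [mul_zero, add_zero] at hs'
      exact one_ne_zero hs'
    have : (s - t) * μ = 0 := by linear_combination hs' - ht'
    rcases mul_eq_zero.1 this with h | h
    · exact sub_eq_zero.1 h
    · exact absurd h hμ0
  have hC : ∀ μ' (q : Qn S μ'), ∃ g : Fin 3 → Qn S μ',
      q = ∑ r, rs (om arm B (th J F P.1 F) r) (Qn S μ') (st S μ' r) (g r) := by
    intro μ' q
    obtain ⟨c, hc, e⟩ := perf S μ' q q.2
    refine ⟨fun r => ⟨c r, hc r⟩, Subtype.ext ?_⟩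
    rw [AddSubmonoidClass.coe_finsetSum]
    simp only [rs_coe]
    exact e.symm
  have hb : ∀ μ μ', ∃ T : Set K, T.Finite ∧ (μ ≠ μ' → ∀ t ∉ T, ∀ b : Qn S μ →ₗ[K] Qn S μ' →ₗ[K] K,
      (∀ r u q, (1 + t * μ) ^ 2 *
        b (rs (om arm B (th J F P.1 F) r) (Qn S μ) (st S μ r) u) q =
          -((1 + t * μ') ^ 2 *
            b u (rs (om arm B (th J F P.1 F) r) (Qn S μ') (st S μ' r) q))) → b = 0) := by
    intro μ μ'
    by_cases hne : μ = μ'
    · exact ⟨∅, Set.finite_empty, fun h => absurd hne h⟩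
    · obtain ⟨T, hT, h⟩ := SBad97.exists_bad hne h2
        (fun r => rs (om arm B (th J F P.1 F) r) (Qn S μ) (st S μ r)) (hC μ')
      exact ⟨T, hT, fun _ t ht b hb => (h t ht).2 b hb⟩
  choose T hT hTb using hb
  refine ⟨(algebraMap ℂ K) ⁻¹' ({t | 1 + t * ν = 0} ∪ {t | 1 + t * ν' = 0} ∪
    (⋃ μ ∈ {ν | D.maxGenEigenspace ν ≠ ⊥}, {t | 1 + t * μ = 0}) ∪
    (⋃ μ ∈ {ν | D.maxGenEigenspace ν ≠ ⊥}, ⋃ μ' ∈ {ν | D.maxGenEigenspace ν ≠ ⊥}, T μ μ')),
    Set.Finite.preimage hinj.injOn ((((hone ν).union (hone ν')).union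
      (hfin.biUnion fun μ _ => hone μ)).union
      (hfin.biUnion fun μ _ => hfin.biUnion fun μ' _ => hT μ μ')), fun t ht => ?_⟩
  rw [Set.mem_preimage, Set.mem_union, Set.mem_union, Set.mem_union, not_or, not_or, not_or] at ht
  obtain ⟨⟨⟨h3, h4⟩, h5⟩, h6⟩ := ht
  refine ⟨⟨h3, h4⟩, fun μ hμ => ?_⟩
  have h7 : 1 + algebraMap ℂ K t * μ ≠ 0 := by
    intro h8
    exact h5 (Set.mem_iUnion₂.2 ⟨μ, hμ, h8⟩)
  refine ⟨h7, fun μ' hμ' hne b hb => ?_⟩
  refine hTb μ μ' hne (algebraMap ℂ K t) (fun h8 => h6 ?_) b fun r u q => ?_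
  · exact Set.mem_iUnion₂.2 ⟨μ, hμ, Set.mem_iUnion₂.2 ⟨μ', hμ', h8⟩⟩
  · rw [hb r u q]
    field_simp

/-- the good class -/
noncomputable abbrev QGd (S : Setup arm J B N W F f P R D l) : Submodule K (Matrix ι δ K) :=
  SLev0.QG arm J B N W F P (PC arm J B F R P.1) (fun μ => PbK arm J B F R P.1 D μ) id

/-- **the relation of level 1** -/
theorem relation (S : Setup arm J B N W F f P R D l) (h2 : (2 : K) ≠ 0) {ν ν' : K} (hne : ν ≠ ν')
    {n1 n2 : ℕ} {Q1 : Matrix ι (Fin n1) K} {A1 : Fin 3 → Matrix (Fin n1) (Fin n1) K}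
    {Q2 : Matrix ι (Fin n2) K} {A2 : Fin 3 → Matrix (Fin n2) (Fin n2) K}
    (b1 : BPkg arm J B F R P.1 D ν l Q1 A1) (b2 : BPkg arm J B F R P.1 D ν' l Q2 A2)
    {I : K} (hI : I ^ 2 = -1) :
    ∃ Bad : Set ℂ, Bad.Finite ∧ ∀ t ∉ Bad, (1 + algebraMap ℂ K t * ν ≠ 0 ∧
      1 + algebraMap ℂ K t * ν' ≠ 0) ∧ ∀ ρ : K,
      (1 + algebraMap ℂ K t * ν) * (I * ρ) = 1 + algebraMap ℂ K t * ν' →
      ∀ x : Fin 3 → (Fin n2 → K) ⊗[K] (Fin n1 → K),
      Dual.Exact (fun s => (A1 s).mulVecLin) (fun s => (A2 s).mulVecLin)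
        (LinearMap.ker (Q1ᵀ * (J * P.1) * Q1).mulVecLin)
        (LinearMap.ker (Q2ᵀ * (J * P.1) * Q2).mulVecLin) (ρ ^ 2) x →
      ∑ t, TensorProduct.lift ((1 : K) • bq arm J F P.1 Q2 Q1 t) (x t) +
        ρ • ∑ t, TensorProduct.lift ((-I) • (bq arm J F P.1 Q1 Q2 t).flip) (x t) ∈ QGd S := by
  obtain ⟨Bad, hBad, hgood⟩ := exists_Bad S h2 ν ν'
  obtain ⟨Y, dY, -, -, -, hfam⟩ := SInst.family S h2
  refine ⟨Bad, hBad, fun t ht => ?_⟩
  obtain ⟨⟨hc1, hc2⟩, hev⟩ := hgood t ht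
  refine ⟨⟨hc1, hc2⟩, fun ρ hρ x hx => ?_⟩
  obtain ⟨Pt, Ri, hHK, hCH, hPt, hV, hRi, hY, hPF, -⟩ := hfam t
  have hC := S.hCtx F S.hF
  have hff := SInst.hff S
  set a : K := algebraMap ℂ K t with ha
  have hat : ∀ {μ : K} {u : δ → K}, u ∈ Qn S μ → _ := fun {μ u} hu =>
    at_H hC S.hR S.hD (S.hNil F S.hF) S.hP S.hf.1 hff hY hPF hu
  have hkm : (ν - ν')⁻¹ • (f - ν' • F) ∈ N ⊓ W :=
    (N ⊓ W).smul_mem _ ((N ⊓ W).sub_mem S.hf.1 ((N ⊓ W).smul_mem _ hC.mem))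
  have hn : ν - ν' ≠ 0 := sub_ne_zero.2 hne
  have htk : th J (F + a • f) Pt.1 ((ν - ν')⁻¹ • (f - ν' • F)) =
      (ν - ν')⁻¹ • (th J (F + a • f) Pt.1 f - ν' • th J (F + a • f) Pt.1 F) := by
    unfold th
    rw [Matrix.mul_smul, Matrix.mul_smul, Matrix.mul_sub, Matrix.mul_sub, Matrix.mul_smul,
      Matrix.mul_smul]
  have hfu : ∀ {μ : K} {u : δ → K}, u ∈ Qn S μ → f *ᵥ u = μ • (F *ᵥ u) := fun {μ u} hu =>
    (Qb_rel hC S.hR S.hD (S.hNil F S.hF) S.hP S.hf.1 hu).1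
  have hSF : (th J F P.1 F)ᵀ = -th J F P.1 F := SUX.th_skew hC S.hP hC.mem
  have hRel : SGl1.Rel F (F + a • f) ((ν - ν')⁻¹ • (f - ν' • F)) (th J F P.1 F)
      (th J (F + a • f) Pt.1 (F + a • f))
      (th J (F + a • f) Pt.1 ((ν - ν')⁻¹ • (f - ν' • F))) (Qn S ν) (Qn S ν')
      (1 + a * ν) (1 + a * ν') :=
    { Hskew := SUX.th_skew hCH hPt hCH.mem
      kskew := SUX.th_skew hCH hPt hkm
      S1 := fun u hu => (hat hu).2.2.2
      S2 := fun u hu => (hat hu).2.2.2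
      k1 := fun u hu => by
        rw [smul_mulVec, sub_mulVec, smul_mulVec, hfu hu, ← sub_smul, smul_smul,
          inv_mul_cancel₀ hn, one_smul]
      k2 := fun u hu => by
        rw [smul_mulVec, sub_mulVec, smul_mulVec, hfu hu, sub_self, smul_zero]
      H1 := fun u hu => (hat hu).1
      H2 := fun u hu => (hat hu).1
      t1 := fun u hu => by
        rw [htk, smul_mulVec, sub_mulVec, smul_mulVec, (hat hu).2.1, (hat hu).2.2.1, smul_smul,
          ← sub_smul, smul_smul]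
        congr 1
        field_simp
      t2 := fun u hu => by
        rw [htk, smul_mulVec, sub_mulVec, smul_mulVec, (hat hu).2.1, (hat hu).2.2.1, smul_smul,
          ← sub_smul, smul_smul]
        have : (ν - ν')⁻¹ * ((1 + a * ν') * ν' - ν' * (1 + a * ν')) = 0 := by ring
        rw [this, zero_smul] }
  obtain ⟨π1, s1, e1, -, -⟩ := SInst.exists_pi S b1
  obtain ⟨π2, s2, e2, -, -⟩ := SInst.exists_pi S b2
  have hrel := SRelC.rel_coord (P0 := P.1) hCH h2 hRi hPt hV hkm S.hP.1 hRel hc1 hc2 hρ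
    (st S ν) (st S ν') (perf S ν) (perf S ν') b1.inj b2.inj b1.act b2.act e1 e2 s1 s2
    (x := x) (SRelC.exact_sign hI hx.1) (QGd S) (by
      intro z hz hz0 d m
      refine SLevR455.wd_good S m (fun μ hμ => (hev μ hμ).1) ?_
      intro μ μ' hμ hμ' hμμ u hu v hv
      -- the `Y`-terms
      have hSH := SUX.th_skew hCH hPt hCH.mem
      have horth : ∀ ν ν', ν ≠ ν' → ∀ u ∈ Qn S ν, ∀ q ∈ Qn S ν',
          u ⬝ᵥ (th J F P.1 F *ᵥ q) = 0 := fun ν ν' hne u hu q hq =>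
        Qb_orth hC S.hR S.hD (S.hNil F S.hF) S.hP S.hf.1 hne hu hq
      have hrad : ∀ r, ∀ u ∈ Qn S ν, ∀ q ∈ Qn S ν', SLevA.Pr (th J F P.1 F) (Qn S ν') (Qn S ν) u q
          (Dual.defect (rs (om arm B (th J F P.1 F) r) (Qn S ν) (st S ν r))
            (-(rs (om arm B (th J F P.1 F) r) (Qn S ν') (st S ν' r))) ((I * ρ) ^ 2) (z r)) = 0 := by
        intro r
        refine SLevA.Pr_rad (η := J * P.1) (by unfold th; simp only [Matrix.mul_assoc]) π1 π2
          Q1.mulVecLin Q2.mulVecLin (fun u => e1 u) (fun u => e2 u)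
          (R1 := LinearMap.ker (Q1ᵀ * (J * P.1) * Q1).mulVecLin)
          (R2 := LinearMap.ker (Q2ᵀ * (J * P.1) * Q2).mulVecLin) ?_ ?_ ?_
        · intro y hy u hu
          have h3 : (Q1ᵀ * (J * P.1) * Q1) *ᵥ y = 0 := hy
          have h4 := e1 ⟨u, hu⟩
          rw [mulVecLin_apply, ← h4]
          have h5 : (Q1 *ᵥ y) ⬝ᵥ ((J * P.1) *ᵥ (Q1 *ᵥ π1 ⟨u, hu⟩)) =
              y ⬝ᵥ ((Q1ᵀ * (J * P.1) * Q1) *ᵥ π1 ⟨u, hu⟩) := by
            rw [form_gg]
          rw [h5, SLevA.skew_dot b1.skew, h3, dotProduct_zero, neg_zero]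
        · intro y hy u hu
          have h3 : (Q2ᵀ * (J * P.1) * Q2) *ᵥ y = 0 := hy
          have h4 := e2 ⟨u, hu⟩
          rw [mulVecLin_apply, ← h4]
          have h5 : (Q2 *ᵥ y) ⬝ᵥ ((J * P.1) *ᵥ (Q2 *ᵥ π2 ⟨u, hu⟩)) =
              y ⬝ᵥ ((Q2ᵀ * (J * P.1) * Q2) *ᵥ π2 ⟨u, hu⟩) := by
            rw [form_gg]
          rw [h5, SLevA.skew_dot b2.skew, h3, dotProduct_zero, neg_zero]
        · have h6 := SGl1.map_defect (π1 := π1) (π2 := π2)
            (a := fun r => rs (om arm B (th J F P.1 F) r) (Qn S ν) (st S ν r))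
            (b := fun r => -(rs (om arm B (th J F P.1 F) r) (Qn S ν') (st S ν' r)))
            (A := fun r => (A1 r).mulVecLin) (Bo := fun r => -((A2 r).mulVecLin))
            (fun r u => SRelC.pi_act hC.data b1.inj e1 b1.act (st S ν) r u)
            (fun r u => by
              rw [LinearMap.neg_apply, map_neg, LinearMap.neg_apply,
                SRelC.pi_act hC.data b2.inj e2 b2.act (st S ν') r u])
            ((I * ρ) ^ 2) r (z r)
          rw [h6, hz r]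
          have h7 : Dual.defect ((A1 r).mulVecLin) (-((A2 r).mulVecLin)) ((I * ρ) ^ 2) (x r) =
              Dual.defect ((A1 r).mulVecLin) ((A2 r).mulVecLin) (ρ ^ 2) (x r) := by
            rw [SULift.defect_neg, mul_pow, hI]
            unfold Dual.defect
            rw [LinearMap.sub_apply, LinearMap.smul_apply]
            congr 2
            ring
          rw [h7]
          exact hx.2 r
      have hYs : ∀ r, (ten (Qn S ν') (Qn S ν) (z r) + (ten (Qn S ν') (Qn S ν) (z r))ᵀ)ᵀ =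
          ten (Qn S ν') (Qn S ν) (z r) + (ten (Qn S ν') (Qn S ν) (z r))ᵀ := fun r => by
        rw [transpose_add, transpose_transpose, add_comm]
      have hb := SLevA.beta_zero hCH hPt hYs m (hev μ hμ).1 (hev μ' hμ').1
        (S := th J F P.1 F) (Qa := Qn S μ) (Qb := Qn S μ')
        (fun u hu => (hat hu).2.2.2) (fun u hu => (hat hu).2.2.2) (st S μ) (st S μ')
        (horth μ μ' hμμ)
        (fun r u hu q hq => SLevA.harm_all (Qb := fun μ => Qn S μ) (c := fun μ => 1 + a * μ)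
          hC.data.B_symm hC.data.B_arm hSF (fun μ u hu => (hat hu).2.2.2)
          (fun μ r => st S μ r) horth hne hρ (hrad r) hμμ u hu q hq)
        ((hev μ hμ).2 μ' hμ' hμμ) u hu v hv
      rw [dotProduct_comm]
      exact hb)
  refine SRelC.rel_form ?_
  have hle : SGl1.QG N (QGd S) ≤ QGd S := sup_le SLev0.N_le_QG le_rfl
  exact hle hrel

end Crest.Agent.R172.SLev1h455
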