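import Crest.Agent.R172.SGl1
import Crest.Agent.R172.SUX3

/-!
Row 172 (S0260), S-side (t2), level 2: from frame matrices `X : Matrix m2 m1 K` to tensors of
`Q2 ⊗ Q1` (helper805), and the move in frame letters.
-/

set_option autoImplicit false
set_option linter.unusedSectionVars false
set_option linter.unusedFintypeInType false
set_option linter.unusedDecidableInType false
set_option maxHeartbeats 1600000

namespace Crest.Agent.R172.SZX805

open Matrix Module TensorProduct Crest.Agent.R172.FO Crest.Agent.R172.Qt Crest.Agent.R172.SpS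
  Crest.Agent.R172.Om Crest.Agent.R172.SUX Crest.Agent.R172.SGl1

variable {ι : Type*} [Fintype ι] [DecidableEq ι] {δ : Type*} [Fintype δ] [DecidableEq δ]
variable {k K : Type*} [Field k] [Field K] [Algebra k K]
variable {arm : δ → Fin 3} {J : Matrix ι ι K} {B : Matrix δ δ K}
  {N W : Submodule K (Matrix ι δ K)}
variable {m1 m2 : Type*} [Fintype m1] [DecidableEq m1] [Fintype m2] [DecidableEq m2]

/-- the parametrisation of `Q` by the frame `U` -/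
noncomputable def Lf {m : Type*} [Fintype m] {Q : Submodule K (δ → K)} {U : Matrix δ m K}
    (hU : ∀ x, U *ᵥ x ∈ Q) : (m → K) →ₗ[K] Q := LinearMap.codRestrict Q U.mulVecLin hU

theorem Lf_coe {m : Type*} [Fintype m] {Q : Submodule K (δ → K)} {U : Matrix δ m K}
    (hU : ∀ x, U *ᵥ x ∈ Q) (x : m → K) : ((Lf hU x : Q) : δ → K) = U *ᵥ x := rfl

variable {Q1 Q2 : Submodule K (δ → K)} {U1 : Matrix δ m1 K} {U2 : Matrix δ m2 K}

/-- **the tensor of a frame matrix** -/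
noncomputable def zt (hU1 : ∀ x, U1 *ᵥ x ∈ Q1) (hU2 : ∀ x, U2 *ᵥ x ∈ Q2) :
    Matrix m2 m1 K →ₗ[K] Q2 ⊗[K] Q1 where
  toFun X := ∑ j, Lf hU2 (fun i => X i j) ⊗ₜ[K] Lf hU1 (Pi.single j 1)
  map_add' X Y := by
    rw [← Finset.sum_add_distrib]
    refine Finset.sum_congr rfl fun j _ => ?_
    rw [← TensorProduct.add_tmul, ← map_add]
    rfl
  map_smul' c X := by
    rw [Finset.smul_sum]
    refine Finset.sum_congr rfl fun j _ => ?_
    rw [TensorProduct.smul_tmul', RingHom.id_apply, ← map_smul]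
    rfl

theorem sum_col (X : Matrix m2 m1 K) :
    X = ∑ j, vecMulVec (fun i => X i j) (Pi.single j (1 : K)) := by
  ext a b
  rw [Matrix.sum_apply, Finset.sum_eq_single b]
  · rw [vecMulVec_apply, Pi.single_eq_same, mul_one]
  · intro c _ hc
    rw [vecMulVec_apply, Pi.single_eq_of_ne hc.symm, mul_zero]
  · intro hb
    exact absurd (Finset.mem_univ b) hb

theorem zt_vecMulVec (hU1 : ∀ x, U1 *ᵥ x ∈ Q1) (hU2 : ∀ x, U2 *ᵥ x ∈ Q2) (x : m2 → K)
    (y : m1 → K) : zt hU1 hU2 (vecMulVec x y) = Lf hU2 x ⊗ₜ[K] Lf hU1 y := by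
  have e : y = ∑ j, y j • (Pi.single j (1 : K) : m1 → K) := by
    funext a
    rw [Finset.sum_apply, Finset.sum_eq_single a]
    · rw [Pi.smul_apply, Pi.single_eq_same, smul_eq_mul, mul_one]
    · intro c _ hc
      rw [Pi.smul_apply, Pi.single_eq_of_ne hc.symm, smul_zero]
    · intro hb
      exact absurd (Finset.mem_univ a) hb
  conv_rhs => rw [e]
  rw [map_sum, TensorProduct.tmul_sum]
  refine Finset.sum_congr rfl fun j _ => ?_
  rw [map_smul, TensorProduct.tmul_smul, TensorProduct.smul_tmul', ← map_smul]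
  congr 2
  funext i
  rw [vecMulVec_apply, Pi.smul_apply, smul_eq_mul, mul_comm]

/-- equality of linear maps on matrices -/
theorem lin_ext {E : Type*} [AddCommGroup E] [Module K E] (f g : Matrix m2 m1 K →ₗ[K] E)
    (h : ∀ x y, f (vecMulVec x y) = g (vecMulVec x y)) (X : Matrix m2 m1 K) : f X = g X := by
  rw [sum_col X, map_sum, map_sum]
  exact Finset.sum_congr rfl fun j _ => h _ _

theorem ten_zt (hU1 : ∀ x, U1 *ᵥ x ∈ Q1) (hU2 : ∀ x, U2 *ᵥ x ∈ Q2) (X : Matrix m2 m1 K) :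
    ten Q2 Q1 (zt hU1 hU2 X) = U2 * X * U1ᵀ := by
  refine lin_ext (ten Q2 Q1 ∘ₗ zt hU1 hU2)
    { toFun := fun X => U2 * X * U1ᵀ
      map_add' := fun X Y => by rw [Matrix.mul_add, Matrix.add_mul]
      map_smul' := fun c X => by rw [Matrix.mul_smul, Matrix.smul_mul]; rfl } ?_ X
  intro x y
  rw [LinearMap.comp_apply, zt_vecMulVec, ten_tmul, Lf_coe, Lf_coe]
  change _ = U2 * vecMulVec x y * U1ᵀ
  rw [Matrix.mul_vecMulVec, Matrix.vecMulVec_mul, vecMul_transpose]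

/-- the defect on frame matrices -/
def dfr (a1 : Matrix m1 m1 K) (a2 : Matrix m2 m2 K) (c : K) :
    Matrix m2 m1 K →ₗ[K] Matrix m2 m1 K where
  toFun X := X * a1ᵀ + c • (a2 * X)
  map_add' X Y := by rw [Matrix.mul_add, Matrix.add_mul, smul_add]; abel
  map_smul' t X := by
    rw [Matrix.mul_smul, Matrix.smul_mul, smul_comm, RingHom.id_apply, smul_add]

theorem dfr_apply (a1 : Matrix m1 m1 K) (a2 : Matrix m2 m2 K) (c : K) (X : Matrix m2 m1 K) :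
    dfr a1 a2 c X = X * a1ᵀ + c • (a2 * X) := rfl

theorem dfr_vec (a1 : Matrix m1 m1 K) (a2 : Matrix m2 m2 K) (c : K) (x : m2 → K) (y : m1 → K) :
    dfr a1 a2 c (vecMulVec x y) = vecMulVec x (a1 *ᵥ y) + c • vecMulVec (a2 *ᵥ x) y := by
  rw [dfr_apply, Matrix.vecMulVec_mul, vecMul_transpose, Matrix.mul_vecMulVec]

theorem defect_vec {A : End K Q1} {C : End K Q2} {c : K} (x : Q2) (y : Q1) :
    Dual.defect A (-C) c (x ⊗ₜ[K] y) = x ⊗ₜ[K] A y + c • (C x ⊗ₜ[K] y) := by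
  rw [Dual.defect_tmul, LinearMap.neg_apply]
  have e : c • ((-C x) ⊗ₜ[K] y) = -(c • (C x ⊗ₜ[K] y)) := by
    rw [TensorProduct.smul_tmul', smul_neg, TensorProduct.neg_tmul, TensorProduct.smul_tmul']
  rw [e]
  exact sub_neg_eq_add (x ⊗ₜ[K] A y) (c • (C x ⊗ₜ[K] y))

/-- **the defect in frame letters** -/
theorem defect_zt {S : Matrix δ δ K} (h1 : ∀ r, ∀ u ∈ Q1, om arm B S r *ᵥ u ∈ Q1)
    (h2 : ∀ r, ∀ u ∈ Q2, om arm B S r *ᵥ u ∈ Q2) (hU1 : ∀ x, U1 *ᵥ x ∈ Q1)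
    (hU2 : ∀ x, U2 *ᵥ x ∈ Q2) {a1 : Fin 3 → Matrix m1 m1 K} {a2 : Fin 3 → Matrix m2 m2 K}
    (ha1 : ∀ r, B * E K arm r * S * U1 = U1 * a1 r)
    (ha2 : ∀ r, B * E K arm r * S * U2 = U2 * a2 r) (ρ : K) (r : Fin 3) (X : Matrix m2 m1 K) :
    Dual.defect (rs (om arm B S r) Q1 (h1 r)) (-(rs (om arm B S r) Q2 (h2 r))) (ρ ^ 2)
      (zt hU1 hU2 X) = zt hU1 hU2 (X * (a1 r)ᵀ + ρ ^ 2 • (a2 r * X)) := by
  have e1 : ∀ y, rs (om arm B S r) Q1 (h1 r) (Lf hU1 y) = Lf hU1 (a1 r *ᵥ y) := by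
    intro y
    apply Subtype.ext
    rw [rs_coe, Lf_coe, Lf_coe, mulVec_mulVec, mulVec_mulVec, ← ha1 r]
    rfl
  have e2 : ∀ x, rs (om arm B S r) Q2 (h2 r) (Lf hU2 x) = Lf hU2 (a2 r *ᵥ x) := by
    intro x
    apply Subtype.ext
    rw [rs_coe, Lf_coe, Lf_coe, mulVec_mulVec, mulVec_mulVec, ← ha2 r]
    rfl
  have key := lin_ext (Dual.defect (rs (om arm B S r) Q1 (h1 r))
      (-(rs (om arm B S r) Q2 (h2 r))) (ρ ^ 2) ∘ₗ zt hU1 hU2)
    (zt hU1 hU2 ∘ₗ dfr (a1 r) (a2 r) (ρ ^ 2)) (by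
      intro x y
      rw [LinearMap.comp_apply, LinearMap.comp_apply, zt_vecMulVec, defect_vec, e1, e2, dfr_vec,
        map_add, map_smul, zt_vecMulVec, zt_vecMulVec]) X
  exact key

/-- the tested arm condition: `q · S (ten z) S u = x · G2 X G1 y` -/
theorem test_zt {S : Matrix δ δ K} (hU1 : ∀ x, U1 *ᵥ x ∈ Q1) (hU2 : ∀ x, U2 *ᵥ x ∈ Q2)
    (s1 : ∀ u ∈ Q1, ∃ x, u = U1 *ᵥ x) (s2 : ∀ u ∈ Q2, ∃ x, u = U2 *ᵥ x) {X : Matrix m2 m1 K}
    (hX : (U2ᵀ * S * U2) * X * (U1ᵀ * S * U1) = 0) {q u : δ → K} (hq : q ∈ Q2) (hu : u ∈ Q1) :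
    q ⬝ᵥ ((S * ten Q2 Q1 (zt hU1 hU2 X) * S) *ᵥ u) = 0 := by
  obtain ⟨x, rfl⟩ := s2 q hq
  obtain ⟨y, rfl⟩ := s1 u hu
  rw [ten_zt, ← vecMul_transpose, ← dotProduct_mulVec, mulVec_mulVec, mulVec_mulVec]
  have e : U2ᵀ * (S * (U2 * X * U1ᵀ) * S) * U1 = (U2ᵀ * S * U2) * X * (U1ᵀ * S * U1) := by
    simp only [Matrix.mul_assoc]
  rw [e, hX, zero_mulVec, dotProduct_zero]

section move

variable {H F : Matrix ι δ K} {P : Matrix ι ι K × (Fin 3 → Matrix ι ι K)} {S0 : Matrix δ δ K}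
  {c1 c2 : K}

/-- the symmetric family of a frame family -/
def Yf (U1 : Matrix δ m1 K) (U2 : Matrix δ m2 K) (X : Fin 3 → Matrix m2 m1 K) (s : Fin 3) :
    Matrix δ δ K := U2 * X s * U1ᵀ + U1 * (X s)ᵀ * U2ᵀ

theorem Yf_symm (X : Fin 3 → Matrix m2 m1 K) (s : Fin 3) : (Yf U1 U2 X s)ᵀ = Yf U1 U2 X s := by
  unfold Yf
  simp only [transpose_add, transpose_mul, transpose_transpose, Matrix.mul_assoc]
  abel

theorem Yf_ten (hU1 : ∀ x, U1 *ᵥ x ∈ Q1) (hU2 : ∀ x, U2 *ᵥ x ∈ Q2)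
    (X : Fin 3 → Matrix m2 m1 K) (s : Fin 3) :
    Yf U1 U2 X s = ten Q2 Q1 (zt hU1 hU2 (X s)) + (ten Q2 Q1 (zt hU1 hU2 (X s)))ᵀ := by
  unfold Yf
  rw [ten_zt]
  simp only [transpose_mul, transpose_transpose, Matrix.mul_assoc]

/-- **exactness in frame letters** -/
theorem exact_of (h : Ctx k arm J B N W H) (fr : Fr J F H P.1 S0 c1 c2 U1 U2)
    (hP : P ∈ NN arm J N H)
    {a1 : Fin 3 → Matrix m1 m1 K} {a2 : Fin 3 → Matrix m2 m2 K}
    (ha1 : ∀ r, B * E K arm r * S0 * U1 = U1 * a1 r)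
    (ha2 : ∀ r, B * E K arm r * S0 * U2 = U2 * a2 r) {X : Fin 3 → Matrix m2 m1 K}
    (hX : ∑ s, (X s * (a1 s)ᵀ - (-((c2 / c1) ^ 2)) • (a2 s * X s)) = 0) :
    SUX.Exact arm J B H P.1 (Yf U1 U2 X) := by
  have hS := th_skew h hP h.mem
  have hc1 := fr.hc1
  have f1 : ∀ r, U1ᵀ * (th J H P.1 H) * E K arm r * B = -(c1 ^ 2 • ((a1 r)ᵀ * U1ᵀ)) := by
    intro r
    have e1 : B * E K arm r * th J H P.1 H * U1 = c1 ^ 2 • (U1 * a1 r) := by
      rw [Matrix.mul_assoc, fr.S1, Matrix.mul_smul, ← Matrix.mul_assoc, ha1]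
    have e2 := congrArg Matrix.transpose e1
    rw [transpose_mul, transpose_mul, transpose_mul, hS, E_transpose, h.data.B_symm,
      transpose_smul, transpose_mul, Matrix.neg_mul, Matrix.mul_neg] at e2
    rw [← e2, neg_neg]
    simp only [Matrix.mul_assoc]
  have f2 : ∀ r, U2ᵀ * (th J H P.1 H) * E K arm r * B = -(c2 ^ 2 • ((a2 r)ᵀ * U2ᵀ)) := by
    intro r
    have e1 : B * E K arm r * th J H P.1 H * U2 = c2 ^ 2 • (U2 * a2 r) := by
      rw [Matrix.mul_assoc, fr.S2, Matrix.mul_smul, ← Matrix.mul_assoc, ha2]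
    have e2 := congrArg Matrix.transpose e1
    rw [transpose_mul, transpose_mul, transpose_mul, hS, E_transpose, h.data.B_symm,
      transpose_smul, transpose_mul, Matrix.neg_mul, Matrix.mul_neg] at e2
    rw [← e2, neg_neg]
    simp only [Matrix.mul_assoc]
  have g1 : ∀ r, B * E K arm r * th J H P.1 H * U1 = c1 ^ 2 • (U1 * a1 r) := by
    intro r
    rw [Matrix.mul_assoc, fr.S1, Matrix.mul_smul, ← Matrix.mul_assoc, ha1]
  have g2 : ∀ r, B * E K arm r * th J H P.1 H * U2 = c2 ^ 2 • (U2 * a2 r) := by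
    intro r
    rw [Matrix.mul_assoc, fr.S2, Matrix.mul_smul, ← Matrix.mul_assoc, ha2]
  unfold SUX.Exact
  have key : ∀ r, Yf U1 U2 X r * th J H P.1 H * E K arm r * B -
      B * E K arm r * th J H P.1 H * Yf U1 U2 X r =
      -(c1 ^ 2 • (U2 * (X r * (a1 r)ᵀ - (-((c2 / c1) ^ 2)) • (a2 r * X r)) * U1ᵀ)) -
      (c1 ^ 2 • (U2 * (X r * (a1 r)ᵀ - (-((c2 / c1) ^ 2)) • (a2 r * X r)) * U1ᵀ))ᵀ := by
    intro r
    have e1 : Yf U1 U2 X r * th J H P.1 H * E K arm r * B =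
        U2 * X r * (U1ᵀ * (th J H P.1 H) * E K arm r * B) +
          U1 * (X r)ᵀ * (U2ᵀ * (th J H P.1 H) * E K arm r * B) := by
      unfold Yf
      simp only [Matrix.add_mul, Matrix.mul_assoc]
    have e2 : B * E K arm r * th J H P.1 H * Yf U1 U2 X r =
        (B * E K arm r * th J H P.1 H * U2) * X r * U1ᵀ +
          (B * E K arm r * th J H P.1 H * U1) * (X r)ᵀ * U2ᵀ := by
      unfold Yf
      simp only [Matrix.mul_add, Matrix.mul_assoc]
    have e3 : c1 ^ 2 * (c2 / c1) ^ 2 = c2 ^ 2 := by field_simp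
    rw [e1, e2, f1, f2, g1, g2]
    simp only [neg_smul, sub_neg_eq_add, Matrix.mul_add, Matrix.add_mul, Matrix.mul_neg,
      Matrix.smul_mul, Matrix.mul_smul, smul_add, smul_smul, e3, transpose_add, transpose_smul,
      transpose_mul, transpose_transpose, Matrix.mul_assoc]
    abel
  have e0 : ∑ r, U2 * (X r * (a1 r)ᵀ - (-((c2 / c1) ^ 2)) • (a2 r * X r)) * U1ᵀ = 0 := by
    rw [← Matrix.sum_mul, ← Matrix.mul_sum, hX, Matrix.mul_zero, Matrix.zero_mul]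
  rw [Finset.sum_congr rfl fun r _ => key r, Finset.sum_sub_distrib, Finset.sum_neg_distrib,
    ← transpose_sum, ← Finset.smul_sum, e0, smul_zero, neg_zero, transpose_zero, sub_zero]

/-- **the move of an exact frame family** -/
theorem exists_mv (h : Ctx k arm J B N W H) (h2 : (2 : K) ≠ 0) {R : Matrix δ ι K}
    (hR : H * R * H = H) (fr : Fr J F H P.1 S0 c1 c2 U1 U2)
    (hP : P ∈ NN arm J N H) (hV : Vert k arm J N W H P)
    {a1 : Fin 3 → Matrix m1 m1 K} {a2 : Fin 3 → Matrix m2 m2 K}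
    (ha1 : ∀ r, B * E K arm r * S0 * U1 = U1 * a1 r)
    (ha2 : ∀ r, B * E K arm r * S0 * U2 = U2 * a2 r) {X : Fin 3 → Matrix m2 m1 K}
    (hX : ∑ s, (X s * (a1 s)ᵀ - (-((c2 / c1) ^ 2)) • (a2 s * X s)) = 0) :
    ∃ d : Derivation k K K, Mv k arm J N W H P.1 (Yf U1 U2 X) d :=
  SUX.exists_move h h2 hR hP hV (Yf_symm X) (exact_of h fr hP ha1 ha2 hX)

end move

end Crest.Agent.R172.SZX805
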