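import Crest.Agent.R172.SSep513
import Crest.Agent.R172.SNabI934
import Crest.Agent.R172.SInf266
import Crest.Agent.R172.SB2H16
import Crest.Agent.R172.SDec2
import Crest.Agent.R172.SZX805
import Crest.Agent.R172.SUniq803
import Crest.Agent.R172.SU170
import Crest.Agent.R172.SZb252
import Crest.Agent.R172.SLev1h455

/-!
Row 172 (S0260), tame node (t2), level 2, geometric half, part 1: all data at one parameter.
-/

set_option autoImplicit false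
set_option linter.unusedSectionVars false
set_option linter.unusedFintypeInType false
set_option linter.unusedDecidableInType false
set_option linter.unusedVariables false
set_option maxHeartbeats 4000000

namespace Crest.Agent.R172.SGeo513

open Matrix Module Crest.Agent.R172.FO Crest.Agent.R172.Qt Crest.Agent.R172.SpS
open Crest.Agent.R172.SBlk Crest.Agent.R172.UBlk Crest.Agent.R172.STop Crest.Agent.R172.SEnd2
open Crest.Agent.R172.SCM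
open Crest.Agent.R172.Om (Kiso)
open Crest.Agent.R172.PL (CoreM Ainf)
open Crest.Agent.R172.SUX (th ZY wd Mv Fr K1 D3 I1 I2)
open Crest.Agent.R172.SInst (ctx QQb hfNW hff)
open Crest.Agent.R172.SDec (Dec ZB Rel2)
open Crest.Agent.R172.SZX805 (Yf Yf_symm)

variable {ι : Type} [Fintype ι] [DecidableEq ι] {δ : Type} [Fintype δ] [DecidableEq δ]
variable {K : Type} [Field K] [Algebra ℂ K] [IsAlgClosed K]
variable {arm : δ → Fin 3} {J : Matrix ι ι K} {B : Matrix δ δ K} {N W : Submodule K (Matrix ι δ K)}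
  {F f : Matrix ι δ K} {P : Matrix ι ι K × (Fin 3 → Matrix ι ι K)} {R : Matrix δ ι K}
  {D : End K (CoreM (PhS arm J B F R P.1))} {l : Fin 3 → ℕ}

/-- all data at one parameter -/
structure At (S : Setup arm J B N W F f P R D l) (ν ν' : K) {m1 m2 : ℕ}
    (U1 : Matrix δ (Fin m1) K) (U2 : Matrix δ (Fin m2) K)
    (a1 : Fin 3 → Matrix (Fin m1) (Fin m1) K) (a2 : Fin 3 → Matrix (Fin m2) (Fin m2) K)
    (dY : Derivation ℂ K K) (t : ℂ) (Pt : Matrix ι ι K × (Fin 3 → Matrix ι ι K)) : Prop where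
  ev : ∀ κ, QQb S κ ≠ ⊥ → 1 + algebraMap ℂ K t * κ ≠ 0
  h : Ctx ℂ arm J B N W (F + algebraMap ℂ K t • f)
  hP : Pt ∈ NN arm J N (F + algebraMap ℂ K t • f)
  fr : Fr J F (F + algebraMap ℂ K t • f) Pt.1 (Fᵀ * J * (P.1 * F)) (1 + algebraMap ℂ K t * ν)
    (1 + algebraMap ℂ K t * ν') U1 U2
  k1 : K1 J F (F + algebraMap ℂ K t • f) Pt.1 (Fᵀ * J * (P.1 * F)) (1 + algebraMap ℂ K t * ν)
    U1 U2 ((ν - ν')⁻¹ • (f - ν' • F))
  hrow : ∀ w : Matrix ι δ K, (F + algebraMap ℂ K t • f)ᵀ * J * w = 0 →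
    (F + algebraMap ℂ K t • f)ᵀ * J * (Pt.1 * w) = (F + algebraMap ℂ K t • f)ᵀ * J * w.map dY
  mv : ∀ X : Fin 3 → Matrix (Fin m2) (Fin m1) K,
    ∑ s, (X s * (a1 s)ᵀ -
      (-(((1 + algebraMap ℂ K t * ν') / (1 + algebraMap ℂ K t * ν)) ^ 2)) • (a2 s * X s)) = 0 →
    (∀ s, (U2ᵀ * (Fᵀ * J * (P.1 * F)) * U2) * (X s * (a1 s)ᵀ -
      (-(((1 + algebraMap ℂ K t * ν') / (1 + algebraMap ℂ K t * ν)) ^ 2)) • (a2 s * X s)) *
      (U1ᵀ * (Fᵀ * J * (P.1 * F)) * U1) = 0) →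
    ∃ (d : Derivation ℂ K K) (Γ1 : Matrix (Fin m1) (Fin m1) K) (Γ2 : Matrix (Fin m2) (Fin m2) K)
      (β : Matrix (Fin m1) (Fin m2) K) (γ : Matrix (Fin m2) (Fin m1) K),
      Mv ℂ arm J N W (F + algebraMap ℂ K t • f) Pt.1 (Yf U1 U2 X) d ∧
      U2.map d + ZY arm J (F + algebraMap ℂ K t • f) Pt.1 (Yf U1 U2 X) * U2 =
        U2 * Γ2 + (1 + algebraMap ℂ K t * ν') ^ 2 • (U1 * β) ∧
      U1.map d + ZY arm J (F + algebraMap ℂ K t • f) Pt.1 (Yf U1 U2 X) * U1 =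
        U1 * Γ1 + (1 + algebraMap ℂ K t * ν) ^ 2 • (U2 * γ) ∧
      Dec F (Fᵀ * J * (P.1 * F)) U1 U2 a1 a2
        (-(((1 + algebraMap ℂ K t * ν') / (1 + algebraMap ℂ K t * ν)) ^ 2)) (X, β, γ) ∧
      (∀ κ, κ ≠ ν → κ ≠ ν' → ∀ u ∈ QQb S κ,
        SUB.nab arm J (F + algebraMap ℂ K t • f) Pt.1 (Yf U1 U2 X) d u ∈ QQb S κ)

theorem fin_lin (ν : K) : {t : ℂ | 1 + algebraMap ℂ K t * ν = 0}.Finite := by
  refine Set.Subsingleton.finite ?_
  intro s hs t ht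
  have h1 : 1 + algebraMap ℂ K s * ν = 0 := hs
  have h2 : 1 + algebraMap ℂ K t * ν = 0 := ht
  have h3 : ν ≠ 0 := by
    rintro rfl
    rw [mul_zero, add_zero] at h1
    exact one_ne_zero h1
  have h4 : (algebraMap ℂ K s - algebraMap ℂ K t) * ν = 0 := by
    linear_combination h1 - h2
  exact (algebraMap ℂ K).injective (sub_eq_zero.1 ((mul_eq_zero.1 h4).resolve_right h3))

theorem mem_of {S : Setup arm J B N W F f P R D l} {ν : K} {m : ℕ} {U : Matrix δ (Fin m) K}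
    (hC : UFr.Cq (QQb S ν) U) (x : Fin m → K) : U *ᵥ x ∈ QQb S ν := SUniq803.mem_of_Cq hC x

/-- **existence of the data outside a finite set** -/
theorem exists_At (S : Setup arm J B N W F f P R D l) (h2 : (2 : K) ≠ 0) {ν ν' : K}
    (hne : ν ≠ ν') {m1 m2 : ℕ} {U1 : Matrix δ (Fin m1) K} {U2 : Matrix δ (Fin m2) K}
    {a1 : Fin 3 → Matrix (Fin m1) (Fin m1) K} {a2 : Fin 3 → Matrix (Fin m2) (Fin m2) K}
    (hC1 : UFr.Cq (QQb S ν) U1) (hs1 : ∀ u ∈ QQb S ν, ∃ x, u = U1 *ᵥ x)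
    (ha1 : ∀ s, B * E K arm s * (Fᵀ * J * (P.1 * F)) * U1 = U1 * a1 s)
    (hC2 : UFr.Cq (QQb S ν') U2) (hs2 : ∀ u ∈ QQb S ν', ∃ x, u = U2 *ᵥ x)
    (ha2 : ∀ s, B * E K arm s * (Fᵀ * J * (P.1 * F)) * U2 = U2 * a2 s) :
    ∃ (dY : Derivation ℂ K K) (Bad : Set ℂ), Bad.Finite ∧
      (∀ t ∉ Bad, 1 + algebraMap ℂ K t * ν ≠ 0 ∧ 1 + algebraMap ℂ K t * ν' ≠ 0) ∧
      ∀ t ∉ Bad, ∃ Pt, At S ν ν' U1 U2 a1 a2 dY t Pt := by
  obtain ⟨Y, dY, hYB, hreal, hform, hfam⟩ := SInst.family S h2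
  obtain ⟨Bad1, hBad1, hb1⟩ := SNabI.exists_bad (ctx S) S.hR S.hD h2
  obtain ⟨Bad2, hBad2, hb2⟩ := SInf266.ainf_eq h2 S.hCtx S.hNm S.hWm S.hNil S.hF S.hf S.hV1 S.hP
    hreal hform
  refine ⟨dY, Bad1 ∪ Bad2 ∪ {0} ∪ {t : ℂ | 1 + algebraMap ℂ K t * ν = 0} ∪
    {t : ℂ | 1 + algebraMap ℂ K t * ν' = 0}, ((((hBad1.union hBad2).union
      (Set.finite_singleton 0)).union (fin_lin ν)).union (fin_lin ν')), fun t ht => ?_,
      fun t ht => ?_⟩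
  · simp only [Set.mem_union, not_or] at ht
    exact ⟨fun h => ht.1.2 h, fun h => ht.2 h⟩
  simp only [Set.mem_union, not_or] at ht
  obtain ⟨⟨⟨⟨ht1, ht2⟩, ht0⟩, ht3⟩, ht4⟩ := ht
  have hc1 : 1 + algebraMap ℂ K t * ν ≠ 0 := fun h => ht3 h
  have hc2 : 1 + algebraMap ℂ K t * ν' ≠ 0 := fun h => ht4 h
  have hcne : 1 + algebraMap ℂ K t * ν ≠ 1 + algebraMap ℂ K t * ν' := by
    intro h
    have h3 : algebraMap ℂ K t * (ν - ν') = 0 := by linear_combination h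
    rcases mul_eq_zero.1 h3 with h4 | h4
    · exact ht0 ((algebraMap ℂ K).injective (by rw [h4, map_zero]))
    · exact hne (sub_eq_zero.1 h4)
  obtain ⟨hc, hom⟩ := hb1 t ht1
  obtain ⟨Pt, Ri, hHK, hCH, hPt, hV, hRi, hY, hPF, hrw⟩ := hfam t
  obtain ⟨fr, k1⟩ := SInst.fr_k1 S hY hPF hne hc1 hc2 hC1 hC2
  have hA := hb2 t ht2 Pt hPt hY
  refine ⟨Pt, ?_, hCH, hPt, fr, k1, ?_, ?_⟩
  · intro κ hκ
    refine hc κ fun h => hκ ?_
    exact STop.PB_bot ((cov (ctx S).data S.hR P.1).D_comm S.hD.2) h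
  · intro w hw
    have h1 := hrw w hw
    have h2 : (Pt.1 * (F + algebraMap ℂ K t • f))ᵀ * J * w =
        -((F + algebraMap ℂ K t • f)ᵀ * J * (Pt.1 * w)) := by
      have h3 : Pt.1ᵀ * J = -(J * Pt.1) := by
        have h4 : Pt.1ᵀ * J + J * Pt.1 = 0 := hPt.1
        exact eq_neg_of_add_eq_zero_left h4
      rw [transpose_mul, Matrix.mul_assoc _ Pt.1ᵀ J, h3]
      simp only [Matrix.mul_neg, Matrix.neg_mul, Matrix.mul_assoc]
    rw [h2] at h1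
    exact neg_injective h1
  · intro X hsum harm
    obtain ⟨d, m⟩ := SZX805.exists_mv hCH h2 hRi fr hPt hV ha1 ha2 hsum
    have hb := SNabI.B1 (ctx S) S.hR S.hD (S.hNil F S.hF) S.hP (hfNW S) (hff S) hCH hPt hY hPF
      (le_of_eq hA) hc hom (Yf_symm X) m hne hC1 hC2 hs1 hs2 ha1 ha2 (fun r => rfl) (fun r => by
        have e : (1 + algebraMap ℂ K t * ν) ^ 2 • (X r * (a1 r)ᵀ) +
            (1 + algebraMap ℂ K t * ν') ^ 2 • (a2 r * X r) =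
            (1 + algebraMap ℂ K t * ν) ^ 2 • (X r * (a1 r)ᵀ -
              (-(((1 + algebraMap ℂ K t * ν') / (1 + algebraMap ℂ K t * ν)) ^ 2)) •
                (a2 r * X r)) := by
          rw [smul_sub, neg_smul, smul_neg, sub_neg_eq_add, smul_smul]
          congr 2
          field_simp
        rw [e, Matrix.mul_smul, Matrix.smul_mul, harm r, smul_zero])
    obtain ⟨i1, i2, i3⟩ := hb
    obtain ⟨Γ1, Γ2, β, γ, hN2, hN1, hdec⟩ := SB2H16.dec_of_B1 hCH hPt m fr hcne hC1 hs1 ha1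
      (SLev1h455.perf S ν) hC2 hs2 ha2 (SLev1h455.perf S ν') (fun r => rfl) i1 i2 rfl hsum harm
    exact ⟨d, Γ1, Γ2, β, γ, m, hN2, hN1, hdec, i3⟩

end Crest.Agent.R172.SGeo513
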