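import Crest.Agent.R172.SDec2
import Crest.Agent.R172.SDecP70
import Crest.Agent.R172.SMv16
import Crest.Agent.R172.SB2H16
import Crest.Agent.R172.SZb252
import Crest.Agent.R172.SUX6t515
import Crest.Agent.R172.SInst
import Crest.Agent.R172.SNab753

/-!
Row 172 (S0260), tame node (t2), level 2: moves at `H_t` for exact families, with all decorations
(existence half of `SDec.Geo22`), from the block inclusions B1.
-/

set_option autoImplicit false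
set_option linter.unusedSectionVars false
set_option linter.unusedVariables false
set_option maxHeartbeats 1600000

namespace Crest.Agent.R172.SGeo545

open Matrix Module Crest.Agent.R172.FO Crest.Agent.R172.Qt Crest.Agent.R172.SpS
open Crest.Agent.R172.SEnd2 (PC PhS)
open Crest.Agent.R172.SUX (D3 th ZY wd Mv I1 I2)
open Crest.Agent.R172.PL (CoreM)
open Crest.Agent.R172.Om (Kiso)
open Crest.Agent.R172.SDec Crest.Agent.R172.SInst Crest.Agent.R172.SMv16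

variable {ι : Type} [Fintype ι] [DecidableEq ι] {δ : Type} [Fintype δ] [DecidableEq δ]
variable {K : Type} [Field K] [Algebra ℂ K] [IsAlgClosed K]
variable {arm : δ → Fin 3} {J : Matrix ι ι K} {B : Matrix δ δ K}
  {N W : Submodule K (Matrix ι δ K)} {F f : Matrix ι δ K}
  {P : Matrix ι ι K × (Fin 3 → Matrix ι ι K)} {R : Matrix δ ι K}
  {D : End K (CoreM (PhS arm J B F R P.1))} {l : Fin 3 → ℕ}

/-- the block inclusions (B1) for one move -/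
structure Nab (S : STop.Setup arm J B N W F f P R D l) (ν ν' : K) (H : Matrix ι δ K)
    (Pt : Matrix ι ι K) (Y : Fin 3 → Matrix δ δ K) (d : Derivation ℂ K K) : Prop where
  i1 : ∀ u ∈ QQb S ν, ∃ v ∈ QQb S ν, ∃ r ∈ QQb S ν',
    r ∈ St.T (fun s => (B * E K arm s * (Fᵀ * J * (P.1 * F))).mulVecLin) ∧
      SUB.nab arm J H Pt Y d u = v + r
  i2 : ∀ u ∈ QQb S ν', ∃ v ∈ QQb S ν', ∃ r ∈ QQb S ν,
    r ∈ St.T (fun s => (B * E K arm s * (Fᵀ * J * (P.1 * F))).mulVecLin) ∧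
      SUB.nab arm J H Pt Y d u = v + r
  i3 : ∀ κ, κ ≠ ν → κ ≠ ν' → ∀ u ∈ QQb S κ, SUB.nab arm J H Pt Y d u ∈ QQb S κ

/-- the data at one parameter -/
structure AtA (S : STop.Setup arm J B N W F f P R D l) (ν ν' : K) (dY : Derivation ℂ K K)
    (a : K) (Pt : Matrix ι ι K × (Fin 3 → Matrix ι ι K)) : Prop where
  hHk : F + a • f ∈ Kiso J N W
  hC : Ctx ℂ arm J B N W (F + a • f)
  hPt : Pt ∈ NN arm J N (F + a • f)
  hV : Vert ℂ arm J N W (F + a • f) Pt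
  hRi : ∃ Ri : Matrix δ ι K, (F + a • f) * Ri * (F + a • f) = F + a • f
  hY : ∀ f' ∈ N ⊓ W, (F + a • f)ᵀ * J * (Pt.1 * f') = (F + a • f)ᵀ * J * f'.map dY
  hPF : (F + a • f)ᵀ * J * (Pt.1 * F) = (F + a • f)ᵀ * J * (P.1 * F)
  hr : ∀ w : Matrix ι δ K, (F + a • f)ᵀ * J * w = 0 →
    (Pt.1 * (F + a • f))ᵀ * J * w = -((F + a • f)ᵀ * J * w.map dY)
  hc : ∀ κ, QQb S κ ≠ ⊥ → 1 + a * κ ≠ 0
  hc1 : 1 + a * ν ≠ 0
  hc2 : 1 + a * ν' ≠ 0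
  ha : a ≠ 0

theorem row_of {H : Matrix ι δ K} {Pt : Matrix ι ι K} {dY : Derivation ℂ K K}
    (hJ : Jᵀ = J) (hskew : Ptᵀ * J = -(J * Pt))
    (hr : ∀ w : Matrix ι δ K, Hᵀ * J * w = 0 → (Pt * H)ᵀ * J * w = -(Hᵀ * J * w.map dY))
    (w : Matrix ι δ K) (hw : Hᵀ * J * w = 0) :
    Hᵀ * J * (Pt * w) = Hᵀ * J * w.map dY := by
  have h1 := hr w hw
  rw [transpose_mul, Matrix.mul_assoc Hᵀ, hskew, Matrix.mul_neg, Matrix.neg_mul, neg_inj] at h1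
  rw [← h1]
  simp only [Matrix.mul_assoc]

section at'

variable {ν ν' : K} {m1 m2 : ℕ} {U1 : Matrix δ (Fin m1) K} {U2 : Matrix δ (Fin m2) K}
  {a1 : Fin 3 → Matrix (Fin m1) (Fin m1) K} {a2 : Fin 3 → Matrix (Fin m2) (Fin m2) K}

/-- the frame hypotheses -/
structure Frm (S : STop.Setup arm J B N W F f P R D l) (ν : K) {m : ℕ}
    (U : Matrix δ (Fin m) K) (a : Fin 3 → Matrix (Fin m) (Fin m) K) : Prop where
  c : UFr.Cq (QQb S ν) U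
  s : ∀ u ∈ QQb S ν, ∃ x, u = U *ᵥ x
  i : ∀ x, U *ᵥ x = 0 → x = 0
  a : ∀ s, B * E K arm s * (Fᵀ * J * (P.1 * F)) * U = U * a s

/-- a decorated move -/
structure MD (S : STop.Setup arm J B N W F f P R D l) (ν ν' : K) (U1 : Matrix δ (Fin m1) K)
    (U2 : Matrix δ (Fin m2) K) (a1 : Fin 3 → Matrix (Fin m1) (Fin m1) K)
    (a2 : Fin 3 → Matrix (Fin m2) (Fin m2) K) (dY : Derivation ℂ K K) (a : K)
    (Pt : Matrix ι ι K × (Fin 3 → Matrix ι ι K)) (X : Fin 3 → Matrix (Fin m2) (Fin m1) K)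
    (β : Matrix (Fin m1) (Fin m2) K) (γ : Matrix (Fin m2) (Fin m1) K) (d : Derivation ℂ K K)
    (Γ1 : Matrix (Fin m1) (Fin m1) K) (Γ2 : Matrix (Fin m2) (Fin m2) K) : Prop where
  mv : Mv ℂ arm J N W (F + a • f) Pt.1 (Yf U1 U2 X) d
  n2 : U2.map d + ZY arm J (F + a • f) Pt.1 (Yf U1 U2 X) * U2 =
    U2 * Γ2 + (1 + a * ν') ^ 2 • (U1 * β)
  n1 : U1.map d + ZY arm J (F + a • f) Pt.1 (Yf U1 U2 X) * U1 =
    U1 * Γ1 + (1 + a * ν) ^ 2 • (U2 * γ)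
  dec : Dec F (Fᵀ * J * (P.1 * F)) U1 U2 a1 a2 (-(((1 + a * ν') / (1 + a * ν)) ^ 2)) (X, β, γ)
  zb : ZB F U1 U2 (X, β, γ)
  i3 : ∀ κ, κ ≠ ν → κ ≠ ν' → ∀ u ∈ QQb S κ,
    SUB.nab arm J (F + a • f) Pt.1 (Yf U1 U2 X) d u ∈ QQb S κ
  qq : I1 arm F (Fᵀ * J * (P.1 * F)) U1 U2 (X, β, γ) +
    ((1 + a * ν') / (1 + a * ν)) • I2 arm F (Fᵀ * J * (P.1 * F)) U1 U2 (X, β, γ) ∈
      SUXt.QQ5t J N W F f dY (Fᵀ * J * (P.1 * F)) U1 U2
        (fun i : {κ : K // κ ≠ ν ∧ κ ≠ ν'} => QQb S i.1)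

/-- **the existence half at one parameter.** -/
theorem exists_md (S : STop.Setup arm J B N W F f P R D l) (h2 : (2 : K) ≠ 0) (hne : ν ≠ ν')
    (f1 : Frm S ν U1 a1) (f2 : Frm S ν' U2 a2) {dY : Derivation ℂ K K} {a : K}
    {Pt : Matrix ι ι K × (Fin 3 → Matrix ι ι K)} (A : AtA S ν ν' dY a Pt)
    {X : Fin 3 → Matrix (Fin m2) (Fin m1) K}
    (hsum : ∑ s, (X s * (a1 s)ᵀ - (-(((1 + a * ν') / (1 + a * ν)) ^ 2)) • (a2 s * X s)) = 0)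
    (harm : ∀ s, (U2ᵀ * (Fᵀ * J * (P.1 * F)) * U2) *
      (X s * (a1 s)ᵀ - (-(((1 + a * ν') / (1 + a * ν)) ^ 2)) • (a2 s * X s)) *
          (U1ᵀ * (Fᵀ * J * (P.1 * F)) * U1) = 0)
    (hB : ∀ d, Mv ℂ arm J N W (F + a • f) Pt.1 (Yf U1 U2 X) d →
      Nab S ν ν' (F + a • f) Pt.1 (Yf U1 U2 X) d) :
    ∃ β γ d Γ1 Γ2, MD S ν ν' U1 U2 a1 a2 dY a Pt X β γ d Γ1 Γ2 := by
  obtain ⟨fr, k1⟩ := fr_k1 S A.hY A.hPF hne A.hc1 A.hc2 f1.c f2.c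
  obtain ⟨Ri, hRi⟩ := A.hRi
  obtain ⟨d, m⟩ := exists_mv A.hC h2 hRi A.hPt A.hV fr f1.a f2.a rfl hsum
  have hB' := hB d m
  have hcc : (1 + a * ν) ≠ (1 + a * ν') := fun h => hne (by
    have : a * ν = a * ν' := add_left_cancel h
    exact mul_left_cancel₀ A.ha this)
  have hp : ∀ κ, ∀ u ∈ QQb S κ, ∃ c : Fin 3 → δ → K, (∀ s, c s ∈ QQb S κ) ∧
      ∑ s, (B * E K arm s * (Fᵀ * J * (P.1 * F))) *ᵥ c s = u :=
    fun κ u hu => UBlk.Qb_exists (ctx S) S.hR S.hD hu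
  obtain ⟨Γ1, Γ2, β, γ, n2, n1, dec⟩ := SB2H16.dec_of_B1 A.hC A.hPt m fr hcc f1.c f1.s f1.a
    (hp ν) f2.c f2.s f2.a (hp ν') (fun r => rfl) hB'.i1 hB'.i2 rfl hsum harm
  have hq3 : ∀ κ, ∀ u ∈ QQb S κ, (F + a • f) *ᵥ u = (1 + a * κ) • (F *ᵥ u) := by
    intro κ u hu
    rw [add_mulVec, smul_mulVec, rel S hu, add_smul, one_smul, smul_smul]
  have hk3 : ∀ κ, ∀ u ∈ QQb S κ, ((ν - ν')⁻¹ • (f - ν' • F)) *ᵥ u =
      ((ν - ν')⁻¹ * (κ - ν')) • (F *ᵥ u) := by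
    intro κ u hu
    rw [smul_mulVec, sub_mulVec, smul_mulVec, rel S hu, ← sub_smul, smul_smul]
  have hqm : ((ν - ν')⁻¹ • (f - ν' • F)) ∈ N ⊓ W :=
    Submodule.smul_mem _ _ (Submodule.sub_mem _ (hfNW S) (Submodule.smul_mem _ _ S.hF.1))
  have hqp : (F + a • f)ᵀ * J * ((ν - ν')⁻¹ • (f - ν' • F)) = 0 := by
    have h3 : (F + a • f)ᵀ * J * F = 0 := A.hHk.2 F S.hF.1
    have h4 : (F + a • f)ᵀ * J * f = 0 := A.hHk.2 f (hfNW S)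
    rw [Matrix.mul_smul, Matrix.mul_sub, Matrix.mul_smul, h3, h4, smul_zero, sub_zero, smul_zero]
  refine ⟨β, γ, d, Γ1, Γ2, ⟨m, n2, n1, dec, ⟨?_, ?_⟩, hB'.i3, ?_⟩⟩
  · exact SZb252.zb fr m.dH (by rw [n2])
  · exact SZb252.zk fr m.dH (by rw [n1])
  · refine SUXt.first_mem' A.hC A.hPt S.hNm S.hWm S.hF S.hf m hqm hqp fr k1 (fun s v _ => rfl)
      (fun v _ => by rw [n2]) (fun v _ => by rw [n1])
      (row_of A.hC.data.J_symm A.hPt.1.eq A.hr) (fun i => ?_)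
    · by_cases hb : QQb S i.1 = ⊥
      · refine ⟨0, fun u hu => ?_⟩
        have hu' : u = 0 := by
          have : u ∈ (⊥ : Submodule K (δ → K)) := hb ▸ hu
          simpa using this
        rw [hu', mulVec_zero, mulVec_zero, smul_zero]
      · refine ⟨d ((ν - ν')⁻¹ * (i.1 - ν')) - ((ν - ν')⁻¹ * (i.1 - ν')) * (1 + a * i.1)⁻¹ *
          d (1 + a * i.1), fun u hu => ?_⟩
        have hc := A.hc i.1 hb
        rw [SNab753.wd_val m hc (hq3 _ u hu) (hk3 _ u hu), sub_mulVec, smul_mulVec,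
          hq3 _ _ (hB'.i3 _ i.2.1 i.2.2 u hu), hk3 _ _ (hB'.i3 _ i.2.1 i.2.2 u hu), smul_smul,
          inv_mul_cancel_right₀ hc, sub_self, add_zero]

end at'

end Crest.Agent.R172.SGeo545
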