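import Crest.Agent.R172.UFr
import Crest.Agent.R172.STop

/-!
Row 172 (S0260), (t2), row L2-b (second copy): the U-level frames over the block packages, and the
instance of `d_Y`, `P_t`, `Fr`, `K1` from `STop.Setup`.
-/

set_option autoImplicit false
set_option linter.unusedSectionVars false
set_option linter.unusedFintypeInType false
set_option linter.unusedDecidableInType false
set_option maxHeartbeats 400000

namespace Crest.Agent.R172.SInst896

open Module Matrix Crest.Agent.R172.FO Crest.Agent.R172.Qt Crest.Agent.R172.SpS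
open Crest.Agent.R172.SBlk Crest.Agent.R172.UBlk Crest.Agent.R172.UFr
open Crest.Agent.R172.SEnd2 (PhS)
open Crest.Agent.R172.SCM (BPkg)
open Crest.Agent.R172.SC (PB)
open Crest.Agent.R172.PL (CoreM)
open Crest.Agent.R172.Om (Kiso)
open Crest.Agent.R172.STop (Setup)

section ub

variable {ι : Type*} [Fintype ι] [DecidableEq ι] {δ : Type*} [Fintype δ] [DecidableEq δ]
variable {k K : Type*} [Field k] [Field K] [Algebra k K]
variable {arm : δ → Fin 3} {J : Matrix ι ι K} {B : Matrix δ δ K}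
  {N W : Submodule K (Matrix ι δ K)} {g f : Matrix ι δ K}
  {p : Matrix ι ι K × (Fin 3 → Matrix ι ι K)}

/-- the `K^δ`-frame `U` of a block over the `V`-level frame `Q` : `g U = Q π`. -/
structure UB (arm : δ → Fin 3) (J : Matrix ι ι K) (B : Matrix δ δ K) (g : Matrix ι δ K)
    (X : Matrix ι ι K) (Qs : Submodule K (δ → K)) {n m : ℕ} (Q : Matrix ι (Fin n) K)
    (A : Fin 3 → Matrix (Fin n) (Fin n) K) (U : Matrix δ (Fin m) K)
    (Om : Fin 3 → Matrix (Fin m) (Fin m) K) (π : Matrix (Fin n) (Fin m) K) : Prop where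
  col : Cq Qs U
  span : ∀ u ∈ Qs, ∃ x, u = U *ᵥ x
  mem : ∀ x, U *ᵥ x ∈ Qs
  inj : ∀ x, U *ᵥ x = 0 → x = 0
  om : ∀ s, B * E K arm s * (gᵀ * J * (X * g)) * U = U * Om s
  gU : g * U = Q * π
  onto : ∀ y, ∃ x, π *ᵥ x = y
  act : ∀ s, A s * π = π * Om s
  ker : ∀ x, π *ᵥ x = 0 → ∀ s, Om s *ᵥ x = 0
  perf : ∀ x, ∃ c : Fin 3 → (Fin m → K), ∑ s, Om s *ᵥ c s = x

theorem exists_UB [IsAlgClosed K] (h : Ctx k arm J B N W g) {R : Matrix δ ι K}
    (hR : g * R * g = g) {D : End K (CoreM (PhS arm J B g R p.1))}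
    (hD : IsD (PhS arm J B g R p.1) (Nh arm J B g f R p.1) D) {ν : K} {l : Fin 3 → ℕ} {n : ℕ}
    {Q : Matrix ι (Fin n) K} {A : Fin 3 → Matrix (Fin n) (Fin n) K}
    (b : BPkg arm J B g R p.1 D ν l Q A) :
    ∃ (m : ℕ) (U : Matrix δ (Fin m) K) (Om : Fin 3 → Matrix (Fin m) (Fin m) K)
      (π : Matrix (Fin n) (Fin m) K),
      UB arm J B g p.1 (Qb h.data hR p.1 D ν) Q A U Om π := by
  obtain ⟨m, U, Om, hU, hspan, hmem, hinj, hom⟩ := exists_frame h hR hD ν
  have hmap : (Qb h.data hR p.1 D ν).map (gS g) = PB (PhS arm J B g R p.1) D ν :=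
    Qb_map h hR hD ν
  -- columns of `g U`
  have hcol : ∀ j, ∃ x, g *ᵥ (fun d => U d j) = Q *ᵥ x := by
    intro j
    have h1 : gS g (fun d => U d j) ∈ PB (PhS arm J B g R p.1) D ν := by
      rw [← hmap]; exact Submodule.mem_map_of_mem (hU j)
    obtain ⟨x, hx⟩ := b.span _ h1
    exact ⟨x, hx⟩
  choose x hx using hcol
  set π : Matrix (Fin n) (Fin m) K := Matrix.of fun a j => x j a with hπ
  have hgU : g * U = Q * π := by
    ext i j
    exact congrFun (hx j) i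
  have hQinj : ∀ v w, Q *ᵥ v = Q *ᵥ w → v = w := by
    intro v w hvw
    have h1 : Q *ᵥ (v - w) = 0 := by rw [mulVec_sub, hvw, sub_self]
    exact sub_eq_zero.1 (b.inj _ h1)
  have hgUv : ∀ v, g *ᵥ (U *ᵥ v) = Q *ᵥ (π *ᵥ v) := by
    intro v
    rw [mulVec_mulVec, hgU, ← mulVec_mulVec]
  have honto : ∀ y, ∃ v, π *ᵥ v = y := by
    intro y
    obtain ⟨w, hw, hwy⟩ := b.mem y
    rw [← hmap] at hw
    obtain ⟨u, hu, rfl⟩ := hw
    obtain ⟨v, rfl⟩ := hspan u hu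
    refine ⟨v, hQinj _ _ ?_⟩
    rw [← hgUv, ← hwy]
    rfl
  have hBE := h.data.B_arm
  have hact : ∀ s, A s * π = π * Om s := by
    intro s
    have h1 : Q * (A s * π) = Q * (π * Om s) := by
      calc Q * (A s * π) = (Q * A s) * π := by rw [Matrix.mul_assoc]
        _ = M arm B s g g * (J * p.1) * Q * π := by rw [← b.act s]
        _ = M arm B s g g * (J * p.1) * (g * U) := by rw [Matrix.mul_assoc _ Q, ← hgU]
        _ = g * (E K arm s * B) * (gᵀ * J * (p.1 * g)) * U := by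
            unfold M; simp only [Matrix.mul_assoc]
        _ = g * (B * E K arm s * (gᵀ * J * (p.1 * g)) * U) := by
            rw [hBE]; simp only [Matrix.mul_assoc]
        _ = (g * U) * Om s := by rw [hom, Matrix.mul_assoc]
        _ = _ := by rw [hgU, Matrix.mul_assoc]
    ext a j
    have h2 : ∀ C : Matrix (Fin n) (Fin m) K, (Q * C) *ᵥ (Pi.single j 1) =
        Q *ᵥ (C *ᵥ Pi.single j 1) := fun C => by rw [mulVec_mulVec]
    have h3 := hQinj ((A s * π) *ᵥ Pi.single j 1) ((π * Om s) *ᵥ Pi.single j 1) (by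
      rw [← h2, ← h2, h1])
    have h4 := congrFun h3 a
    simpa using h4
  refine ⟨m, U, Om, π, hU, hspan, hmem, hinj, hom, hgU, honto, hact, fun v hv s => ?_,
    fun v => ?_⟩
  · apply hinj
    rw [mulVec_mulVec, ← hom s]
    have h1 : B * E K arm s * (gᵀ * J * (p.1 * g)) * U
        = B * E K arm s * (gᵀ * J * p.1) * (g * U) := by simp only [Matrix.mul_assoc]
    rw [h1, hgU, ← mulVec_mulVec, ← mulVec_mulVec v Q π, hv, mulVec_zero, mulVec_zero]
  · obtain ⟨c, hc, hcs⟩ := Qb_exists h hR hD (hmem v)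
    choose c' hc' using fun s => hspan _ (hc s)
    refine ⟨c', ?_⟩
    have h1 : U *ᵥ (∑ s, Om s *ᵥ c' s - v) = 0 := by
      rw [mulVec_sub, sub_eq_zero, ← hcs, mulVec_sum]
      refine Finset.sum_congr rfl fun s _ => ?_
      rw [mulVec_mulVec, ← hom s, ← mulVec_mulVec, ← hc' s]
      rfl
    exact sub_eq_zero.1 (hinj _ h1)

end ub

section inst

variable {ι : Type} [Fintype ι] [DecidableEq ι] {δ : Type} [Fintype δ] [DecidableEq δ]
variable {K : Type} [Field K] [Algebra ℂ K] [IsAlgClosed K]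
variable {arm : δ → Fin 3} {J : Matrix ι ι K} {B : Matrix δ δ K}
  {N W : Submodule K (Matrix ι δ K)} {F f : Matrix ι δ K}
  {P : Matrix ι ι K × (Fin 3 → Matrix ι ι K)} {R : Matrix δ ι K}
  {D : End K (CoreM (PhS arm J B F R P.1))} {l : Fin 3 → ℕ}

/-- `f` is isotropic -/
theorem ff (S : Setup arm J B N W F f P R D l) : fᵀ * J * f = 0 :=
  (S.hCtx f S.hf).iso

theorem two_ne' : (2 : K) ≠ 0 := by
  have : (2 : K) = algebraMap ℂ K 2 := by rw [map_ofNat]
  rw [this]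
  exact (map_ne_zero (algebraMap ℂ K)).2 two_ne_zero

/-- **the family `P_t`** -/
theorem family (S : Setup arm J B N W F f P R D l) :
    ∃ (Y : Matrix δ δ K) (dY : Derivation ℂ K K), Yᵀ * B + B * Y = 0 ∧
      Realises arm N W (0 : Fin 3 → Matrix ι ι K) Y dY ∧
      Fᵀ * J * F.map dY = Fᵀ * J * (P.1 * F) ∧
      ∀ t : ℂ, ∃ Pt ∈ NN arm J N (F + (algebraMap ℂ K t) • f),
        Vert ℂ arm J N W (F + (algebraMap ℂ K t) • f) Pt ∧
        (∀ f' ∈ N ⊓ W, (F + (algebraMap ℂ K t) • f)ᵀ * J * (Pt.1 * f') =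
          (F + (algebraMap ℂ K t) • f)ᵀ * J * f'.map dY) ∧
        (F + (algebraMap ℂ K t) • f)ᵀ * J * (Pt.1 * F) =
          (F + (algebraMap ℂ K t) • f)ᵀ * J * (P.1 * F) ∧
        ∀ w : Matrix ι δ K, (F + (algebraMap ℂ K t) • f)ᵀ * J * w = 0 →
          (Pt.1 * (F + (algebraMap ℂ K t) • f))ᵀ * J * w =
            -((F + (algebraMap ℂ K t) • f)ᵀ * J * w.map dY) :=
  PTy.exists_family two_ne' S.hCtx S.hNm S.hWm S.hF S.hf S.hV1 S.hP S.hV2

/-- **`Fr` and `K1`** at `H = F + t f`, `P_t` -/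
theorem fr_k1 (S : Setup arm J B N W F f P R D l) {ν ν' : K} (hne : ν ≠ ν') {m1 m2 : ℕ}
    {U1 : Matrix δ (Fin m1) K} {U2 : Matrix δ (Fin m2) K}
    (hU1 : Cq (Qb (S.hCtx F S.hF).data S.hR P.1 D ν) U1)
    (hU2 : Cq (Qb (S.hCtx F S.hF).data S.hR P.1 D ν') U2) {a : K} {Pt : Matrix ι ι K}
    {dY : Derivation ℂ K K}
    (hY : ∀ f' ∈ N ⊓ W, (F + a • f)ᵀ * J * (Pt * f') = (F + a • f)ᵀ * J * f'.map dY)
    (hPF : (F + a • f)ᵀ * J * (Pt * F) = (F + a • f)ᵀ * J * (P.1 * F))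
    (hc1 : 1 + a * ν ≠ 0) (hc2 : 1 + a * ν' ≠ 0) :
    SUX.Fr J F (F + a • f) Pt (Fᵀ * J * (P.1 * F)) (1 + a * ν) (1 + a * ν') U1 U2 ∧
    SUX.K1 J F (F + a • f) Pt (Fᵀ * J * (P.1 * F)) (1 + a * ν) U1 U2
      ((ν - ν')⁻¹ • (f - ν' • F)) :=
  ⟨UFr.fr (S.hCtx F S.hF) S.hR S.hD (S.hNil F S.hF) S.hP S.hf.1 (ff S) hY hPF hne hc1 hc2 hU1 hU2,
    UFr.k1 (S.hCtx F S.hF) S.hR S.hD (S.hNil F S.hF) S.hP S.hf.1 (ff S) hY hPF hne hU1 hU2⟩

/-- the U-frames of a block package -/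
theorem exists_ub (S : Setup arm J B N W F f P R D l) {ν : K} {n : ℕ}
    {Q : Matrix ι (Fin n) K} {A : Fin 3 → Matrix (Fin n) (Fin n) K}
    (b : BPkg arm J B F R P.1 D ν l Q A) :
    ∃ (m : ℕ) (U : Matrix δ (Fin m) K) (Om : Fin 3 → Matrix (Fin m) (Fin m) K)
      (π : Matrix (Fin n) (Fin m) K),
      UB arm J B F P.1 (Qb (S.hCtx F S.hF).data S.hR P.1 D ν) Q A U Om π :=
  exists_UB (S.hCtx F S.hF) S.hR S.hD b

/-- for almost all `t : ℂ`, `1 + t ν ≠ 0` -/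
theorem good_t (ν : K) : {t : ℂ | 1 + algebraMap ℂ K t * ν = 0}.Subsingleton := by
  intro t ht t' ht'
  have h1 : algebraMap ℂ K t * ν = algebraMap ℂ K t' * ν := by
    have h2 : (1 : K) + algebraMap ℂ K t * ν = 1 + algebraMap ℂ K t' * ν := by
      rw [show (1 : K) + algebraMap ℂ K t * ν = 0 from ht,
        show (1 : K) + algebraMap ℂ K t' * ν = 0 from ht']
    exact add_left_cancel h2
  have hν : ν ≠ 0 := by
    rintro rfl
    have h3 : (1 : K) + algebraMap ℂ K t * 0 = 0 := ht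
    rw [mul_zero, add_zero] at h3
    exact one_ne_zero h3
  exact (algebraMap ℂ K).injective (mul_right_cancel₀ hν h1)

end inst

end Crest.Agent.R172.SInst896
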