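import Crest.Agent.R172.SUX1
import Crest.Agent.R172.PTt

/-!
Row 172 (S0260), (t2): the correction `w = wd q` of a move at `(H, P)` is perpendicular to the
whole `𝒦iso` (`PTt.alpha_zero`): `f'ᵀ J w = 0` for all `f' ∈ 𝒦iso`, if `q Y_r ∈ H · Mat`.
-/

set_option autoImplicit false
set_option linter.unusedSectionVars false
set_option linter.unusedFintypeInType false
set_option linter.unusedDecidableInType false

namespace Crest.Agent.R172.SPerp72

open Matrix Module Crest.Agent.R172.FO Crest.Agent.R172.Qt Crest.Agent.R172.SpS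
  Crest.Agent.R172.SUX
open Crest.Agent.R172.Om (Kiso)

variable {ι : Type*} [Fintype ι] [DecidableEq ι] {δ : Type*} [Fintype δ] [DecidableEq δ]
variable {k K : Type*} [Field k] [Field K] [Algebra k K]
variable {arm : δ → Fin 3} {J : Matrix ι ι K} {B : Matrix δ δ K}
  {N W : Submodule K (Matrix ι δ K)} {H : Matrix ι δ K}
  {P : Matrix ι ι K × (Fin 3 → Matrix ι ι K)} {Y : Fin 3 → Matrix δ δ K}
  {d : Derivation k K K}

/-- **first level**: `q ∈ N ∩ W`, `Hᵀ J q = 0`, `q Y_r = H G_r` (all `r`): then `w = wd q` is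
`≡ H C` modulo `N`, and perpendicular to `𝒦iso`. -/
theorem wd_perp (h : Ctx k arm J B N W H) (m : Mv k arm J N W H P.1 Y d)
    (hNm : ∀ F, (∀ F' ∈ N, pair J B F' F = 0) → F ∈ N)
    (hWm : ∀ F, (∀ F' ∈ W, pair J B F' F = 0) → F ∈ W) {q : Matrix ι δ K} (hqN : q ∈ N)
    (hqW : q ∈ W) (hq : Hᵀ * J * q = 0) {G : Fin 3 → Matrix δ δ K}
    (hG : ∀ r, q * Y r = H * G r) {f' : Matrix ι δ K} (hf' : f' ∈ Kiso J N W) :
    f'ᵀ * J * wd arm J H P.1 Y d q = 0 := by
  have h1 := m.first hqN hq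
  set w := wd arm J H P.1 Y d q with hw
  refine PTt.alpha_zero h hf' hNm hWm (α := w)
    (ν := ∑ r, (q * Y r * th J H P.1 H - H * Y r * th J H P.1 q) * E K arm r + w)
    (C := -∑ r, (G r * th J H P.1 H - Y r * th J H P.1 q) * E K arm r)
    (m.w_mem hqW) h1 ?_ (m.w_perp h hq)
  rw [Matrix.mul_neg, Matrix.mul_sum]
  have e : ∑ r, (q * Y r * th J H P.1 H - H * Y r * th J H P.1 q) * E K arm r
      = ∑ r, H * ((G r * th J H P.1 H - Y r * th J H P.1 q) * E K arm r) := by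
    refine Finset.sum_congr rfl fun r _ => ?_
    rw [hG r]
    simp only [Matrix.mul_sub, Matrix.sub_mul, Matrix.mul_assoc]
  rw [e]
  abel

/-- **second level**: `w ∈ W`, `Hᵀ J w = 0`, `H C₀ - w ∈ N`, `w Y_r = H G_r` (all `r`): then
`w'' = wd w` is perpendicular to `𝒦iso`. -/
theorem wd_perp2 (h : Ctx k arm J B N W H) (m : Mv k arm J N W H P.1 Y d)
    (hNm : ∀ F, (∀ F' ∈ N, pair J B F' F = 0) → F ∈ N)
    (hWm : ∀ F, (∀ F' ∈ W, pair J B F' F = 0) → F ∈ W) {w : Matrix ι δ K}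
    (hwW : w ∈ W) (hw : Hᵀ * J * w = 0) {C₀ : Matrix δ δ K} (hC₀ : H * C₀ - w ∈ N)
    {G : Fin 3 → Matrix δ δ K} (hG : ∀ r, w * Y r = H * G r) {f' : Matrix ι δ K}
    (hf' : f' ∈ Kiso J N W) :
    f'ᵀ * J * wd arm J H P.1 Y d w = 0 := by
  have hV0 : Hᵀ * J * (H * C₀ - w) = 0 := by
    rw [Matrix.mul_sub, hw, sub_zero, ← Matrix.mul_assoc, h.iso, Matrix.zero_mul]
  have h1 := m.n_mem hC₀ hV0
  set Z : Matrix δ δ K := ZY arm J H P.1 Y with hZ
  set w2 := wd arm J H P.1 Y d w with hw2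
  have hdw : w.map d = w * Z + w2 := by rw [hw2]; unfold wd; rw [← hZ]; abel
  have hdV : (H * C₀ - w).map d = H * (Z * C₀ + C₀.map d) - (w * Z + w2) := by
    rw [map_sub_der, hdw, map_mul_der, m.dH, ← hZ]
    simp only [Matrix.mul_add, Matrix.mul_assoc]
  have hwZ : w * Z = H * ∑ r, G r * th J H P.1 H * E K arm r := by
    rw [hZ, H_ZY, Matrix.mul_sum]
    refine Finset.sum_congr rfl fun r _ => ?_
    rw [hG r]
    simp only [Matrix.mul_assoc]
  have hsum : ∑ r, H * Y r * th J H P.1 (H * C₀ - w) * E K arm r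
      = H * ∑ r, Y r * th J H P.1 (H * C₀ - w) * E K arm r := by
    rw [Matrix.mul_sum]
    exact Finset.sum_congr rfl fun r _ => by simp only [Matrix.mul_assoc]
  rw [hdV, hwZ, hsum] at h1
  have h2 := N.neg_mem h1
  refine PTt.alpha_zero h hf' hNm hWm (α := w2) (ν := _)
    (C := (Z * C₀ + C₀.map d) - ∑ r, G r * th J H P.1 H * E K arm r
      - ∑ r, Y r * th J H P.1 (H * C₀ - w) * E K arm r)
    (m.w_mem hwW) h2 ?_ (m.w_perp h hw)
  simp only [Matrix.mul_sub, Matrix.mul_add]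
  abel

end Crest.Agent.R172.SPerp72
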