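import Crest.Agent.R172.SDec2
import Crest.Agent.R172.SDecP70
import Crest.Agent.R172.SUniq803
import Crest.Agent.R172.SMv16
import Crest.Agent.R172.SB2H16
import Crest.Agent.R172.SZb978
import Crest.Agent.R172.SUX7
import Crest.Agent.R172.SPerp72
import Crest.Agent.R172.SWd275
import Crest.Agent.R172.SInst896
import Crest.Agent.R172.SUX6w946
import Crest.Agent.R172.SLevA455
import Crest.Agent.R172.SNabI934
import Crest.Agent.R172.SInf266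
import Crest.Agent.R172.SLev2a
import Crest.Agent.R172.SB4x117

/-!
Row 172 (S0260), (t2), level 2: the geometric half `SDec.Geo22` (copy of helper612).
-/

set_option autoImplicit false
set_option linter.unusedSectionVars false
set_option linter.unusedVariables false
set_option maxHeartbeats 1600000

namespace Crest.Agent.R172.SGeo612

open Matrix Module Crest.Agent.R172.FO Crest.Agent.R172.Qt Crest.Agent.R172.SpS
open Crest.Agent.R172.SEnd2 (PC PhS)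
open Crest.Agent.R172.SUX
open Crest.Agent.R172.PL (CoreM Ainf)
open Crest.Agent.R172.Om (Kiso)
open Crest.Agent.R172.UBlk (Qb om cov)
open Crest.Agent.R172.UFr (Cq)
open Crest.Agent.R172.STop (Setup)
open Crest.Agent.R172.SCM (BPkg)
open Crest.Agent.R172.SDec (Dec Rel2 ZB)
open Crest.Agent.R172.SMv16 (Yf)

variable {ι : Type} [Fintype ι] [DecidableEq ι] {δ : Type} [Fintype δ] [DecidableEq δ]
variable {K : Type} [Field K] [Algebra ℂ K] [IsAlgClosed K]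
variable {arm : δ → Fin 3} {J : Matrix ι ι K} {B : Matrix δ δ K}
  {N W : Submodule K (Matrix ι δ K)} {F f : Matrix ι δ K}
  {P : Matrix ι ι K × (Fin 3 → Matrix ι ι K)} {R : Matrix δ ι K}
  {D : End K (CoreM (PhS arm J B F R P.1))} {l : Fin 3 → ℕ}
  {ν ν' : K} {m1 m2 : ℕ} {U1 : Matrix δ (Fin m1) K} {U2 : Matrix δ (Fin m2) K}
  {a1 : Fin 3 → Matrix (Fin m1) (Fin m1) K} {a2 : Fin 3 → Matrix (Fin m2) (Fin m2) K}

/-- data at a good parameter -/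
structure At (S : Setup arm J B N W F f P R D l) (dY : Derivation ℂ K K) (ν ν' : K) (t : ℂ)
    (Pt : Matrix ι ι K × (Fin 3 → Matrix ι ι K)) : Prop where
  mem : Pt ∈ NN arm J N (F + (algebraMap ℂ K t) • f)
  vert : Vert ℂ arm J N W (F + (algebraMap ℂ K t) • f) Pt
  hY : ∀ f' ∈ N ⊓ W, (F + (algebraMap ℂ K t) • f)ᵀ * J * (Pt.1 * f') =
          (F + (algebraMap ℂ K t) • f)ᵀ * J * f'.map dY
  hPF : (F + (algebraMap ℂ K t) • f)ᵀ * J * (Pt.1 * F) =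
          (F + (algebraMap ℂ K t) • f)ᵀ * J * (P.1 * F)
  row : ∀ w : Matrix ι δ K, (F + (algebraMap ℂ K t) • f)ᵀ * J * w = 0 →
          (Pt.1 * (F + (algebraMap ℂ K t) • f))ᵀ * J * w =
            -((F + (algebraMap ℂ K t) • f)ᵀ * J * w.map dY)
  ainf : Ainf (om arm J B (F + (algebraMap ℂ K t) • f) Pt.1 (F + (algebraMap ℂ K t) • f)) ≤
    Ainf (om arm J B F P.1 F)
  hc : ∀ κ, ((cov (S.hCtx F S.hF).data S.hR P.1).D D).maxGenEigenspace κ ≠ ⊥ →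
    1 + algebraMap ℂ K t * κ ≠ 0
  hom : SNab.Hom0 (om arm J B F P.1 F) ((cov (S.hCtx F S.hF).data S.hR P.1).D D)
    (fun κ => (1 + algebraMap ℂ K t * κ) ^ 2)
  t0 : t ≠ 0
  c1 : 1 + algebraMap ℂ K t * ν ≠ 0
  c2 : 1 + algebraMap ℂ K t * ν' ≠ 0

/-- the two frames -/
structure Frm (S : Setup arm J B N W F f P R D l) (ν ν' : K) (U1 : Matrix δ (Fin m1) K)
    (U2 : Matrix δ (Fin m2) K) (a1 : Fin 3 → Matrix (Fin m1) (Fin m1) K)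
    (a2 : Fin 3 → Matrix (Fin m2) (Fin m2) K) : Prop where
  ne : ν ≠ ν'
  hU1 : Cq (Qb (S.hCtx F S.hF).data S.hR P.1 D ν) U1
  hs1 : ∀ u ∈ Qb (S.hCtx F S.hF).data S.hR P.1 D ν, ∃ x, u = U1 *ᵥ x
  hi1 : ∀ x, U1 *ᵥ x = 0 → x = 0
  ha1 : ∀ s, B * E K arm s * (Fᵀ * J * (P.1 * F)) * U1 = U1 * a1 s
  hU2 : Cq (Qb (S.hCtx F S.hF).data S.hR P.1 D ν') U2
  hs2 : ∀ u ∈ Qb (S.hCtx F S.hF).data S.hR P.1 D ν', ∃ x, u = U2 *ᵥ x
  hi2 : ∀ x, U2 *ᵥ x = 0 → x = 0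
  ha2 : ∀ s, B * E K arm s * (Fᵀ * J * (P.1 * F)) * U2 = U2 * a2 s

theorem kH (S : Setup arm J B N W F f P R D l) (t : K) : F + t • f ∈ Kiso J N W :=
  (Kiso J N W).add_mem S.hF ((Kiso J N W).smul_mem _ S.hf)

/-- a move with everything -/
structure Mo (S : Setup arm J B N W F f P R D l) (ν ν' : K) (U1 : Matrix δ (Fin m1) K)
    (U2 : Matrix δ (Fin m2) K) (t : ℂ) (Pt : Matrix ι ι K × (Fin 3 → Matrix ι ι K))
    (X : Fin 3 → Matrix (Fin m2) (Fin m1) K) (d : Derivation ℂ K K)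
    (Γ1 : Matrix (Fin m1) (Fin m1) K) (Γ2 : Matrix (Fin m2) (Fin m2) K)
    (β : Matrix (Fin m1) (Fin m2) K) (γ : Matrix (Fin m2) (Fin m1) K) : Prop where
  mv : Mv ℂ arm J N W (F + (algebraMap ℂ K t) • f) Pt.1 (Yf U1 U2 X) d
  n2 : U2.map d + ZY arm J (F + (algebraMap ℂ K t) • f) Pt.1 (Yf U1 U2 X) * U2 =
    U2 * Γ2 + (1 + algebraMap ℂ K t * ν') ^ 2 • (U1 * β)
  n1 : U1.map d + ZY arm J (F + (algebraMap ℂ K t) • f) Pt.1 (Yf U1 U2 X) * U1 =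
    U1 * Γ1 + (1 + algebraMap ℂ K t * ν) ^ 2 • (U2 * γ)
  n3 : ∀ κ, κ ≠ ν → κ ≠ ν' → ∀ u ∈ Qb (S.hCtx F S.hF).data S.hR P.1 D κ,
    SUB.nab arm J (F + (algebraMap ℂ K t) • f) Pt.1 (Yf U1 U2 X) d u ∈
      Qb (S.hCtx F S.hF).data S.hR P.1 D κ

theorem exists_mo (S : Setup arm J B N W F f P R D l) {dY : Derivation ℂ K K}
    (fr : Frm S ν ν' U1 U2 a1 a2) {t : ℂ} {Pt : Matrix ι ι K × (Fin 3 → Matrix ι ι K)}
    (A : At S dY ν ν' t Pt) {r : K}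
    (hr : r = (1 + algebraMap ℂ K t * ν') / (1 + algebraMap ℂ K t * ν))
    {X : Fin 3 → Matrix (Fin m2) (Fin m1) K}
    (hsum : ∑ s, (X s * (a1 s)ᵀ - (-(r ^ 2)) • (a2 s * X s)) = 0)
    (harm : ∀ s, (U2ᵀ * (Fᵀ * J * (P.1 * F)) * U2) * (X s * (a1 s)ᵀ - (-(r ^ 2)) • (a2 s * X s)) *
          (U1ᵀ * (Fᵀ * J * (P.1 * F)) * U1) = 0) :
    ∃ d Γ1 Γ2 β γ, Mo S ν ν' U1 U2 t Pt X d Γ1 Γ2 β γ ∧
      Dec F (Fᵀ * J * (P.1 * F)) U1 U2 a1 a2 (-(r ^ 2)) (X, β, γ) ∧ ZB F U1 U2 (X, β, γ) := by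
  have hH := S.hCtx _ (kH S (algebraMap ℂ K t))
  obtain ⟨hfr, hk⟩ := SInst896.fr_k1 S fr.ne fr.hU1 fr.hU2 A.hY A.hPF A.c1 A.c2
  obtain ⟨Ri, hRi⟩ := SInf266.exists_ginv (F + (algebraMap ℂ K t) • f)
  obtain ⟨d, m⟩ := SMv16.exists_mv hH SInst896.two_ne' hRi A.mem A.vert hfr fr.ha1 fr.ha2 hr hsum
  have hc1 := A.c1
  have hc2 := A.c2
  obtain ⟨i1, i2, i3⟩ := SNabI.B1 (S.hCtx F S.hF) S.hR S.hD (S.hNil F S.hF) S.hP S.hf.1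
    (SInst896.ff S) hH A.mem A.hY A.hPF A.ainf A.hc A.hom SMv16.Yf_symm m fr.ne fr.hU1 fr.hU2
    fr.hs1 fr.hs2 fr.ha1 fr.ha2 (fun _ => rfl) (fun s => by
      have h1 := harm s
      have h2 : (1 + algebraMap ℂ K t * ν) ^ 2 • (X s * (a1 s)ᵀ) +
          (1 + algebraMap ℂ K t * ν') ^ 2 • (a2 s * X s) =
          (1 + algebraMap ℂ K t * ν) ^ 2 • (X s * (a1 s)ᵀ - (-(r ^ 2)) • (a2 s * X s)) := by
        rw [hr, smul_sub, smul_smul, neg_eq_neg_one_mul, ← mul_assoc]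
        have : (1 + algebraMap ℂ K t * ν) ^ 2 * -1 *
            ((1 + algebraMap ℂ K t * ν') / (1 + algebraMap ℂ K t * ν)) ^ 2 =
            -((1 + algebraMap ℂ K t * ν') ^ 2) := by
          field_simp
        rw [this, neg_smul, sub_neg_eq_add]
      rw [h2, Matrix.mul_smul, Matrix.smul_mul, h1, smul_zero])
  have hne : (1 + algebraMap ℂ K t * ν) ≠ (1 + algebraMap ℂ K t * ν') := SMv16.c_ne A.t0 fr.ne
  obtain ⟨Γ1, Γ2, β, γ, hN2, hN1, hdec⟩ := SB2H16.dec_of_B1 (J := J) hH A.mem m hfr hne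
    fr.hU1 fr.hs1 fr.ha1 (fun u hu => by
      obtain ⟨c, hc, hs⟩ := UBlk.Qb_exists (S.hCtx F S.hF) S.hR S.hD hu
      exact ⟨c, hc, hs⟩)
    fr.hU2 fr.hs2 fr.ha2 (fun u hu => by
      obtain ⟨c, hc, hs⟩ := UBlk.Qb_exists (S.hCtx F S.hF) S.hR S.hD hu
      exact ⟨c, hc, hs⟩)
    (fun _ => rfl) i1 i2 hr hsum harm
  refine ⟨d, Γ1, Γ2, β, γ, ⟨m, hN2, hN1, i3⟩, hdec, ?_, ?_⟩
  · exact SZb978.zb hH.memW m.dH hfr (fun v _ => by rw [hN2])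
  · exact SZb978.zk hH.memW m.dH hfr (fun v _ => by rw [hN1])

theorem hcQ (S : Setup arm J B N W F f P R D l) {dY : Derivation ℂ K K} {t : ℂ}
    {Pt : Matrix ι ι K × (Fin 3 → Matrix ι ι K)} (A : At S dY ν ν' t Pt) (κ : K)
    (hb : Qb (S.hCtx F S.hF).data S.hR P.1 D κ ≠ ⊥) : 1 + algebraMap ℂ K t * κ ≠ 0 :=
  A.hc κ fun h0 => hb (STop.PB_bot ((cov (S.hCtx F S.hF).data S.hR P.1).D_comm S.hD.2) h0)

/-- the submodule of the third block values -/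
def W3 (S : Setup arm J B N W F f P R D l) (ν ν' : K) : Submodule K (Matrix ι δ K) where
  carrier := {w | w ∈ W ∧ ∀ κ, κ ≠ ν → κ ≠ ν' → ∃ μ : K,
    ∀ u ∈ Qb (S.hCtx F S.hF).data S.hR P.1 D κ, w *ᵥ u = μ • (F *ᵥ u)}
  zero_mem' := ⟨W.zero_mem, fun κ _ _ => ⟨0, fun u _ => by simp⟩⟩
  add_mem' := by
    rintro w w' ⟨h1, h2⟩ ⟨h1', h2'⟩
    refine ⟨W.add_mem h1 h1', fun κ hκ hκ' => ?_⟩
    obtain ⟨m, hm⟩ := h2 κ hκ hκ'
    obtain ⟨m', hm'⟩ := h2' κ hκ hκ'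
    exact ⟨m + m', fun u hu => by rw [add_mulVec, hm u hu, hm' u hu, add_smul]⟩
  smul_mem' := by
    rintro c w ⟨h1, h2⟩
    refine ⟨W.smul_mem c h1, fun κ hκ hκ' => ?_⟩
    obtain ⟨m, hm⟩ := h2 κ hκ hκ'
    exact ⟨c * m, fun u hu => by rw [smul_mulVec, hm u hu, smul_smul]⟩

theorem third_val (S : Setup arm J B N W F f P R D l) {a : K}
    {Pt : Matrix ι ι K × (Fin 3 → Matrix ι ι K)}
    {Y : Fin 3 → Matrix δ δ K} {d : Derivation ℂ K K}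
    (m : Mv ℂ arm J N W (F + a • f) Pt.1 Y d) {κ μ : K} (hc : 1 + a * κ ≠ 0)
    (hN3 : ∀ u ∈ Qb (S.hCtx F S.hF).data S.hR P.1 D κ, SUB.nab arm J (F + a • f) Pt.1 Y d u ∈
      Qb (S.hCtx F S.hF).data S.hR P.1 D κ) {w : Matrix ι δ K}
    (L3 : ∀ u ∈ Qb (S.hCtx F S.hF).data S.hR P.1 D κ, w *ᵥ u = μ • (F *ᵥ u)) {u : δ → K}
    (hu : u ∈ Qb (S.hCtx F S.hF).data S.hR P.1 D κ) :
    wd arm J (F + a • f) Pt.1 Y d w *ᵥ u = (d μ - μ * (d (1 + a * κ) / (1 + a * κ))) • (F *ᵥ u) := by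
  have hu' := hN3 u hu
  have hh : ∀ v ∈ Qb (S.hCtx F S.hF).data S.hR P.1 D κ, (F + a • f) *ᵥ v =
      (1 + a * κ) • (F *ᵥ v) := fun v hv =>
    UBlk.Qb_H (S.hCtx F S.hF) S.hR S.hD (S.hNil F S.hF) S.hP S.hf.1 hv
  have a1 := SUB.H_nab m u
  rw [hh _ hu, hh _ hu', SUB.dv_smul] at a1
  have a2 : dv d (F *ᵥ u) = F *ᵥ SUB.nab arm J (F + a • f) Pt.1 Y d u -
      (d (1 + a * κ) / (1 + a * κ)) • (F *ᵥ u) := by
    have a3 : (1 + a * κ) • dv d (F *ᵥ u) =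
        (1 + a * κ) • (F *ᵥ SUB.nab arm J (F + a • f) Pt.1 Y d u) -
          d (1 + a * κ) • (F *ᵥ u) := eq_sub_of_add_eq a1
    have a4 := congrArg (fun x => (1 + a * κ)⁻¹ • x) a3
    simp only [smul_smul, smul_sub, inv_mul_cancel₀ hc, one_smul] at a4
    rw [a4, div_eq_inv_mul]
  have a5 := SUB.F_nab (arm := arm) (J := J) (H := F + a • f) (Y := Y) (d := d) Pt.1 w u
  rw [L3 u hu, L3 _ hu', SUB.dv_smul, a2] at a5
  have a6 : wd arm J (F + a • f) Pt.1 Y d w *ᵥ u =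
      (μ • (F *ᵥ SUB.nab arm J (F + a • f) Pt.1 Y d u - (d (1 + a * κ) / (1 + a * κ)) •
        (F *ᵥ u)) + d μ • (F *ᵥ u)) - μ • (F *ᵥ SUB.nab arm J (F + a • f) Pt.1 Y d u) := by
    rw [a5]; abel
  rw [a6]
  module

theorem hrowA (S : Setup arm J B N W F f P R D l) {dY : Derivation ℂ K K} {t : ℂ}
    {Pt : Matrix ι ι K × (Fin 3 → Matrix ι ι K)} (A : At S dY ν ν' t Pt) {w : Matrix ι δ K}
    (hw : (F + (algebraMap ℂ K t) • f)ᵀ * J * w = 0) :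
    (F + (algebraMap ℂ K t) • f)ᵀ * J * (Pt.1 * w) =
      (F + (algebraMap ℂ K t) • f)ᵀ * J * w.map dY := by
  have h1 := A.row w hw
  rw [SRow.skw_tr A.mem.1] at h1
  exact neg_injective h1

/-- **first level with third blocks** -/
theorem first_in (S : Setup arm J B N W F f P R D l) {dY : Derivation ℂ K K}
    (fr : Frm S ν ν' U1 U2 a1 a2) {t : ℂ} {Pt : Matrix ι ι K × (Fin 3 → Matrix ι ι K)}
    (A : At S dY ν ν' t Pt) {X : Fin 3 → Matrix (Fin m2) (Fin m1) K} {d : Derivation ℂ K K}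
    {Γ1 : Matrix (Fin m1) (Fin m1) K} {Γ2 : Matrix (Fin m2) (Fin m2) K}
    {β : Matrix (Fin m1) (Fin m2) K} {γ : Matrix (Fin m2) (Fin m1) K}
    (mo : Mo S ν ν' U1 U2 t Pt X d Γ1 Γ2 β γ) :
    I1 arm F (Fᵀ * J * (P.1 * F)) U1 U2 (X, β, γ) +
      ((1 + algebraMap ℂ K t * ν') / (1 + algebraMap ℂ K t * ν)) •
        I2 arm F (Fᵀ * J * (P.1 * F)) U1 U2 (X, β, γ) ∈
      QQ5 J N (W3 S ν ν') F f dY (Fᵀ * J * (P.1 * F)) U1 U2 := by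
  have hH := S.hCtx _ (kH S (algebraMap ℂ K t))
  obtain ⟨hfr, hk⟩ := SInst896.fr_k1 S fr.ne fr.hU1 fr.hU2 A.hY A.hPF A.c1 A.c2
  have hqm : (ν - ν')⁻¹ • (f - ν' • F) ∈ N ⊓ W :=
    (N ⊓ W).smul_mem _ ((N ⊓ W).sub_mem S.hf.1 ((N ⊓ W).smul_mem _ S.hF.1))
  have hqp := hH.perp _ hqm
  have hG : ∀ r, ((ν - ν')⁻¹ • (f - ν' • F)) * Yf U1 U2 X r = (F + (algebraMap ℂ K t) • f) *
      ((1 + algebraMap ℂ K t * ν)⁻¹ • (U1 * (X r)ᵀ * U2ᵀ)) := by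
    intro r
    have e1 : (F + (algebraMap ℂ K t) • f) *
        ((1 + algebraMap ℂ K t * ν)⁻¹ • (U1 * (X r)ᵀ * U2ᵀ)) = F * U1 * (X r)ᵀ * U2ᵀ := by
      rw [Matrix.mul_smul, ← Matrix.mul_assoc, ← Matrix.mul_assoc, hfr.H1, Matrix.smul_mul,
        Matrix.smul_mul, smul_smul, inv_mul_cancel₀ A.c1, one_smul]
    rw [e1]
    unfold SMv16.Yf
    rw [Matrix.mul_add, ← Matrix.mul_assoc, ← Matrix.mul_assoc, hk.q2, ← Matrix.mul_assoc,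
      ← Matrix.mul_assoc, hk.q1, Matrix.zero_mul, Matrix.zero_mul, zero_add]
  have hpp : ∀ f' ∈ Kiso J N W, f'ᵀ * J * wd arm J (F + (algebraMap ℂ K t) • f) Pt.1
      (Yf U1 U2 X) d ((ν - ν')⁻¹ • (f - ν' • F)) = 0 := fun f' hf' =>
    SPerp72.wd_perp hH mo.mv S.hNm S.hWm hqm.1 hqm.2 hqp hG hf'
  have hn2 : ∀ v ∈ W, v * (U2.map d + ZY arm J (F + (algebraMap ℂ K t) • f) Pt.1
      (Yf U1 U2 X) * U2) = v * (U2 * Γ2 + (1 + algebraMap ℂ K t * ν') ^ 2 • (U1 * β)) :=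
    fun v _ => by rw [mo.n2]
  have hn1 : ∀ v ∈ W, v * (U1.map d + ZY arm J (F + (algebraMap ℂ K t) • f) Pt.1
      (Yf U1 U2 X) * U1) = v * (U1 * Γ1 + (1 + algebraMap ℂ K t * ν) ^ 2 • (U2 * γ)) :=
    fun v _ => by rw [mo.n1]
  refine SUX6w946.first_memC hH A.mem mo.mv hqm hqp hfr hk (fun s v _ => rfl) hn2 hn1
    (hpp F S.hF) (hpp f S.hf) (hrowA S A (hpp _ (kH S _))) ?_
  refine ⟨mo.mv.w_mem hqm.2, fun κ hκ hκ' => ?_⟩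
  by_cases hb : Qb (S.hCtx F S.hF).data S.hR P.1 D κ = ⊥
  · refine ⟨0, fun u hu => ?_⟩
    rw [hb, Submodule.mem_bot] at hu
    rw [hu, mulVec_zero, mulVec_zero, smul_zero]
  · refine ⟨_, fun u hu => third_val S mo.mv (hcQ S A κ hb) (mo.n3 κ hκ hκ')
      (μ := (ν - ν')⁻¹ * (κ - ν')) (fun v hv => ?_) hu⟩
    have h1 := (UBlk.Qb_rel (S.hCtx F S.hF) S.hR S.hD (S.hNil F S.hF) S.hP S.hf.1 hv).1
    rw [smul_mulVec, sub_mulVec, smul_mulVec, h1, ← sub_smul, smul_smul]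

theorem S0skew (S : Setup arm J B N W F f P R D l) :
    (Fᵀ * J * (P.1 * F))ᵀ = -(Fᵀ * J * (P.1 * F)) :=
  UBlk.form_skew (S.hCtx F S.hF).data.J_symm S.hP

/-- invisible parts -/
theorem invis (S : Setup arm J B N W F f P R D l) (fr : Frm S ν ν' U1 U2 a1 a2) {c : K}
    (hc : c ≠ 0) {y y' : D3 K (Fin m1) (Fin m2)}
    (hy : Dec F (Fᵀ * J * (P.1 * F)) U1 U2 a1 a2 c y)
    (hy' : Dec F (Fᵀ * J * (P.1 * F)) U1 U2 a1 a2 c y') (hX : y.1 = y'.1) :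
    F * (U1 * (y.2.1 - y'.2.1)) = 0 ∧ (Fᵀ * J * (P.1 * F)) * (U1 * (y.2.1 - y'.2.1)) = 0 ∧
    F * (U2 * (y.2.2 - y'.2.2)) = 0 ∧ (Fᵀ * J * (P.1 * F)) * (U2 * (y.2.2 - y'.2.2)) = 0 := by
  obtain ⟨⟨h1, h2⟩, h3, h4⟩ := SUniq803.dec_uniq S fr.hU1 fr.hs1 fr.hi1 fr.ha1 fr.hU2 fr.hs2 fr.hi2
    fr.ha2 hc hy hy' hX
  refine ⟨?_, ?_, ?_, ?_⟩
  · rw [Matrix.mul_sub, Matrix.mul_sub, ← Matrix.mul_assoc, ← Matrix.mul_assoc, h1, sub_self]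
  · have e := h2 P.1
    rw [Matrix.mul_sub, Matrix.mul_sub, sub_eq_zero]
    simpa only [Matrix.mul_assoc] using e
  · rw [Matrix.mul_sub, Matrix.mul_sub, ← Matrix.mul_assoc, ← Matrix.mul_assoc, h3, sub_self]
  · have e := h4 P.1
    rw [Matrix.mul_sub, Matrix.mul_sub, sub_eq_zero]
    simpa only [Matrix.mul_assoc] using e

/-- **separation** -/
theorem sep (S : Setup arm J B N W F f P R D l) {dY : Derivation ℂ K K}
    (fr : Frm S ν ν' U1 U2 a1 a2) {Bad : Set ℂ} (hBad : Bad.Finite)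
    (hA : ∀ t ∉ Bad, ∃ Pt, At S dY ν ν' t Pt) :
    ∃ S' : Set K, S'.Finite ∧ ∀ c ∉ S', ∀ y, Dec F (Fᵀ * J * (P.1 * F)) U1 U2 a1 a2 c y →
      I1 arm F (Fᵀ * J * (P.1 * F)) U1 U2 y ∈
        QQ5 J N (W3 S ν ν') F f dY (Fᵀ * J * (P.1 * F)) U1 U2 := by
  have hΛ := SMv16.Lam_infinite (k := ℂ) hBad fr.ne
  have h0 := SMv16.Lam_zero (K := K) Bad ν ν'
  obtain ⟨S', hSf, h⟩ := RJP.par_sep (T := Unit) (SDecP70.alD F (Fᵀ * J * (P.1 * F)) U1 U2 a1)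
    (-(SDecP70.beD F (Fᵀ * J * (P.1 * F)) U1 U2 a2))
    (QQ5 J N (W3 S ν ν') F f dY (Fᵀ * J * (P.1 * F)) U1 U2)
    (fun _ => I1 arm F (Fᵀ * J * (P.1 * F)) U1 U2) (fun _ => I2 arm F (Fᵀ * J * (P.1 * F)) U1 U2)
    hΛ (by
      intro r hr y hy _
      have hd : Dec F (Fᵀ * J * (P.1 * F)) U1 U2 a1 a2 (-(r ^ 2)) y := by
        rw [SDecP70.dec_iff, hy, LinearMap.neg_apply, smul_neg, neg_smul]
      have hr0 : -(r ^ 2) ≠ 0 := neg_ne_zero.2 (pow_ne_zero 2 fun h => h0 (h ▸ hr))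
      obtain ⟨t, ht, -, -, hrt⟩ := hr
      obtain ⟨Pt, A⟩ := hA t ht
      obtain ⟨d, Γ1, Γ2, β, γ, mo, hdec, -⟩ := exists_mo S fr A hrt hd.sum hd.arm
      have hm := first_in S fr A mo
      rw [← hrt] at hm
      obtain ⟨z1, z2, z3, z4⟩ := invis S fr hr0 hd hdec rfl
      obtain ⟨v1, v2⟩ := SDecP70.I_zero (arm := arm) (S0skew S) z1 z2 z3 z4
      have e : y = (y.1, β, γ) + ((0 : Fin 3 → Matrix (Fin m2) (Fin m1) K), y.2.1 - β,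
          y.2.2 - γ) := by
        refine Prod.ext ?_ (Prod.ext ?_ ?_)
        · exact (add_zero _).symm
        · exact (add_sub_cancel _ _).symm
        · exact (add_sub_cancel _ _).symm
      change I1 arm F (Fᵀ * J * (P.1 * F)) U1 U2 y + r • I2 arm F (Fᵀ * J * (P.1 * F)) U1 U2 y ∈ _
      rw [e, map_add, map_add, v1, v2, add_zero, add_zero]
      exact hm)
  refine ⟨(fun c => -c) '' S', hSf.image _, fun c hc y hy => ?_⟩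
  refine (h (-c) (fun hcS => hc ⟨-c, hcS, neg_neg c⟩) y ?_ ()).1
  rw [(SDecP70.dec_iff F (Fᵀ * J * (P.1 * F)) U1 U2 a1 a2 c y).1 hy, LinearMap.neg_apply, smul_neg,
    neg_smul, neg_neg]

open Crest.Agent.R172.SLev1h455 (QGd)

/-- **the relation half** -/
theorem rel (S : Setup arm J B N W F f P R D l) {dY : Derivation ℂ K K}
    (fr : Frm S ν ν' U1 U2 a1 a2) {n1 n2 : ℕ} {Q1 : Matrix ι (Fin n1) K}
    {A1 : Fin 3 → Matrix (Fin n1) (Fin n1) K} {Q2 : Matrix ι (Fin n2) K}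
    {A2 : Fin 3 → Matrix (Fin n2) (Fin n2) K} (b1 : BPkg arm J B F R P.1 D ν l Q1 A1)
    (b2 : BPkg arm J B F R P.1 D ν' l Q2 A2) {t : ℂ}
    {Pt : Matrix ι ι K × (Fin 3 → Matrix ι ι K)} (A : At S dY ν ν' t Pt) {c : K}
    {y y' : D3 K (Fin m1) (Fin m2)}
    (hin : I1 arm F (Fᵀ * J * (P.1 * F)) U1 U2 y ∈
        QQ5 J N (W3 S ν ν') F f dY (Fᵀ * J * (P.1 * F)) U1 U2)
    (hy : Dec F (Fᵀ * J * (P.1 * F)) U1 U2 a1 a2 c y) {r : K}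
    (hr : r = (1 + algebraMap ℂ K t * ν') / (1 + algebraMap ℂ K t * ν))
    (hy' : Dec F (Fᵀ * J * (P.1 * F)) U1 U2 a1 a2 (-(r ^ 2)) y') :
    Rel2 arm F (Fᵀ * J * (P.1 * F)) U1 U2 r y y' ∈ QGd S := by
  classical
  have hH := S.hCtx _ (kH S (algebraMap ℂ K t))
  obtain ⟨X, β0, γ0⟩ := y
  obtain ⟨X', β', γ'⟩ := y'
  obtain ⟨w, μ1, μ2, ν1, ν2, cw⟩ := exists_WCls hin
  obtain ⟨d, Γ1, Γ2, β, γ, mo, hdec, -⟩ := exists_mo S fr A hr hy'.sum hy'.arm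
  obtain ⟨hfr, hk⟩ := SInst896.fr_k1 S fr.ne fr.hU1 fr.hU2 A.hY A.hPF A.c1 A.c2
  have hn2 : ∀ v ∈ W, v * (U2.map d + ZY arm J (F + (algebraMap ℂ K t) • f) Pt.1
      (Yf U1 U2 X') * U2) = v * (U2 * Γ2 + (1 + algebraMap ℂ K t * ν') ^ 2 • (U1 * β)) :=
    fun v _ => by rw [mo.n2]
  have hn1 : ∀ v ∈ W, v * (U1.map d + ZY arm J (F + (algebraMap ℂ K t) • f) Pt.1
      (Yf U1 U2 X') * U1) = v * (U1 * Γ1 + (1 + algebraMap ℂ K t * ν) ^ 2 • (U2 * γ)) :=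
    fun v _ => by rw [mo.n1]
  have hm1 := SUniq803.mem_of_Cq fr.hU1
  have hm2 := SUniq803.mem_of_Cq fr.hU2
  obtain ⟨C1, u1⟩ := SB4x.exists_FU S b1 fr.hU1 fr.hs1 hm1 fr.ha1
  obtain ⟨C2, u2⟩ := SB4x.exists_FU S b2 fr.hU2 fr.hs2 hm2 fr.ha2
  have fX := fun s => SB4x.filt_of_arm S u1 b1 u2 b2 s (hy.arm s)
  have fX' := fun s => SB4x.filt_of_arm S u1 b1 u2 b2 s (hy'.arm s)
  obtain ⟨G21, G12⟩ := SLevA455.gens0 S fr.ne b1 b2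
  have hHc : ∀ w : Matrix ι δ K, Fᵀ * J * w = 0 → fᵀ * J * w = 0 →
      (F + (algebraMap ℂ K t) • f)ᵀ * J * w = 0 := by
    intro w h1 h2
    rw [transpose_add, transpose_smul, Matrix.add_mul, Matrix.add_mul, Matrix.smul_mul,
      Matrix.smul_mul, h1, h2, smul_zero, add_zero]
  have hwp := hHc w cw.pF cw.pf
  have hNQ : N ≤ QGd S := SLev0.N_le_QG
  -- the third block values of `w`
  have h3 : ∃ μ : K → K, μ ν = μ1 ∧ μ ν' = μ2 ∧ ∀ κ, κ ≠ ν → κ ≠ ν' →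
      ∀ u ∈ Qb (S.hCtx F S.hF).data S.hR P.1 D κ, w *ᵥ u = μ κ • (F *ᵥ u) := by
    have h4 := cw.mem.2
    choose μ3 hμ3 using h4
    refine ⟨fun κ => if h : κ = ν then μ1 else if h' : κ = ν' then μ2 else μ3 κ h h', ?_, ?_,
      fun κ hκ hκ' u hu => ?_⟩
    · simp
    · simp [fr.ne.symm]
    · simp only [hκ, hκ', dif_neg, not_false_iff]
      exact hμ3 κ hκ hκ' u hu
  obtain ⟨μ, hμ1, hμ2, hμ3⟩ := h3
  have hβ := hdec.rb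
  have hγ := hdec.rk
  have hγ0 := hy.rk
  have hwQ : wd arm J (F + (algebraMap ℂ K t) • f) Pt.1 (Yf U1 U2 X') d w ∈ QGd S := by
    refine SWd275.wd_QG (S.hCtx F S.hF) S.hR S.hD (S.hNil F S.hF) S.hP S.hf.1 hH A.mem mo.mv hfr
      fr.hs1 hm1 fr.hs2 hm2 hn2 hn1 hβ hγ hγ0 (hcQ S A)
      (fun κ hκ hκ' u hu => ⟨_, mo.n3 κ hκ hκ' u hu, fun v _ => rfl⟩) cw.mem.1 hwp (μ := μ)
      ?_ ?_ hμ3 (fun i => le_rfl) ?_
    · rw [hμ1]; exact cw.L1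
    · rw [hμ2]; exact cw.L2
    · rw [sub_self]; exact N.zero_mem
  have key := second_mem hH A.mem mo.mv hfr (X' := X') (fun s v _ => rfl) hn2 hn1 S.hF.1
    (hH.perp F S.hF.1) (W' := W3 S ν ν') (fun w hw => hw.1) hHc
    (fun w _ hw => hrowA S A hw) cw hNQ hwQ
    (Submodule.sum_mem _ fun s _ => SB4x.part21 u1 b1 u2 b2 G21 hH A.mem mo.mv hfr
      (X' := X') (fun s v _ => rfl) hn2 hn1 (S.hF.1.2) fr.ha1 fr.ha2 s (fX s) (fX' s) _ _ _)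
    (Submodule.sum_mem _ fun s _ => SB4x.part12 u1 b1 u2 b2 G12 s (fX' s))
  have hr0 : -(r ^ 2) ≠ 0 := by
    rw [hr]
    exact neg_ne_zero.2 (pow_ne_zero 2 (div_ne_zero A.c2 A.c1))
  obtain ⟨z1, z2, z3, z4⟩ := invis S fr hr0 hdec hy' rfl
  have zz4 : (γ - γ')ᵀ * (U2ᵀ * (Fᵀ * J * (P.1 * F))) = 0 := by
    have h5 := congrArg Matrix.transpose z4
    rw [transpose_mul, transpose_mul, S0skew S, transpose_zero, Matrix.mul_neg, neg_eq_zero,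
      Matrix.mul_assoc] at h5
    exact h5
  have e11 : ∀ s, F * A11 (Fᵀ * J * (P.1 * F)) U1 U2 X β0 X' β s * (Fᵀ * J * (P.1 * F)) *
      E K arm s = F * (U1 * (β' * X s - (X' s)ᵀ * (U2ᵀ * (Fᵀ * J * (P.1 * F)) * U2) * X s
      - (X' s)ᵀ * β0ᵀ) * U1ᵀ) * (Fᵀ * J * (P.1 * F)) * E K arm s := by
    intro s
    have h6 : F * (U1 * (β * X s - (X' s)ᵀ * (U2ᵀ * (Fᵀ * J * (P.1 * F)) * U2) * X s
      - (X' s)ᵀ * β0ᵀ) * U1ᵀ) - F * (U1 * (β' * X s - (X' s)ᵀ * (U2ᵀ * (Fᵀ * J * (P.1 * F)) * U2) *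
        X s - (X' s)ᵀ * β0ᵀ) * U1ᵀ) = F * (U1 * (β - β')) * X s * U1ᵀ := by
      simp only [Matrix.mul_sub, Matrix.sub_mul, Matrix.mul_assoc]
      abel
    have h7 : F * (U1 * (β - β')) = 0 := z1
    rw [h7, Matrix.zero_mul, Matrix.zero_mul, sub_eq_zero] at h6
    unfold SUX.A11
    rw [h6]
  have e22 : ∀ s, F * A22 (Fᵀ * J * (P.1 * F)) U1 U2 X γ0 X' γ s * (Fᵀ * J * (P.1 * F)) *
      E K arm s = F * (U2 * (X s * γ'ᵀ + X s * (U1ᵀ * (Fᵀ * J * (P.1 * F)) * U1) * (X' s)ᵀ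
      - γ0 * (X' s)ᵀ) * U2ᵀ) * (Fᵀ * J * (P.1 * F)) * E K arm s := by
    intro s
    have h6 : F * (U2 * (X s * γᵀ + X s * (U1ᵀ * (Fᵀ * J * (P.1 * F)) * U1) * (X' s)ᵀ
      - γ0 * (X' s)ᵀ) * U2ᵀ) * (Fᵀ * J * (P.1 * F)) - F * (U2 * (X s * γ'ᵀ +
        X s * (U1ᵀ * (Fᵀ * J * (P.1 * F)) * U1) * (X' s)ᵀ
      - γ0 * (X' s)ᵀ) * U2ᵀ) * (Fᵀ * J * (P.1 * F)) =
        F * (U2 * X s) * ((γ - γ')ᵀ * (U2ᵀ * (Fᵀ * J * (P.1 * F)))) := by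
      simp only [Matrix.mul_sub, Matrix.sub_mul, Matrix.mul_add, Matrix.add_mul, transpose_sub,
        Matrix.mul_assoc]
      abel
    rw [zz4, Matrix.mul_zero, sub_eq_zero] at h6
    unfold SUX.A22
    rw [h6]
  rw [Finset.sum_congr rfl fun s _ => e11 s, Finset.sum_congr rfl fun s _ => e22 s, ← hr] at key
  exact key

/-- **LEVEL 2, geometric half.** -/
theorem geo22 : SDec.Geo22 := by
  intro ι _ _ δ _ _ K _ _ _ arm J B N W F f P R D l S ν ν' hne n1 n2 Q1 A1 Q2 A2 b1 b2 m1 m2 U1 U2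
    a1 a2 hU1 hs1 hi1 ha1 hU2 hs2 hi2 ha2
  have fr : Frm S ν ν' U1 U2 a1 a2 := ⟨hne, hU1, hs1, hi1, ha1, hU2, hs2, hi2, ha2⟩
  obtain ⟨Y, dY, -, hreal, hform, hfam⟩ := SInst896.family S
  obtain ⟨S1, hS1, h1⟩ := SInf266.ainf_eq SInst896.two_ne' S.hCtx S.hNm S.hWm S.hNil S.hF S.hf
    S.hV1 S.hP hreal hform
  obtain ⟨S2, hS2, h2⟩ := SNabI.exists_bad (S.hCtx F S.hF) S.hR S.hD SInst896.two_ne'
  have hBad : (S1 ∪ S2 ∪ {0} ∪ {t : ℂ | 1 + algebraMap ℂ K t * ν = 0} ∪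
      {t : ℂ | 1 + algebraMap ℂ K t * ν' = 0}).Finite :=
    (((hS1.union hS2).union (Set.finite_singleton 0)).union (SMv16.bad_one ν)).union
      (SMv16.bad_one ν')
  obtain ⟨Bad, hBdef⟩ : ∃ Bad, Bad = (S1 ∪ S2 ∪ {0} ∪ {t : ℂ | 1 + algebraMap ℂ K t * ν = 0} ∪
      {t : ℂ | 1 + algebraMap ℂ K t * ν' = 0}) := ⟨_, rfl⟩
  rw [← hBdef] at hBad
  have hA : ∀ t ∉ Bad, ∃ Pt, At S dY ν ν' t Pt := by
    intro t ht
    rw [hBdef] at ht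
    simp only [Set.mem_union, Set.mem_singleton_iff, Set.mem_setOf_eq, not_or] at ht
    obtain ⟨⟨⟨⟨t1, t2⟩, t3⟩, t4⟩, t5⟩ := ht
    obtain ⟨Pt, q1, q2, q3, q4, q5⟩ := hfam t
    obtain ⟨q6, q7⟩ := h2 t t2
    exact ⟨Pt, q1, q2, q3, q4, q5, (h1 t t1 Pt q1 q3).le, q6, q7, t3, t4, t5⟩
  obtain ⟨S', hS', hsep⟩ := sep S fr hBad hA
  -- the parameters with `-(r²) ∈ S'`
  have hfin : {r : K | -(r ^ 2) ∈ S'}.Finite := by
    have h3 : {r : K | -(r ^ 2) ∈ S'} ⊆ ⋃ c ∈ S', {r : K | r ^ 2 = -c} := by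
      intro r hr
      refine Set.mem_biUnion (show -(r ^ 2) ∈ S' from hr) ?_
      change r ^ 2 = - -(r ^ 2)
      rw [neg_neg]
    refine (hS'.biUnion fun c _ => ?_).subset h3
    classical
    by_cases hc : ∃ r0 : K, r0 ^ 2 = -c
    · obtain ⟨r0, hr0⟩ := hc
      refine (Set.toFinite ({r0, -r0} : Set K)).subset ?_
      intro r hr
      have h4 : (r - r0) * (r + r0) = 0 := by
        have h5 : r ^ 2 = -c := hr
        linear_combination h5 - hr0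
      rcases mul_eq_zero.1 h4 with h5 | h5
      · left; exact sub_eq_zero.1 h5
      · right
        exact eq_neg_of_add_eq_zero_left h5
    · convert Set.finite_empty
      ext r
      simp only [Set.mem_setOf_eq, Set.mem_empty_iff_false, iff_false]
      exact fun h => hc ⟨r, h⟩
  refine ⟨SMv16.Lam ℂ Bad ν ν' \ {r : K | -(r ^ 2) ∈ S'},
    (SMv16.Lam_infinite hBad hne).diff hfin, fun h => SMv16.Lam_zero Bad ν ν' h.1, ?_, ?_⟩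
  · rintro r ⟨⟨t, ht, -, -, hrt⟩, -⟩ X hsum harm
    obtain ⟨Pt, A⟩ := hA t ht
    obtain ⟨d, Γ1, Γ2, β, γ, mo, hdec, hz⟩ := exists_mo S fr A hrt hsum harm
    exact ⟨β, γ, hdec, hz⟩
  · rintro r ⟨-, hrS⟩ r' ⟨⟨t, ht, -, -, hrt⟩, -⟩ y y' hy hy'
    obtain ⟨Pt, A⟩ := hA t ht
    exact rel S fr b1 b2 A (hsep _ hrS y hy) hy hrt hy'

end Crest.Agent.R172.SGeo612
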