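import Crest.Agent.R172.SGeo869
import Crest.Agent.R172.SNabI934
import Crest.Agent.R172.SInf266
import Crest.Agent.R172.SMv16
import Crest.Agent.R172.SDec2

/-!
Row 172 (S0260), tame node (t2), level 2: existence of decorated moves (helper869).
-/

set_option autoImplicit false
set_option linter.unusedSectionVars false
set_option linter.unusedVariables false
set_option linter.unusedFintypeInType false
set_option linter.unusedDecidableInType false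
set_option maxHeartbeats 1600000

namespace Crest.Agent.R172.SGeo869

open Module Matrix Crest.Agent.R172.FO Crest.Agent.R172.Qt Crest.Agent.R172.SpS
open Crest.Agent.R172.SBlk Crest.Agent.R172.UBlk Crest.Agent.R172.SEnd2 Crest.Agent.R172.STop
open Crest.Agent.R172.SCM Crest.Agent.R172.SDec Crest.Agent.R172.SUX
open Crest.Agent.R172.Om (Kiso)
open Crest.Agent.R172.PL (CoreM Ainf)
open Crest.Agent.R172.SC (PB)
open Crest.Agent.R172.SInst (QQb)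

variable {ι : Type} [Fintype ι] [DecidableEq ι] {δ : Type} [Fintype δ] [DecidableEq δ]
variable {K : Type} [Field K] [Algebra ℂ K]
variable {m1 m2 : ℕ}
variable {arm : δ → Fin 3} {J : Matrix ι ι K} {B : Matrix δ δ K}
  {N W : Submodule K (Matrix ι δ K)} {F f : Matrix ι δ K}
  {P : Matrix ι ι K × (Fin 3 → Matrix ι ι K)} {R : Matrix δ ι K}
  {D : End K (CoreM (PhS arm J B F R P.1))} {l : Fin 3 → ℕ}

theorem two_ne [Algebra ℂ K] : (2 : K) ≠ 0 := by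
  have : (2 : K) = algebraMap ℂ K 2 := by rw [map_ofNat]
  rw [this]
  exact (map_ne_zero (algebraMap ℂ K)).2 two_ne_zero

/-- empty eigenspace, empty block -/
theorem Qb_bot [IsAlgClosed K] (S : Setup arm J B N W F f P R D l) {κ : K}
    (hκ : ((cov (SInst.ctx S).data S.hR P.1).D D).maxGenEigenspace κ = ⊥) : QQb S κ = ⊥ :=
  STop.PB_bot ((cov (SInst.ctx S).data S.hR P.1).D_comm S.hD.2) hκ

/-- **existence of decorated moves** -/
theorem exists_MvD [IsAlgClosed K] (S : Setup arm J B N W F f P R D l) {ν ν' : K} (hne : ν ≠ ν')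
    {U1 : Matrix δ (Fin m1) K} {U2 : Matrix δ (Fin m2) K}
    {a1 : Fin 3 → Matrix (Fin m1) (Fin m1) K} {a2 : Fin 3 → Matrix (Fin m2) (Fin m2) K}
    (hU1 : UFr.Cq (QQb S ν) U1) (hs1 : ∀ u ∈ QQb S ν, ∃ x, u = U1 *ᵥ x)
    (ha1 : ∀ s, B * E K arm s * (Fᵀ * J * (P.1 * F)) * U1 = U1 * a1 s)
    (hU2 : UFr.Cq (QQb S ν') U2) (hs2 : ∀ u ∈ QQb S ν', ∃ x, u = U2 *ᵥ x)
    (ha2 : ∀ s, B * E K arm s * (Fᵀ * J * (P.1 * F)) * U2 = U2 * a2 s) :
    ∃ (dY : Derivation ℂ K K) (bad : Set ℂ), bad.Finite ∧ ∀ t ∉ bad,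
      1 + algebraMap ℂ K t * ν ≠ 0 → 1 + algebraMap ℂ K t * ν' ≠ 0 →
      (∀ κ, QQb S κ ≠ ⊥ → 1 + algebraMap ℂ K t * κ ≠ 0) ∧
      ∀ X, ExM (Fᵀ * J * (P.1 * F)) U1 U2 a1 a2
        (-(((1 + algebraMap ℂ K t * ν') / (1 + algebraMap ℂ K t * ν)) ^ 2)) X →
        ∃ Pt d Γ1 Γ2 β γ, MvD arm J B N W F f (F + algebraMap ℂ K t • f) Pt
          (Fᵀ * J * (P.1 * F)) dY (QQb S) ν ν' (1 + algebraMap ℂ K t * ν)
          (1 + algebraMap ℂ K t * ν') U1 U2 a1 a2 X d Γ1 Γ2 β γ := by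
  obtain ⟨Yo, dY, hYB, hRe, hform, hfam⟩ := SInst.family S two_ne
  obtain ⟨S1, hS1, hbad⟩ := SNabI.exists_bad (k := ℂ) (SInst.ctx S) S.hR S.hD two_ne
  obtain ⟨S2, hS2, hainf⟩ := SInf266.ainf_eq (k := ℂ) two_ne S.hCtx S.hNm S.hWm S.hNil S.hF S.hf
    S.hV1 S.hP hRe hform
  refine ⟨dY, S1 ∪ S2 ∪ {0}, (hS1.union hS2).union (Set.finite_singleton 0),
    fun t ht hc1 hc2 => ?_⟩
  simp only [Set.mem_union, Set.mem_singleton_iff, not_or] at ht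
  obtain ⟨⟨ht1, ht2⟩, ht0⟩ := ht
  obtain ⟨hc, hom⟩ := hbad t ht1
  refine ⟨fun κ hκ => hc κ fun h0 => hκ (Qb_bot S h0), fun X hX => ?_⟩
  obtain ⟨Pt, Ri, hH, hCt, hPt, hV, hRi, hY3, hPF, hrow⟩ := hfam t
  obtain ⟨fr, k1⟩ := SInst.fr_k1 S hY3 hPF hne hc1 hc2 hU1 hU2
  obtain ⟨d, m⟩ := SMv16.exists_mv hCt two_ne hRi hPt hV fr ha1 ha2 rfl hX.1
  have hnec : 1 + algebraMap ℂ K t * ν ≠ 1 + algebraMap ℂ K t * ν' := SMv16.c_ne ht0 hne
  have hYs : ∀ r, (SMv16.Yf U1 U2 X r)ᵀ = SMv16.Yf U1 U2 X r := SMv16.Yf_symm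
  have harm : ∀ r, (U2ᵀ * (Fᵀ * J * (P.1 * F)) * U2) *
      ((1 + algebraMap ℂ K t * ν) ^ 2 • (X r * (a1 r)ᵀ) +
        (1 + algebraMap ℂ K t * ν') ^ 2 • (a2 r * X r)) *
      (U1ᵀ * (Fᵀ * J * (P.1 * F)) * U1) = 0 := by
    intro r
    have h1 := hX.2 r
    have e : (1 + algebraMap ℂ K t * ν) ^ 2 • (X r * (a1 r)ᵀ) +
        (1 + algebraMap ℂ K t * ν') ^ 2 • (a2 r * X r) = (1 + algebraMap ℂ K t * ν) ^ 2 •
        (X r * (a1 r)ᵀ - (-(((1 + algebraMap ℂ K t * ν') / (1 + algebraMap ℂ K t * ν)) ^ 2)) •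
          (a2 r * X r)) := by
      rw [smul_sub, smul_smul, neg_eq_neg_one_mul, ← mul_assoc, mul_comm _ (-1 : K), mul_assoc,
        div_pow, mul_div_cancel₀ _ (pow_ne_zero 2 hc1), neg_one_mul, neg_smul, sub_neg_eq_add]
    rw [e, Matrix.mul_smul, Matrix.smul_mul, h1, smul_zero]
  obtain ⟨i1, i2, i3⟩ := SNabI.B1 (SInst.ctx S) S.hR S.hD (S.hNil F S.hF) S.hP (SInst.hfNW S)
    (SInst.hff S) hCt hPt hY3 hPF (le_of_eq (hainf t ht2 Pt hPt hY3)) hc hom hYs m hne hU1 hU2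
    hs1 hs2 ha1 ha2 (fun r => rfl) harm
  have hperf : ∀ κ, ∀ u ∈ QQb S κ, ∃ c : Fin 3 → δ → K, (∀ s, c s ∈ QQb S κ) ∧
      ∑ s, (B * E K arm s * (Fᵀ * J * (P.1 * F))) *ᵥ c s = u := by
    intro κ u hu
    obtain ⟨c, h1, h2⟩ := Qb_exists (SInst.ctx S) S.hR S.hD hu
    exact ⟨c, h1, h2⟩
  obtain ⟨Γ1, Γ2, β, γ, hN2, hN1, hdec⟩ := SB2H16.dec_of_B1 hCt hPt m fr hnec hU1 hs1 ha1
    (hperf ν) hU2 hs2 ha2 (hperf ν') (fun r => rfl) i1 i2 rfl hX.1 hX.2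
  have hrow' : ∀ w : Matrix ι δ K, (F + algebraMap ℂ K t • f)ᵀ * J * w = 0 →
      (F + algebraMap ℂ K t • f)ᵀ * J * (Pt.1 * w) =
        (F + algebraMap ℂ K t • f)ᵀ * J * w.map dY := by
    intro w hw
    have h1 := hrow w hw
    have hsk : Pt.1ᵀ * J = -(J * Pt.1) := by
      have := hPt.1
      first
        | exact this
        | exact eq_neg_of_add_eq_zero_left this
    have h2 : (Pt.1 * (F + algebraMap ℂ K t • f))ᵀ * J * w =
        -((F + algebraMap ℂ K t • f)ᵀ * J * (Pt.1 * w)) := by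
      rw [transpose_mul, Matrix.mul_assoc _ _ J, hsk, Matrix.mul_neg, Matrix.neg_mul]
      simp only [Matrix.mul_assoc]
    rw [h2] at h1
    exact neg_injective h1
  have hq : (ν - ν')⁻¹ • (f - ν' • F) = (-((ν - ν')⁻¹ * ν')) • F + (ν - ν')⁻¹ • f := by
    rw [smul_sub, smul_smul, neg_smul]; abel
  obtain ⟨w1, w2, -⟩ := SPerp355.perp_all two_ne S.hCtx S.hF S.hf hPt m (-((ν - ν')⁻¹ * ν'))
    ((ν - ν')⁻¹)
  rw [← hq] at w1 w2
  exact ⟨Pt, d, Γ1, Γ2, β, γ,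
    { ctx := hCt
      hPt := hPt
      mv := m
      fr := fr
      k1 := k1
      hN2 := hN2
      hN1 := hN1
      dec := hdec
      n3 := fun κ h1 h2 u hu => ⟨_, i3 κ h1 h2 u hu, fun v _ => rfl⟩
      row := hrow'
      wF := w1
      wf := w2 }⟩

end Crest.Agent.R172.SGeo869
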