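import Crest.Agent.R172.SDec2
import Crest.Agent.R172.SGeo869b
import Crest.Agent.R172.SUniq803
import Crest.Agent.R172.SDecP70
import Crest.Agent.R172.SD937
import Crest.Agent.R172.SB4x117
import Crest.Agent.R172.SLevA455
import Crest.Agent.R172.SZb978

/-!
Row 172 (S0260), (t2), level 2, geometric half: separation and the second clause of `SDec.Geo22`
in the letters of `SGeo869` (helper680).
-/

set_option autoImplicit false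
set_option linter.unusedSectionVars false
set_option linter.unusedVariables false
set_option linter.unusedFintypeInType false
set_option linter.unusedDecidableInType false
set_option maxHeartbeats 1600000

namespace Crest.Agent.R172.SGeo680

open Module Matrix Crest.Agent.R172.FO Crest.Agent.R172.Qt Crest.Agent.R172.SpS
open Crest.Agent.R172.SBlk Crest.Agent.R172.UBlk Crest.Agent.R172.SEnd2 Crest.Agent.R172.STop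
open Crest.Agent.R172.SCM Crest.Agent.R172.SDec Crest.Agent.R172.SUX Crest.Agent.R172.SGeo869
open Crest.Agent.R172.Om (Kiso)
open Crest.Agent.R172.PL (CoreM Ainf)
open Crest.Agent.R172.SC (PB)
open Crest.Agent.R172.SInst (QQb)

variable {ι : Type} [Fintype ι] [DecidableEq ι] {δ : Type} [Fintype δ] [DecidableEq δ]
variable {K : Type} [Field K] [Algebra ℂ K] [IsAlgClosed K]
variable {m1 m2 : ℕ}
variable {arm : δ → Fin 3} {J : Matrix ι ι K} {B : Matrix δ δ K}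
  {N W : Submodule K (Matrix ι δ K)} {F f : Matrix ι δ K}
  {P : Matrix ι ι K × (Fin 3 → Matrix ι ι K)} {R : Matrix δ ι K}
  {D : End K (CoreM (PhS arm J B F R P.1))} {l : Fin 3 → ℕ}
  {U1 : Matrix δ (Fin m1) K} {U2 : Matrix δ (Fin m2) K}
  {a1 : Fin 3 → Matrix (Fin m1) (Fin m1) K} {a2 : Fin 3 → Matrix (Fin m2) (Fin m2) K}

/-- **separation** -/
theorem sep (S : Setup arm J B N W F f P R D l) {ν ν' : K}
    (hU1 : UFr.Cq (QQb S ν) U1) (hs1 : ∀ u ∈ QQb S ν, ∃ x, u = U1 *ᵥ x)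
    (hi1 : ∀ x, U1 *ᵥ x = 0 → x = 0)
    (ha1 : ∀ s, B * E K arm s * (Fᵀ * J * (P.1 * F)) * U1 = U1 * a1 s)
    (hU2 : UFr.Cq (QQb S ν') U2) (hs2 : ∀ u ∈ QQb S ν', ∃ x, u = U2 *ᵥ x)
    (hi2 : ∀ x, U2 *ᵥ x = 0 → x = 0)
    (ha2 : ∀ s, B * E K arm s * (Fᵀ * J * (P.1 * F)) * U2 = U2 * a2 s)
    {Wc : Submodule K (Matrix ι δ K)} {dY : Derivation ℂ K K} {Λ : Set K} (hΛ : Λ.Infinite)
    (h0 : (0 : K) ∉ Λ)
    (hmv : ∀ ρ ∈ Λ, ∀ X, ExM (Fᵀ * J * (P.1 * F)) U1 U2 a1 a2 (-(ρ ^ 2)) X → ∃ β γ,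
      Dec F (Fᵀ * J * (P.1 * F)) U1 U2 a1 a2 (-(ρ ^ 2)) (X, β, γ) ∧
      I1 arm F (Fᵀ * J * (P.1 * F)) U1 U2 (X, β, γ) +
        ρ • I2 arm F (Fᵀ * J * (P.1 * F)) U1 U2 (X, β, γ) ∈
          QQ5 J N Wc F f dY (Fᵀ * J * (P.1 * F)) U1 U2) :
    ∃ Sf : Set K, Sf.Finite ∧ ∀ c ∉ Sf, ∀ y,
      Dec F (Fᵀ * J * (P.1 * F)) U1 U2 a1 a2 (-c) y →
      I1 arm F (Fᵀ * J * (P.1 * F)) U1 U2 y ∈
        QQ5 J N Wc F f dY (Fᵀ * J * (P.1 * F)) U1 U2 := by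
  obtain ⟨Sf, hSf, h⟩ := first_sep (arm := arm) (J := J) (N := N) (W := Wc) (F := F) (f := f)
    (dY := dY) (S0 := Fᵀ * J * (P.1 * F)) (U1 := U1) (U2 := U2)
    (SDecP70.alD F (Fᵀ * J * (P.1 * F)) U1 U2 a1) (-(SDecP70.beD F (Fᵀ * J * (P.1 * F)) U1 U2 a2))
    (LinearMap.id : D3 K (Fin m1) (Fin m2) →ₗ[K] D3 K (Fin m1) (Fin m2)) hΛ (by
      rintro ρ hρ ⟨X, β, γ⟩ hy
      have hρ0 : ρ ≠ 0 := fun e => h0 (e ▸ hρ)
      have hd : Dec F (Fᵀ * J * (P.1 * F)) U1 U2 a1 a2 (-(ρ ^ 2)) (X, β, γ) := by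
        rw [SDecP70.dec_iff, hy, LinearMap.neg_apply, smul_neg, neg_smul]
      obtain ⟨β', γ', hd', hm⟩ := hmv ρ hρ X ⟨hd.sum, hd.arm⟩
      obtain ⟨⟨e1, -⟩, e2, -⟩ := SUniq803.dec_uniq S hU1 hs1 hi1 ha1 hU2 hs2 hi2 ha2
        (neg_ne_zero.2 (pow_ne_zero 2 hρ0)) hd hd' rfl
      obtain ⟨g1, g2⟩ := SD937.I_congr (arm := arm) (F := F) (U1 := U1) (U2 := U2)
        (S0 := Fᵀ * J * (P.1 * F)) (S1 := J * (P.1 * F)) (X := X)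
        (Matrix.mul_assoc _ _ _) (β := β) (β' := β') (γ := γ) (γ' := γ')
        (by rw [Matrix.mul_sub]; exact sub_eq_zero.2 e1)
        (by rw [Matrix.mul_sub]; exact sub_eq_zero.2 e2)
      change I1 arm F (Fᵀ * J * (P.1 * F)) U1 U2 (X, β, γ) +
        ρ • I2 arm F (Fᵀ * J * (P.1 * F)) U1 U2 (X, β, γ) ∈ _
      rw [g1, g2]
      exact hm)
  refine ⟨Sf, hSf, fun c hc y hy => (h c hc y ?_).1⟩
  have h1 := (SDecP70.dec_iff _ _ _ _ _ _ (-c) y).1 hy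
  rw [h1, LinearMap.neg_apply, smul_neg, neg_smul]

/-- **the second clause at one point** -/
theorem second (S : Setup arm J B N W F f P R D l) {ν ν' : K} (hne : ν ≠ ν')
    {n1 n2 : ℕ} {Q1 : Matrix ι (Fin n1) K} {A1 : Fin 3 → Matrix (Fin n1) (Fin n1) K}
    {Q2 : Matrix ι (Fin n2) K} {A2 : Fin 3 → Matrix (Fin n2) (Fin n2) K}
    (b1 : SCM.BPkg arm J B F R P.1 D ν l Q1 A1) (b2 : SCM.BPkg arm J B F R P.1 D ν' l Q2 A2)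
    (hU1 : UFr.Cq (QQb S ν) U1) (hs1 : ∀ u ∈ QQb S ν, ∃ x, u = U1 *ᵥ x)
    (hi1 : ∀ x, U1 *ᵥ x = 0 → x = 0)
    (ha1 : ∀ s, B * E K arm s * (Fᵀ * J * (P.1 * F)) * U1 = U1 * a1 s)
    (hU2 : UFr.Cq (QQb S ν') U2) (hs2 : ∀ u ∈ QQb S ν', ∃ x, u = U2 *ᵥ x)
    (hi2 : ∀ x, U2 *ᵥ x = 0 → x = 0)
    (ha2 : ∀ s, B * E K arm s * (Fᵀ * J * (P.1 * F)) * U2 = U2 * a2 s)
    {a : K} {Pt : Matrix ι ι K × (Fin 3 → Matrix ι ι K)} {dY : Derivation ℂ K K}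
    (hc : ∀ κ, QQb S κ ≠ ⊥ → 1 + a * κ ≠ 0)
    {c : K} {y y' : D3 K (Fin m1) (Fin m2)}
    (hy : Dec F (Fᵀ * J * (P.1 * F)) U1 U2 a1 a2 c y)
    (hI : I1 arm F (Fᵀ * J * (P.1 * F)) U1 U2 y ∈
      QQ5 J N (W3 W F (QQb S) ν ν') F f dY (Fᵀ * J * (P.1 * F)) U1 U2)
    (hy' : Dec F (Fᵀ * J * (P.1 * F)) U1 U2 a1 a2 (-(((1 + a * ν') / (1 + a * ν)) ^ 2)) y')
    {d : Derivation ℂ K K}
    {Γ1 : Matrix (Fin m1) (Fin m1) K} {Γ2 : Matrix (Fin m2) (Fin m2) K}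
    {β : Matrix (Fin m1) (Fin m2) K} {γ : Matrix (Fin m2) (Fin m1) K}
    (M : MvD arm J B N W F f (F + a • f) Pt (Fᵀ * J * (P.1 * F)) dY (QQb S) ν ν' (1 + a * ν)
      (1 + a * ν') U1 U2 a1 a2 y'.1 d Γ1 Γ2 β γ) :
    Rel2 arm F (Fᵀ * J * (P.1 * F)) U1 U2 ((1 + a * ν') / (1 + a * ν)) y y' ∈
      SLev0.QG arm J B N W F P (PC arm J B F R P.1)
        (fun μ : K => (SLev0.PbK arm J B F R P.1 D μ)) id := by
  classical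
  obtain ⟨X, β0, γ0⟩ := y
  obtain ⟨X', βy, γy⟩ := y'
  change MvD arm J B N W F f (F + a • f) Pt (Fᵀ * J * (P.1 * F)) dY (QQb S) ν ν' (1 + a * ν)
      (1 + a * ν') U1 U2 a1 a2 X' d Γ1 Γ2 β γ at M
  have hc1 := M.fr.hc1
  have hc2 := M.fr.hc2
  have hcc : -(((1 + a * ν') / (1 + a * ν)) ^ 2) ≠ 0 :=
    neg_ne_zero.2 (pow_ne_zero 2 (div_ne_zero hc2 hc1))
  obtain ⟨⟨e1, e1'⟩, e2, e2'⟩ := SUniq803.dec_uniq S hU1 hs1 hi1 ha1 hU2 hs2 hi2 ha2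
    hcc hy' M.dec rfl
  change F * U1 * βy = F * U1 * β at e1
  have e3 : Fᵀ * J * (P.1 * F) * U2 * γy = Fᵀ * J * (P.1 * F) * U2 * γ := e2' P.1
  have hsk := M.fr.skew
  have e4 : γyᵀ * U2ᵀ * (Fᵀ * J * (P.1 * F)) = γᵀ * U2ᵀ * (Fᵀ * J * (P.1 * F)) := by
    have h1 := congrArg Matrix.transpose e3
    rw [transpose_mul, transpose_mul, transpose_mul _ γ, transpose_mul _ U2, hsk] at h1
    simp only [Matrix.mul_neg, neg_inj] at h1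
    simpa only [Matrix.mul_assoc] using h1
  obtain ⟨w, μ1, μ2, ν1, ν2, cw⟩ := exists_WCls hI
  obtain ⟨hG21, hG12⟩ := SLevA455.gens0 S hne b1 b2
  obtain ⟨C1, u1⟩ := SB4x.exists_FU S b1 hU1 hs1 (SUniq803.mem_of_Cq hU1) ha1
  obtain ⟨C2, u2⟩ := SB4x.exists_FU S b2 hU2 hs2 (SUniq803.mem_of_Cq hU2) ha2
  have hX := fun s => SB4x.filt_of_arm S u1 b1 u2 b2 s (hy.arm s)
  have hX' := fun s => SB4x.filt_of_arm S u1 b1 u2 b2 s (hy'.arm s)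
  have hFNW : F ∈ N ⊓ W := S.hF.1
  have hHc : ∀ w : Matrix ι δ K, Fᵀ * J * w = 0 → fᵀ * J * w = 0 →
      (F + a • f)ᵀ * J * w = 0 := by
    intro w h1 h2
    rw [transpose_add, transpose_smul, Matrix.add_mul, Matrix.add_mul, Matrix.smul_mul,
      Matrix.smul_mul, h1, h2, smul_zero, add_zero]
  have hYv : ∀ s, ∀ v ∈ W, v * Ym U1 U2 X' s * (F + a • f)ᵀ =
      v * (U2 * X' s * U1ᵀ + U1 * (X' s)ᵀ * U2ᵀ) * (F + a • f)ᵀ := fun s v _ => rfl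
  have hN2 : ∀ v ∈ W, v * (U2.map d + ZY arm J (F + a • f) Pt.1 (Ym U1 U2 X') * U2) =
      v * (U2 * Γ2 + (1 + a * ν') ^ 2 • (U1 * β)) := fun v _ => by rw [M.hN2]
  have hN1 : ∀ v ∈ W, v * (U1.map d + ZY arm J (F + a • f) Pt.1 (Ym U1 U2 X') * U1) =
      v * (U1 * Γ1 + (1 + a * ν) ^ 2 • (U2 * γ)) := fun v _ => by rw [M.hN1]
  -- the values of `w`
  have hw3 := cw.mem.2
  have hμ : ∃ μ : K → K, μ ν = μ1 ∧ μ ν' = μ2 ∧ ∀ κ, κ ≠ ν → κ ≠ ν' → ∀ u ∈ QQb S κ,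
      w *ᵥ u = μ κ • (F *ᵥ u) := by
    have h1 : ∀ κ, ∃ m : K, κ ≠ ν → κ ≠ ν' → ∀ u ∈ QQb S κ, w *ᵥ u = m • (F *ᵥ u) := by
      intro κ
      by_cases h1 : κ = ν
      · exact ⟨0, fun h => absurd h1 h⟩
      · by_cases h2 : κ = ν'
        · exact ⟨0, fun _ h => absurd h2 h⟩
        · obtain ⟨m, hm⟩ := hw3 κ h1 h2
          exact ⟨m, fun _ _ => hm⟩
    choose m hm using h1
    refine ⟨fun κ => if κ = ν then μ1 else if κ = ν' then μ2 else m κ, if_pos rfl, ?_, ?_⟩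
    · simp only [if_neg hne.symm, if_true]
    · intro κ h1 h2 u hu
      simp only [if_neg h1, if_neg h2]
      exact hm κ h1 h2 u hu
  obtain ⟨μ, hμ1, hμ2, hμ3⟩ := hμ
  have hwQ : wd arm J (F + a • f) Pt.1 (Ym U1 U2 X') d w ∈
      SLev0.QG arm J B N W F P (PC arm J B F R P.1)
        (fun μ : K => (SLev0.PbK arm J B F R P.1 D μ)) id := by
    refine SWd275.wd_QG (SInst.ctx S) S.hR S.hD (S.hNil F S.hF) S.hP S.hf.1 M.ctx M.hPt M.mv M.fr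
      hs1 (SUniq803.mem_of_Cq hU1) hs2 (SUniq803.mem_of_Cq hU2) hN2 hN1 M.dec.rb M.dec.rk
      (γ0 := γ0) hy.rk hc M.n3 cw.mem.1 (hHc w cw.pF cw.pf) (μ := μ) ?_ ?_ hμ3
      (fun i => le_rfl) ?_
    · rw [hμ1]; exact cw.L1
    · rw [hμ2]; exact cw.L2
    · rw [sub_self]; exact N.zero_mem
  have key := second_mem (W' := W3 W F (QQb S) ν ν') (f := f) (dY := dY) M.ctx M.hPt M.mv M.fr
    (X := X) (X' := X') (β0 := β0) (γ0 := γ0) hYv hN2 hN1 hFNW (M.ctx.perp F hFNW)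
    (fun w hw => hw.1) hHc (fun w _ hw => M.row w hw) cw
    (Q := SLev0.QG arm J B N W F P (PC arm J B F R P.1)
        (fun μ : K => (SLev0.PbK arm J B F R P.1 D μ)) id) SLev0.N_le_QG hwQ
    (Submodule.sum_mem _ fun s _ => SB4x.part21 u1 b1 u2 b2 hG21 M.ctx M.hPt M.mv M.fr hYv hN2 hN1
      hFNW.2 ha1 ha2 s (hX s) (hX' s) _ _ _)
    (Submodule.sum_mem _ fun s _ => SB4x.part12 u1 b1 u2 b2 hG12 s (hX' s))
  have t1 : ∀ s, F * (U1 * (βy * X s - (X' s)ᵀ * (U2ᵀ * (Fᵀ * J * (P.1 * F)) * U2) * X s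
      - (X' s)ᵀ * β0ᵀ) * U1ᵀ) * (Fᵀ * J * (P.1 * F)) * E K arm s =
      F * A11 (Fᵀ * J * (P.1 * F)) U1 U2 X β0 X' β s * (Fᵀ * J * (P.1 * F)) * E K arm s := by
    intro s
    have h1 : ∀ b : Matrix (Fin m1) (Fin m2) K, F * (U1 * (b * X s - (X' s)ᵀ *
        (U2ᵀ * (Fᵀ * J * (P.1 * F)) * U2) * X s - (X' s)ᵀ * β0ᵀ) * U1ᵀ) =
        (F * U1 * b) * X s * U1ᵀ - F * U1 * ((X' s)ᵀ *
        (U2ᵀ * (Fᵀ * J * (P.1 * F)) * U2) * X s + (X' s)ᵀ * β0ᵀ) * U1ᵀ := by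
      intro b
      rw [← Matrix.mul_assoc, ← Matrix.mul_assoc, sub_sub, Matrix.mul_sub, Matrix.sub_mul,
        Matrix.mul_assoc (F * U1) b]
    unfold A11
    rw [h1, h1, e1]
  have t2 : ∀ s, F * (U2 * (X s * γyᵀ + X s * (U1ᵀ * (Fᵀ * J * (P.1 * F)) * U1) * (X' s)ᵀ
      - γ0 * (X' s)ᵀ) * U2ᵀ) * (Fᵀ * J * (P.1 * F)) * E K arm s =
      F * A22 (Fᵀ * J * (P.1 * F)) U1 U2 X γ0 X' γ s * (Fᵀ * J * (P.1 * F)) * E K arm s := by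
    intro s
    have h1 : ∀ b : Matrix (Fin m2) (Fin m1) K, F * (U2 * (X s * bᵀ + X s *
        (U1ᵀ * (Fᵀ * J * (P.1 * F)) * U1) * (X' s)ᵀ - γ0 * (X' s)ᵀ) * U2ᵀ) *
        (Fᵀ * J * (P.1 * F)) =
        F * (U2 * X s * (bᵀ * U2ᵀ * (Fᵀ * J * (P.1 * F)))) +
        F * (U2 * (X s * (U1ᵀ * (Fᵀ * J * (P.1 * F)) * U1) * (X' s)ᵀ - γ0 * (X' s)ᵀ) * U2ᵀ) *
          (Fᵀ * J * (P.1 * F)) := by
      intro b
      rw [add_sub_assoc, Matrix.mul_add U2, Matrix.add_mul, Matrix.mul_add F, Matrix.add_mul]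
      congr 1
      simp only [Matrix.mul_assoc]
    unfold A22
    rw [h1, h1, e4]
  unfold Rel2
  change ∑ s, F * (U1 * (βy * X s - (X' s)ᵀ * (U2ᵀ * (Fᵀ * J * (P.1 * F)) * U2) * X s
      - (X' s)ᵀ * β0ᵀ) * U1ᵀ) * (Fᵀ * J * (P.1 * F)) * E K arm s +
    ((1 + a * ν') / (1 + a * ν)) • ∑ s, F * (U2 * (X s * γyᵀ + X s *
      (U1ᵀ * (Fᵀ * J * (P.1 * F)) * U1) * (X' s)ᵀ
      - γ0 * (X' s)ᵀ) * U2ᵀ) * (Fᵀ * J * (P.1 * F)) * E K arm s ∈ _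
  rw [Finset.sum_congr rfl fun s _ => t1 s, Finset.sum_congr rfl fun s _ => t2 s]
  exact key

theorem sq_fin {Sf : Set K} (h : Sf.Finite) : {ρ : K | ρ ^ 2 ∈ Sf}.Finite := by
  refine Set.Finite.preimage' h fun b _ => ?_
  by_cases hb : ∃ r : K, r ^ 2 = b
  · obtain ⟨r, rfl⟩ := hb
    refine (Set.toFinite {r, -r}).subset ?_
    intro x hx
    have hx' : x ^ 2 = r ^ 2 := hx
    rcases sq_eq_sq_iff_eq_or_eq_neg.1 hx' with h1 | h1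
    · exact Or.inl h1
    · exact Or.inr h1
  · refine Set.Finite.subset Set.finite_empty fun x hx => ?_
    exact absurd ⟨x, hx⟩ hb

/-- **LEVEL 2, geometric half** -/
theorem geo22 : SDec.Geo22 := by
  intro ι _ _ δ _ _ K _ _ _ arm J B N W F f P R D l S ν ν' hne n1 n2 Q1 A1 Q2 A2 b1 b2 m1 m2
    U1 U2 a1 a2 hU1 hs1 hi1 ha1 hU2 hs2 hi2 ha2
  obtain ⟨dY, bad, hbad, hgood⟩ := exists_MvD S hne hU1 hs1 ha1 hU2 hs2 ha2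
  have hΛ0 := SMv16.Lam_infinite hbad hne
  have h00 := SMv16.Lam_zero bad ν ν'
  obtain ⟨Sf, hSf, hsep⟩ := sep S hU1 hs1 hi1 ha1 hU2 hs2 hi2 ha2 hΛ0 h00
    (Wc := W3 W F (QQb S) ν ν') (dY := dY) (by
      rintro ρ ⟨t, ht, hc1, hc2, rfl⟩ X hX
      obtain ⟨hc, hmv⟩ := hgood t ht hc1 hc2
      obtain ⟨Pt, d, Γ1, Γ2, β, γ, M⟩ := hmv X hX
      exact ⟨β, γ, M.dec, first S hne hc M⟩)
  refine ⟨SMv16.Lam ℂ bad ν ν' \ {ρ : K | ρ ^ 2 ∈ Sf}, hΛ0.diff (sq_fin hSf),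
    fun h => h00 h.1, ?_, ?_⟩
  · rintro r ⟨⟨t, ht, hc1, hc2, rfl⟩, -⟩ X hsum harm
    obtain ⟨hc, hmv⟩ := hgood t ht hc1 hc2
    obtain ⟨Pt, d, Γ1, Γ2, β, γ, M⟩ := hmv X ⟨hsum, harm⟩
    refine ⟨β, γ, M.dec, fun x hx => ?_, fun x hx => ?_⟩
    · exact SZb978.zb M.ctx.memW M.mv.dH M.fr (fun v _ => by rw [M.hN2]) x hx
    · exact SZb978.zk M.ctx.memW M.mv.dH M.fr (fun v _ => by rw [M.hN1]) x hx
  · rintro r ⟨-, hr⟩ r' ⟨⟨t, ht, hc1, hc2, rfl⟩, -⟩ y y' hy hy'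
    obtain ⟨hc, hmv⟩ := hgood t ht hc1 hc2
    obtain ⟨Pt, d, Γ1, Γ2, β, γ, M⟩ := hmv y'.1 ⟨hy'.sum, hy'.arm⟩
    exact second S hne b1 b2 hU1 hs1 hi1 ha1 hU2 hs2 hi2 ha2 hc hy (hsep _ hr y hy) hy' M

end Crest.Agent.R172.SGeo680
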