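import Crest.Agent.R172.SGeo869b
import Crest.Agent.R172.SDecP70
import Crest.Agent.R172.SUniq803
import Crest.Agent.R172.SKer826
import Crest.Agent.R172.SDec2
import Crest.Agent.R172.SMv16

/-!
Row 172 (S0260), tame node (t2), level 2: separation and the final assembly of `SDec.Geo22` from
the relation `Rel2` at one decorated move.
-/

set_option autoImplicit false
set_option linter.unusedSectionVars false
set_option linter.unusedVariables false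
set_option linter.unusedFintypeInType false
set_option linter.unusedDecidableInType false
set_option maxHeartbeats 800000

namespace Crest.Agent.R172.SGeo721

open Module Matrix Crest.Agent.R172.FO Crest.Agent.R172.Qt Crest.Agent.R172.SpS
open Crest.Agent.R172.SBlk Crest.Agent.R172.UBlk Crest.Agent.R172.SEnd2 Crest.Agent.R172.STop
open Crest.Agent.R172.SCM Crest.Agent.R172.SDec Crest.Agent.R172.SUX Crest.Agent.R172.SGeo869
open Crest.Agent.R172.Om (Kiso)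
open Crest.Agent.R172.PL (CoreM Ainf)
open Crest.Agent.R172.SC (PB)
open Crest.Agent.R172.SInst (QQb)

section congr

variable {ι : Type*} [Fintype ι] [DecidableEq ι] {δ : Type*} [Fintype δ] [DecidableEq δ]
variable {K : Type*} [Field K] {m1 m2 : ℕ} {arm : δ → Fin 3} {F : Matrix ι δ K}
  {S0 : Matrix δ δ K} {U1 : Matrix δ (Fin m1) K} {U2 : Matrix δ (Fin m2) K}

theorem c1_aux {b b' : Matrix (Fin m1) (Fin m2) K} (h1 : F * (U1 * b) = F * (U1 * b'))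
    (X : Matrix (Fin m2) (Fin m1) K) (A C : Matrix (Fin m1) (Fin m1) K) :
    F * (U1 * (b * X - A - C) * U1ᵀ) = F * (U1 * (b' * X - A - C) * U1ᵀ) := by
  have e : ∀ b : Matrix (Fin m1) (Fin m2) K, F * (U1 * (b * X - A - C) * U1ᵀ) =
      F * (U1 * b) * (X * U1ᵀ) - F * (U1 * (A + C) * U1ᵀ) := by
    intro b
    rw [sub_sub, Matrix.mul_sub, Matrix.sub_mul, Matrix.mul_sub]
    simp only [Matrix.mul_assoc]
  rw [e, e, h1]

theorem c2_aux {T : Matrix δ ι K} (hS : S0ᵀ = -S0) (hT : S0 = T * F)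
    {g g' : Matrix (Fin m2) (Fin m1) K} (h1 : F * (U2 * g) = F * (U2 * g'))
    (X : Matrix (Fin m2) (Fin m1) K) (A C : Matrix (Fin m2) (Fin m2) K) :
    F * (U2 * (X * gᵀ + A - C) * U2ᵀ) * S0 = F * (U2 * (X * g'ᵀ + A - C) * U2ᵀ) * S0 := by
  have e3 : ∀ g : Matrix (Fin m2) (Fin m1) K, gᵀ * (U2ᵀ * S0) = -(T * (F * (U2 * g)))ᵀ := by
    intro g
    rw [← Matrix.mul_assoc T, ← hT, transpose_mul, transpose_mul, hS, Matrix.mul_neg, neg_neg,
      Matrix.mul_assoc]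
  have e : ∀ g : Matrix (Fin m2) (Fin m1) K, F * (U2 * (X * gᵀ + A - C) * U2ᵀ) * S0 =
      F * (U2 * X) * (gᵀ * (U2ᵀ * S0)) + F * (U2 * (A - C) * U2ᵀ) * S0 := by
    intro g
    rw [add_sub_assoc, Matrix.mul_add, Matrix.add_mul, Matrix.mul_add, Matrix.add_mul]
    simp only [Matrix.mul_assoc]
  rw [e, e, e3, e3, h1]

theorem Rel2_congr {T : Matrix δ ι K} (hS : S0ᵀ = -S0) (hT : S0 = T * F) (r : K)
    (y : D3 K (Fin m1) (Fin m2)) {z z' : D3 K (Fin m1) (Fin m2)} (h0 : z.1 = z'.1)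
    (h1 : F * (U1 * z.2.1) = F * (U1 * z'.2.1)) (h2 : F * (U2 * z.2.2) = F * (U2 * z'.2.2)) :
    Rel2 arm F S0 U1 U2 r y z = Rel2 arm F S0 U1 U2 r y z' := by
  unfold Rel2
  rw [h0]
  simp only [c1_aux h1, c2_aux hS hT h2]

end congr

variable {ι : Type} [Fintype ι] [DecidableEq ι] {δ : Type} [Fintype δ] [DecidableEq δ]
variable {K : Type} [Field K] [Algebra ℂ K] [IsAlgClosed K]
variable {m1 m2 : ℕ}
variable {arm : δ → Fin 3} {J : Matrix ι ι K} {B : Matrix δ δ K}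
  {N W : Submodule K (Matrix ι δ K)} {F f : Matrix ι δ K}
  {P : Matrix ι ι K × (Fin 3 → Matrix ι ι K)} {R : Matrix δ ι K}
  {D : End K (CoreM (PhS arm J B F R P.1))} {l : Fin 3 → ℕ}

theorem two_ne' : (2 : K) ≠ 0 := SGeo869.two_ne

/-- the form is skew -/
theorem S0_skew (S : Setup arm J B N W F f P R D l) :
    (Fᵀ * J * (P.1 * F))ᵀ = -(Fᵀ * J * (P.1 * F)) :=
  SUX.th_skew (SInst.ctx S) S.hP S.hF.1

/-- **separation** -/
theorem sep (S : Setup arm J B N W F f P R D l) {ν ν' : K} (hne : ν ≠ ν')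
    {U1 : Matrix δ (Fin m1) K} {U2 : Matrix δ (Fin m2) K}
    {a1 : Fin 3 → Matrix (Fin m1) (Fin m1) K} {a2 : Fin 3 → Matrix (Fin m2) (Fin m2) K}
    (hU1 : UFr.Cq (QQb S ν) U1) (hs1 : ∀ u ∈ QQb S ν, ∃ x, u = U1 *ᵥ x)
    (hi1 : ∀ x, U1 *ᵥ x = 0 → x = 0)
    (ha1 : ∀ s, B * E K arm s * (Fᵀ * J * (P.1 * F)) * U1 = U1 * a1 s)
    (hU2 : UFr.Cq (QQb S ν') U2) (hs2 : ∀ u ∈ QQb S ν', ∃ x, u = U2 *ᵥ x)
    (hi2 : ∀ x, U2 *ᵥ x = 0 → x = 0)
    (ha2 : ∀ s, B * E K arm s * (Fᵀ * J * (P.1 * F)) * U2 = U2 * a2 s)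
    {dY : Derivation ℂ K K} {bad : Set ℂ} (hbad : bad.Finite)
    (hmv : ∀ t ∉ bad, 1 + algebraMap ℂ K t * ν ≠ 0 → 1 + algebraMap ℂ K t * ν' ≠ 0 →
      (∀ κ, QQb S κ ≠ ⊥ → 1 + algebraMap ℂ K t * κ ≠ 0) ∧
      ∀ X, ExM (Fᵀ * J * (P.1 * F)) U1 U2 a1 a2
        (-(((1 + algebraMap ℂ K t * ν') / (1 + algebraMap ℂ K t * ν)) ^ 2)) X →
        ∃ Pt d Γ1 Γ2 β γ, MvD arm J B N W F f (F + algebraMap ℂ K t • f) Pt
          (Fᵀ * J * (P.1 * F)) dY (QQb S) ν ν' (1 + algebraMap ℂ K t * ν)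
          (1 + algebraMap ℂ K t * ν') U1 U2 a1 a2 X d Γ1 Γ2 β γ) :
    ∃ T : Set K, T.Finite ∧ ∀ c ∉ T, ∀ y, Dec F (Fᵀ * J * (P.1 * F)) U1 U2 a1 a2 c y →
      I1 arm F (Fᵀ * J * (P.1 * F)) U1 U2 y ∈
        QQ5 J N (W3 W F (QQb S) ν ν') F f dY (Fᵀ * J * (P.1 * F)) U1 U2 := by
  obtain ⟨T, hT, h⟩ := RJP.par_sep (T := Unit)
    (SDecP70.alD F (Fᵀ * J * (P.1 * F)) U1 U2 a1)
    (-(SDecP70.beD F (Fᵀ * J * (P.1 * F)) U1 U2 a2))
    (QQ5 J N (W3 W F (QQb S) ν ν') F f dY (Fᵀ * J * (P.1 * F)) U1 U2)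
    (fun _ => I1 arm F (Fᵀ * J * (P.1 * F)) U1 U2)
    (fun _ => I2 arm F (Fᵀ * J * (P.1 * F)) U1 U2) (SMv16.Lam_infinite hbad hne) (by
      rintro r ⟨t, ht, hc1, hc2, rfl⟩ y hy _
      have hd : Dec F (Fᵀ * J * (P.1 * F)) U1 U2 a1 a2
          (-(((1 + algebraMap ℂ K t * ν') / (1 + algebraMap ℂ K t * ν)) ^ 2)) y := by
        rw [SDecP70.dec_iff, hy, LinearMap.neg_apply, smul_neg, neg_smul]
      obtain ⟨hc, hX⟩ := hmv t ht hc1 hc2
      obtain ⟨Pt, d, Γ1, Γ2, β, γ, M⟩ := hX y.1 ⟨hd.sum, hd.arm⟩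
      have hm := SGeo869.first S hne hc M
      have hr0 : -(((1 + algebraMap ℂ K t * ν') / (1 + algebraMap ℂ K t * ν)) ^ 2) ≠ 0 :=
        neg_ne_zero.2 (pow_ne_zero 2 (div_ne_zero hc2 hc1))
      obtain ⟨⟨z1, z2⟩, z3, z4⟩ := SUniq803.dec_uniq S hU1 hs1 hi1 ha1 hU2 hs2 hi2 ha2 hr0
        hd M.dec rfl
      have w1 : F * (U1 * (y.2.1 - β)) = 0 := by
        rw [Matrix.mul_sub, Matrix.mul_sub, sub_eq_zero, ← Matrix.mul_assoc, ← Matrix.mul_assoc]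
        exact z1
      have w3 : F * (U2 * (y.2.2 - γ)) = 0 := by
        rw [Matrix.mul_sub, Matrix.mul_sub, sub_eq_zero, ← Matrix.mul_assoc, ← Matrix.mul_assoc]
        exact z3
      have w2 : (Fᵀ * J * (P.1 * F)) * (U1 * (y.2.1 - β)) = 0 := by
        have e : (Fᵀ * J * (P.1 * F)) * (U1 * (y.2.1 - β)) =
            Fᵀ * J * P.1 * (F * (U1 * (y.2.1 - β))) := by simp only [Matrix.mul_assoc]
        rw [e, w1, Matrix.mul_zero]
      have w4 : (Fᵀ * J * (P.1 * F)) * (U2 * (y.2.2 - γ)) = 0 := by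
        have e : (Fᵀ * J * (P.1 * F)) * (U2 * (y.2.2 - γ)) =
            Fᵀ * J * P.1 * (F * (U2 * (y.2.2 - γ))) := by simp only [Matrix.mul_assoc]
        rw [e, w3, Matrix.mul_zero]
      obtain ⟨v1, v2⟩ := SDecP70.I_zero (arm := arm) (S0_skew S) w1 w2 w3 w4
      have e : y = (y.1, β, γ) + ((0 : Fin 3 → Matrix (Fin m2) (Fin m1) K), y.2.1 - β,
          y.2.2 - γ) := by
        refine Prod.ext ?_ (Prod.ext ?_ ?_)
        · exact (add_zero _).symm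
        · exact (add_sub_cancel _ _).symm
        · exact (add_sub_cancel _ _).symm
      rw [e, map_add, map_add, v1, v2, add_zero, add_zero]
      exact hm)
  refine ⟨(fun c => -c) '' T, hT.image _, fun c hc y hy => ?_⟩
  refine (h (-c) (fun hcS => hc ⟨-c, hcS, neg_neg c⟩) y ?_ ()).1
  rw [(SDecP70.dec_iff F _ U1 U2 a1 a2 c y).1 hy, LinearMap.neg_apply, smul_neg, neg_smul, neg_neg]

end Crest.Agent.R172.SGeo721
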