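import Crest.Agent.R172.SGeo721

/-!
Row 172 (S0260), tame node (t2), level 2: `SDec.Geo22` from the relation `Rel2` at one decorated
move.
-/

set_option autoImplicit false
set_option linter.unusedSectionVars false
set_option linter.unusedVariables false
set_option linter.unusedFintypeInType false
set_option linter.unusedDecidableInType false
set_option maxHeartbeats 800000

namespace Crest.Agent.R172.SGeo721

open Module Matrix Crest.Agent.R172.FO Crest.Agent.R172.Qt Crest.Agent.R172.SpS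
open Crest.Agent.R172.SBlk Crest.Agent.R172.UBlk Crest.Agent.R172.SEnd2 Crest.Agent.R172.STop
open Crest.Agent.R172.SCM Crest.Agent.R172.SDec Crest.Agent.R172.SUX Crest.Agent.R172.SGeo869
open Crest.Agent.R172.Om (Kiso)
open Crest.Agent.R172.PL (CoreM Ainf)
open Crest.Agent.R172.SC (PB)
open Crest.Agent.R172.SInst (QQb)

/-- the second level relation at one decorated move -/
def RelAt : Prop :=
  ∀ {ι : Type} [Fintype ι] [DecidableEq ι] {δ : Type} [Fintype δ] [DecidableEq δ]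
    {K : Type} [Field K] [Algebra ℂ K] [IsAlgClosed K]
    {arm : δ → Fin 3} {J : Matrix ι ι K} {B : Matrix δ δ K} {N W : Submodule K (Matrix ι δ K)}
    {F f : Matrix ι δ K} {P : Matrix ι ι K × (Fin 3 → Matrix ι ι K)} {R : Matrix δ ι K}
    {D : End K (CoreM (PhS arm J B F R P.1))} {l : Fin 3 → ℕ}
    (S : Setup arm J B N W F f P R D l) {ν ν' : K} (_ : ν ≠ ν')
    {n1 n2 : ℕ} {Q1 : Matrix ι (Fin n1) K} {A1 : Fin 3 → Matrix (Fin n1) (Fin n1) K}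
    {Q2 : Matrix ι (Fin n2) K} {A2 : Fin 3 → Matrix (Fin n2) (Fin n2) K}
    (_ : BPkg arm J B F R P.1 D ν l Q1 A1) (_ : BPkg arm J B F R P.1 D ν' l Q2 A2)
    {m1 m2 : ℕ} {U1 : Matrix δ (Fin m1) K} {U2 : Matrix δ (Fin m2) K}
    {a1 : Fin 3 → Matrix (Fin m1) (Fin m1) K} {a2 : Fin 3 → Matrix (Fin m2) (Fin m2) K}
    (_ : UFr.Cq (QQb S ν) U1) (_ : ∀ u ∈ QQb S ν, ∃ x, u = U1 *ᵥ x)
    (_ : ∀ x, U1 *ᵥ x = 0 → x = 0)
    (_ : ∀ s, B * E K arm s * (Fᵀ * J * (P.1 * F)) * U1 = U1 * a1 s)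
    (_ : UFr.Cq (QQb S ν') U2) (_ : ∀ u ∈ QQb S ν', ∃ x, u = U2 *ᵥ x)
    (_ : ∀ x, U2 *ᵥ x = 0 → x = 0)
    (_ : ∀ s, B * E K arm s * (Fᵀ * J * (P.1 * F)) * U2 = U2 * a2 s)
    {a : K} {Pt : Matrix ι ι K × (Fin 3 → Matrix ι ι K)} {dY : Derivation ℂ K K}
    {X' : Fin 3 → Matrix (Fin m2) (Fin m1) K} {d : Derivation ℂ K K}
    {Γ1 : Matrix (Fin m1) (Fin m1) K} {Γ2 : Matrix (Fin m2) (Fin m2) K}
    {β : Matrix (Fin m1) (Fin m2) K} {γ : Matrix (Fin m2) (Fin m1) K}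
    (_ : ∀ κ, QQb S κ ≠ ⊥ → 1 + a * κ ≠ 0)
    (_ : MvD arm J B N W F f (F + a • f) Pt (Fᵀ * J * (P.1 * F)) dY (QQb S) ν ν' (1 + a * ν)
      (1 + a * ν') U1 U2 a1 a2 X' d Γ1 Γ2 β γ)
    {c0 : K} {y : D3 K (Fin m1) (Fin m2)}
    (_ : Dec F (Fᵀ * J * (P.1 * F)) U1 U2 a1 a2 c0 y)
    (_ : I1 arm F (Fᵀ * J * (P.1 * F)) U1 U2 y ∈
      QQ5 J N (W3 W F (QQb S) ν ν') F f dY (Fᵀ * J * (P.1 * F)) U1 U2),
    Rel2 arm F (Fᵀ * J * (P.1 * F)) U1 U2 ((1 + a * ν') / (1 + a * ν)) y (X', β, γ) ∈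
      SLev0.QG arm J B N W F P (PC arm J B F R P.1)
        (fun μ : K => (SLev0.PbK arm J B F R P.1 D μ)) id

theorem sq_finite {K : Type} [Field K] {T : Set K} (hT : T.Finite) :
    {r : K | -(r ^ 2) ∈ T}.Finite := by
  have h1 : {r : K | -(r ^ 2) ∈ T} ⊆
      ⋃ c ∈ T, {r : K | r ∈ Polynomial.nthRoots 2 (-c)} := by
    intro r hr
    refine Set.mem_iUnion₂.2 ⟨-(r ^ 2), hr, ?_⟩
    change r ∈ Polynomial.nthRoots 2 (- -(r ^ 2))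
    rw [neg_neg, Polynomial.mem_nthRoots (by norm_num)]
  refine (hT.biUnion fun c _ => ?_).subset h1
  classical
  refine (Polynomial.nthRoots 2 (-c)).toFinset.finite_toSet.subset fun r hr => ?_
  exact Multiset.mem_toFinset.2 hr

/-- **LEVEL 2, geometric half**, from the relation at one decorated move. -/
theorem geo22_of (hrel : RelAt) : SDec.Geo22 := by
  intro ι _ _ δ _ _ K _ _ _ arm J B N W F f P R D l S ν ν' hne n1 n2 Q1 A1 Q2 A2 b1 b2 m1 m2 U1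
    U2 a1 a2 hU1 hs1 hi1 ha1 hU2 hs2 hi2 ha2
  obtain ⟨dY, bad, hbad, hmv⟩ := exists_MvD S hne hU1 hs1 ha1 hU2 hs2 ha2
  obtain ⟨T, hT, hsep⟩ := sep S hne hU1 hs1 hi1 ha1 hU2 hs2 hi2 ha2 hbad hmv
  refine ⟨SMv16.Lam ℂ bad ν ν' \ {r | -(r ^ 2) ∈ T},
    (SMv16.Lam_infinite hbad hne).sdiff (sq_finite hT), fun h => SMv16.Lam_zero bad ν ν' h.1,
    ?_, ?_⟩
  · rintro r ⟨⟨t, ht, hc1, hc2, rfl⟩, -⟩ X hsum harm
    obtain ⟨hc, hX⟩ := hmv t ht hc1 hc2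
    obtain ⟨Pt, d, Γ1, Γ2, β, γ, M⟩ := hX X ⟨hsum, harm⟩
    refine ⟨β, γ, M.dec, ⟨fun x hx => ?_, fun x hx => ?_⟩⟩
    · exact SKer826.hker M.mv M.fr (Γ2 := Γ2) (by rw [M.hN2]) x hx
    · exact SKer826.hker' M.mv M.fr (Γ1 := Γ1) (by rw [M.hN1]) x hx
  · rintro r ⟨-, hrT⟩ r' ⟨⟨t, ht, hc1, hc2, rfl⟩, -⟩ y y' hy hy'
    obtain ⟨hc, hX⟩ := hmv t ht hc1 hc2
    obtain ⟨Pt, d, Γ1, Γ2, β, γ, M⟩ := hX y'.1 ⟨hy'.sum, hy'.arm⟩
    have hr0 : -(((1 + algebraMap ℂ K t * ν') / (1 + algebraMap ℂ K t * ν)) ^ 2) ≠ 0 :=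
      neg_ne_zero.2 (pow_ne_zero 2 (div_ne_zero hc2 hc1))
    obtain ⟨⟨z1, z2⟩, z3, z4⟩ := SUniq803.dec_uniq S hU1 hs1 hi1 ha1 hU2 hs2 hi2 ha2 hr0
      hy' M.dec rfl
    have h1 := hrel S hne b1 b2 hU1 hs1 hi1 ha1 hU2 hs2 hi2 ha2 hc M hy (hsep _ hrT y hy)
    have h2 : Rel2 arm F (Fᵀ * J * (P.1 * F)) U1 U2
        ((1 + algebraMap ℂ K t * ν') / (1 + algebraMap ℂ K t * ν)) y y' =
        Rel2 arm F (Fᵀ * J * (P.1 * F)) U1 U2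
        ((1 + algebraMap ℂ K t * ν') / (1 + algebraMap ℂ K t * ν)) y (y'.1, β, γ) := by
      refine Rel2_congr (T := Fᵀ * J * P.1) (S0_skew S) (by simp only [Matrix.mul_assoc]) _ y rfl
        ?_ ?_
      · rw [← Matrix.mul_assoc, ← Matrix.mul_assoc]; exact z1
      · rw [← Matrix.mul_assoc, ← Matrix.mul_assoc]; exact z3
    rw [h2]
    exact h1

end Crest.Agent.R172.SGeo721
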