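import Crest.Agent.R172.SGeo869b
import Crest.Agent.R172.SB4x117
import Crest.Agent.R172.SLevA455
import Crest.Agent.R172.SWd275
import Crest.Agent.R172.SUX7

/-!
Row 172 (S0260), tame node (t2), level 2: the second clause of `Geo22` at one decorated move
(helper117), in the letters of `SGeo869.MvD`.
-/

set_option autoImplicit false
set_option linter.unusedSectionVars false
set_option linter.unusedVariables false
set_option linter.unusedFintypeInType false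
set_option linter.unusedDecidableInType false
set_option maxHeartbeats 1600000

namespace Crest.Agent.R172.SGeoR117

open Module Matrix Crest.Agent.R172.FO Crest.Agent.R172.Qt Crest.Agent.R172.SpS
open Crest.Agent.R172.SBlk Crest.Agent.R172.UBlk Crest.Agent.R172.SEnd2 Crest.Agent.R172.STop
open Crest.Agent.R172.SCM Crest.Agent.R172.SDec Crest.Agent.R172.SUX
open Crest.Agent.R172.Om (Kiso)
open Crest.Agent.R172.PL (CoreM Ainf)
open Crest.Agent.R172.SC (PB)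
open Crest.Agent.R172.SInst (QQb)
open Crest.Agent.R172.SGeo869

variable {ι : Type} [Fintype ι] [DecidableEq ι] {δ : Type} [Fintype δ] [DecidableEq δ]
variable {K : Type} [Field K] [Algebra ℂ K]
variable {m1 m2 : ℕ}
variable {arm : δ → Fin 3} {J : Matrix ι ι K} {B : Matrix δ δ K}
  {N W : Submodule K (Matrix ι δ K)} {F f : Matrix ι δ K}
  {P : Matrix ι ι K × (Fin 3 → Matrix ι ι K)} {R : Matrix δ ι K}
  {D : End K (CoreM (PhS arm J B F R P.1))} {l : Fin 3 → ℕ}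

theorem cq_mem {Q : Submodule K (δ → K)} {m : ℕ} {U : Matrix δ (Fin m) K} (hU : UFr.Cq Q U)
    (x : Fin m → K) : U *ᵥ x ∈ Q := by
  have e : U *ᵥ x = ∑ j, x j • (fun d => U d j) := by
    funext i
    rw [Finset.sum_apply]
    simp only [mulVec, dotProduct, Pi.smul_apply, smul_eq_mul]
    exact Finset.sum_congr rfl fun j _ => mul_comm _ _
  rw [e]
  exact Submodule.sum_mem _ fun j _ => Submodule.smul_mem _ _ (hU j)

/-- **the second level relation at one decorated move** -/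
theorem rel2 [IsAlgClosed K] (S : Setup arm J B N W F f P R D l) {ν ν' : K} (hne : ν ≠ ν')
    {n1 n2 : ℕ} {Q1 : Matrix ι (Fin n1) K} {A1 : Fin 3 → Matrix (Fin n1) (Fin n1) K}
    {Q2 : Matrix ι (Fin n2) K} {A2 : Fin 3 → Matrix (Fin n2) (Fin n2) K}
    (b1 : BPkg arm J B F R P.1 D ν l Q1 A1) (b2 : BPkg arm J B F R P.1 D ν' l Q2 A2)
    {U1 : Matrix δ (Fin m1) K} {U2 : Matrix δ (Fin m2) K}
    {a1 : Fin 3 → Matrix (Fin m1) (Fin m1) K} {a2 : Fin 3 → Matrix (Fin m2) (Fin m2) K}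
    (hU1 : UFr.Cq (QQb S ν) U1) (hs1 : ∀ u ∈ QQb S ν, ∃ x, u = U1 *ᵥ x)
    (ha1 : ∀ s, B * E K arm s * (Fᵀ * J * (P.1 * F)) * U1 = U1 * a1 s)
    (hU2 : UFr.Cq (QQb S ν') U2) (hs2 : ∀ u ∈ QQb S ν', ∃ x, u = U2 *ᵥ x)
    (ha2 : ∀ s, B * E K arm s * (Fᵀ * J * (P.1 * F)) * U2 = U2 * a2 s)
    {a : K} {Pt : Matrix ι ι K × (Fin 3 → Matrix ι ι K)} {dY : Derivation ℂ K K}
    {X' : Fin 3 → Matrix (Fin m2) (Fin m1) K} {d : Derivation ℂ K K}
    {Γ1 : Matrix (Fin m1) (Fin m1) K} {Γ2 : Matrix (Fin m2) (Fin m2) K}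
    {β : Matrix (Fin m1) (Fin m2) K} {γ : Matrix (Fin m2) (Fin m1) K}
    (hc : ∀ κ, QQb S κ ≠ ⊥ → 1 + a * κ ≠ 0)
    (M : MvD arm J B N W F f (F + a • f) Pt (Fᵀ * J * (P.1 * F)) dY (QQb S) ν ν' (1 + a * ν)
      (1 + a * ν') U1 U2 a1 a2 X' d Γ1 Γ2 β γ)
    {c0 : K} {y : D3 K (Fin m1) (Fin m2)}
    (hy : Dec F (Fᵀ * J * (P.1 * F)) U1 U2 a1 a2 c0 y)
    (hI : I1 arm F (Fᵀ * J * (P.1 * F)) U1 U2 y ∈
      QQ5 J N (W3 W F (QQb S) ν ν') F f dY (Fᵀ * J * (P.1 * F)) U1 U2) :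
    Rel2 arm F (Fᵀ * J * (P.1 * F)) U1 U2 ((1 + a * ν') / (1 + a * ν)) y (X', β, γ) ∈
      SLev0.QG arm J B N W F P (PC arm J B F R P.1)
        (fun μ : K => (SLev0.PbK arm J B F R P.1 D μ)) id := by
  classical
  obtain ⟨X, β0, γ0⟩ := y
  obtain ⟨w, μ1, μ2, ν1, ν2, cw⟩ := exists_WCls hI
  have hw : w ∈ W := cw.mem.1
  have hw3 := cw.mem.2
  choose μ3 hμ3 using hw3
  obtain ⟨μ, hμν, hμν', hμ⟩ : ∃ μ : K → K, μ ν = μ1 ∧ μ ν' = μ2 ∧
      ∀ κ, κ ≠ ν → κ ≠ ν' → ∀ u ∈ QQb S κ, w *ᵥ u = μ κ • (F *ᵥ u) := by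
    refine ⟨fun κ => if h1 : κ = ν then μ1 else if h2 : κ = ν' then μ2 else μ3 κ h1 h2, ?_, ?_, ?_⟩
    · simp
    · simp [hne.symm]
    · intro κ h1 h2 u hu
      simp only [h1, h2, dite_false]
      exact hμ3 κ h1 h2 u hu
  have hwp : (F + a • f)ᵀ * J * w = 0 := by
    rw [transpose_add, transpose_smul, Matrix.add_mul, Matrix.add_mul, Matrix.smul_mul,
      Matrix.smul_mul, cw.pF, cw.pf, smul_zero, add_zero]
  have hm1 : ∀ x, U1 *ᵥ x ∈ QQb S ν := cq_mem hU1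
  have hm2 : ∀ x, U2 *ᵥ x ∈ QQb S ν' := cq_mem hU2
  obtain ⟨C1, u1⟩ := SB4x.exists_FU S b1 hU1 hs1 hm1 ha1
  obtain ⟨C2, u2⟩ := SB4x.exists_FU S b2 hU2 hs2 hm2 ha2
  have hX := fun s => SB4x.filt_of_arm S u1 b1 u2 b2 s (hy.arm s)
  have hX' := fun s => SB4x.filt_of_arm S u1 b1 u2 b2 s (M.dec.arm s)
  have hwQ := SWd275.wd_QG (SInst.ctx S) S.hR S.hD (S.hNil F S.hF) S.hP (SInst.hfNW S) M.ctx M.hPt
    M.mv M.fr hs1 hm1 hs2 hm2 (fun v _ => by rw [M.hN2]) (fun v _ => by rw [M.hN1]) M.dec.rb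
    M.dec.rk hy.rk hc M.n3 hw hwp (μ := μ) (by rw [hμν]; exact cw.L1) (by rw [hμν']; exact cw.L2)
    hμ (Pb := fun μ : K => (SLev0.PbK arm J B F R P.1 D μ)) (nu := id) (fun i => le_rfl)
    (x := wd arm J (F + a • f) Pt.1 (Ym U1 U2 X') d w) (by rw [sub_self]; exact N.zero_mem)
  refine second_mem M.ctx M.hPt M.mv M.fr (fun s v _ => rfl) (fun v _ => by rw [M.hN2])
    (fun v _ => by rw [M.hN1]) S.hF.1 (M.ctx.perp _ S.hF.1) (W' := W3 W F (QQb S) ν ν')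
    (fun x hx => hx.1) (fun x h1 h2 => ?_) (fun x _ h => M.row x h) cw
    SLev0.N_le_QG hwQ ?_ ?_
  · rw [transpose_add, transpose_smul, Matrix.add_mul, Matrix.add_mul, Matrix.smul_mul,
      Matrix.smul_mul, h1, h2, smul_zero, add_zero]
  · refine Submodule.sum_mem _ fun s _ => ?_
    exact SB4x.part21 u1 b1 u2 b2 (SLevA455.gens0 S hne b1 b2).1 M.ctx M.hPt M.mv M.fr
      (fun s v _ => rfl) (fun v _ => by rw [M.hN2]) (fun v _ => by rw [M.hN1]) S.hF.1.2 ha1 ha2 s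
      (hX s) (hX' s) _ _ _
  · refine Submodule.sum_mem _ fun s _ => ?_
    exact SB4x.part12 u1 b1 u2 b2 (SLevA455.gens0 S hne b1 b2).2 s (hX' s)

end Crest.Agent.R172.SGeoR117
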