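import Crest.Agent.R172.SGeo721b
import Crest.Agent.R172.SGeoR117

/-!
Row 172 (S0260), tame node (t2), level 2: `SDec.Geo22`.
-/

set_option autoImplicit false
set_option linter.unusedVariables false
set_option maxHeartbeats 800000

namespace Crest.Agent.R172.SGeo721

/-- **LEVEL 2, geometric half** -/
theorem geo22 : SDec.Geo22 := by
  refine geo22_of ?_
  intro ι _ _ δ _ _ K _ _ _ arm J B N W F f P R D l S ν ν' hne n1 n2 Q1 A1 Q2 A2 b1 b2 m1 m2 U1
    U2 a1 a2 hU1 hs1 hi1 ha1 hU2 hs2 hi2 ha2 a Pt dY X' d Γ1 Γ2 β γ hc M c0 y hy hI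
  exact SGeoR117.rel2 S hne b1 b2 hU1 hs1 ha1 hU2 hs2 ha2 hc M hy hI

end Crest.Agent.R172.SGeo721
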