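import Crest.Agent.R172.SUX7
import Crest.Agent.R172.SUX6w946
import Crest.Agent.R172.SD937
import Crest.Agent.R172.SDecP70
import Crest.Agent.R172.SUniq803
import Crest.Agent.R172.SInf659
import Crest.Agent.R172.SB2H16
import Crest.Agent.R172.SMv16
import Crest.Agent.R172.SNabI934
import Crest.Agent.R172.SWd275
import Crest.Agent.R172.SKer826
import Crest.Agent.R172.SDecC926
import Crest.Agent.R172.SA2h555
import Crest.Agent.R172.SInst896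

/-!
Row 172 (S0260), S-side (t2), LEVEL 2, geometric half (independent copy, 731).
-/

set_option autoImplicit false
set_option linter.unusedSectionVars false
set_option linter.unusedVariables false
set_option linter.unusedFintypeInType false
set_option linter.unusedDecidableInType false
set_option maxHeartbeats 1600000

namespace Crest.Agent.R172.SGeo731

open Module Matrix TensorProduct Crest.Agent.R172.FO Crest.Agent.R172.Qt Crest.Agent.R172.SpS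
open Crest.Agent.R172.SUX
open Crest.Agent.R172.SBlk Crest.Agent.R172.UBlk Crest.Agent.R172.UFr
open Crest.Agent.R172.SEnd Crest.Agent.R172.SEnd2 Crest.Agent.R172.SEndW
open Crest.Agent.R172.SCM (BPkg)
open Crest.Agent.R172.SC (PB PB_stable iSup_PB)
open Crest.Agent.R172.PL (Wk Ainf Rad CoreM coreOp resOp)
open Crest.Agent.R172.Om (Kiso)
open Crest.Agent.R172.STop (Setup)
open Crest.Agent.R172.SInst896 (two_ne' good_t)
open Crest.Agent.R172.SMv16 (Yf Yf_symm)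
open Crest.Agent.R172.SDec (Dec Rel2)

variable {ι : Type} [Fintype ι] [DecidableEq ι] {δ : Type} [Fintype δ] [DecidableEq δ]
variable {K : Type} [Field K] [Algebra ℂ K] [IsAlgClosed K]
variable {arm : δ → Fin 3} {J : Matrix ι ι K} {B : Matrix δ δ K}
  {N W : Submodule K (Matrix ι δ K)} {F f : Matrix ι δ K}
  {P : Matrix ι ι K × (Fin 3 → Matrix ι ι K)} {R : Matrix δ ι K}
  {D : End K (CoreM (PhS arm J B F R P.1))} {l : Fin 3 → ℕ}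

/-- the blocks of `K^δ` -/
noncomputable abbrev Qf (S : Setup arm J B N W F f P R D l) (μ : K) : Submodule K (δ → K) :=
  Qb (S.hCtx F S.hF).data S.hR P.1 D μ

/-- a good point `H = F + t f`, `P_t` -/
structure GT (S : Setup arm J B N W F f P R D l) (dY : Derivation ℂ K K) (t : ℂ)
    (Pt : Matrix ι ι K × (Fin 3 → Matrix ι ι K)) : Prop where
  mem : Pt ∈ NN arm J N (F + (algebraMap ℂ K t) • f)
  vert : Vert ℂ arm J N W (F + (algebraMap ℂ K t) • f) Pt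
  hY : ∀ f' ∈ N ⊓ W, (F + (algebraMap ℂ K t) • f)ᵀ * J * (Pt.1 * f') =
    (F + (algebraMap ℂ K t) • f)ᵀ * J * f'.map dY
  hPF : (F + (algebraMap ℂ K t) • f)ᵀ * J * (Pt.1 * F) =
    (F + (algebraMap ℂ K t) • f)ᵀ * J * (P.1 * F)
  row : ∀ w : Matrix ι δ K, (F + (algebraMap ℂ K t) • f)ᵀ * J * w = 0 →
    (F + (algebraMap ℂ K t) • f)ᵀ * J * (Pt.1 * w) =
      (F + (algebraMap ℂ K t) • f)ᵀ * J * w.map dY
  hc : ∀ κ, ((cov (S.hCtx F S.hF).data S.hR P.1).D D).maxGenEigenspace κ ≠ ⊥ →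
    1 + algebraMap ℂ K t * κ ≠ 0
  hom : SNab.Hom0 (om arm J B F P.1 F) ((cov (S.hCtx F S.hF).data S.hR P.1).D D)
    (fun κ => (1 + algebraMap ℂ K t * κ) ^ 2)
  ainf : Ainf (om arm J B (F + (algebraMap ℂ K t) • f) Pt.1 (F + (algebraMap ℂ K t) • f)) ≤
    Ainf (om arm J B F P.1 F)
  t0 : t ≠ 0

theorem exists_good (S : Setup arm J B N W F f P R D l) :
    ∃ (dY : Derivation ℂ K K) (Bad : Set ℂ), Bad.Finite ∧ ∀ t ∉ Bad, ∃ Pt, GT S dY t Pt := by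
  obtain ⟨Y, dY, hY1, hY2, hY3, hfam⟩ := SInst896.family S
  obtain ⟨B1, hB1, hb1⟩ := SNabI.exists_bad (k := ℂ) (S.hCtx F S.hF) S.hR S.hD two_ne'
  obtain ⟨B2, hB2, hb2⟩ := SInf659.ainf_eq (k := ℂ) two_ne' S.hCtx S.hNm S.hWm S.hNil S.hF S.hf
    S.hV1 S.hP hY3
  refine ⟨dY, B1 ∪ B2 ∪ {0}, (hB1.union hB2).union (Set.finite_singleton 0), fun t ht => ?_⟩
  simp only [Set.mem_union, Set.mem_singleton_iff, not_or] at ht
  obtain ⟨Pt, hPt, hV, hrK, hPF, hrw⟩ := hfam t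
  refine ⟨Pt, ⟨hPt, hV, hrK, hPF, fun w hw => ?_, (hb1 t ht.1.1).1, (hb1 t ht.1.1).2,
    (hb2 t ht.1.2 Pt hPt hrK hPF).le, ht.2⟩⟩
  have h1 := hrw w hw
  have hsk : Pt.1ᵀ * J = -(J * Pt.1) := Skw.eq hPt.1
  rw [transpose_mul] at h1
  have h2 : (F + (algebraMap ℂ K t) • f)ᵀ * Pt.1ᵀ * J * w =
      -((F + (algebraMap ℂ K t) • f)ᵀ * J * (Pt.1 * w)) := by
    rw [Matrix.mul_assoc _ Pt.1ᵀ, hsk, Matrix.mul_neg, Matrix.neg_mul]
    simp only [Matrix.mul_assoc]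
  rw [h2] at h1
  exact neg_injective h1

section fix

variable (S : Setup arm J B N W F f P R D l) {ν ν' : K} (hne : ν ≠ ν')
  {m1 m2 : ℕ} {U1 : Matrix δ (Fin m1) K} {U2 : Matrix δ (Fin m2) K}
  {a1 : Fin 3 → Matrix (Fin m1) (Fin m1) K} {a2 : Fin 3 → Matrix (Fin m2) (Fin m2) K}
  (hU1 : UFr.Cq (UBlk.Qb (S.hCtx F S.hF).data S.hR P.1 D ν) U1)
  (hs1 : ∀ u ∈ UBlk.Qb (S.hCtx F S.hF).data S.hR P.1 D ν, ∃ x, u = U1 *ᵥ x)
  (hi1 : ∀ x, U1 *ᵥ x = 0 → x = 0)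
  (ha1 : ∀ s, B * E K arm s * (Fᵀ * J * (P.1 * F)) * U1 = U1 * a1 s)
  (hU2 : UFr.Cq (UBlk.Qb (S.hCtx F S.hF).data S.hR P.1 D ν') U2)
  (hs2 : ∀ u ∈ UBlk.Qb (S.hCtx F S.hF).data S.hR P.1 D ν', ∃ x, u = U2 *ᵥ x)
  (hi2 : ∀ x, U2 *ᵥ x = 0 → x = 0)
  (ha2 : ∀ s, B * E K arm s * (Fᵀ * J * (P.1 * F)) * U2 = U2 * a2 s)

include hne hU1 hs1 ha1 hU2 hs2 ha2 in
/-- **the move at a good point** -/
theorem move {dY : Derivation ℂ K K} {t : ℂ} {Pt : Matrix ι ι K × (Fin 3 → Matrix ι ι K)}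
    (g : GT S dY t Pt) (hc1 : 1 + algebraMap ℂ K t * ν ≠ 0)
    (hc2 : 1 + algebraMap ℂ K t * ν' ≠ 0) {ρ : K}
    (hρ : ρ = (1 + algebraMap ℂ K t * ν') / (1 + algebraMap ℂ K t * ν))
    (X : Fin 3 → Matrix (Fin m2) (Fin m1) K)
    (hsum : ∑ s, (X s * (a1 s)ᵀ - (-(ρ ^ 2)) • (a2 s * X s)) = 0)
    (harm : ∀ s, (U2ᵀ * (Fᵀ * J * (P.1 * F)) * U2) *
      (X s * (a1 s)ᵀ - (-(ρ ^ 2)) • (a2 s * X s)) * (U1ᵀ * (Fᵀ * J * (P.1 * F)) * U1) = 0) :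
    SUX.Fr J F (F + (algebraMap ℂ K t) • f) Pt.1 (Fᵀ * J * (P.1 * F))
      (1 + algebraMap ℂ K t * ν) (1 + algebraMap ℂ K t * ν') U1 U2 ∧
    SUX.K1 J F (F + (algebraMap ℂ K t) • f) Pt.1 (Fᵀ * J * (P.1 * F))
      (1 + algebraMap ℂ K t * ν) U1 U2 ((ν - ν')⁻¹ • (f - ν' • F)) ∧
    ∃ (d : Derivation ℂ K K) (Γ1 : Matrix (Fin m1) (Fin m1) K)
      (Γ2 : Matrix (Fin m2) (Fin m2) K) (β : Matrix (Fin m1) (Fin m2) K)
      (γ : Matrix (Fin m2) (Fin m1) K),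
      Mv ℂ arm J N W (F + (algebraMap ℂ K t) • f) Pt.1 (Yf U1 U2 X) d ∧
      U2.map d + ZY arm J (F + (algebraMap ℂ K t) • f) Pt.1 (Yf U1 U2 X) * U2 =
        U2 * Γ2 + (1 + algebraMap ℂ K t * ν') ^ 2 • (U1 * β) ∧
      U1.map d + ZY arm J (F + (algebraMap ℂ K t) • f) Pt.1 (Yf U1 U2 X) * U1 =
        U1 * Γ1 + (1 + algebraMap ℂ K t * ν) ^ 2 • (U2 * γ) ∧
      Dec F (Fᵀ * J * (P.1 * F)) U1 U2 a1 a2 (-(ρ ^ 2)) (X, β, γ) ∧
      ∀ κ, κ ≠ ν → κ ≠ ν' → ∀ u ∈ Qf S κ,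
        SUB.nab arm J (F + (algebraMap ℂ K t) • f) Pt.1 (Yf U1 U2 X) d u ∈ Qf S κ := by
  have hctx := S.hCtx F S.hF
  set τ : K := algebraMap ℂ K t with hτ
  have hHK : F + τ • f ∈ Kiso J N W := (Kiso J N W).add_mem S.hF ((Kiso J N W).smul_mem _ S.hf)
  have hCH := S.hCtx _ hHK
  obtain ⟨fr, k1⟩ := SInst896.fr_k1 S hne hU1 hU2 g.hY g.hPF hc1 hc2
  refine ⟨fr, k1, ?_⟩
  obtain ⟨Ri, hRi⟩ := FO.exists_gen_inv (F + τ • f)
  obtain ⟨d, m⟩ := SMv16.exists_mv hCH two_ne' hRi g.mem g.vert fr ha1 ha2 hρ hsum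
  have hff : fᵀ * J * f = 0 := (S.hCtx f S.hf).iso
  obtain ⟨i1, i2, i3⟩ := SNabI.B1 (k := ℂ) (X := X) hctx S.hR S.hD (S.hNil F S.hF) S.hP S.hf.1 hff
    hCH g.mem g.hY g.hPF g.ainf g.hc g.hom (fun r => Yf_symm r) m hne hU1 hU2 hs1 hs2 ha1 ha2
    (fun r => rfl) (fun r => by
      have h1 := harm r
      have e1 : (1 + τ * ν) ^ 2 • (X r * (a1 r)ᵀ) + (1 + τ * ν') ^ 2 • (a2 r * X r) =
          (1 + τ * ν) ^ 2 • (X r * (a1 r)ᵀ - (-(ρ ^ 2)) • (a2 r * X r)) := by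
        have e2 : (1 + τ * ν) ^ 2 * ρ ^ 2 = (1 + τ * ν') ^ 2 := by
          rw [hρ]; field_simp
        rw [← e2, smul_sub, neg_smul, smul_neg, sub_neg_eq_add, smul_smul]
      rw [e1, Matrix.mul_smul, Matrix.smul_mul, h1, smul_zero])
  obtain ⟨Γ1, Γ2, β, γ, n2, n1, hdec⟩ := SB2H16.dec_of_B1 hCH g.mem m fr
    (SMv16.c_ne g.t0 hne) hU1 hs1 ha1 (fun u hu => Qb_exists hctx S.hR S.hD hu) hU2 hs2 ha2
    (fun u hu => Qb_exists hctx S.hR S.hD hu) (fun r => rfl) i1 i2 hρ hsum harm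
  exact ⟨d, Γ1, Γ2, β, γ, m, n2, n1, hdec, i3⟩

end fix

end Crest.Agent.R172.SGeo731
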