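import Crest.Agent.R172.SDec
import Crest.Agent.R172.SCoreP

/-!
Row 172 (S0260), (t2), level 2: two decorations of the same exact family differ by something killed by
`F` (perfect against nilpotent).
-/

set_option autoImplicit false
set_option linter.unusedSectionVars false
set_option maxHeartbeats 400000

namespace Crest.Agent.R172.SUniq

open Matrix Module Crest.Agent.R172.FO Crest.Agent.R172.Qt Crest.Agent.R172.SpS
open Crest.Agent.R172.SEnd2 (PC PhS)
open Crest.Agent.R172.SUX (D3 th)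
open Crest.Agent.R172.St (Nk T mem_T mem_Nk_zero mem_Nk_succ Nk_le_T T_stable T_closed T_eq_Nk)
open Crest.Agent.R172.PL (CoreM Ainf)
open Crest.Agent.R172.UBlk Crest.Agent.R172.UFr
open Crest.Agent.R172.SC (PB)
open Crest.Agent.R172.SDec

section abs

variable {K X V E : Type*} [Field K] [AddCommGroup X] [Module K X] [AddCommGroup V] [Module K V]
  [AddCommGroup E] [Module K E] [FiniteDimensional K X]

/-- an intertwiner modulo `ker Fm`, from a perfect module to the nilpotent part, is killed by `Fm` -/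
theorem zero_abs {om : Fin 3 → End K X} {Fm : X →ₗ[K] V} (hker : ∀ z, Fm z = 0 → ∀ s, om s z = 0)
    {a : Fin 3 → End K E} (hperf : ∀ e, ∃ f : Fin 3 → E, ∑ s, a s (f s) = e)
    {b : E →ₗ[K] X} (hT : ∀ e, b e ∈ T om) {p q : K} (hq : q ≠ 0)
    (hrel : ∀ s e, Fm (p • om s (b e) + q • b (a s e)) = 0) (e : E) : Fm (b e) = 0 := by
  obtain ⟨k, hk⟩ := T_eq_Nk om
  have key : ∀ j, j ≤ k → ∀ e, ∃ n ∈ Nk om (k - j), Fm (b e - n) = 0 := by
    intro j
    induction j with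
    | zero =>
      intro _ e
      refine ⟨b e, ?_, by rw [sub_self, map_zero]⟩
      rw [Nat.sub_zero, ← hk]; exact hT e
    | succ j ih =>
      intro hj e
      obtain ⟨f, hf⟩ := hperf e
      choose n hn hn2 using fun s => ih (by omega) (f s)
      have hn3 : ∀ s, om s (b (f s)) ∈ Nk om (k - (j + 1)) := by
        intro s
        have h1 : om s (b (f s)) = om s (n s) := by
          have h2 := hker _ (hn2 s) s
          rw [map_sub, sub_eq_zero] at h2
          exact h2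
        rw [h1]
        have h3 := hn s
        rw [show k - j = (k - (j + 1)) + 1 by omega] at h3
        exact mem_Nk_succ.1 h3 s
      refine ⟨-(q⁻¹ * p) • ∑ s, om s (b (f s)),
        Submodule.smul_mem _ _ (Submodule.sum_mem _ fun s _ => hn3 s), ?_⟩
      have h4 : b e = ∑ s, b (a s (f s)) := by rw [← map_sum, hf]
      have h5 : ∑ s, Fm (p • om s (b (f s)) + q • b (a s (f s))) = 0 :=
        Finset.sum_eq_zero fun s _ => hrel s (f s)
      have h6 : Fm (b e - -(q⁻¹ * p) • ∑ s, om s (b (f s))) =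
          q⁻¹ • ∑ s, Fm (p • om s (b (f s)) + q • b (a s (f s))) := by
        rw [← map_sum, ← map_smul, Finset.sum_add_distrib, ← Finset.smul_sum, ← Finset.smul_sum,
          ← h4, smul_add, smul_smul, smul_smul, inv_mul_cancel₀ hq, one_smul, neg_smul,
          sub_neg_eq_add, add_comm]
      rw [h6, h5, smul_zero]
  obtain ⟨n, hn, hn2⟩ := key k le_rfl e
  rw [Nat.sub_self, mem_Nk_zero] at hn
  rwa [hn, sub_zero] at hn2

end abs

section inst

variable {ι : Type} [Fintype ι] [DecidableEq ι] {δ : Type} [Fintype δ] [DecidableEq δ]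
variable {K : Type} [Field K] [Algebra ℂ K] [IsAlgClosed K]
variable {arm : δ → Fin 3} {J : Matrix ι ι K} {B : Matrix δ δ K}
  {N W : Submodule K (Matrix ι δ K)} {F f : Matrix ι δ K}
  {P : Matrix ι ι K × (Fin 3 → Matrix ι ι K)} {R : Matrix δ ι K}
  {D : End K (CoreM (PhS arm J B F R P.1))} {l : Fin 3 → ℕ}

theorem Cq_mem {Q : Submodule K (δ → K)} {m : ℕ} {U : Matrix δ (Fin m) K} (hU : Cq Q U)
    (x : Fin m → K) : U *ᵥ x ∈ Q := by
  have h1 : U *ᵥ x = ∑ j, x j • (fun d => U d j) := by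
    funext d
    rw [Finset.sum_apply]
    unfold Matrix.mulVec dotProduct
    exact Finset.sum_congr rfl fun j _ => by
      rw [Pi.smul_apply, smul_eq_mul, mul_comm]
  rw [h1]
  exact Submodule.sum_mem _ fun j _ => Submodule.smul_mem _ _ (hU j)

theorem dot_form {m : ℕ} (U : Matrix δ (Fin m) K) (M : Matrix δ δ K) (x y : Fin m → K) :
    (U *ᵥ y) ⬝ᵥ (M *ᵥ (U *ᵥ x)) = y ⬝ᵥ ((Uᵀ * M * U) *ᵥ x) := by
  rw [← mulVec_mulVec, ← mulVec_mulVec, dotProduct_mulVec y Uᵀ, vecMul_transpose]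

/-- the radical of a block frame lies in `T (om)` -/
theorem rad_T (S : STop.Setup arm J B N W F f P R D l) {ν : K} {m : ℕ}
    {U : Matrix δ (Fin m) K} (hU : Cq (Qb (S.hCtx F S.hF).data S.hR P.1 D ν) U)
    (hs : ∀ u ∈ Qb (S.hCtx F S.hF).data S.hR P.1 D ν, ∃ x, u = U *ᵥ x)
    {x : Fin m → K} (hx : (Uᵀ * (Fᵀ * J * (P.1 * F)) * U) *ᵥ x = 0) :
    U *ᵥ x ∈ T (om arm J B F P.1 F) := by
  have h := S.hCtx F S.hF
  have hD := S.hD
  have hu := Cq_mem hU x
  rw [(cov h.data S.hR P.1).mem_T]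
  have hd := SCP.dat h S.hR S.hP
  apply t_eta
  apply hd.mem_t
  intro w hw
  have hw' : w ∈ ⨆ κ, PB (PhS arm J B F R P.1) D κ := by
    rw [SC.iSup_PB hD.2 (Module.End.iSup_maxGenEigenspace_eq_top D)]
    exact hw
  refine Submodule.iSup_induction (p := fun κ => PB (PhS arm J B F R P.1) D κ)
    (motive := fun w => bil F R (Fᵀ * (J * P.1) * F) (gS F (U *ᵥ x)) w = 0) hw' ?_ (map_zero _) ?_
  · intro κ w hw
    have hw2 : w ∈ (Qb h.data S.hR P.1 D κ).map (gS F) := by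
      rw [Qb_map h S.hR hD κ]; exact hw
    obtain ⟨u', hu', rfl⟩ := hw2
    rw [bil_gS S.hR]
    have e1 : Fᵀ * (J * P.1) * F = Fᵀ * J * (P.1 * F) := by simp only [Matrix.mul_assoc]
    rw [e1]
    by_cases hκ : κ = ν
    · subst hκ
      obtain ⟨y, rfl⟩ := hs u' hu'
      rw [dot_form, hx, dotProduct_zero]
    · exact Qb_orth h S.hR hD (S.hNil F S.hF) S.hP S.hf.1 hκ hu' hu
  · intro a b ha hb
    rw [map_add, ha, hb, add_zero]

/-- the frame module is perfect -/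
theorem perf (S : STop.Setup arm J B N W F f P R D l) {ν : K} {m : ℕ}
    {U : Matrix δ (Fin m) K} (hU : Cq (Qb (S.hCtx F S.hF).data S.hR P.1 D ν) U)
    (hs : ∀ u ∈ Qb (S.hCtx F S.hF).data S.hR P.1 D ν, ∃ x, u = U *ᵥ x)
    (hi : ∀ x, U *ᵥ x = 0 → x = 0) {a : Fin 3 → Matrix (Fin m) (Fin m) K}
    (ho : ∀ s, B * E K arm s * (Fᵀ * J * (P.1 * F)) * U = U * a s) (e : Fin m → K) :
    ∃ c : Fin 3 → (Fin m → K), ∑ s, a s *ᵥ c s = e := by
  obtain ⟨c, hc, hce⟩ := Qb_exists (S.hCtx F S.hF) S.hR S.hD (Cq_mem hU e)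
  choose x hx using fun s => hs _ (hc s)
  refine ⟨x, ?_⟩
  have h1 : U *ᵥ (∑ s, a s *ᵥ x s - e) = 0 := by
    rw [mulVec_sub, mulVec_sum, ← hce, sub_eq_zero]
    refine Finset.sum_congr rfl fun s _ => ?_
    rw [om_apply, hx s, mulVec_mulVec, ← ho s, mulVec_mulVec]
    rfl
  exact sub_eq_zero.1 (hi _ h1)

/-- **uniqueness**, matrix form: `δ : block 2 → rad (block 1)` with
`F U₁ (p a₁ δ + q δ a₂) = 0` (`q ≠ 0`) is killed by `F U₁` and `S₀ U₁` -/
theorem uniq (S : STop.Setup arm J B N W F f P R D l) {ν ν' : K} {m m' : ℕ}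
    {U : Matrix δ (Fin m) K} {a : Fin 3 → Matrix (Fin m) (Fin m) K}
    (hU : Cq (Qb (S.hCtx F S.hF).data S.hR P.1 D ν) U)
    (hs : ∀ u ∈ Qb (S.hCtx F S.hF).data S.hR P.1 D ν, ∃ x, u = U *ᵥ x)
    (ho : ∀ s, B * E K arm s * (Fᵀ * J * (P.1 * F)) * U = U * a s)
    {U' : Matrix δ (Fin m') K} {a' : Fin 3 → Matrix (Fin m') (Fin m') K}
    (hU' : Cq (Qb (S.hCtx F S.hF).data S.hR P.1 D ν') U')
    (hs' : ∀ u ∈ Qb (S.hCtx F S.hF).data S.hR P.1 D ν', ∃ x, u = U' *ᵥ x)
    (hi' : ∀ x, U' *ᵥ x = 0 → x = 0)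
    (ho' : ∀ s, B * E K arm s * (Fᵀ * J * (P.1 * F)) * U' = U' * a' s)
    {Δ : Matrix (Fin m) (Fin m') K} (hr : (Uᵀ * (Fᵀ * J * (P.1 * F)) * U) * Δ = 0)
    {p q : K} (hq : q ≠ 0)
    (hrel : ∀ s, F * (U * (p • (a s * Δ) + q • (Δ * a' s))) = 0) :
    F * (U * Δ) = 0 ∧ (Fᵀ * J * (P.1 * F)) * (U * Δ) = 0 := by
  have h1 : F * (U * Δ) = 0 := by
    have key := zero_abs (om := om arm J B F P.1 F) (Fm := F.mulVecLin)
      (a := fun s => (a' s).mulVecLin) (b := (U * Δ).mulVecLin) (p := p) (q := q)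
      (fun z hz s => by
        rw [mulVecLin_apply] at hz
        have e2 : th J F P.1 F = Fᵀ * J * P.1 * F := by
          unfold th; simp only [Matrix.mul_assoc]
        have e3 : (Fᵀ * J * P.1 * F) *ᵥ z = 0 := by rw [← mulVec_mulVec, hz, mulVec_zero]
        rw [om_apply, e2, ← mulVec_mulVec, e3, mulVec_zero])
      (fun e => by
        obtain ⟨c, hc⟩ := perf S hU' hs' hi' ho' e
        exact ⟨c, hc⟩)
      (fun e => by
        rw [mulVecLin_apply, ← mulVec_mulVec]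
        refine rad_T S hU hs ?_
        rw [mulVec_mulVec, hr, zero_mulVec])
      hq
      (fun s e => by
        have h2 := congrArg (fun A : Matrix ι (Fin m') K => A *ᵥ e) (hrel s)
        simp only [zero_mulVec] at h2
        rw [mulVecLin_apply, ← h2]
        have e3 : om arm J B F P.1 F s ((U * Δ).mulVecLin e) = (U * (a s * Δ)) *ᵥ e := by
          rw [om_apply, mulVecLin_apply, mulVec_mulVec]
          congr 1
          calc B * E K arm s * th J F P.1 F * (U * Δ) =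
              (B * E K arm s * (Fᵀ * J * (P.1 * F)) * U) * Δ := by
                unfold th; simp only [Matrix.mul_assoc]
            _ = _ := by rw [ho s, Matrix.mul_assoc]
        rw [e3, mulVecLin_apply, mulVecLin_apply, mulVec_mulVec, ← mulVec_mulVec (M := F),
          Matrix.mul_add, add_mulVec, Matrix.mul_smul, Matrix.mul_smul, smul_mulVec, smul_mulVec]
        simp only [Matrix.mul_assoc])
    ext i j
    have h3 := congrFun (key (Pi.single j 1)) i
    rw [mulVecLin_apply, mulVecLin_apply, mulVec_mulVec] at h3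
    simpa using h3
  refine ⟨h1, ?_⟩
  have e1 : (Fᵀ * J * (P.1 * F)) * (U * Δ) = Fᵀ * J * P.1 * (F * (U * Δ)) := by
    simp only [Matrix.mul_assoc]
  rw [e1, h1, Matrix.mul_zero]

/-- `perf1`, `perf2` of `SD937.sep_values` -/
theorem perf' (S : STop.Setup arm J B N W F f P R D l) {ν : K} {m : ℕ}
    {U : Matrix δ (Fin m) K} (hU : Cq (Qb (S.hCtx F S.hF).data S.hR P.1 D ν) U)
    (hs : ∀ u ∈ Qb (S.hCtx F S.hF).data S.hR P.1 D ν, ∃ x, u = U *ᵥ x)
    (hi : ∀ x, U *ᵥ x = 0 → x = 0) {a : Fin 3 → Matrix (Fin m) (Fin m) K}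
    (ho : ∀ s, B * E K arm s * (Fᵀ * J * (P.1 * F)) * U = U * a s) (y : Fin m → K) :
    ∃ c : Fin 3 → (Fin m → K), y = ∑ s, a s *ᵥ c s := by
  obtain ⟨c, hc⟩ := perf S hU hs hi ho y
  exact ⟨c, hc.symm⟩

/-- `hk1`, `hk2` of `SD937.sep_values` -/
theorem hk {m : ℕ} {U : Matrix δ (Fin m) K} {a : Fin 3 → Matrix (Fin m) (Fin m) K}
    (ho : ∀ s, B * E K arm s * (Fᵀ * J * (P.1 * F)) * U = U * a s) (s : Fin 3) (x : Fin m → K)
    (hx : (F * U) *ᵥ x = 0) : (F * U) *ᵥ (a s *ᵥ x) = 0 := by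
  have h1 : (F * U) *ᵥ (a s *ᵥ x) = (F * (B * E K arm s * (Fᵀ * J * P.1))) *ᵥ ((F * U) *ᵥ x) := by
    rw [mulVec_mulVec, mulVec_mulVec, Matrix.mul_assoc F U, ← ho s]
    simp only [Matrix.mul_assoc]
  rw [h1, hx, mulVec_zero]

/-- `nil1`, `nil2` of `SD937.sep_values` -/
theorem nil (S : STop.Setup arm J B N W F f P R D l) {ν : K} {m : ℕ}
    {U : Matrix δ (Fin m) K} (hU : Cq (Qb (S.hCtx F S.hF).data S.hR P.1 D ν) U)
    (hs : ∀ u ∈ Qb (S.hCtx F S.hF).data S.hR P.1 D ν, ∃ x, u = U *ᵥ x)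
    {a : Fin 3 → Matrix (Fin m) (Fin m) K}
    (ho : ∀ s, B * E K arm s * (Fᵀ * J * (P.1 * F)) * U = U * a s) :
    ∃ k, ∀ w : List (Fin 3), w.length = k → ∀ x, (Uᵀ * (Fᵀ * J * (P.1 * F)) * U) *ᵥ x = 0 →
      U *ᵥ ((w.map a).prod *ᵥ x) = 0 := by
  obtain ⟨k, hk⟩ := T_eq_Nk (om arm J B F P.1 F)
  have key : ∀ k, ∀ x, U *ᵥ x ∈ Nk (om arm J B F P.1 F) k → ∀ w : List (Fin 3), w.length = k →
      U *ᵥ ((w.map a).prod *ᵥ x) = 0 := by
    intro k
    induction k with
    | zero =>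
      intro x hx w hw
      obtain rfl := List.length_eq_zero_iff.1 hw
      rw [mem_Nk_zero] at hx
      rw [List.map_nil, List.prod_nil, one_mulVec, hx]
    | succ k ih =>
      intro x hx w hw
      obtain ⟨w', s, rfl⟩ : ∃ w' s, w = w' ++ [s] := by
        rcases List.eq_nil_or_concat w with rfl | ⟨w', s, rfl⟩
        · simp at hw
        · exact ⟨w', s, by simp⟩
      have hw' : w'.length = k := by simpa using hw
      rw [List.map_append, List.prod_append, List.map_singleton, List.prod_singleton,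
        ← mulVec_mulVec]
      refine ih _ ?_ w' hw'
      have h1 := mem_Nk_succ.1 hx s
      have h2 : om arm J B F P.1 F s (U *ᵥ x) = U *ᵥ (a s *ᵥ x) := by
        rw [om_apply, mulVec_mulVec, mulVec_mulVec, ← ho s]
        unfold th
        simp only [Matrix.mul_assoc]
      rwa [h2] at h1
  refine ⟨k, fun w hw x hx => key k x ?_ w hw⟩
  rw [← hk]
  exact rad_T S hU hs hx

end inst

end Crest.Agent.R172.SUniq
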