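import Crest.Agent.R172.SDecC926
import Crest.Agent.R172.SD937
import Crest.Agent.R172.SWd275
import Crest.Agent.R172.SZb252
import Crest.Agent.R172.SB1S965
import Crest.Agent.R172.SUniq503
import Crest.Agent.R172.SB4x117
import Crest.Agent.R172.SB2H16
import Crest.Agent.R172.SDec2
import Crest.Agent.R172.SLevA455
import Crest.Agent.R172.SMv16
import Crest.Agent.R172.SInst896
import Crest.Agent.R172.SInst
import Crest.Agent.R172.SNF16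
import Crest.Agent.R172.SPerp72
import Crest.Agent.R172.SUX7
import Crest.Agent.R172.SUX6w946

/-! # Row 172 (t2), second level, geometric half (second copy) -/

set_option autoImplicit false
set_option linter.unusedSectionVars false
set_option maxHeartbeats 1000000

namespace Crest.Agent.R172.SGeo737

open Matrix Module Crest.Agent.R172.FO Crest.Agent.R172.Qt Crest.Agent.R172.SpS
open Crest.Agent.R172.SEnd2 (PC PhS)
open Crest.Agent.R172.SUX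
open Crest.Agent.R172.STop (Setup)
open Crest.Agent.R172.SInst (QQb)
open Crest.Agent.R172.SDec (Dec Rel2)
open Crest.Agent.R172.PL (CoreM)
open Crest.Agent.R172.Om (Kiso)

variable {ι : Type} [Fintype ι] [DecidableEq ι] {δ : Type} [Fintype δ] [DecidableEq δ]
variable {K : Type} [Field K] [Algebra ℂ K]
variable {arm : δ → Fin 3} {J : Matrix ι ι K} {B : Matrix δ δ K} {N W : Submodule K (Matrix ι δ K)}
  {F f : Matrix ι δ K} {P : Matrix ι ι K × (Fin 3 → Matrix ι ι K)} {R : Matrix δ ι K}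
  {D : End K (CoreM (PhS arm J B F R P.1))} {l : Fin 3 → ℕ}

/-- frames of two blocks -/
structure Frm (S : Setup arm J B N W F f P R D l) (ν ν' : K) {m1 m2 : ℕ}
    (U1 : Matrix δ (Fin m1) K) (U2 : Matrix δ (Fin m2) K)
    (a1 : Fin 3 → Matrix (Fin m1) (Fin m1) K) (a2 : Fin 3 → Matrix (Fin m2) (Fin m2) K) :
    Prop where
  C1 : UFr.Cq (QQb S ν) U1
  s1 : ∀ u ∈ QQb S ν, ∃ x, u = U1 *ᵥ x
  i1 : ∀ x, U1 *ᵥ x = 0 → x = 0
  o1 : ∀ s, B * E K arm s * (Fᵀ * J * (P.1 * F)) * U1 = U1 * a1 s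
  C2 : UFr.Cq (QQb S ν') U2
  s2 : ∀ u ∈ QQb S ν', ∃ x, u = U2 *ᵥ x
  i2 : ∀ x, U2 *ᵥ x = 0 → x = 0
  o2 : ∀ s, B * E K arm s * (Fᵀ * J * (P.1 * F)) * U2 = U2 * a2 s

/-- the data at one parameter `a` -/
structure At (S : Setup arm J B N W F f P R D l) (dY : Derivation ℂ K K) (a : K)
    (Pt : Matrix ι ι K × (Fin 3 → Matrix ι ι K)) (Ri : Matrix δ ι K) : Prop where
  iso : F + a • f ∈ Kiso J N W
  ctx : Ctx ℂ arm J B N W (F + a • f)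
  nn : Pt ∈ NN arm J N (F + a • f)
  vert : Vert ℂ arm J N W (F + a • f) Pt
  hRi : (F + a • f) * Ri * (F + a • f) = F + a • f
  hY : ∀ f' ∈ N ⊓ W, (F + a • f)ᵀ * J * (Pt.1 * f') = (F + a • f)ᵀ * J * f'.map dY
  hPF : (F + a • f)ᵀ * J * (Pt.1 * F) = (F + a • f)ᵀ * J * (P.1 * F)
  row : ∀ w : Matrix ι δ K, (F + a • f)ᵀ * J * w = 0 →
    (Pt.1 * (F + a • f))ᵀ * J * w = -((F + a • f)ᵀ * J * w.map dY)

variable {m1 m2 : ℕ} {U1 : Matrix δ (Fin m1) K} {U2 : Matrix δ (Fin m2) K}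
  {a1 : Fin 3 → Matrix (Fin m1) (Fin m1) K} {a2 : Fin 3 → Matrix (Fin m2) (Fin m2) K}
  {ν ν' : K}

/-- the family of the move -/
def YY (U1 : Matrix δ (Fin m1) K) (U2 : Matrix δ (Fin m2) K)
    (X : Fin 3 → Matrix (Fin m2) (Fin m1) K) (s : Fin 3) : Matrix δ δ K :=
  U2 * X s * U1ᵀ + U1 * (X s)ᵀ * U2ᵀ

theorem YY_symm (X : Fin 3 → Matrix (Fin m2) (Fin m1) K) (s : Fin 3) :
    (YY U1 U2 X s)ᵀ = YY U1 U2 X s := by
  rw [YY, transpose_add, transpose_mul, transpose_mul, transpose_mul, transpose_mul,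
    transpose_transpose, transpose_transpose, transpose_transpose, Matrix.mul_assoc,
    Matrix.mul_assoc, add_comm]

/-- exactness of a family at `c` -/
structure Ext (S0 : Matrix δ δ K) (U1 : Matrix δ (Fin m1) K) (U2 : Matrix δ (Fin m2) K)
    (a1 : Fin 3 → Matrix (Fin m1) (Fin m1) K) (a2 : Fin 3 → Matrix (Fin m2) (Fin m2) K) (c : K)
    (X : Fin 3 → Matrix (Fin m2) (Fin m1) K) : Prop where
  sum : ∑ s, (X s * (a1 s)ᵀ - c • (a2 s * X s)) = 0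
  arm : ∀ s, (U2ᵀ * S0 * U2) * (X s * (a1 s)ᵀ - c • (a2 s * X s)) * (U1ᵀ * S0 * U1) = 0

theorem Ext.of {S0 : Matrix δ δ K} {c : K} {y : D3 K (Fin m1) (Fin m2)}
    (h : Dec F S0 U1 U2 a1 a2 c y) : Ext S0 U1 U2 a1 a2 c y.1 := ⟨h.sum, h.arm⟩

/-- corrections with scalar values on the third blocks -/
def Wc (S : Setup arm J B N W F f P R D l) (ν ν' : K) : Submodule K (Matrix ι δ K) where
  carrier := {w | w ∈ W ∧ ∀ κ, κ ≠ ν → κ ≠ ν' → ∃ μ : K, ∀ u ∈ QQb S κ, w *ᵥ u = μ • (F *ᵥ u)}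
  zero_mem' := ⟨W.zero_mem, fun κ _ _ => ⟨0, fun u _ => by simp⟩⟩
  add_mem' := by
    rintro w w' ⟨h1, h2⟩ ⟨h1', h2'⟩
    refine ⟨W.add_mem h1 h1', fun κ hk hk' => ?_⟩
    obtain ⟨μ, h⟩ := h2 κ hk hk'
    obtain ⟨μ', h'⟩ := h2' κ hk hk'
    exact ⟨μ + μ', fun u hu => by rw [add_mulVec, h u hu, h' u hu, add_smul]⟩
  smul_mem' := by
    rintro c w ⟨h1, h2⟩
    refine ⟨W.smul_mem c h1, fun κ hk hk' => ?_⟩
    obtain ⟨μ, h⟩ := h2 κ hk hk'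
    exact ⟨c * μ, fun u hu => by rw [smul_mulVec, h u hu, smul_smul]⟩

theorem Wc_le (S : Setup arm J B N W F f P R D l) : Wc S ν ν' ≤ W := fun _ h => h.1

abbrev GG (S : Setup arm J B N W F f P R D l) : Submodule K (Matrix ι δ K) :=
  SLev0.QG arm J B N W F P (PC arm J B F R P.1)
    (fun μ : K => (SLev0.PbK arm J B F R P.1 D μ)) id


/-- the frame form of the connection of one move -/
structure Con (S : Setup arm J B N W F f P R D l) (ν ν' : K) (U1 : Matrix δ (Fin m1) K)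
    (U2 : Matrix δ (Fin m2) K) (H : Matrix ι δ K) (Pt : Matrix ι ι K × (Fin 3 → Matrix ι ι K))
    (c1 c2 : K) (Y : Fin 3 → Matrix δ δ K) (d : Derivation ℂ K K)
    (Γ1 : Matrix (Fin m1) (Fin m1) K) (Γ2 : Matrix (Fin m2) (Fin m2) K)
    (β : Matrix (Fin m1) (Fin m2) K) (γ : Matrix (Fin m2) (Fin m1) K) : Prop where
  N2 : U2.map d + ZY arm J H Pt.1 Y * U2 = U2 * Γ2 + c2 ^ 2 • (U1 * β)
  N1 : U1.map d + ZY arm J H Pt.1 Y * U1 = U1 * Γ1 + c1 ^ 2 • (U2 * γ)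
  rb : (U1ᵀ * (Fᵀ * J * (P.1 * F)) * U1) * β = 0
  rk : (U2ᵀ * (Fᵀ * J * (P.1 * F)) * U2) * γ = 0
  third : ∀ κ, κ ≠ ν → κ ≠ ν' → ∀ u ∈ QQb S κ, SUB.nab arm J H Pt.1 Y d u ∈ QQb S κ

/-- B1 + B2 : the connection in frames -/
theorem frames_leaf [IsAlgClosed K] (S : Setup arm J B N W F f P R D l) (h20 : (2 : K) ≠ 0)
    (hne : ν ≠ ν') (fm : Frm S ν ν' U1 U2 a1 a2) : ∃ T : Set ℂ, T.Finite ∧ ∀ t ∉ T, t ≠ 0 ∧
      (∀ κ, QQb S κ ≠ ⊥ → 1 + algebraMap ℂ K t * κ ≠ 0) ∧ ∀ dY Pt Ri,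
      At S dY (algebraMap ℂ K t) Pt Ri → ∀ c1 c2 : K, c1 = 1 + algebraMap ℂ K t * ν →
      c2 = 1 + algebraMap ℂ K t * ν' → c1 ≠ 0 → c2 ≠ 0 → ∀ X,
      Ext (Fᵀ * J * (P.1 * F)) U1 U2 a1 a2 (-((c2 / c1) ^ 2)) X → ∀ d,
      Mv ℂ arm J N W (F + (algebraMap ℂ K t) • f) Pt.1 (YY U1 U2 X) d →
      ∃ Γ1 Γ2 β γ, Con S ν ν' U1 U2 (F + (algebraMap ℂ K t) • f) Pt c1 c2 (YY U1 U2 X) d
        Γ1 Γ2 β γ := by
  obtain ⟨T, hT, hb⟩ := SB1S965.b1 S h20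
  refine ⟨T ∪ {0}, hT.union (Set.finite_singleton 0), fun t ht => ?_⟩
  have ht1 : t ∉ T := fun h => ht (Or.inl h)
  have ht0 : t ≠ 0 := fun h => ht (Or.inr h)
  obtain ⟨h3, hb'⟩ := hb t ht1
  refine ⟨ht0, h3, fun dY Pt Ri at' c1 c2 e1 e2 hc1 hc2 X hX d m => ?_⟩
  have hfr := SInst.fr_k1 S at'.hY at'.hPF hne (e1 ▸ hc1) (e2 ▸ hc2) fm.C1 fm.C2
  rw [← e1, ← e2] at hfr
  obtain ⟨fr, k1⟩ := hfr
  have hcne : c1 ≠ c2 := by rw [e1, e2]; exact SMv16.c_ne ht0 hne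
  have harm : ∀ r, (U2ᵀ * (Fᵀ * J * (P.1 * F)) * U2) *
      ((1 + algebraMap ℂ K t * ν) ^ 2 • (X r * (a1 r)ᵀ) +
        (1 + algebraMap ℂ K t * ν') ^ 2 • (a2 r * X r)) *
      (U1ᵀ * (Fᵀ * J * (P.1 * F)) * U1) = 0 := fun r => by
    rw [← e1, ← e2]
    have e : c1 ^ 2 * -(c2 / c1) ^ 2 = -c2 ^ 2 := by field_simp
    have h' : c1 ^ 2 • (X r * (a1 r)ᵀ) + c2 ^ 2 • (a2 r * X r) =
        c1 ^ 2 • (X r * (a1 r)ᵀ - (-((c2 / c1) ^ 2)) • (a2 r * X r)) := by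
      rw [smul_sub, smul_smul, e, neg_smul, sub_neg_eq_add]
    rw [h', Matrix.mul_smul, Matrix.smul_mul, hX.arm r, smul_zero]
  obtain ⟨i1, i2, i3⟩ := hb' Pt dY at'.nn at'.hY at'.hPF (YY_symm X) m hne fm.C1 fm.C2 fm.s1 fm.s2
    fm.o1 fm.o2 (fun r => rfl) harm
  obtain ⟨Γ1, Γ2, β, γ, N2, N1, dec⟩ := SB2H16.dec_of_B1 at'.ctx at'.nn m fr hcne fm.C1 fm.s1 fm.o1
    (fun u hu => UBlk.Qb_exists (S.hCtx F S.hF) S.hR S.hD hu) fm.C2 fm.s2 fm.o2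
    (fun u hu => UBlk.Qb_exists (S.hCtx F S.hF) S.hR S.hD hu) (fun r => rfl) i1 i2 rfl hX.sum
    hX.arm
  exact ⟨Γ1, Γ2, β, γ, ⟨N2, N1, dec.rb, dec.rk, i3⟩⟩

theorem fm_mem1 {S : Setup arm J B N W F f P R D l} {m : ℕ} {κ : K} {U : Matrix δ (Fin m) K}
    (hC : UFr.Cq (QQb S κ) U) (x : Fin m → K) : U *ᵥ x ∈ QQb S κ := by
  have h : U *ᵥ x = ∑ j, x j • (fun i => U i j) := by
    funext i
    simp [mulVec, dotProduct, mul_comm]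
  rw [h]
  exact Submodule.sum_mem _ fun j _ => Submodule.smul_mem _ _ (hC j)

/-- `hrow` -/
theorem At.hrow {S : Setup arm J B N W F f P R D l} {dY : Derivation ℂ K K} {a : K}
    {Pt : Matrix ι ι K × (Fin 3 → Matrix ι ι K)} {Ri : Matrix δ ι K} (h : At S dY a Pt Ri)
    {w : Matrix ι δ K} (hw : (F + a • f)ᵀ * J * w = 0) :
    (F + a • f)ᵀ * J * (Pt.1 * w) = (F + a • f)ᵀ * J * w.map dY := by
  have h1 := h.row w hw
  have hsk : Pt.1ᵀ * J = -(J * Pt.1) := h.nn.1.eq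
  have h2 : (Pt.1 * (F + a • f))ᵀ * J * w = -((F + a • f)ᵀ * J * (Pt.1 * w)) := by
    rw [transpose_mul, Matrix.mul_assoc _ _ J, hsk]
    simp only [Matrix.mul_neg, Matrix.neg_mul, Matrix.mul_assoc]
  rw [h2] at h1
  exact neg_injective h1

theorem fam [IsAlgClosed K] (S : Setup arm J B N W F f P R D l) (h2 : (2 : K) ≠ 0) :
    ∃ dY : Derivation ℂ K K, ∀ t : ℂ, ∃ Pt Ri, At S dY (algebraMap ℂ K t) Pt Ri := by
  obtain ⟨Y, dY, _, _, _, h⟩ := SInst.family S h2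
  refine ⟨dY, fun t => ?_⟩
  obtain ⟨Pt, Ri, e1, e2, e3, e4, e5, e6, e7, e8⟩ := h t
  exact ⟨Pt, Ri, e1, e2, e3, e4, e5, e6, e7, e8⟩

/-- **existence of the decoration at one parameter** -/
theorem exists_dec [IsAlgClosed K] (S : Setup arm J B N W F f P R D l) (h20 : (2 : K) ≠ 0)
    (hne : ν ≠ ν') (fm : Frm S ν ν' U1 U2 a1 a2) {dY : Derivation ℂ K K} {a : K}
    {Pt : Matrix ι ι K × (Fin 3 → Matrix ι ι K)} {Ri : Matrix δ ι K} (at' : At S dY a Pt Ri)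
    (ha : a ≠ 0) {c1 c2 : K} (e1 : c1 = 1 + a * ν) (e2 : c2 = 1 + a * ν') (hc1 : c1 ≠ 0)
    (hc2 : c2 ≠ 0) (h3 : ∀ κ, QQb S κ ≠ ⊥ → 1 + a * κ ≠ 0)
    {X : Fin 3 → Matrix (Fin m2) (Fin m1) K}
    (hX : Ext (Fᵀ * J * (P.1 * F)) U1 U2 a1 a2 (-((c2 / c1) ^ 2)) X)
    (hcon : ∀ d, Mv ℂ arm J N W (F + a • f) Pt.1 (YY U1 U2 X) d →
      ∃ Γ1 Γ2 β γ, Con S ν ν' U1 U2 (F + a • f) Pt c1 c2 (YY U1 U2 X) d Γ1 Γ2 β γ) :
    ∃ d Γ1 Γ2 β γ, Mv ℂ arm J N W (F + a • f) Pt.1 (YY U1 U2 X) d ∧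
      Con S ν ν' U1 U2 (F + a • f) Pt c1 c2 (YY U1 U2 X) d Γ1 Γ2 β γ ∧
      Dec F (Fᵀ * J * (P.1 * F)) U1 U2 a1 a2 (-((c2 / c1) ^ 2)) (X, β, γ) ∧
      (∀ κ : Fin m2 → K, F *ᵥ (U2 *ᵥ κ) = 0 →
            ∃ κ2 : Fin m2 → K, F *ᵥ (U1 *ᵥ (β *ᵥ κ)) = F *ᵥ (U2 *ᵥ κ2)) ∧
      I1 arm F (Fᵀ * J * (P.1 * F)) U1 U2 (X, β, γ) +
        (c2 / c1) • I2 arm F (Fᵀ * J * (P.1 * F)) U1 U2 (X, β, γ) ∈
          QQ5 J N (Wc S ν ν') F f dY (Fᵀ * J * (P.1 * F)) U1 U2 := by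
  have hfr := SInst.fr_k1 S at'.hY at'.hPF hne (e1 ▸ hc1) (e2 ▸ hc2) fm.C1 fm.C2
  rw [← e1, ← e2] at hfr
  obtain ⟨fr, k1⟩ := hfr
  have hcne : c1 ≠ c2 := by
    intro h
    rw [e1, e2] at h
    exact hne (mul_left_cancel₀ ha (add_left_cancel h))
  have hHm : F + a • f ∈ N ⊓ W := at'.iso.1
  have hsH : (th J (F + a • f) Pt.1 (F + a • f))ᵀ = -th J (F + a • f) Pt.1 (F + a • f) :=
    th_skew at'.ctx at'.nn hHm
  have hB : Bᵀ = B := at'.ctx.data.B_symm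
  have hex : Exact arm J B (F + a • f) Pt.1 (YY U1 U2 X) := by
    refine SD937.exact_frames fr hsH hB (fun s => by rw [← Matrix.mul_assoc]; exact fm.o1 s)
      (fun s => by rw [← Matrix.mul_assoc]; exact fm.o2 s) ?_
    have h := hX.sum
    simpa only [neg_smul, sub_neg_eq_add] using h
  obtain ⟨d, m⟩ := exists_move at'.ctx h20 at'.hRi at'.nn at'.vert (YY_symm X) hex
  obtain ⟨Γ1, Γ2, β, γ, con⟩ := hcon d m
  have hYd : ∀ r, YY U1 U2 X r = U2 * X r * U1ᵀ + U1 * (X r)ᵀ * U2ᵀ := fun r => rfl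
  have hcb := fun r => (SNF16.cor_beta at'.ctx at'.nn (YY_symm X) m fr hcne fm.o1 fm.o2 hYd
    con.N2 r).1
  have hcg := fun r => (SNF16.cor_gamma at'.ctx at'.nn (YY_symm X) m fr hcne fm.o1 fm.o2 hYd
    con.N1 r).1
  have hdec : Dec F (Fᵀ * J * (P.1 * F)) U1 U2 a1 a2 (-((c2 / c1) ^ 2)) (X, β, γ) := by
    refine ⟨hX.sum, hX.arm, con.rb, con.rk, fun s => ?_, fun s => ?_⟩
    · have h := hcb s
      simpa only [neg_smul, sub_eq_add_neg] using h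
    · have h := congrArg (fun M => (-((c2 / c1) ^ 2)) • M) (hcg s)
      simp only [smul_zero] at h
      rw [← h]
      have e : (-((c2 / c1) ^ 2)) * (c1 / c2) ^ 2 = -1 := by field_simp
      simp only [← Matrix.mul_smul, smul_sub, smul_smul, e]
      congr 2
      simp
  refine ⟨d, Γ1, Γ2, β, γ, m, con, hdec, fun κ hκ => ?_, ?_⟩
  · exact SZb252.zb fr m.dH (by rw [con.N2]) κ hκ
  · -- the first derivative
    have hFi : F ∈ Kiso J N W := S.hF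
    have hfi : f ∈ Kiso J N W := S.hf
    have hqm : (ν - ν')⁻¹ • (f - ν' • F) ∈ N ⊓ W :=
      (N ⊓ W).smul_mem _ ((N ⊓ W).sub_mem hfi.1 ((N ⊓ W).smul_mem _ hFi.1))
    have hqp : (F + a • f)ᵀ * J * ((ν - ν')⁻¹ • (f - ν' • F)) = 0 := at'.ctx.perp _ hqm
    have hG : ∀ r, ((ν - ν')⁻¹ • (f - ν' • F)) * YY U1 U2 X r =
        (F + a • f) * (c1⁻¹ • (U1 * (X r)ᵀ * U2ᵀ)) := fun r => by
      rw [YY, Matrix.mul_add, ← Matrix.mul_assoc, ← Matrix.mul_assoc, k1.q2, Matrix.zero_mul,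
        Matrix.zero_mul, zero_add, ← Matrix.mul_assoc, ← Matrix.mul_assoc, k1.q1,
        Matrix.mul_smul, ← Matrix.mul_assoc, ← Matrix.mul_assoc, fr.H1, Matrix.smul_mul,
        Matrix.smul_mul, smul_smul, inv_mul_cancel₀ hc1, one_smul]
    have hp : ∀ f' ∈ Kiso J N W, f'ᵀ * J * wd arm J (F + a • f) Pt.1 (YY U1 U2 X) d
        ((ν - ν')⁻¹ • (f - ν' • F)) = 0 := fun f' hf' =>
      SPerp72.wd_perp at'.ctx m S.hNm S.hWm hqm.1 hqm.2 hqp hG hf'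
    have hwp := Mv.w_perp at'.ctx m hqp
    refine SUX6w946.first_memC at'.ctx at'.nn m hqm hqp fr k1 (fun s v _ => rfl)
      (fun v _ => by rw [con.N2]) (fun v _ => by rw [con.N1]) (hp F hFi) (hp f hfi)
      (at'.hrow hwp) ⟨m.w_mem hqm.2, fun κ hk hk' => ?_⟩
    -- values on the third blocks
    by_cases hb : QQb S κ = ⊥
    · refine ⟨0, fun u hu => ?_⟩
      rw [hb, Submodule.mem_bot] at hu
      rw [hu]; simp
    have hck := h3 κ hb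
    have hlin : ∀ u ∈ QQb S κ, ((ν - ν')⁻¹ • (f - ν' • F)) *ᵥ u =
        (((ν - ν')⁻¹ * (κ - ν')) * (1 + a * κ)⁻¹) • ((F + a • f) *ᵥ u) := fun u hu => by
      have e := SInst.rel S hu
      have e0 : (F + a • f) *ᵥ u = (1 + a * κ) • (F *ᵥ u) := by
        rw [add_mulVec, smul_mulVec, e, smul_smul, add_smul, one_smul]
      rw [e0, smul_smul, mul_assoc, inv_mul_cancel₀ hck, mul_one, smul_mulVec, sub_mulVec,
        smul_mulVec, e, ← sub_smul, smul_smul]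
    refine ⟨d (((ν - ν')⁻¹ * (κ - ν')) * (1 + a * κ)⁻¹) * (1 + a * κ), fun u hu => ?_⟩
    have e := SUB.wd_block m (hlin u hu)
    rw [e, sub_mulVec, hlin _ (con.third κ hk hk' u hu), smul_mulVec, sub_self, sub_zero]
    have e' := SInst.rel S hu
    have e0 : (F + a • f) *ᵥ u = (1 + a * κ) • (F *ᵥ u) := by
      rw [add_mulVec, smul_mulVec, e', smul_smul, add_smul, one_smul]
    rw [e0, smul_smul]

/-- **the relation at one parameter** -/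
theorem rel2_mem [IsAlgClosed K] (S : Setup arm J B N W F f P R D l)
    (hne : ν ≠ ν') (fm : Frm S ν ν' U1 U2 a1 a2) {dY : Derivation ℂ K K} {a : K}
    {Pt : Matrix ι ι K × (Fin 3 → Matrix ι ι K)} {Ri : Matrix δ ι K} (at' : At S dY a Pt Ri)
    {c1 c2 : K} (e1 : c1 = 1 + a * ν) (e2 : c2 = 1 + a * ν') (hc1 : c1 ≠ 0)
    (hc2 : c2 ≠ 0) (h3 : ∀ κ, QQb S κ ≠ ⊥ → 1 + a * κ ≠ 0)
    {X' : Fin 3 → Matrix (Fin m2) (Fin m1) K} {d : Derivation ℂ K K}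
    (m : Mv ℂ arm J N W (F + a • f) Pt.1 (YY U1 U2 X') d)
    {Γ1 : Matrix (Fin m1) (Fin m1) K} {Γ2 : Matrix (Fin m2) (Fin m2) K}
    {β : Matrix (Fin m1) (Fin m2) K} {γ : Matrix (Fin m2) (Fin m1) K}
    (con : Con S ν ν' U1 U2 (F + a • f) Pt c1 c2 (YY U1 U2 X') d Γ1 Γ2 β γ)
    {X : Fin 3 → Matrix (Fin m2) (Fin m1) K} {β0 : Matrix (Fin m1) (Fin m2) K}
    {γ0 : Matrix (Fin m2) (Fin m1) K} (hk0 : (U2ᵀ * (Fᵀ * J * (P.1 * F)) * U2) * γ0 = 0)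
    {w : Matrix ι δ K} {μ1 μ2 ν1 ν2 : K}
    (cw : WCls arm J N (Wc S ν ν') F f dY (Fᵀ * J * (P.1 * F)) U1 U2 X β0 γ0 w μ1 μ2 ν1 ν2)
    (g12' : ∀ s, F * (U1 * (X' s)ᵀ * U2ᵀ) * (Fᵀ * J * (P.1 * F)) * E K arm s ∈ GG S)
    (gn : ∀ s (e1 e2 e3 : K), F * (U2 * (Γ2 * X s + (X s).map d +
      X s * (Γ1 - e1 • (1 : Matrix (Fin m1) (Fin m1) K))ᵀ - e2 • X s + e3 • X' s) * U1ᵀ) *
      (Fᵀ * J * (P.1 * F)) * E K arm s ∈ GG S) :
    Rel2 arm F (Fᵀ * J * (P.1 * F)) U1 U2 (c2 / c1) (X, β0, γ0) (X', β, γ) ∈ GG S := by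
  have hfr := SInst.fr_k1 S at'.hY at'.hPF hne (e1 ▸ hc1) (e2 ▸ hc2) fm.C1 fm.C2
  rw [← e1, ← e2] at hfr
  obtain ⟨fr, k1⟩ := hfr
  have hHc : ∀ w : Matrix ι δ K, Fᵀ * J * w = 0 → fᵀ * J * w = 0 → (F + a • f)ᵀ * J * w = 0 :=
    fun w h h' => by
      rw [transpose_add, transpose_smul, Matrix.add_mul, Matrix.add_mul, h, Matrix.smul_mul,
        Matrix.smul_mul, h', smul_zero, add_zero]
  have hwQ : wd arm J (F + a • f) Pt.1 (YY U1 U2 X') d w ∈ GG S := by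
    classical
    obtain ⟨hw, hw3⟩ := cw.mem
    choose! μ3 hμ3 using hw3
    have hwp := hHc w cw.pF cw.pf
    refine SWd275.wd_QG (SInst.ctx S) S.hR S.hD (S.hNil F S.hF) S.hP S.hf.1 at'.ctx at'.nn m fr
      fm.s1 (fun x => fm_mem1 fm.C1 x) fm.s2 (fun x => fm_mem1 fm.C2 x)
      (fun v _ => by rw [con.N2]) (fun v _ => by rw [con.N1]) con.rb con.rk hk0 h3
      (fun κ hk hk' u hu => ⟨_, con.third κ hk hk' u hu, fun v _ => rfl⟩) hw hwp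
      (μ := fun κ => if κ = ν then μ1 else if κ = ν' then μ2 else μ3 κ) ?_ ?_ ?_
      (fun i => le_of_eq rfl) (by rw [sub_self]; exact N.zero_mem)
    · simp only [if_true]; exact cw.L1
    · simp only [if_neg (Ne.symm hne), if_true]; exact cw.L2
    · intro κ hk hk' u hu
      simp only [if_neg hk, if_neg hk']
      exact hμ3 κ hk hk' u hu
  have key := second_mem at'.ctx at'.nn m fr (fun s v _ => rfl) (fun v _ => by rw [con.N2])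
    (fun v _ => by rw [con.N1]) S.hF.1 (at'.ctx.perp F S.hF.1) (Wc_le S) hHc
    (fun w _ hw => at'.hrow hw) cw SLev0.N_le_QG hwQ ?_ ?_
  · exact key
  · refine Submodule.sum_mem _ fun s _ => ?_
    exact gn s _ _ _
  · exact Submodule.sum_mem _ fun s _ => g12' s

/-- the relation only depends on `F U1 β`, `F U2 γ` of the second triple -/
theorem Rel2_congr {S1 : Matrix ι δ K} {S0 : Matrix δ δ K} (hS : S0 = Fᵀ * S1)
    {r : K} {y : D3 K (Fin m1) (Fin m2)} {X : Fin 3 → Matrix (Fin m2) (Fin m1) K}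
    {β β' : Matrix (Fin m1) (Fin m2) K} {γ γ' : Matrix (Fin m2) (Fin m1) K}
    (hb : F * (U1 * β) = F * (U1 * β')) (hg : F * (U2 * γ) = F * (U2 * γ')) :
    Rel2 arm F S0 U1 U2 r y (X, β, γ) = Rel2 arm F S0 U1 U2 r y (X, β', γ') := by
  have h1 : ∀ s, F * (U1 * (β * y.1 s - (X s)ᵀ * (U2ᵀ * S0 * U2) * y.1 s
      - (X s)ᵀ * y.2.1ᵀ) * U1ᵀ) = F * (U1 * (β' * y.1 s - (X s)ᵀ * (U2ᵀ * S0 * U2) * y.1 s
      - (X s)ᵀ * y.2.1ᵀ) * U1ᵀ) := fun s => by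
    have e : ∀ β : Matrix (Fin m1) (Fin m2) K,
        F * (U1 * (β * y.1 s - (X s)ᵀ * (U2ᵀ * S0 * U2) * y.1 s - (X s)ᵀ * y.2.1ᵀ) * U1ᵀ) =
        F * (U1 * β) * (y.1 s * U1ᵀ) - F * (U1 * ((X s)ᵀ * (U2ᵀ * S0 * U2) * y.1 s +
          (X s)ᵀ * y.2.1ᵀ) * U1ᵀ) := fun β => by
      simp only [Matrix.mul_add, Matrix.mul_sub, Matrix.add_mul, Matrix.sub_mul, Matrix.mul_assoc]
      abel
    rw [e, e, hb]
  have hγ : γᵀ * U2ᵀ * S0 = γ'ᵀ * U2ᵀ * S0 := by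
    have e : ∀ γ : Matrix (Fin m2) (Fin m1) K, γᵀ * U2ᵀ * S0 = (F * (U2 * γ))ᵀ * S1 := fun γ => by
      rw [hS, transpose_mul, transpose_mul]
      simp only [Matrix.mul_assoc]
    rw [e, e, hg]
  have h2 : ∀ s, F * (U2 * (y.1 s * γᵀ + y.1 s * (U1ᵀ * S0 * U1) * (X s)ᵀ
      - y.2.2 * (X s)ᵀ) * U2ᵀ) * S0 = F * (U2 * (y.1 s * γ'ᵀ + y.1 s * (U1ᵀ * S0 * U1) * (X s)ᵀ
      - y.2.2 * (X s)ᵀ) * U2ᵀ) * S0 := fun s => by
    have e : ∀ γ : Matrix (Fin m2) (Fin m1) K, F * (U2 * (y.1 s * γᵀ +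
        y.1 s * (U1ᵀ * S0 * U1) * (X s)ᵀ - y.2.2 * (X s)ᵀ) * U2ᵀ) * S0 =
        F * U2 * y.1 s * (γᵀ * U2ᵀ * S0) + F * (U2 * (y.1 s * (U1ᵀ * S0 * U1) * (X s)ᵀ
          - y.2.2 * (X s)ᵀ) * U2ᵀ) * S0 := fun γ => by
      simp only [Matrix.mul_add, Matrix.mul_sub, Matrix.add_mul, Matrix.sub_mul, Matrix.mul_assoc]
      abel
    rw [e, e, hγ]
  unfold Rel2
  simp only [h1, h2]

theorem pen_of_dec {S0 : Matrix δ δ K} {c : K} {y : D3 K (Fin m1) (Fin m2)}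
    (h : Dec F S0 U1 U2 a1 a2 (-c) y) : SD937.Pen F S0 U1 U2 a1 a2 c y := by
  refine ⟨?_, fun s => ?_, fun r => ?_, fun r => ?_, h.rb, h.rk⟩
  · simpa only [neg_smul, sub_neg_eq_add] using h.sum
  · simpa only [neg_smul, sub_neg_eq_add] using h.arm s
  · rw [← h.cb r, Matrix.mul_assoc]
    congr 2
    simp only [neg_smul, Matrix.mul_sub, Matrix.sub_mul, smul_sub, Matrix.mul_assoc]
    abel
  · have e := congrArg Neg.neg (h.ck r)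
    rw [neg_zero] at e
    rw [← e, Matrix.mul_assoc, ← Matrix.mul_neg, ← Matrix.mul_neg]
    congr 2
    simp only [neg_smul, Matrix.mul_sub, Matrix.sub_mul, smul_sub, Matrix.mul_assoc]
    abel

/-- **LEVEL 2, geometric half.** -/
theorem geo22 : SDec.Geo22 := by
  intro ι _ _ δ _ _ K _ _ _ arm J B N W F f P R D l S ν ν' hne n1 n2 Q1 A1 Q2 A2 b1 b2 m1 m2
    U1 U2 a1 a2 hC1 hs1 hi1 ho1 hC2 hs2 hi2 ho2
  have h20 : (2 : K) ≠ 0 := SInst896.two_ne'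
  have fm : Frm S ν ν' U1 U2 a1 a2 := ⟨hC1, hs1, hi1, ho1, hC2, hs2, hi2, ho2⟩
  obtain ⟨dY, hfam⟩ := fam S h20
  choose Pt Ri hAt using hfam
  obtain ⟨T, hT, hTb⟩ := frames_leaf S h20 hne fm
  -- existence
  have hex : ∀ t ∉ T, 1 + algebraMap ℂ K t * ν ≠ 0 → 1 + algebraMap ℂ K t * ν' ≠ 0 →
      ∀ r, r = (1 + algebraMap ℂ K t * ν') / (1 + algebraMap ℂ K t * ν) → ∀ X,
      Ext (Fᵀ * J * (P.1 * F)) U1 U2 a1 a2 (-(r ^ 2)) X →
      ∃ d Γ1 Γ2 β γ, Mv ℂ arm J N W (F + (algebraMap ℂ K t) • f) (Pt t).1 (YY U1 U2 X) d ∧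
      Con S ν ν' U1 U2 (F + (algebraMap ℂ K t) • f) (Pt t) (1 + algebraMap ℂ K t * ν)
        (1 + algebraMap ℂ K t * ν') (YY U1 U2 X) d Γ1 Γ2 β γ ∧
      Dec F (Fᵀ * J * (P.1 * F)) U1 U2 a1 a2 (-(r ^ 2)) (X, β, γ) ∧
      SDec.ZB F U1 U2 (X, β, γ) ∧
      I1 arm F (Fᵀ * J * (P.1 * F)) U1 U2 (X, β, γ) +
        r • I2 arm F (Fᵀ * J * (P.1 * F)) U1 U2 (X, β, γ) ∈
          QQ5 J N (Wc S ν ν') F f dY (Fᵀ * J * (P.1 * F)) U1 U2 := by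
    rintro t ht hc1 hc2 r rfl X hX
    obtain ⟨ht0, h3, hcon⟩ := hTb t ht
    have ha : algebraMap ℂ K t ≠ 0 := (map_ne_zero (algebraMap ℂ K)).2 ht0
    obtain ⟨d, Γ1, Γ2, β, γ, m, con, dec, hk, hI⟩ := exists_dec S h20 hne fm (hAt t) ha rfl rfl hc1
      hc2 h3 hX (hcon dY (Pt t) (Ri t) (hAt t) _ _ rfl rfl hc1 hc2 X hX)
    refine ⟨d, Γ1, Γ2, β, γ, m, con, dec, ⟨hk, fun x hx => ?_⟩, hI⟩
    have hfr := SInst.fr_k1 S (hAt t).hY (hAt t).hPF hne hc1 hc2 fm.C1 fm.C2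
    exact SZb252.zk hfr.1 m.dH (by rw [con.N1]) x hx
  -- separation
  obtain ⟨k1, nil1⟩ := SUniq.nil S hC1 hs1 ho1
  obtain ⟨k2, nil2⟩ := SUniq.nil S hC2 hs2 ho2
  have hΛ0 : (SMv16.Lam ℂ T ν ν').Infinite := SMv16.Lam_infinite hT hne
  have hz0 : (0 : K) ∉ SMv16.Lam ℂ T ν ν' := SMv16.Lam_zero T ν ν'
  have hS0 : Fᵀ * J * (P.1 * F) = Fᵀ * (J * (P.1 * F)) := Matrix.mul_assoc _ _ _
  obtain ⟨T', hT', hsep⟩ := SD937.sep_values (arm := arm) (J := J) (N := N) (W := Wc S ν ν')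
    (f := f) (dY := dY) (F := F) (U1 := U1) (U2 := U2) hS0
    (SUniq.perf' S hC1 hs1 hi1 ho1) (SUniq.perf' S hC2 hs2 hi2 ho2)
    (SUniq.hk ho1) (SUniq.hk ho2)
    (l1 := k1) (l2 := k2)
    (fun w hw x hx => by rw [← mulVec_mulVec, nil1 w hw x hx, mulVec_zero])
    (fun w hw x hx => by rw [← mulVec_mulVec, nil2 w hw x hx, mulVec_zero])
    hΛ0 hz0 (fun r hr X hsum harm => by
      obtain ⟨t, ht, hc1, hc2, hrt⟩ := hr
      have hX : Ext (Fᵀ * J * (P.1 * F)) U1 U2 a1 a2 (-(r ^ 2)) X :=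
        ⟨by simpa only [neg_smul, sub_neg_eq_add] using hsum,
          fun s => by simpa only [neg_smul, sub_neg_eq_add] using harm s⟩
      obtain ⟨d, Γ1, Γ2, β, γ, m, con, dec, hk, hI⟩ := hex t ht hc1 hc2 r hrt X hX
      exact ⟨β, γ, pen_of_dec dec, hI⟩)
  refine ⟨SMv16.Lam ℂ T ν ν' \ {r | r ^ 2 ∈ T'}, ?_, fun h => hz0 h.1, ?_, ?_⟩
  · classical
    refine hΛ0.diff ?_
    have h : {r : K | r ^ 2 ∈ T'} = ⋃ c ∈ T', {r : K | r ^ 2 = c} := by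
      ext r; simp
    rw [h]
    refine hT'.biUnion fun c _ => ?_
    refine ((Polynomial.X ^ 2 - Polynomial.C c : Polynomial K).roots.toFinset.finite_toSet).subset
      fun r hr => ?_
    have hne0 : (Polynomial.X ^ 2 - Polynomial.C c : Polynomial K) ≠ 0 :=
      Polynomial.X_pow_sub_C_ne_zero (by norm_num) c
    have hr' : r ^ 2 = c := hr
    simp [hne0, hr']
  · rintro r ⟨⟨t, ht, hc1, hc2, hrt⟩, _⟩ X hsum harm
    obtain ⟨d, Γ1, Γ2, β, γ, m, con, dec, hk, hI⟩ := hex t ht hc1 hc2 r hrt X ⟨hsum, harm⟩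
    exact ⟨β, γ, dec, hk⟩
  · rintro r hr r' hr' y y' hy hy'
    obtain ⟨X, β0, γ0⟩ := y
    obtain ⟨X', β', γ'⟩ := y'
    have hI := (hsep (r ^ 2) hr.2 _ (pen_of_dec hy)).1
    obtain ⟨w, μ1, μ2, ν1, ν2, cw⟩ := exists_WCls hI
    obtain ⟨⟨t, ht, hc1, hc2, hrt⟩, _⟩ := hr'
    obtain ⟨d, Γ1, Γ2, β, γ, m, con, dec, hk, _⟩ := hex t ht hc1 hc2 r' hrt X' (Ext.of hy')
    have hr'0 : r' ^ 2 ≠ 0 := by
      rw [hrt]; exact pow_ne_zero 2 (div_ne_zero hc2 hc1)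
    -- uniqueness
    have hb : F * (U1 * β') = F * (U1 * β) := by
      have h := (SUniq.uniq S hC1 hs1 ho1 hC2 hs2 hi2 ho2 (Δ := β' - β)
        (by rw [Matrix.mul_sub, hy'.rb, dec.rb, sub_zero]) (p := 1) (q := -(r' ^ 2))
        (neg_ne_zero.2 hr'0) (fun s => by
          have e1 := hy'.cb s
          have e2 := dec.cb s
          have e3 := congrArg₂ (fun a b => a - b) e1 e2
          simp only [sub_zero] at e3
          rw [← e3]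
          simp only [one_smul, Matrix.mul_sub, Matrix.sub_mul, Matrix.mul_add, smul_sub,
            Matrix.mul_smul, neg_smul]
          abel)).1
      rw [Matrix.mul_sub, Matrix.mul_sub, sub_eq_zero] at h
      exact h
    have hg : F * (U2 * γ') = F * (U2 * γ) := by
      have h := (SUniq.uniq S hC2 hs2 ho2 hC1 hs1 hi1 ho1 (Δ := γ' - γ)
        (by rw [Matrix.mul_sub, hy'.rk, dec.rk, sub_zero]) (p := -(r' ^ 2)) (q := 1)
        one_ne_zero (fun s => by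
          have e1 := hy'.ck s
          have e2 := dec.ck s
          have e3 := congrArg₂ (fun a b => a - b) e1 e2
          simp only [sub_zero] at e3
          rw [← e3]
          simp only [one_smul, Matrix.mul_sub, Matrix.sub_mul, Matrix.mul_add, smul_sub,
            Matrix.mul_smul, neg_smul]
          abel)).1
      rw [Matrix.mul_sub, Matrix.mul_sub, sub_eq_zero] at h
      exact h
    rw [Rel2_congr hS0 hb hg]
    obtain ⟨g21, g12⟩ := SLevA455.gens0 S hne b1 b2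
    obtain ⟨C1, u1⟩ := SB4x.exists_FU S b1 hC1 hs1 (fun x => fm_mem1 hC1 x) ho1
    obtain ⟨C2, u2⟩ := SB4x.exists_FU S b2 hC2 hs2 (fun x => fm_mem1 hC2 x) ho2
    have hfr := SInst.fr_k1 S (hAt t).hY (hAt t).hPF hne hc1 hc2 fm.C1 fm.C2
    have fX := fun s => SB4x.filt_of_arm S u1 b1 u2 b2 s (hy.arm s)
    have fX' := fun s => SB4x.filt_of_arm S u1 b1 u2 b2 s (hy'.arm s)
    rw [hrt]
    exact rel2_mem S hne fm (hAt t) rfl rfl hc1 hc2 (hTb t ht).2.1 m con hy.rk cw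
      (fun s => SB4x.part12 u1 b1 u2 b2 g12 s (fX' s))
      (fun s e1 e2 e3 => SB4x.part21 u1 b1 u2 b2 g21 (hAt t).ctx (hAt t).nn m hfr.1
        (fun s v _ => rfl) (fun v _ => by rw [con.N2]) (fun v _ => by rw [con.N1]) S.hF.1.2 ho1 ho2 s
        (fX s) (fX' s) e1 e2 e3)

end Crest.Agent.R172.SGeo737
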