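import Crest.Agent.R172.SGeo869b
import Crest.Agent.R172.SB4x117
import Crest.Agent.R172.SLevA455
import Crest.Agent.R172.SDecP70
import Crest.Agent.R172.SUniq803
import Crest.Agent.R172.SZb978
import Crest.Agent.R172.SD937

/-!
Row 172 (S0260), tame node (t2), level 2: assembly of `SDec.Geo22` (helper756, on top of
helper869's decorated moves).
-/

set_option autoImplicit false
set_option linter.unusedSectionVars false
set_option linter.unusedVariables false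
set_option linter.unusedFintypeInType false
set_option linter.unusedDecidableInType false
set_option maxHeartbeats 1600000

namespace Crest.Agent.R172.SGeo756

open Module Matrix Crest.Agent.R172.FO Crest.Agent.R172.Qt Crest.Agent.R172.SpS
open Crest.Agent.R172.SBlk Crest.Agent.R172.UBlk Crest.Agent.R172.SEnd2 Crest.Agent.R172.STop
open Crest.Agent.R172.SCM Crest.Agent.R172.SDec Crest.Agent.R172.SUX
open Crest.Agent.R172.Om (Kiso)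
open Crest.Agent.R172.PL (CoreM Ainf)
open Crest.Agent.R172.SC (PB)
open Crest.Agent.R172.SInst (QQb)
open Crest.Agent.R172.SGeo869

variable {ι : Type} [Fintype ι] [DecidableEq ι] {δ : Type} [Fintype δ] [DecidableEq δ]
variable {K : Type} [Field K] [Algebra ℂ K]
variable {m1 m2 : ℕ}
variable {arm : δ → Fin 3} {J : Matrix ι ι K} {B : Matrix δ δ K}
  {N W : Submodule K (Matrix ι δ K)} {F f : Matrix ι δ K}
  {P : Matrix ι ι K × (Fin 3 → Matrix ι ι K)} {R : Matrix δ ι K}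
  {D : End K (CoreM (PhS arm J B F R P.1))} {l : Fin 3 → ℕ}

/-- **Rel2 of a decorated `y` and a decorated move.** -/
theorem rel2_of [IsAlgClosed K] (S : Setup arm J B N W F f P R D l) {ν ν' : K} (hne : ν ≠ ν')
    {n1 n2 : ℕ} {Q1 : Matrix ι (Fin n1) K} {A1 : Fin 3 → Matrix (Fin n1) (Fin n1) K}
    {Q2 : Matrix ι (Fin n2) K} {A2 : Fin 3 → Matrix (Fin n2) (Fin n2) K}
    (b1 : BPkg arm J B F R P.1 D ν l Q1 A1) (b2 : BPkg arm J B F R P.1 D ν' l Q2 A2)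
    {U1 : Matrix δ (Fin m1) K} {U2 : Matrix δ (Fin m2) K}
    {a1 : Fin 3 → Matrix (Fin m1) (Fin m1) K} {a2 : Fin 3 → Matrix (Fin m2) (Fin m2) K}
    (hU1 : UFr.Cq (QQb S ν) U1) (hs1 : ∀ u ∈ QQb S ν, ∃ x, u = U1 *ᵥ x)
    (ha1 : ∀ s, B * E K arm s * (Fᵀ * J * (P.1 * F)) * U1 = U1 * a1 s)
    (hU2 : UFr.Cq (QQb S ν') U2) (hs2 : ∀ u ∈ QQb S ν', ∃ x, u = U2 *ᵥ x)
    (ha2 : ∀ s, B * E K arm s * (Fᵀ * J * (P.1 * F)) * U2 = U2 * a2 s)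
    {a : K} (hc : ∀ κ, QQb S κ ≠ ⊥ → 1 + a * κ ≠ 0)
    {Pt : Matrix ι ι K × (Fin 3 → Matrix ι ι K)} {dY : Derivation ℂ K K}
    {X' : Fin 3 → Matrix (Fin m2) (Fin m1) K} {d : Derivation ℂ K K}
    {Γ1 : Matrix (Fin m1) (Fin m1) K} {Γ2 : Matrix (Fin m2) (Fin m2) K}
    {β : Matrix (Fin m1) (Fin m2) K} {γ : Matrix (Fin m2) (Fin m1) K}
    (M : MvD arm J B N W F f (F + a • f) Pt (Fᵀ * J * (P.1 * F)) dY (QQb S) ν ν' (1 + a * ν)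
      (1 + a * ν') U1 U2 a1 a2 X' d Γ1 Γ2 β γ)
    {c : K} {y : D3 K (Fin m1) (Fin m2)}
    (hy : Dec F (Fᵀ * J * (P.1 * F)) U1 U2 a1 a2 c y)
    (hI : I1 arm F (Fᵀ * J * (P.1 * F)) U1 U2 y ∈
      QQ5 J N (W3 W F (QQb S) ν ν') F f dY (Fᵀ * J * (P.1 * F)) U1 U2) :
    Rel2 arm F (Fᵀ * J * (P.1 * F)) U1 U2 ((1 + a * ν') / (1 + a * ν)) y (X', β, γ) ∈
      SLev0.QG arm J B N W F P (PC arm J B F R P.1)
        (fun μ : K => (SLev0.PbK arm J B F R P.1 D μ)) id := by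
  classical
  obtain ⟨X, β0, γ0⟩ := y
  obtain ⟨w, μ1, μ2, ν1, ν2, cw⟩ := exists_WCls hI
  obtain ⟨hwW, h3⟩ := cw.mem
  have hG := SLevA455.gens0 S hne b1 b2
  have hG21 : SLev0.Gens arm J B F P.1 l (SLev0.QG arm J B N W F P (PC arm J B F R P.1)
      (fun μ : K => (SLev0.PbK arm J B F R P.1 D μ)) id) (SLev0.PbK arm J B F R P.1 D ν')
      (SLev0.PbK arm J B F R P.1 D ν) := hG.1
  have hG12 : SLev0.Gens arm J B F P.1 l (SLev0.QG arm J B N W F P (PC arm J B F R P.1)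
      (fun μ : K => (SLev0.PbK arm J B F R P.1 D μ)) id) (SLev0.PbK arm J B F R P.1 D ν)
      (SLev0.PbK arm J B F R P.1 D ν') := hG.2
  obtain ⟨C1, u1⟩ := SB4x.exists_FU S b1 hU1 hs1 (SUniq803.mem_of_Cq hU1) ha1
  obtain ⟨C2, u2⟩ := SB4x.exists_FU S b2 hU2 hs2 (SUniq803.mem_of_Cq hU2) ha2
  have hX : ∀ s, X s ∈ SL2g560.FR (a2 s) (a1 s) (SL2g560.rad (Fᵀ * J * (P.1 * F)) U2)
      (SL2g560.rad (Fᵀ * J * (P.1 * F)) U1) (l s) := fun s =>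
    SB4x.filt_of_arm S u1 b1 u2 b2 s (hy.arm s)
  have hX' : ∀ s, X' s ∈ SL2g560.FR (a2 s) (a1 s) (SL2g560.rad (Fᵀ * J * (P.1 * F)) U2)
      (SL2g560.rad (Fᵀ * J * (P.1 * F)) U1) (l s) := fun s =>
    SB4x.filt_of_arm S u1 b1 u2 b2 s (M.dec.arm s)
  have hY : ∀ s, ∀ v ∈ W, v * Ym U1 U2 X' s * (F + a • f)ᵀ =
      v * (U2 * X' s * U1ᵀ + U1 * (X' s)ᵀ * U2ᵀ) * (F + a • f)ᵀ := fun s v _ => rfl
  have hN2 : ∀ v ∈ W, v * (U2.map d + ZY arm J (F + a • f) Pt.1 (Ym U1 U2 X') * U2) =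
      v * (U2 * Γ2 + (1 + a * ν') ^ 2 • (U1 * β)) := fun v _ => by rw [M.hN2]
  have hN1 : ∀ v ∈ W, v * (U1.map d + ZY arm J (F + a • f) Pt.1 (Ym U1 U2 X') * U1) =
      v * (U1 * Γ1 + (1 + a * ν) ^ 2 • (U2 * γ)) := fun v _ => by rw [M.hN1]
  have hwH : (F + a • f)ᵀ * J * w = 0 := by
    rw [transpose_add, transpose_smul, Matrix.add_mul, Matrix.add_mul, Matrix.smul_mul,
      Matrix.smul_mul, cw.pF, cw.pf, smul_zero, add_zero]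
  have hwQ : wd arm J (F + a • f) Pt.1 (Ym U1 U2 X') d w ∈
      SLev0.QG arm J B N W F P (PC arm J B F R P.1)
        (fun μ : K => (SLev0.PbK arm J B F R P.1 D μ)) id := by
    have h4 : ∀ κ : K, ∃ m : K, (κ ≠ ν → κ ≠ ν' → ∀ u ∈ QQb S κ, w *ᵥ u = m • (F *ᵥ u)) := by
      intro κ
      by_cases h5 : κ ≠ ν ∧ κ ≠ ν'
      · obtain ⟨m, hm⟩ := h3 κ h5.1 h5.2
        exact ⟨m, fun _ _ => hm⟩
      · exact ⟨0, fun h6 h7 => absurd ⟨h6, h7⟩ h5⟩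
    choose m3 hm3 using h4
    refine SWd275.wd_QG (μ := fun κ => if κ = ν then μ1 else if κ = ν' then μ2 else m3 κ)
      (SInst.ctx S) S.hR S.hD (S.hNil F S.hF) S.hP (SInst.hfNW S)
      M.ctx M.hPt M.mv M.fr hs1 (SUniq803.mem_of_Cq hU1) hs2 (SUniq803.mem_of_Cq hU2) hN2 hN1
      M.dec.rb M.dec.rk hy.rk hc M.n3 hwW hwH ?_ ?_ ?_ (fun κ => le_rfl) ?_
    · rw [cw.L1]
      simp
    · rw [cw.L2]
      simp [hne.symm]
    · intro κ h6 h7 u hu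
      rw [hm3 κ h6 h7 u hu]
      simp [h6, h7]
    · rw [sub_self]; exact N.zero_mem
  have hWW : W3 W F (QQb S) ν ν' ≤ W := fun w hw => And.left hw
  have key := second_mem (γ0 := γ0) M.ctx M.hPt M.mv M.fr hY hN2 hN1 S.hF.1
    (M.ctx.perp F S.hF.1) (W' := W3 W F (QQb S) ν ν') hWW
    (fun w h5 h6 => by
      rw [transpose_add, transpose_smul, Matrix.add_mul, Matrix.add_mul, Matrix.smul_mul,
        Matrix.smul_mul, h5, h6, smul_zero, add_zero])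
    (fun w _ h5 => M.row w h5) cw
    (Q := SLev0.QG arm J B N W F P (PC arm J B F R P.1)
        (fun μ : K => (SLev0.PbK arm J B F R P.1 D μ)) id) SLev0.N_le_QG hwQ
    (Submodule.sum_mem _ fun s _ => SB4x.part21 u1 b1 u2 b2 hG21 M.ctx M.hPt M.mv M.fr hY hN2 hN1
      S.hF.1.2 ha1 ha2 s (hX s) (hX' s) _ _ _)
    (Submodule.sum_mem _ fun s _ => SB4x.part12 u1 b1 u2 b2 hG12 s (hX' s))
  exact key

/-- two decorations of the same family give the same relation -/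
theorem rel2_congr {S0 : Matrix δ δ K} (hsk : S0ᵀ = -S0) {U1 : Matrix δ (Fin m1) K}
    {U2 : Matrix δ (Fin m2) K} {r : K} {y : D3 K (Fin m1) (Fin m2)}
    {X : Fin 3 → Matrix (Fin m2) (Fin m1) K} {β β' : Matrix (Fin m1) (Fin m2) K}
    {γ γ' : Matrix (Fin m2) (Fin m1) K} (hb : F * U1 * β = F * U1 * β')
    (hg : S0 * U2 * γ = S0 * U2 * γ') :
    Rel2 arm F S0 U1 U2 r y (X, β, γ) = Rel2 arm F S0 U1 U2 r y (X, β', γ') := by
  have e1 : ∀ (b : Matrix (Fin m1) (Fin m2) K) (A : Matrix (Fin m2) (Fin m1) K)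
      (C E : Matrix (Fin m1) (Fin m1) K),
      F * (U1 * (b * A - C - E) * U1ᵀ) = F * U1 * b * (A * U1ᵀ) - F * (U1 * (C + E) * U1ᵀ) := by
    intro b A C E
    simp only [Matrix.mul_sub, Matrix.sub_mul, Matrix.mul_add, Matrix.add_mul, Matrix.mul_assoc]
    abel
  have e2 : ∀ (c : Matrix (Fin m2) (Fin m1) K) (A : Matrix (Fin m2) (Fin m1) K)
      (C E : Matrix (Fin m2) (Fin m2) K),
      F * (U2 * (A * cᵀ + C - E) * U2ᵀ) * S0 =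
        -(F * (U2 * A) * (S0 * U2 * c)ᵀ) + F * (U2 * (C - E) * U2ᵀ) * S0 := by
    intro c A C E
    have h1 : (S0 * U2 * c)ᵀ = -(cᵀ * (U2ᵀ * S0)) := by
      rw [transpose_mul, transpose_mul, hsk, Matrix.mul_neg, Matrix.mul_neg]
    rw [h1]
    simp only [Matrix.mul_sub, Matrix.sub_mul, Matrix.mul_add, Matrix.add_mul, Matrix.mul_assoc,
      Matrix.mul_neg, neg_neg]
    abel
  unfold Rel2
  simp only [e1, e2, hb, hg]

/-- **separation** of the first derivative, for all decorated families outside a finite set. -/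
theorem sep [IsAlgClosed K] (S : Setup arm J B N W F f P R D l) {ν ν' : K} (hne : ν ≠ ν')
    {U1 : Matrix δ (Fin m1) K} {U2 : Matrix δ (Fin m2) K}
    {a1 : Fin 3 → Matrix (Fin m1) (Fin m1) K} {a2 : Fin 3 → Matrix (Fin m2) (Fin m2) K}
    (hU1 : UFr.Cq (QQb S ν) U1) (hs1 : ∀ u ∈ QQb S ν, ∃ x, u = U1 *ᵥ x)
    (hi1 : ∀ x, U1 *ᵥ x = 0 → x = 0)
    (ha1 : ∀ s, B * E K arm s * (Fᵀ * J * (P.1 * F)) * U1 = U1 * a1 s)
    (hU2 : UFr.Cq (QQb S ν') U2) (hs2 : ∀ u ∈ QQb S ν', ∃ x, u = U2 *ᵥ x)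
    (hi2 : ∀ x, U2 *ᵥ x = 0 → x = 0)
    (ha2 : ∀ s, B * E K arm s * (Fᵀ * J * (P.1 * F)) * U2 = U2 * a2 s)
    {QQ : Submodule K (E5 K ι δ (Fin m1) (Fin m2))} {Λ : Set K} (hΛ : Λ.Infinite)
    (h0 : (0 : K) ∉ Λ)
    (hex : ∀ r ∈ Λ, ∀ X : Fin 3 → Matrix (Fin m2) (Fin m1) K,
      ExM (Fᵀ * J * (P.1 * F)) U1 U2 a1 a2 (-(r ^ 2)) X →
      ∃ b g, Dec F (Fᵀ * J * (P.1 * F)) U1 U2 a1 a2 (-(r ^ 2)) (X, b, g) ∧
        I1 arm F (Fᵀ * J * (P.1 * F)) U1 U2 (X, b, g) +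
          r • I2 arm F (Fᵀ * J * (P.1 * F)) U1 U2 (X, b, g) ∈ QQ) :
    ∃ Sf : Set K, Sf.Finite ∧ ∀ c ∉ Sf, ∀ y,
      Dec F (Fᵀ * J * (P.1 * F)) U1 U2 a1 a2 c y →
        I1 arm F (Fᵀ * J * (P.1 * F)) U1 U2 y ∈ QQ := by
  obtain ⟨Sf, hSf, h⟩ := RJP.par_sep (T := Unit)
    (SDecP70.alD F (Fᵀ * J * (P.1 * F)) U1 U2 a1)
    (-(SDecP70.beD F (Fᵀ * J * (P.1 * F)) U1 U2 a2)) QQ
    (fun _ => I1 arm F (Fᵀ * J * (P.1 * F)) U1 U2) (fun _ => I2 arm F (Fᵀ * J * (P.1 * F)) U1 U2)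
    hΛ (by
      intro r hr y hy _
      have hd : Dec F (Fᵀ * J * (P.1 * F)) U1 U2 a1 a2 (-(r ^ 2)) y := by
        rw [SDecP70.dec_iff, hy, LinearMap.neg_apply, smul_neg, neg_smul]
      obtain ⟨b, g, hbg, hm⟩ := hex r hr y.1 ⟨hd.sum, hd.arm⟩
      have hr0 : -(r ^ 2) ≠ 0 := neg_ne_zero.2 (pow_ne_zero 2 fun h => h0 (h ▸ hr))
      obtain ⟨⟨z1, -⟩, z2, -⟩ := SUniq803.dec_uniq S hU1 hs1 hi1 ha1 hU2 hs2 hi2 ha2 hr0 hd hbg rfl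
      obtain ⟨X, b', g'⟩ := y
      obtain ⟨v1, v2⟩ := SD937.I_congr (arm := arm) (F := F) (S0 := Fᵀ * J * (P.1 * F)) (U1 := U1)
        (U2 := U2) (X := X) (S1 := J * (P.1 * F)) (Matrix.mul_assoc _ _ _)
        (β := b') (β' := b) (γ := g') (γ' := g)
        (by rw [Matrix.mul_sub]; exact sub_eq_zero.2 z1)
        (by rw [Matrix.mul_sub]; exact sub_eq_zero.2 z2)
      change I1 arm F (Fᵀ * J * (P.1 * F)) U1 U2 (X, b', g') +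
        r • I2 arm F (Fᵀ * J * (P.1 * F)) U1 U2 (X, b', g') ∈ QQ
      rw [v1, v2]
      exact hm)
  refine ⟨(fun c => -c) '' Sf, hSf.image _, fun c hc y hy => ?_⟩
  refine (h (-c) (fun hcS => hc ⟨-c, hcS, neg_neg c⟩) y ?_ ()).1
  rw [(SDecP70.dec_iff F (Fᵀ * J * (P.1 * F)) U1 U2 a1 a2 c y).1 hy, LinearMap.neg_apply,
    smul_neg, neg_smul, neg_neg]

/-- **LEVEL 2, geometric half.** -/
theorem geo22 : SDec.Geo22 := by
  intro ι _ _ δ _ _ K _ _ _ arm J B N W F f P R D l S ν ν' hne n1 n2 Q1 A1 Q2 A2 b1 b2 m1 m2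
    U1 U2 a1 a2 hU1 hs1 hi1 ha1 hU2 hs2 hi2 ha2
  classical
  obtain ⟨dY, bad, hbad, hM⟩ := exists_MvD S hne hU1 hs1 ha1 hU2 hs2 ha2
  have hΛ0 : (SMv16.Lam ℂ bad ν ν').Infinite := SMv16.Lam_infinite hbad hne
  have h00 : (0 : K) ∉ SMv16.Lam ℂ bad ν ν' := SMv16.Lam_zero bad ν ν'
  obtain ⟨Sf, hSf, hsep⟩ := sep S hne hU1 hs1 hi1 ha1 hU2 hs2 hi2 ha2
    (QQ := QQ5 J N (W3 W F (QQb S) ν ν') F f dY (Fᵀ * J * (P.1 * F)) U1 U2) hΛ0 h00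
    (by
      rintro r ⟨t, ht, h1, h2, rfl⟩ X hX
      obtain ⟨hc, hm⟩ := hM t ht h1 h2
      obtain ⟨Pt, d, Γ1, Γ2, β, γ, M⟩ := hm X hX
      exact ⟨β, γ, M.dec, first S hne hc M⟩)
  have hbadr : {r : K | -(r ^ 2) ∈ Sf}.Finite := by
    refine Set.Finite.subset (Set.Finite.biUnion hSf fun c _ =>
      (Set.Finite.of_finite_fibers (fun r : K => -(r ^ 2)) (s := {r : K | -(r ^ 2) = c}) ?_ ?_ :
        {r : K | -(r ^ 2) = c}.Finite)) ?_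
    · exact (Set.finite_singleton c).subset (by rintro _ ⟨r, hr, rfl⟩; exact hr)
    · rintro _ ⟨r, hr, rfl⟩
      refine Set.Finite.subset (Set.toFinite {r, -r}) ?_
      rintro ρ ⟨-, hρ⟩
      exact sq_eq_sq_iff_eq_or_eq_neg.1 (neg_injective hρ)
    · intro r hr
      exact Set.mem_biUnion hr rfl
  refine ⟨SMv16.Lam ℂ bad ν ν' \ {r : K | -(r ^ 2) ∈ Sf}, hΛ0.sdiff hbadr, fun h => h00 h.1,
    ?_, ?_⟩
  · rintro r ⟨⟨t, ht, h1, h2, rfl⟩, -⟩ X hsum harm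
    obtain ⟨hc, hm⟩ := hM t ht h1 h2
    obtain ⟨Pt, d, Γ1, Γ2, β, γ, M⟩ := hm X ⟨hsum, harm⟩
    refine ⟨β, γ, M.dec, ⟨fun x hx => ?_, fun x hx => ?_⟩⟩
    · exact SZb978.zb M.ctx.memW M.mv.dH M.fr (fun v _ => by rw [M.hN2]) x hx
    · exact SZb978.zk M.ctx.memW M.mv.dH M.fr (fun v _ => by rw [M.hN1]) x hx
  · rintro r ⟨-, hrS⟩ r' ⟨⟨t, ht, h1, h2, rfl⟩, -⟩ y y' hy hy'
    obtain ⟨hc, hm⟩ := hM t ht h1 h2
    obtain ⟨Pt, d, Γ1, Γ2, β, γ, M⟩ := hm y'.1 ⟨hy'.sum, hy'.arm⟩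
    have hI := hsep _ hrS y hy
    have key := rel2_of S hne b1 b2 hU1 hs1 ha1 hU2 hs2 ha2 hc M hy hI
    have hr0 : -(((1 + algebraMap ℂ K t * ν') / (1 + algebraMap ℂ K t * ν)) ^ 2) ≠ 0 :=
      neg_ne_zero.2 (pow_ne_zero 2 (div_ne_zero h2 h1))
    obtain ⟨⟨z1, -⟩, -, z2⟩ := SUniq803.dec_uniq S hU1 hs1 hi1 ha1 hU2 hs2 hi2 ha2 hr0 hy' M.dec
      rfl
    have e := rel2_congr (arm := arm) (F := F) (S0 := Fᵀ * J * (P.1 * F))
      (SUX.th_skew (SInst.ctx S) S.hP (SInst.ctx S).mem) (U1 := U1) (U2 := U2)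
      (r := (1 + algebraMap ℂ K t * ν') / (1 + algebraMap ℂ K t * ν)) (y := y) (X := y'.1)
      (β := y'.2.1) (β' := β) (γ := y'.2.2) (γ' := γ) z1 (z2 P.1)
    have e' : y' = (y'.1, y'.2.1, y'.2.2) := rfl
    rw [e', e]
    exact key

end Crest.Agent.R172.SGeo756
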