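import Crest.Agent.R172.SLevA455
import Crest.Agent.R172.SDecC926

/-!
Row 172 (S0260), tame node (t2), LEVEL 1 in the class `QG` (926's `Lev1Q`).
-/

set_option autoImplicit false

namespace Crest.Agent.R172.SLev1Q455

/-- **LEVEL 1 in the class `QG`** -/
theorem lev1Q : SDecC.Lev1Q := by
  intro ι _ _ δ _ _ K _ _ _ arm J B N W F f P R D l S ν ν' hne n1 n2 Q1 A1 Q2 A2 b1 b2
  exact (SLevA455.gens0 S hne b1 b2).2

end Crest.Agent.R172.SLev1Q455
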