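import Crest.Agent.R172.SGeo869b
import Crest.Agent.R172.SB4x117
import Crest.Agent.R172.SUniq803
import Crest.Agent.R172.SDecP70
import Crest.Agent.R172.SWd275
import Crest.Agent.R172.SLev1Q455
import Crest.Agent.R172.SZb601

/-!
Row 172 (S0260), tame node (t2), level 2: the geometric half `SDec.Geo22` (helper860).
-/

set_option autoImplicit false
set_option linter.unusedSectionVars false
set_option linter.unusedVariables false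
set_option linter.unusedFintypeInType false
set_option linter.unusedDecidableInType false
set_option maxHeartbeats 1600000

namespace Crest.Agent.R172.SGeo860

open Module Matrix Crest.Agent.R172.FO Crest.Agent.R172.Qt Crest.Agent.R172.SpS
open Crest.Agent.R172.SBlk Crest.Agent.R172.UBlk Crest.Agent.R172.SEnd2 Crest.Agent.R172.STop
open Crest.Agent.R172.SCM Crest.Agent.R172.SDec Crest.Agent.R172.SUX
open Crest.Agent.R172.Om (Kiso)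
open Crest.Agent.R172.PL (CoreM Ainf)
open Crest.Agent.R172.SC (PB)
open Crest.Agent.R172.SInst (QQb)
open Crest.Agent.R172.SGeo869 (MvD ExM Ym W3)

variable {ι : Type} [Fintype ι] [DecidableEq ι] {δ : Type} [Fintype δ] [DecidableEq δ]
variable {K : Type} [Field K] [Algebra ℂ K]
variable {m1 m2 : ℕ}
variable {arm : δ → Fin 3} {J : Matrix ι ι K} {B : Matrix δ δ K}
  {N W : Submodule K (Matrix ι δ K)} {F f : Matrix ι δ K}
  {P : Matrix ι ι K × (Fin 3 → Matrix ι ι K)} {R : Matrix δ ι K}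
  {D : End K (CoreM (PhS arm J B F R P.1))} {l : Fin 3 → ℕ}

theorem rel2_congr {Z : Matrix ι ι K} {U1 : Matrix δ (Fin m1) K} {U2 : Matrix δ (Fin m2) K} {r : K}
    {y : D3 K (Fin m1) (Fin m2)} {X' : Fin 3 → Matrix (Fin m2) (Fin m1) K}
    {β β' : Matrix (Fin m1) (Fin m2) K} {γ γ' : Matrix (Fin m2) (Fin m1) K}
    (h1 : F * U1 * β = F * U1 * β') (h2 : F * U2 * γ = F * U2 * γ') :
    Rel2 arm F (Fᵀ * J * (Z * F)) U1 U2 r y (X', β, γ) =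
      Rel2 arm F (Fᵀ * J * (Z * F)) U1 U2 r y (X', β', γ') := by
  have h3 : γᵀ * U2ᵀ * (Fᵀ * J * (Z * F)) = γ'ᵀ * U2ᵀ * (Fᵀ * J * (Z * F)) := by
    have e : ∀ g : Matrix (Fin m2) (Fin m1) K, gᵀ * U2ᵀ * (Fᵀ * J * (Z * F)) =
        (F * U2 * g)ᵀ * (J * (Z * F)) := fun g => by
      rw [transpose_mul, transpose_mul]; simp only [Matrix.mul_assoc]
    rw [e, e, h2]
  generalize Fᵀ * J * (Z * F) = S0 at h3 ⊢
  have e1 : ∀ (s : Fin 3) (b : Matrix (Fin m1) (Fin m2) K), F * (U1 * (b * y.1 s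
        - (X' s)ᵀ * (U2ᵀ * S0 * U2) * y.1 s - (X' s)ᵀ * y.2.1ᵀ) * U1ᵀ) * S0 * E K arm s =
      (F * U1 * b) * (y.1 s * U1ᵀ) * S0 * E K arm s - F * (U1 * ((X' s)ᵀ * (U2ᵀ * S0 * U2) *
        y.1 s + (X' s)ᵀ * y.2.1ᵀ) * U1ᵀ) * S0 * E K arm s := by
    intro s b
    simp only [Matrix.mul_sub, Matrix.sub_mul, Matrix.mul_add, Matrix.add_mul, Matrix.mul_assoc]
    abel
  have e2 : ∀ (s : Fin 3) (g : Matrix (Fin m2) (Fin m1) K), F * (U2 * (y.1 s * gᵀ +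
        y.1 s * (U1ᵀ * S0 * U1) * (X' s)ᵀ - y.2.2 * (X' s)ᵀ) * U2ᵀ) * S0 * E K arm s =
      F * (U2 * y.1 s) * (gᵀ * U2ᵀ * S0) * E K arm s + F * (U2 * (y.1 s * (U1ᵀ * S0 * U1) *
        (X' s)ᵀ - y.2.2 * (X' s)ᵀ) * U2ᵀ) * S0 * E K arm s := by
    intro s g
    simp only [Matrix.mul_sub, Matrix.sub_mul, Matrix.mul_add, Matrix.add_mul, Matrix.mul_assoc]
    abel
  unfold Rel2
  simp only [e1, e2, h1, h3]

/-- the relation at one parameter `t'` -/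
theorem rel_at [IsAlgClosed K] (S : Setup arm J B N W F f P R D l) {ν ν' : K} (hne : ν ≠ ν')
    {n1 n2 : ℕ} {Q1 : Matrix ι (Fin n1) K} {A1 : Fin 3 → Matrix (Fin n1) (Fin n1) K}
    {Q2 : Matrix ι (Fin n2) K} {A2 : Fin 3 → Matrix (Fin n2) (Fin n2) K}
    (b1 : BPkg arm J B F R P.1 D ν l Q1 A1) (b2 : BPkg arm J B F R P.1 D ν' l Q2 A2)
    {U1 : Matrix δ (Fin m1) K} {U2 : Matrix δ (Fin m2) K}
    {a1 : Fin 3 → Matrix (Fin m1) (Fin m1) K} {a2 : Fin 3 → Matrix (Fin m2) (Fin m2) K}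
    (hU1 : UFr.Cq (QQb S ν) U1) (hs1 : ∀ u ∈ QQb S ν, ∃ x, u = U1 *ᵥ x)
    (hi1 : ∀ x, U1 *ᵥ x = 0 → x = 0)
    (ha1 : ∀ s, B * E K arm s * (Fᵀ * J * (P.1 * F)) * U1 = U1 * a1 s)
    (hU2 : UFr.Cq (QQb S ν') U2) (hs2 : ∀ u ∈ QQb S ν', ∃ x, u = U2 *ᵥ x)
    (hi2 : ∀ x, U2 *ᵥ x = 0 → x = 0)
    (ha2 : ∀ s, B * E K arm s * (Fᵀ * J * (P.1 * F)) * U2 = U2 * a2 s)
    {a : K} {Pt : Matrix ι ι K × (Fin 3 → Matrix ι ι K)} {dY : Derivation ℂ K K}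
    (hc : ∀ κ, QQb S κ ≠ ⊥ → 1 + a * κ ≠ 0) {c : K} {y y' : D3 K (Fin m1) (Fin m2)}
    (hy : Dec F (Fᵀ * J * (P.1 * F)) U1 U2 a1 a2 c y)
    (hI : I1 arm F (Fᵀ * J * (P.1 * F)) U1 U2 y ∈
      QQ5 J N (W3 W F (QQb S) ν ν') F f dY (Fᵀ * J * (P.1 * F)) U1 U2)
    (hy' : Dec F (Fᵀ * J * (P.1 * F)) U1 U2 a1 a2 (-(((1 + a * ν') / (1 + a * ν)) ^ 2)) y')
    {d : Derivation ℂ K K}
    {Γ1 : Matrix (Fin m1) (Fin m1) K} {Γ2 : Matrix (Fin m2) (Fin m2) K}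
    {β : Matrix (Fin m1) (Fin m2) K} {γ : Matrix (Fin m2) (Fin m1) K}
    (M : MvD arm J B N W F f (F + a • f) Pt (Fᵀ * J * (P.1 * F)) dY (QQb S) ν ν' (1 + a * ν)
      (1 + a * ν') U1 U2 a1 a2 y'.1 d Γ1 Γ2 β γ) :
    Rel2 arm F (Fᵀ * J * (P.1 * F)) U1 U2 ((1 + a * ν') / (1 + a * ν)) y y' ∈
      SLev0.QG arm J B N W F P (PC arm J B F R P.1)
        (fun μ : K => (SLev0.PbK arm J B F R P.1 D μ)) id := by
  obtain ⟨X', β', γ'⟩ := y'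
  have hc1 := M.fr.hc1
  have hc2 := M.fr.hc2
  have hcne : -(((1 + a * ν') / (1 + a * ν)) ^ 2) ≠ 0 :=
    neg_ne_zero.2 (pow_ne_zero 2 (div_ne_zero hc2 hc1))
  have hun := SUniq803.dec_uniq S hU1 hs1 hi1 ha1 hU2 hs2 hi2 ha2 hcne hy' M.dec rfl
  rw [rel2_congr (F := F) hun.1.1 hun.2.1]
  obtain ⟨X, β0, γ0⟩ := y
  obtain ⟨w, μ1, μ2, ν1, ν2, cw⟩ := SUX.exists_WCls hI
  have hW3 := cw.mem
  obtain ⟨hwW, h3⟩ := hW3
  have hμ : ∃ μ : K → K, μ ν = μ1 ∧ μ ν' = μ2 ∧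
      ∀ κ, κ ≠ ν → κ ≠ ν' → ∀ u ∈ QQb S κ, w *ᵥ u = μ κ • (F *ᵥ u) := by
    classical
    have h4 : ∀ κ, ∃ m : K, κ ≠ ν → κ ≠ ν' → ∀ u ∈ QQb S κ, w *ᵥ u = m • (F *ᵥ u) := by
      intro κ
      by_cases h : κ ≠ ν ∧ κ ≠ ν'
      · obtain ⟨m, hm⟩ := h3 κ h.1 h.2
        exact ⟨m, fun _ _ => hm⟩
      · exact ⟨0, fun p q => absurd ⟨p, q⟩ h⟩
    choose μ3 hμ3 using h4
    refine ⟨fun κ => if κ = ν then μ1 else if κ = ν' then μ2 else μ3 κ, ?_, ?_, ?_⟩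
    · simp
    · simp [hne.symm]
    · intro κ p q
      simp only [if_neg p, if_neg q]
      exact hμ3 κ p q
  obtain ⟨μ, hμ1, hμ2, hμ3⟩ := hμ
  have hHc : ∀ w : Matrix ι δ K, Fᵀ * J * w = 0 → fᵀ * J * w = 0 →
      (F + a • f)ᵀ * J * w = 0 := by
    intro w p q
    rw [transpose_add, transpose_smul, Matrix.add_mul, Matrix.add_mul, Matrix.smul_mul,
      Matrix.smul_mul, p, q, smul_zero, add_zero]
  have hmem1 : ∀ x, U1 *ᵥ x ∈ QQb S ν := SUniq803.mem_of_Cq hU1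
  have hmem2 : ∀ x, U2 *ᵥ x ∈ QQb S ν' := SUniq803.mem_of_Cq hU2
  have hwQ : wd arm J (F + a • f) Pt.1 (Ym U1 U2 X') d w ∈
      SLev0.QG arm J B N W F P (PC arm J B F R P.1)
        (fun μ : K => (SLev0.PbK arm J B F R P.1 D μ)) id := by
    refine SWd275.wd_QG (SInst.ctx S) S.hR S.hD (S.hNil F S.hF) S.hP (SInst.hfNW S) M.ctx M.hPt
      M.mv M.fr hs1 hmem1 hs2 hmem2 (fun v _ => by rw [M.hN2]) (fun v _ => by rw [M.hN1])
      M.dec.rb M.dec.rk hy.rk hc M.n3 hwW (hHc w cw.pF cw.pf) (μ := μ) ?_ ?_ hμ3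
      (fun i => le_rfl) ?_
    · rw [hμ1]; exact cw.L1
    · rw [hμ2]; exact cw.L2
    · rw [sub_self]; exact N.zero_mem
  obtain ⟨C1, u1⟩ := SB4x.exists_FU S b1 hU1 hs1 hmem1 ha1
  obtain ⟨C2, u2⟩ := SB4x.exists_FU S b2 hU2 hs2 hmem2 ha2
  have hG12 := SLev1Q455.lev1Q S hne b1 b2
  have hG21 := SLev1Q455.lev1Q S hne.symm b2 b1
  have hX : ∀ s, X s ∈ SL2g560.FR (a2 s) (a1 s) (SL2g560.rad (Fᵀ * J * (P.1 * F)) U2)
      (SL2g560.rad (Fᵀ * J * (P.1 * F)) U1) (l s) := fun s =>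
    SB4x.filt_of_arm S u1 b1 u2 b2 s (hy.arm s)
  have hX' : ∀ s, X' s ∈ SL2g560.FR (a2 s) (a1 s) (SL2g560.rad (Fᵀ * J * (P.1 * F)) U2)
      (SL2g560.rad (Fᵀ * J * (P.1 * F)) U1) (l s) := fun s =>
    SB4x.filt_of_arm S u1 b1 u2 b2 s (hy'.arm s)
  exact SUX.second_mem M.ctx M.hPt M.mv M.fr (fun s v _ => rfl) (fun v _ => by rw [M.hN2])
    (fun v _ => by rw [M.hN1]) S.hF.1 (M.ctx.perp _ S.hF.1) (fun w (h : w ∈ W3 W F (QQb S) ν ν') => h.1) hHc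
    (fun w _ h => M.row w h) cw SLev0.N_le_QG hwQ
    (Submodule.sum_mem _ fun s _ => SB4x.part21 u1 b1 u2 b2 hG21 M.ctx M.hPt M.mv M.fr
      (fun s v _ => rfl) (fun v _ => by rw [M.hN2]) (fun v _ => by rw [M.hN1]) S.hF.1.2 ha1 ha2 s
      (hX s) (hX' s) _ _ _)
    (Submodule.sum_mem _ fun s _ => SB4x.part12 u1 b1 u2 b2 hG12 s (hX' s))

/-- **LEVEL 2, the geometric half.** -/
theorem geo22 : SDec.Geo22 := by
  intro ι _ _ δ _ _ K _ _ _ arm J B N W F f P R D l S ν ν' hne n1 n2 Q1 A1 Q2 A2 b1 b2 m1 m2 U1 U2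
    a1 a2 hU1 hs1 hi1 ha1 hU2 hs2 hi2 ha2
  obtain ⟨dY, bad, hbad, hex⟩ := SGeo869.exists_MvD S hne hU1 hs1 ha1 hU2 hs2 ha2
  have hinf := SMv16.Lam_infinite (k := ℂ) hbad hne
  have h0 := SMv16.Lam_zero bad ν ν'
  have hsk : (Fᵀ * J * (P.1 * F))ᵀ = -(Fᵀ * J * (P.1 * F)) :=
    SUX.th_skew (SInst.ctx S) S.hP (SInst.ctx S).mem
  obtain ⟨S1, hS1, hsep⟩ := RJP.par_sep (T := Unit)
    (SDecP70.alD F (Fᵀ * J * (P.1 * F)) U1 U2 a1) (-(SDecP70.beD F (Fᵀ * J * (P.1 * F)) U1 U2 a2))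
    (QQ5 J N (W3 W F (QQb S) ν ν') F f dY (Fᵀ * J * (P.1 * F)) U1 U2)
    (fun _ => I1 arm F (Fᵀ * J * (P.1 * F)) U1 U2) (fun _ => I2 arm F (Fᵀ * J * (P.1 * F)) U1 U2)
    hinf (by
      intro r hr y hy _
      have hd : Dec F (Fᵀ * J * (P.1 * F)) U1 U2 a1 a2 (-(r ^ 2)) y := by
        rw [SDecP70.dec_iff, hy, LinearMap.neg_apply, smul_neg, neg_smul]
      obtain ⟨t, ht, hc1, hc2, rfl⟩ := hr
      obtain ⟨hc, hm⟩ := hex t ht hc1 hc2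
      obtain ⟨Pt, d, Γ1, Γ2, b, g, M⟩ := hm y.1 ⟨hd.sum, hd.arm⟩
      have hcne : -(((1 + algebraMap ℂ K t * ν') / (1 + algebraMap ℂ K t * ν)) ^ 2) ≠ 0 :=
        neg_ne_zero.2 (pow_ne_zero 2 (div_ne_zero hc2 hc1))
      have hun := SUniq803.dec_uniq S hU1 hs1 hi1 ha1 hU2 hs2 hi2 ha2 hcne hd M.dec rfl
      have z1 : F * (U1 * (y.2.1 - b)) = 0 := by
        rw [Matrix.mul_sub, Matrix.mul_sub, ← Matrix.mul_assoc, ← Matrix.mul_assoc, hun.1.1,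
          sub_self]
      have z3 : F * (U2 * (y.2.2 - g)) = 0 := by
        rw [Matrix.mul_sub, Matrix.mul_sub, ← Matrix.mul_assoc, ← Matrix.mul_assoc, hun.2.1,
          sub_self]
      have z2 : (Fᵀ * J * (P.1 * F)) * (U1 * (y.2.1 - b)) = 0 := by
        rw [Matrix.mul_assoc, Matrix.mul_assoc P.1, z1, Matrix.mul_zero, Matrix.mul_zero]
      have z4 : (Fᵀ * J * (P.1 * F)) * (U2 * (y.2.2 - g)) = 0 := by
        rw [Matrix.mul_assoc, Matrix.mul_assoc P.1, z3, Matrix.mul_zero, Matrix.mul_zero]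
      obtain ⟨v1, v2⟩ := SDecP70.I_zero (arm := arm) hsk z1 z2 z3 z4
      have e : y = (y.1, b, g) + ((0 : Fin 3 → Matrix (Fin m2) (Fin m1) K), y.2.1 - b,
          y.2.2 - g) := by
        refine Prod.ext ?_ (Prod.ext ?_ ?_)
        · exact (add_zero _).symm
        · exact (add_sub_cancel _ _).symm
        · exact (add_sub_cancel _ _).symm
      rw [e, map_add, map_add, v1, v2, add_zero, add_zero]
      exact SGeo869.first S hne hc M)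
  have hfin : {r : K | r ^ 2 ∈ S1}.Finite := by
    have h := hS1.preimage' (f := fun r : K => r ^ 2) (fun b _ => by
      by_cases hb : ∃ r0 : K, r0 ^ 2 = b
      · obtain ⟨r0, rfl⟩ := hb
        refine (Set.toFinite {r0, -r0}).subset fun r hr => ?_
        have h1 : r ^ 2 = r0 ^ 2 := hr
        rcases sq_eq_sq_iff_eq_or_eq_neg.1 h1 with h2 | h2
        · exact Or.inl h2
        · exact Or.inr h2
      · refine Set.finite_empty.subset fun r hr => hb ⟨r, hr⟩)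
    exact h
  refine ⟨SMv16.Lam ℂ bad ν ν' \ {r : K | r ^ 2 ∈ S1}, hinf.sdiff hfin, fun h => h0 h.1,
    fun r hr X hX hX' => ?_, fun r hr r' hr' y y' hy hy' => ?_⟩
  · obtain ⟨⟨t, ht, hc1, hc2, rfl⟩, -⟩ := hr
    obtain ⟨hc, hm⟩ := hex t ht hc1 hc2
    obtain ⟨Pt, d, Γ1, Γ2, b, g, M⟩ := hm X ⟨hX, hX'⟩
    exact ⟨b, g, M.dec, fun x hx => SZb601.zb M.fr M.mv.dH (congrArg (fun A =>
      (F + algebraMap ℂ K t • f) * A) M.hN2) x hx, fun x hx => SZb601.zk M.fr M.mv.dH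
        (congrArg (fun A => (F + algebraMap ℂ K t • f) * A) M.hN1) x hx⟩
  · have hI : I1 arm F (Fᵀ * J * (P.1 * F)) U1 U2 y ∈
        QQ5 J N (W3 W F (QQb S) ν ν') F f dY (Fᵀ * J * (P.1 * F)) U1 U2 := by
      refine (hsep (r ^ 2) hr.2 y ?_ ()).1
      rw [(SDecP70.dec_iff F (Fᵀ * J * (P.1 * F)) U1 U2 a1 a2 _ y).1 hy, LinearMap.neg_apply,
        smul_neg, neg_smul]
    obtain ⟨⟨t, ht, hc1, hc2, rfl⟩, -⟩ := hr'
    obtain ⟨hc, hm⟩ := hex t ht hc1 hc2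
    obtain ⟨Pt, d, Γ1, Γ2, b, g, M⟩ := hm y'.1 ⟨hy'.sum, hy'.arm⟩
    exact rel_at S hne b1 b2 hU1 hs1 hi1 ha1 hU2 hs2 hi2 ha2 hc hy hI hy' M

end Crest.Agent.R172.SGeo860
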