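import Crest.Agent.R172.SUXF
import Crest.Agent.R172.SpS7

/-!
Row 172 (S0260), (t2), level 2: the fields `zb`, `zk` of the decorated families (note of helper952):
`F U2 x = 0` implies `F U1 β x ∈ F U2 (..)`, from the frame equation of `∇ U2`.
-/

set_option autoImplicit false
set_option linter.unusedSectionVars false
set_option linter.unusedFintypeInType false
set_option linter.unusedDecidableInType false

namespace Crest.Agent.R172.SZB275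

open Matrix Module Crest.Agent.R172.FO Crest.Agent.R172.Qt Crest.Agent.R172.SpS
  Crest.Agent.R172.SUX

variable {ι : Type*} [Fintype ι] [DecidableEq ι] {δ : Type*} [Fintype δ] [DecidableEq δ]
variable {k K : Type*} [Field k] [Field K] [Algebra k K]
variable {arm : δ → Fin 3} {J : Matrix ι ι K} {F H : Matrix ι δ K}
variable {n1 n2 : Type*} [Fintype n1] [Fintype n2]
variable {P : Matrix ι ι K} {S0 : Matrix δ δ K} {c1 c2 : K} {U1 : Matrix δ n1 K}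
  {U2 : Matrix δ n2 K} {Y : Fin 3 → Matrix δ δ K} {d : Derivation k K K}
  {Γ1 : Matrix n1 n1 K} {Γ2 : Matrix n2 n2 K} {β : Matrix n1 n2 K} {γ : Matrix n2 n1 K}

/-- **zk**: `F U1 x = 0` implies `F U2 γ x = F U1 z` for some `z`. -/
theorem zk_of (fr : Fr J F H P S0 c1 c2 U1 U2)
    (hd : H.map d = H * ZY arm J H P Y)
    (hN1 : H * (U1.map d + ZY arm J H P Y * U1) = H * (U1 * Γ1 + c1 ^ 2 • (U2 * γ)))
    {x : n1 → K} (hx : F *ᵥ (U1 *ᵥ x) = 0) :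
    ∃ z, F *ᵥ (U2 *ᵥ (γ *ᵥ x)) = F *ᵥ (U1 *ᵥ z) := by
  have h1 := dFU fr hd hN1
  have hx' : (F * U1) *ᵥ x = 0 := by rw [← mulVec_mulVec]; exact hx
  have h2 : dv d ((F * U1) *ᵥ x) = 0 := by
    rw [hx']
    funext i
    simp [dv]
  rw [dv_mulVec, h1, sub_mulVec, add_mulVec, smul_mulVec, smul_mulVec, hx', smul_zero,
    sub_zero] at h2
  have hc : c1 * c2 ≠ 0 := mul_ne_zero fr.hc1 fr.hc2
  refine ⟨-((c1 * c2)⁻¹ • (Γ1 *ᵥ x + dv d x)), ?_⟩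
  have h3 : (c1 * c2) • (F *ᵥ (U2 *ᵥ (γ *ᵥ x))) =
      -(F *ᵥ (U1 *ᵥ (Γ1 *ᵥ x)) + F *ᵥ (U1 *ᵥ dv d x)) := by
    have e1 : (F * U1 * Γ1) *ᵥ x = F *ᵥ (U1 *ᵥ (Γ1 *ᵥ x)) := by
      rw [← mulVec_mulVec, ← mulVec_mulVec]
    have e2 : (F * U2 * γ) *ᵥ x = F *ᵥ (U2 *ᵥ (γ *ᵥ x)) := by
      rw [← mulVec_mulVec, ← mulVec_mulVec]
    have e3 : (F * U1) *ᵥ dv d x = F *ᵥ (U1 *ᵥ dv d x) := by rw [← mulVec_mulVec]
    rw [e1, e2, e3] at h2
    rw [eq_neg_iff_add_eq_zero, ← h2]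
    abel
  have h4 := congrArg (fun y => (c1 * c2)⁻¹ • y) h3
  simp only [smul_smul, inv_mul_cancel₀ hc, one_smul] at h4
  rw [h4, mulVec_neg, mulVec_neg, mulVec_smul, mulVec_smul, mulVec_add, mulVec_add, smul_neg]

/-- **zb**: `F U2 x = 0` implies `F U1 β x = F U2 z` for some `z`. -/
theorem zb_of (fr : Fr J F H P S0 c1 c2 U1 U2)
    (hd : H.map d = H * ZY arm J H P Y)
    (hN2 : H * (U2.map d + ZY arm J H P Y * U2) = H * (U2 * Γ2 + c2 ^ 2 • (U1 * β)))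
    {x : n2 → K} (hx : F *ᵥ (U2 *ᵥ x) = 0) :
    ∃ z, F *ᵥ (U1 *ᵥ (β *ᵥ x)) = F *ᵥ (U2 *ᵥ z) :=
  zk_of fr.symm hd hN2 hx

end Crest.Agent.R172.SZB275
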