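import Crest.Agent.R172.SDecC926
import Crest.Agent.R172.SB2H16
import Crest.Agent.R172.SInst
import Crest.Agent.R172.SUX7
import Crest.Agent.R172.SUX6w946
import Crest.Agent.R172.SZB275
import Crest.Agent.R172.SWd275
import Crest.Agent.R172.SPerp355

/-!
Row 172 (S0260), tame node (t2), level 2: assembly of `SDecC.Geo2C` (helper869).
-/

set_option autoImplicit false
set_option linter.unusedSectionVars false
set_option linter.unusedVariables false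
set_option linter.unusedFintypeInType false
set_option linter.unusedDecidableInType false
set_option maxHeartbeats 1600000

namespace Crest.Agent.R172.SGeo869

open Module Matrix Crest.Agent.R172.FO Crest.Agent.R172.Qt Crest.Agent.R172.SpS
open Crest.Agent.R172.SBlk Crest.Agent.R172.UBlk Crest.Agent.R172.SEnd2 Crest.Agent.R172.STop
open Crest.Agent.R172.SCM Crest.Agent.R172.SDec Crest.Agent.R172.SUX
open Crest.Agent.R172.Om (Kiso)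
open Crest.Agent.R172.PL (CoreM Ainf)
open Crest.Agent.R172.SC (PB)
open Crest.Agent.R172.SInst (QQb)

section letters

variable {ι : Type} [Fintype ι] [DecidableEq ι] {δ : Type} [Fintype δ] [DecidableEq δ]
variable {K : Type} [Field K] [Algebra ℂ K]
variable {m1 m2 : ℕ}

/-- the symmetric family of `X` -/
def Ym (U1 : Matrix δ (Fin m1) K) (U2 : Matrix δ (Fin m2) K)
    (X : Fin 3 → Matrix (Fin m2) (Fin m1) K) (r : Fin 3) : Matrix δ δ K :=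
  U2 * X r * U1ᵀ + U1 * (X r)ᵀ * U2ᵀ

/-- exact families with radical arms -/
def ExM (S0 : Matrix δ δ K) (U1 : Matrix δ (Fin m1) K) (U2 : Matrix δ (Fin m2) K)
    (a1 : Fin 3 → Matrix (Fin m1) (Fin m1) K) (a2 : Fin 3 → Matrix (Fin m2) (Fin m2) K) (c : K)
    (X : Fin 3 → Matrix (Fin m2) (Fin m1) K) : Prop :=
  ∑ s, (X s * (a1 s)ᵀ - c • (a2 s * X s)) = 0 ∧
    ∀ s, (U2ᵀ * S0 * U2) * (X s * (a1 s)ᵀ - c • (a2 s * X s)) * (U1ᵀ * S0 * U1) = 0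

/-- **a decorated move** of `X` at the point `H` with `P_t = Pt` -/
structure MvD (arm : δ → Fin 3) (J : Matrix ι ι K) (B : Matrix δ δ K)
    (N W : Submodule K (Matrix ι δ K)) (F f : Matrix ι δ K) (H : Matrix ι δ K)
    (Pt : Matrix ι ι K × (Fin 3 → Matrix ι ι K)) (S0 : Matrix δ δ K)
    (dY : Derivation ℂ K K) (Qf : K → Submodule K (δ → K)) (ν ν' : K) (c1 c2 : K)
    (U1 : Matrix δ (Fin m1) K) (U2 : Matrix δ (Fin m2) K)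
    (a1 : Fin 3 → Matrix (Fin m1) (Fin m1) K) (a2 : Fin 3 → Matrix (Fin m2) (Fin m2) K)
    (X : Fin 3 → Matrix (Fin m2) (Fin m1) K) (d : Derivation ℂ K K)
    (Γ1 : Matrix (Fin m1) (Fin m1) K) (Γ2 : Matrix (Fin m2) (Fin m2) K)
    (β : Matrix (Fin m1) (Fin m2) K) (γ : Matrix (Fin m2) (Fin m1) K) : Prop where
  ctx : Ctx ℂ arm J B N W H
  hPt : Pt ∈ NN arm J N H
  mv : Mv ℂ arm J N W H Pt.1 (Ym U1 U2 X) d
  fr : Fr J F H Pt.1 S0 c1 c2 U1 U2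
  k1 : K1 J F H Pt.1 S0 c1 U1 U2 ((ν - ν')⁻¹ • (f - ν' • F))
  hN2 : U2.map d + ZY arm J H Pt.1 (Ym U1 U2 X) * U2 = U2 * Γ2 + c2 ^ 2 • (U1 * β)
  hN1 : U1.map d + ZY arm J H Pt.1 (Ym U1 U2 X) * U1 = U1 * Γ1 + c1 ^ 2 • (U2 * γ)
  dec : Dec F S0 U1 U2 a1 a2 (-((c2 / c1) ^ 2)) (X, β, γ)
  n3 : ∀ κ, κ ≠ ν → κ ≠ ν' → ∀ u ∈ Qf κ, ∃ u' ∈ Qf κ,
    ∀ v ∈ W, v *ᵥ SUB.nab arm J H Pt.1 (Ym U1 U2 X) d u = v *ᵥ u'
  row : ∀ w : Matrix ι δ K, Hᵀ * J * w = 0 → Hᵀ * J * (Pt.1 * w) = Hᵀ * J * w.map dY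
  wF : Fᵀ * J * wd arm J H Pt.1 (Ym U1 U2 X) d ((ν - ν')⁻¹ • (f - ν' • F)) = 0
  wf : fᵀ * J * wd arm J H Pt.1 (Ym U1 U2 X) d ((ν - ν')⁻¹ • (f - ν' • F)) = 0

/-- third block class -/
def W3 (W : Submodule K (Matrix ι δ K)) (F : Matrix ι δ K) (Qf : K → Submodule K (δ → K))
    (ν ν' : K) : Submodule K (Matrix ι δ K) where
  carrier := {w | w ∈ W ∧ ∀ κ, κ ≠ ν → κ ≠ ν' → ∃ μ : K, ∀ u ∈ Qf κ, w *ᵥ u = μ • (F *ᵥ u)}
  zero_mem' := ⟨W.zero_mem, fun κ _ _ => ⟨0, fun u _ => by rw [zero_mulVec, zero_smul]⟩⟩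
  add_mem' := by
    rintro w w' ⟨h1, h2⟩ ⟨h1', h2'⟩
    refine ⟨W.add_mem h1 h1', fun κ hκ hκ' => ?_⟩
    obtain ⟨m, hm⟩ := h2 κ hκ hκ'
    obtain ⟨m', hm'⟩ := h2' κ hκ hκ'
    exact ⟨m + m', fun u hu => by rw [add_mulVec, hm u hu, hm' u hu, add_smul]⟩
  smul_mem' := by
    rintro c w ⟨h1, h2⟩
    refine ⟨W.smul_mem c h1, fun κ hκ hκ' => ?_⟩
    obtain ⟨m, hm⟩ := h2 κ hκ hκ'
    exact ⟨c * m, fun u hu => by rw [smul_mulVec, hm u hu, smul_smul]⟩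

/-- values of `wd q` on a third block -/
theorem third_val {arm : δ → Fin 3} {J : Matrix ι ι K} {N W : Submodule K (Matrix ι δ K)}
    {F H q : Matrix ι δ K} {Pt : Matrix ι ι K × (Fin 3 → Matrix ι ι K)}
    {Y : Fin 3 → Matrix δ δ K} {d : Derivation ℂ K K} (m : Mv ℂ arm J N W H Pt.1 Y d)
    (hHW : H ∈ W) (hq : q ∈ W) {Q : Submodule K (δ → K)} {c lam : K} (hc : Q ≠ ⊥ → c ≠ 0)
    (hH : ∀ u ∈ Q, H *ᵥ u = c • (F *ᵥ u)) (hqQ : ∀ u ∈ Q, q *ᵥ u = lam • (F *ᵥ u))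
    (h3 : ∀ u ∈ Q, ∃ u' ∈ Q, ∀ v ∈ W, v *ᵥ SUB.nab arm J H Pt.1 Y d u = v *ᵥ u') :
    ∃ μ : K, ∀ u ∈ Q, wd arm J H Pt.1 Y d q *ᵥ u = μ • (F *ᵥ u) := by
  by_cases hQ : Q = ⊥
  · refine ⟨0, fun u hu => ?_⟩
    rw [hQ, Submodule.mem_bot] at hu
    rw [hu, mulVec_zero, mulVec_zero, smul_zero]
  have hc' := hc hQ
  refine ⟨d lam - lam * (d c / c), fun u hu => ?_⟩
  obtain ⟨u', hu', hv⟩ := h3 u hu
  have a1 := SUB.H_nab m u
  rw [hH u hu, hv _ hHW, hH u' hu', SUB.dv_smul] at a1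
  have a2 : dv d (F *ᵥ u) = F *ᵥ u' - (d c / c) • (F *ᵥ u) := by
    have a3 : c • dv d (F *ᵥ u) = c • (F *ᵥ u') - d c • (F *ᵥ u) := eq_sub_of_add_eq a1
    have a4 := congrArg (fun x => c⁻¹ • x) a3
    simp only [smul_smul, smul_sub, inv_mul_cancel₀ hc', one_smul] at a4
    rw [a4, div_eq_inv_mul]
  have a5 := SUB.F_nab (arm := arm) (J := J) (H := H) (Y := Y) (d := d) Pt.1 q u
  rw [hv q hq, hqQ u hu, hqQ u' hu', SUB.dv_smul, a2] at a5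
  have a6 : wd arm J H Pt.1 Y d q *ᵥ u =
      (lam • (F *ᵥ u' - (d c / c) • (F *ᵥ u)) + d lam • (F *ᵥ u)) - lam • (F *ᵥ u') := by
    rw [a5]; abel
  rw [a6]
  module

variable {arm : δ → Fin 3} {J : Matrix ι ι K} {B : Matrix δ δ K}
  {N W : Submodule K (Matrix ι δ K)} {F f : Matrix ι δ K}
  {P : Matrix ι ι K × (Fin 3 → Matrix ι ι K)} {R : Matrix δ ι K}
  {D : End K (CoreM (PhS arm J B F R P.1))} {l : Fin 3 → ℕ}

/-- the first derivative of `k_1` at a decorated move -/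
theorem first [IsAlgClosed K] (S : Setup arm J B N W F f P R D l) {ν ν' : K} (hne : ν ≠ ν')
    {a : K} {Pt : Matrix ι ι K × (Fin 3 → Matrix ι ι K)} {dY : Derivation ℂ K K}
    {U1 : Matrix δ (Fin m1) K} {U2 : Matrix δ (Fin m2) K}
    {a1 : Fin 3 → Matrix (Fin m1) (Fin m1) K} {a2 : Fin 3 → Matrix (Fin m2) (Fin m2) K}
    {X : Fin 3 → Matrix (Fin m2) (Fin m1) K} {d : Derivation ℂ K K}
    {Γ1 : Matrix (Fin m1) (Fin m1) K} {Γ2 : Matrix (Fin m2) (Fin m2) K}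
    {β : Matrix (Fin m1) (Fin m2) K} {γ : Matrix (Fin m2) (Fin m1) K}
    (hc : ∀ κ, QQb S κ ≠ ⊥ → 1 + a * κ ≠ 0)
    (M : MvD arm J B N W F f (F + a • f) Pt (Fᵀ * J * (P.1 * F)) dY (QQb S) ν ν' (1 + a * ν)
      (1 + a * ν') U1 U2 a1 a2 X d Γ1 Γ2 β γ) :
    I1 arm F (Fᵀ * J * (P.1 * F)) U1 U2 (X, β, γ) +
      ((1 + a * ν') / (1 + a * ν)) • I2 arm F (Fᵀ * J * (P.1 * F)) U1 U2 (X, β, γ) ∈
      QQ5 J N (W3 W F (QQb S) ν ν') F f dY (Fᵀ * J * (P.1 * F)) U1 U2 := by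
  have hq : (ν - ν')⁻¹ • (f - ν' • F) ∈ N ⊓ W :=
    Submodule.smul_mem _ _ (Submodule.sub_mem _ S.hf.1 (Submodule.smul_mem _ _ S.hF.1))
  have hqp : (F + a • f)ᵀ * J * ((ν - ν')⁻¹ • (f - ν' • F)) = 0 := M.ctx.perp _ hq
  have hwf2 := M.wf
  refine SUX6w946.first_memC (q := (ν - ν')⁻¹ • (f - ν' • F)) M.ctx M.hPt M.mv hq hqp M.fr M.k1
    (fun s v _ => rfl) (fun v _ => by rw [M.hN2]) (fun v _ => by rw [M.hN1]) M.wF M.wf ?_ ?_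
  · exact M.row _ (M.mv.w_perp M.ctx hqp)
  · refine ⟨M.mv.w_mem hq.2, fun κ h1 h2 => ?_⟩
    refine third_val M.mv M.ctx.memW hq.2 (Q := QQb S κ) (c := 1 + a * κ)
      (lam := (ν - ν')⁻¹ * (κ - ν')) (hc κ) (fun u hu => ?_) (fun u hu => ?_) (M.n3 κ h1 h2)
    · exact Qb_H (SInst.ctx S) S.hR S.hD (S.hNil F S.hF) S.hP (SInst.hfNW S) hu
    · rw [smul_mulVec, sub_mulVec, smul_mulVec, SInst.rel S hu, ← sub_smul, smul_smul]

end letters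

end Crest.Agent.R172.SGeo869
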