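import Crest.Agent.R172.SDec2
import Crest.Agent.R172.SNabI934
import Crest.Agent.R172.SInf266
import Crest.Agent.R172.SB2H16
import Crest.Agent.R172.SMv16
import Crest.Agent.R172.SSep513
import Crest.Agent.R172.SUX6t515
import Crest.Agent.R172.SB4x117
import Crest.Agent.R172.SWd275
import Crest.Agent.R172.SU170
import Crest.Agent.R172.SLevA455
import Crest.Agent.R172.SZB275
import Crest.Agent.R172.SUX4b
import Crest.Agent.R172.SNab753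
import Crest.Agent.R172.SUniq803

/-!
Row 172 (S0260), S-side (t2), LEVEL 2: the geometric half `Geo22` (copy of helper907).
-/

set_option autoImplicit false
set_option linter.unusedSectionVars false
set_option linter.unusedVariables false
set_option maxHeartbeats 1600000

namespace Crest.Agent.R172.SGeo907

open Matrix Module Crest.Agent.R172.FO Crest.Agent.R172.Qt Crest.Agent.R172.SpS
  Crest.Agent.R172.Om
open Crest.Agent.R172.SEnd2 (PC PhS)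
open Crest.Agent.R172.SUX (D3 th ZY Mv wd)
open Crest.Agent.R172.PL (CoreM)
open Crest.Agent.R172.SDec
open Crest.Agent.R172.STop (Setup)
open Crest.Agent.R172.SMv16 (Yf Yf_symm Lam)
open Crest.Agent.R172.UBlk (Qb)

section mv

variable {ι : Type} [Fintype ι] [DecidableEq ι] {δ : Type} [Fintype δ] [DecidableEq δ]
variable {K : Type} [Field K] [Algebra ℂ K] [IsAlgClosed K]
variable {arm : δ → Fin 3} {J : Matrix ι ι K} {B : Matrix δ δ K} {N W : Submodule K (Matrix ι δ K)}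
  {F f : Matrix ι δ K} {P : Matrix ι ι K × (Fin 3 → Matrix ι ι K)} {R : Matrix δ ι K}
  {D : End K (CoreM (PhS arm J B F R P.1))} {l : Fin 3 → ℕ}
  {m1 m2 : ℕ} {U1 : Matrix δ (Fin m1) K} {U2 : Matrix δ (Fin m2) K}
  {a1 : Fin 3 → Matrix (Fin m1) (Fin m1) K} {a2 : Fin 3 → Matrix (Fin m2) (Fin m2) K}

/-- the data of a move at `H_t` -/
structure MD (S : Setup arm J B N W F f P R D l) (dY : Derivation ℂ K K) (ν ν' : K)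
    (U1 : Matrix δ (Fin m1) K) (U2 : Matrix δ (Fin m2) K)
    (a1 : Fin 3 → Matrix (Fin m1) (Fin m1) K) (a2 : Fin 3 → Matrix (Fin m2) (Fin m2) K)
    (a : K) (X : Fin 3 → Matrix (Fin m2) (Fin m1) K)
    (Pt : Matrix ι ι K × (Fin 3 → Matrix ι ι K)) (d : Derivation ℂ K K)
    (Γ1 : Matrix (Fin m1) (Fin m1) K) (Γ2 : Matrix (Fin m2) (Fin m2) K)
    (β : Matrix (Fin m1) (Fin m2) K) (γ : Matrix (Fin m2) (Fin m1) K) : Prop where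
  ctx : Ctx ℂ arm J B N W (F + a • f)
  pt : Pt ∈ NN arm J N (F + a • f)
  row : ∀ w : Matrix ι δ K, (F + a • f)ᵀ * J * w = 0 →
    (F + a • f)ᵀ * J * (Pt.1 * w) = (F + a • f)ᵀ * J * w.map dY
  mv : Mv ℂ arm J N W (F + a • f) Pt.1 (Yf U1 U2 X) d
  fr : SUX.Fr J F (F + a • f) Pt.1 (Fᵀ * J * (P.1 * F)) (1 + a * ν) (1 + a * ν') U1 U2
  k1 : SUX.K1 J F (F + a • f) Pt.1 (Fᵀ * J * (P.1 * F)) (1 + a * ν) U1 U2
    ((ν - ν')⁻¹ • (f - ν' • F))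
  n2 : U2.map d + ZY arm J (F + a • f) Pt.1 (Yf U1 U2 X) * U2 =
    U2 * Γ2 + (1 + a * ν') ^ 2 • (U1 * β)
  n1 : U1.map d + ZY arm J (F + a • f) Pt.1 (Yf U1 U2 X) * U1 =
    U1 * Γ1 + (1 + a * ν) ^ 2 • (U2 * γ)
  dec : Dec F (Fᵀ * J * (P.1 * F)) U1 U2 a1 a2 (-(((1 + a * ν') / (1 + a * ν)) ^ 2)) (X, β, γ)
  n3 : ∀ κ, κ ≠ ν → κ ≠ ν' → ∀ u ∈ Qb (S.hCtx F S.hF).data S.hR P.1 D κ,
    SUB.nab arm J (F + a • f) Pt.1 (Yf U1 U2 X) d u ∈ Qb (S.hCtx F S.hF).data S.hR P.1 D κ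
  cne : ∀ κ, Qb (S.hCtx F S.hF).data S.hR P.1 D κ ≠ ⊥ → 1 + a * κ ≠ 0

theorem exists_md (S : Setup arm J B N W F f P R D l) {ν ν' : K} (hne : ν ≠ ν')
    (hC1 : UFr.Cq (Qb (S.hCtx F S.hF).data S.hR P.1 D ν) U1)
    (hs1 : ∀ u ∈ Qb (S.hCtx F S.hF).data S.hR P.1 D ν, ∃ x, u = U1 *ᵥ x)
    (ha1 : ∀ s, B * E K arm s * (Fᵀ * J * (P.1 * F)) * U1 = U1 * a1 s)
    (hC2 : UFr.Cq (Qb (S.hCtx F S.hF).data S.hR P.1 D ν') U2)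
    (hs2 : ∀ u ∈ Qb (S.hCtx F S.hF).data S.hR P.1 D ν', ∃ x, u = U2 *ᵥ x)
    (ha2 : ∀ s, B * E K arm s * (Fᵀ * J * (P.1 * F)) * U2 = U2 * a2 s) :
    ∃ (dY : Derivation ℂ K K) (Bad : Set ℂ), Bad.Finite ∧ ∀ t ∉ Bad,
      1 + algebraMap ℂ K t * ν ≠ 0 → 1 + algebraMap ℂ K t * ν' ≠ 0 →
      ∀ X : Fin 3 → Matrix (Fin m2) (Fin m1) K,
        ∑ s, (X s * (a1 s)ᵀ - (-(((1 + algebraMap ℂ K t * ν') / (1 + algebraMap ℂ K t * ν)) ^ 2)) •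
          (a2 s * X s)) = 0 →
        (∀ s, (U2ᵀ * (Fᵀ * J * (P.1 * F)) * U2) * (X s * (a1 s)ᵀ -
          (-(((1 + algebraMap ℂ K t * ν') / (1 + algebraMap ℂ K t * ν)) ^ 2)) • (a2 s * X s)) *
          (U1ᵀ * (Fᵀ * J * (P.1 * F)) * U1) = 0) →
        ∃ Pt d Γ1 Γ2 β γ, MD S dY ν ν' U1 U2 a1 a2 (algebraMap ℂ K t) X Pt d Γ1 Γ2 β γ := by
  have h2 : (2 : K) ≠ 0 := SLevA455.two_ne K
  obtain ⟨Y0, dY, hY0, hr, hform, hfam⟩ := SInst.family S h2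
  obtain ⟨Sb1, hSb1, hb1⟩ := SNabI.exists_bad (S.hCtx F S.hF) S.hR S.hD h2
  obtain ⟨Sb2, hSb2, hb2⟩ := SInf266.ainf_eq h2 S.hCtx S.hNm S.hWm S.hNil S.hF S.hf S.hV1 S.hP
    hr hform
  refine ⟨dY, Sb1 ∪ Sb2 ∪ {0}, (hSb1.union hSb2).union (Set.finite_singleton 0), ?_⟩
  intro t ht hc1 hc2 X hsum harm
  simp only [Set.mem_union, Set.mem_singleton_iff, not_or] at ht
  obtain ⟨⟨ht1, ht2⟩, ht0⟩ := ht
  obtain ⟨Pt, Ri, hH, hctx, hPt, hV, hRi, hY, hPF, hrow⟩ := hfam t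
  obtain ⟨hcn, hom⟩ := hb1 t ht1
  have hA := hb2 t ht2 Pt hPt hY
  obtain ⟨fr, k1⟩ := SInst.fr_k1 S hY hPF hne hc1 hc2 hC1 hC2
  obtain ⟨d, m⟩ := SMv16.exists_mv (X := X) hctx h2 hRi hPt hV fr ha1 ha2 rfl hsum
  have hccne : (1 + algebraMap ℂ K t * ν) ≠ 1 + algebraMap ℂ K t * ν' := SMv16.c_ne ht0 hne
  have harm' : ∀ r, (U2ᵀ * (Fᵀ * J * (P.1 * F)) * U2) *
      ((1 + algebraMap ℂ K t * ν) ^ 2 • (X r * (a1 r)ᵀ) +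
        (1 + algebraMap ℂ K t * ν') ^ 2 • (a2 r * X r)) *
      (U1ᵀ * (Fᵀ * J * (P.1 * F)) * U1) = 0 := by
    intro r
    have e1 : (1 + algebraMap ℂ K t * ν) ^ 2 • (X r * (a1 r)ᵀ) +
        (1 + algebraMap ℂ K t * ν') ^ 2 • (a2 r * X r) = (1 + algebraMap ℂ K t * ν) ^ 2 •
        (X r * (a1 r)ᵀ - (-(((1 + algebraMap ℂ K t * ν') / (1 + algebraMap ℂ K t * ν)) ^ 2)) •
          (a2 r * X r)) := by
      rw [neg_smul, sub_neg_eq_add, smul_add, smul_smul]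
      congr 2
      field_simp
    rw [e1, Matrix.mul_smul, Matrix.smul_mul, harm r, smul_zero]
  have hB1 := SNabI.B1 (S.hCtx F S.hF) S.hR S.hD (S.hNil F S.hF) S.hP (SInst.hfNW S)
    (SInst.hff S) hctx hPt hY hPF hA.le hcn hom (Yf_symm (U1 := U1) (U2 := U2) (X := X)) m hne
    hC1 hC2 hs1 hs2 ha1 ha2 (fun r => rfl) harm'
  obtain ⟨i1, i2, i3⟩ := hB1
  have hp1 : ∀ u ∈ Qb (S.hCtx F S.hF).data S.hR P.1 D ν, ∃ c : Fin 3 → δ → K,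
      (∀ s, c s ∈ Qb (S.hCtx F S.hF).data S.hR P.1 D ν) ∧
      ∑ s, (B * E K arm s * (Fᵀ * J * (P.1 * F))) *ᵥ c s = u := fun u hu =>
    UBlk.Qb_exists (S.hCtx F S.hF) S.hR S.hD hu
  have hp2 : ∀ u ∈ Qb (S.hCtx F S.hF).data S.hR P.1 D ν', ∃ c : Fin 3 → δ → K,
      (∀ s, c s ∈ Qb (S.hCtx F S.hF).data S.hR P.1 D ν') ∧
      ∑ s, (B * E K arm s * (Fᵀ * J * (P.1 * F))) *ᵥ c s = u := fun u hu =>
    UBlk.Qb_exists (S.hCtx F S.hF) S.hR S.hD hu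
  obtain ⟨Γ1, Γ2, β, γ, e2, e1, hdec⟩ := SB2H16.dec_of_B1 (X := X) hctx hPt m fr hccne hC1 hs1 ha1
    hp1 hC2 hs2 ha2 hp2 (fun r => rfl) i1 i2 rfl hsum harm
  refine ⟨Pt, d, Γ1, Γ2, β, γ, ⟨hctx, hPt, ?_, m, fr, k1, e2, e1, hdec, i3, ?_⟩⟩
  · intro w hw
    have h1 := hrow w hw
    have h3 : (Pt.1 * (F + algebraMap ℂ K t • f))ᵀ * J * w =
        -((F + algebraMap ℂ K t • f)ᵀ * J * (Pt.1 * w)) := by
      rw [transpose_mul]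
      calc (F + algebraMap ℂ K t • f)ᵀ * Pt.1ᵀ * J * w
          = (F + algebraMap ℂ K t • f)ᵀ * (Pt.1ᵀ * J) * w := by simp only [Matrix.mul_assoc]
        _ = _ := by rw [hPt.1.eq]; simp only [Matrix.mul_neg, Matrix.neg_mul, Matrix.mul_assoc]
    rw [h3] at h1
    exact neg_injective h1
  · intro κ hκ
    refine hcn κ fun h0 => hκ ?_
    rw [Submodule.eq_bot_iff]
    intro u hu
    exact SNab.PB_zero ((UBlk.cov (S.hCtx F S.hF).data S.hR P.1).D_comm S.hD.2) h0 hu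

/-- the value of `wd q` on a third block -/
theorem wd_third {S : Setup arm J B N W F f P R D l} {dY : Derivation ℂ K K} {ν ν' a : K}
    {X : Fin 3 → Matrix (Fin m2) (Fin m1) K}
    {Pt : Matrix ι ι K × (Fin 3 → Matrix ι ι K)} {d : Derivation ℂ K K}
    {Γ1 : Matrix (Fin m1) (Fin m1) K} {Γ2 : Matrix (Fin m2) (Fin m2) K}
    {β : Matrix (Fin m1) (Fin m2) K} {γ : Matrix (Fin m2) (Fin m1) K}
    (m : MD S dY ν ν' U1 U2 a1 a2 a X Pt d Γ1 Γ2 β γ) {κ : K} (h1 : κ ≠ ν) (h2 : κ ≠ ν') :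
    ∃ μ : K, ∀ u ∈ Qb (S.hCtx F S.hF).data S.hR P.1 D κ,
      wd arm J (F + a • f) Pt.1 (Yf U1 U2 X) d ((ν - ν')⁻¹ • (f - ν' • F)) *ᵥ u =
        μ • (F *ᵥ u) := by
  by_cases hκ : Qb (S.hCtx F S.hF).data S.hR P.1 D κ = ⊥
  · refine ⟨0, fun u hu => ?_⟩
    rw [hκ, Submodule.mem_bot] at hu
    rw [hu, mulVec_zero, mulVec_zero, smul_zero]
  have hc := m.cne κ hκ
  have hHu : ∀ u ∈ Qb (S.hCtx F S.hF).data S.hR P.1 D κ,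
      (F + a • f) *ᵥ u = (1 + a * κ) • F *ᵥ u := fun u hu =>
    UBlk.Qb_H (S.hCtx F S.hF) S.hR S.hD (S.hNil F S.hF) S.hP (SInst.hfNW S) hu
  have hqu : ∀ u ∈ Qb (S.hCtx F S.hF).data S.hR P.1 D κ,
      ((ν - ν')⁻¹ • (f - ν' • F)) *ᵥ u = ((ν - ν')⁻¹ * (κ - ν')) • F *ᵥ u := by
    intro u hu
    rw [smul_mulVec, sub_mulVec, smul_mulVec, SInst.rel S hu, ← sub_smul, smul_smul]
  refine ⟨d ((ν - ν')⁻¹ * (κ - ν')) - ((ν - ν')⁻¹ * (κ - ν')) * (1 + a * κ)⁻¹ * d (1 + a * κ),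
    fun u hu => ?_⟩
  rw [SNab753.wd_val m.mv hc (hHu u hu) (hqu u hu)]
  have h3 := m.n3 κ h1 h2 u hu
  have h4 : ((((ν - ν')⁻¹ * (κ - ν')) * (1 + a * κ)⁻¹) • (F + a • f) -
      (ν - ν')⁻¹ • (f - ν' • F)) *ᵥ SUB.nab arm J (F + a • f) Pt.1 (Yf U1 U2 X) d u = 0 := by
    rw [sub_mulVec, smul_mulVec, hHu _ h3, hqu _ h3, smul_smul, mul_assoc, inv_mul_cancel₀ hc,
      mul_one, sub_self]
  have h5 : ((((ν - ν')⁻¹ * (κ - ν')) * (1 + a * κ)⁻¹) • (F + a • f) -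
      (ν - ν')⁻¹ • (f - ν' • F)) *ᵥ SUB.nab arm J (F + a • f) Pt.1 (Yf U1 U2 X) d u = 0 := h4
  rw [h5, add_zero]

end mv


section main

variable {ι : Type} [Fintype ι] [DecidableEq ι] {δ : Type} [Fintype δ] [DecidableEq δ]
variable {K : Type} [Field K] [Algebra ℂ K] [IsAlgClosed K]
variable {arm : δ → Fin 3} {J : Matrix ι ι K} {B : Matrix δ δ K} {N W : Submodule K (Matrix ι δ K)}
  {F f : Matrix ι δ K} {P : Matrix ι ι K × (Fin 3 → Matrix ι ι K)} {R : Matrix δ ι K}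
  {D : End K (CoreM (PhS arm J B F R P.1))} {l : Fin 3 → ℕ}
  {m1 m2 : ℕ} {U1 : Matrix δ (Fin m1) K} {U2 : Matrix δ (Fin m2) K}
  {a1 : Fin 3 → Matrix (Fin m1) (Fin m1) K} {a2 : Fin 3 → Matrix (Fin m2) (Fin m2) K}

/-- the index type of the third blocks -/
abbrev Th (K : Type) (ν ν' : K) := {κ : K // κ ≠ ν ∧ κ ≠ ν'}

/-- the first level relation for a move -/
theorem first_of_md {S : Setup arm J B N W F f P R D l} {dY : Derivation ℂ K K} {ν ν' a : K}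
    {X : Fin 3 → Matrix (Fin m2) (Fin m1) K}
    {Pt : Matrix ι ι K × (Fin 3 → Matrix ι ι K)} {d : Derivation ℂ K K}
    {Γ1 : Matrix (Fin m1) (Fin m1) K} {Γ2 : Matrix (Fin m2) (Fin m2) K}
    {β : Matrix (Fin m1) (Fin m2) K} {γ : Matrix (Fin m2) (Fin m1) K}
    (m : MD S dY ν ν' U1 U2 a1 a2 a X Pt d Γ1 Γ2 β γ) :
    SUX.I1 arm F (Fᵀ * J * (P.1 * F)) U1 U2 (X, β, γ) +
      ((1 + a * ν') / (1 + a * ν)) • SUX.I2 arm F (Fᵀ * J * (P.1 * F)) U1 U2 (X, β, γ) ∈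
      SUXt.QQ5t J N W F f dY (Fᵀ * J * (P.1 * F)) U1 U2
        (fun κ : Th K ν ν' => Qb (S.hCtx F S.hF).data S.hR P.1 D κ.1) := by
  have hff := SInst.hff S
  have hFF : Fᵀ * J * F = 0 := (S.hCtx F S.hF).iso
  have hFf : Fᵀ * J * f = 0 := (S.hCtx F S.hF).perp f S.hf.1
  have hfF : fᵀ * J * F = 0 := by
    have h1 := congrArg transpose hFf
    rw [transpose_mul, transpose_mul, transpose_transpose, (S.hCtx F S.hF).data.J_symm,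
      transpose_zero] at h1
    rw [Matrix.mul_assoc]; exact h1
  have hqN : ((ν - ν')⁻¹ • (f - ν' • F)) ∈ N ⊓ W :=
    Submodule.smul_mem _ _ (Submodule.sub_mem _ S.hf.1 (Submodule.smul_mem _ _ S.hF.1))
  have hqp : (F + a • f)ᵀ * J * ((ν - ν')⁻¹ • (f - ν' • F)) = 0 := m.ctx.perp _ hqN
  refine SUXt.first_mem' m.ctx m.pt S.hNm S.hWm S.hF S.hf m.mv hqN hqp m.fr m.k1
    (fun s v hv => rfl) (fun v hv => by rw [m.n2]) (fun v hv => by rw [m.n1]) m.row ?_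
  rintro ⟨κ, h1, h2⟩
  exact wd_third m h1 h2

/-- the second derivative is good -/
theorem second_of_md {S : Setup arm J B N W F f P R D l} {dY : Derivation ℂ K K} {ν ν' a : K}
    (hne : ν ≠ ν')
    (hC1 : UFr.Cq (Qb (S.hCtx F S.hF).data S.hR P.1 D ν) U1)
    (hs1 : ∀ u ∈ Qb (S.hCtx F S.hF).data S.hR P.1 D ν, ∃ x, u = U1 *ᵥ x)
    (hC2 : UFr.Cq (Qb (S.hCtx F S.hF).data S.hR P.1 D ν') U2)
    (hs2 : ∀ u ∈ Qb (S.hCtx F S.hF).data S.hR P.1 D ν', ∃ x, u = U2 *ᵥ x)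
    {X X' : Fin 3 → Matrix (Fin m2) (Fin m1) K}
    {Pt : Matrix ι ι K × (Fin 3 → Matrix ι ι K)} {d : Derivation ℂ K K}
    {Γ1 : Matrix (Fin m1) (Fin m1) K} {Γ2 : Matrix (Fin m2) (Fin m2) K}
    {β β0 : Matrix (Fin m1) (Fin m2) K} {γ γ0 : Matrix (Fin m2) (Fin m1) K}
    (m : MD S dY ν ν' U1 U2 a1 a2 a X' Pt d Γ1 Γ2 β γ)
    (hγ0 : (U2ᵀ * (Fᵀ * J * (P.1 * F)) * U2) * γ0 = 0)
    (hI : SUX.I1 arm F (Fᵀ * J * (P.1 * F)) U1 U2 (X, β0, γ0) ∈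
      SUXt.QQ5t J N W F f dY (Fᵀ * J * (P.1 * F)) U1 U2
        (fun κ : Th K ν ν' => Qb (S.hCtx F S.hF).data S.hR P.1 D κ.1)) :
    ∃ e1 e2 e3 e4 : K,
    ∑ s, F * (((1 + a * ν) * (1 + a * ν')) • (U1 * (β * X s -
        (X' s)ᵀ * (U2ᵀ * (Fᵀ * J * (P.1 * F)) * U2) * X s - (X' s)ᵀ * β0ᵀ) * U1ᵀ)
      + (1 + a * ν') ^ 2 • (U2 * (X s * γᵀ + X s * (U1ᵀ * (Fᵀ * J * (P.1 * F)) * U1) * (X' s)ᵀ
        - γ0 * (X' s)ᵀ) * U2ᵀ)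
      + U2 * (Γ2 * X s + (X s).map d + X s * (Γ1 - e1 • (1 : Matrix (Fin m1) (Fin m1) K))ᵀ
          - e2 • X s + e3 • X' s) * U1ᵀ
      + e4 • (U1 * (X' s)ᵀ * U2ᵀ)) * (Fᵀ * J * (P.1 * F)) * E K arm s ∈
      SLev1h455.QGd S := by
  classical
  obtain ⟨w, hw, hFw, hfw, hn, μ1, μ2, ν1, ν2, L1, L2, V1, V2, V3⟩ := SUXt.even_data hI
  obtain ⟨hwp, R1, R2⟩ := SUXt.rows_at m.fr hFw hfw m.row V1 V2
  choose μ3 hμ3 using V3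
  have key := SUX4b.second_blocks m.ctx m.pt m.mv m.fr (X := X) (X' := X') (β0 := β0) (γ0 := γ0)
    (fun s v hv => rfl) (fun v hv => by rw [m.n2]) (fun v hv => by rw [m.n1])
    (S.hCtx F S.hF).mem (m.ctx.perp F (S.hCtx F S.hF).mem) hw hwp hn L1 L2 R1 R2
  have hmem1 : ∀ x, U1 *ᵥ x ∈ Qb (S.hCtx F S.hF).data S.hR P.1 D ν := SNabI.mulVec_mem hC1
  have hmem2 : ∀ x, U2 *ᵥ x ∈ Qb (S.hCtx F S.hF).data S.hR P.1 D ν' := SNabI.mulVec_mem hC2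
  refine ⟨2 * (d (1 + a * ν) / (1 + a * ν)), d (1 + a * ν') / (1 + a * ν'),
    (1 + a * ν) * (1 + a * ν') * ν1 - μ2 * (1 + a * ν) ^ 2,
    (1 + a * ν) * (1 + a * ν') * ν2 - μ1 * (1 + a * ν') ^ 2, ?_⟩
  · exact SWd275.wd_QG (S.hCtx F S.hF) S.hR S.hD (S.hNil F S.hF) S.hP (SInst.hfNW S) m.ctx m.pt
      m.mv m.fr hs1 hmem1 hs2 hmem2 (fun v hv => by rw [m.n2]) (fun v hv => by rw [m.n1])
      m.dec.rb m.dec.rk hγ0 m.cne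
      (fun κ h1 h2 u hu => ⟨_, m.n3 κ h1 h2 u hu, fun v hv => rfl⟩) hw hwp
      (μ := fun κ => if κ = ν then μ1 else if κ = ν' then μ2 else
        if h : κ ≠ ν ∧ κ ≠ ν' then μ3 ⟨κ, h⟩ else 0)
      (by rw [if_pos rfl]; exact L1) (by rw [if_neg (Ne.symm hne), if_pos rfl]; exact L2)
      (fun κ h1 h2 u hu => by
        rw [if_neg h1, if_neg h2, dif_pos ⟨h1, h2⟩]
        exact hμ3 ⟨κ, h1, h2⟩ u hu)
      (fun i => le_rfl) key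

/-- **the relation of level 2** -/
theorem rel2_of_md {S : Setup arm J B N W F f P R D l} {dY : Derivation ℂ K K} {ν ν' a : K}
    (hne : ν ≠ ν')
    {n1 n2 : ℕ} {Q1 : Matrix ι (Fin n1) K} {A1 : Fin 3 → Matrix (Fin n1) (Fin n1) K}
    {Q2 : Matrix ι (Fin n2) K} {A2 : Fin 3 → Matrix (Fin n2) (Fin n2) K}
    (b1 : SCM.BPkg arm J B F R P.1 D ν l Q1 A1) (b2 : SCM.BPkg arm J B F R P.1 D ν' l Q2 A2)
    {C1 : Matrix (Fin n1) (Fin m1) K} {C2 : Matrix (Fin n2) (Fin m2) K}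
    (u1 : SB4x.FU J F P.1 Q1 A1 U1 a1 C1) (u2 : SB4x.FU J F P.1 Q2 A2 U2 a2 C2)
    (hC1 : UFr.Cq (Qb (S.hCtx F S.hF).data S.hR P.1 D ν) U1)
    (hs1 : ∀ u ∈ Qb (S.hCtx F S.hF).data S.hR P.1 D ν, ∃ x, u = U1 *ᵥ x)
    (ha1 : ∀ s, B * E K arm s * (Fᵀ * J * (P.1 * F)) * U1 = U1 * a1 s)
    (hC2 : UFr.Cq (Qb (S.hCtx F S.hF).data S.hR P.1 D ν') U2)
    (hs2 : ∀ u ∈ Qb (S.hCtx F S.hF).data S.hR P.1 D ν', ∃ x, u = U2 *ᵥ x)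
    (ha2 : ∀ s, B * E K arm s * (Fᵀ * J * (P.1 * F)) * U2 = U2 * a2 s)
    {X X' : Fin 3 → Matrix (Fin m2) (Fin m1) K}
    {Pt : Matrix ι ι K × (Fin 3 → Matrix ι ι K)} {d : Derivation ℂ K K}
    {Γ1 : Matrix (Fin m1) (Fin m1) K} {Γ2 : Matrix (Fin m2) (Fin m2) K}
    {β β' β0 : Matrix (Fin m1) (Fin m2) K} {γ γ' γ0 : Matrix (Fin m2) (Fin m1) K}
    (m : MD S dY ν ν' U1 U2 a1 a2 a X' Pt d Γ1 Γ2 β γ)
    {c c' : K} (hy : Dec F (Fᵀ * J * (P.1 * F)) U1 U2 a1 a2 c (X, β0, γ0))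
    (hy' : Dec F (Fᵀ * J * (P.1 * F)) U1 U2 a1 a2 c' (X', β', γ'))
    (hb : F * (U1 * β') = F * (U1 * β)) (hg : F * (U2 * γ') = F * (U2 * γ))
    (hI : SUX.I1 arm F (Fᵀ * J * (P.1 * F)) U1 U2 (X, β0, γ0) ∈
      SUXt.QQ5t J N W F f dY (Fᵀ * J * (P.1 * F)) U1 U2
        (fun κ : Th K ν ν' => Qb (S.hCtx F S.hF).data S.hR P.1 D κ.1)) :
    Rel2 arm F (Fᵀ * J * (P.1 * F)) U1 U2 ((1 + a * ν') / (1 + a * ν)) (X, β0, γ0) (X', β', γ') ∈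
      SLev1h455.QGd S := by
  obtain ⟨e1, e2, e3, e4, hsum⟩ := second_of_md hne hC1 hs1 hC2 hs2 m hy.rk hI
  obtain ⟨g21, g12⟩ := SLevA455.gens0 S hne b1 b2
  have hX : ∀ s, X s ∈ _ := fun s => SB4x.filt_of_arm S u1 b1 u2 b2 s (hy.arm s)
  have hX' : ∀ s, X' s ∈ _ := fun s => SB4x.filt_of_arm S u1 b1 u2 b2 s (hy'.arm s)
  have h12 : ∀ s, F * (e4 • (U1 * (X' s)ᵀ * U2ᵀ)) * (Fᵀ * J * (P.1 * F)) * E K arm s ∈
      SLev1h455.QGd S := by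
    intro s
    have h1 := SB4x.part12 u1 b1 u2 b2 g12 s (hX' s)
    have h3 := (SLev1h455.QGd S).smul_mem e4 h1
    simpa only [Matrix.mul_smul, Matrix.smul_mul] using h3
  have h21 : ∀ s, F * (U2 * (Γ2 * X s + (X s).map d + X s *
      (Γ1 - e1 • (1 : Matrix (Fin m1) (Fin m1) K))ᵀ - e2 • X s + e3 • X' s) * U1ᵀ) *
      (Fᵀ * J * (P.1 * F)) * E K arm s ∈ SLev1h455.QGd S := by
    intro s
    exact SB4x.part21 u1 b1 u2 b2 g21 m.ctx m.pt m.mv m.fr (fun s v hv => rfl)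
      (fun v hv => by rw [m.n2]) (fun v hv => by rw [m.n1]) S.hF.1.2 ha1 ha2 s (hX s) (hX' s)
      e1 e2 e3
  have hdiff : ∑ s, F * (((1 + a * ν) * (1 + a * ν')) • (U1 * (β * X s -
        (X' s)ᵀ * (U2ᵀ * (Fᵀ * J * (P.1 * F)) * U2) * X s - (X' s)ᵀ * β0ᵀ) * U1ᵀ)
      + (1 + a * ν') ^ 2 • (U2 * (X s * γᵀ + X s * (U1ᵀ * (Fᵀ * J * (P.1 * F)) * U1) * (X' s)ᵀ
        - γ0 * (X' s)ᵀ) * U2ᵀ)) * (Fᵀ * J * (P.1 * F)) * E K arm s ∈ SLev1h455.QGd S := by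
    have h1 := Submodule.sub_mem _ (Submodule.sub_mem _ hsum
      (Submodule.sum_mem (SLev1h455.QGd S) (t := Finset.univ) fun s _ => h12 s))
      (Submodule.sum_mem (SLev1h455.QGd S) (t := Finset.univ) fun s _ => h21 s)
    rw [← Finset.sum_sub_distrib, ← Finset.sum_sub_distrib] at h1
    convert h1 using 1
    refine Finset.sum_congr rfl fun s _ => ?_
    obtain ⟨Z1, hZ1⟩ : ∃ Z1, Z1 = U1 * (β * X s -
        (X' s)ᵀ * (U2ᵀ * (Fᵀ * J * (P.1 * F)) * U2) * X s - (X' s)ᵀ * β0ᵀ) * U1ᵀ := ⟨_, rfl⟩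
    obtain ⟨Z2, hZ2⟩ : ∃ Z2, Z2 = U2 * (X s * γᵀ + X s * (U1ᵀ * (Fᵀ * J * (P.1 * F)) * U1) *
        (X' s)ᵀ - γ0 * (X' s)ᵀ) * U2ᵀ := ⟨_, rfl⟩
    obtain ⟨Z3, hZ3⟩ : ∃ Z3, Z3 = U2 * (Γ2 * X s + (X s).map d + X s *
      (Γ1 - e1 • (1 : Matrix (Fin m1) (Fin m1) K))ᵀ - e2 • X s + e3 • X' s) * U1ᵀ := ⟨_, rfl⟩
    obtain ⟨Z4, hZ4⟩ : ∃ Z4, Z4 = e4 • (U1 * (X' s)ᵀ * U2ᵀ) := ⟨_, rfl⟩
    rw [← hZ1, ← hZ2, ← hZ3, ← hZ4]
    simp only [Matrix.mul_add, Matrix.add_mul]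
    abel
  have hc1 : (1 + a * ν) ≠ 0 := m.fr.hc1
  have hc2 : (1 + a * ν') ≠ 0 := m.fr.hc2
  have h3 := (SLev1h455.QGd S).smul_mem ((1 + a * ν) * (1 + a * ν'))⁻¹ hdiff
  convert h3 using 1
  unfold Rel2
  rw [Finset.smul_sum, Finset.smul_sum, ← Finset.sum_add_distrib]
  refine Finset.sum_congr rfl fun s _ => ?_
  have eb : F * (U1 * (β' * X s) * U1ᵀ) = F * (U1 * (β * X s) * U1ᵀ) := by
    have h5 : ∀ b : Matrix (Fin m1) (Fin m2) K, F * (U1 * (b * X s) * U1ᵀ) =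
        F * (U1 * b) * (X s * U1ᵀ) := fun b => by simp only [Matrix.mul_assoc]
    rw [h5, h5, hb]
  have eg : U2 * (X s * γ'ᵀ) * U2ᵀ * (Fᵀ * J * (P.1 * F)) =
      U2 * (X s * γᵀ) * U2ᵀ * (Fᵀ * J * (P.1 * F)) := by
    have h5 : ∀ b : Matrix (Fin m2) (Fin m1) K, U2 * (X s * bᵀ) * U2ᵀ * (Fᵀ * J * (P.1 * F)) =
        U2 * X s * (F * (U2 * b))ᵀ * (J * (P.1 * F)) := fun b => by
      rw [transpose_mul, transpose_mul]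
      simp only [Matrix.mul_assoc]
    rw [h5, h5, hg]
  have k1 : F * (U1 * (β' * X s - (X' s)ᵀ * (U2ᵀ * (Fᵀ * J * (P.1 * F)) * U2) * X s -
      (X' s)ᵀ * β0ᵀ) * U1ᵀ) = F * (U1 * (β * X s -
      (X' s)ᵀ * (U2ᵀ * (Fᵀ * J * (P.1 * F)) * U2) * X s - (X' s)ᵀ * β0ᵀ) * U1ᵀ) := by
    rw [sub_sub, sub_sub, Matrix.mul_sub, Matrix.sub_mul, Matrix.mul_sub, eb]
    rw [Matrix.mul_sub U1, Matrix.sub_mul, Matrix.mul_sub F]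
  have k2 : F * (U2 * (X s * γ'ᵀ + X s * (U1ᵀ * (Fᵀ * J * (P.1 * F)) * U1) * (X' s)ᵀ -
      γ0 * (X' s)ᵀ) * U2ᵀ) * (Fᵀ * J * (P.1 * F)) =
      F * (U2 * (X s * γᵀ + X s * (U1ᵀ * (Fᵀ * J * (P.1 * F)) * U1) * (X' s)ᵀ -
      γ0 * (X' s)ᵀ) * U2ᵀ) * (Fᵀ * J * (P.1 * F)) := by
    rw [add_sub_assoc, add_sub_assoc, Matrix.mul_add U2, Matrix.mul_add U2, Matrix.add_mul,
      Matrix.add_mul, Matrix.mul_assoc F, Matrix.mul_assoc F, Matrix.add_mul, Matrix.add_mul, eg]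
  change F * (U1 * (β' * X s - (X' s)ᵀ * (U2ᵀ * (Fᵀ * J * (P.1 * F)) * U2) * X s -
      (X' s)ᵀ * β0ᵀ) * U1ᵀ) * (Fᵀ * J * (P.1 * F)) * E K arm s +
    ((1 + a * ν') / (1 + a * ν)) • (F * (U2 * (X s * γ'ᵀ +
      X s * (U1ᵀ * (Fᵀ * J * (P.1 * F)) * U1) * (X' s)ᵀ - γ0 * (X' s)ᵀ) * U2ᵀ) *
      (Fᵀ * J * (P.1 * F)) * E K arm s) = _
  rw [k1, k2, Matrix.mul_add, Matrix.add_mul, Matrix.add_mul, Matrix.mul_smul, Matrix.mul_smul,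
    Matrix.smul_mul, Matrix.smul_mul, Matrix.smul_mul, Matrix.smul_mul, smul_add, smul_smul,
    smul_smul, inv_mul_cancel₀ (mul_ne_zero hc1 hc2), one_smul]
  congr 2
  field_simp

theorem word_mv {m : ℕ} (a : Fin 3 → Matrix (Fin m) (Fin m) K) (w : List (Fin 3)) :
    ∀ x, (w.map fun s => (a s).mulVecLin).prod x = (w.map a).prod *ᵥ x := by
  induction w with
  | nil => intro x; simp
  | cons s w ih =>
    intro x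
    rw [List.map_cons, List.prod_cons, List.map_cons, List.prod_cons, Module.End.mul_apply, ih,
      mulVecLin_apply, mulVec_mulVec]

theorem sq_fin (c : K) : {r : K | r ^ 2 = c}.Finite := by
  by_cases h : ∃ r0 : K, r0 ^ 2 = c
  · obtain ⟨r0, h0⟩ := h
    refine (Set.toFinite ({r0, -r0} : Set K)).subset ?_
    intro r hr
    have h1 : r ^ 2 = r0 ^ 2 := hr.trans h0.symm
    rcases sq_eq_sq_iff_eq_or_eq_neg.1 h1 with h2 | h2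
    · exact Or.inl h2
    · exact Or.inr h2
  · refine Set.finite_empty.subset ?_
    intro r hr
    exact (h ⟨r, hr⟩).elim

end main

theorem geo22 : SDec.Geo22 := by
  intro ι _ _ δ _ _ K _ _ _ arm J B N W F f P R D l S ν ν' hne n1 n2 Q1 A1 Q2 A2 b1 b2 m1 m2
    U1 U2 a1 a2 hC1 hs1 hi1 ha1 hC2 hs2 hi2 ha2
  have hmem1 : ∀ x, U1 *ᵥ x ∈ Qb (S.hCtx F S.hF).data S.hR P.1 D ν := SNabI.mulVec_mem hC1
  have hmem2 : ∀ x, U2 *ᵥ x ∈ Qb (S.hCtx F S.hF).data S.hR P.1 D ν' := SNabI.mulVec_mem hC2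
  obtain ⟨dY, Bad, hBad, hmd⟩ := exists_md (a1 := a1) (a2 := a2) S hne hC1 hs1 ha1 hC2 hs2 ha2
  obtain ⟨C1, u1⟩ := SB4x.exists_FU S b1 hC1 hs1 hmem1 ha1
  obtain ⟨C2, u2⟩ := SB4x.exists_FU S b2 hC2 hs2 hmem2 ha2
  have perf1 := SU170.perf S hs1 hmem1 hi1 ha1
  have perf2 := SU170.perf S hs2 hmem2 hi2 ha2
  obtain ⟨l1, hl1⟩ := SU170.kills S b1 u1.gU u1.onto u1.act u1.gram
  obtain ⟨l2, hl2⟩ := SU170.kills S b2 u2.gU u2.onto u2.act u2.gram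
  have hk1 : ∀ s x, (F * U1) *ᵥ x = 0 → (F * U1) *ᵥ (a1 s *ᵥ x) = 0 := by
    intro s x hx
    rw [u1.gU, ← mulVec_mulVec] at hx
    rw [u1.gU, ← mulVec_mulVec, mulVec_mulVec x C1, ← u1.act, ← mulVec_mulVec, b1.inj _ hx,
      mulVec_zero, mulVec_zero]
  have hk2 : ∀ s x, (F * U2) *ᵥ x = 0 → (F * U2) *ᵥ (a2 s *ᵥ x) = 0 := by
    intro s x hx
    rw [u2.gU, ← mulVec_mulVec] at hx
    rw [u2.gU, ← mulVec_mulVec, mulVec_mulVec x C2, ← u2.act, ← mulVec_mulVec, b2.inj _ hx,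
      mulVec_zero, mulVec_zero]
  obtain ⟨Sf, hSf, hsep⟩ := SSep513.sep_valuesT (arm := arm) (J := J) (N := N) (W := W) (f := f)
    (dY := dY) (S0 := Fᵀ * J * (P.1 * F))
    (Qm := fun κ : Th K ν ν' => Qb (S.hCtx F S.hF).data S.hR P.1 D κ.1) (S1 := J * (P.1 * F))
    (by simp only [Matrix.mul_assoc]) perf1 perf2 hk1 hk2
    (l1 := l1) (l2 := l2)
    (fun w hw x hx => by rw [← word_mv]; exact hl1 x hx w hw)
    (fun w hw x hx => by rw [← word_mv]; exact hl2 x hx w hw)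
    (R := Lam ℂ Bad ν ν') (SMv16.Lam_infinite hBad hne) (SMv16.Lam_zero _ _ _) (by
      rintro ρ ⟨t, ht, hc1, hc2, rfl⟩ X hsum harm
      have hsum' : ∑ s, (X s * (a1 s)ᵀ - (-(((1 + algebraMap ℂ K t * ν') /
          (1 + algebraMap ℂ K t * ν)) ^ 2)) • (a2 s * X s)) = 0 := by
        rw [← hsum]
        exact Finset.sum_congr rfl fun s _ => by rw [neg_smul, sub_neg_eq_add]
      have harm' : ∀ s, (U2ᵀ * (Fᵀ * J * (P.1 * F)) * U2) * (X s * (a1 s)ᵀ -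
          (-(((1 + algebraMap ℂ K t * ν') / (1 + algebraMap ℂ K t * ν)) ^ 2)) • (a2 s * X s)) *
          (U1ᵀ * (Fᵀ * J * (P.1 * F)) * U1) = 0 := by
        intro s
        rw [neg_smul, sub_neg_eq_add]
        exact harm s
      obtain ⟨Pt, d, Γ1, Γ2, β, γ, m⟩ := hmd t ht hc1 hc2 X hsum' harm'
      exact ⟨β, γ, SSep513.pen_of_dec m.dec, first_of_md m⟩)
  refine ⟨Lam ℂ Bad ν ν' \ ⋃ c ∈ Sf, {r : K | r ^ 2 = c},
    (SMv16.Lam_infinite hBad hne).diff (hSf.biUnion fun c _ => sq_fin c),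
    fun h => SMv16.Lam_zero _ _ _ h.1, ?_, ?_⟩
  · rintro r ⟨⟨t, ht, hc1, hc2, rfl⟩, -⟩ X hsum harm
    obtain ⟨Pt, d, Γ1, Γ2, β, γ, m⟩ := hmd t ht hc1 hc2 X hsum harm
    refine ⟨β, γ, m.dec, ⟨fun x hx => ?_, fun x hx => ?_⟩⟩
    · exact SZB275.zb_of m.fr m.mv.dH (by rw [m.n2]) hx
    · exact SZB275.zk_of m.fr m.mv.dH (by rw [m.n1]) hx
  · rintro r ⟨hr1, hr2⟩ r' ⟨⟨t, ht, hc1, hc2, rfl⟩, -⟩ ⟨X, β0, γ0⟩ ⟨X', β', γ'⟩ hy hy'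
    have hr3 : r ^ 2 ∉ Sf := by
      intro h
      exact hr2 (Set.mem_biUnion h rfl)
    have hI := (hsep (r ^ 2) hr3 (X, β0, γ0) (SSep513.pen_of_dec hy)).1
    obtain ⟨Pt, d, Γ1, Γ2, β, γ, m⟩ := hmd t ht hc1 hc2 X' hy'.sum hy'.arm
    have hc0 : (-(((1 + algebraMap ℂ K t * ν') / (1 + algebraMap ℂ K t * ν)) ^ 2)) ≠ 0 :=
      neg_ne_zero.2 (pow_ne_zero 2 (div_ne_zero hc2 hc1))
    obtain ⟨⟨hb, -⟩, ⟨hg, -⟩⟩ := SUniq803.dec_uniq S hC1 hs1 hi1 ha1 hC2 hs2 hi2 ha2 hc0 hy'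
      m.dec rfl
    exact rel2_of_md hne b1 b2 u1 u2 hC1 hs1 ha1 hC2 hs2 ha2 m hy hy'
      (by simpa only [Matrix.mul_assoc] using hb) (by simpa only [Matrix.mul_assoc] using hg) hI

end Crest.Agent.R172.SGeo907
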