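import Crest.Agent.R172.SDec2
import Crest.Agent.R172.SDecP70
import Crest.Agent.R172.SUX7
import Crest.Agent.R172.SInst
import Crest.Agent.R172.SWd275
import Crest.Agent.R172.SPerp355

/-!
Row 172 (S0260), S-side: the core of `SDec.Geo2` / `Geo22` from the moves at `H_t` and the
off-diagonal memberships.
-/

set_option autoImplicit false
set_option linter.unusedSectionVars false
set_option linter.unusedVariables false
set_option linter.unusedFintypeInType false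
set_option linter.unusedDecidableInType false
set_option maxHeartbeats 1000000

namespace Crest.Agent.R172.SGeo946

open Matrix Module Crest.Agent.R172.FO Crest.Agent.R172.Qt Crest.Agent.R172.SpS
  Crest.Agent.R172.Om Crest.Agent.R172.SUX Crest.Agent.R172.SDec
open Crest.Agent.R172.SEnd2 (PC PhS)
open Crest.Agent.R172.PL (CoreM)
open Crest.Agent.R172.SInst (QQb)
open Crest.Agent.R172.STop (Setup)

variable {ι : Type} [Fintype ι] [DecidableEq ι] {δ : Type} [Fintype δ] [DecidableEq δ]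
variable {K : Type} [Field K] [Algebra ℂ K] [IsAlgClosed K]
variable {arm : δ → Fin 3} {J : Matrix ι ι K} {B : Matrix δ δ K} {N W : Submodule K (Matrix ι δ K)}
  {F f : Matrix ι δ K} {P : Matrix ι ι K × (Fin 3 → Matrix ι ι K)} {R : Matrix δ ι K}
  {D : End K (CoreM (PhS arm J B F R P.1))} {l : Fin 3 → ℕ}

/-- the situation at `H = F + a f` -/
structure Fam (arm : δ → Fin 3) (J : Matrix ι ι K) (B : Matrix δ δ K)
    (N W : Submodule K (Matrix ι δ K)) (F f : Matrix ι δ K)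
    (P : Matrix ι ι K × (Fin 3 → Matrix ι ι K)) (dY : Derivation ℂ K K) (a : K)
    (Pt : Matrix ι ι K × (Fin 3 → Matrix ι ι K)) : Prop where
  hH : F + a • f ∈ Kiso J N W
  ctx : Ctx ℂ arm J B N W (F + a • f)
  hPt : Pt ∈ NN arm J N (F + a • f)
  vert : Vert ℂ arm J N W (F + a • f) Pt
  gi : ∃ Ri : Matrix δ ι K, (F + a • f) * Ri * (F + a • f) = F + a • f
  hY : ∀ f' ∈ N ⊓ W, (F + a • f)ᵀ * J * (Pt.1 * f') = (F + a • f)ᵀ * J * f'.map dY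
  hPF : (F + a • f)ᵀ * J * (Pt.1 * F) = (F + a • f)ᵀ * J * (P.1 * F)
  row : ∀ w : Matrix ι δ K, (F + a • f)ᵀ * J * w = 0 →
    (Pt.1 * (F + a • f))ᵀ * J * w = -((F + a • f)ᵀ * J * w.map dY)

omit [IsAlgClosed K] in
theorem Fam.row' {dY : Derivation ℂ K K} {a : K} {Pt : Matrix ι ι K × (Fin 3 → Matrix ι ι K)}
    (hf : Fam arm J B N W F f P dY a Pt) {w : Matrix ι δ K} (hw : (F + a • f)ᵀ * J * w = 0) :
    (F + a • f)ᵀ * J * (Pt.1 * w) = (F + a • f)ᵀ * J * w.map dY := by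
  have h1 := hf.row w hw
  have h2 : Pt.1ᵀ * J = -(J * Pt.1) := eq_neg_of_add_eq_zero_left hf.hPt.1
  have h3 : (Pt.1 * (F + a • f))ᵀ * J * w = -((F + a • f)ᵀ * J * (Pt.1 * w)) := by
    rw [transpose_mul, Matrix.mul_assoc (F + a • f)ᵀ, h2]
    simp only [Matrix.mul_neg, Matrix.neg_mul, Matrix.mul_assoc]
  rw [h3] at h1
  exact neg_injective h1

theorem cq_mem {K : Type} [Field K] {δ : Type} {Q : Submodule K (δ → K)} {m : ℕ}
    {U : Matrix δ (Fin m) K} (hU : UFr.Cq Q U) (x : Fin m → K) : U *ᵥ x ∈ Q := by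
  have e : U *ᵥ x = ∑ j, x j • (fun d => U d j) := by
    funext d
    rw [Finset.sum_apply]
    simp only [mulVec, dotProduct, Pi.smul_apply, smul_eq_mul]
    exact Finset.sum_congr rfl fun j _ => mul_comm _ _
  rw [e]
  exact Q.sum_mem fun j _ => Q.smul_mem _ (hU j)

/-- the class of the corrections of the first level: scalar on the third blocks -/
def W3 (S : Setup arm J B N W F f P R D l) (ν ν' : K) : Submodule K (Matrix ι δ K) where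
  carrier := {w | w ∈ W ∧ ∀ κ, κ ≠ ν → κ ≠ ν' → ∃ μ : K, ∀ u ∈ QQb S κ, w *ᵥ u = μ • (F *ᵥ u)}
  zero_mem' := ⟨W.zero_mem, fun κ _ _ => ⟨0, fun u _ => by rw [zero_mulVec, zero_smul]⟩⟩
  add_mem' := by
    rintro w w' ⟨h1, h2⟩ ⟨h1', h2'⟩
    refine ⟨W.add_mem h1 h1', fun κ hk hk' => ?_⟩
    obtain ⟨m, hm⟩ := h2 κ hk hk'
    obtain ⟨m', hm'⟩ := h2' κ hk hk'
    exact ⟨m + m', fun u hu => by rw [add_mulVec, hm u hu, hm' u hu, add_smul]⟩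
  smul_mem' := by
    rintro c w ⟨h1, h2⟩
    refine ⟨W.smul_mem c h1, fun κ hk hk' => ?_⟩
    obtain ⟨m, hm⟩ := h2 κ hk hk'
    exact ⟨c * m, fun u hu => by rw [smul_mulVec, hm u hu, smul_smul]⟩

/-- **the move at `t`** for the family `X` -/
structure Move (S : Setup arm J B N W F f P R D l) (ν ν' a : K)
    (Pt : Matrix ι ι K × (Fin 3 → Matrix ι ι K)) {m1 m2 : ℕ} (U1 : Matrix δ (Fin m1) K)
    (U2 : Matrix δ (Fin m2) K) (a1 : Fin 3 → Matrix (Fin m1) (Fin m1) K)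
    (a2 : Fin 3 → Matrix (Fin m2) (Fin m2) K) (X : Fin 3 → Matrix (Fin m2) (Fin m1) K)
    (d : Derivation ℂ K K) (Γ1 : Matrix (Fin m1) (Fin m1) K) (Γ2 : Matrix (Fin m2) (Fin m2) K)
    (β : Matrix (Fin m1) (Fin m2) K) (γ : Matrix (Fin m2) (Fin m1) K) : Prop where
  m : Mv ℂ arm J N W (F + a • f) Pt.1 (fun r => U2 * X r * U1ᵀ + U1 * (X r)ᵀ * U2ᵀ) d
  n2 : U2.map d + ZY arm J (F + a • f) Pt.1 (fun r => U2 * X r * U1ᵀ + U1 * (X r)ᵀ * U2ᵀ) * U2 =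
    U2 * Γ2 + (1 + a * ν') ^ 2 • (U1 * β)
  n1 : U1.map d + ZY arm J (F + a • f) Pt.1 (fun r => U2 * X r * U1ᵀ + U1 * (X r)ᵀ * U2ᵀ) * U1 =
    U1 * Γ1 + (1 + a * ν) ^ 2 • (U2 * γ)
  dec : Dec F (Fᵀ * J * (P.1 * F)) U1 U2 a1 a2 (-(((1 + a * ν') / (1 + a * ν)) ^ 2)) (X, β, γ)
  n3 : ∀ κ, κ ≠ ν → κ ≠ ν' → ∀ u ∈ QQb S κ,
    SUB.nab arm J (F + a • f) Pt.1 (fun r => U2 * X r * U1ᵀ + U1 * (X r)ᵀ * U2ᵀ) d u ∈ QQb S κ

section core

variable {S : Setup arm J B N W F f P R D l} {ν ν' : K} {m1 m2 : ℕ} {U1 : Matrix δ (Fin m1) K}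
    {U2 : Matrix δ (Fin m2) K} {a1 : Fin 3 → Matrix (Fin m1) (Fin m1) K}
    {a2 : Fin 3 → Matrix (Fin m2) (Fin m2) K} {dY : Derivation ℂ K K}
    {Pt : Matrix ι ι K × (Fin 3 → Matrix ι ι K)} {X : Fin 3 → Matrix (Fin m2) (Fin m1) K}
    {d : Derivation ℂ K K} {Γ1 : Matrix (Fin m1) (Fin m1) K} {Γ2 : Matrix (Fin m2) (Fin m2) K}
    {β : Matrix (Fin m1) (Fin m2) K} {γ : Matrix (Fin m2) (Fin m1) K}

/-- **first level, at one `t`**: `I1 + (c2 / c1) I2 ∈ QQ5` with the third blocks -/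
theorem first (hne : ν ≠ ν') (h2 : (2 : K) ≠ 0) (hC1 : UFr.Cq (QQb S ν) U1)
    (hC2 : UFr.Cq (QQb S ν') U2) {t : ℂ}
    (hfam : Fam arm J B N W F f P dY (algebraMap ℂ K t) Pt)
    (hc1 : 1 + algebraMap ℂ K t * ν ≠ 0) (hc2 : 1 + algebraMap ℂ K t * ν' ≠ 0)
    (hκ : ∀ κ, QQb S κ ≠ ⊥ → 1 + algebraMap ℂ K t * κ ≠ 0)
    (mv : Move S ν ν' (algebraMap ℂ K t) Pt U1 U2 a1 a2 X d Γ1 Γ2 β γ) :
    I1 arm F (Fᵀ * J * (P.1 * F)) U1 U2 (X, β, γ) +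
      ((1 + algebraMap ℂ K t * ν') / (1 + algebraMap ℂ K t * ν)) •
        I2 arm F (Fᵀ * J * (P.1 * F)) U1 U2 (X, β, γ) ∈
      QQ5 J N (W3 S ν ν') F f dY (Fᵀ * J * (P.1 * F)) U1 U2 := by
  obtain ⟨a, ha⟩ : ∃ a : K, a = algebraMap ℂ K t := ⟨_, rfl⟩
  rw [← ha] at hfam hc1 hc2 hκ mv ⊢
  obtain ⟨fr, k1⟩ := SInst.fr_k1 S hfam.hY hfam.hPF hne hc1 hc2 hC1 hC2
  obtain ⟨q, hq⟩ : ∃ q : Matrix ι δ K, q = (ν - ν')⁻¹ • (f - ν' • F) := ⟨_, rfl⟩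
  rw [← hq] at k1
  have hFm : F ∈ N ⊓ W := S.hF.1
  have hfm : f ∈ N ⊓ W := S.hf.1
  have hqm : q ∈ N ⊓ W := by
    rw [hq]
    exact Submodule.smul_mem _ _ (Submodule.sub_mem _ hfm (Submodule.smul_mem _ _ hFm))
  have hqp : (F + a • f)ᵀ * J * q = 0 := hfam.ctx.perp q hqm
  have hpa := SPerp355.perp_all h2 S.hCtx S.hF S.hf (t := t) (ha ▸ hfam.hPt)
    (ha ▸ mv.m) (-((ν - ν')⁻¹ * ν')) (ν - ν')⁻¹
  rw [← ha] at hpa
  have hq' : (-((ν - ν')⁻¹ * ν')) • F + (ν - ν')⁻¹ • f = q := by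
    rw [hq, smul_sub, smul_smul, neg_smul]; abel
  rw [hq'] at hpa
  obtain ⟨p1, p2, p3⟩ := hpa
  refine first_mem' hfam.ctx hfam.hPt mv.m hqm hqp fr k1 (fun s v _ => rfl)
    (fun v _ => by rw [mv.n2]) (fun v _ => by rw [mv.n1]) p1 p2 (hfam.row' (p3 a))
    ⟨mv.m.w_mem hqm.2, fun κ hk hk' => ?_⟩
  by_cases hb : QQb S κ = ⊥
  · refine ⟨0, fun u hu => ?_⟩
    rw [hb, Submodule.mem_bot] at hu
    rw [hu, mulVec_zero, mulVec_zero, smul_zero]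
  have hc := hκ κ hb
  have hHu : ∀ u ∈ QQb S κ, (F + a • f) *ᵥ u = (1 + a * κ) • (F *ᵥ u) := by
    intro u hu
    rw [add_mulVec, smul_mulVec, SInst.rel S hu, smul_smul, add_smul, one_smul]
  have hqu : ∀ u ∈ QQb S κ, q *ᵥ u = ((ν - ν')⁻¹ * (κ - ν')) • (F *ᵥ u) := by
    intro u hu
    rw [hq, smul_mulVec, sub_mulVec, smul_mulVec, SInst.rel S hu, ← sub_smul, smul_smul]
  set lam : K := ((ν - ν')⁻¹ * (κ - ν')) / (1 + a * κ) with hlam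
  have hql : ∀ u ∈ QQb S κ, q *ᵥ u = lam • ((F + a • f) *ᵥ u) := by
    intro u hu
    rw [hqu u hu, hHu u hu, smul_smul, hlam, div_mul_cancel₀ _ hc]
  refine ⟨d lam * (1 + a * κ), fun u hu => ?_⟩
  rw [SUB.wd_block mv.m (hql u hu), sub_mulVec, smul_mulVec, hql _ (mv.n3 κ hk hk' u hu), sub_self,
    sub_zero, hHu u hu, smul_smul]

/-- **second level, at one `t`** -/
theorem second (hne : ν ≠ ν') (h2 : (2 : K) ≠ 0) (hC1 : UFr.Cq (QQb S ν) U1)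
    (hs1 : ∀ u ∈ QQb S ν, ∃ x, u = U1 *ᵥ x)
    (hC2 : UFr.Cq (QQb S ν') U2) (hs2 : ∀ u ∈ QQb S ν', ∃ x, u = U2 *ᵥ x) {a : K}
    (hfam : Fam arm J B N W F f P dY a Pt)
    (hc1 : 1 + a * ν ≠ 0) (hc2 : 1 + a * ν' ≠ 0)
    (hκ : ∀ κ, QQb S κ ≠ ⊥ → 1 + a * κ ≠ 0)
    (mv : Move S ν ν' a Pt U1 U2 a1 a2 X d Γ1 Γ2 β γ)
    {y : D3 K (Fin m1) (Fin m2)} (hrk : (U2ᵀ * (Fᵀ * J * (P.1 * F)) * U2) * y.2.2 = 0)
    (hy : I1 arm F (Fᵀ * J * (P.1 * F)) U1 U2 y ∈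
      QQ5 J N (W3 S ν ν') F f dY (Fᵀ * J * (P.1 * F)) U1 U2)
    {β' : Matrix (Fin m1) (Fin m2) K} {γ' : Matrix (Fin m2) (Fin m1) K}
    (e1 : F * (U1 * (β' - β)) = 0) (e4 : (Fᵀ * J * (P.1 * F)) * (U2 * (γ' - γ)) = 0)
    (h21 : ∀ c : K, ∑ s, F * (U2 * (Γ2 * y.1 s + (y.1 s).map d +
        y.1 s * (Γ1 - (2 * (d (1 + a * ν) / (1 + a * ν))) • (1 : Matrix (Fin m1) (Fin m1) K))ᵀ
          - (d (1 + a * ν') / (1 + a * ν')) • y.1 s +
          c • X s) * U1ᵀ) * (Fᵀ * J * (P.1 * F)) * E K arm s ∈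
        SLev0.QG arm J B N W F P (PC arm J B F R P.1)
          (fun μ : K => (SLev0.PbK arm J B F R P.1 D μ)) id)
    (h12 : ∑ s, F * (U1 * (X s)ᵀ * U2ᵀ) * (Fᵀ * J * (P.1 * F)) * E K arm s ∈
        SLev0.QG arm J B N W F P (PC arm J B F R P.1)
          (fun μ : K => (SLev0.PbK arm J B F R P.1 D μ)) id) :
    Rel2 arm F (Fᵀ * J * (P.1 * F)) U1 U2 ((1 + a * ν') / (1 + a * ν)) y (X, β', γ') ∈
        SLev0.QG arm J B N W F P (PC arm J B F R P.1)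
          (fun μ : K => (SLev0.PbK arm J B F R P.1 D μ)) id := by
  classical
  obtain ⟨fr, k1⟩ := SInst.fr_k1 S hfam.hY hfam.hPF hne hc1 hc2 hC1 hC2
  obtain ⟨X0, β0, γ0⟩ := y
  obtain ⟨w, μ1, μ2, ν1, ν2, cw⟩ := exists_WCls hy
  have hmem1 : ∀ x, U1 *ᵥ x ∈ QQb S ν := cq_mem hC1
  have hmem2 : ∀ x, U2 *ᵥ x ∈ QQb S ν' := cq_mem hC2
  have hHc : ∀ w : Matrix ι δ K, Fᵀ * J * w = 0 → fᵀ * J * w = 0 → (F + a • f)ᵀ * J * w = 0 := by
    intro w h1 h2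
    rw [transpose_add, transpose_smul, Matrix.add_mul, Matrix.add_mul, h1, Matrix.smul_mul,
      Matrix.smul_mul, h2, smul_zero, add_zero]
  have hFm : F ∈ N ⊓ W := S.hF.1
  have hwW : w ∈ W := cw.mem.1
  have h3 := cw.mem.2
  choose! μ3 hμ3 using h3
  have hwp := hHc w cw.pF cw.pf
  have hwd : wd arm J (F + a • f) Pt.1 (fun r => U2 * X r * U1ᵀ + U1 * (X r)ᵀ * U2ᵀ) d w ∈
      SLev0.QG arm J B N W F P (PC arm J B F R P.1)
          (fun μ : K => (SLev0.PbK arm J B F R P.1 D μ)) id := by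
    refine SWd275.wd_QG (μ := fun κ => if κ = ν then μ1 else if κ = ν' then μ2 else μ3 κ)
      (S.hCtx F S.hF) S.hR S.hD (S.hNil F S.hF) S.hP
      S.hf.1 hfam.ctx hfam.hPt mv.m fr hs1 hmem1 hs2 hmem2 (fun v _ => by rw [mv.n2])
      (fun v _ => by rw [mv.n1]) mv.dec.rb mv.dec.rk hrk hκ
      (fun κ hk hk' u hu => ⟨_, mv.n3 κ hk hk' u hu, fun v _ => rfl⟩) hwW hwp ?_ ?_ ?_
      (fun i => le_rfl) (by rw [sub_self]; exact N.zero_mem)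
    · beta_reduce
      rw [if_pos rfl]
      exact cw.L1
    · beta_reduce
      rw [if_neg hne.symm, if_pos rfl]
      exact cw.L2
    · intro κ hk hk' u hu
      beta_reduce
      rw [if_neg hk, if_neg hk']
      exact hμ3 κ hk hk' u hu
  have key := second_mem hfam.ctx hfam.hPt mv.m fr (fun s v _ => rfl) (fun v _ => by rw [mv.n2])
    (fun v _ => by rw [mv.n1]) hFm (hfam.ctx.perp F hFm) (fun w (hw : w ∈ W3 S ν ν') => hw.1) hHc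
    (fun w _ hw => hfam.row' hw) cw SLev0.N_le_QG hwd (h21 _) h12
  have k2 : γ'ᵀ * U2ᵀ * (Fᵀ * J * (P.1 * F)) = γᵀ * U2ᵀ * (Fᵀ * J * (P.1 * F)) := by
    have e := congrArg Matrix.transpose e4
    rw [transpose_mul, transpose_mul, fr.skew, transpose_zero, Matrix.mul_neg, neg_eq_zero,
      transpose_sub, Matrix.sub_mul, Matrix.sub_mul, sub_eq_zero] at e
    exact e
  have k3 : F * (U1 * β') = F * (U1 * β) := by
    rw [Matrix.mul_sub, Matrix.mul_sub, sub_eq_zero] at e1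
    exact e1
  have fin : Rel2 arm F (Fᵀ * J * (P.1 * F)) U1 U2 ((1 + a * ν') / (1 + a * ν)) (X0, β0, γ0)
      (X, β', γ') =
      ∑ s, F * A11 (Fᵀ * J * (P.1 * F)) U1 U2 X0 β0 X β s * (Fᵀ * J * (P.1 * F)) * E K arm s +
      ((1 + a * ν') / (1 + a * ν)) •
        ∑ s, F * A22 (Fᵀ * J * (P.1 * F)) U1 U2 X0 γ0 X γ s * (Fᵀ * J * (P.1 * F)) *
          E K arm s := by
    obtain ⟨T0, hT0⟩ : ∃ T0 : Matrix δ δ K, T0 = Fᵀ * J * (P.1 * F) := ⟨_, rfl⟩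
    rw [← hT0] at k2 ⊢
    unfold Rel2 A11 A22
    refine congrArg₂ (· + ·) (Finset.sum_congr rfl fun s _ => ?_)
      (congrArg _ (Finset.sum_congr rfl fun s _ => ?_))
    · have q1 : F * (U1 * (β' * X0 s)) = F * (U1 * (β * X0 s)) := by
        have : ∀ b : Matrix (Fin m1) (Fin m2) K, F * (U1 * (b * X0 s)) = F * (U1 * b) * X0 s := by
          intro b; simp only [Matrix.mul_assoc]
        rw [this, this, k3]
      dsimp only
      have q0 : ∀ b : Matrix (Fin m1) (Fin m2) K,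
          F * (U1 * (b * X0 s - (X s)ᵀ * (U2ᵀ * T0 * U2) * X0 s - (X s)ᵀ * β0ᵀ) * U1ᵀ) =
          (F * (U1 * (b * X0 s)) - F * (U1 * ((X s)ᵀ * (U2ᵀ * T0 * U2) * X0 s)) -
            F * (U1 * ((X s)ᵀ * β0ᵀ))) * U1ᵀ := by
        intro b
        rw [← Matrix.mul_assoc F, Matrix.mul_sub, Matrix.mul_sub, Matrix.mul_sub,
          Matrix.mul_sub]
      have q2 : F * (U1 * (β' * X0 s - (X s)ᵀ * (U2ᵀ * T0 * U2) * X0 s - (X s)ᵀ * β0ᵀ) * U1ᵀ) =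
          F * (U1 * (β * X0 s - (X s)ᵀ * (U2ᵀ * T0 * U2) * X0 s - (X s)ᵀ * β0ᵀ) * U1ᵀ) := by
        rw [q0, q0, q1]
      rw [q2]
    · dsimp only
      have q1 : U2 * (X0 s * γ'ᵀ) * U2ᵀ * T0 = U2 * (X0 s * γᵀ) * U2ᵀ * T0 := by
        have : ∀ g : Matrix (Fin m2) (Fin m1) K, U2 * (X0 s * gᵀ) * U2ᵀ * T0 =
            U2 * X0 s * (gᵀ * U2ᵀ * T0) := by
          intro g; simp only [Matrix.mul_assoc]
        rw [this, this, k2]
      have q2 : ∀ g : Matrix (Fin m2) (Fin m1) K,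
          F * (U2 * (X0 s * gᵀ + X0 s * (U1ᵀ * T0 * U1) * (X s)ᵀ - γ0 * (X s)ᵀ) * U2ᵀ) * T0 =
          F * (U2 * (X0 s * gᵀ) * U2ᵀ * T0) +
            F * (U2 * (X0 s * (U1ᵀ * T0 * U1) * (X s)ᵀ - γ0 * (X s)ᵀ) * U2ᵀ) * T0 := by
        intro g
        rw [add_sub_assoc, Matrix.mul_add U2, Matrix.add_mul, Matrix.mul_add F, Matrix.add_mul,
          Matrix.mul_assoc F]
      rw [q2, q2, q1]
  rw [fin]
  exact key

end core

end Crest.Agent.R172.SGeo946
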