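import Crest.Agent.R172.SUXF

/-!
Row 172 (S0260), S-side (t2): the second derivative in block form (note 16790 of helper937),
second copy (helper731).
-/

set_option autoImplicit false
set_option linter.unusedSectionVars false
set_option linter.unusedFintypeInType false
set_option linter.unusedDecidableInType false

namespace Crest.Agent.R172.SUXb

open Matrix Module Crest.Agent.R172.FO Crest.Agent.R172.Qt Crest.Agent.R172.SpS
  Crest.Agent.R172.Om Crest.Agent.R172.SUX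

variable {ι : Type*} [Fintype ι] [DecidableEq ι] {δ : Type*} [Fintype δ] [DecidableEq δ]
variable {k K : Type*} [Field k] [Field K] [Algebra k K]
variable {arm : δ → Fin 3} {J : Matrix ι ι K} {B : Matrix δ δ K}
  {N W : Submodule K (Matrix ι δ K)} {F H w : Matrix ι δ K}
  {P : Matrix ι ι K × (Fin 3 → Matrix ι ι K)} {Y : Fin 3 → Matrix δ δ K}
  {d : Derivation k K K}
variable {n1 n2 : Type*} [Fintype n1] [DecidableEq n1] [Fintype n2]

theorem map_smul_d {α β : Type*} (d : Derivation k K K) (a : K) (A : Matrix α β K) :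
    (a • A).map d = d a • A + a • A.map d := by
  ext i j
  simp only [Matrix.smul_apply, Matrix.map_apply, Matrix.add_apply, smul_eq_mul,
    Derivation.leibniz]
  ring

/-- `v = Hᵀ * C`-type factorisation: `th J H P G = (Hᵀ * J * P) * G` -/
theorem th_eq (J : Matrix ι ι K) (H : Matrix ι δ K) (P : Matrix ι ι K) (G : Matrix ι δ K) :
    th J H P G = (Hᵀ * J * P) * G := by
  unfold th
  simp only [Matrix.mul_assoc]

section vals

variable {S0 : Matrix δ δ K} {c1 c2 : K} {U1 : Matrix δ n1 K} {U2 : Matrix δ n2 K}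

theorem orth' (fr : Fr J F H P.1 S0 c1 c2 U1 U2) : U2ᵀ * S0 * U1 = 0 := by
  have h := congrArg transpose fr.orth
  rw [transpose_mul, transpose_mul, transpose_transpose, fr.skew, transpose_zero,
    Matrix.neg_mul, Matrix.mul_neg, neg_eq_zero, ← Matrix.mul_assoc] at h
  exact h

/-- `U1ᵀ S' = c1² U1ᵀ S0` -/
theorem U1S (h : Ctx k arm J B N W H) (hP : P ∈ NN arm J N H)
    (fr : Fr J F H P.1 S0 c1 c2 U1 U2) :
    U1ᵀ * th J H P.1 H = c1 ^ 2 • (U1ᵀ * S0) := by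
  have h1 := congrArg transpose fr.S1
  rw [transpose_mul, th_skew h hP ⟨h.memN, h.memW⟩, transpose_smul, transpose_mul, fr.skew,
    Matrix.mul_neg, Matrix.mul_neg, smul_neg, neg_inj] at h1
  exact h1

theorem U2S (h : Ctx k arm J B N W H) (hP : P ∈ NN arm J N H)
    (fr : Fr J F H P.1 S0 c1 c2 U1 U2) :
    U2ᵀ * th J H P.1 H = c2 ^ 2 • (U2ᵀ * S0) := by
  have h1 := congrArg transpose fr.S2
  rw [transpose_mul, th_skew h hP ⟨h.memN, h.memW⟩, transpose_smul, transpose_mul, fr.skew,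
    Matrix.mul_neg, Matrix.mul_neg, smul_neg, neg_inj] at h1
  exact h1

/-- value of `wd F` on a block -/
theorem wdF_U (m : Mv k arm J N W H P.1 Y d) {c c' : K} (hc : c ≠ 0) {n n' : Type*} [Fintype n]
    [Fintype n'] {U : Matrix δ n K} {U' : Matrix δ n' K} {Γ : Matrix n n K} {β : Matrix n' n K}
    (hH : H * U = c • (F * U)) (hH' : H * U' = c' • (F * U')) (hFW : F ∈ W) (hHW : H ∈ W)
    (hN : ∀ v ∈ W, v * (U.map d + ZY arm J H P.1 Y * U) = v * (U * Γ + c ^ 2 • (U' * β))) :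
    wd arm J H P.1 Y d F * U = -(d c / c) • (F * U) + (c' * c - c ^ 2) • (F * U' * β) := by
  have e1 : (H * U).map d = c • (F * U * Γ) + (c ^ 2 * c') • (F * U' * β) := by
    rw [map_mul_der, m.dH]
    have : H * ZY arm J H P.1 Y * U + H * U.map d = H * (U.map d + ZY arm J H P.1 Y * U) := by
      rw [Matrix.mul_add, add_comm]; simp only [Matrix.mul_assoc]
    rw [this, hN H hHW, Matrix.mul_add, ← Matrix.mul_assoc, hH, Matrix.mul_smul,
      ← Matrix.mul_assoc, hH', Matrix.smul_mul, Matrix.smul_mul, smul_smul]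
  have e2 : (H * U).map d = d c • (F * U) + c • (F * U * Γ + c ^ 2 • (F * U' * β) +
      wd arm J H P.1 Y d F * U) := by
    rw [hH, map_smul_d]
    congr 2
    rw [map_mul_der]
    have : F.map d = F * ZY arm J H P.1 Y + wd arm J H P.1 Y d F := by unfold wd; abel
    rw [this, Matrix.add_mul]
    have e3 : F * ZY arm J H P.1 Y * U + wd arm J H P.1 Y d F * U + F * U.map d =
        F * (U.map d + ZY arm J H P.1 Y * U) + wd arm J H P.1 Y d F * U := by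
      rw [Matrix.mul_add, Matrix.mul_assoc]; abel
    rw [e3, hN F hFW, Matrix.mul_add, Matrix.mul_smul, ← Matrix.mul_assoc, ← Matrix.mul_assoc]
  have e3 : c • (wd arm J H P.1 Y d F * U) =
      -(d c) • (F * U) + (c ^ 2 * c' - c ^ 3) • (F * U' * β) := by
    have e4 := e1.symm.trans e2
    rw [smul_add, smul_add, smul_smul] at e4
    have e5 : c • (wd arm J H P.1 Y d F * U) = (c • (F * U * Γ) + (c ^ 2 * c') • (F * U' * β)) -
        (d c • (F * U)) - c • (F * U * Γ) - (c * c ^ 2) • (F * U' * β) := by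
      rw [e4]; abel
    rw [e5, sub_smul, neg_smul]
    have : c * c ^ 2 = c ^ 3 := by ring
    rw [this]
    abel
  have e4 : wd arm J H P.1 Y d F * U = c⁻¹ • (c • (wd arm J H P.1 Y d F * U)) := by
    rw [smul_smul, inv_mul_cancel₀ hc, one_smul]
  rw [e4, e3, smul_add, smul_smul, smul_smul]
  congr 2
  · field_simp
  · field_simp

/-- `d(U1ᵀ S0)` times `E_s` -/
theorem dU1S (h : Ctx k arm J B N W H) (hP : P ∈ NN arm J N H) (m : Mv k arm J N W H P.1 Y d)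
    (fr : Fr J F H P.1 S0 c1 c2 U1 U2) {X' : Fin 3 → Matrix n2 n1 K} {Γ1 : Matrix n1 n1 K}
    {γ : Matrix n2 n1 K}
    (hY : ∀ s, ∀ v ∈ W, v * Y s * Hᵀ = v * (U2 * X' s * U1ᵀ + U1 * (X' s)ᵀ * U2ᵀ) * Hᵀ)
    (hN1 : ∀ v ∈ W, v * (U1.map d + ZY arm J H P.1 Y * U1) = v * (U1 * Γ1 + c1 ^ 2 • (U2 * γ)))
    (s : Fin 3) :
    (U1ᵀ * S0).map d * E K arm s = ((Γ1 - (2 * (d c1 / c1)) • (1 : Matrix n1 n1 K))ᵀ * U1ᵀ * S0 +
      c2 ^ 2 • (γᵀ * U2ᵀ * S0) +
      c2 ^ 2 • (U1ᵀ * S0 * U1 * (X' s)ᵀ * U2ᵀ * S0)) * E K arm s := by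
  have hc1 := fr.hc1
  have hHW : H ∈ W := h.memW
  have hsk := th_skew h hP ⟨h.memN, h.memW⟩
  -- `S' (dU1 + Z U1)`
  have a1 : th J H P.1 H * (U1.map d + ZY arm J H P.1 Y * U1) =
      c1 ^ 2 • (S0 * U1 * Γ1) + (c1 ^ 2 * c2 ^ 2) • (S0 * U2 * γ) := by
    have this : (Hᵀ * J * P.1) * (H * (U1.map d + ZY arm J H P.1 Y * U1)) =
        (Hᵀ * J * P.1) * (H * (U1 * Γ1 + c1 ^ 2 • (U2 * γ))) := by rw [hN1 H hHW]
    rw [← Matrix.mul_assoc, ← th_eq, ← Matrix.mul_assoc (Hᵀ * J * P.1), ← th_eq] at this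
    rw [this, Matrix.mul_add, ← Matrix.mul_assoc, fr.S1, Matrix.mul_smul, ← Matrix.mul_assoc,
      fr.S2, Matrix.smul_mul, Matrix.smul_mul, smul_smul]
  have a2 : (U1.map d + ZY arm J H P.1 Y * U1)ᵀ * th J H P.1 H =
      c1 ^ 2 • (Γ1ᵀ * U1ᵀ * S0) + (c1 ^ 2 * c2 ^ 2) • (γᵀ * U2ᵀ * S0) := by
    have e : (U1.map d + ZY arm J H P.1 Y * U1)ᵀ * th J H P.1 H =
        -(th J H P.1 H * (U1.map d + ZY arm J H P.1 Y * U1))ᵀ := by
      rw [transpose_mul (th J H P.1 H), hsk, Matrix.mul_neg, neg_neg]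
    rw [e, a1, transpose_add, transpose_smul, transpose_smul, transpose_mul (S0 * U1),
      transpose_mul S0 U1, transpose_mul (S0 * U2), transpose_mul S0 U2, fr.skew]
    simp only [Matrix.mul_neg, smul_neg, neg_add, neg_neg, Matrix.mul_assoc]
  -- `U1ᵀ S' Z E_s`
  have a3 : U1ᵀ * th J H P.1 H * ZY arm J H P.1 Y * E K arm s =
      (c1 ^ 2 * c2 ^ 2) • (U1ᵀ * S0 * U1 * (X' s)ᵀ * U2ᵀ * S0) * E K arm s := by
    have b1 : ZY arm J H P.1 Y * E K arm s = Y s * th J H P.1 H * E K arm s := by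
      unfold ZY
      rw [Matrix.sum_mul, Finset.sum_eq_single s]
      · rw [Matrix.mul_assoc, E_mul_self]
      · intro t _ ht
        rw [Matrix.mul_assoc, E_mul_ne arm ht, Matrix.mul_zero]
      · intro hh
        exact absurd (Finset.mem_univ s) hh
    have b2 : th J H P.1 H * Y s * th J H P.1 H =
        th J H P.1 H * (U2 * X' s * U1ᵀ + U1 * (X' s)ᵀ * U2ᵀ) * th J H P.1 H := by
      have e1 : ∀ A : Matrix δ δ K, th J H P.1 H * A * th J H P.1 H =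
          (Hᵀ * J * P.1) * (H * A * Hᵀ) * (J * (P.1 * H)) := by
        intro A
        conv_lhs => rw [th_eq]
        simp only [Matrix.mul_assoc]
      rw [e1, e1, hY s H hHW]
    rw [Matrix.mul_assoc (U1ᵀ * th J H P.1 H), b1, ← Matrix.mul_assoc, ← Matrix.mul_assoc]
    have b3 : U1ᵀ * th J H P.1 H * Y s * th J H P.1 H =
        U1ᵀ * (th J H P.1 H * Y s * th J H P.1 H) := by simp only [Matrix.mul_assoc]
    rw [b3, b2]
    have b4 : U1ᵀ * (th J H P.1 H * (U2 * X' s * U1ᵀ + U1 * (X' s)ᵀ * U2ᵀ) * th J H P.1 H) =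
        U1ᵀ * th J H P.1 H * U2 * X' s * (U1ᵀ * th J H P.1 H) +
        U1ᵀ * th J H P.1 H * U1 * (X' s)ᵀ * (U2ᵀ * th J H P.1 H) := by
      simp only [Matrix.mul_add, Matrix.add_mul, Matrix.mul_assoc]
    rw [b4, U1S h hP fr, U2S h hP fr, Matrix.smul_mul, fr.orth, smul_zero, Matrix.zero_mul,
      Matrix.zero_mul, zero_add]
    simp only [Matrix.smul_mul, Matrix.mul_smul, smul_smul, Matrix.mul_assoc]
    congr 1
    ring
  have a4 : U1ᵀ * S0 = (c1 ^ 2)⁻¹ • (U1ᵀ * th J H P.1 H) := by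
    rw [U1S h hP fr, smul_smul, inv_mul_cancel₀ (pow_ne_zero 2 hc1), one_smul]
  have hdS : (th J H P.1 H).map d = (ZY arm J H P.1 Y)ᵀ * th J H P.1 H +
      th J H P.1 H * ZY arm J H P.1 Y := by
    have e1 : Hᵀ * J * (P.1.map d * H) = 0 := m.dP H ⟨h.memN, h.memW⟩
    unfold th at *
    rw [map_mul_der, map_mul_der, map_mul_der, h.data.J_const, Matrix.mul_zero, add_zero,
      map_transpose_der, m.dH, Matrix.mul_add, e1, zero_add, transpose_mul]
    simp only [Matrix.mul_assoc]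
  have a5 : (U1ᵀ * th J H P.1 H).map d = (U1.map d + ZY arm J H P.1 Y * U1)ᵀ * th J H P.1 H +
      U1ᵀ * th J H P.1 H * ZY arm J H P.1 Y := by
    rw [map_mul_der, hdS, map_transpose_der, transpose_add, transpose_mul, Matrix.add_mul,
      Matrix.mul_add]
    simp only [Matrix.mul_assoc]
    abel
  have a6 : d ((c1 ^ 2)⁻¹) = -(2 * (d c1 / c1)) * (c1 ^ 2)⁻¹ := by
    rw [Derivation.leibniz_inv, Derivation.leibniz_pow]
    simp only [smul_eq_mul, nsmul_eq_mul]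
    field_simp
    push_cast
    ring
  rw [a4, map_smul_d, a5, a2, a6, Matrix.add_mul, Matrix.smul_mul, Matrix.smul_mul,
    Matrix.add_mul, a3, Matrix.add_mul, Matrix.add_mul, smul_add, ← a4]
  have a7 : (-(2 * (d c1 / c1)) * (c1 ^ 2)⁻¹) • (U1ᵀ * th J H P.1 H * E K arm s) =
      (-(2 * (d c1 / c1))) • (U1ᵀ * S0 * E K arm s) := by
    rw [a4, Matrix.smul_mul, smul_smul]
  rw [a7]
  have a8 : (c1 ^ 2)⁻¹ * c1 ^ 2 = 1 := inv_mul_cancel₀ (pow_ne_zero 2 hc1)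
  simp only [transpose_sub, transpose_smul, transpose_one, Matrix.sub_mul, Matrix.smul_mul,
    Matrix.one_mul, smul_add, smul_smul, Matrix.add_mul, ← mul_assoc, a8, one_mul, one_smul,
    Matrix.mul_assoc, neg_smul]
  abel

/-- **second derivative in block form** -/
theorem second_blocks (h : Ctx k arm J B N W H) (hP : P ∈ NN arm J N H)
    (m : Mv k arm J N W H P.1 Y d) (fr : Fr J F H P.1 S0 c1 c2 U1 U2)
    {X X' : Fin 3 → Matrix n2 n1 K} {Γ1 : Matrix n1 n1 K} {Γ2 : Matrix n2 n2 K}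
    {β : Matrix n1 n2 K} {γ : Matrix n2 n1 K} {γ0 : Matrix n2 n1 K} {β0 : Matrix n1 n2 K}
    {μ1 μ2 ν1 ν2 : K}
    (hY : ∀ s, ∀ v ∈ W, v * Y s * Hᵀ = v * (U2 * X' s * U1ᵀ + U1 * (X' s)ᵀ * U2ᵀ) * Hᵀ)
    (hN2 : ∀ v ∈ W, v * (U2.map d + ZY arm J H P.1 Y * U2) = v * (U2 * Γ2 + c2 ^ 2 • (U1 * β)))
    (hN1 : ∀ v ∈ W, v * (U1.map d + ZY arm J H P.1 Y * U1) = v * (U1 * Γ1 + c1 ^ 2 • (U2 * γ)))
    (hF : F ∈ N ⊓ W) (hFp : Hᵀ * J * F = 0) (hw : w ∈ W) (hwp : Hᵀ * J * w = 0)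
    (hn : ∑ s, F * (U2 * X s * U1ᵀ * S0) * E K arm s - w ∈ N)
    (L1 : w * U1 = μ1 • (F * U1) + F * (U2 * γ0)) (L2 : w * U2 = μ2 • (F * U2))
    (V1 : U1ᵀ * th J H P.1 w = (c1 * ν1) • (U1ᵀ * S0))
    (V2 : U2ᵀ * th J H P.1 w = (c2 * ν2) • (U2ᵀ * S0) - c2 • (β0ᵀ * (U1ᵀ * S0))) :
    ∑ s, F * ((c1 * c2) • (U1 * (β * X s - (X' s)ᵀ * (U2ᵀ * S0 * U2) * X s - (X' s)ᵀ * β0ᵀ) * U1ᵀ)
      + c2 ^ 2 • (U2 * (X s * γᵀ + X s * (U1ᵀ * S0 * U1) * (X' s)ᵀ - γ0 * (X' s)ᵀ) * U2ᵀ)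
      + U2 * (Γ2 * X s + (X s).map d + X s * (Γ1 - (2 * (d c1 / c1)) • (1 : Matrix n1 n1 K))ᵀ
          - (d c2 / c2) • X s + (c1 * c2 * ν1 - μ2 * c1 ^ 2) • X' s) * U1ᵀ
      + (c1 * c2 * ν2 - μ1 * c2 ^ 2) • (U1 * (X' s)ᵀ * U2ᵀ)) * S0 * E K arm s
      - wd arm J H P.1 Y d w ∈ N := by
  have hHW : H ∈ W := h.memW
  have hS := m.second (A := fun s => U2 * X s * U1ᵀ * S0) hFp hwp hn
  have key : ∀ s, (F * (ZY arm J H P.1 Y * (U2 * X s * U1ᵀ * S0) + (U2 * X s * U1ᵀ * S0).map d) +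
      wd arm J H P.1 Y d F * (U2 * X s * U1ᵀ * S0) - w * Y s * th J H P.1 H -
      H * Y s * (th J H P.1 F * (U2 * X s * U1ᵀ * S0) - th J H P.1 w)) * E K arm s =
      F * ((c1 * c2) • (U1 * (β * X s - (X' s)ᵀ * (U2ᵀ * S0 * U2) * X s - (X' s)ᵀ * β0ᵀ) * U1ᵀ)
      + c2 ^ 2 • (U2 * (X s * γᵀ + X s * (U1ᵀ * S0 * U1) * (X' s)ᵀ - γ0 * (X' s)ᵀ) * U2ᵀ)
      + U2 * (Γ2 * X s + (X s).map d + X s * (Γ1 - (2 * (d c1 / c1)) • (1 : Matrix n1 n1 K))ᵀ
          - (d c2 / c2) • X s + (c1 * c2 * ν1 - μ2 * c1 ^ 2) • X' s) * U1ᵀ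
      + (c1 * c2 * ν2 - μ1 * c2 ^ 2) • (U1 * (X' s)ᵀ * U2ᵀ)) * S0 * E K arm s := by
    intro s
    -- the terms
    have tA : F * (ZY arm J H P.1 Y * (U2 * X s * U1ᵀ * S0) + (U2 * X s * U1ᵀ * S0).map d) *
        E K arm s = F * U2 * Γ2 * X s * U1ᵀ * S0 * E K arm s +
        c2 ^ 2 • (F * U1 * β * X s * U1ᵀ * S0 * E K arm s) +
        F * U2 * (X s).map d * U1ᵀ * S0 * E K arm s +
        F * U2 * X s * ((U1ᵀ * S0).map d * E K arm s) := by
      have e1 : (U2 * X s * U1ᵀ * S0).map d = U2.map d * X s * U1ᵀ * S0 +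
          U2 * (X s).map d * U1ᵀ * S0 + U2 * X s * (U1ᵀ * S0).map d := by
        rw [Matrix.mul_assoc (U2 * X s), map_mul_der, map_mul_der]
        simp only [Matrix.add_mul, Matrix.mul_assoc]
      have e2 : ZY arm J H P.1 Y * (U2 * X s * U1ᵀ * S0) + (U2 * X s * U1ᵀ * S0).map d =
          (U2.map d + ZY arm J H P.1 Y * U2) * X s * U1ᵀ * S0 +
          U2 * (X s).map d * U1ᵀ * S0 + U2 * X s * (U1ᵀ * S0).map d := by
        rw [e1]
        simp only [Matrix.add_mul, Matrix.mul_assoc]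
        abel
      rw [e2]
      have e3 : F * ((U2.map d + ZY arm J H P.1 Y * U2) * X s * U1ᵀ * S0) =
          (F * (U2.map d + ZY arm J H P.1 Y * U2)) * X s * U1ᵀ * S0 := by
        simp only [Matrix.mul_assoc]
      rw [Matrix.mul_add, Matrix.mul_add, e3, hN2 F hF.2]
      simp only [Matrix.add_mul, Matrix.mul_add, Matrix.smul_mul, Matrix.mul_smul,
        Matrix.mul_assoc]
    have tD : wd arm J H P.1 Y d F * (U2 * X s * U1ᵀ * S0) =
        -(d c2 / c2) • (F * U2 * X s * U1ᵀ * S0) +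
        (c1 * c2 - c2 ^ 2) • (F * U1 * β * X s * U1ᵀ * S0) := by
      have e1 := wdF_U m fr.hc2 fr.H2 fr.H1 hF.2 hHW hN2
      have e2 : wd arm J H P.1 Y d F * (U2 * X s * U1ᵀ * S0) =
          (wd arm J H P.1 Y d F * U2) * X s * U1ᵀ * S0 := by simp only [Matrix.mul_assoc]
      rw [e2, e1]
      simp only [Matrix.add_mul, Matrix.smul_mul]
    have hYS : ∀ v ∈ W, ∀ G : Matrix ι δ K, v * Y s * th J H P.1 G =
        v * U2 * X' s * (U1ᵀ * th J H P.1 G) + v * U1 * (X' s)ᵀ * (U2ᵀ * th J H P.1 G) := by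
      intro v hv G
      have e1 : v * Y s * th J H P.1 G = (v * Y s * Hᵀ) * (J * (P.1 * G)) := by
        unfold th; simp only [Matrix.mul_assoc]
      rw [e1, hY s v hv]
      unfold th
      simp only [Matrix.mul_add, Matrix.add_mul, Matrix.mul_assoc]
    have tE : w * Y s * th J H P.1 H =
        (μ2 * c1 ^ 2) • (F * U2 * X' s * (U1ᵀ * S0)) +
        (μ1 * c2 ^ 2) • (F * U1 * (X' s)ᵀ * (U2ᵀ * S0)) +
        c2 ^ 2 • (F * U2 * γ0 * (X' s)ᵀ * (U2ᵀ * S0)) := by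
      rw [hYS w hw, U1S h hP fr, U2S h hP fr, L1, L2]
      simp only [Matrix.smul_mul, Matrix.mul_smul, smul_smul, Matrix.add_mul, smul_add,
        Matrix.mul_assoc, mul_comm (c1 ^ 2), mul_comm (c2 ^ 2)]
      abel
    have tG : H * Y s * (th J H P.1 F * (U2 * X s * U1ᵀ * S0)) =
        (c1 * c2) • (F * U1 * (X' s)ᵀ * (U2ᵀ * S0 * U2) * X s * U1ᵀ * S0) := by
      have e1 : H * Y s * (th J H P.1 F * (U2 * X s * U1ᵀ * S0)) =
          H * Y s * th J H P.1 F * U2 * (X s * U1ᵀ * S0) := by simp only [Matrix.mul_assoc]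
      rw [e1, hYS H hHW]
      have e2 : (H * U2 * X' s * (U1ᵀ * th J H P.1 F) + H * U1 * (X' s)ᵀ * (U2ᵀ * th J H P.1 F)) *
          U2 = H * U2 * X' s * (U1ᵀ * (th J H P.1 F * U2)) +
          H * U1 * (X' s)ᵀ * (U2ᵀ * (th J H P.1 F * U2)) := by
        simp only [Matrix.add_mul, Matrix.mul_assoc]
      rw [e2, fr.T2, fr.H1]
      have e3 : U1ᵀ * (c2 • (S0 * U2)) = 0 := by
        rw [Matrix.mul_smul, ← Matrix.mul_assoc, fr.orth, smul_zero]
      rw [e3, Matrix.mul_zero, zero_add]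
      simp only [Matrix.smul_mul, Matrix.mul_smul, smul_smul, Matrix.mul_assoc,
        mul_comm c2 c1]
    have tI : H * Y s * th J H P.1 w =
        (c1 * c2 * ν1) • (F * U2 * X' s * (U1ᵀ * S0)) +
        (c1 * c2 * ν2) • (F * U1 * (X' s)ᵀ * (U2ᵀ * S0)) -
        (c1 * c2) • (F * U1 * (X' s)ᵀ * (β0ᵀ * (U1ᵀ * S0))) := by
      rw [hYS H hHW, V1, V2, fr.H1, fr.H2]
      simp only [Matrix.smul_mul, Matrix.mul_smul, smul_smul, Matrix.mul_sub, smul_sub,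
        Matrix.mul_assoc]
      have e1 : c2 * (c1 * ν1) = c1 * c2 * ν1 := by ring
      have e2 : c1 * (c2 * ν2) = c1 * c2 * ν2 := by ring
      have e3 : c1 * ν1 * c2 = c1 * c2 * ν1 := by ring
      have e4 : c2 * ν2 * c1 = c1 * c2 * ν2 := by ring
      have e5 : c2 * c1 = c1 * c2 := by ring
      simp only [e1, e2, e3, e4, e5]
      abel
    have tC := dU1S h hP m fr hY hN1 s
    rw [Matrix.sub_mul, Matrix.sub_mul, Matrix.add_mul, tA, tC, tD, tE, Matrix.mul_sub,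
      tG, tI]
    simp only [Matrix.add_mul, Matrix.sub_mul, Matrix.mul_add, Matrix.mul_sub, Matrix.smul_mul,
      Matrix.mul_smul, smul_add, smul_sub, add_smul, sub_smul, neg_smul, Matrix.neg_mul,
      Matrix.mul_neg, smul_neg, Matrix.mul_assoc]
    abel
  rw [Finset.sum_congr rfl fun s _ => key s] at hS
  exact hS

end vals

end Crest.Agent.R172.SUXb
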