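import Crest.Agent.R172.SDecC926
import Crest.Agent.R172.SInst
import Crest.Agent.R172.SUX6t515
import Crest.Agent.R172.SD937
import Crest.Agent.R172.SB2H16
import Crest.Agent.R172.SWd275
import Crest.Agent.R172.SUX4b731
import Crest.Agent.R172.SZb978
import Crest.Agent.R172.SDecP70
import Crest.Agent.R172.SUniq803
import Crest.Agent.R172.SNab753
import Crest.Agent.R172.SB1S965
import Crest.Agent.R172.SB4x930
import Crest.Agent.R172.SLevA455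
import Crest.Agent.R172.SDec2

/-!
Row 172 (S0260), (t2), level 2: assembly of the geometric half from the inclusions `B1` and the
off-diagonal memberships `B4`.
-/

set_option autoImplicit false
set_option linter.unusedSectionVars false
set_option linter.unusedFintypeInType false
set_option linter.unusedDecidableInType false
set_option linter.unusedVariables false
set_option maxHeartbeats 1600000

namespace Crest.Agent.R172.SGeo978b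

open Module Matrix Crest.Agent.R172.FO Crest.Agent.R172.Qt Crest.Agent.R172.SpS
open Crest.Agent.R172.SBlk Crest.Agent.R172.UBlk Crest.Agent.R172.STop
open Crest.Agent.R172.SCM Crest.Agent.R172.SInst
open Crest.Agent.R172.SEnd2 (PC PhS)
open Crest.Agent.R172.Om (Kiso)
open Crest.Agent.R172.PL (CoreM Ainf)
open Crest.Agent.R172.SC (PB)
open Crest.Agent.R172.SUX (D3 th ZY wd Mv Fr K1 I1 I2 E5)
open Crest.Agent.R172.SDec (Dec Rel2)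

variable {ι : Type} [Fintype ι] [DecidableEq ι] {δ : Type} [Fintype δ] [DecidableEq δ]
variable {K : Type} [Field K] [Algebra ℂ K] [IsAlgClosed K]
variable {arm : δ → Fin 3} {J : Matrix ι ι K} {B : Matrix δ δ K} {N W : Submodule K (Matrix ι δ K)}
  {F f : Matrix ι δ K} {P : Matrix ι ι K × (Fin 3 → Matrix ι ι K)} {R : Matrix δ ι K}
  {D : End K (CoreM (PhS arm J B F R P.1))} {l : Fin 3 → ℕ}

/-- the point of the family at `t` -/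
structure At (arm : δ → Fin 3) (J : Matrix ι ι K) (B : Matrix δ δ K)
    (N W : Submodule K (Matrix ι δ K)) (F f : Matrix ι δ K) (P : Matrix ι ι K)
    (dY : Derivation ℂ K K) (a : K) (Pt : Matrix ι ι K × (Fin 3 → Matrix ι ι K)) : Prop where
  kiso : F + a • f ∈ Kiso J N W
  ctx : Ctx ℂ arm J B N W (F + a • f)
  nn : Pt ∈ NN arm J N (F + a • f)
  vert : Vert ℂ arm J N W (F + a • f) Pt
  hY : ∀ f' ∈ N ⊓ W, (F + a • f)ᵀ * J * (Pt.1 * f') = (F + a • f)ᵀ * J * f'.map dY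
  hPF : (F + a • f)ᵀ * J * (Pt.1 * F) = (F + a • f)ᵀ * J * (P * F)
  row : ∀ w : Matrix ι δ K, (F + a • f)ᵀ * J * w = 0 →
    (Pt.1 * (F + a • f))ᵀ * J * w = -((F + a • f)ᵀ * J * w.map dY)

/-- the row clause without transposes -/
theorem At.row' {dY : Derivation ℂ K K} {a : K}
    {Pt : Matrix ι ι K × (Fin 3 → Matrix ι ι K)} {P : Matrix ι ι K}
    (A : At arm J B N W F f P dY a Pt) (w : Matrix ι δ K) (hw : (F + a • f)ᵀ * J * w = 0) :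
    (F + a • f)ᵀ * J * (Pt.1 * w) = (F + a • f)ᵀ * J * w.map dY := by
  have h1 := A.row w hw
  have h2 : (Pt.1)ᵀ * J = -(J * Pt.1) := A.nn.1.eq
  rw [transpose_mul, Matrix.mul_assoc _ _ J, h2, Matrix.mul_neg, Matrix.neg_mul, neg_inj] at h1
  rw [← h1]
  simp only [Matrix.mul_assoc]


/-- the data of one move for an exact family `X` -/
structure MV (arm : δ → Fin 3) (J : Matrix ι ι K) (B : Matrix δ δ K)
    (N W : Submodule K (Matrix ι δ K)) (F f : Matrix ι δ K) (P : Matrix ι ι K)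
    (a ν ν' : K) (Pt : Matrix ι ι K × (Fin 3 → Matrix ι ι K)) {m1 m2 : ℕ}
    (U1 : Matrix δ (Fin m1) K) (U2 : Matrix δ (Fin m2) K)
    (a1 : Fin 3 → Matrix (Fin m1) (Fin m1) K) (a2 : Fin 3 → Matrix (Fin m2) (Fin m2) K)
    (X : Fin 3 → Matrix (Fin m2) (Fin m1) K) (d : Derivation ℂ K K)
    (Γ1 : Matrix (Fin m1) (Fin m1) K) (Γ2 : Matrix (Fin m2) (Fin m2) K)
    (β : Matrix (Fin m1) (Fin m2) K) (γ : Matrix (Fin m2) (Fin m1) K) : Prop where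
  mv : Mv ℂ arm J N W (F + a • f) Pt.1 (fun r => U2 * X r * U1ᵀ + U1 * (X r)ᵀ * U2ᵀ) d
  n2 : U2.map d + ZY arm J (F + a • f) Pt.1 (fun r => U2 * X r * U1ᵀ + U1 * (X r)ᵀ * U2ᵀ) * U2 =
    U2 * Γ2 + (1 + a * ν') ^ 2 • (U1 * β)
  n1 : U1.map d + ZY arm J (F + a • f) Pt.1 (fun r => U2 * X r * U1ᵀ + U1 * (X r)ᵀ * U2ᵀ) * U1 =
    U1 * Γ1 + (1 + a * ν) ^ 2 • (U2 * γ)
  dec : Dec F (Fᵀ * J * (P * F)) U1 U2 a1 a2 (-(((1 + a * ν') / (1 + a * ν)) ^ 2)) (X, β, γ)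

/-- **B1** for one `t`: the inclusions of the connection -/
def B1At (S : Setup arm J B N W F f P R D l) (a ν ν' : K)
    (Pt : Matrix ι ι K × (Fin 3 → Matrix ι ι K)) : Prop :=
  ∀ {m1 m2 : ℕ} {U1 : Matrix δ (Fin m1) K} {U2 : Matrix δ (Fin m2) K}
    {a1 : Fin 3 → Matrix (Fin m1) (Fin m1) K} {a2 : Fin 3 → Matrix (Fin m2) (Fin m2) K}
    (_ : UFr.Cq (QQb S ν) U1) (_ : UFr.Cq (QQb S ν') U2)
    (_ : ∀ u ∈ QQb S ν, ∃ x, u = U1 *ᵥ x) (_ : ∀ u ∈ QQb S ν', ∃ x, u = U2 *ᵥ x)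
    (_ : ∀ s, B * E K arm s * (Fᵀ * J * (P.1 * F)) * U1 = U1 * a1 s)
    (_ : ∀ s, B * E K arm s * (Fᵀ * J * (P.1 * F)) * U2 = U2 * a2 s)
    (X : Fin 3 → Matrix (Fin m2) (Fin m1) K)
    (_ : ∑ s, (X s * (a1 s)ᵀ - (-(((1 + a * ν') / (1 + a * ν)) ^ 2)) • (a2 s * X s)) = 0)
    (_ : ∀ s, (U2ᵀ * (Fᵀ * J * (P.1 * F)) * U2) * (X s * (a1 s)ᵀ -
      (-(((1 + a * ν') / (1 + a * ν)) ^ 2)) • (a2 s * X s)) *
        (U1ᵀ * (Fᵀ * J * (P.1 * F)) * U1) = 0)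
    (d : Derivation ℂ K K)
    (_ : Mv ℂ arm J N W (F + a • f) Pt.1 (fun r => U2 * X r * U1ᵀ + U1 * (X r)ᵀ * U2ᵀ) d),
    (∀ u ∈ QQb S ν, ∃ v ∈ QQb S ν, ∃ r ∈ QQb S ν',
      r ∈ St.T (fun s => (B * E K arm s * (Fᵀ * J * (P.1 * F))).mulVecLin) ∧
      SUB.nab arm J (F + a • f) Pt.1 (fun r => U2 * X r * U1ᵀ + U1 * (X r)ᵀ * U2ᵀ) d u = v + r) ∧
    (∀ u ∈ QQb S ν', ∃ v ∈ QQb S ν', ∃ r ∈ QQb S ν,
      r ∈ St.T (fun s => (B * E K arm s * (Fᵀ * J * (P.1 * F))).mulVecLin) ∧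
      SUB.nab arm J (F + a • f) Pt.1 (fun r => U2 * X r * U1ᵀ + U1 * (X r)ᵀ * U2ᵀ) d u = v + r) ∧
    (∀ κ, κ ≠ ν → κ ≠ ν' → ∀ u ∈ QQb S κ,
      SUB.nab arm J (F + a • f) Pt.1 (fun r => U2 * X r * U1ᵀ + U1 * (X r)ᵀ * U2ᵀ) d u ∈ QQb S κ)

/-- the good class -/
abbrev QGs (arm : δ → Fin 3) (J : Matrix ι ι K) (B : Matrix δ δ K)
    (N W : Submodule K (Matrix ι δ K)) (F : Matrix ι δ K)
    (P : Matrix ι ι K × (Fin 3 → Matrix ι ι K)) (R : Matrix δ ι K)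
    (D : End K (CoreM (PhS arm J B F R P.1))) : Submodule K (Matrix ι δ K) :=
  SLev0.QG arm J B N W F P (PC arm J B F R P.1)
    (fun μ : K => (SLev0.PbK arm J B F R P.1 D μ)) id

/-- **B4** for one move: the off-diagonal parts are good -/
def B4At (S : Setup arm J B N W F f P R D l) (a ν ν' : K)
    (Pt : Matrix ι ι K × (Fin 3 → Matrix ι ι K)) : Prop :=
  ∀ {m1 m2 : ℕ} {U1 : Matrix δ (Fin m1) K} {U2 : Matrix δ (Fin m2) K}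
    {a1 : Fin 3 → Matrix (Fin m1) (Fin m1) K} {a2 : Fin 3 → Matrix (Fin m2) (Fin m2) K}
    (_ : UFr.Cq (QQb S ν) U1) (_ : ∀ u ∈ QQb S ν, ∃ x, u = U1 *ᵥ x)
    (_ : ∀ x, U1 *ᵥ x = 0 → x = 0)
    (_ : ∀ s, B * E K arm s * (Fᵀ * J * (P.1 * F)) * U1 = U1 * a1 s)
    (_ : UFr.Cq (QQb S ν') U2) (_ : ∀ u ∈ QQb S ν', ∃ x, u = U2 *ᵥ x)
    (_ : ∀ x, U2 *ᵥ x = 0 → x = 0)
    (_ : ∀ s, B * E K arm s * (Fᵀ * J * (P.1 * F)) * U2 = U2 * a2 s)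
    {X' : Fin 3 → Matrix (Fin m2) (Fin m1) K} {d : Derivation ℂ K K}
    {Γ1 : Matrix (Fin m1) (Fin m1) K} {Γ2 : Matrix (Fin m2) (Fin m2) K}
    {β : Matrix (Fin m1) (Fin m2) K} {γ : Matrix (Fin m2) (Fin m1) K}
    (_ : MV arm J B N W F f P.1 a ν ν' Pt U1 U2 a1 a2 X' d Γ1 Γ2 β γ) {c : K}
    {y : D3 K (Fin m1) (Fin m2)} (_ : Dec F (Fᵀ * J * (P.1 * F)) U1 U2 a1 a2 c y)
    (κ : K),
    ∑ s, F * (U2 * (Γ2 * y.1 s + (y.1 s).map d +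
        y.1 s * (Γ1 - (2 * (d (1 + a * ν) / (1 + a * ν))) • (1 : Matrix (Fin m1) (Fin m1) K))ᵀ -
        (d (1 + a * ν') / (1 + a * ν')) • y.1 s + κ • X' s) * U1ᵀ) *
        (Fᵀ * J * (P.1 * F)) * E K arm s ∈ QGs arm J B N W F P R D ∧
    ∑ s, F * (U1 * (X' s)ᵀ * U2ᵀ) * (Fᵀ * J * (P.1 * F)) * E K arm s ∈
      QGs arm J B N W F P R D

theorem two_ne (_ : Setup arm J B N W F f P R D l) : (2 : K) ≠ 0 := by
  have h := (map_ne_zero (algebraMap ℂ K)).2 (two_ne_zero (α := ℂ))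
  rwa [map_ofNat] at h

/-- the move exists -/
theorem exists_MV (S : Setup arm J B N W F f P R D l) {ν ν' : K} (hne : ν ≠ ν')
    {dY : Derivation ℂ K K} {a : K} {Pt : Matrix ι ι K × (Fin 3 → Matrix ι ι K)}
    (A : At arm J B N W F f P.1 dY a Pt) (ha0 : a ≠ 0) (hc1 : 1 + a * ν ≠ 0) (hc2 : 1 + a * ν' ≠ 0)
    (hB1 : B1At S a ν ν' Pt)
    {m1 m2 : ℕ} {U1 : Matrix δ (Fin m1) K} {U2 : Matrix δ (Fin m2) K}
    {a1 : Fin 3 → Matrix (Fin m1) (Fin m1) K} {a2 : Fin 3 → Matrix (Fin m2) (Fin m2) K}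
    (hU1 : UFr.Cq (QQb S ν) U1) (hs1 : ∀ u ∈ QQb S ν, ∃ x, u = U1 *ᵥ x)
    (ha1 : ∀ s, B * E K arm s * (Fᵀ * J * (P.1 * F)) * U1 = U1 * a1 s)
    (hU2 : UFr.Cq (QQb S ν') U2) (hs2 : ∀ u ∈ QQb S ν', ∃ x, u = U2 *ᵥ x)
    (ha2 : ∀ s, B * E K arm s * (Fᵀ * J * (P.1 * F)) * U2 = U2 * a2 s)
    (X : Fin 3 → Matrix (Fin m2) (Fin m1) K)
    (hsum : ∑ s, (X s * (a1 s)ᵀ - (-(((1 + a * ν') / (1 + a * ν)) ^ 2)) • (a2 s * X s)) = 0)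
    (harm : ∀ s, (U2ᵀ * (Fᵀ * J * (P.1 * F)) * U2) * (X s * (a1 s)ᵀ -
      (-(((1 + a * ν') / (1 + a * ν)) ^ 2)) • (a2 s * X s)) *
        (U1ᵀ * (Fᵀ * J * (P.1 * F)) * U1) = 0) :
    ∃ d Γ1 Γ2 β γ, MV arm J B N W F f P.1 a ν ν' Pt U1 U2 a1 a2 X d Γ1 Γ2 β γ ∧
      (∀ κ, κ ≠ ν → κ ≠ ν' → ∀ u ∈ QQb S κ,
        SUB.nab arm J (F + a • f) Pt.1 (fun r => U2 * X r * U1ᵀ + U1 * (X r)ᵀ * U2ᵀ) d u ∈
          QQb S κ) := by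
  have h2 : (2 : K) ≠ 0 := two_ne S
  obtain ⟨fr, hk1⟩ := fr_k1 S A.hY A.hPF hne hc1 hc2 hU1 hU2
  obtain ⟨Ri, hRi⟩ := exists_gen_inv (F + a • f)
  have hthH : (th J (F + a • f) Pt.1 (F + a • f))ᵀ = -th J (F + a • f) Pt.1 (F + a • f) :=
    SUX.th_skew A.ctx A.nn A.ctx.mem
  have hex : SUX.Exact arm J B (F + a • f) Pt.1 (fun r => U2 * X r * U1ᵀ + U1 * (X r)ᵀ * U2ᵀ) := by
    refine SD937.exact_frames fr hthH (ctx S).data.B_symm (a1 := a1) (a2 := a2)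
      (fun s => by rw [← ha1 s, Matrix.mul_assoc (B * E K arm s)])
      (fun s => by rw [← ha2 s, Matrix.mul_assoc (B * E K arm s)]) ?_
    rw [← hsum]
    refine Finset.sum_congr rfl fun s _ => ?_
    rw [neg_smul, sub_neg_eq_add]
  have hYs : ∀ r, ((fun r => U2 * X r * U1ᵀ + U1 * (X r)ᵀ * U2ᵀ : Fin 3 → Matrix δ δ K) r)ᵀ =
      (fun r => U2 * X r * U1ᵀ + U1 * (X r)ᵀ * U2ᵀ : Fin 3 → Matrix δ δ K) r := by
    intro r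
    simp only [transpose_add, transpose_mul, transpose_transpose, Matrix.mul_assoc]
    rw [add_comm]
  obtain ⟨d, m⟩ := SUX.exists_move A.ctx h2 hRi A.nn A.vert hYs hex
  obtain ⟨i1, i2, i3⟩ := hB1 hU1 hU2 hs1 hs2 ha1 ha2 X hsum harm d m
  have hcne : 1 + a * ν ≠ 1 + a * ν' := by
    intro h
    exact hne (mul_left_cancel₀ ha0 (add_left_cancel h))
  obtain ⟨Γ1, Γ2, β, γ, e2, e1, hd⟩ := SB2H16.dec_of_B1 (Q1 := QQb S ν) (Q2 := QQb S ν') A.ctx A.nn m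
    fr hcne hU1 hs1 ha1 (fun u hu => by
      obtain ⟨c, hc, hs⟩ := Qb_exists (ctx S) S.hR S.hD hu
      exact ⟨c, hc, hs⟩) hU2 hs2 ha2 (fun u hu => by
      obtain ⟨c, hc, hs⟩ := Qb_exists (ctx S) S.hR S.hD hu
      exact ⟨c, hc, hs⟩) (fun r => rfl) i1 i2 rfl hsum harm
  exact ⟨d, Γ1, Γ2, β, γ, ⟨m, e2, e1, hd⟩, i3⟩

/-- the first level relation with all values for the move -/
theorem first_val (S : Setup arm J B N W F f P R D l) {ν ν' : K} (hne : ν ≠ ν')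
    {dY : Derivation ℂ K K} {a : K} {Pt : Matrix ι ι K × (Fin 3 → Matrix ι ι K)}
    (A : At arm J B N W F f P.1 dY a Pt) (hc1 : 1 + a * ν ≠ 0) (hc2 : 1 + a * ν' ≠ 0)
    (hc : ∀ κ, QQb S κ ≠ ⊥ → 1 + a * κ ≠ 0)
    {m1 m2 : ℕ} {U1 : Matrix δ (Fin m1) K} {U2 : Matrix δ (Fin m2) K}
    {a1 : Fin 3 → Matrix (Fin m1) (Fin m1) K} {a2 : Fin 3 → Matrix (Fin m2) (Fin m2) K}
    (hU1 : UFr.Cq (QQb S ν) U1) (hU2 : UFr.Cq (QQb S ν') U2)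
    {X : Fin 3 → Matrix (Fin m2) (Fin m1) K} {d : Derivation ℂ K K}
    {Γ1 : Matrix (Fin m1) (Fin m1) K} {Γ2 : Matrix (Fin m2) (Fin m2) K}
    {β : Matrix (Fin m1) (Fin m2) K} {γ : Matrix (Fin m2) (Fin m1) K}
    (hm : MV arm J B N W F f P.1 a ν ν' Pt U1 U2 a1 a2 X d Γ1 Γ2 β γ)
    (h3 : ∀ κ, κ ≠ ν → κ ≠ ν' → ∀ u ∈ QQb S κ,
        SUB.nab arm J (F + a • f) Pt.1 (fun r => U2 * X r * U1ᵀ + U1 * (X r)ᵀ * U2ᵀ) d u ∈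
          QQb S κ) :
    I1 arm F (Fᵀ * J * (P.1 * F)) U1 U2 (X, β, γ) + ((1 + a * ν') / (1 + a * ν)) •
      I2 arm F (Fᵀ * J * (P.1 * F)) U1 U2 (X, β, γ) ∈
        SUXt.QQ5t J N W F f dY (Fᵀ * J * (P.1 * F)) U1 U2
          (fun κ : {κ : K // κ ≠ ν ∧ κ ≠ ν'} => QQb S κ.1) := by
  obtain ⟨fr, hk1⟩ := fr_k1 S A.hY A.hPF hne hc1 hc2 hU1 hU2
  have hqN : (ν - ν')⁻¹ • (f - ν' • F) ∈ N ⊓ W :=
    Submodule.smul_mem _ _ (Submodule.sub_mem _ S.hf.1 (Submodule.smul_mem _ _ S.hF.1))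
  refine SUXt.first_mem' (Γ1 := Γ1) (Γ2 := Γ2) A.ctx A.nn S.hNm S.hWm S.hF S.hf hm.mv hqN ?_ fr hk1
    (fun s v _ => rfl) (fun v _ => by rw [hm.n2]) (fun v _ => by rw [hm.n1])
    (fun w hw => A.row' w hw) ?_
  · exact A.ctx.perp _ hqN
  · rintro ⟨κ, hκ1, hκ2⟩
    by_cases hb : QQb S κ = ⊥
    · refine ⟨0, fun u hu => ?_⟩
      have hu' : u ∈ QQb S κ := hu
      rw [hb, Submodule.mem_bot] at hu'
      rw [hu', mulVec_zero, mulVec_zero, smul_zero]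
    · have hck := hc κ hb
      have hH : ∀ u ∈ QQb S κ, (F + a • f) *ᵥ u = (1 + a * κ) • F *ᵥ u := by
        intro u hu
        rw [add_mulVec, smul_mulVec, rel S hu, smul_smul, add_smul, one_smul]
      have hq : ∀ u ∈ QQb S κ, ((ν - ν')⁻¹ • (f - ν' • F)) *ᵥ u =
          ((ν - ν')⁻¹ * (κ - ν')) • F *ᵥ u := by
        intro u hu
        rw [smul_mulVec, sub_mulVec, smul_mulVec, rel S hu, ← sub_smul, smul_smul]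
      refine ⟨d ((ν - ν')⁻¹ * (κ - ν')) - (ν - ν')⁻¹ * (κ - ν') * (1 + a * κ)⁻¹ * d (1 + a * κ),
        fun u hu => ?_⟩
      rw [SNab753.wd_val hm.mv hck (hH u hu) (hq u hu)]
      have h4 := h3 κ hκ1 hκ2 u hu
      rw [sub_mulVec, smul_mulVec, hH _ h4, hq _ h4, smul_smul]
      have e : (ν - ν')⁻¹ * (κ - ν') * (1 + a * κ)⁻¹ * (1 + a * κ) = (ν - ν')⁻¹ * (κ - ν') := by
        rw [mul_assoc, inv_mul_cancel₀ hck, mul_one]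
      rw [e, sub_self, add_zero]

/-- **separation of the first level with all values** -/
theorem sep (S : Setup arm J B N W F f P R D l) {ν ν' : K}
    {dY : Derivation ℂ K K}
    {m1 m2 : ℕ} {U1 : Matrix δ (Fin m1) K} {U2 : Matrix δ (Fin m2) K}
    {a1 : Fin 3 → Matrix (Fin m1) (Fin m1) K} {a2 : Fin 3 → Matrix (Fin m2) (Fin m2) K}
    (hU1 : UFr.Cq (QQb S ν) U1) (hs1 : ∀ u ∈ QQb S ν, ∃ x, u = U1 *ᵥ x)
    (hi1 : ∀ x, U1 *ᵥ x = 0 → x = 0)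
    (ha1 : ∀ s, B * E K arm s * (Fᵀ * J * (P.1 * F)) * U1 = U1 * a1 s)
    (hU2 : UFr.Cq (QQb S ν') U2) (hs2 : ∀ u ∈ QQb S ν', ∃ x, u = U2 *ᵥ x)
    (hi2 : ∀ x, U2 *ᵥ x = 0 → x = 0)
    (ha2 : ∀ s, B * E K arm s * (Fᵀ * J * (P.1 * F)) * U2 = U2 * a2 s)
    {Rr : Set K} (hR : Rr.Infinite) (h0 : (0 : K) ∉ Rr) {α : Type} {Qm : α → Submodule K (δ → K)}
    (hmv : ∀ r ∈ Rr, ∀ X : Fin 3 → Matrix (Fin m2) (Fin m1) K,
      ∑ s, (X s * (a1 s)ᵀ - (-(r ^ 2)) • (a2 s * X s)) = 0 →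
      (∀ s, (U2ᵀ * (Fᵀ * J * (P.1 * F)) * U2) * (X s * (a1 s)ᵀ - (-(r ^ 2)) • (a2 s * X s)) *
        (U1ᵀ * (Fᵀ * J * (P.1 * F)) * U1) = 0) →
      ∃ β γ, Dec F (Fᵀ * J * (P.1 * F)) U1 U2 a1 a2 (-(r ^ 2)) (X, β, γ) ∧
        I1 arm F (Fᵀ * J * (P.1 * F)) U1 U2 (X, β, γ) + r •
          I2 arm F (Fᵀ * J * (P.1 * F)) U1 U2 (X, β, γ) ∈
          SUXt.QQ5t J N W F f dY (Fᵀ * J * (P.1 * F)) U1 U2 Qm) :
    ∃ Sf : Set K, Sf.Finite ∧ ∀ c ∉ Sf, ∀ y,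
      Dec F (Fᵀ * J * (P.1 * F)) U1 U2 a1 a2 (-c) y →
      I1 arm F (Fᵀ * J * (P.1 * F)) U1 U2 y ∈
        SUXt.QQ5t J N W F f dY (Fᵀ * J * (P.1 * F)) U1 U2 Qm := by
  obtain ⟨Sf, hSf, h⟩ := RJP.par_sep (T := Unit)
    (SDecP70.alD F (Fᵀ * J * (P.1 * F)) U1 U2 a1) (-(SDecP70.beD F (Fᵀ * J * (P.1 * F)) U1 U2 a2))
    (SUXt.QQ5t J N W F f dY (Fᵀ * J * (P.1 * F)) U1 U2 Qm)
    (fun _ => I1 arm F (Fᵀ * J * (P.1 * F)) U1 U2) (fun _ => I2 arm F (Fᵀ * J * (P.1 * F)) U1 U2)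
    hR (by
      intro r hr y hy _
      have hd : Dec F (Fᵀ * J * (P.1 * F)) U1 U2 a1 a2 (-(r ^ 2)) y := by
        rw [SDecP70.dec_iff, hy, LinearMap.neg_apply, smul_neg, neg_smul]
      obtain ⟨b, g, hbg, hm⟩ := hmv r hr y.1 hd.sum hd.arm
      have hr0 : -(r ^ 2) ≠ 0 := neg_ne_zero.2 (pow_ne_zero 2 fun h => h0 (h ▸ hr))
      obtain ⟨⟨z1, -⟩, z2, -⟩ := SUniq803.dec_uniq S hU1 hs1 hi1 ha1 hU2 hs2 hi2 ha2 hr0 hd hbg rfl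
      obtain ⟨g1, g2⟩ := SD937.I_congr (arm := arm) (F := F) (U1 := U1) (U2 := U2)
        (S0 := Fᵀ * J * (P.1 * F)) (S1 := J * (P.1 * F)) (Matrix.mul_assoc _ _ _) (X := y.1)
        (β := y.2.1) (β' := b) (γ := y.2.2) (γ' := g)
        (by rw [Matrix.mul_sub, sub_eq_zero]; exact z1)
        (by rw [Matrix.mul_sub, sub_eq_zero]; exact z2)
      change I1 arm F (Fᵀ * J * (P.1 * F)) U1 U2 (y.1, y.2.1, y.2.2) + r •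
        I2 arm F (Fᵀ * J * (P.1 * F)) U1 U2 (y.1, y.2.1, y.2.2) ∈ _
      rw [g1, g2]
      exact hm)
  refine ⟨Sf, hSf, fun c hc y hy => ?_⟩
  refine (h c hc y ?_ ()).1
  rw [SDecP70.dec_iff] at hy
  rw [hy, LinearMap.neg_apply, smul_neg, neg_smul]

/-- **level 2 relation** -/
theorem second (S : Setup arm J B N W F f P R D l) {ν ν' : K} (hne : ν ≠ ν')
    {dY : Derivation ℂ K K} {a : K} {Pt : Matrix ι ι K × (Fin 3 → Matrix ι ι K)}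
    (A : At arm J B N W F f P.1 dY a Pt) (hc1 : 1 + a * ν ≠ 0) (hc2 : 1 + a * ν' ≠ 0)
    (hc : ∀ κ, QQb S κ ≠ ⊥ → 1 + a * κ ≠ 0) (hB4 : B4At S a ν ν' Pt)
    {m1 m2 : ℕ} {U1 : Matrix δ (Fin m1) K} {U2 : Matrix δ (Fin m2) K}
    {a1 : Fin 3 → Matrix (Fin m1) (Fin m1) K} {a2 : Fin 3 → Matrix (Fin m2) (Fin m2) K}
    (hU1 : UFr.Cq (QQb S ν) U1) (hs1 : ∀ u ∈ QQb S ν, ∃ x, u = U1 *ᵥ x)
    (hi1 : ∀ x, U1 *ᵥ x = 0 → x = 0)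
    (ha1 : ∀ s, B * E K arm s * (Fᵀ * J * (P.1 * F)) * U1 = U1 * a1 s)
    (hU2 : UFr.Cq (QQb S ν') U2) (hs2 : ∀ u ∈ QQb S ν', ∃ x, u = U2 *ᵥ x)
    (hi2 : ∀ x, U2 *ᵥ x = 0 → x = 0)
    (ha2 : ∀ s, B * E K arm s * (Fᵀ * J * (P.1 * F)) * U2 = U2 * a2 s)
    {X' : Fin 3 → Matrix (Fin m2) (Fin m1) K} {d : Derivation ℂ K K}
    {Γ1 : Matrix (Fin m1) (Fin m1) K} {Γ2 : Matrix (Fin m2) (Fin m2) K}
    {β : Matrix (Fin m1) (Fin m2) K} {γ : Matrix (Fin m2) (Fin m1) K}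
    (hm : MV arm J B N W F f P.1 a ν ν' Pt U1 U2 a1 a2 X' d Γ1 Γ2 β γ)
    (h3 : ∀ κ, κ ≠ ν → κ ≠ ν' → ∀ u ∈ QQb S κ,
        SUB.nab arm J (F + a • f) Pt.1 (fun r => U2 * X' r * U1ᵀ + U1 * (X' r)ᵀ * U2ᵀ) d u ∈
          QQb S κ) {c : K}
    {y y' : D3 K (Fin m1) (Fin m2)} (hy : Dec F (Fᵀ * J * (P.1 * F)) U1 U2 a1 a2 c y)
    (hI : I1 arm F (Fᵀ * J * (P.1 * F)) U1 U2 y ∈
      SUXt.QQ5t J N W F f dY (Fᵀ * J * (P.1 * F)) U1 U2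
          (fun κ : {κ : K // κ ≠ ν ∧ κ ≠ ν'} => QQb S κ.1))
    (hy' : Dec F (Fᵀ * J * (P.1 * F)) U1 U2 a1 a2 (-(((1 + a * ν') / (1 + a * ν)) ^ 2)) y')
    (hX' : y'.1 = X') :
    Rel2 arm F (Fᵀ * J * (P.1 * F)) U1 U2 ((1 + a * ν') / (1 + a * ν)) y y' ∈
      QGs arm J B N W F P R D := by
  classical
  obtain ⟨X, β0, γ0⟩ := y
  obtain ⟨X'', β', γ'⟩ := y'
  obtain rfl : X'' = X' := hX'
  obtain ⟨fr, hk1⟩ := fr_k1 S A.hY A.hPF hne hc1 hc2 hU1 hU2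
  obtain ⟨w, hw, hFw, hfw, hn, μ1, μ2, ν1, ν2, L1, L2, V1, V2, hth⟩ := SUXt.even_data hI
  obtain ⟨hHw, W1, W2⟩ := SUXt.rows_at fr hFw hfw (fun w hw => A.row' w hw) V1 V2
  have hFp : (F + a • f)ᵀ * J * F = 0 := A.ctx.perp _ S.hF.1
  have hs := SUXb.second_blocks A.ctx A.nn hm.mv fr (X := X) (X' := X'') (Γ1 := Γ1) (Γ2 := Γ2)
    (β := β) (γ := γ) (γ0 := γ0) (β0 := β0) (fun s v _ => rfl) (fun v _ => by rw [hm.n2])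
    (fun v _ => by rw [hm.n1]) S.hF.1 hFp hw hHw hn L1 L2 W1 W2
  choose μ3 hμ3 using hth
  have hμν : ∃ μ : K → K, μ ν = μ1 ∧ μ ν' = μ2 ∧
      ∀ κ, κ ≠ ν → κ ≠ ν' → ∀ u ∈ QQb S κ, w *ᵥ u = μ κ • (F *ᵥ u) := by
    refine ⟨fun κ => if κ = ν then μ1 else if κ = ν' then μ2 else
      if h : κ ≠ ν ∧ κ ≠ ν' then μ3 ⟨κ, h⟩ else 0, ?_, ?_, ?_⟩
    · simp
    · simp [hne.symm]
    · intro κ h1 h2 u hu
      have e : (if κ = ν then μ1 else if κ = ν' then μ2 else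
        if h : κ ≠ ν ∧ κ ≠ ν' then μ3 ⟨κ, h⟩ else 0) = μ3 ⟨κ, h1, h2⟩ := by
        rw [if_neg h1, if_neg h2, dif_pos ⟨h1, h2⟩]
      change w *ᵥ u = (if κ = ν then μ1 else if κ = ν' then μ2 else
        if h : κ ≠ ν ∧ κ ≠ ν' then μ3 ⟨κ, h⟩ else 0) • (F *ᵥ u)
      rw [e]
      exact hμ3 ⟨κ, h1, h2⟩ u hu
  obtain ⟨μ, e1, e2, e3⟩ := hμν
  have hq := SWd275.wd_QG (ctx S) S.hR S.hD (S.hNil F S.hF) S.hP S.hf.1 A.ctx A.nn hm.mv fr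
    hs1 (SUniq803.mem_of_Cq hU1) hs2 (SUniq803.mem_of_Cq hU2) (Γ1 := Γ1) (Γ2 := Γ2) (β := β)
    (γ := γ) (γ0 := γ0) (fun v _ => by rw [hm.n2]) (fun v _ => by rw [hm.n1]) hm.dec.rb hm.dec.rk
    hy.rk hc (fun κ h1 h2 u hu => ⟨_, h3 κ h1 h2 u hu, fun v _ => rfl⟩) hw hHw (μ := μ)
    (by rw [e1]; exact L1) (by rw [e2]; exact L2) e3
    (Pb := fun μ : K => (SLev0.PbK arm J B F R P.1 D μ)) (nu := id) (fun i => le_rfl) hs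
  obtain ⟨p21, p12⟩ := hB4 hU1 hs1 hi1 ha1 hU2 hs2 hi2 ha2 hm hy
    ((1 + a * ν) * (1 + a * ν') * ν1 - μ2 * (1 + a * ν) ^ 2)
  have q3 : ∀ (e : K) (Z : Fin 3 → Matrix δ δ K),
      ∑ s, F * (e • Z s) * (Fᵀ * J * (P.1 * F)) * E K arm s =
        e • ∑ s, F * Z s * (Fᵀ * J * (P.1 * F)) * E K arm s := by
    intro e Z
    rw [Finset.smul_sum]
    exact Finset.sum_congr rfl fun s _ => by
      rw [Matrix.mul_smul, Matrix.smul_mul, Matrix.smul_mul]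
  have p12 := Submodule.smul_mem _ ((1 + a * ν) * (1 + a * ν') * ν2 - μ1 * (1 + a * ν') ^ 2) p12
  rw [← q3 _ (fun s => U1 * (X'' s)ᵀ * U2ᵀ)] at p12
  clear q3
  have hr0 : -(((1 + a * ν') / (1 + a * ν)) ^ 2) ≠ 0 :=
    neg_ne_zero.2 (pow_ne_zero 2 (div_ne_zero hc2 hc1))
  obtain ⟨⟨z1, -⟩, -, z2⟩ := SUniq803.dec_uniq S hU1 hs1 hi1 ha1 hU2 hs2 hi2 ha2 hr0 hy' hm.dec rfl
  have z2 := z2 P.1
  change F * U1 * β' = F * U1 * β at z1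
  change Fᵀ * J * (P.1 * F) * U2 * γ' = Fᵀ * J * (P.1 * F) * U2 * γ at z2
  have hsk : (Fᵀ * J * (P.1 * F))ᵀ = -(Fᵀ * J * (P.1 * F)) := fr.skew
  revert hq p21 p12 z2 hsk
  generalize Fᵀ * J * (P.1 * F) = S0
  intro hq p21 p12 z2 hsk
  have spl : ∀ (A1 A2 A3 A4 : Fin 3 → Matrix δ δ K),
      ∑ s, F * (A1 s + A2 s + A3 s + A4 s) * S0 * E K arm s =
      ∑ s, F * A1 s * S0 * E K arm s + ∑ s, F * A2 s * S0 * E K arm s +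
      ∑ s, F * A3 s * S0 * E K arm s + ∑ s, F * A4 s * S0 * E K arm s := by
    intro A1 A2 A3 A4
    simp only [Matrix.mul_add, Matrix.add_mul, Finset.sum_add_distrib]
  rw [spl] at hq
  have h4 := Submodule.sub_mem _ (Submodule.sub_mem _ hq p12) p21
  rw [add_sub_cancel_right, add_sub_cancel_right] at h4
  have h5 := Submodule.smul_mem _ ((1 + a * ν) * (1 + a * ν'))⁻¹ h4
  have t3 : γ'ᵀ * (U2ᵀ * S0) = γᵀ * (U2ᵀ * S0) := by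
    have e : ∀ g : Matrix (Fin m2) (Fin m1) K, gᵀ * (U2ᵀ * S0) = -(S0 * U2 * g)ᵀ := by
      intro g
      rw [transpose_mul, transpose_mul, hsk]
      simp only [Matrix.mul_neg, neg_neg]
    rw [e, e, z2]
  have hfin : Rel2 arm F S0 U1 U2 ((1 + a * ν') / (1 + a * ν)) (X, β0, γ0) (X'', β', γ') =
      ((1 + a * ν) * (1 + a * ν'))⁻¹ • (∑ s, F * (((1 + a * ν) * (1 + a * ν')) •
        (U1 * (β * X s - (X'' s)ᵀ * (U2ᵀ * S0 * U2) * X s - (X'' s)ᵀ * β0ᵀ) * U1ᵀ)) * S0 *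
          E K arm s + ∑ s, F * ((1 + a * ν') ^ 2 • (U2 * (X s * γᵀ + X s * (U1ᵀ * S0 * U1) *
            (X'' s)ᵀ - γ0 * (X'' s)ᵀ) * U2ᵀ)) * S0 * E K arm s) := by
    have q1 : ∀ s, F * (U1 * (β' * X s - (X'' s)ᵀ * (U2ᵀ * S0 * U2) * X s - (X'' s)ᵀ * β0ᵀ) *
        U1ᵀ) = F * (U1 * (β * X s - (X'' s)ᵀ * (U2ᵀ * S0 * U2) * X s - (X'' s)ᵀ * β0ᵀ) *
        U1ᵀ) := by
      intro s
      have q : ∀ (b : Matrix (Fin m1) (Fin m2) K) (M M' : Matrix (Fin m1) (Fin m1) K),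
          F * (U1 * (b * X s - M - M') * U1ᵀ) =
          F * U1 * b * (X s * U1ᵀ) - F * (U1 * M * U1ᵀ) - F * (U1 * M' * U1ᵀ) := by
        intro b M M'
        simp only [Matrix.mul_sub, Matrix.sub_mul, Matrix.mul_assoc]
      rw [q, q, z1]
    have q2 : ∀ s, F * (U2 * (X s * γ'ᵀ + X s * (U1ᵀ * S0 * U1) * (X'' s)ᵀ - γ0 * (X'' s)ᵀ) *
        U2ᵀ) * S0 = F * (U2 * (X s * γᵀ + X s * (U1ᵀ * S0 * U1) * (X'' s)ᵀ - γ0 * (X'' s)ᵀ) *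
        U2ᵀ) * S0 := by
      intro s
      have q : ∀ (b : Matrix (Fin m2) (Fin m1) K) (M M' : Matrix (Fin m2) (Fin m2) K),
          F * (U2 * (X s * bᵀ + M - M') * U2ᵀ) * S0 =
          F * (U2 * X s) * (bᵀ * (U2ᵀ * S0)) + F * (U2 * M * U2ᵀ) * S0 -
            F * (U2 * M' * U2ᵀ) * S0 := by
        intro b M M'
        simp only [Matrix.mul_sub, Matrix.sub_mul, Matrix.mul_add, Matrix.add_mul,
          Matrix.mul_assoc]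
      rw [q, q, t3]
    have q3 : ∀ (e : K) (Z : Fin 3 → Matrix δ δ K),
        ∑ s, F * (e • Z s) * S0 * E K arm s = e • ∑ s, F * Z s * S0 * E K arm s := by
      intro e Z
      rw [Finset.smul_sum]
      exact Finset.sum_congr rfl fun s _ => by
        rw [Matrix.mul_smul, Matrix.smul_mul, Matrix.smul_mul]
    rw [q3, q3, smul_add, smul_smul, smul_smul,
      inv_mul_cancel₀ (mul_ne_zero hc1 hc2), one_smul]
    have q4 : ((1 + a * ν) * (1 + a * ν'))⁻¹ * (1 + a * ν') ^ 2 = (1 + a * ν') / (1 + a * ν) := by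
      field_simp
    rw [q4]
    have w1 : ∑ s, F * (U1 * (β' * X s - (X'' s)ᵀ * (U2ᵀ * S0 * U2) * X s - (X'' s)ᵀ * β0ᵀ) *
        U1ᵀ) * S0 * E K arm s = ∑ s, F * (U1 * (β * X s - (X'' s)ᵀ * (U2ᵀ * S0 * U2) * X s -
        (X'' s)ᵀ * β0ᵀ) * U1ᵀ) * S0 * E K arm s :=
      Finset.sum_congr rfl fun s _ => by rw [q1]
    have w2 : ∑ s, F * (U2 * (X s * γ'ᵀ + X s * (U1ᵀ * S0 * U1) * (X'' s)ᵀ - γ0 * (X'' s)ᵀ) *
        U2ᵀ) * S0 * E K arm s = ∑ s, F * (U2 * (X s * γᵀ + X s * (U1ᵀ * S0 * U1) * (X'' s)ᵀ -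
        γ0 * (X'' s)ᵀ) * U2ᵀ) * S0 * E K arm s :=
      Finset.sum_congr rfl fun s _ => by rw [q2]
    rw [← w1, ← w2]
    rfl
  rw [hfin]
  exact h5

/-- **geometric core**: from `B1` and `B4` on an infinite set of parameters -/
theorem core (S : Setup arm J B N W F f P R D l) {ν ν' : K} (hne : ν ≠ ν')
    {dY : Derivation ℂ K K} {T : Set ℂ} (hT : T.Infinite)
    (Pt : ℂ → Matrix ι ι K × (Fin 3 → Matrix ι ι K))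
    (A : ∀ t ∈ T, At arm J B N W F f P.1 dY (algebraMap ℂ K t) (Pt t))
    (ht0 : ∀ t ∈ T, t ≠ 0)
    (hc1 : ∀ t ∈ T, 1 + algebraMap ℂ K t * ν ≠ 0) (hc2 : ∀ t ∈ T, 1 + algebraMap ℂ K t * ν' ≠ 0)
    (hc : ∀ t ∈ T, ∀ κ, QQb S κ ≠ ⊥ → 1 + algebraMap ℂ K t * κ ≠ 0)
    (hB1 : ∀ t ∈ T, B1At S (algebraMap ℂ K t) ν ν' (Pt t))
    (hB4 : ∀ t ∈ T, B4At S (algebraMap ℂ K t) ν ν' (Pt t))
    {m1 m2 : ℕ} {U1 : Matrix δ (Fin m1) K} {U2 : Matrix δ (Fin m2) K}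
    {a1 : Fin 3 → Matrix (Fin m1) (Fin m1) K} {a2 : Fin 3 → Matrix (Fin m2) (Fin m2) K}
    (hU1 : UFr.Cq (QQb S ν) U1) (hs1 : ∀ u ∈ QQb S ν, ∃ x, u = U1 *ᵥ x)
    (hi1 : ∀ x, U1 *ᵥ x = 0 → x = 0)
    (ha1 : ∀ s, B * E K arm s * (Fᵀ * J * (P.1 * F)) * U1 = U1 * a1 s)
    (hU2 : UFr.Cq (QQb S ν') U2) (hs2 : ∀ u ∈ QQb S ν', ∃ x, u = U2 *ᵥ x)
    (hi2 : ∀ x, U2 *ᵥ x = 0 → x = 0)
    (ha2 : ∀ s, B * E K arm s * (Fᵀ * J * (P.1 * F)) * U2 = U2 * a2 s) :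
    ∃ Λ : Set K, Λ.Infinite ∧ (0 : K) ∉ Λ ∧
      (∀ r ∈ Λ, ∀ X : Fin 3 → Matrix (Fin m2) (Fin m1) K,
        ∑ s, (X s * (a1 s)ᵀ - (-(r ^ 2)) • (a2 s * X s)) = 0 →
        (∀ s, (U2ᵀ * (Fᵀ * J * (P.1 * F)) * U2) * (X s * (a1 s)ᵀ - (-(r ^ 2)) • (a2 s * X s)) *
          (U1ᵀ * (Fᵀ * J * (P.1 * F)) * U1) = 0) →
        ∃ β γ, Dec F (Fᵀ * J * (P.1 * F)) U1 U2 a1 a2 (-(r ^ 2)) (X, β, γ) ∧
          (∀ x, F *ᵥ (U2 *ᵥ x) = 0 → ∃ z, F *ᵥ (U1 *ᵥ (β *ᵥ x)) = F *ᵥ (U2 *ᵥ z)) ∧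
          (∀ x, F *ᵥ (U1 *ᵥ x) = 0 → ∃ z, F *ᵥ (U2 *ᵥ (γ *ᵥ x)) = F *ᵥ (U1 *ᵥ z))) ∧
      (∀ r ∈ Λ, ∀ r' ∈ Λ, ∀ y y' : D3 K (Fin m1) (Fin m2),
        Dec F (Fᵀ * J * (P.1 * F)) U1 U2 a1 a2 (-(r ^ 2)) y →
        Dec F (Fᵀ * J * (P.1 * F)) U1 U2 a1 a2 (-(r' ^ 2)) y' →
        Rel2 arm F (Fᵀ * J * (P.1 * F)) U1 U2 r' y y' ∈ QGs arm J B N W F P R D) := by
  have hinj : Set.InjOn
      (fun t : ℂ => (1 + algebraMap ℂ K t * ν') / (1 + algebraMap ℂ K t * ν)) T := by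
    intro s hs t ht hst
    have h1 : (1 + algebraMap ℂ K s * ν') / (1 + algebraMap ℂ K s * ν) =
        (1 + algebraMap ℂ K t * ν') / (1 + algebraMap ℂ K t * ν) := hst
    rw [div_eq_div_iff (hc1 s hs) (hc1 t ht)] at h1
    have h2 : (algebraMap ℂ K s - algebraMap ℂ K t) * (ν' - ν) = 0 := by linear_combination h1
    rcases mul_eq_zero.1 h2 with h3 | h3
    · exact (algebraMap ℂ K).injective (sub_eq_zero.1 h3)
    · exact absurd (sub_eq_zero.1 h3).symm hne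
  set Rr : Set K := (fun t : ℂ => (1 + algebraMap ℂ K t * ν') / (1 + algebraMap ℂ K t * ν)) '' T
    with hRr
  have hRinf : Rr.Infinite := hT.image hinj
  have hR0 : (0 : K) ∉ Rr := by
    rintro ⟨t, ht, h⟩
    exact div_ne_zero (hc2 t ht) (hc1 t ht) h
  obtain ⟨Sf, hSf, hsep⟩ := sep S (dY := dY) (Qm := fun κ : {κ : K // κ ≠ ν ∧ κ ≠ ν'} => QQb S κ.1)
    hU1 hs1 hi1 ha1 hU2 hs2 hi2 ha2 hRinf hR0 (by
      rintro r ⟨t, ht, rfl⟩ X hsum harm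
      obtain ⟨d, Γ1, Γ2, β, γ, hm, h3⟩ := exists_MV S hne (A t ht)
        ((map_ne_zero _).2 (ht0 t ht)) (hc1 t ht) (hc2 t ht) (hB1 t ht) hU1 hs1 ha1 hU2 hs2 ha2
        X hsum harm
      exact ⟨β, γ, hm.dec, first_val S hne (A t ht) (hc1 t ht) (hc2 t ht) (hc t ht) hU1 hU2
        hm h3⟩)
  have hsq : {r : K | r ^ 2 ∈ Sf}.Finite := by
    classical
    have h1 : {r : K | r ^ 2 ∈ Sf} ⊆ ⋃ c ∈ Sf, {r : K | r ^ 2 = c} := by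
      intro r hr
      simp only [Set.mem_iUnion]
      exact ⟨r ^ 2, hr, rfl⟩
    refine (hSf.biUnion fun c _ => ?_).subset h1
    refine (Polynomial.nthRoots 2 c).toFinset.finite_toSet.subset ?_
    intro r hr
    rw [Finset.mem_coe, Multiset.mem_toFinset, Polynomial.mem_nthRoots (by norm_num)]
    exact hr
  refine ⟨Rr \ {r : K | r ^ 2 ∈ Sf}, hRinf.sdiff hsq, fun h => hR0 h.1, ?_, ?_⟩
  · rintro r ⟨⟨t, ht, rfl⟩, -⟩ X hsum harm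
    obtain ⟨d, Γ1, Γ2, β, γ, hm, h3⟩ := exists_MV S hne (A t ht)
      ((map_ne_zero _).2 (ht0 t ht)) (hc1 t ht) (hc2 t ht) (hB1 t ht) hU1 hs1 ha1 hU2 hs2 ha2
      X hsum harm
    obtain ⟨fr, -⟩ := fr_k1 S (A t ht).hY (A t ht).hPF hne (hc1 t ht) (hc2 t ht) hU1 hU2
    refine ⟨β, γ, hm.dec, fun x hx => ?_, fun x hx => ?_⟩
    · exact SZb978.zb (A t ht).ctx.memW hm.mv.dH fr (fun v _ => by rw [hm.n2]) x hx
    · exact SZb978.zk (A t ht).ctx.memW hm.mv.dH fr (fun v _ => by rw [hm.n1]) x hx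
  · rintro r ⟨-, hrS⟩ r' ⟨⟨t, ht, rfl⟩, -⟩ y y' hy hy'
    obtain ⟨d, Γ1, Γ2, β, γ, hm, h3⟩ := exists_MV S hne (A t ht)
      ((map_ne_zero _).2 (ht0 t ht)) (hc1 t ht) (hc2 t ht) (hB1 t ht) hU1 hs1 ha1 hU2 hs2 ha2
      y'.1 hy'.sum hy'.arm
    exact second S hne (A t ht) (hc1 t ht) (hc2 t ht) (hc t ht) (hB4 t ht) hU1 hs1 hi1 ha1
      hU2 hs2 hi2 ha2 hm h3 hy (hsep _ hrS y hy) hy' rfl

/-- B4 -/
theorem b4 (S : Setup arm J B N W F f P R D l) {ν ν' : K} (hne : ν ≠ ν')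
    (g21 : SLev0.Gens arm J B F P.1 l (QGs arm J B N W F P R D)
      (SLev0.PbK arm J B F R P.1 D ν') (SLev0.PbK arm J B F R P.1 D ν))
    (g12 : SLev0.Gens arm J B F P.1 l (QGs arm J B N W F P R D)
      (SLev0.PbK arm J B F R P.1 D ν) (SLev0.PbK arm J B F R P.1 D ν'))
    {dY : Derivation ℂ K K} {a : K} {Pt : Matrix ι ι K × (Fin 3 → Matrix ι ι K)}
    (A : At arm J B N W F f P.1 dY a Pt) (hc1 : 1 + a * ν ≠ 0) (hc2 : 1 + a * ν' ≠ 0) :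
    B4At S a ν ν' Pt := by
  intro m1 m2 U1 U2 a1 a2 hU1 hs1 hi1 ha1 hU2 hs2 hi2 ha2 X' d Γ1 Γ2 β γ hm c y hy κ
  obtain ⟨fr, -⟩ := fr_k1 S A.hY A.hPF hne hc1 hc2 hU1 hU2
  exact SB4x930.parts S hU1 hs1 ha1 hU2 hs2 ha2 g21 g12 A.ctx A.nn hm.mv fr (fun s v _ => rfl)
    (fun v _ => by rw [hm.n2]) (fun v _ => by rw [hm.n1]) hy.arm hm.dec.arm κ

/-- **LEVEL 2, geometric half** -/
theorem geo22 : SDec.Geo22 := by
  intro ι _ _ δ _ _ K _ _ _ arm J B N W F f P R D l S ν ν' hne n1 n2 Q1 A1 Q2 A2 b1 b2 m1 m2 U1 U2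
    a1 a2 hU1 hs1 hi1 ha1 hU2 hs2 hi2 ha2
  obtain ⟨Y0, dY, -, -, -, hfam⟩ := SInst.family S (two_ne S)
  obtain ⟨bad, hbad, hB⟩ := SB1S965.b1 S (two_ne S)
  choose Pt Ri hk using hfam
  obtain ⟨g21, g12⟩ := SLevA455.gens0 S hne b1 b2
  have hA : ∀ t, At arm J B N W F f P.1 dY (algebraMap ℂ K t) (Pt t) := fun t =>
    ⟨(hk t).1, (hk t).2.1, (hk t).2.2.1, (hk t).2.2.2.1, (hk t).2.2.2.2.2.1,
      (hk t).2.2.2.2.2.2.1, (hk t).2.2.2.2.2.2.2⟩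
  have hTinf : (TT K ν ν' \ (bad ∪ {0})).Infinite :=
    (TT_infinite ν ν').sdiff (hbad.union (Set.finite_singleton 0))
  obtain ⟨Λ, h1, h2, h3, h4⟩ := core S hne (dY := dY) hTinf Pt (fun t _ => hA t)
    (fun t ht h => ht.2 (Or.inr h)) (fun t ht => ht.1.1) (fun t ht => ht.1.2)
    (fun t ht κ hκ => (hB t fun h => ht.2 (Or.inl h)).1 κ hκ) (fun t ht => by
      intro m1 m2 U1 U2 a1 a2 hU1 hU2 hs1 hs2 ha1 ha2 X hsum harm d m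
      refine (hB t fun h => ht.2 (Or.inl h)).2 (Pt t) dY (hA t).nn (hA t).hY (hA t).hPF
        (fun r => ?_) m hne hU1 hU2 hs1 hs2 ha1 ha2 (fun r => rfl) (fun r => ?_)
      · simp only [transpose_add, transpose_mul, transpose_transpose, Matrix.mul_assoc]
        rw [add_comm]
      · have e2 : (1 + algebraMap ℂ K t * ν) ^ 2 *
            (-(((1 + algebraMap ℂ K t * ν') / (1 + algebraMap ℂ K t * ν)) ^ 2)) =
            -((1 + algebraMap ℂ K t * ν') ^ 2) := by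
          have := ht.1.1
          rw [div_pow, mul_neg, mul_div_cancel₀ _ (pow_ne_zero 2 this)]
        have e3 : (1 + algebraMap ℂ K t * ν) ^ 2 • (X r * (a1 r)ᵀ) +
            (1 + algebraMap ℂ K t * ν') ^ 2 • (a2 r * X r) = (1 + algebraMap ℂ K t * ν) ^ 2 •
            (X r * (a1 r)ᵀ - (-(((1 + algebraMap ℂ K t * ν') /
              (1 + algebraMap ℂ K t * ν)) ^ 2)) • (a2 r * X r)) := by
          rw [smul_sub, smul_smul, e2, neg_smul, sub_neg_eq_add]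
        rw [e3, Matrix.mul_smul, Matrix.smul_mul, harm r, smul_zero])
    (fun t ht => b4 S hne g21 g12 (hA t) ht.1.1 ht.1.2) hU1 hs1 hi1 ha1 hU2 hs2 hi2 ha2
  refine ⟨Λ, h1, h2, fun r hr X hX hX' => ?_, h4⟩
  obtain ⟨β, γ, q1, q2, q3⟩ := h3 r hr X hX hX'
  exact ⟨β, γ, q1, q2, q3⟩

end Crest.Agent.R172.SGeo978b
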