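import Crest.Agent.R172.SUXF
import Crest.Agent.R172.SUB

/-!
Row 172 (S0260), S-side, node L2-c (II): frames from inclusions and the equations of the
corrections `β`, `γ` at the `K^δ` level.
-/

set_option autoImplicit false
set_option linter.unusedSectionVars false

namespace Crest.Agent.R172.SNF16

open Matrix Module Crest.Agent.R172.FO Crest.Agent.R172.Qt Crest.Agent.R172.SUX
  Crest.Agent.R172.SUB Crest.Agent.R172.SpS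

variable {ι : Type*} [Fintype ι] [DecidableEq ι] {δ : Type*} [Fintype δ] [DecidableEq δ]
variable {n1 n2 : Type*} [Fintype n1] [DecidableEq n1] [Fintype n2] [DecidableEq n2]
variable {k K : Type*} [Field k] [Field K] [Algebra k K]
variable {arm : δ → Fin 3} {J : Matrix ι ι K} {B : Matrix δ δ K}
  {N W : Submodule K (Matrix ι δ K)} {F H : Matrix ι δ K}

/-- **frames from inclusions** -/
theorem frame_of_incl {U1 : Matrix δ n1 K} {U2 : Matrix δ n2 K} {Q2 R1 : Submodule K (δ → K)}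
    (h2 : ∀ q ∈ Q2, ∃ x, q = U2 *ᵥ x) (h1 : ∀ r ∈ R1, ∃ x, r = U1 *ᵥ x) {c : K} (hc : c ≠ 0)
    {Nb : Matrix δ n2 K} (hN : ∀ j, (fun i => Nb i j) ∈ Q2 ⊔ R1) :
    ∃ (Γ : Matrix n2 n2 K) (β : Matrix n1 n2 K), Nb = U2 * Γ + c • (U1 * β) ∧
      ∀ y, U1 *ᵥ (β *ᵥ y) ∈ R1 := by
  classical
  have h : ∀ j, ∃ (x : n2 → K) (y : n1 → K), U1 *ᵥ y ∈ R1 ∧
      (fun i => Nb i j) = U2 *ᵥ x + U1 *ᵥ y := by
    intro j
    obtain ⟨q, hq, r, hr, e⟩ := Submodule.mem_sup.1 (hN j)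
    obtain ⟨x, hx⟩ := h2 q hq
    obtain ⟨y, hy⟩ := h1 r hr
    exact ⟨x, y, hy ▸ hr, by rw [← e, hx, hy]⟩
  choose x y hy hxy using h
  refine ⟨Matrix.of fun i j => x j i, Matrix.of fun i j => c⁻¹ * y j i, ?_, fun v => ?_⟩
  · ext a j
    have e := congrFun (hxy j) a
    simp only [Pi.add_apply] at e
    rw [e]
    simp only [Matrix.add_apply, Matrix.smul_apply, smul_eq_mul, Matrix.mul_apply, Matrix.of_apply,
      mulVec, dotProduct, Finset.mul_sum]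
    congr 1
    refine Finset.sum_congr rfl fun i _ => ?_
    rw [mul_left_comm, ← mul_assoc c, mul_inv_cancel₀ hc, one_mul]
  · have e : (Matrix.of fun i j => c⁻¹ * y j i : Matrix n1 n2 K) *ᵥ v =
        ∑ j, (c⁻¹ * v j) • y j := by
      funext i
      rw [Finset.sum_apply]
      simp only [mulVec, dotProduct, Matrix.of_apply, Pi.smul_apply, smul_eq_mul]
      refine Finset.sum_congr rfl fun j _ => ?_
      ring
    rw [e, mulVec_sum]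
    refine Submodule.sum_mem _ fun j _ => ?_
    rw [mulVec_smul]
    exact R1.smul_mem _ (hy j)

variable {P : Matrix ι ι K × (Fin 3 → Matrix ι ι K)} {S0 : Matrix δ δ K} {c1 c2 : K}
  {U1 : Matrix δ n1 K} {U2 : Matrix δ n2 K} {Y : Fin 3 → Matrix δ δ K} {d : Derivation k K K}
  {Γ1 : Matrix n1 n1 K} {Γ2 : Matrix n2 n2 K} {β : Matrix n1 n2 K} {γ : Matrix n2 n1 K}
  {A1 : Fin 3 → Matrix n1 n1 K} {A2 : Fin 3 → Matrix n2 n2 K} {X : Fin 3 → Matrix n2 n1 K}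

/-- the intersection of the blocks is killed by `F` and `S0`. -/
theorem inter_kill (fr : Fr J F H P.1 S0 c1 c2 U1 U2) (hne : c1 ≠ c2) {n : Type*} [Fintype n]
    {V1 : Matrix n1 n K} {V2 : Matrix n2 n K} (h : U2 * V2 = U1 * V1) :
    F * (U1 * V1) = 0 ∧ S0 * (U1 * V1) = 0 := by
  have hs : c1 - c2 ≠ 0 := sub_ne_zero.2 hne
  constructor
  · have e1 : H * (U1 * V1) = c1 • (F * (U1 * V1)) := by
      rw [← Matrix.mul_assoc, fr.H1, Matrix.smul_mul, Matrix.mul_assoc]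
    have e2 : H * (U1 * V1) = c2 • (F * (U1 * V1)) := by
      rw [← h, ← Matrix.mul_assoc, fr.H2, Matrix.smul_mul, Matrix.mul_assoc]
    have e3 : (c1 - c2) • (F * (U1 * V1)) = 0 := by
      rw [sub_smul, ← e1, ← e2, sub_self]
    exact (smul_eq_zero.1 e3).resolve_left hs
  · have e1 : th J H P.1 F * (U1 * V1) = c1 • (S0 * (U1 * V1)) := by
      rw [← Matrix.mul_assoc, fr.T1, Matrix.smul_mul, Matrix.mul_assoc]
    have e2 : th J H P.1 F * (U1 * V1) = c2 • (S0 * (U1 * V1)) := by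
      rw [← h, ← Matrix.mul_assoc, fr.T2, Matrix.smul_mul, Matrix.mul_assoc]
    have e3 : (c1 - c2) • (S0 * (U1 * V1)) = 0 := by
      rw [sub_smul, ← e1, ← e2, sub_self]
    exact (smul_eq_zero.1 e3).resolve_left hs

/-- **the equation of `β` in `K^δ`** -/
theorem corU (h : Ctx k arm J B N W H) (hP : P ∈ NN arm J N H) (hYs : ∀ r, (Y r)ᵀ = Y r)
    (m : Mv k arm J N W H P.1 Y d) (fr : Fr J F H P.1 S0 c1 c2 U1 U2)
    (hA1 : ∀ r, B * E K arm r * S0 * U1 = U1 * A1 r)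
    (hA2 : ∀ r, B * E K arm r * S0 * U2 = U2 * A2 r)
    (hY : ∀ r, Y r = U2 * X r * U1ᵀ + U1 * (X r)ᵀ * U2ᵀ)
    (hN2 : U2.map d + ZY arm J H P.1 Y * U2 = U2 * Γ2 + c2 ^ 2 • (U1 * β)) (r : Fin 3) :
    U2 * ((2 * (d c2 / c2)) • A2 r + Γ2 * A2 r + (A2 r).map d - A2 r * Γ2) =
      U1 * (c1 ^ 2 • (A1 r * (β - (X r)ᵀ * (U2ᵀ * S0 * U2))) -
        c2 ^ 2 • ((β - (X r)ᵀ * (U2ᵀ * S0 * U2)) * A2 r)) := by
  obtain ⟨O, hO⟩ : ∃ O : Matrix δ δ K, O = om arm J B H P.1 r := ⟨_, rfl⟩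
  obtain ⟨Z, hZ⟩ : ∃ Z : Matrix δ δ K, Z = ZY arm J H P.1 Y := ⟨_, rfl⟩
  obtain ⟨S, hS⟩ : ∃ S : Matrix δ δ K, S = th J H P.1 H := ⟨_, rfl⟩
  obtain ⟨G2, hG2⟩ : ∃ G2 : Matrix n2 n2 K, G2 = U2ᵀ * S0 * U2 := ⟨_, rfl⟩
  have hm := om_map h hP hYs m r
  rw [← hO, ← hZ, ← hS] at hm
  rw [← hZ] at hN2
  have hOU2 : O * U2 = c2 ^ 2 • (U2 * A2 r) := by
    rw [hO]
    unfold om omF
    rw [Matrix.mul_assoc _ (th J H P.1 H), fr.S2, Matrix.mul_smul, ← hA2]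
    simp only [Matrix.mul_assoc]
  have hOU1 : O * U1 = c1 ^ 2 • (U1 * A1 r) := by
    rw [hO]
    unfold om omF
    rw [Matrix.mul_assoc _ (th J H P.1 H), fr.S1, Matrix.mul_smul, ← hA1]
    simp only [Matrix.mul_assoc]
  have hSU2 : S * U2 = c2 ^ 2 • (S0 * U2) := by rw [hS]; exact fr.S2
  have hYS : Y r * (S0 * U2) = U1 * ((X r)ᵀ * G2) := by
    rw [hY, Matrix.add_mul, hG2]
    have e1 : U2 * X r * U1ᵀ * (S0 * U2) = 0 := by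
      rw [Matrix.mul_assoc (U2 * X r), ← Matrix.mul_assoc U1ᵀ, fr.orth, Matrix.mul_zero]
    rw [e1, zero_add]
    simp only [Matrix.mul_assoc]
  -- the key equation
  have key : (O * U2).map d + Z * (O * U2) =
      O * (U2.map d + Z * U2) + Y r * (S * (O * U2)) - O * (Y r * (S * U2)) := by
    rw [map_mul_der, hm]
    simp only [Matrix.add_mul, Matrix.sub_mul, Matrix.mul_add, Matrix.mul_assoc]
    abel
  rw [hN2, hOU2, hSU2] at key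
  have e1 : (c2 ^ 2 • (U2 * A2 r)).map d + Z * (c2 ^ 2 • (U2 * A2 r)) =
      (d (c2 ^ 2)) • (U2 * A2 r) + c2 ^ 2 • ((U2 * Γ2 + c2 ^ 2 • (U1 * β)) * A2 r) +
        c2 ^ 2 • (U2 * (A2 r).map d) := by
    rw [map_smul_der, map_mul_der, ← hN2]
    simp only [Matrix.add_mul, Matrix.mul_smul, smul_add, Matrix.mul_assoc]
    abel
  have e2 : O * (U2 * Γ2 + c2 ^ 2 • (U1 * β)) =
      c2 ^ 2 • (U2 * A2 r * Γ2) + (c2 ^ 2 * c1 ^ 2) • (U1 * A1 r * β) := by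
    rw [Matrix.mul_add, Matrix.mul_smul, ← Matrix.mul_assoc, ← Matrix.mul_assoc, hOU2, hOU1,
      Matrix.smul_mul, Matrix.smul_mul, smul_smul]
  have e3 : Y r * (S * (c2 ^ 2 • (U2 * A2 r))) =
      (c2 ^ 2 * c2 ^ 2) • (U1 * ((X r)ᵀ * G2) * A2 r) := by
    rw [Matrix.mul_smul, ← Matrix.mul_assoc S, hSU2, Matrix.smul_mul, smul_smul, Matrix.mul_smul,
      ← Matrix.mul_assoc (Y r), hYS]
  have e4 : O * (Y r * (c2 ^ 2 • (S0 * U2))) =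
      (c2 ^ 2 * c1 ^ 2) • (U1 * A1 r * ((X r)ᵀ * G2)) := by
    rw [Matrix.mul_smul, hYS, Matrix.mul_smul, ← Matrix.mul_assoc, hOU1, Matrix.smul_mul, smul_smul]
  rw [e1, e2, e3, e4] at key
  have hc2 := fr.hc2
  have hc : c2 ^ 2 ≠ 0 := pow_ne_zero 2 hc2
  have hd : d (c2 ^ 2) = c2 ^ 2 * (2 * (d c2 / c2)) := by
    rw [Derivation.leibniz_pow]
    simp only [smul_eq_mul, nsmul_eq_mul, Nat.cast_ofNat, Nat.add_one_sub_one, pow_one]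
    field_simp
  rw [hd] at key
  rw [← hG2]
  have fin : c2 ^ 2 • (U2 * ((2 * (d c2 / c2)) • A2 r + Γ2 * A2 r + (A2 r).map d - A2 r * Γ2)) =
      c2 ^ 2 • (U1 * (c1 ^ 2 • (A1 r * (β - (X r)ᵀ * G2)) -
        c2 ^ 2 • ((β - (X r)ᵀ * G2) * A2 r))) := by
    simp only [Matrix.mul_add, Matrix.mul_sub, Matrix.add_mul, Matrix.sub_mul, Matrix.mul_smul,
      Matrix.smul_mul, smul_add, smul_sub, smul_smul, Matrix.mul_assoc] at key ⊢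
    rw [← sub_eq_zero] at key ⊢
    rw [← key]
    module
  exact smul_right_injective _ hc fin

/-- **Cor of `β`**: `F U1 (A1 (β - Xᵀ G2) - ρ² (β - Xᵀ G2) A2) = 0` and the same for `S0` -/
theorem cor_beta (h : Ctx k arm J B N W H) (hP : P ∈ NN arm J N H) (hYs : ∀ r, (Y r)ᵀ = Y r)
    (m : Mv k arm J N W H P.1 Y d) (fr : Fr J F H P.1 S0 c1 c2 U1 U2) (hne : c1 ≠ c2)
    (hA1 : ∀ r, B * E K arm r * S0 * U1 = U1 * A1 r)
    (hA2 : ∀ r, B * E K arm r * S0 * U2 = U2 * A2 r)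
    (hY : ∀ r, Y r = U2 * X r * U1ᵀ + U1 * (X r)ᵀ * U2ᵀ)
    (hN2 : U2.map d + ZY arm J H P.1 Y * U2 = U2 * Γ2 + c2 ^ 2 • (U1 * β)) (r : Fin 3) :
    F * (U1 * (A1 r * (β - (X r)ᵀ * (U2ᵀ * S0 * U2)) -
        (c2 / c1) ^ 2 • ((β - (X r)ᵀ * (U2ᵀ * S0 * U2)) * A2 r))) = 0 ∧
    S0 * (U1 * (A1 r * (β - (X r)ᵀ * (U2ᵀ * S0 * U2)) -
        (c2 / c1) ^ 2 • ((β - (X r)ᵀ * (U2ᵀ * S0 * U2)) * A2 r))) = 0 := by
  have e := corU h hP hYs m fr hA1 hA2 hY hN2 r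
  obtain ⟨k1, k2⟩ := inter_kill fr hne e
  have hc1 : c1 ^ 2 ≠ 0 := pow_ne_zero 2 fr.hc1
  have e5 : c1 ^ 2 • (A1 r * (β - (X r)ᵀ * (U2ᵀ * S0 * U2))) -
        c2 ^ 2 • ((β - (X r)ᵀ * (U2ᵀ * S0 * U2)) * A2 r) =
      c1 ^ 2 • (A1 r * (β - (X r)ᵀ * (U2ᵀ * S0 * U2)) -
        (c2 / c1) ^ 2 • ((β - (X r)ᵀ * (U2ᵀ * S0 * U2)) * A2 r)) := by
    rw [smul_sub, smul_smul, div_pow, mul_div_cancel₀ _ hc1]
  rw [e5, Matrix.mul_smul, Matrix.mul_smul] at k1 k2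
  exact ⟨(smul_eq_zero.1 k1).resolve_left hc1, (smul_eq_zero.1 k2).resolve_left hc1⟩

/-- **the diagonal part of `∇` on `Q_2`**: `[∇_22, A2] = - 2 (d c2 / c2) A2` modulo elements killed
by `F` and `S0` -/
theorem diag2 (h : Ctx k arm J B N W H) (hP : P ∈ NN arm J N H) (hYs : ∀ r, (Y r)ᵀ = Y r)
    (m : Mv k arm J N W H P.1 Y d) (fr : Fr J F H P.1 S0 c1 c2 U1 U2) (hne : c1 ≠ c2)
    (hA1 : ∀ r, B * E K arm r * S0 * U1 = U1 * A1 r)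
    (hA2 : ∀ r, B * E K arm r * S0 * U2 = U2 * A2 r)
    (hY : ∀ r, Y r = U2 * X r * U1ᵀ + U1 * (X r)ᵀ * U2ᵀ)
    (hN2 : U2.map d + ZY arm J H P.1 Y * U2 = U2 * Γ2 + c2 ^ 2 • (U1 * β)) (r : Fin 3) :
    F * (U2 * ((2 * (d c2 / c2)) • A2 r + Γ2 * A2 r + (A2 r).map d - A2 r * Γ2)) = 0 ∧
    S0 * (U2 * ((2 * (d c2 / c2)) • A2 r + Γ2 * A2 r + (A2 r).map d - A2 r * Γ2)) = 0 := by
  have e := corU h hP hYs m fr hA1 hA2 hY hN2 r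
  obtain ⟨k1, k2⟩ := inter_kill fr hne e
  rw [e]
  exact ⟨k1, k2⟩

theorem hY_symm (hY : ∀ r, Y r = U2 * X r * U1ᵀ + U1 * (X r)ᵀ * U2ᵀ) (r : Fin 3) :
    Y r = U1 * (X r)ᵀ * U2ᵀ + U2 * ((X r)ᵀ)ᵀ * U1ᵀ := by
  rw [hY, transpose_transpose, add_comm]

/-- **Cor of `γ`** -/
theorem cor_gamma (h : Ctx k arm J B N W H) (hP : P ∈ NN arm J N H) (hYs : ∀ r, (Y r)ᵀ = Y r)
    (m : Mv k arm J N W H P.1 Y d) (fr : Fr J F H P.1 S0 c1 c2 U1 U2) (hne : c1 ≠ c2)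
    (hA1 : ∀ r, B * E K arm r * S0 * U1 = U1 * A1 r)
    (hA2 : ∀ r, B * E K arm r * S0 * U2 = U2 * A2 r)
    (hY : ∀ r, Y r = U2 * X r * U1ᵀ + U1 * (X r)ᵀ * U2ᵀ)
    (hN1 : U1.map d + ZY arm J H P.1 Y * U1 = U1 * Γ1 + c1 ^ 2 • (U2 * γ)) (r : Fin 3) :
    F * (U2 * (A2 r * (γ - X r * (U1ᵀ * S0 * U1)) -
        (c1 / c2) ^ 2 • ((γ - X r * (U1ᵀ * S0 * U1)) * A1 r))) = 0 ∧
    S0 * (U2 * (A2 r * (γ - X r * (U1ᵀ * S0 * U1)) -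
        (c1 / c2) ^ 2 • ((γ - X r * (U1ᵀ * S0 * U1)) * A1 r))) = 0 := by
  have := cor_beta h hP hYs m fr.symm (Ne.symm hne) hA2 hA1 (hY_symm hY) hN1 r
  simpa only [transpose_transpose] using this

/-- the diagonal part of `∇` on `Q_1` -/
theorem diag1 (h : Ctx k arm J B N W H) (hP : P ∈ NN arm J N H) (hYs : ∀ r, (Y r)ᵀ = Y r)
    (m : Mv k arm J N W H P.1 Y d) (fr : Fr J F H P.1 S0 c1 c2 U1 U2) (hne : c1 ≠ c2)
    (hA1 : ∀ r, B * E K arm r * S0 * U1 = U1 * A1 r)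
    (hA2 : ∀ r, B * E K arm r * S0 * U2 = U2 * A2 r)
    (hY : ∀ r, Y r = U2 * X r * U1ᵀ + U1 * (X r)ᵀ * U2ᵀ)
    (hN1 : U1.map d + ZY arm J H P.1 Y * U1 = U1 * Γ1 + c1 ^ 2 • (U2 * γ)) (r : Fin 3) :
    F * (U1 * ((2 * (d c1 / c1)) • A1 r + Γ1 * A1 r + (A1 r).map d - A1 r * Γ1)) = 0 ∧
    S0 * (U1 * ((2 * (d c1 / c1)) • A1 r + Γ1 * A1 r + (A1 r).map d - A1 r * Γ1)) = 0 :=
  diag2 h hP hYs m fr.symm (Ne.symm hne) hA2 hA1 (hY_symm hY) hN1 r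

/-- V-level form of `cor_beta`: `F U1 = Q1 π1`, `Q1` injective. -/
theorem corV {n1' : Type*} [Fintype n1'] {Q1 : Matrix ι n1' K}
    {p1 : Matrix n1' n1 K} (hQ : F * U1 = Q1 * p1) (hinj : ∀ x, Q1 *ᵥ x = 0 → x = 0)
    {n : Type*} [Fintype n] [DecidableEq n] {V : Matrix n1 n K} (h : F * (U1 * V) = 0) :
    p1 * V = 0 := by
  have e : Q1 * (p1 * V) = 0 := by
    rw [← Matrix.mul_assoc, ← hQ, Matrix.mul_assoc, h]
  apply Matrix.ext_of_mulVec_single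
  intro j
  rw [zero_mulVec]
  apply hinj
  rw [mulVec_mulVec, e, zero_mulVec]

end Crest.Agent.R172.SNF16
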