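import Crest.Agent.R172.SCore

/-!
Row 172 (S0260), S-side (t2), node S-hN2 (helper934): the block structure of a connection `nab` with
`[nab, Om_r] = [G_r, Om_r]`, where `Om_r = sc ν • a_r` on the block `PB ν`.
-/

set_option autoImplicit false
set_option linter.unusedSectionVars false

namespace Crest.Agent.R172.SNab

open Module
open Crest.Agent.R172.St (Nk T mem_T mem_Nk_zero mem_Nk_succ Nk_le_T T_stable T_closed T_eq_Nk)
open Crest.Agent.R172.PL (Wk Ainf Rad CoreM coreOp resOp Ainf_exists Ainf_le_Wk Ainf_stable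
  Ainf_eq_Wk coreOp_mk)
open Crest.Agent.R172.SC (PB PB_mem PB_exists PB_stable PB_le_Ainf PB_surj iSup_PB mk_zero_iff)
open Crest.Agent.R172.SCB (toE toE_coe toE_surj toE_zero bR)

variable {K : Type*} [Field K] {X : Type*} [AddCommGroup X] [Module K X]

section proj

variable {V : Type*} [AddCommGroup V] [Module K V] {D : End K V}

theorem cpl (hs : ⨆ ν, D.maxGenEigenspace ν = ⊤) (μ : K) :
    IsCompl (D.maxGenEigenspace μ) (⨆ (ka : K) (_ : ka ≠ μ), D.maxGenEigenspace ka) := by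
  refine ⟨(Module.End.independent_maxGenEigenspace D) μ, ?_⟩
  rw [codisjoint_iff, eq_top_iff, ← hs]
  refine iSup_le fun ν => ?_
  by_cases h : ν = μ
  · rw [h]; exact le_sup_left
  · exact le_trans (le_iSup₂ (f := fun (ka : K) (_ : ka ≠ μ) => D.maxGenEigenspace ka) ν h)
      le_sup_right

/-- projection to a block -/
noncomputable def pr (hs : ⨆ ν, D.maxGenEigenspace ν = ⊤) (μ : K) :
    V →ₗ[K] D.maxGenEigenspace μ :=
  Submodule.projectionOnto _ _ (cpl hs μ)

theorem pr_self (hs : ⨆ ν, D.maxGenEigenspace ν = ⊤) (μ : K) (x : D.maxGenEigenspace μ) :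
    pr hs μ (x : V) = x := Submodule.projectionOnto_apply_left (cpl hs μ) x

theorem pr_self' (hs : ⨆ ν, D.maxGenEigenspace ν = ⊤) (μ : K) {x : V}
    (hx : x ∈ D.maxGenEigenspace μ) : ((pr hs μ x : D.maxGenEigenspace μ) : V) = x :=
  congrArg Subtype.val (pr_self hs μ ⟨x, hx⟩)

theorem pr_other (hs : ⨆ ν, D.maxGenEigenspace ν = ⊤) {μ ν : K} (h : ν ≠ μ) {x : V}
    (hx : x ∈ D.maxGenEigenspace ν) : pr hs μ x = 0 := by
  refine (Submodule.projectionOnto_apply_eq_zero_iff (cpl hs μ)).2 ?_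
  exact Submodule.mem_iSup_of_mem ν (Submodule.mem_iSup_of_mem h hx)

/-- a vector all of whose other components vanish -/
theorem mem_of_pr (hs : ⨆ ν, D.maxGenEigenspace ν = ⊤) (ν : K) {x : V}
    (h : ∀ μ, μ ≠ ν → pr hs μ x = 0) : x ∈ D.maxGenEigenspace ν := by
  classical
  have hx : x ∈ ⨆ ν, D.maxGenEigenspace ν := by rw [hs]; trivial
  obtain ⟨f, hf1, hf2⟩ := (Submodule.mem_iSup_iff_exists_finsupp
    (p := fun ν => D.maxGenEigenspace ν) x).1 hx
  have h1 : ∀ μ, ((pr hs μ x : D.maxGenEigenspace μ) : V) = f μ := by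
    intro μ
    rw [← hf2, Finsupp.sum, map_sum]
    rw [Submodule.coe_sum]
    by_cases hμ : μ ∈ f.support
    · rw [Finset.sum_eq_single μ]
      · exact pr_self' hs μ (hf1 μ)
      · intro b _ hb
        rw [pr_other hs hb (hf1 b)]
        rfl
      · intro h2; exact absurd hμ h2
    · rw [Finset.sum_eq_zero, Finsupp.notMem_support_iff.1 hμ]
      intro b hb
      have hb' : b ≠ μ := fun h2 => hμ (h2 ▸ hb)
      rw [pr_other hs hb' (hf1 b)]
      rfl
  have h2 : x = f ν := by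
    conv_lhs => rw [← hf2]
    rw [Finsupp.sum]
    by_cases hν : ν ∈ f.support
    · rw [Finset.sum_eq_single ν]
      · intro b _ hb
        rw [← h1 b, h b hb]
        rfl
      · intro h2; exact absurd hν h2
    · rw [Finset.sum_eq_zero, Finsupp.notMem_support_iff.1 hν]
      intro b hb
      have hb' : b ≠ ν := fun h2 => hν (h2 ▸ hb)
      rw [← h1 b, h b hb']
      rfl
  rw [h2]
  exact hf1 ν

end proj

variable {a Om G : Fin 3 → End K X} {D : End K (CoreM a)} {sc del : K → K} {nab : X →+ X}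

/-- twisted hom-vanishing -/
def Hom0 (a : Fin 3 → End K X) (D : End K (CoreM a)) (sc : K → K) : Prop :=
  ∀ lam mu, lam ≠ mu → ∀ x : D.maxGenEigenspace lam →ₗ[K] D.maxGenEigenspace mu,
    (∀ r, ∀ v w : D.maxGenEigenspace lam, (w : CoreM a) = coreOp a r v →
      sc lam • ((x w : D.maxGenEigenspace mu) : CoreM a) =
        sc mu • coreOp a r (x v : D.maxGenEigenspace mu)) → x = 0

/-- the data of the connection -/
structure NB (a Om G : Fin 3 → End K X) (D : End K (CoreM a)) (sc del : K → K)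
    (nab : X →+ X) : Prop where
  hD : ∀ s x, D (coreOp a s x) = coreOp a s (D x)
  hs : ⨆ ν, D.maxGenEigenspace ν = ⊤
  hsc : ∀ ν, ∀ u ∈ PB a D ν, ∀ r, Om r u = sc ν • a r u
  hsc0 : ∀ ν, D.maxGenEigenspace ν ≠ ⊥ → sc ν ≠ 0
  ainf : Ainf Om ≤ Ainf a
  hom : Hom0 a D sc
  leib : ∀ (c : K) (x : X), nab (c • x) = c • nab x + del c • x
  rel : ∀ r u, nab (Om r u) = Om r (nab u) + (G r (Om r u) - Om r (G r u))

/-- no vector of the core is killed by all operators -/
theorem core_zero {x : CoreM a} (h : ∀ s, coreOp a s x = 0) : x = 0 := by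
  obtain ⟨v, rfl⟩ := (Rad a).mkQ_surjective x
  have h1 : (v : X) ∈ T a := by
    refine T_closed fun s => ?_
    have h2 := h s
    rw [coreOp_mk] at h2
    exact (Submodule.Quotient.mk_eq_zero (Rad a)).1 h2
  exact (Submodule.Quotient.mk_eq_zero (Rad a)).2 h1

/-- blocks at non-eigenvalues vanish -/
theorem PB_zero [FiniteDimensional K X] (hD : ∀ s x, D (coreOp a s x) = coreOp a s (D x)) {ν : K}
    (hν : D.maxGenEigenspace ν = ⊥) {u : X} (hu : u ∈ PB a D ν) : u = 0 := by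
  obtain ⟨m, hm⟩ := T_eq_Nk a
  have h0 : ∀ u ∈ PB a D ν, u ∈ Nk a m := by
    intro v hv
    obtain ⟨h, h1⟩ := PB_mem hv
    rw [hν, Submodule.mem_bot] at h1
    rw [← hm]
    exact (mk_zero_iff h).1 h1
  have h1 : ∀ j, (∀ u ∈ PB a D ν, u ∈ Nk a j) → ∀ u ∈ PB a D ν, u = 0 := by
    intro j
    induction j with
    | zero => intro h u hu; exact mem_Nk_zero.1 (h u hu)
    | succ j ih =>
      intro h
      refine ih fun v hv => ?_
      obtain ⟨f, hf, hs⟩ := PB_exists hD ν hv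
      rw [← hs]
      exact Submodule.sum_mem _ fun s _ => mem_Nk_succ.1 (h _ (hf s)) s
  exact h1 m h0 u hu

section main

variable [FiniteDimensional K X] (h : NB a Om G D sc del nab)
include h

/-- perfectness under `Om` -/
theorem NB.exists_Om {ν : K} {u : X} (hu : u ∈ PB a D ν) :
    ∃ f : Fin 3 → X, (∀ s, f s ∈ PB a D ν) ∧ ∑ s, Om s (f s) = u := by
  by_cases hν : D.maxGenEigenspace ν = ⊥
  · refine ⟨0, fun s => Submodule.zero_mem _, ?_⟩
    rw [PB_zero h.hD hν hu]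
    simp
  · obtain ⟨f, hf, hfu⟩ := PB_exists h.hD ν hu
    refine ⟨fun s => (sc ν)⁻¹ • f s, fun s => Submodule.smul_mem _ _ (hf s), ?_⟩
    rw [← hfu]
    refine Finset.sum_congr rfl fun s _ => ?_
    rw [h.hsc ν _ (Submodule.smul_mem _ _ (hf s)), map_smul, smul_smul,
      mul_inv_cancel₀ (h.hsc0 ν hν), one_smul]

theorem NB.Om_PB {ν : K} (r : Fin 3) {u : X} (hu : u ∈ PB a D ν) : Om r u ∈ PB a D ν := by
  rw [h.hsc ν u hu]
  exact Submodule.smul_mem _ _ (PB_stable h.hD ν r hu)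

theorem NB.PB_le (ν : K) (k : ℕ) : PB a D ν ≤ Wk Om k := by
  induction k with
  | zero => exact le_top
  | succ k ih =>
    intro u hu
    obtain ⟨f, hf, rfl⟩ := h.exists_Om hu
    exact Submodule.sum_mem _ fun s _ => Submodule.mem_iSup_of_mem s ⟨f s, ih (hf s), rfl⟩

theorem NB.Om_Ainf (r : Fin 3) {y : X} (hy : y ∈ Ainf a) : Om r y ∈ Ainf a := by
  have h1 : Ainf a ≤ (Ainf a).comap (Om r) := by
    rw [← iSup_PB h.hD h.hs]
    refine iSup_le fun ν u hu => ?_
    exact Submodule.mem_iSup_of_mem ν (h.Om_PB r hu)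
  exact h1 hy

variable {ν ν' : K} (g1 : ∀ r, ∀ u ∈ PB a D ν, G r u ∈ PB a D ν')
  (gA : ∀ r, ∀ u ∈ PB a D ν, G r (Om r u) - Om r (G r u) ∈ T a)
include g1

theorem NB.nab_Ainf {u : X} (hu : u ∈ PB a D ν) : nab u ∈ Ainf a := by
  refine h.ainf ((Submodule.mem_iInf _).2 fun k => ?_)
  induction k generalizing u with
  | zero => exact Submodule.mem_top
  | succ k ih =>
    obtain ⟨f, hf, rfl⟩ := h.exists_Om hu
    rw [map_sum]
    refine Submodule.sum_mem _ fun s _ => ?_
    rw [h.rel]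
    refine Submodule.add_mem _ (Submodule.mem_iSup_of_mem s ⟨_, ih (hf s), rfl⟩) ?_
    exact Submodule.sub_mem _ (h.PB_le ν' (k + 1) (g1 s _ (h.Om_PB s (hf s))))
      (h.PB_le ν' (k + 1) (h.Om_PB s (g1 s _ (hf s))))

omit g1 in
/-- components of `Om_r y` -/
theorem NB.pr_Om (μ : K) (r : Fin 3) {y : X} (hy : y ∈ Ainf a) :
    ((pr h.hs μ ((Rad a).mkQ ⟨Om r y, h.Om_Ainf r hy⟩) : D.maxGenEigenspace μ) : CoreM a) =
      sc μ • coreOp a r (pr h.hs μ ((Rad a).mkQ ⟨y, hy⟩) : D.maxGenEigenspace μ) := by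
  have key : ∀ y : X, y ∈ ⨆ ν, PB a D ν → ∀ (h1 : y ∈ Ainf a),
      ((pr h.hs μ ((Rad a).mkQ ⟨Om r y, h.Om_Ainf r h1⟩) : D.maxGenEigenspace μ) : CoreM a) =
      sc μ • coreOp a r (pr h.hs μ ((Rad a).mkQ ⟨y, h1⟩) : D.maxGenEigenspace μ) := by
    intro y hy
    induction hy using Submodule.iSup_induction' with
    | mem lam y hy =>
      intro h1
      obtain ⟨h2, h3⟩ := PB_mem hy
      obtain ⟨h4, h5⟩ := PB_mem (h.Om_PB r hy)
      by_cases hl : lam = μ
      · subst hl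
        rw [pr_self' h.hs lam h5, pr_self' h.hs lam h3, coreOp_mk, ← map_smul]
        congr 1
        apply Subtype.ext
        exact h.hsc lam y hy r
      · rw [pr_other h.hs hl h5, pr_other h.hs hl h3]
        simp
    | zero =>
      intro h1
      have e1 : (Rad a).mkQ ⟨(0 : X), h1⟩ = 0 := map_zero _
      have e2 : (Rad a).mkQ ⟨Om r 0, h.Om_Ainf r h1⟩ = 0 := by
        rw [← map_zero (Rad a).mkQ]
        congr 1
        exact Subtype.ext (map_zero _)
      rw [e1, e2]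
      simp
    | add x y hx hy ihx ihy =>
      intro h1
      rw [iSup_PB h.hD h.hs] at hx hy
      have e1 : (Rad a).mkQ ⟨x + y, h1⟩ = (Rad a).mkQ ⟨x, hx⟩ + (Rad a).mkQ ⟨y, hy⟩ := by
        rw [← map_add]; rfl
      have e2 : (Rad a).mkQ ⟨Om r (x + y), h.Om_Ainf r h1⟩ =
          (Rad a).mkQ ⟨Om r x, h.Om_Ainf r hx⟩ + (Rad a).mkQ ⟨Om r y, h.Om_Ainf r hy⟩ := by
        rw [← map_add]
        congr 1
        exact Subtype.ext (map_add _ _ _)
      rw [e1, e2, map_add, map_add, Submodule.coe_add, Submodule.coe_add, ihx hx, ihy hy,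
        map_add, smul_add]
  exact key y (by rw [iSup_PB h.hD h.hs]; exact hy) hy

/-- the class of `nab u` -/
noncomputable def NB.cl (u : PB a D ν) : CoreM a :=
  (Rad a).mkQ ⟨nab (u : X), h.nab_Ainf g1 u.2⟩

include gA in
theorem NB.cl_pr {μ : K} (hμ : μ ≠ ν) (u : PB a D ν) : pr h.hs μ (h.cl g1 u) = 0 := by
  by_cases hbot : D.maxGenEigenspace μ = ⊥
  · apply Subtype.ext
    exact (Submodule.eq_bot_iff _).1 hbot _ (pr h.hs μ (h.cl g1 u)).2
  -- the linear map
  let z0 : PB a D ν →ₗ[K] D.maxGenEigenspace μ :=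
    { toFun := fun u => pr h.hs μ (h.cl g1 u)
      map_add' := fun x y => by
        rw [← map_add]
        congr 1
        unfold NB.cl
        rw [← map_add]
        congr 1
        exact Subtype.ext (map_add nab _ _)
      map_smul' := fun c x => by
        obtain ⟨h2, h3⟩ := PB_mem x.2
        have e1 : h.cl g1 (c • x) = c • h.cl g1 x + del c • (Rad a).mkQ ⟨(x : X), h2⟩ := by
          unfold NB.cl
          rw [← map_smul, ← map_smul, ← map_add]
          congr 1
          exact Subtype.ext (h.leib c x)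
        rw [e1, map_add, map_smul, map_smul, pr_other h.hs hμ.symm h3, smul_zero, add_zero]
        rfl }
  have hz0 : ∀ (r : Fin 3) (u w : PB a D ν), (w : X) = a r u →
      sc ν • ((z0 w : D.maxGenEigenspace μ) : CoreM a) =
        sc μ • coreOp a r (z0 u : D.maxGenEigenspace μ) := by
    intro r u w hw
    have h1 : (sc ν • (w : X)) = Om r u := by rw [h.hsc ν _ u.2, hw]
    have h2 : z0 (sc ν • w) = sc ν • z0 w := map_smul _ _ _
    have h3 : sc ν • ((z0 w : D.maxGenEigenspace μ) : CoreM a) =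
        ((z0 (sc ν • w) : D.maxGenEigenspace μ) : CoreM a) := by rw [h2]; rfl
    rw [h3]
    have h4 : h.cl g1 (sc ν • w) = (Rad a).mkQ ⟨Om r (nab u), h.Om_Ainf r (h.nab_Ainf g1 u.2)⟩ := by
      unfold NB.cl
      rw [← sub_eq_zero, ← map_sub]
      refine (Submodule.Quotient.mk_eq_zero (Rad a)).2 ?_
      change nab (sc ν • (w : X)) - Om r (nab u) ∈ T a
      rw [h1, h.rel, add_sub_cancel_left]
      exact gA r u u.2
    change ((pr h.hs μ (h.cl g1 (sc ν • w)) : D.maxGenEigenspace μ) : CoreM a) = _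
    rw [h4, h.pr_Om μ r (h.nab_Ainf g1 u.2)]
    rfl
  have hk : ∀ k, ∀ u : PB a D ν, (u : X) ∈ Nk a k → z0 u = 0 := by
    intro k
    induction k with
    | zero =>
      intro u hu
      have : u = 0 := Subtype.ext (mem_Nk_zero.1 hu)
      rw [this, map_zero]
    | succ k ih =>
      intro u hu
      apply Subtype.ext
      refine core_zero (a := a) fun s => ?_
      have h1 := hz0 s u ⟨a s u, PB_stable h.hD ν s u.2⟩ rfl
      rw [ih _ (mem_Nk_succ.1 hu s)] at h1
      have h2 : sc μ • coreOp a s (z0 u : D.maxGenEigenspace μ) = 0 := by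
        rw [← h1]; simp
      exact (smul_eq_zero.1 h2).resolve_left (h.hsc0 μ hbot)
  obtain ⟨σ, hσ⟩ := (toE a D ν).exists_rightInverse_of_surjective
    (LinearMap.range_eq_top.2 (toE_surj h.hD h.hs ν))
  have hσ' : ∀ y, toE a D ν (σ y) = y := fun y => LinearMap.congr_fun hσ y
  have hz : ∀ u, z0 u = z0 (σ (toE a D ν u)) := by
    intro u
    have h1 : toE a D ν (u - σ (toE a D ν u)) = 0 := by rw [map_sub, hσ', sub_self]
    have h2 := (toE_zero ν _).1 h1
    obtain ⟨m, hm⟩ := mem_T.1 (show ((u - σ (toE a D ν u) : PB a D ν) : X) ∈ T a from h2)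
    have h3 := hk m _ hm
    rw [map_sub, sub_eq_zero] at h3
    exact h3
  have hfin := h.hom ν μ hμ.symm (z0 ∘ₗ σ) (by
    intro r v w hw
    have h1 : toE a D ν ⟨a r (σ v), PB_stable h.hD ν r (σ v).2⟩ = w := by
      apply Subtype.ext
      rw [hw, toE_coe]
      have h2 : coreOp a r (v : D.maxGenEigenspace ν) =
          coreOp a r ((toE a D ν (σ v) : D.maxGenEigenspace ν) : CoreM a) := by rw [hσ']
      rw [h2, toE_coe, coreOp_mk]
      rfl
    rw [LinearMap.comp_apply, LinearMap.comp_apply, ← h1, ← hz]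
    exact hz0 r (σ v) _ rfl)
  change z0 u = 0
  rw [hz u]
  exact LinearMap.congr_fun hfin (toE a D ν u)

include gA in
/-- **the class of `nab u` lies in the same block** -/
theorem NB.cl_mem {u : X} (hu : u ∈ PB a D ν) :
    (Rad a).mkQ ⟨nab u, h.nab_Ainf g1 hu⟩ ∈ D.maxGenEigenspace ν :=
  mem_of_pr h.hs ν fun _ hμ => h.cl_pr g1 gA hμ ⟨u, hu⟩

/-- the filtration of the radical of the sum of the blocks -/
def RR (a : Fin 3 → End K X) (D : End K (CoreM a)) (j : ℕ) : Submodule K X :=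
  ⨆ μ, PB a D μ ⊓ Nk a j

omit g1 in
theorem NB.T_le {m : ℕ} (hm : T a = Nk a m) {t : X} (ht : t ∈ T a) (htA : t ∈ Ainf a) :
    t ∈ RR a D m := by
  classical
  have h0 : t ∈ ⨆ ν, PB a D ν := by rw [iSup_PB h.hD h.hs]; exact htA
  obtain ⟨f, hf1, hf2⟩ := (Submodule.mem_iSup_iff_exists_finsupp
    (p := fun ν => PB a D ν) t).1 h0
  have h2 : ∀ μ, f μ ∈ T a := by
    intro μ
    by_cases hμ : μ ∈ f.support
    · have e1 : (Rad a).mkQ ⟨t, htA⟩ = ∑ b ∈ f.support,
          (Rad a).mkQ ⟨f b, PB_le_Ainf b (hf1 b)⟩ := by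
        rw [← map_sum]
        congr 1
        apply Subtype.ext
        rw [Submodule.coe_sum]
        exact hf2.symm
      have e2 : (Rad a).mkQ ⟨t, htA⟩ = 0 := (mk_zero_iff htA).2 ht
      have e3 := congrArg (fun x => ((pr h.hs μ x : D.maxGenEigenspace μ) : CoreM a)) e1
      rw [e2, map_zero, map_sum, Submodule.coe_sum, Finset.sum_eq_single μ] at e3
      · obtain ⟨h3, h4⟩ := PB_mem (hf1 μ)
        rw [pr_self' h.hs μ h4] at e3
        exact (mk_zero_iff h3).1 e3.symm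
      · intro b _ hb
        obtain ⟨h3, h4⟩ := PB_mem (hf1 b)
        rw [pr_other h.hs hb h4]
        rfl
      · intro h3; exact absurd hμ h3
    · rw [Finsupp.notMem_support_iff.1 hμ]
      exact Submodule.zero_mem _
  rw [← hf2, Finsupp.sum]
  refine Submodule.sum_mem _ fun μ _ => Submodule.mem_iSup_of_mem μ ⟨hf1 μ, ?_⟩
  rw [← hm]
  exact h2 μ

omit g1 in
theorem NB.Om_RR (r : Fin 3) {j : ℕ} {t : X} (ht : t ∈ RR a D (j + 1)) : Om r t ∈ RR a D j := by
  have h1 : RR a D (j + 1) ≤ (RR a D j).comap (Om r) := by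
    refine iSup_le fun μ => ?_
    rintro t ⟨ht1, ht2⟩
    refine Submodule.mem_iSup_of_mem μ ⟨h.Om_PB r ht1, ?_⟩
    rw [h.hsc μ t ht1]
    exact Submodule.smul_mem _ _ (mem_Nk_succ.1 ht2 r)
  exact h1 ht

include gA in
/-- **`nab` maps the block into every `Om`-stable submodule which contains the block and the
commutators.** -/
theorem NB.nab_mem {S : Submodule K X} (hS : PB a D ν ≤ S) (hSO : ∀ r, ∀ v ∈ S, Om r v ∈ S)
    (hj : ∀ r, ∀ u ∈ PB a D ν, G r (Om r u) - Om r (G r u) ∈ S) {u : X} (hu : u ∈ PB a D ν) :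
    nab u ∈ S := by
  obtain ⟨m, hm⟩ := T_eq_Nk a
  have key : ∀ j, ∀ i, i + j = m → ∀ u ∈ PB a D ν, ∃ s ∈ S, ∃ t ∈ RR a D i, nab u = s + t := by
    intro j
    induction j with
    | zero =>
      intro i hi u hu
      obtain ⟨v, hvA, hv, hvm⟩ := PB_surj h.hD h.hs ν _ (h.cl_mem g1 gA hu)
      refine ⟨v, hS hv, nab u - v, ?_, by abel⟩
      have hmem : nab u - v ∈ Ainf a := Submodule.sub_mem _ (h.nab_Ainf g1 hu) hvA
      rw [show i = m by omega]
      refine h.T_le hm ((mk_zero_iff hmem).1 ?_) hmem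
      have e1 : (Rad a).mkQ ⟨nab u - v, hmem⟩ = (Rad a).mkQ ⟨nab u, h.nab_Ainf g1 hu⟩ -
          (Rad a).mkQ ⟨v, hvA⟩ := by rw [← map_sub]; rfl
      rw [e1, hvm, sub_self]
    | succ j ih =>
      intro i hi u hu
      obtain ⟨f, hf, rfl⟩ := h.exists_Om hu
      choose s hs t ht hst using fun r => ih (i + 1) (by omega) (f r) (hf r)
      refine ⟨∑ r, (Om r (s r) + (G r (Om r (f r)) - Om r (G r (f r)))), ?_,
        ∑ r, Om r (t r), ?_, ?_⟩
      · exact Submodule.sum_mem _ fun r _ => Submodule.add_mem _ (hSO r _ (hs r)) (hj r _ (hf r))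
      · exact Submodule.sum_mem _ fun r _ => h.Om_RR r (ht r)
      · rw [map_sum, ← Finset.sum_add_distrib]
        refine Finset.sum_congr rfl fun r _ => ?_
        rw [h.rel, hst r, map_add]
        abel
  obtain ⟨s, hs, t, ht, hst⟩ := key m 0 (by omega) u hu
  have h0 : t = 0 := by
    have h1 : RR a D 0 ≤ ⊥ := by
      refine iSup_le fun μ => ?_
      rintro x ⟨-, hx⟩
      exact (Submodule.mem_bot K).2 (mem_Nk_zero.1 hx)
    exact (Submodule.mem_bot K).1 (h1 ht)
  rw [hst, h0, add_zero]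
  exact hs

omit g1 in
/-- **(N3)**: a block killed by `G` is stable under `nab` -/
theorem NB.N3 (g0 : ∀ r, ∀ u ∈ PB a D ν, G r u = 0) {u : X} (hu : u ∈ PB a D ν) :
    nab u ∈ PB a D ν := by
  have h0 : ∀ r, ∀ u ∈ PB a D ν, G r (Om r u) - Om r (G r u) = 0 := by
    intro r u hu
    rw [g0 r _ (h.Om_PB r hu), g0 r _ hu, map_zero, sub_zero]
  refine h.nab_mem (ν := ν) (ν' := ν) (fun r u hu => by rw [g0 r u hu]; exact Submodule.zero_mem _)
    (fun r u hu => by rw [h0 r u hu]; exact Submodule.zero_mem _) le_rfl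
    (fun r v hv => h.Om_PB r hv) (fun r u hu => by rw [h0 r u hu]; exact Submodule.zero_mem _) hu

include gA in
/-- **(N1)**: `nab` maps the block `ν` into itself plus the radical of the block `ν'` -/
theorem NB.N1 (hne : ν ≠ ν') {u : X} (hu : u ∈ PB a D ν) :
    ∃ v ∈ PB a D ν, ∃ r ∈ PB a D ν', r ∈ T a ∧ nab u = v + r := by
  have h1 : nab u ∈ PB a D ν ⊔ PB a D ν' := by
    refine h.nab_mem g1 gA le_sup_left ?_ ?_ hu
    · intro r v hv
      obtain ⟨x, hx, y, hy, rfl⟩ := Submodule.mem_sup.1 hv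
      rw [map_add]
      exact Submodule.add_mem_sup (h.Om_PB r hx) (h.Om_PB r hy)
    · intro r u hu
      exact Submodule.mem_sup_right (Submodule.sub_mem _ (g1 r _ (h.Om_PB r hu))
        (h.Om_PB r (g1 r _ hu)))
  obtain ⟨v, hv, w, hw, e⟩ := Submodule.mem_sup.1 h1
  refine ⟨v, hv, w, hw, ?_, e.symm⟩
  obtain ⟨hvA, hvm⟩ := PB_mem hv
  obtain ⟨hwA, hwm⟩ := PB_mem hw
  have h2 := h.cl_mem g1 gA hu
  have e1 : (Rad a).mkQ ⟨nab u, h.nab_Ainf g1 hu⟩ =
      (Rad a).mkQ ⟨v, hvA⟩ + (Rad a).mkQ ⟨w, hwA⟩ := by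
    rw [← map_add]
    congr 1
    exact Subtype.ext e.symm
  rw [e1] at h2
  have h3 : (Rad a).mkQ ⟨w, hwA⟩ ∈ D.maxGenEigenspace ν := by
    have := Submodule.sub_mem _ h2 hvm
    rwa [add_sub_cancel_left] at this
  have h4 := pr_other h.hs hne h3
  have h5 := pr_self' h.hs ν' hwm
  rw [h4] at h5
  exact (mk_zero_iff hwA).1 h5.symm

end main

end Crest.Agent.R172.SNab
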