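import Crest.Agent.R172.SDec
import Crest.Agent.R172.SNab934
import Crest.Agent.R172.SNF16

/-!
Row 172 (S0260), tame node (t2), level 2, geometric half, part 1 (helper118): from the structure
`SNab.NB` of `nabla` on the blocks to the exact frame inclusions and the decoration `SDec.Dec`.
-/

set_option autoImplicit false
set_option linter.unusedSectionVars false
set_option linter.unusedVariables false

namespace Crest.Agent.R172.SGeoA118

open Matrix Module Crest.Agent.R172.FO Crest.Agent.R172.Qt Crest.Agent.R172.SpS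
open Crest.Agent.R172.SBlk Crest.Agent.R172.UBlk Crest.Agent.R172.UFr
open Crest.Agent.R172.PL (Wk Ainf Rad CoreM coreOp Ainf_le_Wk Ainf_eq_Wk)
open Crest.Agent.R172.SUX (th ZY Mv Fr D3)
open Crest.Agent.R172.St (Nk T mem_T mem_Nk_zero mem_Nk_succ)
open Crest.Agent.R172.SC (PB)
open Crest.Agent.R172.SDec (Dec)
open Crest.Agent.R172.SNab (NB)

variable {ι : Type*} [Fintype ι] [DecidableEq ι] {δ : Type*} [Fintype δ] [DecidableEq δ]
variable {k K : Type*} [Field k] [Field K] [Algebra k K]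
variable {arm : δ → Fin 3} {J : Matrix ι ι K} {B : Matrix δ δ K}
  {N W : Submodule K (Matrix ι δ K)} {F f H : Matrix ι δ K}

section adj

variable {S0 : Matrix δ δ K}

theorem adjM (hD : Data k arm J B N W) (hS : S0ᵀ = -S0) (s : Fin 3) :
    S0 * (B * E K arm s * S0) = -((B * E K arm s * S0)ᵀ * S0) := by
  rw [transpose_mul, transpose_mul, hS, E_transpose, hD.B_symm, hD.B_arm]
  simp only [Matrix.neg_mul, neg_neg, Matrix.mul_assoc]

theorem adj (hD : Data k arm J B N W) (hS : S0ᵀ = -S0) (s : Fin 3) (u v : δ → K) :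
    v ⬝ᵥ (S0 *ᵥ ((B * E K arm s * S0) *ᵥ u)) =
      -(((B * E K arm s * S0) *ᵥ v) ⬝ᵥ (S0 *ᵥ u)) := by
  rw [mulVec_mulVec, adjM hD hS, neg_mulVec, dotProduct_neg, ← mulVec_mulVec, dotProduct_mulVec v,
    vecMul_transpose]

/-- `G a = - aᵀ G` for a frame -/
theorem gram_adj (hD : Data k arm J B N W) (hS : S0ᵀ = -S0) {n : Type*} [Fintype n]
    {U : Matrix δ n K} {a : Fin 3 → Matrix n n K} (ha : ∀ s, B * E K arm s * S0 * U = U * a s)
    (s : Fin 3) : (Uᵀ * S0 * U) * a s = -((a s)ᵀ * (Uᵀ * S0 * U)) := by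
  calc (Uᵀ * S0 * U) * a s = Uᵀ * (S0 * (B * E K arm s * S0)) * U := by
        rw [Matrix.mul_assoc (Uᵀ * S0) U, ← ha]; simp only [Matrix.mul_assoc]
    _ = -((B * E K arm s * S0 * U)ᵀ * S0 * U) := by
        rw [adjM hD hS, transpose_mul _ U]
        simp only [Matrix.mul_neg, Matrix.neg_mul, Matrix.mul_assoc]
    _ = _ := by rw [ha, transpose_mul]; simp only [Matrix.mul_assoc]

end adj

section rad

variable {P : Matrix ι ι K × (Fin 3 → Matrix ι ι K)}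

theorem T_of_perp_aux (h : Ctx k arm J B N W F) (hP : P ∈ NN arm J N F) (j : ℕ) :
    ∀ u : δ → K, (∀ v ∈ Wk (om arm J B F P.1 F) j, v ⬝ᵥ ((Fᵀ * J * (P.1 * F)) *ᵥ u) = 0) →
      u ∈ Nk (om arm J B F P.1 F) (j + 1) := by
  have hS := form_skew h.data.J_symm hP
  induction j with
  | zero =>
    intro u hu
    have h1 : (Fᵀ * J * (P.1 * F)) *ᵥ u = 0 := by
      funext i
      have := hu (Pi.single i 1) Submodule.mem_top
      rwa [single_one_dotProduct] at this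
    rw [mem_Nk_succ]
    intro s
    rw [mem_Nk_zero, om_apply]
    change (B * E K arm s * (Fᵀ * J * (P.1 * F))) *ᵥ u = 0
    rw [← mulVec_mulVec, h1, mulVec_zero]
  | succ j ih =>
    intro u hu
    rw [mem_Nk_succ]
    intro s
    refine ih _ fun v hv => ?_
    rw [om_apply]
    change v ⬝ᵥ ((Fᵀ * J * (P.1 * F)) *ᵥ ((B * E K arm s * (Fᵀ * J * (P.1 * F))) *ᵥ u)) = 0
    have h5 := hu _ (Submodule.mem_iSup_of_mem s ⟨v, hv, rfl⟩)
    rw [adj h.data hS, neg_eq_zero]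
    exact h5

/-- a vector perpendicular to `A^∞` lies in the radical `T` -/
theorem T_of_perp (h : Ctx k arm J B N W F) (hP : P ∈ NN arm J N F) {u : δ → K}
    (hu : ∀ v ∈ Ainf (om arm J B F P.1 F), v ⬝ᵥ ((Fᵀ * J * (P.1 * F)) *ᵥ u) = 0) :
    u ∈ T (om arm J B F P.1 F) := by
  obtain ⟨j, hj, -⟩ := Ainf_eq_Wk (om arm J B F P.1 F)
  rw [hj] at hu
  exact mem_T.2 ⟨j + 1, T_of_perp_aux h hP j u hu⟩

variable {R : Matrix δ ι K} {D : End K (CoreM (Ph arm J B F R P.1))}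

/-- radical vectors are perpendicular to the blocks -/
theorem perp_T (h : Ctx k arm J B N W F) (hP : P ∈ NN arm J N F) (hR : F * R * F = F)
    (hD : IsD (Ph arm J B F R P.1) (Nh arm J B F f R P.1) D) {ν : K} (j : ℕ) :
    ∀ u ∈ Nk (om arm J B F P.1 F) j, ∀ v ∈ Qb h.data hR P.1 D ν,
      v ⬝ᵥ ((Fᵀ * J * (P.1 * F)) *ᵥ u) = 0 := by
  have hS := form_skew h.data.J_symm hP
  induction j with
  | zero =>
    intro u hu v _
    rw [mem_Nk_zero.1 hu, mulVec_zero, dotProduct_zero]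
  | succ j ih =>
    intro u hu v hv
    obtain ⟨c, hc, rfl⟩ := Qb_exists h hR hD hv
    rw [sum_dotProduct]
    refine Finset.sum_eq_zero fun s _ => ?_
    have h1 := ih _ (mem_Nk_succ.1 hu s) (c s) (hc s)
    have h2 := adj h.data hS s u (c s)
    have h3 : om arm J B F P.1 F s u = (B * E K arm s * (Fᵀ * J * (P.1 * F))) *ᵥ u := rfl
    have h4 : om arm J B F P.1 F s (c s) = (B * E K arm s * (Fᵀ * J * (P.1 * F))) *ᵥ (c s) := rfl
    rw [h4]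
    rw [h3, h2, neg_eq_zero] at h1
    exact h1

end rad

/-- the connection as an additive map -/
noncomputable def nabH (arm : δ → Fin 3) (J : Matrix ι ι K) (H : Matrix ι δ K) (P : Matrix ι ι K)
    (Y : Fin 3 → Matrix δ δ K) (d : Derivation k K K) : (δ → K) →+ (δ → K) :=
  AddMonoidHom.mk' (SUB.nab arm J H P Y d) (SUB.nab_add P)

theorem nabH_col (P : Matrix ι ι K) (Y : Fin 3 → Matrix δ δ K) (d : Derivation k K K)
    {n : Type*} (U : Matrix δ n K) (j : n) :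
    nabH arm J H P Y d (fun i => U i j) = fun i => (U.map d + ZY arm J H P Y * U) i j := rfl

section ex

variable {P : Matrix ι ι K × (Fin 3 → Matrix ι ι K)} {S0 : Matrix δ δ K} {c1 c2 : K}
  {n1 n2 : Type*} [Fintype n1] [Fintype n2] {U1 : Matrix δ n1 K} {U2 : Matrix δ n2 K}
  {a1 : Fin 3 → Matrix n1 n1 K} {a2 : Fin 3 → Matrix n2 n2 K} {X : Fin 3 → Matrix n2 n1 K}
  {Y : Fin 3 → Matrix δ δ K}

theorem Y_symm (hY : ∀ s, Y s = U2 * X s * U1ᵀ + U1 * (X s)ᵀ * U2ᵀ) (s : Fin 3) :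
    (Y s)ᵀ = Y s := by
  rw [hY, transpose_add, transpose_mul, transpose_mul, transpose_mul, transpose_mul,
    transpose_transpose, transpose_transpose, transpose_transpose, add_comm]
  simp only [Matrix.mul_assoc]

theorem bU (hD : Data k arm J B N W) (hS : S0ᵀ = -S0) {n : Type*} [Fintype n]
    {U : Matrix δ n K} {a : Fin 3 → Matrix n n K} (ha : ∀ s, B * E K arm s * S0 * U = U * a s)
    (s : Fin 3) : Uᵀ * S0 * E K arm s * B = -((a s)ᵀ * Uᵀ) := by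
  have h1 := congrArg transpose (ha s)
  rw [transpose_mul, transpose_mul, transpose_mul, transpose_mul, hS, E_transpose,
    hD.B_symm] at h1
  rw [← h1]
  simp only [Matrix.neg_mul, Matrix.mul_neg, neg_neg, Matrix.mul_assoc]

/-- **exactness of the frame family** -/
theorem exact_fr (h : Ctx k arm J B N W H) (hP : P ∈ NN arm J N H)
    (fr : Fr J F H P.1 S0 c1 c2 U1 U2)
    (ha1 : ∀ s, B * E K arm s * S0 * U1 = U1 * a1 s)
    (ha2 : ∀ s, B * E K arm s * S0 * U2 = U2 * a2 s)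
    (hY : ∀ s, Y s = U2 * X s * U1ᵀ + U1 * (X s)ᵀ * U2ᵀ) {c : K} (hc : c = -(c2 / c1) ^ 2)
    (hsum : ∑ s, (X s * (a1 s)ᵀ - c • (a2 s * X s)) = 0) :
    SUX.Exact arm J B H P.1 Y := by
  have hc1 := fr.hc1
  have hth := SUX.th_skew h hP h.mem
  have t1 : U1ᵀ * th J H P.1 H = c1 ^ 2 • (U1ᵀ * S0) := by
    have h1 := congrArg transpose fr.S1
    rw [transpose_mul, hth, Matrix.mul_neg, transpose_smul, transpose_mul, fr.skew, Matrix.mul_neg,
      smul_neg] at h1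
    exact neg_injective h1
  have t2 : U2ᵀ * th J H P.1 H = c2 ^ 2 • (U2ᵀ * S0) := by
    have h1 := congrArg transpose fr.S2
    rw [transpose_mul, hth, Matrix.mul_neg, transpose_smul, transpose_mul, fr.skew, Matrix.mul_neg,
      smul_neg] at h1
    exact neg_injective h1
  have q : (c1 ^ 2) * c = -(c2 ^ 2) := by
    rw [hc]; field_simp
  have key : ∀ r, Y r * th J H P.1 H * E K arm r * B - B * E K arm r * th J H P.1 H * Y r =
      -(c1 ^ 2 • (U2 * (X r * (a1 r)ᵀ - c • (a2 r * X r)) * U1ᵀ)) -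
        c1 ^ 2 • (U2 * (X r * (a1 r)ᵀ - c • (a2 r * X r)) * U1ᵀ)ᵀ := by
    intro r
    have e1 : Y r * th J H P.1 H * E K arm r * B =
        -(c1 ^ 2 • (U2 * X r * (a1 r)ᵀ * U1ᵀ)) - c2 ^ 2 • (U1 * (X r)ᵀ * (a2 r)ᵀ * U2ᵀ) := by
      rw [hY]
      calc (U2 * X r * U1ᵀ + U1 * (X r)ᵀ * U2ᵀ) * th J H P.1 H * E K arm r * B
          = U2 * X r * ((U1ᵀ * th J H P.1 H) * E K arm r * B) +
            U1 * (X r)ᵀ * ((U2ᵀ * th J H P.1 H) * E K arm r * B) := by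
              simp only [Matrix.add_mul, Matrix.mul_assoc]
        _ = _ := by
              rw [t1, t2]
              simp only [Matrix.smul_mul]
              rw [bU h.data fr.skew ha1, bU h.data fr.skew ha2]
              simp only [Matrix.mul_neg, Matrix.mul_smul, smul_neg, Matrix.mul_assoc]
              abel
    have e2 : B * E K arm r * th J H P.1 H * Y r =
        c2 ^ 2 • (U2 * a2 r * X r * U1ᵀ) + c1 ^ 2 • (U1 * a1 r * (X r)ᵀ * U2ᵀ) := by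
      rw [hY]
      calc B * E K arm r * th J H P.1 H * (U2 * X r * U1ᵀ + U1 * (X r)ᵀ * U2ᵀ)
          = B * E K arm r * (th J H P.1 H * U2) * (X r * U1ᵀ) +
            B * E K arm r * (th J H P.1 H * U1) * ((X r)ᵀ * U2ᵀ) := by
              simp only [Matrix.mul_add, Matrix.mul_assoc]
        _ = _ := by
              have f2 : B * E K arm r * (th J H P.1 H * U2) = c2 ^ 2 • (U2 * a2 r) := by
                rw [fr.S2, Matrix.mul_smul, ← Matrix.mul_assoc, ha2]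
              have f1 : B * E K arm r * (th J H P.1 H * U1) = c1 ^ 2 • (U1 * a1 r) := by
                rw [fr.S1, Matrix.mul_smul, ← Matrix.mul_assoc, ha1]
              rw [f1, f2]
              simp only [Matrix.smul_mul, Matrix.mul_assoc]
    rw [e1, e2, transpose_mul, transpose_mul, transpose_sub, transpose_smul, transpose_mul,
      transpose_mul, transpose_transpose, transpose_transpose]
    have q' : c2 ^ 2 = -(c1 ^ 2 * c) := by rw [q, neg_neg]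
    rw [q']
    simp only [Matrix.mul_sub, Matrix.sub_mul, Matrix.mul_smul, Matrix.smul_mul, smul_sub,
      smul_smul, neg_smul, Matrix.mul_assoc]
    abel
  unfold SUX.Exact
  rw [Finset.sum_congr rfl fun r _ => key r, Finset.sum_sub_distrib, Finset.sum_neg_distrib,
    ← Finset.smul_sum, ← Finset.smul_sum, ← transpose_sum, ← Matrix.sum_mul, ← Matrix.mul_sum, hsum]
  simp

end ex

section main

variable {P Pt : Matrix ι ι K × (Fin 3 → Matrix ι ι K)} {R : Matrix δ ι K}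
  {D : End K (CoreM (Ph arm J B F R P.1))} {c1 c2 : K} {m1 m2 : ℕ}
  {U1 : Matrix δ (Fin m1) K} {U2 : Matrix δ (Fin m2) K}
  {a1 : Fin 3 → Matrix (Fin m1) (Fin m1) K} {a2 : Fin 3 → Matrix (Fin m2) (Fin m2) K}
  {X : Fin 3 → Matrix (Fin m2) (Fin m1) K} {Y : Fin 3 → Matrix δ δ K} {d : Derivation k K K}

theorem mem_of_Cq {Q : Submodule K (δ → K)} {n : ℕ} {U : Matrix δ (Fin n) K} (hU : Cq Q U)
    (x : Fin n → K) : U *ᵥ x ∈ Q := by
  have h1 : U *ᵥ x = ∑ j, x j • (fun d => U d j) := by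
    funext d
    rw [Finset.sum_apply]
    unfold Matrix.mulVec dotProduct
    exact Finset.sum_congr rfl fun j _ => by
      rw [Pi.smul_apply, smul_eq_mul, mul_comm]
  rw [h1]
  exact Submodule.sum_mem _ fun j _ => Submodule.smul_mem _ _ (hU j)


/-- `rad`: the part of the block which is radical -/
noncomputable def R1 (arm : δ → Fin 3) (J : Matrix ι ι K) (B : Matrix δ δ K) (F : Matrix ι δ K)
    (P : Matrix ι ι K) (Q : Submodule K (δ → K)) : Submodule K (δ → K) :=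
  Q ⊓ T (om arm J B F P F)

/-- **the exact inclusion in frames** (`2 → 1`) -/
theorem incl (h : Ctx k arm J B N W F) (hP : P ∈ NN arm J N F) (hR : F * R * F = F)
    (hD : IsD (Ph arm J B F R P.1) (Nh arm J B F f R P.1) D)
    {ν ν' : K} (hU1 : Cq (Qb h.data hR P.1 D ν) U1)
    (hs1 : ∀ u ∈ Qb h.data hR P.1 D ν, ∃ x, u = U1 *ᵥ x)
    (hU2 : Cq (Qb h.data hR P.1 D ν') U2)
    (hs2 : ∀ u ∈ Qb h.data hR P.1 D ν', ∃ x, u = U2 *ᵥ x) (hc2 : c2 ≠ 0)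
    (hN : ∀ u ∈ Qb h.data hR P.1 D ν', ∃ v ∈ Qb h.data hR P.1 D ν', ∃ r ∈ Qb h.data hR P.1 D ν,
      r ∈ T (om arm J B F P.1 F) ∧ SUB.nab arm J H Pt.1 Y d u = v + r) :
    ∃ (Γ2 : Matrix (Fin m2) (Fin m2) K) (β : Matrix (Fin m1) (Fin m2) K),
      U2.map d + ZY arm J H Pt.1 Y * U2 = U2 * Γ2 + c2 ^ 2 • (U1 * β) ∧
      (U1ᵀ * (Fᵀ * J * (P.1 * F)) * U1) * β = 0 := by
  obtain ⟨Γ, β, e, hβ⟩ := SNF16.frame_of_incl (U1 := U1) (U2 := U2)
    (Q2 := Qb h.data hR P.1 D ν') (R1 := R1 arm J B F P.1 (Qb h.data hR P.1 D ν)) hs2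
    (fun r hr => hs1 r hr.1) (pow_ne_zero 2 hc2)
    (Nb := U2.map d + ZY arm J H Pt.1 Y * U2) (by
      intro j
      obtain ⟨v, hv, r, hr, hrT, e⟩ := hN _ (hU2 j)
      have e' : (fun i => (U2.map d + ZY arm J H Pt.1 Y * U2) i j) = v + r := e
      rw [e']
      exact Submodule.add_mem_sup hv ⟨hr, hrT⟩)
  refine ⟨Γ, β, e, ?_⟩
  apply Matrix.ext_of_mulVec_single
  intro j
  have e2 : (U1ᵀ * (Fᵀ * J * (P.1 * F)) * U1 * β) *ᵥ Pi.single j 1 =
      U1ᵀ *ᵥ ((Fᵀ * J * (P.1 * F)) *ᵥ (U1 *ᵥ (β *ᵥ Pi.single j 1))) := by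
    simp only [mulVec_mulVec, Matrix.mul_assoc]
  rw [zero_mulVec, e2]
  funext i
  obtain ⟨k0, hk0⟩ := mem_T.1 (hβ (Pi.single j 1)).2
  exact perp_T h hP hR hD k0 _ hk0 _ (hU1 i)

variable [IsAlgClosed K]

theorem mem_T_of_G (h : Ctx k arm J B N W F) (hP : P ∈ NN arm J N F) (hR : F * R * F = F)
    (hD : IsD (Ph arm J B F R P.1) (Nh arm J B F f R P.1) D) (hNil : NilW arm J B N F)
    (hf : f ∈ N ⊓ W) {ν : K} {m : ℕ} {U : Matrix δ (Fin m) K} (hU : Cq (Qb h.data hR P.1 D ν) U)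
    (hs : ∀ u ∈ Qb h.data hR P.1 D ν, ∃ x, u = U *ᵥ x) {z : Fin m → K}
    (hz : (Uᵀ * (Fᵀ * J * (P.1 * F)) * U) *ᵥ z = 0) : U *ᵥ z ∈ T (om arm J B F P.1 F) := by
  refine T_of_perp h hP fun v hv => ?_
  rw [← iSup_Qb h hR hD] at hv
  refine Submodule.iSup_induction (p := fun κ => Qb h.data hR P.1 D κ)
    (motive := fun v => v ⬝ᵥ ((Fᵀ * J * (P.1 * F)) *ᵥ (U *ᵥ z)) = 0) hv ?_ ?_ ?_
  · intro κ v hv
    by_cases hκ : κ = ν
    · subst hκ
      obtain ⟨x, rfl⟩ := hs v hv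
      have e : (U *ᵥ x) ⬝ᵥ ((Fᵀ * J * (P.1 * F)) *ᵥ (U *ᵥ z)) =
          x ⬝ᵥ ((Uᵀ * (Fᵀ * J * (P.1 * F)) * U) *ᵥ z) := by
        rw [← vecMul_transpose, ← dotProduct_mulVec, mulVec_mulVec, mulVec_mulVec,
          Matrix.mul_assoc]
      rw [e, hz, dotProduct_zero]
    · exact Qb_orth h hR hD hNil hP hf hκ hv (mem_of_Cq hU z)
  · exact zero_dotProduct _
  · intro x y hx hy
    rw [add_dotProduct, hx, hy, add_zero]

/-- the commutator condition of `NB.N1` for the block of `U1` (target `U2`), any `X` -/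
theorem gA1 (h : Ctx k arm J B N W F) (hP : P ∈ NN arm J N F) (hR : F * R * F = F)
    (hD : IsD (Ph arm J B F R P.1) (Nh arm J B F f R P.1) D) (hNil : NilW arm J B N F)
    (hf : f ∈ N ⊓ W)
    (fr : Fr J F H Pt.1 (Fᵀ * J * (P.1 * F)) c1 c2 U1 U2)
    {ν ν' : K} (hU1 : Cq (Qb h.data hR P.1 D ν) U1)
    (hs1 : ∀ u ∈ Qb h.data hR P.1 D ν, ∃ x, u = U1 *ᵥ x)
    (hU2 : Cq (Qb h.data hR P.1 D ν') U2)
    (hs2 : ∀ u ∈ Qb h.data hR P.1 D ν', ∃ x, u = U2 *ᵥ x)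
    (ha1 : ∀ s, B * E K arm s * (Fᵀ * J * (P.1 * F)) * U1 = U1 * a1 s)
    (ha2 : ∀ s, B * E K arm s * (Fᵀ * J * (P.1 * F)) * U2 = U2 * a2 s)
    (hY : ∀ s, Y s = U2 * X s * U1ᵀ + U1 * (X s)ᵀ * U2ᵀ) {c : K} (hc : c = -(c2 / c1) ^ 2)
    (harm : ∀ s, (U2ᵀ * (Fᵀ * J * (P.1 * F)) * U2) * (X s * (a1 s)ᵀ - c • (a2 s * X s)) *
      (U1ᵀ * (Fᵀ * J * (P.1 * F)) * U1) = 0) (r : Fin 3) {u : δ → K}
    (hu : u ∈ Qb h.data hR P.1 D ν) :
    (Y r * th J H Pt.1 H) *ᵥ u ∈ Qb h.data hR P.1 D ν' ∧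
    (Y r * th J H Pt.1 H) *ᵥ ((B * E K arm r * th J H Pt.1 H) *ᵥ u) -
      (B * E K arm r * th J H Pt.1 H) *ᵥ ((Y r * th J H Pt.1 H) *ᵥ u) ∈
        T (om arm J B F P.1 F) := by
  obtain ⟨x, rfl⟩ := hs1 u hu
  have hc1 := fr.hc1
  set S0 := Fᵀ * J * (P.1 * F) with hS0
  have hS : S0ᵀ = -S0 := fr.skew
  set θ := th J H Pt.1 H with hθ
  have o12 : U2ᵀ * S0 * U1 = 0 := by
    have h1 := congrArg transpose fr.orth
    rw [transpose_mul, transpose_mul, transpose_transpose, hS, transpose_zero, Matrix.neg_mul,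
      Matrix.mul_neg, neg_eq_zero, ← Matrix.mul_assoc] at h1
    exact h1
  have y1 : Y r * θ * U1 = c1 ^ 2 • (U2 * (X r * (U1ᵀ * S0 * U1))) := by
    rw [Matrix.mul_assoc, hθ, fr.S1, Matrix.mul_smul, hY, Matrix.add_mul]
    have e1 : U1 * (X r)ᵀ * U2ᵀ * (S0 * U1) = 0 := by
      rw [Matrix.mul_assoc (U1 * (X r)ᵀ), ← Matrix.mul_assoc U2ᵀ, o12, Matrix.mul_zero]
    rw [e1, add_zero]
    simp only [Matrix.mul_assoc]
  have O1 : B * E K arm r * θ * U1 = c1 ^ 2 • (U1 * a1 r) := by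
    rw [Matrix.mul_assoc, hθ, fr.S1, Matrix.mul_smul, ← Matrix.mul_assoc, ha1]
  have O2 : B * E K arm r * θ * U2 = c2 ^ 2 • (U2 * a2 r) := by
    rw [Matrix.mul_assoc, hθ, fr.S2, Matrix.mul_smul, ← Matrix.mul_assoc, ha2]
  have g1 := gram_adj h.data hS ha1 r
  constructor
  · rw [mulVec_mulVec, y1, smul_mulVec, ← mulVec_mulVec]
    exact Submodule.smul_mem _ _ (mem_of_Cq hU2 _)
  · have key : (Y r * θ) * ((B * E K arm r * θ) * U1) - (B * E K arm r * θ) * ((Y r * θ) * U1) =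
        -(c1 ^ 4 • (U2 * ((X r * (a1 r)ᵀ - c • (a2 r * X r)) * (U1ᵀ * S0 * U1)))) := by
      have f1 : Y r * θ * (U1 * a1 r) = c1 ^ 2 • (U2 * (X r * (U1ᵀ * S0 * U1)) * a1 r) := by
        rw [← Matrix.mul_assoc, y1, Matrix.smul_mul]
      have f2 : B * E K arm r * θ * (U2 * (X r * (U1ᵀ * S0 * U1))) =
          c2 ^ 2 • (U2 * a2 r * (X r * (U1ᵀ * S0 * U1))) := by
        rw [← Matrix.mul_assoc (B * E K arm r * θ), O2, Matrix.smul_mul]
      rw [O1, y1, Matrix.mul_smul, Matrix.mul_smul, f1, f2, smul_smul, smul_smul]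
      have e1 : U2 * (X r * (U1ᵀ * S0 * U1)) * a1 r =
          -(U2 * (X r * (a1 r)ᵀ * (U1ᵀ * S0 * U1))) := by
        rw [Matrix.mul_assoc, Matrix.mul_assoc (X r), g1]
        simp only [Matrix.mul_neg, Matrix.mul_assoc]
      have q : c1 ^ 2 * c2 ^ 2 = -(c1 ^ 4 * c) := by
        rw [hc]; field_simp
      rw [e1, q]
      simp only [Matrix.mul_sub, Matrix.sub_mul, Matrix.mul_smul, Matrix.smul_mul, smul_sub,
        smul_smul, neg_smul, smul_neg, Matrix.mul_assoc]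
      have q2 : c1 ^ 2 * c1 ^ 2 = c1 ^ 4 := by ring
      rw [q2]
      abel
    have e2 : (Y r * θ) *ᵥ ((B * E K arm r * θ) *ᵥ (U1 *ᵥ x)) -
        (B * E K arm r * θ) *ᵥ ((Y r * θ) *ᵥ (U1 *ᵥ x)) =
        -(c1 ^ 4 • (U2 *ᵥ (((X r * (a1 r)ᵀ - c • (a2 r * X r)) * (U1ᵀ * S0 * U1)) *ᵥ x))) := by
      have l1 : (Y r * θ) *ᵥ ((B * E K arm r * θ) *ᵥ (U1 *ᵥ x)) =
          ((Y r * θ) * ((B * E K arm r * θ) * U1)) *ᵥ x := by
        simp only [mulVec_mulVec, Matrix.mul_assoc]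
      have l2 : (B * E K arm r * θ) *ᵥ ((Y r * θ) *ᵥ (U1 *ᵥ x)) =
          ((B * E K arm r * θ) * ((Y r * θ) * U1)) *ᵥ x := by
        simp only [mulVec_mulVec, Matrix.mul_assoc]
      rw [l1, l2, ← sub_mulVec, key, neg_mulVec, smul_mulVec, ← mulVec_mulVec]
    rw [e2]
    refine Submodule.neg_mem _ (Submodule.smul_mem _ _ ?_)
    refine mem_T_of_G h hP hR hD hNil hf hU2 hs2 ?_
    rw [mulVec_mulVec, ← Matrix.mul_assoc, harm, zero_mulVec]


/-- **PART 1**: frames, exact inclusions and the decoration of `X` -/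
theorem dec_of_NB (h : Ctx k arm J B N W F) (hP : P ∈ NN arm J N F) (hR : F * R * F = F)
    (hD : IsD (Ph arm J B F R P.1) (Nh arm J B F f R P.1) D) (hNil : NilW arm J B N F)
    (hf : f ∈ N ⊓ W) (hH : Ctx k arm J B N W H) (hPt : Pt ∈ NN arm J N H)
    (m : Mv k arm J N W H Pt.1 Y d)
    (fr : Fr J F H Pt.1 (Fᵀ * J * (P.1 * F)) c1 c2 U1 U2) (hne : c1 ≠ c2)
    {ν ν' : K} (hνν : ν ≠ ν') (hU1 : Cq (Qb h.data hR P.1 D ν) U1)
    (hs1 : ∀ u ∈ Qb h.data hR P.1 D ν, ∃ x, u = U1 *ᵥ x)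
    (hU2 : Cq (Qb h.data hR P.1 D ν') U2)
    (hs2 : ∀ u ∈ Qb h.data hR P.1 D ν', ∃ x, u = U2 *ᵥ x)
    (ha1 : ∀ s, B * E K arm s * (Fᵀ * J * (P.1 * F)) * U1 = U1 * a1 s)
    (ha2 : ∀ s, B * E K arm s * (Fᵀ * J * (P.1 * F)) * U2 = U2 * a2 s)
    (hY : ∀ s, Y s = U2 * X s * U1ᵀ + U1 * (X s)ᵀ * U2ᵀ) {c : K} (hc : c = -(c2 / c1) ^ 2)
    (hsum : ∑ s, (X s * (a1 s)ᵀ - c • (a2 s * X s)) = 0)
    (harm : ∀ s, (U2ᵀ * (Fᵀ * J * (P.1 * F)) * U2) * (X s * (a1 s)ᵀ - c • (a2 s * X s)) *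
      (U1ᵀ * (Fᵀ * J * (P.1 * F)) * U1) = 0)
    {D' : End K (CoreM (om arm J B F P.1 F))} (hD' : D' = (cov h.data hR P.1).D D)
    {sc : K → K}
    (nb : NB (om arm J B F P.1 F) (fun r => om arm J B H Pt.1 H r)
      (fun r => (Y r * th J H Pt.1 H).mulVecLin) D' sc (fun x => d x)
      (nabH arm J H Pt.1 Y d)) :
    ∃ (Γ1 : Matrix (Fin m1) (Fin m1) K) (Γ2 : Matrix (Fin m2) (Fin m2) K)
      (β : Matrix (Fin m1) (Fin m2) K) (γ : Matrix (Fin m2) (Fin m1) K),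
      U2.map d + ZY arm J H Pt.1 Y * U2 = U2 * Γ2 + c2 ^ 2 • (U1 * β) ∧
      U1.map d + ZY arm J H Pt.1 Y * U1 = U1 * Γ1 + c1 ^ 2 • (U2 * γ) ∧
      Dec F (Fᵀ * J * (P.1 * F)) U1 U2 a1 a2 c (X, β, γ) := by
  subst hD'
  have hc1 := fr.hc1
  have hc2 := fr.hc2
  have hG1 : (U1ᵀ * (Fᵀ * J * (P.1 * F)) * U1)ᵀ = -(U1ᵀ * (Fᵀ * J * (P.1 * F)) * U1) := by
    rw [transpose_mul, transpose_mul, transpose_transpose, fr.skew, Matrix.neg_mul,
      Matrix.mul_neg, ← Matrix.mul_assoc]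
  have hG2 : (U2ᵀ * (Fᵀ * J * (P.1 * F)) * U2)ᵀ = -(U2ᵀ * (Fᵀ * J * (P.1 * F)) * U2) := by
    rw [transpose_mul, transpose_mul, transpose_transpose, fr.skew, Matrix.neg_mul,
      Matrix.mul_neg, ← Matrix.mul_assoc]
  have hY' : ∀ s, Y s = U1 * (X s)ᵀ * U2ᵀ + U2 * ((X s)ᵀ)ᵀ * U1ᵀ := SNF16.hY_symm hY
  have hc' : c⁻¹ = -(c1 / c2) ^ 2 := by
    rw [hc]; field_simp
  have hc0 : c ≠ 0 := by
    rw [hc]; exact neg_ne_zero.2 (pow_ne_zero 2 (div_ne_zero hc2 hc1))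
  have harm' : ∀ s, (U1ᵀ * (Fᵀ * J * (P.1 * F)) * U1) * ((X s)ᵀ * (a2 s)ᵀ - c⁻¹ • (a1 s * (X s)ᵀ)) *
      (U2ᵀ * (Fᵀ * J * (P.1 * F)) * U2) = 0 := by
    intro s
    have h1 := congrArg transpose (harm s)
    rw [transpose_mul _ (U1ᵀ * (Fᵀ * J * (P.1 * F)) * U1), transpose_mul (U2ᵀ * _ * U2) _, hG1, hG2,
      transpose_zero, transpose_sub, transpose_mul,
      transpose_smul, transpose_mul, transpose_transpose, Matrix.neg_mul, Matrix.mul_neg,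
      Matrix.mul_neg, neg_neg, ← Matrix.mul_assoc] at h1
    have e1 : (X s)ᵀ * (a2 s)ᵀ - c⁻¹ • (a1 s * (X s)ᵀ) =
        -(c⁻¹ • (a1 s * (X s)ᵀ - c • ((X s)ᵀ * (a2 s)ᵀ))) := by
      rw [smul_sub, smul_smul, inv_mul_cancel₀ hc0, one_smul]; abel
    rw [e1, Matrix.mul_neg, Matrix.neg_mul, Matrix.mul_smul, Matrix.smul_mul, h1, smul_zero,
      neg_zero]
  have n2 : ∀ u ∈ Qb h.data hR P.1 D ν', ∃ v ∈ Qb h.data hR P.1 D ν', ∃ r ∈ Qb h.data hR P.1 D ν,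
      r ∈ T (om arm J B F P.1 F) ∧ SUB.nab arm J H Pt.1 Y d u = v + r := by
    intro u hu
    exact nb.N1 (ν := ν') (ν' := ν)
      (fun r u hu => (gA1 h hP hR hD hNil hf fr.symm hU2 hs2 hU1 hs1 ha2 ha1 hY' hc' harm' r hu).1)
      (fun r u hu => (gA1 h hP hR hD hNil hf fr.symm hU2 hs2 hU1 hs1 ha2 ha1 hY' hc' harm' r hu).2)
      hνν.symm hu
  have n1 : ∀ u ∈ Qb h.data hR P.1 D ν, ∃ v ∈ Qb h.data hR P.1 D ν, ∃ r ∈ Qb h.data hR P.1 D ν',
      r ∈ T (om arm J B F P.1 F) ∧ SUB.nab arm J H Pt.1 Y d u = v + r := by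
    intro u hu
    exact nb.N1 (ν := ν) (ν' := ν')
      (fun r u hu => (gA1 h hP hR hD hNil hf fr hU1 hs1 hU2 hs2 ha1 ha2 hY hc harm r hu).1)
      (fun r u hu => (gA1 h hP hR hD hNil hf fr hU1 hs1 hU2 hs2 ha1 ha2 hY hc harm r hu).2)
      hνν hu
  obtain ⟨Γ2, β, e2, hβ⟩ := incl (Pt := Pt) (Y := Y) (d := d) h hP hR hD hU1 hs1 hU2 hs2 hc2 n2
  obtain ⟨Γ1, γ, e1, hγ⟩ := incl (Pt := Pt) (Y := Y) (d := d) h hP hR hD hU2 hs2 hU1 hs1 hc1 n1
  refine ⟨Γ1, Γ2, β, γ, e2, e1, ?_⟩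
  have hYs := Y_symm hY
  refine
    { sum := hsum
      arm := harm
      rb := hβ
      rk := hγ
      cb := fun s => ?_
      ck := fun s => ?_ }
  · have h1 := (SNF16.cor_beta hH hPt hYs m fr hne ha1 ha2 hY e2 s).1
    rw [sub_eq_add_neg, ← neg_smul, ← hc] at h1
    exact h1
  · have h1 := (SNF16.cor_gamma hH hPt hYs m fr hne ha1 ha2 hY e1 s).1
    rw [sub_eq_add_neg, ← neg_smul, ← hc'] at h1
    have h2 : F * (U2 * (c • (a2 s * (γ - X s * (U1ᵀ * (Fᵀ * J * (P.1 * F)) * U1)) +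
        c⁻¹ • ((γ - X s * (U1ᵀ * (Fᵀ * J * (P.1 * F)) * U1)) * a1 s)))) = 0 := by
      rw [Matrix.mul_smul, Matrix.mul_smul, h1, smul_zero]
    rw [smul_add, smul_smul, mul_inv_cancel₀ hc0, one_smul] at h2
    exact h2

end main

end Crest.Agent.R172.SGeoA118
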