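import Crest.Agent.R172.SEx16
import Crest.Agent.R172.SNabI934
import Crest.Agent.R172.SInf659
import Crest.Agent.R172.SUniq803

/-!
Row 172 (S0260), (t2), level 2, geometric half: the point at a good parameter and the move of an
exact family.
-/

set_option autoImplicit false
set_option linter.unusedSectionVars false
set_option linter.unusedFintypeInType false
set_option linter.unusedDecidableInType false
set_option maxHeartbeats 1600000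

namespace Crest.Agent.R172.SGeo19

open Matrix Module Crest.Agent.R172.FO Crest.Agent.R172.Qt Crest.Agent.R172.SpS
open Crest.Agent.R172.SEnd2 (PC PhS)
open Crest.Agent.R172.SUX (D3 th Mv ZY)
open Crest.Agent.R172.PL (CoreM Ainf)
open Crest.Agent.R172.STop (Setup)
open Crest.Agent.R172.SInst
open Crest.Agent.R172.SMv16 (Yf)
open Crest.Agent.R172.UBlk (cov)

variable {ι : Type} [Fintype ι] [DecidableEq ι] {δ : Type} [Fintype δ] [DecidableEq δ]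
  {K : Type} [Field K] [Algebra ℂ K] [IsAlgClosed K]
  {arm : δ → Fin 3} {J : Matrix ι ι K} {B : Matrix δ δ K} {N W : Submodule K (Matrix ι δ K)}
  {F f : Matrix ι δ K} {P : Matrix ι ι K × (Fin 3 → Matrix ι ι K)} {R : Matrix δ ι K}
  {D : End K (CoreM (PhS arm J B F R P.1))} {l : Fin 3 → ℕ}

/-- the point at a good parameter -/
structure Pnt (S : Setup arm J B N W F f P R D l) (ν ν' : K) (dY : Derivation ℂ K K) (t : ℂ)
    (Pt : Matrix ι ι K × (Fin 3 → Matrix ι ι K)) (Ri : Matrix δ ι K) : Prop where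
  hH : Ctx ℂ arm J B N W (F + algebraMap ℂ K t • f)
  hPt : Pt ∈ NN arm J N (F + algebraMap ℂ K t • f)
  hV : Vert ℂ arm J N W (F + algebraMap ℂ K t • f) Pt
  hRi : (F + algebraMap ℂ K t • f) * Ri * (F + algebraMap ℂ K t • f) =
    F + algebraMap ℂ K t • f
  hY : ∀ f' ∈ N ⊓ W, (F + algebraMap ℂ K t • f)ᵀ * J * (Pt.1 * f') =
    (F + algebraMap ℂ K t • f)ᵀ * J * f'.map dY
  hPF : (F + algebraMap ℂ K t • f)ᵀ * J * (Pt.1 * F) =
    (F + algebraMap ℂ K t • f)ᵀ * J * (P.1 * F)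
  hrow : ∀ w : Matrix ι δ K, (F + algebraMap ℂ K t • f)ᵀ * J * w = 0 →
    (F + algebraMap ℂ K t • f)ᵀ * J * (Pt.1 * w) =
      (F + algebraMap ℂ K t • f)ᵀ * J * w.map dY
  ht : t ≠ 0
  hc1 : 1 + algebraMap ℂ K t * ν ≠ 0
  hc2 : 1 + algebraMap ℂ K t * ν' ≠ 0
  hcE : ∀ κ, ((cov (ctx S).data S.hR P.1).D D).maxGenEigenspace κ ≠ ⊥ →
    1 + algebraMap ℂ K t * κ ≠ 0
  hc : ∀ κ, QQb S κ ≠ ⊥ → 1 + algebraMap ℂ K t * κ ≠ 0
  hom : SNab.Hom0 (UBlk.om arm J B F P.1 F) ((cov (ctx S).data S.hR P.1).D D)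
    (fun κ => (1 + algebraMap ℂ K t * κ) ^ 2)
  hA : Ainf (UBlk.om arm J B (F + algebraMap ℂ K t • f) Pt.1 (F + algebraMap ℂ K t • f)) ≤
    Ainf (UBlk.om arm J B F P.1 F)

theorem exists_pnt (S : Setup arm J B N W F f P R D l) (ν ν' : K) :
    ∃ (dY : Derivation ℂ K K) (Bad : Set ℂ), Bad.Finite ∧ ∀ t ∉ Bad, ∃ Pt Ri,
      Pnt S ν ν' dY t Pt Ri := by
  haveI : CharZero K := charZero_of_injective_algebraMap (algebraMap ℂ K).injective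
  obtain ⟨Y, dY, hYB, hYR, hform, hfam⟩ := SInst.family S two_ne_zero
  obtain ⟨Bad1, hB1, h1⟩ := SInf659.ainf_eq two_ne_zero S.hCtx S.hNm S.hWm S.hNil S.hF S.hf S.hV1
    S.hP hform
  obtain ⟨Bad2, hB2, h2⟩ := SNabI.exists_bad (ctx S) S.hR S.hD two_ne_zero
  refine ⟨dY, Bad1 ∪ Bad2 ∪ {0} ∪ ({t : ℂ | 1 + algebraMap ℂ K t * ν = 0} ∪
      {t : ℂ | 1 + algebraMap ℂ K t * ν' = 0}), ?_, ?_⟩
  · exact ((hB1.union hB2).union (Set.finite_singleton 0)).union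
      ((SMv16.bad_one ν).union (SMv16.bad_one ν'))
  intro t ht
  simp only [Set.mem_union, Set.mem_singleton_iff, Set.mem_setOf_eq, not_or] at ht
  obtain ⟨⟨⟨ht1, ht2⟩, ht0⟩, ht3, ht4⟩ := ht
  obtain ⟨Pt, Ri, hHk, hH, hPt, hV, hRi, hY, hPF, hfr⟩ := hfam t
  obtain ⟨e1, e2⟩ := h2 t ht2
  refine ⟨Pt, Ri, ⟨hH, hPt, hV, hRi, hY, hPF, ?_, ht0, ht3, ht4, e1, ?_, e2, ?_⟩⟩
  · intro w hw
    have h5 := hfr w hw
    have hX : Skw J Pt.1 := hPt.1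
    have e3 : (Pt.1 * (F + algebraMap ℂ K t • f))ᵀ * J * w =
        -((F + algebraMap ℂ K t • f)ᵀ * J * (Pt.1 * w)) := by
      rw [transpose_mul, Matrix.mul_assoc _ _ J, hX.eq]
      simp only [Matrix.mul_neg, Matrix.neg_mul, Matrix.mul_assoc]
    rw [e3] at h5
    exact neg_injective h5
  · intro κ hκ
    refine e1 κ fun h3 => hκ ?_
    exact STop.PB_bot ((cov (ctx S).data S.hR P.1).D_comm S.hD.2) h3
  · exact (h1 t ht1 Pt hPt hY hPF).le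

/-- the move of an exact family at a good parameter, with the connection on all blocks -/
theorem move (S : Setup arm J B N W F f P R D l) {ν ν' : K} (hne : ν ≠ ν') {m1 m2 : ℕ}
    {U1 : Matrix δ (Fin m1) K} {U2 : Matrix δ (Fin m2) K}
    {a1 : Fin 3 → Matrix (Fin m1) (Fin m1) K} {a2 : Fin 3 → Matrix (Fin m2) (Fin m2) K}
    (hU1 : UFr.Cq (QQb S ν) U1) (hsp1 : ∀ u ∈ QQb S ν, ∃ x, u = U1 *ᵥ x)
    (ha1 : ∀ s, B * E K arm s * (Fᵀ * J * (P.1 * F)) * U1 = U1 * a1 s)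
    (hU2 : UFr.Cq (QQb S ν') U2) (hsp2 : ∀ u ∈ QQb S ν', ∃ x, u = U2 *ᵥ x)
    (ha2 : ∀ s, B * E K arm s * (Fᵀ * J * (P.1 * F)) * U2 = U2 * a2 s)
    {dY : Derivation ℂ K K} {t : ℂ} {Pt : Matrix ι ι K × (Fin 3 → Matrix ι ι K)}
    {Ri : Matrix δ ι K} (p : Pnt S ν ν' dY t Pt Ri) {r : K}
    (hr : r = (1 + algebraMap ℂ K t * ν') / (1 + algebraMap ℂ K t * ν))
    {X : Fin 3 → Matrix (Fin m2) (Fin m1) K}
    (hsum : ∑ s, (X s * (a1 s)ᵀ - (-(r ^ 2)) • (a2 s * X s)) = 0)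
    (harm : ∀ s, (U2ᵀ * (Fᵀ * J * (P.1 * F)) * U2) *
      (X s * (a1 s)ᵀ - (-(r ^ 2)) • (a2 s * X s)) * (U1ᵀ * (Fᵀ * J * (P.1 * F)) * U1) = 0) :
    ∃ (d : Derivation ℂ K K) (Γ1 : Matrix (Fin m1) (Fin m1) K) (Γ2 : Matrix (Fin m2) (Fin m2) K)
      (β : Matrix (Fin m1) (Fin m2) K) (γ : Matrix (Fin m2) (Fin m1) K),
      Mv ℂ arm J N W (F + algebraMap ℂ K t • f) Pt.1 (Yf U1 U2 X) d ∧
      U2.map d + ZY arm J (F + algebraMap ℂ K t • f) Pt.1 (Yf U1 U2 X) * U2 =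
        U2 * Γ2 + (1 + algebraMap ℂ K t * ν') ^ 2 • (U1 * β) ∧
      U1.map d + ZY arm J (F + algebraMap ℂ K t • f) Pt.1 (Yf U1 U2 X) * U1 =
        U1 * Γ1 + (1 + algebraMap ℂ K t * ν) ^ 2 • (U2 * γ) ∧
      SDec.Dec F (Fᵀ * J * (P.1 * F)) U1 U2 a1 a2 (-(r ^ 2)) (X, β, γ) ∧
      SDec.ZB F U1 U2 (X, β, γ) ∧
      ∀ κ, κ ≠ ν → κ ≠ ν' → ∀ u ∈ QQb S κ,
        SUB.nab arm J (F + algebraMap ℂ K t • f) Pt.1 (Yf U1 U2 X) d u ∈ QQb S κ := by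
  haveI : CharZero K := charZero_of_injective_algebraMap (algebraMap ℂ K).injective
  have hfr := (fr_k1 S p.hY p.hPF hne p.hc1 p.hc2 hU1 hU2).1
  obtain ⟨d, m⟩ := SMv16.exists_mv p.hH (two_ne_zero) p.hRi p.hPt p.hV hfr ha1 ha2 hr hsum
  obtain ⟨i1, i2, i3⟩ := SNabI.B1 (ctx S) S.hR S.hD (S.hNil F S.hF) S.hP (hfNW S) (hff S) p.hH
    p.hPt p.hY p.hPF p.hA p.hcE p.hom (fun r => SMv16.Yf_symm r) m hne hU1 hU2 hsp1 hsp2 ha1 ha2
    (fun r => rfl) (fun s => by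
      have h1 := harm s
      have hc1 := p.hc1
      have e1 : (1 + algebraMap ℂ K t * ν) ^ 2 • (X s * (a1 s)ᵀ) +
          (1 + algebraMap ℂ K t * ν') ^ 2 • (a2 s * X s) =
          (1 + algebraMap ℂ K t * ν) ^ 2 • (X s * (a1 s)ᵀ - (-(r ^ 2)) • (a2 s * X s)) := by
        rw [smul_sub, smul_smul, mul_neg, neg_smul, sub_neg_eq_add]
        congr 2
        rw [hr]
        field_simp
      rw [e1, Matrix.mul_smul, Matrix.smul_mul, h1, smul_zero])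
  have hcne : 1 + algebraMap ℂ K t * ν ≠ 1 + algebraMap ℂ K t * ν' := SMv16.c_ne p.ht hne
  have hp : ∀ μ, ∀ u ∈ QQb S μ, ∃ c : Fin 3 → δ → K, (∀ s, c s ∈ QQb S μ) ∧
      ∑ s, (B * E K arm s * (Fᵀ * J * (P.1 * F))) *ᵥ c s = u := fun μ u hu =>
    UBlk.Qb_exists (ctx S) S.hR S.hD hu
  obtain ⟨Γ1, Γ2, β, γ, hN2, hN1, hdec⟩ := SB2H16.dec_of_B1 p.hH p.hPt m hfr hcne hU1 hsp1 ha1
    (hp ν) hU2 hsp2 ha2 (hp ν') (fun r => rfl) i1 i2 hr hsum harm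
  refine ⟨d, Γ1, Γ2, β, γ, m, hN2, hN1, hdec, ⟨?_, ?_⟩, i3⟩
  · exact fun x hx => SZb601.zb hfr m.dH (congrArg (fun A =>
      (F + algebraMap ℂ K t • f) * A) hN2) x hx
  · exact fun x hx => SZb601.zk hfr m.dH (congrArg (fun A =>
      (F + algebraMap ℂ K t • f) * A) hN1) x hx

end Crest.Agent.R172.SGeo19
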