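import Crest.Agent.R172.SGl1

/-!
Row 172 (S0260), S-side (t2), arbitrary radical: first level, V-level modules `P_i = F Q_i`.
The exact families of `P2 ⊗ P1` lift to exact families of `Q2 ⊗ Q1`.
-/

set_option autoImplicit false
set_option linter.unusedSectionVars false
set_option linter.unusedFintypeInType false
set_option linter.unusedDecidableInType false

namespace Crest.Agent.R172.SGl1

open Matrix Module TensorProduct Crest.Agent.R172.FO Crest.Agent.R172.Qt Crest.Agent.R172.SpS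
  Crest.Agent.R172.Om Crest.Agent.R172.SUX

section lift

variable {K : Type*} [Field K] {X1 X2 P1 P2 : Type*} [AddCommGroup X1] [Module K X1]
  [AddCommGroup X2] [Module K X2] [AddCommGroup P1] [Module K P1] [AddCommGroup P2] [Module K P2]
  {a : Fin 3 → End K X1} {b : Fin 3 → End K X2} {A : Fin 3 → End K P1} {Bo : Fin 3 → End K P2}

theorem map_defect {π1 : X1 →ₗ[K] P1} {π2 : X2 →ₗ[K] P2} (ha : ∀ t u, π1 (a t u) = A t (π1 u))
    (hb : ∀ t u, π2 (b t u) = Bo t (π2 u)) (c : K) (t : Fin 3) (v : X2 ⊗[K] X1) :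
    TensorProduct.map π2 π1 (Dual.defect (a t) (b t) c v) =
      Dual.defect (A t) (Bo t) c (TensorProduct.map π2 π1 v) := by
  induction v using TensorProduct.induction_on with
  | zero => simp
  | tmul x y =>
    rw [Dual.defect_tmul, map_sub, map_smul, TensorProduct.map_tmul, TensorProduct.map_tmul,
      TensorProduct.map_tmul, Dual.defect_tmul, ha, hb]
  | add x y hx hy => simp only [map_add, hx, hy]

/-- **lift of exact families** along surjections whose kernels are killed -/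
theorem lift_exact (π1 : X1 →ₗ[K] P1) (π2 : X2 →ₗ[K] P2) (s1 : Function.Surjective π1)
    (s2 : Function.Surjective π2)
    (ha : ∀ t u, π1 (a t u) = A t (π1 u)) (hb : ∀ t u, π2 (b t u) = Bo t (π2 u))
    (ka : ∀ t u, π1 u = 0 → a t u = 0) (kb : ∀ t u, π2 u = 0 → b t u = 0)
    (pa : ∀ q, ∃ f : Fin 3 → X1, q = ∑ t, a t (f t))
    (pb : ∀ q, ∃ f : Fin 3 → X2, q = ∑ t, b t (f t))
    {c : K} (hc : c ≠ 0) (x : Fin 3 → P2 ⊗[K] P1)
    (hx : ∑ t, Dual.defect (A t) (Bo t) c (x t) = 0) :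
    ∃ z : Fin 3 → X2 ⊗[K] X1, (∀ t, TensorProduct.map π2 π1 (z t) = x t) ∧
      ∑ t, Dual.defect (a t) (b t) c (z t) = 0 := by
  classical
  have hsurj : Function.Surjective (TensorProduct.map π2 π1) :=
    TensorProduct.map_surjective s2 s1
  choose z0 hz0 using fun t => hsurj (x t)
  let G : Submodule K (X2 ⊗[K] X1) :=
    { carrier := {e | ∃ z : Fin 3 → X2 ⊗[K] X1, (∀ t, TensorProduct.map π2 π1 (z t) = 0) ∧
        ∑ t, Dual.defect (a t) (b t) c (z t) = e}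
      add_mem' := by
        rintro _ _ ⟨z, hz, rfl⟩ ⟨w, hw, rfl⟩
        refine ⟨fun t => z t + w t, fun t => by rw [map_add, hz, hw, add_zero], ?_⟩
        simp only [map_add, Finset.sum_add_distrib]
      zero_mem' := ⟨0, fun t => by simp, by simp⟩
      smul_mem' := by
        rintro r _ ⟨z, hz, rfl⟩
        refine ⟨fun t => r • z t, fun t => by rw [map_smul, hz, smul_zero], ?_⟩
        simp only [map_smul, Finset.smul_sum] }
  set e : X2 ⊗[K] X1 := ∑ t, Dual.defect (a t) (b t) c (z0 t) with he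
  have heker : e ∈ LinearMap.ker (TensorProduct.map π2 π1) := by
    rw [LinearMap.mem_ker, he, map_sum, Finset.sum_congr rfl fun t _ => map_defect ha hb c t (z0 t)]
    simp only [hz0]
    exact hx
  have hG : LinearMap.ker (TensorProduct.map π2 π1) ≤ G := by
    rw [TensorProduct.map_ker (f := (LinearMap.ker π2).subtype) (g := π2)
      (f' := (LinearMap.ker π1).subtype) (g' := π1)
      (by rw [LinearMap.exact_iff]; simp) s2 (by rw [LinearMap.exact_iff]; simp) s1]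
    refine sup_le ?_ ?_
    · rintro _ ⟨v, rfl⟩
      induction v using TensorProduct.induction_on with
      | zero => rw [map_zero]; exact G.zero_mem
      | tmul p y =>
        obtain ⟨f, hf⟩ := pb p
        refine ⟨fun t => -(c⁻¹ • (f t ⊗ₜ[K] (y : X1))), fun t => ?_, ?_⟩
        · rw [map_neg, map_smul, TensorProduct.map_tmul]
          have : π1 (y : X1) = 0 := y.2
          rw [this, tmul_zero, smul_zero, neg_zero]
        · rw [LinearMap.lTensor_tmul, Submodule.subtype_apply, hf, TensorProduct.sum_tmul]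
          refine Finset.sum_congr rfl fun t _ => ?_
          rw [map_neg, map_smul, Dual.defect_tmul, ka t y y.2, tmul_zero, zero_sub,
            smul_neg, neg_neg, smul_smul, inv_mul_cancel₀ hc, one_smul]
      | add v w hv hw => rw [map_add]; exact G.add_mem hv hw
    · rintro _ ⟨v, rfl⟩
      induction v using TensorProduct.induction_on with
      | zero => rw [map_zero]; exact G.zero_mem
      | tmul y p =>
        obtain ⟨f, hf⟩ := pa p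
        refine ⟨fun t => (y : X2) ⊗ₜ[K] f t, fun t => ?_, ?_⟩
        · rw [TensorProduct.map_tmul]
          have : π2 (y : X2) = 0 := y.2
          rw [this, zero_tmul]
        · rw [LinearMap.rTensor_tmul, Submodule.subtype_apply, hf, TensorProduct.tmul_sum]
          refine Finset.sum_congr rfl fun t _ => ?_
          rw [Dual.defect_tmul, kb t y y.2, zero_tmul, smul_zero, sub_zero]
      | add v w hv hw => rw [map_add]; exact G.add_mem hv hw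
  obtain ⟨w, hw, hwe⟩ := hG heker
  refine ⟨fun t => z0 t - w t, fun t => by rw [map_sub, hz0, hw, sub_zero], ?_⟩
  simp only [map_sub, Finset.sum_sub_distrib]
  rw [hwe, ← he, sub_self]

end lift

variable {ι : Type*} [Fintype ι] [DecidableEq ι] {δ : Type*} [Fintype δ] [DecidableEq δ]
variable {k K : Type*} [Field k] [Field K] [Algebra k K]
variable {arm : δ → Fin 3} {J : Matrix ι ι K} {B : Matrix δ δ K}
  {N W : Submodule K (Matrix ι δ K)}

/-- the form on `P2 ⊗ P1`: `(a, b) ↦ a (T b)ᵀ E_s` -/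
noncomputable def qv (arm : δ → Fin 3) (T : Matrix δ ι K) (P2 P1 : Submodule K (ι → K))
    (s : Fin 3) : P2 →ₗ[K] P1 →ₗ[K] Matrix ι δ K :=
  ((vm K ι δ).compl₁₂ P2.subtype (Matrix.toLin' T ∘ₗ P1.subtype)).compr₂ (mE arm s)

theorem qv_apply (T : Matrix δ ι K) (P2 P1 : Submodule K (ι → K)) (s : Fin 3)
    (a : P2) (b : P1) : qv arm T P2 P1 s a b =
      vecMulVec (a : ι → K) (T *ᵥ (b : ι → K)) * E K arm s := by
  simp [qv]

/-- restriction of `F` -/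
def rF (F : Matrix ι δ K) (Q : Submodule K (δ → K)) (P : Submodule K (ι → K))
    (h : ∀ u ∈ Q, F *ᵥ u ∈ P) : Q →ₗ[K] P := (Matrix.toLin' F).restrict h

theorem rF_coe {F : Matrix ι δ K} {Q : Submodule K (δ → K)} {P : Submodule K (ι → K)}
    (h : ∀ u ∈ Q, F *ᵥ u ∈ P) (u : Q) : ((rF F Q P h u : P) : ι → K) = F *ᵥ (u : δ → K) := rfl

theorem lift_qa {F : Matrix ι δ K} {T : Matrix δ ι K} {Q1 Q2 : Submodule K (δ → K)}
    {P1 P2 : Submodule K (ι → K)} (f1 : ∀ u ∈ Q1, F *ᵥ u ∈ P1) (f2 : ∀ u ∈ Q2, F *ᵥ u ∈ P2)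
    (s : Fin 3) (z : Q2 ⊗[K] Q1) :
    TensorProduct.lift (qa arm F (T * F) Q2 Q1 s) z =
      TensorProduct.lift (qv arm T P2 P1 s) (TensorProduct.map (rF F Q2 P2 f2) (rF F Q1 P1 f1) z) := by
  induction z using TensorProduct.induction_on with
  | zero => simp
  | tmul a b =>
    rw [TensorProduct.lift.tmul, TensorProduct.map_tmul, TensorProduct.lift.tmul, qa_apply,
      qv_apply, rF_coe, rF_coe, mulVec_mulVec]
  | add x y hx hy => simp only [map_add, hx, hy]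

theorem lift_qa' {F : Matrix ι δ K} {T : Matrix δ ι K} {Q1 Q2 : Submodule K (δ → K)}
    {P1 P2 : Submodule K (ι → K)} (f1 : ∀ u ∈ Q1, F *ᵥ u ∈ P1) (f2 : ∀ u ∈ Q2, F *ᵥ u ∈ P2)
    (s : Fin 3) (z : Q2 ⊗[K] Q1) :
    TensorProduct.lift (-(qa arm F (T * F) Q1 Q2 s).flip) z =
      TensorProduct.lift (-(qv arm T P1 P2 s).flip)
        (TensorProduct.map (rF F Q2 P2 f2) (rF F Q1 P1 f1) z) := by
  induction z using TensorProduct.induction_on with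
  | zero => simp
  | tmul a b =>
    rw [TensorProduct.lift.tmul, TensorProduct.map_tmul, TensorProduct.lift.tmul,
      LinearMap.neg_apply, LinearMap.neg_apply, LinearMap.neg_apply, LinearMap.neg_apply,
      LinearMap.flip_apply, LinearMap.flip_apply, qa_apply,
      qv_apply, rF_coe, rF_coe, mulVec_mulVec]
  | add x y hx hy => simp only [map_add, hx, hy]

/-- **the relation of a pair of blocks at one parameter**, V-level modules `P_i = F Q_i`: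
hypothesis `h` of `Dual.span_exact2`. -/
theorem relV {F : Matrix ι δ K} {T : Matrix δ ι K} {Q1 Q2 : Submodule K (δ → K)}
    {P1 P2 : Submodule K (ι → K)} {R1 : Submodule K P1} {R2 : Submodule K P2}
    {Φ : Fin 3 → Matrix ι ι K}
    (h2 : (2 : K) ≠ 0) {kk : Matrix ι δ K} (hk : kk ∈ N ⊓ W)
    (u1 : ∀ r, ∀ u ∈ Q1, om arm B (T * F) r *ᵥ u ∈ Q1)
    (u2 : ∀ r, ∀ u ∈ Q2, om arm B (T * F) r *ᵥ u ∈ Q2)
    (up1 : ∀ q : Q1, ∃ f : Fin 3 → Q1, q = ∑ t, rs (om arm B (T * F) t) Q1 (u1 t) (f t))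
    (up2 : ∀ q : Q2, ∃ f : Fin 3 → Q2, q = ∑ t, rs (om arm B (T * F) t) Q2 (u2 t) (f t))
    (f1 : ∀ u ∈ Q1, F *ᵥ u ∈ P1) (f2 : ∀ u ∈ Q2, F *ᵥ u ∈ P2)
    (fs1 : ∀ a ∈ P1, ∃ u ∈ Q1, F *ᵥ u = a) (fs2 : ∀ a ∈ P2, ∃ u ∈ Q2, F *ᵥ u = a)
    (hFΦ : ∀ r, F * om arm B (T * F) r = Φ r * F)
    (h1 : ∀ r, ∀ a ∈ P1, Φ r *ᵥ a ∈ P1) (h2' : ∀ r, ∀ a ∈ P2, Φ r *ᵥ a ∈ P2)
    (G : Submodule K (Matrix ι δ K)) {ρ : K} (hρ0 : ρ ≠ 0)
    {H : Matrix ι δ K} {P : Matrix ι ι K × (Fin 3 → Matrix ι ι K)}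
    {Ri : Matrix δ ι K} {c1 c2 : K} (hC : Ctx k arm J B N W H) (hP : P ∈ NN arm J N H)
    (hV : Vert k arm J N W H P) (hR : H * Ri * H = H) (hc1 : c1 ≠ 0) (hc2 : c2 ≠ 0)
    (hcc : c1 * ρ = c2)
    (hRel : Rel F H kk (T * F) (th J H P.1 H) (th J H P.1 kk) Q1 Q2 c1 c2)
    (hw : ∀ y : Fin 3 → Q2 ⊗[K] Q1,
        ∑ r, Dual.defect (rs (om arm B (T * F) r) Q1 (u1 r))
          (-(rs (om arm B (T * F) r) Q2 (u2 r))) (ρ ^ 2) (y r) = 0 →
        (∀ r, Dual.defect (rs (Φ r) P1 (h1 r)) (-(rs (Φ r) P2 (h2' r))) (ρ ^ 2)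
          (TensorProduct.map (rF F Q2 P2 f2) (rF F Q1 P1 f1) (y r)) ∈ Dual.Rad R1 R2) →
        ∀ d : Derivation k K K,
          Mv k arm J N W H P.1 (fun r => ten Q2 Q1 (y r) + (ten Q2 Q1 (y r))ᵀ) d →
          wd arm J H P.1 (fun r => ten Q2 Q1 (y r) + (ten Q2 Q1 (y r))ᵀ) d kk ∈ G)
    (x : Fin 3 → P2 ⊗[K] P1)
    (hx : Dual.Exact (fun r => rs (Φ r) P1 (h1 r)) (fun r => -(rs (Φ r) P2 (h2' r))) R1 R2
      (ρ ^ 2) x) :
    ∑ t, TensorProduct.lift (qv arm T P2 P1 t) (x t) +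
      ρ • ∑ t, TensorProduct.lift (-(qv arm T P1 P2 t).flip) (x t) ∈ QG N G := by
  have hcomm : ∀ (r : Fin 3) (Q : Submodule K (δ → K)) (P : Submodule K (ι → K))
      (hQ : ∀ u ∈ Q, om arm B (T * F) r *ᵥ u ∈ Q) (hP : ∀ a ∈ P, Φ r *ᵥ a ∈ P)
      (hF : ∀ u ∈ Q, F *ᵥ u ∈ P) (u : Q),
      rF F Q P hF (rs (om arm B (T * F) r) Q hQ u) = rs (Φ r) P hP (rF F Q P hF u) := by
    intro r Q P hQ hP hF u
    apply Subtype.ext
    rw [rF_coe, rs_coe, rs_coe, rF_coe, mulVec_mulVec, mulVec_mulVec, hFΦ]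
  have hkf : ∀ (r : Fin 3) (Q : Submodule K (δ → K)) (P : Submodule K (ι → K))
      (hQ : ∀ u ∈ Q, om arm B (T * F) r *ᵥ u ∈ Q)
      (hF : ∀ u ∈ Q, F *ᵥ u ∈ P) (u : Q), rF F Q P hF u = 0 →
      rs (om arm B (T * F) r) Q hQ u = 0 := by
    intro r Q P hQ hF u hu
    have h3 : F *ᵥ (u : δ → K) = 0 := congrArg (fun y : P => (y : ι → K)) hu
    apply Subtype.ext
    rw [rs_coe]
    unfold om
    rw [← Matrix.mul_assoc, ← mulVec_mulVec, h3, mulVec_zero]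
    rfl
  obtain ⟨y, hy1, hy2⟩ := lift_exact
    (a := fun r => rs (om arm B (T * F) r) Q1 (u1 r))
    (b := fun r => -(rs (om arm B (T * F) r) Q2 (u2 r)))
    (A := fun r => rs (Φ r) P1 (h1 r)) (Bo := fun r => -(rs (Φ r) P2 (h2' r)))
    (rF F Q1 P1 f1) (rF F Q2 P2 f2)
    (fun a => by
      obtain ⟨u, hu, e⟩ := fs1 a a.2
      exact ⟨⟨u, hu⟩, Subtype.ext e⟩)
    (fun a => by
      obtain ⟨u, hu, e⟩ := fs2 a a.2
      exact ⟨⟨u, hu⟩, Subtype.ext e⟩)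
    (fun t u => hcomm t Q1 P1 (u1 t) (h1 t) f1 u)
    (fun t u => by rw [LinearMap.neg_apply, map_neg, hcomm t Q2 P2 (u2 t) (h2' t) f2 u]; rfl)
    (fun t u hu => hkf t Q1 P1 (u1 t) f1 u hu)
    (fun t u hu => by rw [LinearMap.neg_apply, hkf t Q2 P2 (u2 t) f2 u hu, neg_zero])
    up1
    (fun q => by
      obtain ⟨f, hf⟩ := up2 q
      refine ⟨fun t => -(f t), hf.trans (Finset.sum_congr rfl fun t _ => ?_)⟩
      rw [LinearMap.neg_apply, map_neg, neg_neg])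
    (pow_ne_zero 2 hρ0) x hx.1
  have h5 := first_pair hC h2 hR hP hV hk hRel hc1 hc2 hcc u1 u2 hy2 G
    (hw y hy2 fun r => by rw [hy1 r]; exact hx.2 r)
  have e1 : ∀ r, TensorProduct.lift (qa arm F (T * F) Q2 Q1 r) (y r) =
      TensorProduct.lift (qv arm T P2 P1 r) (x r) := fun r => by
    rw [lift_qa f1 f2, hy1 r]
  have e2 : ∀ r, TensorProduct.lift (-(qa arm F (T * F) Q1 Q2 r).flip) (y r) =
      TensorProduct.lift (-(qv arm T P1 P2 r).flip) (x r) := fun r => by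
    rw [lift_qa' f1 f2, hy1 r]
  rw [Finset.sum_congr rfl fun r _ => e1 r, Finset.sum_congr rfl fun r _ => e2 r] at h5
  exact h5

/-- **FIRST LEVEL**: a pair of blocks, V-level modules `P_i = F Q_i`. -/
theorem pair_goodV {F : Matrix ι δ K} {T : Matrix δ ι K} {Q1 Q2 : Submodule K (δ → K)}
    {P1 P2 : Submodule K (ι → K)} {R1 : Submodule K P1} {R2 : Submodule K P2}
    {Φ : Fin 3 → Matrix ι ι K}
    (h2 : (2 : K) ≠ 0) {kk : Matrix ι δ K} (hk : kk ∈ N ⊓ W)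
    -- U-level
    (u1 : ∀ r, ∀ u ∈ Q1, om arm B (T * F) r *ᵥ u ∈ Q1)
    (u2 : ∀ r, ∀ u ∈ Q2, om arm B (T * F) r *ᵥ u ∈ Q2)
    (up1 : ∀ q : Q1, ∃ f : Fin 3 → Q1, q = ∑ t, rs (om arm B (T * F) t) Q1 (u1 t) (f t))
    (up2 : ∀ q : Q2, ∃ f : Fin 3 → Q2, q = ∑ t, rs (om arm B (T * F) t) Q2 (u2 t) (f t))
    -- `F`
    (f1 : ∀ u ∈ Q1, F *ᵥ u ∈ P1) (f2 : ∀ u ∈ Q2, F *ᵥ u ∈ P2)
    (fs1 : ∀ a ∈ P1, ∃ u ∈ Q1, F *ᵥ u = a) (fs2 : ∀ a ∈ P2, ∃ u ∈ Q2, F *ᵥ u = a)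
    (hFΦ : ∀ r, F * om arm B (T * F) r = Φ r * F)
    -- V-level
    (h1 : ∀ r, ∀ a ∈ P1, Φ r *ᵥ a ∈ P1) (h2' : ∀ r, ∀ a ∈ P2, Φ r *ᵥ a ∈ P2)
    (G : Submodule K (Matrix ι δ K)) {Λ : Set K} (hΛ : Λ.Infinite) (h0 : (0 : K) ∉ Λ)
    (hpar : ∀ ρ ∈ Λ, ∃ (H : Matrix ι δ K) (P : Matrix ι ι K × (Fin 3 → Matrix ι ι K))
      (Ri : Matrix δ ι K) (c1 c2 : K), Ctx k arm J B N W H ∧ P ∈ NN arm J N H ∧
      Vert k arm J N W H P ∧ H * Ri * H = H ∧ c1 ≠ 0 ∧ c2 ≠ 0 ∧ c1 * ρ = c2 ∧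
      Rel F H kk (T * F) (th J H P.1 H) (th J H P.1 kk) Q1 Q2 c1 c2 ∧
      ∀ y : Fin 3 → Q2 ⊗[K] Q1,
        ∑ r, Dual.defect (rs (om arm B (T * F) r) Q1 (u1 r))
          (-(rs (om arm B (T * F) r) Q2 (u2 r))) (ρ ^ 2) (y r) = 0 →
        (∀ r, Dual.defect (rs (Φ r) P1 (h1 r)) (-(rs (Φ r) P2 (h2' r))) (ρ ^ 2)
          (TensorProduct.map (rF F Q2 P2 f2) (rF F Q1 P1 f1) (y r)) ∈ Dual.Rad R1 R2) →
        ∀ d : Derivation k K K,
          Mv k arm J N W H P.1 (fun r => ten Q2 Q1 (y r) + (ten Q2 Q1 (y r))ᵀ) d →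
          wd arm J H P.1 (fun r => ten Q2 Q1 (y r) + (ten Q2 Q1 (y r))ᵀ) d kk ∈ G)
    {l : Fin 3 → ℕ}
    (hA : ∀ p : P1, ∃ f : Fin 3 → P1, p = ∑ t, rs (Φ t) P1 (h1 t) (f t))
    (hB : ∀ p : P2, ∃ f : Fin 3 → P2, p = ∑ t, rs (Φ t) P2 (h2' t) (f t))
    (hA1 : ∀ t, ∀ r ∈ R1, rs (Φ t) P1 (h1 t) r ∈ R1)
    (hB2 : ∀ t, ∀ r ∈ R2, rs (Φ t) P2 (h2' t) r ∈ R2)
    (hn1 : ∃ n, ∀ r ∈ R1, Dual.Kills (fun t => rs (Φ t) P1 (h1 t)) n r)
    (hn2 : ∃ n, ∀ r ∈ R2, Dual.Kills (fun t => rs (Φ t) P2 (h2' t)) n r)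
    (hl1 : ∀ s p, (rs (Φ s) P1 (h1 s) ^ l s) p ∈ R1)
    (hl2 : ∀ s p, (rs (Φ s) P2 (h2' s) ^ l s) p ∈ R2)
    (gen1 : ∀ T : Submodule K P1, (∀ s p, (rs (Φ s) P1 (h1 s) ^ l s) p ∈ T) →
      (∀ t, ∀ r ∈ T, rs (Φ t) P1 (h1 t) r ∈ T) → R1 ≤ T)
    (gen2 : ∀ T : Submodule K P2, (∀ s p, (rs (Φ s) P2 (h2' s) ^ l s) p ∈ T) →
      (∀ t, ∀ r ∈ T, rs (Φ t) P2 (h2' t) r ∈ T) → R2 ≤ T) :
    (∀ s i j, i + j + 1 = l s → ∀ a ∈ P2, ∀ b ∈ P1,
      vecMulVec ((Φ s ^ j) *ᵥ a) (T *ᵥ ((Φ s ^ i) *ᵥ b)) * E K arm s ∈ QG N G ∧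
      vecMulVec ((Φ s ^ i) *ᵥ b) (T *ᵥ ((Φ s ^ j) *ᵥ a)) * E K arm s ∈ QG N G) ∧
    (∀ s, ∀ a ∈ R2, ∀ b ∈ P1,
      vecMulVec ((a : P2) : ι → K) (T *ᵥ b) * E K arm s ∈ QG N G ∧
      vecMulVec b (T *ᵥ ((a : P2) : ι → K)) * E K arm s ∈ QG N G) ∧
    (∀ s, ∀ b ∈ R1, ∀ a ∈ P2,
      vecMulVec a (T *ᵥ ((b : P1) : ι → K)) * E K arm s ∈ QG N G ∧
      vecMulVec ((b : P1) : ι → K) (T *ᵥ a) * E K arm s ∈ QG N G) := by
  classical
  -- signs
  have hnp : ∀ (s : Fin 3) (j : ℕ) (a : P2), ((-(rs (Φ s) P2 (h2' s))) ^ j) a =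
      (-1 : K) ^ j • (rs (Φ s) P2 (h2' s) ^ j) a := by
    intro s j
    induction j with
    | zero => intro a; simp
    | succ j ih =>
      intro a
      rw [pow_succ, Module.End.mul_apply, LinearMap.neg_apply, map_neg, ih, pow_succ, pow_succ,
        Module.End.mul_apply, mul_smul, neg_one_smul, smul_neg]
  have hrp : ∀ (s : Fin 3) (j : ℕ) (Q : Submodule K (ι → K))
      (hQ : ∀ u ∈ Q, Φ s *ᵥ u ∈ Q) (a : Q),
      (((rs (Φ s) Q hQ ^ j) a : Q) : ι → K) = (Φ s ^ j) *ᵥ (a : ι → K) := by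
    intro s j Q hQ a
    induction j generalizing a with
    | zero => rw [pow_zero, pow_zero, one_mulVec]; rfl
    | succ j ih =>
      rw [pow_succ, pow_succ, Module.End.mul_apply, ih, rs_coe, mulVec_mulVec]
  have hneg : ∀ n : ℕ, ((-1 : K)) ^ n ≠ 0 := fun n => pow_ne_zero _ (neg_ne_zero.2 one_ne_zero)
  have hkill : ∀ (w : List (Fin 3)) (r : P2),
      (w.map fun t => -(rs (Φ t) P2 (h2' t))).prod r =
        (-1 : K) ^ w.length • (w.map fun t => rs (Φ t) P2 (h2' t)).prod r := by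
    intro w
    induction w with
    | nil => intro r; simp
    | cons t w ih =>
      intro r
      rw [List.map_cons, List.prod_cons, Module.End.mul_apply, ih, List.map_cons, List.prod_cons,
        Module.End.mul_apply, List.length_cons, pow_succ, LinearMap.neg_apply, map_smul,
        mul_smul, neg_one_smul, smul_neg]
  obtain ⟨m1, m2, m3⟩ := Dual.span_exact2 (K := K)
    (A := fun r => rs (Φ r) P1 (h1 r)) (B := fun r => -(rs (Φ r) P2 (h2' r)))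
    (R1 := R1) (R2 := R2) (l := l) hΛ h0 hA
    (fun p => by
      obtain ⟨f, hf⟩ := hB p
      refine ⟨fun t => -(f t), hf.trans (Finset.sum_congr rfl fun t _ => ?_)⟩
      rw [LinearMap.neg_apply, map_neg, neg_neg])
    hA1 (fun t r hr => by rw [LinearMap.neg_apply]; exact R2.neg_mem (hB2 t r hr))
    hn1 (by
      obtain ⟨n, hn⟩ := hn2
      refine ⟨n, fun r hr w hw => ?_⟩
      rw [hkill, hn r hr w hw, smul_zero])
    hl1 (fun s p => by rw [hnp]; exact R2.smul_mem _ (hl2 s p))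
    gen1 (fun T hT1 hT2 => gen2 T (fun s p => by
        have := hT1 s p
        rw [hnp] at this
        exact (T.smul_mem_iff (hneg _)).1 this)
      (fun t r hr => by
        have := hT2 t r hr
        rw [LinearMap.neg_apply] at this
        exact neg_mem_iff.1 this))
    (fun r => qv arm T P2 P1 r) (fun r => -(qv arm T P1 P2 r).flip) (QG N G)
    (by
      intro ρ hρ x hx
      have hρ0 : ρ ≠ 0 := fun h3 => h0 (h3 ▸ hρ)
      obtain ⟨H, P, Ri, c1, c2, hC, hP, hV, hR, hc1, hc2, hcc, hRel, hw⟩ := hpar ρ hρ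
      exact relV h2 hk u1 u2 up1 up2 f1 f2 fs1 fs2 hFΦ h1 h2' G hρ0 hC hP hV hR hc1 hc2 hcc hRel
        hw x hx)
  refine ⟨fun s i j hij a ha b hb => ?_, fun s a ha b hb => ?_, fun s b hb a ha => ?_⟩
  · obtain ⟨e1, e2⟩ := m1 s i j hij ⟨a, ha⟩ ⟨b, hb⟩
    rw [hnp, map_smul, LinearMap.smul_apply, qv_apply, hrp, hrp] at e1
    rw [hnp, map_smul, LinearMap.smul_apply, LinearMap.neg_apply, LinearMap.neg_apply,
      LinearMap.flip_apply, qv_apply, hrp, hrp] at e2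
    exact ⟨((QG N G).smul_mem_iff (hneg _)).1 e1,
      neg_mem_iff.1 (((QG N G).smul_mem_iff (hneg _)).1 e2)⟩
  · obtain ⟨e1, e2⟩ := m2 s a ha ⟨b, hb⟩
    rw [qv_apply] at e1
    rw [LinearMap.neg_apply, LinearMap.neg_apply, LinearMap.flip_apply, qv_apply] at e2
    exact ⟨e1, neg_mem_iff.1 e2⟩
  · obtain ⟨e1, e2⟩ := m3 s b hb ⟨a, ha⟩
    rw [qv_apply] at e1
    rw [LinearMap.neg_apply, LinearMap.neg_apply, LinearMap.flip_apply, qv_apply] at e2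
    exact ⟨e1, neg_mem_iff.1 e2⟩

end Crest.Agent.R172.SGl1
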