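import Crest.Agent.R172.STop
import Crest.Agent.R172.SLev0
import Crest.Agent.R172.SGl2
import Crest.Agent.R172.UFr
import Crest.Agent.R172.SULift

/-!
Row 172 (S0260), tame node (t2), LEVEL 1: everything except the vanishing of the off-diagonal part
of the connection (`hval`).
-/

set_option autoImplicit false
set_option linter.unusedSectionVars false
set_option linter.unusedVariables false
set_option maxHeartbeats 400000

namespace Crest.Agent.R172.SLevR455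

open Matrix Module TensorProduct Crest.Agent.R172.FO Crest.Agent.R172.Qt
open Crest.Agent.R172.SpS Crest.Agent.R172.SEnd Crest.Agent.R172.SEnd2
open Crest.Agent.R172.Om (Kiso Scal)
open Crest.Agent.R172.PL (Wk Ainf Rad CoreM coreOp resOp)
open Crest.Agent.R172.SEndW Crest.Agent.R172.SCM Crest.Agent.R172.SCB
open Crest.Agent.R172.SC (PB iSup_PB)
open Crest.Agent.R172.SUX (th wd ZY Mv)
open Crest.Agent.R172.SUB (nab H_nab F_nab)
open Crest.Agent.R172.UBlk (Qb Qb_rel Qb_exists Qb_stable Qb_map Qb_orth)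
open Crest.Agent.R172.UFr (at_H)
open Crest.Agent.R172.STop (Setup)
open Crest.Agent.R172.SLev0 (PbK)

variable {ι : Type} [Fintype ι] [DecidableEq ι] {δ : Type} [Fintype δ] [DecidableEq δ]
variable {K : Type} [Field K] [Algebra ℂ K] [IsAlgClosed K]
variable {arm : δ → Fin 3} {J : Matrix ι ι K} {B : Matrix δ δ K} {N W : Submodule K (Matrix ι δ K)}
  {F f : Matrix ι δ K} {P : Matrix ι ι K × (Fin 3 → Matrix ι ι K)} {R : Matrix δ ι K}
  {D : End K (CoreM (PhS arm J B F R P.1))} {l : Fin 3 → ℕ}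

/-- the U-level block -/
noncomputable abbrev Qn (S : Setup arm J B N W F f P R D l) (μ : K) : Submodule K (δ → K) :=
  Qb (S.hCtx F S.hF).data S.hR P.1 D μ

theorem mem_PbK (S : Setup arm J B N W F f P R D l) {μ : K} {a : ι → K}
    (ha : a ∈ PbK arm J B F R P.1 D μ) : ∃ u ∈ Qn S μ, F *ᵥ u = a := by
  obtain ⟨v, hv, rfl⟩ := ha
  have h1 := Qb_map (S.hCtx F S.hF) S.hR S.hD μ
  have hv' : v ∈ PB (SBlk.Ph arm J B F R P.1) D μ := hv
  rw [← h1] at hv'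
  obtain ⟨u, hu, e⟩ := hv'
  exact ⟨u, hu, congrArg (fun y : SpS.Sg F => (y : ι → K)) e⟩

theorem map_mem_PbK (S : Setup arm J B N W F f P R D l) {μ : K} {u : δ → K}
    (hu : u ∈ Qn S μ) : F *ᵥ u ∈ PbK arm J B F R P.1 D μ := by
  have h1 := Qb_map (S.hCtx F S.hF) S.hR S.hD μ
  have h2 : gS F u ∈ PB (SBlk.Ph arm J B F R P.1) D μ := by
    rw [← h1]; exact ⟨u, hu, rfl⟩
  exact ⟨gS F u, h2, rfl⟩

theorem PC_eq (S : Setup arm J B N W F f P R D l) :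
    PC arm J B F R P.1 = ⨆ μ, PbK arm J B F R P.1 D μ := by
  have h3 : Ainf (PhS arm J B F R P.1) = ⨆ ν, PB (PhS arm J B F R P.1) D ν :=
    (iSup_PB S.hD.2 (Module.End.iSup_maxGenEigenspace_eq_top D)).symm
  unfold PC
  rw [h3, Submodule.map_iSup]

/-- a property of all block vectors holds on `PC` (for a linear test) -/
theorem PC_ind (S : Setup arm J B N W F f P R D l) {b : ι → K}
    (h : ∀ μ, ∀ u ∈ Qn S μ, (F *ᵥ u) ⬝ᵥ b = 0) : ∀ a ∈ PC arm J B F R P.1, a ⬝ᵥ b = 0 := by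
  intro a ha
  rw [PC_eq S] at ha
  refine Submodule.iSup_induction (p := fun μ => PbK arm J B F R P.1 D μ)
    (motive := fun a => a ⬝ᵥ b = 0) ha ?_ (by simp) ?_
  · intro μ a ha
    obtain ⟨u, hu, rfl⟩ := mem_PbK S ha
    exact h μ u hu
  · intro x y hx hy
    rw [add_dotProduct, hx, hy, add_zero]

theorem Qn_zero (S : Setup arm J B N W F f P R D l) {μ : K}
    (hμ : D.maxGenEigenspace μ = ⊥) {u : δ → K} (hu : u ∈ Qn S μ) : F *ᵥ u = 0 := by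
  obtain ⟨v, hv, e⟩ := map_mem_PbK S hu
  have h1 := STop.PB_bot S.hD.2 hμ
  rw [h1] at hv
  rw [← e, (Submodule.mem_bot K).1 hv]
  rfl

/-- `λ_μ = κ_μ / c_μ` -/
noncomputable def lamf (a ν1 ν2 μ : K) : K := (ν1 - ν2)⁻¹ * (μ - ν2) * (1 + a * μ)⁻¹

theorem wd_good (S : Setup arm J B N W F f P R D l) {t : ℂ}
    {Pt : Matrix ι ι K × (Fin 3 → Matrix ι ι K)}
    {Y : Fin 3 → Matrix δ δ K} {d : Derivation ℂ K K}
    (m : Mv ℂ arm J N W (F + (algebraMap ℂ K t) • f) Pt.1 Y d) {ν1 ν2 : K}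
    (hc : ∀ μ, D.maxGenEigenspace μ ≠ ⊥ → 1 + algebraMap ℂ K t * μ ≠ 0)
    (hval : ∀ μ μ', D.maxGenEigenspace μ ≠ ⊥ → D.maxGenEigenspace μ' ≠ ⊥ → μ ≠ μ' →
      ∀ u ∈ Qn S μ, ∀ v ∈ Qn S μ',
      ((Fᵀ * J * (P.1 * F)) *ᵥ v) ⬝ᵥ nab arm J (F + (algebraMap ℂ K t) • f) Pt.1 Y d u = 0) :
    wd arm J (F + (algebraMap ℂ K t) • f) Pt.1 Y d ((ν1 - ν2)⁻¹ • (f - ν2 • F)) ∈
      SLev0.QG arm J B N W F P (PC arm J B F R P.1) (fun μ => PbK arm J B F R P.1 D μ) id := by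
  set a : K := algebraMap ℂ K t with ha
  set H : Matrix ι δ K := F + a • f with hH
  set kk : Matrix ι δ K := (ν1 - ν2)⁻¹ • (f - ν2 • F) with hkk
  have hC := S.hCtx F S.hF
  have hHK : H ∈ Kiso J N W := (Kiso J N W).add_mem S.hF ((Kiso J N W).smul_mem a S.hf)
  have hCH := S.hCtx H hHK
  have hkm : kk ∈ N ⊓ W :=
    (N ⊓ W).smul_mem _ ((N ⊓ W).sub_mem S.hf.1 ((N ⊓ W).smul_mem _ hC.mem))
  have hrel : ∀ {μ : K} {u : δ → K}, u ∈ Qn S μ → f *ᵥ u = μ • (F *ᵥ u) ∧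
      (Fᵀ * J * (P.1 * f)) *ᵥ u = μ • ((Fᵀ * J * (P.1 * F)) *ᵥ u) := fun {μ u} hu => by
    have := Qb_rel hC S.hR S.hD (S.hNil F S.hF) S.hP S.hf.1 hu
    exact ⟨this.1, this.2.1⟩
  have hHu : ∀ {μ : K} {u : δ → K}, u ∈ Qn S μ → H *ᵥ u = (1 + a * μ) • (F *ᵥ u) := by
    intro μ u hu
    rw [hH, add_mulVec, smul_mulVec, (hrel hu).1, smul_smul, add_smul, one_smul]
  have hku : ∀ {μ : K} {u : δ → K}, u ∈ Qn S μ →
      kk *ᵥ u = ((ν1 - ν2)⁻¹ * (μ - ν2)) • (F *ᵥ u) := by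
    intro μ u hu
    rw [hkk, smul_mulVec, sub_mulVec, smul_mulVec, (hrel hu).1, ← sub_smul, smul_smul]
  have hw : wd arm J H Pt.1 Y d kk ∈ W := m.w_mem hkm.2
  have hwH : Hᵀ * J * wd arm J H Pt.1 Y d kk = 0 := m.w_perp hCH (hCH.perp kk hkm)
  refine SLev0.mem_QG.2 ⟨_, hw, by rw [sub_self]; exact N.zero_mem, ?_, ?_⟩
  · intro b hb v
    refine PC_ind S (fun μ u hu => ?_) b hb
    by_cases hμ : D.maxGenEigenspace μ = ⊥
    · rw [Qn_zero S hμ hu, zero_dotProduct]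
    · have h1 : (H *ᵥ u) ⬝ᵥ ((J * wd arm J H Pt.1 Y d kk) *ᵥ v) = 0 := by
        rw [form_g, hwH, zero_mulVec, dotProduct_zero]
      rw [hHu hu, smul_dotProduct, smul_eq_mul] at h1
      exact (mul_eq_zero.1 h1).resolve_left (hc μ hμ)
  · refine ⟨fun μ => d (lamf a ν1 ν2 μ) * (1 + a * μ), fun μ c hcμ r => ?_⟩
    obtain ⟨u0, hu0, rfl⟩ := mem_PbK S hcμ
    obtain ⟨u, hu⟩ : ∃ u : δ → K, u = (E K arm r * B * (Fᵀ * J * (P.1 * F))) *ᵥ u0 := ⟨_, rfl⟩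
    have huQ : u ∈ Qn S μ := by
      have h1 := Qb_stable hC S.hR S.hD r hu0
      rw [UBlk.om_eq hC.data, ← hu] at h1
      exact h1
    have e1 : (E K arm r * B * Fᵀ * (J * P.1)) *ᵥ (F *ᵥ u0) = u := by
      rw [hu, mulVec_mulVec]; simp only [Matrix.mul_assoc]
    have e2 : (M arm B r F F * (J * P.1)) *ᵥ (F *ᵥ u0) = F *ᵥ u := by
      rw [hu, mulVec_mulVec, mulVec_mulVec]; unfold M; simp only [Matrix.mul_assoc]
    rw [e1, e2, id]
    by_cases hμ : D.maxGenEigenspace μ = ⊥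
    · -- the block is `0`
      have h0 : (Fᵀ * J * (P.1 * F)) *ᵥ u0 = 0 := by
        have : (Fᵀ * J * (P.1 * F)) *ᵥ u0 = (Fᵀ * J * P.1) *ᵥ (F *ᵥ u0) := by
          rw [mulVec_mulVec]; simp only [Matrix.mul_assoc]
        rw [this, Qn_zero S hμ hu0, mulVec_zero]
      have hu' : u = 0 := by
        rw [hu, ← mulVec_mulVec, h0, mulVec_zero]
      refine ⟨0, fun b _ => by simp, ?_⟩
      rw [hu', mulVec_zero, mulVec_zero, smul_zero, add_zero]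
    have hcμ' := hc μ hμ
    have hl : lamf a ν1 ν2 μ * (1 + a * μ) = (ν1 - ν2)⁻¹ * (μ - ν2) := by
      unfold lamf
      rw [mul_assoc, inv_mul_cancel₀ hcμ', mul_one]
    refine ⟨lamf a ν1 ν2 μ • (H *ᵥ nab arm J H Pt.1 Y d u) - kk *ᵥ nab arm J H Pt.1 Y d u, ?_, ?_⟩
    · intro b hb
      refine PC_ind S (fun μ' v hv => ?_) b hb
      -- `(F v)ᵀ J P (λ H - k) n`
      have hfl : ∀ G : Matrix ι δ K, G ∈ N ⊓ W → ∀ {x : K},
          (Fᵀ * J * (P.1 * G)) *ᵥ v = x • ((Fᵀ * J * (P.1 * F)) *ᵥ v) →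
          ∀ n : δ → K, (F *ᵥ v) ⬝ᵥ ((J * P.1) *ᵥ (G *ᵥ n)) =
            -(x * (((Fᵀ * J * (P.1 * F)) *ᵥ v) ⬝ᵥ n)) := by
        intro G hG x hx n
        have hsk := SUX.th_skew hC S.hP hG
        unfold SUX.th at hsk
        have e3 : (F *ᵥ v) ⬝ᵥ ((J * P.1) *ᵥ (G *ᵥ n)) = v ⬝ᵥ ((Fᵀ * J * (P.1 * G)) *ᵥ n) := by
          rw [mulVec_mulVec, form_g]
          congr 2
          simp only [Matrix.mul_assoc]
        have e4 : v ⬝ᵥ ((Fᵀ * J * (P.1 * G)) *ᵥ n) =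
            -(((Fᵀ * J * (P.1 * G)) *ᵥ v) ⬝ᵥ n) := by
          rw [dotProduct_mulVec, ← mulVec_transpose, hsk, neg_mulVec, neg_dotProduct]
        rw [e3, e4, hx, smul_dotProduct, smul_eq_mul]
      obtain ⟨-, hfv⟩ := hrel hv
      have hHv : (Fᵀ * J * (P.1 * H)) *ᵥ v = (1 + a * μ') • ((Fᵀ * J * (P.1 * F)) *ᵥ v) := by
        rw [hH, Matrix.mul_add, Matrix.mul_smul, Matrix.mul_add, Matrix.mul_smul, add_mulVec,
          smul_mulVec, hfv, smul_smul, add_smul, one_smul]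
      have hkv : (Fᵀ * J * (P.1 * kk)) *ᵥ v =
          ((ν1 - ν2)⁻¹ * (μ' - ν2)) • ((Fᵀ * J * (P.1 * F)) *ᵥ v) := by
        rw [hkk, Matrix.mul_smul, Matrix.mul_smul, Matrix.mul_sub, Matrix.mul_sub,
          Matrix.mul_smul, Matrix.mul_smul, smul_mulVec, sub_mulVec, smul_mulVec, hfv,
          ← sub_smul, smul_smul]
      rw [mulVec_sub, mulVec_smul, dotProduct_sub, dotProduct_smul, smul_eq_mul,
        hfl H hCH.mem hHv, hfl kk hkm hkv]
      by_cases hμμ : μ = μ'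
      · subst hμμ
        linear_combination
          (-(((Fᵀ * J * (P.1 * F)) *ᵥ v) ⬝ᵥ nab arm J H Pt.1 Y d u)) * hl
      · by_cases hμ' : D.maxGenEigenspace μ' = ⊥
        · have h0 : (Fᵀ * J * (P.1 * F)) *ᵥ v = 0 := by
            have : (Fᵀ * J * (P.1 * F)) *ᵥ v = (Fᵀ * J * P.1) *ᵥ (F *ᵥ v) := by
              rw [mulVec_mulVec]; simp only [Matrix.mul_assoc]
            rw [this, Qn_zero S hμ' hv, mulVec_zero]
          rw [h0, zero_dotProduct]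
          ring
        · rw [hval μ μ' hμ hμ' hμμ u huQ v hv]
          ring
    · -- the value
      have h1 : kk *ᵥ u = lamf a ν1 ν2 μ • (H *ᵥ u) := by
        rw [hku huQ, hHu huQ, smul_smul, hl]
      have h2 := F_nab (arm := arm) (J := J) (H := H) (Y := Y) (d := d) Pt.1 kk u
      rw [h1, SUB.dv_smul, H_nab m, hHu huQ, smul_smul] at h2
      rw [← sub_eq_iff_eq_add'] at h2
      rw [← h2]
      abel

end Crest.Agent.R172.SLevR455
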