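import Crest.Agent.R172.SDec2
import Crest.Agent.R172.SDecC926
import Crest.Agent.R172.SLevR455

/-!
Row 172 (S0260), (t2), level 2: `SDec.Geo22 → SDecC.Geo2C` (the two forms of the geometric half).
-/

set_option autoImplicit false
set_option linter.unusedSectionVars false
set_option maxHeartbeats 1600000

namespace Crest.Agent.R172.SGeoC977

open Matrix Module Crest.Agent.R172.FO Crest.Agent.R172.Qt Crest.Agent.R172.SpS
open Crest.Agent.R172.SEnd2 (PC PhS)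
open Crest.Agent.R172.SUX (D3 th)
open Crest.Agent.R172.PL (CoreM)
open Crest.Agent.R172.SDec
open Crest.Agent.R172.UBlk (Qb Qb_exists om_eq)

section

variable {ι : Type} [Fintype ι] [DecidableEq ι] {δ : Type} [Fintype δ] [DecidableEq δ]
  {K : Type} [Field K] [Algebra ℂ K] [IsAlgClosed K]
  {arm : δ → Fin 3} {J : Matrix ι ι K} {B : Matrix δ δ K} {N W : Submodule K (Matrix ι δ K)}
  {F f : Matrix ι δ K} {P : Matrix ι ι K × (Fin 3 → Matrix ι ι K)} {R : Matrix δ ι K}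
  {D : End K (CoreM (PhS arm J B F R P.1))} {l : Fin 3 → ℕ}

/-- a block without eigenspace is zero -/
theorem Qb_bot (S : STop.Setup arm J B N W F f P R D l) {ν : K} (hν : D.maxGenEigenspace ν = ⊥)
    {u : δ → K} (hu : u ∈ Qb (S.hCtx F S.hF).data S.hR P.1 D ν) : u = 0 := by
  obtain ⟨c, hc, rfl⟩ := Qb_exists (S.hCtx F S.hF) S.hR S.hD hu
  refine Finset.sum_eq_zero fun s _ => ?_
  have h1 : F *ᵥ c s = 0 := SLevR455.Qn_zero S hν (hc s)
  rw [om_eq (S.hCtx F S.hF).data]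
  have h2 : E K arm s * B * (Fᵀ * J * (P.1 * F)) = E K arm s * B * (Fᵀ * J * P.1) * F := by
    simp only [Matrix.mul_assoc]
  rw [h2, ← mulVec_mulVec, h1, mulVec_zero]

theorem dim_zero (S : STop.Setup arm J B N W F f P R D l) {ν : K}
    (hν : D.maxGenEigenspace ν = ⊥) {m : ℕ} {U : Matrix δ (Fin m) K}
    (hC : UFr.Cq (Qb (S.hCtx F S.hF).data S.hR P.1 D ν) U)
    (hi : ∀ x, U *ᵥ x = 0 → x = 0) : m = 0 := by
  rcases Nat.eq_zero_or_pos m with h | h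
  · exact h
  · exfalso
    have hU : U = 0 := by
      ext i j
      exact congrFun (Qb_bot S hν (hC j)) i
    have h1 := hi (Pi.single ⟨0, h⟩ 1) (by rw [hU, zero_mulVec])
    have h2 := congrFun h1 ⟨0, h⟩
    rw [Pi.single_eq_same, Pi.zero_apply] at h2
    exact one_ne_zero h2

end

/-- the trivial case -/
theorem triv {ι : Type*} [Fintype ι] [DecidableEq ι] {δ : Type*} [Fintype δ] [DecidableEq δ]
    {K : Type*} [Field K] [Infinite K] {arm : δ → Fin 3} {F : Matrix ι δ K} {S0 : Matrix δ δ K}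
    {m1 m2 : ℕ} {U1 : Matrix δ (Fin m1) K} {U2 : Matrix δ (Fin m2) K}
    {a1 : Fin 3 → Matrix (Fin m1) (Fin m1) K} {a2 : Fin 3 → Matrix (Fin m2) (Fin m2) K}
    (Q : Submodule K (Matrix ι δ K)) (hm : m1 = 0 ∨ m2 = 0) :
    ∃ Λ : Set K, Λ.Infinite ∧ (0 : K) ∉ Λ ∧
      (∀ r ∈ Λ, ∀ X : Fin 3 → Matrix (Fin m2) (Fin m1) K,
        ∑ s, (X s * (a1 s)ᵀ - (-(r ^ 2)) • (a2 s * X s)) = 0 →
        (∀ s, (U2ᵀ * S0 * U2) * (X s * (a1 s)ᵀ - (-(r ^ 2)) • (a2 s * X s)) *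
          (U1ᵀ * S0 * U1) = 0) →
        ∃ β γ, Dec F S0 U1 U2 a1 a2 (-(r ^ 2)) (X, β, γ) ∧
          ∀ κ : Fin m2 → K, F *ᵥ (U2 *ᵥ κ) = 0 →
            ∃ κ2 : Fin m2 → K, F *ᵥ (U1 *ᵥ (β *ᵥ κ)) = F *ᵥ (U2 *ᵥ κ2)) ∧
      (∀ r ∈ Λ, ∀ r' ∈ Λ, ∀ y y' : D3 K (Fin m1) (Fin m2),
        Dec F S0 U1 U2 a1 a2 (-(r ^ 2)) y →
        Dec F S0 U1 U2 a1 a2 (-(r' ^ 2)) y' →
        Rel2 arm F S0 U1 U2 r' y y' ∈ Q) := by
  refine ⟨{0}ᶜ, (Set.finite_singleton 0).infinite_compl, fun h => h rfl,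
    fun r _ X hX hX' => ⟨0, 0, ⟨hX, hX', Matrix.mul_zero _, Matrix.mul_zero _, fun s => ?_,
      fun s => ?_⟩, fun κ _ => ⟨0, ?_⟩⟩, fun r _ r' _ y y' _ _ => ?_⟩
  · rcases hm with rfl | rfl
    · have hU : U1 = 0 := Subsingleton.elim _ _
      rw [hU, Matrix.zero_mul, Matrix.mul_zero]
    · ext i j; exact j.elim0
  · rcases hm with rfl | rfl
    · ext i j; exact j.elim0
    · have hU : U2 = 0 := Subsingleton.elim _ _
      rw [hU, Matrix.zero_mul, Matrix.mul_zero]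
  · rw [zero_mulVec, mulVec_zero, mulVec_zero, mulVec_zero, mulVec_zero]
  · have h0 : Rel2 arm F S0 U1 U2 r' y y' = 0 := by
      unfold Rel2
      rcases hm with rfl | rfl
      · have hU : U1 = 0 := Subsingleton.elim _ _
        have h1 : ∀ s, y.1 s = 0 := fun s => Subsingleton.elim _ _
        have h2 : y.2.2 = 0 := Subsingleton.elim _ _
        simp [hU, h1, h2]
      · have hU : U2 = 0 := Subsingleton.elim _ _
        have h1 : ∀ s, y.1 s = 0 := fun s => Subsingleton.elim _ _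
        have h3 : ∀ s, y'.1 s = 0 := fun s => Subsingleton.elim _ _
        simp [hU, h1, h3]
    rw [h0]
    exact Q.zero_mem

/-- **`Geo22 → Geo2C`** -/
theorem geo2C_of (hg : SDec.Geo22) : SDecC.Geo2C := by
  intro ι _ _ δ _ _ K _ _ _ arm J B N W F f P R D l S ν ν' hne m1 m2 U1 U2 a1 a2 c1 s1 i1 o1
    c2 s2 i2 o2 _
  haveI : Infinite K := Infinite.of_injective (algebraMap ℂ K) (algebraMap ℂ K).injective
  by_cases h1 : D.maxGenEigenspace ν = ⊥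
  · exact triv _ (Or.inl (dim_zero S h1 c1 i1))
  by_cases h2 : D.maxGenEigenspace ν' = ⊥
  · exact triv _ (Or.inr (dim_zero S h2 c2 i2))
  obtain ⟨n1, Q1, A1, b1⟩ := S.pkg ν h1
  obtain ⟨n2, Q2, A2, b2⟩ := S.pkg ν' h2
  obtain ⟨Λ, hΛ, h0, hex, hrel⟩ := hg S hne b1 b2 c1 s1 i1 o1 c2 s2 i2 o2
  refine ⟨Λ, hΛ, h0, fun r hr X hX hX' => ?_, hrel⟩
  obtain ⟨β, γ, hd, hz⟩ := hex r hr X hX hX'
  exact ⟨β, γ, hd, hz.zb⟩

end Crest.Agent.R172.SGeoC977
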