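import Crest.Agent.R172.SGeo869
import Crest.Agent.R172.SB4x117
import Crest.Agent.R172.SLevA455

/-!
Row 172 (S0260), tame node (t2), level 2: the relation `Rel2` at a decorated move (helper16).
-/

set_option autoImplicit false
set_option linter.unusedSectionVars false
set_option linter.unusedVariables false
set_option linter.unusedFintypeInType false
set_option linter.unusedDecidableInType false
set_option maxHeartbeats 1600000

namespace Crest.Agent.R172.SGeoD16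

open Module Matrix Crest.Agent.R172.FO Crest.Agent.R172.Qt Crest.Agent.R172.SpS
open Crest.Agent.R172.SBlk Crest.Agent.R172.UBlk Crest.Agent.R172.SEnd2 Crest.Agent.R172.STop
open Crest.Agent.R172.SCM Crest.Agent.R172.SDec Crest.Agent.R172.SUX
open Crest.Agent.R172.Om (Kiso)
open Crest.Agent.R172.PL (CoreM Ainf)
open Crest.Agent.R172.SC (PB)
open Crest.Agent.R172.SInst (QQb)
open Crest.Agent.R172.SGeo869

variable {ι : Type} [Fintype ι] [DecidableEq ι] {δ : Type} [Fintype δ] [DecidableEq δ]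
variable {K : Type} [Field K] [Algebra ℂ K]
variable {m1 m2 : ℕ}
variable {arm : δ → Fin 3} {J : Matrix ι ι K} {B : Matrix δ δ K}
  {N W : Submodule K (Matrix ι δ K)} {F f : Matrix ι δ K}
  {P : Matrix ι ι K × (Fin 3 → Matrix ι ι K)} {R : Matrix δ ι K}
  {D : End K (CoreM (PhS arm J B F R P.1))} {l : Fin 3 → ℕ}

theorem mem_of_Cq {Q : Submodule K (δ → K)} {m : ℕ} {U : Matrix δ (Fin m) K}
    (hU : UFr.Cq Q U) (x : Fin m → K) : U *ᵥ x ∈ Q := by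
  have h1 : U *ᵥ x = ∑ j, x j • (fun i => U i j) := by
    funext i
    rw [Finset.sum_apply]
    unfold Matrix.mulVec dotProduct
    exact Finset.sum_congr rfl fun j _ => by
      rw [Pi.smul_apply, smul_eq_mul, mul_comm]
  rw [h1]
  exact Submodule.sum_mem _ fun j _ => Submodule.smul_mem _ _ (hU j)

/-- `N` is in the good class -/
theorem N_le (S : Setup arm J B N W F f P R D l) :
    N ≤ SLev0.QG arm J B N W F P (PC arm J B F R P.1)
      (fun μ : K => (SLev0.PbK arm J B F R P.1 D μ)) id := by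
  intro m hm
  refine ⟨0, W.zero_mem, by rw [sub_zero]; exact hm, fun a _ v => by simp, 0,
    fun i c _ r => ⟨0, fun a _ => by simp, by simp⟩⟩

theorem hHc (a : K) (w : Matrix ι δ K) (h1 : Fᵀ * J * w = 0) (h2 : fᵀ * J * w = 0) :
    (F + a • f)ᵀ * J * w = 0 := by
  rw [transpose_add, transpose_smul, Matrix.add_mul, Matrix.add_mul, Matrix.smul_mul,
    Matrix.smul_mul, h1, h2, smul_zero, add_zero]

/-- **the relation of level 2 at a decorated move** -/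
theorem rel2 [IsAlgClosed K] (S : Setup arm J B N W F f P R D l) {ν ν' : K} (hne : ν ≠ ν')
    {n1 n2 : ℕ} {Q1 : Matrix ι (Fin n1) K} {A1 : Fin 3 → Matrix (Fin n1) (Fin n1) K}
    {Q2 : Matrix ι (Fin n2) K} {A2 : Fin 3 → Matrix (Fin n2) (Fin n2) K}
    (b1 : BPkg arm J B F R P.1 D ν l Q1 A1) (b2 : BPkg arm J B F R P.1 D ν' l Q2 A2)
    {a : K} {Pt : Matrix ι ι K × (Fin 3 → Matrix ι ι K)} {dY : Derivation ℂ K K}
    {U1 : Matrix δ (Fin m1) K} {U2 : Matrix δ (Fin m2) K}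
    {a1 : Fin 3 → Matrix (Fin m1) (Fin m1) K} {a2 : Fin 3 → Matrix (Fin m2) (Fin m2) K}
    (hU1 : UFr.Cq (QQb S ν) U1) (hs1 : ∀ u ∈ QQb S ν, ∃ x, u = U1 *ᵥ x)
    (ha1 : ∀ s, B * E K arm s * (Fᵀ * J * (P.1 * F)) * U1 = U1 * a1 s)
    (hU2 : UFr.Cq (QQb S ν') U2) (hs2 : ∀ u ∈ QQb S ν', ∃ x, u = U2 *ᵥ x)
    (ha2 : ∀ s, B * E K arm s * (Fᵀ * J * (P.1 * F)) * U2 = U2 * a2 s)
    {X' : Fin 3 → Matrix (Fin m2) (Fin m1) K} {d : Derivation ℂ K K}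
    {Γ1 : Matrix (Fin m1) (Fin m1) K} {Γ2 : Matrix (Fin m2) (Fin m2) K}
    {β : Matrix (Fin m1) (Fin m2) K} {γ : Matrix (Fin m2) (Fin m1) K}
    (hc : ∀ κ, QQb S κ ≠ ⊥ → 1 + a * κ ≠ 0)
    (M : MvD arm J B N W F f (F + a • f) Pt (Fᵀ * J * (P.1 * F)) dY (QQb S) ν ν' (1 + a * ν)
      (1 + a * ν') U1 U2 a1 a2 X' d Γ1 Γ2 β γ)
    {c : K} {X : Fin 3 → Matrix (Fin m2) (Fin m1) K}
    {β0 : Matrix (Fin m1) (Fin m2) K} {γ0 : Matrix (Fin m2) (Fin m1) K}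
    (hy : Dec F (Fᵀ * J * (P.1 * F)) U1 U2 a1 a2 c (X, β0, γ0))
    (hI : I1 arm F (Fᵀ * J * (P.1 * F)) U1 U2 (X, β0, γ0) ∈
      QQ5 J N (W3 W F (QQb S) ν ν') F f dY (Fᵀ * J * (P.1 * F)) U1 U2) :
    Rel2 arm F (Fᵀ * J * (P.1 * F)) U1 U2 ((1 + a * ν') / (1 + a * ν)) (X, β0, γ0) (X', β, γ) ∈
      SLev0.QG arm J B N W F P (PC arm J B F R P.1)
        (fun μ : K => (SLev0.PbK arm J B F R P.1 D μ)) id := by
  classical
  obtain ⟨w, μ1, μ2, ν1, ν2, cw⟩ := exists_WCls hI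
  obtain ⟨C1, u1⟩ := SB4x.exists_FU S b1 hU1 hs1 (mem_of_Cq hU1) ha1
  obtain ⟨C2, u2⟩ := SB4x.exists_FU S b2 hU2 hs2 (mem_of_Cq hU2) ha2
  obtain ⟨g21, g12⟩ := SLevA455.gens0 S hne b1 b2
  have hX := fun s => SB4x.filt_of_arm S u1 b1 u2 b2 s (hy.arm s)
  have hX' := fun s => SB4x.filt_of_arm S u1 b1 u2 b2 s (M.dec.arm s)
  have hN2 : ∀ v ∈ W, v * (U2.map d + ZY arm J (F + a • f) Pt.1 (Ym U1 U2 X') * U2) =
      v * (U2 * Γ2 + (1 + a * ν') ^ 2 • (U1 * β)) := fun v _ => by rw [M.hN2]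
  have hN1 : ∀ v ∈ W, v * (U1.map d + ZY arm J (F + a • f) Pt.1 (Ym U1 U2 X') * U1) =
      v * (U1 * Γ1 + (1 + a * ν) ^ 2 • (U2 * γ)) := fun v _ => by rw [M.hN1]
  have hwW : w ∈ W := cw.mem.1
  have h3 : ∀ κ, ∃ μ : K, κ ≠ ν → κ ≠ ν' → ∀ u ∈ QQb S κ, w *ᵥ u = μ • (F *ᵥ u) := by
    intro κ
    by_cases h1 : κ = ν
    · exact ⟨0, fun h => absurd h1 h⟩
    by_cases h2 : κ = ν'
    · exact ⟨0, fun _ h => absurd h2 h⟩
    obtain ⟨μ, hμ⟩ := cw.mem.2 κ h1 h2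
    exact ⟨μ, fun _ _ => hμ⟩
  choose μ3 hμ3 using h3
  have hwQ : wd arm J (F + a • f) Pt.1 (Ym U1 U2 X') d w ∈
      SLev0.QG arm J B N W F P (PC arm J B F R P.1)
        (fun μ : K => (SLev0.PbK arm J B F R P.1 D μ)) id := by
    refine SWd275.wd_QG (SInst.ctx S) S.hR S.hD (S.hNil F S.hF) S.hP (SInst.hfNW S) M.ctx M.hPt
      M.mv M.fr hs1 (mem_of_Cq hU1) hs2 (mem_of_Cq hU2) hN2 hN1 M.dec.rb M.dec.rk hy.rk hc M.n3
      hwW (hHc a w cw.pF cw.pf)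
      (μ := fun κ => if κ = ν then μ1 else if κ = ν' then μ2 else μ3 κ) ?_ ?_ ?_
      (fun i => le_rfl) ?_
    · beta_reduce
      rw [if_pos rfl]
      exact cw.L1
    · beta_reduce
      rw [if_neg hne.symm, if_pos rfl]
      exact cw.L2
    · intro κ h1 h2 u hu
      beta_reduce
      rw [if_neg h1, if_neg h2]
      exact hμ3 κ h1 h2 u hu
    · rw [sub_self]
      exact N.zero_mem
  refine second_mem M.ctx M.hPt M.mv M.fr (fun s v _ => rfl) hN2 hN1 S.hF.1 (M.ctx.perp _ S.hF.1)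
    (W' := W3 W F (QQb S) ν ν') (fun v (hv : v ∈ W3 W F (QQb S) ν ν') => hv.1) (fun w h1 h2 => hHc a w h1 h2) (fun v _ h => M.row v h) cw (N_le S) hwQ
    ?_ ?_
  · exact Submodule.sum_mem _ fun s _ => SB4x.part21 u1 b1 u2 b2 g21 M.ctx M.hPt M.mv M.fr
      (fun s v _ => rfl) hN2 hN1 S.hF.1.2 ha1 ha2 s (hX s) (hX' s) _ _ _
  · exact Submodule.sum_mem _ fun s _ => SB4x.part12 u1 b1 u2 b2 g12 s (hX' s)

end Crest.Agent.R172.SGeoD16
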