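import Crest.Agent.R172.SGeo545
import Crest.Agent.R172.SB4x117
import Crest.Agent.R172.SUX7
import Crest.Agent.R172.SWd275
import Crest.Agent.R172.SLevA455

/-!
Row 172 (S0260), tame node (t2), level 2: the second level relation for all decorations.
-/

set_option autoImplicit false
set_option linter.unusedSectionVars false
set_option linter.unusedVariables false
set_option maxHeartbeats 1600000

namespace Crest.Agent.R172.SGeo545

open Matrix Module Crest.Agent.R172.FO Crest.Agent.R172.Qt Crest.Agent.R172.SpS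
open Crest.Agent.R172.SEnd2 (PC PhS)
open Crest.Agent.R172.SUX (D3 th ZY wd Mv I1 I2)
open Crest.Agent.R172.PL (CoreM)
open Crest.Agent.R172.Om (Kiso)
open Crest.Agent.R172.SDec Crest.Agent.R172.SInst Crest.Agent.R172.SMv16
open Crest.Agent.R172.SCM (BPkg)

variable {ι : Type} [Fintype ι] [DecidableEq ι] {δ : Type} [Fintype δ] [DecidableEq δ]
variable {K : Type} [Field K] [Algebra ℂ K] [IsAlgClosed K]
variable {arm : δ → Fin 3} {J : Matrix ι ι K} {B : Matrix δ δ K}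
  {N W : Submodule K (Matrix ι δ K)} {F f : Matrix ι δ K}
  {P : Matrix ι ι K × (Fin 3 → Matrix ι ι K)} {R : Matrix δ ι K}
  {D : End K (CoreM (PhS arm J B F R P.1))} {l : Fin 3 → ℕ}

variable {ν ν' : K} {m1 m2 : ℕ} {U1 : Matrix δ (Fin m1) K} {U2 : Matrix δ (Fin m2) K}
  {a1 : Fin 3 → Matrix (Fin m1) (Fin m1) K} {a2 : Fin 3 → Matrix (Fin m2) (Fin m2) K}
  {n1 n2 : ℕ} {Q1 : Matrix ι (Fin n1) K} {A1 : Fin 3 → Matrix (Fin n1) (Fin n1) K}
  {Q2 : Matrix ι (Fin n2) K} {A2 : Fin 3 → Matrix (Fin n2) (Fin n2) K}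

/-- the good class -/
abbrev QQG (arm : δ → Fin 3) (J : Matrix ι ι K) (B : Matrix δ δ K)
    (N W : Submodule K (Matrix ι δ K)) (F : Matrix ι δ K)
    (P : Matrix ι ι K × (Fin 3 → Matrix ι ι K)) (R : Matrix δ ι K)
    (D : End K (CoreM (PhS arm J B F R P.1))) : Submodule K (Matrix ι δ K) :=
  SLev0.QG arm J B N W F P (PC arm J B F R P.1)
    (fun μ : K => (SLev0.PbK arm J B F R P.1 D μ)) id

theorem mem_of_cq (S : STop.Setup arm J B N W F f P R D l) {κ : K} {m : ℕ}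
    {U : Matrix δ (Fin m) K} {a : Fin 3 → Matrix (Fin m) (Fin m) K} (f1 : Frm S κ U a)
    (x : Fin m → K) : U *ᵥ x ∈ QQb S κ := by
  have h1 : U *ᵥ x = ∑ j, x j • (fun i => U i j) := by
    funext i
    rw [Finset.sum_apply]
    unfold Matrix.mulVec dotProduct
    exact Finset.sum_congr rfl fun j _ => by
      rw [Pi.smul_apply, smul_eq_mul, mul_comm]
  rw [h1]
  exact Submodule.sum_mem _ fun j _ => Submodule.smul_mem _ _ (f1.c j)

/-- **the relation at one parameter**, for the decorations of the move. -/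
theorem rel_at (S : STop.Setup arm J B N W F f P R D l) (h2 : (2 : K) ≠ 0) (hne : ν ≠ ν')
    (b : BPkg arm J B F R P.1 D ν l Q1 A1) (b' : BPkg arm J B F R P.1 D ν' l Q2 A2)
    (f1 : Frm S ν U1 a1) (f2 : Frm S ν' U2 a2) {dY : Derivation ℂ K K} {a : K}
    {Pt : Matrix ι ι K × (Fin 3 → Matrix ι ι K)} (A : AtA S ν ν' dY a Pt)
    {X X' : Fin 3 → Matrix (Fin m2) (Fin m1) K} {β0 β : Matrix (Fin m1) (Fin m2) K}
    {γ0 γ : Matrix (Fin m2) (Fin m1) K} {d : Derivation ℂ K K}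
    {Γ1 : Matrix (Fin m1) (Fin m1) K} {Γ2 : Matrix (Fin m2) (Fin m2) K} {c : K}
    (hy : Dec F (Fᵀ * J * (P.1 * F)) U1 U2 a1 a2 c (X, β0, γ0))
    (hq : I1 arm F (Fᵀ * J * (P.1 * F)) U1 U2 (X, β0, γ0) ∈
      SUXt.QQ5t J N W F f dY (Fᵀ * J * (P.1 * F)) U1 U2
        (fun i : {κ : K // κ ≠ ν ∧ κ ≠ ν'} => QQb S i.1))
    (m : MD S ν ν' U1 U2 a1 a2 dY a Pt X' β γ d Γ1 Γ2) :
    Rel2 arm F (Fᵀ * J * (P.1 * F)) U1 U2 ((1 + a * ν') / (1 + a * ν)) (X, β0, γ0) (X', β, γ) ∈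
      QQG arm J B N W F P R D := by
  classical
  obtain ⟨fr, k1⟩ := fr_k1 S A.hY A.hPF hne A.hc1 A.hc2 f1.c f2.c
  obtain ⟨w, hw, hwF, hwf, hn, μ1, μ2, ν1, ν2, L1, L2, R1, R2, h3⟩ := SUXt.even_data hq
  obtain ⟨C1, u1⟩ := SB4x.exists_FU S b f1.c f1.s (mem_of_cq S f1) f1.a
  obtain ⟨C2, u2⟩ := SB4x.exists_FU S b' f2.c f2.s (mem_of_cq S f2) f2.a
  have hG := SLevA455.gens0 S hne b b'
  have hX : ∀ s, X s ∈ _ := fun s => SB4x.filt_of_arm S u1 b u2 b' s (hy.arm s)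
  have hX' : ∀ s, X' s ∈ _ := fun s => SB4x.filt_of_arm S u1 b u2 b' s (m.dec.arm s)
  have cw : SUX.WCls arm J N W F f dY (Fᵀ * J * (P.1 * F)) U1 U2 X β0 γ0 w μ1 μ2 ν1 ν2 :=
    ⟨hw, hwF, hwf, hn, L1, L2, R1, R2⟩
  have hwp : ∀ w : Matrix ι δ K, Fᵀ * J * w = 0 → fᵀ * J * w = 0 →
      (F + a • f)ᵀ * J * w = 0 := by
    intro w h1 h4
    rw [transpose_add, transpose_smul, Matrix.add_mul, Matrix.add_mul, Matrix.smul_mul,
      Matrix.smul_mul, h1, h4, smul_zero, add_zero]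
  choose! μ hμ using h3
  let μf : K → K := fun κ => if h : κ = ν then μ1 else if h' : κ = ν' then μ2 else μ ⟨κ, h, h'⟩
  have e1 : μf ν = μ1 := by simp [μf]
  have e2 : μf ν' = μ2 := by simp [μf, hne.symm]
  have hwQ : wd arm J (F + a • f) Pt.1 (Yf U1 U2 X') d w ∈ QQG arm J B N W F P R D := by
    refine SWd275.wd_QG (ctx S) S.hR S.hD (S.hNil F S.hF) S.hP (hfNW S) A.hC A.hPt m.mv fr f1.s
      (mem_of_cq S f1) f2.s (mem_of_cq S f2) (β := β) (γ := γ) (γ0 := γ0)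
      (fun v _ => by rw [m.n2]) (fun v _ => by rw [m.n1]) m.dec.rb m.dec.rk hy.rk A.hc
      (fun κ h1 h4 u hu => ⟨_, m.i3 κ h1 h4 u hu, fun v _ => rfl⟩) hw (hwp w hwF hwf) (μ := μf)
      (by rw [e1]; exact L1) (by rw [e2]; exact L2) (fun κ h1 h4 u hu => ?_)
      (fun i => le_rfl) (by rw [sub_self]; exact N.zero_mem)
    have : μf κ = μ ⟨κ, h1, h4⟩ := by simp [μf, h1, h4]
    rw [this]
    exact hμ ⟨κ, h1, h4⟩ u hu
  have key := SUX.second_mem (W' := W) A.hC A.hPt m.mv fr (X' := X') (fun s v _ => rfl)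
    (fun v _ => by rw [m.n2]) (fun v _ => by rw [m.n1]) S.hF.1 (A.hHk.2 F S.hF.1) le_rfl hwp
    (fun w _ => row_of A.hC.data.J_symm A.hPt.1.eq A.hr w) cw
    (Q := QQG arm J B N W F P R D) SLev0.N_le_QG hwQ
    (Submodule.sum_mem _ fun s _ => SB4x.part21 u1 b u2 b' hG.1 A.hC A.hPt m.mv fr (X' := X')
      (fun s v _ => rfl) (fun v _ => by rw [m.n2]) (fun v _ => by rw [m.n1]) S.hF.1.2 f1.a f2.a s
      (hX s) (hX' s) _ _ _)
    (Submodule.sum_mem _ fun s _ => SB4x.part12 u1 b u2 b' hG.2 s (hX' s))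
  exact key

end Crest.Agent.R172.SGeo545
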