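import Crest.Agent.R172.SDec
import Crest.Agent.R172.SUX7

/-!
Row 172 (S0260), tame node (t2), level 2: `Rel2` does not see the invisible part of the second
decoration, and `second_mem` in the letters of `Rel2`.
-/

set_option autoImplicit false
set_option linter.unusedSectionVars false
set_option maxHeartbeats 1600000

namespace Crest.Agent.R172.SRc826

open Matrix Module Crest.Agent.R172.FO Crest.Agent.R172.Qt Crest.Agent.R172.SpS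
open Crest.Agent.R172.SUX Crest.Agent.R172.SDec

variable {ι : Type*} [Fintype ι] [DecidableEq ι] {δ : Type*} [Fintype δ] [DecidableEq δ]
variable {k K : Type*} [Field k] [Field K] [Algebra k K]
variable {arm : δ → Fin 3} {J : Matrix ι ι K} {B : Matrix δ δ K}
  {N W W' : Submodule K (Matrix ι δ K)} {H F f : Matrix ι δ K}
variable {m1 m2 : ℕ}
variable {P : Matrix ι ι K × (Fin 3 → Matrix ι ι K)} {S0 : Matrix δ δ K} {c1 c2 : K}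
  {U1 : Matrix δ (Fin m1) K} {U2 : Matrix δ (Fin m2) K} {Y : Fin 3 → Matrix δ δ K}
  {d dY : Derivation k K K}
  {Γ1 : Matrix (Fin m1) (Fin m1) K} {Γ2 : Matrix (Fin m2) (Fin m2) K}

/-- `Rel2` depends on the second decoration only through `F U₁ β` and `S₀ U₂ γ`. -/
theorem rel2_congr (hsk : S0ᵀ = -S0) {r : K} {y : D3 K (Fin m1) (Fin m2)}
    {X' : Fin 3 → Matrix (Fin m2) (Fin m1) K} {β β' : Matrix (Fin m1) (Fin m2) K}
    {γ γ' : Matrix (Fin m2) (Fin m1) K} (hb : F * (U1 * β) = F * (U1 * β'))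
    (hg : S0 * (U2 * γ) = S0 * (U2 * γ')) :
    Rel2 arm F S0 U1 U2 r y (X', β, γ) = Rel2 arm F S0 U1 U2 r y (X', β', γ') := by
  have hg' : γᵀ * U2ᵀ * S0 = γ'ᵀ * U2ᵀ * S0 := by
    have h1 := congrArg Matrix.transpose hg
    rw [Matrix.transpose_mul, Matrix.transpose_mul, Matrix.transpose_mul S0,
      Matrix.transpose_mul U2 γ', hsk, Matrix.mul_neg, Matrix.mul_neg] at h1
    exact neg_injective h1
  have t1 : ∀ s, F * (U1 * (β * y.1 s - (X' s)ᵀ * (U2ᵀ * S0 * U2) * y.1 s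
      - (X' s)ᵀ * y.2.1ᵀ) * U1ᵀ) * S0 * E K arm s
      = F * (U1 * (β' * y.1 s - (X' s)ᵀ * (U2ᵀ * S0 * U2) * y.1 s
      - (X' s)ᵀ * y.2.1ᵀ) * U1ᵀ) * S0 * E K arm s := by
    intro s
    have e : F * (U1 * (β * y.1 s)) = F * (U1 * (β' * y.1 s)) := by
      rw [← Matrix.mul_assoc U1, ← Matrix.mul_assoc F, hb, Matrix.mul_assoc F,
        Matrix.mul_assoc U1]
    have a : ∀ b : Matrix (Fin m1) (Fin m2) K,
        F * (U1 * (b * y.1 s - (X' s)ᵀ * (U2ᵀ * S0 * U2) * y.1 s - (X' s)ᵀ * y.2.1ᵀ) * U1ᵀ)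
        = (F * (U1 * (b * y.1 s)) - F * (U1 * ((X' s)ᵀ * (U2ᵀ * S0 * U2) * y.1 s))
          - F * (U1 * ((X' s)ᵀ * y.2.1ᵀ))) * U1ᵀ := by
      intro b
      rw [Matrix.mul_sub U1, Matrix.mul_sub U1, ← Matrix.mul_assoc F, Matrix.mul_sub F,
        Matrix.mul_sub F]
    rw [a, a, e]
  have t2 : ∀ s, F * (U2 * (y.1 s * γᵀ + y.1 s * (U1ᵀ * S0 * U1) * (X' s)ᵀ
      - y.2.2 * (X' s)ᵀ) * U2ᵀ) * S0 * E K arm s
      = F * (U2 * (y.1 s * γ'ᵀ + y.1 s * (U1ᵀ * S0 * U1) * (X' s)ᵀ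
      - y.2.2 * (X' s)ᵀ) * U2ᵀ) * S0 * E K arm s := by
    intro s
    have e : F * (U2 * (y.1 s * γᵀ) * U2ᵀ) * S0 = F * (U2 * (y.1 s * γ'ᵀ) * U2ᵀ) * S0 := by
      have q : ∀ g : Matrix (Fin m2) (Fin m1) K,
          F * (U2 * (y.1 s * gᵀ) * U2ᵀ) * S0 = F * (U2 * (y.1 s * (gᵀ * U2ᵀ * S0))) := by
        intro g
        simp only [Matrix.mul_assoc]
      rw [q, q, hg']
    have a : ∀ g : Matrix (Fin m2) (Fin m1) K,
        F * (U2 * (y.1 s * gᵀ + y.1 s * (U1ᵀ * S0 * U1) * (X' s)ᵀ - y.2.2 * (X' s)ᵀ) * U2ᵀ) * S0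
        = F * (U2 * (y.1 s * gᵀ) * U2ᵀ) * S0
          + F * (U2 * (y.1 s * (U1ᵀ * S0 * U1) * (X' s)ᵀ) * U2ᵀ) * S0
          - F * (U2 * (y.2.2 * (X' s)ᵀ) * U2ᵀ) * S0 := by
      intro g
      rw [Matrix.mul_sub U2, Matrix.mul_add U2, Matrix.sub_mul, Matrix.add_mul, Matrix.mul_sub F,
        Matrix.mul_add F, Matrix.sub_mul, Matrix.add_mul]
    rw [a, a, e]
  have s1 := Finset.sum_congr (rfl : (Finset.univ : Finset (Fin 3)) = Finset.univ)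
    fun s _ => t1 s
  have s2 := Finset.sum_congr (rfl : (Finset.univ : Finset (Fin 3)) = Finset.univ)
    fun s _ => t2 s
  show ∑ s, F * (U1 * (β * y.1 s - (X' s)ᵀ * (U2ᵀ * S0 * U2) * y.1 s
      - (X' s)ᵀ * y.2.1ᵀ) * U1ᵀ) * S0 * E K arm s +
    r • ∑ s, F * (U2 * (y.1 s * γᵀ + y.1 s * (U1ᵀ * S0 * U1) * (X' s)ᵀ
      - y.2.2 * (X' s)ᵀ) * U2ᵀ) * S0 * E K arm s = _
  rw [s1, s2]
  rfl

/-- `second_mem` in the letters of `Rel2`, for ANY second decoration with the same visible part. -/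
theorem second_rel2 (h : Ctx k arm J B N W H) (hP : P ∈ NN arm J N H)
    (m : Mv k arm J N W H P.1 Y d) (fr : Fr J F H P.1 S0 c1 c2 U1 U2)
    {y y' : D3 K (Fin m1) (Fin m2)} {β : Matrix (Fin m1) (Fin m2) K}
    {γ : Matrix (Fin m2) (Fin m1) K}
    (hY : ∀ s, ∀ v ∈ W, v * Y s * Hᵀ = v * (U2 * y'.1 s * U1ᵀ + U1 * (y'.1 s)ᵀ * U2ᵀ) * Hᵀ)
    (hN2 : ∀ v ∈ W, v * (U2.map d + ZY arm J H P.1 Y * U2) = v * (U2 * Γ2 + c2 ^ 2 • (U1 * β)))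
    (hN1 : ∀ v ∈ W, v * (U1.map d + ZY arm J H P.1 Y * U1) = v * (U1 * Γ1 + c1 ^ 2 • (U2 * γ)))
    (hF : F ∈ N ⊓ W) (hFp : Hᵀ * J * F = 0) (hWW : W' ≤ W)
    (hHc : ∀ w : Matrix ι δ K, Fᵀ * J * w = 0 → fᵀ * J * w = 0 → Hᵀ * J * w = 0)
    (hrow : ∀ w ∈ W, Hᵀ * J * w = 0 → Hᵀ * J * (P.1 * w) = Hᵀ * J * w.map dY)
    {w : Matrix ι δ K} {μ1 μ2 ν1 ν2 : K}
    (cw : WCls arm J N W' F f dY S0 U1 U2 y.1 y.2.1 y.2.2 w μ1 μ2 ν1 ν2)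
    {Q : Submodule K (Matrix ι δ K)} (hNQ : N ≤ Q) (hwQ : wd arm J H P.1 Y d w ∈ Q)
    (h21 : ∑ s, F * (U2 * (Γ2 * y.1 s + (y.1 s).map d +
        y.1 s * (Γ1 - (2 * (d c1 / c1)) • (1 : Matrix (Fin m1) (Fin m1) K))ᵀ
          - (d c2 / c2) • y.1 s +
          (c1 * c2 * ν1 - μ2 * c1 ^ 2) • y'.1 s) * U1ᵀ) * S0 * E K arm s ∈ Q)
    (h12 : ∑ s, F * (U1 * (y'.1 s)ᵀ * U2ᵀ) * S0 * E K arm s ∈ Q)
    (hsk : S0ᵀ = -S0) (hb : F * (U1 * y'.2.1) = F * (U1 * β))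
    (hg : S0 * (U2 * y'.2.2) = S0 * (U2 * γ)) :
    Rel2 arm F S0 U1 U2 (c2 / c1) y y' ∈ Q := by
  have e : Rel2 arm F S0 U1 U2 (c2 / c1) y y' = Rel2 arm F S0 U1 U2 (c2 / c1) y (y'.1, β, γ) :=
    rel2_congr hsk hb hg
  rw [e]
  exact second_mem h hP m fr hY hN2 hN1 hF hFp hWW hHc hrow cw hNQ hwQ h21 h12

end Crest.Agent.R172.SRc826

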