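import Crest.Agent.R172.SGeoA19
import Crest.Agent.R172.SGeoR545
import Crest.Agent.R172.SRc826
import Crest.Agent.R172.SUniq503
import Crest.Agent.R172.SDec2

/-!
Row 172 (S0260), (t2), level 2: the geometric half `SDec.Geo22`.
-/

set_option autoImplicit false
set_option linter.unusedSectionVars false
set_option linter.unusedFintypeInType false
set_option linter.unusedDecidableInType false
set_option maxHeartbeats 1600000

namespace Crest.Agent.R172.SGeo19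

open Matrix Module Crest.Agent.R172.FO Crest.Agent.R172.Qt Crest.Agent.R172.SpS
open Crest.Agent.R172.SEnd2 (PC PhS)
open Crest.Agent.R172.SUX (D3 th Mv ZY I1 I2)
open Crest.Agent.R172.PL (CoreM Ainf)
open Crest.Agent.R172.STop (Setup)
open Crest.Agent.R172.SInst
open Crest.Agent.R172.SMv16 (Yf)
open Crest.Agent.R172.UBlk (cov)
open Crest.Agent.R172.SGeo545 (Frm AtA Nab MD exists_md rel_at)

section pt

variable {ι : Type} [Fintype ι] [DecidableEq ι] {δ : Type} [Fintype δ] [DecidableEq δ]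
  {K : Type} [Field K] [Algebra ℂ K] [IsAlgClosed K]
  {arm : δ → Fin 3} {J : Matrix ι ι K} {B : Matrix δ δ K} {N W : Submodule K (Matrix ι δ K)}
  {F f : Matrix ι δ K} {P : Matrix ι ι K × (Fin 3 → Matrix ι ι K)} {R : Matrix δ ι K}
  {D : End K (CoreM (PhS arm J B F R P.1))} {l : Fin 3 → ℕ}

theorem Pnt.atA {S : Setup arm J B N W F f P R D l} {ν ν' : K} {dY : Derivation ℂ K K} {t : ℂ}
    {Pt : Matrix ι ι K × (Fin 3 → Matrix ι ι K)} {Ri : Matrix δ ι K}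
    (p : Pnt S ν ν' dY t Pt Ri) : AtA S ν ν' dY (algebraMap ℂ K t) Pt where
  hHk := Submodule.add_mem _ S.hF (Submodule.smul_mem _ _ S.hf)
  hC := p.hH
  hPt := p.hPt
  hV := p.hV
  hRi := ⟨Ri, p.hRi⟩
  hY := p.hY
  hPF := p.hPF
  hr := by
    intro w hw
    have hX : Skw J Pt.1 := p.hPt.1
    have e3 : (Pt.1 * (F + algebraMap ℂ K t • f))ᵀ * J * w =
        -((F + algebraMap ℂ K t • f)ᵀ * J * (Pt.1 * w)) := by
      rw [transpose_mul, Matrix.mul_assoc _ _ J, hX.eq]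
      simp only [Matrix.mul_neg, Matrix.neg_mul, Matrix.mul_assoc]
    rw [e3, p.hrow w hw]
  hc := p.hc
  hc1 := p.hc1
  hc2 := p.hc2
  ha := fun h => p.ht ((map_eq_zero (algebraMap ℂ K)).1 h)

theorem Pnt.nab {S : Setup arm J B N W F f P R D l} {ν ν' : K} (hne : ν ≠ ν') {m1 m2 : ℕ}
    {U1 : Matrix δ (Fin m1) K} {U2 : Matrix δ (Fin m2) K}
    {a1 : Fin 3 → Matrix (Fin m1) (Fin m1) K} {a2 : Fin 3 → Matrix (Fin m2) (Fin m2) K}
    (f1 : Frm S ν U1 a1) (f2 : Frm S ν' U2 a2)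
    {dY : Derivation ℂ K K} {t : ℂ} {Pt : Matrix ι ι K × (Fin 3 → Matrix ι ι K)}
    {Ri : Matrix δ ι K} (p : Pnt S ν ν' dY t Pt Ri)
    {X : Fin 3 → Matrix (Fin m2) (Fin m1) K}
    (harm : ∀ s, (U2ᵀ * (Fᵀ * J * (P.1 * F)) * U2) *
      (X s * (a1 s)ᵀ - (-(((1 + algebraMap ℂ K t * ν') / (1 + algebraMap ℂ K t * ν)) ^ 2)) •
        (a2 s * X s)) * (U1ᵀ * (Fᵀ * J * (P.1 * F)) * U1) = 0) {d : Derivation ℂ K K}
    (m : Mv ℂ arm J N W (F + algebraMap ℂ K t • f) Pt.1 (Yf U1 U2 X) d) :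
    Nab S ν ν' (F + algebraMap ℂ K t • f) Pt.1 (Yf U1 U2 X) d := by
  obtain ⟨i1, i2, i3⟩ := SNabI.B1 (ctx S) S.hR S.hD (S.hNil F S.hF) S.hP (hfNW S) (hff S) p.hH
    p.hPt p.hY p.hPF p.hA p.hcE p.hom (fun r => SMv16.Yf_symm r) m hne f1.c f2.c f1.s f2.s f1.a
    f2.a (fun r => rfl) (fun s => by
      have h1 := harm s
      have hc1 := p.hc1
      have e1 : (1 + algebraMap ℂ K t * ν) ^ 2 • (X s * (a1 s)ᵀ) +
          (1 + algebraMap ℂ K t * ν') ^ 2 • (a2 s * X s) =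
          (1 + algebraMap ℂ K t * ν) ^ 2 • (X s * (a1 s)ᵀ -
            (-(((1 + algebraMap ℂ K t * ν') / (1 + algebraMap ℂ K t * ν)) ^ 2)) •
              (a2 s * X s)) := by
        rw [smul_sub, smul_smul, mul_neg, neg_smul, sub_neg_eq_add]
        congr 2
        field_simp
      rw [e1, Matrix.mul_smul, Matrix.smul_mul, h1, smul_zero])
  exact ⟨i1, i2, i3⟩

end pt

/-- **LEVEL 2, geometric half** -/
theorem geo22 : SDec.Geo22 := by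
  intro ι _ _ δ _ _ K _ _ _ arm J B N W F f P R D l S ν ν' hne n1 n2 Q1 A1 Q2 A2 b1 b2 m1 m2 U1 U2
    a1 a2 hU1 hs1 hi1 ha1 hU2 hs2 hi2 ha2
  haveI : CharZero K := charZero_of_injective_algebraMap (algebraMap ℂ K).injective
  have f1 : Frm S ν U1 a1 := ⟨hU1, hs1, hi1, ha1⟩
  have f2 : Frm S ν' U2 a2 := ⟨hU2, hs2, hi2, ha2⟩
  have hsk : (Fᵀ * J * (P.1 * F))ᵀ = -(Fᵀ * J * (P.1 * F)) :=
    SUX.th_skew (ctx S) S.hP (ctx S).mem
  obtain ⟨dY, Bad, hBad, hpt⟩ := exists_pnt S ν ν'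
  have hΛ0 : (SMv16.Lam ℂ Bad ν ν').Infinite := SMv16.Lam_infinite hBad hne
  have h00 : (0 : K) ∉ SMv16.Lam ℂ Bad ν ν' := SMv16.Lam_zero _ _ _
  -- the decorated move at every ratio
  have key : ∀ r ∈ SMv16.Lam ℂ Bad ν ν', ∃ (a : K) (Pt : Matrix ι ι K × (Fin 3 → Matrix ι ι K)),
      AtA S ν ν' dY a Pt ∧ r = (1 + a * ν') / (1 + a * ν) ∧
      ∀ X : Fin 3 → Matrix (Fin m2) (Fin m1) K,
        ∑ s, (X s * (a1 s)ᵀ - (-(r ^ 2)) • (a2 s * X s)) = 0 →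
        (∀ s, (U2ᵀ * (Fᵀ * J * (P.1 * F)) * U2) * (X s * (a1 s)ᵀ - (-(r ^ 2)) • (a2 s * X s)) *
          (U1ᵀ * (Fᵀ * J * (P.1 * F)) * U1) = 0) →
        ∃ β γ d Γ1 Γ2, MD S ν ν' U1 U2 a1 a2 dY a Pt X β γ d Γ1 Γ2 := by
    rintro r ⟨t, ht, h1, h2, rfl⟩
    obtain ⟨Pt, Ri, p⟩ := hpt t ht
    refine ⟨algebraMap ℂ K t, Pt, p.atA, rfl, fun X hsum harm => ?_⟩
    exact exists_md S two_ne_zero hne f1 f2 p.atA hsum harm
      (fun d m => p.nab hne f1 f2 harm m)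
  obtain ⟨L1, k1⟩ := SUniq.nil S hU1 hs1 ha1
  obtain ⟨L2, k2⟩ := SUniq.nil S hU2 hs2 ha2
  obtain ⟨Sf, hSf, hsep⟩ := SDecP70.dec_sep (T := Fᵀ * J * P.1)
    (S0 := Fᵀ * J * (P.1 * F)) (F := F) (U1 := U1) (U2 := U2) (a1 := a1) (a2 := a2)
    (by simp only [Matrix.mul_assoc]) ha1 ha2
    (fun x => by
      obtain ⟨y, hy⟩ := SUniq.perf' S hU1 hs1 hi1 ha1 x
      exact ⟨y, hy.symm⟩)
    (fun x => by
      obtain ⟨y, hy⟩ := SUniq.perf' S hU2 hs2 hi2 ha2 x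
      exact ⟨y, hy.symm⟩) (L1 := L1) (L2 := L2)
    (fun w hw x hx => by rw [k1 w hw x hx, mulVec_zero])
    (fun w hw x hx => by rw [k2 w hw x hx, mulVec_zero])
    (SUXt.QQ5t J N W F f dY (Fᵀ * J * (P.1 * F)) U1 U2
        (fun i : {κ : K // κ ≠ ν ∧ κ ≠ ν'} => QQb S i.1))
    (I1 arm F (Fᵀ * J * (P.1 * F)) U1 U2) (I2 arm F (Fᵀ * J * (P.1 * F)) U1 U2)
    (fun db dg h1 h2 h3 h4 => SDecP70.I_zero hsk h1 h2 h3 h4) hΛ0 h00
    (fun r hr X hsum harm => by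
      obtain ⟨a, Pt, A, hra, hX⟩ := key r hr
      obtain ⟨β, γ, d, Γ1, Γ2, M⟩ := hX X hsum harm
      refine ⟨β, γ, ?_, ?_⟩
      · rw [hra]; exact M.dec
      · rw [hra]; exact M.qq)
  have hbad : {r : K | -(r ^ 2) ∈ Sf}.Finite := by
    refine Set.Finite.preimage' hSf fun b _ => ?_
    refine Set.Finite.subset (Polynomial.finite_setOf_isRoot (p := Polynomial.X ^ 2 -
      Polynomial.C (-b)) (Polynomial.X_pow_sub_C_ne_zero (by norm_num) (-b))) ?_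
    intro s hs
    simp only [Set.mem_preimage, Set.mem_singleton_iff] at hs
    simp [Polynomial.IsRoot, ← hs]
  refine ⟨SMv16.Lam ℂ Bad ν ν' \ {r : K | -(r ^ 2) ∈ Sf}, hΛ0.diff hbad, fun h => h00 h.1, ?_, ?_⟩
  · intro r hr X hsum harm
    obtain ⟨a, Pt, A, hra, hX⟩ := key r hr.1
    obtain ⟨β, γ, d, Γ1, Γ2, M⟩ := hX X hsum harm
    refine ⟨β, γ, ?_, M.zb⟩
    rw [hra]
    exact M.dec
  · intro r hr r' hr' y y' hy hy'
    obtain ⟨a, Pt, A, hra, hX⟩ := key r' hr'.1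
    obtain ⟨β, γ, d, Γ1, Γ2, M⟩ := hX y'.1 hy'.sum hy'.arm
    have hq := (hsep _ hr.2 y hy).1
    have hrel := rel_at S two_ne_zero hne b1 b2 f1 f2 A (X := y.1) (β0 := y.2.1) (γ0 := y.2.2)
      hy hq M
    have hr0 : -(r' ^ 2) ≠ 0 := neg_ne_zero.2 (pow_ne_zero 2 fun h => h00 (h ▸ hr'.1))
    have hM : SDec.Dec F (Fᵀ * J * (P.1 * F)) U1 U2 a1 a2 (-(r' ^ 2)) (y'.1, β, γ) := by
      rw [hra]; exact M.dec
    obtain ⟨z1, z2, z3, z4⟩ := SDecP70.uniq (T := Fᵀ * J * P.1)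
      (S0 := Fᵀ * J * (P.1 * F)) (F := F) (U1 := U1) (U2 := U2) (a1 := a1) (a2 := a2)
      (by simp only [Matrix.mul_assoc]) ha1 ha2
      (fun x => by
        obtain ⟨y, hy⟩ := SUniq.perf' S hU1 hs1 hi1 ha1 x
        exact ⟨y, hy.symm⟩)
      (fun x => by
        obtain ⟨y, hy⟩ := SUniq.perf' S hU2 hs2 hi2 ha2 x
        exact ⟨y, hy.symm⟩) (L1 := L1) (L2 := L2)
      (fun w hw x hx => by rw [k1 w hw x hx, mulVec_zero])
      (fun w hw x hx => by rw [k2 w hw x hx, mulVec_zero]) hr0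
      (b := β) (g := γ) (b' := y'.2.1) (g' := y'.2.2) (X := y'.1) hM hy'
    have e : SDec.Rel2 arm F (Fᵀ * J * (P.1 * F)) U1 U2 r' y y' =
        SDec.Rel2 arm F (Fᵀ * J * (P.1 * F)) U1 U2 r' y (y'.1, β, γ) := by
      refine (SRc826.rel2_congr hsk ?_ ?_).symm
      · rw [← sub_eq_zero, ← Matrix.mul_sub, ← Matrix.mul_sub]
        exact z1
      · rw [← sub_eq_zero, ← Matrix.mul_sub, ← Matrix.mul_sub]
        exact z4
    rw [e, hra]
    exact hrel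

end Crest.Agent.R172.SGeo19
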