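import Crest.Agent.R172.SGeoR545
import Crest.Agent.R172.SB1S141
import Crest.Agent.R172.SUniq803
import Crest.Agent.R172.SU170

/-!
Row 172 (S0260), tame node (t2), level 2: the geometric half `SDec.Geo22`.
-/

set_option autoImplicit false
set_option linter.unusedSectionVars false
set_option linter.unusedVariables false
set_option maxHeartbeats 1600000

namespace Crest.Agent.R172.SGeo545

open Matrix Module Crest.Agent.R172.FO Crest.Agent.R172.Qt Crest.Agent.R172.SpS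
open Crest.Agent.R172.SEnd2 (PC PhS)
open Crest.Agent.R172.SUX (D3 th ZY wd Mv I1 I2)
open Crest.Agent.R172.PL (CoreM)
open Crest.Agent.R172.Om (Kiso)
open Crest.Agent.R172.SDec Crest.Agent.R172.SInst Crest.Agent.R172.SMv16
open Crest.Agent.R172.SCM (BPkg)

theorem sq_fin {K : Type*} [Field K] (c : K) : {r : K | -(r ^ 2) = c}.Finite := by
  by_cases h : ∃ ρ : K, -(ρ ^ 2) = c
  · obtain ⟨ρ, hρ⟩ := h
    refine (Set.toFinite {ρ, -ρ}).subset ?_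
    intro r hr
    have hr' : -(r ^ 2) = c := hr
    have h3 : (r - ρ) * (r + ρ) = 0 := by linear_combination hρ - hr'
    rcases mul_eq_zero.1 h3 with h | h
    · left; exact sub_eq_zero.1 h
    · right; exact eq_neg_of_add_eq_zero_left h
  · refine Set.finite_empty.subset ?_
    intro r hr
    exact h ⟨r, hr⟩

theorem words {K : Type*} [Field K] {m : ℕ} (a : Fin 3 → Matrix (Fin m) (Fin m) K)
    (w : List (Fin 3)) (x : Fin m → K) :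
    (w.map a).prod *ᵥ x = (w.map fun s => (a s).mulVecLin).prod x := by
  induction w with
  | nil => simp
  | cons s w ih =>
    rw [List.map_cons, List.prod_cons, List.map_cons, List.prod_cons, ← mulVec_mulVec, ih]
    rfl

section congr'

variable {ι : Type*} [Fintype ι] [DecidableEq ι] {δ : Type*} [Fintype δ] [DecidableEq δ]
variable {K : Type*} [Field K] {m1 m2 : ℕ}

/-- `Rel2` depends only on the visible part of the decorations -/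
theorem rel_congr {arm : δ → Fin 3} {F : Matrix ι δ K} {S0 : Matrix δ δ K} (hS : S0ᵀ = -S0)
    {U1 : Matrix δ (Fin m1) K} {U2 : Matrix δ (Fin m2) K} {r : K}
    {X X' : Fin 3 → Matrix (Fin m2) (Fin m1) K} {β0 β β1 : Matrix (Fin m1) (Fin m2) K}
    {γ0 γ γ1 : Matrix (Fin m2) (Fin m1) K} (e1 : F * U1 * β = F * U1 * β1)
    (e2 : S0 * U2 * γ = S0 * U2 * γ1) :
    Rel2 arm F S0 U1 U2 r (X, β0, γ0) (X', β, γ) =
      Rel2 arm F S0 U1 U2 r (X, β0, γ0) (X', β1, γ1) := by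
  have e3 : γᵀ * U2ᵀ * S0 = γ1ᵀ * U2ᵀ * S0 := by
    have h := congrArg transpose e2
    rw [transpose_mul, transpose_mul, transpose_mul, transpose_mul, hS] at h
    simp only [Matrix.mul_neg, neg_inj, ← Matrix.mul_assoc] at h
    exact h
  unfold Rel2
  have a1 : ∀ s, F * (U1 * (β * X s - (X' s)ᵀ * (U2ᵀ * S0 * U2) * X s -
      (X' s)ᵀ * β0ᵀ) * U1ᵀ) * S0 * E K arm s = F * (U1 * (β1 * X s -
        (X' s)ᵀ * (U2ᵀ * S0 * U2) * X s - (X' s)ᵀ * β0ᵀ) * U1ᵀ) * S0 * E K arm s := by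
    intro s
    have a2 : ∀ b : Matrix (Fin m1) (Fin m2) K, F * (U1 * (b * X s -
        (X' s)ᵀ * (U2ᵀ * S0 * U2) * X s - (X' s)ᵀ * β0ᵀ) * U1ᵀ) * S0 * E K arm s =
        (F * U1 * b) * (X s * U1ᵀ * S0 * E K arm s) - F * (U1 * (
        (X' s)ᵀ * (U2ᵀ * S0 * U2) * X s + (X' s)ᵀ * β0ᵀ) * U1ᵀ) * S0 * E K arm s := by
      intro b
      simp only [Matrix.mul_sub, Matrix.sub_mul, Matrix.mul_add, Matrix.add_mul, Matrix.mul_assoc]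
      abel
    rw [a2, a2, e1]
  have a3 : ∀ s, F * (U2 * (X s * γᵀ + X s * (U1ᵀ * S0 * U1) * (X' s)ᵀ -
      γ0 * (X' s)ᵀ) * U2ᵀ) * S0 * E K arm s = F * (U2 * (X s * γ1ᵀ +
        X s * (U1ᵀ * S0 * U1) * (X' s)ᵀ - γ0 * (X' s)ᵀ) * U2ᵀ) * S0 * E K arm s := by
    intro s
    have a2 : ∀ g : Matrix (Fin m2) (Fin m1) K, F * (U2 * (X s * gᵀ +
        X s * (U1ᵀ * S0 * U1) * (X' s)ᵀ - γ0 * (X' s)ᵀ) * U2ᵀ) * S0 * E K arm s =
        F * U2 * X s * (gᵀ * U2ᵀ * S0) * E K arm s + F * (U2 * (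
        X s * (U1ᵀ * S0 * U1) * (X' s)ᵀ - γ0 * (X' s)ᵀ) * U2ᵀ) * S0 * E K arm s := by
      intro g
      simp only [Matrix.mul_sub, Matrix.sub_mul, Matrix.mul_add, Matrix.add_mul, Matrix.mul_assoc]
      abel
    rw [a2, a2, e3]
  change (∑ s, F * (U1 * (β * X s - (X' s)ᵀ * (U2ᵀ * S0 * U2) * X s -
      (X' s)ᵀ * β0ᵀ) * U1ᵀ) * S0 * E K arm s) + r • (∑ s, F * (U2 * (X s * γᵀ +
      X s * (U1ᵀ * S0 * U1) * (X' s)ᵀ - γ0 * (X' s)ᵀ) * U2ᵀ) * S0 * E K arm s) = _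
  rw [Finset.sum_congr rfl fun s _ => a1 s, Finset.sum_congr rfl fun s _ => a3 s]

end congr'

/-- **LEVEL 2, geometric half.** -/
theorem geo22 : SDec.Geo22 := by
  intro ι _ _ δ _ _ K _ _ _ arm J B N W F f P R D l S ν ν' hne n1 n2 Q1 A1 Q2 A2 b b' m1 m2 U1 U2
    a1 a2 hU1 hs1 hi1 ha1 hU2 hs2 hi2 ha2
  have h2 : (2 : K) ≠ 0 := SLevA455.two_ne K
  have f1 : Frm S ν U1 a1 := ⟨hU1, hs1, hi1, ha1⟩
  have f2 : Frm S ν' U2 a2 := ⟨hU2, hs2, hi2, ha2⟩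
  have hm1 := mem_of_cq S f1
  have hm2 := mem_of_cq S f2
  obtain ⟨Y, dY, hYB, hr, hform, hfam⟩ := family S h2
  obtain ⟨Bad, hBad, hB⟩ := SB1S141.b1 S h2 hr hform
  choose Pt Ri hHk hC hPt hV hRi hY hPF hrow using hfam
  -- the data at a good parameter
  have hA : ∀ t, t ∉ Bad ∪ {0} → 1 + algebraMap ℂ K t * ν ≠ 0 → 1 + algebraMap ℂ K t * ν' ≠ 0 →
      AtA S ν ν' dY (algebraMap ℂ K t) (Pt t) := by
    intro t ht h3 h4
    refine ⟨hHk t, hC t, hPt t, hV t, ⟨Ri t, hRi t⟩, hY t, hPF t, hrow t, ?_, h3, h4, ?_⟩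
    · exact (hB t fun h => ht (Or.inl h)).2.1
    · intro h0
      apply ht
      right
      exact (map_eq_zero (algebraMap ℂ K)).1 h0
  have hN : ∀ t, t ∉ Bad ∪ {0} → 1 + algebraMap ℂ K t * ν ≠ 0 → 1 + algebraMap ℂ K t * ν' ≠ 0 →
      ∀ X : Fin 3 → Matrix (Fin m2) (Fin m1) K, (∀ s, (U2ᵀ * (Fᵀ * J * (P.1 * F)) * U2) *
        (X s * (a1 s)ᵀ - (-(((1 + algebraMap ℂ K t * ν') / (1 + algebraMap ℂ K t * ν)) ^ 2)) •
          (a2 s * X s)) * (U1ᵀ * (Fᵀ * J * (P.1 * F)) * U1) = 0) →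
      ∀ d, Mv ℂ arm J N W (F + (algebraMap ℂ K t) • f) (Pt t).1 (Yf U1 U2 X) d →
        Nab S ν ν' (F + (algebraMap ℂ K t) • f) (Pt t).1 (Yf U1 U2 X) d := by
    intro t ht h3 h4 X harm d m
    obtain ⟨i1, i2, i3⟩ := (hB t fun h => ht (Or.inl h)).2.2 (hPt t) (hY t) (hPF t)
      (Yf_symm (U1 := U1) (U2 := U2) (X := X)) m hne hU1 hU2 hs1 hs2 ha1 ha2 (fun r => rfl) h3 harm
    exact ⟨i1, i2, i3⟩
  set Λ0 : Set K := Lam ℂ (Bad ∪ {0}) ν ν' with hΛ0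
  have hΛi : Λ0.Infinite := Lam_infinite (hBad.union (Set.finite_singleton 0)) hne
  have hΛz : (0 : K) ∉ Λ0 := Lam_zero _ ν ν'
  have hex : ∀ r ∈ Λ0, ∀ X : Fin 3 → Matrix (Fin m2) (Fin m1) K,
      ∑ s, (X s * (a1 s)ᵀ - (-(r ^ 2)) • (a2 s * X s)) = 0 →
      (∀ s, (U2ᵀ * (Fᵀ * J * (P.1 * F)) * U2) * (X s * (a1 s)ᵀ - (-(r ^ 2)) • (a2 s * X s)) *
        (U1ᵀ * (Fᵀ * J * (P.1 * F)) * U1) = 0) →
      ∃ t, r = (1 + algebraMap ℂ K t * ν') / (1 + algebraMap ℂ K t * ν) ∧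
        AtA S ν ν' dY (algebraMap ℂ K t) (Pt t) ∧ ∃ β γ d Γ1 Γ2,
          MD S ν ν' U1 U2 a1 a2 dY (algebraMap ℂ K t) (Pt t) X β γ d Γ1 Γ2 := by
    rintro r ⟨t, ht, h3, h4, rfl⟩ X hsum harm
    exact ⟨t, rfl, hA t ht h3 h4, exists_md S h2 hne f1 f2 (hA t ht h3 h4) hsum harm
      (hN t ht h3 h4 X harm)⟩
  -- perfectness and words
  have p1 : ∀ x : Fin m1 → K, ∃ y : Fin 3 → Fin m1 → K, ∑ s, a1 s *ᵥ y s = x := fun x => by
    obtain ⟨g, hg⟩ := SU170.perf S hs1 hm1 hi1 ha1 x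
    exact ⟨g, hg.symm⟩
  have p2 : ∀ x : Fin m2 → K, ∃ y : Fin 3 → Fin m2 → K, ∑ s, a2 s *ᵥ y s = x := fun x => by
    obtain ⟨g, hg⟩ := SU170.perf S hs2 hm2 hi2 ha2 x
    exact ⟨g, hg.symm⟩
  obtain ⟨C1, u1⟩ := SB4x.exists_FU S b hU1 hs1 hm1 ha1
  obtain ⟨C2, u2⟩ := SB4x.exists_FU S b' hU2 hs2 hm2 ha2
  obtain ⟨L1, k1⟩ := SU170.kills S b u1.gU u1.onto u1.act u1.gram
  obtain ⟨L2, k2⟩ := SU170.kills S b' u2.gU u2.onto u2.act u2.gram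
  have hS0 : Fᵀ * J * (P.1 * F) = (Fᵀ * J * P.1) * F := by simp only [Matrix.mul_assoc]
  have hsk : (Fᵀ * J * (P.1 * F))ᵀ = -(Fᵀ * J * (P.1 * F)) :=
    SUX.th_skew (ctx S) S.hP S.hF.1
  obtain ⟨Sf, hSf, hsep⟩ := SDecP70.dec_sep hS0 ha1 ha2 p1 p2
    (fun w hw x hx => by
      rw [words, mulVec_mulVec]
      exact k1 x hx w hw)
    (fun w hw x hx => by
      rw [words, mulVec_mulVec]
      exact k2 x hx w hw)
    (SUXt.QQ5t J N W F f dY (Fᵀ * J * (P.1 * F)) U1 U2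
      (fun i : {κ : K // κ ≠ ν ∧ κ ≠ ν'} => QQb S i.1))
    (I1 arm F (Fᵀ * J * (P.1 * F)) U1 U2) (I2 arm F (Fᵀ * J * (P.1 * F)) U1 U2)
    (fun db dg h3 h4 h5 h6 => SDecP70.I_zero hsk h3 h4 h5 h6) hΛi hΛz
    (fun r hr X hsum harm => by
      obtain ⟨t, rfl, hAt, β, γ, d, Γ1, Γ2, m⟩ := hex r hr X hsum harm
      exact ⟨β, γ, m.dec, m.qq⟩)
  refine ⟨{r | r ∈ Λ0 ∧ -(r ^ 2) ∉ Sf}, ?_, fun h => hΛz h.1, ?_, ?_⟩
  · have hbad : {r : K | -(r ^ 2) ∈ Sf}.Finite := by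
      have : {r : K | -(r ^ 2) ∈ Sf} = ⋃ c ∈ Sf, {r : K | -(r ^ 2) = c} := by
        ext r
        simp
      rw [this]
      exact hSf.biUnion fun c _ => sq_fin c
    refine (hΛi.diff hbad).mono ?_
    intro r hr
    exact ⟨hr.1, hr.2⟩
  · intro r hr X hsum harm
    obtain ⟨t, rfl, hAt, β, γ, d, Γ1, Γ2, m⟩ := hex r hr.1 X hsum harm
    exact ⟨β, γ, m.dec, m.zb⟩
  · rintro r hr r' hr' ⟨X, β0, γ0⟩ ⟨X', β1, γ1⟩ hy hy'
    obtain ⟨t, rfl, hAt, β, γ, d, Γ1, Γ2, m⟩ := hex r' hr'.1 X' hy'.sum hy'.arm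
    have key := rel_at S h2 hne b b' f1 f2 hAt hy (hsep _ hr.2 _ hy).1 m
    have hc : -(((1 + algebraMap ℂ K t * ν') / (1 + algebraMap ℂ K t * ν)) ^ 2) ≠ 0 :=
      neg_ne_zero.2 (pow_ne_zero 2 (div_ne_zero hAt.hc2 hAt.hc1))
    obtain ⟨⟨e1, -⟩, ⟨-, e2⟩⟩ := SUniq803.dec_uniq S hU1 hs1 hi1 ha1 hU2 hs2 hi2 ha2 hc m.dec hy'
      rfl
    rw [← rel_congr hsk e1 (e2 P.1)]
    exact key

end Crest.Agent.R172.SGeo545
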