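import Crest.Agent.R172.SDecC926
import Crest.Agent.R172.SLevA455

/-!
Row 172 (S0260), tame node (t2): level 1 in the class `SLev0.QG` (`SDecC.Lev1Q`), from helper455's
`SLevA455.gens0`.
-/

set_option autoImplicit false
set_option linter.unusedVariables false
set_option maxHeartbeats 1600000

namespace Crest.Agent.R172.SLevQ721

/-- **LEVEL 1 in the class `QG`** -/
theorem lev1Q : SDecC.Lev1Q := by
  intro ι _ _ δ _ _ K _ _ _ arm J B N W F f P R D l S ν ν' hne n1 n2 Q1 A1 Q2 A2 b1 b2
  exact (SLevA455.gens0 S hne b1 b2).2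

end Crest.Agent.R172.SLevQ721
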