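import Crest.Agent.R172.SGeo946
import Crest.Agent.R172.SEx16
import Crest.Agent.R172.SB4x117
import Crest.Agent.R172.SUniq803
import Crest.Agent.R172.SNabI934
import Crest.Agent.R172.SInf266
import Crest.Agent.R172.SD937
import Crest.Agent.R172.SLevQ721

/-!
Row 172 (S0260), S-side: `SDec.Geo22`.
-/

set_option autoImplicit false
set_option linter.unusedSectionVars false
set_option linter.unusedVariables false
set_option linter.unusedFintypeInType false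
set_option linter.unusedDecidableInType false
set_option maxHeartbeats 1600000

namespace Crest.Agent.R172.SGeo946

open Matrix Module Crest.Agent.R172.FO Crest.Agent.R172.Qt Crest.Agent.R172.SpS
  Crest.Agent.R172.Om Crest.Agent.R172.SUX Crest.Agent.R172.SDec
open Crest.Agent.R172.SEnd2 (PC PhS)
open Crest.Agent.R172.PL (CoreM)
open Crest.Agent.R172.SInst (QQb)
open Crest.Agent.R172.STop (Setup)
open Crest.Agent.R172.SMv16 (Yf Lam Lam_infinite Lam_zero)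

variable {ι : Type} [Fintype ι] [DecidableEq ι] {δ : Type} [Fintype δ] [DecidableEq δ]
variable {K : Type} [Field K] [Algebra ℂ K] [IsAlgClosed K]
variable {arm : δ → Fin 3} {J : Matrix ι ι K} {B : Matrix δ δ K} {N W : Submodule K (Matrix ι δ K)}
  {F f : Matrix ι δ K} {P : Matrix ι ι K × (Fin 3 → Matrix ι ι K)} {R : Matrix δ ι K}
  {D : End K (CoreM (PhS arm J B F R P.1))} {l : Fin 3 → ℕ}

theorem sq_fin {Sp : Set K} (h : Sp.Finite) : {r : K | r ^ 2 ∈ Sp}.Finite := by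
  have h1 : {r : K | r ^ 2 ∈ Sp} = (fun r : K => r ^ 2) ⁻¹' Sp := rfl
  rw [h1]
  refine Set.Finite.preimage' h fun c _ => ?_
  by_cases he : ∃ r0 : K, r0 ^ 2 = c
  · obtain ⟨r0, rfl⟩ := he
    refine (Set.toFinite {r0, -r0}).subset fun r hr => ?_
    have h2 : r ^ 2 = r0 ^ 2 := hr
    rcases sq_eq_sq_iff_eq_or_eq_neg.1 h2 with h3 | h3
    · exact Or.inl h3
    · exact Or.inr h3
  · refine Set.finite_empty.subset fun r hr => ?_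
    exact he ⟨r, hr⟩

/-- the moves at the good parameters -/
theorem exists_moves (S : Setup arm J B N W F f P R D l) {ν ν' : K} (hne : ν ≠ ν') {m1 m2 : ℕ}
    {U1 : Matrix δ (Fin m1) K} {U2 : Matrix δ (Fin m2) K}
    {a1 : Fin 3 → Matrix (Fin m1) (Fin m1) K} {a2 : Fin 3 → Matrix (Fin m2) (Fin m2) K}
    (hU1 : UFr.Cq (QQb S ν) U1) (hsp1 : ∀ u ∈ QQb S ν, ∃ x, u = U1 *ᵥ x)
    (ha1 : ∀ s, B * E K arm s * (Fᵀ * J * (P.1 * F)) * U1 = U1 * a1 s)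
    (hU2 : UFr.Cq (QQb S ν') U2) (hsp2 : ∀ u ∈ QQb S ν', ∃ x, u = U2 *ᵥ x)
    (ha2 : ∀ s, B * E K arm s * (Fᵀ * J * (P.1 * F)) * U2 = U2 * a2 s)
    {dY : Derivation ℂ K K} {Y0 : Matrix δ δ K}
    (hrY : Realises arm N W (0 : Fin 3 → Matrix ι ι K) Y0 dY)
    (hform : Fᵀ * J * F.map dY = Fᵀ * J * (P.1 * F))
    {Pt : ℂ → Matrix ι ι K × (Fin 3 → Matrix ι ι K)}
    (fam : ∀ t : ℂ, Fam arm J B N W F f P dY (algebraMap ℂ K t) (Pt t)) :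
    ∃ bad : Set ℂ, bad.Finite ∧ ∀ t ∉ bad,
      (∀ κ, QQb S κ ≠ ⊥ → 1 + algebraMap ℂ K t * κ ≠ 0) ∧
      (1 + algebraMap ℂ K t * ν ≠ 0 → 1 + algebraMap ℂ K t * ν' ≠ 0 →
        ∀ (r : K), r = (1 + algebraMap ℂ K t * ν') / (1 + algebraMap ℂ K t * ν) →
        ∀ X : Fin 3 → Matrix (Fin m2) (Fin m1) K,
        ∑ s, (X s * (a1 s)ᵀ - (-(r ^ 2)) • (a2 s * X s)) = 0 →
        (∀ s, (U2ᵀ * (Fᵀ * J * (P.1 * F)) * U2) * (X s * (a1 s)ᵀ - (-(r ^ 2)) • (a2 s * X s)) *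
          (U1ᵀ * (Fᵀ * J * (P.1 * F)) * U1) = 0) →
        ∃ d Γ1 Γ2 β γ, Move S ν ν' (algebraMap ℂ K t) (Pt t) U1 U2 a1 a2 X d Γ1 Γ2 β γ ∧
          ZB F U1 U2 (X, β, γ)) := by
  classical
  haveI : CharZero K := charZero_of_injective_algebraMap (algebraMap ℂ K).injective
  have h2 : (2 : K) ≠ 0 := two_ne_zero
  obtain ⟨T1, hT1, hA⟩ := SInf266.ainf_eq h2 S.hCtx S.hNm S.hWm S.hNil S.hF S.hf S.hV1 S.hP hrY
    hform
  obtain ⟨T2, hT2, hB⟩ := SNabI.exists_bad (k := ℂ) (S.hCtx F S.hF) S.hR S.hD h2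
  refine ⟨({0} ∪ T1) ∪ T2, ((Set.finite_singleton 0).union hT1).union hT2, fun t ht => ?_⟩
  simp only [Set.mem_union, Set.mem_singleton_iff, not_or] at ht
  obtain ⟨⟨ht0, ht1⟩, ht2⟩ := ht
  obtain ⟨hc, hom⟩ := hB t ht2
  refine ⟨fun κ hκ => hc κ fun h3 => hκ (STop.PB_bot
    ((UBlk.cov (S.hCtx F S.hF).data S.hR P.1).D_comm S.hD.2) h3), ?_⟩
  intro hc1 hc2 r hr X hsum harm
  have hF := fam t
  obtain ⟨Ri, hRi⟩ := hF.gi
  have hfr := (SInst.fr_k1 S hF.hY hF.hPF hne hc1 hc2 hU1 hU2).1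
  obtain ⟨d, m⟩ := SMv16.exists_mv hF.ctx h2 hRi hF.hPt hF.vert hfr ha1 ha2 hr hsum
  have harm' : ∀ s, (U2ᵀ * (Fᵀ * J * (P.1 * F)) * U2) *
      ((1 + algebraMap ℂ K t * ν) ^ 2 • (X s * (a1 s)ᵀ) +
        (1 + algebraMap ℂ K t * ν') ^ 2 • (a2 s * X s)) *
      (U1ᵀ * (Fᵀ * J * (P.1 * F)) * U1) = 0 := by
    intro s
    have e : (1 + algebraMap ℂ K t * ν) ^ 2 • (X s * (a1 s)ᵀ) +
        (1 + algebraMap ℂ K t * ν') ^ 2 • (a2 s * X s) =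
        (1 + algebraMap ℂ K t * ν) ^ 2 • (X s * (a1 s)ᵀ - (-(r ^ 2)) • (a2 s * X s)) := by
      rw [hr, smul_sub, smul_smul, div_pow, mul_neg, mul_div_cancel₀ _ (pow_ne_zero 2 hc1),
        neg_smul, sub_neg_eq_add]
    rw [e, Matrix.mul_smul, Matrix.smul_mul, harm s, smul_zero]
  obtain ⟨i1, i2, i3⟩ := SNabI.B1 (S.hCtx F S.hF) S.hR S.hD (S.hNil F S.hF) S.hP S.hf.1
    (SInst.hff S) hF.ctx hF.hPt hF.hY hF.hPF (hA t ht1 _ hF.hPt hF.hY).le hc hom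
    SMv16.Yf_symm m hne hU1 hU2 hsp1 hsp2 ha1 ha2 (fun r => rfl) harm'
  have hcne : 1 + algebraMap ℂ K t * ν ≠ 1 + algebraMap ℂ K t * ν' := SMv16.c_ne ht0 hne
  have hp : ∀ μ, ∀ u ∈ QQb S μ, ∃ c : Fin 3 → δ → K, (∀ s, c s ∈ QQb S μ) ∧
      ∑ s, (B * E K arm s * (Fᵀ * J * (P.1 * F))) *ᵥ c s = u := fun μ u hu =>
    UBlk.Qb_exists (S.hCtx F S.hF) S.hR S.hD hu
  obtain ⟨Γ1, Γ2, β, γ, hN2, hN1, hdec⟩ := SB2H16.dec_of_B1 hF.ctx hF.hPt m hfr hcne hU1 hsp1 ha1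
    (hp ν) hU2 hsp2 ha2 (hp ν') (fun r => rfl) i1 i2 hr hsum harm
  refine ⟨d, Γ1, Γ2, β, γ, ⟨m, hN2, hN1, hr ▸ hdec, i3⟩, ?_, ?_⟩
  · exact fun x hx => SZb601.zb hfr m.dH (congrArg (fun A =>
      (F + algebraMap ℂ K t • f) * A) hN2) x hx
  · exact fun x hx => SZb601.zk hfr m.dH (congrArg (fun A =>
      (F + algebraMap ℂ K t • f) * A) hN1) x hx

/-- **LEVEL 2, geometric half** -/
theorem geo22 : SDec.Geo22 := by
  intro ι _ _ δ _ _ K _ _ _ arm J B N W F f P R D l S ν ν' hne n1 n2 Q1 A1 Q2 A2 b1 b2 m1 m2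
    U1 U2 a1 a2 hU1 hsp1 hi1 ha1 hU2 hsp2 hi2 ha2
  classical
  haveI : CharZero K := charZero_of_injective_algebraMap (algebraMap ℂ K).injective
  have h2 : (2 : K) ≠ 0 := two_ne_zero
  obtain ⟨Y0, dY, hYB, hrY, hform, hfam⟩ := SInst.family S h2
  choose Pt Ri fH fC fP fV fR fY fPF frow using hfam
  have fam : ∀ t : ℂ, Fam arm J B N W F f P dY (algebraMap ℂ K t) (Pt t) := fun t =>
    ⟨fH t, fC t, fP t, fV t, ⟨Ri t, fR t⟩, fY t, fPF t, frow t⟩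
  obtain ⟨bad, hbad, hmv⟩ := exists_moves S hne hU1 hsp1 ha1 hU2 hsp2 ha2 hrY hform fam
  have hS1 : Fᵀ * J * (P.1 * F) = Fᵀ * (J * (P.1 * F)) := by rw [Matrix.mul_assoc]
  -- separation
  have hsep : ∃ Sp : Set K, Sp.Finite ∧ ∀ r, r ^ 2 ∉ Sp → ∀ y,
      Dec F (Fᵀ * J * (P.1 * F)) U1 U2 a1 a2 (-(r ^ 2)) y →
      I1 arm F (Fᵀ * J * (P.1 * F)) U1 U2 y ∈
        QQ5 J N (W3 S ν ν') F f dY (Fᵀ * J * (P.1 * F)) U1 U2 := by
    obtain ⟨Sp, hSp, h⟩ := RJP.par_sep (T := Unit)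
      (SDecP70.alD F (Fᵀ * J * (P.1 * F)) U1 U2 a1)
      (-(SDecP70.beD F (Fᵀ * J * (P.1 * F)) U1 U2 a2))
      (QQ5 J N (W3 S ν ν') F f dY (Fᵀ * J * (P.1 * F)) U1 U2)
      (fun _ => I1 arm F (Fᵀ * J * (P.1 * F)) U1 U2)
      (fun _ => I2 arm F (Fᵀ * J * (P.1 * F)) U1 U2) (Lam_infinite hbad hne) (by
        intro r hr y hy _
        have hd : Dec F (Fᵀ * J * (P.1 * F)) U1 U2 a1 a2 (-(r ^ 2)) y := by
          rw [SDecP70.dec_iff, hy, LinearMap.neg_apply, smul_neg, neg_smul]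
        have hr0 : -(r ^ 2) ≠ 0 := neg_ne_zero.2 (pow_ne_zero 2 fun h =>
          Lam_zero bad ν ν' (h ▸ hr))
        obtain ⟨t, ht, hc1, hc2, hrt⟩ := hr
        obtain ⟨hκ, hm⟩ := hmv t ht
        obtain ⟨d, Γ1, Γ2, β, γ, mv, -⟩ := hm hc1 hc2 r hrt y.1 hd.sum hd.arm
        have h3 := first hne h2 hU1 hU2 (fam t) hc1 hc2 hκ mv
        rw [← hrt] at h3
        have hd' := mv.dec
        rw [← hrt] at hd'
        obtain ⟨⟨q1, -⟩, ⟨q2, -⟩⟩ := SUniq803.dec_uniq S hU1 hsp1 hi1 ha1 hU2 hsp2 hi2 ha2 hr0 hd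
          hd' rfl
        obtain ⟨z1, z2⟩ := _root_.Crest.Agent.R172.SD937.I_congr (arm := arm) (X := y.1) hS1
          (by rw [Matrix.mul_sub]; exact sub_eq_zero.2 q1)
          (by rw [Matrix.mul_sub]; exact sub_eq_zero.2 q2)
        change I1 arm F (Fᵀ * J * (P.1 * F)) U1 U2 (y.1, y.2.1, y.2.2) +
          r • I2 arm F (Fᵀ * J * (P.1 * F)) U1 U2 (y.1, y.2.1, y.2.2) ∈ _
        rw [z1, z2]
        exact h3)
    refine ⟨Sp, hSp, fun r hr y hy => ?_⟩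
    refine (h (r ^ 2) hr y ?_ ()).1
    rw [(SDecP70.dec_iff _ _ _ _ _ _ _ y).1 hy, LinearMap.neg_apply, smul_neg, neg_smul]
  obtain ⟨Sp, hSp, hI⟩ := hsep
  refine ⟨Lam ℂ bad ν ν' \ {r | r ^ 2 ∈ Sp}, (Lam_infinite hbad hne).diff (sq_fin hSp),
    fun h => Lam_zero bad ν ν' h.1, ?_, ?_⟩
  · rintro r ⟨⟨t, ht, hc1, hc2, hrt⟩, -⟩ X hsum harm
    obtain ⟨d, Γ1, Γ2, β, γ, mv, hz⟩ := (hmv t ht).2 hc1 hc2 r hrt X hsum harm
    have hd' := mv.dec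
    rw [← hrt] at hd'
    exact ⟨β, γ, hd', hz⟩
  · rintro r ⟨hr, hrS⟩ r' ⟨hr', -⟩ y y' hy hy'
    have hr0 : -(r' ^ 2) ≠ 0 := neg_ne_zero.2 (pow_ne_zero 2 fun h =>
      Lam_zero bad ν ν' (h ▸ hr'))
    obtain ⟨t, ht, hc1, hc2, hrt⟩ := hr'
    obtain ⟨hκ, hm⟩ := hmv t ht
    obtain ⟨d, Γ1, Γ2, β, γ, mv, -⟩ := hm hc1 hc2 r' hrt y'.1 hy'.sum hy'.arm
    have hd' := mv.dec
    rw [← hrt] at hd'
    obtain ⟨⟨q1, -⟩, ⟨-, q2⟩⟩ := SUniq803.dec_uniq S hU1 hsp1 hi1 ha1 hU2 hsp2 hi2 ha2 hr0 hy'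
      hd' rfl
    have e1 : F * (U1 * (y'.2.1 - β)) = 0 := by
      rw [← Matrix.mul_assoc, Matrix.mul_sub]; exact sub_eq_zero.2 q1
    have e4 : (Fᵀ * J * (P.1 * F)) * (U2 * (y'.2.2 - γ)) = 0 := by
      rw [← Matrix.mul_assoc, Matrix.mul_sub]; exact sub_eq_zero.2 (q2 P.1)
    obtain ⟨fr, -⟩ := SInst.fr_k1 S (fam t).hY (fam t).hPF hne hc1 hc2 hU1 hU2
    have hG12 := SLevQ721.lev1Q S hne b1 b2
    have hG21 := SLevQ721.lev1Q S hne.symm b2 b1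
    obtain ⟨C1, u1⟩ := SB4x.exists_FU S b1 hU1 hsp1 (cq_mem hU1) ha1
    obtain ⟨C2, u2⟩ := SB4x.exists_FU S b2 hU2 hsp2 (cq_mem hU2) ha2
    have hX : ∀ s, y.1 s ∈ _ := fun s => SB4x.filt_of_arm S u1 b1 u2 b2 s (hy.arm s)
    have hX' : ∀ s, y'.1 s ∈ _ := fun s => SB4x.filt_of_arm S u1 b1 u2 b2 s (hy'.arm s)
    have key := second hne h2 hU1 hsp1 hU2 hsp2 (fam t) hc1 hc2 hκ mv hy.rk (hI r hrS y hy)
      e1 e4
      (fun c => Submodule.sum_mem _ fun s _ => SB4x.part21 u1 b1 u2 b2 hG21 (fam t).ctx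
        (fam t).hPt mv.m fr (fun s v _ => rfl) (fun v _ => by rw [mv.n2])
        (fun v _ => by rw [mv.n1]) S.hF.1.2 ha1 ha2 s (hX s) (hX' s) _ _ _)
      (Submodule.sum_mem _ fun s _ => SB4x.part12 u1 b1 u2 b2 hG12 s (hX' s))
    rw [← hrt] at key
    exact key

end Crest.Agent.R172.SGeo946
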