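import Crest.Agent.R172.SGeo267
import Crest.Agent.R172.SB4x117
import Crest.Agent.R172.SWd275
import Crest.Agent.R172.SUX7

/-!
Row 172 (S0260), (t2), level 2, geometric half (copy of helper267): the second level.
-/

set_option autoImplicit false
set_option linter.unusedSectionVars false
set_option linter.unusedVariables false
set_option linter.unusedFintypeInType false
set_option linter.unusedDecidableInType false
set_option maxHeartbeats 1600000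

namespace Crest.Agent.R172.SGeo267

open Matrix Module Crest.Agent.R172.FO Crest.Agent.R172.Qt Crest.Agent.R172.SpS
open Crest.Agent.R172.SEnd2 (PC PhS)
open Crest.Agent.R172.SUX (D3 th wd ZY Mv Fr K1 E5 QQ5 I1 I2)
open Crest.Agent.R172.PL (CoreM)
open Crest.Agent.R172.STop (Setup)
open Crest.Agent.R172.SInst (QQb)
open Crest.Agent.R172.SDec
open Crest.Agent.R172.SCM (BPkg)
open Crest.Agent.R172.Om (Kiso)

variable {ι : Type} [Fintype ι] [DecidableEq ι] {δ : Type} [Fintype δ] [DecidableEq δ]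
variable {K : Type} [Field K] [Algebra ℂ K] [IsAlgClosed K]
variable {arm : δ → Fin 3} {J : Matrix ι ι K} {B : Matrix δ δ K} {N W : Submodule K (Matrix ι δ K)}
  {F f : Matrix ι δ K} {P : Matrix ι ι K × (Fin 3 → Matrix ι ι K)} {R : Matrix δ ι K}
  {D : End K (CoreM (PhS arm J B F R P.1))} {l : Fin 3 → ℕ}

/-- **the second level relation at one good `t`** -/
theorem rel_mem (S : Setup arm J B N W F f P R D l) {ν ν' : K} (hne : ν ≠ ν')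
    {n1 n2 : ℕ} {Q1 : Matrix ι (Fin n1) K} {A1 : Fin 3 → Matrix (Fin n1) (Fin n1) K}
    {Q2 : Matrix ι (Fin n2) K} {A2 : Fin 3 → Matrix (Fin n2) (Fin n2) K}
    (b1 : BPkg arm J B F R P.1 D ν l Q1 A1) (b2 : BPkg arm J B F R P.1 D ν' l Q2 A2)
    {m1 m2 : ℕ} {U1 : Matrix δ (Fin m1) K} {U2 : Matrix δ (Fin m2) K}
    {a1 : Fin 3 → Matrix (Fin m1) (Fin m1) K} {a2 : Fin 3 → Matrix (Fin m2) (Fin m2) K}
    (hU1 : UFr.Cq (QQb S ν) U1) (hs1 : ∀ u ∈ QQb S ν, ∃ x, u = U1 *ᵥ x)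
    (ha1 : ∀ s, B * E K arm s * (Fᵀ * J * (P.1 * F)) * U1 = U1 * a1 s)
    (hU2 : UFr.Cq (QQb S ν') U2) (hs2 : ∀ u ∈ QQb S ν', ∃ x, u = U2 *ᵥ x)
    (ha2 : ∀ s, B * E K arm s * (Fᵀ * J * (P.1 * F)) * U2 = U2 * a2 s)
    {t : ℂ} (hc1 : 1 + algebraMap ℂ K t * ν ≠ 0)
    (hc2 : 1 + algebraMap ℂ K t * ν' ≠ 0)
    (hc : ∀ κ, QQb S κ ≠ ⊥ → 1 + algebraMap ℂ K t * κ ≠ 0)
    {Pt : Matrix ι ι K × (Fin 3 → Matrix ι ι K)} {dY : Derivation ℂ K K}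
    (hPt : Pt ∈ NN arm J N (F + (algebraMap ℂ K t) • f))
    (hY : ∀ f' ∈ N ⊓ W, (F + (algebraMap ℂ K t) • f)ᵀ * J * (Pt.1 * f') =
      (F + (algebraMap ℂ K t) • f)ᵀ * J * f'.map dY)
    (hPF : (F + (algebraMap ℂ K t) • f)ᵀ * J * (Pt.1 * F) =
      (F + (algebraMap ℂ K t) • f)ᵀ * J * (P.1 * F))
    (hrow : ∀ w : Matrix ι δ K, (F + (algebraMap ℂ K t) • f)ᵀ * J * w = 0 →
          (Pt.1 * (F + (algebraMap ℂ K t) • f))ᵀ * J * w =
            -((F + (algebraMap ℂ K t) • f)ᵀ * J * w.map dY))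
    {X' : Fin 3 → Matrix (Fin m2) (Fin m1) K} {d : Derivation ℂ K K}
    {Γ1 : Matrix (Fin m1) (Fin m1) K} {Γ2 : Matrix (Fin m2) (Fin m2) K}
    {β : Matrix (Fin m1) (Fin m2) K} {γ : Matrix (Fin m2) (Fin m1) K}
    (m : Mv ℂ arm J N W (F + (algebraMap ℂ K t) • f) Pt.1 (SMv16.Yf U1 U2 X') d)
    (e2 : U2.map d + ZY arm J (F + (algebraMap ℂ K t) • f) Pt.1 (SMv16.Yf U1 U2 X') * U2 =
        U2 * Γ2 + (1 + algebraMap ℂ K t * ν') ^ 2 • (U1 * β))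
    (e1 : U1.map d + ZY arm J (F + (algebraMap ℂ K t) • f) Pt.1 (SMv16.Yf U1 U2 X') * U1 =
        U1 * Γ1 + (1 + algebraMap ℂ K t * ν) ^ 2 • (U2 * γ))
    {c' : K} (hDec : Dec F (Fᵀ * J * (P.1 * F)) U1 U2 a1 a2 c' (X', β, γ))
    (hI : Inc S ν ν' (F + (algebraMap ℂ K t) • f) Pt.1 (SMv16.Yf U1 U2 X') d)
    {c : K} {y : D3 K (Fin m1) (Fin m2)}
    (hy : Dec F (Fᵀ * J * (P.1 * F)) U1 U2 a1 a2 c y) {w : Matrix ι δ K} {μ1 μ2 ν1 ν2 : K}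
    (cw : SUX.WCls arm J N (W3 S ν ν') F f dY (Fᵀ * J * (P.1 * F)) U1 U2 y.1 y.2.1 y.2.2 w
      μ1 μ2 ν1 ν2) :
    Rel2 arm F (Fᵀ * J * (P.1 * F)) U1 U2
      ((1 + algebraMap ℂ K t * ν') / (1 + algebraMap ℂ K t * ν)) y (X', β, γ) ∈
      SLev0.QG arm J B N W F P (PC arm J B F R P.1)
        (fun μ : K => (SLev0.PbK arm J B F R P.1 D μ)) id := by
  classical
  have h2 : (2 : K) ≠ 0 := SLevA455.two_ne K
  have hH : F + (algebraMap ℂ K t) • f ∈ Kiso J N W :=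
    Submodule.add_mem _ S.hF (Submodule.smul_mem _ _ S.hf)
  have hCH := S.hCtx _ hH
  have hCF := SInst.ctx S
  obtain ⟨fr, k1⟩ := SInst.fr_k1 S hY hPF hne hc1 hc2 hU1 hU2
  have hmem1 : ∀ x, U1 *ᵥ x ∈ QQb S ν := SUniq803.mem_of_Cq hU1
  have hmem2 : ∀ x, U2 *ᵥ x ∈ QQb S ν' := SUniq803.mem_of_Cq hU2
  obtain ⟨C1, u1⟩ := SB4x.exists_FU S b1 hU1 hs1 hmem1 ha1
  obtain ⟨C2, u2⟩ := SB4x.exists_FU S b2 hU2 hs2 hmem2 ha2
  obtain ⟨g21, g12⟩ := SLevA455.gens0 S hne b1 b2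
  have fX : ∀ s, y.1 s ∈ SL2g560.FR (a2 s) (a1 s) (SL2g560.rad (Fᵀ * J * (P.1 * F)) U2)
      (SL2g560.rad (Fᵀ * J * (P.1 * F)) U1) (l s) := fun s =>
    SB4x.filt_of_arm S u1 b1 u2 b2 s (hy.arm s)
  have fX' : ∀ s, X' s ∈ SL2g560.FR (a2 s) (a1 s) (SL2g560.rad (Fᵀ * J * (P.1 * F)) U2)
      (SL2g560.rad (Fᵀ * J * (P.1 * F)) U1) (l s) := fun s =>
    SB4x.filt_of_arm S u1 b1 u2 b2 s (hDec.arm s)
  have hHc : ∀ w : Matrix ι δ K, Fᵀ * J * w = 0 → fᵀ * J * w = 0 →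
      (F + (algebraMap ℂ K t) • f)ᵀ * J * w = 0 := by
    intro w h3 h4
    rw [transpose_add, transpose_smul, Matrix.add_mul, Matrix.add_mul, Matrix.smul_mul,
      Matrix.smul_mul, h3, h4, smul_zero, add_zero]
  have hFp : (F + (algebraMap ℂ K t) • f)ᵀ * J * F = 0 := hCH.perp F hCF.mem
  have hwp := hHc w cw.pF cw.pf
  -- values on the third blocks
  have h3 := cw.mem.2
  choose! μf hμf using h3
  let μ : K → K := fun κ => if κ = ν then μ1 else if κ = ν' then μ2 else μf κ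
  have hμν : μ ν = μ1 := if_pos rfl
  have hμν' : μ ν' = μ2 := by
    change (if ν' = ν then μ1 else if ν' = ν' then μ2 else μf ν') = μ2
    rw [if_neg hne.symm, if_pos rfl]
  have hμκ : ∀ κ, κ ≠ ν → κ ≠ ν' → μ κ = μf κ := by
    intro κ k1 k2
    change (if κ = ν then μ1 else if κ = ν' then μ2 else μf κ) = μf κ
    rw [if_neg k1, if_neg k2]
  have hwQ : wd arm J (F + (algebraMap ℂ K t) • f) Pt.1 (SMv16.Yf U1 U2 X') d w ∈
      SLev0.QG arm J B N W F P (PC arm J B F R P.1)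
        (fun μ : K => (SLev0.PbK arm J B F R P.1 D μ)) id := by
    refine SWd275.wd_QG (ν := ν) (ν' := ν') (U1 := U1) (U2 := U2) (Γ1 := Γ1) (Γ2 := Γ2)
      (β := β) (γ := γ) (γ0 := y.2.2) (μ := μ) hCF S.hR S.hD (S.hNil F S.hF) S.hP
      (SInst.hfNW S) hCH hPt m fr
      hs1 hmem1 hs2 hmem2 (fun v hv => by rw [e2]) (fun v hv => by rw [e1]) hDec.rb hDec.rk hy.rk
      hc (fun κ k1 k2 u hu => ⟨_, hI.i3 κ k1 k2 u hu, fun v hv => rfl⟩) cw.mem.1 hwp ?_ ?_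
      (fun κ k1 k2 u hu => ?_) (fun i => le_rfl) (by rw [sub_self]; exact N.zero_mem)
    · rw [hμν]; exact cw.L1
    · rw [hμν']; exact cw.L2
    · rw [hμκ κ k1 k2]; exact hμf κ k1 k2 u hu
  have key := SUX.second_mem hCH hPt m fr (X' := X') (fun s v hv => rfl)
    (fun v hv => by rw [e2]) (fun v hv => by rw [e1]) hCF.mem hFp (W3_le S ν ν') hHc
    (fun w hw hw0 => row_of hPt.1 (hrow w hw0)) cw SLev0.N_le_QG hwQ
    (Submodule.sum_mem _ fun s _ => SB4x.part21 u1 b1 u2 b2 g21 hCH hPt m fr (X' := X')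
      (fun s v hv => rfl) (fun v hv => by rw [e2]) (fun v hv => by rw [e1]) hCF.memW ha1 ha2 s
      (fX s) (fX' s) _ _ _)
    (Submodule.sum_mem _ fun s _ => SB4x.part12 u1 b1 u2 b2 g12 s (fX' s))
  exact key

end Crest.Agent.R172.SGeo267
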