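import Crest.Agent.R172.SGeo869
import Crest.Agent.R172.SB4x117
import Crest.Agent.R172.SLevA455

/-!
Row 172 (S0260), tame node (t2), level 2: the second clause of `SDec.Geo22` at one decorated move
(helper619).
-/

set_option autoImplicit false
set_option linter.unusedSectionVars false
set_option linter.unusedVariables false
set_option linter.unusedFintypeInType false
set_option linter.unusedDecidableInType false
set_option maxHeartbeats 1600000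

namespace Crest.Agent.R172.SGeoR619

open Module Matrix Crest.Agent.R172.FO Crest.Agent.R172.Qt Crest.Agent.R172.SpS
open Crest.Agent.R172.SBlk Crest.Agent.R172.UBlk Crest.Agent.R172.SEnd2 Crest.Agent.R172.STop
open Crest.Agent.R172.SCM Crest.Agent.R172.SDec Crest.Agent.R172.SUX
open Crest.Agent.R172.Om (Kiso)
open Crest.Agent.R172.PL (CoreM Ainf)
open Crest.Agent.R172.SC (PB)
open Crest.Agent.R172.SInst (QQb)
open Crest.Agent.R172.SGeo869 (Ym ExM MvD W3)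

variable {ι : Type} [Fintype ι] [DecidableEq ι] {δ : Type} [Fintype δ] [DecidableEq δ]
variable {K : Type} [Field K] [Algebra ℂ K]
variable {m1 m2 : ℕ}
variable {arm : δ → Fin 3} {J : Matrix ι ι K} {B : Matrix δ δ K}
  {N W : Submodule K (Matrix ι δ K)} {F f : Matrix ι δ K}
  {P : Matrix ι ι K × (Fin 3 → Matrix ι ι K)} {R : Matrix δ ι K}
  {D : End K (CoreM (PhS arm J B F R P.1))} {l : Fin 3 → ℕ}

theorem mem_of_Cq {Q : Submodule K (δ → K)} {m : ℕ} {U : Matrix δ (Fin m) K}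
    (h : UFr.Cq Q U) (x : Fin m → K) : U *ᵥ x ∈ Q := by
  have e : U *ᵥ x = ∑ j, x j • (fun d => U d j) := by
    funext d
    rw [Finset.sum_apply]
    unfold Matrix.mulVec dotProduct
    exact Finset.sum_congr rfl fun j _ => by rw [Pi.smul_apply, smul_eq_mul, mul_comm]
  rw [e]
  exact Q.sum_mem fun j _ => Q.smul_mem _ (h j)

/-- **the level 2 relation at one decorated move.** -/
theorem rel2 [IsAlgClosed K] (S : Setup arm J B N W F f P R D l) {ν ν' : K} (hne : ν ≠ ν')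
    {n1 n2 : ℕ} {Q1 : Matrix ι (Fin n1) K} {A1 : Fin 3 → Matrix (Fin n1) (Fin n1) K}
    {Q2 : Matrix ι (Fin n2) K} {A2 : Fin 3 → Matrix (Fin n2) (Fin n2) K}
    (b1 : BPkg arm J B F R P.1 D ν l Q1 A1) (b2 : BPkg arm J B F R P.1 D ν' l Q2 A2)
    {U1 : Matrix δ (Fin m1) K} {U2 : Matrix δ (Fin m2) K}
    {a1 : Fin 3 → Matrix (Fin m1) (Fin m1) K} {a2 : Fin 3 → Matrix (Fin m2) (Fin m2) K}
    (hU1 : UFr.Cq (QQb S ν) U1) (hs1 : ∀ u ∈ QQb S ν, ∃ x, u = U1 *ᵥ x)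
    (ha1 : ∀ s, B * E K arm s * (Fᵀ * J * (P.1 * F)) * U1 = U1 * a1 s)
    (hU2 : UFr.Cq (QQb S ν') U2) (hs2 : ∀ u ∈ QQb S ν', ∃ x, u = U2 *ᵥ x)
    (ha2 : ∀ s, B * E K arm s * (Fᵀ * J * (P.1 * F)) * U2 = U2 * a2 s)
    {a : K} {Pt : Matrix ι ι K × (Fin 3 → Matrix ι ι K)} {dY : Derivation ℂ K K}
    {X' : Fin 3 → Matrix (Fin m2) (Fin m1) K} {d : Derivation ℂ K K}
    {Γ1 : Matrix (Fin m1) (Fin m1) K} {Γ2 : Matrix (Fin m2) (Fin m2) K}
    {β : Matrix (Fin m1) (Fin m2) K} {γ : Matrix (Fin m2) (Fin m1) K}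
    (hc : ∀ κ, QQb S κ ≠ ⊥ → 1 + a * κ ≠ 0)
    (M : MvD arm J B N W F f (F + a • f) Pt (Fᵀ * J * (P.1 * F)) dY (QQb S) ν ν' (1 + a * ν)
      (1 + a * ν') U1 U2 a1 a2 X' d Γ1 Γ2 β γ)
    {c0 : K} {y : D3 K (Fin m1) (Fin m2)}
    (hy : Dec F (Fᵀ * J * (P.1 * F)) U1 U2 a1 a2 c0 y)
    (hI : I1 arm F (Fᵀ * J * (P.1 * F)) U1 U2 y ∈
      QQ5 J N (W3 W F (QQb S) ν ν') F f dY (Fᵀ * J * (P.1 * F)) U1 U2) :
    Rel2 arm F (Fᵀ * J * (P.1 * F)) U1 U2 ((1 + a * ν') / (1 + a * ν)) y (X', β, γ) ∈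
      SLev0.QG arm J B N W F P (PC arm J B F R P.1)
        (fun μ : K => (SLev0.PbK arm J B F R P.1 D μ)) id := by
  classical
  obtain ⟨X, β0, γ0⟩ := y
  obtain ⟨w, μ1, μ2, ν1, ν2, cw⟩ := exists_WCls hI
  obtain ⟨hG21, hG12⟩ := SLevA455.gens0 S hne b1 b2
  obtain ⟨C1, u1⟩ := SB4x.exists_FU S b1 hU1 hs1 (mem_of_Cq hU1) ha1
  obtain ⟨C2, u2⟩ := SB4x.exists_FU S b2 hU2 hs2 (mem_of_Cq hU2) ha2
  have hN2 : ∀ v ∈ W, v * (U2.map d + ZY arm J (F + a • f) Pt.1 (Ym U1 U2 X') * U2) =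
      v * (U2 * Γ2 + (1 + a * ν') ^ 2 • (U1 * β)) := fun v _ => by rw [M.hN2]
  have hN1 : ∀ v ∈ W, v * (U1.map d + ZY arm J (F + a • f) Pt.1 (Ym U1 U2 X') * U1) =
      v * (U1 * Γ1 + (1 + a * ν) ^ 2 • (U2 * γ)) := fun v _ => by rw [M.hN1]
  have hY : ∀ s, ∀ v ∈ W, v * Ym U1 U2 X' s * (F + a • f)ᵀ =
      v * (U2 * X' s * U1ᵀ + U1 * (X' s)ᵀ * U2ᵀ) * (F + a • f)ᵀ := fun s v _ => rfl
  have hfX : ∀ s, X s ∈ SL2g560.FR (a2 s) (a1 s) (SL2g560.rad (Fᵀ * J * (P.1 * F)) U2)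
      (SL2g560.rad (Fᵀ * J * (P.1 * F)) U1) (l s) :=
    fun s => SB4x.filt_of_arm S u1 b1 u2 b2 s (hy.arm s)
  have hfX' : ∀ s, X' s ∈ SL2g560.FR (a2 s) (a1 s) (SL2g560.rad (Fᵀ * J * (P.1 * F)) U2)
      (SL2g560.rad (Fᵀ * J * (P.1 * F)) U1) (l s) :=
    fun s => SB4x.filt_of_arm S u1 b1 u2 b2 s (M.dec.arm s)
  have hHc : ∀ w : Matrix ι δ K, Fᵀ * J * w = 0 → fᵀ * J * w = 0 → (F + a • f)ᵀ * J * w = 0 := by
    intro w h1 h2
    rw [transpose_add, transpose_smul, Matrix.add_mul, Matrix.add_mul, Matrix.smul_mul,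
      Matrix.smul_mul, h1, h2, smul_zero, add_zero]
  -- the values
  have h3 := cw.mem.2
  choose! μ3 hμ3 using h3
  have hwQ : wd arm J (F + a • f) Pt.1 (Ym U1 U2 X') d w ∈
      SLev0.QG arm J B N W F P (PC arm J B F R P.1)
        (fun μ : K => (SLev0.PbK arm J B F R P.1 D μ)) id := by
    refine SWd275.wd_QG (k := ℂ) (SInst.ctx S) S.hR S.hD (S.hNil F S.hF) S.hP (SInst.hfNW S)
      M.ctx M.hPt M.mv M.fr hs1 (mem_of_Cq hU1) hs2 (mem_of_Cq hU2) hN2 hN1 M.dec.rb M.dec.rk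
      hy.rk hc M.n3 cw.mem.1 (hHc w cw.pF cw.pf)
      (μ := fun κ => if κ = ν then μ1 else if κ = ν' then μ2 else μ3 κ) ?_ ?_ ?_
      (fun i => le_rfl) (x := wd arm J (F + a • f) Pt.1 (Ym U1 U2 X') d w) ?_
    · simp only [if_true]
      exact cw.L1
    · simp only [if_neg (Ne.symm hne), if_true]
      exact cw.L2
    · intro κ h1 h2 u hu
      simp only [if_neg h1, if_neg h2]
      exact hμ3 κ h1 h2 u hu
    · rw [sub_self]
      exact N.zero_mem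
  have key := second_mem (W' := W3 W F (QQb S) ν ν') M.ctx M.hPt M.mv M.fr hY hN2 hN1 S.hF.1
    (M.ctx.perp _ S.hF.1) (fun w hw => hw.1) hHc (fun w _ hw => M.row w hw) cw
    (Q := SLev0.QG arm J B N W F P (PC arm J B F R P.1)
        (fun μ : K => (SLev0.PbK arm J B F R P.1 D μ)) id) SLev0.N_le_QG hwQ ?_ ?_
  · exact key
  · exact Submodule.sum_mem _ fun s _ => SB4x.part21 u1 b1 u2 b2 hG21 M.ctx M.hPt M.mv M.fr hY
      hN2 hN1 S.hF.1.2 ha1 ha2 s (hfX s) (hfX' s) _ _ _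
  · exact Submodule.sum_mem _ fun s _ => SB4x.part12 u1 b1 u2 b2 hG12 s (hfX' s)

end Crest.Agent.R172.SGeoR619
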