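import Crest.Agent.R172.SGeoR117
import Crest.Agent.R172.SDecP70
import Crest.Agent.R172.SUniq803
import Crest.Agent.R172.SMv16
import Crest.Agent.R172.SDec2

/-!
Row 172 (S0260), tame node (t2), level 2: `SDec.Geo22` (helper117), on top of `SGeo869` and
`SGeoR117`.
-/

set_option autoImplicit false
set_option linter.unusedSectionVars false
set_option linter.unusedVariables false
set_option linter.unusedFintypeInType false
set_option linter.unusedDecidableInType false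
set_option maxHeartbeats 1600000

namespace Crest.Agent.R172.SGeoS117

open Module Matrix Crest.Agent.R172.FO Crest.Agent.R172.Qt Crest.Agent.R172.SpS
open Crest.Agent.R172.SBlk Crest.Agent.R172.UBlk Crest.Agent.R172.SEnd2 Crest.Agent.R172.STop
open Crest.Agent.R172.SCM Crest.Agent.R172.SDec Crest.Agent.R172.SUX
open Crest.Agent.R172.Om (Kiso)
open Crest.Agent.R172.PL (CoreM Ainf)
open Crest.Agent.R172.SC (PB)
open Crest.Agent.R172.SInst (QQb)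
open Crest.Agent.R172.SGeo869

section gen

variable {ι : Type} [Fintype ι] [DecidableEq ι] {δ : Type} [Fintype δ] [DecidableEq δ]
variable {K : Type} [Field K] {m1 m2 : ℕ}
variable {arm : δ → Fin 3} {F : Matrix ι δ K} {S0 : Matrix δ δ K}
  {U1 : Matrix δ (Fin m1) K} {U2 : Matrix δ (Fin m2) K}

theorem key1 {b b' : Matrix (Fin m1) (Fin m2) K} (h : F * U1 * b = F * U1 * b')
    (X : Matrix (Fin m2) (Fin m1) K) (C C2 : Matrix (Fin m1) (Fin m1) K) (E : Matrix δ δ K) :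
    F * (U1 * (b * X - C - C2) * U1ᵀ) * S0 * E = F * (U1 * (b' * X - C - C2) * U1ᵀ) * S0 * E := by
  have e : ∀ b : Matrix (Fin m1) (Fin m2) K, F * (U1 * (b * X - C - C2) * U1ᵀ) =
      (F * U1 * b) * (X * U1ᵀ) - F * (U1 * (C + C2) * U1ᵀ) := by
    intro b
    simp only [Matrix.mul_sub, Matrix.sub_mul, Matrix.mul_add, Matrix.add_mul, Matrix.mul_assoc]
    abel
  rw [e, e, h]

theorem key2 {g g' : Matrix (Fin m2) (Fin m1) K} (t : gᵀ * (U2ᵀ * S0) = g'ᵀ * (U2ᵀ * S0))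
    (X : Matrix (Fin m2) (Fin m1) K) (C C2 : Matrix (Fin m2) (Fin m2) K) (E : Matrix δ δ K) :
    F * (U2 * (X * gᵀ + C - C2) * U2ᵀ) * S0 * E = F * (U2 * (X * g'ᵀ + C - C2) * U2ᵀ) * S0 * E := by
  have e : ∀ g : Matrix (Fin m2) (Fin m1) K, F * (U2 * (X * gᵀ + C - C2) * U2ᵀ) * S0 =
      F * (U2 * X) * (gᵀ * (U2ᵀ * S0)) + F * (U2 * (C - C2) * U2ᵀ) * S0 := by
    intro g
    simp only [Matrix.mul_sub, Matrix.sub_mul, Matrix.mul_add, Matrix.add_mul, Matrix.mul_assoc]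
    abel
  rw [e, e, t]

theorem Rel2_congr (hsk : S0ᵀ = -S0) {r : K} {y : D3 K (Fin m1) (Fin m2)}
    {X' : Fin 3 → Matrix (Fin m2) (Fin m1) K} {b b' : Matrix (Fin m1) (Fin m2) K}
    {g g' : Matrix (Fin m2) (Fin m1) K} (h1 : F * U1 * b = F * U1 * b')
    (h2 : S0 * U2 * g = S0 * U2 * g') :
    Rel2 arm F S0 U1 U2 r y (X', b, g) = Rel2 arm F S0 U1 U2 r y (X', b', g') := by
  have t : gᵀ * (U2ᵀ * S0) = g'ᵀ * (U2ᵀ * S0) := by
    have := congrArg Matrix.transpose h2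
    rw [transpose_mul, transpose_mul, transpose_mul, transpose_mul, hsk, Matrix.mul_neg,
      Matrix.mul_neg, Matrix.mul_neg] at this
    exact neg_injective this
  exact congrArg₂ (· + ·) (Finset.sum_congr rfl fun s _ => key1 h1 _ _ _ _)
    (congrArg (r • ·) (Finset.sum_congr rfl fun s _ => key2 t _ _ _ _))

theorem sq_finite {S1 : Set K} (hS1 : S1.Finite) : {r : K | r ^ 2 ∈ S1}.Finite := by
  refine Set.Finite.preimage' (f := fun r : K => r ^ 2) hS1 fun b _ => ?_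
  by_cases h : ∃ r0 : K, r0 ^ 2 = b
  · obtain ⟨r0, h0⟩ := h
    refine (Set.toFinite {r0, -r0}).subset ?_
    intro r hr
    have hr' : r ^ 2 = b := hr
    have h3 : (r - r0) * (r + r0) = 0 := by linear_combination hr' - h0
    rcases mul_eq_zero.1 h3 with h1 | h1
    · exact Or.inl (sub_eq_zero.1 h1)
    · exact Or.inr (eq_neg_of_add_eq_zero_left h1)
  · refine Set.finite_empty.subset ?_
    intro r hr
    exact h ⟨r, hr⟩

end gen

/-- **LEVEL 2, geometric half** -/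
theorem geo22 : SDec.Geo22 := by
  intro ι _ _ δ _ _ K _ _ _ arm J B N W F f P R D l S ν ν' hne n1 n2 Q1 A1 Q2 A2 b1 b2 m1 m2
    U1 U2 a1 a2 hU1 hs1 hi1 ha1 hU2 hs2 hi2 ha2
  obtain ⟨dY, bad, hbad, hex⟩ := exists_MvD S hne hU1 hs1 ha1 hU2 hs2 ha2
  have hsk : (Fᵀ * J * (P.1 * F))ᵀ = -(Fᵀ * J * (P.1 * F)) :=
    SUX.th_skew (SInst.ctx S) S.hP (SInst.ctx S).mem
  obtain ⟨S1, hS1, hsep⟩ := RJP.par_sep (T := Unit)
    (SDecP70.alD F (Fᵀ * J * (P.1 * F)) U1 U2 a1) (-(SDecP70.beD F (Fᵀ * J * (P.1 * F)) U1 U2 a2))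
    (QQ5 J N (W3 W F (QQb S) ν ν') F f dY (Fᵀ * J * (P.1 * F)) U1 U2)
    (fun _ => I1 arm F (Fᵀ * J * (P.1 * F)) U1 U2) (fun _ => I2 arm F (Fᵀ * J * (P.1 * F)) U1 U2)
    (SMv16.Lam_infinite hbad hne) (by
      intro r hr y hy _
      have hd : Dec F (Fᵀ * J * (P.1 * F)) U1 U2 a1 a2 (-(r ^ 2)) y := by
        rw [SDecP70.dec_iff, hy, LinearMap.neg_apply, smul_neg, neg_smul]
      have hr0 : -(r ^ 2) ≠ 0 := neg_ne_zero.2 (pow_ne_zero 2 fun h =>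
        SMv16.Lam_zero bad ν ν' (h ▸ hr))
      obtain ⟨t, ht, hc1, hc2, rfl⟩ := hr
      obtain ⟨hc, hmv⟩ := hex t ht hc1 hc2
      obtain ⟨Pt, d, Γ1, Γ2, β, γ, M⟩ := hmv y.1 ⟨hd.sum, hd.arm⟩
      have hm := first S hne hc M
      obtain ⟨⟨z1, z2⟩, z3, z4⟩ := SUniq803.dec_uniq S hU1 hs1 hi1 ha1 hU2 hs2 hi2 ha2 hr0 hd M.dec
        rfl
      have v := SDecP70.I_zero (arm := arm) (F := F) (S0 := Fᵀ * J * (P.1 * F)) (U1 := U1)
        (U2 := U2) hsk (db := y.2.1 - β) (dg := y.2.2 - γ)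
        (by rw [← Matrix.mul_assoc, Matrix.mul_sub, z1, sub_self])
        (by rw [← Matrix.mul_assoc, Matrix.mul_sub, z2 P.1, sub_self])
        (by rw [← Matrix.mul_assoc, Matrix.mul_sub, z3, sub_self])
        (by rw [← Matrix.mul_assoc, Matrix.mul_sub, z4 P.1, sub_self])
      have e : y - (y.1, β, γ) = ((0 : Fin 3 → Matrix (Fin m2) (Fin m1) K), y.2.1 - β,
          y.2.2 - γ) := Prod.ext (sub_self y.1) rfl
      have w1 : I1 arm F (Fᵀ * J * (P.1 * F)) U1 U2 (y - (y.1, β, γ)) = 0 := by rw [e]; exact v.1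
      have w2 : I2 arm F (Fᵀ * J * (P.1 * F)) U1 U2 (y - (y.1, β, γ)) = 0 := by rw [e]; exact v.2
      rw [map_sub, sub_eq_zero] at w1 w2
      rw [w1, w2]
      exact hm)
  refine ⟨SMv16.Lam ℂ bad ν ν' \ {r | r ^ 2 ∈ S1},
    (SMv16.Lam_infinite hbad hne).sdiff (sq_finite hS1),
    fun h => SMv16.Lam_zero bad ν ν' h.1, ?_, ?_⟩
  · rintro r ⟨⟨t, ht, hc1, hc2, rfl⟩, -⟩ X hsum harm
    obtain ⟨hc, hmv⟩ := hex t ht hc1 hc2
    obtain ⟨Pt, d, Γ1, Γ2, β, γ, M⟩ := hmv X ⟨hsum, harm⟩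
    exact ⟨β, γ, M.dec,
      ⟨fun x hx => SZB275.zb_of M.fr M.mv.dH (by rw [M.hN2]) hx,
        fun x hx => SZB275.zk_of M.fr M.mv.dH (by rw [M.hN1]) hx⟩⟩
  · rintro r ⟨-, hr⟩ r' ⟨⟨t, ht, hc1, hc2, rfl⟩, -⟩ y y' hy hy'
    have hI := (hsep (r ^ 2) hr y (by
      rw [(SDecP70.dec_iff F (Fᵀ * J * (P.1 * F)) U1 U2 a1 a2 (-(r ^ 2)) y).1 hy,
        LinearMap.neg_apply, smul_neg, neg_smul]) ()).1
    obtain ⟨hc, hmv⟩ := hex t ht hc1 hc2
    obtain ⟨Pt, d, Γ1, Γ2, β, γ, M⟩ := hmv y'.1 ⟨hy'.sum, hy'.arm⟩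
    have h1 := SGeoR117.rel2 S hne b1 b2 hU1 hs1 ha1 hU2 hs2 ha2 hc M hy hI
    have hr0 : -(((1 + algebraMap ℂ K t * ν') / (1 + algebraMap ℂ K t * ν)) ^ 2) ≠ 0 :=
      neg_ne_zero.2 (pow_ne_zero 2 (div_ne_zero hc2 hc1))
    obtain ⟨⟨z1, z2⟩, z3, z4⟩ := SUniq803.dec_uniq S hU1 hs1 hi1 ha1 hU2 hs2 hi2 ha2 hr0 hy' M.dec
      rfl
    have h3 : Rel2 arm F (Fᵀ * J * (P.1 * F)) U1 U2
        ((1 + algebraMap ℂ K t * ν') / (1 + algebraMap ℂ K t * ν)) y (y'.1, y'.2.1, y'.2.2) =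
        Rel2 arm F (Fᵀ * J * (P.1 * F)) U1 U2
        ((1 + algebraMap ℂ K t * ν') / (1 + algebraMap ℂ K t * ν)) y (y'.1, β, γ) :=
      Rel2_congr hsk z1 (z4 P.1)
    rw [← h3] at h1
    exact h1

end Crest.Agent.R172.SGeoS117
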