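import Crest.Agent.R172.ZQuotJ

/-!
Row 172 (S0260): block form of the first derivative (node S-Hex, helper420): existence of the
correction `b` (hypothesis `hex` of `RJM.main` / `ZQ.main`).  Abstract: `X` a `K`-space, `nab`
additive with `nab (a v) = a nab v + del a v`, `Φ_r`, `e_r` linear, `P2` perfect,
`nab (Φ_r v) = Φ_r (nab v) + e_r (Φ_r v) - Φ_r (e_r v)` on `P2`, `e_r P2 ≤ P1`, arm by arm
`e_r Φ_r v - Φ_r e_r v ∈ R1`, and `nab P2 ≤ P2 + R'` with `R'` nilpotent.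

* `nab_mem`  : `nab P2 ≤ P2 + R1`.
* `exists_b` : linear `b : P2 → P1` with values in `R1`, `nab p - b p ∈ P2`,
  `[Φ_r, b] - [Φ_r, e_r] ∈ P1 ∩ P2`.
* `exists_corZ` : the same in the form `ZQ.CorZ` for operators `A, B` scaled by `α1, α2`.
-/

set_option autoImplicit false

namespace Crest.Agent.R172.SHex

open Module TensorProduct

variable {K : Type*} [Field K] {X : Type*} [AddCommGroup X] [Module K X] {τ : Type*}
variable {nab : X →+ X} {del : K → K} {Φ e : τ → X →ₗ[K] X} {P1 P2 R1 R' : Submodule K X}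

theorem word_mem (hst2 : ∀ r, ∀ v ∈ P2, Φ r v ∈ P2) (w : List τ) :
    ∀ v ∈ P2, (w.map Φ).prod v ∈ P2 := by
  induction w with
  | nil => intro v hv; simpa using hv
  | cons r w ih =>
    intro v hv
    rw [List.map_cons, List.prod_cons, Module.End.mul_apply]
    exact hst2 r _ (ih v hv)

/-- a perfect submodule is spanned by the long words -/
theorem perf_words [Fintype τ] (hperf : P2 ≤ ⨆ r, P2.map (Φ r)) (m : ℕ) (S : Submodule K X)
    (hS : ∀ w : List τ, w.length = m → ∀ v ∈ P2, (w.map Φ).prod v ∈ S) : P2 ≤ S := by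
  induction m generalizing S with
  | zero => intro v hv; simpa using hS [] rfl v hv
  | succ m ih =>
    apply ih
    intro w hw v hv
    have h1 : v ∈ ⨆ r, P2.map (Φ r) := hperf hv
    have h2 : (⨆ r, P2.map (Φ r)) ≤ S.comap ((w.map Φ).prod : X →ₗ[K] X) := by
      refine iSup_le fun r => ?_
      rintro _ ⟨u, hu, rfl⟩
      have h3 := hS (w ++ [r]) (by simp [hw]) u hu
      rw [Submodule.mem_comap]
      simpa [List.prod_append] using h3
    exact h2 h1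

section main

variable (hn : ∀ a v, nab (a • v) = a • nab v + del a • v)

include hn in
/-- **`nab P2 ≤ P2 + R1`** (perfect → nilpotent) -/
theorem nab_mem [Fintype τ] (hst2 : ∀ r, ∀ v ∈ P2, Φ r v ∈ P2)
    (hstR : ∀ r, ∀ v ∈ R1, Φ r v ∈ R1)
    (hperf : P2 ≤ ⨆ r, P2.map (Φ r))
    (hcom : ∀ r, ∀ v ∈ P2, nab (Φ r v) = Φ r (nab v) + (e r (Φ r v) - Φ r (e r v)))
    (harm : ∀ r, ∀ v ∈ P2, e r (Φ r v) - Φ r (e r v) ∈ R1)
    {m : ℕ} (hnil : ∀ w : List τ, w.length = m → ∀ v ∈ R', (w.map Φ).prod v = 0)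
    (hnab : ∀ v ∈ P2, nab v ∈ P2 ⊔ R') : ∀ v ∈ P2, nab v ∈ P2 ⊔ R1 := by
  -- `S = {v ∈ P2 | nab v ∈ P2 + R1}` is a submodule
  let S : Submodule K X :=
    { carrier := {v | v ∈ P2 ∧ nab v ∈ P2 ⊔ R1}
      add_mem' := by
        rintro a b ⟨h1, h2⟩ ⟨h1', h2'⟩
        exact ⟨P2.add_mem h1 h1', by rw [map_add]; exact Submodule.add_mem _ h2 h2'⟩
      zero_mem' := ⟨P2.zero_mem, by rw [map_zero]; exact Submodule.zero_mem _⟩
      smul_mem' := by
        rintro c a ⟨h1, h2⟩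
        refine ⟨P2.smul_mem c h1, ?_⟩
        rw [hn]
        exact Submodule.add_mem _ (Submodule.smul_mem _ _ h2)
          (Submodule.smul_mem _ _ (Submodule.mem_sup_left h1)) }
  have hΦQ : ∀ w : List τ, ∀ v ∈ P2 ⊔ R1, (w.map Φ).prod v ∈ P2 ⊔ R1 := by
    intro w
    refine word_mem (fun r v hv => ?_) w
    obtain ⟨a, ha, b, hb, rfl⟩ := Submodule.mem_sup.1 hv
    rw [map_add]
    exact Submodule.add_mem_sup (hst2 r a ha) (hstR r b hb)
  have key : ∀ w : List τ, ∀ v ∈ P2,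
      nab ((w.map Φ).prod v) - (w.map Φ).prod (nab v) ∈ P2 ⊔ R1 := by
    intro w
    induction w with
    | nil => intro v _; simp
    | cons r w ih =>
      intro v hv
      rw [List.map_cons, List.prod_cons, Module.End.mul_apply, Module.End.mul_apply]
      have hv' := word_mem hst2 w v hv
      rw [hcom r _ hv']
      have h1 : Φ r (nab ((w.map Φ).prod v)) +
          (e r (Φ r ((w.map Φ).prod v)) - Φ r (e r ((w.map Φ).prod v))) -
          Φ r ((w.map Φ).prod (nab v)) = Φ r (nab ((w.map Φ).prod v) - (w.map Φ).prod (nab v)) +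
          (e r (Φ r ((w.map Φ).prod v)) - Φ r (e r ((w.map Φ).prod v))) := by
        rw [map_sub]; abel
      rw [h1]
      refine Submodule.add_mem _ ?_ (Submodule.mem_sup_right (harm r _ hv'))
      have h2 := hΦQ [r] _ (ih v hv)
      simpa using h2
  have hle : P2 ≤ S := by
    refine perf_words hperf m S fun w hw v hv => ⟨word_mem hst2 w v hv, ?_⟩
    have h1 := key w v hv
    obtain ⟨a, ha, b, hb, hab⟩ := Submodule.mem_sup.1 (hnab v hv)
    have h2 : (w.map Φ).prod (nab v) ∈ P2 ⊔ R1 := by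
      rw [← hab, map_add, hnil w hw b hb, add_zero]
      exact Submodule.mem_sup_left (word_mem hst2 w a ha)
    have h3 := Submodule.add_mem _ h1 h2
    rwa [sub_add_cancel] at h3
  exact fun v hv => (hle hv).2

include hn in
/-- **existence of the correction `b`** -/
theorem exists_b (hR1 : R1 ≤ P1) (hst1 : ∀ r, ∀ v ∈ P1, Φ r v ∈ P1)
    (hst2 : ∀ r, ∀ v ∈ P2, Φ r v ∈ P2)
    (hcom : ∀ r, ∀ v ∈ P2, nab (Φ r v) = Φ r (nab v) + (e r (Φ r v) - Φ r (e r v)))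
    (he : ∀ r, ∀ v ∈ P2, e r v ∈ P1) (hnab : ∀ v ∈ P2, nab v ∈ P2 ⊔ R1) :
    ∃ b : P2 →ₗ[K] P1, (∀ p, (b p : X) ∈ R1) ∧ (∀ p : P2, nab p - (b p : X) ∈ P2) ∧
      ∀ r, ∀ p : P2, Φ r (b p) - (b ⟨Φ r p, hst2 r p p.2⟩ : X) -
        (Φ r (e r p) - e r (Φ r p)) ∈ P1 ⊓ P2 := by
  -- the linear map `P2 → X / P2`
  let z : P2 →ₗ[K] (X ⧸ P2) :=
    { toFun := fun p => P2.mkQ (nab p)
      map_add' := fun p q => by
        rw [Submodule.coe_add, map_add, map_add]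
      map_smul' := fun c p => by
        rw [Submodule.coe_smul, hn, map_add, map_smul, RingHom.id_apply]
        have : P2.mkQ (del c • (p : X)) = 0 := by
          rw [Submodule.mkQ_apply, Submodule.Quotient.mk_eq_zero]
          exact P2.smul_mem _ p.2
        rw [this, add_zero] }
  let π : R1 →ₗ[K] (X ⧸ P2) := P2.mkQ ∘ₗ R1.subtype
  have hz : ∀ p, z p ∈ LinearMap.range π := by
    intro p
    obtain ⟨a, ha, b, hb, hab⟩ := Submodule.mem_sup.1 (hnab p p.2)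
    refine ⟨⟨b, hb⟩, ?_⟩
    change P2.mkQ b = P2.mkQ (nab p)
    rw [← hab, map_add]
    have : P2.mkQ a = 0 := by
      rw [Submodule.mkQ_apply, Submodule.Quotient.mk_eq_zero]; exact ha
    rw [this, zero_add]
  obtain ⟨s, hs⟩ := π.rangeRestrict.exists_rightInverse_of_surjective
    (LinearMap.range_rangeRestrict π)
  let b0 : P2 →ₗ[K] R1 := s ∘ₗ z.codRestrict (LinearMap.range π) hz
  have hb0 : ∀ p, π (b0 p) = z p := by
    intro p
    have h1 := LinearMap.congr_fun hs (z.codRestrict (LinearMap.range π) hz p)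
    exact congrArg Subtype.val h1
  let b : P2 →ₗ[K] P1 := (Submodule.inclusion hR1) ∘ₗ b0
  have hb : ∀ p, (b p : X) = (b0 p : X) := fun p => rfl
  have hmem : ∀ p : P2, nab p - (b p : X) ∈ P2 := by
    intro p
    have h1 := hb0 p
    change P2.mkQ (b0 p : X) = P2.mkQ (nab p) at h1
    rw [hb, ← Submodule.Quotient.mk_eq_zero, ← Submodule.mkQ_apply, map_sub, h1, sub_self]
  refine ⟨b, fun p => (b0 p).2, hmem, fun r p => ⟨?_, ?_⟩⟩
  · refine P1.sub_mem (P1.sub_mem (hst1 r _ (b p).2) (b _).2) (P1.sub_mem (hst1 r _ (he r p p.2)) ?_)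
    exact he r _ (hst2 r p p.2)
  · have h1 := hmem p
    have h2 := hmem ⟨Φ r p, hst2 r p p.2⟩
    have h3 := hcom r p p.2
    have h4 : Φ r (b p) - (b ⟨Φ r p, hst2 r p p.2⟩ : X) - (Φ r (e r p) - e r (Φ r p)) =
        (nab (Φ r p) - (b ⟨Φ r p, hst2 r p p.2⟩ : X)) - Φ r (nab p - (b p : X)) := by
      rw [h3, map_sub]; abel
    rw [h4]
    exact P2.sub_mem h2 (hst2 r _ h1)

end main

section cor

variable [Fintype τ] [DecidableEq τ]

/-- **`hex`, in the form `ZQ.CorZ`**: `A`, `B` are `Φ` on `P1`, `P2` divided by `α1`, `α2`. -/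
theorem exists_corZ (hn : ∀ a v, nab (a • v) = a • nab v + del a • v)
    (hR1 : R1 ≤ P1) (hst2 : ∀ r, ∀ v ∈ P2, Φ r v ∈ P2)
    (hperf : P2 ≤ ⨆ r, P2.map (Φ r)) (hstR : ∀ r, ∀ v ∈ R1, Φ r v ∈ R1)
    {m : ℕ} (hnil : ∀ w : List τ, w.length = m → ∀ v ∈ R', (w.map Φ).prod v = 0)
    (hnab : ∀ v ∈ P2, nab v ∈ P2 ⊔ R')
    {A : τ → End K P1} {B : τ → End K P2} {α1 α2 : K} (h1 : α1 ≠ 0)
    (hA : ∀ r (v : P1), Φ r v = α1 • (A r v : X)) (hB : ∀ r (v : P2), Φ r v = α2 • (B r v : X))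
    (g : P2 →ₗ[K] P2 →ₗ[K] K) (x : τ → P2 ⊗[K] P1)
    (hcom : ∀ r (v : P2), nab (Φ r v) = Φ r (nab v) +
      (α2 • (RJM.ev g (x r) (B r v) : X) - Φ r (RJM.ev g (x r) v : X)))
    (harm : ∀ r (v : P2), α2 • (RJM.ev g (x r) (B r v) : X) - Φ r (RJM.ev g (x r) v : X) ∈ R1)
    {eps c : K} (hc : eps * c = α2 / α1) :
    ∃ b : P2 →ₗ[K] P1, (∀ p : P2, nab p - (b p : X) ∈ P2) ∧
      ZQ.CorZ A B (R1.comap P1.subtype) ((P1 ⊓ P2).comap P1.subtype) g eps c x b := by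
  classical
  -- extend `ev` to `X`
  have hext : ∀ r, ∃ e : X →ₗ[K] X, ∀ v : P2, e v = (RJM.ev g (x r) v : X) := by
    intro r
    obtain ⟨f, hf⟩ := LinearMap.exists_extend (P1.subtype ∘ₗ RJM.ev g (x r))
    exact ⟨f, fun v => LinearMap.congr_fun hf v⟩
  choose e he using hext
  have hBv : ∀ r (v : P2), Φ r v = ((α2 • B r v : P2) : X) := fun r v => by
    rw [hB]; rfl
  have heΦ : ∀ r (v : P2), e r (Φ r v) = α2 • (RJM.ev g (x r) (B r v) : X) := by
    intro r v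
    rw [hBv, he, map_smul]; rfl
  have hcom' : ∀ r, ∀ v ∈ P2, nab (Φ r v) = Φ r (nab v) + (e r (Φ r v) - Φ r (e r v)) := by
    intro r v hv
    have := hcom r ⟨v, hv⟩
    rw [← heΦ r ⟨v, hv⟩, ← he r ⟨v, hv⟩] at this
    exact this
  have harm' : ∀ r, ∀ v ∈ P2, e r (Φ r v) - Φ r (e r v) ∈ R1 := by
    intro r v hv
    have := harm r ⟨v, hv⟩
    rw [← heΦ r ⟨v, hv⟩, ← he r ⟨v, hv⟩] at this
    exact this
  have hst1 : ∀ r, ∀ v ∈ P1, Φ r v ∈ P1 := by
    intro r v hv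
    rw [hA r ⟨v, hv⟩]
    exact P1.smul_mem _ (A r ⟨v, hv⟩).2
  have he1 : ∀ r, ∀ v ∈ P2, e r v ∈ P1 := by
    intro r v hv
    rw [he r ⟨v, hv⟩]
    exact (RJM.ev g (x r) ⟨v, hv⟩).2
  have hn2 := nab_mem hn hst2 hstR hperf hcom' harm' hnil hnab
  obtain ⟨b, hb1, hb2, hb3⟩ := exists_b hn hR1 hst1 hst2 hcom' he1 hn2
  refine ⟨b, hb2, ⟨fun p => hb1 p, fun r p => ?_⟩⟩
  rw [Submodule.mem_comap]
  have h2 := hb3 r p
  have h3 : (b ⟨Φ r p, hst2 r p p.2⟩ : X) = α2 • (b (B r p) : X) := by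
    have : (⟨Φ r p, hst2 r p p.2⟩ : P2) = α2 • B r p := Subtype.ext (hBv r p)
    rw [this, map_smul]; rfl
  have h4 : Φ r (e r (p : X)) = α1 • (A r (RJM.ev g (x r) p) : X) := by
    rw [he, hA]
  rw [h3, hA r (b p), h4, heΦ] at h2
  have h5 : P1.subtype ((A r (b p) - (eps * c) • b (B r p)) -
      (A r (RJM.ev g (x r) p) - (eps * c) • RJM.ev g (x r) (B r p))) =
      α1⁻¹ • (α1 • (A r (b p) : X) - α2 • (b (B r p) : X) -
        (α1 • (A r (RJM.ev g (x r) p) : X) - α2 • (RJM.ev g (x r) (B r p) : X))) := by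
    rw [hc]
    simp only [Submodule.subtype_apply, Submodule.coe_sub, Submodule.coe_smul, smul_sub, smul_smul,
      inv_mul_cancel₀ h1, one_smul]
    rw [div_eq_inv_mul]
  rw [h5]
  exact Submodule.smul_mem _ _ h2

end cor

end Crest.Agent.R172.SHex
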