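import Crest.Agent.R172.Psi2
import Crest.Agent.R172.UBlk

/-!
Row 172 (S0260), (t2), S-side: the infinite image and the nilpotent part of `om` at
`(H, P_t)`, `H = F + t f`, compared with those at `(F, P)`.
-/

set_option autoImplicit false
set_option linter.unusedSectionVars false
set_option linter.unusedFintypeInType false
set_option linter.unusedDecidableInType false

namespace Crest.Agent.R172.SInf965

open Module
open Crest.Agent.R172.St (Nk T mem_T mem_Nk_zero mem_Nk_succ)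
open Crest.Agent.R172.PL (Ainf Ainf_le_Wk)
open Crest.Agent.R172.SBlk (Par)

section abs

variable {K : Type*} [Field K] {V : Type*} [AddCommGroup V] [Module K V] {κ : Type*}
  {Φ Ns Φ' : κ → End K V} {Ψ : K → κ → End K V} {S : Finset K} {w : K → K}

theorem diag2 (h : Par Φ Ns Ψ S) (h' : ∀ s v, Φ' s v = ∑ c ∈ S, w c • Ψ c s v) (c : K)
    (s t : κ) (v : V) : Φ' s (Ψ c t v) = w c • Ψ c s (Ψ c t v) := by
  rw [h']
  by_cases hc : c ∈ S
  · rw [Finset.sum_eq_single c]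
    · intro c' _ hne; rw [h.cross c' c hne s t v, smul_zero]
    · intro hc'; exact absurd hc hc'
  · rw [h.out c hc t v, map_zero, smul_zero]
    exact Finset.sum_eq_zero fun c' _ => by rw [map_zero, smul_zero]

theorem diag2' (h : Par Φ Ns Ψ S) (h' : ∀ s v, Φ' s v = ∑ c ∈ S, w c • Ψ c s v) (c : K)
    (s t : κ) (v : V) : Ψ c s (Φ' t v) = w c • Ψ c s (Ψ c t v) := by
  rw [h', map_sum]
  by_cases hc : c ∈ S
  · rw [Finset.sum_eq_single c]
    · rw [map_smul]
    · intro c' _ hne; rw [map_smul, h.cross c c' hne.symm s t v, smul_zero]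
    · intro hc'; exact absurd hc hc'
  · rw [h.out c hc s, smul_zero]
    exact Finset.sum_eq_zero fun c' _ => by rw [map_smul, h.out c hc s, smul_zero]

theorem part_Wk (h : Par Φ Ns Ψ S) (h' : ∀ s v, Φ' s v = ∑ c ∈ S, w c • Ψ c s v) (k : ℕ) :
    ∀ (c : K) (s : κ), ∀ v ∈ PL.Wk Φ' k, Ψ c s v ∈ PL.Wk Φ k := by
  induction k with
  | zero => intro c s v _; simp [PL.Wk]
  | succ k ih =>
    intro c s v hv
    refine Submodule.iSup_induction (p := fun s => (PL.Wk Φ' k).map (Φ' s))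
      (motive := fun v => Ψ c s v ∈ PL.Wk Φ (k + 1)) hv ?_ ?_ ?_
    · rintro t _ ⟨u, hu, rfl⟩
      rw [diag2' h h', ← h.diag]
      exact Submodule.smul_mem _ _ (PL.Wk_succ_mem (ih c t u hu) s)
    · rw [map_zero]; exact Submodule.zero_mem _
    · intro x y hx hy; rw [map_add]; exact Submodule.add_mem _ hx hy

theorem Wk_le (h : Par Φ Ns Ψ S) (h' : ∀ s v, Φ' s v = ∑ c ∈ S, w c • Ψ c s v) (k : ℕ) :
    PL.Wk Φ' (k + 1) ≤ PL.Wk Φ k := by
  change (⨆ s, (PL.Wk Φ' k).map (Φ' s)) ≤ _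
  refine iSup_le fun s => ?_
  rintro _ ⟨u, hu, rfl⟩
  rw [h']
  exact Submodule.sum_mem _ fun c _ => Submodule.smul_mem _ _ (part_Wk h h' k c s u hu)

/-- the infinite image does not grow -/
theorem ainf_le (h : Par Φ Ns Ψ S) (h' : ∀ s v, Φ' s v = ∑ c ∈ S, w c • Ψ c s v) :
    Ainf Φ' ≤ Ainf Φ := fun _ hv =>
  (Submodule.mem_iInf _).2 fun k => Wk_le h h' k (Ainf_le_Wk Φ' (k + 1) hv)

theorem part_Nk (h : Par Φ Ns Ψ S) (h' : ∀ s v, Φ' s v = ∑ c ∈ S, w c • Ψ c s v) (k : ℕ) :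
    ∀ (c : K) (s : κ), ∀ v ∈ Nk Φ k, Ψ c s v ∈ Nk Φ' k := by
  induction k with
  | zero =>
    intro c s v hv
    rw [mem_Nk_zero] at hv ⊢
    rw [hv, map_zero]
  | succ k ih =>
    intro c s v hv
    rw [mem_Nk_succ] at hv ⊢
    intro t
    rw [diag2 h h', ← h.diag']
    exact Submodule.smul_mem _ _ (ih c t _ (hv s))

/-- the nilpotent part does not shrink -/
theorem T_le (h : Par Φ Ns Ψ S) (h' : ∀ s v, Φ' s v = ∑ c ∈ S, w c • Ψ c s v) :
    T Φ ≤ T Φ' := by
  intro v hv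
  obtain ⟨k, hk⟩ := mem_T.1 hv
  refine mem_T.2 ⟨k + 1, mem_Nk_succ.2 fun s => ?_⟩
  rw [h']
  exact Submodule.sum_mem _ fun c _ => Submodule.smul_mem _ _ (part_Nk h h' k c s v hk)

/-- the same parts for `Φ'` -/
theorem par' (h : Par Φ Ns Ψ S) (h' : ∀ s v, Φ' s v = ∑ c ∈ S, w c • Ψ c s v) :
    Par Φ' (fun s => ∑ c ∈ S, c • (w c • Ψ c s)) (fun c s => w c • Ψ c s) S := by
  refine ⟨fun s v => ?_, fun c c' hne s t v => ?_, fun c hc s v => ?_, fun s v => ?_⟩
  · rw [h']; rfl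
  · rw [LinearMap.smul_apply, LinearMap.smul_apply, map_smul, h.cross c c' hne, smul_zero,
      smul_zero]
  · rw [LinearMap.smul_apply, h.out c hc, smul_zero]
  · rw [LinearMap.sum_apply]; rfl

/-- if no weight vanishes, the infinite images and the nilpotent parts agree -/
theorem eqs (h : Par Φ Ns Ψ S) (h' : ∀ s v, Φ' s v = ∑ c ∈ S, w c • Ψ c s v)
    (hw : ∀ c ∈ S, w c ≠ 0) : Ainf Φ' = Ainf Φ ∧ T Φ' = T Φ := by
  have h2 : ∀ s v, Φ s v = ∑ c ∈ S, (w c)⁻¹ • (fun c s => w c • Ψ c s) c s v := by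
    intro s v
    rw [h.sum]
    refine Finset.sum_congr rfl fun c hc => ?_
    change _ = (w c)⁻¹ • (w c • Ψ c s v)
    rw [smul_smul, inv_mul_cancel₀ (hw c hc), one_smul]
  have h1 := par' h h'
  exact ⟨le_antisymm (ainf_le h h') (ainf_le h1 h2), le_antisymm (T_le h1 h2) (T_le h h')⟩

end abs

section inst

open Matrix Crest.Agent.R172.FO Crest.Agent.R172.Qt Crest.Agent.R172.SpS Crest.Agent.R172.SBlk
open Crest.Agent.R172.SUX (th)
open Crest.Agent.R172.UBlk (om om_eq par form_two)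

variable {ι : Type*} [Fintype ι] [DecidableEq ι] {δ : Type*} [Fintype δ] [DecidableEq δ]
variable {k K : Type*} [Field k] [Field K] [Algebra k K]
variable {arm : δ → Fin 3} {J : Matrix ι ι K} {B : Matrix δ δ K}
  {N W : Submodule K (Matrix ι δ K)} {F f H : Matrix ι δ K}
  {P p' : Matrix ι ι K × (Fin 3 → Matrix ι ι K)} {S : Finset K} {Q : Matrix ι ι K} {t : K}
  {q : K → Matrix ι ι K × (Fin 3 → Matrix ι ι K)}

/-- `om` at `(H, Q)` is `∑ (1 + t c)² om(q_c)` on all of `K^δ`. -/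
theorem om_sum (hq : Spec arm J N F f P.1 S q) (h : Ctx k arm J B N W F) (hf : f ∈ N ⊓ W)
    (hp' : p' ∈ NN arm J N F) (e : Fᵀ * J * (P.1 * f) = Fᵀ * J * (p'.1 * F))
    (hH : Hᵀ * J * (Q * H) = Fᵀ * J * (P.1 * F) + (2 * t) • (Fᵀ * J * (P.1 * f)) +
      t ^ 2 • (Fᵀ * J * (p'.1 * f))) (s : Fin 3) (v : δ → K) :
    om arm J B H Q H s v = ∑ c ∈ S, (1 + t * c) ^ 2 • om arm J B F (q c).1 F s v := by
  simp only [om_eq h.data]
  simp only [← smul_mulVec]
  rw [← sum_mulVec]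
  congr 1
  have h1 : Hᵀ * J * (Q * H) =
      ∑ c ∈ S, (1 + t * c) ^ 2 • (Fᵀ * J * ((q c).1 * F)) := by
    rw [hH, form_two hq h hf hp' e, hq.sumf, hq.sum, Finset.smul_sum, Finset.smul_sum,
      ← Finset.sum_add_distrib, ← Finset.sum_add_distrib]
    refine Finset.sum_congr rfl fun c _ => ?_
    rw [smul_smul, smul_smul]
    conv_lhs => rw [← one_smul K (Fᵀ * J * ((q c).1 * F))]
    simp only [smul_smul, ← add_smul]
    congr 1
    ring
  rw [h1, Matrix.mul_sum]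
  exact Finset.sum_congr rfl fun c _ => Matrix.mul_smul _ _ _

/-- **`Ainf` and `T` of `om` at `(H, Q)` and at `(F, P)` agree outside a finite set of `t`.**
`H` is `F + t f` in the application; only the form at `H` is used. -/
theorem exists_bad (h : Ctx k arm J B N W F) {R : Matrix δ ι K} (hR : F * R * F = F)
    [IsAlgClosed K] (hNil : NilW arm J B N F) (hP : P ∈ NN arm J N F) (hf : f ∈ N ⊓ W)
    (hp' : p' ∈ NN arm J N F) (e : Fᵀ * J * (P.1 * f) = Fᵀ * J * (p'.1 * F)) :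
    ∃ bad : Set K, bad.Finite ∧ ∀ (t : K) (H : Matrix ι δ K) (Q : Matrix ι ι K),
      Hᵀ * J * (Q * H) = Fᵀ * J * (P.1 * F) + (2 * t) • (Fᵀ * J * (P.1 * f)) +
        t ^ 2 • (Fᵀ * J * (p'.1 * f)) →
      (Ainf (om arm J B H Q H) ≤ Ainf (om arm J B F P.1 F) ∧
        T (om arm J B F P.1 F) ≤ T (om arm J B H Q H)) ∧
      (t ∉ bad → Ainf (om arm J B H Q H) = Ainf (om arm J B F P.1 F) ∧
        T (om arm J B H Q H) = T (om arm J B F P.1 F)) := by
  obtain ⟨S, q, hq⟩ := exists_spec h hR hNil hP hf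
  have h0 := par hq h hf
  refine ⟨⋃ c ∈ S, {t : K | 1 + t * c = 0}, ?_, fun t H Q hH => ?_⟩
  · refine S.finite_toSet.biUnion fun c _ => ?_
    refine Set.Subsingleton.finite fun a ha b hb => ?_
    have ha' : 1 + a * c = 0 := ha
    have hb' : 1 + b * c = 0 := hb
    have hc : c ≠ 0 := by
      rintro rfl
      rw [mul_zero, add_zero] at ha'
      exact one_ne_zero ha'
    have h2 : (a - b) * c = 0 := by linear_combination ha' - hb'
    exact sub_eq_zero.1 ((mul_eq_zero.1 h2).resolve_right hc)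
  · have h1 := om_sum hq h hf hp' e hH
    refine ⟨⟨ainf_le h0 h1, T_le h0 h1⟩, fun ht => eqs h0 h1 fun c hc => ?_⟩
    refine pow_ne_zero 2 fun h2 => ht ?_
    exact Set.mem_biUnion (show c ∈ (S : Set K) from hc) h2

end inst

end Crest.Agent.R172.SInf965
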