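import Mathlib

/-!
Row 172 (S0260), (t2), node S-MvSL: separation of the Laurent families (with their radical
corrections) by ONE derivation.

`P1, P2` are two blocks with operators `A t`, `B t` (perfect, long words kill `B_s^l P2`,
`A_s^l P1`), `nab1`, `nab2` the connection of a derivation with `nab (A t) = (A t) nab + c1 A t`,
`nab (B t) = (B t) nab + c2 B t`; `q t`, `q' t : P2 ⊗ P1 → E` have weights `a`, `a + mu`,
`2 mu = c2 - c1`.  From the relation `∑ (q t - q' t)(x t) ∈ QQ` for all exact `x` (ratio `1`) every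
coefficient of every Laurent family is in `QQ`.
-/

set_option autoImplicit false
set_option linter.unusedSectionVars false

namespace Crest.Agent.R172.SL

open Finset TensorProduct

section Sep

variable {K E Z : Type*} [Field K] [CharZero K] [AddCommGroup E] [Module K E]

/-- separation of weights by one derivation -/
theorem sep (QQ : Submodule K E) (del : E →+ E) (hQ : ∀ q ∈ QQ, del q ∈ QQ) (nab : Z → Z)
    (w0 mu : K) (hmu : mu ≠ 0) : ∀ (n : ℕ) (C : ℕ → Z → E),
    (∀ j < n, ∀ z, del (C j z) - (w0 + (j : K) * mu) • C j z - C j (nab z) ∈ QQ) →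
    (∀ z, ∑ j ∈ range n, C j z ∈ QQ) → ∀ j < n, ∀ z, C j z ∈ QQ := by
  intro n
  induction n with
  | zero => intro C _ _ j hj; exact absurd hj (Nat.not_lt_zero _)
  | succ n ih =>
    intro C hC h
    have key : ∀ z, ∑ j ∈ range n, ((j : ℤ) - (n : ℤ)) • C j z ∈ QQ := by
      intro z
      have h1 := hQ _ (h z)
      rw [map_sum] at h1
      have h2 : ∑ j ∈ range (n + 1), (del (C j z) - (w0 + (j : K) * mu) • C j z - C j (nab z)) ∈ QQ :=
        QQ.sum_mem fun j hj => hC j (mem_range.1 hj) z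
      rw [sum_sub_distrib, sum_sub_distrib] at h2
      have h3 : ∑ j ∈ range (n + 1), (w0 + (j : K) * mu) • C j z ∈ QQ := by
        have h4 := QQ.sub_mem (QQ.sub_mem h1 h2) (h (nab z))
        convert h4 using 1
        abel
      have h5 := QQ.sub_mem h3 (QQ.smul_mem (w0 + (n : K) * mu) (h z))
      rw [smul_sum, ← sum_sub_distrib, sum_range_succ] at h5
      simp only [sub_self, add_zero] at h5
      have h6 := QQ.smul_mem (mu⁻¹) h5
      convert h6 using 1
      rw [smul_sum]
      refine sum_congr rfl fun j _ => ?_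
      rw [← sub_smul, smul_smul, ← Int.cast_smul_eq_zsmul K]
      congr 1
      push_cast
      field_simp
      ring
    have h7 := ih (fun j z => ((j : ℤ) - (n : ℤ)) • C j z) (by
      intro j hj z
      have h8 := QQ.smul_mem (((j : ℤ) - (n : ℤ) : ℤ) : K) (hC j (Nat.lt_succ_of_lt hj) z)
      rw [Int.cast_smul_eq_zsmul] at h8
      convert h8 using 1
      rw [map_zsmul, smul_sub, smul_sub, smul_comm]) key
    have h9 : ∀ j < n, ∀ z, C j z ∈ QQ := by
      intro j hj z
      have h10 := h7 j hj z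
      have h11 : ((((j : ℤ) - (n : ℤ) : ℤ)) : K) ≠ 0 := by
        rw [Int.cast_ne_zero]; omega
      rw [← Int.cast_smul_eq_zsmul K] at h10
      exact (QQ.smul_mem_iff h11).1 h10
    intro j hj z
    rcases Nat.lt_succ_iff_lt_or_eq.1 hj with hj' | rfl
    · exact h9 j hj' z
    · have h12 := h z
      rw [sum_range_succ] at h12
      exact (QQ.add_mem_iff_right (QQ.sum_mem fun i hi => h9 i (mem_range.1 hi) z)).1 h12

/-- the two-term version -/
theorem sep2 (QQ : Submodule K E) (del : E →+ E) (hQ : ∀ q ∈ QQ, del q ∈ QQ) (nabL nabR : Z → Z)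
    (w0 mu : K) (hmu : mu ≠ 0) (n : ℕ) (C : ℕ → Z → E)
    (hC : ∀ j < n, ∀ z, del (C j z) - (w0 + (j : K) * mu) • C j z - C j (nabL z) - C j (nabR z) ∈ QQ)
    (h : ∀ z, ∑ j ∈ range n, C j z ∈ QQ) : ∀ j < n, ∀ z, C j z ∈ QQ := by
  intro j hj z
  have key := sep QQ del hQ (fun L : List Z => L.flatMap fun z => [nabL z, nabR z]) w0 mu hmu n
    (fun j L => (L.map (C j)).sum) (by
      intro j hj L
      induction L with
      | nil => simp
      | cons z L ih =>
        have h1 := QQ.add_mem (hC j hj z) ih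
        convert h1 using 1
        simp only [List.map_cons, List.sum_cons, List.flatMap_cons, List.map_append,
          List.sum_append, map_add, smul_add, List.map_nil, List.sum_nil, add_zero]
        abel) (by
      intro L
      induction L with
      | nil => simp
      | cons z L ih =>
        have h1 := QQ.add_mem (h z) ih
        rw [← sum_add_distrib] at h1
        simpa using h1) j hj [z]
  simpa using key

end Sep

section Words

variable {K : Type*} [Field K] {τ : Type*} [Fintype τ]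
variable {P : Type*} [AddCommGroup P] [Module K P]

/-- words -/
def Wd (A : τ → Module.End K P) : List τ → Module.End K P
  | [] => 1
  | t :: w => A t * Wd A w

/-- trees -/
def Tree (A : τ → Module.End K P) (p : List τ → P) : Prop := ∀ w, p w = ∑ t, A t (p (t :: w))

theorem sum_cons {M : Type*} [AddCommMonoid M] (j : ℕ) (f : List τ → M) :
    ∑ v : Fin (j + 1) → τ, f (List.ofFn v) = ∑ t, ∑ v : Fin j → τ, f (t :: List.ofFn v) := by
  rw [← (Fin.consEquiv (fun _ : Fin (j + 1) => τ)).sum_comp, Fintype.sum_prod_type]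
  refine sum_congr rfl fun t _ => sum_congr rfl fun v _ => ?_
  congr 1
  rw [List.ofFn_succ]
  simp [Fin.consEquiv]

/-- sections of a perfect module, applied along a word -/
def sec (rho : P → τ → P) : List τ → P → P
  | [], x => x
  | t :: u, x => rho (sec rho u x) t

theorem exists_tree (A : τ → Module.End K P) (hA : ∀ p, ∃ f : τ → P, p = ∑ t, A t (f t)) :
    ∀ (j : ℕ) (f : List τ → P), ∃ p, Tree A p ∧ ∀ w : List τ, w.length = j → p w = f w := by
  choose rho hrho using hA
  intro j
  induction j with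
  | zero =>
    intro f
    refine ⟨fun w => sec rho w (f []), fun w => ?_, fun w hw => ?_⟩
    · exact hrho _
    · rw [List.length_eq_zero_iff.1 hw]; rfl
  | succ j ih =>
    intro f
    obtain ⟨p', hp', hj⟩ := ih (fun w => ∑ t, A t (f (t :: w)))
    refine ⟨fun w => if w.length ≤ j then p' w else
      sec rho (w.take (w.length - (j + 1))) (f (w.drop (w.length - (j + 1)))), fun w => ?_,
      fun w hw => ?_⟩
    · dsimp only
      rcases lt_trichotomy w.length j with h | h | h
      · rw [if_pos h.le, hp' w]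
        refine sum_congr rfl fun t _ => ?_
        rw [if_pos (by rw [List.length_cons]; omega)]
      · rw [if_pos h.le, hj w h]
        refine sum_congr rfl fun t _ => ?_
        rw [if_neg (by rw [List.length_cons]; omega), List.length_cons, h, Nat.sub_self,
          List.take_zero, List.drop_zero]
        rfl
      · rw [if_neg (by omega)]
        have h1 : ∀ t : τ, (if (t :: w).length ≤ j then p' (t :: w) else
            sec rho ((t :: w).take ((t :: w).length - (j + 1)))
              (f ((t :: w).drop ((t :: w).length - (j + 1))))) =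
            rho (sec rho (w.take (w.length - (j + 1))) (f (w.drop (w.length - (j + 1))))) t := by
          intro t
          rw [if_neg (by rw [List.length_cons]; omega), List.length_cons,
            show w.length + 1 - (j + 1) = (w.length - (j + 1)) + 1 by omega, List.take_succ_cons,
            List.drop_succ_cons]
          rfl
        simp only [h1]
        exact hrho _
    · dsimp only
      rw [if_neg (by omega), hw, Nat.sub_self, List.take_zero, List.drop_zero]
      rfl

/-- the connection along a word -/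
theorem nab_Wd {A : τ → Module.End K P} {nab : P → P} {c : K}
    (hn : ∀ t p, nab (A t p) = A t (nab p) + c • A t p) (w : List τ) (p : P) :
    nab (Wd A w p) = Wd A w (nab p) + ((w.length : K) * c) • Wd A w p := by
  induction w with
  | nil => simp [Wd]
  | cons t w ih =>
    change nab (A t (Wd A w p)) = A t (Wd A w (nab p)) + _ • A t (Wd A w p)
    rw [hn, ih, map_add, map_smul, List.length_cons, add_assoc, ← add_smul]
    push_cast
    congr 2
    ring

theorem nab_pow {A : τ → Module.End K P} {nab : P → P} {c : K}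
    (hn : ∀ t p, nab (A t p) = A t (nab p) + c • A t p) (s : τ) (k : ℕ) (p : P) :
    nab ((A s ^ k) p) = (A s ^ k) (nab p) + ((k : K) * c) • (A s ^ k) p := by
  induction k with
  | zero => simp
  | succ k ih =>
    rw [pow_succ']
    change nab (A s ((A s ^ k) p)) = A s ((A s ^ k) (nab p)) + _ • A s ((A s ^ k) p)
    rw [hn, ih, map_add, map_smul, add_assoc, ← add_smul]
    push_cast
    congr 2
    ring

end Words

section Main

variable {K : Type*} [Field K] {τ : Type*} [Fintype τ] [DecidableEq τ]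
variable {P1 P2 E : Type*} [AddCommGroup P1] [Module K P1] [AddCommGroup P2] [Module K P2]
  [AddCommGroup E] [Module K E]

/-- the defect of a family -/
def df (A : τ → Module.End K P1) (B : τ → Module.End K P2) (x : τ → P2 ⊗[K] P1) : P2 ⊗[K] P1 :=
  ∑ t, ((A t).lTensor P2 (x t) - (B t).rTensor P1 (x t))

theorem df_add (A : τ → Module.End K P1) (B : τ → Module.End K P2) (x y : τ → P2 ⊗[K] P1) :
    df A B (x + y) = df A B x + df A B y := by
  unfold df
  rw [← sum_add_distrib]
  refine sum_congr rfl fun t _ => ?_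
  rw [Pi.add_apply, map_add, map_add]
  abel

theorem df_sum (A : τ → Module.End K P1) (B : τ → Module.End K P2) (n : ℕ)
    (x : ℕ → τ → P2 ⊗[K] P1) : df A B (∑ i ∈ range n, x i) = ∑ i ∈ range n, df A B (x i) := by
  induction n with
  | zero => simp [df]
  | succ n ih => rw [sum_range_succ, df_add, ih, sum_range_succ]

/-- upward corrections -/
def U (B : τ → Module.End K P2) (r : P2) (p : List τ → P1) (j : ℕ) (t : τ) : P2 ⊗[K] P1 :=
  ∑ v : Fin j → τ, Wd B (List.ofFn v) r ⊗ₜ[K] p (t :: List.ofFn v)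

/-- downward corrections -/
def D (A : τ → Module.End K P1) (κ : List τ → P2) (r : P1) (j : ℕ) (t : τ) : P2 ⊗[K] P1 :=
  ∑ v : Fin j → τ, κ (t :: List.ofFn v) ⊗ₜ[K] Wd A (List.ofFn v) r

/-- the core -/
def Cr (A : τ → Module.End K P1) (B : τ → Module.End K P2) (s : τ) (l : ℕ) (π : P2) (p : P1)
    (k : ℕ) (t : τ) : P2 ⊗[K] P1 :=
  if t = s then (B s ^ k) π ⊗ₜ[K] (A s ^ (l - 1 - k)) p else 0

theorem df_U {A : τ → Module.End K P1} (B : τ → Module.End K P2) (r : P2) {p : List τ → P1}
    (hp : Tree A p) (j : ℕ) : df A B (U B r p j) =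
      (∑ v : Fin j → τ, Wd B (List.ofFn v) r ⊗ₜ[K] p (List.ofFn v)) -
      ∑ v : Fin (j + 1) → τ, Wd B (List.ofFn v) r ⊗ₜ[K] p (List.ofFn v) := by
  unfold df U
  rw [sum_sub_distrib, sum_cons j (fun w => Wd B w r ⊗ₜ[K] p w)]
  congr 1
  · simp only [map_sum, LinearMap.lTensor_tmul]
    rw [sum_comm]
    refine sum_congr rfl fun v _ => ?_
    rw [← tmul_sum, ← hp]
  · simp only [map_sum, LinearMap.rTensor_tmul]
    rfl

theorem df_D (A : τ → Module.End K P1) {B : τ → Module.End K P2} {κ : List τ → P2}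
    (hκ : Tree B κ) (r : P1) (j : ℕ) : df A B (D A κ r j) =
      (∑ v : Fin (j + 1) → τ, κ (List.ofFn v) ⊗ₜ[K] Wd A (List.ofFn v) r) -
      ∑ v : Fin j → τ, κ (List.ofFn v) ⊗ₜ[K] Wd A (List.ofFn v) r := by
  unfold df D
  rw [sum_sub_distrib, sum_cons j (fun w => κ w ⊗ₜ[K] Wd A w r)]
  congr 1
  · simp only [map_sum, LinearMap.lTensor_tmul]
    rfl
  · simp only [map_sum, LinearMap.rTensor_tmul]
    rw [sum_comm]
    refine sum_congr rfl fun v _ => ?_
    rw [← sum_tmul, ← hκ]

theorem df_Cr (A : τ → Module.End K P1) (B : τ → Module.End K P2) (s : τ) (l : ℕ) (π : P2)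
    (p : P1) (k : ℕ) (hk : k < l) : df A B (Cr A B s l π p k) =
      (B s ^ k) π ⊗ₜ[K] (A s ^ (l - k)) p - (B s ^ (k + 1)) π ⊗ₜ[K] (A s ^ (l - (k + 1))) p := by
  unfold df
  rw [sum_eq_single s]
  · unfold Cr
    have e1 : A s ((A s ^ (l - 1 - k)) p) = (A s ^ (l - k)) p := by
      rw [← Module.End.mul_apply, ← pow_succ']
      congr 2
      omega
    have e2 : B s ((B s ^ k) π) = (B s ^ (k + 1)) π := by
      rw [← Module.End.mul_apply, ← pow_succ']
    rw [if_pos rfl, LinearMap.lTensor_tmul, LinearMap.rTensor_tmul, e1, e2,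
      show l - 1 - k = l - (k + 1) by omega]
  · intro t _ ht
    unfold Cr
    rw [if_neg ht, map_zero, map_zero, sub_zero]
  · intro h; exact absurd (mem_univ _) h

/-- the pair of trees -/
def Zt (A : τ → Module.End K P1) (B : τ → Module.End K P2) :=
  {z : (List τ → P2) × (List τ → P1) // Tree B z.1 ∧ Tree A z.2}

/-- all members of the Laurent family, indexed from below -/
def X (A : τ → Module.End K P1) (B : τ → Module.End K P2) (s : τ) (l m : ℕ) (i : ℕ)
    (z : Zt A B) : τ → P2 ⊗[K] P1 :=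
  if i < m then D A z.1.1 ((A s ^ l) (z.1.2 [])) (m - 1 - i)
  else if i < m + l then Cr A B s l (z.1.1 []) (z.1.2 []) (i - m)
  else U B ((B s ^ l) (z.1.1 [])) z.1.2 (i - m - l)

theorem tele (f : ℕ → P2 ⊗[K] P1) (n : ℕ) : ∑ i ∈ range n, (f i - f (i + 1)) = f 0 - f n := by
  rw [sum_range_sub']

theorem exact_X (A : τ → Module.End K P1) (B : τ → Module.End K P2) (s : τ) (l m : ℕ)
    (hA : ∀ v : Fin m → τ, ∀ p, Wd A (List.ofFn v) ((A s ^ l) p) = 0)
    (hB : ∀ v : Fin m → τ, ∀ p, Wd B (List.ofFn v) ((B s ^ l) p) = 0) (z : Zt A B) :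
    df A B (∑ i ∈ range (m + l + m), X A B s l m i z) = 0 := by
  rw [df_sum, sum_range_add, sum_range_add]
  have h1 : ∑ i ∈ range m, df A B (X A B s l m i z) =
      - ((z.1.1 []) ⊗ₜ[K] ((A s ^ l) (z.1.2 []))) := by
    have : ∀ i ∈ range m, df A B (X A B s l m i z) =
        df A B (D A z.1.1 ((A s ^ l) (z.1.2 [])) (m - 1 - i)) := by
      intro i hi
      unfold X
      rw [if_pos (mem_range.1 hi)]
    rw [sum_congr rfl this,
      sum_range_reflect (fun j => df A B (D A z.1.1 ((A s ^ l) (z.1.2 [])) j)) m]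
    have h2 : ∀ j ∈ range m, df A B (D A z.1.1 ((A s ^ l) (z.1.2 [])) j) =
        (-(∑ v : Fin j → τ, z.1.1 (List.ofFn v) ⊗ₜ[K]
          Wd A (List.ofFn v) ((A s ^ l) (z.1.2 [])))) -
        (-(∑ v : Fin (j + 1) → τ, z.1.1 (List.ofFn v) ⊗ₜ[K]
          Wd A (List.ofFn v) ((A s ^ l) (z.1.2 [])))) := by
      intro j _
      rw [df_D A z.2.1]
      abel
    rw [sum_congr rfl h2, tele (fun j => -(∑ v : Fin j → τ, z.1.1 (List.ofFn v) ⊗ₜ[K]
          Wd A (List.ofFn v) ((A s ^ l) (z.1.2 []))))]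
    have h3 : ∑ v : Fin m → τ, z.1.1 (List.ofFn v) ⊗ₜ[K]
          Wd A (List.ofFn v) ((A s ^ l) (z.1.2 [])) = 0 :=
      sum_eq_zero fun v _ => by rw [hA, tmul_zero]
    rw [h3, neg_zero, sub_zero]
    congr 1
  have h4 : ∑ i ∈ range l, df A B (X A B s l m (m + i) z) =
      (z.1.1 []) ⊗ₜ[K] ((A s ^ l) (z.1.2 [])) - ((B s ^ l) (z.1.1 [])) ⊗ₜ[K] (z.1.2 []) := by
    have : ∀ i ∈ range l, df A B (X A B s l m (m + i) z) =
        (B s ^ i) (z.1.1 []) ⊗ₜ[K] (A s ^ (l - i)) (z.1.2 []) -
        (B s ^ (i + 1)) (z.1.1 []) ⊗ₜ[K] (A s ^ (l - (i + 1))) (z.1.2 []) := by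
      intro i hi
      have hi' := mem_range.1 hi
      unfold X
      rw [if_neg (by omega), if_pos (by omega), show m + i - m = i by omega, df_Cr _ _ _ _ _ _ _ hi']
    rw [sum_congr rfl this,
      tele (fun i => (B s ^ i) (z.1.1 []) ⊗ₜ[K] (A s ^ (l - i)) (z.1.2 []))]
    simp
  have h5 : ∑ i ∈ range m, df A B (X A B s l m (m + l + i) z) =
      ((B s ^ l) (z.1.1 [])) ⊗ₜ[K] (z.1.2 []) := by
    have : ∀ i ∈ range m, df A B (X A B s l m (m + l + i) z) =
        (∑ v : Fin i → τ, Wd B (List.ofFn v) ((B s ^ l) (z.1.1 [])) ⊗ₜ[K] z.1.2 (List.ofFn v)) -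
      ∑ v : Fin (i + 1) → τ, Wd B (List.ofFn v) ((B s ^ l) (z.1.1 [])) ⊗ₜ[K]
        z.1.2 (List.ofFn v) := by
      intro i hi
      unfold X
      rw [if_neg (by omega), if_neg (by omega), show m + l + i - m - l = i by omega, df_U _ _ z.2.2]
    rw [sum_congr rfl this, tele (fun j => ∑ v : Fin j → τ,
      Wd B (List.ofFn v) ((B s ^ l) (z.1.1 [])) ⊗ₜ[K] z.1.2 (List.ofFn v))]
    have h3 : ∑ v : Fin m → τ, Wd B (List.ofFn v) ((B s ^ l) (z.1.1 [])) ⊗ₜ[K]
        z.1.2 (List.ofFn v) = 0 :=
      sum_eq_zero fun v _ => by rw [hB, zero_tmul]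
    rw [h3, sub_zero, Fintype.sum_unique]
    simp [Wd]
  rw [h1, h4, h5]
  abel

/-- the connection on trees -/
theorem Tree.nab {P : Type*} [AddCommGroup P] [Module K P] {A : τ → Module.End K P} {nab : P →+ P}
    {c : K} (hn : ∀ t p, nab (A t p) = A t (nab p) + c • A t p) {p : List τ → P} (hp : Tree A p) :
    Tree A (fun w => nab (p w) + ((w.length : K) * c) • p w) := by
  intro w
  dsimp only
  have h1 : nab (p w) = ∑ t, (A t (nab (p (t :: w))) + c • A t (p (t :: w))) := by
    conv_lhs => rw [hp w, map_sum]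
    exact sum_congr rfl fun t _ => hn t _
  have h2 : ((w.length : K) * c) • p w = ∑ t, ((w.length : K) * c) • A t (p (t :: w)) := by
    conv_lhs => rw [hp w, smul_sum]
  rw [h1, h2, ← sum_add_distrib]
  refine sum_congr rfl fun t _ => ?_
  rw [map_add, map_smul, add_assoc, ← add_smul, List.length_cons]
  push_cast
  congr 2
  ring

section Wt

variable (A : τ → Module.End K P1) (B : τ → Module.End K P2) (s : τ) (l m : ℕ)
  (nab1 : P1 →+ P1) (nab2 : P2 →+ P2) (c1 c2 : K)
  (hn1 : ∀ t p, nab1 (A t p) = A t (nab1 p) + c1 • A t p)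
  (hn2 : ∀ t p, nab2 (B t p) = B t (nab2 p) + c2 • B t p)

/-- derivative in the left tree -/
def nL (z : Zt A B) : Zt A B :=
  ⟨(fun w => nab2 (z.1.1 w) + ((w.length : K) * c2) • z.1.1 w, z.1.2), z.2.1.nab hn2, z.2.2⟩

/-- derivative in the right tree -/
def nR (z : Zt A B) : Zt A B :=
  ⟨(z.1.1, fun w => nab1 (z.1.2 w) + ((w.length : K) * c1) • z.1.2 w), z.2.1, z.2.2.nab hn1⟩

/-- the weight of the member `i` -/
def wi (i : ℕ) : K := ((i : K) - m) * c2 + ((l : K) - 1 - ((i : K) - m)) * c1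

variable {nab1 nab2}

theorem term (QQ : Submodule K E) (del : E →+ E) (Q : P2 ⊗[K] P1 →ₗ[K] E) (b : K)
    (hQ : ∀ x y, del (Q (x ⊗ₜ[K] y)) - b • Q (x ⊗ₜ[K] y) - Q (nab2 x ⊗ₜ[K] y)
      - Q (x ⊗ₜ[K] nab1 y) ∈ QQ) {x x' : P2} {y y' : P1} {α β w : K} (hx : x' = nab2 x + α • x)
    (hy : y' = nab1 y + β • y) (hw : w = b - α - β) :
    del (Q (x ⊗ₜ[K] y)) - w • Q (x ⊗ₜ[K] y) - Q (x' ⊗ₜ[K] y) - Q (x ⊗ₜ[K] y') ∈ QQ := by
  have h := hQ x y
  rw [hx, hy, hw, add_tmul, tmul_add, map_add, map_add, ← smul_tmul', tmul_smul,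
    map_smul, map_smul]
  convert h using 1
  rw [sub_smul, sub_smul]
  abel

theorem wt (QQ : Submodule K E) (del : E →+ E) (Q : τ → P2 ⊗[K] P1 →ₗ[K] E) (b : K)
    (hQ : ∀ t x y, del (Q t (x ⊗ₜ[K] y)) - b • Q t (x ⊗ₜ[K] y) - Q t (nab2 x ⊗ₜ[K] y)
      - Q t (x ⊗ₜ[K] nab1 y) ∈ QQ) (i : ℕ) (_hi : i < m + l + m) (z : Zt A B) :
    del (∑ t, Q t (X A B s l m i z t)) - (b + wi l m c1 c2 i) • ∑ t, Q t (X A B s l m i z t)
      - ∑ t, Q t (X A B s l m i (nL A B nab2 c2 hn2 z) t)
      - ∑ t, Q t (X A B s l m i (nR A B nab1 c1 hn1 z) t) ∈ QQ := by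
  rw [map_sum, smul_sum, ← sum_sub_distrib, ← sum_sub_distrib, ← sum_sub_distrib]
  refine QQ.sum_mem fun t _ => ?_
  unfold X
  by_cases h1 : i < m
  · simp only [if_pos h1]
    unfold D
    simp only [map_sum]
    rw [smul_sum, ← sum_sub_distrib, ← sum_sub_distrib, ← sum_sub_distrib]
    refine QQ.sum_mem fun v _ => ?_
    refine term QQ del (Q t) b (hQ t) (α := ((m - 1 - i + 1 : ℕ) : K) * c2)
      (β := -(((m - 1 - i : ℕ) : K) * c1 + (l : K) * c1)) ?_ ?_ ?_
    · change nab2 (z.1.1 (t :: List.ofFn v)) + (((t :: List.ofFn v).length : K) * c2) •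
        z.1.1 (t :: List.ofFn v) = _
      rw [List.length_cons, List.length_ofFn]
    · change Wd A (List.ofFn v) ((A s ^ l) (nab1 (z.1.2 []) + ((([] : List τ).length : K) * c1) •
        z.1.2 [])) = _
      rw [nab_Wd (nab := nab1) hn1, nab_pow (nab := nab1) hn1, List.length_ofFn]
      simp only [List.length_nil, Nat.cast_zero, zero_mul, zero_smul, add_zero, map_add, map_smul]
      rw [neg_smul, add_smul]
      abel
    · unfold wi
      have : ((m - 1 - i : ℕ) : K) = (m : K) - 1 - i := by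
        rw [Nat.sub_sub, Nat.cast_sub (by omega)]; push_cast; ring
      push_cast
      rw [this]
      ring
  · by_cases h2 : i < m + l
    · simp only [if_neg h1, if_pos h2]
      unfold Cr
      by_cases ht : t = s
      · simp only [if_pos ht]
        refine term QQ del (Q t) b (hQ t) (α := -(((i - m : ℕ) : K) * c2))
          (β := -(((l - 1 - (i - m) : ℕ) : K) * c1)) ?_ ?_ ?_
        · change (B s ^ (i - m)) (nab2 (z.1.1 []) + ((([] : List τ).length : K) * c2) •
            z.1.1 []) = _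
          rw [nab_pow (nab := nab2) hn2]
          simp only [List.length_nil, Nat.cast_zero, zero_mul, zero_smul, add_zero]
          rw [neg_smul]
          abel
        · change (A s ^ (l - 1 - (i - m))) (nab1 (z.1.2 []) + ((([] : List τ).length : K) * c1) •
            z.1.2 []) = _
          rw [nab_pow (nab := nab1) hn1]
          simp only [List.length_nil, Nat.cast_zero, zero_mul, zero_smul, add_zero]
          rw [neg_smul]
          abel
        · unfold wi
          have e1 : ((i - m : ℕ) : K) = (i : K) - m := by rw [Nat.cast_sub (by omega)]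
          have e2 : ((l - 1 - (i - m) : ℕ) : K) = (l : K) - 1 - ((i : K) - m) := by
            rw [Nat.sub_sub, Nat.cast_sub (by omega), Nat.cast_add, e1]; push_cast; ring
          rw [e1, e2]
          ring
      · simp only [if_neg ht, map_zero, smul_zero, sub_zero]
        exact QQ.zero_mem
    · simp only [if_neg h1, if_neg h2]
      unfold U
      simp only [map_sum]
      rw [smul_sum, ← sum_sub_distrib, ← sum_sub_distrib, ← sum_sub_distrib]
      refine QQ.sum_mem fun v _ => ?_
      refine term QQ del (Q t) b (hQ t) (α := -(((i - m - l : ℕ) : K) * c2 + (l : K) * c2))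
        (β := ((i - m - l + 1 : ℕ) : K) * c1) ?_ ?_ ?_
      · change Wd B (List.ofFn v) ((B s ^ l) (nab2 (z.1.1 []) + ((([] : List τ).length : K) * c2) •
          z.1.1 [])) = _
        rw [nab_Wd (nab := nab2) hn2, nab_pow (nab := nab2) hn2, List.length_ofFn]
        simp only [List.length_nil, Nat.cast_zero, zero_mul, zero_smul, add_zero, map_add,
          map_smul]
        rw [neg_smul, add_smul]
        abel
      · change nab1 (z.1.2 (t :: List.ofFn v)) + (((t :: List.ofFn v).length : K) * c1) •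
          z.1.2 (t :: List.ofFn v) = _
        rw [List.length_cons, List.length_ofFn]
      · unfold wi
        have : ((i - m - l : ℕ) : K) = (i : K) - m - l := by
          rw [Nat.sub_sub, Nat.cast_sub (by omega)]; push_cast; ring
        push_cast
        rw [this]
        ring

variable [CharZero K]

theorem sum_two {M : Type*} [AddCommMonoid M] (f : ℕ → M) (n : ℕ) :
    ∑ j ∈ range (2 * n), f j = ∑ i ∈ range n, (f (2 * i) + f (2 * i + 1)) := by
  induction n with
  | zero => simp
  | succ n ih => rw [show 2 * (n + 1) = 2 * n + 1 + 1 by ring, sum_range_succ, sum_range_succ, ih,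
      sum_range_succ, add_assoc]

include hn1 hn2 in
/-- **all coefficients of the Laurent families are in `QQ`** -/
theorem coef (QQ : Submodule K E) (del : E →+ E) (hdel : ∀ e ∈ QQ, del e ∈ QQ)
    (q q' : τ → P2 ⊗[K] P1 →ₗ[K] E) (a mu : K) (hmu : mu ≠ 0) (hc : c2 - c1 = 2 * mu)
    (hq : ∀ t x y, del (q t (x ⊗ₜ[K] y)) - a • q t (x ⊗ₜ[K] y) - q t (nab2 x ⊗ₜ[K] y)
      - q t (x ⊗ₜ[K] nab1 y) ∈ QQ)
    (hq' : ∀ t x y, del (q' t (x ⊗ₜ[K] y)) - (a + mu) • q' t (x ⊗ₜ[K] y) - q' t (nab2 x ⊗ₜ[K] y)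
      - q' t (x ⊗ₜ[K] nab1 y) ∈ QQ)
    (rel : ∀ x : τ → P2 ⊗[K] P1, df A B x = 0 → ∑ t, (q t (x t) - q' t (x t)) ∈ QQ)
    (hA : ∀ v : Fin m → τ, ∀ p, Wd A (List.ofFn v) ((A s ^ l) p) = 0)
    (hB : ∀ v : Fin m → τ, ∀ p, Wd B (List.ofFn v) ((B s ^ l) p) = 0)
    (i : ℕ) (hi : i < m + l + m) (z : Zt A B) :
    ∑ t, q t (X A B s l m i z t) ∈ QQ ∧ ∑ t, q' t (X A B s l m i z t) ∈ QQ := by
  have hw : ∀ i : ℕ, wi l m c1 c2 i = wi l m c1 c2 0 + 2 * (i : K) * mu := by
    intro i
    unfold wi
    push_cast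
    linear_combination (i : K) * hc
  have key := sep2 QQ del hdel (nL A B nab2 c2 hn2) (nR A B nab1 c1 hn1) (a + wi l m c1 c2 0) mu hmu
    (2 * (m + l + m)) (fun j z => if j % 2 = 0 then ∑ t, q t (X A B s l m (j / 2) z t)
      else - ∑ t, q' t (X A B s l m (j / 2) z t)) (by
      intro j hj z
      by_cases h : j % 2 = 0
      · simp only [if_pos h]
        have h1 := wt A B s l m c1 c2 hn1 hn2 QQ del q a hq (j / 2) (by omega) z
        have h2 : a + wi l m c1 c2 0 + (j : K) * mu = a + wi l m c1 c2 (j / 2) := by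
          rw [hw (j / 2)]
          have : (j : K) = 2 * ((j / 2 : ℕ) : K) := by
            rw [← Nat.cast_ofNat, ← Nat.cast_mul]; congr 1; omega
          rw [this]; ring
        rw [h2]
        exact h1
      · simp only [if_neg h]
        have h1 := wt A B s l m c1 c2 hn1 hn2 QQ del q' (a + mu) hq' (j / 2) (by omega) z
        have h2 : a + wi l m c1 c2 0 + (j : K) * mu = a + mu + wi l m c1 c2 (j / 2) := by
          rw [hw (j / 2)]
          have : (j : K) = 2 * ((j / 2 : ℕ) : K) + 1 := by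
            rw [← Nat.cast_ofNat, ← Nat.cast_mul, ← Nat.cast_one, ← Nat.cast_add]; congr 1; omega
          rw [this]; ring
        rw [h2, map_neg]
        have h3 := QQ.neg_mem h1
        convert h3 using 1
        rw [smul_neg]
        abel) (by
      intro z
      rw [sum_two]
      have h1 := rel _ (exact_X A B s l m hA hB z)
      convert h1 using 1
      rw [sum_sub_distrib]
      have h2 : ∀ Q : τ → P2 ⊗[K] P1 →ₗ[K] E,
          ∑ t, Q t ((∑ i ∈ range (m + l + m), X A B s l m i z) t) =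
          ∑ i ∈ range (m + l + m), ∑ t, Q t (X A B s l m i z t) := by
        intro Q
        rw [sum_comm]
        refine sum_congr rfl fun t _ => ?_
        rw [Finset.sum_apply, map_sum]
      rw [h2, h2, ← sum_sub_distrib]
      refine sum_congr rfl fun i _ => ?_
      rw [if_pos (by omega), if_neg (by omega), show 2 * i / 2 = i by omega,
        show (2 * i + 1) / 2 = i by omega, sub_eq_add_neg])
  constructor
  · have h := key (2 * i) (by omega) z
    simp only [if_pos (show 2 * i % 2 = 0 by omega), show 2 * i / 2 = i by omega] at h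
    exact h
  · have h := key (2 * i + 1) (by omega) z
    simp only [if_neg (show ¬ (2 * i + 1) % 2 = 0 by omega), show (2 * i + 1) / 2 = i by omega] at h
    exact neg_mem_iff.1 h


/-- single arm sums -/
theorem sum_X_core (A : τ → Module.End K P1) (B : τ → Module.End K P2) (s : τ) (l m : ℕ)
    (Q : τ → P2 ⊗[K] P1 →ₗ[K] E) (k : ℕ) (hk : k < l) (z : Zt A B) :
    ∑ t, Q t (X A B s l m (m + k) z t) =
      Q s ((B s ^ k) (z.1.1 []) ⊗ₜ[K] (A s ^ (l - 1 - k)) (z.1.2 [])) := by
  rw [sum_eq_single s]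
  · unfold X Cr
    rw [if_neg (by omega), if_pos (by omega), if_pos rfl, show m + k - m = k by omega]
  · intro t _ ht
    unfold X Cr
    rw [if_neg (by omega), if_pos (by omega), if_neg ht, map_zero]
  · intro h; exact absurd (mem_univ _) h

theorem sum_X_up (A : τ → Module.End K P1) (B : τ → Module.End K P2) (s : τ) (l m : ℕ)
    (Q : τ → P2 ⊗[K] P1 →ₗ[K] E) (w : List τ) (t : τ) (p : P1)
    (z : Zt A B) (hz : ∀ u : List τ, u.length = w.length + 1 → z.1.2 u = if u = t :: w then p else 0) :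
    ∑ t, Q t (X A B s l m (m + l + w.length) z t) =
      Q t (Wd B w ((B s ^ l) (z.1.1 [])) ⊗ₜ[K] p) := by
  have h1 : ∀ t', Q t' (X A B s l m (m + l + w.length) z t') =
      ∑ v : Fin w.length → τ, Q t' (Wd B (List.ofFn v) ((B s ^ l) (z.1.1 [])) ⊗ₜ[K]
        (if t' :: List.ofFn v = t :: w then p else 0)) := by
    intro t'
    unfold X U
    rw [if_neg (by omega), if_neg (by omega), show m + l + w.length - m - l = w.length by omega,
      map_sum]
    refine sum_congr rfl fun v _ => ?_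
    rw [hz (t' :: List.ofFn v) (by rw [List.length_cons, List.length_ofFn])]
  simp only [h1]
  rw [sum_eq_single t]
  · rw [sum_eq_single w.get]
    · rw [List.ofFn_get, if_pos rfl]
    · intro v _ hv
      rw [if_neg, tmul_zero, map_zero]
      intro h
      apply hv
      have h2 := (List.cons.inj h).2
      apply List.ofFn_injective
      rw [h2, List.ofFn_get]
    · intro h; exact absurd (mem_univ _) h
  · intro t' _ ht'
    refine sum_eq_zero fun v _ => ?_
    rw [if_neg, tmul_zero, map_zero]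
    intro h
    exact ht' (List.cons.inj h).1
  · intro h; exact absurd (mem_univ _) h

theorem sum_X_down (A : τ → Module.End K P1) (B : τ → Module.End K P2) (s : τ) (l m : ℕ)
    (Q : τ → P2 ⊗[K] P1 →ₗ[K] E) (w : List τ) (hw : w.length < m) (t : τ) (p : P2)
    (z : Zt A B) (hz : ∀ u : List τ, u.length = w.length + 1 → z.1.1 u = if u = t :: w then p else 0) :
    ∑ t, Q t (X A B s l m (m - 1 - w.length) z t) =
      Q t (p ⊗ₜ[K] Wd A w ((A s ^ l) (z.1.2 []))) := by
  have h1 : ∀ t', Q t' (X A B s l m (m - 1 - w.length) z t') =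
      ∑ v : Fin w.length → τ, Q t' ((if t' :: List.ofFn v = t :: w then p else 0) ⊗ₜ[K]
        Wd A (List.ofFn v) ((A s ^ l) (z.1.2 []))) := by
    intro t'
    unfold X D
    rw [if_pos (by omega), show m - 1 - (m - 1 - w.length) = w.length by omega,
      map_sum]
    refine sum_congr rfl fun v _ => ?_
    rw [hz (t' :: List.ofFn v) (by rw [List.length_cons, List.length_ofFn])]
  simp only [h1]
  rw [sum_eq_single t]
  · rw [sum_eq_single w.get]
    · rw [List.ofFn_get, if_pos rfl]
    · intro v _ hv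
      rw [if_neg, zero_tmul, map_zero]
      intro h
      apply hv
      have h2 := (List.cons.inj h).2
      apply List.ofFn_injective
      rw [h2, List.ofFn_get]
    · intro h; exact absurd (mem_univ _) h
  · intro t' _ ht'
    refine sum_eq_zero fun v _ => ?_
    rw [if_neg, zero_tmul, map_zero]
    intro h
    exact ht' (List.cons.inj h).1
  · intro h; exact absurd (mem_univ _) h

theorem Wd_append {P : Type*} [AddCommGroup P] [Module K P] (A : τ → Module.End K P)
    (u v : List τ) (p : P) : Wd A (u ++ v) p = Wd A u (Wd A v p) := by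
  induction u with
  | nil => rfl
  | cons t u ih =>
    change A t (Wd A (u ++ v) p) = A t (Wd A u (Wd A v p))
    rw [ih]

theorem Wd_eq_prod {P : Type*} [AddCommGroup P] [Module K P] (A : τ → Module.End K P)
    (u : List τ) : Wd A u = (u.map A).prod := by
  induction u with
  | nil => rfl
  | cons t u ih =>
    change A t * Wd A u = _
    rw [ih, List.map_cons, List.prod_cons]

/-- long words kill -/
theorem Wd_long {P : Type*} [AddCommGroup P] [Module K P] {A : τ → Module.End K P} {m : ℕ} {r : P}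
    (h : ∀ v : Fin m → τ, Wd A (List.ofFn v) r = 0) : ∀ w : List τ, m ≤ w.length → Wd A w r = 0 := by
  intro w hw
  have h1 : (w.drop (w.length - m)).length = m := by rw [List.length_drop]; omega
  rw [← List.take_append_drop (w.length - m) w, Wd_append]
  have h2 : Wd A (w.drop (w.length - m)) r = 0 := by
    have := h (fun i => (w.drop (w.length - m)).get (i.cast h1.symm))
    convert this using 2
    apply congrArg
    apply List.ext_get
    · rw [List.length_ofFn, h1]
    · intro n hn hn'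
      simp
  rw [h2, map_zero]

theorem perf_of {P : Type*} [AddCommGroup P] [Module K P] {A : τ → Module.End K P}
    (h : ⨆ t, LinearMap.range (A t) = ⊤) (p : P) : ∃ f : τ → P, p = ∑ t, A t (f t) := by
  have hp : p ∈ ⨆ t, LinearMap.range (A t) := by rw [h]; trivial
  obtain ⟨f, hf, hf'⟩ := (Submodule.mem_iSup_iff_exists_finsupp _ _).1 hp
  choose g hg using hf
  refine ⟨g, ?_⟩
  rw [← hf', Finsupp.sum_fintype _ _ (fun _ => rfl)]
  exact sum_congr rfl fun t _ => (hg t).symm

include hn1 hn2 in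
/-- **(SL) at ratio one, arbitrary radical.** -/
theorem main (QQ : Submodule K E) (del : E →+ E) (hdel : ∀ e ∈ QQ, del e ∈ QQ)
    (q q' : τ → P2 ⊗[K] P1 →ₗ[K] E) (a mu : K) (hmu : mu ≠ 0) (hc : c2 - c1 = 2 * mu)
    (hq : ∀ t x y, del (q t (x ⊗ₜ[K] y)) - a • q t (x ⊗ₜ[K] y) - q t (nab2 x ⊗ₜ[K] y)
      - q t (x ⊗ₜ[K] nab1 y) ∈ QQ)
    (hq' : ∀ t x y, del (q' t (x ⊗ₜ[K] y)) - (a + mu) • q' t (x ⊗ₜ[K] y) - q' t (nab2 x ⊗ₜ[K] y)
      - q' t (x ⊗ₜ[K] nab1 y) ∈ QQ)
    (rel : ∀ x : τ → P2 ⊗[K] P1, ∑ t, ((A t).lTensor P2 (x t) - (B t).rTensor P1 (x t)) = 0 →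
      ∑ t, (q t (x t) - q' t (x t)) ∈ QQ)
    (hpA : ⨆ t, LinearMap.range (A t) = ⊤) (hpB : ⨆ t, LinearMap.range (B t) = ⊤)
    (L : τ → ℕ) (R1 : Submodule K P1) (R2 : Submodule K P2)
    (hA : ∀ w : List τ, w.length = m → ∀ r ∈ R1, (w.map A).prod r = 0)
    (hB : ∀ w : List τ, w.length = m → ∀ r ∈ R2, (w.map B).prod r = 0)
    (hl1 : ∀ s p, (A s ^ L s) p ∈ R1) (hl2 : ∀ s p, (B s ^ L s) p ∈ R2)
    (gen1 : ∀ S : Submodule K P1, (∀ t, ∀ v ∈ S, A t v ∈ S) → (∀ s p, (A s ^ L s) p ∈ S) → R1 ≤ S)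
    (gen2 : ∀ S : Submodule K P2, (∀ t, ∀ v ∈ S, B t v ∈ S) → (∀ s p, (B s ^ L s) p ∈ S) → R2 ≤ S) :
    (∀ t, ∀ r ∈ R2, ∀ p, q t (r ⊗ₜ[K] p) ∈ QQ ∧ q' t (r ⊗ₜ[K] p) ∈ QQ) ∧
    (∀ t, ∀ r ∈ R1, ∀ π, q t (π ⊗ₜ[K] r) ∈ QQ ∧ q' t (π ⊗ₜ[K] r) ∈ QQ) ∧
    (∀ s i j, i + j + 1 = L s → ∀ π p, q s ((B s ^ i) π ⊗ₜ[K] (A s ^ j) p) ∈ QQ ∧
      q' s ((B s ^ i) π ⊗ₜ[K] (A s ^ j) p) ∈ QQ) := by
  have hA' : ∀ s, ∀ v : Fin m → τ, ∀ p, Wd A (List.ofFn v) ((A s ^ L s) p) = 0 := by
    intro s v p
    rw [Wd_eq_prod]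
    exact hA _ (List.length_ofFn) _ (hl1 s p)
  have hB' : ∀ s, ∀ v : Fin m → τ, ∀ p, Wd B (List.ofFn v) ((B s ^ L s) p) = 0 := by
    intro s v p
    rw [Wd_eq_prod]
    exact hB _ (List.length_ofFn) _ (hl2 s p)
  have H := fun s i hi z => coef A B s (L s) m c1 c2 hn1 hn2 QQ del hdel q q' a mu hmu hc hq hq' rel
    (hA' s) (hB' s) i hi z
  refine ⟨?_, ?_, ?_⟩
  · let S : Submodule K P2 :=
      { carrier := {x | ∀ (w : List τ) t p, q t (Wd B w x ⊗ₜ[K] p) ∈ QQ ∧
          q' t (Wd B w x ⊗ₜ[K] p) ∈ QQ}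
        add_mem' := by
          intro x y hx hy w t p
          rw [map_add, add_tmul, map_add, map_add]
          exact ⟨QQ.add_mem (hx w t p).1 (hy w t p).1, QQ.add_mem (hx w t p).2 (hy w t p).2⟩
        zero_mem' := by
          intro w t p
          rw [map_zero, zero_tmul, map_zero, map_zero]
          exact ⟨QQ.zero_mem, QQ.zero_mem⟩
        smul_mem' := by
          intro c x hx w t p
          rw [map_smul, ← smul_tmul', map_smul, map_smul]
          exact ⟨QQ.smul_mem _ (hx w t p).1, QQ.smul_mem _ (hx w t p).2⟩ }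
    have h1 : R2 ≤ S := by
      refine gen2 S ?_ ?_
      · intro t v hv w t' p
        have := hv (w ++ [t]) t' p
        rw [Wd_append] at this
        have e : Wd B [t] v = B t v := by
          change B t ((1 : Module.End K P2) v) = _
          rfl
        rwa [e] at this
      · intro s π w t p
        by_cases hw : m ≤ w.length
        · rw [Wd_long (fun v => hB' s v π) w hw, zero_tmul, map_zero, map_zero]
          exact ⟨QQ.zero_mem, QQ.zero_mem⟩
        · obtain ⟨x, hx, hx0⟩ := exists_tree B (perf_of hpB) 0 (fun _ => π)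
          obtain ⟨y, hy, hy0⟩ := exists_tree A (perf_of hpA) (w.length + 1)
            (fun u => if u = t :: w then p else 0)
          have h := H s (m + L s + w.length) (by omega) ⟨(x, y), hx, hy⟩
          rw [sum_X_up A B s (L s) m q w t p ⟨(x, y), hx, hy⟩ hy0,
            sum_X_up A B s (L s) m q' w t p ⟨(x, y), hx, hy⟩ hy0] at h
          have e : x [] = π := hx0 [] rfl
          change q t (Wd B w ((B s ^ L s) (x [])) ⊗ₜ[K] p) ∈ QQ ∧
            q' t (Wd B w ((B s ^ L s) (x [])) ⊗ₜ[K] p) ∈ QQ at h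
          rwa [e] at h
    intro t r hr p
    exact h1 hr [] t p
  · let S : Submodule K P1 :=
      { carrier := {x | ∀ (w : List τ) t p, q t (p ⊗ₜ[K] Wd A w x) ∈ QQ ∧
          q' t (p ⊗ₜ[K] Wd A w x) ∈ QQ}
        add_mem' := by
          intro x y hx hy w t p
          rw [map_add, tmul_add, map_add, map_add]
          exact ⟨QQ.add_mem (hx w t p).1 (hy w t p).1, QQ.add_mem (hx w t p).2 (hy w t p).2⟩
        zero_mem' := by
          intro w t p
          rw [map_zero, tmul_zero, map_zero, map_zero]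
          exact ⟨QQ.zero_mem, QQ.zero_mem⟩
        smul_mem' := by
          intro c x hx w t p
          rw [map_smul, tmul_smul, map_smul, map_smul]
          exact ⟨QQ.smul_mem _ (hx w t p).1, QQ.smul_mem _ (hx w t p).2⟩ }
    have h1 : R1 ≤ S := by
      refine gen1 S ?_ ?_
      · intro t v hv w t' p
        have := hv (w ++ [t]) t' p
        rw [Wd_append] at this
        have e : Wd A [t] v = A t v := by
          change A t ((1 : Module.End K P1) v) = _
          rfl
        rwa [e] at this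
      · intro s π w t p
        by_cases hw : m ≤ w.length
        · rw [Wd_long (fun v => hA' s v π) w hw, tmul_zero, map_zero, map_zero]
          exact ⟨QQ.zero_mem, QQ.zero_mem⟩
        · obtain ⟨x, hx, hx0⟩ := exists_tree A (perf_of hpA) 0 (fun _ => π)
          obtain ⟨y, hy, hy0⟩ := exists_tree B (perf_of hpB) (w.length + 1)
            (fun u => if u = t :: w then p else 0)
          have h := H s (m - 1 - w.length) (by omega) ⟨(y, x), hy, hx⟩
          rw [sum_X_down A B s (L s) m q w (by omega) t p ⟨(y, x), hy, hx⟩ hy0,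
            sum_X_down A B s (L s) m q' w (by omega) t p ⟨(y, x), hy, hx⟩ hy0] at h
          have e : x [] = π := hx0 [] rfl
          change q t (p ⊗ₜ[K] Wd A w ((A s ^ L s) (x []))) ∈ QQ ∧
            q' t (p ⊗ₜ[K] Wd A w ((A s ^ L s) (x []))) ∈ QQ at h
          rwa [e] at h
    intro t r hr p
    exact h1 hr [] t p
  · intro s i j hij π p
    obtain ⟨x, hx, hx0⟩ := exists_tree B (perf_of hpB) 0 (fun _ => π)
    obtain ⟨y, hy, hy0⟩ := exists_tree A (perf_of hpA) 0 (fun _ => p)
    have h := H s (m + i) (by omega) ⟨(x, y), hx, hy⟩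
    rw [sum_X_core A B s (L s) m q i (by omega) ⟨(x, y), hx, hy⟩,
      sum_X_core A B s (L s) m q' i (by omega) ⟨(x, y), hx, hy⟩] at h
    have e1 : x [] = π := hx0 [] rfl
    have e2 : y [] = p := hy0 [] rfl
    change q s ((B s ^ i) (x []) ⊗ₜ[K] (A s ^ (L s - 1 - i)) (y [])) ∈ QQ ∧
      q' s ((B s ^ i) (x []) ⊗ₜ[K] (A s ^ (L s - 1 - i)) (y [])) ∈ QQ at h
    rwa [e1, e2, show L s - 1 - i = j by omega] at h

end Wt

end Main

end Crest.Agent.R172.SL
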