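import Crest.Agent.R172.SEnd3

/-!
Row 172 (S0260), S-side (t2), level 2: the FILTERED part (the off-diagonal blocks of the second
derivative are good by level 1).
-/

set_option autoImplicit false
set_option linter.unusedSectionVars false

namespace Crest.Agent.R172.SL2F

open Matrix Module Crest.Agent.R172.FO Crest.Agent.R172.Qt
open Crest.Agent.R172.SEnd Crest.Agent.R172.SEnd3

section abs

variable {K : Type*} [Field K]
variable {n1 : Type*} [Fintype n1] [DecidableEq n1] {n2 : Type*} [Fintype n2] [DecidableEq n2]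
variable {G1 A1 : Matrix n1 n1 K} {G2 A2 : Matrix n2 n2 K}

/-- `M` (a tensor of `P2 ⊗ P1`) is filtered on the core -/
def FilM (G1 A1 : Matrix n1 n1 K) (G2 A2 : Matrix n2 n2 K) (M : Matrix n2 n1 K) : Prop :=
  ∀ (a : ℕ) (x : n1 → K), ∃ y : n2 → K,
    G2 *ᵥ (M *ᵥ (G1 *ᵥ ((A1 ^ a) *ᵥ x)) - (A2 ^ a) *ᵥ y) = 0

theorem FilM.zero : FilM G1 A1 G2 A2 0 := fun a x => ⟨0, by simp⟩

theorem FilM.add {M M' : Matrix n2 n1 K} (h : FilM G1 A1 G2 A2 M) (h' : FilM G1 A1 G2 A2 M') :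
    FilM G1 A1 G2 A2 (M + M') := by
  intro a x
  obtain ⟨y, hy⟩ := h a x
  obtain ⟨y', hy'⟩ := h' a x
  refine ⟨y + y', ?_⟩
  have e : (M + M') *ᵥ (G1 *ᵥ ((A1 ^ a) *ᵥ x)) - (A2 ^ a) *ᵥ (y + y') =
      (M *ᵥ (G1 *ᵥ ((A1 ^ a) *ᵥ x)) - (A2 ^ a) *ᵥ y) +
        (M' *ᵥ (G1 *ᵥ ((A1 ^ a) *ᵥ x)) - (A2 ^ a) *ᵥ y') := by
    rw [Matrix.add_mulVec, Matrix.mulVec_add]; abel
  rw [e, Matrix.mulVec_add, hy, hy', add_zero]

theorem FilM.smul {M : Matrix n2 n1 K} (c : K) (h : FilM G1 A1 G2 A2 M) :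
    FilM G1 A1 G2 A2 (c • M) := by
  intro a x
  obtain ⟨y, hy⟩ := h a x
  refine ⟨c • y, ?_⟩
  rw [Matrix.smul_mulVec, Matrix.mulVec_smul, ← smul_sub, Matrix.mulVec_smul, hy, smul_zero]

theorem FilM.neg {M : Matrix n2 n1 K} (h : FilM G1 A1 G2 A2 M) : FilM G1 A1 G2 A2 (-M) := by
  have := h.smul (-1)
  rwa [neg_one_smul] at this

theorem FilM.sub {M M' : Matrix n2 n1 K} (h : FilM G1 A1 G2 A2 M) (h' : FilM G1 A1 G2 A2 M') :
    FilM G1 A1 G2 A2 (M - M') := by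
  rw [sub_eq_add_neg]; exact h.add h'.neg

/-- **filtered tensors of two modules are spanned by the elementary ones and the radical ones** -/
theorem filoff (g1 : G1ᵀ = -G1) (g2 : G2ᵀ = -G2) (a1 : A1ᵀ * G1 = -(G1 * A1))
    (a2 : A2ᵀ * G2 = -(G2 * A2)) {l : ℕ} (l1 : ∀ x, G1 *ᵥ ((A1 ^ l) *ᵥ x) = 0)
    (l2 : ∀ x, G2 *ᵥ ((A2 ^ l) *ᵥ x) = 0)
    (f1 : ∀ v ≤ l, ∀ x, G1 *ᵥ ((A1 ^ (l - v)) *ᵥ x) = 0 → ∃ y, G1 *ᵥ (x - (A1 ^ v) *ᵥ y) = 0)
    (f2 : ∀ v ≤ l, ∀ x, G2 *ᵥ ((A2 ^ (l - v)) *ᵥ x) = 0 → ∃ y, G2 *ᵥ (x - (A2 ^ v) *ᵥ y) = 0)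
    {S : Submodule K (Matrix n2 n1 K)}
    (s1 : ∀ i j, i + j + 1 = l → ∀ u u', vecMulVec ((A2 ^ i) *ᵥ u) ((A1 ^ j) *ᵥ u') ∈ S)
    (s2 : ∀ r, G2 *ᵥ r = 0 → ∀ u, vecMulVec r u ∈ S)
    (s3 : ∀ r, G1 *ᵥ r = 0 → ∀ u, vecMulVec u r ∈ S)
    {M : Matrix n2 n1 K} (hM : FilM G1 A1 G2 A2 M) : M ∈ S := by
  classical
  obtain ⟨Φ, hΦ⟩ : ∃ Φ : Matrix (n1 ⊕ n2) (n1 ⊕ n2) K, Φ = fromBlocks A1 0 0 A2 := ⟨_, rfl⟩
  obtain ⟨η, hη⟩ : ∃ η : Matrix (n1 ⊕ n2) (n1 ⊕ n2) K, η = fromBlocks G1 0 0 G2 := ⟨_, rfl⟩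
  have hpow : ∀ j : ℕ, Φ ^ j = fromBlocks (A1 ^ j) 0 0 (A2 ^ j) := by
    intro j
    induction j with
    | zero => rw [pow_zero, pow_zero, pow_zero, fromBlocks_one]
    | succ j ih =>
      rw [pow_succ, ih, hΦ, fromBlocks_multiply, pow_succ, pow_succ]
      simp
  have hv : ∀ (X : Matrix n1 n1 K) (Y : Matrix n2 n2 K) (c : n1 ⊕ n2 → K),
      fromBlocks X 0 0 Y *ᵥ c = Sum.elim (X *ᵥ (c ∘ Sum.inl)) (Y *ᵥ (c ∘ Sum.inr)) := by
    intro X Y c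
    rw [fromBlocks_mulVec]
    simp
  have hRd : ∀ r : n1 ⊕ n2 → K, r ∈ Rd η (⊤ : Submodule K (n1 ⊕ n2 → K)) ↔
      G1 *ᵥ (r ∘ Sum.inl) = 0 ∧ G2 *ᵥ (r ∘ Sum.inr) = 0 := by
    intro r
    constructor
    · intro hr
      have h1 : η *ᵥ r = 0 := by
        funext i
        have := hr.2 (Pi.single i 1) trivial
        rwa [single_one_dotProduct] at this
      rw [hη, hv] at h1
      constructor
      · funext i
        exact congrFun h1 (Sum.inl i)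
      · funext i
        exact congrFun h1 (Sum.inr i)
    · rintro ⟨h1, h2⟩
      refine ⟨trivial, fun b _ => ?_⟩
      rw [hη, hv, h1, h2]
      have : (Sum.elim (0 : n1 → K) (0 : n2 → K)) = 0 := by
        funext i; rcases i with i | i <;> rfl
      rw [this, dotProduct_zero]
  let S' : Submodule K (Matrix (n1 ⊕ n2) (n1 ⊕ n2) K) :=
    { carrier := {x | x.toBlocks₂₁ ∈ S}
      zero_mem' := S.zero_mem
      add_mem' := fun {x y} hx hy => S.add_mem hx hy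
      smul_mem' := fun c x hx => S.smul_mem c hx }
  have hS' : ∀ x, x ∈ S' ↔ x.toBlocks₂₁ ∈ S := fun _ => Iff.rfl
  have hvec : ∀ a b : n1 ⊕ n2 → K, (vecMulVec a b).toBlocks₂₁ =
      vecMulVec (a ∘ Sum.inr) (b ∘ Sum.inl) := fun a b => rfl
  have hinl : ∀ (x : n1 → K) (y : n2 → K), (Sum.elim x y) ∘ Sum.inl = x := fun _ _ => rfl
  have hinr : ∀ (x : n1 → K) (y : n2 → K), (Sum.elim x y) ∘ Sum.inr = y := fun _ _ => rfl
  have key : (fromBlocks 0 0 M 0 : Matrix (n1 ⊕ n2) (n1 ⊕ n2) K) ∈ S' := by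
    refine fil_mem (Φ := Φ) (η := η) (P := ⊤) (l := l) ?_ ?_ (fun _ _ => trivial) ?_ ?_ ?_ ?_ ?_
      ⟨fun _ => trivial, fun _ => trivial⟩ ?_
    · rw [hη, fromBlocks_transpose, g1, g2, fromBlocks_neg]
      simp
    · rw [hη, hΦ, fromBlocks_transpose, fromBlocks_multiply, fromBlocks_multiply, fromBlocks_neg]
      simp [a1, a2]
    · intro c _
      rw [hRd, hpow, hv, hinl, hinr]
      exact ⟨l1 _, l2 _⟩
    · intro v hvl c _ hc
      rw [hRd, hpow, hv, hinl, hinr] at hc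
      obtain ⟨y1, h1⟩ := f1 v hvl _ hc.1
      obtain ⟨y2, h2⟩ := f2 v hvl _ hc.2
      refine ⟨Sum.elim y1 y2, trivial, ?_⟩
      rw [hRd, hpow, hv, hinl, hinr]
      exact ⟨h1, h2⟩
    · intro i j hij a _ b _
      rw [hS', hvec, hpow, hpow, hv, hv, hinr, hinl]
      exact s1 i j hij _ _
    · intro r hr b _
      rw [hS', hvec]
      exact s2 _ ((hRd r).1 hr).2 _
    · intro r hr b _
      rw [hS', hvec]
      exact s3 _ ((hRd r).1 hr).1 _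
    · intro v c _
      obtain ⟨y, hy⟩ := hM v (c ∘ Sum.inl)
      refine ⟨Sum.elim (0 : n1 → K) y, trivial, ?_⟩
      have e1 : (fromBlocks 0 0 M 0 * η * Φ ^ v) *ᵥ c =
          Sum.elim (0 : n1 → K) (M *ᵥ (G1 *ᵥ ((A1 ^ v) *ᵥ (c ∘ Sum.inl)))) := by
        rw [← mulVec_mulVec, ← mulVec_mulVec, hpow, hv, hη, hv, hinl, fromBlocks_mulVec, hinl]
        simp
      rw [hRd, e1, hpow, hv, hinl, hinr]
      refine ⟨?_, ?_⟩
      · have : ((Sum.elim (0 : n1 → K) (M *ᵥ (G1 *ᵥ ((A1 ^ v) *ᵥ (c ∘ Sum.inl)))) -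
            Sum.elim ((A1 ^ v) *ᵥ (0 : n1 → K)) ((A2 ^ v) *ᵥ y)) ∘ Sum.inl) = 0 := by
          funext i; simp
        rw [this, mulVec_zero]
      · exact hy
  exact key

/-- arm exactness (on the core) implies filtered -/
theorem fil_of_arm (g1 : A1ᵀ * G1 = -(G1 * A1)) (g2 : A2ᵀ * G2 = -(G2 * A2)) {c : K}
    {M : Matrix n2 n1 K} (h : G2 * (M * A1ᵀ + c • (A2 * M)) * G1 = 0) : FilM G1 A1 G2 A2 M := by
  have e0 : G2 * (M * G1 * A1) = c • (G2 * A2 * (M * G1)) := by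
    have h1 : G2 * (M * G1 * A1) = -(G2 * M * (A1ᵀ * G1)) := by
      rw [g1]; simp only [Matrix.mul_neg, neg_neg, Matrix.mul_assoc]
    have h2 : G2 * (M * A1ᵀ + c • (A2 * M)) * G1 =
        G2 * M * (A1ᵀ * G1) + c • (G2 * A2 * (M * G1)) := by
      rw [Matrix.mul_add, Matrix.add_mul, Matrix.mul_smul, Matrix.smul_mul]
      simp only [Matrix.mul_assoc]
    rw [h2] at h
    rw [h1, ← add_right_inj (G2 * M * (A1ᵀ * G1)), add_neg_cancel, h]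
  have e1 : ∀ a : ℕ, G2 * (M * G1 * A1 ^ a) = c ^ a • (G2 * A2 ^ a * (M * G1)) := by
    intro a
    induction a with
    | zero => simp
    | succ a ih =>
      have h3 : G2 * (M * G1 * A1 ^ (a + 1)) = (G2 * (M * G1 * A1 ^ a)) * A1 := by
        rw [pow_succ]; simp only [Matrix.mul_assoc]
      have h4 : ∀ b : ℕ, G2 * A2 ^ b = (-1 : K) ^ b • ((A2 ^ b)ᵀ * G2) := by
        intro b
        induction b with
        | zero => simp
        | succ b ihb =>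
          have h5 : G2 * A2 = -(A2ᵀ * G2) := by rw [g2, neg_neg]
          rw [pow_succ A2, ← Matrix.mul_assoc, ihb, Matrix.smul_mul, Matrix.mul_assoc, h5,
            pow_succ (-1 : K), mul_smul, neg_one_smul, Matrix.mul_neg, smul_neg, ← Matrix.mul_assoc,
            ← transpose_mul, ← pow_succ', ← pow_succ]
          simp
      have h6 : G2 * A2 ^ a * (M * G1) * A1 = c • (G2 * A2 ^ (a + 1) * (M * G1)) := by
        rw [h4 a, h4 (a + 1), Matrix.smul_mul, Matrix.smul_mul, Matrix.smul_mul, smul_comm c,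
          pow_succ (-1 : K), mul_smul]
        congr 1
        have h7 : (A2 ^ a)ᵀ * G2 * (M * G1) * A1 = (A2 ^ a)ᵀ * (G2 * (M * G1 * A1)) := by
          simp only [Matrix.mul_assoc]
        have h8 : G2 * A2 = -(A2ᵀ * G2) := by rw [g2, neg_neg]
        rw [h7, e0, h8, Matrix.mul_smul, neg_one_smul, pow_succ' A2, transpose_mul]
        simp only [Matrix.neg_mul, Matrix.mul_neg, smul_neg, Matrix.mul_assoc]
      rw [h3, ih, Matrix.smul_mul, h6, smul_smul, ← pow_succ]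
  intro a x
  refine ⟨c ^ a • ((M * G1) *ᵥ x), ?_⟩
  have h9 := congrArg (fun Z => Z *ᵥ x) (e1 a)
  simp only [Matrix.smul_mulVec, ← mulVec_mulVec] at h9
  rw [mulVec_sub, h9, mulVec_smul, mulVec_smul]
  simp only [← mulVec_mulVec]
  rw [sub_self]

/-- the transposed family -/
theorem fil_of_arm_tr (g1 : A1ᵀ * G1 = -(G1 * A1)) (g2 : A2ᵀ * G2 = -(G2 * A2))
    (s1 : G1ᵀ = -G1) (s2 : G2ᵀ = -G2) {c : K} (hc : c ≠ 0)
    {M : Matrix n2 n1 K} (h : G2 * (M * A1ᵀ + c • (A2 * M)) * G1 = 0) :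
    FilM G2 A2 G1 A1 Mᵀ := by
  refine fil_of_arm (c := c⁻¹) g2 g1 ?_
  have h1 := congrArg transpose h
  rw [transpose_mul, transpose_mul, transpose_add, transpose_smul, transpose_mul, transpose_mul,
    transpose_transpose, s1, s2, transpose_zero] at h1
  have h2 : G1 * (A1 * Mᵀ + c • (Mᵀ * A2ᵀ)) * G2 = 0 := by
    rw [← h1]
    simp only [Matrix.neg_mul, Matrix.mul_neg, neg_neg, Matrix.mul_assoc]
  have h3 : Mᵀ * A2ᵀ + c⁻¹ • (A1 * Mᵀ) = c⁻¹ • (A1 * Mᵀ + c • (Mᵀ * A2ᵀ)) := by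
    rw [smul_add, smul_smul, inv_mul_cancel₀ hc, one_smul, add_comm]
  rw [h3, Matrix.mul_smul, Matrix.smul_mul, h2, smul_zero]

/-- push from the `U`-level to the `V`-level -/
theorem FilM.push {m1 : Type*} [Fintype m1] [DecidableEq m1] {m2 : Type*} [Fintype m2]
    [DecidableEq m2] {H1 B1 : Matrix m1 m1 K} {H2 B2 : Matrix m2 m2 K}
    {π1 : Matrix n1 m1 K} {π2 : Matrix n2 m2 K} (o1 : ∀ x, ∃ y, π1 *ᵥ y = x)
    (o2 : ∀ x, ∃ y, π2 *ᵥ y = x) (hH1 : H1 = π1ᵀ * G1 * π1) (hH2 : H2 = π2ᵀ * G2 * π2)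
    (hB1 : A1 * π1 = π1 * B1) (hB2 : A2 * π2 = π2 * B2) {Y : Matrix m2 m1 K}
    (h : FilM H1 B1 H2 B2 Y) : FilM G1 A1 G2 A2 (π2 * Y * π1ᵀ) := by
  have hp1 : ∀ a : ℕ, A1 ^ a * π1 = π1 * B1 ^ a := by
    intro a
    induction a with
    | zero => simp
    | succ a ih => rw [pow_succ, Matrix.mul_assoc, hB1, ← Matrix.mul_assoc, ih, pow_succ,
        Matrix.mul_assoc]
  have hp2 : ∀ a : ℕ, A2 ^ a * π2 = π2 * B2 ^ a := by
    intro a
    induction a with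
    | zero => simp
    | succ a ih => rw [pow_succ, Matrix.mul_assoc, hB2, ← Matrix.mul_assoc, ih, pow_succ,
        Matrix.mul_assoc]
  intro a x
  obtain ⟨x', rfl⟩ := o1 x
  obtain ⟨y, hy⟩ := h a x'
  refine ⟨π2 *ᵥ y, ?_⟩
  have e1 : (π2 * Y * π1ᵀ) *ᵥ (G1 *ᵥ ((A1 ^ a) *ᵥ (π1 *ᵥ x'))) - (A2 ^ a) *ᵥ (π2 *ᵥ y) =
      π2 *ᵥ (Y *ᵥ (H1 *ᵥ ((B1 ^ a) *ᵥ x')) - (B2 ^ a) *ᵥ y) := by
    rw [mulVec_sub, mulVec_mulVec x', hp1, mulVec_mulVec y, hp2, hH1]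
    simp only [mulVec_mulVec, Matrix.mul_assoc]
  rw [e1]
  have e2 : π2ᵀ *ᵥ (G2 *ᵥ (π2 *ᵥ (Y *ᵥ (H1 *ᵥ ((B1 ^ a) *ᵥ x')) - (B2 ^ a) *ᵥ y))) = 0 := by
    rw [← hy, hH2]
    simp only [mulVec_mulVec, Matrix.mul_assoc]
  generalize G2 *ᵥ (π2 *ᵥ (Y *ᵥ (H1 *ᵥ ((B1 ^ a) *ᵥ x')) - (B2 ^ a) *ᵥ y)) = w at e2 ⊢
  apply dotProduct_eq_zero
  intro u
  obtain ⟨u', rfl⟩ := o2 u
  rw [dotProduct_mulVec, ← mulVec_transpose, e2, zero_dotProduct]

end abs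

section der

variable {k K : Type*} [Field k] [Field K] [Algebra k K]
variable {n1 : Type*} [Fintype n1] [DecidableEq n1] {n2 : Type*} [Fintype n2] [DecidableEq n2]

/-- entrywise derivative -/
def dv (d : Derivation k K K) {n : Type*} (v : n → K) : n → K := fun i => d (v i)

theorem dv_mulVec (d : Derivation k K K) {m n : Type*} [Fintype n] (A : Matrix m n K) (y : n → K) :
    dv d (A *ᵥ y) = (A.map d) *ᵥ y + A *ᵥ dv d y := by
  funext i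
  simp only [dv, Matrix.mulVec, dotProduct, Pi.add_apply, map_sum, Derivation.leibniz, smul_eq_mul,
    Matrix.map_apply, Finset.sum_add_distrib]
  rw [add_comm]
  congr 1
  exact Finset.sum_congr rfl fun j _ => mul_comm _ _

theorem map_mul_d {d : Derivation k K K} {a b c : Type*} [Fintype b] (X : Matrix a b K)
    (Y : Matrix b c K) : (X * Y).map d = X.map d * Y + X * Y.map d := by
  ext i j
  simp only [Matrix.map_apply, Matrix.mul_apply, Matrix.add_apply, map_sum, Derivation.leibniz,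
    smul_eq_mul, Finset.sum_add_distrib]
  rw [add_comm]
  congr 1
  exact Finset.sum_congr rfl fun j _ => mul_comm _ _

theorem dv_add (d : Derivation k K K) {n : Type*} (u v : n → K) :
    dv d (u + v) = dv d u + dv d v := by
  funext i; simp [dv]

theorem dv_zero (d : Derivation k K K) {n : Type*} : dv d (0 : n → K) = 0 := by
  funext i; simp [dv]

/-- the connection -/
def nb (d : Derivation k K K) {n : Type*} [Fintype n] (D : Matrix n n K) (v : n → K) : n → K :=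
  dv d v + D *ᵥ v

theorem nb_add (d : Derivation k K K) {n : Type*} [Fintype n] (D : Matrix n n K) (u v : n → K) :
    nb d D (u + v) = nb d D u + nb d D v := by
  unfold nb
  rw [dv_add, mulVec_add]; abel

section one

variable {n : Type*} [Fintype n] [DecidableEq n] {G A D : Matrix n n K} {d : Derivation k K K}
  {κ μ : K}

theorem nb_rad (hG : G.map d = Dᵀ * G + G * D + κ • G) {r : n → K} (hr : G *ᵥ r = 0) :
    G *ᵥ (nb d D r) = 0 := by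
  have h1 := dv_mulVec d G r
  rw [hr, dv_zero, hG, add_mulVec, add_mulVec, ← mulVec_mulVec, hr, mulVec_zero, zero_add,
    smul_mulVec, hr, smul_zero, add_zero] at h1
  unfold nb
  rw [mulVec_add, mulVec_mulVec, add_comm]
  exact h1.symm

theorem rad_A (a : Aᵀ * G = -(G * A)) {r : n → K} (hr : G *ᵥ r = 0) : G *ᵥ (A *ᵥ r) = 0 := by
  have e : G * A = -(Aᵀ * G) := by rw [a, neg_neg]
  rw [mulVec_mulVec, e, neg_mulVec, ← mulVec_mulVec, hr, mulVec_zero, neg_zero]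

theorem nb_pow (a : Aᵀ * G = -(G * A))
    (hA : G * (A.map d + D * A - A * D - μ • A) = 0) (j : ℕ) :
    ∀ x : n → K, ∃ y, G *ᵥ (nb d D ((A ^ j) *ᵥ x) - (A ^ j) *ᵥ y) = 0 := by
  induction j with
  | zero =>
    intro x
    refine ⟨nb d D x, ?_⟩
    rw [pow_zero, one_mulVec, one_mulVec, sub_self, mulVec_zero]
  | succ j ih =>
    intro x
    obtain ⟨y, hy⟩ := ih x
    refine ⟨μ • x + y, ?_⟩
    obtain ⟨v, hv⟩ : ∃ v, v = (A ^ j) *ᵥ x := ⟨_, rfl⟩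
    rw [← hv] at hy
    have e1 : (A ^ (j + 1)) *ᵥ x = A *ᵥ v := by rw [pow_succ', ← mulVec_mulVec, hv]
    have e2 : nb d D (A *ᵥ v) = (A.map d + D * A - A * D - μ • A) *ᵥ v + μ • (A *ᵥ v) +
        A *ᵥ (nb d D v) := by
      unfold nb
      rw [dv_mulVec, mulVec_add, sub_mulVec, sub_mulVec, add_mulVec, smul_mulVec,
        mulVec_mulVec v D A, mulVec_mulVec v A D]
      abel
    have e3 : (A ^ (j + 1)) *ᵥ (μ • x + y) = μ • (A *ᵥ v) + A *ᵥ ((A ^ j) *ᵥ y) := by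
      rw [pow_succ', mulVec_add, mulVec_smul, ← mulVec_mulVec, ← mulVec_mulVec, hv]
    have e4 : nb d D ((A ^ (j + 1)) *ᵥ x) - (A ^ (j + 1)) *ᵥ (μ • x + y) =
        (A.map d + D * A - A * D - μ • A) *ᵥ v + A *ᵥ (nb d D v - (A ^ j) *ᵥ y) := by
      rw [e1, e2, e3, mulVec_sub]
      abel
    rw [e4, mulVec_add, rad_A a hy, add_zero, mulVec_mulVec, hA, zero_mulVec]

end one

variable {G1 A1 D1 : Matrix n1 n1 K} {G2 A2 D2 : Matrix n2 n2 K} {d : Derivation k K K}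
  {κ1 κ2 μ1 μ2 : K}

/-- **the second derivative of a filtered family is filtered** -/
theorem FilM.nab (a1 : A1ᵀ * G1 = -(G1 * A1)) (a2 : A2ᵀ * G2 = -(G2 * A2))
    (hG1 : G1.map d = D1ᵀ * G1 + G1 * D1 + κ1 • G1) (hG2 : G2.map d = D2ᵀ * G2 + G2 * D2 + κ2 • G2)
    (hA1 : G1 * (A1.map d + D1 * A1 - A1 * D1 - μ1 • A1) = 0)
    (hA2 : G2 * (A2.map d + D2 * A2 - A2 * D2 - μ2 • A2) = 0)
    {M : Matrix n2 n1 K} (h : FilM G1 A1 G2 A2 M) :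
    FilM G1 A1 G2 A2 (D2 * M + M.map d + M * D1ᵀ) := by
  intro a x
  obtain ⟨v, hv⟩ : ∃ v, v = (A1 ^ a) *ᵥ x := ⟨_, rfl⟩
  obtain ⟨y0, h0⟩ := h a x
  obtain ⟨y1, h1⟩ := nb_pow (D := D2) a2 hA2 a y0
  obtain ⟨x1, hx1⟩ := nb_pow (D := D1) a1 hA1 a x
  obtain ⟨y2, h2⟩ := h a x1
  rw [← hv] at h0 hx1
  rw [← hv]
  refine ⟨y1 - y2 - κ1 • y0, ?_⟩
  have e1 : (D2 * M + M.map d + M * D1ᵀ) * G1 =
      D2 * (M * G1) + (M * G1).map d - M * G1 * D1 - κ1 • (M * G1) := by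
    rw [map_mul_d M G1, hG1]
    simp only [Matrix.add_mul, Matrix.mul_add, Matrix.mul_smul, Matrix.mul_assoc]
    abel
  have e2 : (D2 * M + M.map d + M * D1ᵀ) *ᵥ (G1 *ᵥ v) =
      nb d D2 ((M * G1) *ᵥ v) - (M * G1) *ᵥ (nb d D1 v) - κ1 • ((M * G1) *ᵥ v) := by
    rw [mulVec_mulVec, e1]
    unfold nb
    rw [dv_mulVec, mulVec_add, sub_mulVec, sub_mulVec, add_mulVec, smul_mulVec,
      mulVec_mulVec v D2 (M * G1), mulVec_mulVec v (M * G1) D1]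
    abel
  obtain ⟨r0, hr0⟩ : ∃ r0, r0 = (M * G1) *ᵥ v - (A2 ^ a) *ᵥ y0 := ⟨_, rfl⟩
  have g0 : G2 *ᵥ r0 = 0 := by rw [hr0, ← mulVec_mulVec]; exact h0
  have e3 : (M * G1) *ᵥ v = (A2 ^ a) *ᵥ y0 + r0 := by rw [hr0]; abel
  obtain ⟨r1, hr1⟩ : ∃ r1, r1 = nb d D1 v - (A1 ^ a) *ᵥ x1 := ⟨_, rfl⟩
  have g1 : G1 *ᵥ r1 = 0 := by rw [hr1]; exact hx1
  have e4 : (M * G1) *ᵥ (nb d D1 v) = (M * G1) *ᵥ ((A1 ^ a) *ᵥ x1) := by
    have : nb d D1 v = (A1 ^ a) *ᵥ x1 + r1 := by rw [hr1]; abel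
    rw [this, mulVec_add, ← mulVec_mulVec r1, g1, mulVec_zero, add_zero]
  rw [e2, e4, e3, nb_add]
  have e5 : nb d D2 ((A2 ^ a) *ᵥ y0) + nb d D2 r0 - (M * G1) *ᵥ ((A1 ^ a) *ᵥ x1) -
      κ1 • ((A2 ^ a) *ᵥ y0 + r0) - (A2 ^ a) *ᵥ (y1 - y2 - κ1 • y0) =
      (nb d D2 ((A2 ^ a) *ᵥ y0) - (A2 ^ a) *ᵥ y1) + nb d D2 r0 -
        (M *ᵥ (G1 *ᵥ ((A1 ^ a) *ᵥ x1)) - (A2 ^ a) *ᵥ y2) - κ1 • r0 := by
    rw [mulVec_sub, mulVec_sub, mulVec_smul, smul_add, ← mulVec_mulVec]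
    abel
  rw [e5, mulVec_sub, mulVec_sub, mulVec_add, h1, nb_rad hG2 g0, h2, mulVec_smul, g0, smul_zero,
    add_zero, sub_zero, sub_zero]

end der

end Crest.Agent.R172.SL2F
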