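import Crest.Agent.R172.SL2g182

/-!
Row 172 (S0260), (t2), row L2-g: stability of the filtered tensors under a connection which has the
weight relation only MODULO the radicals (952's point, note 17122).
-/

set_option autoImplicit false
set_option linter.unusedSectionVars false
set_option linter.unusedFintypeInType false
set_option linter.unusedDecidableInType false

namespace Crest.Agent.R172.SL2g896

open Matrix Module Crest.Agent.R172.FO Crest.Agent.R172.SL2g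

section der

variable {k K : Type*} [Field k] [Field K] [Algebra k K] {n1 n2 : Type*} [Fintype n1]
  [DecidableEq n1] [Fintype n2] [DecidableEq n2]
variable {A : Matrix n1 n1 K} {B : Matrix n2 n2 K} {R1 : Submodule K (n1 → K)}
  {R2 : Submodule K (n2 → K)} {l : ℕ}

theorem Dv_pow_mod {n : Type*} [Fintype n] [DecidableEq n] {Γ B : Matrix n n K}
    {R : Submodule K (n → K)} {d : Derivation k K K} {κ : K}
    (h : ∀ y, (Γ * B + B.map d - B * Γ - κ • B) *ᵥ y ∈ R) (hB : ∀ r ∈ R, B *ᵥ r ∈ R)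
    (i : ℕ) (y : n → K) :
    Dv Γ d ((B ^ i) *ᵥ y) - (B ^ i) *ᵥ (Dv Γ d y + ((i : K) * κ) • y) ∈ R := by
  have h1 : ∀ w, Dv Γ d (B *ᵥ w) - B *ᵥ (Dv Γ d w + κ • w) ∈ R := by
    intro w
    have e1 : Dv Γ d (B *ᵥ w) - B *ᵥ (Dv Γ d w + κ • w) =
        (Γ * B + B.map d - B * Γ - κ • B) *ᵥ w := by
      unfold Dv
      rw [Crest.Agent.R172.SpS.dv_mulVec, mulVec_mulVec, mulVec_add, mulVec_add, mulVec_smul,
        mulVec_mulVec, sub_mulVec, sub_mulVec, add_mulVec, smul_mulVec]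
      abel
    rw [e1]
    exact h w
  induction i with
  | zero => simp
  | succ i ih =>
    have e : Dv Γ d ((B ^ (i + 1)) *ᵥ y) - (B ^ (i + 1)) *ᵥ (Dv Γ d y + (((i + 1 : ℕ) : K) * κ) • y)
        = (Dv Γ d (B *ᵥ ((B ^ i) *ᵥ y)) -
            B *ᵥ (Dv Γ d ((B ^ i) *ᵥ y) + κ • ((B ^ i) *ᵥ y))) +
          B *ᵥ (Dv Γ d ((B ^ i) *ᵥ y) - (B ^ i) *ᵥ (Dv Γ d y + ((i : K) * κ) • y)) := by
      rw [pow_succ', ← mulVec_mulVec, ← mulVec_mulVec]
      have e2 : B *ᵥ ((B ^ i) *ᵥ (Dv Γ d y + (((i + 1 : ℕ) : K) * κ) • y)) =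
          B *ᵥ ((B ^ i) *ᵥ (Dv Γ d y + ((i : K) * κ) • y)) + B *ᵥ (κ • ((B ^ i) *ᵥ y)) := by
        rw [← mulVec_add, ← mulVec_smul, ← mulVec_add]
        congr 2
        push_cast
        rw [add_mul, one_mul, add_smul]
        abel
      rw [e2, mulVec_add B (Dv Γ d ((B ^ i) *ᵥ y)) (κ • ((B ^ i) *ᵥ y)),
        mulVec_sub B (Dv Γ d ((B ^ i) *ᵥ y))]
      abel
    rw [e]
    exact R.add_mem (h1 _) (hB _ ih)

/-- **(ii)** stability under the connection, weight relation modulo the radicals. -/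
theorem stable_mod {Γ1 : Matrix n1 n1 K} {Γ2 : Matrix n2 n2 K} {d : Derivation k K K} {κ1 κ2 : K}
    (h1 : ∀ y, (Γ1 * A + A.map d - A * Γ1 - κ1 • A) *ᵥ y ∈ R1)
    (h2 : ∀ y, (Γ2 * B + B.map d - B * Γ2 - κ2 • B) *ᵥ y ∈ R2)
    (hA : ∀ r ∈ R1, A *ᵥ r ∈ R1) (hB : ∀ r ∈ R2, B *ᵥ r ∈ R2)
    (hR1 : ∀ r ∈ R1, Dv Γ1 d r ∈ R1) (hR2 : ∀ r ∈ R2, Dv Γ2 d r ∈ R2)
    {X : Matrix n2 n1 K} (hX : X ∈ Gn A B R1 R2 l) :
    Γ2 * X + X.map d + X * Γ1ᵀ ∈ Gn A B R1 R2 l := by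
  have hvm : ∀ (u : n2 → K) (v : n1 → K), Γ2 * vecMulVec u v + (vecMulVec u v).map d +
      vecMulVec u v * Γ1ᵀ = vecMulVec (Dv Γ2 d u) v + vecMulVec u (Dv Γ1 d v) := by
    intro u v
    have e1 : (vecMulVec u v).map d =
        vecMulVec (Crest.Agent.R172.SpS.dv d u) v + vecMulVec u (Crest.Agent.R172.SpS.dv d v) := by
      ext i j
      simp only [Matrix.map_apply, vecMulVec_apply, Matrix.add_apply, Derivation.leibniz,
        smul_eq_mul, Crest.Agent.R172.SpS.dv]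
      ring
    unfold Dv
    rw [e1, mul_vecMulVec, vecMulVec_mul, vecMul_transpose, add_vecMulVec, vecMulVec_add]
    abel
  unfold Gn at hX
  induction hX using Submodule.span_induction with
  | mem X hX =>
    rcases hX with ⟨i, j, y, z, hij, rfl⟩ | ⟨r, hr, z, rfl⟩ | ⟨y, r, hr, rfl⟩
    · rw [hvm]
      have m2 := Dv_pow_mod h2 hB i y
      have m1 := Dv_pow_mod h1 hA j z
      have e2 : Dv Γ2 d ((B ^ i) *ᵥ y) = (B ^ i) *ᵥ (Dv Γ2 d y + ((i : K) * κ2) • y) +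
          (Dv Γ2 d ((B ^ i) *ᵥ y) - (B ^ i) *ᵥ (Dv Γ2 d y + ((i : K) * κ2) • y)) := by abel
      have e1 : Dv Γ1 d ((A ^ j) *ᵥ z) = (A ^ j) *ᵥ (Dv Γ1 d z + ((j : K) * κ1) • z) +
          (Dv Γ1 d ((A ^ j) *ᵥ z) - (A ^ j) *ᵥ (Dv Γ1 d z + ((j : K) * κ1) • z)) := by abel
      rw [e2, e1, add_vecMulVec, vecMulVec_add]
      exact (Gn A B R1 R2 l).add_mem
        ((Gn A B R1 R2 l).add_mem (Gn_gen hij _ _) (Gn_left m2 _))
        ((Gn A B R1 R2 l).add_mem (Gn_gen hij _ _) (Gn_right m1 _))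
    · rw [hvm]
      exact (Gn A B R1 R2 l).add_mem (Gn_left (hR2 r hr) _) (Gn_left hr _)
    · rw [hvm]
      exact (Gn A B R1 R2 l).add_mem (Gn_right hr _) (Gn_right (hR1 r hr) _)
  | zero =>
    have : (0 : Matrix n2 n1 K).map d = 0 := by ext i j; simp
    rw [this, Matrix.mul_zero, Matrix.zero_mul, add_zero, add_zero]
    exact Submodule.zero_mem _
  | add X Y _ _ hX hY =>
    have e : Γ2 * (X + Y) + (X + Y).map d + (X + Y) * Γ1ᵀ =
        (Γ2 * X + X.map d + X * Γ1ᵀ) + (Γ2 * Y + Y.map d + Y * Γ1ᵀ) := by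
      rw [Matrix.mul_add, Matrix.add_mul, map_add_der]; abel
    rw [e]
    exact Submodule.add_mem _ hX hY
  | smul a X hX' hX =>
    have e : Γ2 * (a • X) + (a • X).map d + (a • X) * Γ1ᵀ =
        a • (Γ2 * X + X.map d + X * Γ1ᵀ) + d a • X := by
      have e1 : (a • X).map d = a • X.map d + d a • X := by
        ext i j
        simp only [Matrix.map_apply, Matrix.smul_apply, Matrix.add_apply, smul_eq_mul,
          Derivation.leibniz]
        ring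
      rw [e1, Matrix.mul_smul, Matrix.smul_mul, smul_add, smul_add]; abel
    rw [e]
    exact Submodule.add_mem _ (Submodule.smul_mem _ _ hX) (Submodule.smul_mem _ _ hX')

/-- the weight relation tested by the form: `G * err = 0`, `R = ker G`. -/
theorem stable_ker {G1 : Matrix n1 n1 K} {G2 : Matrix n2 n2 K}
    {Γ1 : Matrix n1 n1 K} {Γ2 : Matrix n2 n2 K} {d : Derivation k K K} {κ1 κ2 : K}
    (h1 : G1 * (Γ1 * A + A.map d - A * Γ1 - κ1 • A) = 0)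
    (h2 : G2 * (Γ2 * B + B.map d - B * Γ2 - κ2 • B) = 0)
    (hA : ∀ r, G1 *ᵥ r = 0 → G1 *ᵥ (A *ᵥ r) = 0) (hB : ∀ r, G2 *ᵥ r = 0 → G2 *ᵥ (B *ᵥ r) = 0)
    (hR1 : ∀ r, G1 *ᵥ r = 0 → G1 *ᵥ (Dv Γ1 d r) = 0)
    (hR2 : ∀ r, G2 *ᵥ r = 0 → G2 *ᵥ (Dv Γ2 d r) = 0) {X : Matrix n2 n1 K}
    (hX : X ∈ Gn A B (LinearMap.ker G1.mulVecLin) (LinearMap.ker G2.mulVecLin) l) :
    Γ2 * X + X.map d + X * Γ1ᵀ ∈
      Gn A B (LinearMap.ker G1.mulVecLin) (LinearMap.ker G2.mulVecLin) l := by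
  refine stable_mod (κ1 := κ1) (κ2 := κ2) (fun y => ?_) (fun y => ?_) (fun r hr => ?_)
    (fun r hr => ?_) (fun r hr => ?_) (fun r hr => ?_) hX
  · rw [LinearMap.mem_ker, mulVecLin_apply, mulVec_mulVec, h1, zero_mulVec]
  · rw [LinearMap.mem_ker, mulVecLin_apply, mulVec_mulVec, h2, zero_mulVec]
  · exact hA r hr
  · exact hB r hr
  · exact hR1 r hr
  · exact hR2 r hr

end der

end Crest.Agent.R172.SL2g896
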