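import Crest.Agent.R172.SLev0
import Crest.Agent.R172.SZ1

/-!
Row 172 (S0260), tame node (t2), second level (row L2-z): the intersection `Zn` of the block `ν` with the
sum of the other blocks is harmless: `sZ`, `hZq`, `hqZ` of `SLev0.lev2Z` / `RJP3.main3` from the
generators of the pairs `(μ, ν)`, `(ν, μ)`, `μ ≠ ν` (first level).
-/

set_option autoImplicit false
set_option linter.unusedSectionVars false

namespace Crest.Agent.R172.SZq842

open Matrix Module Crest.Agent.R172.FO Crest.Agent.R172.Qt Crest.Agent.R172.SpS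
open Crest.Agent.R172.SEnd Crest.Agent.R172.SEnd2 Crest.Agent.R172.SBlk Crest.Agent.R172.SCM
open Crest.Agent.R172.PL (Ainf Rad CoreM coreOp)
open Crest.Agent.R172.St (Nk T mem_T mem_Nk_zero mem_Nk_succ T_eq_Nk)
open Crest.Agent.R172.SC (PB PB_mem PB_exists)
open Crest.Agent.R172.SLev0 (bq bq_apply PbK exists_coord coord_mem)
open Crest.Agent.R172.SZ1 (Zn Zn_ind Zn_stable)

section free

variable {K : Type*} [Field K] {V : Type*} [AddCommGroup V] [Module K V] [FiniteDimensional K V]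

/-- no block at a non-eigenvalue -/
theorem PB_bot {Φ : Fin 3 → End K V} {D : End K (CoreM Φ)}
    (hD : ∀ s x, D (coreOp Φ s x) = coreOp Φ s (D x)) {ν : K}
    (hν : D.maxGenEigenspace ν = ⊥) : PB Φ D ν = ⊥ := by
  obtain ⟨m, hm⟩ := T_eq_Nk Φ
  have h0 : PB Φ D ν ≤ Nk Φ m := by
    intro v hv
    obtain ⟨h, h1⟩ := PB_mem hv
    rw [hν, Submodule.mem_bot] at h1
    rw [← hm]
    exact (SC.mk_zero_iff h).1 h1
  have h1 : ∀ j, PB Φ D ν ≤ Nk Φ j → PB Φ D ν ≤ Nk Φ 0 := by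
    intro j
    induction j with
    | zero => exact id
    | succ j ih =>
      intro h
      refine ih fun v hv => ?_
      obtain ⟨f, hf, hs⟩ := PB_exists hD ν hv
      rw [← hs]
      exact Submodule.sum_mem _ fun s _ => mem_Nk_succ.1 (h (hf s)) s
  rw [eq_bot_iff]
  intro v hv
  exact (Submodule.mem_bot K).2 (mem_Nk_zero.1 (h1 m h0 hv))

end free

variable {ι : Type*} [Fintype ι] [DecidableEq ι] {δ : Type*} [Fintype δ] [DecidableEq δ]
variable {K : Type*} [Field K]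
variable {arm : δ → Fin 3} {J : Matrix ι ι K} {B : Matrix δ δ K}
  {g : Matrix ι δ K} {R : Matrix δ ι K} {X : Matrix ι ι K}
  {D : End K (CoreM (PhS arm J B g R X))} {ν : K} {l : Fin 3 → ℕ} {n : ℕ}
  {P : Matrix ι (Fin n) K} {A : Fin 3 → Matrix (Fin n) (Fin n) K}

/-- a radical element of a block is in `Rd` of the block -/
theorem rd_of_T {μ : K} {n' : ℕ} {P' : Matrix ι (Fin n') K}
    {A' : Fin 3 → Matrix (Fin n') (Fin n') K} (b : BPkg arm J B g R X D μ l P' A') {v : Sg g}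
    (hv : v ∈ PB (PhS arm J B g R X) D μ) (hT : v ∈ T (PhS arm J B g R X)) :
    ((v : Sg g) : ι → K) ∈ Rd (J * X) (PbK arm J B g R X D μ) := by
  obtain ⟨x, hx⟩ := b.span v hv
  refine mem_Rd.2 ⟨⟨v, hv, rfl⟩, ?_⟩
  intro a ha
  obtain ⟨y, rfl⟩ := exists_coord b ha
  have h1 := (b.rad x v hx).1 hT
  rw [hx]
  have h2 : (P' *ᵥ y) ⬝ᵥ ((J * X) *ᵥ (P' *ᵥ x)) = y ⬝ᵥ ((P'ᵀ * (J * X) * P') *ᵥ x) := by
    rw [Matrix.mul_assoc, ← mulVec_mulVec x P'ᵀ, dotProduct_mulVec y P'ᵀ, vecMul_transpose]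
    simp only [mulVec_mulVec]
  rw [h2, h1, dotProduct_zero]

/-- left multiplication slot -/
def lm (arm : δ → Fin 3) (J : Matrix ι ι K) (g : Matrix ι δ K) (X : Matrix ι ι K) (s : Fin 3)
    (c : ι → K) : (ι → K) →ₗ[K] Matrix ι δ K where
  toFun a := vecMulVec a c * (J * X) * g * E K arm s
  map_add' a b := by
    rw [add_vecMulVec, Matrix.add_mul, Matrix.add_mul, Matrix.add_mul]
  map_smul' t a := by
    rw [smul_vecMulVec, Matrix.smul_mul, Matrix.smul_mul, Matrix.smul_mul, RingHom.id_apply]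

/-- right multiplication slot -/
def rm (arm : δ → Fin 3) (J : Matrix ι ι K) (g : Matrix ι δ K) (X : Matrix ι ι K) (s : Fin 3)
    (c : ι → K) : (ι → K) →ₗ[K] Matrix ι δ K where
  toFun a := vecMulVec c a * (J * X) * g * E K arm s
  map_add' a b := by
    rw [vecMulVec_add, Matrix.add_mul, Matrix.add_mul, Matrix.add_mul]
  map_smul' t a := by
    rw [vecMulVec_smul, Matrix.smul_mul, Matrix.smul_mul, Matrix.smul_mul, RingHom.id_apply]

section main

variable (b : BPkg arm J B g R X D ν l P A)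
  (hD : ∀ s x, D (coreOp (PhS arm J B g R X) s x) = coreOp (PhS arm J B g R X) s (D x))
  (hpkg : ∀ μ, D.maxGenEigenspace μ ≠ ⊥ → ∃ (n : ℕ) (Q : Matrix ι (Fin n) K)
    (A : Fin 3 → Matrix (Fin n) (Fin n) K), BPkg arm J B g R X D μ l Q A)
  (Q : Submodule K (Matrix ι δ K))

include b hD hpkg

/-- **`hZq`** -/
theorem hZq (hG : ∀ μ, μ ≠ ν → D.maxGenEigenspace μ ≠ ⊥ →
      SLev0.Gens arm J B g X l Q (PbK arm J B g R X D μ) (PbK arm J B g R X D ν)) :
    ∀ t, ∀ z ∈ Zn arm J B g R X D ν P, ∀ y, bq arm J g X P P t z y ∈ Q := by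
  intro t z hz y
  rw [bq_apply]
  refine Zn_ind b (C := Q.comap (lm arm J g X t (P *ᵥ y))) ?_ hz
  intro μ hμ v hv hT
  by_cases h0 : D.maxGenEigenspace μ = ⊥
  · have h1 : v ∈ (⊥ : Submodule K (Sg g)) := by rw [← PB_bot hD h0]; exact hv
    rw [(Submodule.mem_bot K).1 h1, Submodule.coe_zero]
    exact Submodule.zero_mem _
  · obtain ⟨n', P', A', b'⟩ := hpkg μ h0
    exact (hG μ hμ h0).g2 t _ (rd_of_T b' hv hT) _ (coord_mem b y)

/-- **`hqZ`** -/
theorem hqZ (hG : ∀ μ, μ ≠ ν → D.maxGenEigenspace μ ≠ ⊥ →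
      SLev0.Gens arm J B g X l Q (PbK arm J B g R X D ν) (PbK arm J B g R X D μ)) :
    ∀ t, ∀ z ∈ Zn arm J B g R X D ν P, ∀ y, bq arm J g X P P t y z ∈ Q := by
  intro t z hz y
  rw [bq_apply]
  refine Zn_ind b (C := Q.comap (rm arm J g X t (P *ᵥ y))) ?_ hz
  intro μ hμ v hv hT
  by_cases h0 : D.maxGenEigenspace μ = ⊥
  · have h1 : v ∈ (⊥ : Submodule K (Sg g)) := by rw [← PB_bot hD h0]; exact hv
    rw [(Submodule.mem_bot K).1 h1, Submodule.coe_zero]
    exact Submodule.zero_mem _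
  · obtain ⟨n', P', A', b'⟩ := hpkg μ h0
    exact (hG μ hμ h0).g3 t _ (coord_mem b y) _ (rd_of_T b' hv hT)

end main

/-- **`sZ`** -/
theorem sZ (b : BPkg arm J B g R X D ν l P A) (hR : g * R * g = g)
    (hD : ∀ s x, D (coreOp (PhS arm J B g R X) s x) = coreOp (PhS arm J B g R X) s (D x)) :
    ∀ t, ∀ z ∈ Zn arm J B g R X D ν P, A t *ᵥ z ∈ Zn arm J B g R X D ν P := by
  intro t z hz
  have := Zn_stable hR hD b t z hz
  rwa [mulVecLin_apply] at this

end Crest.Agent.R172.SZq842
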