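import Crest.Agent.R172.SLB562b
import Crest.Agent.R172.SDescM683
import Crest.Agent.R172.SInst
import Crest.Agent.R172.SDesc
import Crest.Agent.R172.SZq842
import Crest.Agent.R172.SLevA455
import Crest.Agent.R172.SUniq803
import Crest.Agent.R172.SDec2
import Crest.Agent.R172.SULift

/-!
Row 172 (S0260), (t2), level 2, abstract half: `SDec.Geo22 → STop.Lev2`.
-/

set_option autoImplicit false
set_option linter.unusedSectionVars false
set_option maxHeartbeats 1600000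

namespace Crest.Agent.R172.SLB425

open Matrix Module TensorProduct Crest.Agent.R172.FO Crest.Agent.R172.Qt Crest.Agent.R172.SpS
open Crest.Agent.R172.SEnd Crest.Agent.R172.SEnd2 Crest.Agent.R172.SCM
open Crest.Agent.R172.SLev0 (bq bq_apply gF gF_apply gF_flip gens_self PbK Gens)
open Crest.Agent.R172.PL (CoreM)
open Crest.Agent.R172.SLB562 (mt mt_tmul)
open Crest.Agent.R172.SZ1 (Zn)
open Crest.Agent.R172.SDec (Dec ZB Rel2 Geo22)
open Crest.Agent.R172.SLev1h455 (QGd)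

section mats

variable {K : Type*} [Field K] {n1 n2 m1 m2 : ℕ}

theorem mt_map (C2 : Matrix (Fin n2) (Fin m2) K) (C1 : Matrix (Fin n1) (Fin m1) K)
    (z : (Fin m2 → K) ⊗[K] (Fin m1 → K)) :
    mt (TensorProduct.map C2.mulVecLin C1.mulVecLin z) = C2 * mt z * C1ᵀ := by
  induction z using TensorProduct.induction_on with
  | zero => simp
  | tmul x y =>
    rw [TensorProduct.map_tmul, mt_tmul, mt_tmul, mulVecLin_apply, mulVecLin_apply,
      Matrix.mul_vecMulVec, Matrix.vecMulVec_mul, vecMul_transpose]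
  | add x y hx hy => rw [map_add, map_add, hx, hy, map_add, Matrix.mul_add, Matrix.add_mul]

theorem mt_dd (a : Matrix (Fin m1) (Fin m1) K) (b : Matrix (Fin m2) (Fin m2) K) (c : K)
    (z : (Fin m2 → K) ⊗[K] (Fin m1 → K)) :
    mt (a.mulVecLin.lTensor (Fin m2 → K) z - c • b.mulVecLin.rTensor (Fin m1 → K) z) =
      mt z * aᵀ - c • (b * mt z) := by
  induction z using TensorProduct.induction_on with
  | zero => simp
  | tmul x y =>
    rw [LinearMap.lTensor_tmul, LinearMap.rTensor_tmul, map_sub, map_smul, mt_tmul, mt_tmul,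
      mt_tmul, mulVecLin_apply, mulVecLin_apply, Matrix.mul_vecMulVec, Matrix.vecMulVec_mul,
      vecMul_transpose]
  | add x y hx hy =>
    have e : a.mulVecLin.lTensor (Fin m2 → K) (x + y) -
        c • b.mulVecLin.rTensor (Fin m1 → K) (x + y) =
        (a.mulVecLin.lTensor (Fin m2 → K) x - c • b.mulVecLin.rTensor (Fin m1 → K) x) +
        (a.mulVecLin.lTensor (Fin m2 → K) y - c • b.mulVecLin.rTensor (Fin m1 → K) y) := by
      rw [map_add, map_add, smul_add]; abel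
    rw [e, map_add, hx, hy, map_add, Matrix.add_mul, Matrix.mul_add, smul_add]
    abel

theorem tm_eq (z : (Fin n2 → K) ⊗[K] (Fin n1 → K)) :
    SUX5.tm (Pi.basisFun K (Fin n1)) (Pi.basisFun K (Fin n2)) z = mt z := by
  induction z using TensorProduct.induction_on with
  | zero => simp
  | tmul x y => rw [SUX5.tm_tmul, mt_tmul]; rfl
  | add x y hx hy => rw [map_add, hx, hy, map_add]

/-- tensors of the two radicals are invisible between the Gram matrices -/
theorem rad_zero {G1 : Matrix (Fin n1) (Fin n1) K} {G2 : Matrix (Fin n2) (Fin n2) K}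
    (hs : G1ᵀ = -G1) {v : (Fin n2 → K) ⊗[K] (Fin n1 → K)}
    (hv : v ∈ (RJM.RT (LinearMap.ker G2.mulVecLin) ⊔ RJM.TR (LinearMap.ker G1.mulVecLin) :
      Submodule K ((Fin n2 → K) ⊗[K] (Fin n1 → K)))) : G2 * mt v * G1 = 0 := by
  let L : (Fin n2 → K) ⊗[K] (Fin n1 → K) →ₗ[K] Matrix (Fin n2) (Fin n1) K :=
    { toFun := fun v => G2 * mt v * G1
      map_add' := fun a b => by rw [map_add, Matrix.mul_add, Matrix.add_mul]
      map_smul' := fun c a => by
        rw [map_smul, Matrix.mul_smul, Matrix.smul_mul, RingHom.id_apply] }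
  have h : (RJM.RT (LinearMap.ker G2.mulVecLin) ⊔ RJM.TR (LinearMap.ker G1.mulVecLin) :
      Submodule K ((Fin n2 → K) ⊗[K] (Fin n1 → K))) ≤ LinearMap.ker L := by
    refine sup_le (Submodule.span_le.2 ?_) (Submodule.span_le.2 ?_)
    · rintro _ ⟨r, hr, p, rfl⟩
      change G2 * mt (r ⊗ₜ[K] p) * G1 = 0
      rw [LinearMap.mem_ker, mulVecLin_apply] at hr
      rw [mt_tmul, Matrix.mul_vecMulVec, hr, zero_vecMulVec, Matrix.zero_mul]
    · rintro _ ⟨p, r, hr, rfl⟩
      change G2 * mt (p ⊗ₜ[K] r) * G1 = 0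
      rw [LinearMap.mem_ker, mulVecLin_apply] at hr
      have h0 : vecMulVec p (0 : Fin n1 → K) = 0 := by
        ext i j
        simp [vecMulVec_apply]
      rw [mt_tmul, Matrix.mul_assoc, Matrix.vecMulVec_mul, ← mulVec_transpose, hs, neg_mulVec, hr,
        neg_zero, h0, Matrix.mul_zero]
  exact h hv

end mats

section main

variable {ι : Type} [Fintype ι] [DecidableEq ι] {δ : Type} [Fintype δ] [DecidableEq δ]
variable {K : Type} [Field K] [Algebra ℂ K] [IsAlgClosed K]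
variable {arm : δ → Fin 3} {J : Matrix ι ι K} {B : Matrix δ δ K} {N W : Submodule K (Matrix ι δ K)}
  {F f : Matrix ι δ K} {P : Matrix ι ι K × (Fin 3 → Matrix ι ι K)} {R : Matrix δ ι K}
  {D : End K (CoreM (PhS arm J B F R P.1))} {l : Fin 3 → ℕ}

theorem inj_t {n m : ℕ} {C : Matrix (Fin n) (Fin m) K} (o : ∀ y, ∃ x, C *ᵥ x = y)
    {v : Fin n → K} (h : Cᵀ *ᵥ v = 0) : v = 0 := by
  funext i
  obtain ⟨u, hu⟩ := o (Pi.single i 1)
  have h4 : u ⬝ᵥ (Cᵀ *ᵥ v) = 0 := by rw [h, dotProduct_zero]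
  rw [dotProduct_mulVec, vecMul_transpose, hu, single_one_dotProduct] at h4
  simpa using h4

/-- **LEVEL 2, abstract half** -/
theorem lev2_of (hg : Geo22) : STop.Lev2 := by
  intro ι _ _ δ _ _ K _ _ _ arm J B N W F f P R D l S ν ν' hne n1 n2 Q1 A1 Q2 A2 b1 b2
  obtain ⟨m1, U1, a1, hU1, hsp1, hmem1, hinj1, ha1⟩ :=
    UFr.exists_frame (S.hCtx F S.hF) S.hR S.hD ν
  obtain ⟨m2, U2, a2, hU2, hsp2, hmem2, hinj2, ha2⟩ :=
    UFr.exists_frame (S.hCtx F S.hF) S.hR S.hD ν'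
  obtain ⟨C1, hF1, o1, hA1, hk1, hG1⟩ := SInst.exists_C S b1 hU1 hsp1 hmem1 ha1
  obtain ⟨C2, hF2, o2, hA2, hk2, hG2⟩ := SInst.exists_C S b2 hU2 hsp2 hmem2 ha2
  obtain ⟨Λ, hΛ, h0, hex, hrel⟩ := hg S hne b1 b2 hU1 hsp1 hinj1 ha1 hU2 hsp2 hinj2 ha2
  have hg0 : ∀ μ, D.maxGenEigenspace μ ≠ ⊥ → ∃ (n : ℕ) (Q : Matrix ι (Fin n) K)
    (A : Fin 3 → Matrix (Fin n) (Fin n) K), BPkg arm J B F R P.1 D μ l Q A := S.pkg
  set I : K := algebraMap ℂ K Complex.I with hIdef
  have hI : I ^ 2 = -1 := by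
    rw [hIdef, ← map_pow, Complex.I_sq, map_neg, map_one]
  have key : Gens arm J B F P.1 l (QGd S) (PbK arm J B F R P.1 D ν) (PbK arm J B F R P.1 D ν) := by
    refine SLB562.core b1 b2 hF1 hF2
      (Z1 := Zn arm J B F R P.1 D ν Q1) (Z2 := Zn arm J B F R P.1 D ν' Q2)
      (SZq842.sZ b1 S.hR S.hD.2) (SZq842.sZ b2 S.hR S.hD.2)
      (SZq842.hZq b1 S.hD.2 S.pkg _ fun μ hμ h => ?_)
      (SZq842.hqZ b1 S.hD.2 S.pkg _ fun μ hμ h => ?_)
      (SZq842.hZq b2 S.hD.2 S.pkg _ fun μ hμ h => ?_)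
      (SZq842.hqZ b2 S.hD.2 S.pkg _ fun μ hμ h => ?_)
      hΛ h0 hI (fun ρ X β γ => Dec F (Fᵀ * J * (P.1 * F)) U1 U2 a1 a2 (-(ρ ^ 2)) (X, β, γ))
      ?_ ?_
    · obtain ⟨n, Q, A, b⟩ := S.pkg μ h
      exact (SLevA455.gens0 S hμ b b1).2
    · obtain ⟨n, Q, A, b⟩ := S.pkg μ h
      exact (SLevA455.gens0 S hμ b b1).1
    · obtain ⟨n, Q, A, b⟩ := S.pkg μ h
      exact (SLevA455.gens0 S hμ b b2).2
    · obtain ⟨n, Q, A, b⟩ := S.pkg μ h
      exact (SLevA455.gens0 S hμ b b2).1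
    · intro ρ hρ x hx
      have hρ0 : ρ ≠ 0 := fun h => h0 (h ▸ hρ)
      have hA : ∀ s v, C1 *ᵥ (a1 s *ᵥ v) = A1 s *ᵥ (C1 *ᵥ v) := fun s v => by
        rw [mulVec_mulVec, mulVec_mulVec, hA1]
      have hB : ∀ s v, C2 *ᵥ (a2 s *ᵥ v) = A2 s *ᵥ (C2 *ᵥ v) := fun s v => by
        rw [mulVec_mulVec, mulVec_mulVec, hA2]
      have t1 : ⨆ t, LinearMap.range ((a1 t).mulVecLin) = ⊤ := by
        rw [eq_top_iff]
        rintro v -
        obtain ⟨y, hy⟩ := SUniq803.frame_perf S hsp1 hmem1 hinj1 ha1 v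
        rw [hy]
        exact Submodule.sum_mem _ fun r _ => Submodule.mem_iSup_of_mem r ⟨_, rfl⟩
      have t2 : ⨆ t, LinearMap.range ((a2 t).mulVecLin) = ⊤ := by
        rw [eq_top_iff]
        rintro v -
        obtain ⟨y, hy⟩ := SUniq803.frame_perf S hsp2 hmem2 hinj2 ha2 v
        rw [hy]
        exact Submodule.sum_mem _ fun r _ => Submodule.mem_iSup_of_mem r ⟨_, rfl⟩
      obtain ⟨z, hz, hz0⟩ := SULift.lift_surj (π1 := C1.mulVecLin) (π2 := C2.mulVecLin)
        (A := fun s => (a1 s).mulVecLin) (B := fun s => (a2 s).mulVecLin)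
        (a := fun s => (A1 s).mulVecLin) (b := fun s => (A2 s).mulVecLin)
        (fun y => o1 y) (fun y => o2 y) (fun s v => hA s v) (fun s v => hB s v) t1 t2
        (fun s y hy => hinj1 _ (hk1 s y hy)) (fun s y hy => hinj2 _ (hk2 s y hy))
        (c := -ρ ^ 2) (neg_ne_zero.2 (pow_ne_zero 2 hρ0)) x hx.sum
      have hX : ∀ s, C2 * mt (z s) * C1ᵀ = mt (x s) := fun s => by rw [← mt_map, hz]
      have hsum : ∑ s, (mt (z s) * (a1 s)ᵀ - (-(ρ ^ 2)) • (a2 s * mt (z s))) = 0 := by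
        have h := congrArg (fun v => SLB562.mt v) hz0
        simp only [map_sum, map_zero] at h
        rw [← h]
        exact Finset.sum_congr rfl fun s _ => (mt_dd _ _ _ _).symm
      have harm : ∀ s, (U2ᵀ * (Fᵀ * J * (P.1 * F)) * U2) *
          (mt (z s) * (a1 s)ᵀ - (-(ρ ^ 2)) • (a2 s * mt (z s))) *
          (U1ᵀ * (Fᵀ * J * (P.1 * F)) * U1) = 0 := by
        intro s
        have h1 := rad_zero b1.skew (hx.arm s)
        have h2 : mt (RJM.DD (fun s => (A1 s).mulVecLin) (fun s => (A2 s).mulVecLin) (-ρ ^ 2) s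
            (x s)) = C2 * (mt (z s) * (a1 s)ᵀ - (-(ρ ^ 2)) • (a2 s * mt (z s))) * C1ᵀ := by
          have h3 : RJM.DD (fun s => (A1 s).mulVecLin) (fun s => (A2 s).mulVecLin) (-ρ ^ 2) s
            (x s) = (A1 s).mulVecLin.lTensor (Fin n2 → K) (x s) -
              (-ρ ^ 2) • (A2 s).mulVecLin.rTensor (Fin n1 → K) (x s) := rfl
          rw [h3, mt_dd, ← hX s, Matrix.mul_sub, Matrix.sub_mul, Matrix.mul_smul, Matrix.smul_mul]
          congr 1
          · have h4 : C1ᵀ * (A1 s)ᵀ = (a1 s)ᵀ * C1ᵀ := by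
              rw [← transpose_mul, ← transpose_mul, hA1]
            simp only [Matrix.mul_assoc, h4]
          · rw [← Matrix.mul_assoc (A2 s), ← Matrix.mul_assoc (A2 s), hA2]
            simp only [Matrix.mul_assoc]
        rw [h2] at h1
        rw [← hG1, ← hG2]
        have h5 : C2ᵀ * (Q2ᵀ * (J * P.1) * Q2) * C2 *
            (mt (z s) * (a1 s)ᵀ - (-(ρ ^ 2)) • (a2 s * mt (z s))) *
            (C1ᵀ * (Q1ᵀ * (J * P.1) * Q1) * C1) = C2ᵀ * ((Q2ᵀ * (J * P.1) * Q2) *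
            (C2 * (mt (z s) * (a1 s)ᵀ - (-(ρ ^ 2)) • (a2 s * mt (z s))) * C1ᵀ) *
            (Q1ᵀ * (J * P.1) * Q1)) * C1 := by
          generalize mt (z s) * (a1 s)ᵀ - (-(ρ ^ 2)) • (a2 s * mt (z s)) = T
          simp only [Matrix.mul_assoc]
        rw [h5, h1, Matrix.mul_zero, Matrix.zero_mul]
      obtain ⟨β, γ, hd, hzb⟩ := hex ρ hρ (fun s => mt (z s)) hsum harm
      have e1 : ∀ {v : Fin m1 → K}, F *ᵥ (U1 *ᵥ v) = 0 → C1 *ᵥ v = 0 := by
        intro v hv
        apply b1.inj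
        rw [mulVec_mulVec, ← hF1, ← mulVec_mulVec, hv]
      have e2 : ∀ {v : Fin m2 → K}, F *ᵥ (U2 *ᵥ v) = 0 → C2 *ᵥ v = 0 := by
        intro v hv
        apply b2.inj
        rw [mulVec_mulVec, ← hF2, ← mulVec_mulVec, hv]
      have e1' : ∀ {v : Fin m1 → K}, C1 *ᵥ v = 0 → F *ᵥ (U1 *ᵥ v) = 0 := by
        intro v hv
        rw [mulVec_mulVec, hF1, ← mulVec_mulVec, hv, mulVec_zero]
      have e2' : ∀ {v : Fin m2 → K}, C2 *ᵥ v = 0 → F *ᵥ (U2 *ᵥ v) = 0 := by
        intro v hv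
        rw [mulVec_mulVec, hF2, ← mulVec_mulVec, hv, mulVec_zero]
      obtain ⟨b, k, hb1, hk1', hb2, hk2'⟩ := SDesc683.exists_pairM (A := A1) (B := A2) (a := a1)
        (bb := a2) (C1 := C1) (C2 := C2) o1 o2 hA1 hA2
        (R1 := LinearMap.ker (Q1ᵀ * (J * P.1) * Q1).mulVecLin)
        (R2 := LinearMap.ker (Q2ᵀ * (J * P.1) * Q2).mulVecLin)
        (Z := Zn arm J B F R P.1 D ν Q1) (Z2 := Zn arm J B F R P.1 D ν' Q2)
        (SZq842.sZ b1 S.hR S.hD.2) (SZq842.sZ b2 S.hR S.hD.2)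
        (G1 := Q1ᵀ * (J * P.1) * Q1) (G2 := Q2ᵀ * (J * P.1) * Q2)
        (g := gF J P.1 Q2) (fun x y => gF_apply Q2 x y)
        (g1 := gF J P.1 Q1) (fun x y => gF_apply Q1 x y) (eps := -1) (c := -ρ ^ 2)
        (X := fun s => mt (z s)) (x := x) (fun s => by rw [tm_eq, hX]) (β := β) (γ := γ)
        (fun u => by
          rw [LinearMap.mem_ker, mulVecLin_apply]
          refine inj_t o1 ?_
          have h := congrArg (fun M => M *ᵥ u) hd.rb
          rw [← hG1] at h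
          simpa only [mulVec_mulVec, Matrix.mul_assoc, zero_mulVec] using h)
        (fun u hu => by
          obtain ⟨w, hw⟩ := hzb.zb u (e2' hu)
          refine SDesc.mem_Zn_of hne b2 hF1 hF2 (y2 := w) ?_
          rw [← mulVec_mulVec, hw, mulVec_mulVec])
        (fun u => by
          rw [LinearMap.mem_ker, mulVecLin_apply]
          refine inj_t o2 ?_
          have h := congrArg (fun M => M *ᵥ u) hd.rk
          rw [← hG2] at h
          simpa only [mulVec_mulVec, Matrix.mul_assoc, zero_mulVec] using h)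
        (fun u hu => by
          obtain ⟨w, hw⟩ := hzb.zk u (e1' hu)
          refine SDesc.mem_Zn_of hne.symm b1 hF2 hF1 (y2 := w) ?_
          rw [← mulVec_mulVec, hw, mulVec_mulVec])
        (fun t u => by
          have h : C1 *ᵥ ((a1 t * (β - (mt (z t))ᵀ * (C2ᵀ * (Q2ᵀ * (J * P.1) * Q2) * C2)) -
              ((-1) * (-ρ ^ 2)) • ((β - (mt (z t))ᵀ * (C2ᵀ * (Q2ᵀ * (J * P.1) * Q2) * C2)) *
                a2 t)) *ᵥ u) = 0 := by
            apply e1
            have h2 := congrArg (fun M => M *ᵥ u) (hd.cb t)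
            rw [← hG2] at h2
            simp only [zero_mulVec] at h2
            rw [← mulVec_mulVec, ← mulVec_mulVec] at h2
            rw [← h2]
            congr 3
            rw [neg_one_mul, neg_smul, neg_smul, neg_neg, sub_eq_add_neg]
          rw [h]
          exact Submodule.zero_mem _)
        (fun t u => by
          have h : C2 *ᵥ (((-1 : K) • ((γ - mt (z t) * (C1ᵀ * (Q1ᵀ * (J * P.1) * Q1) * C1)) *
              a1 t) - (-ρ ^ 2) • (a2 t * (γ - mt (z t) * (C1ᵀ * (Q1ᵀ * (J * P.1) * Q1) * C1))))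
                *ᵥ u) = 0 := by
            apply e2
            have h2 := congrArg (fun M => M *ᵥ u) (hd.ck t)
            rw [← hG1] at h2
            simp only [zero_mulVec] at h2
            rw [← mulVec_mulVec, ← mulVec_mulVec] at h2
            rw [← neg_eq_zero, ← mulVec_neg, ← mulVec_neg, ← neg_mulVec, ← h2]
            congr 3
            rw [neg_one_smul]
            abel
          rw [h]
          exact Submodule.zero_mem _)
      refine ⟨fun s => mt (z s), β, γ, b, k, hd, hX, fun y => ?_, fun y => ?_, hb1, hk1'⟩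
      · rw [← neg_sub]; exact Submodule.neg_mem _ (hb2 y)
      · rw [← neg_sub]; exact Submodule.neg_mem _ (hk2' y)
    · intro ρ hρ ρ' hρ' X β0 γ0 X' β' γ' hd hd'
      exact hrel ρ hρ ρ' hρ' (X, β0, γ0) (X', β', γ') hd hd'
  exact SLevA455.gens_of S b1 b1 key

end main

end Crest.Agent.R172.SLB425
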