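import Crest.Agent.R172.SLev0
import Crest.Agent.R172.RJP3

/-!
Row 172 (S0260), (t2), Lev2: translation of the block form of the second derivative into the
relation of `RJP3.main3` (rows L2-e and L2-i).
-/

set_option autoImplicit false
set_option linter.unusedSectionVars false
set_option maxHeartbeats 400000

namespace Crest.Agent.R172.SLB562

open Matrix Module Crest.Agent.R172.FO
open Crest.Agent.R172.SLev0 (bq bq_apply gF gF_apply)
open Crest.Agent.R172.RJP (Pr)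
open scoped TensorProduct

variable {ι : Type*} [Fintype ι] [DecidableEq ι] {δ : Type*} [Fintype δ] [DecidableEq δ]
variable {K : Type*} [Field K]
variable {arm : δ → Fin 3} {J : Matrix ι ι K} {N Q : Submodule K (Matrix ι δ K)}
  {F : Matrix ι δ K} {X0 : Matrix ι ι K} {n1 n2 m1 m2 : ℕ}

/-- the matrix of a tensor -/
noncomputable def mt {a b : ℕ} : ((Fin a → K) ⊗[K] (Fin b → K)) →ₗ[K] Matrix (Fin a) (Fin b) K :=
  TensorProduct.lift (LinearMap.mk₂ K vecMulVec (fun a b c => add_vecMulVec a b c)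
    (fun t a b => smul_vecMulVec t a b) (fun a b c => vecMulVec_add a b c)
    (fun t a b => by rw [vecMulVec_smul]))

@[simp] theorem mt_tmul {a b : ℕ} (x : Fin a → K) (y : Fin b → K) :
    mt (x ⊗ₜ[K] y) = vecMulVec x y := by
  simp [mt]

/-- the one-arm elements as a function of the matrix -/
noncomputable def bm (arm : δ → Fin 3) (J : Matrix ι ι K) (F : Matrix ι δ K) (X0 : Matrix ι ι K)
    {a b : ℕ} (P : Matrix ι (Fin a) K) (P' : Matrix ι (Fin b) K) (s : Fin 3) :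
    Matrix (Fin a) (Fin b) K →ₗ[K] Matrix ι δ K where
  toFun T := P * T * P'ᵀ * (J * X0) * F * E K arm s
  map_add' a b := by simp only [Matrix.mul_add, Matrix.add_mul]
  map_smul' t a := by simp only [Matrix.mul_smul, Matrix.smul_mul, RingHom.id_apply]

theorem bm_apply {a b : ℕ} (P : Matrix ι (Fin a) K) (P' : Matrix ι (Fin b) K) (s : Fin 3)
    (T : Matrix (Fin a) (Fin b) K) : bm arm J F X0 P P' s T =
      P * T * P'ᵀ * (J * X0) * F * E K arm s := rfl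

theorem bm_vec {a b : ℕ} (P : Matrix ι (Fin a) K) (P' : Matrix ι (Fin b) K) (s : Fin 3)
    (x : Fin a → K) (y : Fin b → K) :
    bm arm J F X0 P P' s (vecMulVec x y) = bq arm J F X0 P P' s x y := by
  rw [bm_apply, bq_apply, Matrix.mul_vecMulVec, Matrix.vecMulVec_mul, vecMul_transpose]

/-- a matrix with columns in `Z` on the left -/
theorem bm_left {a b : ℕ} {P : Matrix ι (Fin a) K} {P' : Matrix ι (Fin b) K} {s : Fin 3}
    {Z : Submodule K (Fin a → K)} (hZ : ∀ z ∈ Z, ∀ y, bq arm J F X0 P P' s z y ∈ Q)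
    {c : ℕ} {A : Matrix (Fin a) (Fin c) K} (hA : ∀ y, A *ᵥ y ∈ Z) (C : Matrix (Fin c) (Fin b) K) :
    bm arm J F X0 P P' s (A * C) ∈ Q := by
  have e : A * C = ∑ j, vecMulVec (A *ᵥ Pi.single j 1) (C j) := by
    ext i l
    rw [Matrix.mul_apply, Matrix.sum_apply]
    refine Finset.sum_congr rfl fun j _ => ?_
    rw [vecMulVec_apply, mulVec_single_one]
    rfl
  rw [e, map_sum]
  refine Submodule.sum_mem _ fun j _ => ?_
  rw [bm_vec]
  exact hZ _ (hA _) _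

/-- a matrix with rows in `Z` on the right -/
theorem bm_right {a b : ℕ} {P : Matrix ι (Fin a) K} {P' : Matrix ι (Fin b) K} {s : Fin 3}
    {Z : Submodule K (Fin b → K)} (hZ : ∀ z ∈ Z, ∀ y, bq arm J F X0 P P' s y z ∈ Q)
    {c : ℕ} {A : Matrix (Fin b) (Fin c) K} (hA : ∀ y, A *ᵥ y ∈ Z) (C : Matrix (Fin a) (Fin c) K) :
    bm arm J F X0 P P' s (C * Aᵀ) ∈ Q := by
  have e : C * Aᵀ = ∑ j, vecMulVec (Cᵀ j) (A *ᵥ Pi.single j 1) := by
    ext i l
    rw [Matrix.mul_apply, Matrix.sum_apply]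
    refine Finset.sum_congr rfl fun j _ => ?_
    rw [vecMulVec_apply, mulVec_single_one]
    rfl
  rw [e, map_sum]
  refine Submodule.sum_mem _ fun j _ => ?_
  rw [bm_vec]
  exact hZ _ (hA _) _

/-- term `q ∘ b` -/
theorem lift_b {a b : ℕ} (P : Matrix ι (Fin a) K) (s : Fin 3)
    (be : (Fin b → K) →ₗ[K] (Fin a → K)) (x : (Fin b → K) ⊗[K] (Fin a → K)) :
    TensorProduct.lift ((bq arm J F X0 P P s) ∘ₗ be) x =
      bm arm J F X0 P P s (LinearMap.toMatrix' be * mt x) := by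
  induction x using TensorProduct.induction_on with
  | zero => simp
  | tmul x y =>
    rw [TensorProduct.lift.tmul, LinearMap.comp_apply, mt_tmul, Matrix.mul_vecMulVec, bm_vec]
    congr 2
    rw [← Matrix.toLin'_apply, Matrix.toLin'_toMatrix']
  | add x y hx hy => rw [map_add, map_add, Matrix.mul_add, map_add, hx, hy]

/-- term `q.flip ∘ b` -/
theorem lift_fb {a b : ℕ} (P : Matrix ι (Fin a) K) (s : Fin 3)
    (be : (Fin b → K) →ₗ[K] (Fin a → K)) (x : (Fin b → K) ⊗[K] (Fin a → K)) :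
    TensorProduct.lift ((bq arm J F X0 P P s).flip ∘ₗ be) x =
      bm arm J F X0 P P s ((mt x)ᵀ * (LinearMap.toMatrix' be)ᵀ) := by
  induction x using TensorProduct.induction_on with
  | zero => simp
  | tmul x y =>
    rw [TensorProduct.lift.tmul, LinearMap.comp_apply, mt_tmul, LinearMap.flip_apply,
      transpose_vecMulVec, Matrix.vecMulVec_mul, vecMul_transpose, bm_vec]
    congr 2
    rw [← Matrix.toLin'_apply, Matrix.toLin'_toMatrix']
  | add x y hx hy =>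
    rw [map_add, map_add, transpose_add, Matrix.add_mul, map_add, hx, hy]

theorem ev_mat {a b : ℕ} (P' : Matrix ι (Fin b) K) (x : (Fin b → K) ⊗[K] (Fin a → K)) :
    LinearMap.toMatrix' (RJM.ev (P1 := Fin a → K) (gF J X0 P') x) = (mt x)ᵀ * (P'ᵀ * (J * X0) * P') := by
  induction x using TensorProduct.induction_on with
  | zero => rw [map_zero, map_zero, map_zero, transpose_zero, Matrix.zero_mul]
  | tmul x y =>
    ext i j
    rw [LinearMap.toMatrix'_apply, RJM.ev_tmul, mt_tmul, transpose_vecMulVec, Matrix.vecMulVec_mul,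
      vecMulVec_apply, gF_apply, Pi.smul_apply, smul_eq_mul, mul_comm]
    congr 1
    rw [Matrix.mulVec_single_one, Matrix.vecMul]
    rfl
  | add x y hx hy => rw [map_add, map_add, map_add, transpose_add, Matrix.add_mul, hx, hy]

theorem ut_s {m1 : ℕ} {P1 : Matrix ι (Fin n1) K} {U1 : Matrix δ (Fin m1) K}
    {C1 : Matrix (Fin n1) (Fin m1) K} {S0 : Matrix δ δ K}
    (hS : S0 = Fᵀ * J * (X0 * F)) (hF1 : F * U1 = P1 * C1) :
    U1ᵀ * S0 = C1ᵀ * (P1ᵀ * (J * X0) * F) := by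
  have h1 : U1ᵀ * S0 = (F * U1)ᵀ * (J * X0) * F := by
    rw [hS, transpose_mul]; simp only [Matrix.mul_assoc]
  rw [h1, hF1, transpose_mul]
  simp only [Matrix.mul_assoc]

theorem e11 {m1 : ℕ} {P1 : Matrix ι (Fin n1) K} {U1 : Matrix δ (Fin m1) K}
    {C1 : Matrix (Fin n1) (Fin m1) K} {S0 : Matrix δ δ K}
    (hS : S0 = Fᵀ * J * (X0 * F)) (hF1 : F * U1 = P1 * C1) (T : Matrix (Fin m1) (Fin m1) K)
    (s : Fin 3) :
    F * (U1 * T * U1ᵀ) * S0 * E K arm s = bm arm J F X0 P1 P1 s (C1 * T * C1ᵀ) := by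
  have h1 : F * (U1 * T * U1ᵀ) * S0 * E K arm s = (F * U1) * T * (U1ᵀ * S0) * E K arm s := by
    simp only [Matrix.mul_assoc]
  rw [h1, ut_s hS hF1, hF1, bm_apply]
  simp only [Matrix.mul_assoc]

theorem gram {m1 : ℕ} {P1 : Matrix ι (Fin n1) K} {U1 : Matrix δ (Fin m1) K}
    {C1 : Matrix (Fin n1) (Fin m1) K} {S0 : Matrix δ δ K}
    (hS : S0 = Fᵀ * J * (X0 * F)) (hF1 : F * U1 = P1 * C1) :
    U1ᵀ * S0 * U1 = C1ᵀ * (P1ᵀ * (J * X0) * P1) * C1 := by
  rw [ut_s hS hF1]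
  have h1 : C1ᵀ * (P1ᵀ * (J * X0) * F) * U1 = C1ᵀ * (P1ᵀ * (J * X0) * (F * U1)) := by
    simp only [Matrix.mul_assoc]
  rw [h1, hF1]
  simp only [Matrix.mul_assoc]

theorem lift_k {a b : ℕ} (P : Matrix ι (Fin a) K) (s : Fin 3)
    (be : (Fin b → K) →ₗ[K] (Fin a → K)) (x : (Fin a → K) ⊗[K] (Fin b → K)) :
    TensorProduct.lift ((bq arm J F X0 P P s).compl₂ be) x =
      bm arm J F X0 P P s (mt x * (LinearMap.toMatrix' be)ᵀ) := by
  induction x using TensorProduct.induction_on with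
  | zero => simp
  | tmul x y =>
    rw [TensorProduct.lift.tmul, LinearMap.compl₂_apply, mt_tmul, Matrix.vecMulVec_mul,
      vecMul_transpose, bm_vec]
    congr 1
    rw [← Matrix.toLin'_apply, Matrix.toLin'_toMatrix']
  | add x y hx hy => rw [map_add, map_add, Matrix.add_mul, map_add, hx, hy]

theorem lift_fk {a b : ℕ} (P : Matrix ι (Fin a) K) (s : Fin 3)
    (be : (Fin b → K) →ₗ[K] (Fin a → K)) (x : (Fin a → K) ⊗[K] (Fin b → K)) :
    TensorProduct.lift ((bq arm J F X0 P P s).flip.compl₂ be) x =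
      bm arm J F X0 P P s (LinearMap.toMatrix' be * (mt x)ᵀ) := by
  induction x using TensorProduct.induction_on with
  | zero => simp
  | tmul x y =>
    rw [TensorProduct.lift.tmul, LinearMap.compl₂_apply, mt_tmul, LinearMap.flip_apply,
      transpose_vecMulVec, Matrix.mul_vecMulVec, bm_vec]
    congr 2
    rw [← Matrix.toLin'_apply, Matrix.toLin'_toMatrix']
  | add x y hx hy =>
    rw [map_add, map_add, transpose_add, Matrix.mul_add, map_add, hx, hy]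

theorem evk_mat {a b : ℕ} (P : Matrix ι (Fin a) K) (x : (Fin b → K) ⊗[K] (Fin a → K)) :
    LinearMap.toMatrix' (RJP3.evk (P2 := Fin b → K) (gF J X0 P) x) =
      mt x * (Pᵀ * (J * X0) * P) := by
  induction x using TensorProduct.induction_on with
  | zero => rw [map_zero, map_zero, map_zero, Matrix.zero_mul]
  | tmul x y =>
    ext i j
    rw [LinearMap.toMatrix'_apply, RJP3.evk_tmul, mt_tmul, Matrix.vecMulVec_mul,
      vecMulVec_apply, gF_apply, Pi.smul_apply, smul_eq_mul, mul_comm]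
    congr 1
    rw [Matrix.mulVec_single_one, Matrix.vecMul]
    rfl
  | add x y hx hy => rw [map_add, map_add, map_add, Matrix.add_mul, hx, hy]

/-- **rows L2-e, L2-i**: the relation of `SMv.main3_mv` from the matrix form of the second level -/
theorem rel_mv {P1 : Matrix ι (Fin n1) K} {P2 : Matrix ι (Fin n2) K}
    {U1 : Matrix δ (Fin m1) K} {U2 : Matrix δ (Fin m2) K}
    {C1 : Matrix (Fin n1) (Fin m1) K} {C2 : Matrix (Fin n2) (Fin m2) K} {S0 : Matrix δ δ K}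
    (hS : S0 = Fᵀ * J * (X0 * F)) (hF1 : F * U1 = P1 * C1) (hF2 : F * U2 = P2 * C2)
    (hskew : (P1ᵀ * (J * X0) * P1)ᵀ = -(P1ᵀ * (J * X0) * P1))
    {Z1 : Submodule K (Fin n1 → K)} {Z2 : Submodule K (Fin n2 → K)}
    (hZq : ∀ t, ∀ z ∈ Z1, ∀ y, bq arm J F X0 P1 P1 t z y ∈ Q)
    (hqZ : ∀ t, ∀ z ∈ Z1, ∀ y, bq arm J F X0 P1 P1 t y z ∈ Q)
    (hZq2 : ∀ t, ∀ z ∈ Z2, ∀ y, bq arm J F X0 P2 P2 t z y ∈ Q)
    (hqZ2 : ∀ t, ∀ z ∈ Z2, ∀ y, bq arm J F X0 P2 P2 t y z ∈ Q)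
    {e ρ r : K} (he : ρ * e = r)
    {x x' : Fin 3 → (Fin n2 → K) ⊗[K] (Fin n1 → K)}
    {b b' : (Fin n2 → K) →ₗ[K] (Fin n1 → K)} {kk kk' : (Fin n1 → K) →ₗ[K] (Fin n2 → K)}
    {X X' : Fin 3 → Matrix (Fin m2) (Fin m1) K} (hX : ∀ s, C2 * X s * C1ᵀ = mt (x s))
    (hX' : ∀ s, C2 * X' s * C1ᵀ = mt (x' s))
    {β0 β' : Matrix (Fin m1) (Fin m2) K} {γ0 γ' : Matrix (Fin m2) (Fin m1) K}
    (hβ0 : ∀ y, C1 *ᵥ (β0 *ᵥ y) - b (C2 *ᵥ y) ∈ Z1) (hβ' : ∀ y, C1 *ᵥ (β' *ᵥ y) - b' (C2 *ᵥ y) ∈ Z1)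
    (hγ0 : ∀ y, C2 *ᵥ (γ0 *ᵥ y) - kk (C1 *ᵥ y) ∈ Z2)
    (hγ' : ∀ y, C2 *ᵥ (γ' *ᵥ y) - kk' (C1 *ᵥ y) ∈ Z2)
    (h : ∑ s, F * (U1 * (β' * X s - (X' s)ᵀ * (U2ᵀ * S0 * U2) * X s - (X' s)ᵀ * β0ᵀ) * U1ᵀ) *
        S0 * E K arm s +
      r • ∑ s, F * (U2 * (X s * γ'ᵀ + X s * (U1ᵀ * S0 * U1) * (X' s)ᵀ - γ0 * (X' s)ᵀ) * U2ᵀ) *
        S0 * E K arm s ∈ Q) :
    ∑ t, ((1 : K) • TensorProduct.lift ((bq arm J F X0 P1 P1 t) ∘ₗ b') (x t)
      + (-1 : K) • TensorProduct.lift ((bq arm J F X0 P1 P1 t).flip ∘ₗ b) (x' t)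
      + (-1 : K) • TensorProduct.lift ((bq arm J F X0 P1 P1 t) ∘ₗ (RJM.ev (gF J X0 P2) (x' t)))
        (x t)) +
      ρ • (e • ∑ t, TensorProduct.lift ((bq arm J F X0 P2 P2 t).compl₂ kk') (x t) +
        (-e) • ∑ t, TensorProduct.lift ((bq arm J F X0 P2 P2 t).compl₂
          (RJP3.evk (gF J X0 P1) (x' t))) (x t) +
        (-e) • ∑ t, TensorProduct.lift ((bq arm J F X0 P2 P2 t).flip.compl₂ kk) (x' t)) ∈ Q := by
  classical
  set G1 := P1ᵀ * (J * X0) * P1 with hG1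
  set G2 := P2ᵀ * (J * X0) * P2 with hG2
  have g1 : U1ᵀ * S0 * U1 = C1ᵀ * G1 * C1 := gram hS hF1
  have g2 : U2ᵀ * S0 * U2 = C2ᵀ * G2 * C2 := gram hS hF2
  rw [g1, g2] at h
  set T11 : Fin 3 → Matrix (Fin m1) (Fin m1) K := fun s =>
    β' * X s - (X' s)ᵀ * (C2ᵀ * G2 * C2) * X s - (X' s)ᵀ * β0ᵀ with hT11
  set T22 : Fin 3 → Matrix (Fin m2) (Fin m2) K := fun s =>
    X s * γ'ᵀ + X s * (C1ᵀ * G1 * C1) * (X' s)ᵀ - γ0 * (X' s)ᵀ with hT22
  have h1 : ∑ s, bm arm J F X0 P1 P1 s (C1 * T11 s * C1ᵀ) +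
      r • ∑ s, bm arm J F X0 P2 P2 s (C2 * T22 s * C2ᵀ) ∈ Q := by
    have e1 : ∀ s, bm arm J F X0 P1 P1 s (C1 * T11 s * C1ᵀ) =
        F * (U1 * T11 s * U1ᵀ) * S0 * E K arm s := fun s => (e11 hS hF1 _ s).symm
    have e2 : ∀ s, bm arm J F X0 P2 P2 s (C2 * T22 s * C2ᵀ) =
        F * (U2 * T22 s * U2ᵀ) * S0 * E K arm s := fun s => (e11 hS hF2 _ s).symm
    simp only [e1, e2]
    exact h
  -- the 11-part
  have h11 : ∀ s, bm arm J F X0 P1 P1 s (C1 * T11 s * C1ᵀ) -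
      ((1 : K) • TensorProduct.lift ((bq arm J F X0 P1 P1 s) ∘ₗ b') (x s)
      + (-1 : K) • TensorProduct.lift ((bq arm J F X0 P1 P1 s).flip ∘ₗ b) (x' s)
      + (-1 : K) • TensorProduct.lift ((bq arm J F X0 P1 P1 s) ∘ₗ (RJM.ev (gF J X0 P2) (x' s)))
        (x s)) ∈ Q := by
    intro s
    rw [lift_b, lift_fb, lift_b, ev_mat]
    set B' := LinearMap.toMatrix' b' with hB'
    set B0 := LinearMap.toMatrix' b with hB0
    have z1 : ∀ y, (C1 * β' - B' * C2) *ᵥ y ∈ Z1 := by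
      intro y
      have := hβ' y
      rw [sub_mulVec, ← mulVec_mulVec, ← mulVec_mulVec]
      rwa [hB', ← Matrix.toLin'_apply (LinearMap.toMatrix' b'), Matrix.toLin'_toMatrix']
    have z2 : ∀ y, (C1 * β0 - B0 * C2) *ᵥ y ∈ Z1 := by
      intro y
      have := hβ0 y
      rw [sub_mulVec, ← mulVec_mulVec, ← mulVec_mulVec]
      rwa [hB0, ← Matrix.toLin'_apply (LinearMap.toMatrix' b), Matrix.toLin'_toMatrix']
    have e1 : C1 * T11 s * C1ᵀ = B' * mt (x s) + (C1 * β' - B' * C2) * (X s * C1ᵀ) -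
        (mt (x' s))ᵀ * G2 * mt (x s) -
        ((mt (x' s))ᵀ * B0ᵀ + (X' s * C1ᵀ)ᵀ * (C1 * β0 - B0 * C2)ᵀ) := by
      rw [hT11, ← hX s, ← hX' s]
      simp only [Matrix.mul_sub, Matrix.sub_mul, transpose_mul, transpose_sub,
        transpose_transpose, Matrix.mul_assoc]
      abel
    have m1 := bm_left (hZq s) z1 (X s * C1ᵀ)
    have m2 := bm_right (hqZ s) z2 ((X' s * C1ᵀ)ᵀ)
    rw [e1, map_sub, map_sub, map_add, map_add]
    have e2 := Q.sub_mem m1 m2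
    convert e2 using 1
    rw [one_smul, neg_one_smul, neg_one_smul]
    abel
  -- the 22-part
  have h22 : ∀ s, bm arm J F X0 P2 P2 s (C2 * T22 s * C2ᵀ) -
      (TensorProduct.lift ((bq arm J F X0 P2 P2 s).compl₂ kk') (x s) -
        TensorProduct.lift ((bq arm J F X0 P2 P2 s).compl₂
          (RJP3.evk (gF J X0 P1) (x' s))) (x s) -
        TensorProduct.lift ((bq arm J F X0 P2 P2 s).flip.compl₂ kk) (x' s)) ∈ Q := by
    intro s
    rw [lift_k, lift_k, lift_fk, evk_mat]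
    set K' := LinearMap.toMatrix' kk' with hK'
    set K0 := LinearMap.toMatrix' kk with hK0
    have z1 : ∀ y, (C2 * γ' - K' * C1) *ᵥ y ∈ Z2 := by
      intro y
      have := hγ' y
      rw [sub_mulVec, ← mulVec_mulVec, ← mulVec_mulVec]
      rwa [hK', ← Matrix.toLin'_apply (LinearMap.toMatrix' kk'), Matrix.toLin'_toMatrix']
    have z2 : ∀ y, (C2 * γ0 - K0 * C1) *ᵥ y ∈ Z2 := by
      intro y
      have := hγ0 y
      rw [sub_mulVec, ← mulVec_mulVec, ← mulVec_mulVec]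
      rwa [hK0, ← Matrix.toLin'_apply (LinearMap.toMatrix' kk), Matrix.toLin'_toMatrix']
    have e1 : C2 * T22 s * C2ᵀ = (mt (x s) * K'ᵀ - mt (x s) * (mt (x' s) * G1)ᵀ -
        K0 * (mt (x' s))ᵀ) + (C2 * X s) * (C2 * γ' - K' * C1)ᵀ -
        (C2 * γ0 - K0 * C1) * ((X' s)ᵀ * C2ᵀ) := by
      have hsk : G1ᵀ = -G1 := hskew
      rw [transpose_mul (mt (x' s)), hsk, hT22, ← hX s, ← hX' s]
      simp only [Matrix.mul_sub, Matrix.sub_mul, Matrix.mul_add, Matrix.add_mul, transpose_mul,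
        transpose_sub, transpose_transpose, Matrix.mul_assoc, Matrix.neg_mul, Matrix.mul_neg]
      abel
    have m1 := bm_right (hqZ2 s) z1 (C2 * X s)
    have m2 := bm_left (hZq2 s) z2 ((X' s)ᵀ * C2ᵀ)
    rw [e1, map_sub, map_add, map_sub, map_sub]
    have e2 := Q.sub_mem m1 m2
    convert e2 using 1
    abel
  have h11' := Submodule.sum_mem Q (t := Finset.univ) fun s _ => h11 s
  have h22' := Submodule.sum_mem Q (t := Finset.univ) fun s _ => h22 s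
  have h2 := Q.sub_mem (Q.sub_mem h1 h11') (Q.smul_mem r h22')
  have h3 : ρ • (e • ∑ t, TensorProduct.lift ((bq arm J F X0 P2 P2 t).compl₂ kk') (x t) +
        (-e) • ∑ t, TensorProduct.lift ((bq arm J F X0 P2 P2 t).compl₂
          (RJP3.evk (gF J X0 P1) (x' t))) (x t) +
        (-e) • ∑ t, TensorProduct.lift ((bq arm J F X0 P2 P2 t).flip.compl₂ kk) (x' t)) =
      r • ∑ s, (TensorProduct.lift ((bq arm J F X0 P2 P2 s).compl₂ kk') (x s) -
        TensorProduct.lift ((bq arm J F X0 P2 P2 s).compl₂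
          (RJP3.evk (gF J X0 P1) (x' s))) (x s) -
        TensorProduct.lift ((bq arm J F X0 P2 P2 s).flip.compl₂ kk) (x' s)) := by
    rw [Finset.sum_sub_distrib, Finset.sum_sub_distrib, ← he]
    module
  rw [h3]
  simp only [Finset.sum_sub_distrib, smul_sub] at h2 ⊢
  convert h2 using 1
  abel

end Crest.Agent.R172.SLB562
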