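import Crest.Agent.R172.RJP3

/-!
# Row 172 (S0260), S-side, second level: the triple engine, decorations only from the moves

`RJP3.main3` needs its relation for all `(b, k)` with `Cor`, `CorK`; a move gives one `(b, k)` for
each exact `x`.  Corrections are unique modulo `Z`, `Z2` (`cor_unique`, `corK_unique`); `main3_mv` is
`main3` with a concrete second term `F2S` and the relation only for decorations with a property `G`.
-/

set_option autoImplicit false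
set_option linter.unusedSectionVars false

namespace Crest.Agent.R172.SMv

open Finset TensorProduct Module
open Crest.Agent.R172.RJM (DD Ex ev ev_tmul RT TR)
open Crest.Agent.R172.RJP (Pr)
open Crest.Agent.R172.RJP3 (evk evk_tmul CorK main3)

variable {K : Type*} [Field K] {P1 P2 E τ : Type*} [AddCommGroup P1] [Module K P1]
  [AddCommGroup P2] [Module K P2] [AddCommGroup E] [Module K E] [Fintype τ]

/-- an `R`-valued twisted homomorphism modulo `Z` is zero modulo `Z` -/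
theorem hom_unique {V W : Type*} [AddCommGroup V] [Module K V] [AddCommGroup W] [Module K W]
    {a : τ → End K V} {b : τ → End K W} {R Z : Submodule K W}
    (ha : ⨆ t, LinearMap.range (a t) = ⊤) (sZ : ∀ t, ∀ z ∈ Z, b t z ∈ Z)
    {m : ℕ} (hm : ∀ w : List τ, w.length = m → ∀ r ∈ R, (w.map b).prod r = 0)
    {φ : V →ₗ[K] W} (hφ : ∀ p, φ p ∈ R) {c : K}
    (h : ∀ t p, φ (a t p) - c • b t (φ p) ∈ Z) (p : V) : φ p ∈ Z := by
  have key : ∀ n : ℕ, ∀ p, φ p ∈ Z ⊔ Submodule.span K {y : W | ∃ w : List τ, w.length = n ∧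
      ∃ r ∈ R, y = (w.map b).prod r} := by
    intro n
    induction n with
    | zero =>
      intro p
      refine Submodule.mem_sup_right (Submodule.subset_span ⟨[], rfl, φ p, hφ p, ?_⟩)
      simp
    | succ n ih =>
      intro p
      have hp : p ∈ ⨆ t, LinearMap.range (a t) := by rw [ha]; trivial
      refine Submodule.iSup_induction (fun t => LinearMap.range (a t))
        (motive := fun p => φ p ∈ Z ⊔ Submodule.span K {y : W | ∃ w : List τ, w.length = n + 1 ∧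
          ∃ r ∈ R, y = (w.map b).prod r}) hp ?_ ?_ ?_
      · rintro t _ ⟨p, rfl⟩
        have h1 : φ (a t p) = (φ (a t p) - c • b t (φ p)) + c • b t (φ p) := by abel
        rw [h1]
        refine Submodule.add_mem _ (Submodule.mem_sup_left (h t p)) (Submodule.smul_mem _ _ ?_)
        obtain ⟨z, hz, y, hy, hzy⟩ := Submodule.mem_sup.1 (ih p)
        rw [← hzy, map_add]
        refine Submodule.add_mem _ (Submodule.mem_sup_left (sZ t z hz))
          (Submodule.mem_sup_right ?_)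
        refine Submodule.span_induction (p := fun y _ => b t y ∈ Submodule.span K {y : W |
          ∃ w : List τ, w.length = n + 1 ∧ ∃ r ∈ R, y = (w.map b).prod r}) ?_ ?_ ?_ ?_ hy
        · rintro _ ⟨w, hw, r, hr, rfl⟩
          refine Submodule.subset_span ⟨t :: w, by simp [hw], r, hr, ?_⟩
          rw [List.map_cons, List.prod_cons, Module.End.mul_apply]
        · rw [map_zero]; exact Submodule.zero_mem _
        · intro x y _ _ hx hy'
          rw [map_add]; exact Submodule.add_mem _ hx hy'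
        · intro e x _ hx
          rw [map_smul]; exact Submodule.smul_mem _ _ hx
      · rw [map_zero]; exact Submodule.zero_mem _
      · intro x y hx hy
        rw [map_add]; exact Submodule.add_mem _ hx hy
  have h0 : Submodule.span K {y : W | ∃ w : List τ, w.length = m ∧
      ∃ r ∈ R, y = (w.map b).prod r} = ⊥ := by
    rw [Submodule.span_eq_bot]
    rintro _ ⟨w, hw, r, hr, rfl⟩
    exact hm w hw r hr
  have h1 := key m p
  rw [h0, sup_bot_eq] at h1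
  exact h1

variable {A : τ → End K P1} {B : τ → End K P2} {R1 Z : Submodule K P1} {R2 Z2 : Submodule K P2}
  {l : τ → ℕ} {g : P2 →ₗ[K] P2 →ₗ[K] K} {eps epsK : K}

/-- **uniqueness of the correction modulo `Z`** -/
theorem cor_unique (sZ : ∀ t, ∀ z ∈ Z, A t z ∈ Z) (hB : ⨆ t, LinearMap.range (B t) = ⊤) {m : ℕ}
    (hN1 : ∀ w : List τ, w.length = m → ∀ r ∈ R1, (w.map A).prod r = 0) {c : K}
    (hc : eps * c ≠ 0) {x : τ → P2 ⊗[K] P1} {b b' : P2 →ₗ[K] P1}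
    (h : RJZ.Cor A B R1 Z g eps c x b) (h' : RJZ.Cor A B R1 Z g eps c x b') (p : P2) :
    (b - b') p ∈ Z := by
  refine hom_unique (a := B) (b := A) (R := R1) (c := (eps * c)⁻¹) hB sZ hN1
    (fun p => R1.sub_mem (h.mem p) (h'.mem p)) (fun t p => ?_) p
  have h1 := Z.smul_mem (-(eps * c)⁻¹) (Z.sub_mem (h.eq t p) (h'.eq t p))
  have h2 : -(eps * c)⁻¹ • ((A t (b p) - (eps * c) • b (B t p))
      - (A t (ev g (x t) p) - (eps * c) • ev g (x t) (B t p)) -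
      ((A t (b' p) - (eps * c) • b' (B t p))
      - (A t (ev g (x t) p) - (eps * c) • ev g (x t) (B t p)))) =
      (b - b') (B t p) - (eps * c)⁻¹ • A t ((b - b') p) := by
    rw [LinearMap.sub_apply, LinearMap.sub_apply, map_sub]
    have e : ∀ u v u' v' X : P1, -(eps * c)⁻¹ • ((u - (eps * c) • v) - X -
        ((u' - (eps * c) • v') - X)) = v - v' - (eps * c)⁻¹ • (u - u') := by
      intro u v u' v' X
      have e1 : (eps * c)⁻¹ * (eps * c) = 1 := inv_mul_cancel₀ hc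
      have e2 : -(eps * c)⁻¹ • ((u - (eps * c) • v) - X - ((u' - (eps * c) • v') - X)) =
          ((eps * c)⁻¹ * (eps * c)) • (v - v') - (eps * c)⁻¹ • (u - u') := by module
      rw [e2, e1, one_smul]
    exact e _ _ _ _ _
  rw [h2] at h1
  exact h1

/-- **uniqueness of the other correction modulo `Z2`** -/
theorem corK_unique {g1 : P1 →ₗ[K] P1 →ₗ[K] K} (sZ2 : ∀ t, ∀ z ∈ Z2, B t z ∈ Z2)
    (hA : ⨆ t, LinearMap.range (A t) = ⊤) {m : ℕ}
    (hN2 : ∀ w : List τ, w.length = m → ∀ r ∈ R2, (w.map B).prod r = 0) {c : K}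
    (hK : epsK ≠ 0) {x : τ → P2 ⊗[K] P1} {k k' : P1 →ₗ[K] P2}
    (h : CorK A B R2 Z2 g1 epsK c x k) (h' : CorK A B R2 Z2 g1 epsK c x k') (p : P1) :
    (k - k') p ∈ Z2 := by
  refine hom_unique (a := A) (b := B) (R := R2) (c := epsK⁻¹ * c) hA sZ2 hN2
    (fun p => R2.sub_mem (h.mem p) (h'.mem p)) (fun t p => ?_) p
  have h1 := Z2.smul_mem (epsK⁻¹) (Z2.sub_mem (h.eq t p) (h'.eq t p))
  have h2 : epsK⁻¹ • (epsK • (k (A t p) - evk g1 (x t) (A t p))
      - c • (B t (k p) - B t (evk g1 (x t) p)) - (epsK • (k' (A t p) - evk g1 (x t) (A t p))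
      - c • (B t (k' p) - B t (evk g1 (x t) p)))) =
      (k - k') (A t p) - (epsK⁻¹ * c) • B t ((k - k') p) := by
    rw [LinearMap.sub_apply, LinearMap.sub_apply, map_sub]
    have e : ∀ u v u' v' X Y : P2, epsK⁻¹ • (epsK • (u - X) - c • (v - Y) -
        (epsK • (u' - X) - c • (v' - Y))) = u - u' - (epsK⁻¹ * c) • (v - v') := by
      intro u v u' v' X Y
      have e1 : epsK⁻¹ * epsK = 1 := inv_mul_cancel₀ hK
      have e2 : epsK⁻¹ • (epsK • (u - X) - c • (v - Y) -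
          (epsK • (u' - X) - c • (v' - Y))) = (epsK⁻¹ * epsK) • (u - u') -
            (epsK⁻¹ * c) • (v - v') := by module
      rw [e2, e1, one_smul]
    exact e _ _ _ _ _ _
  rw [h2] at h1
  exact h1

/-! ### the concrete second term -/

/-- `k ↦ ∑_t lift ((p2, p1) ↦ q2 t p2 (k p1)) (x t)` -/
noncomputable def TR1 (q2 : τ → P2 →ₗ[K] P2 →ₗ[K] E) (x : τ → P2 ⊗[K] P1) :
    (P1 →ₗ[K] P2) →ₗ[K] E where
  toFun k := ∑ t, TensorProduct.lift ((q2 t).compl₂ k) (x t)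
  map_add' k k' := by
    rw [← Finset.sum_add_distrib]
    refine Finset.sum_congr rfl fun t _ => ?_
    rw [← LinearMap.add_apply]
    congr 1
    refine TensorProduct.ext' fun a b => ?_
    simp
  map_smul' c k := by
    rw [RingHom.id_apply, Finset.smul_sum]
    refine Finset.sum_congr rfl fun t _ => ?_
    rw [← LinearMap.smul_apply]
    congr 1
    refine TensorProduct.ext' fun a b => ?_
    simp

/-- `x ↦ ∑_t lift ((p2, p1) ↦ q2 t (k p1) p2) (x t)` -/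
noncomputable def TR3 (q2 : τ → P2 →ₗ[K] P2 →ₗ[K] E) (k : P1 →ₗ[K] P2) :
    (τ → P2 ⊗[K] P1) →ₗ[K] E where
  toFun x := ∑ t, TensorProduct.lift ((q2 t).flip.compl₂ k) (x t)
  map_add' x x' := by
    rw [← Finset.sum_add_distrib]
    exact Finset.sum_congr rfl fun t _ => by rw [Pi.add_apply, map_add]
  map_smul' c x := by
    rw [RingHom.id_apply, Finset.smul_sum]
    exact Finset.sum_congr rfl fun t _ => by rw [Pi.smul_apply, map_smul]

/-- `x' ↦ ∑_t lift ((p2, p1) ↦ q2 t p2 (evk g1 (x' t) p1)) (x t)` -/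
noncomputable def TR2 (q2 : τ → P2 →ₗ[K] P2 →ₗ[K] E) (g1 : P1 →ₗ[K] P1 →ₗ[K] K)
    (x : τ → P2 ⊗[K] P1) : (τ → P2 ⊗[K] P1) →ₗ[K] E where
  toFun x' := ∑ t, TensorProduct.lift ((q2 t).compl₂ (evk g1 (x' t))) (x t)
  map_add' x' x'' := by
    rw [← Finset.sum_add_distrib]
    refine Finset.sum_congr rfl fun t _ => ?_
    rw [← LinearMap.add_apply]
    congr 1
    refine TensorProduct.ext' fun a b => ?_
    simp
  map_smul' c x' := by
    rw [RingHom.id_apply, Finset.smul_sum]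
    refine Finset.sum_congr rfl fun t _ => ?_
    rw [← LinearMap.smul_apply]
    congr 1
    refine TensorProduct.ext' fun a b => ?_
    simp

/-- **the 22-part** -/
noncomputable def F2S (q2 : τ → P2 →ₗ[K] P2 →ₗ[K] E) (g1 : P1 →ₗ[K] P1 →ₗ[K] K) (a4 a5 a6 : K)
    (u : Pr K P1 P2 τ × (P1 →ₗ[K] P2)) : Pr K P1 P2 τ × (P1 →ₗ[K] P2) →ₗ[K] E :=
  a4 • (TR1 q2 u.1.1 ∘ₗ LinearMap.snd K (Pr K P1 P2 τ) (P1 →ₗ[K] P2)) +
    a5 • (TR2 q2 g1 u.1.1 ∘ₗ LinearMap.fst K (τ → P2 ⊗[K] P1) (P2 →ₗ[K] P1) ∘ₗ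
      LinearMap.fst K (Pr K P1 P2 τ) (P1 →ₗ[K] P2)) +
    a6 • (TR3 q2 u.2 ∘ₗ LinearMap.fst K (τ → P2 ⊗[K] P1) (P2 →ₗ[K] P1) ∘ₗ
      LinearMap.fst K (Pr K P1 P2 τ) (P1 →ₗ[K] P2))

theorem F2S_apply (q2 : τ → P2 →ₗ[K] P2 →ₗ[K] E) (g1 : P1 →ₗ[K] P1 →ₗ[K] K) (a4 a5 a6 : K)
    (x x' : τ → P2 ⊗[K] P1) (b b' : P2 →ₗ[K] P1) (k k' : P1 →ₗ[K] P2) :
    F2S q2 g1 a4 a5 a6 ((x, b), k) ((x', b'), k') =
      a4 • ∑ t, TensorProduct.lift ((q2 t).compl₂ k') (x t) +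
      a5 • ∑ t, TensorProduct.lift ((q2 t).compl₂ (evk g1 (x' t))) (x t) +
      a6 • ∑ t, TensorProduct.lift ((q2 t).flip.compl₂ k) (x' t) := rfl

theorem lift_mem {V W : Type*} [AddCommGroup V] [Module K V] [AddCommGroup W] [Module K W]
    {Q : Submodule K E} {f : V →ₗ[K] W →ₗ[K] E} (h : ∀ v w, f v w ∈ Q) (x : V ⊗[K] W) :
    TensorProduct.lift f x ∈ Q := by
  induction x using TensorProduct.induction_on with
  | zero => rw [map_zero]; exact Q.zero_mem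
  | tmul v w => rw [TensorProduct.lift.tmul]; exact h v w
  | add x y hx hy => rw [map_add]; exact Q.add_mem hx hy

/-- **`RJP3.main3` with the relation only for the decorations of the moves.** -/
theorem main3_mv [FiniteDimensional K P1] [FiniteDimensional K P2]
    (sZ : ∀ t, ∀ z ∈ Z, A t z ∈ Z) (sZ2 : ∀ t, ∀ z ∈ Z2, B t z ∈ Z2)
    (hA : ⨆ t, LinearMap.range (A t) = ⊤) (hB : ⨆ t, LinearMap.range (B t) = ⊤)
    (hR1 : ∀ t, ∀ r ∈ R1, A t r ∈ R1) (hR2 : ∀ t, ∀ r ∈ R2, B t r ∈ R2) {m : ℕ}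
    (hN1 : ∀ w : List τ, w.length = m → ∀ r ∈ R1, (w.map A).prod r = 0)
    (hN2 : ∀ w : List τ, w.length = m → ∀ r ∈ R2, (w.map B).prod r = 0)
    (hl : ∀ s, 1 ≤ l s)
    (hl1 : ∀ s p, (A s ^ l s) p ∈ R1) (hl2 : ∀ s p, (B s ^ l s) p ∈ R2)
    (gen1 : ∀ S : Submodule K P1, (∀ t, ∀ v ∈ S, A t v ∈ S) → (∀ s p, (A s ^ l s) p ∈ S) → R1 ≤ S)
    (gen2 : ∀ S : Submodule K P2, (∀ t, ∀ v ∈ S, B t v ∈ S) → (∀ s p, (B s ^ l s) p ∈ S) → R2 ≤ S)
    (heps : eps ≠ 0) (gR1 : ∀ r ∈ R2, ∀ p, g r p = 0) (gR2 : ∀ r ∈ R2, ∀ p, g p r = 0)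
    (gB : ∀ t p p', g (B t p) p' = eps * g p (B t p'))
    (gtop : ∀ s, ∃ p p', g ((B s ^ (l s - 1)) p) p' ≠ 0)
    (g1 : P1 →ₗ[K] P1 →ₗ[K] K) (hK : epsK ≠ 0)
    {R : Set K} (hR : R.Infinite) (h0 : (0 : K) ∉ R)
    (q : τ → P1 →ₗ[K] P1 →ₗ[K] E) (q2 : τ → P2 →ₗ[K] P2 →ₗ[K] E) (Q : Submodule K E)
    {a1 a2 a3 : K} (a4 a5 a6 : K)
    (ha1 : a1 ≠ 0) (ha2 : a2 ≠ 0) (ha3 : a3 ≠ 0)
    (hZq : ∀ t, ∀ z ∈ Z, ∀ p, q t z p ∈ Q) (hqZ : ∀ t, ∀ z ∈ Z, ∀ p, q t p z ∈ Q)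
    (hZq2 : ∀ t, ∀ z ∈ Z2, ∀ p, q2 t z p ∈ Q) (hqZ2 : ∀ t, ∀ z ∈ Z2, ∀ p, q2 t p z ∈ Q)
    (G : K → (τ → P2 ⊗[K] P1) → (P2 →ₗ[K] P1) → (P1 →ₗ[K] P2) → Prop)
    (hmv : ∀ ρ ∈ R, ∀ x, Ex A B R1 R2 (ρ ^ 2) x → ∃ b k, RJZ.Cor A B R1 Z g eps (ρ ^ 2) x b ∧
      CorK A B R2 Z2 g1 epsK (ρ ^ 2) x k ∧ G ρ x b k)
    (hrel : ∀ ρ ∈ R, ∀ ρ' ∈ R, ∀ x b k x' b' k', Ex A B R1 R2 (ρ ^ 2) x → G ρ x b k →
      Ex A B R1 R2 (ρ' ^ 2) x' → G ρ' x' b' k' →
      ∑ t, (a1 • TensorProduct.lift ((q t) ∘ₗ b') (x t)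
        + a2 • TensorProduct.lift ((q t).flip ∘ₗ b) (x' t)
        + a3 • TensorProduct.lift ((q t) ∘ₗ (ev g (x' t))) (x t))
        + ρ' • (a4 • ∑ t, TensorProduct.lift ((q2 t).compl₂ k') (x t) +
          a5 • ∑ t, TensorProduct.lift ((q2 t).compl₂ (evk g1 (x' t))) (x t) +
          a6 • ∑ t, TensorProduct.lift ((q2 t).flip.compl₂ k) (x' t)) ∈ Q) :
    (∀ t, ∀ r ∈ R1, ∀ p, q t r p ∈ Q ∧ q t p r ∈ Q) ∧
      (∀ s i j, i + j + 1 = l s → ∀ p p', q s ((A s ^ i) p) ((A s ^ j) p') ∈ Q) := by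
  refine main3 (Z2 := Z2) sZ hA hB hR1 hR2 hN1 hN2 hl hl1 hl2 gen1 gen2 heps gR1 gR2 gB gtop g1 epsK
    hR h0 q Q ha1 ha2 ha3 hZq hqZ
    (fun ρ hρ x hx => by obtain ⟨b, k, h1, -, -⟩ := hmv ρ hρ x hx; exact ⟨b, h1⟩)
    (fun ρ hρ x hx => by obtain ⟨b, k, -, h2, -⟩ := hmv ρ hρ x hx; exact ⟨k, h2⟩)
    (F2S q2 g1 a4 a5 a6) ?_
  intro ρ hρ ρ' hρ' x b k x' b' k' hx hb hk hx' hb' hk'
  have hρ0 : ρ ≠ 0 := fun h => h0 (h ▸ hρ)
  have hρ0' : ρ' ≠ 0 := fun h => h0 (h ▸ hρ')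
  obtain ⟨b0, k0, hb0, hk0, hG⟩ := hmv ρ hρ x hx
  obtain ⟨b0', k0', hb0', hk0', hG'⟩ := hmv ρ' hρ' x' hx'
  have h1 := hrel ρ hρ ρ' hρ' x b0 k0 x' b0' k0' hx hG hx' hG'
  have ub := cor_unique sZ hB hN1 (mul_ne_zero heps (pow_ne_zero 2 hρ0)) hb hb0
  have ub' := cor_unique sZ hB hN1 (mul_ne_zero heps (pow_ne_zero 2 hρ0')) hb' hb0'
  have uk := corK_unique sZ2 hA hN2 hK hk hk0
  have uk' := corK_unique sZ2 hA hN2 hK hk' hk0'
  -- the differences
  have d1 : ∀ t, TensorProduct.lift ((q t) ∘ₗ b') (x t) -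
      TensorProduct.lift ((q t) ∘ₗ b0') (x t) ∈ Q := by
    intro t
    have e : TensorProduct.lift ((q t) ∘ₗ b') (x t) - TensorProduct.lift ((q t) ∘ₗ b0') (x t) =
        TensorProduct.lift ((q t) ∘ₗ (b' - b0')) (x t) := by
      rw [← LinearMap.sub_apply]
      congr 1
      refine TensorProduct.ext' fun a b => ?_
      simp
    rw [e]
    exact lift_mem (fun v w => hZq t _ (ub' v) w) _
  have d2 : ∀ t, TensorProduct.lift ((q t).flip ∘ₗ b) (x' t) -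
      TensorProduct.lift ((q t).flip ∘ₗ b0) (x' t) ∈ Q := by
    intro t
    have e : TensorProduct.lift ((q t).flip ∘ₗ b) (x' t) -
        TensorProduct.lift ((q t).flip ∘ₗ b0) (x' t) =
        TensorProduct.lift ((q t).flip ∘ₗ (b - b0)) (x' t) := by
      rw [← LinearMap.sub_apply]
      congr 1
      refine TensorProduct.ext' fun a b => ?_
      simp
    rw [e]
    exact lift_mem (fun v w => hqZ t _ (ub v) w) _
  have d3 : ∀ t, TensorProduct.lift ((q2 t).compl₂ k') (x t) -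
      TensorProduct.lift ((q2 t).compl₂ k0') (x t) ∈ Q := by
    intro t
    have e : TensorProduct.lift ((q2 t).compl₂ k') (x t) -
        TensorProduct.lift ((q2 t).compl₂ k0') (x t) =
        TensorProduct.lift ((q2 t).compl₂ (k' - k0')) (x t) := by
      rw [← LinearMap.sub_apply]
      congr 1
      refine TensorProduct.ext' fun a b => ?_
      simp
    rw [e]
    exact lift_mem (fun v w => hqZ2 t _ (uk' w) v) _
  have d4 : ∀ t, TensorProduct.lift ((q2 t).flip.compl₂ k) (x' t) -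
      TensorProduct.lift ((q2 t).flip.compl₂ k0) (x' t) ∈ Q := by
    intro t
    have e : TensorProduct.lift ((q2 t).flip.compl₂ k) (x' t) -
        TensorProduct.lift ((q2 t).flip.compl₂ k0) (x' t) =
        TensorProduct.lift ((q2 t).flip.compl₂ (k - k0)) (x' t) := by
      rw [← LinearMap.sub_apply]
      congr 1
      refine TensorProduct.ext' fun a b => ?_
      simp
    rw [e]
    exact lift_mem (fun v w => hZq2 t _ (uk w) v) _
  rw [F2S_apply]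
  have hsum : (∑ t, (a1 • TensorProduct.lift ((q t) ∘ₗ b') (x t)
        + a2 • TensorProduct.lift ((q t).flip ∘ₗ b) (x' t)
        + a3 • TensorProduct.lift ((q t) ∘ₗ (ev g (x' t))) (x t))
        + ρ' • (a4 • ∑ t, TensorProduct.lift ((q2 t).compl₂ k') (x t) +
          a5 • ∑ t, TensorProduct.lift ((q2 t).compl₂ (evk g1 (x' t))) (x t) +
          a6 • ∑ t, TensorProduct.lift ((q2 t).flip.compl₂ k) (x' t))) =
      (∑ t, (a1 • TensorProduct.lift ((q t) ∘ₗ b0') (x t)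
        + a2 • TensorProduct.lift ((q t).flip ∘ₗ b0) (x' t)
        + a3 • TensorProduct.lift ((q t) ∘ₗ (ev g (x' t))) (x t))
        + ρ' • (a4 • ∑ t, TensorProduct.lift ((q2 t).compl₂ k0') (x t) +
          a5 • ∑ t, TensorProduct.lift ((q2 t).compl₂ (evk g1 (x' t))) (x t) +
          a6 • ∑ t, TensorProduct.lift ((q2 t).flip.compl₂ k0) (x' t))) +
      (a1 • ∑ t, (TensorProduct.lift ((q t) ∘ₗ b') (x t) -
          TensorProduct.lift ((q t) ∘ₗ b0') (x t)) +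
        a2 • ∑ t, (TensorProduct.lift ((q t).flip ∘ₗ b) (x' t) -
          TensorProduct.lift ((q t).flip ∘ₗ b0) (x' t)) +
        (ρ' * a4) • ∑ t, (TensorProduct.lift ((q2 t).compl₂ k') (x t) -
          TensorProduct.lift ((q2 t).compl₂ k0') (x t)) +
        (ρ' * a6) • ∑ t, (TensorProduct.lift ((q2 t).flip.compl₂ k) (x' t) -
          TensorProduct.lift ((q2 t).flip.compl₂ k0) (x' t))) := by
    simp only [Finset.sum_add_distrib, Finset.sum_sub_distrib, ← Finset.smul_sum]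
    module
  rw [hsum]
  refine Q.add_mem h1 (Q.add_mem (Q.add_mem (Q.add_mem ?_ ?_) ?_) ?_)
  · exact Q.smul_mem _ (Q.sum_mem fun t _ => d1 t)
  · exact Q.smul_mem _ (Q.sum_mem fun t _ => d2 t)
  · exact Q.smul_mem _ (Q.sum_mem fun t _ => d3 t)
  · exact Q.smul_mem _ (Q.sum_mem fun t _ => d4 t)

end Crest.Agent.R172.SMv
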