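import Crest.Agent.R172.SLB562
import Crest.Agent.R172.SMv494

/-!
Row 172 (S0260), (t2), Lev2: assembly of one block from the rows (second copy of L2-i).
-/

set_option autoImplicit false
set_option linter.unusedSectionVars false
set_option maxHeartbeats 400000

namespace Crest.Agent.R172.SLB562

open Matrix Module Crest.Agent.R172.FO Crest.Agent.R172.Qt Crest.Agent.R172.SpS
open Crest.Agent.R172.SEnd Crest.Agent.R172.SEnd2 Crest.Agent.R172.SCM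
open Crest.Agent.R172.SLev0 (bq bq_apply gF gF_apply gF_flip gens_self PbK Gens)
open Crest.Agent.R172.PL (CoreM)
open scoped TensorProduct

variable {ι : Type*} [Fintype ι] [DecidableEq ι] {δ : Type*} [Fintype δ] [DecidableEq δ]
variable {K : Type*} [Field K]
variable {arm : δ → Fin 3} {J : Matrix ι ι K} {B : Matrix δ δ K}
  {N W Q : Submodule K (Matrix ι δ K)} {F : Matrix ι δ K} {R : Matrix δ ι K}
  {X0 : Matrix ι ι K} {D : End K (CoreM (PhS arm J B F R X0))} {ν ν' : K} {l : Fin 3 → ℕ}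
  {n1 n2 m1 m2 : ℕ} {P1 : Matrix ι (Fin n1) K} {P2 : Matrix ι (Fin n2) K}
  {A1 : Fin 3 → Matrix (Fin n1) (Fin n1) K} {A2 : Fin 3 → Matrix (Fin n2) (Fin n2) K}

/-- **core of Lev2**: `UD ρ X β γ` = decorations of the frame family `X` coming from the moves at the
parameter of ratio `ρ` -/
theorem core (b1 : BPkg arm J B F R X0 D ν l P1 A1) (b2 : BPkg arm J B F R X0 D ν' l P2 A2)
    {U1 : Matrix δ (Fin m1) K} {U2 : Matrix δ (Fin m2) K}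
    {C1 : Matrix (Fin n1) (Fin m1) K} {C2 : Matrix (Fin n2) (Fin m2) K}
    (hF1 : F * U1 = P1 * C1) (hF2 : F * U2 = P2 * C2)
    {Z1 : Submodule K (Fin n1 → K)} {Z2 : Submodule K (Fin n2 → K)}
    (sZ1 : ∀ t, ∀ z ∈ Z1, A1 t *ᵥ z ∈ Z1) (sZ2 : ∀ t, ∀ z ∈ Z2, A2 t *ᵥ z ∈ Z2)
    (hZq : ∀ t, ∀ z ∈ Z1, ∀ y, bq arm J F X0 P1 P1 t z y ∈ Q)
    (hqZ : ∀ t, ∀ z ∈ Z1, ∀ y, bq arm J F X0 P1 P1 t y z ∈ Q)
    (hZq2 : ∀ t, ∀ z ∈ Z2, ∀ y, bq arm J F X0 P2 P2 t z y ∈ Q)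
    (hqZ2 : ∀ t, ∀ z ∈ Z2, ∀ y, bq arm J F X0 P2 P2 t y z ∈ Q)
    {I : Set K} (hI : I.Infinite) (h0 : (0 : K) ∉ I) {im : K} (him : im ^ 2 = -1)
    (UD : K → (Fin 3 → Matrix (Fin m2) (Fin m1) K) → Matrix (Fin m1) (Fin m2) K →
      Matrix (Fin m2) (Fin m1) K → Prop)
    (hmv : ∀ ρ ∈ I, ∀ x : Fin 3 → (Fin n2 → K) ⊗[K] (Fin n1 → K),
      RJM.Ex (fun s => (A1 s).mulVecLin) (fun s => (A2 s).mulVecLin)
        (LinearMap.ker (P1ᵀ * (J * X0) * P1).mulVecLin)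
        (LinearMap.ker (P2ᵀ * (J * X0) * P2).mulVecLin) (-ρ ^ 2) x →
      ∃ X β γ b k, UD ρ X β γ ∧ (∀ s, C2 * X s * C1ᵀ = mt (x s)) ∧
        (∀ y, C1 *ᵥ (β *ᵥ y) - b (C2 *ᵥ y) ∈ Z1) ∧ (∀ y, C2 *ᵥ (γ *ᵥ y) - k (C1 *ᵥ y) ∈ Z2) ∧
        RJZ.Cor (fun s => (A1 s).mulVecLin) (fun s => (A2 s).mulVecLin)
          (LinearMap.ker (P1ᵀ * (J * X0) * P1).mulVecLin) Z1 (gF J X0 P2) (-1) (-ρ ^ 2) x b ∧
        RJP3.CorK (fun s => (A1 s).mulVecLin) (fun s => (A2 s).mulVecLin)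
          (LinearMap.ker (P2ᵀ * (J * X0) * P2).mulVecLin) Z2 (gF J X0 P1) (-1) (-ρ ^ 2) x k)
    (hrel : ∀ ρ ∈ I, ∀ ρ' ∈ I, ∀ X β0 γ0 X' β' γ', UD ρ X β0 γ0 → UD ρ' X' β' γ' →
      ∑ s, F * (U1 * (β' * X s - (X' s)ᵀ * (U2ᵀ * (Fᵀ * J * (X0 * F)) * U2) * X s
          - (X' s)ᵀ * β0ᵀ) * U1ᵀ) * (Fᵀ * J * (X0 * F)) * E K arm s +
        ρ' • ∑ s, F * (U2 * (X s * γ'ᵀ + X s * (U1ᵀ * (Fᵀ * J * (X0 * F)) * U1) * (X' s)ᵀ
          - γ0 * (X' s)ᵀ) * U2ᵀ) * (Fᵀ * J * (X0 * F)) * E K arm s ∈ Q) :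
    Gens arm J B F X0 l Q (PbK arm J B F R X0 D ν) (PbK arm J B F R X0 D ν) := by
  have him0 : im ≠ 0 := by
    rintro rfl
    norm_num at him
  obtain ⟨m, hm⟩ := b1.blk.kills
  obtain ⟨m', hm'⟩ := b2.blk.kills
  have hker : ∀ r ∈ LinearMap.ker (P2ᵀ * (J * X0) * P2).mulVecLin, ∀ y, gF J X0 P2 y r = 0 := by
    intro r hr y
    rw [LinearMap.mem_ker, mulVecLin_apply] at hr
    rw [gF_apply, hr, dotProduct_zero]
  have hsq : ∀ ρ : K, (im * ρ) ^ 2 = -ρ ^ 2 := fun ρ => by rw [mul_pow, him]; ring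
  obtain ⟨h1, h2⟩ := SMv.main3_mv (A := fun s => (A1 s).mulVecLin)
    (B := fun s => (A2 s).mulVecLin)
    (R1 := LinearMap.ker (P1ᵀ * (J * X0) * P1).mulVecLin)
    (R2 := LinearMap.ker (P2ᵀ * (J * X0) * P2).mulVecLin) (Z := Z1) (Z2 := Z2) (l := l)
    (g := gF J X0 P2) (eps := -1) (epsK := -1) (m := max m m')
    (fun t z hz => by
      change (A1 t).mulVecLin z ∈ Z1
      rw [mulVecLin_apply]; exact sZ1 t z hz)
    (fun t z hz => by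
      change (A2 t).mulVecLin z ∈ Z2
      rw [mulVecLin_apply]; exact sZ2 t z hz)
    b1.blk.top b2.blk.top b1.blk.st b2.blk.st
    (fun w hw r hr => hm w (by omega) r hr) (fun w hw r hr => hm' w (by omega) r hr)
    (fun s => by have := b1.blk.two_le s; omega) b1.blk.pow b2.blk.pow b1.blk.gen b2.blk.gen
    (neg_ne_zero.2 one_ne_zero)
    (fun r hr y => by rw [gF_flip b2, hker r hr, neg_zero]) hker
    (fun t x y => by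
      rw [gF_apply, gF_apply, mulVecLin_apply, mulVecLin_apply, mulVec_mulVec,
        ← vecMul_transpose, ← dotProduct_mulVec, mulVec_mulVec, b2.adj, neg_mulVec,
        dotProduct_neg, neg_one_mul])
    (fun s => by
      obtain ⟨x, y, hxy⟩ := b2.corner s
      refine ⟨y, x, ?_⟩
      rw [gF_flip b2, gF_apply, mulVecLin_pow_apply]
      exact neg_ne_zero.2 hxy)
    (gF J X0 P1) (neg_ne_zero.2 one_ne_zero)
    (R := (fun ρ => im * ρ) '' I)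
    (hI.image (fun a _ b _ h => mul_left_cancel₀ him0 h))
    (by
      rintro ⟨ρ, hρ, h⟩
      have : ρ = 0 := by simpa [him0] using h
      exact h0 (this ▸ hρ))
    (fun t => bq arm J F X0 P1 P1 t) (fun t => bq arm J F X0 P2 P2 t) Q
    (a1 := 1) (a2 := -1) (a3 := -1) (im⁻¹) (-im⁻¹) (-im⁻¹) one_ne_zero
    (neg_ne_zero.2 one_ne_zero) (neg_ne_zero.2 one_ne_zero) hZq hqZ hZq2 hqZ2
    (fun ρ x b k => ∃ ρ0 X β γ, ρ = im * ρ0 ∧ ρ0 ∈ I ∧ UD ρ0 X β γ ∧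
      (∀ s, C2 * X s * C1ᵀ = mt (x s)) ∧
      (∀ y, C1 *ᵥ (β *ᵥ y) - b (C2 *ᵥ y) ∈ Z1) ∧ (∀ y, C2 *ᵥ (γ *ᵥ y) - k (C1 *ᵥ y) ∈ Z2))
    (by
      rintro _ ⟨ρ, hρ, rfl⟩ x hx
      simp only [hsq] at hx ⊢
      obtain ⟨X, β, γ, b, k, h1, h2, h3, h4, h5, h6⟩ := hmv ρ hρ x hx
      exact ⟨b, k, h5, h6, ρ, X, β, γ, rfl, hρ, h1, h2, h3, h4⟩)
    (by
      rintro _ ⟨_, _, rfl⟩ _ ⟨_, _, rfl⟩ x b k x' b' k' _ ⟨ρ0, X, β0, γ0, -, hρ0, h1, h2, h3, h4⟩ _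
        ⟨ρ', X', β', γ', hρe, hρ', h1', h2', h3', h4'⟩
      rw [hρe]
      exact rel_mv (S0 := Fᵀ * J * (X0 * F)) rfl hF1 hF2 b1.skew hZq hqZ hZq2 hqZ2
        (r := ρ') (by rw [mul_comm im, mul_assoc, mul_inv_cancel₀ him0, mul_one]) h2 h2' h3 h3' h4 h4'
        (hrel ρ0 hρ0 ρ' hρ' X β0 γ0 X' β' γ' h1 h1'))
  exact gens_self b1 Q h1 h2

end Crest.Agent.R172.SLB562
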