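import Crest.Agent.R172.SLB562b
import Crest.Agent.R172.SULift
import Crest.Agent.R172.SDescM683

/-!
Row 172 (S0260), (t2), Lev2: from the frames to `SLB562.core` (lift of exact families, arms, descent).
-/

set_option autoImplicit false
set_option linter.unusedSectionVars false
set_option maxHeartbeats 400000

namespace Crest.Agent.R172.SLB562

open Matrix Module Crest.Agent.R172.FO Crest.Agent.R172.Qt Crest.Agent.R172.SpS
open Crest.Agent.R172.SEnd Crest.Agent.R172.SEnd2 Crest.Agent.R172.SCM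
open Crest.Agent.R172.SLev0 (bq bq_apply gF gF_apply gF_flip gens_self PbK Gens)
open Crest.Agent.R172.PL (CoreM)
open scoped TensorProduct

section mats

variable {K : Type*} [Field K] {n1 n2 m1 m2 : ℕ}

theorem mt_map (C2 : Matrix (Fin n2) (Fin m2) K) (C1 : Matrix (Fin n1) (Fin m1) K)
    (z : (Fin m2 → K) ⊗[K] (Fin m1 → K)) :
    mt (TensorProduct.map C2.mulVecLin C1.mulVecLin z) = C2 * mt z * C1ᵀ := by
  induction z using TensorProduct.induction_on with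
  | zero => simp
  | tmul x y =>
    rw [TensorProduct.map_tmul, mt_tmul, mt_tmul, mulVecLin_apply, mulVecLin_apply,
      Matrix.mul_vecMulVec, Matrix.vecMulVec_mul, vecMul_transpose]
  | add x y hx hy => rw [map_add, map_add, hx, hy, map_add, Matrix.mul_add, Matrix.add_mul]

theorem mt_lT (a : Matrix (Fin m1) (Fin m1) K) (z : (Fin m2 → K) ⊗[K] (Fin m1 → K)) :
    mt (a.mulVecLin.lTensor (Fin m2 → K) z) = mt z * aᵀ := by
  induction z using TensorProduct.induction_on with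
  | zero => simp
  | tmul x y =>
    rw [LinearMap.lTensor_tmul, mt_tmul, mt_tmul, mulVecLin_apply, Matrix.vecMulVec_mul,
      vecMul_transpose]
  | add x y hx hy => rw [map_add, map_add, hx, hy, map_add, Matrix.add_mul]

theorem mt_rT (a : Matrix (Fin m2) (Fin m2) K) (z : (Fin m2 → K) ⊗[K] (Fin m1 → K)) :
    mt (a.mulVecLin.rTensor (Fin m1 → K) z) = a * mt z := by
  induction z using TensorProduct.induction_on with
  | zero => simp
  | tmul x y =>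
    rw [LinearMap.rTensor_tmul, mt_tmul, mt_tmul, mulVecLin_apply, Matrix.mul_vecMulVec]
  | add x y hx hy => rw [map_add, map_add, hx, hy, map_add, Matrix.mul_add]

theorem mt_eq_tm (z : (Fin m2 → K) ⊗[K] (Fin m1 → K)) :
    SUX5.tm (Pi.basisFun K (Fin m1)) (Pi.basisFun K (Fin m2)) z = mt z := by
  induction z using TensorProduct.induction_on with
  | zero => simp
  | tmul x y =>
    rw [SUX5.tm_tmul, mt_tmul]
    simp only [Pi.basisFun_equivFun, LinearEquiv.refl_apply]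
  | add x y hx hy => rw [map_add, map_add, hx, hy]

variable {A1 : Fin 3 → Matrix (Fin n1) (Fin n1) K} {A2 : Fin 3 → Matrix (Fin n2) (Fin n2) K}
  {a1 : Fin 3 → Matrix (Fin m1) (Fin m1) K} {a2 : Fin 3 → Matrix (Fin m2) (Fin m2) K}
  {C1 : Matrix (Fin n1) (Fin m1) K} {C2 : Matrix (Fin n2) (Fin m2) K}

/-- **sum-exact lift to the frames** -/
theorem lift_frame (o1 : ∀ y, ∃ x, C1 *ᵥ x = y) (o2 : ∀ y, ∃ x, C2 *ᵥ x = y)
    (h1 : ∀ s, A1 s * C1 = C1 * a1 s) (h2 : ∀ s, A2 s * C2 = C2 * a2 s)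
    (k1 : ∀ s x, C1 *ᵥ x = 0 → a1 s *ᵥ x = 0) (k2 : ∀ s x, C2 *ᵥ x = 0 → a2 s *ᵥ x = 0)
    (t1 : ⨆ t, LinearMap.range (a1 t).mulVecLin = ⊤)
    (t2 : ⨆ t, LinearMap.range (a2 t).mulVecLin = ⊤)
    {c : K} (hc : c ≠ 0) (x : Fin 3 → (Fin n2 → K) ⊗[K] (Fin n1 → K))
    (hx : ∑ t, RJM.DD (fun s => (A1 s).mulVecLin) (fun s => (A2 s).mulVecLin) c t (x t) = 0) :
    ∃ X : Fin 3 → Matrix (Fin m2) (Fin m1) K, (∀ s, C2 * X s * C1ᵀ = mt (x s)) ∧
      ∑ s, (X s * (a1 s)ᵀ - c • (a2 s * X s)) = 0 := by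
  obtain ⟨z, hz, hz'⟩ := SULift.lift_surj (π1 := C1.mulVecLin) (π2 := C2.mulVecLin)
    (A := fun t => (a1 t).mulVecLin) (B := fun t => (a2 t).mulVecLin)
    (a := fun t => (A1 t).mulVecLin) (b := fun t => (A2 t).mulVecLin)
    (fun y => o1 y) (fun y => o2 y)
    (fun t v => by simp only [mulVecLin_apply, mulVec_mulVec, h1])
    (fun t v => by simp only [mulVecLin_apply, mulVec_mulVec, h2])
    t1 t2 (fun t y hy => k1 t y hy) (fun t y hy => k2 t y hy) hc x hx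
  refine ⟨fun s => mt (z s), fun s => ?_, ?_⟩
  · rw [← mt_map, hz]
  · have e := congrArg mt hz'
    rw [map_zero, map_sum] at e
    rw [← e]
    refine Finset.sum_congr rfl fun s _ => ?_
    rw [map_sub, map_smul, mt_lT, mt_rT]

/-- radical arms in matrix form -/
theorem arm_zero {G1 : Matrix (Fin n1) (Fin n1) K} {G2 : Matrix (Fin n2) (Fin n2) K}
    (hG1 : G1ᵀ = -G1) {w : (Fin n2 → K) ⊗[K] (Fin n1 → K)}
    (hw : w ∈ (RJM.RT (LinearMap.ker G2.mulVecLin) ⊔ RJM.TR (LinearMap.ker G1.mulVecLin) :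
      Submodule K ((Fin n2 → K) ⊗[K] (Fin n1 → K)))) : G2 * mt w * G1 = 0 := by
  let L : ((Fin n2 → K) ⊗[K] (Fin n1 → K)) →ₗ[K] Matrix (Fin n2) (Fin n1) K :=
    { toFun := fun w => G2 * mt w * G1
      map_add' := fun a b => by rw [map_add, Matrix.mul_add, Matrix.add_mul]
      map_smul' := fun t a => by
        rw [map_smul, Matrix.mul_smul, Matrix.smul_mul, RingHom.id_apply] }
  have hle : (RJM.RT (LinearMap.ker G2.mulVecLin) ⊔ RJM.TR (LinearMap.ker G1.mulVecLin) :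
      Submodule K ((Fin n2 → K) ⊗[K] (Fin n1 → K))) ≤ LinearMap.ker L := by
    refine sup_le (Submodule.span_le.2 ?_) (Submodule.span_le.2 ?_)
    · rintro _ ⟨r, hr, p, rfl⟩
      rw [LinearMap.mem_ker, mulVecLin_apply] at hr
      change G2 * mt (r ⊗ₜ[K] p) * G1 = 0
      rw [mt_tmul, Matrix.mul_vecMulVec, hr, zero_vecMulVec, Matrix.zero_mul]
    · rintro _ ⟨p, r, hr, rfl⟩
      rw [LinearMap.mem_ker, mulVecLin_apply] at hr
      change G2 * mt (p ⊗ₜ[K] r) * G1 = 0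
      rw [mt_tmul, Matrix.mul_assoc, Matrix.vecMulVec_mul]
      have : r ᵥ* G1 = 0 := by
        rw [← mulVec_transpose, hG1, neg_mulVec, hr, neg_zero]
      rw [this]
      have h0 : vecMulVec p (0 : Fin n1 → K) = 0 := by ext i j; simp [vecMulVec_apply]
      rw [h0, Matrix.mul_zero]
  exact hle hw

/-- radical arms of the lift -/
theorem arm_frame (h1 : ∀ s, A1 s * C1 = C1 * a1 s) (h2 : ∀ s, A2 s * C2 = C2 * a2 s)
    {G1 : Matrix (Fin n1) (Fin n1) K} {G2 : Matrix (Fin n2) (Fin n2) K} (hG1 : G1ᵀ = -G1)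
    {g1 : Matrix (Fin m1) (Fin m1) K} {g2 : Matrix (Fin m2) (Fin m2) K}
    (e1 : g1 = C1ᵀ * G1 * C1) (e2 : g2 = C2ᵀ * G2 * C2)
    {c : K} {x : Fin 3 → (Fin n2 → K) ⊗[K] (Fin n1 → K)} (s : Fin 3)
    (hx : RJM.DD (fun s => (A1 s).mulVecLin) (fun s => (A2 s).mulVecLin) c s (x s) ∈
      (RJM.RT (LinearMap.ker G2.mulVecLin) ⊔ RJM.TR (LinearMap.ker G1.mulVecLin) :
      Submodule K ((Fin n2 → K) ⊗[K] (Fin n1 → K))))
    {X : Matrix (Fin m2) (Fin m1) K} (hX : C2 * X * C1ᵀ = mt (x s)) :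
    g2 * (X * (a1 s)ᵀ - c • (a2 s * X)) * g1 = 0 := by
  have h := arm_zero hG1 hx
  rw [RJM.DD, LinearMap.sub_apply, LinearMap.smul_apply, map_sub, map_smul, mt_lT, mt_rT,
    ← hX] at h
  have e3 : C2 * X * C1ᵀ * (A1 s)ᵀ = C2 * (X * (a1 s)ᵀ) * C1ᵀ := by
    have : C1ᵀ * (A1 s)ᵀ = (a1 s)ᵀ * C1ᵀ := by rw [← transpose_mul, h1, transpose_mul]
    simp only [Matrix.mul_assoc]
    rw [this]
  have e4 : A2 s * (C2 * X * C1ᵀ) = C2 * (a2 s * X) * C1ᵀ := by
    have : A2 s * (C2 * X * C1ᵀ) = (A2 s * C2) * X * C1ᵀ := by simp only [Matrix.mul_assoc]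
    rw [this, h2]
    simp only [Matrix.mul_assoc]
  rw [e3, e4] at h
  have e5 : g2 * (X * (a1 s)ᵀ - c • (a2 s * X)) * g1 =
      C2ᵀ * (G2 * (C2 * (X * (a1 s)ᵀ) * C1ᵀ - c • (C2 * (a2 s * X) * C1ᵀ)) * G1) * C1 := by
    rw [e1, e2]
    simp only [Matrix.mul_sub, Matrix.sub_mul, Matrix.mul_smul, Matrix.smul_mul, Matrix.mul_assoc]
  rw [e5, h, Matrix.mul_zero, Matrix.zero_mul]

/-- onto: left cancellation of the transpose -/
theorem onto_cancel (o1 : ∀ y, ∃ x, C1 *ᵥ x = y) {v : Fin n1 → K} (h : C1ᵀ *ᵥ v = 0) : v = 0 := by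
  refine dotProduct_eq_zero _ fun w => ?_
  obtain ⟨x, rfl⟩ := o1 w
  rw [← vecMul_transpose, dotProduct_comm, ← dotProduct_mulVec, h, dotProduct_zero]

end mats

section top

variable {K : Type*} [Field K] {δ : Type*} [Fintype δ] [DecidableEq δ] {m : ℕ}

theorem top_frame {Q : Submodule K (δ → K)} {U : Matrix δ (Fin m) K}
    {a : Fin 3 → Matrix (Fin m) (Fin m) K} {w : Fin 3 → Matrix δ δ K}
    (hs : ∀ u ∈ Q, ∃ x, u = U *ᵥ x) (hm : ∀ x, U *ᵥ x ∈ Q) (hi : ∀ x, U *ᵥ x = 0 → x = 0)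
    (ha : ∀ s, w s * U = U * a s)
    (hp : ∀ u ∈ Q, ∃ c : Fin 3 → (δ → K), (∀ s, c s ∈ Q) ∧ ∑ s, w s *ᵥ (c s) = u) :
    ⨆ t, LinearMap.range (a t).mulVecLin = ⊤ := by
  rw [eq_top_iff]
  intro x _
  obtain ⟨c, hc, e⟩ := hp _ (hm x)
  choose y hy using fun s => hs _ (hc s)
  have hx : x = ∑ s, a s *ᵥ y s := by
    refine sub_eq_zero.1 (hi _ ?_)
    rw [mulVec_sub, ← e, mulVec_sum, ← Finset.sum_sub_distrib]
    refine Finset.sum_eq_zero fun s _ => ?_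
    rw [hy s, mulVec_mulVec, mulVec_mulVec, ha, sub_self]
  rw [hx]
  exact Submodule.sum_mem _ fun s _ => Submodule.mem_iSup_of_mem s ⟨y s, mulVecLin_apply _ _⟩

end top

end Crest.Agent.R172.SLB562
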