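import Crest.Agent.R172.SLB562c
import Crest.Agent.R172.SInst
import Crest.Agent.R172.SLevA455
import Crest.Agent.R172.SZq842
import Crest.Agent.R172.SDesc
import Crest.Agent.R172.SDec2

/-!
Row 172 (S0260), (t2): the abstract half of level 2, `Geo22 → STop.Lev2`.
-/

set_option autoImplicit false
set_option linter.unusedSectionVars false
set_option maxHeartbeats 1000000

namespace Crest.Agent.R172.SLB562

open Matrix Module Crest.Agent.R172.FO Crest.Agent.R172.Qt Crest.Agent.R172.SpS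
open Crest.Agent.R172.SEnd Crest.Agent.R172.SEnd2 Crest.Agent.R172.SCM
open Crest.Agent.R172.SLev0 (bq bq_apply gF gF_apply gF_flip gens_self PbK Gens)
open Crest.Agent.R172.PL (CoreM)
open Crest.Agent.R172.SZ1 (Zn)
open scoped TensorProduct

/-- **LEVEL 2 from its geometric half** -/
theorem lev2_of (hg : SDec.Geo22) : STop.Lev2 := by
  intro ι _ _ δ _ _ K _ _ _ arm J B N W F f P R D l S ν ν' hne n1 n2 Q1 A1 Q2 A2 b1 b2
  refine SLevA455.gens_of S b1 b1 ?_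
  obtain ⟨m1, U1, a1, hU1, s1, e1, i1, w1⟩ := SInst.exists_frame S ν
  obtain ⟨m2, U2, a2, hU2, s2, e2, i2, w2⟩ := SInst.exists_frame S ν'
  obtain ⟨C1, hF1, o1, c1, k1, g1⟩ := SInst.exists_C S b1 hU1 s1 e1 w1
  obtain ⟨C2, hF2, o2, c2, k2, g2⟩ := SInst.exists_C S b2 hU2 s2 e2 w2
  obtain ⟨Λ, hΛ, h0, hex, hrel⟩ := hg S hne b1 b2 hU1 s1 i1 w1 hU2 s2 i2 w2
  have him : (algebraMap ℂ K Complex.I) ^ 2 = -1 := by
    rw [← map_pow, Complex.I_sq, map_neg, map_one]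
  have t1 : ⨆ t, LinearMap.range (a1 t).mulVecLin = ⊤ :=
    top_frame s1 e1 i1 w1 (fun u hu => UBlk.Qb_exists (S.hCtx F S.hF) S.hR S.hD hu)
  have t2 : ⨆ t, LinearMap.range (a2 t).mulVecLin = ⊤ :=
    top_frame s2 e2 i2 w2 (fun u hu => UBlk.Qb_exists (S.hCtx F S.hF) S.hR S.hD hu)
  have hG : ∀ {μ μ' : K}, μ ≠ μ' → D.maxGenEigenspace μ ≠ ⊥ → D.maxGenEigenspace μ' ≠ ⊥ →
      SLev0.Gens arm J B F P.1 l (SLev1h455.QGd S) (PbK arm J B F R P.1 D μ)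
        (PbK arm J B F R P.1 D μ') := by
    intro μ μ' hμ h1 h2
    obtain ⟨n, Q, A, b⟩ := S.pkg μ h1
    obtain ⟨n', Q', A', b'⟩ := S.pkg μ' h2
    exact (SLevA455.gens0 S hμ b b').2
  have hG1 : ∀ μ, μ ≠ ν → D.maxGenEigenspace μ ≠ ⊥ →
      SLev0.Gens arm J B F P.1 l (SLev1h455.QGd S) (PbK arm J B F R P.1 D μ)
        (PbK arm J B F R P.1 D ν) := by
    intro μ hμ h
    obtain ⟨n, Q, A, b⟩ := S.pkg μ h
    exact (SLevA455.gens0 S hμ b b1).2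
  have hG1' : ∀ μ, μ ≠ ν → D.maxGenEigenspace μ ≠ ⊥ →
      SLev0.Gens arm J B F P.1 l (SLev1h455.QGd S) (PbK arm J B F R P.1 D ν)
        (PbK arm J B F R P.1 D μ) := by
    intro μ hμ h
    obtain ⟨n, Q, A, b⟩ := S.pkg μ h
    exact (SLevA455.gens0 S hμ b b1).1
  have hG2 : ∀ μ, μ ≠ ν' → D.maxGenEigenspace μ ≠ ⊥ →
      SLev0.Gens arm J B F P.1 l (SLev1h455.QGd S) (PbK arm J B F R P.1 D μ)
        (PbK arm J B F R P.1 D ν') := by
    intro μ hμ h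
    obtain ⟨n, Q, A, b⟩ := S.pkg μ h
    exact (SLevA455.gens0 S hμ b b2).2
  have hG2' : ∀ μ, μ ≠ ν' → D.maxGenEigenspace μ ≠ ⊥ →
      SLev0.Gens arm J B F P.1 l (SLev1h455.QGd S) (PbK arm J B F R P.1 D ν')
        (PbK arm J B F R P.1 D μ) := by
    intro μ hμ h
    obtain ⟨n, Q, A, b⟩ := S.pkg μ h
    exact (SLevA455.gens0 S hμ b b2).1
  refine core (Q := SLev1h455.QGd S) b1 b2 hF1 hF2
    (Z1 := Zn arm J B F R P.1 D ν Q1) (Z2 := Zn arm J B F R P.1 D ν' Q2)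
    (SZq842.sZ b1 S.hR S.hD.2) (SZq842.sZ b2 S.hR S.hD.2)
    (SZq842.hZq b1 S.hD.2 S.pkg _ hG1) (SZq842.hqZ b1 S.hD.2 S.pkg _ hG1')
    (SZq842.hZq b2 S.hD.2 S.pkg _ hG2) (SZq842.hqZ b2 S.hD.2 S.pkg _ hG2')
    hΛ h0 him
    (fun ρ X β γ => SDec.Dec F (Fᵀ * J * (P.1 * F)) U1 U2 a1 a2 (-(ρ ^ 2)) (X, β, γ)) ?_
    (fun ρ hρ ρ' hρ' X β0 γ0 X' β' γ' h h' =>
      hrel ρ hρ ρ' hρ' (X, β0, γ0) (X', β', γ') h h')
  intro ρ hρ x hx
  have hρ0 : ρ ≠ 0 := fun h => h0 (h ▸ hρ)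
  have hc : (-ρ ^ 2 : K) ≠ 0 := neg_ne_zero.2 (pow_ne_zero 2 hρ0)
  obtain ⟨X, hX, hsum⟩ := lift_frame o1 o2 c1 c2 (fun s x h => i1 _ (k1 s x h))
    (fun s x h => i2 _ (k2 s x h)) t1 t2 hc x hx.sum
  obtain ⟨β, γ, hd, hz⟩ := hex ρ hρ X hsum
    (fun s => arm_frame c1 c2 b1.skew g1.symm g2.symm s (hx.arm s) (hX s))
  obtain ⟨b, k, hb, hk, hb', hk'⟩ := SDesc683.exists_pairM (A := A1) (B := A2) (a := a1) (bb := a2)
    (C1 := C1) (C2 := C2) o1 o2 c1 c2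
    (R1 := LinearMap.ker (Q1ᵀ * (J * P.1) * Q1).mulVecLin)
    (R2 := LinearMap.ker (Q2ᵀ * (J * P.1) * Q2).mulVecLin)
    (Z := Zn arm J B F R P.1 D ν Q1) (Z2 := Zn arm J B F R P.1 D ν' Q2)
    (SZq842.sZ b1 S.hR S.hD.2) (SZq842.sZ b2 S.hR S.hD.2)
    (G1 := Q1ᵀ * (J * P.1) * Q1) (G2 := Q2ᵀ * (J * P.1) * Q2)
    (g := gF J P.1 Q2) (fun x y => gF_apply _ _ _) (g1 := gF J P.1 Q1) (fun x y => gF_apply _ _ _)
    (eps := -1) (c := -ρ ^ 2) (X := X) (x := x) (fun t => by rw [mt_eq_tm, hX])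
    (β := β) (γ := γ)
    (fun u => by
      rw [LinearMap.mem_ker, mulVecLin_apply]
      refine onto_cancel o1 ?_
      have h := congrArg (fun M => M *ᵥ u) hd.rb
      simp only [zero_mulVec] at h
      rw [← h, ← g1]
      simp only [mulVec_mulVec, Matrix.mul_assoc])
    (fun u hu => by
      obtain ⟨z, hz'⟩ := hz.zb u (by
        rw [mulVec_mulVec, hF2, ← mulVec_mulVec, hu, mulVec_zero])
      refine SDesc.mem_Zn_of hne b2 hF1 hF2 (y2 := z) ?_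
      rw [← mulVec_mulVec, ← mulVec_mulVec]
      exact hz')
    (fun u => by
      rw [LinearMap.mem_ker, mulVecLin_apply]
      refine onto_cancel o2 ?_
      have h := congrArg (fun M => M *ᵥ u) hd.rk
      simp only [zero_mulVec] at h
      rw [← h, ← g2]
      simp only [mulVec_mulVec, Matrix.mul_assoc])
    (fun u hu => by
      obtain ⟨z, hz'⟩ := hz.zk u (by
        rw [mulVec_mulVec, hF1, ← mulVec_mulVec, hu, mulVec_zero])
      refine SDesc.mem_Zn_of hne.symm b1 hF2 hF1 (y2 := z) ?_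
      rw [← mulVec_mulVec, ← mulVec_mulVec]
      exact hz')
    (fun t u => by
      have h := congrArg (fun M => M *ᵥ u) (hd.cb t)
      simp only [zero_mulVec] at h
      have hz0 : C1 *ᵥ ((a1 t * (β - (X t)ᵀ * (C2ᵀ * (Q2ᵀ * (J * P.1) * Q2) * C2)) -
          (-1 * -ρ ^ 2 : K) • ((β - (X t)ᵀ * (C2ᵀ * (Q2ᵀ * (J * P.1) * Q2) * C2)) * a2 t)) *ᵥ u)
          = 0 := by
        refine b1.inj _ ?_
        rw [g2, neg_one_mul, neg_smul, sub_neg_eq_add, mulVec_mulVec, mulVec_mulVec, ← hF1,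
          Matrix.mul_assoc]
        exact h
      rw [hz0]
      exact Submodule.zero_mem _)
    (fun t u => by
      have h := congrArg (fun M => M *ᵥ u) (hd.ck t)
      simp only [zero_mulVec] at h
      have hz0 : C2 *ᵥ (((-1 : K) • ((γ - X t * (C1ᵀ * (Q1ᵀ * (J * P.1) * Q1) * C1)) * a1 t) -
          (-ρ ^ 2) • (a2 t * (γ - X t * (C1ᵀ * (Q1ᵀ * (J * P.1) * Q1) * C1)))) *ᵥ u) = 0 := by
        refine b2.inj _ ?_
        have e : ((-1 : K) • ((γ - X t * (C1ᵀ * (Q1ᵀ * (J * P.1) * Q1) * C1)) * a1 t) -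
            (-ρ ^ 2) • (a2 t * (γ - X t * (C1ᵀ * (Q1ᵀ * (J * P.1) * Q1) * C1)))) =
            -((-ρ ^ 2) • (a2 t * (γ - X t * (U1ᵀ * (Fᵀ * J * (P.1 * F)) * U1))) +
              (γ - X t * (U1ᵀ * (Fᵀ * J * (P.1 * F)) * U1)) * a1 t) := by
          rw [g1, neg_one_smul]
          abel
        rw [e, neg_mulVec, mulVec_neg, mulVec_neg, neg_eq_zero, mulVec_mulVec, mulVec_mulVec,
          ← hF2, Matrix.mul_assoc]
        exact h
      rw [hz0]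
      exact Submodule.zero_mem _)
  refine ⟨X, β, γ, b, k, hd, hX, fun y => ?_, fun y => ?_, hb, hk⟩
  · rw [← neg_sub]
    exact Submodule.neg_mem _ (hb' y)
  · rw [← neg_sub]
    exact Submodule.neg_mem _ (hk' y)

end Crest.Agent.R172.SLB562
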