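import Mathlib

/-!
Row 172, node (S) (structure lemma of note 12992), part a: the lifting of the vanishing of `H^1`
to cores.  (helper635)
-/

namespace Crest.Agent.R172.SL

open Module

section Defs

variable {k : Type*} [Field k] {ι : Type*} [Fintype ι]
variable {U W : Type*} [AddCommGroup U] [Module k U] [AddCommGroup W] [Module k W]

/-- vanishing of `H^1` of `Hom(U,W) → ⊕ Hom(U,W)/Hom_{φ s}(U,W) → Hom(U,W)`. -/
def H1 (φ : ι → End k U) (ψ : ι → End k W) : Prop :=
  ∀ x : ι → (U →ₗ[k] W), ∑ s, (x s ∘ₗ φ s - ψ s ∘ₗ x s) = 0 →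
    ∃ y : U →ₗ[k] W, ∀ s, (x s - y) ∘ₗ φ s = ψ s ∘ₗ (x s - y)

/-- the boundary map -/
def bd (φ : ι → End k U) (ψ : ι → End k W) : (ι → (U →ₗ[k] W)) →ₗ[k] (U →ₗ[k] W) where
  toFun x := ∑ s, (x s ∘ₗ φ s - ψ s ∘ₗ x s)
  map_add' x y := by
    rw [← Finset.sum_add_distrib]
    refine Finset.sum_congr rfl fun s _ => ?_
    simp only [Pi.add_apply, LinearMap.add_comp, LinearMap.comp_add]
    abel
  map_smul' c x := by
    rw [RingHom.id_apply, Finset.smul_sum]
    refine Finset.sum_congr rfl fun s _ => ?_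
    rw [Pi.smul_apply, LinearMap.smul_comp, LinearMap.comp_smul, smul_sub]

theorem bd_apply (φ : ι → End k U) (ψ : ι → End k W) (x : ι → (U →ₗ[k] W)) :
    bd φ ψ x = ∑ s, (x s ∘ₗ φ s - ψ s ∘ₗ x s) := rfl

/-- no `A`-linear map `W → U` other than zero. -/
def NoHom (ψ : ι → End k W) (φ : ι → End k U) : Prop :=
  ∀ B : W →ₗ[k] U, (∀ s, B ∘ₗ ψ s = φ s ∘ₗ B) → B = 0

theorem sum_coord_smulRight [FiniteDimensional k U] (e : U →ₗ[k] W) :
    e = ∑ i, ((Module.finBasis k U).coord i).smulRight (e (Module.finBasis k U i)) := by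
  refine (Module.finBasis k U).ext fun j => ?_
  simp [LinearMap.sum_apply, Finsupp.single_apply]

theorem bd_surj [DecidableEq ι] [FiniteDimensional k U] [FiniteDimensional k W]
    (φ : ι → End k U) (ψ : ι → End k W) (h0 : NoHom ψ φ) :
    Function.Surjective (bd φ ψ) := by
  rw [← LinearMap.range_eq_top]
  by_contra hne
  obtain ⟨f, hf0, hf⟩ := Submodule.exists_le_ker_of_lt_top _ (lt_top_iff_ne_top.mpr hne)
  apply hf0
  -- the dual map
  obtain ⟨B, hB⟩ : ∃ B : W →ₗ[k] U, ∀ w (ξ : Dual k U), ξ (B w) = f (LinearMap.smulRight ξ w) := by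
    let F : W →ₗ[k] Dual k (Dual k U) :=
      { toFun := fun w =>
          { toFun := fun ξ => f (LinearMap.smulRight ξ w)
            map_add' := fun a b => by
              rw [← map_add]; congr 1; ext u
              rw [LinearMap.smulRight_apply, LinearMap.add_apply, LinearMap.add_apply,
                LinearMap.smulRight_apply, LinearMap.smulRight_apply, add_smul]
            map_smul' := fun c a => by
              rw [RingHom.id_apply, ← map_smul]; congr 1; ext u
              rw [LinearMap.smulRight_apply, LinearMap.smul_apply, LinearMap.smul_apply,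
                LinearMap.smulRight_apply, smul_assoc] }
        map_add' := fun a b => by
          ext ξ
          change f _ = f _ + f _
          rw [← map_add]; congr 1; ext u
          rw [LinearMap.smulRight_apply, LinearMap.add_apply,
                LinearMap.smulRight_apply, LinearMap.smulRight_apply, smul_add]
        map_smul' := fun c a => by
          ext ξ
          change f _ = c • f _
          rw [← map_smul]; congr 1; ext u
          rw [LinearMap.smulRight_apply, LinearMap.smul_apply, LinearMap.smulRight_apply,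
            smul_comm] }
    refine ⟨(Module.evalEquiv k U).symm.toLinearMap ∘ₗ F, fun w ξ => ?_⟩
    rw [LinearMap.comp_apply, LinearEquiv.coe_coe, Module.apply_evalEquiv_symm_apply]
    rfl
  have hcomm : ∀ s, B ∘ₗ ψ s = φ s ∘ₗ B := by
    intro s
    ext w
    rw [← sub_eq_zero]
    refine (Module.forall_dual_apply_eq_zero_iff k _).mp fun ξ => ?_
    rw [map_sub, LinearMap.comp_apply, LinearMap.comp_apply, hB]
    have h1 : ξ (φ s (B w)) = f (LinearMap.smulRight (ξ ∘ₗ φ s) w) := by
      rw [← hB]; rfl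
    rw [h1, ← map_sub]
    have h2 : bd φ ψ (Pi.single s (LinearMap.smulRight ξ w)) =
        LinearMap.smulRight (ξ ∘ₗ φ s) w - LinearMap.smulRight ξ (ψ s w) := by
      rw [bd_apply, Finset.sum_eq_single s]
      · rw [Pi.single_eq_same]
        ext u
        simp
      · intro b _ hb
        rw [Pi.single_eq_of_ne hb]
        simp
      · intro h; exact absurd (Finset.mem_univ s) h
    have h3 : f (bd φ ψ (Pi.single s (LinearMap.smulRight ξ w))) = 0 :=
      hf ⟨_, rfl⟩
    rw [h2, map_sub] at h3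
    rw [map_sub, ← neg_sub, h3, neg_zero]
  have hB0 := h0 B hcomm
  ext e
  rw [sum_coord_smulRight e, map_sum]
  simp only [LinearMap.zero_apply]
  refine Finset.sum_eq_zero fun i _ => ?_
  rw [← hB, hB0]
  simp

end Defs

section TI

variable {k : Type*} [Field k] {ι : Type*}
variable {U : Type*} [AddCommGroup U] [Module k U]

/-- `N ↦ {v | ∀ s, φ s v ∈ N}`. -/
def preF (φ : ι → End k U) : Submodule k U →o Submodule k U where
  toFun N := ⨅ s, N.comap (φ s)
  monotone' _ _ h := iInf_mono fun _ => Submodule.comap_mono h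

/-- `N ↦ ∑ s, φ s N`. -/
def imF (φ : ι → End k U) : Submodule k U →o Submodule k U where
  toFun N := ⨆ s, N.map (φ s)
  monotone' _ _ h := iSup_mono fun _ => Submodule.map_mono h

theorem mem_preF {φ : ι → End k U} {N : Submodule k U} {v : U} :
    v ∈ preF φ N ↔ ∀ s, φ s v ∈ N := by
  change v ∈ (⨅ s, N.comap (φ s)) ↔ _
  simp [Submodule.mem_iInf]

theorem imF_le {φ : ι → End k U} {N M : Submodule k U} :
    imF φ N ≤ M ↔ ∀ s, ∀ v ∈ N, φ s v ∈ M := by
  change (⨆ s, N.map (φ s)) ≤ M ↔ _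
  simp only [iSup_le_iff, Submodule.map_le_iff_le_comap]
  rfl

theorem mem_imF_of {φ : ι → End k U} {N : Submodule k U} {v : U} (hv : v ∈ N) (s : ι) :
    φ s v ∈ imF φ N :=
  (le_iSup (fun s => N.map (φ s)) s) ⟨v, hv, rfl⟩

/-- the largest nilpotent submodule. -/
def TT (φ : ι → End k U) : Submodule k U := OrderHom.lfp (preF φ)

/-- the largest submodule with `N = ∑ φ s N`. -/
def II (φ : ι → End k U) : Submodule k U := OrderHom.gfp (imF φ)

theorem preF_TT (φ : ι → End k U) : preF φ (TT φ) = TT φ := OrderHom.map_lfp _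

theorem imF_II (φ : ι → End k U) : imF φ (II φ) = II φ := OrderHom.map_gfp _

theorem TT_le {φ : ι → End k U} {N : Submodule k U} (h : preF φ N ≤ N) : TT φ ≤ N :=
  OrderHom.lfp_le _ h

theorem le_II {φ : ι → End k U} {N : Submodule k U} (h : N ≤ imF φ N) : N ≤ II φ :=
  OrderHom.le_gfp _ h

theorem TT_stable (φ : ι → End k U) (s : ι) {v : U} (hv : v ∈ TT φ) : φ s v ∈ TT φ := by
  rw [← preF_TT, mem_preF] at hv
  exact hv s

theorem mem_TT_of {φ : ι → End k U} {v : U} (hv : ∀ s, φ s v ∈ TT φ) : v ∈ TT φ := by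
  rw [← preF_TT, mem_preF]
  exact hv

theorem II_stable (φ : ι → End k U) (s : ι) {v : U} (hv : v ∈ II φ) : φ s v ∈ II φ := by
  have := mem_imF_of (φ := φ) hv s
  rwa [imF_II] at this

/-- no common kernel vector -/
def NoK (φ : ι → End k U) : Prop := ∀ v, (∀ s, φ s v = 0) → v = 0

/-- perfect: `U = ∑ im φ s`. -/
def Perf (φ : ι → End k U) : Prop := imF φ ⊤ = ⊤

/-- quotient by the torsion -/
def qT (φ : ι → End k U) (s : ι) : End k (U ⧸ TT φ) :=
  (TT φ).mapQ (TT φ) (φ s) fun _ hv => TT_stable φ s hv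

/-- restriction to the perfect part -/
def rI (φ : ι → End k U) (s : ι) : End k (II φ) :=
  (φ s).restrict fun _ hv => II_stable φ s hv

/-- restriction to the torsion -/
def rT (φ : ι → End k U) (s : ι) : End k (TT φ) :=
  (φ s).restrict fun _ hv => TT_stable φ s hv

/-- quotient by the perfect part -/
def qI (φ : ι → End k U) (s : ι) : End k (U ⧸ II φ) :=
  (II φ).mapQ (II φ) (φ s) fun _ hv => II_stable φ s hv

theorem qT_mk (φ : ι → End k U) (s : ι) (v : U) :
    qT φ s ((TT φ).mkQ v) = (TT φ).mkQ (φ s v) := rfl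

theorem qI_mk (φ : ι → End k U) (s : ι) (v : U) :
    qI φ s ((II φ).mkQ v) = (II φ).mkQ (φ s v) := rfl

theorem noK_qT (φ : ι → End k U) : NoK (qT φ) := by
  intro v hv
  obtain ⟨u, rfl⟩ := Submodule.mkQ_surjective _ v
  rw [Submodule.mkQ_apply, Submodule.Quotient.mk_eq_zero]
  refine mem_TT_of fun s => ?_
  have := hv s
  rwa [qT_mk, Submodule.mkQ_apply, Submodule.Quotient.mk_eq_zero] at this

theorem noK_rI {φ : ι → End k U} (h : NoK φ) : NoK (rI φ) := by
  intro v hv
  have : (v : U) = 0 := h _ fun s => by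
    have := hv s
    have h2 := congrArg Subtype.val this
    simpa [rI] using h2
  exact Subtype.ext this

theorem perf_rI (φ : ι → End k U) : Perf (rI φ) := by
  rw [Perf, eq_top_iff]
  have key : II φ ≤ (imF (rI φ) ⊤).map (II φ).subtype := by
    conv_lhs => rw [← imF_II]
    rw [imF_le]
    intro s v hv
    exact ⟨rI φ s ⟨v, hv⟩, mem_imF_of Submodule.mem_top s, rfl⟩
  rintro ⟨v, hv⟩ -
  obtain ⟨w, hw, hwv⟩ := key hv
  have : w = ⟨v, hv⟩ := Subtype.ext hwv
  rwa [← this]

/-- `A`-linear maps from a torsion module to a module without common kernel vector vanish. -/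
theorem noHom_rT {W : Type*} [AddCommGroup W] [Module k W] {φ : ι → End k U} (h : NoK φ)
    (ψ : ι → End k W) : NoHom (rT ψ) φ := by
  intro B hB
  have key : TT ψ ≤ (LinearMap.ker B).map (TT ψ).subtype := by
    apply TT_le
    intro v hv
    rw [mem_preF] at hv
    have hv' : v ∈ TT ψ := mem_TT_of fun s => by
      obtain ⟨w, _, hw⟩ := hv s
      rw [← hw]; exact w.2
    refine ⟨⟨v, hv'⟩, ?_, rfl⟩
    change B ⟨v, hv'⟩ = 0
    refine h _ fun s => ?_
    have h1 := congrArg (fun f => f ⟨v, hv'⟩) (hB s)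
    simp only [LinearMap.comp_apply] at h1
    rw [← h1]
    obtain ⟨w, hw0, hw⟩ := hv s
    have : rT ψ s ⟨v, hv'⟩ = w := Subtype.ext hw.symm
    rw [this]
    exact hw0
  ext ⟨v, hv⟩
  obtain ⟨w, hw, hwv⟩ := key hv
  have : w = ⟨v, hv⟩ := Subtype.ext hwv
  rw [← this]
  exact hw

/-- `A`-linear maps from the perfect part to the quotient by the perfect part vanish. -/
theorem noHom_qI {W : Type*} [AddCommGroup W] [Module k W] (φ : ι → End k U)
    (ψ : ι → End k W) : NoHom (rI ψ) (qI φ) := by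
  intro B hB
  set N : Submodule k U := (LinearMap.range B).comap (II φ).mkQ with hN
  have hIN : II φ ≤ N := by
    intro v hv
    rw [hN, Submodule.mem_comap, Submodule.mkQ_apply, (Submodule.Quotient.mk_eq_zero _).mpr hv]
    exact zero_mem _
  have h1 : II φ ≤ imF φ N := by
    conv_lhs => rw [← imF_II]
    exact (imF φ).monotone' hIN
  have h2 : (⊤ : Submodule k (II ψ)) ≤ ((imF φ N).map (II φ).mkQ).comap B := by
    have := perf_rI ψ
    rw [Perf] at this
    rw [← this, imF_le]
    intro s w _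
    rw [Submodule.mem_comap]
    have h3 := congrArg (fun f => f w) (hB s)
    simp only [LinearMap.comp_apply] at h3
    rw [h3]
    obtain ⟨u, hu⟩ := Submodule.mkQ_surjective _ (B w)
    rw [← hu, qI_mk]
    refine ⟨_, mem_imF_of ?_ s, rfl⟩
    rw [hN, Submodule.mem_comap, hu]
    exact ⟨w, rfl⟩
  have h4 : N ≤ II φ := by
    apply le_II
    intro u hu
    rw [hN, Submodule.mem_comap] at hu
    obtain ⟨w, hw⟩ := hu
    obtain ⟨u', hu', hu''⟩ := h2 (Submodule.mem_top : w ∈ ⊤)
    rw [hw] at hu''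
    have h5 : u - u' ∈ II φ := by
      rw [← Submodule.Quotient.mk_eq_zero, ← Submodule.mkQ_apply, map_sub, hu'', sub_self]
    have : u = (u - u') + u' := by abel
    rw [this]
    exact add_mem (h1 h5) hu'
  ext w
  obtain ⟨u, hu⟩ := Submodule.mkQ_surjective _ (B w)
  have : u ∈ N := by
    rw [hN, Submodule.mem_comap, hu]
    exact ⟨w, rfl⟩
  rw [← hu, Submodule.mkQ_apply, (Submodule.Quotient.mk_eq_zero _).mpr (h4 this)]
  rfl

end TI

section Steps

variable {k : Type*} [Field k] {ι : Type*} [Fintype ι] [DecidableEq ι]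
variable {U W : Type*} [AddCommGroup U] [Module k U] [AddCommGroup W] [Module k W]
variable [FiniteDimensional k U] [FiniteDimensional k W]

theorem H1_quot (φ : ι → End k U) (ψ : ι → End k W) (h : H1 φ ψ) : H1 (qT φ) (qT ψ) := by
  intro x hx
  obtain ⟨σ, hσ⟩ := LinearMap.exists_rightInverse_of_surjective (TT ψ).mkQ
    (LinearMap.range_eq_top.mpr (Submodule.mkQ_surjective _))
  have hσ' : ∀ w, (TT ψ).mkQ (σ w) = w := fun w => by
    have := congrArg (fun f => f w) hσ
    simpa using this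
  set X0 : ι → ((U ⧸ TT φ) →ₗ[k] W) := fun s => σ ∘ₗ x s with hX0
  set e : (U ⧸ TT φ) →ₗ[k] W := ∑ s, (X0 s ∘ₗ qT φ s - ψ s ∘ₗ X0 s) with he
  have he0 : ∀ u, e u ∈ TT ψ := by
    intro u
    rw [← Submodule.Quotient.mk_eq_zero, ← Submodule.mkQ_apply]
    have h1 : (TT ψ).mkQ (e u) = (∑ s, (x s ∘ₗ qT φ s - qT ψ s ∘ₗ x s)) u := by
      rw [he, LinearMap.sum_apply, map_sum, LinearMap.sum_apply]
      refine Finset.sum_congr rfl fun s _ => ?_
      simp only [hX0, LinearMap.sub_apply, LinearMap.comp_apply, map_sub, hσ']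
      congr 1
      rw [← qT_mk, hσ']
    rw [h1, hx]; rfl
  obtain ⟨x', hx'⟩ := bd_surj (qT φ) (rT ψ) (noHom_rT (noK_qT φ) ψ) (e.codRestrict (TT ψ) he0)
  set X : ι → (U →ₗ[k] W) := fun s => (X0 s - (TT ψ).subtype ∘ₗ x' s) ∘ₗ (TT φ).mkQ with hX
  have hXs : ∀ s u, X s u = X0 s ((TT φ).mkQ u) - (x' s ((TT φ).mkQ u) : W) := fun s u => rfl
  have hsum : ∑ s, (X s ∘ₗ φ s - ψ s ∘ₗ X s) = 0 := by
    ext u
    have h1 := congrArg (fun f => ((f ((TT φ).mkQ u) : TT ψ) : W)) hx'
    simp only [bd_apply, LinearMap.sum_apply, AddSubmonoidClass.coe_finsetSum,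
      LinearMap.codRestrict_apply] at h1
    rw [he, LinearMap.sum_apply] at h1
    rw [LinearMap.sum_apply, LinearMap.zero_apply, ← sub_eq_zero.mpr h1.symm,
      ← Finset.sum_sub_distrib]
    refine Finset.sum_congr rfl fun s _ => ?_
    simp only [LinearMap.sub_apply, LinearMap.comp_apply, hXs, map_sub, AddSubgroupClass.coe_sub,
      ← qT_mk]
    have : ((rT ψ s (x' s ((TT φ).mkQ u)) : TT ψ) : W) = ψ s (x' s ((TT φ).mkQ u)) := rfl
    rw [this]
    abel
  obtain ⟨y, hy⟩ := h X hsum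
  have hy' : ∀ s u, X s (φ s u) - y (φ s u) = ψ s (X s u) - ψ s (y u) := by
    intro s u
    have := congrArg (fun f => f u) (hy s)
    simpa using this
  have hyT : TT φ ≤ (TT ψ).comap y := by
    have h1 : TT φ ≤ (TT ψ).comap y ⊓ TT φ := by
      apply TT_le
      intro v hv
      rw [mem_preF] at hv
      have hvT : v ∈ TT φ := mem_TT_of fun s => (hv s).2
      refine ⟨?_, hvT⟩
      rw [SetLike.mem_coe, Submodule.mem_comap]
      refine mem_TT_of fun s => ?_
      have h2 := hy' s v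
      have h3 : X s (φ s v) = 0 := by
        rw [hXs, Submodule.mkQ_apply, (Submodule.Quotient.mk_eq_zero _).mpr (TT_stable φ s hvT)]
        simp
      have h4 : X s v = 0 := by
        rw [hXs, Submodule.mkQ_apply, (Submodule.Quotient.mk_eq_zero _).mpr hvT]
        simp
      rw [h3, h4, map_zero, zero_sub, zero_sub, neg_inj] at h2
      rw [← h2]
      exact (hv s).1
    exact h1.trans inf_le_left
  refine ⟨(TT φ).mapQ (TT ψ) y hyT, fun s => ?_⟩
  ext u
  simp only [LinearMap.comp_apply, LinearMap.sub_apply, Submodule.mapQ_apply,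
    Submodule.mkQ_apply]
  have h1 := congrArg (TT ψ).mkQ (hy' s u)
  simp only [map_sub, hXs] at h1
  have h2 : ∀ v, (TT ψ).mkQ ((x' s v : TT ψ) : W) = 0 := fun v => by
    rw [Submodule.mkQ_apply, (Submodule.Quotient.mk_eq_zero _).mpr (x' s v).2]
  have h3 : ∀ v, (TT ψ).mkQ (ψ s ((x' s v : TT ψ) : W)) = 0 := fun v => by
    rw [Submodule.mkQ_apply, (Submodule.Quotient.mk_eq_zero _).mpr (TT_stable ψ s (x' s v).2)]
  rw [h2, h3, sub_zero, sub_zero] at h1
  simp only [hX0, LinearMap.comp_apply, hσ', ← qT_mk ψ] at h1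
  rw [map_sub]
  exact h1

theorem H1_restr (φ : ι → End k U) (ψ : ι → End k W) (h : H1 φ ψ) : H1 (rI φ) (rI ψ) := by
  intro x hx
  have hext : ∀ s, ∃ X0 : U →ₗ[k] II ψ, X0 ∘ₗ (II φ).subtype = x s := fun s =>
    LinearMap.exists_extend (x s)
  choose X0 hX0 using hext
  have hX0' : ∀ s (u : II φ), X0 s (u : U) = x s u := fun s u => by
    rw [← hX0 s]; rfl
  set e : U →ₗ[k] II ψ := ∑ s, (X0 s ∘ₗ φ s - rI ψ s ∘ₗ X0 s) with he
  have he0 : II φ ≤ LinearMap.ker e := by
    intro u hu
    rw [LinearMap.mem_ker, he]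
    have h1 := congrArg (fun f => f ⟨u, hu⟩) hx
    simp only [LinearMap.sum_apply, LinearMap.sub_apply, LinearMap.comp_apply,
      LinearMap.zero_apply] at h1
    rw [← h1, LinearMap.sum_apply]
    refine Finset.sum_congr rfl fun s _ => ?_
    simp only [LinearMap.sub_apply, LinearMap.comp_apply]
    rw [← hX0' s ⟨u, hu⟩, ← hX0' s (rI φ s ⟨u, hu⟩)]
    rfl
  obtain ⟨x', hx'⟩ := bd_surj (qI φ) (rI ψ) (noHom_qI φ ψ) ((II φ).liftQ e he0)
  set X : ι → (U →ₗ[k] W) := fun s =>
    (II ψ).subtype ∘ₗ (X0 s - x' s ∘ₗ (II φ).mkQ) with hX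
  have hXs : ∀ s u, X s u = (X0 s u : W) - (x' s ((II φ).mkQ u) : W) := fun s u => rfl
  have hXI : ∀ s u, X s u ∈ II ψ := fun s u => by
    rw [hXs]; exact sub_mem (X0 s u).2 (x' s _).2
  have hsum : ∑ s, (X s ∘ₗ φ s - ψ s ∘ₗ X s) = 0 := by
    ext u
    have h1 := congrArg (fun f => ((f ((II φ).mkQ u) : II ψ) : W)) hx'
    simp only [bd_apply, LinearMap.sum_apply, AddSubmonoidClass.coe_finsetSum] at h1
    have h1' : ((((II φ).liftQ e he0) ((II φ).mkQ u) : II ψ) : W) = (e u : W) := by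
      rw [Submodule.mkQ_apply, Submodule.liftQ_apply]
    rw [h1', he, LinearMap.sum_apply, AddSubmonoidClass.coe_finsetSum] at h1
    rw [LinearMap.sum_apply, LinearMap.zero_apply, ← sub_eq_zero.mpr h1.symm,
      ← Finset.sum_sub_distrib]
    refine Finset.sum_congr rfl fun s _ => ?_
    simp only [LinearMap.sub_apply, LinearMap.comp_apply, hXs, map_sub, AddSubgroupClass.coe_sub,
      ← qI_mk]
    have h5 : ∀ w : II ψ, ((rI ψ s w : II ψ) : W) = ψ s w := fun _ => rfl
    rw [h5, h5]
    abel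
  obtain ⟨y, hy⟩ := h X hsum
  have hy' : ∀ s u, X s (φ s u) - y (φ s u) = ψ s (X s u) - ψ s (y u) := by
    intro s u
    have := congrArg (fun f => f u) (hy s)
    simpa using this
  have hyI : ∀ u ∈ II φ, y u ∈ II ψ := by
    have h1 : (II φ).map y ⊔ II ψ ≤ II ψ := by
      apply le_II
      have h2 : II ψ ≤ imF ψ ((II φ).map y ⊔ II ψ) := by
        conv_lhs => rw [← imF_II]
        exact (imF ψ).monotone' le_sup_right
      refine sup_le ?_ h2
      rw [Submodule.map_le_iff_le_comap]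
      conv_lhs => rw [← imF_II]
      rw [imF_le]
      intro s u hu
      rw [Submodule.mem_comap]
      have h3 : y (φ s u) = (X s (φ s u) - ψ s (X s u)) + ψ s (y u) := by
        have := hy' s u
        rw [sub_eq_iff_eq_add] at this
        rw [this]; abel
      rw [h3]
      refine add_mem (h2 (sub_mem (hXI _ _) (II_stable ψ s (hXI _ _)))) ?_
      exact mem_imF_of (Submodule.mem_sup_left (Submodule.mem_map_of_mem hu)) s
    intro u hu
    exact h1 (Submodule.mem_sup_left (Submodule.mem_map_of_mem hu))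
  refine ⟨y.restrict hyI, fun s => ?_⟩
  ext ⟨u, hu⟩
  have h1 := hy' s u
  have h2 : ∀ v ∈ II φ, X s v = (X0 s v : W) := fun v hv => by
    rw [hXs, Submodule.mkQ_apply, (Submodule.Quotient.mk_eq_zero _).mpr hv]
    simp
  rw [h2 _ hu, h2 _ (II_stable φ s hu)] at h1
  have h3 := hX0' s ⟨u, hu⟩
  have h4 := hX0' s (rI φ s ⟨u, hu⟩)
  have h4' : X0 s (φ s u) = x s (rI φ s ⟨u, hu⟩) := h4
  rw [h4', h3] at h1
  simp only [LinearMap.comp_apply, LinearMap.sub_apply, AddSubgroupClass.coe_sub, map_sub]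
  exact h1

/-- the core of a module -/
abbrev Core (φ : ι → End k U) : Type _ := II (qT φ)

/-- the operators on the core -/
abbrev core (φ : ι → End k U) : ι → End k (Core φ) := rI (qT φ)

theorem H1_core (φ : ι → End k U) (ψ : ι → End k W) (h : H1 φ ψ) : H1 (core φ) (core ψ) :=
  H1_restr _ _ (H1_quot _ _ h)

omit [Fintype ι] [DecidableEq ι] [FiniteDimensional k U] in
theorem noK_core (φ : ι → End k U) : NoK (core φ) := noK_rI (noK_qT φ)

omit [Fintype ι] [DecidableEq ι] [FiniteDimensional k U] in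
theorem perf_core (φ : ι → End k U) : Perf (core φ) := perf_rI _

end Steps

end Crest.Agent.R172.SL
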