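import Crest.Agent.R172.SLa

/-!
Row 172, node (S) (structure lemma of note 12992), part b: the dimension count.  (helper635)
-/

namespace Crest.Agent.R172.SL

open Module

universe u v w

section Homs

variable {k : Type w} [Field k]
variable {U : Type u} {W : Type v} [AddCommGroup U] [Module k U] [AddCommGroup W] [Module k W]

/-- intertwiners -/
def homs (φ : End k U) (ψ : End k W) : Submodule k (U →ₗ[k] W) where
  carrier := {x | x ∘ₗ φ = ψ ∘ₗ x}
  add_mem' {a b} ha hb := by
    simp only [Set.mem_ofPred_eq] at *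
    rw [LinearMap.add_comp, LinearMap.comp_add, ha, hb]
  zero_mem' := by simp
  smul_mem' c x hx := by
    simp only [Set.mem_ofPred_eq] at *
    rw [LinearMap.smul_comp, LinearMap.comp_smul, hx]

theorem mem_homs {φ : End k U} {ψ : End k W} {x : U →ₗ[k] W} :
    x ∈ homs φ ψ ↔ x ∘ₗ φ = ψ ∘ₗ x := Iff.rfl

/-- number of Jordan blocks of size `> j`. -/
noncomputable def nn (φ : End k U) (j : ℕ) : ℕ :=
  finrank k (LinearMap.ker φ ⊓ LinearMap.range (φ ^ j) : Submodule k U)

theorem nn_zero (φ : End k U) : nn φ 0 = finrank k (LinearMap.ker φ) := by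
  rw [nn, pow_zero]
  have : (LinearMap.ker φ ⊓ LinearMap.range (1 : End k U)) = LinearMap.ker φ := by
    rw [Module.End.one_eq_id, LinearMap.range_id, inf_top_eq]
  rw [this]

theorem nn_le [FiniteDimensional k U] (φ : End k U) (j : ℕ) : nn φ j ≤ nn φ 0 := by
  rw [nn_zero, nn]
  exact Submodule.finrank_mono inf_le_left

theorem range_pow_succ [FiniteDimensional k U] (φ : End k U) (j : ℕ) :
    finrank k (LinearMap.range (φ ^ j)) = finrank k (LinearMap.range (φ ^ (j + 1))) + nn φ j := by
  have h := LinearMap.finrank_range_add_finrank_ker (φ.domRestrict (LinearMap.range (φ ^ j)))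
  have h0 : LinearMap.range (φ.domRestrict (LinearMap.range (φ ^ j))) =
        LinearMap.range (φ ^ (j + 1)) := by
      rw [LinearMap.range_domRestrict, pow_succ', Module.End.mul_eq_comp, LinearMap.range_comp]
  rw [← h, h0]
  congr 1
  · rw [nn]
    have h1 : (LinearMap.ker (φ.domRestrict (LinearMap.range (φ ^ j)))).map
        (LinearMap.range (φ ^ j)).subtype = LinearMap.ker φ ⊓ LinearMap.range (φ ^ j) := by
      ext v
      constructor
      · rintro ⟨w, hw, rfl⟩
        exact ⟨hw, w.2⟩
      · rintro ⟨h1, h2⟩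
        exact ⟨⟨v, h2⟩, h1, rfl⟩
    rw [← h1]
    exact (LinearEquiv.finrank_eq (Submodule.equivMapOfInjective _
      (Submodule.subtype_injective _) _))

theorem sum_nn [FiniteDimensional k U] (φ : End k U) (N : ℕ) :
    finrank k U = finrank k (LinearMap.range (φ ^ N)) + ∑ j ∈ Finset.range N, nn φ j := by
  induction N with
  | zero =>
    rw [pow_zero, Module.End.one_eq_id, LinearMap.range_id, finrank_top]
    simp
  | succ N ih =>
    rw [ih, Finset.sum_range_succ, range_pow_succ φ N]
    ring

end Homs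

theorem homs_le {k : Type w} [Field k] (N : ℕ) : ∀ {U : Type u} {W : Type v} [AddCommGroup U]
    [Module k U] [AddCommGroup W] [Module k W] [FiniteDimensional k U] [FiniteDimensional k W]
    (φ : End k U) (ψ : End k W), φ ^ N = 0 →
    finrank k (homs φ ψ) ≤ ∑ j ∈ Finset.range N, nn φ j * nn ψ j := by
  induction N with
  | zero =>
    intro U W _ _ _ _ _ _ φ ψ h
    rw [pow_zero] at h
    have hU : ∀ u : U, u = 0 := fun u => by
      have := congrArg (fun f => f u) h
      simpa using this
    have : Subsingleton (homs φ ψ) := ⟨fun a b => by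
      ext u
      rw [hU u, map_zero, map_zero]⟩
    rw [finrank_zero_of_subsingleton]
    simp
  | succ N ih =>
    intro U W _ _ _ _ _ _ φ ψ h
    have hφ : ∀ v ∈ LinearMap.range φ, φ v ∈ LinearMap.range φ := fun v _ => ⟨v, rfl⟩
    have hψ : ∀ v ∈ LinearMap.range ψ, ψ v ∈ LinearMap.range ψ := fun v _ => ⟨v, rfl⟩
    set φ' : End k (LinearMap.range φ) := φ.restrict hφ with hφ'
    set ψ' : End k (LinearMap.range ψ) := ψ.restrict hψ with hψ'
    have hpow : ∀ j (v : LinearMap.range φ), (((φ' ^ j) v : LinearMap.range φ) : U) =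
        (φ ^ j) v := by
      intro j v
      induction j with
      | zero => rfl
      | succ j ih => rw [pow_succ', pow_succ', Module.End.mul_apply, Module.End.mul_apply, ← ih]; rfl
    have hpowψ : ∀ j (v : LinearMap.range ψ), (((ψ' ^ j) v : LinearMap.range ψ) : W) =
        (ψ ^ j) v := by
      intro j v
      induction j with
      | zero => rfl
      | succ j ih => rw [pow_succ', pow_succ', Module.End.mul_apply, Module.End.mul_apply, ← ih]; rfl
    have hφN : φ' ^ N = 0 := by
      ext ⟨v, u, rfl⟩
      rw [hpow]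
      have : (φ ^ N) (φ u) = (φ ^ (N + 1)) u := by
        rw [pow_succ, Module.End.mul_apply]
      rw [this, h]; rfl
    have hres : ∀ x ∈ homs φ ψ, ∀ v ∈ LinearMap.range φ, x v ∈ LinearMap.range ψ := by
      rintro x hx _ ⟨u, rfl⟩
      refine ⟨x u, ?_⟩
      have := congrArg (fun f => f u) (mem_homs.mp hx)
      exact this.symm
    let ρ : homs φ ψ →ₗ[k] homs φ' ψ' :=
      { toFun := fun x => ⟨(x : U →ₗ[k] W).restrict (hres x x.2), by
          rw [mem_homs]
          ext v
          have := congrArg (fun f => f (v : U)) (mem_homs.mp x.2)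
          exact this⟩
        map_add' := fun a b => rfl
        map_smul' := fun a b => rfl }
    have hρ : ∀ (x : homs φ ψ), x ∈ LinearMap.ker ρ → ∀ v, (x : U →ₗ[k] W) (φ v) = 0 := by
      intro x hx v
      have h1 : ρ x = 0 := hx
      have h2 := congrArg (fun f : homs φ' ψ' => (((f : LinearMap.range φ →ₗ[k]
        LinearMap.range ψ) ⟨φ v, ⟨v, rfl⟩⟩ : LinearMap.range ψ) : W)) h1
      exact h2
    have hker : finrank k (LinearMap.ker ρ) ≤ nn φ 0 * nn ψ 0 := by
      rw [nn_zero, nn_zero]
      have h1 : finrank k (LinearMap.ker φ) = finrank k (U ⧸ LinearMap.range φ) := by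
        have h2 := LinearMap.finrank_range_add_finrank_ker φ
        have h3 := Submodule.finrank_quotient_add_finrank (LinearMap.range φ)
        omega
      rw [h1, ← Module.finrank_linearMap k k]
      let τ : LinearMap.ker ρ →ₗ[k] ((U ⧸ LinearMap.range φ) →ₗ[k] LinearMap.ker ψ) :=
        { toFun := fun x => (LinearMap.range φ).liftQ
            ((x : U →ₗ[k] W).codRestrict (LinearMap.ker ψ) (fun u => by
              rw [LinearMap.mem_ker]
              have h4 := congrArg (fun f => f u) (mem_homs.mp (x : homs φ ψ).2)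
              have h5 := hρ x x.2 u
              simp only [LinearMap.comp_apply] at h4
              rw [← h4]; exact h5)) (by
              rintro _ ⟨u, rfl⟩
              rw [LinearMap.mem_ker]
              exact Subtype.ext (hρ x x.2 u))
          map_add' := fun a b => by
            ext u; rfl
          map_smul' := fun a b => by
            ext u; rfl }
      refine LinearMap.finrank_le_finrank_of_injective (f := τ) ?_
      intro x x' hx
      apply Subtype.ext
      apply Subtype.ext
      ext u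
      have h6 := congrArg (fun f : (U ⧸ LinearMap.range φ) →ₗ[k] LinearMap.ker ψ =>
        ((f ((LinearMap.range φ).mkQ u) : LinearMap.ker ψ) : W)) hx
      exact h6
    have hrange : finrank k (LinearMap.range ρ) ≤ ∑ j ∈ Finset.range N, nn φ (j + 1) * nn ψ (j + 1) := by
      refine (Submodule.finrank_le _).trans ((ih φ' ψ' hφN).trans ?_)
      refine Finset.sum_le_sum fun j _ => Nat.mul_le_mul ?_ ?_
      · rw [nn, nn]
        rw [(LinearEquiv.finrank_eq (Submodule.equivMapOfInjective (LinearMap.range φ).subtype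
          (Submodule.subtype_injective _) (LinearMap.ker φ' ⊓ LinearMap.range (φ' ^ j))))]
        refine Submodule.finrank_mono ?_
        rintro _ ⟨v, ⟨hv1, w, hw⟩, rfl⟩
        refine ⟨?_, ?_⟩
        · have h7 : φ' v = 0 := hv1
          exact congrArg Subtype.val h7
        · obtain ⟨w, z, rfl⟩ := w
          refine ⟨z, ?_⟩
          rw [← hw, Submodule.subtype_apply, hpow, pow_succ, Module.End.mul_apply]
      · rw [nn, nn]
        rw [(LinearEquiv.finrank_eq (Submodule.equivMapOfInjective (LinearMap.range ψ).subtype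
          (Submodule.subtype_injective _) (LinearMap.ker ψ' ⊓ LinearMap.range (ψ' ^ j))))]
        refine Submodule.finrank_mono ?_
        rintro _ ⟨v, ⟨hv1, w, hw⟩, rfl⟩
        refine ⟨?_, ?_⟩
        · have h7 : ψ' v = 0 := hv1
          exact congrArg Subtype.val h7
        · obtain ⟨w, z, rfl⟩ := w
          refine ⟨z, ?_⟩
          rw [← hw, Submodule.subtype_apply, hpowψ, pow_succ, Module.End.mul_apply]
    have hfin := LinearMap.finrank_range_add_finrank_ker (K := k) (V := ↥(homs φ ψ))
      (V₂ := ↥(homs φ' ψ')) ρ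
    rw [← hfin, Finset.sum_range_succ']
    exact Nat.add_le_add hrange hker

section Count

variable {k : Type w} [Field k]
variable {U : Type u} {W : Type v} [AddCommGroup U] [Module k U] [AddCommGroup W] [Module k W]
variable [FiniteDimensional k U] [FiniteDimensional k W]

/-- Euler characteristic inequality. -/
theorem euler_ineq (φ : Fin 3 → End k U) (ψ : Fin 3 → End k W) (h : H1 φ ψ) :
    finrank k U * finrank k W ≤ ∑ s, finrank k (homs (φ s) (ψ s)) := by
  set ab := finrank k U * finrank k W with hab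
  have hH : finrank k (U →ₗ[k] W) = ab := Module.finrank_linearMap k k _ _
  have h1 := LinearMap.finrank_range_add_finrank_ker (bd φ ψ)
  have h2 : finrank k (Fin 3 → (U →ₗ[k] W)) = 3 * ab := by
    rw [Module.finrank_pi_fintype]
    simp [hH]
  have h3 : finrank k (LinearMap.range (bd φ ψ)) ≤ ab := by
    rw [← hH]; exact Submodule.finrank_le _
  let m : ((U →ₗ[k] W) × (∀ s, homs (φ s) (ψ s))) →ₗ[k] (Fin 3 → (U →ₗ[k] W)) :=
    { toFun := fun p s => p.1 + p.2 s
      map_add' := fun a b => by
        ext s u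
        simp only [Prod.fst_add, Prod.snd_add, Pi.add_apply, Submodule.coe_add,
          LinearMap.add_apply]
        abel
      map_smul' := fun a b => by
        ext s u
        simp only [Prod.smul_fst, Prod.smul_snd, Pi.smul_apply, Submodule.coe_smul,
          LinearMap.add_apply, LinearMap.smul_apply, RingHom.id_apply, smul_add] }
  have h4 : LinearMap.ker (bd φ ψ) ≤ LinearMap.range m := by
    intro x hx
    obtain ⟨y, hy⟩ := h x hx
    refine ⟨(y, fun s => ⟨x s - y, hy s⟩), ?_⟩
    ext s u
    simp [m]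
  have h5 : finrank k (LinearMap.range m) ≤ ab + ∑ s, finrank k (homs (φ s) (ψ s)) := by
    refine (LinearMap.finrank_range_le m).trans ?_
    rw [Module.finrank_prod, hH, Module.finrank_pi_fintype]
  have h6 := Submodule.finrank_mono h4
  omega

/-- no common kernel vector + perfect + sum zero: `∑ rk φ s ≥ 2 dim`. -/
theorem rank_ineq (φ : Fin 3 → End k U) (hK : NoK φ) (hP : Perf φ) (hs : ∑ s, φ s = 0) :
    2 * finrank k U ≤ ∑ s, finrank k (LinearMap.range (φ s)) := by
  let α : U →ₗ[k] (∀ s, LinearMap.range (φ s)) :=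
    LinearMap.pi fun s => (φ s).rangeRestrict
  let β : (∀ s, LinearMap.range (φ s)) →ₗ[k] U :=
    ∑ s, (LinearMap.range (φ s)).subtype ∘ₗ LinearMap.proj s
  have hα : Function.Injective α := by
    rw [← LinearMap.ker_eq_bot, LinearMap.ker_eq_bot']
    intro v hv
    refine hK v fun s => ?_
    have := congrArg (fun f : (∀ s, LinearMap.range (φ s)) => ((f s : LinearMap.range (φ s)) : U)) hv
    exact this
  have hβ : LinearMap.range β = ⊤ := by
    rw [eq_top_iff, ← hP, imF_le]
    intro s v _
    refine ⟨Pi.single s ⟨φ s v, ⟨v, rfl⟩⟩, ?_⟩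
    simp only [β, LinearMap.sum_apply, LinearMap.comp_apply, LinearMap.proj_apply,
      Submodule.subtype_apply]
    rw [Finset.sum_eq_single s]
    · rw [Pi.single_eq_same]
    · intro b _ hb
      rw [Pi.single_eq_of_ne hb]; rfl
    · intro h; exact absurd (Finset.mem_univ s) h
  have hαβ : LinearMap.range α ≤ LinearMap.ker β := by
    rintro _ ⟨v, rfl⟩
    rw [LinearMap.mem_ker]
    have := congrArg (fun f => f v) hs
    simp only [LinearMap.sum_apply, LinearMap.zero_apply] at this
    rw [← this]
    simp only [β, LinearMap.sum_apply, LinearMap.comp_apply, LinearMap.proj_apply,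
      Submodule.subtype_apply]
    rfl
  have h1 := LinearMap.finrank_range_add_finrank_ker β
  rw [hβ, finrank_top, Module.finrank_pi_fintype] at h1
  have h2 := Submodule.finrank_mono hαβ
  rw [LinearMap.finrank_range_of_inj hα] at h2
  omega

/-- the count: all inequalities are equalities. -/
theorem count [Nontrivial U] [Nontrivial W] (φ : Fin 3 → End k U) (ψ : Fin 3 → End k W)
    (hφ : ∀ s, IsNilpotent (φ s)) (hψ : ∀ s, IsNilpotent (ψ s)) (hs : ∑ s, φ s = 0)
    (hK : NoK φ) (hP : Perf φ) (h : H1 φ ψ) :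
    (∑ s, finrank k (LinearMap.range (φ s)) = 2 * finrank k U) ∧
    (∀ s j, (ψ s) ^ j ≠ 0 → nn (φ s) j = nn (φ s) 0) := by
  have hN : ∃ N, (∀ s, (φ s) ^ N = 0) ∧ (∀ s, (ψ s) ^ N = 0) := by
    choose N1 hN1 using hφ
    choose N2 hN2 using hψ
    refine ⟨∑ s, N1 s + ∑ s, N2 s, fun s => ?_, fun s => ?_⟩
    · refine pow_eq_zero_of_le ?_ (hN1 s)
      exact (Finset.single_le_sum (f := N1) (fun _ _ => Nat.zero_le _) (Finset.mem_univ s)).trans
        (Nat.le_add_right _ _)
    · refine pow_eq_zero_of_le ?_ (hN2 s)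
      exact (Finset.single_le_sum (f := N2) (fun _ _ => Nat.zero_le _) (Finset.mem_univ s)).trans
        (Nat.le_add_left _ _)
  obtain ⟨N, hN1, hN2⟩ := hN
  have ha : 0 < finrank k U := Module.finrank_pos
  have hb : 0 < finrank k W := Module.finrank_pos
  set a := finrank k U with hadef
  set b := finrank k W with hbdef
  have h1 : a * b ≤ _ := euler_ineq φ ψ h
  have h2 := rank_ineq φ hK hP hs
  have h3 : ∀ s, finrank k (homs (φ s) (ψ s)) ≤ ∑ j ∈ Finset.range N, nn (φ s) j * nn (ψ s) j :=
    fun s => homs_le N (φ s) (ψ s) (hN1 s)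
  have h4 : ∀ s, ∑ j ∈ Finset.range N, nn (φ s) j * nn (ψ s) j ≤ nn (φ s) 0 * b := by
    intro s
    have h5 := sum_nn (ψ s) N
    rw [hN2 s, LinearMap.range_zero, finrank_bot, zero_add] at h5
    rw [hbdef, h5, Finset.mul_sum]
    exact Finset.sum_le_sum fun j _ => Nat.mul_le_mul_right _ (nn_le _ _)
  have h6 : ∀ s, finrank k (LinearMap.range (φ s)) + nn (φ s) 0 = a := by
    intro s
    rw [nn_zero]
    exact LinearMap.finrank_range_add_finrank_ker (φ s)
  have h7 : ∑ s, (finrank k (LinearMap.range (φ s)) + nn (φ s) 0) = 3 * a := by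
    rw [Finset.sum_congr rfl fun s _ => h6 s]
    simp
  rw [Finset.sum_add_distrib] at h7
  have h8 : ∑ s, nn (φ s) 0 ≤ a := by omega
  have h9 : ∑ s, nn (φ s) 0 * b ≤ a * b := by
    rw [← Finset.sum_mul]
    exact Nat.mul_le_mul_right _ h8
  have h10 : ∑ s, ∑ j ∈ Finset.range N, nn (φ s) j * nn (ψ s) j ≤ ∑ s, nn (φ s) 0 * b :=
    Finset.sum_le_sum fun s _ => h4 s
  have h11 : ∑ s, finrank k (homs (φ s) (ψ s)) ≤
      ∑ s, ∑ j ∈ Finset.range N, nn (φ s) j * nn (ψ s) j := Finset.sum_le_sum fun s _ => h3 s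
  have h12 : ∑ s, nn (φ s) 0 * b = a * b := by omega
  have h13 : ∑ s, nn (φ s) 0 = a := by
    rw [← Finset.sum_mul] at h12
    exact Nat.eq_of_mul_eq_mul_right hb h12
  refine ⟨by omega, fun s j hj => ?_⟩
  have h14 : ∑ s, ∑ j ∈ Finset.range N, nn (φ s) j * nn (ψ s) j = ∑ s, nn (φ s) 0 * b := by omega
  have h15 : ∑ j ∈ Finset.range N, nn (φ s) j * nn (ψ s) j = nn (φ s) 0 * b :=
    (Finset.sum_eq_sum_iff_of_le fun s _ => h4 s).mp h14 s (Finset.mem_univ s)
  have h5 := sum_nn (ψ s) N
  rw [hN2 s, LinearMap.range_zero, finrank_bot, zero_add] at h5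
  rw [hbdef, h5, Finset.mul_sum] at h15
  have hjN : j < N := by
    by_contra hge
    exact hj (pow_eq_zero_of_le (not_lt.mp hge) (hN2 s))
  have h16 := (Finset.sum_eq_sum_iff_of_le fun j _ => Nat.mul_le_mul_right _ (nn_le _ _)).mp h15 j
    (Finset.mem_range.mpr hjN)
  refine Nat.eq_of_mul_eq_mul_right ?_ h16
  -- nn (ψ s) j > 0
  rw [nn]
  by_contra h0
  have h17 : finrank k (LinearMap.ker (ψ s) ⊓ LinearMap.range ((ψ s) ^ j) : Submodule k W) = 0 := by
    omega
  rw [Submodule.finrank_eq_zero] at h17
  -- then `ψ s` is injective on `range (ψ s ^ j)`, so all higher powers have the same kernel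
  have h18 : ∀ i v, ((ψ s) ^ (j + i)) v = 0 → ((ψ s) ^ j) v = 0 := by
    intro i
    induction i with
    | zero => intro v hv; exact hv
    | succ i ih =>
      intro v hv
      apply ih
      have h19 : ((ψ s) ^ (j + i)) v ∈ (LinearMap.ker (ψ s) ⊓ LinearMap.range ((ψ s) ^ j) :
          Submodule k W) := by
        refine ⟨?_, ?_⟩
        · rw [SetLike.mem_coe, LinearMap.mem_ker, ← Module.End.mul_apply, ← pow_succ']
          exact hv
        · rw [pow_add]
          exact ⟨((ψ s) ^ i) v, rfl⟩
      rw [h17, Submodule.mem_bot] at h19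
      exact h19
  apply hj
  ext v
  refine h18 N v ?_
  rw [pow_eq_zero_of_le (Nat.le_add_left N j) (hN2 s)]
  rfl

end Count

end Crest.Agent.R172.SL
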