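import Crest.Agent.R172.SLb

/-!
Row 172, node (S) (structure lemma of note 12992), part c: from derivations to `H^1 = 0`.
(helper635)
-/

namespace Crest.Agent.R172.SL

open Module Matrix

section Proj

variable {k : Type*} [Field k] {V : Type*} [AddCommGroup V] [Module k V] [FiniteDimensional k V]

/-- the generalized eigenspace -/
abbrev GE (D : End k V) (l : k) : Submodule k V := D.maxGenEigenspace l

theorem GE_eq (D : End k V) (l : k) {N : ℕ} (hN : finrank k V ≤ N) (v : V) :
    v ∈ GE D l ↔ ((D - algebraMap k (End k V) l) ^ N) v = 0 := by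
  rw [GE, Module.End.maxGenEigenspace_eq_genEigenspace_finrank,
    ← Module.End.genEigenspace_eq_genEigenspace_finrank_of_le D l hN, Module.End.mem_genEigenspace_nat]
  rfl

/-- polynomial projections onto the generalized eigenspaces -/
theorem exists_proj (D : End k V) (l : k) : ∃ p : Polynomial k,
    (∀ v, Polynomial.aeval D p v ∈ GE D l) ∧ (∀ v ∈ GE D l, Polynomial.aeval D p v = v) := by
  classical
  have hint : IsIntegral k D := Algebra.IsIntegral.isIntegral D
  have hne : minpoly k D ≠ 0 := minpoly.ne_zero hint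
  obtain ⟨q, hq, hql⟩ := Polynomial.exists_eq_pow_rootMultiplicity_mul_and_not_dvd
    (minpoly k D) hne l
  set r := Polynomial.rootMultiplicity l (minpoly k D) with hr
  set N := max r (finrank k V) with hN
  have hcop : IsCoprime ((Polynomial.X - Polynomial.C l) ^ N) q := by
    apply IsCoprime.pow_left
    rw [(Polynomial.prime_X_sub_C l).irreducible.coprime_iff_not_dvd]
    exact hql
  obtain ⟨a, b, hab⟩ := hcop
  have hXC : Polynomial.aeval D (Polynomial.X - Polynomial.C l) =
      D - algebraMap k (End k V) l := by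
    rw [map_sub, Polynomial.aeval_X, Polynomial.aeval_C]
  refine ⟨b * q, fun v => ?_, fun v hv => ?_⟩
  · rw [GE_eq D l (le_max_right r _ : finrank k V ≤ N), ← hXC, ← map_pow, ← Module.End.mul_apply,
      ← map_mul]
    have h1 : (Polynomial.X - Polynomial.C l) ^ N * (b * q) =
        b * (Polynomial.X - Polynomial.C l) ^ (N - r) * minpoly k D := by
      conv_rhs => rw [hq]
      have h2 : (Polynomial.X - Polynomial.C l) ^ N =
          (Polynomial.X - Polynomial.C l) ^ (N - r) * (Polynomial.X - Polynomial.C l) ^ r := by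
        rw [← pow_add]
        congr 1
        have := le_max_left r (finrank k V)
        omega
      rw [h2]
      ring
    rw [h1, map_mul, minpoly.aeval, mul_zero]
    rfl
  · rw [GE_eq D l (le_max_right r _ : finrank k V ≤ N)] at hv
    have h1 : b * q = 1 - a * (Polynomial.X - Polynomial.C l) ^ N := by
      rw [← hab]; ring
    rw [h1, map_sub, map_mul, map_pow, hXC, map_one, LinearMap.sub_apply, Module.End.mul_apply, hv]
    simp

omit [FiniteDimensional k V] in
theorem GE_inter (D : End k V) {l m : k} (hlm : l ≠ m) {v : V} (h1 : v ∈ GE D l) (h2 : v ∈ GE D m) :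
    v = 0 := by
  have h := Module.End.disjoint_genEigenspace D hlm ⊤ ⊤
  exact (Submodule.disjoint_def.mp h) v h1 h2

omit [FiniteDimensional k V] in
theorem GE_stable {D φ : End k V} (h : Commute D φ) (l : k) {v : V} (hv : v ∈ GE D l) :
    φ v ∈ GE D l :=
  Module.End.mapsTo_maxGenEigenspace_of_comm h l hv

/-- restriction to a generalized eigenspace of a commuting family -/
def rG {ι : Type*} (D : End k V) (φ : ι → End k V) (h : ∀ s, Commute D (φ s)) (l : k) (s : ι) :
    End k (GE D l) :=
  (φ s).restrict fun _ hv => GE_stable (h s) l hv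

end Proj

section Deriv

variable {K : Type*} [Field K] {n : Type*} [Fintype n] [DecidableEq n]

/-- adjoint w.r.t. the Gram matrix `J` -/
noncomputable def adj (J X : Matrix n n K) : Matrix n n K := J⁻¹ * Xᵀ * J

omit [DecidableEq n] in
theorem map_mul_deriv (d : Derivation ℤ K K) (A B : Matrix n n K) :
    (A * B).map d = A.map d * B + A * B.map d := by
  ext i j
  simp only [Matrix.map_apply, Matrix.mul_apply, map_sum, Derivation.leibniz, smul_eq_mul,
    Matrix.add_apply, ← Finset.sum_add_distrib]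
  refine Finset.sum_congr rfl fun s _ => ?_
  ring

variable {J : Matrix n n K}

theorem adj_mul (hJ : IsUnit J.det) (A B : Matrix n n K) : adj J (A * B) = adj J B * adj J A := by
  rw [adj, adj, adj, transpose_mul]
  have : J⁻¹ * Bᵀ * J * (J⁻¹ * Aᵀ * J) = J⁻¹ * Bᵀ * (J * J⁻¹) * Aᵀ * J := by
    simp only [Matrix.mul_assoc]
  rw [this, Matrix.mul_nonsing_inv _ hJ]
  simp only [Matrix.mul_assoc, Matrix.one_mul]

theorem adj_add (A B : Matrix n n K) : adj J (A + B) = adj J A + adj J B := by
  simp [adj, Matrix.mul_add, Matrix.add_mul]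

theorem adj_sub (A B : Matrix n n K) : adj J (A - B) = adj J A - adj J B := by
  simp [adj, Matrix.mul_sub, Matrix.sub_mul]

theorem adj_smul (c : K) (A : Matrix n n K) : adj J (c • A) = c • adj J A := by
  simp [adj]

theorem adj_zero : adj J (0 : Matrix n n K) = 0 := by simp [adj]

theorem adj_one (hJ : IsUnit J.det) : adj J (1 : Matrix n n K) = 1 := by
  simp [adj, Matrix.nonsing_inv_mul _ hJ]

theorem adj_sum {ι : Type*} (t : Finset ι) (f : ι → Matrix n n K) :
    adj J (∑ s ∈ t, f s) = ∑ s ∈ t, adj J (f s) := by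
  classical
  induction t using Finset.induction_on with
  | empty => simp [adj_zero]
  | insert a t ha ih => rw [Finset.sum_insert ha, Finset.sum_insert ha, adj_add, ih]

theorem adj_adj (hJ : IsUnit J.det) (hJs : Jᵀ = J) (A : Matrix n n K) : adj J (adj J A) = A := by
  rw [adj, adj, transpose_mul, transpose_mul, transpose_transpose, transpose_nonsing_inv, hJs]
  have : J⁻¹ * (J * (A * J⁻¹)) * J = (J⁻¹ * J) * A * (J⁻¹ * J) := by
    simp only [Matrix.mul_assoc]
  rw [this, Matrix.nonsing_inv_mul _ hJ, Matrix.one_mul, Matrix.mul_one]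

theorem adj_aeval (hJ : IsUnit J.det) {D : Matrix n n K} (hD : adj J D = D) (p : Polynomial K) :
    adj J (Polynomial.aeval D p) = Polynomial.aeval D p := by
  induction p using Polynomial.induction_on' with
  | add p q hp hq => rw [map_add, adj_add, hp, hq]
  | monomial m a =>
    rw [Polynomial.aeval_monomial]
    have h1 : ∀ m, adj J (D ^ m) = D ^ m := by
      intro m
      induction m with
      | zero => rw [pow_zero, adj_one hJ]
      | succ m ih => rw [pow_succ, adj_mul hJ, ih, hD, ← pow_succ, ← pow_succ']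
    rw [← Algebra.smul_def, adj_smul, h1]

/-- skew iff `adj X = -X` -/
theorem adj_eq_neg_iff (hJ : IsUnit J.det) (X : Matrix n n K) :
    adj J X = -X ↔ Xᵀ * J = -(J * X) := by
  rw [adj]
  constructor
  · intro h
    have := congrArg (fun M => J * M) h
    rw [← Matrix.mul_assoc, ← Matrix.mul_assoc, Matrix.mul_nonsing_inv _ hJ, Matrix.one_mul] at this
    rw [this, Matrix.mul_neg]
  · intro h
    rw [Matrix.mul_assoc, h, Matrix.mul_neg, ← Matrix.mul_assoc, Matrix.nonsing_inv_mul _ hJ,
      Matrix.one_mul]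

theorem adj_eq_iff (hJ : IsUnit J.det) (X : Matrix n n K) :
    adj J X = X ↔ Xᵀ * J = J * X := by
  rw [adj]
  constructor
  · intro h
    have := congrArg (fun M => J * M) h
    rw [← Matrix.mul_assoc, ← Matrix.mul_assoc, Matrix.mul_nonsing_inv _ hJ, Matrix.one_mul] at this
    exact this
  · intro h
    rw [Matrix.mul_assoc, h, ← Matrix.mul_assoc, Matrix.nonsing_inv_mul _ hJ, Matrix.one_mul]

/-- every first order motion of `Φ` by `J`-skew matrices is realised by a derivation. -/
def Tang {ι : Type*} [Fintype ι] (J : Matrix n n K) (Φ : ι → Matrix n n K) : Prop :=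
  ∀ X : ι → Matrix n n K, (∀ s, (X s)ᵀ * J = -(J * X s)) → ∑ s, (X s * Φ s - Φ s * X s) = 0 →
    ∃ d : Derivation ℤ K K, ∀ s, (Φ s).map d = X s * Φ s - Φ s * X s

variable {ι : Type*} [Fintype ι]

theorem commute_toLin {A B : Matrix n n K} (h : A * B = B * A) :
    Commute (Matrix.toLin' A) (Matrix.toLin' B) := by
  change _ * _ = _ * _
  rw [Module.End.mul_eq_comp, Module.End.mul_eq_comp, ← Matrix.toLin'_mul, h, Matrix.toLin'_mul]

theorem aeval_comm {A : Type*} [Ring A] [Algebra K A] {a b : A} (h : a * b = b * a)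
    (p : Polynomial K) : Polynomial.aeval a p * b = b * Polynomial.aeval a p := by
  induction p using Polynomial.induction_on' with
  | add p q hp hq => rw [map_add, add_mul, mul_add, hp, hq]
  | monomial m c =>
    rw [Polynomial.aeval_monomial]
    have h1 : a ^ m * b = b * a ^ m := (Commute.pow_left h m)
    rw [mul_assoc, h1, ← mul_assoc, Algebra.commutes, mul_assoc]

theorem tau_inj {V : Type*} [AddCommGroup V] [Module K V] [FiniteDimensional K V] (D : End K V)
    {l m : K} (hlm : l ≠ m) (z : GE D l →ₗ[K] GE D m)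
    (hz : ∀ v : GE D l, D (z v) = z ⟨D v, GE_stable (Commute.refl D) l v.2⟩) : z = 0 := by
  ext v
  have key : ∀ (i : ℕ) (v : GE D l), ∃ h : ((D - algebraMap K (End K V) l) ^ i) v ∈ GE D l,
      ((D - algebraMap K (End K V) l) ^ i) (z v) =
        z ⟨((D - algebraMap K (End K V) l) ^ i) v, h⟩ := by
    intro i
    induction i with
    | zero => intro v; exact ⟨v.2, rfl⟩
    | succ i ih =>
      intro v
      have h1 : (D - algebraMap K (End K V) l) v ∈ GE D l := by
        rw [LinearMap.sub_apply]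
        refine sub_mem (GE_stable (Commute.refl D) l v.2) ?_
        rw [Module.algebraMap_end_apply]
        exact Submodule.smul_mem _ _ v.2
      obtain ⟨h2, h3⟩ := ih ⟨_, h1⟩
      refine ⟨by rw [pow_succ, Module.End.mul_apply]; exact h2, ?_⟩
      have h4 : (D - algebraMap K (End K V) l) (z v) = z ⟨_, h1⟩ := by
        rw [LinearMap.sub_apply, hz, Module.algebraMap_end_apply]
        have : (⟨(D - algebraMap K (End K V) l) v, h1⟩ : GE D l) =
            ⟨D v, GE_stable (Commute.refl D) l v.2⟩ - l • v := Subtype.ext rfl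
        rw [this, map_sub, map_smul]
        rfl
      have h5 : (⟨((D - algebraMap K (End K V) l) ^ (i + 1)) v,
          by rw [pow_succ, Module.End.mul_apply]; exact h2⟩ : GE D l) = ⟨_, h2⟩ := by
        apply Subtype.ext
        change ((D - algebraMap K (End K V) l) ^ (i + 1)) (v : V) =
          ((D - algebraMap K (End K V) l) ^ i) ((D - algebraMap K (End K V) l) (v : V))
        rw [pow_succ, Module.End.mul_apply]
      rw [h5, ← h3, ← h4, ← Module.End.mul_apply, ← pow_succ]
  obtain ⟨h1, h2⟩ := key (finrank K V) v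
  have h3 := (GE_eq D l le_rfl (v : V)).mp v.2
  have h4 : (⟨((D - algebraMap K (End K V) l) ^ finrank K V) v, h1⟩ : GE D l) = 0 :=
    Subtype.ext h3
  rw [h4, map_zero] at h2
  have h5 : (z v : V) ∈ GE D l := (GE_eq D l le_rfl _).mpr h2
  exact GE_inter D hlm h5 (z v).2

/-- Sylvester: injectivity implies surjectivity. -/
theorem sylv {U W : Type*} [AddCommGroup U] [Module K U] [AddCommGroup W] [Module K W]
    [FiniteDimensional K U] [FiniteDimensional K W] (Dl : End K U) (Dm : End K W)
    (hinj : ∀ z : U →ₗ[K] W, Dm ∘ₗ z = z ∘ₗ Dl → z = 0) (δ : U →ₗ[K] W) :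
    ∃ y : U →ₗ[K] W, Dm ∘ₗ y - y ∘ₗ Dl = δ := by
  let τ : (U →ₗ[K] W) →ₗ[K] (U →ₗ[K] W) :=
    { toFun := fun z => Dm ∘ₗ z - z ∘ₗ Dl
      map_add' := fun a b => by
        rw [LinearMap.comp_add, LinearMap.add_comp]; abel
      map_smul' := fun c a => by
        rw [LinearMap.comp_smul, LinearMap.smul_comp, RingHom.id_apply, smul_sub] }
  have hτinj : Function.Injective τ := by
    rw [← LinearMap.ker_eq_bot, LinearMap.ker_eq_bot']
    intro z hz
    exact hinj z (sub_eq_zero.mp hz)
  obtain ⟨y, hy⟩ := (LinearMap.injective_iff_surjective.mp hτinj) δ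
  exact ⟨y, hy⟩

theorem H1_of_tang (hJ : IsUnit J.det) (hJs : Jᵀ = J) (Φ : ι → Matrix n n K)
    (hΦ : ∀ s, (Φ s)ᵀ * J = J * Φ s) (hT : Tang J Φ) (D : Matrix n n K) (hD : Dᵀ * J = J * D)
    (hc : ∀ s, D * Φ s = Φ s * D) {l m : K} (hlm : l ≠ m) :
    H1 (rG (toLin' D) (fun s => toLin' (Φ s)) (fun s => commute_toLin (hc s)) l)
       (rG (toLin' D) (fun s => toLin' (Φ s)) (fun s => commute_toLin (hc s)) m) := by
  classical
  set D' := toLin' D with hD'
  set φ : ι → End K (n → K) := fun s => toLin' (Φ s) with hφ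
  have hcφ : ∀ s, Commute D' (φ s) := fun s => commute_toLin (hc s)
  intro x hx
  -- projections
  obtain ⟨pl, hpl1, hpl2⟩ := exists_proj D' l
  obtain ⟨pm, hpm1, hpm2⟩ := exists_proj D' m
  obtain ⟨El, hEl⟩ : ∃ El : Matrix n n K, El = Polynomial.aeval D pl := ⟨_, rfl⟩
  obtain ⟨Em, hEm⟩ : ∃ Em : Matrix n n K, Em = Polynomial.aeval D pm := ⟨_, rfl⟩
  have hlin : ∀ p : Polynomial K, toLin' (Polynomial.aeval D p) = Polynomial.aeval D' p := by
    intro p
    have := Polynomial.aeval_algHom_apply (Matrix.toLinAlgEquiv' (R := K) (n := n)).toAlgHom D p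
    exact this.symm
  have hEl' : toLin' El = Polynomial.aeval D' pl := by rw [hEl]; exact hlin pl
  have hEm' : toLin' Em = Polynomial.aeval D' pm := by rw [hEm]; exact hlin pm
  have hElΦ : ∀ s, El * Φ s = Φ s * El := fun s => by rw [hEl]; exact aeval_comm (hc s) pl
  have hEmΦ : ∀ s, Em * Φ s = Φ s * Em := fun s => by rw [hEm]; exact aeval_comm (hc s) pm
  have hElD : El * D = D * El := by rw [hEl]; exact aeval_comm rfl pl
  have hEmD : Em * D = D * Em := by rw [hEm]; exact aeval_comm rfl pm
  have hDadj : adj J D = D := (adj_eq_iff hJ D).mpr hD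
  have hΦadj : ∀ s, adj J (Φ s) = Φ s := fun s => (adj_eq_iff hJ (Φ s)).mpr (hΦ s)
  have hElA : adj J El = El := by rw [hEl]; exact adj_aeval hJ hDadj pl
  have hEmA : adj J Em = Em := by rw [hEm]; exact adj_aeval hJ hDadj pm
  have hEl1 : ∀ v, toLin' El v ∈ GE D' l := fun v => by rw [hEl']; exact hpl1 v
  have hEl2 : ∀ v ∈ GE D' l, toLin' El v = v := fun v hv => by rw [hEl']; exact hpl2 v hv
  have hEm1 : ∀ v, toLin' Em v ∈ GE D' m := fun v => by rw [hEm']; exact hpm1 v
  have hEm2 : ∀ v ∈ GE D' m, toLin' Em v = v := fun v hv => by rw [hEm']; exact hpm2 v hv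
  -- Em * El = 0
  have hcommElEm : El * Em = Em * El := by
    rw [hEl, hEm]
    exact (aeval_comm (aeval_comm rfl pm).symm pl)
  have hEmEl : Em * El = 0 := by
    apply (Matrix.toLin' (R := K) (m := n) (n := n)).injective
    ext1 v
    rw [map_zero]
    ext1
    have h1 : toLin' (Em * El) (Pi.single v 1) ∈ GE D' m := by
      rw [Matrix.toLin'_mul]; exact hEm1 _
    have h2 : toLin' (Em * El) (Pi.single v 1) ∈ GE D' l := by
      rw [← hcommElEm, Matrix.toLin'_mul]; exact hEl1 _
    have := GE_inter D' hlm h2 h1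
    simpa using this
  have hElEm : El * Em = 0 := by rw [hcommElEm, hEmEl]
  -- the projection onto GE l
  let Pl : (n → K) →ₗ[K] GE D' l := (toLin' El).codRestrict _ hEl1
  let Pm : (n → K) →ₗ[K] GE D' m := (toLin' Em).codRestrict _ hEm1
  have hPl : ∀ v, ((Pl v : GE D' l) : n → K) = toLin' El v := fun v => rfl
  have hPm : ∀ v, ((Pm v : GE D' m) : n → K) = toLin' Em v := fun v => rfl
  have hPlid : ∀ v : GE D' l, Pl v = v := fun v => Subtype.ext (hEl2 _ v.2)
  have hPlφ : ∀ s v, Pl (φ s v) = rG D' φ hcφ l s (Pl v) := by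
    intro s v
    apply Subtype.ext
    change toLin' El (toLin' (Φ s) v) = toLin' (Φ s) (toLin' El v)
    rw [← Matrix.toLin'_mul_apply, hElΦ, Matrix.toLin'_mul_apply]
  set Xh : ι → Matrix n n K := fun s =>
    LinearMap.toMatrix' ((GE D' m).subtype ∘ₗ x s ∘ₗ Pl) with hXh
  have hXh' : ∀ s v, toLin' (Xh s) v = (x s (Pl v) : n → K) := by
    intro s v
    rw [hXh]
    simp only [Matrix.toLin'_toMatrix']
    rfl
  have hEmXh : ∀ s, Em * Xh s = Xh s := by
    intro s
    apply (Matrix.toLin' (R := K) (m := n) (n := n)).injective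
    refine LinearMap.ext fun v => ?_
    rw [Matrix.toLin'_mul_apply, hXh', hEm2 _ (x s (Pl v)).2]
  have hXhEl : ∀ s, Xh s * El = Xh s := by
    intro s
    apply (Matrix.toLin' (R := K) (m := n) (n := n)).injective
    refine LinearMap.ext fun v => ?_
    rw [Matrix.toLin'_mul_apply, hXh', hXh']
    have : Pl (toLin' El v) = Pl v := by
      rw [← hPl, hPlid]
    rw [this]
  have hXhsum : ∑ s, (Xh s * Φ s - Φ s * Xh s) = 0 := by
    apply (Matrix.toLin' (R := K) (m := n) (n := n)).injective
    refine LinearMap.ext fun v => ?_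
    rw [map_sum, map_zero, LinearMap.sum_apply, LinearMap.zero_apply]
    have h1 := congrArg (fun f => ((f (Pl v) : GE D' m) : n → K)) hx
    simp only [LinearMap.sum_apply, LinearMap.zero_apply, AddSubmonoidClass.coe_finsetSum,
      ZeroMemClass.coe_zero] at h1
    rw [← h1]
    refine Finset.sum_congr rfl fun s _ => ?_
    rw [map_sub, LinearMap.sub_apply, Matrix.toLin'_mul_apply, Matrix.toLin'_mul_apply, hXh', hXh']
    have h2 := hPlφ s v
    have h3 : Pl (toLin' (Φ s) v) = rG D' φ hcφ l s (Pl v) := h2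
    rw [h3]
    rfl
  set X : ι → Matrix n n K := fun s => Xh s - adj J (Xh s) with hX
  have hXskew : ∀ s, (X s)ᵀ * J = -(J * X s) := by
    intro s
    rw [← adj_eq_neg_iff hJ]
    simp only [hX]
    rw [adj_sub, adj_adj hJ hJs]
    abel
  have hXsum : ∑ s, (X s * Φ s - Φ s * X s) = 0 := by
    have h1 : ∀ s, X s * Φ s - Φ s * X s = (Xh s * Φ s - Φ s * Xh s) +
        adj J (Xh s * Φ s - Φ s * Xh s) := by
      intro s
      rw [adj_sub, adj_mul hJ, adj_mul hJ, hΦadj]
      simp only [hX, Matrix.sub_mul, Matrix.mul_sub]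
      abel
    rw [Finset.sum_congr rfl fun s _ => h1 s, Finset.sum_add_distrib, ← adj_sum, hXhsum, adj_zero,
      add_zero]
  obtain ⟨d, hd⟩ := hT X hXskew hXsum
  set δ : Matrix n n K := D.map d with hδ
  have hG : ∀ s, (δ + D * X s - X s * D) * Φ s = Φ s * (δ + D * X s - X s * D) := by
    intro s
    have h1 : δ * Φ s + D * (X s * Φ s - Φ s * X s) = (X s * Φ s - Φ s * X s) * D + Φ s * δ := by
      have h2 := congrArg (fun M : Matrix n n K => M.map d) (hc s)
      rw [map_mul_deriv, map_mul_deriv, hd] at h2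
      exact h2
    have h3 := hc s
    have e : (δ + D * X s - X s * D) * Φ s - Φ s * (δ + D * X s - X s * D) =
        ((δ * Φ s + D * (X s * Φ s - Φ s * X s)) - ((X s * Φ s - Φ s * X s) * D + Φ s * δ)) +
          (D * Φ s - Φ s * D) * X s - X s * (D * Φ s - Φ s * D) := by
      noncomm_ring
    rw [← sub_eq_zero, e, h1, h3]
    simp
  have hblock : ∀ s, Em * (δ + D * X s - X s * D) * El = Em * δ * El + D * Xh s - Xh s * D := by
    intro s
    have h1 : adj J (Xh s) = El * adj J (Xh s) * Em := by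
      conv_lhs => rw [← hEmXh s, ← hXhEl s]
      rw [adj_mul hJ, adj_mul hJ, hElA, hEmA]
    have h2 : Em * X s * El = Xh s := by
      simp only [hX]
      rw [Matrix.mul_sub, Matrix.sub_mul, hEmXh, hXhEl, h1]
      have : Em * (El * adj J (Xh s) * Em) * El = (Em * El) * adj J (Xh s) * (Em * El) := by
        simp only [Matrix.mul_assoc]
      rw [this, hEmEl, Matrix.zero_mul, Matrix.zero_mul, sub_zero]
    have h3 : Em * (δ + D * X s - X s * D) * El =
        Em * δ * El + (Em * D) * X s * El - Em * X s * (D * El) := by noncomm_ring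
    rw [h3, hEmD, ← hElD]
    have h4 : Em * δ * El + D * Em * X s * El - Em * X s * (El * D) =
        Em * δ * El + D * (Em * X s * El) - (Em * X s * El) * D := by noncomm_ring
    rw [h4, h2]
  have hG' : ∀ s, (Em * δ * El + D * Xh s - Xh s * D) * Φ s =
      Φ s * (Em * δ * El + D * Xh s - Xh s * D) := by
    intro s
    rw [← hblock]
    have h1 : Em * (δ + D * X s - X s * D) * El * Φ s =
        Em * ((δ + D * X s - X s * D) * Φ s) * El := by
      rw [Matrix.mul_assoc, hElΦ]; noncomm_ring
    rw [h1, hG s]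
    have h2 : Em * (Φ s * (δ + D * X s - X s * D)) * El =
        (Em * Φ s) * (δ + D * X s - X s * D) * El := by noncomm_ring
    rw [h2, hEmΦ]
    noncomm_ring
  -- the block of `δ`
  let δml : GE D' l →ₗ[K] GE D' m := Pm ∘ₗ toLin' δ ∘ₗ (GE D' l).subtype
  let Dl : End K (GE D' l) := D'.restrict fun v hv => GE_stable (Commute.refl D') l hv
  let Dm : End K (GE D' m) := D'.restrict fun v hv => GE_stable (Commute.refl D') m hv
  obtain ⟨y, hy⟩ := sylv Dl Dm (fun z hz => tau_inj D' hlm z fun v => by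
    have h1 := congrArg (fun f => ((f v : GE D' m) : n → K)) hz
    exact h1) (-δml)
  have hy' : ∀ v : GE D' l, D' (y v) - (y (Dl v) : n → K) = -(δml v : n → K) := by
    intro v
    have h1 := congrArg (fun f => ((f v : GE D' m) : n → K)) hy
    exact h1
  refine ⟨y, fun s => ?_⟩
  set φl := rG D' φ hcφ l s with hφl
  set φm := rG D' φ hcφ m s with hφm
  have hφl' : ∀ v : GE D' l, ((φl v : GE D' l) : n → K) = toLin' (Φ s) v := fun v => rfl
  have hφm' : ∀ v : GE D' m, ((φm v : GE D' m) : n → K) = toLin' (Φ s) v := fun v => rfl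
  have hDφ : ∀ v : n → K, D' (toLin' (Φ s) v) = toLin' (Φ s) (D' v) := by
    intro v
    change toLin' D (toLin' (Φ s) v) = toLin' (Φ s) (toLin' D v)
    rw [← Matrix.toLin'_mul_apply, hc, Matrix.toLin'_mul_apply]
  have hDφl : ∀ v, Dl (φl v) = φl (Dl v) := fun v => Subtype.ext (hDφ _)
  -- value of `G'`
  have hval : ∀ v : GE D' l, toLin' (Em * δ * El + D * Xh s - Xh s * D) v =
      D' (x s v) - (x s (Dl v) : n → K) - (D' (y v) - (y (Dl v) : n → K)) := by
    intro v
    rw [hy', map_sub, map_add, LinearMap.sub_apply,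
      LinearMap.add_apply, Matrix.toLin'_mul_apply, Matrix.toLin'_mul_apply,
      Matrix.toLin'_mul_apply, Matrix.toLin'_mul_apply, hXh', hXh', hEl2 _ v.2, hPlid]
    have h2 : Pl (toLin' D v) = Dl v := Subtype.ext (hEl2 _ (Dl v).2)
    have h3 : ((δml v : GE D' m) : n → K) = toLin' Em (toLin' δ v) := rfl
    rw [h2, h3]
    abel
  have hcomm2 : ∀ v : GE D' l, toLin' (Em * δ * El + D * Xh s - Xh s * D) (φl v : n → K) =
      toLin' (Φ s) (toLin' (Em * δ * El + D * Xh s - Xh s * D) v) := by
    intro v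
    rw [hφl', ← Matrix.toLin'_mul_apply, ← Matrix.toLin'_mul_apply, hG' s]
  have hzero : (x s - y) ∘ₗ φl - φm ∘ₗ (x s - y) = 0 := by
    refine tau_inj D' hlm _ fun v => ?_
    have h5 := hcomm2 v
    rw [hval, hval] at h5
    have h6 : (⟨D' v, GE_stable (Commute.refl D') l v.2⟩ : GE D' l) = Dl v := rfl
    rw [h6]
    simp only [LinearMap.sub_apply, LinearMap.comp_apply, AddSubgroupClass.coe_sub, map_sub,
      hφm'] at h5 ⊢
    rw [hDφl] at h5
    rw [hDφ, hDφ]
    rw [← sub_eq_zero] at h5 ⊢
    rw [← h5]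
    abel
  exact sub_eq_zero.mp hzero

end Deriv

end Crest.Agent.R172.SL
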