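import Crest.Agent.R172.SLc

/-!
Row 172, node (S) (structure lemma of note 12992), part d: conclusion.
(helper635)
-/

namespace Crest.Agent.R172.SL

open Module Matrix

section CoreZero

variable {k : Type*} [Field k] {ι : Type*} {U : Type*} [AddCommGroup U] [Module k U]

/-- perfect part zero and no common kernel vector: the module is zero -/
theorem eq_zero_of_II [FiniteDimensional k U] (φ : ι → End k U) (hK : NoK φ) (hI : II φ = ⊥) :
    (⊤ : Submodule k U) = ⊥ := by
  by_contra hne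
  have hwf : WellFounded ((· < ·) : Submodule k U → Submodule k U → Prop) := wellFounded_lt
  let S : Set (Submodule k U) := {N | N ≠ ⊥ ∧ imF φ N ≤ N}
  have hS : S.Nonempty := ⟨⊤, hne, le_top⟩
  obtain ⟨N, hN, hmin⟩ := hwf.has_min S hS
  obtain ⟨hN0, hNst⟩ := hN
  rcases hNst.eq_or_lt with h1 | h1
  · apply hN0
    rw [eq_bot_iff, ← hI]
    exact le_II h1.ge
  · have h2 : imF φ N = ⊥ := by
      by_contra h3
      exact hmin (imF φ N) ⟨h3, (imF φ).monotone' hNst⟩ h1
    apply hN0
    rw [eq_bot_iff]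
    intro v hv
    rw [Submodule.mem_bot]
    refine hK v fun s => ?_
    have := mem_imF_of (φ := φ) hv s
    rwa [h2, Submodule.mem_bot] at this

theorem nontrivial_core [FiniteDimensional k U] (φ : ι → End k U) (h : TT φ ≠ ⊤) :
    Nontrivial (Core φ) := by
  by_contra hn
  rw [not_nontrivial_iff_subsingleton] at hn
  have h1 : II (qT φ) = ⊥ := by
    rw [eq_bot_iff]
    intro v hv
    have : (⟨v, hv⟩ : II (qT φ)) = 0 := Subsingleton.elim _ _
    rw [Submodule.mem_bot]
    exact congrArg Subtype.val this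
  have h2 := eq_zero_of_II (qT φ) (noK_qT φ) h1
  apply h
  rw [eq_top_iff]
  intro v _
  have h3 : (TT φ).mkQ v ∈ (⊤ : Submodule k (U ⧸ TT φ)) := Submodule.mem_top
  rw [h2, Submodule.mem_bot, Submodule.mkQ_apply, Submodule.Quotient.mk_eq_zero] at h3
  exact h3

theorem core_sum [Fintype ι] (φ : ι → End k U) (h : ∑ s, φ s = 0) : ∑ s, core φ s = 0 := by
  ext ⟨v, hv⟩
  obtain ⟨u, rfl⟩ := Submodule.mkQ_surjective _ v
  rw [LinearMap.sum_apply, AddSubmonoidClass.coe_finsetSum]
  have h1 : ∀ s, ((core φ s ⟨(TT φ).mkQ u, hv⟩ : Core φ) : U ⧸ TT φ) = (TT φ).mkQ (φ s u) :=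
    fun s => rfl
  rw [Finset.sum_congr rfl fun s _ => h1 s, ← map_sum, ← LinearMap.sum_apply, h]
  simp

theorem core_pow (φ : ι → End k U) (s : ι) (N : ℕ) (u : U) (hv : (TT φ).mkQ u ∈ II (qT φ)) :
    (((core φ s ^ N) ⟨(TT φ).mkQ u, hv⟩ : Core φ) : U ⧸ TT φ) = (TT φ).mkQ ((φ s ^ N) u) := by
  induction N generalizing u with
  | zero => rfl
  | succ N ih =>
    rw [pow_succ, pow_succ, Module.End.mul_apply, Module.End.mul_apply]
    exact ih (φ s u) (II_stable (qT φ) s hv)

theorem core_nilpotent (φ : ι → End k U) (s : ι) (h : IsNilpotent (φ s)) :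
    IsNilpotent (core φ s) := by
  obtain ⟨N, hN⟩ := h
  refine ⟨N, ?_⟩
  ext ⟨v, hv⟩
  obtain ⟨u, rfl⟩ := Submodule.mkQ_surjective _ v
  rw [core_pow, hN]
  simp

end CoreZero

section Tame

variable {k : Type*} [Field k]
variable {U W : Type*} [AddCommGroup U] [Module k U] [AddCommGroup W] [Module k W]
variable [FiniteDimensional k U] [FiniteDimensional k W]

/-- the module is free over `k[φ s]/(φ s ^ L s)` with `L s = nilpotencyClass (φ s)` (dimension
form), and `∑ 1 / L s = 1`. -/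
structure TameData (φ : Fin 3 → End k U) (L : Fin 3 → ℕ) : Prop where
  two_le : ∀ s, 2 ≤ L s
  sum_inv : ∑ s, (1 : ℚ) / (L s : ℚ) = 1
  pow_zero : ∀ s, (φ s) ^ (L s) = 0
  rank : ∀ s j, j ≤ L s → L s * finrank k (LinearMap.range ((φ s) ^ j)) = (L s - j) * finrank k U
  nn_eq : ∀ s j, j < L s → L s * nn (φ s) j = finrank k U

theorem nn_pos [Nontrivial U] (φ : End k U) (h : IsNilpotent φ) : 0 < nn φ 0 := by
  rw [nn_zero]
  refine Nat.pos_of_ne_zero fun h0 => ?_
  rw [Submodule.finrank_eq_zero] at h0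
  obtain ⟨N, hN⟩ := h
  have hinj : Function.Injective φ := LinearMap.ker_eq_bot.mp h0
  have : Function.Injective (φ ^ N : End k U) := by
    induction N with
    | zero => rw [pow_zero]; exact Function.injective_id
    | succ N ih =>
      have h2 : ∀ i : ℕ, Function.Injective (φ ^ i : End k U) := by
        intro i
        rw [Module.End.coe_pow]
        exact hinj.iterate i
      exact h2 _
  rw [hN] at this
  obtain ⟨v, hv⟩ := exists_ne (0 : U)
  exact hv (this (by simp))

omit [FiniteDimensional k U] in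
theorem nn_zero_of_pow (φ : End k U) {j : ℕ} (h : φ ^ j = 0) : nn φ j = 0 := by
  rw [nn, h, LinearMap.range_zero, inf_bot_eq, finrank_bot]

theorem pow_lt_ne_zero {A : Type*} [MonoidWithZero A] {x : A} {j : ℕ}
    (hj : j < nilpotencyClass x) : x ^ j ≠ 0 := by
  intro h0
  have := Nat.sInf_le (s := {k | x ^ k = 0}) h0
  unfold nilpotencyClass at hj
  omega

theorem tame_of_H1 [Nontrivial U] [Nontrivial W] (φ : Fin 3 → End k U) (ψ : Fin 3 → End k W)
    (hφ : ∀ s, IsNilpotent (φ s)) (hψ : ∀ s, IsNilpotent (ψ s)) (hs : ∑ s, φ s = 0)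
    (hs' : ∑ s, ψ s = 0) (hK : NoK φ) (hP : Perf φ) (hK' : NoK ψ) (hP' : Perf ψ)
    (h : H1 φ ψ) (h' : H1 ψ φ) :
    TameData φ (fun s => nilpotencyClass (φ s)) ∧
      ∀ s, nilpotencyClass (ψ s) = nilpotencyClass (φ s) := by
  obtain ⟨h1, h2⟩ := count φ ψ hφ hψ hs hK hP h
  obtain ⟨h3, h4⟩ := count ψ φ hψ hφ hs' hK' hP' h'
  have hle : ∀ s, nilpotencyClass (ψ s) ≤ nilpotencyClass (φ s) := by
    intro s
    by_contra hlt
    push Not at hlt
    have h5 := h2 s _ (pow_lt_ne_zero hlt)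
    rw [nn_zero_of_pow _ (pow_nilpotencyClass (hφ s))] at h5
    have := nn_pos (φ s) (hφ s)
    omega
  have hge : ∀ s, nilpotencyClass (φ s) ≤ nilpotencyClass (ψ s) := by
    intro s
    by_contra hlt
    push Not at hlt
    have h5 := h4 s _ (pow_lt_ne_zero hlt)
    rw [nn_zero_of_pow _ (pow_nilpotencyClass (hψ s))] at h5
    have := nn_pos (ψ s) (hψ s)
    omega
  have heq : ∀ s, nilpotencyClass (ψ s) = nilpotencyClass (φ s) := fun s =>
    le_antisymm (hle s) (hge s)
  refine ⟨?_, heq⟩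
  have hnn : ∀ s j, j < nilpotencyClass (φ s) → nn (φ s) j = nn (φ s) 0 := by
    intro s j hj
    rw [← heq s] at hj
    exact h2 s j (pow_lt_ne_zero hj)
  have hdim : ∀ s, finrank k U = nilpotencyClass (φ s) * nn (φ s) 0 := by
    intro s
    have := sum_nn (φ s) (nilpotencyClass (φ s))
    rw [pow_nilpotencyClass (hφ s), LinearMap.range_zero, finrank_bot, zero_add] at this
    rw [this, Finset.sum_congr rfl fun j hj => hnn s j (Finset.mem_range.mp hj)]
    simp
  have ha : 0 < finrank k U := Module.finrank_pos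
  have hLpos : ∀ s, 0 < nilpotencyClass (φ s) := by
    intro s
    by_contra h0
    have h1 : nilpotencyClass (φ s) = 0 := by omega
    have := hdim s
    rw [h1] at this
    omega
  have hrank : ∀ s j, j ≤ nilpotencyClass (φ s) →
      finrank k (LinearMap.range ((φ s) ^ j)) = (nilpotencyClass (φ s) - j) * nn (φ s) 0 := by
    intro s j hj
    have h5 := sum_nn (φ s) j
    rw [Finset.sum_congr rfl fun i hi => hnn s i (lt_of_lt_of_le (Finset.mem_range.mp hi) hj)] at h5
    rw [Finset.sum_const, Finset.card_range, smul_eq_mul, hdim s] at h5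
    rw [Nat.sub_mul]
    omega
  have hsum : ∑ s, (1 : ℚ) / (nilpotencyClass (φ s) : ℚ) = 1 := by
    have h5 : ∀ s, (1 : ℚ) / (nilpotencyClass (φ s) : ℚ) * finrank k U = nn (φ s) 0 := by
      intro s
      rw [hdim s]
      have : (nilpotencyClass (φ s) : ℚ) ≠ 0 := by
        have := hLpos s
        positivity
      push_cast
      field_simp
    have h6 : ∑ s, (finrank k (LinearMap.range (φ s)) + nn (φ s) 0) = 3 * finrank k U := by
      have h7 : ∀ s, finrank k (LinearMap.range (φ s)) + nn (φ s) 0 = finrank k U := by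
        intro s
        rw [nn_zero]
        exact LinearMap.finrank_range_add_finrank_ker (φ s)
      rw [Finset.sum_congr rfl fun s _ => h7 s]
      simp
    rw [Finset.sum_add_distrib, h1] at h6
    have h8 : ∑ s, nn (φ s) 0 = finrank k U := by omega
    have h9 : (∑ s, (1 : ℚ) / (nilpotencyClass (φ s) : ℚ)) * finrank k U = finrank k U := by
      rw [Finset.sum_mul, Finset.sum_congr rfl fun s _ => h5 s]
      exact_mod_cast h8
    have h10 : (finrank k U : ℚ) ≠ 0 := by positivity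
    exact mul_right_cancel₀ h10 (by rw [h9, one_mul])
  refine ⟨?_, hsum, fun s => pow_nilpotencyClass (hφ s), ?_, ?_⟩
  · intro s
    by_contra hlt
    have h1' : nilpotencyClass (φ s) = 1 := by have := hLpos s; omega
    have h5 : ∀ t, (0 : ℚ) < 1 / (nilpotencyClass (φ t) : ℚ) := fun t => by
      have := hLpos t
      positivity
    have h6 : ∑ t, (1 : ℚ) / (nilpotencyClass (φ t) : ℚ) > 1 := by
      rw [Fin.sum_univ_three]
      have a0 := h5 0
      have a1 := h5 1
      have a2 := h5 2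
      have e : (1 : ℚ) / (nilpotencyClass (φ s) : ℚ) = 1 := by rw [h1']; norm_num
      fin_cases s
      · simp only [Fin.zero_eta] at e
        linarith
      · simp only [Fin.mk_one] at e
        linarith
      · have e' : (1 : ℚ) / (nilpotencyClass (φ 2) : ℚ) = 1 := e
        linarith
    linarith
  · intro s j hj
    rw [hrank s j hj, hdim s]
    ring
  · intro s j hj
    rw [hnn s j hj, hdim s]

end Tame

section Main

variable {K : Type*} [Field K] {n : Type*} [Fintype n] [DecidableEq n]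

/-- the module structure on the generalized eigenspace of `D` -/
noncomputable abbrev blk (D : Matrix n n K) (Φ : Fin 3 → Matrix n n K)
    (hc : ∀ s, D * Φ s = Φ s * D) (l : K) : Fin 3 → End K (GE (toLin' D) l) :=
  rG (toLin' D) (fun s => toLin' (Φ s)) (fun s => commute_toLin (hc s)) l

theorem blk_sum (D : Matrix n n K) (Φ : Fin 3 → Matrix n n K)
    (hc : ∀ s, D * Φ s = Φ s * D) (hs : ∑ s, Φ s = 0) (l : K) : ∑ s, blk D Φ hc l s = 0 := by
  ext1 v
  apply Subtype.ext
  rw [LinearMap.sum_apply, AddSubmonoidClass.coe_finsetSum]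
  have h1 : ∀ s, ((blk D Φ hc l s v : GE (toLin' D) l) : n → K) = toLin' (Φ s) v := fun s => rfl
  rw [Finset.sum_congr rfl fun s _ => h1 s, ← LinearMap.sum_apply, ← map_sum, hs]
  simp

theorem blk_nil (D : Matrix n n K) (Φ : Fin 3 → Matrix n n K)
    (hc : ∀ s, D * Φ s = Φ s * D) (hn : ∀ s, IsNilpotent (Φ s)) (l : K) (s : Fin 3) :
    IsNilpotent (blk D Φ hc l s) := by
  obtain ⟨N, hN⟩ := hn s
  refine ⟨N, ?_⟩
  ext1 v
  apply Subtype.ext
  have h1 : ∀ (N : ℕ) (v : GE (toLin' D) l),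
      (((blk D Φ hc l s ^ N) v : GE (toLin' D) l) : n → K) = toLin' (Φ s ^ N) v := by
    intro N
    induction N with
    | zero => intro v; simp
    | succ N ih =>
      intro v
      rw [pow_succ, Module.End.mul_apply, ih, pow_succ, Matrix.toLin'_mul_apply]
      rfl
  rw [h1, hN]
  simp

variable {J : Matrix n n K}

/-- **Structure lemma (S)**. -/
theorem structure_pair (hJ : IsUnit J.det) (hJs : Jᵀ = J) (Φ : Fin 3 → Matrix n n K)
    (hΦ : ∀ s, (Φ s)ᵀ * J = J * Φ s) (hn : ∀ s, IsNilpotent (Φ s)) (hs : ∑ s, Φ s = 0)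
    (hT : Tang J Φ) (D : Matrix n n K) (hD : Dᵀ * J = J * D)
    (hc : ∀ s, D * Φ s = Φ s * D) {l m : K} (hlm : l ≠ m)
    (hl : TT (blk D Φ hc l) ≠ ⊤) (hm : TT (blk D Φ hc m) ≠ ⊤) :
    TameData (core (blk D Φ hc l)) (fun s => nilpotencyClass (core (blk D Φ hc l) s)) ∧
      ∀ s, nilpotencyClass (core (blk D Φ hc m) s) = nilpotencyClass (core (blk D Φ hc l) s) := by
  have h1 := H1_core _ _ (H1_of_tang hJ hJs Φ hΦ hT D hD hc hlm)
  have h2 := H1_core _ _ (H1_of_tang hJ hJs Φ hΦ hT D hD hc hlm.symm)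
  have := nontrivial_core _ hl
  have := nontrivial_core _ hm
  exact tame_of_H1 _ _ (fun s => core_nilpotent _ s (blk_nil D Φ hc hn l s))
    (fun s => core_nilpotent _ s (blk_nil D Φ hc hn m s))
    (core_sum _ (blk_sum D Φ hc hs l)) (core_sum _ (blk_sum D Φ hc hs m))
    (noK_core _) (perf_core _) (noK_core _) (perf_core _) h1 h2

/-- **Structure lemma (S)**, final form: either all generalized eigenspaces of `D` except at most
one are nilpotent modules, or the tame case: a triple `L` with `∑ 1/L s = 1` such that the cores of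
all non-nilpotent generalized eigenspaces are free over `K[Φ s]/(Φ s ^ L s)`. -/
theorem structure_lemma (hJ : IsUnit J.det) (hJs : Jᵀ = J) (Φ : Fin 3 → Matrix n n K)
    (hΦ : ∀ s, (Φ s)ᵀ * J = J * Φ s) (hn : ∀ s, IsNilpotent (Φ s)) (hs : ∑ s, Φ s = 0)
    (hT : Tang J Φ) (D : Matrix n n K) (hD : Dᵀ * J = J * D)
    (hc : ∀ s, D * Φ s = Φ s * D) :
    (∃ l, ∀ m, m ≠ l → TT (blk D Φ hc m) = ⊤) ∨
    (∃ L : Fin 3 → ℕ, ∃ l m : K, l ≠ m ∧ TT (blk D Φ hc l) ≠ ⊤ ∧ TT (blk D Φ hc m) ≠ ⊤ ∧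
      ∀ m, TT (blk D Φ hc m) ≠ ⊤ → TameData (core (blk D Φ hc m)) L) := by
  classical
  by_cases h : ∃ l, ∀ m, m ≠ l → TT (blk D Φ hc m) = ⊤
  · exact Or.inl h
  right
  push Not at h
  obtain ⟨l, -, hl⟩ := h 0
  obtain ⟨m, hml, hm⟩ := h l
  obtain ⟨t1, e1⟩ := structure_pair hJ hJs Φ hΦ hn hs hT D hD hc hml.symm hl hm
  refine ⟨fun s => nilpotencyClass (core (blk D Φ hc l) s), l, m, hml.symm, hl, hm, ?_⟩
  intro m' hm'
  by_cases hm'l : m' = l
  · subst hm'l; exact t1
  · obtain ⟨t2, e2⟩ := structure_pair hJ hJs Φ hΦ hn hs hT D hD hc hm'l hm' hl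
    have : (fun s => nilpotencyClass (core (blk D Φ hc l) s)) =
        (fun s => nilpotencyClass (core (blk D Φ hc m') s)) := funext e2
    rw [this]; exact t2

end Main

end Crest.Agent.R172.SL
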