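import Crest.Agent.R172.SLev0
import Crest.Agent.R172.RJP3

/-!
Row 172 (S0260), tame node (t2): the second level on the block packages `BPkg` with TRIPLES
`(x, b, k)`: `lev3G` (additional data `v` with an arbitrary pencil condition, `RJP3.mainG`) and
`lev3Z` (`v = k : P1 → P2`, `RJP3.main3`), corrections modulo `Z`, `Z2`.
-/

set_option autoImplicit false
set_option linter.unusedSectionVars false

namespace Crest.Agent.R172.SLev140

open Matrix Module Crest.Agent.R172.FO Crest.Agent.R172.Qt Crest.Agent.R172.SpS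
open Crest.Agent.R172.SEnd Crest.Agent.R172.SEnd2 Crest.Agent.R172.SEnd3 Crest.Agent.R172.SBlk
open Crest.Agent.R172.SEnd4 Crest.Agent.R172.SEndW Crest.Agent.R172.SEnd5 Crest.Agent.R172.SCM
open Crest.Agent.R172.SC (PB)
open Crest.Agent.R172.PL (Wk Ainf Rad CoreM coreOp resOp)
open Crest.Agent.R172.SLev0
open scoped TensorProduct

variable {ι : Type*} [Fintype ι] [DecidableEq ι] {δ : Type*} [Fintype δ] [DecidableEq δ]
variable {K : Type*} [Field K]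
variable {arm : δ → Fin 3} {J : Matrix ι ι K} {B : Matrix δ δ K}
  {g : Matrix ι δ K} {R : Matrix δ ι K}
variable {X : Matrix ι ι K} {D : End K (CoreM (PhS arm J B g R X))} {ν ν' : K} {l : Fin 3 → ℕ}
  {n n' : ℕ} {P : Matrix ι (Fin n) K} {P' : Matrix ι (Fin n') K}
  {A : Fin 3 → Matrix (Fin n) (Fin n) K} {A' : Fin 3 → Matrix (Fin n') (Fin n') K}

/-- `Exact` of the pair of blocks -/
abbrev ExB (J : Matrix ι ι K) (X : Matrix ι ι K) (P : Matrix ι (Fin n) K)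
    (P' : Matrix ι (Fin n') K) (A : Fin 3 → Matrix (Fin n) (Fin n) K)
    (A' : Fin 3 → Matrix (Fin n') (Fin n') K) (c : K)
    (x : Fin 3 → (Fin n' → K) ⊗[K] (Fin n → K)) : Prop :=
  RJM.Ex (fun s => (A s).mulVecLin) (fun s => (A' s).mulVecLin)
    (LinearMap.ker (Pᵀ * (J * X) * P).mulVecLin)
    (LinearMap.ker (P'ᵀ * (J * X) * P').mulVecLin) c x

/-- the correction `b` of the pair of blocks, modulo `Z` -/
abbrev CorB (J : Matrix ι ι K) (X : Matrix ι ι K) (P : Matrix ι (Fin n) K)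
    (P' : Matrix ι (Fin n') K) (A : Fin 3 → Matrix (Fin n) (Fin n) K)
    (A' : Fin 3 → Matrix (Fin n') (Fin n') K) (Z : Submodule K (Fin n → K)) (c : K)
    (x : Fin 3 → (Fin n' → K) ⊗[K] (Fin n → K)) (be : (Fin n' → K) →ₗ[K] (Fin n → K)) : Prop :=
  RJZ.Cor (fun s => (A s).mulVecLin) (fun s => (A' s).mulVecLin)
    (LinearMap.ker (Pᵀ * (J * X) * P).mulVecLin) Z (gF J X P') (-1) c x be

/-- the correction `k` of the pair of blocks, modulo `Z2` -/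
abbrev CorkB (J : Matrix ι ι K) (X : Matrix ι ι K) (P : Matrix ι (Fin n) K)
    (P' : Matrix ι (Fin n') K) (A : Fin 3 → Matrix (Fin n) (Fin n) K)
    (A' : Fin 3 → Matrix (Fin n') (Fin n') K) (Z2 : Submodule K (Fin n' → K)) (c : K)
    (x : Fin 3 → (Fin n' → K) ⊗[K] (Fin n → K)) (ke : (Fin n → K) →ₗ[K] (Fin n' → K)) : Prop :=
  RJP3.CorK (fun s => (A s).mulVecLin) (fun s => (A' s).mulVecLin)
    (LinearMap.ker (P'ᵀ * (J * X) * P').mulVecLin) Z2 (gF J X P) (-1) c x ke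

/-- **second level with additional data** (`P1 = ν`, `P2 = ν'`) -/
theorem lev3G (b : BPkg arm J B g R X D ν l P A) (b' : BPkg arm J B g R X D ν' l P' A')
    {V3 G3 : Type*} [AddCommGroup V3] [Module K V3] [FiniteDimensional K V3]
    [AddCommGroup G3] [Module K G3]
    (a3l b3l : RJP.Pr K (Fin n → K) (Fin n' → K) (Fin 3) × V3 →ₗ[K] G3)
    (Z : Submodule K (Fin n → K)) (sZ : ∀ t, ∀ z ∈ Z, A t *ᵥ z ∈ Z)
    {Λ : Set K} (hΛ : Λ.Infinite) (h0 : (0 : K) ∉ Λ) {a1 a2 a3 : K}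
    (ha1 : a1 ≠ 0) (ha2 : a2 ≠ 0) (ha3 : a3 ≠ 0) (Q : Submodule K (Matrix ι δ K))
    (hZq : ∀ t, ∀ z ∈ Z, ∀ y, bq arm J g X P P t z y ∈ Q)
    (hqZ : ∀ t, ∀ z ∈ Z, ∀ y, bq arm J g X P P t y z ∈ Q)
    (hex : ∀ ρ ∈ Λ, ∀ x, ExB J X P P' A A' (ρ ^ 2) x →
      ∃ be, CorB J X P P' A A' Z (ρ ^ 2) x be)
    (hexV : ∀ ρ ∈ Λ, ∀ x be, ExB J X P P' A A' (ρ ^ 2) x →
      CorB J X P P' A A' Z (ρ ^ 2) x be → ∃ v, a3l ((x, be), v) = ρ ^ 2 • b3l ((x, be), v))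
    (F2 : RJP.Pr K (Fin n → K) (Fin n' → K) (Fin 3) × V3 →
      (RJP.Pr K (Fin n → K) (Fin n' → K) (Fin 3) × V3 →ₗ[K] Matrix ι δ K))
    (hrel : ∀ ρ ∈ Λ, ∀ ρ' ∈ Λ, ∀ x be v x' be' v',
      ExB J X P P' A A' (ρ ^ 2) x → CorB J X P P' A A' Z (ρ ^ 2) x be →
      a3l ((x, be), v) = ρ ^ 2 • b3l ((x, be), v) →
      ExB J X P P' A A' (ρ' ^ 2) x' → CorB J X P P' A A' Z (ρ' ^ 2) x' be' →
      a3l ((x', be'), v') = ρ' ^ 2 • b3l ((x', be'), v') →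
      ∑ t, (a1 • TensorProduct.lift ((bq arm J g X P P t) ∘ₗ be') (x t)
        + a2 • TensorProduct.lift ((bq arm J g X P P t).flip ∘ₗ be) (x' t)
        + a3 • TensorProduct.lift ((bq arm J g X P P t) ∘ₗ (RJM.ev (gF J X P') (x' t))) (x t)) +
          ρ' • F2 ((x, be), v) ((x', be'), v') ∈ Q) :
    Gens arm J B g X l Q (PbK arm J B g R X D ν) (PbK arm J B g R X D ν) := by
  obtain ⟨m, hm⟩ := b.blk.kills
  obtain ⟨m', hm'⟩ := b'.blk.kills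
  have hker : ∀ r ∈ LinearMap.ker (P'ᵀ * (J * X) * P').mulVecLin, ∀ y, gF J X P' y r = 0 := by
    intro r hr y
    rw [LinearMap.mem_ker, mulVecLin_apply] at hr
    rw [gF_apply, hr, dotProduct_zero]
  obtain ⟨h1, h2⟩ := RJP3.mainG (A := fun s => (A s).mulVecLin) (B := fun s => (A' s).mulVecLin)
    (R1 := LinearMap.ker (Pᵀ * (J * X) * P).mulVecLin)
    (R2 := LinearMap.ker (P'ᵀ * (J * X) * P').mulVecLin) (Z := Z) (l := l) (g := gF J X P')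
    (eps := -1) (m := max m m') a3l b3l (fun t z hz => by
      change (A t).mulVecLin z ∈ Z
      rw [mulVecLin_apply]; exact sZ t z hz)
    b.blk.top b'.blk.top b.blk.st b'.blk.st
    (fun w hw r hr => hm w (by omega) r hr) (fun w hw r hr => hm' w (by omega) r hr)
    (fun s => by have := b.blk.two_le s; omega) b.blk.pow b'.blk.pow b.blk.gen b'.blk.gen
    (neg_ne_zero.2 one_ne_zero)
    (fun r hr y => by rw [gF_flip b', hker r hr, neg_zero]) hker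
    (fun t x y => by
      rw [gF_apply, gF_apply, mulVecLin_apply, mulVecLin_apply, mulVec_mulVec,
        ← vecMul_transpose, ← dotProduct_mulVec, mulVec_mulVec, b'.adj, neg_mulVec,
        dotProduct_neg, neg_one_mul])
    (fun s => by
      obtain ⟨x, y, hxy⟩ := b'.corner s
      refine ⟨y, x, ?_⟩
      rw [gF_flip b', gF_apply, mulVecLin_pow_apply]
      exact neg_ne_zero.2 hxy)
    hΛ h0 (fun t => bq arm J g X P P t) Q ha1 ha2 ha3 hZq hqZ hex hexV F2 hrel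
  exact gens_self b Q h1 h2

/-- **second level with triples `(x, b, k)`** (`P1 = ν`, `P2 = ν'`) -/
theorem lev3Z (b : BPkg arm J B g R X D ν l P A) (b' : BPkg arm J B g R X D ν' l P' A')
    (Z : Submodule K (Fin n → K)) (sZ : ∀ t, ∀ z ∈ Z, A t *ᵥ z ∈ Z)
    (Z2 : Submodule K (Fin n' → K))
    {Λ : Set K} (hΛ : Λ.Infinite) (h0 : (0 : K) ∉ Λ) {a1 a2 a3 : K}
    (ha1 : a1 ≠ 0) (ha2 : a2 ≠ 0) (ha3 : a3 ≠ 0) (Q : Submodule K (Matrix ι δ K))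
    (hZq : ∀ t, ∀ z ∈ Z, ∀ y, bq arm J g X P P t z y ∈ Q)
    (hqZ : ∀ t, ∀ z ∈ Z, ∀ y, bq arm J g X P P t y z ∈ Q)
    (hex : ∀ ρ ∈ Λ, ∀ x, ExB J X P P' A A' (ρ ^ 2) x →
      ∃ be, CorB J X P P' A A' Z (ρ ^ 2) x be)
    (hexK : ∀ ρ ∈ Λ, ∀ x, ExB J X P P' A A' (ρ ^ 2) x →
      ∃ ke, CorkB J X P P' A A' Z2 (ρ ^ 2) x ke)
    (F2 : RJP.Pr K (Fin n → K) (Fin n' → K) (Fin 3) × ((Fin n → K) →ₗ[K] (Fin n' → K)) →
      (RJP.Pr K (Fin n → K) (Fin n' → K) (Fin 3) × ((Fin n → K) →ₗ[K] (Fin n' → K)) →ₗ[K]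
        Matrix ι δ K))
    (hrel : ∀ ρ ∈ Λ, ∀ ρ' ∈ Λ, ∀ x be ke x' be' ke',
      ExB J X P P' A A' (ρ ^ 2) x → CorB J X P P' A A' Z (ρ ^ 2) x be →
      CorkB J X P P' A A' Z2 (ρ ^ 2) x ke →
      ExB J X P P' A A' (ρ' ^ 2) x' → CorB J X P P' A A' Z (ρ' ^ 2) x' be' →
      CorkB J X P P' A A' Z2 (ρ' ^ 2) x' ke' →
      ∑ t, (a1 • TensorProduct.lift ((bq arm J g X P P t) ∘ₗ be') (x t)
        + a2 • TensorProduct.lift ((bq arm J g X P P t).flip ∘ₗ be) (x' t)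
        + a3 • TensorProduct.lift ((bq arm J g X P P t) ∘ₗ (RJM.ev (gF J X P') (x' t))) (x t)) +
          ρ' • F2 ((x, be), ke) ((x', be'), ke') ∈ Q) :
    Gens arm J B g X l Q (PbK arm J B g R X D ν) (PbK arm J B g R X D ν) := by
  refine lev3G b b' (RJP3.alK (fun s => (A s).mulVecLin)
    (LinearMap.ker (P'ᵀ * (J * X) * P').mulVecLin) Z2 (gF J X P) (-1))
    (RJP3.beK (fun s => (A' s).mulVecLin)
    (LinearMap.ker (P'ᵀ * (J * X) * P').mulVecLin) Z2 (gF J X P)) Z sZ hΛ h0 ha1 ha2 ha3 Q hZq hqZ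
    hex ?_ F2 ?_
  · intro ρ hρ x be hx _
    obtain ⟨ke, hk⟩ := hexK ρ hρ x hx
    exact ⟨ke, (RJP3.pencilK_iff _ _ _ Z2 _ _ (ρ ^ 2) ((x, be), ke)).2 hk⟩
  · intro ρ hρ ρ' hρ' x be ke x' be' ke' hx hb hk hx' hb' hk'
    exact hrel ρ hρ ρ' hρ' x be ke x' be' ke' hx hb
      ((RJP3.pencilK_iff _ _ _ Z2 _ _ (ρ ^ 2) ((x, be), ke)).1 hk) hx' hb'
      ((RJP3.pencilK_iff _ _ _ Z2 _ _ (ρ' ^ 2) ((x', be'), ke')).1 hk')

end Crest.Agent.R172.SLev140
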