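import Crest.Agent.R172.SLevAR731
import Crest.Agent.R172.SLevA1
import Crest.Agent.R172.SA2h555

/-!
Row 172 (S0260), S-side (t2), LEVEL 1 : `STop.Lev1` (assembly).
-/

set_option autoImplicit false
set_option linter.unusedSectionVars false
set_option linter.unusedVariables false
set_option linter.unusedFintypeInType false
set_option linter.unusedDecidableInType false
set_option maxHeartbeats 400000

namespace Crest.Agent.R172.SLev1f731

open Module Matrix TensorProduct Crest.Agent.R172.FO Crest.Agent.R172.Qt Crest.Agent.R172.SpS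
open Crest.Agent.R172.SUX Crest.Agent.R172.SGl1
open Crest.Agent.R172.SBlk Crest.Agent.R172.UBlk
open Crest.Agent.R172.SEnd Crest.Agent.R172.SEnd2 Crest.Agent.R172.SEndW
open Crest.Agent.R172.SCM (BPkg)
open Crest.Agent.R172.SC (PB PB_stable iSup_PB)
open Crest.Agent.R172.PL (Wk Ainf Rad CoreM coreOp resOp)
open Crest.Agent.R172.Om (Kiso)
open Crest.Agent.R172.STop (Setup)
open Crest.Agent.R172.SLev0 (QG PbK bq)
open Crest.Agent.R172.SInst896 (two_ne' good_t)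
open Crest.Agent.R172.SLevAR731 (QD gens_of)

variable {ι : Type} [Fintype ι] [DecidableEq ι] {δ : Type} [Fintype δ] [DecidableEq δ]
variable {K : Type} [Field K] [Algebra ℂ K] [IsAlgClosed K]
variable {arm : δ → Fin 3} {J : Matrix ι ι K} {B : Matrix δ δ K}
  {N W : Submodule K (Matrix ι δ K)} {F f : Matrix ι δ K}
  {P : Matrix ι ι K × (Fin 3 → Matrix ι ι K)} {R : Matrix δ ι K}
  {D : End K (CoreM (PhS arm J B F R P.1))} {l : Fin 3 → ℕ}

/-- the blocks of `K^δ` -/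
noncomputable abbrev Qf (S : Setup arm J B N W F f P R D l) (μ : K) : Submodule K (δ → K) :=
  Qb (S.hCtx F S.hF).data S.hR P.1 D μ

/-- the stable maps -/
theorem st (S : Setup arm J B N W F f P R D l) (μ : K) (r : Fin 3) :
    ∀ u ∈ Qf S μ, SGl1.om arm B (th J F P.1 F) r *ᵥ u ∈ Qf S μ := fun _ hu =>
  Qb_stable (S.hCtx F S.hF) S.hR S.hD r hu

theorem pf (S : Setup arm J B N W F f P R D l) (μ : K) (q : Qf S μ) :
    ∃ g : Fin 3 → Qf S μ, q = ∑ t, rs (SGl1.om arm B (th J F P.1 F) t) (Qf S μ) (st S μ t) (g t) := by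
  obtain ⟨c, hc, hs⟩ := Qb_exists (S.hCtx F S.hF) S.hR S.hD q.2
  refine ⟨fun t => ⟨c t, hc t⟩, ?_⟩
  apply Subtype.ext
  rw [Submodule.coe_sum, ← hs]
  exact Finset.sum_congr rfl fun t _ => rfl

/-- finitely many blocks -/
theorem fin_E (S : Setup arm J B N W F f P R D l) : {μ : K | Qf S μ ≠ ⊥}.Finite := by
  have h1 : {μ : K | ((cov (S.hCtx F S.hF).data S.hR P.1).D D).maxGenEigenspace μ ≠ ⊥}.Finite :=
    WellFoundedGT.finite_ne_bot_of_iSupIndep (Module.End.independent_maxGenEigenspace _)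
  refine h1.subset fun μ hμ h2 => hμ ?_
  exact STop.PB_bot ((cov (S.hCtx F S.hF).data S.hR P.1).D_comm S.hD.2) h2

/-- the bad ratios of a pair -/
def Bs (S : Setup arm J B N W F f P R D l) (μ μ' : K) : Set K :=
  {s : K | ∃ b : Qf S μ →ₗ[K] Qf S μ' →ₗ[K] K, b ≠ 0 ∧
      ∀ r u q, b (rs (SGl1.om arm B (th J F P.1 F) r) (Qf S μ) (st S μ r) u) q =
        s * b u (rs (SGl1.om arm B (th J F P.1 F) r) (Qf S μ') (st S μ' r) q)}

theorem fin_Bs (S : Setup arm J B N W F f P R D l) (μ μ' : K) : (Bs S μ μ').Finite :=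
  SLevA.finite_bad _ _ (pf S μ')

/-- finitely many parameters for a given ratio -/
theorem fin_t {μ μ' : K} (hne : μ ≠ μ') (s : K) :
    {t : ℂ | 1 + algebraMap ℂ K t * μ ≠ 0 ∧
      -((1 + algebraMap ℂ K t * μ') ^ 2 / (1 + algebraMap ℂ K t * μ) ^ 2) = s}.Finite := by
  set g : ℂ → K := fun t => (1 + algebraMap ℂ K t * μ') / (1 + algebraMap ℂ K t * μ) with hg
  set A : Set ℂ := {t : ℂ | 1 + algebraMap ℂ K t * μ ≠ 0 ∧
      -((1 + algebraMap ℂ K t * μ') ^ 2 / (1 + algebraMap ℂ K t * μ) ^ 2) = s} with hA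
  have hinj : Set.InjOn g A := by
    intro a ha b hb hab
    simp only [hg] at hab
    rw [div_eq_div_iff ha.1 hb.1] at hab
    have h3 : (algebraMap ℂ K a - algebraMap ℂ K b) * (μ' - μ) = 0 := by linear_combination hab
    rcases mul_eq_zero.1 h3 with h4 | h4
    · exact (algebraMap ℂ K).injective (sub_eq_zero.1 h4)
    · exact absurd (sub_eq_zero.1 h4).symm hne
  by_cases he : A.Nonempty
  · obtain ⟨t0, ht0⟩ := he
    refine Set.Finite.of_finite_image (f := g) ?_ hinj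
    refine (Set.toFinite ({g t0, -g t0} : Set K)).subset ?_
    rintro _ ⟨t, ht, rfl⟩
    have h1 : g t ^ 2 = g t0 ^ 2 := by
      have h2 := ht.2
      rw [← ht0.2, neg_inj, ← div_pow, ← div_pow] at h2
      exact h2
    rcases sq_eq_sq_iff_eq_or_eq_neg.1 h1 with h3 | h3
    · exact Or.inl h3
    · exact Or.inr h3
  · rw [Set.not_nonempty_iff_eq_empty.1 he]
    exact Set.finite_empty

/-- the bad parameters -/
def bad (S : Setup arm J B N W F f P R D l) : Set ℂ :=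
  (⋃ μ ∈ {μ : K | Qf S μ ≠ ⊥}, {t : ℂ | 1 + algebraMap ℂ K t * μ = 0}) ∪
  (⋃ μ ∈ {μ : K | Qf S μ ≠ ⊥}, ⋃ μ' ∈ {μ : K | Qf S μ ≠ ⊥}, ⋃ s ∈ Bs S μ μ',
    {t : ℂ | μ ≠ μ' ∧ 1 + algebraMap ℂ K t * μ ≠ 0 ∧
      -((1 + algebraMap ℂ K t * μ') ^ 2 / (1 + algebraMap ℂ K t * μ) ^ 2) = s})

theorem fin_bad (S : Setup arm J B N W F f P R D l) : (bad S).Finite := by
  refine Set.Finite.union ((fin_E S).biUnion fun μ _ => (good_t μ).finite) ?_
  refine (fin_E S).biUnion fun μ _ => (fin_E S).biUnion fun μ' _ => (fin_Bs S μ μ').biUnion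
    fun s _ => ?_
  by_cases hne : μ = μ'
  · refine Set.finite_empty.subset ?_
    rintro t ⟨h1, -⟩
    exact h1 hne
  · exact (fin_t hne s).subset fun t ht => ht.2

theorem not_bad1 (S : Setup arm J B N W F f P R D l) {t : ℂ} (ht : t ∉ bad S) {μ : K}
    (hμ : Qf S μ ≠ ⊥) : 1 + algebraMap ℂ K t * μ ≠ 0 := by
  intro h
  exact ht (Or.inl (Set.mem_biUnion (s := {μ : K | Qf S μ ≠ ⊥}) hμ h))

theorem not_bad2 (S : Setup arm J B N W F f P R D l) {t : ℂ} (ht : t ∉ bad S) {μ μ' : K}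
    (hne : μ ≠ μ') (hμ : Qf S μ ≠ ⊥) (hμ' : Qf S μ' ≠ ⊥)
    (b : Qf S μ →ₗ[K] Qf S μ' →ₗ[K] K)
    (hb : ∀ r u q, b (rs (SGl1.om arm B (th J F P.1 F) r) (Qf S μ) (st S μ r) u) q =
        (-((1 + algebraMap ℂ K t * μ') ^ 2 / (1 + algebraMap ℂ K t * μ) ^ 2)) *
          b u (rs (SGl1.om arm B (th J F P.1 F) r) (Qf S μ') (st S μ' r) q)) : b = 0 := by
  by_contra h
  refine ht (Or.inr ?_)
  refine Set.mem_biUnion (s := {μ : K | Qf S μ ≠ ⊥}) hμ ?_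
  refine Set.mem_biUnion (s := {μ : K | Qf S μ ≠ ⊥}) hμ' ?_
  exact Set.mem_biUnion (s := Bs S μ μ') (x := -((1 + algebraMap ℂ K t * μ') ^ 2 /
    (1 + algebraMap ℂ K t * μ) ^ 2)) ⟨b, h, hb⟩ ⟨hne, not_bad1 S ht hμ, rfl⟩

theorem defect_neg' {V1 V2 : Type*} [AddCommGroup V1] [Module K V1] [AddCommGroup V2] [Module K V2]
    (A : End K V1) (B' : End K V2) (c : K) (z : V2 ⊗[K] V1) :
    Dual.defect A (-B') c z = Dual.defect A B' (-c) z := by
  rw [SULift.defect_neg]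
  rfl

/-- **LEVEL 1** -/
theorem gens (S : Setup arm J B N W F f P R D l) {ν ν' : K} (hne : ν ≠ ν') {n1 n2 : ℕ}
    {Q1 : Matrix ι (Fin n1) K} {A1 : Fin 3 → Matrix (Fin n1) (Fin n1) K}
    {Q2 : Matrix ι (Fin n2) K} {A2 : Fin 3 → Matrix (Fin n2) (Fin n2) K}
    (b1 : BPkg arm J B F R P.1 D ν l Q1 A1) (b2 : BPkg arm J B F R P.1 D ν' l Q2 A2) :
    STop.Gens arm J B N W F P R l Q1 A1 Q2 A2 := by
  classical
  have hctx := S.hCtx F S.hF
  obtain ⟨Y, dY, hY1, hY2, hY3, hfam⟩ := SInst896.family S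
  refine gens_of S hne b1 b2 (fin_bad S) fun t ht hc1 hc2 => ?_
  obtain ⟨Pt, hPt, hV, -, hPF, -⟩ := hfam t
  refine ⟨Pt, hPt, hV, hPF, fun x hx π1 π2 h1 h2 y hy hsum d m => ?_⟩
  set τ : K := algebraMap ℂ K t with hτ
  set H : Matrix ι δ K := F + τ • f with hH
  have hHK : H ∈ Kiso J N W := (Kiso J N W).add_mem S.hF ((Kiso J N W).smul_mem _ S.hf)
  have hCH := S.hCtx H hHK
  set kk : Matrix ι δ K := (ν - ν')⁻¹ • (f - ν' • F) with hkk
  have hk : kk ∈ N ⊓ W :=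
    Submodule.smul_mem _ _ (Submodule.sub_mem _ S.hf.1 (Submodule.smul_mem _ _ S.hF.1))
  have hRelG : ∀ {μ μ' : K}, μ ≠ μ' → Rel F H ((μ - μ')⁻¹ • (f - μ' • F)) (th J F P.1 F)
      (th J H Pt.1 H) (th J H Pt.1 ((μ - μ')⁻¹ • (f - μ' • F))) (Qf S μ) (Qf S μ')
      (1 + τ * μ) (1 + τ * μ') := fun hμ =>
    rel_of (t := τ) (P0 := P.1) (P := Pt) hμ S.hF.1 S.hf.1 hCH hPt (SLevAR731.flip S) hPF
      (fun u hu => (Qb_rel hctx S.hR S.hD (S.hNil F S.hF) S.hP S.hf.1 hu).1)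
      (fun u hu => (Qb_rel hctx S.hR S.hD (S.hNil F S.hF) S.hP S.hf.1 hu).1)
  have hRel := hRelG hne
  have hDat := hctx.data
  have hSskew : (th J F P.1 F)ᵀ = -(th J F P.1 F) := th_skew hctx S.hP hctx.mem
  have hfu : ∀ μ, ∀ u ∈ Qf S μ, f *ᵥ u = μ • (F *ᵥ u) := fun μ u hu =>
    (Qb_rel hctx S.hR S.hD (S.hNil F S.hF) S.hP S.hf.1 hu).1
  have hHu : ∀ μ, ∀ u ∈ Qf S μ, H *ᵥ u = (1 + τ * μ) • F *ᵥ u := by
    intro μ u hu
    rw [hH, add_mulVec, smul_mulVec, hfu μ u hu, smul_smul, add_smul, one_smul]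
  have hku : ∀ μ, ∀ u ∈ Qf S μ, kk *ᵥ u = ((ν - ν')⁻¹ * (μ - ν')) • F *ᵥ u := by
    intro μ u hu
    rw [hkk, smul_mulVec, sub_mulVec, smul_mulVec, hfu μ u hu, ← sub_smul, smul_smul]
  have horth : ∀ μ μ', μ ≠ μ' → ∀ u ∈ Qf S μ, ∀ q ∈ Qf S μ',
      u ⬝ᵥ (th J F P.1 F *ᵥ q) = 0 := fun μ μ' hμ u hu q hq =>
    Qb_orth hctx S.hR S.hD (S.hNil F S.hF) S.hP S.hf.1 hμ hu hq
  have hsH : ∀ μ, ∀ u ∈ Qf S μ, th J H Pt.1 H *ᵥ u = (1 + τ * μ) ^ 2 • th J F P.1 F *ᵥ u := by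
    intro μ u hu
    have : ∃ μ' : K, μ ≠ μ' := ⟨μ + 1, by simp⟩
    obtain ⟨μ', hμ'⟩ := this
    exact (hRelG hμ').S1 u hu
  have hρ : (1 + τ * ν) * ((1 + τ * ν') / (1 + τ * ν)) = 1 + τ * ν' := by field_simp
  -- the arms are radical
  have hinj : ∀ v w, Q1 *ᵥ v = Q1 *ᵥ w → v = w := by
    intro v w hvw
    have h1 : Q1 *ᵥ (v - w) = 0 := by rw [mulVec_sub, hvw, sub_self]
    exact sub_eq_zero.1 (b1.inj _ h1)
  have hinj2 : ∀ v w, Q2 *ᵥ v = Q2 *ᵥ w → v = w := by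
    intro v w hvw
    have h1 : Q2 *ᵥ (v - w) = 0 := by rw [mulVec_sub, hvw, sub_self]
    exact sub_eq_zero.1 (b2.inj _ h1)
  have hc1' : ∀ r (u : Qf S ν), π1 (rs (SGl1.om arm B (th J F P.1 F) r) (Qf S ν) (st S ν r) u) =
      (A1 r).mulVecLin (π1 u) := by
    intro r u
    apply hinj
    rw [h1, rs_coe, SRel343.F_om hDat, mulVecLin_apply, mulVec_mulVec _ Q1, ← b1.act,
      ← mulVec_mulVec (π1 u) (M arm B r F F * (J * P.1)) Q1, h1]
  have hc2' : ∀ r (u : Qf S ν'),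
      π2 (rs (SGl1.om arm B (th J F P.1 F) r) (Qf S ν') (st S ν' r) u) =
      (A2 r).mulVecLin (π2 u) := by
    intro r u
    apply hinj2
    rw [h2, rs_coe, SRel343.F_om hDat, mulVecLin_apply, mulVec_mulVec _ Q2, ← b2.act,
      ← mulVec_mulVec (π2 u) (M arm B r F F * (J * P.1)) Q2, h2]
  have hdef : ∀ r (z : Qf S ν' ⊗[K] Qf S ν), TensorProduct.map π2 π1
      (Dual.defect (rs (SGl1.om arm B (th J F P.1 F) r) (Qf S ν) (st S ν r))
        (-(rs (SGl1.om arm B (th J F P.1 F) r) (Qf S ν') (st S ν' r)))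
        (((1 + τ * ν') / (1 + τ * ν)) ^ 2) z) =
      Dual.defect (A1 r).mulVecLin (A2 r).mulVecLin (-((1 + τ * ν') / (1 + τ * ν)) ^ 2)
        (TensorProduct.map π2 π1 z) := by
    intro r z
    rw [defect_neg']
    exact SGl1.map_defect (a := fun r => rs (SGl1.om arm B (th J F P.1 F) r) (Qf S ν) (st S ν r))
      (b := fun r => rs (SGl1.om arm B (th J F P.1 F) r) (Qf S ν') (st S ν' r))
      (A := fun r => (A1 r).mulVecLin) (Bo := fun r => (A2 r).mulVecLin) hc1' hc2' _ r z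
  have hrad : ∀ r, ∀ u ∈ Qf S ν, ∀ q ∈ Qf S ν', SLevA.Pr (th J F P.1 F) (Qf S ν') (Qf S ν) u q
      (Dual.defect (rs (SGl1.om arm B (th J F P.1 F) r) (Qf S ν) (st S ν r))
        (-(rs (SGl1.om arm B (th J F P.1 F) r) (Qf S ν') (st S ν' r)))
        (((1 + τ * ν') / (1 + τ * ν)) ^ 2) (y r)) = 0 := by
    intro r
    refine SLevA.Pr_rad (F := F) (η := J * P.1)
      (by unfold th; simp only [Matrix.mul_assoc]) π1 π2 Q1.mulVecLin Q2.mulVecLin
      (fun u => h1 u) (fun u => h2 u)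
      (R1 := LinearMap.ker (Q1ᵀ * (J * P.1) * Q1).mulVecLin)
      (R2 := LinearMap.ker (Q2ᵀ * (J * P.1) * Q2).mulVecLin) ?_ ?_ ?_
    · intro v hv u hu
      have e0 := h1 ⟨u, hu⟩
      rw [← e0, mulVecLin_apply, SEnd.form_gg]
      rw [LinearMap.mem_ker, mulVecLin_apply] at hv
      rw [dotProduct_mulVec, ← mulVec_transpose, b1.skew, neg_mulVec, hv, neg_zero, zero_dotProduct]
    · intro v hv u hu
      have e0 := h2 ⟨u, hu⟩
      rw [← e0, mulVecLin_apply, SEnd.form_gg]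
      rw [LinearMap.mem_ker, mulVecLin_apply] at hv
      rw [dotProduct_mulVec, ← mulVec_transpose, b2.skew, neg_mulVec, hv, neg_zero, zero_dotProduct]
    · rw [hdef, hy r]
      exact hx r
  set Yy : Fin 3 → Matrix δ δ K := fun r => ten (Qf S ν') (Qf S ν) (y r) +
    (ten (Qf S ν') (Qf S ν) (y r))ᵀ with hYy
  have hYs : ∀ r, (Yy r)ᵀ = Yy r := by
    intro r
    rw [hYy]
    simp only [transpose_add, transpose_transpose]
    rw [add_comm]
  -- `β = 0`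
  have β0 : ∀ μ μ', μ ≠ μ' → ∀ u ∈ Qf S μ, ∀ q ∈ Qf S μ',
      SUB.nab arm J H Pt.1 Yy d u ⬝ᵥ (th J F P.1 F *ᵥ q) = 0 := by
    intro μ μ' hμ u hu q hq
    by_cases hE : Qf S μ = ⊥
    · rw [hE, Submodule.mem_bot] at hu
      rw [hu, SUB.nab_zero, zero_dotProduct]
    by_cases hE' : Qf S μ' = ⊥
    · rw [hE', Submodule.mem_bot] at hq
      rw [hq, mulVec_zero, dotProduct_zero]
    exact SLevA.beta_zero hCH hPt hYs m (not_bad1 S ht hE) (not_bad1 S ht hE')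
      (hsH μ) (hsH μ') (st S μ) (st S μ') (horth μ μ' hμ)
      (fun r u hu q hq => SLevA.harm_all hDat.B_symm hDat.B_arm hSskew (Qb := Qf S)
        (c := fun μ => 1 + τ * μ) hsH (st S) horth hne hρ (hrad r) hμ u hu q hq)
      (fun b hb => not_bad2 S ht hμ hE hE' b hb) u hu q hq
  -- the good class
  have hPC : PC arm J B F R P.1 = ⨆ μ : K, PbK arm J B F R P.1 D μ := by
    have hDc : ∀ s x, D (coreOp (PhS arm J B F R P.1) s x) =
        coreOp (PhS arm J B F R P.1) s (D x) := S.hD.2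
    have h3 : Ainf (PhS arm J B F R P.1) = ⨆ ν, PB (PhS arm J B F R P.1) D ν :=
      (iSup_PB hDc (Module.End.iSup_maxGenEigenspace_eq_top D)).symm
    unfold PC
    rw [h3, Submodule.map_iSup]
  have hPb : ∀ μ, ∀ c ∈ PbK arm J B F R P.1 D μ, ∃ u ∈ Qf S μ, F *ᵥ u = c := by
    rintro μ _ ⟨v, hv, rfl⟩
    have h3 := Qb_map hctx S.hR S.hD μ
    have h4 : v ∈ (Qf S μ).map (gS F) := by
      rw [h3]; exact hv
    obtain ⟨u, hu, rfl⟩ := h4
    exact ⟨u, hu, rfl⟩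
  have hPCind : ∀ w : ι → K, (∀ μ, ∀ q ∈ Qf S μ, (F *ᵥ q) ⬝ᵥ w = 0) →
      ∀ a ∈ PC arm J B F R P.1, a ⬝ᵥ w = 0 := by
    intro w hw a ha
    rw [hPC] at ha
    refine Submodule.iSup_induction (p := fun μ : K => PbK arm J B F R P.1 D μ)
      (motive := fun a => a ⬝ᵥ w = 0) ha ?_ (zero_dotProduct _) ?_
    · intro μ c hc
      obtain ⟨u, hu, rfl⟩ := hPb μ c hc
      exact hw μ u hu
    · intro a b ha hb
      rw [add_dotProduct, ha, hb, add_zero]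
  have hJ0 : Fᵀ * J * wd arm J H Pt.1 Yy d kk = 0 :=
    SA2h555.F_perp_rel hCH S.hF S.hNm S.hWm hRel hc1 hk y m
  refine SLev0.mem_QG.2 ⟨wd arm J H Pt.1 Yy d kk, ?_, by rw [sub_self]; exact N.zero_mem, ?_,
    fun μ => d (((ν - ν')⁻¹ * (μ - ν')) / (1 + τ * μ)) * (1 + τ * μ), ?_⟩
  · exact m.w_mem hk.2
  · intro a ha v
    refine hPCind _ (fun μ q hq => ?_) a ha
    have e1 : (F *ᵥ q) ⬝ᵥ ((J * wd arm J H Pt.1 Yy d kk) *ᵥ v) =
        q ⬝ᵥ ((Fᵀ * J * wd arm J H Pt.1 Yy d kk) *ᵥ v) := by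
      rw [← vecMul_transpose, ← dotProduct_mulVec, mulVec_mulVec]
      simp only [Matrix.mul_assoc]
    rw [e1, hJ0, zero_mulVec, dotProduct_zero]
  · intro μ c hc r
    obtain ⟨u, hu, rfl⟩ := hPb μ c hc
    have hou := st S μ r u hu
    obtain ⟨rr, hr1, hr2⟩ := SLevA.wd_value hctx S.hP hHK.1 hk m (Qb := Qf S)
      (c := fun μ => 1 + τ * μ) (κ := fun μ => (ν - ν')⁻¹ * (μ - ν'))
      (fun μ u hu hu0 => not_bad1 S ht (fun h => hu0 (by
        rw [h, Submodule.mem_bot] at hu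
        exact hu))) hHu hku β0 μ _ hou
    refine ⟨rr, fun a ha => hPCind _ hr1 a ha, ?_⟩
    have e1 : (E K arm r * B * Fᵀ * (J * P.1)) *ᵥ (F *ᵥ u) =
        SGl1.om arm B (th J F P.1 F) r *ᵥ u := by
      rw [mulVec_mulVec]
      unfold SGl1.om th
      rw [hDat.B_arm]
      simp only [Matrix.mul_assoc]
    rw [e1, ← SRel343.F_om hDat]
    exact hr2

/-- **`STop.Lev1`** -/
theorem lev1 : STop.Lev1 := fun S _ _ hne _ _ _ _ _ _ b1 b2 => gens S hne b1 b2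

end Crest.Agent.R172.SLev1f731
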