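import Crest.Agent.R172.SLev0
import Crest.Agent.R172.SULift
import Crest.Agent.R172.UBlk

/-!
Row 172 (S0260), S-side (t2), first level: the relation `h` of `SLev0.lev1` in the coordinates of
the block packages `BPkg`, from `SGl1.first_pair` and `SULift.exists_lift`.
-/

set_option autoImplicit false
set_option linter.unusedSectionVars false
set_option linter.unusedFintypeInType false
set_option linter.unusedDecidableInType false

namespace Crest.Agent.R172.SRel343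

open Matrix Module TensorProduct Crest.Agent.R172.FO Crest.Agent.R172.Qt Crest.Agent.R172.SpS
  Crest.Agent.R172.SUX Crest.Agent.R172.SGl1
open Crest.Agent.R172.SLev0 (bq bq_apply)
open Crest.Agent.R172.SCM Crest.Agent.R172.SEnd2 Crest.Agent.R172.SBlk Crest.Agent.R172.UBlk
open Crest.Agent.R172.SC (PB)
open Crest.Agent.R172.PL (CoreM)

variable {ι : Type*} [Fintype ι] [DecidableEq ι] {δ : Type*} [Fintype δ] [DecidableEq δ]
variable {k K : Type*} [Field k] [Field K] [Algebra k K]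
variable {arm : δ → Fin 3} {J : Matrix ι ι K} {B : Matrix δ δ K}
  {N W : Submodule K (Matrix ι δ K)} {F : Matrix ι δ K} {X : Matrix ι ι K}

/-- coordinates of `F u` in the frame `V` -/
theorem exists_pi {Q : Submodule K (δ → K)} {n : ℕ} {V : Matrix ι (Fin n) K}
    (inj : ∀ x, V *ᵥ x = 0 → x = 0) (h : ∀ u ∈ Q, ∃ x, F *ᵥ u = V *ᵥ x) :
    ∃ π : Q →ₗ[K] (Fin n → K), ∀ u : Q, V *ᵥ (π u) = F *ᵥ (u : δ → K) := by
  have hinj : ∀ x y, V *ᵥ x = V *ᵥ y → x = y := by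
    intro x y hxy
    have := inj (x - y) (by rw [mulVec_sub, hxy, sub_self])
    exact sub_eq_zero.1 this
  choose c hc using fun u : Q => h u u.2
  refine ⟨{ toFun := c, map_add' := fun u v => ?_, map_smul' := fun a u => ?_ }, fun u =>
    (hc u).symm⟩
  · apply hinj
    rw [← hc, mulVec_add, ← hc, ← hc, Submodule.coe_add, mulVec_add]
  · apply hinj
    rw [← hc, RingHom.id_apply, mulVec_smul, ← hc, Submodule.coe_smul, mulVec_smul]

/-- `Φ_r F = F ω_r` -/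
theorem F_om (hD : Data k arm J B N W) (r : Fin 3) (u : δ → K) :
    F *ᵥ (SGl1.om arm B (th J F X F) r *ᵥ u) =
      (FO.M arm B r F F * (J * X)) *ᵥ (F *ᵥ u) := by
  rw [mulVec_mulVec, mulVec_mulVec]
  congr 1
  unfold SGl1.om th FO.M
  rw [← hD.B_arm]
  simp only [Matrix.mul_assoc]

theorem om_zero (r : Fin 3) {u : δ → K} (hu : F *ᵥ u = 0) :
    SGl1.om arm B (th J F X F) r *ᵥ u = 0 := by
  have e : SGl1.om arm B (th J F X F) r = (B * E K arm r * (Fᵀ * J * X)) * F := by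
    unfold SGl1.om th
    simp only [Matrix.mul_assoc]
  rw [e, ← mulVec_mulVec, hu, mulVec_zero]

/-- `qa` in coordinates -/
theorem qa_bq (hJ : Jᵀ = J) (hX : Skw J X) {Q1 Q2 : Submodule K (δ → K)} {n1 n2 : ℕ}
    {V1 : Matrix ι (Fin n1) K} {V2 : Matrix ι (Fin n2) K}
    {π1 : Q1 →ₗ[K] (Fin n1 → K)} {π2 : Q2 →ₗ[K] (Fin n2 → K)}
    (h1 : ∀ u : Q1, V1 *ᵥ (π1 u) = F *ᵥ (u : δ → K))
    (h2 : ∀ u : Q2, V2 *ᵥ (π2 u) = F *ᵥ (u : δ → K)) (r : Fin 3) (a : Q2) (b : Q1) :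
    qa arm F (th J F X F) Q2 Q1 r a b = -(bq arm J F X V2 V1 r (π2 a) (π1 b)) := by
  have e1 : (F *ᵥ (b : δ → K)) ᵥ* (J * X * F) = -(th J F X F *ᵥ (b : δ → K)) := by
    rw [← mulVec_transpose, mulVec_mulVec]
    have e2 : (J * X * F)ᵀ * F = -(th J F X F) := by
      unfold th
      rw [transpose_mul, transpose_mul, hJ]
      have e3 : Xᵀ * J = -(J * X) := eq_neg_of_add_eq_zero_left hX
      rw [e3]
      simp only [Matrix.mul_neg, Matrix.neg_mul, Matrix.mul_assoc]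
    rw [e2, neg_mulVec]
  have key : vecMulVec (F *ᵥ (a : δ → K)) (F *ᵥ (b : δ → K)) * (J * X) * F =
      -(vecMulVec (F *ᵥ (a : δ → K)) (th J F X F *ᵥ (b : δ → K))) := by
    rw [Matrix.mul_assoc, vecMulVec_mul, e1]
    ext i j
    simp [vecMulVec_apply]
  rw [qa_apply, bq_apply, h1, h2, key, Matrix.neg_mul, neg_neg]

section main

variable {Q1 Q2 : Submodule K (δ → K)} {n1 n2 : ℕ}
    {V1 : Matrix ι (Fin n1) K} {V2 : Matrix ι (Fin n2) K}
    {A1 : Fin 3 → Matrix (Fin n1) (Fin n1) K} {A2 : Fin 3 → Matrix (Fin n2) (Fin n2) K}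

/-- **the relation of `SLev0.lev1`, abstract letters** -/
theorem rel_abs (hX : Skw J X) (h2 : (2 : K) ≠ 0) (hDt : Data k arm J B N W)
    (u1 : ∀ r, ∀ u ∈ Q1, SGl1.om arm B (th J F X F) r *ᵥ u ∈ Q1)
    (u2 : ∀ r, ∀ u ∈ Q2, SGl1.om arm B (th J F X F) r *ᵥ u ∈ Q2)
    (p1 : ∀ u ∈ Q1, ∃ c : Fin 3 → (δ → K), (∀ r, c r ∈ Q1) ∧
      ∑ r, SGl1.om arm B (th J F X F) r *ᵥ (c r) = u)
    (p2 : ∀ u ∈ Q2, ∃ c : Fin 3 → (δ → K), (∀ r, c r ∈ Q2) ∧
      ∑ r, SGl1.om arm B (th J F X F) r *ᵥ (c r) = u)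
    (f1 : ∀ u ∈ Q1, ∃ x, F *ᵥ u = V1 *ᵥ x) (f2 : ∀ u ∈ Q2, ∃ x, F *ᵥ u = V2 *ᵥ x)
    (s1 : ∀ x, ∃ u ∈ Q1, F *ᵥ u = V1 *ᵥ x) (s2 : ∀ x, ∃ u ∈ Q2, F *ᵥ u = V2 *ᵥ x)
    (i1 : ∀ x, V1 *ᵥ x = 0 → x = 0) (i2 : ∀ x, V2 *ᵥ x = 0 → x = 0)
    (a1 : ∀ s, FO.M arm B s F F * (J * X) * V1 = V1 * A1 s)
    (a2 : ∀ s, FO.M arm B s F F * (J * X) * V2 = V2 * A2 s)
    {I : K} (hI : I * I = -1)
    {H kk : Matrix ι δ K} {P : Matrix ι ι K × (Fin 3 → Matrix ι ι K)} {Ri : Matrix δ ι K}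
    {c1 c2 ρ : K} (hC : Ctx k arm J B N W H) (hRi : H * Ri * H = H) (hP : P ∈ NN arm J N H)
    (hV : Vert k arm J N W H P) (hk : kk ∈ N ⊓ W)
    (hRel : Rel F H kk (th J F X F) (th J H P.1 H) (th J H P.1 kk) Q1 Q2 c1 c2)
    (hc1 : c1 ≠ 0) (hc2 : c2 ≠ 0) (hcc : c1 * ρ = c2)
    (G : Submodule K (Matrix ι δ K)) (hN : N ≤ G)
    (x : Fin 3 → (Fin n2 → K) ⊗[K] (Fin n1 → K))
    (hx : ∑ r, Dual.defect (A1 r).mulVecLin (A2 r).mulVecLin ((I * ρ) ^ 2) (x r) = 0)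
    (hw : ∀ (π1 : Q1 →ₗ[K] (Fin n1 → K)) (π2 : Q2 →ₗ[K] (Fin n2 → K)),
      (∀ u : Q1, V1 *ᵥ (π1 u) = F *ᵥ (u : δ → K)) →
      (∀ u : Q2, V2 *ᵥ (π2 u) = F *ᵥ (u : δ → K)) →
      ∀ y : Fin 3 → Q2 ⊗[K] Q1, (∀ r, TensorProduct.map π2 π1 (y r) = x r) →
      ∑ r, Dual.defect (rs (SGl1.om arm B (th J F X F) r) Q1 (u1 r))
        (-(rs (SGl1.om arm B (th J F X F) r) Q2 (u2 r))) (ρ ^ 2) (y r) = 0 →
      ∀ d : Derivation k K K,
        Mv k arm J N W H P.1 (fun r => ten Q2 Q1 (y r) + (ten Q2 Q1 (y r))ᵀ) d →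
        wd arm J H P.1 (fun r => ten Q2 Q1 (y r) + (ten Q2 Q1 (y r))ᵀ) d kk ∈ G) :
    ∑ t, TensorProduct.lift ((1 : K) • bq arm J F X V2 V1 t) (x t) +
      (I * ρ) • ∑ t, TensorProduct.lift (I • (bq arm J F X V1 V2 t).flip) (x t) ∈ G := by
  obtain ⟨π1, e1⟩ := exists_pi i1 f1
  obtain ⟨π2, e2⟩ := exists_pi i2 f2
  have hρ : ρ ≠ 0 := by
    rintro rfl
    exact hc2 (by rw [← hcc, mul_zero])
  have hinj : ∀ {m : ℕ} {V : Matrix ι (Fin m) K}, (∀ x, V *ᵥ x = 0 → x = 0) →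
      ∀ x y, V *ᵥ x = V *ᵥ y → x = y := by
    intro m V inj x y hxy
    have := inj (x - y) (by rw [mulVec_sub, hxy, sub_self])
    exact sub_eq_zero.1 this
  have hs1 : Function.Surjective π1 := by
    intro y
    obtain ⟨u, hu, e⟩ := s1 y
    refine ⟨⟨u, hu⟩, hinj i1 _ _ ?_⟩
    rw [e1, e]
  have hs2 : Function.Surjective π2 := by
    intro y
    obtain ⟨u, hu, e⟩ := s2 y
    refine ⟨⟨u, hu⟩, hinj i2 _ _ ?_⟩
    rw [e2, e]
  have hx' : ∑ r, Dual.defect (A1 r).mulVecLin (-((A2 r).mulVecLin)) (ρ ^ 2) (x r) = 0 := by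
    rw [← hx]
    refine Finset.sum_congr rfl fun r _ => ?_
    have e : (I * ρ) ^ 2 = -(ρ ^ 2) := by
      rw [mul_pow, sq I, hI, neg_one_mul]
    rw [e, SULift.defect_neg]
    rfl
  obtain ⟨y, hy1, hy2⟩ := SULift.exists_lift (S := th J F X F) u1 u2 p1 p2 hs1 hs2
    (a := fun r => (A1 r).mulVecLin) (b := fun r => (A2 r).mulVecLin)
    (fun r u => by
      apply hinj i1
      rw [e1, rs_coe, F_om hDt, ← e1, mulVecLin_apply, mulVec_mulVec, a1, ← mulVec_mulVec])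
    (fun r u => by
      apply hinj i2
      rw [e2, rs_coe, F_om hDt, ← e2, mulVecLin_apply, mulVec_mulVec, a2, ← mulVec_mulVec])
    (fun r u hu => om_zero r (by rw [← e1, hu, mulVec_zero]))
    (fun r u hu => om_zero r (by rw [← e2, hu, mulVec_zero])) hρ x hx'
  have h5 := first_pair hC h2 hRi hP hV hk hRel hc1 hc2 hcc u1 u2 hy2 G
    (hw π1 π2 e1 e2 y hy1 hy2)
  have hQG : ∀ m : Matrix ι δ K, m ∈ SGl1.QG N G → m ∈ G := by
    intro m hm
    have : (N ⊔ G : Submodule K (Matrix ι δ K)) ≤ G := sup_le hN le_rfl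
    exact this hm
  have h6 := hQG _ h5
  have hJ := hDt.J_symm
  have t1 : ∀ r (z : Q2 ⊗[K] Q1), TensorProduct.lift (qa arm F (th J F X F) Q2 Q1 r) z =
      -(TensorProduct.lift ((1 : K) • bq arm J F X V2 V1 r) (TensorProduct.map π2 π1 z)) := by
    intro r z
    induction z using TensorProduct.induction_on with
    | zero => simp
    | tmul a b =>
      rw [TensorProduct.lift.tmul, TensorProduct.map_tmul, TensorProduct.lift.tmul,
        qa_bq hJ hX e1 e2, one_smul]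
    | add p q hp hq => rw [map_add, hp, hq, map_add, map_add, neg_add]
  have t2 : ∀ r (z : Q2 ⊗[K] Q1),
      I • TensorProduct.lift (-(qa arm F (th J F X F) Q1 Q2 r).flip) z =
      (TensorProduct.lift (I • (bq arm J F X V1 V2 r).flip) (TensorProduct.map π2 π1 z)) := by
    intro r z
    induction z using TensorProduct.induction_on with
    | zero => simp
    | tmul a b =>
      rw [TensorProduct.lift.tmul, TensorProduct.map_tmul, TensorProduct.lift.tmul,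
        LinearMap.neg_apply, LinearMap.neg_apply, LinearMap.flip_apply, qa_bq hJ hX e2 e1,
        neg_neg, LinearMap.smul_apply, LinearMap.smul_apply, LinearMap.flip_apply]
    | add p q hp hq => rw [map_add, smul_add, hp, hq, map_add, map_add]
  have e3 : ∀ t, TensorProduct.lift ((1 : K) • bq arm J F X V2 V1 t) (x t) =
      -(TensorProduct.lift (qa arm F (th J F X F) Q2 Q1 t) (y t)) := fun t => by
    rw [t1, hy1, neg_neg]
  have e4 : ∀ t, TensorProduct.lift (I • (bq arm J F X V1 V2 t).flip) (x t) =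
      I • TensorProduct.lift (-(qa arm F (th J F X F) Q1 Q2 t).flip) (y t) := fun t => by
    rw [t2, hy1]
  rw [Finset.sum_congr rfl fun t _ => e3 t, Finset.sum_congr rfl fun t _ => e4 t,
    Finset.sum_neg_distrib, ← Finset.smul_sum, smul_smul]
  have e5 : I * ρ * I = -ρ := by
    calc I * ρ * I = (I * I) * ρ := by ring
      _ = -ρ := by rw [hI, neg_one_mul]
  rw [e5, neg_smul, ← neg_add]
  exact G.neg_mem h6

end main

section blocks

variable [IsAlgClosed K] {f : Matrix ι δ K} {P0 : Matrix ι ι K × (Fin 3 → Matrix ι ι K)}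
  {R : Matrix δ ι K} {D : End K (CoreM (Ph arm J B F R P0.1))} {ν ν' : K} {l : Fin 3 → ℕ}
  {n1 n2 : ℕ} {V1 : Matrix ι (Fin n1) K} {V2 : Matrix ι (Fin n2) K}
  {A1 : Fin 3 → Matrix (Fin n1) (Fin n1) K} {A2 : Fin 3 → Matrix (Fin n2) (Fin n2) K}

/-- every `F u`, `u ∈ Qb ν`, is in the range of the frame -/
theorem Qb_to (h : Ctx k arm J B N W F) (hR : F * R * F = F)
    (hD : IsD (Ph arm J B F R P0.1) (Nh arm J B F f R P0.1) D)
    (b : BPkg arm J B F R P0.1 D ν l V1 A1) {u : δ → K} (hu : u ∈ Qb h.data hR P0.1 D ν) :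
    ∃ x, F *ᵥ u = V1 *ᵥ x := by
  have h1 : gS F u ∈ PB (Ph arm J B F R P0.1) D ν := by
    rw [← Qb_map h hR hD ν]
    exact ⟨u, hu, rfl⟩
  exact b.span _ h1

/-- every vector of the frame is `F u`, `u ∈ Qb ν` -/
theorem Qb_from (h : Ctx k arm J B N W F) (hR : F * R * F = F)
    (hD : IsD (Ph arm J B F R P0.1) (Nh arm J B F f R P0.1) D)
    (b : BPkg arm J B F R P0.1 D ν l V1 A1) (x : Fin n1 → K) :
    ∃ u ∈ Qb h.data hR P0.1 D ν, F *ᵥ u = V1 *ᵥ x := by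
  obtain ⟨v, hv, hvx⟩ := b.mem x
  have hv' : v ∈ PB (Ph arm J B F R P0.1) D ν := hv
  rw [← Qb_map h hR hD ν] at hv'
  obtain ⟨u, hu, rfl⟩ := hv'
  exact ⟨u, hu, hvx⟩

/-- **the relation `h` of `SLev0.lev1` at `I ρ`** -/
theorem rel (h : Ctx k arm J B N W F) (h2 : (2 : K) ≠ 0) (hR : F * R * F = F)
    (hP0 : P0 ∈ NN arm J N F)
    (hD : IsD (Ph arm J B F R P0.1) (Nh arm J B F f R P0.1) D)
    (b1 : BPkg arm J B F R P0.1 D ν l V1 A1) (b2 : BPkg arm J B F R P0.1 D ν' l V2 A2)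
    {I : K} (hI : I * I = -1)
    {H kk : Matrix ι δ K} {P : Matrix ι ι K × (Fin 3 → Matrix ι ι K)} {Ri : Matrix δ ι K}
    {c1 c2 ρ : K} (hC : Ctx k arm J B N W H) (hRi : H * Ri * H = H) (hP : P ∈ NN arm J N H)
    (hV : Vert k arm J N W H P) (hk : kk ∈ N ⊓ W)
    (hRel : Rel F H kk (th J F P0.1 F) (th J H P.1 H) (th J H P.1 kk)
      (Qb h.data hR P0.1 D ν) (Qb h.data hR P0.1 D ν') c1 c2)
    (hc1 : c1 ≠ 0) (hc2 : c2 ≠ 0) (hcc : c1 * ρ = c2)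
    (G : Submodule K (Matrix ι δ K)) (hN : N ≤ G)
    (x : Fin 3 → (Fin n2 → K) ⊗[K] (Fin n1 → K))
    (hx : Dual.Exact (fun s => (A1 s).mulVecLin) (fun s => (A2 s).mulVecLin)
      (LinearMap.ker (V1ᵀ * (J * P0.1) * V1).mulVecLin)
      (LinearMap.ker (V2ᵀ * (J * P0.1) * V2).mulVecLin) ((I * ρ) ^ 2) x)
    (hw : ∀ (π1 : Qb h.data hR P0.1 D ν →ₗ[K] (Fin n1 → K))
      (π2 : Qb h.data hR P0.1 D ν' →ₗ[K] (Fin n2 → K)),
      (∀ u : Qb h.data hR P0.1 D ν, V1 *ᵥ (π1 u) = F *ᵥ (u : δ → K)) →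
      (∀ u : Qb h.data hR P0.1 D ν', V2 *ᵥ (π2 u) = F *ᵥ (u : δ → K)) →
      ∀ y : Fin 3 → Qb h.data hR P0.1 D ν' ⊗[K] Qb h.data hR P0.1 D ν,
      (∀ r, TensorProduct.map π2 π1 (y r) = x r) →
      ∑ r, Dual.defect (rs (SGl1.om arm B (th J F P0.1 F) r) (Qb h.data hR P0.1 D ν)
          (fun _ hu => Qb_stable h hR hD r hu))
        (-(rs (SGl1.om arm B (th J F P0.1 F) r) (Qb h.data hR P0.1 D ν')
          (fun _ hu => Qb_stable h hR hD r hu))) (ρ ^ 2) (y r) = 0 →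
      ∀ d : Derivation k K K,
        Mv k arm J N W H P.1 (fun r => ten _ _ (y r) + (ten _ _ (y r))ᵀ) d →
        wd arm J H P.1 (fun r => ten _ _ (y r) + (ten _ _ (y r))ᵀ) d kk ∈ G) :
    ∑ t, TensorProduct.lift ((1 : K) • bq arm J F P0.1 V2 V1 t) (x t) +
      (I * ρ) • ∑ t, TensorProduct.lift (I • (bq arm J F P0.1 V1 V2 t).flip) (x t) ∈ G :=
  rel_abs hP0.1 h2 h.data
    (fun r _ hu => Qb_stable h hR hD r hu) (fun r _ hu => Qb_stable h hR hD r hu)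
    (fun _ hu => Qb_exists h hR hD hu) (fun _ hu => Qb_exists h hR hD hu)
    (fun _ hu => Qb_to h hR hD b1 hu) (fun _ hu => Qb_to h hR hD b2 hu)
    (fun x => Qb_from h hR hD b1 x) (fun x => Qb_from h hR hD b2 x)
    b1.inj b2.inj b1.act b2.act hI hC hRi hP hV hk hRel hc1 hc2 hcc G hN x hx.1 hw

end blocks

end Crest.Agent.R172.SRel343
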