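import Crest.Agent.R172.SInst896
import Crest.Agent.R172.SRel343
import Crest.Agent.R172.STop

/-!
Row 172 (S0260), S-side (t2), LEVEL 1, half (A): `STop.Lev1` from "the derivative of `k₁` is good for all
but finitely many `t`".
-/

set_option autoImplicit false
set_option linter.unusedSectionVars false
set_option linter.unusedVariables false
set_option linter.unusedFintypeInType false
set_option linter.unusedDecidableInType false
set_option maxHeartbeats 400000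

namespace Crest.Agent.R172.SLevAR731

open Module Matrix TensorProduct Crest.Agent.R172.FO Crest.Agent.R172.Qt Crest.Agent.R172.SpS
open Crest.Agent.R172.SUX Crest.Agent.R172.SGl1
open Crest.Agent.R172.SBlk Crest.Agent.R172.UBlk
open Crest.Agent.R172.SEnd Crest.Agent.R172.SEnd2 Crest.Agent.R172.SEndW
open Crest.Agent.R172.SCM (BPkg)
open Crest.Agent.R172.SC (PB PB_stable iSup_PB)
open Crest.Agent.R172.PL (Wk Ainf Rad CoreM coreOp resOp)
open Crest.Agent.R172.Om (Kiso)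
open Crest.Agent.R172.STop (Setup)
open Crest.Agent.R172.SLev0 (QG PbK bq)
open Crest.Agent.R172.SInst896 (two_ne' good_t)

variable {ι : Type} [Fintype ι] [DecidableEq ι] {δ : Type} [Fintype δ] [DecidableEq δ]
variable {K : Type} [Field K] [Algebra ℂ K] [IsAlgClosed K]
variable {arm : δ → Fin 3} {J : Matrix ι ι K} {B : Matrix δ δ K}
  {N W : Submodule K (Matrix ι δ K)} {F f : Matrix ι δ K}
  {P : Matrix ι ι K × (Fin 3 → Matrix ι ι K)} {R : Matrix δ ι K}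
  {D : End K (CoreM (PhS arm J B F R P.1))} {l : Fin 3 → ℕ}

/-- the good class with all blocks of `D` -/
abbrev QD (arm : δ → Fin 3) (J : Matrix ι ι K) (B : Matrix δ δ K)
    (N W : Submodule K (Matrix ι δ K)) (F : Matrix ι δ K)
    (P : Matrix ι ι K × (Fin 3 → Matrix ι ι K)) (R : Matrix δ ι K)
    (D : End K (CoreM (PhS arm J B F R P.1))) : Submodule K (Matrix ι δ K) :=
  QG arm J B N W F P (PC arm J B F R P.1) (fun μ : K => PbK arm J B F R P.1 D μ) (fun μ => μ)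

/-- `QD` gives `GoodSW` -/
theorem GoodSW_of_QD (S : Setup arm J B N W F f P R D l) {s : Fin 3} {x : Matrix ι ι K}
    (hx : x * (J * P.1) * F * E K arm s ∈ QD arm J B N W F P R D) :
    x ∈ GoodSW arm J B N W F P (PC arm J B F R P.1) s := by
  have hctx := S.hCtx F S.hF
  obtain ⟨S', q, hq⟩ := exists_spec hctx S.hR (S.hNil F S.hF) S.hP S.hf.1
  have hDc : ∀ s x, D (coreOp (PhS arm J B F R P.1) s x) =
      coreOp (PhS arm J B F R P.1) s (D x) := S.hD.2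
  have hP : PC arm J B F R P.1 = ⨆ μ : K, PbK arm J B F R P.1 D μ := by
    have h3 : Ainf (PhS arm J B F R P.1) = ⨆ ν, PB (PhS arm J B F R P.1) D ν :=
      (iSup_PB hDc (Module.End.iSup_maxGenEigenspace_eq_top D)).symm
    unfold PC
    rw [h3, Submodule.map_iSup]
  refine SLev0.GoodSW_of_QG (k := ℂ) (f := f) (R := R) hctx two_ne' S.hR S.hP S.hf.1 hq S.hD
    (α := K) (nu := fun μ => μ) (fun a ha => ?_) hP (fun i => le_rfl) (fun μ r c hc => ?_) hx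
  · obtain ⟨w, -, rfl⟩ := ha
    obtain ⟨u, hu⟩ := w.2
    exact ⟨u, hu⟩
  · obtain ⟨v, hv, rfl⟩ := hc
    refine ⟨_, PB_stable hDc μ r hv, ?_⟩
    exact PhS_coe S.hR P.1 r v

/-- generators of `SLev0` for `QD` give the generators of `STop` -/
theorem gens_of_gens (S : Setup arm J B N W F f P R D l) {ν ν' : K} {n1 n2 : ℕ}
    {Q1 : Matrix ι (Fin n1) K} {A1 : Fin 3 → Matrix (Fin n1) (Fin n1) K}
    {Q2 : Matrix ι (Fin n2) K} {A2 : Fin 3 → Matrix (Fin n2) (Fin n2) K}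
    (b1 : BPkg arm J B F R P.1 D ν l Q1 A1) (b2 : BPkg arm J B F R P.1 D ν' l Q2 A2)
    (hG : SLev0.Gens arm J B F P.1 l (QD arm J B N W F P R D) (PbK arm J B F R P.1 D ν)
      (PbK arm J B F R P.1 D ν')) :
    STop.Gens arm J B N W F P R l Q1 A1 Q2 A2 := by
  have hrd : ∀ {μ : K} {n : ℕ} {Q : Matrix ι (Fin n) K} {A : Fin 3 → Matrix (Fin n) (Fin n) K}
      (b : BPkg arm J B F R P.1 D μ l Q A) (x : Fin n → K),
      (Qᵀ * (J * P.1) * Q) *ᵥ x = 0 → Q *ᵥ x ∈ Rd (J * P.1) (PbK arm J B F R P.1 D μ) := by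
    intro μ n Q A b x hx
    refine ⟨SLev0.coord_mem b x, fun a ha => ?_⟩
    obtain ⟨y, rfl⟩ := SLev0.exists_coord b ha
    have h4 : (Q *ᵥ y) ⬝ᵥ ((J * P.1) *ᵥ (Q *ᵥ x)) =
        y ⬝ᵥ ((Qᵀ * (J * P.1) * Q) *ᵥ x) := by
      rw [Matrix.mul_assoc, ← mulVec_mulVec x Qᵀ, dotProduct_mulVec y Qᵀ,
        vecMul_transpose]
      simp only [mulVec_mulVec, Matrix.mul_assoc]
    rw [h4, hx, dotProduct_zero]
  intro s
  refine ⟨fun i j hij x y => ?_, fun x y hx => ?_, fun x y hy => ?_⟩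
  · have h1 := hG.g1 s i j hij _ (SLev0.coord_mem b1 x) _ (SLev0.coord_mem b2 y)
    rw [SLev0.pow_act b1, SLev0.pow_act b2] at h1
    exact GoodSW_of_QD S h1
  · exact GoodSW_of_QD S (hG.g2 s _ (hrd b1 x hx) _ (SLev0.coord_mem b2 y))
  · exact GoodSW_of_QD S (hG.g3 s _ (SLev0.coord_mem b1 x) _ (hrd b2 y hy))

/-- the flip -/
theorem flip (S : Setup arm J B N W F f P R D l) :
    fᵀ * J * (P.1 * F) = Fᵀ * J * (P.1 * f) := by
  have hctx := S.hCtx F S.hF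
  obtain ⟨p', hp', e⟩ := hctx.tf S.hf.1 S.hP
  have h1 : (Fᵀ * J * (P.1 * f))ᵀ = -(Fᵀ * J * (P.1 * f)) := by
    rw [e]; exact form_skew hctx.data.J_symm hp'
  have hsk : P.1ᵀ * J = -(J * P.1) := Skw.eq S.hP.1
  have h2 : (Fᵀ * J * (P.1 * f))ᵀ = -(fᵀ * J * (P.1 * F)) := by
    rw [transpose_mul, transpose_mul, transpose_mul, transpose_transpose, hctx.data.J_symm]
    have : fᵀ * P.1ᵀ * (J * F) = fᵀ * (P.1ᵀ * J) * F := by simp only [Matrix.mul_assoc]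
    rw [this, hsk, Matrix.mul_neg, Matrix.neg_mul]
    simp only [Matrix.mul_assoc]
  rw [h1] at h2
  exact (neg_injective h2).symm

/-- **half (A)** for one pair of blocks -/
theorem gens_of (S : Setup arm J B N W F f P R D l) {ν ν' : K} (hne : ν ≠ ν') {n1 n2 : ℕ}
    {Q1 : Matrix ι (Fin n1) K} {A1 : Fin 3 → Matrix (Fin n1) (Fin n1) K}
    {Q2 : Matrix ι (Fin n2) K} {A2 : Fin 3 → Matrix (Fin n2) (Fin n2) K}
    (b1 : BPkg arm J B F R P.1 D ν l Q1 A1) (b2 : BPkg arm J B F R P.1 D ν' l Q2 A2)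
    {bad : Set ℂ} (hbad : bad.Finite)
    (hB : ∀ t ∉ bad, 1 + algebraMap ℂ K t * ν ≠ 0 → 1 + algebraMap ℂ K t * ν' ≠ 0 →
      ∃ Pt ∈ NN arm J N (F + (algebraMap ℂ K t) • f),
        Vert ℂ arm J N W (F + (algebraMap ℂ K t) • f) Pt ∧
        (F + (algebraMap ℂ K t) • f)ᵀ * J * (Pt.1 * F) =
          (F + (algebraMap ℂ K t) • f)ᵀ * J * (P.1 * F) ∧
        ∀ (x : Fin 3 → (Fin n2 → K) ⊗[K] (Fin n1 → K)),
        (∀ r, Dual.defect (A1 r).mulVecLin (A2 r).mulVecLin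
          (-((1 + algebraMap ℂ K t * ν') / (1 + algebraMap ℂ K t * ν)) ^ 2) (x r) ∈
            Dual.Rad (LinearMap.ker (Q1ᵀ * (J * P.1) * Q1).mulVecLin)
              (LinearMap.ker (Q2ᵀ * (J * P.1) * Q2).mulVecLin)) →
        ∀ (π1 : Qb (S.hCtx F S.hF).data S.hR P.1 D ν →ₗ[K] (Fin n1 → K))
          (π2 : Qb (S.hCtx F S.hF).data S.hR P.1 D ν' →ₗ[K] (Fin n2 → K)),
        (∀ u, Q1 *ᵥ (π1 u) = F *ᵥ (u : δ → K)) →
        (∀ u, Q2 *ᵥ (π2 u) = F *ᵥ (u : δ → K)) →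
        ∀ y : Fin 3 → Qb (S.hCtx F S.hF).data S.hR P.1 D ν' ⊗[K]
          Qb (S.hCtx F S.hF).data S.hR P.1 D ν,
        (∀ r, TensorProduct.map π2 π1 (y r) = x r) →
        ∑ r, Dual.defect (rs (SGl1.om arm B (th J F P.1 F) r)
            (Qb (S.hCtx F S.hF).data S.hR P.1 D ν)
            (fun _ hu => Qb_stable (S.hCtx F S.hF) S.hR S.hD r hu))
          (-(rs (SGl1.om arm B (th J F P.1 F) r) (Qb (S.hCtx F S.hF).data S.hR P.1 D ν')
            (fun _ hu => Qb_stable (S.hCtx F S.hF) S.hR S.hD r hu)))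
          (((1 + algebraMap ℂ K t * ν') / (1 + algebraMap ℂ K t * ν)) ^ 2) (y r) = 0 →
        ∀ d : Derivation ℂ K K,
          Mv ℂ arm J N W (F + (algebraMap ℂ K t) • f) Pt.1
            (fun r => ten _ _ (y r) + (ten _ _ (y r))ᵀ) d →
          wd arm J (F + (algebraMap ℂ K t) • f) Pt.1
            (fun r => ten _ _ (y r) + (ten _ _ (y r))ᵀ) d
            ((ν - ν')⁻¹ • (f - ν' • F)) ∈ QD arm J B N W F P R D) :
    STop.Gens arm J B N W F P R l Q1 A1 Q2 A2 := by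
  classical
  have hctx := S.hCtx F S.hF
  obtain ⟨I, hI⟩ := IsAlgClosed.exists_pow_nat_eq (-1 : K) (n := 2) (by norm_num)
  rw [sq] at hI
  have hI0 : I ≠ 0 := by
    rintro rfl
    rw [zero_mul] at hI
    exact one_ne_zero (neg_eq_zero.1 hI.symm)
  set 𝒯 : Set K := (algebraMap ℂ K) '' {t : ℂ | t ∉ bad ∧ 1 + algebraMap ℂ K t * ν ≠ 0 ∧
    1 + algebraMap ℂ K t * ν' ≠ 0} with h𝒯def
  have h𝒯 : 𝒯.Infinite := by
    refine Set.Infinite.image (algebraMap ℂ K).injective.injOn ?_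
    have h1 : (bad ∪ {t : ℂ | 1 + algebraMap ℂ K t * ν = 0} ∪
        {t : ℂ | 1 + algebraMap ℂ K t * ν' = 0}).Finite :=
      (hbad.union (good_t ν).finite).union (good_t ν').finite
    refine h1.infinite_compl.mono ?_
    intro t ht
    simp only [Set.mem_compl_iff, Set.mem_union, Set.mem_setOf_eq, not_or] at ht
    exact ⟨ht.1.1, ht.1.2, ht.2⟩
  set Λ0 : Set K := (fun t => (1 + t * ν') / (1 + t * ν)) '' 𝒯 with hΛ0
  have hΛi : Λ0.Infinite := ratios_infinite h𝒯 hne (by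
    rintro _ ⟨t, ht, rfl⟩
    exact ht.2.1)
  have key : ∀ ρ ∈ Λ0, ρ ≠ 0 ∧ ∀ x : Fin 3 → (Fin n2 → K) ⊗[K] (Fin n1 → K),
      Dual.Exact (fun s => (A1 s).mulVecLin) (fun s => (A2 s).mulVecLin)
        (LinearMap.ker (Q1ᵀ * (J * P.1) * Q1).mulVecLin)
        (LinearMap.ker (Q2ᵀ * (J * P.1) * Q2).mulVecLin) ((I * ρ) ^ 2) x →
      ∑ t, TensorProduct.lift ((1 : K) • bq arm J F P.1 Q2 Q1 t) (x t) +
        (I * ρ) • ∑ t, TensorProduct.lift (I • (bq arm J F P.1 Q1 Q2 t).flip) (x t) ∈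
        QD arm J B N W F P R D := by
    rintro _ ⟨_, ⟨t, ⟨ht1, ht2, ht3⟩, rfl⟩, rfl⟩
    refine ⟨div_ne_zero ht3 ht2, fun x hx => ?_⟩
    obtain ⟨Pt, hPt, hV, hPF, hw⟩ := hB t ht1 ht2 ht3
    set H : Matrix ι δ K := F + (algebraMap ℂ K t) • f with hH
    have hHK : H ∈ Kiso J N W := (Kiso J N W).add_mem S.hF ((Kiso J N W).smul_mem _ S.hf)
    have hCH := S.hCtx H hHK
    obtain ⟨Ri, hRi⟩ := FO.exists_gen_inv H
    have hk : (ν - ν')⁻¹ • (f - ν' • F) ∈ N ⊓ W :=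
      Submodule.smul_mem _ _ (Submodule.sub_mem _ S.hf.1 (Submodule.smul_mem _ _ S.hF.1))
    have hRel := rel_of (t := algebraMap ℂ K t) (P0 := P.1) (P := Pt) hne S.hF.1 S.hf.1 hCH hPt
      (flip S) hPF
      (Q1 := Qb (S.hCtx F S.hF).data S.hR P.1 D ν) (Q2 := Qb (S.hCtx F S.hF).data S.hR P.1 D ν')
      (fun u hu => (Qb_rel hctx S.hR S.hD (S.hNil F S.hF) S.hP S.hf.1 hu).1)
      (fun u hu => (Qb_rel hctx S.hR S.hD (S.hNil F S.hF) S.hP S.hf.1 hu).1)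
    refine SRel343.rel hctx two_ne' S.hR S.hP S.hD b1 b2 hI hCH hRi hPt hV hk hRel ht2 ht3 ?_
      (QD arm J B N W F P R D) SLev0.N_le_QG x hx ?_
    · field_simp
    · intro π1 π2 h1 h2 y hy hsum d hm
      refine hw x (fun r => ?_) π1 π2 h1 h2 y hy hsum d hm
      have h3 := hx.2 r
      rwa [mul_pow, sq I, hI, neg_one_mul] at h3
  obtain ⟨-, hG⟩ := SLev0.lev1 b1 b2 (Λ := (fun ρ => I * ρ) '' Λ0)
    (hΛi.image (mul_right_injective₀ hI0).injOn)
    (by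
      rintro ⟨ρ, hρ, h3⟩
      rcases mul_eq_zero.1 h3 with h4 | h4
      · exact hI0 h4
      · exact (key ρ hρ).1 h4) 1 I one_ne_zero hI0 (QD arm J B N W F P R D)
    (by
      rintro _ ⟨ρ, hρ, rfl⟩ x hx
      exact (key ρ hρ).2 x hx)
  exact gens_of_gens S b1 b2 hG

end Crest.Agent.R172.SLevAR731
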