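import Crest.Agent.R172.SLevA2
import Crest.Agent.R172.SLevAR731
import Crest.Agent.R172.SBad97
import Crest.Agent.R172.PTy

/-!
Row 172 (S0260), S-side (t2): **LEVEL 1**, `STop.Lev1`.
-/

set_option autoImplicit false
set_option linter.unusedSectionVars false
set_option linter.unusedVariables false
set_option maxHeartbeats 1000000

namespace Crest.Agent.R172.SLevA

open Matrix Module TensorProduct Crest.Agent.R172.FO Crest.Agent.R172.Qt Crest.Agent.R172.SpS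
open Crest.Agent.R172.SBlk Crest.Agent.R172.SCM
open Crest.Agent.R172.Om (Kiso)
open Crest.Agent.R172.SEnd2 (PhS PC)
open Crest.Agent.R172.UBlk (Qb Qb_map Qb_stable Qb_exists Qb_rel Qb_orth)
open Crest.Agent.R172.PL (CoreM Ainf)
open Crest.Agent.R172.SUX (th wd Mv th_skew th_flip)
open Crest.Agent.R172.SLev0 (bq bq_apply PbK QG)
open Crest.Agent.R172.SGl1 (om rs ten rs_coe)
open Crest.Agent.R172.SC (PB iSup_PB)

section

variable {ι : Type} [Fintype ι] [DecidableEq ι] {δ : Type} [Fintype δ] [DecidableEq δ]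
variable {K : Type} [Field K] [Algebra ℂ K] [IsAlgClosed K]
variable {arm : δ → Fin 3} {J : Matrix ι ι K} {B : Matrix δ δ K}
  {N W : Submodule K (Matrix ι δ K)} {F f : Matrix ι δ K}
  {P : Matrix ι ι K × (Fin 3 → Matrix ι ι K)} {R : Matrix δ ι K}
  {D : End K (CoreM (PhS arm J B F R P.1))} {l : Fin 3 → ℕ}

/-- only finitely many blocks are non-zero -/
theorem eig_finite (S : STop.Setup arm J B N W F f P R D l) :
    {μ : K | Qb (S.hCtx F S.hF).data S.hR P.1 D μ ≠ ⊥}.Finite := by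
  have h1 := WellFoundedGT.finite_ne_bot_of_iSupIndep
    (Module.End.independent_maxGenEigenspace
      ((UBlk.cov (S.hCtx F S.hF).data S.hR P.1).D D))
  refine h1.subset fun μ hμ h2 => hμ ?_
  exact STop.PB_bot ((UBlk.cov (S.hCtx F S.hF).data S.hR P.1).D_comm S.hD.2) h2

/-- the bad set of one pair of blocks -/
theorem pair_bad (S : STop.Setup arm J B N W F f P R D l) (h2 : (2 : K) ≠ 0)
    (st : ∀ μ r, ∀ u ∈ Qb (S.hCtx F S.hF).data S.hR P.1 D μ,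
      om arm B (th J F P.1 F) r *ᵥ u ∈ Qb (S.hCtx F S.hF).data S.hR P.1 D μ) (μ μ' : K) :
    ∃ T : Set K, T.Finite ∧ (μ ≠ μ' → ∀ t ∉ T, 1 + t * μ ≠ 0 ∧
      ∀ bb : Qb (S.hCtx F S.hF).data S.hR P.1 D μ →ₗ[K]
        Qb (S.hCtx F S.hF).data S.hR P.1 D μ' →ₗ[K] K,
      (∀ r u q, (1 + t * μ) ^ 2 * bb (rs (om arm B (th J F P.1 F) r) _ (st μ r) u) q =
        -((1 + t * μ') ^ 2 * bb u (rs (om arm B (th J F P.1 F) r) _ (st μ' r) q))) → bb = 0) := by
  by_cases hμ : μ = μ'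
  · exact ⟨∅, Set.finite_empty, fun h => absurd hμ h⟩
  obtain ⟨T, hT, h⟩ := SBad97.exists_bad hμ h2
    (fun r => rs (om arm B (th J F P.1 F) r) (Qb (S.hCtx F S.hF).data S.hR P.1 D μ) (st μ r))
    (C := fun r => rs (om arm B (th J F P.1 F) r) (Qb (S.hCtx F S.hF).data S.hR P.1 D μ')
      (st μ' r)) (fun q => by
      obtain ⟨c, hc, h3⟩ := Qb_exists (S.hCtx F S.hF) S.hR S.hD q.2
      refine ⟨fun r => ⟨c r, hc r⟩, Subtype.ext ?_⟩
      rw [← h3, AddSubmonoidClass.coe_finsetSum]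
      rfl)
  exact ⟨T, hT, fun _ => h⟩

end

/-- **LEVEL 1.** -/
theorem lev1 : STop.Lev1 := by
  intro ι _ _ δ _ _ K _ _ _ arm J B N W F f P R D l S ν ν' hne n1 n2 Q1 A1 Q2 A2 b1 b2
  classical
  have hctx := S.hCtx F S.hF
  have h2 : (2 : K) ≠ 0 := SInst896.two_ne'
  obtain ⟨Y0, dY0, -, -, -, hfam⟩ := PTy.exists_family (k := ℂ) h2 S.hCtx S.hNm S.hWm S.hF S.hf
    S.hV1 S.hP S.hV2
  have st : ∀ μ r, ∀ u ∈ Qb (S.hCtx F S.hF).data S.hR P.1 D μ,
      om arm B (th J F P.1 F) r *ᵥ u ∈ Qb (S.hCtx F S.hF).data S.hR P.1 D μ :=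
    fun μ r u hu => Qb_stable (S.hCtx F S.hF) S.hR S.hD r hu
  have hE := eig_finite S
  choose T hT hTb using pair_bad S h2 st
  set Eg : Set K := {μ : K | Qb (S.hCtx F S.hF).data S.hR P.1 D μ ≠ ⊥} with hEgdef
  obtain ⟨im, him⟩ := IsAlgClosed.exists_pow_nat_eq (-1 : K) (n := 2) (by norm_num)
  have h1f : ∀ μ : K, {t : K | 1 + t * μ = 0}.Finite := by
    intro μ
    refine Set.Subsingleton.finite ?_
    intro s hs t ht
    have hs' : 1 + s * μ = 0 := hs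
    have ht' : 1 + t * μ = 0 := ht
    have hμ0 : μ ≠ 0 := by
      rintro rfl
      rw [mul_zero, add_zero] at hs'
      exact one_ne_zero hs'
    have : (s - t) * μ = 0 := by linear_combination hs' - ht'
    rcases mul_eq_zero.1 this with h | h
    · exact sub_eq_zero.1 h
    · exact absurd h hμ0
  set bad : Set ℂ := (algebraMap ℂ K) ⁻¹'
    ((⋃ μ ∈ Eg, {t : K | 1 + t * μ = 0}) ∪ ⋃ μ ∈ Eg, ⋃ μ' ∈ Eg, T μ μ') with hbaddef
  have hbad : bad.Finite := by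
    refine Set.Finite.preimage (algebraMap ℂ K).injective.injOn ?_
    exact (hE.biUnion fun μ _ => h1f μ).union
      (hE.biUnion fun μ _ => hE.biUnion fun μ' _ => hT μ μ')
  refine SLevAR731.gens_of S hne b1 b2 hbad ?_
  intro t ht hc1 hc2
  obtain ⟨Pt, hPt, hV, -, hPF, -⟩ := hfam t
  refine ⟨Pt, hPt, hV, hPF, ?_⟩
  intro x hx π1 π2 hπ1 hπ2 y hy hsum d m
  have hH : F + (algebraMap ℂ K t) • f ∈ Kiso J N W :=
    (Kiso J N W).add_mem S.hF ((Kiso J N W).smul_mem _ S.hf)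
  have ht' : algebraMap ℂ K t ∉ (⋃ μ ∈ Eg, {t : K | 1 + t * μ = 0}) ∪
      ⋃ μ ∈ Eg, ⋃ μ' ∈ Eg, T μ μ' := ht
  rw [Set.mem_union, not_or] at ht'
  refine class_mem (k := ℂ) hctx h2 S.hR S.hD (S.hNil F S.hF) S.hNm S.hWm S.hF S.hP S.hf.1
    (S.hCtx _ hH) hPt hPF hne hc1 (fun μ hμ h3 => ht'.1 ?_) b1 b2 hπ1 hπ2 st
    (fun μ μ' hμ hμ1 hμ2 => (hTb μ μ' hμ _ fun h3 => ht'.2 ?_).2)
    (im := im) (ρ := (1 + algebraMap ℂ K t * ν') / (1 + algebraMap ℂ K t * ν)) him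
    (mul_div_cancel₀ _ hc1) (x := x) (fun r => ?_) hy m
  · exact Set.mem_biUnion (x := μ) hμ h3
  · exact Set.mem_biUnion (x := μ) hμ1 (Set.mem_biUnion (x := μ') hμ2 h3)
  · rw [mul_pow, him, neg_one_mul]
    exact hx r

end Crest.Agent.R172.SLevA
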