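import Crest.Agent.R172.SGl2
import Crest.Agent.R172.SUB2

/-!
Row 172 (S0260), S-side (t2), first level: the finite bad set and the vanishing of
`β(u,q) = (∇u) · (S q)` on pairs of different blocks.
-/

set_option autoImplicit false
set_option linter.unusedSectionVars false
set_option linter.unusedFintypeInType false
set_option linter.unusedDecidableInType false

namespace Crest.Agent.R172.SLevA

open Matrix Module TensorProduct Crest.Agent.R172.FO Crest.Agent.R172.Qt Crest.Agent.R172.SpS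
  Crest.Agent.R172.Om Crest.Agent.R172.SUX Crest.Agent.R172.SGl1

section bad

variable {K : Type*} [Field K] {V1 V2 : Type*} [AddCommGroup V1] [Module K V1]
  [FiniteDimensional K V1] [AddCommGroup V2] [Module K V2] [FiniteDimensional K V2]

theorem pencil_finite {E : Type*} [AddCommGroup E] [Module K E] [FiniteDimensional K E]
    (L R : Fin 3 → (E →ₗ[K] E)) (hR : ∀ b, (∀ r, R r b = 0) → b = 0) :
    {s : K | ∃ b : E, b ≠ 0 ∧ ∀ r, L r b = s • R r b}.Finite := by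
  classical
  have hRm : LinearMap.ker (LinearMap.pi R) = ⊥ := by
    rw [LinearMap.ker_eq_bot']
    intro b hb
    exact hR b fun r => congrFun hb r
  obtain ⟨Ri, hRi⟩ := (LinearMap.pi R).exists_leftInverse_of_injective hRm
  refine (Module.End.finite_hasEigenvalue (Ri ∘ₗ LinearMap.pi L)).subset ?_
  rintro s ⟨b, hb, hs⟩
  refine Module.End.hasEigenvalue_of_hasEigenvector (x := b) ⟨?_, hb⟩
  rw [Module.End.mem_eigenspace_iff]
  have h1 : (LinearMap.pi L) b = s • (LinearMap.pi R) b := by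
    funext r
    exact hs r
  rw [LinearMap.comp_apply, h1, map_smul]
  have h2 := LinearMap.congr_fun hRi b
  rw [LinearMap.comp_apply, LinearMap.id_apply] at h2
  rw [h2]

/-- **the bad set is finite** -/
theorem finite_bad (A : Fin 3 → End K V1) (C : Fin 3 → End K V2)
    (hC : ∀ q, ∃ f : Fin 3 → V2, q = ∑ r, C r (f r)) :
    {s : K | ∃ b : V1 →ₗ[K] V2 →ₗ[K] K, b ≠ 0 ∧
      ∀ r u q, b (A r u) q = s * b u (C r q)}.Finite := by
  refine (pencil_finite (E := V1 →ₗ[K] V2 →ₗ[K] K)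
    (fun r => { toFun := fun b => b ∘ₗ (A r), map_add' := fun a b => by ext u q; simp,
                map_smul' := fun a b => by ext u q; simp })
    (fun r => { toFun := fun b => b.compl₂ (C r), map_add' := fun a b => by ext u q; simp,
                map_smul' := fun a b => by ext u q; simp }) ?_).subset ?_
  · intro b hb
    ext u q
    obtain ⟨f, hf⟩ := hC q
    rw [hf, map_sum]
    refine (Finset.sum_eq_zero fun r _ => ?_).trans rfl
    exact LinearMap.congr_fun (LinearMap.congr_fun (hb r) u) (f r)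
  · rintro s ⟨b, hb, hs⟩
    refine ⟨b, hb, fun r => ?_⟩
    ext u q
    exact hs r u q

end bad

variable {ι : Type*} [Fintype ι] [DecidableEq ι] {δ : Type*} [Fintype δ] [DecidableEq δ]
variable {k K : Type*} [Field k] [Field K] [Algebra k K]
variable {arm : δ → Fin 3} {J : Matrix ι ι K} {B : Matrix δ δ K}
  {N W : Submodule K (Matrix ι δ K)} {H : Matrix ι δ K}

theorem skew_dot {S : Matrix δ δ K} (hS : Sᵀ = -S) (u v : δ → K) :
    u ⬝ᵥ (S *ᵥ v) = -(v ⬝ᵥ (S *ᵥ u)) := by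
  rw [dotProduct_mulVec, ← mulVec_transpose, hS, neg_mulVec, neg_dotProduct, dotProduct_comm]

/-- `ω_r` is skew-adjoint -/
theorem om_adj (hB : Bᵀ = B) (hBE : ∀ r, E K arm r * B = B * E K arm r) {S : Matrix δ δ K}
    (hS : Sᵀ = -S) (r : Fin 3) (u v : δ → K) :
    (om arm B S r *ᵥ u) ⬝ᵥ (S *ᵥ v) = -(u ⬝ᵥ (S *ᵥ (om arm B S r *ᵥ v))) := by
  have h1 : (om arm B S r)ᵀ * S = -(S * om arm B S r) := by
    unfold om
    rw [transpose_mul, transpose_mul, E_transpose, hB, hS, ← hBE]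
    simp only [Matrix.neg_mul, Matrix.mul_assoc]
  have h2 : (om arm B S r *ᵥ u) ⬝ᵥ (S *ᵥ v) = u ⬝ᵥ (((om arm B S r)ᵀ * S) *ᵥ v) := by
    rw [← mulVec_mulVec, dotProduct_mulVec u, vecMul_transpose]
  rw [h2, h1, neg_mulVec, dotProduct_neg, mulVec_mulVec]

/-- **`β = 0`** -/
theorem beta_zero (h : Ctx k arm J B N W H) {P : Matrix ι ι K × (Fin 3 → Matrix ι ι K)}
    (hP : P ∈ NN arm J N H) {Y : Fin 3 → Matrix δ δ K} (hY : ∀ r, (Y r)ᵀ = Y r)
    {d : Derivation k K K} (m : Mv k arm J N W H P.1 Y d) {S : Matrix δ δ K}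
    {Qa Qb : Submodule K (δ → K)} {ca cb : K} (hca : ca ≠ 0) (hcb : cb ≠ 0)
    (sa : ∀ u ∈ Qa, th J H P.1 H *ᵥ u = ca ^ 2 • S *ᵥ u)
    (sb : ∀ u ∈ Qb, th J H P.1 H *ᵥ u = cb ^ 2 • S *ᵥ u)
    (sta : ∀ r, ∀ u ∈ Qa, om arm B S r *ᵥ u ∈ Qa) (stb : ∀ r, ∀ u ∈ Qb, om arm B S r *ᵥ u ∈ Qb)
    (orth : ∀ u ∈ Qa, ∀ q ∈ Qb, u ⬝ᵥ (S *ᵥ q) = 0)
    (harm : ∀ r, ∀ u ∈ Qa, ∀ q ∈ Qb,
      ((Y r * th J H P.1 H) *ᵥ (om arm B S r *ᵥ u)) ⬝ᵥ (S *ᵥ q) * ca ^ 2 +
        ((Y r * th J H P.1 H) *ᵥ u) ⬝ᵥ (S *ᵥ (om arm B S r *ᵥ q)) * cb ^ 2 = 0)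
    (hs : ∀ b : Qa →ₗ[K] Qb →ₗ[K] K, (∀ r u q, b (rs (om arm B S r) Qa (sta r) u) q =
      (-(cb ^ 2 / ca ^ 2)) * b u (rs (om arm B S r) Qb (stb r) q)) → b = 0) :
    ∀ u ∈ Qa, ∀ q ∈ Qb, SUB.nab arm J H P.1 Y d u ⬝ᵥ (S *ᵥ q) = 0 := by
  have hD := h.data
  have hSH := th_skew h hP h.mem
  let b : Qa →ₗ[K] Qb →ₗ[K] K := LinearMap.mk₂ K
    (fun u q => SUB.nab arm J H P.1 Y d (u : δ → K) ⬝ᵥ (S *ᵥ (q : δ → K)))
    (fun u v q => by
      rw [Submodule.coe_add, SUB.nab_add, add_dotProduct])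
    (fun t u q => by
      rw [Submodule.coe_smul, SUB.nab_smul, add_dotProduct, smul_dotProduct, smul_dotProduct,
        orth u u.2 q q.2, smul_zero, add_zero])
    (fun u p q => by rw [Submodule.coe_add, mulVec_add, dotProduct_add])
    (fun t u q => by rw [Submodule.coe_smul, mulVec_smul, dotProduct_smul])
  have hb : ∀ u q, b u q = SUB.nab arm J H P.1 Y d (u : δ → K) ⬝ᵥ (S *ᵥ (q : δ → K)) :=
    fun u q => rfl
  have hom : ∀ (Q : Submodule K (δ → K)) (c : K)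
      (s : ∀ u ∈ Q, th J H P.1 H *ᵥ u = c ^ 2 • S *ᵥ u) (r : Fin 3) (u : δ → K) (hu : u ∈ Q),
      SUB.om arm J B H P.1 r *ᵥ u = c ^ 2 • (om arm B S r *ᵥ u) := by
    intro Q c s r u hu
    unfold SUB.om SUB.omF om
    rw [← mulVec_mulVec, s u hu, mulVec_smul, mulVec_mulVec]
  have hb0 : b = 0 := by
    refine hs b fun r u q => ?_
    rw [hb, hb, rs_coe, rs_coe]
    have hu := u.2
    have hq := q.2
    have hou := sta r u u.2
    have hoq := stb r q q.2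
    -- `nab (om_t u)`
    have e1 := SUB.nab_om h hP hY m r (u : δ → K)
    rw [hom Qa ca sa r u hu, SUB.nab_smul] at e1
    have e2 := congrArg (fun v => v ⬝ᵥ (S *ᵥ (q : δ → K))) e1
    simp only [add_dotProduct, sub_dotProduct, smul_dotProduct] at e2
    rw [orth _ hou _ hq, smul_zero, add_zero] at e2
    -- adjointness
    have e3 : ∀ v : δ → K, cb ^ 2 * ((SUB.om arm J B H P.1 r *ᵥ v) ⬝ᵥ (S *ᵥ (q : δ → K))) =
        -(cb ^ 4 * (v ⬝ᵥ (S *ᵥ (om arm B S r *ᵥ (q : δ → K))))) := by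
      intro v
      have a1 := om_adj (arm := arm) hD.B_symm hD.B_arm hSH r v (q : δ → K)
      have a2 : om arm B (th J H P.1 H) r = SUB.om arm J B H P.1 r := rfl
      rw [a2, sb _ hq, dotProduct_smul, hom Qb cb sb r q hq, mulVec_smul, sb _ hoq,
        smul_smul, dotProduct_smul, smul_eq_mul, smul_eq_mul] at a1
      rw [a1]
      ring
    have e4 := e3 (SUB.nab arm J H P.1 Y d (u : δ → K))
    have e5 := e3 ((Y r * th J H P.1 H) *ᵥ (u : δ → K))
    have e6 := harm r u hu q hq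
    rw [mulVec_smul, smul_dotProduct, smul_eq_mul, smul_eq_mul] at e2
    have hca2 : ca ^ 2 ≠ 0 := pow_ne_zero 2 hca
    have hcb2 : cb ^ 2 ≠ 0 := pow_ne_zero 2 hcb
    have e7 : ca ^ 2 * cb ^ 2 * (SUB.nab arm J H P.1 Y d (om arm B S r *ᵥ (u : δ → K)) ⬝ᵥ
        (S *ᵥ (q : δ → K))) = -(cb ^ 4 * (SUB.nab arm J H P.1 Y d (u : δ → K) ⬝ᵥ
          (S *ᵥ (om arm B S r *ᵥ (q : δ → K))))) := by
      linear_combination cb ^ 2 * e2 + e4 - e5 + cb ^ 2 * e6
    have e8 : ca ^ 2 * (SUB.nab arm J H P.1 Y d (om arm B S r *ᵥ (u : δ → K)) ⬝ᵥ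
        (S *ᵥ (q : δ → K))) = -(cb ^ 2 * (SUB.nab arm J H P.1 Y d (u : δ → K) ⬝ᵥ
          (S *ᵥ (om arm B S r *ᵥ (q : δ → K))))) := by
      apply mul_left_cancel₀ hcb2
      linear_combination e7
    field_simp
    linear_combination e8
  intro u hu q hq
  have := LinearMap.congr_fun (LinearMap.congr_fun hb0 ⟨u, hu⟩) ⟨q, hq⟩
  exact this

end Crest.Agent.R172.SLevA
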