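import Crest.Agent.R172.SLev0
import Crest.Agent.R172.SULift
import Crest.Agent.R172.UFr

/-!
Row 172 (S0260), tame node (t2), S-side, LEVEL 1: the relation of `SLev0.lev1` in the coordinates of
the block packages, from `SGl1.first_pair` (first derivative, tensors in `U`) and
`SULift.exists_lift`.
-/

set_option autoImplicit false
set_option linter.unusedSectionVars false
set_option maxHeartbeats 400000

namespace Crest.Agent.R172.SRel1

open Matrix Module TensorProduct Crest.Agent.R172.FO Crest.Agent.R172.Qt Crest.Agent.R172.SpS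
open Crest.Agent.R172.SBlk Crest.Agent.R172.SCM
open Crest.Agent.R172.SEnd2 (PhS)
open Crest.Agent.R172.UBlk (Qb Qb_map Qb_stable Qb_exists Qb_rel Qb_orth)
open Crest.Agent.R172.PL (CoreM)
open Crest.Agent.R172.SUX (th wd Mv)
open Crest.Agent.R172.SLev0 (bq bq_apply PbK)

variable {ι : Type*} [Fintype ι] [DecidableEq ι] {δ : Type*} [Fintype δ] [DecidableEq δ]
variable {k K : Type*} [Field k] [Field K] [Algebra k K]
variable {arm : δ → Fin 3} {J : Matrix ι ι K} {B : Matrix δ δ K}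
  {N W : Submodule K (Matrix ι δ K)} {g f : Matrix ι δ K} {R : Matrix δ ι K}
  {p : Matrix ι ι K × (Fin 3 → Matrix ι ι K)}
  {D : End K (CoreM (PhS arm J B g R p.1))} {ν ν' : K} {l : Fin 3 → ℕ} {n n' : ℕ}
  {P : Matrix ι (Fin n) K} {P' : Matrix ι (Fin n') K}
  {A : Fin 3 → Matrix (Fin n) (Fin n) K} {A' : Fin 3 → Matrix (Fin n') (Fin n') K}

theorem inj_P (b : BPkg arm J B g R p.1 D ν l P A) : Function.Injective P.mulVecLin := by
  rw [injective_iff_map_eq_zero]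
  exact fun x hx => b.inj x hx

/-- **coordinates of the U-level block** -/
theorem exists_pi [IsAlgClosed K] (h : Ctx k arm J B N W g) (hR : g * R * g = g)
    (hD : IsD (Ph arm J B g R p.1) (Nh arm J B g f R p.1) D)
    (b : BPkg arm J B g R p.1 D ν l P A) :
    ∃ π : Qb h.data hR p.1 D ν →ₗ[K] (Fin n → K), Function.Surjective π ∧
      ∀ u, P *ᵥ (π u) = g *ᵥ (u : δ → K) := by
  classical
  have hinj := inj_P b
  have hmem : ∀ u : Qb h.data hR p.1 D ν, ∃ x, P *ᵥ x = g *ᵥ (u : δ → K) := by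
    intro u
    have h1 : gS g (u : δ → K) ∈ SC.PB (Ph arm J B g R p.1) D ν := by
      rw [← Qb_map h hR hD]
      exact ⟨u, u.2, rfl⟩
    obtain ⟨x, hx⟩ := b.span _ h1
    exact ⟨x, hx.symm⟩
  choose f0 hf0 using hmem
  refine ⟨{ toFun := f0, map_add' := fun u v => hinj ?_, map_smul' := fun c u => hinj ?_ },
    fun x => ?_, hf0⟩
  · rw [mulVecLin_apply, mulVecLin_apply, mulVec_add, hf0, hf0, hf0, Submodule.coe_add,
      mulVec_add]
  · rw [mulVecLin_apply, mulVecLin_apply, RingHom.id_apply, mulVec_smul, hf0, hf0,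
      Submodule.coe_smul, mulVec_smul]
  · obtain ⟨v, hv, hvx⟩ := b.mem x
    have hv' : v ∈ (Qb h.data hR p.1 D ν).map (gS g) := by rw [Qb_map h hR hD]; exact hv
    obtain ⟨u, hu, rfl⟩ := hv'
    refine ⟨⟨u, hu⟩, hinj ?_⟩
    change P *ᵥ f0 ⟨u, hu⟩ = P *ᵥ x
    rw [hf0, ← hvx]
    rfl

section one

variable {Q : Submodule K (δ → K)} {π : Q →ₗ[K] (Fin n → K)}

theorem pi_om (hDt : Data k arm J B N W) (b : BPkg arm J B g R p.1 D ν l P A)
    (hπ : ∀ u, P *ᵥ (π u) = g *ᵥ (u : δ → K))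
    (h1 : ∀ r, ∀ u ∈ Q, SGl1.om arm B (th J g p.1 g) r *ᵥ u ∈ Q) (r : Fin 3) (u : Q) :
    π (SGl1.rs (SGl1.om arm B (th J g p.1 g) r) Q (h1 r) u) = (A r).mulVecLin (π u) := by
  apply inj_P b
  have e1 : P *ᵥ ((A r) *ᵥ π u) = (M arm B r g g * (J * p.1) * g) *ᵥ (u : δ → K) := by
    rw [mulVec_mulVec, ← b.act, ← mulVec_mulVec (π u) _ P, hπ, mulVec_mulVec]
  rw [mulVecLin_apply, mulVecLin_apply, mulVecLin_apply, hπ, SGl1.rs_coe, e1, mulVec_mulVec]
  congr 1
  unfold SGl1.om th M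
  have := hDt.B_arm r
  calc g * (B * E K arm r * (gᵀ * J * (p.1 * g))) = g * (B * E K arm r) * gᵀ * (J * p.1) * g := by
        simp only [Matrix.mul_assoc]
    _ = _ := by rw [← this]; simp only [Matrix.mul_assoc]

theorem pi_ker (hπ : ∀ u, P *ᵥ (π u) = g *ᵥ (u : δ → K)) (r : Fin 3) (u : Q) (hu : π u = 0) :
    SGl1.om arm B (th J g p.1 g) r *ᵥ (u : δ → K) = 0 := by
  have h1 : g *ᵥ (u : δ → K) = 0 := by rw [← hπ, hu, mulVec_zero]
  unfold SGl1.om th
  have h3 : B * E K arm r * (gᵀ * J * (p.1 * g)) = B * E K arm r * (gᵀ * J * p.1) * g := by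
    simp only [Matrix.mul_assoc]
  rw [h3, ← mulVec_mulVec, h1, mulVec_zero]

end one

section two

variable {Q1 Q2 : Submodule K (δ → K)} {π : Q1 →ₗ[K] (Fin n → K)} {π' : Q2 →ₗ[K] (Fin n' → K)}

theorem th_bq (hJ : Jᵀ = J) (hX : Skw J p.1) (u v : δ → K) (s : Fin 3) :
    vecMulVec (g *ᵥ u) (th J g p.1 g *ᵥ v) * E K arm s =
      -(vecMulVec (g *ᵥ u) (g *ᵥ v) * (J * p.1) * g * E K arm s) := by
  have hJX : (J * p.1)ᵀ = -(J * p.1) := by rw [transpose_mul, hJ, hX.eq]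
  have e1 : vecMulVec (g *ᵥ u) (g *ᵥ v) * (J * p.1) * g =
      -vecMulVec (g *ᵥ u) (th J g p.1 g *ᵥ v) := by
    rw [Matrix.mul_assoc, Matrix.vecMulVec_mul, ← mulVec_transpose, transpose_mul, hJX,
      mulVec_mulVec]
    have e2 : gᵀ * -(J * p.1) * g = -(th J g p.1 g) := by
      unfold th
      simp only [Matrix.mul_neg, Matrix.neg_mul, Matrix.mul_assoc]
    rw [e2, neg_mulVec]
    ext i j
    simp [vecMulVec_apply]
  rw [e1, Matrix.neg_mul, neg_neg]

theorem lift_qa (hJ : Jᵀ = J) (hX : Skw J p.1) (hπ : ∀ u, P *ᵥ (π u) = g *ᵥ (u : δ → K))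
    (hπ' : ∀ u, P' *ᵥ (π' u) = g *ᵥ (u : δ → K)) (s : Fin 3) (z : Q2 ⊗[K] Q1) :
    TensorProduct.lift (SGl1.qa arm g (th J g p.1 g) Q2 Q1 s) z =
      -TensorProduct.lift (bq arm J g p.1 P' P s) (TensorProduct.map π' π z) := by
  induction z using TensorProduct.induction_on with
  | zero => simp
  | tmul a b =>
    rw [TensorProduct.map_tmul, TensorProduct.lift.tmul, TensorProduct.lift.tmul, bq_apply, hπ, hπ',
      SGl1.qa_apply]
    exact th_bq hJ hX _ _ s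
  | add x y hx hy => rw [map_add, map_add, map_add, hx, hy, neg_add]

theorem lift_qa_flip (hJ : Jᵀ = J) (hX : Skw J p.1)
    (hπ : ∀ u, P *ᵥ (π u) = g *ᵥ (u : δ → K))
    (hπ' : ∀ u, P' *ᵥ (π' u) = g *ᵥ (u : δ → K)) (s : Fin 3) (z : Q2 ⊗[K] Q1) :
    TensorProduct.lift (-(SGl1.qa arm g (th J g p.1 g) Q1 Q2 s).flip) z =
      TensorProduct.lift (bq arm J g p.1 P P' s).flip (TensorProduct.map π' π z) := by
  induction z using TensorProduct.induction_on with
  | zero => simp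
  | tmul a b =>
    rw [TensorProduct.map_tmul, TensorProduct.lift.tmul, TensorProduct.lift.tmul,
      LinearMap.neg_apply, LinearMap.neg_apply, LinearMap.flip_apply, LinearMap.flip_apply,
      bq_apply, hπ, hπ', SGl1.qa_apply, th_bq hJ hX, neg_neg]
  | add x y hx hy => rw [map_add, map_add, map_add, hx, hy]

end two

/-- **the relation of level 1 in coordinates** (one parameter `a`): `im ^ 2 = -1`,
`c = im * ρ` is the parameter of `SLev0.lev1`. -/
theorem rel1 [IsAlgClosed K] (h : Ctx k arm J B N W g) (h2 : (2 : K) ≠ 0) (hR : g * R * g = g)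
    (hD : IsD (Ph arm J B g R p.1) (Nh arm J B g f R p.1) D) (hNil : NilW arm J B N g)
    (hp : p ∈ NN arm J N g) (hf : f ∈ N ⊓ W) {a : K} (hH : Ctx k arm J B N W (g + a • f))
    {Ri : Matrix δ ι K} (hRi : (g + a • f) * Ri * (g + a • f) = g + a • f)
    {Pt : Matrix ι ι K × (Fin 3 → Matrix ι ι K)} (hPt : Pt ∈ NN arm J N (g + a • f))
    (hV : Vert k arm J N W (g + a • f) Pt)
    (hPF : (g + a • f)ᵀ * J * (Pt.1 * g) = (g + a • f)ᵀ * J * (p.1 * g))
    (hne : ν ≠ ν') (hc1 : 1 + a * ν ≠ 0) (hc2 : 1 + a * ν' ≠ 0)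
    (b : BPkg arm J B g R p.1 D ν l P A) (b' : BPkg arm J B g R p.1 D ν' l P' A')
    {π : Qb h.data hR p.1 D ν →ₗ[K] (Fin n → K)} (hπs : Function.Surjective π)
    (hπ : ∀ u, P *ᵥ (π u) = g *ᵥ (u : δ → K))
    {π' : Qb h.data hR p.1 D ν' →ₗ[K] (Fin n' → K)} (hπs' : Function.Surjective π')
    (hπ' : ∀ u, P' *ᵥ (π' u) = g *ᵥ (u : δ → K))
    {im ρ : K} (him : im ^ 2 = -1) (hρ : (1 + a * ν) * ρ = 1 + a * ν')
    {x : Fin 3 → (Fin n' → K) ⊗[K] (Fin n → K)}
    (hx : ∑ r, Dual.defect (A r).mulVecLin (A' r).mulVecLin ((im * ρ) ^ 2) (x r) = 0)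
    (G : Submodule K (Matrix ι δ K))
    (hG : ∀ z : Fin 3 → Qb h.data hR p.1 D ν' ⊗[K] Qb h.data hR p.1 D ν,
      (∀ r, TensorProduct.map π' π (z r) = x r) → ∀ d : Derivation k K K,
      Mv k arm J N W (g + a • f) Pt.1
        (fun r => SGl1.ten (Qb h.data hR p.1 D ν') (Qb h.data hR p.1 D ν) (z r) +
          (SGl1.ten (Qb h.data hR p.1 D ν') (Qb h.data hR p.1 D ν) (z r))ᵀ) d →
      wd arm J (g + a • f) Pt.1
        (fun r => SGl1.ten (Qb h.data hR p.1 D ν') (Qb h.data hR p.1 D ν) (z r) +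
          (SGl1.ten (Qb h.data hR p.1 D ν') (Qb h.data hR p.1 D ν) (z r))ᵀ) d
          ((ν - ν')⁻¹ • (f - ν' • g)) ∈ G) :
    ∑ r, TensorProduct.lift ((1 : K) • bq arm J g p.1 P' P r) (x r) +
      (im * ρ) • ∑ r, TensorProduct.lift (im • (bq arm J g p.1 P P' r).flip) (x r) ∈ N ⊔ G := by
  have hJ := h.data.J_symm
  have hX := hp.1
  have hρ0 : ρ ≠ 0 := by
    rintro rfl
    rw [mul_zero] at hρ
    exact hc2 hρ.symm
  have s1 : ∀ r, ∀ u ∈ Qb h.data hR p.1 D ν,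
      SGl1.om arm B (th J g p.1 g) r *ᵥ u ∈ Qb h.data hR p.1 D ν := fun r u hu =>
    Qb_stable h hR hD r hu
  have s2 : ∀ r, ∀ u ∈ Qb h.data hR p.1 D ν',
      SGl1.om arm B (th J g p.1 g) r *ᵥ u ∈ Qb h.data hR p.1 D ν' := fun r u hu =>
    Qb_stable h hR hD r hu
  have q1 : ∀ u ∈ Qb h.data hR p.1 D ν, ∃ c : Fin 3 → (δ → K),
      (∀ r, c r ∈ Qb h.data hR p.1 D ν) ∧
        ∑ r, SGl1.om arm B (th J g p.1 g) r *ᵥ (c r) = u := fun u hu => Qb_exists h hR hD hu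
  have q2 : ∀ u ∈ Qb h.data hR p.1 D ν', ∃ c : Fin 3 → (δ → K),
      (∀ r, c r ∈ Qb h.data hR p.1 D ν') ∧
        ∑ r, SGl1.om arm B (th J g p.1 g) r *ᵥ (c r) = u := fun u hu => Qb_exists h hR hD hu
  have hx' : ∑ r, Dual.defect (A r).mulVecLin (-(A' r).mulVecLin) (ρ ^ 2) (x r) = 0 := by
    rw [← hx]
    refine Finset.sum_congr rfl fun r _ => ?_
    rw [SULift.defect_neg]
    have e1 : (im * ρ) ^ 2 = -ρ ^ 2 := by rw [mul_pow, him, neg_one_mul]
    rw [e1]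
    rfl
  obtain ⟨z, hz, hz0⟩ := SULift.exists_lift s1 s2 q1 q2 hπs hπs'
    (a := fun r => (A r).mulVecLin) (b := fun r => (A' r).mulVecLin)
    (pi_om h.data b hπ s1) (pi_om h.data b' hπ' s2) (pi_ker hπ) (pi_ker hπ') hρ0 x hx'
  have hRel := SGl1.rel_of (P0 := p.1) (P := Pt) hne h.mem hf hH hPt (SUX.th_flip h hp hf) hPF
    (fun u hu => (Qb_rel h hR hD hNil hp hf hu).1)
    (fun u hu => (Qb_rel h hR hD hNil hp hf hu).1)
  have hk : (ν - ν')⁻¹ • (f - ν' • g) ∈ N ⊓ W :=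
    Submodule.smul_mem _ _ (Submodule.sub_mem _ hf (Submodule.smul_mem _ _ h.mem))
  have h3 := SGl1.first_pair hH h2 hRi hPt hV hk hRel hc1 hc2 hρ s1 s2 hz0 G
    (fun d hd => hG z hz d hd)
  have h4 := (SGl1.QG N G).neg_mem h3
  have e1 : ∑ r, TensorProduct.lift (SGl1.qa arm g (th J g p.1 g) (Qb h.data hR p.1 D ν')
      (Qb h.data hR p.1 D ν) r) (z r) =
      -∑ r, TensorProduct.lift (bq arm J g p.1 P' P r) (x r) := by
    rw [← Finset.sum_neg_distrib]
    exact Finset.sum_congr rfl fun r _ => by rw [lift_qa hJ hX hπ hπ', hz]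
  have e2 : ∑ r, TensorProduct.lift (-(SGl1.qa arm g (th J g p.1 g) (Qb h.data hR p.1 D ν)
      (Qb h.data hR p.1 D ν') r).flip) (z r) =
      ∑ r, TensorProduct.lift (bq arm J g p.1 P P' r).flip (x r) :=
    Finset.sum_congr rfl fun r _ => by rw [lift_qa_flip hJ hX hπ hπ', hz]
  rw [e1, e2] at h4
  have e3 : ∑ r, TensorProduct.lift (im • (bq arm J g p.1 P P' r).flip) (x r) =
      im • ∑ r, TensorProduct.lift (bq arm J g p.1 P P' r).flip (x r) := by
    rw [Finset.smul_sum]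
    refine Finset.sum_congr rfl fun r _ => ?_
    have : TensorProduct.lift (im • (bq arm J g p.1 P P' r).flip) =
        im • TensorProduct.lift (bq arm J g p.1 P P' r).flip :=
      TensorProduct.ext' fun u v => by simp
    rw [this, LinearMap.smul_apply]
  simp only [one_smul]
  rw [e3, smul_smul]
  have e4 : im * ρ * im = -ρ := by
    calc im * ρ * im = im ^ 2 * ρ := by ring
      _ = -ρ := by rw [him, neg_one_mul]
  rw [e4]
  have e5 : ∑ r, TensorProduct.lift (bq arm J g p.1 P' P r) (x r) +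
      (-ρ) • ∑ r, TensorProduct.lift (bq arm J g p.1 P P' r).flip (x r) =
      -(-∑ r, TensorProduct.lift (bq arm J g p.1 P' P r) (x r) +
      ρ • ∑ r, TensorProduct.lift (bq arm J g p.1 P P' r).flip (x r)) := by
    rw [neg_add, neg_neg, neg_smul]
  rw [e5]
  exact h4

end Crest.Agent.R172.SRel1
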