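import Crest.Agent.R172.SLevA1
import Crest.Agent.R172.SRel1
import Crest.Agent.R172.SA2h555

/-!
Row 172 (S0260), S-side (t2), LEVEL 1: `wd kk` lies in the good class.
-/

set_option autoImplicit false
set_option linter.unusedSectionVars false
set_option maxHeartbeats 1000000

namespace Crest.Agent.R172.SLevA

open Matrix Module TensorProduct Crest.Agent.R172.FO Crest.Agent.R172.Qt Crest.Agent.R172.SpS
open Crest.Agent.R172.SBlk Crest.Agent.R172.SCM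
open Crest.Agent.R172.Om (Kiso)
open Crest.Agent.R172.SEnd2 (PhS PC)
open Crest.Agent.R172.UBlk (Qb Qb_map Qb_stable Qb_exists Qb_rel Qb_orth)
open Crest.Agent.R172.PL (CoreM Ainf)
open Crest.Agent.R172.SUX (th wd Mv th_skew th_flip)
open Crest.Agent.R172.SLev0 (bq bq_apply PbK QG)
open Crest.Agent.R172.SGl1 (om rs ten rs_coe)
open Crest.Agent.R172.SC (PB iSup_PB)

variable {ι : Type*} [Fintype ι] [DecidableEq ι] {δ : Type*} [Fintype δ] [DecidableEq δ]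
variable {k K : Type*} [Field k] [Field K] [Algebra k K]
variable {arm : δ → Fin 3} {J : Matrix ι ι K} {B : Matrix δ δ K}
  {N W : Submodule K (Matrix ι δ K)} {g f : Matrix ι δ K} {R : Matrix δ ι K}
  {p : Matrix ι ι K × (Fin 3 → Matrix ι ι K)}
  {D : End K (CoreM (PhS arm J B g R p.1))} {ν ν' : K} {l : Fin 3 → ℕ} {n n' : ℕ}
  {P : Matrix ι (Fin n) K} {P' : Matrix ι (Fin n') K}
  {A : Fin 3 → Matrix (Fin n) (Fin n) K} {A' : Fin 3 → Matrix (Fin n') (Fin n') K}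

/-- the radical of the coordinates is invisible -/
theorem ker_inv (b : BPkg arm J B g R p.1 D ν l P A) {Q : Submodule K (δ → K)}
    {π : Q →ₗ[K] (Fin n → K)} (hπ : ∀ u, P *ᵥ (π u) = g *ᵥ (u : δ → K)) :
    ∀ r ∈ LinearMap.ker (Pᵀ * (J * p.1) * P).mulVecLin, ∀ u ∈ Q,
      P.mulVecLin r ⬝ᵥ ((J * p.1) *ᵥ (g *ᵥ u)) = 0 := by
  intro r hr u hu
  have h1 : (Pᵀ * (J * p.1) * P) *ᵥ r = 0 := hr
  have h2 := hπ ⟨u, hu⟩
  rw [← h2, mulVecLin_apply]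
  have h3 : (P *ᵥ r) ⬝ᵥ ((J * p.1) *ᵥ (P *ᵥ π ⟨u, hu⟩)) =
      r ⬝ᵥ ((Pᵀ * (J * p.1) * P) *ᵥ π ⟨u, hu⟩) := by
    rw [mulVec_mulVec, ← vecMul_transpose P r, ← dotProduct_mulVec, mulVec_mulVec]
    simp only [Matrix.mul_assoc]
  rw [h3, skew_dot b.skew, h1, dotProduct_zero, neg_zero]

/-- **the class membership of `wd kk`.** -/
theorem class_mem [IsAlgClosed K] (h : Ctx k arm J B N W g) (h2 : (2 : K) ≠ 0)
    (hR : g * R * g = g)
    (hD : IsD (Ph arm J B g R p.1) (Nh arm J B g f R p.1) D) (hNil : NilW arm J B N g)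
    (hNm : ∀ F, (∀ F' ∈ N, pair J B F' F = 0) → F ∈ N)
    (hWm : ∀ F, (∀ F' ∈ W, pair J B F' F = 0) → F ∈ W)
    (hgK : g ∈ Kiso J N W)
    (hp : p ∈ NN arm J N g) (hf : f ∈ N ⊓ W) {a : K} (hH : Ctx k arm J B N W (g + a • f))
    {Pt : Matrix ι ι K × (Fin 3 → Matrix ι ι K)} (hPt : Pt ∈ NN arm J N (g + a • f))
    (hPF : (g + a • f)ᵀ * J * (Pt.1 * g) = (g + a • f)ᵀ * J * (p.1 * g))
    (hne : ν ≠ ν') (hc1 : 1 + a * ν ≠ 0)
    (hcc : ∀ μ, Qb h.data hR p.1 D μ ≠ ⊥ → 1 + a * μ ≠ 0)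
    (b : BPkg arm J B g R p.1 D ν l P A) (b' : BPkg arm J B g R p.1 D ν' l P' A')
    {π : Qb h.data hR p.1 D ν →ₗ[K] (Fin n → K)}
    (hπ : ∀ u, P *ᵥ (π u) = g *ᵥ (u : δ → K))
    {π' : Qb h.data hR p.1 D ν' →ₗ[K] (Fin n' → K)}
    (hπ' : ∀ u, P' *ᵥ (π' u) = g *ᵥ (u : δ → K))
    (st : ∀ μ r, ∀ u ∈ Qb h.data hR p.1 D μ,
      om arm B (th J g p.1 g) r *ᵥ u ∈ Qb h.data hR p.1 D μ)
    (hbad : ∀ μ μ', μ ≠ μ' → Qb h.data hR p.1 D μ ≠ ⊥ → Qb h.data hR p.1 D μ' ≠ ⊥ →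
      ∀ bb : Qb h.data hR p.1 D μ →ₗ[K] Qb h.data hR p.1 D μ' →ₗ[K] K,
      (∀ r u q, (1 + a * μ) ^ 2 * bb (rs (om arm B (th J g p.1 g) r) _ (st μ r) u) q =
        -((1 + a * μ') ^ 2 * bb u (rs (om arm B (th J g p.1 g) r) _ (st μ' r) q))) → bb = 0)
    {im ρ : K} (him : im ^ 2 = -1) (hρ : (1 + a * ν) * ρ = 1 + a * ν')
    {x : Fin 3 → (Fin n' → K) ⊗[K] (Fin n → K)}
    (hx : ∀ r, Dual.defect (A r).mulVecLin (A' r).mulVecLin ((im * ρ) ^ 2) (x r) ∈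
      Dual.Rad (LinearMap.ker (Pᵀ * (J * p.1) * P).mulVecLin)
        (LinearMap.ker (P'ᵀ * (J * p.1) * P').mulVecLin))
    {z : Fin 3 → Qb h.data hR p.1 D ν' ⊗[K] Qb h.data hR p.1 D ν}
    (hz : ∀ r, TensorProduct.map π' π (z r) = x r) {d : Derivation k K K}
    (m : Mv k arm J N W (g + a • f) Pt.1
        (fun r => ten (Qb h.data hR p.1 D ν') (Qb h.data hR p.1 D ν) (z r) +
          (ten (Qb h.data hR p.1 D ν') (Qb h.data hR p.1 D ν) (z r))ᵀ) d) :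
    wd arm J (g + a • f) Pt.1
        (fun r => ten (Qb h.data hR p.1 D ν') (Qb h.data hR p.1 D ν) (z r) +
          (ten (Qb h.data hR p.1 D ν') (Qb h.data hR p.1 D ν) (z r))ᵀ) d
          ((ν - ν')⁻¹ • (f - ν' • g)) ∈
      QG arm J B N W g p (PC arm J B g R p.1) (fun μ : K => PbK arm J B g R p.1 D μ)
        (fun μ => μ) := by
  have hJ := h.data.J_symm
  have hB := h.data.B_symm
  have hBE := h.data.B_arm
  have hS := th_skew h hp h.mem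
  set Y : Fin 3 → Matrix δ δ K := fun r => ten (Qb h.data hR p.1 D ν') (Qb h.data hR p.1 D ν) (z r) +
          (ten (Qb h.data hR p.1 D ν') (Qb h.data hR p.1 D ν) (z r))ᵀ with hYdef
  have hY : ∀ r, (Y r)ᵀ = Y r := fun r => by
    rw [hYdef]
    simp only
    rw [transpose_add, transpose_transpose, add_comm]
  set kk : Matrix ι δ K := (ν - ν')⁻¹ • (f - ν' • g) with hkkdef
  have hk : kk ∈ N ⊓ W :=
    Submodule.smul_mem _ _ (Submodule.sub_mem _ hf (Submodule.smul_mem _ _ h.mem))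
  have hrelf : ∀ μ, ∀ u ∈ Qb h.data hR p.1 D μ, f *ᵥ u = μ • g *ᵥ u := fun μ u hu =>
    (Qb_rel h hR hD hNil hp hf hu).1
  have hRel := SGl1.rel_of (P0 := p.1) (P := Pt) hne h.mem hf hH hPt (th_flip h hp hf) hPF
    (hrelf ν) (hrelf ν')
  have hRelμ : ∀ μ : K, _ := fun μ => SGl1.rel_of (P0 := p.1) (P := Pt)
    (l1 := μ) (l2 := μ + 1) (Q1 := Qb h.data hR p.1 D μ) (Q2 := Qb h.data hR p.1 D (μ + 1))
    (by intro h3; exact one_ne_zero (left_eq_add.1 h3)) h.mem hf hH hPt (th_flip h hp hf) hPF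
    (hrelf μ) (hrelf (μ + 1))
  have sH : ∀ μ, ∀ u ∈ Qb h.data hR p.1 D μ, th J (g + a • f) Pt.1 (g + a • f) *ᵥ u =
      (1 + a * μ) ^ 2 • th J g p.1 g *ᵥ u := fun μ u hu => (hRelμ μ).S1 u hu
  have HQ : ∀ μ, ∀ u ∈ Qb h.data hR p.1 D μ, (g + a • f) *ᵥ u = (1 + a * μ) • g *ᵥ u :=
    fun μ u hu => (hRelμ μ).H1 u hu
  have kQ : ∀ μ, ∀ u ∈ Qb h.data hR p.1 D μ, kk *ᵥ u = ((ν - ν')⁻¹ * (μ - ν')) • g *ᵥ u := by
    intro μ u hu
    rw [hkkdef, smul_mulVec, sub_mulVec, smul_mulVec, hrelf μ u hu, ← sub_smul, smul_smul]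
  have orth : ∀ μ μ', μ ≠ μ' → ∀ u ∈ Qb h.data hR p.1 D μ, ∀ q ∈ Qb h.data hR p.1 D μ',
      u ⬝ᵥ (th J g p.1 g *ᵥ q) = 0 := fun μ μ' hμ u hu q hq =>
    Qb_orth h hR hD hNil hp hf hμ hu hq
  -- the radical condition
  have hrad : ∀ r, ∀ u ∈ Qb h.data hR p.1 D ν, ∀ q ∈ Qb h.data hR p.1 D ν',
      Pr (th J g p.1 g) (Qb h.data hR p.1 D ν') (Qb h.data hR p.1 D ν) u q
        (Dual.defect (rs (om arm B (th J g p.1 g) r) (Qb h.data hR p.1 D ν) (st ν r))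
          (-(rs (om arm B (th J g p.1 g) r) (Qb h.data hR p.1 D ν') (st ν' r))) (ρ ^ 2) (z r)) =
        0 := by
    intro r
    refine Pr_rad (F := g) (η := J * p.1) (by unfold th; simp only [Matrix.mul_assoc]) π π'
      P.mulVecLin P'.mulVecLin hπ hπ' (ker_inv b hπ) (ker_inv b' hπ') ?_
    rw [SGl1.map_defect (a := fun r => rs (om arm B (th J g p.1 g) r) (Qb h.data hR p.1 D ν) (st ν r))
      (b := fun r => -(rs (om arm B (th J g p.1 g) r) (Qb h.data hR p.1 D ν') (st ν' r)))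
      (A := fun r => (A r).mulVecLin) (Bo := fun r => -(A' r).mulVecLin)
      (fun t u => SRel1.pi_om h.data b hπ (st ν) t u)
      (fun t u => by
        rw [LinearMap.neg_apply, map_neg, SRel1.pi_om h.data b' hπ' (st ν') t u]
        rfl) (ρ ^ 2) r (z r), hz r]
    have e1 : Dual.defect (A r).mulVecLin (-(A' r).mulVecLin) (ρ ^ 2) (x r) =
        Dual.defect (A r).mulVecLin (A' r).mulVecLin ((im * ρ) ^ 2) (x r) := by
      rw [SULift.defect_neg]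
      have e2 : (im * ρ) ^ 2 = -ρ ^ 2 := by rw [mul_pow, him, neg_one_mul]
      rw [e2]
      rfl
    rw [e1]
    exact hx r
  have hharm := fun (r : Fin 3) (μ μ' : K) (hμ : μ ≠ μ') (u : δ → K)
      (hu : u ∈ Qb h.data hR p.1 D μ) (q : δ → K) (hq : q ∈ Qb h.data hR p.1 D μ') =>
    harm_all (arm := arm) hB hBE (SH := th J (g + a • f) Pt.1 (g + a • f)) hS
      (Qb := fun μ => Qb h.data hR p.1 D μ) (c := fun μ => 1 + a * μ) sH st orth hne hρ (r := r)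
      (z := z r) (hrad r) hμ u hu q hq
  -- `β = 0`
  have β0 : ∀ μ μ', μ ≠ μ' → ∀ u ∈ Qb h.data hR p.1 D μ, ∀ q ∈ Qb h.data hR p.1 D μ',
      SUB.nab arm J (g + a • f) Pt.1 Y d u ⬝ᵥ (th J g p.1 g *ᵥ q) = 0 := by
    intro μ μ' hμ u hu q hq
    by_cases hu0 : u = 0
    · rw [hu0, SUB.nab_zero, zero_dotProduct]
    by_cases hq0 : q = 0
    · rw [hq0, mulVec_zero, dotProduct_zero]
    have hμ1 : Qb h.data hR p.1 D μ ≠ ⊥ := fun h3 => hu0 (by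
      rw [h3, Submodule.mem_bot] at hu; exact hu)
    have hμ2 : Qb h.data hR p.1 D μ' ≠ ⊥ := fun h3 => hq0 (by
      rw [h3, Submodule.mem_bot] at hq; exact hq)
    refine beta_zero hH hPt hY m (hcc μ hμ1) (hcc μ' hμ2) (sH μ) (sH μ') (st μ) (st μ')
      (orth μ μ' hμ) (fun r u hu q hq => hharm r μ μ' hμ u hu q hq) (fun bb hbb => ?_) u hu q hq
    refine hbad μ μ' hμ hμ1 hμ2 bb fun r u q => ?_
    rw [hbb r u q]
    have h3 : (1 + a * μ) ^ 2 ≠ 0 := pow_ne_zero 2 (hcc μ hμ1)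
    rw [← mul_assoc, mul_neg, mul_div_cancel₀ _ h3, neg_mul]
  have hval := wd_value h hp hH.mem hk m (Qb := fun μ => Qb h.data hR p.1 D μ)
    (c := fun μ => 1 + a * μ) (κ := fun μ => (ν - ν')⁻¹ * (μ - ν'))
    (fun μ u hu hu0 => hcc μ fun h3 => hu0 (by
      have hu' : u ∈ Qb h.data hR p.1 D μ := hu
      rw [h3, Submodule.mem_bot] at hu'; exact hu')) HQ kQ β0
  have hFw : gᵀ * J * wd arm J (g + a • f) Pt.1 Y d kk = 0 :=
    SA2h555.F_perp_rel hH hgK hNm hWm hRel hc1 hk z m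
  -- `PC = ⨆ PbK`
  have hPC : PC arm J B g R p.1 = ⨆ μ : K, PbK arm J B g R p.1 D μ := by
    have h3 : Ainf (PhS arm J B g R p.1) = ⨆ ν, PB (PhS arm J B g R p.1) D ν :=
      (iSup_PB hD.2 (Module.End.iSup_maxGenEigenspace_eq_top D)).symm
    unfold SEnd2.PC
    rw [h3, Submodule.map_iSup]
  have hfrom : ∀ μ : K, ∀ c ∈ PbK arm J B g R p.1 D μ, ∃ q ∈ Qb h.data hR p.1 D μ,
      g *ᵥ q = c := by
    rintro μ _ ⟨v, hv, rfl⟩
    rw [← Qb_map h hR hD] at hv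
    obtain ⟨q, hq, rfl⟩ := hv
    exact ⟨q, hq, rfl⟩
  refine ⟨wd arm J (g + a • f) Pt.1 Y d kk, m.w_mem hk.2, ?_, ?_,
    fun μ => d ((ν - ν')⁻¹ * (μ - ν') / (1 + a * μ)) * (1 + a * μ), ?_⟩
  · rw [sub_self]; exact N.zero_mem
  · intro a' ha v
    have h4 : ∀ q : δ → K, (g *ᵥ q) ⬝ᵥ ((J * wd arm J (g + a • f) Pt.1 Y d kk) *ᵥ v) = 0 := by
      intro q
      rw [← vecMul_transpose g q, ← dotProduct_mulVec, mulVec_mulVec, ← Matrix.mul_assoc, hFw,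
        zero_mulVec, dotProduct_zero]
    rw [hPC] at ha
    refine Submodule.iSup_induction _ (motive := fun a' => a' ⬝ᵥ
      ((J * wd arm J (g + a • f) Pt.1 Y d kk) *ᵥ v) = 0) ha ?_ (zero_dotProduct _) ?_
    · intro μ c hc
      obtain ⟨q, -, rfl⟩ := hfrom μ c hc
      exact h4 q
    · intro c c' h5 h6
      rw [add_dotProduct, h5, h6, add_zero]
  · intro μ c hc r
    obtain ⟨q, hq, rfl⟩ := hfrom μ c hc
    have hu := st μ r q hq
    obtain ⟨rr, h5, h6⟩ := hval μ _ hu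
    have e1 : (E K arm r * B * gᵀ * (J * p.1)) *ᵥ (g *ᵥ q) = om arm B (th J g p.1 g) r *ᵥ q := by
      unfold SGl1.om th
      rw [mulVec_mulVec, hBE]
      congr 1
      simp only [Matrix.mul_assoc]
    have e2 : (M arm B r g g * (J * p.1)) *ᵥ (g *ᵥ q) =
        g *ᵥ (om arm B (th J g p.1 g) r *ᵥ q) := by
      rw [← e1]
      unfold M
      simp only [mulVec_mulVec, Matrix.mul_assoc]
    refine ⟨rr, fun a' ha => ?_, ?_⟩
    · rw [hPC] at ha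
      refine Submodule.iSup_induction _ (motive := fun a' => a' ⬝ᵥ ((J * p.1) *ᵥ rr) = 0) ha ?_
        (zero_dotProduct _) ?_
      · intro μ' c hc
        obtain ⟨q', hq', rfl⟩ := hfrom μ' c hc
        exact h5 μ' q' hq'
      · intro c c' h7 h8
        rw [add_dotProduct, h7, h8, add_zero]
    · rw [e1, e2, h6]

end Crest.Agent.R172.SLevA
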