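import Crest.Agent.R172.SBet745
import Crest.Agent.R172.BadSet265
import Crest.Agent.R172.STop

/-!
Row 172 (S0260), tame node (t2), S-side: **LEVEL 1**, `STop.Lev1`.
-/

set_option autoImplicit false
set_option linter.unusedSectionVars false
set_option maxHeartbeats 800000

namespace Crest.Agent.R172.SLevA745

open Matrix Module TensorProduct Crest.Agent.R172.FO Crest.Agent.R172.Qt Crest.Agent.R172.SpS
open Crest.Agent.R172.SBlk Crest.Agent.R172.SCM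
open Crest.Agent.R172.SEnd2 (PhS PC PC_im)
open Crest.Agent.R172.UBlk (Qb Qb_map Qb_stable Qb_exists Qb_rel Qb_orth)
open Crest.Agent.R172.PL (CoreM coreOp Ainf)
open Crest.Agent.R172.SC (PB iSup_PB)
open Crest.Agent.R172.SUX (th wd Mv ZY)
open Crest.Agent.R172.SLev0 (bq bq_apply PbK)
open Crest.Agent.R172.SRel1 Crest.Agent.R172.SBet745
open Crest.Agent.R172.Om (Kiso)

section arms

variable {ι : Type*} [Fintype ι] [DecidableEq ι] {δ : Type*} [Fintype δ] [DecidableEq δ]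
variable {k K : Type*} [Field k] [Field K] [Algebra k K] [IsAlgClosed K]
variable {arm : δ → Fin 3} {J : Matrix ι ι K} {B : Matrix δ δ K}
  {N W : Submodule K (Matrix ι δ K)} {g f : Matrix ι δ K} {R : Matrix δ ι K}
  {p : Matrix ι ι K × (Fin 3 → Matrix ι ι K)}
  {D : End K (CoreM (PhS arm J B g R p.1))} {ν ν' : K} {l : Fin 3 → ℕ} {n n' : ℕ}
  {P : Matrix ι (Fin n) K} {P' : Matrix ι (Fin n') K}
  {A : Fin 3 → Matrix (Fin n) (Fin n) K} {A' : Fin 3 → Matrix (Fin n') (Fin n') K}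

/-- **the arm input of `beta_rel` for all pairs of blocks** -/
theorem harm_all (h : Ctx k arm J B N W g) (hR : g * R * g = g)
    (hD : IsD (Ph arm J B g R p.1) (Nh arm J B g f R p.1) D) (hNil : NilW arm J B N g)
    (hp : p ∈ NN arm J N g) (hf : f ∈ N ⊓ W) {a : K}
    (b : BPkg arm J B g R p.1 D ν l P A) (b' : BPkg arm J B g R p.1 D ν' l P' A')
    {π : Qb h.data hR p.1 D ν →ₗ[K] (Fin n → K)}
    (hπ : ∀ u, P *ᵥ (π u) = g *ᵥ (u : δ → K))
    {π' : Qb h.data hR p.1 D ν' →ₗ[K] (Fin n' → K)}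
    (hπ' : ∀ u, P' *ᵥ (π' u) = g *ᵥ (u : δ → K))
    {ρ c : K} (hρ : (1 + a * ν) * ρ = 1 + a * ν') (hc : c = -ρ ^ 2)
    {x : Fin 3 → (Fin n' → K) ⊗[K] (Fin n → K)}
    (hx : ∀ r, Dual.defect (A r).mulVecLin (A' r).mulVecLin c (x r) ∈
      Dual.Rad (LinearMap.ker (Pᵀ * (J * p.1) * P).mulVecLin)
        (LinearMap.ker (P'ᵀ * (J * p.1) * P').mulVecLin))
    {z : Fin 3 → Qb h.data hR p.1 D ν' ⊗[K] Qb h.data hR p.1 D ν}
    (hz : ∀ r, TensorProduct.map π' π (z r) = x r) {μ μ' : K} (r : Fin 3)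
    {u v : δ → K} (hu : u ∈ Qb h.data hR p.1 D μ) (hv : v ∈ Qb h.data hR p.1 D μ') :
    (1 + a * μ) ^ 2 * ((th J g p.1 g *ᵥ v) ⬝ᵥ
        ((SGl1.ten (Qb h.data hR p.1 D ν') (Qb h.data hR p.1 D ν) (z r) +
          (SGl1.ten (Qb h.data hR p.1 D ν') (Qb h.data hR p.1 D ν) (z r))ᵀ) *ᵥ
        (th J g p.1 g *ᵥ (SGl1.om arm B (th J g p.1 g) r *ᵥ u)))) +
      (1 + a * μ') ^ 2 * ((th J g p.1 g *ᵥ (SGl1.om arm B (th J g p.1 g) r *ᵥ v)) ⬝ᵥ
        ((SGl1.ten (Qb h.data hR p.1 D ν') (Qb h.data hR p.1 D ν) (z r) +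
          (SGl1.ten (Qb h.data hR p.1 D ν') (Qb h.data hR p.1 D ν) (z r))ᵀ) *ᵥ
          (th J g p.1 g *ᵥ u))) = 0 := by
  have s1 : ∀ (μ : K) (r : Fin 3), ∀ u ∈ Qb h.data hR p.1 D μ,
      SGl1.om arm B (th J g p.1 g) r *ᵥ u ∈ Qb h.data hR p.1 D μ := fun μ r u hu =>
    Qb_stable h hR hD r hu
  have ho : ∀ {μ μ' : K}, μ ≠ μ' → ∀ {u v : δ → K}, u ∈ Qb h.data hR p.1 D μ →
      v ∈ Qb h.data hR p.1 D μ' → u ⬝ᵥ (th J g p.1 g *ᵥ v) = 0 := fun hne _ _ hu hv =>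
    Qb_orth h hR hD hNil hp hf hne hu hv
  have hzr : Dual.defect (A r).mulVecLin (A' r).mulVecLin c (TensorProduct.map π' π (z r)) ∈
      Dual.Rad (LinearMap.ker (Pᵀ * (J * p.1) * P).mulVecLin)
        (LinearMap.ker (P'ᵀ * (J * p.1) * P').mulVecLin) := by rw [hz]; exact hx r
  have key := fun (v u : δ → K) (hv : v ∈ Qb h.data hR p.1 D ν')
    (hu : u ∈ Qb h.data hR p.1 D ν) => arm_zero h.data b b' hπ hπ' (s1 ν) (s1 ν') hρ hc r (z r)
      hzr hv hu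
  have hou := s1 μ r u hu
  have hov := s1 μ' r v hv
  have E1 : (1 + a * μ) ^ 2 * ((th J g p.1 g *ᵥ v) ⬝ᵥ
        (SGl1.ten (Qb h.data hR p.1 D ν') (Qb h.data hR p.1 D ν) (z r) *ᵥ
        (th J g p.1 g *ᵥ (SGl1.om arm B (th J g p.1 g) r *ᵥ u)))) +
      (1 + a * μ') ^ 2 * ((th J g p.1 g *ᵥ (SGl1.om arm B (th J g p.1 g) r *ᵥ v)) ⬝ᵥ
        (SGl1.ten (Qb h.data hR p.1 D ν') (Qb h.data hR p.1 D ν) (z r) *ᵥ
          (th J g p.1 g *ᵥ u))) = 0 := by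
    by_cases h1 : μ' = ν'
    · by_cases h3 : μ = ν
      · subst h1
        subst h3
        exact key v u hv hu
      · rw [ten_dot' (z r) _ _ fun y hy => ho (Ne.symm h3) hy hou,
          ten_dot' (z r) _ _ fun y hy => ho (Ne.symm h3) hy hu, mul_zero, mul_zero, add_zero]
    · rw [ten_dot (z r) _ _ fun y hy => ho (Ne.symm h1) hy hv,
        ten_dot (z r) _ _ fun y hy => ho (Ne.symm h1) hy hov, mul_zero, mul_zero, add_zero]
  have E2 : (1 + a * μ) ^ 2 * ((th J g p.1 g *ᵥ (SGl1.om arm B (th J g p.1 g) r *ᵥ u)) ⬝ᵥ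
        (SGl1.ten (Qb h.data hR p.1 D ν') (Qb h.data hR p.1 D ν) (z r) *ᵥ
        (th J g p.1 g *ᵥ v))) +
      (1 + a * μ') ^ 2 * ((th J g p.1 g *ᵥ u) ⬝ᵥ
        (SGl1.ten (Qb h.data hR p.1 D ν') (Qb h.data hR p.1 D ν) (z r) *ᵥ
          (th J g p.1 g *ᵥ (SGl1.om arm B (th J g p.1 g) r *ᵥ v)))) = 0 := by
    by_cases h1 : μ = ν'
    · by_cases h3 : μ' = ν
      · subst h1
        subst h3
        rw [add_comm]
        exact key u v hu hv
      · rw [ten_dot' (z r) _ _ fun y hy => ho (Ne.symm h3) hy hov,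
          ten_dot' (z r) _ _ fun y hy => ho (Ne.symm h3) hy hv, mul_zero, mul_zero, add_zero]
    · rw [ten_dot (z r) _ _ fun y hy => ho (Ne.symm h1) hy hu,
        ten_dot (z r) _ _ fun y hy => ho (Ne.symm h1) hy hou, mul_zero, mul_zero, add_zero]
  rw [add_mulVec, add_mulVec, dotProduct_add, dotProduct_add, tenT, tenT]
  linear_combination E1 + E2

end arms

/-- finiteness of the bad parameters of one ratio -/
theorem bad_t {K : Type*} [Field K] [Algebra ℂ K] {μ μ' : K} (hne : μ ≠ μ') {S : Set K}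
    (hS : S.Finite) :
    {t : ℂ | 1 + algebraMap ℂ K t * μ ≠ 0 ∧
      (1 + algebraMap ℂ K t * μ') / (1 + algebraMap ℂ K t * μ) ∈ S}.Finite := by
  refine Set.Finite.of_injOn (f := fun t : ℂ =>
    (1 + algebraMap ℂ K t * μ') / (1 + algebraMap ℂ K t * μ)) (t := S) (fun t ht => ht.2) ?_ hS
  intro s hs t ht hst
  simp only at hst
  rw [div_eq_div_iff hs.1 ht.1] at hst
  have h3 : (algebraMap ℂ K s - algebraMap ℂ K t) * (μ' - μ) = 0 := by linear_combination hst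
  rcases mul_eq_zero.1 h3 with h4 | h4
  · exact (algebraMap ℂ K).injective (sub_eq_zero.1 h4)
  · exact absurd (sub_eq_zero.1 h4).symm hne

theorem bad_one {K : Type*} [Field K] [Algebra ℂ K] (μ : K) :
    {t : ℂ | 1 + algebraMap ℂ K t * μ = 0}.Finite := by
  refine Set.Subsingleton.finite ?_
  intro s hs t ht
  have hs' : 1 + algebraMap ℂ K s * μ = 0 := hs
  have ht' : 1 + algebraMap ℂ K t * μ = 0 := ht
  have h0 : μ ≠ 0 := by
    rintro rfl
    rw [mul_zero, add_zero] at hs'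
    exact one_ne_zero hs'
  have h3 : (algebraMap ℂ K s - algebraMap ℂ K t) * μ = 0 := by linear_combination hs' - ht'
  rcases mul_eq_zero.1 h3 with h4 | h4
  · exact (algebraMap ℂ K).injective (sub_eq_zero.1 h4)
  · exact absurd h4 h0

/-- **LEVEL 1** -/
theorem lev1 : STop.Lev1 := by
  intro ι _ _ δ _ _ K _ _ _ arm J B N W F f P R D l S ν ν' hne n1 n2 Q1 A1 Q2 A2 b b'
  classical
  have : CharZero K := charZero_of_injective_algebraMap (algebraMap ℂ K).injective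
  have h2 : (2 : K) ≠ 0 := two_ne_zero
  have h := S.hCtx F S.hF
  have hNil := S.hNil F S.hF
  have hf : f ∈ N ⊓ W := S.hf.1
  have hff : fᵀ * J * f = 0 := (S.hCtx f S.hf).perp f hf
  have hD : IsD (Ph arm J B F R P.1) (Nh arm J B F f R P.1) D := S.hD
  have hDc : ∀ s x, D (coreOp (PhS arm J B F R P.1) s x) =
      coreOp (PhS arm J B F R P.1) s (D x) := S.hD.2
  obtain ⟨Y, dY, -, -, -, hfam⟩ := PTy.exists_family h2 S.hCtx S.hNm S.hWm S.hF S.hf S.hV1 S.hP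
    S.hV2
  -- the blocks
  have hfin : {μ | D.maxGenEigenspace μ ≠ ⊥ ∨ μ = ν ∨ μ = ν'}.Finite := by
    have h3 : {μ | D.maxGenEigenspace μ ≠ ⊥}.Finite :=
      WellFoundedGT.finite_ne_bot_of_iSupIndep (Module.End.independent_maxGenEigenspace D)
    exact (h3.union ((Set.finite_singleton ν).union (Set.finite_singleton ν'))).subset
      fun μ hμ => hμ
  let α : Type := {μ // D.maxGenEigenspace μ ≠ ⊥ ∨ μ = ν ∨ μ = ν'}
  have : Fintype α := hfin.fintype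
  let i1 : α := ⟨ν, Or.inr (Or.inl rfl)⟩
  let i2 : α := ⟨ν', Or.inr (Or.inr rfl)⟩
  let Pb : α → Submodule K (ι → K) := fun i => PbK arm J B F R P.1 D i.1
  let nu : α → K := fun i => i.1
  have hP : PC arm J B F R P.1 = ⨆ i, Pb i := by
    have h3 : Ainf (PhS arm J B F R P.1) = ⨆ ν, PB (PhS arm J B F R P.1) D ν :=
      (iSup_PB hDc (Module.End.iSup_maxGenEigenspace_eq_top D)).symm
    unfold PC
    rw [h3, Submodule.map_iSup]
    refine le_antisymm (iSup_le fun μ => ?_) (iSup_le fun i => ?_)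
    · by_cases hμ : D.maxGenEigenspace μ = ⊥
      · rw [STop.PB_bot hDc hμ, Submodule.map_bot]
        exact bot_le
      · exact le_iSup Pb ⟨μ, Or.inl hμ⟩
    · exact le_iSup (fun μ => (PB (PhS arm J B F R P.1) D μ).map (SpS.Sg F).subtype) i.1
  have hPb : ∀ i, ∀ c ∈ Pb i, ∃ u ∈ Qb h.data S.hR P.1 D (nu i), F *ᵥ u = c := by
    rintro i _ ⟨v, hv, rfl⟩
    have hv' : v ∈ (Qb h.data S.hR P.1 D (nu i)).map (gS F) := by
      rw [Qb_map h S.hR hD]; exact hv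
    obtain ⟨u, hu, rfl⟩ := hv'
    exact ⟨u, hu, rfl⟩
  have st : ∀ (μ : K) (r : Fin 3), ∀ u ∈ Qb h.data S.hR P.1 D μ,
      SGl1.om arm B (th J F P.1 F) r *ᵥ u ∈ Qb h.data S.hR P.1 D μ := fun μ r u hu =>
    Qb_stable h S.hR hD r hu
  -- the bad ratios
  have hbad := fun i j : α => BadSet265.zero_of_ratio
    (fun r => SGl1.rs (SGl1.om arm B (th J F P.1 F) r) (Qb h.data S.hR P.1 D i.1) (st i.1 r))
    (fun r => SGl1.rs (SGl1.om arm B (th J F P.1 F) r) (Qb h.data S.hR P.1 D j.1) (st j.1 r))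
    (SULift.rs_top (st j.1) fun u hu => Qb_exists h S.hR hD hu)
  choose Sb hSb hb0 using hbad
  have hbadfin : ((⋃ i : α, {t : ℂ | 1 + algebraMap ℂ K t * i.1 = 0}) ∪
      ⋃ i : α, ⋃ j : α, {t : ℂ | i.1 ≠ j.1 ∧ 1 + algebraMap ℂ K t * i.1 ≠ 0 ∧
        (1 + algebraMap ℂ K t * j.1) / (1 + algebraMap ℂ K t * i.1) ∈ Sb i j}).Finite := by
    refine (Set.finite_iUnion fun i : α => bad_one i.1).union
      (Set.finite_iUnion fun i : α => Set.finite_iUnion fun j : α => ?_)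
    by_cases hij : i.1 = j.1
    · refine Set.Finite.subset Set.finite_empty ?_
      rintro t ⟨h3, -⟩
      exact absurd hij h3
    · refine (bad_t hij (hSb i j)).subset ?_
      rintro t ⟨-, h3⟩
      exact h3
  have h𝒯 := hbadfin.infinite_compl
  obtain ⟨𝒯, h𝒯e⟩ : ∃ 𝒯, 𝒯 = ((⋃ i : α, {t : ℂ | 1 + algebraMap ℂ K t * i.1 = 0}) ∪
      ⋃ i : α, ⋃ j : α, {t : ℂ | i.1 ≠ j.1 ∧ 1 + algebraMap ℂ K t * i.1 ≠ 0 ∧
        (1 + algebraMap ℂ K t * j.1) / (1 + algebraMap ℂ K t * i.1) ∈ Sb i j})ᶜ := ⟨_, rfl⟩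
  rw [← h𝒯e] at h𝒯
  have hc : ∀ t ∈ 𝒯, ∀ i : α, 1 + algebraMap ℂ K t * i.1 ≠ 0 := by
    intro t ht i h3
    rw [h𝒯e] at ht
    exact ht (Or.inl (Set.mem_iUnion.2 ⟨i, h3⟩))
  have hr : ∀ t ∈ 𝒯, ∀ i j : α, i.1 ≠ j.1 →
      (1 + algebraMap ℂ K t * j.1) / (1 + algebraMap ℂ K t * i.1) ∉ Sb i j := by
    intro t ht i j hij h3
    have h4 := hc t ht i
    rw [h𝒯e] at ht
    exact ht (Or.inr (Set.mem_iUnion.2 ⟨i, Set.mem_iUnion.2 ⟨j, hij, h4, h3⟩⟩))
  -- the coordinates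
  obtain ⟨π, hπs, hπ⟩ := exists_pi h S.hR hD b
  obtain ⟨π', hπs', hπ'⟩ := exists_pi h S.hR hD b'
  obtain ⟨im, him⟩ := IsAlgClosed.exists_pow_nat_eq (-1 : K) (n := 2) (by norm_num)
  have him0 : im ≠ 0 := by
    rintro rfl
    norm_num at him
  obtain ⟨Λ, hΛe⟩ : ∃ Λ : Set K, Λ = (fun t : ℂ => im * ((1 + algebraMap ℂ K t * ν') /
    (1 + algebraMap ℂ K t * ν))) '' 𝒯 := ⟨_, rfl⟩
  have hΛ : Λ.Infinite := by
    rw [hΛe]
    refine h𝒯.image ?_
    intro s hs t ht hst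
    have h3 := mul_left_cancel₀ him0 hst
    rw [div_eq_div_iff (hc s hs i1) (hc t ht i1)] at h3
    have h4 : (algebraMap ℂ K s - algebraMap ℂ K t) * (ν' - ν) = 0 := by
      linear_combination h3
    rcases mul_eq_zero.1 h4 with h5 | h5
    · exact (algebraMap ℂ K).injective (sub_eq_zero.1 h5)
    · exact absurd (sub_eq_zero.1 h5).symm hne
  have h0 : (0 : K) ∉ Λ := by
    rw [hΛe]
    rintro ⟨t, ht, h3⟩
    exact (mul_ne_zero him0 (div_ne_zero (hc t ht i2) (hc t ht i1))) h3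
  have hlev := SLev0.lev1 b b' hΛ h0 1 im one_ne_zero him0
    (SLev0.QG arm J B N W F P (PC arm J B F R P.1) Pb nu) ?_
  · obtain ⟨-, hG⟩ := hlev
    obtain ⟨Sq, q, hq⟩ := exists_spec h S.hR hNil S.hP hf
    have hgood := fun (s : Fin 3) (x : Matrix ι ι K)
      (hx : x * (J * P.1) * F * E K arm s ∈
        SLev0.QG arm J B N W F P (PC arm J B F R P.1) Pb nu) =>
      SLev0.GoodSW_of_QG h h2 S.hR S.hP hf hq hD (PC_im) hP (fun i => le_rfl)
        (fun i r c hci => by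
          obtain ⟨v, hv, rfl⟩ := hci
          refine ⟨_, SC.PB_stable hDc i.1 r hv, ?_⟩
          exact SEnd2.PhS_coe S.hR P.1 r v) hx
    intro s
    refine ⟨fun i j hij x y => hgood s _ ?_, fun x y hx => hgood s _ ?_,
      fun x y hy => hgood s _ ?_⟩
    · have := hG.g1 s i j hij _ (SLev0.coord_mem b x) _ (SLev0.coord_mem b' y)
      rwa [SLev0.pow_act b, SLev0.pow_act b'] at this
    · refine hG.g2 s _ ⟨SLev0.coord_mem b x, ?_⟩ _ (SLev0.coord_mem b' y)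
      intro c hcc
      obtain ⟨y', rfl⟩ := SLev0.exists_coord b hcc
      rw [← tt, hx, dotProduct_zero]
    · refine hG.g3 s _ (SLev0.coord_mem b x) _ ⟨SLev0.coord_mem b' y, ?_⟩
      intro c hcc
      obtain ⟨y', rfl⟩ := SLev0.exists_coord b' hcc
      rw [← tt, hy, dotProduct_zero]
  · intro ρ0 hρ0 x hx
    rw [hΛe] at hρ0
    obtain ⟨t, ht, rfl⟩ := hρ0
    obtain ⟨a, hae⟩ : ∃ a, a = algebraMap ℂ K t := ⟨_, rfl⟩
    obtain ⟨Pt, hPt, hV, hYr, hPF, -⟩ := hfam t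
    have hct := hc t ht
    have hrt := hr t ht
    simp only at hx ⊢
    rw [← hae] at hPt hV hYr hPF hct hrt hx ⊢
    have hH : Ctx ℂ arm J B N W (F + a • f) := S.hCtx _ ((Kiso J N W).add_mem S.hF
      ((Kiso J N W).smul_mem a S.hf))
    obtain ⟨Ri, hRi⟩ := exists_gen_inv (F + a • f)
    obtain ⟨ρ, hρe⟩ : ∃ ρ, ρ = (1 + a * ν') / (1 + a * ν) := ⟨_, rfl⟩
    rw [← hρe] at hx ⊢
    have hρ : (1 + a * ν) * ρ = 1 + a * ν' := by
      rw [hρe, mul_div_cancel₀ _ (hct i1)]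
    have hsup : N ⊔ SLev0.QG arm J B N W F P (PC arm J B F R P.1) Pb nu ≤
        SLev0.QG arm J B N W F P (PC arm J B F R P.1) Pb nu := sup_le SLev0.N_le_QG le_rfl
    refine hsup (rel1 h h2 S.hR hD hNil S.hP hf hH hRi hPt hV hPF hne (hct i1) (hct i2) b b' hπs hπ
      hπs' hπ' him hρ hx.1 _ ?_)
    intro z hz d m
    have hk : (ν - ν')⁻¹ • (f - ν' • F) ∈ N ⊓ W :=
      Submodule.smul_mem _ _ (Submodule.sub_mem _ hf (Submodule.smul_mem _ _ h.mem))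
    have hRel := SGl1.rel_of (P0 := P.1) (P := Pt) hne h.mem hf hH hPt
      (SUX.th_flip h S.hP hf) hPF
      (fun u hu => (Qb_rel h S.hR hD hNil S.hP hf hu).1)
      (fun u hu => (Qb_rel h S.hR hD hNil S.hP hf hu).1)
    have hper := SA2h555.F_perp_rel hH S.hF S.hNm S.hWm hRel (hct i1) hk z m
    have hYs : ∀ r, (SGl1.ten (Qb h.data S.hR P.1 D ν') (Qb h.data S.hR P.1 D ν) (z r) +
          (SGl1.ten (Qb h.data S.hR P.1 D ν') (Qb h.data S.hR P.1 D ν) (z r))ᵀ)ᵀ =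
        SGl1.ten (Qb h.data S.hR P.1 D ν') (Qb h.data S.hR P.1 D ν) (z r) +
          (SGl1.ten (Qb h.data S.hR P.1 D ν') (Qb h.data S.hR P.1 D ν) (z r))ᵀ := fun r => by
      rw [transpose_add, transpose_transpose, add_comm]
    have hS : ∀ μ : K, ∀ u ∈ Qb h.data S.hR P.1 D μ,
        th J (F + a • f) Pt.1 (F + a • f) *ᵥ u = (1 + a * μ) ^ 2 • (th J F P.1 F *ᵥ u) :=
      fun μ u hu => (UFr.at_H h S.hR hD hNil S.hP hf hff hYr hPF hu).2.2.2
    have hc0 : ((im * ρ) ^ 2 : K) = -ρ ^ 2 := by rw [mul_pow, him, neg_one_mul]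
    refine wd_mem_QG h S.hR hD hNil S.hP hf m hPb hP hct ?_ hper
    intro i j hij u hu v hv
    obtain ⟨bb, hbb⟩ := exists_beta h S.hR hD hNil S.hP hf hH hPt hYs m hS hij
    have hz0 : bb = 0 := by
      refine hb0 i j _ (hrt i j hij) (1 + a * i.1) (1 + a * j.1) (hct i)
        (mul_div_cancel₀ _ (hct i)) bb fun r u' v' => ?_
      rw [hbb, hbb]
      exact beta_rel h S.hR hD hNil S.hP hf hH hPt hYs m hS hij r u'.2 v'.2
        (harm_all h S.hR hD hNil S.hP hf b b' hπ hπ' hρ hc0 hx.2 hz r u'.2 v'.2)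
    have := hbb ⟨u, hu⟩ ⟨v, hv⟩
    rw [hz0] at this
    exact this.symm

end Crest.Agent.R172.SLevA745
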