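import Crest.Agent.R172.SNab753
import Crest.Agent.R172.SLevI84
import Crest.Agent.R172.SInst
import Crest.Agent.R172.SLev1

/-!
Row 172 (S0260), (t2): **LEVEL 1** (`STop.Lev1`) and the generators in the class `SLev1.QS`.
-/

set_option autoImplicit false
set_option linter.unusedSectionVars false
set_option linter.unusedFintypeInType false
set_option linter.unusedDecidableInType false

namespace Crest.Agent.R172.SLevA753

open Matrix Module Crest.Agent.R172.FO Crest.Agent.R172.Qt Crest.Agent.R172.SpS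
  Crest.Agent.R172.Om Crest.Agent.R172.SUX
open Crest.Agent.R172.SGl1 (om rs rs_coe ten ten_tmul)
open Crest.Agent.R172.SNab753
open scoped TensorProduct

section alg

variable {δ : Type*} [Fintype δ] [DecidableEq δ] {K : Type*} [Field K]
variable {Q1 Q2 : Submodule K (δ → K)}

theorem ten_mem (z : Q2 ⊗[K] Q1) (v : δ → K) : ten Q2 Q1 z *ᵥ v ∈ Q2 := by
  induction z using TensorProduct.induction_on with
  | zero => rw [map_zero, zero_mulVec]; exact Q2.zero_mem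
  | tmul a b =>
    rw [ten_tmul, vecMulVec_mulVec]
    have : MulOpposite.op ((b : δ → K) ⬝ᵥ v) • (a : δ → K) = ((b : δ → K) ⬝ᵥ v) • (a : δ → K) := by
      ext i; simp [mul_comm]
    rw [this]
    exact Q2.smul_mem _ a.2
  | add x y hx hy => rw [map_add, add_mulVec]; exact Q2.add_mem hx hy

theorem tenT_mem (z : Q2 ⊗[K] Q1) (v : δ → K) : (ten Q2 Q1 z)ᵀ *ᵥ v ∈ Q1 := by
  induction z using TensorProduct.induction_on with
  | zero => rw [map_zero, transpose_zero, zero_mulVec]; exact Q1.zero_mem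
  | tmul a b =>
    rw [ten_tmul, transpose_vecMulVec, vecMulVec_mulVec]
    have : MulOpposite.op ((a : δ → K) ⬝ᵥ v) • (b : δ → K) = ((a : δ → K) ⬝ᵥ v) • (b : δ → K) := by
      ext i; simp [mul_comm]
    rw [this]
    exact Q1.smul_mem _ b.2
  | add x y hx hy => rw [map_add, transpose_add, add_mulVec]; exact Q1.add_mem hx hy

theorem ten_S {SH S : Matrix δ δ K} {c : K} (hSH : SHᵀ = -SH) (hS : Sᵀ = -S)
    (h : ∀ u ∈ Q1, SH *ᵥ u = c ^ 2 • S *ᵥ u) (z : Q2 ⊗[K] Q1) :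
    ten Q2 Q1 z * SH = c ^ 2 • (ten Q2 Q1 z * S) := by
  apply Matrix.transpose_injective
  apply Matrix.ext_of_mulVec_single
  intro i
  rw [transpose_mul, transpose_smul, transpose_mul, hSH, hS, ← mulVec_mulVec, smul_mulVec,
    ← mulVec_mulVec, neg_mulVec, neg_mulVec, h _ (tenT_mem z _), smul_neg]

theorem S_ten {SH S : Matrix δ δ K} {c : K} (h : ∀ u ∈ Q2, SH *ᵥ u = c ^ 2 • S *ᵥ u)
    (z : Q2 ⊗[K] Q1) : SH * ten Q2 Q1 z = c ^ 2 • (S * ten Q2 Q1 z) := by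
  apply Matrix.ext_of_mulVec_single
  intro i
  rw [← mulVec_mulVec, h _ (ten_mem z _), smul_mulVec, ← mulVec_mulVec]

/-- transposed defect -/
theorem defect_t {arm : δ → Fin 3} {B SH : Matrix δ δ K} (hB : Bᵀ = B) (hSH : SHᵀ = -SH)
    (r : Fin 3) (X : Matrix δ δ K) :
    Xᵀ * SH * E K arm r * B - B * E K arm r * SH * Xᵀ =
      (X * SH * E K arm r * B - B * E K arm r * SH * X)ᵀ := by
  rw [transpose_sub]
  simp only [transpose_mul, hSH, E_transpose, hB, Matrix.neg_mul, Matrix.mul_neg,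
    Matrix.mul_assoc]
  abel

theorem vec_zero {v : δ → K} (h : ∀ y : δ → K, y ⬝ᵥ v = 0) : v = 0 := by
  funext i
  have := h (Pi.single i 1)
  rwa [single_one_dotProduct] at this

end alg

section arm1

variable {ι : Type*} [Fintype ι] [DecidableEq ι] {δ : Type*} [Fintype δ] [DecidableEq δ]
variable {k K : Type*} [Field k] [Field K] [Algebra k K]
variable {arm : δ → Fin 3} {J : Matrix ι ι K} {B : Matrix δ δ K}
  {N W : Submodule K (Matrix ι δ K)}

/-- the defect of `ten z`, tested by all blocks -/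
theorem def_one {τ : Type*} {Qf : τ → Submodule K (δ → K)} {cf : τ → K} {SH S : Matrix δ δ K}
    (hB : ∀ r, E K arm r * B = B * E K arm r) (hSH : SHᵀ = -SH) (hS : Sᵀ = -S)
    (h : ∀ i, ∀ u ∈ Qf i, SH *ᵥ u = cf i ^ 2 • S *ᵥ u)
    (st : ∀ i r, ∀ u ∈ Qf i, om arm B S r *ᵥ u ∈ Qf i)
    (orth : ∀ i j, i ≠ j → ∀ u ∈ Qf i, ∀ v ∈ Qf j, u ⬝ᵥ (S *ᵥ v) = 0)
    {i1 i2 : τ} (hc : cf i1 ≠ 0) (z : Qf i2 ⊗[K] Qf i1) (r : Fin 3)
    (harm : ∀ q ∈ Qf i2, ∀ u ∈ Qf i1,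
      (S *ᵥ q) ⬝ᵥ ((ten _ _ z * S * om arm B S r) *ᵥ u) =
        (cf i2 / cf i1) ^ 2 * ((S *ᵥ q) ⬝ᵥ ((om arm B S r * ten _ _ z * S) *ᵥ u)))
    (i j : τ) {u : δ → K} (hu : u ∈ Qf i) {q : δ → K} (hq : q ∈ Qf j) :
    (S *ᵥ q) ⬝ᵥ ((ten _ _ z * SH * E K arm r * B - B * E K arm r * SH * ten _ _ z) *ᵥ
      (S *ᵥ u)) = 0 := by
  have e1 : (ten _ _ z * SH * E K arm r * B - B * E K arm r * SH * ten _ _ z) *ᵥ (S *ᵥ u) =
      cf i1 ^ 2 • ((ten _ _ z * S * om arm B S r) *ᵥ u) -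
        cf i2 ^ 2 • ((om arm B S r * ten _ _ z * S) *ᵥ u) := by
    rw [mulVec_mulVec, ← smul_mulVec, ← smul_mulVec, ← sub_mulVec]
    congr 1
    rw [Matrix.sub_mul, ten_S hSH hS (h i1), Matrix.mul_assoc (B * E K arm r) SH,
      S_ten (h i2)]
    unfold om
    rw [← hB]
    simp only [Matrix.smul_mul, Matrix.mul_smul, Matrix.mul_assoc]
  rw [e1, dotProduct_sub, dotProduct_smul, dotProduct_smul, smul_eq_mul, smul_eq_mul]
  have key : ∀ j, j ≠ i2 → ∀ q ∈ Qf j, ∀ x ∈ Qf i2, (S *ᵥ q) ⬝ᵥ x = 0 := by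
    intro j hj q hq x hx
    have := sk hS q x
    rw [orth j i2 hj q hq x hx] at this
    exact neg_eq_zero.1 this.symm
  by_cases hj : j = i2
  · subst hj
    by_cases hi : i = i1
    · subst hi
      rw [harm q hq u hu, div_pow]
      field_simp
      ring
    · have h1 : ∀ x ∈ Qf i, (ten (Qf j) (Qf i1) z * S) *ᵥ x = 0 := by
        intro x hx
        rw [← mulVec_mulVec]
        refine vec_zero fun y => ?_
        have e2 : y ⬝ᵥ (ten (Qf j) (Qf i1) z *ᵥ (S *ᵥ x)) =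
            ((ten (Qf j) (Qf i1) z)ᵀ *ᵥ y) ⬝ᵥ (S *ᵥ x) := (tdot _ _ _).symm
        rw [e2]
        exact orth i1 i (Ne.symm hi) _ (tenT_mem z y) _ hx
      have h2 : (ten (Qf j) (Qf i1) z * S * om arm B S r) *ᵥ u = 0 := by
        rw [← mulVec_mulVec]
        exact h1 _ (st i r u hu)
      have h3 : (om arm B S r * ten (Qf j) (Qf i1) z * S) *ᵥ u = 0 := by
        rw [Matrix.mul_assoc, ← mulVec_mulVec, h1 u hu, mulVec_zero]
      rw [h2, h3]
      simp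
  · have h2 : (S *ᵥ q) ⬝ᵥ ((ten (Qf i2) (Qf i1) z * S * om arm B S r) *ᵥ u) = 0 := by
      rw [Matrix.mul_assoc, ← mulVec_mulVec]
      exact key j hj q hq _ (ten_mem z _)
    have h3 : (S *ᵥ q) ⬝ᵥ ((om arm B S r * ten (Qf i2) (Qf i1) z * S) *ᵥ u) = 0 := by
      rw [Matrix.mul_assoc, ← mulVec_mulVec, ← mulVec_mulVec]
      exact key j hj q hq _ (st i2 r _ (ten_mem z _))
    rw [h2, h3]
    simp

/-- the defect of `ten z + (ten z)ᵀ` -/
theorem def_two {τ : Type*} {Qf : τ → Submodule K (δ → K)} {cf : τ → K} {SH S : Matrix δ δ K}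
    (hBt : Bᵀ = B) (hB : ∀ r, E K arm r * B = B * E K arm r) (hSH : SHᵀ = -SH) (hS : Sᵀ = -S)
    (h : ∀ i, ∀ u ∈ Qf i, SH *ᵥ u = cf i ^ 2 • S *ᵥ u)
    (st : ∀ i r, ∀ u ∈ Qf i, om arm B S r *ᵥ u ∈ Qf i)
    (orth : ∀ i j, i ≠ j → ∀ u ∈ Qf i, ∀ v ∈ Qf j, u ⬝ᵥ (S *ᵥ v) = 0)
    {i1 i2 : τ} (hc : cf i1 ≠ 0) (z : Qf i2 ⊗[K] Qf i1) (r : Fin 3)
    (harm : ∀ q ∈ Qf i2, ∀ u ∈ Qf i1,
      (S *ᵥ q) ⬝ᵥ ((ten _ _ z * S * om arm B S r) *ᵥ u) =
        (cf i2 / cf i1) ^ 2 * ((S *ᵥ q) ⬝ᵥ ((om arm B S r * ten _ _ z * S) *ᵥ u)))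
    (i j : τ) {u : δ → K} (hu : u ∈ Qf i) {q : δ → K} (hq : q ∈ Qf j) :
    (S *ᵥ q) ⬝ᵥ (((ten _ _ z + (ten _ _ z)ᵀ) * SH * E K arm r * B -
      B * E K arm r * SH * (ten _ _ z + (ten _ _ z)ᵀ)) *ᵥ (S *ᵥ u)) = 0 := by
  have e1 : (ten _ _ z + (ten _ _ z)ᵀ) * SH * E K arm r * B -
      B * E K arm r * SH * (ten _ _ z + (ten _ _ z)ᵀ) =
      (ten (Qf i2) (Qf i1) z * SH * E K arm r * B - B * E K arm r * SH * ten _ _ z) +
      (ten (Qf i2) (Qf i1) z * SH * E K arm r * B - B * E K arm r * SH * ten _ _ z)ᵀ := by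
    rw [← defect_t hBt hSH]
    simp only [Matrix.add_mul, Matrix.mul_add]
    abel
  rw [e1, add_mulVec, dotProduct_add, def_one hB hSH hS h st orth hc z r harm i j hu hq, zero_add,
    ← tdot, transpose_transpose, dotProduct_comm]
  exact def_one hB hSH hS h st orth hc z r harm j i hq hu

end arm1

section top

open Crest.Agent.R172.SBlk Crest.Agent.R172.SEnd2 Crest.Agent.R172.STop Crest.Agent.R172.SInst
open Crest.Agent.R172.UBlk hiding om
open Crest.Agent.R172.SLev1 (QS stopGens_of)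
open Crest.Agent.R172.PL (Wk Ainf Rad CoreM coreOp resOp)
open Crest.Agent.R172.SC (PB)
open Crest.Agent.R172.SCM
open Crest.Agent.R172.SLev0 (PbK QG)

variable {ι : Type} [Fintype ι] [DecidableEq ι] {δ : Type} [Fintype δ] [DecidableEq δ]
variable {K : Type} [Field K] [Algebra ℂ K]
variable {arm : δ → Fin 3} {J : Matrix ι ι K} {B : Matrix δ δ K} {N W : Submodule K (Matrix ι δ K)}
  {F f : Matrix ι δ K} {P : Matrix ι ι K × (Fin 3 → Matrix ι ι K)} {R : Matrix δ ι K}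
  {D : End K (CoreM (PhS arm J B F R P.1))} {l : Fin 3 → ℕ}

/-- the form at `H_t` on a block -/
theorem form_block [IsAlgClosed K] (S : Setup arm J B N W F f P R D l) {t : K}
    {Pt : Matrix ι ι K × (Fin 3 → Matrix ι ι K)} (hC : Ctx ℂ arm J B N W (F + t • f))
    (hPt : Pt ∈ NN arm J N (F + t • f))
    (hPF : (F + t • f)ᵀ * J * (Pt.1 * F) = (F + t • f)ᵀ * J * (P.1 * F)) (ν : K)
    (u : δ → K) (hu : u ∈ QQb S ν) :
    th J (F + t • f) Pt.1 (F + t • f) *ᵥ u = (1 + t * ν) ^ 2 • (th J F P.1 F *ᵥ u) := by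
  have hne : ν ≠ ν + 1 := by
    intro h
    exact one_ne_zero (left_eq_add.1 h)
  have h1 := SGl1.rel_of (Q1 := QQb S ν) (Q2 := ⊥) hne (ctx S).mem (hfNW S) hC hPt
    (SUX.th_flip (ctx S) S.hP (hfNW S)) hPF (fun u hu => rel S hu)
    (fun u hu => by
      rw [(Submodule.mem_bot K).1 hu, mulVec_zero, mulVec_zero, smul_zero])
  exact h1.S1 u hu

/-- **level 1 in the class `QS`.** -/
theorem gensQ [IsAlgClosed K] (S : Setup arm J B N W F f P R D l) {ν ν' : K} (hne : ν ≠ ν')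
    {n1 n2 : ℕ} {Q1 : Matrix ι (Fin n1) K} {A1 : Fin 3 → Matrix (Fin n1) (Fin n1) K}
    {Q2 : Matrix ι (Fin n2) K} {A2 : Fin 3 → Matrix (Fin n2) (Fin n2) K}
    (b1 : BPkg arm J B F R P.1 D ν l Q1 A1) (b2 : BPkg arm J B F R P.1 D ν' l Q2 A2) :
    SLev0.Gens arm J B F P.1 l (QS arm J B N W F P R D) (PbK arm J B F R P.1 D ν)
      (PbK arm J B F R P.1 D ν') := by
  have : CharZero K := charZero_of_injective_algebraMap (algebraMap ℂ K).injective
  have h2 : (2 : K) ≠ 0 := two_ne_zero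
  have hC := ctx S
  have hN : N ≤ QS arm J B N W F P R D := SLev0.N_le_QG
  obtain ⟨Y, dY, hY1, hY2, hY3, hfam⟩ := SInst.family S h2
  -- the good parameters
  set Bad : Set K := BadT hC S.hR S.hD ∪ (⋃ μ ∈ {μ : K | QQb S μ ≠ ⊥}, {x : K | 1 + x * μ = 0}) ∪
    ({x : K | 1 + x * ν = 0} ∪ {x : K | 1 + x * ν' = 0}) with hBad
  have hz : ∀ μ : K, {x : K | 1 + x * μ = 0}.Finite := by
    intro μ
    refine Set.Subsingleton.finite ?_
    intro s hs t ht
    have h1 : 1 + s * μ = 0 := hs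
    have h3 : 1 + t * μ = 0 := ht
    have h4 : μ ≠ 0 := by
      rintro rfl
      rw [mul_zero, add_zero] at h1
      exact one_ne_zero h1
    have h5 : (s - t) * μ = 0 := by linear_combination h1 - h3
    exact sub_eq_zero.1 ((mul_eq_zero.1 h5).resolve_right h4)
  have hBadf : Bad.Finite :=
    ((BadT_finite hC S.hR S.hD).union ((finite_blocks hC S.hR S.hD).biUnion fun μ _ => hz μ)).union
      ((hz ν).union (hz ν'))
  have hT : (Set.range (algebraMap ℂ K) \ Bad).Infinite :=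
    (Set.infinite_range_of_injective (algebraMap ℂ K).injective).sdiff hBadf
  refine (SLevI84.gens_of hC h2 S.hR S.hD (S.hNil F S.hF) S.hP (hfNW S) hne b1 b2
    (QS arm J B N W F P R D) hN hT ?_ ?_ ?_).2
  · rintro t ⟨-, ht⟩ h0
    exact ht (Or.inr (Or.inl h0))
  · rintro t ⟨-, ht⟩ h0
    exact ht (Or.inr (Or.inr h0))
  · rintro _ ⟨⟨t, rfl⟩, ht⟩
    obtain ⟨Pt, Ri, hK, hCt, hPt, hV, hRi, hYf, hPF, hrow⟩ := hfam t
    refine ⟨Pt, Ri, hCt, hPt, hV, hRi, hPF, ?_⟩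
    set τ : K := algebraMap ℂ K t with hτ
    have hc0 : ∀ μ, QQb S μ ≠ ⊥ → 1 + τ * μ ≠ 0 := by
      intro μ hμ h0
      refine ht (Or.inl (Or.inr ?_))
      simp only [Set.mem_iUnion]
      exact ⟨μ, hμ, h0⟩
    have hc1 : 1 + τ * ν ≠ 0 := fun h0 => ht (Or.inr (Or.inl h0))
    intro z hz1 harm d m
    refine wd_mem_QG hC S.hR S.hD (S.hNil F S.hF) S.hP (hfNW S) rfl hCt hPt
      (form_block S hCt hPt hPF) hc0 (fun hb => ht (Or.inl (Or.inl hb)))
      (fun r => by rw [transpose_add, transpose_transpose, add_comm]) m ?_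
      (α := -((ν - ν')⁻¹ * ν')) (β := (ν - ν')⁻¹) (by module)
    intro r μ μ' u hu q hq
    exact def_two (Qf := fun μ : K => QQb S μ) (cf := fun μ => 1 + τ * μ) hC.data.B_symm
      hC.data.B_arm (th_skew hCt hPt hCt.mem) (th_skew hC S.hP hC.mem)
      (form_block S hCt hPt hPF) (fun i r u hu => Qst hC S.hR S.hD i r u hu)
      (fun i j hij u hu v hv => Qb_orth hC S.hR S.hD (S.hNil F S.hF) S.hP (hfNW S) hij hu hv)
      (i1 := ν) (i2 := ν') hc1 (z r) r (harm r) μ μ' hu hq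

/-- **LEVEL 1** -/
theorem lev1 : STop.Lev1 := by
  intro ι _ _ δ _ _ K _ _ _ arm J B N W F f P R D l S ν ν' hne n1 n2 Q1 A1 Q2 A2 b1 b2
  exact stopGens_of S b1 b2 (gensQ S hne b1 b2)

end top

end Crest.Agent.R172.SLevA753
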