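import Crest.Agent.R172.SLev0
import Crest.Agent.R172.SMv494

/-!
Row 172 (S0260), tame node (t2): `SMv.main3_mv` (relation only for the decorated moves) on the
block packages `BPkg` (`P1 = ν`, `P2 = ν'`).
-/

set_option autoImplicit false
set_option linter.unusedSectionVars false

namespace Crest.Agent.R172.SLevM178

open Matrix Module Crest.Agent.R172.FO Crest.Agent.R172.Qt Crest.Agent.R172.SpS
open Crest.Agent.R172.SEnd Crest.Agent.R172.SEnd2 Crest.Agent.R172.SEnd3 Crest.Agent.R172.SBlk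
open Crest.Agent.R172.SEnd4 Crest.Agent.R172.SEndW Crest.Agent.R172.SEnd5 Crest.Agent.R172.SCM
open Crest.Agent.R172.SC (PB)
open Crest.Agent.R172.PL (Wk Ainf Rad CoreM coreOp resOp)
open Crest.Agent.R172.SLev0
open scoped TensorProduct

variable {ι : Type*} [Fintype ι] [DecidableEq ι] {δ : Type*} [Fintype δ] [DecidableEq δ]
variable {K : Type*} [Field K]
variable {arm : δ → Fin 3} {J : Matrix ι ι K} {B : Matrix δ δ K}
  {g : Matrix ι δ K} {R : Matrix δ ι K}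
variable {X : Matrix ι ι K} {D : End K (CoreM (PhS arm J B g R X))} {ν ν' : K} {l : Fin 3 → ℕ}
  {n n' : ℕ} {P : Matrix ι (Fin n) K} {P' : Matrix ι (Fin n') K}
  {A : Fin 3 → Matrix (Fin n) (Fin n) K} {A' : Fin 3 → Matrix (Fin n') (Fin n') K}

/-- **second level from the decorated moves** (`P1 = ν`, `P2 = ν'`) -/
theorem lev_mv (b : BPkg arm J B g R X D ν l P A) (b' : BPkg arm J B g R X D ν' l P' A')
    (Z : Submodule K (Fin n → K)) (sZ : ∀ t, ∀ z ∈ Z, A t *ᵥ z ∈ Z)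
    (Z2 : Submodule K (Fin n' → K)) (sZ2 : ∀ t, ∀ z ∈ Z2, A' t *ᵥ z ∈ Z2)
    (g1 : (Fin n → K) →ₗ[K] (Fin n → K) →ₗ[K] K) {epsK : K} (hK : epsK ≠ 0)
    {Λ : Set K} (hΛ : Λ.Infinite) (h0 : (0 : K) ∉ Λ) {a1 a2 a3 : K} (a4 a5 a6 : K)
    (ha1 : a1 ≠ 0) (ha2 : a2 ≠ 0) (ha3 : a3 ≠ 0)
    (q2 : Fin 3 → (Fin n' → K) →ₗ[K] (Fin n' → K) →ₗ[K] Matrix ι δ K)
    (Q : Submodule K (Matrix ι δ K))
    (hZq : ∀ t, ∀ z ∈ Z, ∀ y, bq arm J g X P P t z y ∈ Q)
    (hqZ : ∀ t, ∀ z ∈ Z, ∀ y, bq arm J g X P P t y z ∈ Q)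
    (hZq2 : ∀ t, ∀ z ∈ Z2, ∀ y, q2 t z y ∈ Q)
    (hqZ2 : ∀ t, ∀ z ∈ Z2, ∀ y, q2 t y z ∈ Q)
    (G : K → (Fin 3 → (Fin n' → K) ⊗[K] (Fin n → K)) → ((Fin n' → K) →ₗ[K] (Fin n → K)) →
      ((Fin n → K) →ₗ[K] (Fin n' → K)) → Prop)
    (hmv : ∀ ρ ∈ Λ, ∀ x, RJM.Ex (fun s => (A s).mulVecLin) (fun s => (A' s).mulVecLin)
        (LinearMap.ker (Pᵀ * (J * X) * P).mulVecLin)
        (LinearMap.ker (P'ᵀ * (J * X) * P').mulVecLin) (ρ ^ 2) x →
      ∃ be kk, RJZ.Cor (fun s => (A s).mulVecLin) (fun s => (A' s).mulVecLin)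
          (LinearMap.ker (Pᵀ * (J * X) * P).mulVecLin) Z (gF J X P') (-1) (ρ ^ 2) x be ∧
        RJP3.CorK (fun s => (A s).mulVecLin) (fun s => (A' s).mulVecLin)
          (LinearMap.ker (P'ᵀ * (J * X) * P').mulVecLin) Z2 g1 epsK (ρ ^ 2) x kk ∧
        G ρ x be kk)
    (hrel : ∀ ρ ∈ Λ, ∀ ρ' ∈ Λ, ∀ x be kk x' be' kk',
      RJM.Ex (fun s => (A s).mulVecLin) (fun s => (A' s).mulVecLin)
        (LinearMap.ker (Pᵀ * (J * X) * P).mulVecLin)
        (LinearMap.ker (P'ᵀ * (J * X) * P').mulVecLin) (ρ ^ 2) x →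
      G ρ x be kk →
      RJM.Ex (fun s => (A s).mulVecLin) (fun s => (A' s).mulVecLin)
        (LinearMap.ker (Pᵀ * (J * X) * P).mulVecLin)
        (LinearMap.ker (P'ᵀ * (J * X) * P').mulVecLin) (ρ' ^ 2) x' →
      G ρ' x' be' kk' →
      ∑ t, (a1 • TensorProduct.lift ((bq arm J g X P P t) ∘ₗ be') (x t)
        + a2 • TensorProduct.lift ((bq arm J g X P P t).flip ∘ₗ be) (x' t)
        + a3 • TensorProduct.lift ((bq arm J g X P P t) ∘ₗ (RJM.ev (gF J X P') (x' t))) (x t)) +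
          ρ' • (a4 • ∑ t, TensorProduct.lift ((q2 t).compl₂ kk') (x t) +
            a5 • ∑ t, TensorProduct.lift ((q2 t).compl₂ (RJP3.evk g1 (x' t))) (x t) +
            a6 • ∑ t, TensorProduct.lift ((q2 t).flip.compl₂ kk) (x' t)) ∈ Q) :
    Gens arm J B g X l Q (PbK arm J B g R X D ν) (PbK arm J B g R X D ν) := by
  obtain ⟨m, hm⟩ := b.blk.kills
  obtain ⟨m', hm'⟩ := b'.blk.kills
  have hker : ∀ r ∈ LinearMap.ker (P'ᵀ * (J * X) * P').mulVecLin, ∀ y, gF J X P' y r = 0 := by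
    intro r hr y
    rw [LinearMap.mem_ker, mulVecLin_apply] at hr
    rw [gF_apply, hr, dotProduct_zero]
  obtain ⟨h1, h2⟩ := SMv.main3_mv (A := fun s => (A s).mulVecLin)
    (B := fun s => (A' s).mulVecLin)
    (R1 := LinearMap.ker (Pᵀ * (J * X) * P).mulVecLin)
    (R2 := LinearMap.ker (P'ᵀ * (J * X) * P').mulVecLin) (Z := Z) (Z2 := Z2) (l := l)
    (g := gF J X P')
    (eps := -1) (m := max m m') (fun t z hz => by
      change (A t).mulVecLin z ∈ Z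
      rw [mulVecLin_apply]; exact sZ t z hz) (fun t z hz => by
      change (A' t).mulVecLin z ∈ Z2
      rw [mulVecLin_apply]; exact sZ2 t z hz)
    b.blk.top b'.blk.top b.blk.st b'.blk.st
    (fun w hw r hr => hm w (by omega) r hr) (fun w hw r hr => hm' w (by omega) r hr)
    (fun s => by have := b.blk.two_le s; omega) b.blk.pow b'.blk.pow b.blk.gen b'.blk.gen
    (neg_ne_zero.2 one_ne_zero)
    (fun r hr y => by rw [gF_flip b', hker r hr, neg_zero]) hker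
    (fun t x y => by
      rw [gF_apply, gF_apply, mulVecLin_apply, mulVecLin_apply, mulVec_mulVec,
        ← vecMul_transpose, ← dotProduct_mulVec, mulVec_mulVec, b'.adj, neg_mulVec,
        dotProduct_neg, neg_one_mul])
    (fun s => by
      obtain ⟨x, y, hxy⟩ := b'.corner s
      refine ⟨y, x, ?_⟩
      rw [gF_flip b', gF_apply, mulVecLin_pow_apply]
      exact neg_ne_zero.2 hxy)
    g1 hK hΛ h0 (fun t => bq arm J g X P P t) q2 Q a4 a5 a6 ha1 ha2 ha3 hZq hqZ hZq2 hqZ2 G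
    hmv hrel
  exact gens_self b Q h1 h2

end Crest.Agent.R172.SLevM178
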