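import Crest.Agent.R172.SLev0
import Crest.Agent.R172.RJP3

/-!
Row 172 (S0260), S-side, LEVEL 2: the tensor translation.
`mt : (n2 → K) ⊗ (n1 → K) → Matrix n2 n1 K`; the three terms of `RJPZ.main`'s `hrel` for
`SLev0.bq P P` and `SLev0.gF`, and their `U`-level form (= the `U1 ⊗ U1` part of
`SUX*.second_blocks`).
-/

set_option autoImplicit false
set_option linter.unusedSectionVars false
set_option linter.unusedFintypeInType false
set_option linter.unusedDecidableInType false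

namespace Crest.Agent.R172.SUX5h

open Matrix Module TensorProduct Crest.Agent.R172.FO Crest.Agent.R172.SLev0

variable {ι : Type*} [Fintype ι] [DecidableEq ι] {δ : Type*} [Fintype δ] [DecidableEq δ]
variable {K : Type*} [Field K]
variable {arm : δ → Fin 3} {J : Matrix ι ι K} {g : Matrix ι δ K} {X : Matrix ι ι K}

section gen

variable {n1 n2 : Type*} [Fintype n1] [DecidableEq n1] [Fintype n2] [DecidableEq n2]

/-- the matrix of a tensor -/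
noncomputable def mt (K : Type*) [Field K] (n2 n1 : Type*) [Fintype n1] [DecidableEq n1]
    [Fintype n2] [DecidableEq n2] : (n2 → K) ⊗[K] (n1 → K) →ₗ[K] Matrix n2 n1 K :=
  TensorProduct.lift (LinearMap.mk₂ K (fun (a : n2 → K) (b : n1 → K) => vecMulVec a b)
    (fun a b c => add_vecMulVec a b c) (fun t a b => smul_vecMulVec t a b)
    (fun a b c => vecMulVec_add a b c) (fun t a b => by rw [vecMulVec_smul]))

@[simp] theorem mt_tmul (a : n2 → K) (b : n1 → K) :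
    mt K n2 n1 (a ⊗ₜ[K] b) = vecMulVec a b := by
  simp [mt]

theorem mt_surj (A : Matrix n2 n1 K) : ∃ z, mt K n2 n1 z = A := by
  refine ⟨∑ i, (Pi.single i (1 : K) : n2 → K) ⊗ₜ[K] (fun j => A i j), ?_⟩
  rw [map_sum]
  ext a b
  rw [Matrix.sum_apply, Finset.sum_eq_single a]
  · rw [mt_tmul, vecMulVec_apply, Pi.single_eq_same, one_mul]
  · intro i _ hi
    rw [mt_tmul, vecMulVec_apply, Pi.single_eq_of_ne hi.symm, zero_mul]
  · intro h
    exact absurd (Finset.mem_univ a) h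

theorem vmv_mul {a' : Type*} [Fintype a'] (a : n2 → K) (b : n1 → K) (A : Matrix n1 a' K) :
    vecMulVec a b * A = vecMulVec a (Aᵀ *ᵥ b) := by
  rw [Matrix.vecMulVec_mul, mulVec_transpose]

theorem mul_vmv {a' : Type*} [Fintype a'] (a : n2 → K) (b : n1 → K) (A : Matrix a' n2 K) :
    A * vecMulVec a b = vecMulVec (A *ᵥ a) b := by
  rw [Matrix.mul_vecMulVec]

theorem vmv_T (a : n2 → K) (b : n1 → K) : (vecMulVec a b)ᵀ = vecMulVec b a := by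
  ext i j
  rw [transpose_apply, vecMulVec_apply, vecMulVec_apply, mul_comm]

/-- the defect -/
theorem mt_DD (A : Fin 3 → Matrix n1 n1 K) (A' : Fin 3 → Matrix n2 n2 K) (c : K) (t : Fin 3)
    (z : (n2 → K) ⊗[K] (n1 → K)) :
    mt K n2 n1 (RJM.DD (fun s => (A s).mulVecLin) (fun s => (A' s).mulVecLin) c t z) =
      mt K n2 n1 z * (A t)ᵀ - c • (A' t * mt K n2 n1 z) := by
  induction z using TensorProduct.induction_on with
  | zero => simp
  | tmul x y =>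
    have e1 : RJM.DD (fun s => (A s).mulVecLin) (fun s => (A' s).mulVecLin) c t (x ⊗ₜ[K] y) =
        x ⊗ₜ[K] (A t *ᵥ y) - c • ((A' t *ᵥ x) ⊗ₜ[K] y) := by
      simp [RJM.DD]
    rw [e1, map_sub, map_smul, mt_tmul, mt_tmul, mt_tmul, vmv_mul, mul_vmv, transpose_transpose]
  | add x y hx hy =>
    rw [map_add, map_add, hx, hy, map_add, Matrix.add_mul, Matrix.mul_add, smul_add]
    abel

/-- `ev` -/
theorem mt_ev (gg : (n2 → K) →ₗ[K] (n2 → K) →ₗ[K] K) (G : Matrix n2 n2 K)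
    (hG : ∀ x y, gg x y = x ⬝ᵥ (G *ᵥ y)) (z : (n2 → K) ⊗[K] (n1 → K)) (p : n2 → K) :
    RJM.ev gg z p = (mt K n2 n1 z)ᵀ *ᵥ (G *ᵥ p) := by
  induction z using TensorProduct.induction_on with
  | zero => simp
  | tmul x y =>
    rw [RJM.ev_tmul, mt_tmul, vmv_T, hG]
    ext i
    simp only [mulVec, dotProduct, vecMulVec_apply, Pi.smul_apply, smul_eq_mul, Finset.sum_mul]
    exact Finset.sum_congr rfl fun j _ => by ring
  | add x y hx hy =>
    rw [map_add, LinearMap.add_apply, hx, hy, map_add, transpose_add, add_mulVec]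

end gen

variable {n n' : ℕ} {P : Matrix ι (Fin n) K} {P' : Matrix ι (Fin n') K}

theorem bq_app (P : Matrix ι (Fin n) K) (P' : Matrix ι (Fin n') K) (s : Fin 3) (x : Fin n → K)
    (y : Fin n' → K) : bq arm J g X P P' s x y =
      P * vecMulVec x y * P'ᵀ * (J * X) * g * E K arm s := by
  rw [mul_vmv, vmv_mul, transpose_transpose]
  rfl

/-- first-level term -/
theorem lift_bq (s : Fin 3) (z : (Fin n' → K) ⊗[K] (Fin n → K)) :
    TensorProduct.lift (bq arm J g X P' P s) z =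
      P' * mt K (Fin n') (Fin n) z * Pᵀ * (J * X) * g * E K arm s := by
  induction z using TensorProduct.induction_on with
  | zero => simp
  | tmul x y => rw [TensorProduct.lift.tmul, bq_app, mt_tmul]
  | add x y hx hy => rw [map_add, hx, hy, map_add]; simp only [Matrix.mul_add, Matrix.add_mul]

theorem lift_bq_flip (s : Fin 3) (z : (Fin n' → K) ⊗[K] (Fin n → K)) :
    TensorProduct.lift (bq arm J g X P P' s).flip z =
      P * (mt K (Fin n') (Fin n) z)ᵀ * P'ᵀ * (J * X) * g * E K arm s := by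
  induction z using TensorProduct.induction_on with
  | zero => simp
  | tmul x y => rw [TensorProduct.lift.tmul, LinearMap.flip_apply, bq_app, mt_tmul, vmv_T]
  | add x y hx hy =>
    rw [map_add, hx, hy, map_add, transpose_add]; simp only [Matrix.mul_add, Matrix.add_mul]

/-- second-level terms -/
theorem lift_b (s : Fin 3) (b : (Fin n' → K) →ₗ[K] (Fin n → K))
    (z : (Fin n' → K) ⊗[K] (Fin n → K)) :
    TensorProduct.lift ((bq arm J g X P P s) ∘ₗ b) z =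
      P * (LinearMap.toMatrix' b * mt K (Fin n') (Fin n) z) * Pᵀ * (J * X) * g * E K arm s := by
  induction z using TensorProduct.induction_on with
  | zero => simp
  | tmul x y =>
    rw [TensorProduct.lift.tmul, LinearMap.comp_apply, bq_app, mt_tmul, mul_vmv (K := K) x y,
      LinearMap.toMatrix'_mulVec]
  | add x y hx hy => rw [map_add, hx, hy, map_add]; simp only [Matrix.mul_add, Matrix.add_mul]

theorem lift_b_flip (s : Fin 3) (b : (Fin n' → K) →ₗ[K] (Fin n → K))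
    (z : (Fin n' → K) ⊗[K] (Fin n → K)) :
    TensorProduct.lift ((bq arm J g X P P s).flip ∘ₗ b) z =
      P * ((mt K (Fin n') (Fin n) z)ᵀ * (LinearMap.toMatrix' b)ᵀ) * Pᵀ * (J * X) * g *
        E K arm s := by
  induction z using TensorProduct.induction_on with
  | zero => simp
  | tmul x y =>
    rw [TensorProduct.lift.tmul, LinearMap.comp_apply, LinearMap.flip_apply, bq_app, mt_tmul,
      vmv_T, vmv_mul (K := K) y x, transpose_transpose, LinearMap.toMatrix'_mulVec]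
  | add x y hx hy =>
    rw [map_add, hx, hy, map_add, transpose_add]; simp only [Matrix.mul_add, Matrix.add_mul]

theorem lift_ev (s : Fin 3) (z' z : (Fin n' → K) ⊗[K] (Fin n → K)) :
    TensorProduct.lift ((bq arm J g X P P s) ∘ₗ (RJM.ev (gF J X P') z')) z =
      P * ((mt K (Fin n') (Fin n) z')ᵀ * (P'ᵀ * (J * X) * P') * mt K (Fin n') (Fin n) z) * Pᵀ *
        (J * X) * g * E K arm s := by
  induction z using TensorProduct.induction_on with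
  | zero => simp
  | tmul x y =>
    rw [TensorProduct.lift.tmul, LinearMap.comp_apply, bq_app, mt_tmul, mul_vmv (K := K) x y,
      mt_ev (gF J X P') (P'ᵀ * (J * X) * P') (fun _ _ => rfl), mulVec_mulVec]
  | add x y hx hy => rw [map_add, hx, hy, map_add]; simp only [Matrix.mul_add, Matrix.add_mul]

theorem mul_sum_vmv {m : Type*} [Fintype m] (Zm : Matrix (Fin n) m K) (C : Matrix m (Fin n) K) :
    Zm * C = ∑ j, vecMulVec (fun i => Zm i j) (fun i => C j i) := by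
  ext a b
  rw [Matrix.sum_apply, Matrix.mul_apply]
  exact Finset.sum_congr rfl fun j _ => by rw [vecMulVec_apply]

section frames

variable {m1 m2 : Type*} [Fintype m1] [Fintype m2] {Z : Submodule K (Fin n → K)}
  {Q : Submodule K (Matrix ι δ K)}

theorem Zq_mem (hZq : ∀ t, ∀ z ∈ Z, ∀ y, bq arm J g X P P t z y ∈ Q)
    {Zm : Matrix (Fin n) m2 K} (hZm : ∀ j, (fun i => Zm i j) ∈ Z) (C : Matrix m2 (Fin n) K)
    (s : Fin 3) : P * (Zm * C) * Pᵀ * (J * X) * g * E K arm s ∈ Q := by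
  rw [mul_sum_vmv, Matrix.mul_sum]
  simp only [Matrix.sum_mul]
  refine Submodule.sum_mem _ fun j _ => ?_
  rw [← bq_app]
  exact hZq s _ (hZm j) _

theorem qZ_mem (hqZ : ∀ t, ∀ z ∈ Z, ∀ y, bq arm J g X P P t y z ∈ Q)
    {Zm : Matrix (Fin n) m2 K} (hZm : ∀ j, (fun i => Zm i j) ∈ Z) (C : Matrix m2 (Fin n) K)
    (s : Fin 3) : P * (Cᵀ * Zmᵀ) * Pᵀ * (J * X) * g * E K arm s ∈ Q := by
  rw [mul_sum_vmv, Matrix.mul_sum]
  simp only [Matrix.sum_mul]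
  refine Submodule.sum_mem _ fun j _ => ?_
  rw [← bq_app]
  exact hqZ s _ (hZm j) _

variable {U1 : Matrix δ m1 K} {U2 : Matrix δ m2 K} {T1 : Matrix (Fin n) m1 K}
  {T2 : Matrix (Fin n') m2 K}

/-- first level: the two terms at `V`-level and at `U`-level -/
theorem first_frames (hT1 : g * U1 = P * T1) (hT2 : g * U2 = P' * T2)
    {x : Fin 3 → (Fin n' → K) ⊗[K] (Fin n → K)} {X1 : Fin 3 → Matrix m2 m1 K}
    (hx : ∀ s, mt K (Fin n') (Fin n) (x s) = T2 * X1 s * T1ᵀ) (a1 a2 : K) :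
    ∑ t, (a1 • TensorProduct.lift (bq arm J g X P' P t) (x t)
      + a2 • TensorProduct.lift (bq arm J g X P P' t).flip (x t)) =
    ∑ s, (a1 • (g * (U2 * X1 s * U1ᵀ)) + a2 • (g * (U1 * (X1 s)ᵀ * U2ᵀ))) *
      (gᵀ * (J * X) * g) * E K arm s := by
  refine Finset.sum_congr rfl fun s _ => ?_
  have e1 : U1ᵀ * gᵀ = T1ᵀ * Pᵀ := by rw [← transpose_mul, hT1, transpose_mul]
  have e2 : U2ᵀ * gᵀ = T2ᵀ * P'ᵀ := by rw [← transpose_mul, hT2, transpose_mul]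
  have e3 : g * (U2 * X1 s * U1ᵀ) * (gᵀ * (J * X) * g) =
      (g * U2) * X1 s * (U1ᵀ * gᵀ) * (J * X) * g := by simp only [Matrix.mul_assoc]
  have e4 : g * (U1 * (X1 s)ᵀ * U2ᵀ) * (gᵀ * (J * X) * g) =
      (g * U1) * (X1 s)ᵀ * (U2ᵀ * gᵀ) * (J * X) * g := by simp only [Matrix.mul_assoc]
  rw [lift_bq, lift_bq_flip, hx, Matrix.add_mul, Matrix.add_mul, Matrix.smul_mul,
    Matrix.smul_mul, Matrix.smul_mul, Matrix.smul_mul, e3, e4, hT1, hT2, e1, e2]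
  simp only [Matrix.mul_assoc, transpose_mul, transpose_transpose]

/-- **second level**: the three terms of `hrel` = the `U1 ⊗ U1` part of `second_blocks`,
modulo `Q` (`b T2 = T1 β` mod `Z`) -/
theorem J_frames (hT1 : g * U1 = P * T1) (hT2 : g * U2 = P' * T2)
    {x x' : Fin 3 → (Fin n' → K) ⊗[K] (Fin n → K)} {X1 X1' : Fin 3 → Matrix m2 m1 K}
    (hx : ∀ s, mt K (Fin n') (Fin n) (x s) = T2 * X1 s * T1ᵀ)
    (hx' : ∀ s, mt K (Fin n') (Fin n) (x' s) = T2 * X1' s * T1ᵀ)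
    {b b' : (Fin n' → K) →ₗ[K] (Fin n → K)} {β β' : Matrix m1 m2 K}
    (hZq : ∀ t, ∀ z ∈ Z, ∀ y, bq arm J g X P P t z y ∈ Q)
    (hqZ : ∀ t, ∀ z ∈ Z, ∀ y, bq arm J g X P P t y z ∈ Q)
    (hb : ∀ j, (fun i => (LinearMap.toMatrix' b * T2 - T1 * β) i j) ∈ Z)
    (hb' : ∀ j, (fun i => (LinearMap.toMatrix' b' * T2 - T1 * β') i j) ∈ Z) :
    ∑ t, ((1 : K) • TensorProduct.lift ((bq arm J g X P P t) ∘ₗ b') (x t)
      + (-1 : K) • TensorProduct.lift ((bq arm J g X P P t).flip ∘ₗ b) (x' t)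
      + (-1 : K) • TensorProduct.lift ((bq arm J g X P P t) ∘ₗ (RJM.ev (gF J X P') (x' t))) (x t))
    - ∑ s, g * (U1 * (β' * X1 s - (X1' s)ᵀ * (U2ᵀ * (gᵀ * (J * X) * g) * U2) * X1 s
        - (X1' s)ᵀ * βᵀ) * U1ᵀ) * (gᵀ * (J * X) * g) * E K arm s ∈ Q := by
  rw [← Finset.sum_sub_distrib]
  refine Submodule.sum_mem _ fun s _ => ?_
  have e1 : U1ᵀ * gᵀ = T1ᵀ * Pᵀ := by rw [← transpose_mul, hT1, transpose_mul]
  have e2 : U2ᵀ * gᵀ = T2ᵀ * P'ᵀ := by rw [← transpose_mul, hT2, transpose_mul]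
  have e3 : ∀ A : Matrix m1 m1 K, g * (U1 * A * U1ᵀ) * (gᵀ * (J * X) * g) * E K arm s =
      P * (T1 * A * T1ᵀ) * Pᵀ * (J * X) * g * E K arm s := by
    intro A
    have : g * (U1 * A * U1ᵀ) * (gᵀ * (J * X) * g) * E K arm s =
      (g * U1) * A * (U1ᵀ * gᵀ) * (J * X) * g * E K arm s := by simp only [Matrix.mul_assoc]
    rw [this, hT1, e1]
    simp only [Matrix.mul_assoc]
  have e4 : U2ᵀ * (gᵀ * (J * X) * g) * U2 = T2ᵀ * (P'ᵀ * (J * X) * P') * T2 := by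
    have : U2ᵀ * (gᵀ * (J * X) * g) * U2 = (U2ᵀ * gᵀ) * (J * X) * (g * U2) := by
      simp only [Matrix.mul_assoc]
    rw [this, e2, hT2]
    simp only [Matrix.mul_assoc]
  have h1 := Zq_mem (P := P) (Q := Q) (X := X) (J := J) (g := g) (arm := arm) hZq hb'
    (X1 s * T1ᵀ) s
  have h2 := qZ_mem (P := P) (Q := Q) (X := X) (J := J) (g := g) (arm := arm) hqZ hb
    (X1' s * T1ᵀ) s
  have h3 := Q.sub_mem h1 h2
  convert h3 using 1
  rw [lift_b, lift_b_flip, lift_ev, hx, hx', e3, e4]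
  rw [one_smul, neg_one_smul, neg_one_smul]
  simp only [transpose_mul, transpose_transpose, transpose_sub, Matrix.mul_sub, Matrix.sub_mul,
    Matrix.mul_assoc]
  abel

/-- the `22`-term of the relation on triples -/
noncomputable def F2 (arm : δ → Fin 3) (J : Matrix ι ι K) (g : Matrix ι δ K) (X : Matrix ι ι K)
    (P : Matrix ι (Fin n) K) (P' : Matrix ι (Fin n') K)
    (y : RJP.Pr K (Fin n → K) (Fin n' → K) (Fin 3) × ((Fin n → K) →ₗ[K] (Fin n' → K))) :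
    RJP.Pr K (Fin n → K) (Fin n' → K) (Fin 3) × ((Fin n → K) →ₗ[K] (Fin n' → K)) →ₗ[K]
      Matrix ι δ K where
  toFun y' := ∑ s, P' * (mt K (Fin n') (Fin n) (y.1.1 s) * (LinearMap.toMatrix' y'.2)ᵀ
    + mt K (Fin n') (Fin n) (y.1.1 s) * (Pᵀ * (J * X) * P) * (mt K (Fin n') (Fin n) (y'.1.1 s))ᵀ
    - LinearMap.toMatrix' y.2 * (mt K (Fin n') (Fin n) (y'.1.1 s))ᵀ) * P'ᵀ * (J * X) * g *
      E K arm s
  map_add' a b := by
    rw [← Finset.sum_add_distrib]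
    refine Finset.sum_congr rfl fun s _ => ?_
    simp only [Prod.snd_add, Prod.fst_add, Pi.add_apply, map_add, transpose_add, Matrix.mul_add,
      Matrix.add_mul, Matrix.mul_sub, Matrix.sub_mul]
    abel
  map_smul' c a := by
    rw [RingHom.id_apply, Finset.smul_sum]
    refine Finset.sum_congr rfl fun s _ => ?_
    simp only [Prod.smul_snd, Prod.smul_fst, Pi.smul_apply, map_smul, transpose_smul,
      Matrix.mul_smul, Matrix.smul_mul, smul_add, smul_sub, Matrix.mul_add, Matrix.add_mul,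
      Matrix.mul_sub, Matrix.sub_mul]

theorem F2_apply
    (y y' : RJP.Pr K (Fin n → K) (Fin n' → K) (Fin 3) × ((Fin n → K) →ₗ[K] (Fin n' → K))) :
    F2 arm J g X P P' y y' =
    ∑ s, P' * (mt K (Fin n') (Fin n) (y.1.1 s) * (LinearMap.toMatrix' y'.2)ᵀ
    + mt K (Fin n') (Fin n) (y.1.1 s) * (Pᵀ * (J * X) * P) * (mt K (Fin n') (Fin n) (y'.1.1 s))ᵀ
    - LinearMap.toMatrix' y.2 * (mt K (Fin n') (Fin n) (y'.1.1 s))ᵀ) * P'ᵀ * (J * X) * g *
      E K arm s := rfl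

variable {Z2 : Submodule K (Fin n' → K)}

/-- the `U2 ⊗ U2` part of `second_blocks` is `F2`, modulo `Q` (`k T1 = T2 γ` mod `Z2`) -/
theorem F2_frames (hT1 : g * U1 = P * T1) (hT2 : g * U2 = P' * T2)
    {x x' : Fin 3 → (Fin n' → K) ⊗[K] (Fin n → K)} {X1 X1' : Fin 3 → Matrix m2 m1 K}
    (hx : ∀ s, mt K (Fin n') (Fin n) (x s) = T2 * X1 s * T1ᵀ)
    (hx' : ∀ s, mt K (Fin n') (Fin n) (x' s) = T2 * X1' s * T1ᵀ)
    {b b' : (Fin n' → K) →ₗ[K] (Fin n → K)} {k0 k' : (Fin n → K) →ₗ[K] (Fin n' → K)}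
    {γ0 γ : Matrix m2 m1 K}
    (hZq : ∀ t, ∀ z ∈ Z2, ∀ y, bq arm J g X P' P' t z y ∈ Q)
    (hqZ : ∀ t, ∀ z ∈ Z2, ∀ y, bq arm J g X P' P' t y z ∈ Q)
    (hk0 : ∀ j, (fun i => (LinearMap.toMatrix' k0 * T1 - T2 * γ0) i j) ∈ Z2)
    (hk' : ∀ j, (fun i => (LinearMap.toMatrix' k' * T1 - T2 * γ) i j) ∈ Z2) :
    F2 arm J g X P P' ((x, b), k0) ((x', b'), k')
    - ∑ s, g * (U2 * (X1 s * γᵀ + X1 s * (U1ᵀ * (gᵀ * (J * X) * g) * U1) * (X1' s)ᵀ
        - γ0 * (X1' s)ᵀ) * U2ᵀ) * (gᵀ * (J * X) * g) * E K arm s ∈ Q := by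
  rw [F2_apply, ← Finset.sum_sub_distrib]
  refine Submodule.sum_mem _ fun s _ => ?_
  have e1 : U1ᵀ * gᵀ = T1ᵀ * Pᵀ := by rw [← transpose_mul, hT1, transpose_mul]
  have e2 : U2ᵀ * gᵀ = T2ᵀ * P'ᵀ := by rw [← transpose_mul, hT2, transpose_mul]
  have e3 : ∀ A : Matrix m2 m2 K, g * (U2 * A * U2ᵀ) * (gᵀ * (J * X) * g) * E K arm s =
      P' * (T2 * A * T2ᵀ) * P'ᵀ * (J * X) * g * E K arm s := by
    intro A
    have : g * (U2 * A * U2ᵀ) * (gᵀ * (J * X) * g) * E K arm s =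
      (g * U2) * A * (U2ᵀ * gᵀ) * (J * X) * g * E K arm s := by simp only [Matrix.mul_assoc]
    rw [this, hT2, e2]
    simp only [Matrix.mul_assoc]
  have e4 : U1ᵀ * (gᵀ * (J * X) * g) * U1 = T1ᵀ * (Pᵀ * (J * X) * P) * T1 := by
    have : U1ᵀ * (gᵀ * (J * X) * g) * U1 = (U1ᵀ * gᵀ) * (J * X) * (g * U1) := by
      simp only [Matrix.mul_assoc]
    rw [this, e1, hT1]
    simp only [Matrix.mul_assoc]
  have h1 := qZ_mem (P := P') (Q := Q) (X := X) (J := J) (g := g) (arm := arm) hqZ hk'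
    ((X1 s)ᵀ * T2ᵀ) s
  have h2 := Zq_mem (P := P') (Q := Q) (X := X) (J := J) (g := g) (arm := arm) hZq hk0
    ((X1' s)ᵀ * T2ᵀ) s
  have h3 := Q.sub_mem h1 h2
  convert h3 using 1
  rw [e3, e4]
  dsimp only
  rw [hx, hx']
  simp only [transpose_mul, transpose_transpose, transpose_sub, Matrix.mul_sub, Matrix.sub_mul,
    Matrix.mul_add, Matrix.add_mul, Matrix.mul_assoc]
  abel

/-- **translation of the `11` and `22` parts** of `second_blocks` (`c1, c2` at `t'`,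
`c1 ρ' κ = c2`) to the relation of `RJP3.main3` (with `F2 := fun y => κ • F2 .. y`) -/
theorem translate {c1 c2 ρ' κ : K} (hc1 : c1 ≠ 0) (hc2 : c2 ≠ 0) (hc : c1 * (ρ' * κ) = c2)
    (hT1 : g * U1 = P * T1) (hT2 : g * U2 = P' * T2)
    {x x' : Fin 3 → (Fin n' → K) ⊗[K] (Fin n → K)} {X1 X1' : Fin 3 → Matrix m2 m1 K}
    (hx : ∀ s, mt K (Fin n') (Fin n) (x s) = T2 * X1 s * T1ᵀ)
    (hx' : ∀ s, mt K (Fin n') (Fin n) (x' s) = T2 * X1' s * T1ᵀ)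
    {b b' : (Fin n' → K) →ₗ[K] (Fin n → K)} {k0 k' : (Fin n → K) →ₗ[K] (Fin n' → K)}
    {β β' : Matrix m1 m2 K} {γ0 γ : Matrix m2 m1 K}
    (hZq : ∀ t, ∀ z ∈ Z, ∀ y, bq arm J g X P P t z y ∈ Q)
    (hqZ : ∀ t, ∀ z ∈ Z, ∀ y, bq arm J g X P P t y z ∈ Q)
    (hZq2 : ∀ t, ∀ z ∈ Z2, ∀ y, bq arm J g X P' P' t z y ∈ Q)
    (hqZ2 : ∀ t, ∀ z ∈ Z2, ∀ y, bq arm J g X P' P' t y z ∈ Q)
    (hb : ∀ j, (fun i => (LinearMap.toMatrix' b * T2 - T1 * β) i j) ∈ Z)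
    (hb' : ∀ j, (fun i => (LinearMap.toMatrix' b' * T2 - T1 * β') i j) ∈ Z)
    (hk0 : ∀ j, (fun i => (LinearMap.toMatrix' k0 * T1 - T2 * γ0) i j) ∈ Z2)
    (hk' : ∀ j, (fun i => (LinearMap.toMatrix' k' * T1 - T2 * γ) i j) ∈ Z2) :
    (∑ t, ((1 : K) • TensorProduct.lift ((bq arm J g X P P t) ∘ₗ b') (x t)
      + (-1 : K) • TensorProduct.lift ((bq arm J g X P P t).flip ∘ₗ b) (x' t)
      + (-1 : K) • TensorProduct.lift ((bq arm J g X P P t) ∘ₗ (RJM.ev (gF J X P') (x' t))) (x t))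
      + ρ' • (κ • F2 arm J g X P P' ((x, b), k0)) ((x', b'), k'))
    - (c1 * c2)⁻¹ • ∑ s, g * ((c1 * c2) • (U1 * (β' * X1 s
        - (X1' s)ᵀ * (U2ᵀ * (gᵀ * (J * X) * g) * U2) * X1 s - (X1' s)ᵀ * βᵀ) * U1ᵀ)
      + c2 ^ 2 • (U2 * (X1 s * γᵀ + X1 s * (U1ᵀ * (gᵀ * (J * X) * g) * U1) * (X1' s)ᵀ
        - γ0 * (X1' s)ᵀ) * U2ᵀ)) * (gᵀ * (J * X) * g) * E K arm s ∈ Q := by
  have h1 := J_frames (Z := Z) hT1 hT2 hx hx' hZq hqZ hb hb'
  have h2 := F2_frames (Z2 := Z2) (b := b) (b' := b') hT1 hT2 hx hx' hZq2 hqZ2 hk0 hk'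
  have h3 := Q.add_mem h1 (Q.smul_mem (ρ' * κ) h2)
  convert h3 using 1
  have e1 : (c1 * c2)⁻¹ * (c1 * c2) = 1 := inv_mul_cancel₀ (mul_ne_zero hc1 hc2)
  have e2 : (c1 * c2)⁻¹ * c2 ^ 2 = ρ' * κ := by
    rw [inv_mul_eq_iff_eq_mul₀ (mul_ne_zero hc1 hc2)]
    rw [← hc]
    ring
  have e3 : (c1 * c2)⁻¹ • ∑ s, g * ((c1 * c2) • (U1 * (β' * X1 s
        - (X1' s)ᵀ * (U2ᵀ * (gᵀ * (J * X) * g) * U2) * X1 s - (X1' s)ᵀ * βᵀ) * U1ᵀ)
      + c2 ^ 2 • (U2 * (X1 s * γᵀ + X1 s * (U1ᵀ * (gᵀ * (J * X) * g) * U1) * (X1' s)ᵀ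
        - γ0 * (X1' s)ᵀ) * U2ᵀ)) * (gᵀ * (J * X) * g) * E K arm s =
      ∑ s, g * (U1 * (β' * X1 s - (X1' s)ᵀ * (U2ᵀ * (gᵀ * (J * X) * g) * U2) * X1 s
        - (X1' s)ᵀ * βᵀ) * U1ᵀ) * (gᵀ * (J * X) * g) * E K arm s +
      (ρ' * κ) • ∑ s, g * (U2 * (X1 s * γᵀ + X1 s * (U1ᵀ * (gᵀ * (J * X) * g) * U1) * (X1' s)ᵀ
        - γ0 * (X1' s)ᵀ) * U2ᵀ) * (gᵀ * (J * X) * g) * E K arm s := by
    rw [Finset.smul_sum, Finset.smul_sum, ← Finset.sum_add_distrib]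
    refine Finset.sum_congr rfl fun s _ => ?_
    rw [Matrix.mul_add, Matrix.mul_smul, Matrix.mul_smul, Matrix.add_mul, Matrix.add_mul,
      Matrix.smul_mul, Matrix.smul_mul, Matrix.smul_mul, Matrix.smul_mul, smul_add, smul_smul,
      smul_smul, e1, e2, one_smul]
  rw [e3, LinearMap.smul_apply, smul_smul, smul_sub]
  abel

theorem split4 (g : Matrix ι δ K) (A A' C D S E' : Matrix δ δ K) (m : K) :
    g * (A + A') * S * E' = g * (A + A' + C + m • D) * S * E' - g * C * S * E' -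
      m • (g * D * S * E') := by
  simp only [Matrix.mul_add, Matrix.add_mul, Matrix.mul_smul, Matrix.smul_mul]
  abel

/-- **`hrel` of `RJP3.main3`** (for `F2 := fun y => κ • F2 .. y`) from the sum of `second_blocks`
and its `21` and `12` parts -/
theorem hrel_of {c1 c2 ρ' κ : K} (hc1 : c1 ≠ 0) (hc2 : c2 ≠ 0) (hc : c1 * (ρ' * κ) = c2)
    (hT1 : g * U1 = P * T1) (hT2 : g * U2 = P' * T2)
    {x x' : Fin 3 → (Fin n' → K) ⊗[K] (Fin n → K)} {X1 X1' : Fin 3 → Matrix m2 m1 K}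
    (hx : ∀ s, mt K (Fin n') (Fin n) (x s) = T2 * X1 s * T1ᵀ)
    (hx' : ∀ s, mt K (Fin n') (Fin n) (x' s) = T2 * X1' s * T1ᵀ)
    {b b' : (Fin n' → K) →ₗ[K] (Fin n → K)} {k0 k' : (Fin n → K) →ₗ[K] (Fin n' → K)}
    {β β' : Matrix m1 m2 K} {γ0 γ : Matrix m2 m1 K}
    (hZq : ∀ t, ∀ z ∈ Z, ∀ y, bq arm J g X P P t z y ∈ Q)
    (hqZ : ∀ t, ∀ z ∈ Z, ∀ y, bq arm J g X P P t y z ∈ Q)
    (hZq2 : ∀ t, ∀ z ∈ Z2, ∀ y, bq arm J g X P' P' t z y ∈ Q)
    (hqZ2 : ∀ t, ∀ z ∈ Z2, ∀ y, bq arm J g X P' P' t y z ∈ Q)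
    (hb : ∀ j, (fun i => (LinearMap.toMatrix' b * T2 - T1 * β) i j) ∈ Z)
    (hb' : ∀ j, (fun i => (LinearMap.toMatrix' b' * T2 - T1 * β') i j) ∈ Z)
    (hk0 : ∀ j, (fun i => (LinearMap.toMatrix' k0 * T1 - T2 * γ0) i j) ∈ Z2)
    (hk' : ∀ j, (fun i => (LinearMap.toMatrix' k' * T1 - T2 * γ) i j) ∈ Z2)
    {M21 : Fin 3 → Matrix m2 m1 K} {m12 : K}
    (h21 : ∑ s, g * (U2 * M21 s * U1ᵀ) * (gᵀ * (J * X) * g) * E K arm s ∈ Q)
    (h12 : ∑ s, g * (U1 * (X1' s)ᵀ * U2ᵀ) * (gᵀ * (J * X) * g) * E K arm s ∈ Q)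
    (hsum : ∑ s, g * ((c1 * c2) • (U1 * (β' * X1 s
        - (X1' s)ᵀ * (U2ᵀ * (gᵀ * (J * X) * g) * U2) * X1 s - (X1' s)ᵀ * βᵀ) * U1ᵀ)
      + c2 ^ 2 • (U2 * (X1 s * γᵀ + X1 s * (U1ᵀ * (gᵀ * (J * X) * g) * U1) * (X1' s)ᵀ
        - γ0 * (X1' s)ᵀ) * U2ᵀ) + U2 * M21 s * U1ᵀ + m12 • (U1 * (X1' s)ᵀ * U2ᵀ)) *
        (gᵀ * (J * X) * g) * E K arm s ∈ Q) :
    (∑ t, ((1 : K) • TensorProduct.lift ((bq arm J g X P P t) ∘ₗ b') (x t)
      + (-1 : K) • TensorProduct.lift ((bq arm J g X P P t).flip ∘ₗ b) (x' t)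
      + (-1 : K) • TensorProduct.lift ((bq arm J g X P P t) ∘ₗ (RJM.ev (gF J X P') (x' t))) (x t))
      + ρ' • (κ • F2 arm J g X P P' ((x, b), k0)) ((x', b'), k')) ∈ Q := by
  have h1 := translate (Z := Z) (Z2 := Z2) hc1 hc2 hc hT1 hT2 hx hx' hZq hqZ hZq2 hqZ2 hb hb'
    hk0 hk'
  have h2 := Q.sub_mem (Q.sub_mem hsum h21) (Q.smul_mem m12 h12)
  have h3 : ∑ s, g * ((c1 * c2) • (U1 * (β' * X1 s
        - (X1' s)ᵀ * (U2ᵀ * (gᵀ * (J * X) * g) * U2) * X1 s - (X1' s)ᵀ * βᵀ) * U1ᵀ)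
      + c2 ^ 2 • (U2 * (X1 s * γᵀ + X1 s * (U1ᵀ * (gᵀ * (J * X) * g) * U1) * (X1' s)ᵀ
        - γ0 * (X1' s)ᵀ) * U2ᵀ)) * (gᵀ * (J * X) * g) * E K arm s ∈ Q := by
    convert h2 using 1
    rw [Finset.smul_sum, ← Finset.sum_sub_distrib, ← Finset.sum_sub_distrib]
    refine Finset.sum_congr rfl fun s _ => ?_
    exact split4 _ _ _ _ _ _ _ _
  have h4 := Q.add_mem h1 (Q.smul_mem (c1 * c2)⁻¹ h3)
  rwa [sub_add_cancel] at h4

end frames

end Crest.Agent.R172.SUX5h
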