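import Crest.Agent.R172.SDec2
import Crest.Agent.R172.SLevM178
import Crest.Agent.R172.SUX5h719
import Crest.Agent.R172.SDescM683
import Crest.Agent.R172.SInst
import Crest.Agent.R172.SZq842
import Crest.Agent.R172.SLevA455
import Crest.Agent.R172.SULift

/-!
Row 172 (S0260), tame node (t2), LEVEL 2, abstract half: `Geo22 → Lev2` (copy of helper178).
-/

set_option autoImplicit false
set_option linter.unusedSectionVars false
set_option linter.unusedVariables false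
set_option maxHeartbeats 1600000

namespace Crest.Agent.R172.SLevB178

open Matrix Module TensorProduct Crest.Agent.R172.FO Crest.Agent.R172.Qt Crest.Agent.R172.SpS
open Crest.Agent.R172.SLev0 Crest.Agent.R172.SCM
open Crest.Agent.R172.SUX5h (mt mt_tmul)
open Crest.Agent.R172.SEnd2 (PC PhS)
open Crest.Agent.R172.PL (CoreM coreOp)
open Crest.Agent.R172.SUX (D3)
open Crest.Agent.R172.SDec (Dec Rel2 ZB Geo22)

section lifts

variable {ι : Type*} [Fintype ι] [DecidableEq ι] {δ : Type*} [Fintype δ] [DecidableEq δ]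
variable {K : Type*} [Field K]
variable {arm : δ → Fin 3} {J : Matrix ι ι K} {g : Matrix ι δ K} {X : Matrix ι ι K}
variable {n n' : ℕ} {P : Matrix ι (Fin n) K} {P' : Matrix ι (Fin n') K}

theorem lift_k (s : Fin 3) (k : (Fin n → K) →ₗ[K] (Fin n' → K))
    (z : (Fin n' → K) ⊗[K] (Fin n → K)) :
    TensorProduct.lift ((bq arm J g X P' P' s).compl₂ k) z =
      P' * (mt K (Fin n') (Fin n) z * (LinearMap.toMatrix' k)ᵀ) * P'ᵀ * (J * X) * g *
        E K arm s := by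
  induction z using TensorProduct.induction_on with
  | zero => simp
  | tmul x y =>
    rw [TensorProduct.lift.tmul, LinearMap.compl₂_apply, SUX5h.bq_app, mt_tmul,
      SUX5h.vmv_mul (K := K) x y, transpose_transpose, LinearMap.toMatrix'_mulVec]
  | add x y hx hy => rw [map_add, hx, hy, map_add]; simp only [Matrix.mul_add, Matrix.add_mul]

theorem lift_kflip (s : Fin 3) (k : (Fin n → K) →ₗ[K] (Fin n' → K))
    (z : (Fin n' → K) ⊗[K] (Fin n → K)) :
    TensorProduct.lift ((bq arm J g X P' P' s).flip.compl₂ k) z =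
      P' * (LinearMap.toMatrix' k * (mt K (Fin n') (Fin n) z)ᵀ) * P'ᵀ * (J * X) * g *
        E K arm s := by
  induction z using TensorProduct.induction_on with
  | zero => simp
  | tmul x y =>
    rw [TensorProduct.lift.tmul, LinearMap.compl₂_apply, LinearMap.flip_apply, SUX5h.bq_app,
      mt_tmul, SUX5h.vmv_T, SUX5h.mul_vmv (K := K) y x, LinearMap.toMatrix'_mulVec]
  | add x y hx hy =>
    rw [map_add, hx, hy, map_add, transpose_add]; simp only [Matrix.mul_add, Matrix.add_mul]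

theorem evk_mt {gg : (Fin n → K) →ₗ[K] (Fin n → K) →ₗ[K] K} {G : Matrix (Fin n) (Fin n) K}
    (hG : ∀ x y, gg x y = x ⬝ᵥ (G *ᵥ y)) (z : (Fin n' → K) ⊗[K] (Fin n → K)) (p : Fin n → K) :
    RJP3.evk gg z p = mt K (Fin n') (Fin n) z *ᵥ (G *ᵥ p) := by
  induction z using TensorProduct.induction_on with
  | zero => simp
  | tmul x y =>
    rw [RJP3.evk_tmul, mt_tmul, hG]
    ext i
    simp only [mulVec, dotProduct, vecMulVec_apply, Pi.smul_apply, smul_eq_mul, Finset.sum_mul]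
    exact Finset.sum_congr rfl fun j _ => by ring
  | add x y hx hy =>
    rw [map_add, LinearMap.add_apply, hx, hy, map_add, add_mulVec]

theorem lift_evk (s : Fin 3) (z' z : (Fin n' → K) ⊗[K] (Fin n → K)) :
    TensorProduct.lift ((bq arm J g X P' P' s).compl₂ (RJP3.evk (gF J X P) z')) z =
      P' * (mt K (Fin n') (Fin n) z * ((mt K (Fin n') (Fin n) z') * (Pᵀ * (J * X) * P))ᵀ) * P'ᵀ *
        (J * X) * g * E K arm s := by
  induction z using TensorProduct.induction_on with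
  | zero => simp
  | tmul x y =>
    rw [TensorProduct.lift.tmul, LinearMap.compl₂_apply, SUX5h.bq_app, mt_tmul,
      SUX5h.vmv_mul (K := K) x y, transpose_transpose,
      evk_mt (gg := gF J X P) (G := Pᵀ * (J * X) * P) (fun _ _ => rfl), mulVec_mulVec]
  | add x y hx hy => rw [map_add, hx, hy, map_add]; simp only [Matrix.mul_add, Matrix.add_mul]

/-- the `22`-term -/
theorem F2_eq (hG : (Pᵀ * (J * X) * P)ᵀ = -(Pᵀ * (J * X) * P))
    (x x' : Fin 3 → (Fin n' → K) ⊗[K] (Fin n → K)) (b b' : (Fin n' → K) →ₗ[K] (Fin n → K))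
    (k k' : (Fin n → K) →ₗ[K] (Fin n' → K)) (κ : K) :
    κ • ∑ t, TensorProduct.lift ((bq arm J g X P' P' t).compl₂ k') (x t) +
      (-κ) • ∑ t, TensorProduct.lift ((bq arm J g X P' P' t).compl₂
        (RJP3.evk (gF J X P) (x' t))) (x t) +
      (-κ) • ∑ t, TensorProduct.lift ((bq arm J g X P' P' t).flip.compl₂ k) (x' t) =
    κ • SUX5h.F2 arm J g X P P' ((x, b), k) ((x', b'), k') := by
  rw [SUX5h.F2_apply]
  simp only [Finset.smul_sum]
  rw [← Finset.sum_add_distrib, ← Finset.sum_add_distrib]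
  refine Finset.sum_congr rfl fun s _ => ?_
  rw [lift_k, lift_kflip, lift_evk, transpose_mul, hG]
  simp only [Matrix.mul_add, Matrix.add_mul, Matrix.mul_sub, Matrix.sub_mul, smul_add, smul_sub,
    Matrix.neg_mul, Matrix.mul_neg, smul_neg, neg_smul, neg_neg, Matrix.mul_assoc]
  abel

theorem mt_eq_tm (z : (Fin n' → K) ⊗[K] (Fin n → K)) :
    SUX5.tm (Pi.basisFun K (Fin n)) (Pi.basisFun K (Fin n')) z = mt K (Fin n') (Fin n) z := by
  induction z using TensorProduct.induction_on with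
  | zero => simp
  | tmul x y =>
    rw [SUX5.tm_tmul, mt_tmul]
    simp [Pi.basisFun_equivFun]
  | add x y hx hy => rw [map_add, hx, hy, map_add]

theorem mt_map {m m' : ℕ} (C1 : Matrix (Fin n) (Fin m) K) (C2 : Matrix (Fin n') (Fin m') K)
    (z : (Fin m' → K) ⊗[K] (Fin m → K)) :
    mt K (Fin n') (Fin n) (TensorProduct.map C2.mulVecLin C1.mulVecLin z) =
      C2 * mt K (Fin m') (Fin m) z * C1ᵀ := by
  induction z using TensorProduct.induction_on with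
  | zero => simp
  | tmul x y =>
    rw [TensorProduct.map_tmul, mt_tmul, mt_tmul, SUX5h.mul_vmv, SUX5h.vmv_mul,
      transpose_transpose, mulVecLin_apply, mulVecLin_apply]
  | add x y hx hy => rw [map_add, map_add, hx, hy, map_add, Matrix.mul_add, Matrix.add_mul]

/-- radical tensors are killed by the Gram matrices -/
theorem mt_rad {G1 : Matrix (Fin n) (Fin n) K} {G2 : Matrix (Fin n') (Fin n') K}
    (h1 : G1ᵀ = -G1) {z : (Fin n' → K) ⊗[K] (Fin n → K)}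
    (hz : z ∈ (RJM.RT (LinearMap.ker G2.mulVecLin) ⊔ RJM.TR (LinearMap.ker G1.mulVecLin) :
      Submodule K ((Fin n' → K) ⊗[K] (Fin n → K)))) :
    G2 * mt K (Fin n') (Fin n) z * G1 = 0 := by
  let L : (Fin n' → K) ⊗[K] (Fin n → K) →ₗ[K] Matrix (Fin n') (Fin n) K :=
    { toFun := fun z => G2 * mt K (Fin n') (Fin n) z * G1
      map_add' := fun a b => by rw [map_add, Matrix.mul_add, Matrix.add_mul]
      map_smul' := fun c a => by
        rw [map_smul, Matrix.mul_smul, Matrix.smul_mul, RingHom.id_apply] }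
  have hL : (RJM.RT (LinearMap.ker G2.mulVecLin) ⊔ RJM.TR (LinearMap.ker G1.mulVecLin) :
      Submodule K ((Fin n' → K) ⊗[K] (Fin n → K))) ≤ LinearMap.ker L := by
    refine sup_le ?_ ?_
    · unfold RJM.RT
      rw [Submodule.span_le]
      rintro _ ⟨r, hr, p, rfl⟩
      have hr' : G2 *ᵥ r = 0 := hr
      change G2 * mt K (Fin n') (Fin n) (r ⊗ₜ[K] p) * G1 = 0
      rw [mt_tmul, SUX5h.mul_vmv, hr', zero_vecMulVec, Matrix.zero_mul]
    · unfold RJM.TR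
      rw [Submodule.span_le]
      rintro _ ⟨p, r, hr, rfl⟩
      have hr' : G1 *ᵥ r = 0 := hr
      change G2 * mt K (Fin n') (Fin n) (p ⊗ₜ[K] r) * G1 = 0
      have h0 : vecMulVec p (0 : Fin n → K) = 0 := by ext i j; simp [vecMulVec_apply]
      rw [mt_tmul, Matrix.mul_assoc, SUX5h.vmv_mul, h1, neg_mulVec, hr', neg_zero, h0,
        Matrix.mul_zero]
  exact hL hz

end lifts


section top

variable {ι : Type} [Fintype ι] [DecidableEq ι] {δ : Type} [Fintype δ] [DecidableEq δ]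
variable {K : Type} [Field K] [Algebra ℂ K] [IsAlgClosed K]
variable {arm : δ → Fin 3} {J : Matrix ι ι K} {B : Matrix δ δ K} {N W : Submodule K (Matrix ι δ K)}
  {F f : Matrix ι δ K} {P : Matrix ι ι K × (Fin 3 → Matrix ι ι K)} {R : Matrix δ ι K}
  {D : End K (CoreM (PhS arm J B F R P.1))} {l : Fin 3 → ℕ}

/-- perfectness of a frame of the `K^δ`-level block -/
theorem frame_top (S : STop.Setup arm J B N W F f P R D l) {ν : K} {m : ℕ}
    {U : Matrix δ (Fin m) K} {a : Fin 3 → Matrix (Fin m) (Fin m) K}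
    (hs : ∀ u ∈ SInst.QQb S ν, ∃ x, u = U *ᵥ x) (hm : ∀ x, U *ᵥ x ∈ SInst.QQb S ν)
    (hi : ∀ x, U *ᵥ x = 0 → x = 0)
    (ho : ∀ s, B * E K arm s * (Fᵀ * J * (P.1 * F)) * U = U * a s) :
    ⨆ t, LinearMap.range ((a t).mulVecLin) = ⊤ := by
  rw [eq_top_iff]
  intro x _
  obtain ⟨c, hc, e⟩ := UBlk.Qb_exists (SInst.ctx S) S.hR S.hD (hm x)
  choose y hy using fun s => hs (c s) (hc s)
  have h1 : U *ᵥ x = U *ᵥ (∑ s, a s *ᵥ y s) := by
    rw [← e, mulVec_sum]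
    refine Finset.sum_congr rfl fun s _ => ?_
    rw [hy s, UBlk.om_apply, mulVec_mulVec, mulVec_mulVec, ← ho s]
    rfl
  have h2 : x = ∑ s, a s *ᵥ y s := by
    have h3 : U *ᵥ (x - ∑ s, a s *ᵥ y s) = 0 := by rw [mulVec_sub, h1, sub_self]
    exact sub_eq_zero.1 (hi _ h3)
  rw [h2]
  exact Submodule.sum_mem _ fun s _ => Submodule.mem_iSup_of_mem s ⟨y s, rfl⟩

/-- elements of `P_ν ∩ P_ν'` are in `Z` -/
theorem mem_Z {ν ν' : K} (hne : ν' ≠ ν) {n1 n2 : ℕ}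
    {Q1 : Matrix ι (Fin n1) K}
    {Q2 : Matrix ι (Fin n2) K} {A2 : Fin 3 → Matrix (Fin n2) (Fin n2) K}
    (b2 : BPkg arm J B F R P.1 D ν' l Q2 A2) {x : Fin n1 → K} {y : Fin n2 → K}
    (h : Q1 *ᵥ x = Q2 *ᵥ y) : x ∈ SZ1.Zn arm J B F R P.1 D ν Q1 := by
  obtain ⟨v, hv, hvy⟩ := b2.mem y
  refine SZ1.mem_Zn.2 ⟨v, ?_, by rw [hvy, h]⟩
  exact Submodule.mem_iSup_of_mem ν' (Submodule.mem_iSup_of_mem hne hv)

/-- `Q₁ C₁ V = 0` -/
theorem C_zero {n1 m1 m : ℕ} {Q1 : Matrix ι (Fin n1) K} (hinj : ∀ x, Q1 *ᵥ x = 0 → x = 0)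
    {U1 : Matrix δ (Fin m1) K} {C1 : Matrix (Fin n1) (Fin m1) K} (hF1 : F * U1 = Q1 * C1)
    {V : Matrix (Fin m1) (Fin m) K} (h : F * (U1 * V) = 0) (u : Fin m → K) :
    C1 *ᵥ (V *ᵥ u) = 0 := by
  apply hinj
  rw [mulVec_mulVec, mulVec_mulVec, ← hF1, Matrix.mul_assoc, h, zero_mulVec]

/-- radical values -/
theorem rad_of {n1 m1 m : ℕ} {G : Matrix (Fin n1) (Fin n1) K} {C1 : Matrix (Fin n1) (Fin m1) K}
    (on1 : ∀ y, ∃ x, C1 *ᵥ x = y) {V : Matrix (Fin m1) (Fin m) K}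
    (h : C1ᵀ * G * C1 * V = 0) (u : Fin m → K) :
    C1 *ᵥ (V *ᵥ u) ∈ LinearMap.ker G.mulVecLin := by
  rw [LinearMap.mem_ker, mulVecLin_apply]
  have h1 : C1ᵀ *ᵥ (G *ᵥ (C1 *ᵥ (V *ᵥ u))) = 0 := by
    rw [mulVec_mulVec, mulVec_mulVec, mulVec_mulVec, h, zero_mulVec]
  have h2 : ∀ y, y ⬝ᵥ (G *ᵥ (C1 *ᵥ (V *ᵥ u))) = 0 := by
    intro y
    obtain ⟨x, rfl⟩ := on1 y
    have := congrArg (fun z => x ⬝ᵥ z) h1
    simp only [dotProduct_zero] at this
    rw [dotProduct_mulVec, vecMul_transpose] at this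
    exact this
  exact dotProduct_eq_zero _ fun y => by rw [dotProduct_comm]; exact h2 y

theorem core (S : STop.Setup arm J B N W F f P R D l) (hg : Geo22) {ν ν' : K} (hne : ν ≠ ν')
    {n1 n2 : ℕ} {Q1 : Matrix ι (Fin n1) K} {A1 : Fin 3 → Matrix (Fin n1) (Fin n1) K}
    {Q2 : Matrix ι (Fin n2) K} {A2 : Fin 3 → Matrix (Fin n2) (Fin n2) K}
    (b1 : BPkg arm J B F R P.1 D ν l Q1 A1) (b2 : BPkg arm J B F R P.1 D ν' l Q2 A2) :
    SLev0.Gens arm J B F P.1 l (SLev1h455.QGd S) (PbK arm J B F R P.1 D ν)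
      (PbK arm J B F R P.1 D ν) := by
  obtain ⟨m1, U1, a1, hC1, hs1, hm1, hi1, ho1⟩ := SInst.exists_frame S ν
  obtain ⟨m2, U2, a2, hC2, hs2, hm2, hi2, ho2⟩ := SInst.exists_frame S ν'
  obtain ⟨C1, hF1, on1, act1, ker1, gr1⟩ := SInst.exists_C S b1 hC1 hs1 hm1 ho1
  obtain ⟨C2, hF2, on2, act2, ker2, gr2⟩ := SInst.exists_C S b2 hC2 hs2 hm2 ho2
  obtain ⟨Λ, hΛ, h0, hex, hrel⟩ := hg S hne b1 b2 hC1 hs1 hi1 ho1 hC2 hs2 hi2 ho2
  set Q : Submodule K (Matrix ι δ K) := SLev1h455.QGd S with hQdef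
  have hpkg := S.pkg
  have hDc := S.hD.2
  -- the harmless parts
  have sZ1 := SZq842.sZ b1 S.hR hDc
  have sZ2 := SZq842.sZ b2 S.hR hDc
  have hZq1 : ∀ t, ∀ z ∈ SZ1.Zn arm J B F R P.1 D ν Q1, ∀ y, bq arm J F P.1 Q1 Q1 t z y ∈ Q :=
    SZq842.hZq b1 hDc hpkg Q fun μ hμ hμ0 => by
      obtain ⟨_, _, _, bμ⟩ := hpkg μ hμ0
      exact (SLevA455.gens0 S hμ bμ b1).2
  have hqZ1 : ∀ t, ∀ z ∈ SZ1.Zn arm J B F R P.1 D ν Q1, ∀ y, bq arm J F P.1 Q1 Q1 t y z ∈ Q :=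
    SZq842.hqZ b1 hDc hpkg Q fun μ hμ hμ0 => by
      obtain ⟨_, _, _, bμ⟩ := hpkg μ hμ0
      exact (SLevA455.gens0 S hμ bμ b1).1
  have hZq2 : ∀ t, ∀ z ∈ SZ1.Zn arm J B F R P.1 D ν' Q2, ∀ y, bq arm J F P.1 Q2 Q2 t z y ∈ Q :=
    SZq842.hZq b2 hDc hpkg Q fun μ hμ hμ0 => by
      obtain ⟨_, _, _, bμ⟩ := hpkg μ hμ0
      exact (SLevA455.gens0 S hμ bμ b2).2
  have hqZ2 : ∀ t, ∀ z ∈ SZ1.Zn arm J B F R P.1 D ν' Q2, ∀ y, bq arm J F P.1 Q2 Q2 t y z ∈ Q :=
    SZq842.hqZ b2 hDc hpkg Q fun μ hμ hμ0 => by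
      obtain ⟨_, _, _, bμ⟩ := hpkg μ hμ0
      exact (SLevA455.gens0 S hμ bμ b2).1
  -- the square root of -1
  obtain ⟨I, hI⟩ : ∃ I : K, I * I = -1 := ⟨algebraMap ℂ K Complex.I, by
    rw [← map_mul, Complex.I_mul_I, map_neg, map_one]⟩
  have hI0 : I ≠ 0 := by
    rintro rfl
    rw [mul_zero] at hI
    exact (neg_ne_zero.2 (one_ne_zero (α := K))) hI.symm
  have hsq : ∀ r : K, (I * r) ^ 2 = -(r ^ 2) := fun r => by
    rw [mul_pow, pow_two I, hI, neg_one_mul]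
  have hS0 : Fᵀ * J * (P.1 * F) = Fᵀ * (J * P.1) * F := by simp only [Matrix.mul_assoc]
  -- the Gram matrices
  set G1 : Matrix (Fin n1) (Fin n1) K := Q1ᵀ * (J * P.1) * Q1 with hG1
  set G2 : Matrix (Fin n2) (Fin n2) K := Q2ᵀ * (J * P.1) * Q2 with hG2
  refine SLevM178.lev_mv b1 b2 (SZ1.Zn arm J B F R P.1 D ν Q1) sZ1
    (SZ1.Zn arm J B F R P.1 D ν' Q2) sZ2 (gF J P.1 Q1) (epsK := -1)
    (neg_ne_zero.2 one_ne_zero) (Λ := (fun r => I * r) '' Λ)
    (hΛ.image fun a _ b _ h => mul_left_cancel₀ hI0 h) ?_ (a1 := 1) (a2 := -1) (a3 := -1)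
    (-I) (-(-I)) (-(-I)) one_ne_zero
    (neg_ne_zero.2 one_ne_zero) (neg_ne_zero.2 one_ne_zero)
    (fun t => bq arm J F P.1 Q2 Q2 t) Q hZq1 hqZ1 hZq2 hqZ2
    (fun ρ x be kk => ∃ r ∈ Λ, I * r = ρ ∧ ∃ y : D3 K (Fin m1) (Fin m2),
      Dec F (Fᵀ * J * (P.1 * F)) U1 U2 a1 a2 (-(r ^ 2)) y ∧
      (∀ s, mt K (Fin n2) (Fin n1) (x s) = C2 * y.1 s * C1ᵀ) ∧
      (∀ u, be (C2 *ᵥ u) - C1 *ᵥ (y.2.1 *ᵥ u) ∈ SZ1.Zn arm J B F R P.1 D ν Q1) ∧
      (∀ u, kk (C1 *ᵥ u) - C2 *ᵥ (y.2.2 *ᵥ u) ∈ SZ1.Zn arm J B F R P.1 D ν' Q2)) ?_ ?_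
  · rintro ⟨r, hr, h⟩
    exact h0 ((mul_eq_zero.1 h).resolve_left hI0 ▸ hr)
  · rintro ρ ⟨r, hr, rfl⟩ x hx
    have hr0 : r ≠ 0 := fun h => h0 (h ▸ hr)
    have hc0 : -(r ^ 2) ≠ 0 := neg_ne_zero.2 (pow_ne_zero 2 hr0)
    rw [hsq] at hx ⊢
    obtain ⟨z, hz1, hz2⟩ := SULift.lift_surj (A := fun s => (a1 s).mulVecLin)
      (B := fun s => (a2 s).mulVecLin) (a := fun s => (A1 s).mulVecLin)
      (b := fun s => (A2 s).mulVecLin) (π1 := C1.mulVecLin) (π2 := C2.mulVecLin)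
      (fun y => on1 y) (fun y => on2 y)
      (fun t v => by simp only [mulVecLin_apply, mulVec_mulVec, act1 t])
      (fun t v => by simp only [mulVecLin_apply, mulVec_mulVec, act2 t])
      (frame_top S hs1 hm1 hi1 ho1) (frame_top S hs2 hm2 hi2 ho2)
      (fun t y hy => hi1 _ (ker1 t y hy)) (fun t y hy => hi2 _ (ker2 t y hy)) hc0 x hx.sum
    have hX : ∀ s, mt K (Fin n2) (Fin n1) (x s) = C2 * mt K (Fin m2) (Fin m1) (z s) * C1ᵀ := by
      intro s
      rw [← hz1 s, mt_map]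
    have hsum : ∑ s, (mt K (Fin m2) (Fin m1) (z s) * (a1 s)ᵀ -
        (-(r ^ 2)) • (a2 s * mt K (Fin m2) (Fin m1) (z s))) = 0 := by
      have h1 := congrArg (mt K (Fin m2) (Fin m1)) hz2
      rw [map_sum, map_zero] at h1
      rw [← h1]
      refine Finset.sum_congr rfl fun s _ => ?_
      exact (SUX5h.mt_DD a1 a2 (-(r ^ 2)) s (z s)).symm
    have harm : ∀ s, (U2ᵀ * (Fᵀ * J * (P.1 * F)) * U2) * (mt K (Fin m2) (Fin m1) (z s) *
        (a1 s)ᵀ - (-(r ^ 2)) • (a2 s * mt K (Fin m2) (Fin m1) (z s))) *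
        (U1ᵀ * (Fᵀ * J * (P.1 * F)) * U1) = 0 := by
      intro s
      have h1 := mt_rad (G1 := G1) (G2 := G2) b1.skew (hx.arm s)
      rw [SUX5h.mt_DD, hX s] at h1
      rw [← gr1, ← gr2]
      have h2 : C2 * (mt K (Fin m2) (Fin m1) (z s) * (a1 s)ᵀ -
          (-(r ^ 2)) • (a2 s * mt K (Fin m2) (Fin m1) (z s))) * C1ᵀ =
          C2 * mt K (Fin m2) (Fin m1) (z s) * C1ᵀ * (A1 s)ᵀ -
          (-(r ^ 2)) • (A2 s * (C2 * mt K (Fin m2) (Fin m1) (z s) * C1ᵀ)) := by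
        have e1 : C1ᵀ * (A1 s)ᵀ = (a1 s)ᵀ * C1ᵀ := by
          rw [← transpose_mul, act1 s, transpose_mul]
        rw [Matrix.mul_assoc _ C1ᵀ (A1 s)ᵀ, e1, ← Matrix.mul_assoc (A2 s),
          ← Matrix.mul_assoc (A2 s), act2 s]
        simp only [Matrix.mul_sub, Matrix.sub_mul, Matrix.mul_smul, Matrix.smul_mul,
          Matrix.mul_assoc]
      calc C2ᵀ * G2 * C2 * (mt K (Fin m2) (Fin m1) (z s) * (a1 s)ᵀ -
          (-(r ^ 2)) • (a2 s * mt K (Fin m2) (Fin m1) (z s))) * (C1ᵀ * G1 * C1)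
          = C2ᵀ * (G2 * (C2 * (mt K (Fin m2) (Fin m1) (z s) * (a1 s)ᵀ -
          (-(r ^ 2)) • (a2 s * mt K (Fin m2) (Fin m1) (z s))) * C1ᵀ) * G1) * C1 := by
            simp only [Matrix.mul_assoc]
        _ = 0 := by rw [h2, h1, Matrix.mul_zero, Matrix.zero_mul]
    obtain ⟨β, γ, hDec, hZB⟩ := hex r hr (fun s => mt K (Fin m2) (Fin m1) (z s)) hsum harm
    obtain ⟨be, kk, k1, k2, k3, k4⟩ := SDesc683.exists_pairM (A := A1) (B := A2) (a := a1)
      (bb := a2) (C1 := C1) (C2 := C2) on1 on2 act1 act2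
      (R1 := LinearMap.ker G1.mulVecLin) (R2 := LinearMap.ker G2.mulVecLin) sZ1 sZ2 (G1 := G1)
      (G2 := G2) (g := gF J P.1 Q2) (fun _ _ => rfl) (g1 := gF J P.1 Q1) (fun _ _ => rfl)
      (eps := -1) (c := -(r ^ 2)) (X := fun s => mt K (Fin m2) (Fin m1) (z s)) (x := x)
      (fun t => by rw [mt_eq_tm]; exact hX t) (β := β) (γ := γ)
      (fun u => rad_of on1 (by rw [gr1]; exact hDec.rb) u)
      (fun u hu => by
        obtain ⟨w, hw⟩ := hZB.zb u (by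
          rw [mulVec_mulVec, hF2, ← mulVec_mulVec, hu, mulVec_zero])
        refine mem_Z (y := C2 *ᵥ w) hne.symm b2 ?_
        simp only [mulVec_mulVec] at hw ⊢
        rw [← Matrix.mul_assoc, hF1, hF2] at hw
        rw [← hw, Matrix.mul_assoc])
      (fun u => rad_of on2 (by rw [gr2]; exact hDec.rk) u)
      (fun u hu => by
        obtain ⟨w, hw⟩ := hZB.zk u (by
          rw [mulVec_mulVec, hF1, ← mulVec_mulVec, hu, mulVec_zero])
        refine mem_Z (y := C1 *ᵥ w) hne b1 ?_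
        simp only [mulVec_mulVec] at hw ⊢
        rw [← Matrix.mul_assoc, hF1, hF2] at hw
        rw [← hw, Matrix.mul_assoc])
      (fun t u => by
        have h1 := hDec.cb t
        have h2 := C_zero b1.inj hF1 h1 u
        rw [gr2]
        have e : (a1 t * (β - (mt K (Fin m2) (Fin m1) (z t))ᵀ *
            (U2ᵀ * (Fᵀ * J * (P.1 * F)) * U2)) -
            ((-1 : K) * -(r ^ 2)) • ((β - (mt K (Fin m2) (Fin m1) (z t))ᵀ *
            (U2ᵀ * (Fᵀ * J * (P.1 * F)) * U2)) * a2 t)) =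
            (a1 t * (β - (mt K (Fin m2) (Fin m1) (z t))ᵀ *
            (U2ᵀ * (Fᵀ * J * (P.1 * F)) * U2)) +
            (-(r ^ 2)) • ((β - (mt K (Fin m2) (Fin m1) (z t))ᵀ *
            (U2ᵀ * (Fᵀ * J * (P.1 * F)) * U2)) * a2 t)) := by
          rw [neg_one_mul, neg_neg, neg_smul, sub_eq_add_neg]
        rw [e]
        dsimp only at h2
        rw [h2]
        exact Submodule.zero_mem _)
      (fun t u => by
        have h1 := hDec.ck t
        have h2 := C_zero b2.inj hF2 h1 u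
        rw [gr1]
        have e : ((-1 : K) • ((γ - mt K (Fin m2) (Fin m1) (z t) *
            (U1ᵀ * (Fᵀ * J * (P.1 * F)) * U1)) * a1 t) -
            (-(r ^ 2)) • (a2 t * (γ - mt K (Fin m2) (Fin m1) (z t) *
            (U1ᵀ * (Fᵀ * J * (P.1 * F)) * U1)))) =
            -((-(r ^ 2)) • (a2 t * (γ - mt K (Fin m2) (Fin m1) (z t) *
            (U1ᵀ * (Fᵀ * J * (P.1 * F)) * U1))) + (γ - mt K (Fin m2) (Fin m1) (z t) *
            (U1ᵀ * (Fᵀ * J * (P.1 * F)) * U1)) * a1 t) := by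
          rw [neg_one_smul]
          abel
        rw [e, neg_mulVec, mulVec_neg]
        dsimp only at h2
        rw [h2, neg_zero]
        exact Submodule.zero_mem _)
    exact ⟨be, kk, k1, k2, r, hr, rfl, (fun s => mt K (Fin m2) (Fin m1) (z s), β, γ), hDec, hX,
      k3, k4⟩
  · rintro ρ hρ ρ' hρ' x be kk x' be' kk' hx ⟨r, hr, rfl, y, hD, hX, hb, hk⟩ hx'
      ⟨r', hr', rfl, y', hD', hX', hb', hk'⟩
    have h1 := hrel r hr r' hr' y y' hD hD'
    have col : ∀ {p q m : ℕ} {Z : Submodule K (Fin p → K)} {b : (Fin q → K) →ₗ[K] (Fin p → K)}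
        {T2 : Matrix (Fin q) (Fin m) K} {V : Matrix (Fin p) (Fin m) K}
        (_ : ∀ u, b (T2 *ᵥ u) - V *ᵥ u ∈ Z), ∀ j,
        (fun i => (LinearMap.toMatrix' b * T2 - V) i j) ∈ Z := by
      intro p q m Z b T2 V h j
      have h2 := h (Pi.single j 1)
      have e : (fun i => (LinearMap.toMatrix' b * T2 - V) i j) =
          b (T2 *ᵥ Pi.single j 1) - V *ᵥ Pi.single j 1 := by
        rw [← LinearMap.toMatrix'_mulVec b, mulVec_mulVec, ← sub_mulVec]
        ext i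
        simp
      rw [e]
      exact h2
    have hbM := col (V := C1 * y.2.1) fun u => by
      have := hb u
      rwa [mulVec_mulVec] at this
    have hbM' := col (V := C1 * y'.2.1) fun u => by
      have := hb' u
      rwa [mulVec_mulVec] at this
    have hkM := col (V := C2 * y.2.2) fun u => by
      have := hk u
      rwa [mulVec_mulVec] at this
    have hkM' := col (V := C2 * y'.2.2) fun u => by
      have := hk' u
      rwa [mulVec_mulVec] at this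
    have h2 := SUX5h.J_frames (arm := arm) (J := J) (g := F) (X := P.1) (Q := Q) hF1 hF2 hX hX'
      hZq1 hqZ1 hbM hbM'
    have h3 := SUX5h.F2_frames (arm := arm) (J := J) (g := F) (X := P.1) (Q := Q) (b := be)
      (b' := be') hF1 hF2 hX hX' hZq2 hqZ2 hkM hkM'
    have h4 := Q.add_mem (Q.add_mem h2 (Q.smul_mem r' h3)) h1
    rw [F2_eq b1.skew x x' be be' kk kk' (-I)]
    convert h4 using 1
    unfold Rel2
    rw [hS0, smul_smul]
    have e1 : I * r' * -I = r' := by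
      linear_combination (-r') * hI
    rw [e1, smul_sub]
    abel

/-- **LEVEL 2 from the geometric half** -/
theorem lev2_of (hg : Geo22) : STop.Lev2 := by
  intro ι _ _ δ _ _ K _ _ _ arm J B N W F f P R D l S ν ν' hne n1 n2 Q1 A1 Q2 A2 b1 b2
  exact SLevA455.gens_of S b1 b1 (core S hg hne b1 b2)

end top

end Crest.Agent.R172.SLevB178
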