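import Crest.Agent.R172.SLevB952
import Crest.Agent.R172.SLev1Q455
import Crest.Agent.R172.SGeoC977
import Crest.Agent.R172.SGeo612
import Crest.Agent.R172.SLevA455

/-! Row 172, seat 612: `lev2 : STop.Lev2` and `inS2 : Ind.InS2`. -/

namespace Crest.Agent.R172.SLevB612

theorem lev2 : STop.Lev2 :=
  SLevB952.lev2_of SLev1Q455.lev1Q (SGeoC977.geo2C_of SGeo612.geo22)

theorem inS2 : Ind.InS2 := STop.inS2_of SLevA455.lev1 lev2

end Crest.Agent.R172.SLevB612
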