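import Crest.Agent.R172.SUX5
import Crest.Agent.R172.SLev0

/-!
Row 172 (S0260), (t2), node L2-e: the block form of the second derivative (`second_blocks`, frames
`U1`, `U2` in `K^δ`) in the `V`-level letters of `SLev0.lev2Z` / `RJP3.main3`.

`F U_i = Q_i T_i`, `x_s = T_2 X_s T_1ᵀ`, `b T_2 = T_1 β` modulo `Z_1`, `k T_1 = T_2 γ` modulo `Z_2`.
-/

set_option autoImplicit false
set_option linter.unusedSectionVars false
set_option linter.unusedFintypeInType false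
set_option linter.unusedDecidableInType false

namespace Crest.Agent.R172.SUX5V

open Matrix Module Crest.Agent.R172.FO Crest.Agent.R172.SLev0
open scoped TensorProduct

section alg

variable {K : Type*} [Field K] {X : Type*} [AddCommGroup X] [Module K X]

/-- a linear map of matrices kills (modulo `Q`) the matrices with columns in `Z` -/
theorem col_mem {n m : Type*} [Fintype n] [Fintype m] [DecidableEq n] [DecidableEq m]
    (L : Matrix n m K →ₗ[K] X) (Q : Submodule K X)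
    (Z : Submodule K (n → K)) (h : ∀ z ∈ Z, ∀ y, L (vecMulVec z y) ∈ Q) (M : Matrix n m K)
    (hM : ∀ j, (fun i => M i j) ∈ Z) : L M ∈ Q := by
  have e : M = ∑ j, vecMulVec (fun i => M i j) (Pi.single j 1) := by
    ext i j
    rw [Matrix.sum_apply, Finset.sum_eq_single j]
    · rw [vecMulVec_apply, Pi.single_eq_same, mul_one]
    · intro b _ hb
      rw [vecMulVec_apply, Pi.single_eq_of_ne hb.symm, mul_zero]
    · intro hh; exact absurd (Finset.mem_univ _) hh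
  rw [e, map_sum]
  exact Submodule.sum_mem _ fun j _ => h _ (hM j) _

/-- the same for rows -/
theorem row_mem {n m : Type*} [Fintype n] [Fintype m] [DecidableEq n] [DecidableEq m]
    (L : Matrix n m K →ₗ[K] X) (Q : Submodule K X)
    (Z : Submodule K (m → K)) (h : ∀ z ∈ Z, ∀ y, L (vecMulVec y z) ∈ Q) (M : Matrix n m K)
    (hM : ∀ i, M i ∈ Z) : L M ∈ Q := by
  have e : M = ∑ i, vecMulVec (Pi.single i 1) (M i) := by
    ext i j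
    rw [Matrix.sum_apply, Finset.sum_eq_single i]
    · rw [vecMulVec_apply, Pi.single_eq_same, one_mul]
    · intro b _ hb
      rw [vecMulVec_apply, Pi.single_eq_of_ne hb.symm, zero_mul]
    · intro hh; exact absurd (Finset.mem_univ _) hh
  rw [e, map_sum]
  exact Submodule.sum_mem _ fun j _ => h _ (hM j) _

/-- columns of `D * M` are in `Z` if those of `D` are -/
theorem mul_col {n m a : Type*} [Fintype m] {Z : Submodule K (n → K)} {D : Matrix n m K}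
    (hD : ∀ y, D *ᵥ y ∈ Z) (M : Matrix m a K) (j : a) : (fun i => (D * M) i j) ∈ Z :=
  hD fun i => M i j

end alg

section main

variable {K : Type*} [Field K] {ι δ : Type*} [Fintype ι] [DecidableEq ι] [Fintype δ]
  [DecidableEq δ] {arm : δ → Fin 3} {J P : Matrix ι ι K} {F : Matrix ι δ K}
variable {n1 n2 : ℕ} {m1 m2 : Type*} [Fintype m1] [Fintype m2]
  {Q1 : Matrix ι (Fin n1) K} {Q2 : Matrix ι (Fin n2) K}
  {U1 : Matrix δ m1 K} {U2 : Matrix δ m2 K} {T1 : Matrix (Fin n1) m1 K} {T2 : Matrix (Fin n2) m2 K}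
  {S0 : Matrix δ δ K}

/-- `M ↦ Q M Qᵀ (J P) F E_t` -/
noncomputable def qv (arm : δ → Fin 3) (J P : Matrix ι ι K) (F : Matrix ι δ K) {n : ℕ}
    (Q : Matrix ι (Fin n) K) (t : Fin 3) : Matrix (Fin n) (Fin n) K →ₗ[K] Matrix ι δ K where
  toFun M := Q * M * Qᵀ * (J * P) * F * E K arm t
  map_add' M M' := by simp only [Matrix.mul_add, Matrix.add_mul]
  map_smul' c M := by simp only [Matrix.mul_smul, Matrix.smul_mul, RingHom.id_apply]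

theorem qv_apply {n : ℕ} (Q : Matrix ι (Fin n) K) (t : Fin 3) (M : Matrix (Fin n) (Fin n) K) :
    qv arm J P F Q t M = Q * M * Qᵀ * (J * P) * F * E K arm t := rfl

theorem qv_vec {n : ℕ} (Q : Matrix ι (Fin n) K) (t : Fin 3) (x y : Fin n → K) :
    qv arm J P F Q t (vecMulVec x y) = bq arm J F P Q Q t x y := by
  rw [qv_apply, bq_apply, mul_vecMulVec, vecMulVec_mul, vecMul_transpose]

/-- `bq` as `SUX5.qb` -/
theorem bq_eq {n : ℕ} (Q : Matrix ι (Fin n) K) (t : Fin 3) :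
    bq arm J F P Q Q t = SUX5.qb (Pi.basisFun K (Fin n)) (qv arm J P F Q t) := by
  refine LinearMap.ext fun x => LinearMap.ext fun y => ?_
  rw [SUX5.qb_apply, Pi.basisFun_equivFun]
  exact (qv_vec Q t x y).symm

/-- the `U`-level term in `V`-letters -/
theorem uu_eq {n : ℕ} {m : Type*} [Fintype m] {Q : Matrix ι (Fin n) K} {U : Matrix δ m K}
    {T : Matrix (Fin n) m K} (hU : F * U = Q * T) (hS : S0 = Fᵀ * J * (P * F)) (t : Fin 3)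
    (M : Matrix m m K) :
    F * (U * M * Uᵀ) * S0 * E K arm t = qv arm J P F Q t (T * M * Tᵀ) := by
  have h1 : Uᵀ * Fᵀ = Tᵀ * Qᵀ := by rw [← transpose_mul, hU, transpose_mul]
  rw [qv_apply, hS]
  calc F * (U * M * Uᵀ) * (Fᵀ * J * (P * F)) * E K arm t
      = (F * U) * M * (Uᵀ * Fᵀ) * (J * P) * F * E K arm t := by simp only [Matrix.mul_assoc]
    _ = (Q * T) * M * (Tᵀ * Qᵀ) * (J * P) * F * E K arm t := by rw [hU, h1]
    _ = _ := by simp only [Matrix.mul_assoc]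

theorem gram_eq {n : ℕ} {m : Type*} [Fintype m] {Q : Matrix ι (Fin n) K} {U : Matrix δ m K}
    {T : Matrix (Fin n) m K} (hU : F * U = Q * T) (hS : S0 = Fᵀ * J * (P * F)) :
    Uᵀ * S0 * U = Tᵀ * (Qᵀ * (J * P) * Q) * T := by
  have h1 : Uᵀ * Fᵀ = Tᵀ * Qᵀ := by rw [← transpose_mul, hU, transpose_mul]
  rw [hS]
  calc Uᵀ * (Fᵀ * J * (P * F)) * U = (Uᵀ * Fᵀ) * (J * P) * (F * U) := by
        simp only [Matrix.mul_assoc]
    _ = (Tᵀ * Qᵀ) * (J * P) * (Q * T) := by rw [hU, h1]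
    _ = _ := by simp only [Matrix.mul_assoc]

/-- the matrix of a tensor at `V`-level -/
noncomputable abbrev tv (K : Type*) [Field K] (n1 n2 : ℕ) :
    (Fin n2 → K) ⊗[K] (Fin n1 → K) →ₗ[K] Matrix (Fin n2) (Fin n1) K :=
  SUX5.tm (Pi.basisFun K (Fin n1)) (Pi.basisFun K (Fin n2))

theorem gF_basis {n : ℕ} (Q : Matrix ι (Fin n) K) (i j : Fin n) :
    gF J P Q (Pi.basisFun K (Fin n) i) (Pi.basisFun K (Fin n) j) =
      (Qᵀ * (J * P) * Q) i j := by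
  rw [gF_apply, Pi.basisFun_apply, Pi.basisFun_apply, single_one_dotProduct]
  simp

/-- the `22`-part at `V`-level -/
noncomputable def F2V (arm : δ → Fin 3) (J P : Matrix ι ι K) (F : Matrix ι δ K)
    (Q1 : Matrix ι (Fin n1) K) (Q2 : Matrix ι (Fin n2) K)
    (u : RJP.Pr K (Fin n1 → K) (Fin n2 → K) (Fin 3) × ((Fin n1 → K) →ₗ[K] (Fin n2 → K))) :
    (RJP.Pr K (Fin n1 → K) (Fin n2 → K) (Fin 3) × ((Fin n1 → K) →ₗ[K] (Fin n2 → K))) →ₗ[K]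
      Matrix ι δ K :=
  SUX5.F2 (Pi.basisFun K (Fin n1)) (Pi.basisFun K (Fin n2)) (fun t => qv arm J P F Q2 t)
    (Q1ᵀ * (J * P) * Q1) u

/-- **the `11`-part** -/
theorem part11V (hU1 : F * U1 = Q1 * T1) (hU2 : F * U2 = Q2 * T2)
    (hS : S0 = Fᵀ * J * (P * F)) (QQ : Submodule K (Matrix ι δ K))
    {Z1 : Submodule K (Fin n1 → K)}
    (hZq : ∀ t, ∀ z ∈ Z1, ∀ y, bq arm J F P Q1 Q1 t z y ∈ QQ)
    (hqZ : ∀ t, ∀ z ∈ Z1, ∀ y, bq arm J F P Q1 Q1 t y z ∈ QQ)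
    {x x' : Fin 3 → (Fin n2 → K) ⊗[K] (Fin n1 → K)} {X X' : Fin 3 → Matrix m2 m1 K}
    (hX : ∀ s, tv K n1 n2 (x s) = T2 * X s * T1ᵀ) (hX' : ∀ s, tv K n1 n2 (x' s) = T2 * X' s * T1ᵀ)
    {b b' : (Fin n2 → K) →ₗ[K] (Fin n1 → K)} {β β' : Matrix m1 m2 K}
    (hb : ∀ y, (T1 * β) *ᵥ y - b (T2 *ᵥ y) ∈ Z1) (hb' : ∀ y, (T1 * β') *ᵥ y - b' (T2 *ᵥ y) ∈ Z1) :
    ∑ s, F * (U1 * (β' * X s - (X' s)ᵀ * (U2ᵀ * S0 * U2) * X s - (X' s)ᵀ * βᵀ) * U1ᵀ) * S0 *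
        E K arm s -
      ∑ t, ((1 : K) • TensorProduct.lift ((bq arm J F P Q1 Q1 t) ∘ₗ b') (x t)
        + (-1 : K) • TensorProduct.lift ((bq arm J F P Q1 Q1 t).flip ∘ₗ b) (x' t)
        + (-1 : K) • TensorProduct.lift ((bq arm J F P Q1 Q1 t) ∘ₗ (RJM.ev (gF J P Q2) (x' t)))
          (x t)) ∈ QQ := by
  have h11 := SUX5.part11 (Pi.basisFun K (Fin n1)) (Pi.basisFun K (Fin n2))
    (fun t => qv arm J P F Q1 t) (gF J P Q2) (gF_basis (J := J) (P := P) Q2) x x' b b'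
  simp only [← bq_eq] at h11
  rw [← h11, ← Finset.sum_sub_distrib]
  refine Submodule.sum_mem _ fun s _ => ?_
  rw [uu_eq hU1 hS, gram_eq hU2 hS, ← map_sub]
  set Bm := LinearMap.toMatrix (Pi.basisFun K (Fin n2)) (Pi.basisFun K (Fin n1)) b with hBm
  set Bm' := LinearMap.toMatrix (Pi.basisFun K (Fin n2)) (Pi.basisFun K (Fin n1)) b' with hBm'
  have eB : ∀ y, Bm *ᵥ y = b y := fun y => LinearMap.toMatrix'_mulVec b y
  have eB' : ∀ y, Bm' *ᵥ y = b' y := fun y => LinearMap.toMatrix'_mulVec b' y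
  set Δ := T1 * β - Bm * T2 with hΔ
  set Δ' := T1 * β' - Bm' * T2 with hΔ'
  have hD : ∀ y, Δ *ᵥ y ∈ Z1 := fun y => by
    rw [hΔ, sub_mulVec, ← mulVec_mulVec, ← mulVec_mulVec y Bm, eB, mulVec_mulVec]
    exact hb y
  have hD' : ∀ y, Δ' *ᵥ y ∈ Z1 := fun y => by
    rw [hΔ', sub_mulVec, ← mulVec_mulVec, ← mulVec_mulVec y Bm', eB', mulVec_mulVec]
    exact hb' y
  have e1 : T1 * (β' * X s - (X' s)ᵀ * (T2ᵀ * (Q2ᵀ * (J * P) * Q2) * T2) * X s - (X' s)ᵀ * βᵀ) *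
        T1ᵀ - (Bm' * tv K n1 n2 (x s) - (tv K n1 n2 (x' s))ᵀ * (Q2ᵀ * (J * P) * Q2) *
          tv K n1 n2 (x s) - (tv K n1 n2 (x' s))ᵀ * Bmᵀ) =
      Δ' * (X s * T1ᵀ) - (Δ * (X' s * T1ᵀ))ᵀ := by
    rw [hX, hX', hΔ, hΔ']
    simp only [transpose_mul, transpose_sub, transpose_transpose, Matrix.mul_sub, Matrix.sub_mul,
      Matrix.mul_assoc]
    abel
  rw [e1, map_sub]
  refine Submodule.sub_mem _ ?_ ?_
  · exact col_mem _ QQ Z1 (fun z hz y => by rw [qv_vec]; exact hZq s z hz y) _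
      fun j => mul_col hD' _ j
  · exact row_mem _ QQ Z1 (fun z hz y => by rw [qv_vec]; exact hqZ s z hz y) _
      fun j => mul_col hD _ j

/-- **the `22`-part** -/
theorem part22V (hU1 : F * U1 = Q1 * T1) (hU2 : F * U2 = Q2 * T2)
    (hS : S0 = Fᵀ * J * (P * F)) (QQ : Submodule K (Matrix ι δ K))
    {Z2 : Submodule K (Fin n2 → K)}
    (hZq : ∀ t, ∀ z ∈ Z2, ∀ y, bq arm J F P Q2 Q2 t z y ∈ QQ)
    (hqZ : ∀ t, ∀ z ∈ Z2, ∀ y, bq arm J F P Q2 Q2 t y z ∈ QQ)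
    {x x' : Fin 3 → (Fin n2 → K) ⊗[K] (Fin n1 → K)} {X X' : Fin 3 → Matrix m2 m1 K}
    (hX : ∀ s, tv K n1 n2 (x s) = T2 * X s * T1ᵀ) (hX' : ∀ s, tv K n1 n2 (x' s) = T2 * X' s * T1ᵀ)
    (b b' : (Fin n2 → K) →ₗ[K] (Fin n1 → K))
    {k k' : (Fin n1 → K) →ₗ[K] (Fin n2 → K)} {γ γ' : Matrix m2 m1 K}
    (hk : ∀ y, (T2 * γ) *ᵥ y - k (T1 *ᵥ y) ∈ Z2) (hk' : ∀ y, (T2 * γ') *ᵥ y - k' (T1 *ᵥ y) ∈ Z2) :
    ∑ s, F * (U2 * (X s * γ'ᵀ + X s * (U1ᵀ * S0 * U1) * (X' s)ᵀ - γ * (X' s)ᵀ) * U2ᵀ) * S0 *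
        E K arm s -
      F2V arm J P F Q1 Q2 ((x, b), k) ((x', b'), k') ∈ QQ := by
  unfold F2V
  rw [SUX5.F2_apply, ← Finset.sum_sub_distrib]
  refine Submodule.sum_mem _ fun s _ => ?_
  rw [uu_eq hU2 hS, gram_eq hU1 hS, ← map_sub]
  set Bm := LinearMap.toMatrix (Pi.basisFun K (Fin n1)) (Pi.basisFun K (Fin n2)) k with hBm
  set Bm' := LinearMap.toMatrix (Pi.basisFun K (Fin n1)) (Pi.basisFun K (Fin n2)) k' with hBm'
  have eB : ∀ y, Bm *ᵥ y = k y := fun y => LinearMap.toMatrix'_mulVec k y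
  have eB' : ∀ y, Bm' *ᵥ y = k' y := fun y => LinearMap.toMatrix'_mulVec k' y
  set Δ := T2 * γ - Bm * T1 with hΔ
  set Δ' := T2 * γ' - Bm' * T1 with hΔ'
  have hD : ∀ y, Δ *ᵥ y ∈ Z2 := fun y => by
    rw [hΔ, sub_mulVec, ← mulVec_mulVec, ← mulVec_mulVec y Bm, eB, mulVec_mulVec]
    exact hk y
  have hD' : ∀ y, Δ' *ᵥ y ∈ Z2 := fun y => by
    rw [hΔ', sub_mulVec, ← mulVec_mulVec, ← mulVec_mulVec y Bm', eB', mulVec_mulVec]
    exact hk' y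
  have e1 : T2 * (X s * γ'ᵀ + X s * (T1ᵀ * (Q1ᵀ * (J * P) * Q1) * T1) * (X' s)ᵀ - γ * (X' s)ᵀ) *
        T2ᵀ - (tv K n1 n2 (x s) * Bm'ᵀ + tv K n1 n2 (x s) * (Q1ᵀ * (J * P) * Q1) *
          (tv K n1 n2 (x' s))ᵀ - Bm * (tv K n1 n2 (x' s))ᵀ) =
      (Δ' * ((X s)ᵀ * T2ᵀ))ᵀ - Δ * ((X' s)ᵀ * T2ᵀ) := by
    rw [hX, hX', hΔ, hΔ']
    simp only [transpose_mul, transpose_sub, transpose_transpose, Matrix.mul_sub, Matrix.sub_mul,
      Matrix.mul_add, Matrix.add_mul, Matrix.mul_assoc]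
    abel
  rw [e1, map_sub]
  refine Submodule.sub_mem _ ?_ ?_
  · exact row_mem _ QQ Z2 (fun z hz y => by rw [qv_vec]; exact hqZ s z hz y) _
      fun j => mul_col hD' _ j
  · exact col_mem _ QQ Z2 (fun z hz y => by rw [qv_vec]; exact hZq s z hz y) _
      fun j => mul_col hD _ j

/-- **the relation `hrel` at `V`-level from `second_blocks`.** -/
theorem hrelV {c1 c2 : K} (hc1 : c1 ≠ 0) (hc2 : c2 ≠ 0)
    (hU1 : F * U1 = Q1 * T1) (hU2 : F * U2 = Q2 * T2)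
    (hS : S0 = Fᵀ * J * (P * F)) (QQ : Submodule K (Matrix ι δ K))
    {Z1 : Submodule K (Fin n1 → K)} {Z2 : Submodule K (Fin n2 → K)}
    (hZq1 : ∀ t, ∀ z ∈ Z1, ∀ y, bq arm J F P Q1 Q1 t z y ∈ QQ)
    (hqZ1 : ∀ t, ∀ z ∈ Z1, ∀ y, bq arm J F P Q1 Q1 t y z ∈ QQ)
    (hZq2 : ∀ t, ∀ z ∈ Z2, ∀ y, bq arm J F P Q2 Q2 t z y ∈ QQ)
    (hqZ2 : ∀ t, ∀ z ∈ Z2, ∀ y, bq arm J F P Q2 Q2 t y z ∈ QQ)
    {x x' : Fin 3 → (Fin n2 → K) ⊗[K] (Fin n1 → K)} {X X' : Fin 3 → Matrix m2 m1 K}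
    (hX : ∀ s, tv K n1 n2 (x s) = T2 * X s * T1ᵀ) (hX' : ∀ s, tv K n1 n2 (x' s) = T2 * X' s * T1ᵀ)
    {b b' : (Fin n2 → K) →ₗ[K] (Fin n1 → K)} {β β' : Matrix m1 m2 K}
    (hb : ∀ y, (T1 * β) *ᵥ y - b (T2 *ᵥ y) ∈ Z1) (hb' : ∀ y, (T1 * β') *ᵥ y - b' (T2 *ᵥ y) ∈ Z1)
    {k k' : (Fin n1 → K) →ₗ[K] (Fin n2 → K)} {γ γ' : Matrix m2 m1 K}
    (hk : ∀ y, (T2 * γ) *ᵥ y - k (T1 *ᵥ y) ∈ Z2) (hk' : ∀ y, (T2 * γ') *ᵥ y - k' (T1 *ᵥ y) ∈ Z2)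
    {M21 : Fin 3 → Matrix m2 m1 K} {m12 : K}
    (h21 : ∑ s, F * (U2 * M21 s * U1ᵀ) * S0 * E K arm s ∈ QQ)
    (h12 : ∑ s, F * (U1 * (X' s)ᵀ * U2ᵀ) * S0 * E K arm s ∈ QQ)
    (hsb : ∑ s, F * ((c1 * c2) • (U1 * (β' * X s - (X' s)ᵀ * (U2ᵀ * S0 * U2) * X s
          - (X' s)ᵀ * βᵀ) * U1ᵀ)
        + c2 ^ 2 • (U2 * (X s * γ'ᵀ + X s * (U1ᵀ * S0 * U1) * (X' s)ᵀ - γ * (X' s)ᵀ) * U2ᵀ)
        + U2 * M21 s * U1ᵀ
        + m12 • (U1 * (X' s)ᵀ * U2ᵀ)) * S0 * E K arm s ∈ QQ)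
    {ρ κ : K} (hρ : ρ * κ = c2 / c1) :
    ∑ t, ((1 : K) • TensorProduct.lift ((bq arm J F P Q1 Q1 t) ∘ₗ b') (x t)
        + (-1 : K) • TensorProduct.lift ((bq arm J F P Q1 Q1 t).flip ∘ₗ b) (x' t)
        + (-1 : K) • TensorProduct.lift ((bq arm J F P Q1 Q1 t) ∘ₗ (RJM.ev (gF J P Q2) (x' t)))
          (x t)) +
      ρ • (κ • F2V arm J P F Q1 Q2 ((x, b), k)) ((x', b'), k') ∈ QQ := by
  have p11 := part11V (arm := arm) hU1 hU2 hS QQ hZq1 hqZ1 hX hX' hb hb'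
  have p22 := part22V (arm := arm) hU1 hU2 hS QQ hZq2 hqZ2 hX hX' b b' hk hk'
  set A11 := ∑ s, F * (U1 * (β' * X s - (X' s)ᵀ * (U2ᵀ * S0 * U2) * X s - (X' s)ᵀ * βᵀ) * U1ᵀ) *
    S0 * E K arm s with hA11
  set A22 := ∑ s, F * (U2 * (X s * γ'ᵀ + X s * (U1ᵀ * S0 * U1) * (X' s)ᵀ - γ * (X' s)ᵀ) * U2ᵀ) *
    S0 * E K arm s with hA22
  have h2 : (c1 * c2) • A11 + c2 ^ 2 • A22 ∈ QQ := by
    have h3 := QQ.sub_mem (QQ.sub_mem hsb h21) (QQ.smul_mem m12 h12)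
    convert h3 using 1
    rw [hA11, hA22, Finset.smul_sum, Finset.smul_sum, Finset.smul_sum, ← Finset.sum_add_distrib,
      ← Finset.sum_sub_distrib, ← Finset.sum_sub_distrib]
    refine Finset.sum_congr rfl fun s _ => ?_
    simp only [Matrix.mul_add, Matrix.add_mul, Matrix.mul_smul, Matrix.smul_mul]
    abel
  have h4 := QQ.smul_mem ((c1 * c2)⁻¹) h2
  have e : (c2 / c1) = (c1 * c2)⁻¹ * c2 ^ 2 := by field_simp
  rw [smul_add, smul_smul, smul_smul, inv_mul_cancel₀ (mul_ne_zero hc1 hc2), one_smul, ← e] at h4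
  rw [LinearMap.smul_apply, smul_smul, hρ]
  have h5 := QQ.sub_mem (QQ.sub_mem h4 p11) (QQ.smul_mem (c2 / c1) p22)
  convert h5 using 1
  rw [smul_sub]
  abel

end main

end Crest.Agent.R172.SUX5V
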