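import Crest.Agent.R172.SDec2
import Crest.Agent.R172.SLevA455
import Crest.Agent.R172.SLev3
import Crest.Agent.R172.SUX5V
import Crest.Agent.R172.SDesc
import Crest.Agent.R172.SInst
import Crest.Agent.R172.SULift

/-!
Row 172 (S0260), tame node (t2), LEVEL 2, abstract half: `lev2_of : SDec.Geo22 → STop.Lev2`.
-/

set_option autoImplicit false
set_option linter.unusedSectionVars false
set_option linter.unusedVariables false
set_option maxHeartbeats 1600000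

namespace Crest.Agent.R172.SLevB926

open Matrix Module Crest.Agent.R172.FO Crest.Agent.R172.Qt Crest.Agent.R172.SpS
open Crest.Agent.R172.SEnd Crest.Agent.R172.SEnd2 Crest.Agent.R172.SBlk Crest.Agent.R172.SCM
open Crest.Agent.R172.SC (PB)
open Crest.Agent.R172.PL (Ainf CoreM coreOp Rad)
open Crest.Agent.R172.SLev0 (bq bq_apply gF gF_apply PbK coord_mem exists_coord)
open Crest.Agent.R172.SUX (D3 th)
open Crest.Agent.R172.SDec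
open Crest.Agent.R172.SDesc (tm tm_tmul gM)
open RJM (ev Ex DD)
open RJP3 (evk CorK)
open scoped TensorProduct

section lin

variable {K : Type*} [Field K] {m1 m2 n1 n2 : ℕ}
  {a1 : Fin 3 → Matrix (Fin m1) (Fin m1) K} {a2 : Fin 3 → Matrix (Fin m2) (Fin m2) K}
  {C1 : Matrix (Fin n1) (Fin m1) K} {C2 : Matrix (Fin n2) (Fin m2) K}

theorem tv_eq (z : (Fin n2 → K) ⊗[K] (Fin n1 → K)) : SUX5V.tv K n1 n2 z = tm z := by
  induction z using TensorProduct.induction_on with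
  | zero => rw [map_zero, map_zero]
  | tmul a b =>
    rw [SUX5.tm_tmul, tm_tmul, Pi.basisFun_equivFun, Pi.basisFun_equivFun]
    rfl
  | add a b ha hb => rw [map_add, map_add, ha, hb]

theorem tm_map (z : (Fin m2 → K) ⊗[K] (Fin m1 → K)) :
    tm (TensorProduct.map C2.mulVecLin C1.mulVecLin z) = C2 * tm z * C1ᵀ := by
  induction z using TensorProduct.induction_on with
  | zero => simp
  | tmul a b =>
    rw [TensorProduct.map_tmul, tm_tmul, tm_tmul, mulVecLin_apply, mulVecLin_apply,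
      Matrix.mul_vecMulVec, Matrix.vecMulVec_mul, vecMul_transpose]
  | add a b ha hb => rw [map_add, map_add, ha, hb, map_add, Matrix.mul_add, Matrix.add_mul]

theorem tm_defect (c : K) (t : Fin 3) (z : (Fin m2 → K) ⊗[K] (Fin m1 → K)) :
    tm (((a1 t).mulVecLin).lTensor (Fin m2 → K) z -
        c • ((a2 t).mulVecLin).rTensor (Fin m1 → K) z) =
      tm z * (a1 t)ᵀ - c • (a2 t * tm z) := by
  induction z using TensorProduct.induction_on with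
  | zero => simp
  | tmul x y =>
    rw [LinearMap.lTensor_tmul, LinearMap.rTensor_tmul, map_sub, map_smul, tm_tmul, tm_tmul,
      tm_tmul, mulVecLin_apply, mulVecLin_apply, Matrix.vecMulVec_mul, vecMul_transpose,
      Matrix.mul_vecMulVec]
  | add x y hx hy =>
    have e : ((a1 t).mulVecLin).lTensor (Fin m2 → K) (x + y) -
        c • ((a2 t).mulVecLin).rTensor (Fin m1 → K) (x + y) =
        (((a1 t).mulVecLin).lTensor (Fin m2 → K) x -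
          c • ((a2 t).mulVecLin).rTensor (Fin m1 → K) x) +
        (((a1 t).mulVecLin).lTensor (Fin m2 → K) y -
          c • ((a2 t).mulVecLin).rTensor (Fin m1 → K) y) := by
      rw [map_add, map_add, smul_add]
      abel
    rw [e, map_add, hx, hy, map_add, Matrix.add_mul, Matrix.mul_add, smul_add]
    abel

/-- the arm condition in matrices -/
theorem arm_mat (G1 : Matrix (Fin n1) (Fin n1) K) (G2 : Matrix (Fin n2) (Fin n2) K)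
    (hG1 : G1ᵀ = -G1) {z : (Fin n2 → K) ⊗[K] (Fin n1 → K)}
    (hz : z ∈ (RJM.RT (LinearMap.ker G2.mulVecLin) ⊔ RJM.TR (LinearMap.ker G1.mulVecLin) :
      Submodule K ((Fin n2 → K) ⊗[K] (Fin n1 → K)))) : G2 * tm z * G1 = 0 := by
  let L : (Fin n2 → K) ⊗[K] (Fin n1 → K) →ₗ[K] Matrix (Fin n2) (Fin n1) K :=
    { toFun := fun z => G2 * tm z * G1
      map_add' := fun a b => by rw [map_add, Matrix.mul_add, Matrix.add_mul]
      map_smul' := fun c a => by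
        rw [map_smul, Matrix.mul_smul, Matrix.smul_mul, RingHom.id_apply] }
  have hL : (RJM.RT (LinearMap.ker G2.mulVecLin) ⊔ RJM.TR (LinearMap.ker G1.mulVecLin) :
      Submodule K ((Fin n2 → K) ⊗[K] (Fin n1 → K))) ≤ LinearMap.ker L := by
    refine sup_le ?_ ?_
    · unfold RJM.RT
      rw [Submodule.span_le]
      rintro _ ⟨r, hr, p, rfl⟩
      rw [SetLike.mem_coe, LinearMap.mem_ker]
      change G2 * tm (r ⊗ₜ[K] p) * G1 = 0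
      rw [LinearMap.mem_ker, mulVecLin_apply] at hr
      rw [tm_tmul, Matrix.mul_vecMulVec, hr, zero_vecMulVec, Matrix.zero_mul]
    · unfold RJM.TR
      rw [Submodule.span_le]
      rintro _ ⟨p, r, hr, rfl⟩
      rw [SetLike.mem_coe, LinearMap.mem_ker]
      change G2 * tm (p ⊗ₜ[K] r) * G1 = 0
      rw [LinearMap.mem_ker, mulVecLin_apply] at hr
      have e : r ᵥ* G1 = 0 := by
        rw [← mulVec_transpose, hG1, neg_mulVec, hr, neg_zero]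
      rw [tm_tmul, Matrix.mul_vecMulVec, Matrix.vecMulVec_mul, e]
      ext i j
      simp [vecMulVec_apply]
  exact hL hz

/-- `Cᵀ` is injective if `C` is onto -/
theorem inj_T (s1 : ∀ y, ∃ x, C1 *ᵥ x = y) {v : Fin n1 → K} (h : C1ᵀ *ᵥ v = 0) : v = 0 := by
  funext i
  obtain ⟨x, hx⟩ := s1 (Pi.single i 1)
  have h4 : x ⬝ᵥ (C1ᵀ *ᵥ v) = 0 := by rw [h, dotProduct_zero]
  rw [dotProduct_mulVec, vecMul_transpose, hx, single_one_dotProduct] at h4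
  exact h4

end lin

section core

variable {ι : Type*} [Fintype ι] [DecidableEq ι] {δ : Type*} [Fintype δ] [DecidableEq δ]
variable {K : Type*} [Field K]
variable {arm : δ → Fin 3} {J : Matrix ι ι K} {B : Matrix δ δ K}
  {F : Matrix ι δ K} {R : Matrix δ ι K} {X : Matrix ι ι K}
  {D : End K (CoreM (PhS arm J B F R X))} {ν ν' : K} {l : Fin 3 → ℕ} {n1 n2 : ℕ}
  {Q1 : Matrix ι (Fin n1) K} {A1 : Fin 3 → Matrix (Fin n1) (Fin n1) K}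
  {Q2 : Matrix ι (Fin n2) K} {A2 : Fin 3 → Matrix (Fin n2) (Fin n2) K}

/-- the overlap of two blocks, in coordinates of the first -/
def Zo (Q1 : Matrix ι (Fin n1) K) (Q2 : Matrix ι (Fin n2) K) : Submodule K (Fin n1 → K) where
  carrier := {z | ∃ y, Q1 *ᵥ z = Q2 *ᵥ y}
  zero_mem' := ⟨0, by rw [mulVec_zero, mulVec_zero]⟩
  add_mem' := by
    rintro a b ⟨y, hy⟩ ⟨y', hy'⟩
    exact ⟨y + y', by rw [mulVec_add, mulVec_add, hy, hy']⟩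
  smul_mem' := by
    rintro c a ⟨y, hy⟩
    exact ⟨c • y, by rw [mulVec_smul, mulVec_smul, hy]⟩

theorem Zo_stable (b1 : BPkg arm J B F R X D ν l Q1 A1) (b2 : BPkg arm J B F R X D ν' l Q2 A2)
    (t : Fin 3) : ∀ z ∈ Zo Q1 Q2, A1 t *ᵥ z ∈ Zo Q1 Q2 := by
  rintro z ⟨y, hy⟩
  refine ⟨A2 t *ᵥ y, ?_⟩
  rw [mulVec_mulVec, ← b1.act t, ← mulVec_mulVec, hy, mulVec_mulVec, b2.act t, ← mulVec_mulVec]

theorem Zo_rd (b1 : BPkg arm J B F R X D ν l Q1 A1) (b2 : BPkg arm J B F R X D ν' l Q2 A2)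
    (ho : Q2ᵀ * (J * X) * Q1 = 0) {z : Fin n1 → K} {y : Fin n2 → K} (h : Q1 *ᵥ z = Q2 *ᵥ y) :
    Q1 *ᵥ z ∈ Rd (J * X) (PbK arm J B F R X D ν') := by
  refine mem_Rd.2 ⟨by rw [h]; exact coord_mem b2 y, fun a ha => ?_⟩
  obtain ⟨w, rfl⟩ := exists_coord b2 ha
  have e : (Q2 *ᵥ w) ⬝ᵥ ((J * X) *ᵥ (Q1 *ᵥ z)) = w ⬝ᵥ ((Q2ᵀ * (J * X) * Q1) *ᵥ z) := by
    rw [← vecMul_transpose, ← dotProduct_mulVec]
    simp only [mulVec_mulVec, Matrix.mul_assoc]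
  rw [e, ho, zero_mulVec, dotProduct_zero]

theorem Zo_left (b1 : BPkg arm J B F R X D ν l Q1 A1) (b2 : BPkg arm J B F R X D ν' l Q2 A2)
    (ho : Q2ᵀ * (J * X) * Q1 = 0) {QQ : Submodule K (Matrix ι δ K)}
    (hG : SLev0.Gens arm J B F X l QQ (PbK arm J B F R X D ν') (PbK arm J B F R X D ν)) :
    ∀ t, ∀ z ∈ Zo Q1 Q2, ∀ y, bq arm J F X Q1 Q1 t z y ∈ QQ := by
  rintro t z ⟨y0, hz⟩ y
  rw [bq_apply]
  exact hG.g2 t _ (Zo_rd b1 b2 ho hz) _ (coord_mem b1 y)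

theorem Zo_right (b1 : BPkg arm J B F R X D ν l Q1 A1) (b2 : BPkg arm J B F R X D ν' l Q2 A2)
    (ho : Q2ᵀ * (J * X) * Q1 = 0) {QQ : Submodule K (Matrix ι δ K)}
    (hG : SLev0.Gens arm J B F X l QQ (PbK arm J B F R X D ν) (PbK arm J B F R X D ν')) :
    ∀ t, ∀ z ∈ Zo Q1 Q2, ∀ y, bq arm J F X Q1 Q1 t y z ∈ QQ := by
  rintro t z ⟨y0, hz⟩ y
  rw [bq_apply]
  exact hG.g3 t _ (coord_mem b1 y) _ (Zo_rd b1 b2 ho hz)

variable {m1 m2 : ℕ} {U1 : Matrix δ (Fin m1) K} {U2 : Matrix δ (Fin m2) K}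
  {a1 : Fin 3 → Matrix (Fin m1) (Fin m1) K} {a2 : Fin 3 → Matrix (Fin m2) (Fin m2) K}
  {C1 : Matrix (Fin n1) (Fin m1) K} {C2 : Matrix (Fin n2) (Fin m2) K}
  {S0 : Matrix δ δ K}

/-- exact families lift to the frames -/
theorem lift_ex (hG1 : (Q1ᵀ * (J * X) * Q1)ᵀ = -(Q1ᵀ * (J * X) * Q1))
    (s1 : ∀ y, ∃ x, C1 *ᵥ x = y) (s2 : ∀ y, ∃ x, C2 *ᵥ x = y)
    (i1 : ∀ s, A1 s * C1 = C1 * a1 s) (i2 : ∀ s, A2 s * C2 = C2 * a2 s)
    (k1 : ∀ s x, C1 *ᵥ x = 0 → a1 s *ᵥ x = 0) (k2 : ∀ s x, C2 *ᵥ x = 0 → a2 s *ᵥ x = 0)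
    (p1 : ⨆ t, LinearMap.range (a1 t).mulVecLin = ⊤)
    (p2 : ⨆ t, LinearMap.range (a2 t).mulVecLin = ⊤)
    (g1 : U1ᵀ * S0 * U1 = C1ᵀ * (Q1ᵀ * (J * X) * Q1) * C1)
    (g2 : U2ᵀ * S0 * U2 = C2ᵀ * (Q2ᵀ * (J * X) * Q2) * C2)
    {c : K} (hc : c ≠ 0) {x : Fin 3 → (Fin n2 → K) ⊗[K] (Fin n1 → K)}
    (hx : Ex (fun s => (A1 s).mulVecLin) (fun s => (A2 s).mulVecLin)
      (LinearMap.ker (Q1ᵀ * (J * X) * Q1).mulVecLin)
      (LinearMap.ker (Q2ᵀ * (J * X) * Q2).mulVecLin) c x) :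
    ∃ z : Fin 3 → (Fin m2 → K) ⊗[K] (Fin m1 → K),
      (∀ s, TensorProduct.map C2.mulVecLin C1.mulVecLin (z s) = x s) ∧
      ∑ s, (tm (z s) * (a1 s)ᵀ - c • (a2 s * tm (z s))) = 0 ∧
      ∀ s, (U2ᵀ * S0 * U2) * (tm (z s) * (a1 s)ᵀ - c • (a2 s * tm (z s))) * (U1ᵀ * S0 * U1) = 0 := by
  obtain ⟨z, hz, hz0⟩ := SULift.lift_surj (A := fun s => (a1 s).mulVecLin)
    (B := fun s => (a2 s).mulVecLin) (a := fun s => (A1 s).mulVecLin)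
    (b := fun s => (A2 s).mulVecLin) (π1 := C1.mulVecLin) (π2 := C2.mulVecLin)
    (fun y => s1 y) (fun y => s2 y)
    (fun t v => by
      simp only [mulVecLin_apply]
      rw [mulVec_mulVec, mulVec_mulVec, i1])
    (fun t v => by
      simp only [mulVecLin_apply]
      rw [mulVec_mulVec, mulVec_mulVec, i2]) p1 p2
    (fun t y hy => k1 t y hy) (fun t y hy => k2 t y hy) hc x hx.sum
  have hd : ∀ s, C2 * (tm (z s) * (a1 s)ᵀ - c • (a2 s * tm (z s))) * C1ᵀ =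
      tm (DD (fun s => (A1 s).mulVecLin) (fun s => (A2 s).mulVecLin) c s (x s)) := by
    intro s
    have e1 : tm (DD (fun s => (A1 s).mulVecLin) (fun s => (A2 s).mulVecLin) c s (x s)) =
        tm (x s) * (A1 s)ᵀ - c • (A2 s * tm (x s)) := tm_defect c s (x s)
    have e2 : C1ᵀ * (A1 s)ᵀ = (a1 s)ᵀ * C1ᵀ := by
      rw [← transpose_mul, i1, transpose_mul]
    rw [e1, ← hz s, tm_map, Matrix.mul_assoc (C2 * tm (z s)) C1ᵀ, e2, ← Matrix.mul_assoc (A2 s),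
      ← Matrix.mul_assoc (A2 s), i2, Matrix.mul_sub, Matrix.sub_mul, Matrix.mul_smul,
      Matrix.smul_mul]
    simp only [Matrix.mul_assoc]
  refine ⟨z, hz, ?_, fun s => ?_⟩
  · have e := congrArg tm hz0
    rw [map_sum, map_zero] at e
    rw [← e]
    exact Finset.sum_congr rfl fun s _ => (tm_defect c s (z s)).symm
  · have e := arm_mat (Q1ᵀ * (J * X) * Q1) (Q2ᵀ * (J * X) * Q2) hG1 (hx.arm s)
    rw [← hd s] at e
    rw [g1, g2]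
    calc C2ᵀ * (Q2ᵀ * (J * X) * Q2) * C2 * (tm (z s) * (a1 s)ᵀ - c • (a2 s * tm (z s))) *
          (C1ᵀ * (Q1ᵀ * (J * X) * Q1) * C1)
        = C2ᵀ * ((Q2ᵀ * (J * X) * Q2) * (C2 * (tm (z s) * (a1 s)ᵀ - c • (a2 s * tm (z s))) *
          C1ᵀ) * (Q1ᵀ * (J * X) * Q1)) * C1 := by simp only [Matrix.mul_assoc]
      _ = 0 := by rw [e, Matrix.mul_zero, Matrix.zero_mul]

theorem gF_gM {n : ℕ} (Q : Matrix ι (Fin n) K) : gF J X Q = gM (Qᵀ * (J * X) * Q) :=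
  LinearMap.ext fun _ => LinearMap.ext fun _ => rfl

/-- **descent of `β`** -/
theorem desc_b (b1 : BPkg arm J B F R X D ν l Q1 A1)
    (hU1 : F * U1 = Q1 * C1) (hU2 : F * U2 = Q2 * C2)
    (s1 : ∀ y, ∃ x, C1 *ᵥ x = y) (s2 : ∀ y, ∃ x, C2 *ᵥ x = y)
    (i1 : ∀ s, A1 s * C1 = C1 * a1 s) (i2 : ∀ s, A2 s * C2 = C2 * a2 s)
    (g1 : U1ᵀ * S0 * U1 = C1ᵀ * (Q1ᵀ * (J * X) * Q1) * C1)
    (g2 : U2ᵀ * S0 * U2 = C2ᵀ * (Q2ᵀ * (J * X) * Q2) * C2)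
    {c : K} {x : Fin 3 → (Fin n2 → K) ⊗[K] (Fin n1 → K)}
    {z : Fin 3 → (Fin m2 → K) ⊗[K] (Fin m1 → K)}
    (hz : ∀ s, TensorProduct.map C2.mulVecLin C1.mulVecLin (z s) = x s)
    {β : Matrix (Fin m1) (Fin m2) K} {γ : Matrix (Fin m2) (Fin m1) K}
    (hd : Dec F S0 U1 U2 a1 a2 c (fun s => tm (z s), β, γ))
    (hb : ∀ v, F *ᵥ (U2 *ᵥ v) = 0 → ∃ w, F *ᵥ (U1 *ᵥ (β *ᵥ v)) = F *ᵥ (U2 *ᵥ w)) :
    ∃ b : (Fin n2 → K) →ₗ[K] (Fin n1 → K),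
      RJZ.Cor (fun s => (A1 s).mulVecLin) (fun s => (A2 s).mulVecLin)
        (LinearMap.ker (Q1ᵀ * (J * X) * Q1).mulVecLin) (Zo Q1 Q2) (gF J X Q2) (-1) c x b ∧
      ∀ y, b (C2 *ᵥ y) - C1 *ᵥ (β *ᵥ y) ∈ Zo Q1 Q2 := by
  have hev : ∀ t y, ev (gF J X Q2) (x t) (C2 *ᵥ y) =
      C1 *ᵥ (((tm (z t))ᵀ * (U2ᵀ * S0 * U2)) *ᵥ y) := by
    intro t y
    rw [gF_gM, ← hz t, SDesc.ev_map, g2]
  have hF1 : ∀ v, F *ᵥ (U1 *ᵥ v) = Q1 *ᵥ (C1 *ᵥ v) := fun v => by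
    rw [mulVec_mulVec, mulVec_mulVec, hU1]
  have hF2 : ∀ v, F *ᵥ (U2 *ᵥ v) = Q2 *ᵥ (C2 *ᵥ v) := fun v => by
    rw [mulVec_mulVec, mulVec_mulVec, hU2]
  refine SDesc.exists_b (A := fun s => (A1 s).mulVecLin) (B := fun s => (A2 s).mulVecLin)
    (a := fun s => (a1 s).mulVecLin) (b0 := fun s => (a2 s).mulVecLin)
    (π1 := C1.mulVecLin) (π2 := C2.mulVecLin) (β := β.mulVecLin)
    (fun y => s2 y)
    (fun t v => by
      simp only [mulVecLin_apply]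
      rw [mulVec_mulVec, mulVec_mulVec, i1])
    (fun t v => by
      simp only [mulVecLin_apply]
      rw [mulVec_mulVec, mulVec_mulVec, i2]) ?_ ?_ ?_
  · intro y
    rw [LinearMap.mem_ker]
    simp only [mulVecLin_apply]
    refine inj_T s1 ?_
    have e := hd.rb
    change (U1ᵀ * S0 * U1) * β = 0 at e
    rw [g1] at e
    simp only [mulVec_mulVec]
    rw [show C1ᵀ * (Q1ᵀ * (J * X) * Q1 * (C1 * β)) = C1ᵀ * (Q1ᵀ * (J * X) * Q1) * C1 * β by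
      simp only [Matrix.mul_assoc], e, zero_mulVec]
  · intro y hy
    simp only [mulVecLin_apply] at hy ⊢
    obtain ⟨w, hw⟩ := hb y (by rw [hF2, hy, mulVec_zero])
    exact ⟨C2 *ᵥ w, by rw [← hF1, hw, hF2]⟩
  · intro t y
    have e := hd.cb t
    change F * (U1 * (a1 t * (β - (tm (z t))ᵀ * (U2ᵀ * S0 * U2)) +
      c • ((β - (tm (z t))ᵀ * (U2ᵀ * S0 * U2)) * a2 t))) = 0 at e
    have e1 : C1 *ᵥ ((a1 t * (β - (tm (z t))ᵀ * (U2ᵀ * S0 * U2)) +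
        c • ((β - (tm (z t))ᵀ * (U2ᵀ * S0 * U2)) * a2 t)) *ᵥ y) = 0 := by
      apply b1.inj
      rw [← hF1, mulVec_mulVec, mulVec_mulVec, Matrix.mul_assoc F U1, e, zero_mulVec]
    convert (Zo Q1 Q2).zero_mem using 1
    simp only [mulVecLin_apply]
    rw [show A2 t *ᵥ (C2 *ᵥ y) = C2 *ᵥ (a2 t *ᵥ y) by
      rw [mulVec_mulVec, mulVec_mulVec, i2], hev, hev, show A1 t *ᵥ (C1 *ᵥ
        (((tm (z t))ᵀ * (U2ᵀ * S0 * U2)) *ᵥ y)) = C1 *ᵥ (a1 t *ᵥ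
        (((tm (z t))ᵀ * (U2ᵀ * S0 * U2)) *ᵥ y)) by
          rw [mulVec_mulVec _ (A1 t) C1, i1, ← mulVec_mulVec]]
    rw [← e1]
    simp only [Matrix.mul_sub, Matrix.sub_mul, add_mulVec, sub_mulVec, smul_mulVec, mulVec_add,
      mulVec_sub, mulVec_smul, smul_sub, neg_mul, one_mul, neg_smul, one_smul, sub_neg_eq_add,
      mulVec_mulVec, Matrix.mul_assoc]
    abel

/-- **descent of `γ`** -/
theorem desc_k (b2 : BPkg arm J B F R X D ν' l Q2 A2)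
    (hU1 : F * U1 = Q1 * C1) (hU2 : F * U2 = Q2 * C2)
    (s1 : ∀ y, ∃ x, C1 *ᵥ x = y) (s2 : ∀ y, ∃ x, C2 *ᵥ x = y)
    (i1 : ∀ s, A1 s * C1 = C1 * a1 s) (i2 : ∀ s, A2 s * C2 = C2 * a2 s)
    (g1 : U1ᵀ * S0 * U1 = C1ᵀ * (Q1ᵀ * (J * X) * Q1) * C1)
    (g2 : U2ᵀ * S0 * U2 = C2ᵀ * (Q2ᵀ * (J * X) * Q2) * C2)
    {c : K} {x : Fin 3 → (Fin n2 → K) ⊗[K] (Fin n1 → K)}
    {z : Fin 3 → (Fin m2 → K) ⊗[K] (Fin m1 → K)}
    (hz : ∀ s, TensorProduct.map C2.mulVecLin C1.mulVecLin (z s) = x s)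
    {β : Matrix (Fin m1) (Fin m2) K} {γ : Matrix (Fin m2) (Fin m1) K}
    (hd : Dec F S0 U1 U2 a1 a2 c (fun s => tm (z s), β, γ))
    (hk : ∀ v, F *ᵥ (U1 *ᵥ v) = 0 → ∃ w, F *ᵥ (U2 *ᵥ (γ *ᵥ v)) = F *ᵥ (U1 *ᵥ w)) :
    ∃ k : (Fin n1 → K) →ₗ[K] (Fin n2 → K),
      CorK (fun s => (A1 s).mulVecLin) (fun s => (A2 s).mulVecLin)
        (LinearMap.ker (Q2ᵀ * (J * X) * Q2).mulVecLin) (Zo Q2 Q1) (gF J X Q1) (-1) c x k ∧
      ∀ y, k (C1 *ᵥ y) - C2 *ᵥ (γ *ᵥ y) ∈ Zo Q2 Q1 := by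
  have hev : ∀ t y, evk (gF J X Q1) (x t) (C1 *ᵥ y) =
      C2 *ᵥ ((tm (z t) * (U1ᵀ * S0 * U1)) *ᵥ y) := by
    intro t y
    rw [gF_gM, ← hz t, SDesc.evk_map, g1]
  have hF1 : ∀ v, F *ᵥ (U1 *ᵥ v) = Q1 *ᵥ (C1 *ᵥ v) := fun v => by
    rw [mulVec_mulVec, mulVec_mulVec, hU1]
  have hF2 : ∀ v, F *ᵥ (U2 *ᵥ v) = Q2 *ᵥ (C2 *ᵥ v) := fun v => by
    rw [mulVec_mulVec, mulVec_mulVec, hU2]
  refine SDesc.exists_k (A := fun s => (A1 s).mulVecLin) (B := fun s => (A2 s).mulVecLin)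
    (a := fun s => (a1 s).mulVecLin) (b0 := fun s => (a2 s).mulVecLin)
    (π1 := C1.mulVecLin) (π2 := C2.mulVecLin) (γ := γ.mulVecLin)
    (fun y => s1 y)
    (fun t v => by
      simp only [mulVecLin_apply]
      rw [mulVec_mulVec, mulVec_mulVec, i1])
    (fun t v => by
      simp only [mulVecLin_apply]
      rw [mulVec_mulVec, mulVec_mulVec, i2]) ?_ ?_ ?_
  · intro y
    rw [LinearMap.mem_ker]
    simp only [mulVecLin_apply]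
    refine inj_T s2 ?_
    have e := hd.rk
    change (U2ᵀ * S0 * U2) * γ = 0 at e
    rw [g2] at e
    simp only [mulVec_mulVec]
    rw [show C2ᵀ * (Q2ᵀ * (J * X) * Q2 * (C2 * γ)) = C2ᵀ * (Q2ᵀ * (J * X) * Q2) * C2 * γ by
      simp only [Matrix.mul_assoc], e, zero_mulVec]
  · intro y hy
    simp only [mulVecLin_apply] at hy ⊢
    obtain ⟨w, hw⟩ := hk y (by rw [hF1, hy, mulVec_zero])
    exact ⟨C1 *ᵥ w, by rw [← hF2, hw, hF1]⟩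
  · intro t y
    have e := hd.ck t
    change F * (U2 * (c • (a2 t * (γ - tm (z t) * (U1ᵀ * S0 * U1))) +
      (γ - tm (z t) * (U1ᵀ * S0 * U1)) * a1 t)) = 0 at e
    have e1 : C2 *ᵥ ((c • (a2 t * (γ - tm (z t) * (U1ᵀ * S0 * U1))) +
        (γ - tm (z t) * (U1ᵀ * S0 * U1)) * a1 t) *ᵥ y) = 0 := by
      apply b2.inj
      rw [← hF2, mulVec_mulVec, mulVec_mulVec, Matrix.mul_assoc F U2, e, zero_mulVec]
    convert (Zo Q2 Q1).zero_mem using 1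
    simp only [mulVecLin_apply]
    rw [show A1 t *ᵥ (C1 *ᵥ y) = C1 *ᵥ (a1 t *ᵥ y) by
      rw [mulVec_mulVec, mulVec_mulVec, i1], hev, hev, show A2 t *ᵥ (C2 *ᵥ
        ((tm (z t) * (U1ᵀ * S0 * U1)) *ᵥ y)) = C2 *ᵥ (a2 t *ᵥ
        ((tm (z t) * (U1ᵀ * S0 * U1)) *ᵥ y)) by
          rw [mulVec_mulVec _ (A2 t) C2, i2, ← mulVec_mulVec]]
    rw [← neg_zero, ← e1]
    simp only [Matrix.mul_sub, Matrix.sub_mul, add_mulVec, sub_mulVec, smul_mulVec, mulVec_add,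
      mulVec_sub, mulVec_smul, smul_sub, neg_mul, one_mul, neg_smul, one_smul, sub_neg_eq_add,
      mulVec_mulVec, Matrix.mul_assoc]
    abel

/-- **the abstract half in matrix letters** -/
theorem core (b1 : BPkg arm J B F R X D ν l Q1 A1) (b2 : BPkg arm J B F R X D ν' l Q2 A2)
    (hU1 : F * U1 = Q1 * C1) (hU2 : F * U2 = Q2 * C2)
    (s1 : ∀ y, ∃ x, C1 *ᵥ x = y) (s2 : ∀ y, ∃ x, C2 *ᵥ x = y)
    (i1 : ∀ s, A1 s * C1 = C1 * a1 s) (i2 : ∀ s, A2 s * C2 = C2 * a2 s)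
    (k1 : ∀ s x, C1 *ᵥ x = 0 → a1 s *ᵥ x = 0) (k2 : ∀ s x, C2 *ᵥ x = 0 → a2 s *ᵥ x = 0)
    (p1 : ⨆ t, LinearMap.range (a1 t).mulVecLin = ⊤)
    (p2 : ⨆ t, LinearMap.range (a2 t).mulVecLin = ⊤)
    (hS : S0 = Fᵀ * J * (X * F))
    (ho : Q2ᵀ * (J * X) * Q1 = 0) (ho' : Q1ᵀ * (J * X) * Q2 = 0)
    {QQ : Submodule K (Matrix ι δ K)}
    (hG21 : SLev0.Gens arm J B F X l QQ (PbK arm J B F R X D ν') (PbK arm J B F R X D ν))
    (hG12 : SLev0.Gens arm J B F X l QQ (PbK arm J B F R X D ν) (PbK arm J B F R X D ν'))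
    {I : K} (hI : I * I = -1) {Λ : Set K} (hΛ : Λ.Infinite) (h0 : (0 : K) ∉ Λ)
    (hgeo : ∀ r ∈ Λ, ∀ Y : Fin 3 → Matrix (Fin m2) (Fin m1) K,
        ∑ s, (Y s * (a1 s)ᵀ - (-(r ^ 2)) • (a2 s * Y s)) = 0 →
        (∀ s, (U2ᵀ * S0 * U2) * (Y s * (a1 s)ᵀ - (-(r ^ 2)) • (a2 s * Y s)) *
          (U1ᵀ * S0 * U1) = 0) →
        ∃ β γ, Dec F S0 U1 U2 a1 a2 (-(r ^ 2)) (Y, β, γ) ∧ ZB F U1 U2 (Y, β, γ))
    (hrel : ∀ r ∈ Λ, ∀ r' ∈ Λ, ∀ y y' : D3 K (Fin m1) (Fin m2),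
        Dec F S0 U1 U2 a1 a2 (-(r ^ 2)) y → Dec F S0 U1 U2 a1 a2 (-(r' ^ 2)) y' →
        Rel2 arm F S0 U1 U2 r' y y' ∈ QQ) :
    SLev0.Gens arm J B F X l QQ (PbK arm J B F R X D ν) (PbK arm J B F R X D ν) := by
  have hI0 : I ≠ 0 := by
    rintro rfl
    rw [zero_mul] at hI
    exact neg_ne_zero.2 one_ne_zero hI.symm
  have g1 : U1ᵀ * S0 * U1 = C1ᵀ * (Q1ᵀ * (J * X) * Q1) * C1 := SUX5V.gram_eq hU1 hS
  have g2 : U2ᵀ * S0 * U2 = C2ᵀ * (Q2ᵀ * (J * X) * Q2) * C2 := SUX5V.gram_eq hU2 hS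
  have hsq : ∀ r : K, (I * r) ^ 2 = -(r ^ 2) := fun r => by
    rw [mul_pow, sq I, hI, neg_one_mul]
  have hr0 : ∀ r ∈ Λ, r ≠ 0 := fun r hr h => h0 (h ▸ hr)
  -- the data of an exact family
  have hdata : ∀ r ∈ Λ, ∀ x, Ex (fun s => (A1 s).mulVecLin) (fun s => (A2 s).mulVecLin)
      (LinearMap.ker (Q1ᵀ * (J * X) * Q1).mulVecLin)
      (LinearMap.ker (Q2ᵀ * (J * X) * Q2).mulVecLin) ((I * r) ^ 2) x →
      ∃ (Y : Fin 3 → Matrix (Fin m2) (Fin m1) K) (β : Matrix (Fin m1) (Fin m2) K)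
        (γ : Matrix (Fin m2) (Fin m1) K) (b : (Fin n2 → K) →ₗ[K] (Fin n1 → K))
        (k : (Fin n1 → K) →ₗ[K] (Fin n2 → K)),
        (∀ s, tm (x s) = C2 * Y s * C1ᵀ) ∧ Dec F S0 U1 U2 a1 a2 (-(r ^ 2)) (Y, β, γ) ∧
        RJZ.Cor (fun s => (A1 s).mulVecLin) (fun s => (A2 s).mulVecLin)
          (LinearMap.ker (Q1ᵀ * (J * X) * Q1).mulVecLin) (Zo Q1 Q2) (gF J X Q2) (-1)
          ((I * r) ^ 2) x b ∧ (∀ y, b (C2 *ᵥ y) - C1 *ᵥ (β *ᵥ y) ∈ Zo Q1 Q2) ∧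
        CorK (fun s => (A1 s).mulVecLin) (fun s => (A2 s).mulVecLin)
          (LinearMap.ker (Q2ᵀ * (J * X) * Q2).mulVecLin) (Zo Q2 Q1) (gF J X Q1) (-1)
          ((I * r) ^ 2) x k ∧ (∀ y, k (C1 *ᵥ y) - C2 *ᵥ (γ *ᵥ y) ∈ Zo Q2 Q1) := by
    intro r hr x hx
    have hc : (I * r) ^ 2 ≠ 0 := pow_ne_zero 2 (mul_ne_zero hI0 (hr0 r hr))
    obtain ⟨z, hz, hz1, hz2⟩ := lift_ex b1.skew s1 s2 i1 i2 k1 k2 p1 p2 g1 g2 hc hx
    rw [hsq] at hz1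
    simp only [hsq] at hz2
    obtain ⟨β, γ, hd, hzb⟩ := hgeo r hr (fun s => tm (z s)) hz1 hz2
    obtain ⟨b, hb, hb'⟩ := desc_b b1 hU1 hU2 s1 s2 i1 i2 g1 g2 hz hd hzb.zb
    obtain ⟨k, hk, hk'⟩ := desc_k b2 hU1 hU2 s1 s2 i1 i2 g1 g2 hz hd hzb.zk
    rw [hsq]
    exact ⟨fun s => tm (z s), β, γ, b, k, fun s => by rw [← hz s, tm_map], hd, hb, hb', hk, hk'⟩
  have hZq1 := Zo_left b1 b2 ho hG21
  have hqZ1 := Zo_right b1 b2 ho hG12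
  have hZq2 := Zo_left b2 b1 ho' hG12
  have hqZ2 := Zo_right b2 b1 ho' hG21
  refine SLev3.lev2Z3 b1 b2 (Zo Q1 Q2) (Zo_stable b1 b2) (Zo Q2 Q1) (gF J X Q1) (-1)
    (Λ := (fun r => I * r) '' Λ) ?_ ?_ (a1 := 1) (a2 := -1) (a3 := -1) one_ne_zero
    (neg_ne_zero.2 one_ne_zero) (neg_ne_zero.2 one_ne_zero) QQ hZq1 hqZ1 ?_ ?_
    (fun u => (-I) • SUX5V.F2V arm J X F Q1 Q2 u) ?_
  · exact hΛ.image fun a _ b _ h => mul_left_cancel₀ hI0 h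
  · rintro ⟨r, hr, h⟩
    exact mul_ne_zero hI0 (hr0 r hr) h
  · rintro _ ⟨r, hr, rfl⟩ x hx
    obtain ⟨Y, β, γ, b, k, -, -, hb, -⟩ := hdata r hr x hx
    exact ⟨b, hb⟩
  · rintro _ ⟨r, hr, rfl⟩ x hx
    obtain ⟨Y, β, γ, b, k, -, -, -, -, hk, -⟩ := hdata r hr x hx
    exact ⟨k, hk⟩
  · rintro _ ⟨r, hr, rfl⟩ _ ⟨r', hr', rfl⟩ x be kk x' be' kk' hx hbe hkk hx' hbe' hkk'
    obtain ⟨Y, β, γ, b, k, hY, hd, hb, hb', hk, hk'⟩ := hdata r hr x hx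
    obtain ⟨Y', β', γ', bb, k', hY', hd', hbb, hbb', hkb, hkb'⟩ := hdata r' hr' x' hx'
    have hub : ∀ {ρ : K} (_ : ρ ≠ 0) {x b b'} (_ : RJZ.Cor (fun s => (A1 s).mulVecLin)
        (fun s => (A2 s).mulVecLin) (LinearMap.ker (Q1ᵀ * (J * X) * Q1).mulVecLin) (Zo Q1 Q2)
        (gF J X Q2) (-1) (ρ ^ 2) x b) (_ : RJZ.Cor (fun s => (A1 s).mulVecLin)
        (fun s => (A2 s).mulVecLin) (LinearMap.ker (Q1ᵀ * (J * X) * Q1).mulVecLin) (Zo Q1 Q2)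
        (gF J X Q2) (-1) (ρ ^ 2) x b'), ∀ p, b p - b' p ∈ Zo Q1 Q2 := by
      intro ρ hρ x b b' h h'
      exact SDesc.uniq_b (mul_ne_zero (neg_ne_zero.2 one_ne_zero) (pow_ne_zero 2 hρ)) h h'
        b2.blk.perf (fun t z hz => by
          rw [mulVecLin_apply]
          exact Zo_stable b1 b2 t z hz) b1.blk.kills
    have huk : ∀ {ρ : K} {x k k'} (_ : CorK (fun s => (A1 s).mulVecLin)
        (fun s => (A2 s).mulVecLin) (LinearMap.ker (Q2ᵀ * (J * X) * Q2).mulVecLin) (Zo Q2 Q1)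
        (gF J X Q1) (-1) (ρ ^ 2) x k) (_ : CorK (fun s => (A1 s).mulVecLin)
        (fun s => (A2 s).mulVecLin) (LinearMap.ker (Q2ᵀ * (J * X) * Q2).mulVecLin) (Zo Q2 Q1)
        (gF J X Q1) (-1) (ρ ^ 2) x k'), ∀ p, k p - k' p ∈ Zo Q2 Q1 := by
      intro ρ x k k' h h'
      exact SDesc.uniq_k (neg_ne_zero.2 one_ne_zero) h h' b1.blk.perf (fun t z hz => by
          rw [mulVecLin_apply]
          exact Zo_stable b2 b1 t z hz) b2.blk.kills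
    have c1 : ∀ y, (C1 * β) *ᵥ y - be (C2 *ᵥ y) ∈ Zo Q1 Q2 := by
      intro y
      have e1 := hb' y
      have e2 := hub (mul_ne_zero hI0 (hr0 r hr)) hbe hb (C2 *ᵥ y)
      have e3 := (Zo Q1 Q2).neg_mem ((Zo Q1 Q2).add_mem e2 e1)
      convert e3 using 1
      rw [← mulVec_mulVec]
      abel
    have c2 : ∀ y, (C1 * β') *ᵥ y - be' (C2 *ᵥ y) ∈ Zo Q1 Q2 := by
      intro y
      have e1 := hbb' y
      have e2 := hub (mul_ne_zero hI0 (hr0 r' hr')) hbe' hbb (C2 *ᵥ y)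
      have e3 := (Zo Q1 Q2).neg_mem ((Zo Q1 Q2).add_mem e2 e1)
      convert e3 using 1
      rw [← mulVec_mulVec]
      abel
    have c3 : ∀ y, (C2 * γ) *ᵥ y - kk (C1 *ᵥ y) ∈ Zo Q2 Q1 := by
      intro y
      have e1 := hk' y
      have e2 := huk hkk hk (C1 *ᵥ y)
      have e3 := (Zo Q2 Q1).neg_mem ((Zo Q2 Q1).add_mem e2 e1)
      convert e3 using 1
      rw [← mulVec_mulVec]
      abel
    have c4 : ∀ y, (C2 * γ') *ᵥ y - kk' (C1 *ᵥ y) ∈ Zo Q2 Q1 := by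
      intro y
      have e1 := hkb' y
      have e2 := huk hkk' hkb (C1 *ᵥ y)
      have e3 := (Zo Q2 Q1).neg_mem ((Zo Q2 Q1).add_mem e2 e1)
      convert e3 using 1
      rw [← mulVec_mulVec]
      abel
    have p11 := SUX5V.part11V (arm := arm) hU1 hU2 hS QQ hZq1 hqZ1
      (fun s => (tv_eq (x s)).trans (hY s)) (fun s => (tv_eq (x' s)).trans (hY' s)) c1 c2
    have p22 := SUX5V.part22V (arm := arm) hU1 hU2 hS QQ hZq2 hqZ2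
      (fun s => (tv_eq (x s)).trans (hY s)) (fun s => (tv_eq (x' s)).trans (hY' s)) be be' c3 c4
    have hR := hrel r hr r' hr' (Y, β, γ) (Y', β', γ') hd hd'
    unfold Rel2 at hR
    have h5 := QQ.sub_mem (QQ.sub_mem hR p11) (QQ.smul_mem r' p22)
    convert h5 using 1
    rw [LinearMap.smul_apply, smul_smul, smul_sub, show I * r' * -I = r' by
      rw [mul_neg, mul_comm (I * r') I, ← mul_assoc, hI, neg_one_mul, neg_neg]]
    simp only []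
    abel

end core

section top

variable {ι : Type} [Fintype ι] [DecidableEq ι] {δ : Type} [Fintype δ] [DecidableEq δ]
variable {K : Type} [Field K] [Algebra ℂ K] [IsAlgClosed K]
variable {arm : δ → Fin 3} {J : Matrix ι ι K} {B : Matrix δ δ K} {N W : Submodule K (Matrix ι δ K)}
  {F f : Matrix ι δ K} {P : Matrix ι ι K × (Fin 3 → Matrix ι ι K)} {R : Matrix δ ι K}
  {D : End K (CoreM (PhS arm J B F R P.1))} {l : Fin 3 → ℕ}

/-- the operators of the frame are perfect -/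
theorem frame_top (S : STop.Setup arm J B N W F f P R D l) {ν : K} {m : ℕ}
    {U : Matrix δ (Fin m) K} {a : Fin 3 → Matrix (Fin m) (Fin m) K}
    (hspan : ∀ u ∈ SInst.QQb S ν, ∃ x, u = U *ᵥ x) (hmem : ∀ x, U *ᵥ x ∈ SInst.QQb S ν)
    (hinj : ∀ x, U *ᵥ x = 0 → x = 0)
    (ha : ∀ s, B * E K arm s * (Fᵀ * J * (P.1 * F)) * U = U * a s) :
    ⨆ t, LinearMap.range (a t).mulVecLin = ⊤ := by
  rw [eq_top_iff]
  rintro x -
  obtain ⟨c, hc, hcs⟩ := UBlk.Qb_exists (S.hCtx F S.hF) S.hR S.hD (hmem x)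
  choose y hy using fun s => hspan (c s) (hc s)
  have e : x = ∑ s, (a s) *ᵥ (y s) := by
    have e1 : U *ᵥ (x - ∑ s, (a s) *ᵥ (y s)) = 0 := by
      rw [mulVec_sub, mulVec_sum, ← hcs, sub_eq_zero]
      refine Finset.sum_congr rfl fun s _ => ?_
      rw [hy s]
      change (B * E K arm s * (Fᵀ * J * (P.1 * F))) *ᵥ (U *ᵥ y s) = U *ᵥ (a s *ᵥ y s)
      rw [mulVec_mulVec, ha s, ← mulVec_mulVec]
    exact sub_eq_zero.1 (hinj _ e1)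
  rw [e]
  exact Submodule.sum_mem _ fun s _ =>
    Submodule.mem_iSup_of_mem s ⟨y s, by rw [mulVecLin_apply]⟩

/-- **LEVEL 2 from the geometric half** -/
theorem lev2_of (hg : SDec.Geo22) : STop.Lev2 := by
  intro ι _ _ δ _ _ K _ _ _ arm J B N W F f P R D l S ν ν' hne n1 n2 Q1 A1 Q2 A2 b1 b2
  obtain ⟨m1, U1, a1, hC1, hs1, hm1, hj1, ha1⟩ := SInst.exists_frame S ν
  obtain ⟨m2, U2, a2, hC2, hs2, hm2, hj2, ha2⟩ := SInst.exists_frame S ν'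
  obtain ⟨C1, e1, o1, i1, k1, -⟩ := SInst.exists_C S b1 hC1 hs1 hm1 ha1
  obtain ⟨C2, e2, o2, i2, k2, -⟩ := SInst.exists_C S b2 hC2 hs2 hm2 ha2
  obtain ⟨Λ, hΛ, h0, hgeo, hrel⟩ := hg S hne b1 b2 hC1 hs1 hj1 ha1 hC2 hs2 hj2 ha2
  obtain ⟨hG21, hG12⟩ := SLevA455.gens0 S hne b1 b2
  have hI : (algebraMap ℂ K Complex.I) * (algebraMap ℂ K Complex.I) = -1 := by
    rw [← map_mul, Complex.I_mul_I, map_neg, map_one]
  have ho : Q2ᵀ * (J * P.1) * Q1 = 0 := SCM.orth_mat (k := ℂ) (N := N) (W := W)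
    (S.hCtx F S.hF).data S.hR S.hP.1 S.hDB hne.symm b2.col b1.col
  have ho' : Q1ᵀ * (J * P.1) * Q2 = 0 := SCM.orth_mat (k := ℂ) (N := N) (W := W)
    (S.hCtx F S.hF).data S.hR S.hP.1 S.hDB hne b1.col b2.col
  refine SLevA455.gens_of S b1 b1 ?_
  exact core b1 b2 e1 e2 o1 o2 i1 i2 (fun s x hx => hj1 _ (k1 s x hx))
    (fun s x hx => hj2 _ (k2 s x hx)) (frame_top S hs1 hm1 hj1 ha1) (frame_top S hs2 hm2 hj2 ha2)
    rfl ho ho' hG21 hG12 hI hΛ h0 hgeo hrel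

end top

end Crest.Agent.R172.SLevB926
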