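import Crest.Agent.R172.SDecC926
import Crest.Agent.R172.SInst896
import Crest.Agent.R172.SLev3
import Crest.Agent.R172.SUX5V
import Crest.Agent.R172.SDesc99
import Crest.Agent.R172.SGl2
import Crest.Agent.R172.SLev1

/-!
Row 172 (S0260), tame node (t2), LEVEL 2, abstract half:
`lev2_of : SDecC.Lev1Q → SDecC.Geo2C → STop.Lev2`.
-/

set_option autoImplicit false
set_option linter.unusedSectionVars false
set_option linter.unusedVariables false

namespace Crest.Agent.R172.SLevB952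

open Matrix Module TensorProduct Crest.Agent.R172.FO Crest.Agent.R172.Qt Crest.Agent.R172.SpS
open Crest.Agent.R172.SEnd2 (PC PhS)
open Crest.Agent.R172.SUX (D3 th)
open Crest.Agent.R172.PL (CoreM)
open Crest.Agent.R172.SDec Crest.Agent.R172.SCM
open Crest.Agent.R172.SLev0 (QG bq bq_apply gF gF_apply PbK coord_mem exists_coord)
open Crest.Agent.R172.SUX5V (tv)

section tens

variable {K : Type*} [Field K] {m1 m2 n1 n2 : ℕ}

theorem tv_tmul (x : Fin n2 → K) (y : Fin n1 → K) : tv K n1 n2 (x ⊗ₜ[K] y) = vecMulVec x y := by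
  rw [SUX5.tm_tmul, Pi.basisFun_equivFun, Pi.basisFun_equivFun]; rfl

theorem tv_map (C1 : Matrix (Fin n1) (Fin m1) K) (C2 : Matrix (Fin n2) (Fin m2) K)
    (z : (Fin m2 → K) ⊗[K] (Fin m1 → K)) :
    tv K n1 n2 (TensorProduct.map C2.mulVecLin C1.mulVecLin z) = C2 * tv K m1 m2 z * C1ᵀ := by
  induction z using TensorProduct.induction_on with
  | zero => simp
  | tmul x y =>
    rw [TensorProduct.map_tmul, tv_tmul, tv_tmul, mulVecLin_apply, mulVecLin_apply, mul_vecMulVec,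
      vecMulVec_mul, vecMul_transpose]
  | add x y hx hy => simp only [map_add, hx, hy, Matrix.mul_add, Matrix.add_mul]

theorem tv_l (a : Matrix (Fin m1) (Fin m1) K) (z : (Fin m2 → K) ⊗[K] (Fin m1 → K)) :
    tv K m1 m2 (a.mulVecLin.lTensor (Fin m2 → K) z) = tv K m1 m2 z * aᵀ := by
  induction z using TensorProduct.induction_on with
  | zero => simp
  | tmul x y =>
    rw [LinearMap.lTensor_tmul, tv_tmul, tv_tmul, mulVecLin_apply, vecMulVec_mul, vecMul_transpose]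
  | add x y hx hy => simp only [map_add, hx, hy, Matrix.add_mul]

theorem tv_r (a : Matrix (Fin m2) (Fin m2) K) (z : (Fin m2 → K) ⊗[K] (Fin m1 → K)) :
    tv K m1 m2 (a.mulVecLin.rTensor (Fin m1 → K) z) = a * tv K m1 m2 z := by
  induction z using TensorProduct.induction_on with
  | zero => simp
  | tmul x y =>
    rw [LinearMap.rTensor_tmul, tv_tmul, tv_tmul, mulVecLin_apply, mul_vecMulVec]
  | add x y hx hy => simp only [map_add, hx, hy, Matrix.mul_add]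

theorem tv_DD (a : Fin 3 → Matrix (Fin m1) (Fin m1) K) (b : Fin 3 → Matrix (Fin m2) (Fin m2) K)
    (c : K) (t : Fin 3) (z : (Fin m2 → K) ⊗[K] (Fin m1 → K)) :
    tv K m1 m2 (RJM.DD (fun s => (a s).mulVecLin) (fun s => (b s).mulVecLin) c t z) =
      tv K m1 m2 z * (a t)ᵀ - c • (b t * tv K m1 m2 z) := by
  unfold RJM.DD
  rw [LinearMap.sub_apply, LinearMap.smul_apply, map_sub, map_smul, tv_l, tv_r]

/-- radical tensors are killed by the Gram matrices -/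
theorem tv_rad {G1 : Matrix (Fin n1) (Fin n1) K} {G2 : Matrix (Fin n2) (Fin n2) K}
    (hs : G1ᵀ = -G1) (w : (Fin n2 → K) ⊗[K] (Fin n1 → K))
    (hw : w ∈ (RJM.RT (LinearMap.ker G2.mulVecLin) ⊔ RJM.TR (LinearMap.ker G1.mulVecLin) :
      Submodule K ((Fin n2 → K) ⊗[K] (Fin n1 → K)))) : G2 * tv K n1 n2 w * G1 = 0 := by
  obtain ⟨a, ha, b, hb, rfl⟩ := Submodule.mem_sup.1 hw
  clear hw
  rw [map_add, Matrix.mul_add, Matrix.add_mul]
  have e1 : G2 * tv K n1 n2 a * G1 = 0 := by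
    unfold RJM.RT at ha
    induction ha using Submodule.span_induction with
    | mem y h =>
      obtain ⟨r, hr, p, rfl⟩ := h
      rw [LinearMap.mem_ker, mulVecLin_apply] at hr
      rw [tv_tmul, mul_vecMulVec, hr, zero_vecMulVec, Matrix.zero_mul]
    | zero => simp
    | add a b _ _ ha hb => rw [map_add, Matrix.mul_add, Matrix.add_mul, ha, hb, add_zero]
    | smul c a _ ha => rw [map_smul, Matrix.mul_smul, Matrix.smul_mul, ha, smul_zero]
  have e2 : G2 * tv K n1 n2 b * G1 = 0 := by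
    unfold RJM.TR at hb
    induction hb using Submodule.span_induction with
    | mem y h =>
      obtain ⟨p, r, hr, rfl⟩ := h
      rw [LinearMap.mem_ker, mulVecLin_apply] at hr
      have h0 : r ᵥ* G1 = 0 := by
        rw [← mulVec_transpose, hs, neg_mulVec, hr, neg_zero]
      have h1 : vecMulVec p (r ᵥ* G1) = 0 := by
        rw [h0]; ext i j; simp [vecMulVec_apply]
      rw [tv_tmul, Matrix.mul_assoc, vecMulVec_mul, h1, Matrix.mul_zero]
    | zero => simp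
    | add a b _ _ ha hb => rw [map_add, Matrix.mul_add, Matrix.add_mul, ha, hb, add_zero]
    | smul c a _ ha => rw [map_smul, Matrix.mul_smul, Matrix.smul_mul, ha, smul_zero]
  rw [e1, e2, add_zero]

end tens

section pencil

variable {ι : Type*} [Fintype ι] [DecidableEq ι] {δ : Type*} [Fintype δ] [DecidableEq δ]
variable {K : Type*} [Field K] {m1 m2 n1 n2 : ℕ}
variable (arm : δ → Fin 3) (F : Matrix ι δ K) (S0 : Matrix δ δ K) (U1 : Matrix δ (Fin m1) K)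
  (U2 : Matrix δ (Fin m2) K) (a1 : Fin 3 → Matrix (Fin m1) (Fin m1) K)
  (a2 : Fin 3 → Matrix (Fin m2) (Fin m2) K) (C1 : Matrix (Fin n1) (Fin m1) K)
  (C2 : Matrix (Fin n2) (Fin m2) K) (Z : Submodule K (Fin n1 → K))

/-- the space of `((x, b), v)` -/
abbrev UU (K : Type*) [Field K] (m1 m2 n1 n2 : ℕ) :=
  RJP.Pr K (Fin n1 → K) (Fin n2 → K) (Fin 3) × D3 K (Fin m1) (Fin m2)

/-- the values of the pencil -/
abbrev GG (K ι : Type*) [Field K] (m1 m2 n1 n2 : ℕ) (Z : Submodule K (Fin n1 → K)) :=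
  (Matrix (Fin m2) (Fin m1) K × (Fin 3 → Matrix (Fin m2) (Fin m1) K)) ×
  (Matrix (Fin m1) (Fin m2) K × Matrix (Fin m2) (Fin m1) K) ×
  ((Fin 3 → Matrix ι (Fin m2) K) × (Fin 3 → Matrix ι (Fin m1) K)) ×
  ((Fin 3 → Matrix (Fin n2) (Fin n1) K) × ((Fin m2 → K) →ₗ[K] ((Fin n1 → K) ⧸ Z)))

/-- first part -/
noncomputable def alA : UU K m1 m2 n1 n2 →ₗ[K] GG K ι m1 m2 n1 n2 Z where
  toFun u := ((∑ s, u.2.1 s * (a1 s)ᵀ,
      fun s => (U2ᵀ * S0 * U2) * (u.2.1 s * (a1 s)ᵀ) * (U1ᵀ * S0 * U1)),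
    ((U1ᵀ * S0 * U1) * u.2.2.1, (U2ᵀ * S0 * U2) * u.2.2.2),
    (fun s => F * (U1 * (a1 s * (u.2.2.1 - (u.2.1 s)ᵀ * (U2ᵀ * S0 * U2)))),
      fun s => F * (U2 * ((u.2.2.2 - u.2.1 s * (U1ᵀ * S0 * U1)) * a1 s))),
    (fun s => tv K n1 n2 (u.1.1 s) - C2 * u.2.1 s * C1ᵀ,
      Z.mkQ ∘ₗ ((C1 * u.2.2.1).mulVecLin - u.1.2 ∘ₗ C2.mulVecLin)))
  map_add' u v := by
    refine Prod.ext (Prod.ext ?_ ?_) (Prod.ext (Prod.ext ?_ ?_) (Prod.ext (Prod.ext ?_ ?_)
      (Prod.ext ?_ ?_)))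
    · simp only [Prod.snd_add, Prod.fst_add, Pi.add_apply, Matrix.add_mul, Finset.sum_add_distrib]
    · funext s
      simp only [Prod.snd_add, Prod.fst_add, Pi.add_apply, Matrix.add_mul, Matrix.mul_add]
    · simp only [Prod.snd_add, Prod.fst_add, Matrix.mul_add]
    · simp only [Prod.snd_add, Prod.fst_add, Matrix.mul_add]
    · funext s
      simp only [Prod.snd_add, Prod.fst_add, Pi.add_apply, Matrix.add_mul, Matrix.mul_add,
        Matrix.mul_sub, transpose_add]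
      abel
    · funext s
      simp only [Prod.snd_add, Prod.fst_add, Pi.add_apply, Matrix.add_mul, Matrix.mul_add,
        Matrix.mul_sub, Matrix.sub_mul]
      abel
    · funext s
      simp only [Prod.snd_add, Prod.fst_add, Pi.add_apply, Matrix.add_mul, Matrix.mul_add, map_add]
      abel
    · simp only [Prod.snd_add, Prod.fst_add, Matrix.mul_add, mulVecLin_add, LinearMap.add_comp]
      rw [← LinearMap.comp_add]
      congr 1
      abel
  map_smul' c u := by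
    refine Prod.ext (Prod.ext ?_ ?_) (Prod.ext (Prod.ext ?_ ?_) (Prod.ext (Prod.ext ?_ ?_)
      (Prod.ext ?_ ?_)))
    · simp only [Prod.smul_snd, Prod.smul_fst, Pi.smul_apply, Matrix.smul_mul, Finset.smul_sum,
        RingHom.id_apply]
    · funext s
      simp only [Prod.smul_snd, Prod.smul_fst, Pi.smul_apply, Matrix.smul_mul, Matrix.mul_smul,
        RingHom.id_apply]
    · simp only [Prod.smul_snd, Prod.smul_fst, Matrix.mul_smul, RingHom.id_apply]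
    · simp only [Prod.smul_snd, Prod.smul_fst, Matrix.mul_smul, RingHom.id_apply]
    · funext s
      simp only [Prod.smul_snd, Prod.smul_fst, Pi.smul_apply, Matrix.smul_mul, Matrix.mul_smul,
        transpose_smul, ← smul_sub, RingHom.id_apply]
    · funext s
      simp only [Prod.smul_snd, Prod.smul_fst, Pi.smul_apply, Matrix.smul_mul, Matrix.mul_smul,
        ← smul_sub, RingHom.id_apply]
    · funext s
      simp only [Prod.smul_snd, Prod.smul_fst, Pi.smul_apply, Matrix.smul_mul, Matrix.mul_smul,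
        map_smul, ← smul_sub, RingHom.id_apply]
    · refine LinearMap.ext fun y => ?_
      change Z.mkQ ((C1 * (c • u.2.2.1)) *ᵥ y - (c • u.1.2) (C2 *ᵥ y)) =
        c • Z.mkQ ((C1 * u.2.2.1) *ᵥ y - u.1.2 (C2 *ᵥ y))
      rw [← map_smul, smul_sub, Matrix.mul_smul, smul_mulVec, LinearMap.smul_apply]

/-- second part -/
noncomputable def beA : UU K m1 m2 n1 n2 →ₗ[K] GG K ι m1 m2 n1 n2 Z where
  toFun u := ((∑ s, a2 s * u.2.1 s,
      fun s => (U2ᵀ * S0 * U2) * (a2 s * u.2.1 s) * (U1ᵀ * S0 * U1)),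
    (0, 0),
    (fun s => -(F * (U1 * ((u.2.2.1 - (u.2.1 s)ᵀ * (U2ᵀ * S0 * U2)) * a2 s))),
      fun s => -(F * (U2 * (a2 s * (u.2.2.2 - u.2.1 s * (U1ᵀ * S0 * U1)))))),
    (0, 0))
  map_add' u v := by
    refine Prod.ext (Prod.ext ?_ ?_) (Prod.ext (Prod.ext ?_ ?_) (Prod.ext (Prod.ext ?_ ?_)
      (Prod.ext ?_ ?_)))
    · simp only [Prod.snd_add, Prod.fst_add, Pi.add_apply, Matrix.mul_add, Finset.sum_add_distrib]
    · funext s
      simp only [Prod.snd_add, Prod.fst_add, Pi.add_apply, Matrix.add_mul, Matrix.mul_add]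
    · simp
    · simp
    · funext s
      simp only [Prod.snd_add, Prod.fst_add, Pi.add_apply, Matrix.add_mul, Matrix.mul_add,
        Matrix.mul_sub, Matrix.sub_mul, transpose_add]
      abel
    · funext s
      simp only [Prod.snd_add, Prod.fst_add, Pi.add_apply, Matrix.add_mul, Matrix.mul_add,
        Matrix.mul_sub, Matrix.sub_mul]
      abel
    · simp
    · simp
  map_smul' c u := by
    refine Prod.ext (Prod.ext ?_ ?_) (Prod.ext (Prod.ext ?_ ?_) (Prod.ext (Prod.ext ?_ ?_)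
      (Prod.ext ?_ ?_)))
    · simp only [Prod.smul_snd, Prod.smul_fst, Pi.smul_apply, Matrix.mul_smul, Finset.smul_sum,
        RingHom.id_apply]
    · funext s
      simp only [Prod.smul_snd, Prod.smul_fst, Pi.smul_apply, Matrix.smul_mul, Matrix.mul_smul,
        RingHom.id_apply]
    · simp
    · simp
    · funext s
      simp only [Prod.smul_snd, Prod.smul_fst, Pi.smul_apply, Matrix.smul_mul, Matrix.mul_smul,
        transpose_smul, ← smul_sub, smul_neg, RingHom.id_apply]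
    · funext s
      simp only [Prod.smul_snd, Prod.smul_fst, Pi.smul_apply, Matrix.smul_mul, Matrix.mul_smul,
        ← smul_sub, smul_neg, RingHom.id_apply]
    · simp
    · simp

theorem pencil_iff (c : K) (u : UU K m1 m2 n1 n2) :
    alA F S0 U1 U2 a1 C1 C2 Z u = c • beA F S0 U1 U2 a2 Z u ↔
      Dec F S0 U1 U2 a1 a2 c u.2 ∧ (∀ s, tv K n1 n2 (u.1.1 s) = C2 * u.2.1 s * C1ᵀ) ∧
        ∀ y, (C1 * u.2.2.1) *ᵥ y - u.1.2 (C2 *ᵥ y) ∈ Z := by
  constructor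
  · intro h
    have h1 := congrArg (fun z => z.1.1) h
    have h2 := congrArg (fun z => z.1.2) h
    have h3 := congrArg (fun z => z.2.1.1) h
    have h4 := congrArg (fun z => z.2.1.2) h
    have h5 := congrArg (fun z => z.2.2.1.1) h
    have h6 := congrArg (fun z => z.2.2.1.2) h
    have h7 := congrArg (fun z => z.2.2.2.1) h
    have h8 := congrArg (fun z => z.2.2.2.2) h
    refine ⟨⟨?_, fun s => ?_, ?_, ?_, fun s => ?_, fun s => ?_⟩, fun s => ?_, fun y => ?_⟩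
    · change ∑ s, u.2.1 s * (a1 s)ᵀ = c • ∑ s, a2 s * u.2.1 s at h1
      rw [Finset.sum_sub_distrib, ← Finset.smul_sum, h1, sub_self]
    · have := congrFun h2 s
      change (U2ᵀ * S0 * U2) * (u.2.1 s * (a1 s)ᵀ) * (U1ᵀ * S0 * U1) =
        c • ((U2ᵀ * S0 * U2) * (a2 s * u.2.1 s) * (U1ᵀ * S0 * U1)) at this
      rw [Matrix.mul_sub, Matrix.sub_mul, this, Matrix.mul_smul, Matrix.smul_mul, sub_self]
    · change (U1ᵀ * S0 * U1) * u.2.2.1 = c • (0 : Matrix (Fin m1) (Fin m2) K) at h3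
      rw [h3, smul_zero]
    · change (U2ᵀ * S0 * U2) * u.2.2.2 = c • (0 : Matrix (Fin m2) (Fin m1) K) at h4
      rw [h4, smul_zero]
    · have := congrFun h5 s
      change F * (U1 * (a1 s * (u.2.2.1 - (u.2.1 s)ᵀ * (U2ᵀ * S0 * U2)))) =
        c • (-(F * (U1 * ((u.2.2.1 - (u.2.1 s)ᵀ * (U2ᵀ * S0 * U2)) * a2 s)))) at this
      rw [Matrix.mul_add, Matrix.mul_add, this, Matrix.mul_smul, Matrix.mul_smul, smul_neg,
        neg_add_cancel]
    · have := congrFun h6 s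
      change F * (U2 * ((u.2.2.2 - u.2.1 s * (U1ᵀ * S0 * U1)) * a1 s)) =
        c • (-(F * (U2 * (a2 s * (u.2.2.2 - u.2.1 s * (U1ᵀ * S0 * U1)))))) at this
      rw [Matrix.mul_add, Matrix.mul_add, this, Matrix.mul_smul, Matrix.mul_smul, smul_neg,
        add_neg_cancel]
    · have := congrFun h7 s
      change tv K n1 n2 (u.1.1 s) - C2 * u.2.1 s * C1ᵀ = c • (0 : Matrix (Fin n2) (Fin n1) K) at this
      rw [smul_zero] at this
      exact sub_eq_zero.1 this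
    · have := LinearMap.congr_fun h8 y
      change Z.mkQ ((C1 * u.2.2.1) *ᵥ y - u.1.2 (C2 *ᵥ y)) = c • (0 : (Fin n1 → K) ⧸ Z) at this
      rw [smul_zero] at this
      exact (Submodule.Quotient.mk_eq_zero Z).1 this
  · rintro ⟨hd, h7, h8⟩
    refine Prod.ext (Prod.ext ?_ ?_) (Prod.ext (Prod.ext ?_ ?_) (Prod.ext (Prod.ext ?_ ?_)
      (Prod.ext ?_ ?_)))
    · have := hd.sum
      rw [Finset.sum_sub_distrib, ← Finset.smul_sum, sub_eq_zero] at this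
      exact this
    · funext s
      have := hd.arm s
      rw [Matrix.mul_sub, Matrix.sub_mul, Matrix.mul_smul, Matrix.smul_mul, sub_eq_zero] at this
      exact this
    · exact hd.rb.trans (smul_zero c).symm
    · exact hd.rk.trans (smul_zero c).symm
    · funext s
      have := hd.cb s
      rw [Matrix.mul_add, Matrix.mul_add, Matrix.mul_smul, Matrix.mul_smul] at this
      exact (eq_neg_of_add_eq_zero_left this).trans (smul_neg _ _).symm
    · funext s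
      have := hd.ck s
      rw [Matrix.mul_add, Matrix.mul_add, Matrix.mul_smul, Matrix.mul_smul] at this
      exact (eq_neg_of_add_eq_zero_right this).trans (smul_neg _ _).symm
    · funext s
      exact (sub_eq_zero.2 (h7 s)).trans (smul_zero c).symm
    · refine LinearMap.ext fun y => ?_
      exact ((Submodule.Quotient.mk_eq_zero Z).2 (h8 y)).trans (smul_zero c).symm

/-- the `22`-part, times `κ` -/
noncomputable def F2 (κ : K) (u : UU K m1 m2 n1 n2) : UU K m1 m2 n1 n2 →ₗ[K] Matrix ι δ K where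
  toFun v := κ • ∑ s, F * (U2 * (u.2.1 s * v.2.2.2ᵀ + u.2.1 s * (U1ᵀ * S0 * U1) * (v.2.1 s)ᵀ
      - u.2.2.2 * (v.2.1 s)ᵀ) * U2ᵀ) * S0 * E K arm s
  map_add' v w := by
    rw [← smul_add, ← Finset.sum_add_distrib]
    congr 1
    refine Finset.sum_congr rfl fun s _ => ?_
    simp only [Prod.snd_add, Prod.fst_add, Pi.add_apply, transpose_add, Matrix.mul_add,
      Matrix.add_mul, Matrix.mul_sub, Matrix.sub_mul]
    abel
  map_smul' c v := by
    rw [RingHom.id_apply, smul_comm c κ]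
    refine congrArg (fun z : Matrix ι δ K => κ • z) ?_
    rw [Finset.smul_sum]
    refine Finset.sum_congr rfl fun s _ => ?_
    simp only [Prod.smul_snd, Prod.smul_fst, Pi.smul_apply, transpose_smul, Matrix.mul_smul,
      Matrix.smul_mul, ← smul_add, ← smul_sub]

end pencil


section main

variable {ι : Type} [Fintype ι] [DecidableEq ι] {δ : Type} [Fintype δ] [DecidableEq δ]
variable {K : Type} [Field K] [Algebra ℂ K] [IsAlgClosed K]
variable {arm : δ → Fin 3} {J : Matrix ι ι K} {B : Matrix δ δ K} {N W : Submodule K (Matrix ι δ K)}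
  {F f : Matrix ι δ K} {P : Matrix ι ι K × (Fin 3 → Matrix ι ι K)} {R : Matrix δ ι K}
  {D : End K (CoreM (PhS arm J B F R P.1))} {l : Fin 3 → ℕ}

/-- the good class -/
abbrev QQ (arm : δ → Fin 3) (J : Matrix ι ι K) (B : Matrix δ δ K)
    (N W : Submodule K (Matrix ι δ K)) (F : Matrix ι δ K)
    (P : Matrix ι ι K × (Fin 3 → Matrix ι ι K)) (R : Matrix δ ι K)
    (D : End K (CoreM (PhS arm J B F R P.1))) : Submodule K (Matrix ι δ K) :=
  QG arm J B N W F P (PC arm J B F R P.1) (fun μ : K => PbK arm J B F R P.1 D μ) id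

/-- `P_1 ∩ P_2` in the coordinates of `P_1` -/
def Z12 {n1 n2 : ℕ} (Q1 : Matrix ι (Fin n1) K) (Q2 : Matrix ι (Fin n2) K) :
    Submodule K (Fin n1 → K) := (LinearMap.range Q2.mulVecLin).comap Q1.mulVecLin

theorem mem_Z12 {n1 n2 : ℕ} {Q1 : Matrix ι (Fin n1) K} {Q2 : Matrix ι (Fin n2) K}
    {x : Fin n1 → K} : x ∈ Z12 Q1 Q2 ↔ ∃ y, Q2 *ᵥ y = Q1 *ᵥ x := Iff.rfl

theorem Z12_st {n1 n2 : ℕ} {Q1 : Matrix ι (Fin n1) K} {Q2 : Matrix ι (Fin n2) K}
    {A1 : Fin 3 → Matrix (Fin n1) (Fin n1) K} {A2 : Fin 3 → Matrix (Fin n2) (Fin n2) K} {ν ν' : K}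
    (b : BPkg arm J B F R P.1 D ν l Q1 A1) (b' : BPkg arm J B F R P.1 D ν' l Q2 A2) (t : Fin 3)
    (z : Fin n1 → K) (hz : z ∈ Z12 Q1 Q2) : A1 t *ᵥ z ∈ Z12 Q1 Q2 := by
  obtain ⟨y, hy⟩ := mem_Z12.1 hz
  refine mem_Z12.2 ⟨A2 t *ᵥ y, ?_⟩
  rw [mulVec_mulVec, ← b'.act t, ← mulVec_mulVec, hy, mulVec_mulVec, b.act t, mulVec_mulVec]

/-- the overlap is harmless -/
theorem Z12_rd (S : STop.Setup arm J B N W F f P R D l) {ν ν' : K} (hne : ν ≠ ν')
    {n1 n2 : ℕ} {Q1 : Matrix ι (Fin n1) K} {Q2 : Matrix ι (Fin n2) K}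
    {A1 : Fin 3 → Matrix (Fin n1) (Fin n1) K} {A2 : Fin 3 → Matrix (Fin n2) (Fin n2) K}
    (b : BPkg arm J B F R P.1 D ν l Q1 A1) (b' : BPkg arm J B F R P.1 D ν' l Q2 A2)
    {z : Fin n1 → K} (hz : z ∈ Z12 Q1 Q2) :
    Q1 *ᵥ z ∈ SEnd.Rd (J * P.1) (PbK arm J B F R P.1 D ν') := by
  obtain ⟨y, hy⟩ := mem_Z12.1 hz
  refine ⟨by rw [← hy]; exact coord_mem b' y, ?_⟩
  rintro _ ⟨v, hv, rfl⟩
  obtain ⟨w, hw, hwz⟩ := b.mem z
  rw [← hwz]
  exact SCM.orth (k := ℂ) (N := N) (W := W) (S.hCtx F S.hF).data S.hR S.hP.1 S.hDB hne.symm hv hw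

/-- **exact families lift and are decorated** -/
theorem exists_v (S : STop.Setup arm J B N W F f P R D l) {ν ν' : K}
    {n1 n2 m1 m2 : ℕ} {Q1 : Matrix ι (Fin n1) K} {Q2 : Matrix ι (Fin n2) K}
    {A1 : Fin 3 → Matrix (Fin n1) (Fin n1) K} {A2 : Fin 3 → Matrix (Fin n2) (Fin n2) K}
    (b : BPkg arm J B F R P.1 D ν l Q1 A1) (b' : BPkg arm J B F R P.1 D ν' l Q2 A2)
    {U1 : Matrix δ (Fin m1) K} {U2 : Matrix δ (Fin m2) K}
    {a1 : Fin 3 → Matrix (Fin m1) (Fin m1) K} {a2 : Fin 3 → Matrix (Fin m2) (Fin m2) K}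
    {C1 : Matrix (Fin n1) (Fin m1) K} {C2 : Matrix (Fin n2) (Fin m2) K}
    (u : SInst896.UB arm J B F P.1 (UBlk.Qb (S.hCtx F S.hF).data S.hR P.1 D ν) Q1 A1 U1 a1 C1)
    (u' : SInst896.UB arm J B F P.1 (UBlk.Qb (S.hCtx F S.hF).data S.hR P.1 D ν') Q2 A2 U2 a2 C2)
    {c : K} (hc : c ≠ 0)
    (hex : ∀ X : Fin 3 → Matrix (Fin m2) (Fin m1) K,
        ∑ s, (X s * (a1 s)ᵀ - c • (a2 s * X s)) = 0 →
        (∀ s, (U2ᵀ * (Fᵀ * J * (P.1 * F)) * U2) * (X s * (a1 s)ᵀ - c • (a2 s * X s)) *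
          (U1ᵀ * (Fᵀ * J * (P.1 * F)) * U1) = 0) →
        ∃ β γ, Dec F (Fᵀ * J * (P.1 * F)) U1 U2 a1 a2 c (X, β, γ) ∧
          ∀ κ : Fin m2 → K, F *ᵥ (U2 *ᵥ κ) = 0 →
            ∃ κ2 : Fin m2 → K, F *ᵥ (U1 *ᵥ (β *ᵥ κ)) = F *ᵥ (U2 *ᵥ κ2))
    (x : Fin 3 → (Fin n2 → K) ⊗[K] (Fin n1 → K))
    (hx : RJM.Ex (fun s => (A1 s).mulVecLin) (fun s => (A2 s).mulVecLin)
        (LinearMap.ker (Q1ᵀ * (J * P.1) * Q1).mulVecLin)
        (LinearMap.ker (Q2ᵀ * (J * P.1) * Q2).mulVecLin) c x) :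
    ∃ v : D3 K (Fin m1) (Fin m2), Dec F (Fᵀ * J * (P.1 * F)) U1 U2 a1 a2 c v ∧
      (∀ s, tv K n1 n2 (x s) = C2 * v.1 s * C1ᵀ) ∧
      (∀ y, C2 *ᵥ y = 0 → C1 *ᵥ (v.2.1 *ᵥ y) ∈ Z12 Q1 Q2) ∧
      (∀ y, C1 *ᵥ (v.2.1 *ᵥ y) ∈ LinearMap.ker (Q1ᵀ * (J * P.1) * Q1).mulVecLin) ∧
      ∀ t y, ((A1 t).mulVec (C1.mulVec (v.2.1.mulVec y)) -
        ((-1 : K) * c) • C1.mulVec (v.2.1.mulVec ((a2 t).mulVec y)))
      - ((A1 t).mulVec (RJM.ev (gF J P.1 Q2) (x t) (C2.mulVec y)) -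
        ((-1 : K) * c) • RJM.ev (gF J P.1 Q2) (x t) ((A2 t).mulVec (C2.mulVec y))) = 0 := by
  set S0 : Matrix δ δ K := Fᵀ * J * (P.1 * F) with hS0
  have g1e : U1ᵀ * S0 * U1 = C1ᵀ * (Q1ᵀ * (J * P.1) * Q1) * C1 := SUX5V.gram_eq u.gU hS0
  have g2e : U2ᵀ * S0 * U2 = C2ᵀ * (Q2ᵀ * (J * P.1) * Q2) * C2 := SUX5V.gram_eq u'.gU hS0
  obtain ⟨z, hz1, hz2⟩ := SGl1.lift_exact
    (a := fun r => (a1 r).mulVecLin) (b := fun r => (a2 r).mulVecLin)
    (A := fun r => (A1 r).mulVecLin) (Bo := fun r => (A2 r).mulVecLin)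
    C1.mulVecLin C2.mulVecLin u.onto u'.onto
    (fun t y => by simp only [mulVecLin_apply, mulVec_mulVec]; rw [u.act])
    (fun t y => by simp only [mulVecLin_apply, mulVec_mulVec]; rw [u'.act])
    (fun t y hy => u.ker y hy t) (fun t y hy => u'.ker y hy t)
    (fun q => by obtain ⟨c, hc⟩ := u.perf q; exact ⟨c, hc.symm⟩)
    (fun q => by obtain ⟨c, hc⟩ := u'.perf q; exact ⟨c, hc.symm⟩) hc x hx.sum
  set X : Fin 3 → Matrix (Fin m2) (Fin m1) K := fun s => tv K m1 m2 (z s) with hX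
  have hxX : ∀ s, tv K n1 n2 (x s) = C2 * X s * C1ᵀ := by
    intro s
    rw [← hz1 s, tv_map]
  have e1 : ∑ s, (X s * (a1 s)ᵀ - c • (a2 s * X s)) = 0 := by
    have h1 := congrArg (tv K m1 m2) hz2
    rw [map_sum, map_zero] at h1
    rw [← h1]
    exact Finset.sum_congr rfl fun s _ => (tv_DD a1 a2 c s (z s)).symm
  have e2 : ∀ s, (U2ᵀ * S0 * U2) * (X s * (a1 s)ᵀ - c • (a2 s * X s)) * (U1ᵀ * S0 * U1) = 0 := by
    intro s
    have h1 := tv_rad b.skew _ (hx.arm s)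
    rw [tv_DD, hxX] at h1
    have h2 : C2 * X s * C1ᵀ * (A1 s)ᵀ - c • (A2 s * (C2 * X s * C1ᵀ)) =
        C2 * (X s * (a1 s)ᵀ - c • (a2 s * X s)) * C1ᵀ := by
      have h3 : C1ᵀ * (A1 s)ᵀ = (a1 s)ᵀ * C1ᵀ := by rw [← transpose_mul, u.act, transpose_mul]
      rw [Matrix.mul_assoc _ C1ᵀ, h3, ← Matrix.mul_assoc (A2 s), ← Matrix.mul_assoc (A2 s), u'.act]
      rw [Matrix.mul_sub, Matrix.sub_mul, Matrix.mul_smul, Matrix.smul_mul]
      simp only [Matrix.mul_assoc]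
    rw [h2] at h1
    rw [g1e, g2e]
    calc C2ᵀ * (Q2ᵀ * (J * P.1) * Q2) * C2 * (X s * (a1 s)ᵀ - c • (a2 s * X s)) *
          (C1ᵀ * (Q1ᵀ * (J * P.1) * Q1) * C1)
        = C2ᵀ * ((Q2ᵀ * (J * P.1) * Q2) * (C2 * (X s * (a1 s)ᵀ - c • (a2 s * X s)) * C1ᵀ) *
          (Q1ᵀ * (J * P.1) * Q1)) * C1 := by simp only [Matrix.mul_assoc]
      _ = 0 := by rw [h1, Matrix.mul_zero, Matrix.zero_mul]
  obtain ⟨β, γ, hdec, hker⟩ := hex X e1 e2
  have hinj : ∀ M : Matrix (Fin n1) (Fin m2) K, Q1 * M = 0 → M = 0 := by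
    intro M hM
    ext i j
    have h1 : Q1 *ᵥ (M *ᵥ Pi.single j 1) = 0 := by rw [mulVec_mulVec, hM, zero_mulVec]
    have h2 := congrFun (b.inj _ h1) i
    simpa using h2
  refine ⟨(X, β, γ), hdec, hxX, fun y hy => ?_, fun y => ?_, fun t y => ?_⟩
  · obtain ⟨κ2, hκ⟩ := hker y (by
      rw [mulVec_mulVec, u'.gU, ← mulVec_mulVec, hy, mulVec_zero])
    refine mem_Z12.2 ⟨C2 *ᵥ κ2, ?_⟩
    rw [mulVec_mulVec, ← u'.gU, ← mulVec_mulVec, ← hκ, mulVec_mulVec, u.gU, ← mulVec_mulVec]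
  · rw [LinearMap.mem_ker, mulVecLin_apply]
    have h1 : C1ᵀ * ((Q1ᵀ * (J * P.1) * Q1) * C1 * β) = 0 := by
      have := hdec.rb
      rw [g1e] at this
      rw [← this]
      simp only [Matrix.mul_assoc]
    have h2 : ((Q1ᵀ * (J * P.1) * Q1) *ᵥ (C1 *ᵥ (β *ᵥ y))) = ((Q1ᵀ * (J * P.1) * Q1) * C1 * β) *ᵥ y := by
      simp only [mulVec_mulVec, Matrix.mul_assoc]
    rw [h2]
    have h3 : C1ᵀ *ᵥ (((Q1ᵀ * (J * P.1) * Q1) * C1 * β) *ᵥ y) = 0 := by
      rw [mulVec_mulVec, h1, zero_mulVec]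
    funext i
    obtain ⟨w, hw⟩ := u.onto (Pi.single i 1)
    have h4 : (C1 *ᵥ w) ⬝ᵥ (((Q1ᵀ * (J * P.1) * Q1) * C1 * β) *ᵥ y) = 0 := by
      rw [← vecMul_transpose, ← dotProduct_mulVec, h3, dotProduct_zero]
    rw [hw, single_one_dotProduct] at h4
    exact h4
  · have hcb := hdec.cb t
    have h1 : C1 * (a1 t * (β - (X t)ᵀ * (U2ᵀ * S0 * U2)) +
        c • ((β - (X t)ᵀ * (U2ᵀ * S0 * U2)) * a2 t)) = 0 := by
      apply hinj
      rw [← Matrix.mul_assoc, ← u.gU, Matrix.mul_assoc]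
      exact hcb
    have hev : ∀ w, RJM.ev (gF J P.1 Q2) (x t) (C2 *ᵥ w) = (C1 * ((X t)ᵀ * (U2ᵀ * S0 * U2))) *ᵥ w := by
      intro w
      have h2 := SUX5.toMatrix_ev (Pi.basisFun K (Fin n1)) (Pi.basisFun K (Fin n2)) (gF J P.1 Q2)
        (SUX5V.gF_basis (J := J) (P := P.1) Q2) (x t)
      have h3 := LinearMap.toMatrix'_mulVec (RJM.ev (gF J P.1 Q2) (x t)) (C2 *ᵥ w)
      rw [← h3]
      change LinearMap.toMatrix (Pi.basisFun K (Fin n2)) (Pi.basisFun K (Fin n1)) _ *ᵥ _ = _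
      rw [h2]
      change ((tv K n1 n2 (x t))ᵀ * (Q2ᵀ * (J * P.1) * Q2)) *ᵥ (C2 *ᵥ w) = _
      rw [hxX, g2e, mulVec_mulVec]
      congr 1
      simp only [transpose_mul, transpose_transpose, Matrix.mul_assoc]
    have hA2 : (A2 t).mulVec (C2.mulVec y) = C2 *ᵥ (a2 t *ᵥ y) := by
      rw [mulVec_mulVec, u'.act, ← mulVec_mulVec]
    rw [hA2, hev, hev]
    have h4 := congrArg (fun M => M *ᵥ y) h1
    simp only [zero_mulVec] at h4
    have h5 : A1 t *ᵥ (C1 *ᵥ (β *ᵥ y)) = (C1 * (a1 t * β)) *ᵥ y := by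
      rw [mulVec_mulVec, mulVec_mulVec, ← Matrix.mul_assoc, u.act, Matrix.mul_assoc]
    have h6 : A1 t *ᵥ ((C1 * ((X t)ᵀ * (U2ᵀ * S0 * U2))) *ᵥ y) =
        (C1 * (a1 t * ((X t)ᵀ * (U2ᵀ * S0 * U2)))) *ᵥ y := by
      rw [mulVec_mulVec, ← Matrix.mul_assoc, u.act, Matrix.mul_assoc]
    rw [h5, h6, ← h4]
    simp only [mulVec_mulVec, Matrix.mul_add, Matrix.mul_sub, Matrix.sub_mul, add_mulVec,
      sub_mulVec, smul_mulVec, Matrix.mul_smul, Matrix.mul_assoc]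
    module

/-- **LEVEL 2 from the geometric half** -/
theorem gens2 (hL : SDecC.Lev1Q) (hg : SDecC.Geo2C) (S : STop.Setup arm J B N W F f P R D l)
    {ν ν' : K} (hne : ν ≠ ν') {n1 n2 : ℕ} {Q1 : Matrix ι (Fin n1) K}
    {A1 : Fin 3 → Matrix (Fin n1) (Fin n1) K} {Q2 : Matrix ι (Fin n2) K}
    {A2 : Fin 3 → Matrix (Fin n2) (Fin n2) K}
    (b : BPkg arm J B F R P.1 D ν l Q1 A1) (b' : BPkg arm J B F R P.1 D ν' l Q2 A2) :
    SLev0.Gens arm J B F P.1 l (QQ arm J B N W F P R D) (PbK arm J B F R P.1 D ν)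
      (PbK arm J B F R P.1 D ν) := by
  obtain ⟨m1, U1, a1, C1, u⟩ := SInst896.exists_ub S b
  obtain ⟨m2, U2, a2, C2, u'⟩ := SInst896.exists_ub S b'
  obtain ⟨Λ, hΛ, h0, hex, hrel⟩ := hg S hne u.col u.span u.inj u.om u'.col u'.span u'.inj u'.om hL
  have g12 := hL S hne b b'
  have g21 := hL S hne.symm b' b
  set I : K := algebraMap ℂ K Complex.I with hI
  have hII : I * I = -1 := by
    rw [hI, ← map_mul, Complex.I_mul_I, map_neg, map_one]
  have hI0 : I ≠ 0 := fun h => by rw [h, mul_zero] at hII; exact one_ne_zero (neg_eq_zero.1 hII.symm)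
  have hsq : ∀ r : K, (I * r) ^ 2 = -(r ^ 2) := fun r => by
    rw [mul_pow, sq I, hII, neg_one_mul]
  have hZq : ∀ t, ∀ z ∈ Z12 Q1 Q2, ∀ y, bq arm J F P.1 Q1 Q1 t z y ∈ QQ arm J B N W F P R D := by
    intro t z hz y
    rw [bq_apply]
    exact g21.g2 t _ (Z12_rd S hne b b' hz) _ (coord_mem b y)
  have hqZ : ∀ t, ∀ z ∈ Z12 Q1 Q2, ∀ y, bq arm J F P.1 Q1 Q1 t y z ∈ QQ arm J B N W F P R D := by
    intro t z hz y
    rw [bq_apply]
    exact g12.g3 t _ (coord_mem b y) _ (Z12_rd S hne b b' hz)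
  obtain ⟨m, hm⟩ := b.blk.kills
  -- the data of an exact family
  have hv : ∀ r ∈ Λ, ∀ x : Fin 3 → (Fin n2 → K) ⊗[K] (Fin n1 → K),
      RJM.Ex (fun s => (A1 s).mulVecLin) (fun s => (A2 s).mulVecLin)
        (LinearMap.ker (Q1ᵀ * (J * P.1) * Q1).mulVecLin)
        (LinearMap.ker (Q2ᵀ * (J * P.1) * Q2).mulVecLin) (-(r ^ 2)) x → _ :=
    fun r hr x hx => exists_v S b b' u u' (c := -(r ^ 2))
      (neg_ne_zero.2 (pow_ne_zero 2 fun h => h0 (h ▸ hr))) (hex r hr) x hx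
  refine SLev3.lev2G b b' (V3 := D3 K (Fin m1) (Fin m2))
    (alA F (Fᵀ * J * (P.1 * F)) U1 U2 a1 C1 C2 (Z12 Q1 Q2))
    (beA F (Fᵀ * J * (P.1 * F)) U1 U2 a2 (Z12 Q1 Q2)) (Z12 Q1 Q2) (fun t z hz => Z12_st b b' t z hz)
    (Λ := (fun r => I * r) '' Λ) (hΛ.image fun a _ b _ h => mul_left_cancel₀ hI0 h) ?_
    (a1 := 1) (a2 := -1) (a3 := -1) one_ne_zero (neg_ne_zero.2 one_ne_zero)
    (neg_ne_zero.2 one_ne_zero) _ hZq hqZ ?_ ?_ (F2 arm F (Fᵀ * J * (P.1 * F)) U1 U2 (-I)) ?_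
  · rintro ⟨r, hr, h⟩
    exact h0 ((mul_eq_zero.1 h).resolve_left hI0 ▸ hr)
  · rintro _ ⟨r, hr, rfl⟩ x hx
    simp only [hsq] at hx ⊢
    obtain ⟨v, h1, h2, h3, h4, h5⟩ := hv r hr x hx
    obtain ⟨be, hbe, -⟩ := SDesc99.descent_mat (A := A1) (B := A2) (bY := a2) (g := gF J P.1 Q2)
      (x := x) (π1 := C1) (π2 := C2) (eps := -1) (c := -(r ^ 2))
      (R1 := LinearMap.ker (Q1ᵀ * (J * P.1) * Q1).mulVecLin) (Z := Z12 Q1 Q2) u'.onto
      (fun t => (u'.act t).symm) (fun t z hz => Z12_st b b' t z hz) h4 h3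
      (fun t y => by rw [h5 t y]; exact Submodule.zero_mem _)
    exact ⟨be, hbe⟩
  · rintro _ ⟨r, hr, rfl⟩ x be hx hbe
    simp only [hsq] at hx hbe ⊢
    obtain ⟨v, h1, h2, h3, h4, h5⟩ := hv r hr x hx
    refine ⟨v, (pencil_iff F _ U1 U2 a1 a2 C1 C2 _ _ _).2 ⟨h1, h2, fun y => ?_⟩⟩
    have h6 := SDesc99.cor_of (A := fun t => (A1 t).mulVecLin) (B := fun t => (A2 t).mulVecLin)
      (g := gF J P.1 Q2) (x := x) (π1 := C1.mulVecLin) (π2 := C2.mulVecLin) (eps := -1)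
      (c := -(r ^ 2)) (R1 := LinearMap.ker (Q1ᵀ * (J * P.1) * Q1).mulVecLin) (Z := Z12 Q1 Q2)
      (bY := fun t => (a2 t).mulVecLin) (β := v.2.1.mulVecLin) u'.onto
      (fun t y => by simp only [mulVecLin_apply, mulVec_mulVec]; rw [u'.act])
      (fun t z hz => Z12_st b b' t z hz) b'.blk.top (m := m)
      (fun w hw r hr => hm w (by omega) r hr)
      (mul_ne_zero (neg_ne_zero.2 one_ne_zero)
        (neg_ne_zero.2 (pow_ne_zero 2 fun h => h0 (h ▸ hr)))) h4 h3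
      (fun t y => by
        have h7 := h5 t y
        simp only [mulVecLin_apply]
        rw [h7]; exact Submodule.zero_mem _) hbe y
    have h7 : (C1 * v.2.1) *ᵥ y - be (C2 *ᵥ y) = -(be (C2.mulVecLin y) -
        C1.mulVecLin (v.2.1.mulVecLin y)) := by
      simp only [mulVecLin_apply, mulVec_mulVec]
      abel
    change (C1 * v.2.1) *ᵥ y - be (C2 *ᵥ y) ∈ _
    rw [h7]
    exact Submodule.neg_mem _ h6
  · rintro _ ⟨r, hr, rfl⟩ _ ⟨r', hr', rfl⟩ x be v x' be' v' - - hv1 - - hv2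
    simp only [hsq] at hv1 hv2
    obtain ⟨d1, x1, y1⟩ := (pencil_iff F _ U1 U2 a1 a2 C1 C2 _ _ _).1 hv1
    obtain ⟨d2, x2, y2⟩ := (pencil_iff F _ U1 U2 a1 a2 C1 C2 _ _ _).1 hv2
    have h1 := hrel r hr r' hr' v v' d1 d2
    have h2 := SUX5V.part11V (arm := arm) (J := J) (P := P.1) u.gU u'.gU rfl
      (QQ arm J B N W F P R D) hZq hqZ x1 x2 y1 y2
    have h3 := Submodule.sub_mem _ h1 h2
    convert h3 using 1
    unfold Rel2
    change _ + (I * r') • ((-I) • (_ : Matrix ι δ K)) = (_ : Matrix ι δ K)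
    rw [smul_smul, show I * r' * -I = r' by linear_combination (-r') * hII]
    abel

/-- **abstract half of LEVEL 2** -/
theorem lev2_of (hL : SDecC.Lev1Q) (hg : SDecC.Geo2C) : STop.Lev2 := by
  intro ι _ _ δ _ _ K _ _ _ arm J B N W F f P R D l S ν ν' hne n1 n2 Q1 A1 Q2 A2 b b'
  exact SLev1.stopGens_of S b b (gens2 hL hg S hne b b')

end main

end Crest.Agent.R172.SLevB952
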