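import Crest.Agent.R172.SLev0
import Crest.Agent.R172.SULift
import Crest.Agent.R172.UBlk

/-!
Row 172 (S0260), S-side (t2), LEVEL 1, seam (i): the relation of `SLev0.lev1` in the coordinates of
the packages `BPkg` from the U-level first derivative `SGl1.first_pair` and the lift
`SULift.exists_lift`.
-/

set_option autoImplicit false
set_option linter.unusedSectionVars false
set_option linter.unusedFintypeInType false
set_option linter.unusedDecidableInType false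
set_option maxHeartbeats 400000

namespace Crest.Agent.R172.SLevC

open Matrix Module TensorProduct Crest.Agent.R172.FO Crest.Agent.R172.Qt Crest.Agent.R172.SpS
open Crest.Agent.R172.SCM Crest.Agent.R172.SEnd2
open Crest.Agent.R172.SC (PB)
open Crest.Agent.R172.SGl1 (om rs ten qa qa_apply rs_coe)
open Crest.Agent.R172.SLev0 (bq)
open Crest.Agent.R172.PL (CoreM coreOp)

variable {ι : Type*} [Fintype ι] [DecidableEq ι] {δ : Type*} [Fintype δ] [DecidableEq δ]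
variable {k K : Type*} [Field k] [Field K] [Algebra k K]
variable {arm : δ → Fin 3} {J : Matrix ι ι K} {B : Matrix δ δ K}
  {N W : Submodule K (Matrix ι δ K)} {F f : Matrix ι δ K}

section alg

variable {n n' : ℕ} {P : Matrix ι (Fin n) K} {P' : Matrix ι (Fin n') K} {X : Matrix ι ι K}
  {Q1 Q2 : Submodule K (δ → K)}

theorem bq_apply (t : Fin 3) (x : Fin n → K) (y : Fin n' → K) :
    bq arm J F X P P' t x y = vecMulVec (P *ᵥ x) (P' *ᵥ y) * (J * X) * F * E K arm t := rfl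

theorem bq_qa (hJ : Jᵀ = J) (hX : Xᵀ * J = -(J * X)) (t : Fin 3) {a b : δ → K}
    {x : Fin n → K} {y : Fin n' → K} (hx : F *ᵥ a = P *ᵥ x) (hy : F *ᵥ b = P' *ᵥ y) :
    bq arm J F X P P' t x y =
      -(vecMulVec (F *ᵥ a) (SUX.th J F X F *ᵥ b) * E K arm t) := by
  rw [bq_apply, ← hx, ← hy]
  have e1 : vecMulVec (F *ᵥ a) (F *ᵥ b) * (J * X) * F =
      -(vecMulVec (F *ᵥ a) (SUX.th J F X F *ᵥ b)) := by
    rw [Matrix.mul_assoc, Matrix.vecMulVec_mul]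
    have e2 : (F *ᵥ b) ᵥ* (J * X * F) = -(SUX.th J F X F *ᵥ b) := by
      rw [← mulVec_transpose, mulVec_mulVec, ← neg_mulVec]
      congr 1
      rw [transpose_mul, transpose_mul, hJ, hX]
      unfold SUX.th
      simp only [Matrix.mul_neg, Matrix.neg_mul, Matrix.mul_assoc]
    rw [e2, vecMulVec_neg]
  rw [e1, Matrix.neg_mul]

theorem lift_bq (hJ : Jᵀ = J) (hX : Xᵀ * J = -(J * X)) {π1 : Q1 →ₗ[K] (Fin n → K)}
    {π2 : Q2 →ₗ[K] (Fin n' → K)} (f1 : ∀ u : Q1, F *ᵥ (u : δ → K) = P *ᵥ π1 u)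
    (f2 : ∀ u : Q2, F *ᵥ (u : δ → K) = P' *ᵥ π2 u) (t : Fin 3) (z : Q2 ⊗[K] Q1) :
    TensorProduct.lift (bq arm J F X P' P t) (TensorProduct.map π2 π1 z) =
      -(TensorProduct.lift (qa arm F (SUX.th J F X F) Q2 Q1 t) z) := by
  induction z using TensorProduct.induction_on with
  | zero => simp
  | tmul a b =>
    rw [TensorProduct.map_tmul, TensorProduct.lift.tmul, TensorProduct.lift.tmul, qa_apply,
      bq_qa hJ hX t (f2 a) (f1 b)]
  | add x y hx hy => rw [map_add, map_add, map_add, hx, hy, neg_add]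

theorem lift_bq_flip (hJ : Jᵀ = J) (hX : Xᵀ * J = -(J * X)) {π1 : Q1 →ₗ[K] (Fin n → K)}
    {π2 : Q2 →ₗ[K] (Fin n' → K)} (f1 : ∀ u : Q1, F *ᵥ (u : δ → K) = P *ᵥ π1 u)
    (f2 : ∀ u : Q2, F *ᵥ (u : δ → K) = P' *ᵥ π2 u) (t : Fin 3) (z : Q2 ⊗[K] Q1) :
    TensorProduct.lift ((bq arm J F X P P' t).flip) (TensorProduct.map π2 π1 z) =
      TensorProduct.lift (-(qa arm F (SUX.th J F X F) Q1 Q2 t).flip) z := by
  induction z using TensorProduct.induction_on with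
  | zero => simp
  | tmul a b =>
    rw [TensorProduct.map_tmul, TensorProduct.lift.tmul, TensorProduct.lift.tmul,
      LinearMap.flip_apply, LinearMap.neg_apply, LinearMap.neg_apply, LinearMap.flip_apply,
      qa_apply, bq_qa hJ hX t (f1 b) (f2 a)]
  | add x y hx hy => rw [map_add, map_add, map_add, hx, hy]

theorem lift_smul_apply {U V Z : Type*} [AddCommGroup U] [Module K U] [AddCommGroup V]
    [Module K V] [AddCommGroup Z] [Module K Z] (c : K) (q : U →ₗ[K] V →ₗ[K] Z) (x : U ⊗[K] V) :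
    TensorProduct.lift (c • q) x = c • TensorProduct.lift q x := by
  induction x using TensorProduct.induction_on with
  | zero => simp
  | tmul a b => simp
  | add x y hx hy => rw [map_add, map_add, hx, hy, smul_add]

/-- **one parameter, in coordinates** (sign version `defect A (-A') (ρ'²)`) -/
theorem rel_one {H kk : Matrix ι δ K} {A : Fin 3 → Matrix (Fin n) (Fin n) K}
    {A' : Fin 3 → Matrix (Fin n') (Fin n') K}
    {c1 c2 ρ : K} (h : Ctx k arm J B N W H) (h2 : (2 : K) ≠ 0) {Ri : Matrix δ ι K}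
    (hR : H * Ri * H = H) {Pt : Matrix ι ι K × (Fin 3 → Matrix ι ι K)} (hP : Pt ∈ NN arm J N H)
    (hV : Vert k arm J N W H Pt) (hk : kk ∈ N ⊓ W)
    (hX : Xᵀ * J = -(J * X))
    (R : SGl1.Rel F H kk (SUX.th J F X F) (SUX.th J H Pt.1 H) (SUX.th J H Pt.1 kk) Q1 Q2 c1 c2)
    (hc1 : c1 ≠ 0) (hc2 : c2 ≠ 0) (hρ : c1 * ρ = c2)
    (h1 : ∀ r, ∀ u ∈ Q1, om arm B (SUX.th J F X F) r *ᵥ u ∈ Q1)
    (h2' : ∀ r, ∀ u ∈ Q2, om arm B (SUX.th J F X F) r *ᵥ u ∈ Q2)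
    (p1 : ∀ u ∈ Q1, ∃ c : Fin 3 → (δ → K), (∀ r, c r ∈ Q1) ∧
      ∑ r, om arm B (SUX.th J F X F) r *ᵥ (c r) = u)
    (p2 : ∀ u ∈ Q2, ∃ c : Fin 3 → (δ → K), (∀ r, c r ∈ Q2) ∧
      ∑ r, om arm B (SUX.th J F X F) r *ᵥ (c r) = u)
    {π1 : Q1 →ₗ[K] (Fin n → K)} {π2 : Q2 →ₗ[K] (Fin n' → K)}
    (s1 : Function.Surjective π1) (s2 : Function.Surjective π2)
    (f1 : ∀ u : Q1, F *ᵥ (u : δ → K) = P *ᵥ π1 u)
    (f2 : ∀ u : Q2, F *ᵥ (u : δ → K) = P' *ᵥ π2 u)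
    (a1 : ∀ r u, π1 (rs (om arm B (SUX.th J F X F) r) Q1 (h1 r) u) = (A r).mulVecLin (π1 u))
    (a2 : ∀ r u, π2 (rs (om arm B (SUX.th J F X F) r) Q2 (h2' r) u) = (A' r).mulVecLin (π2 u))
    (k1 : ∀ r (u : Q1), π1 u = 0 → om arm B (SUX.th J F X F) r *ᵥ (u : δ → K) = 0)
    (k2 : ∀ r (u : Q2), π2 u = 0 → om arm B (SUX.th J F X F) r *ᵥ (u : δ → K) = 0)
    (x : Fin 3 → (Fin n' → K) ⊗[K] (Fin n → K))
    (hx : ∑ r, Dual.defect (A r).mulVecLin (-((A' r).mulVecLin)) (ρ ^ 2) (x r) = 0)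
    (G : Submodule K (Matrix ι δ K))
    (hG : ∀ z : Fin 3 → Q2 ⊗[K] Q1, (∀ r, TensorProduct.map π2 π1 (z r) = x r) →
      ∑ r, Dual.defect (rs (om arm B (SUX.th J F X F) r) Q1 (h1 r))
        (-(rs (om arm B (SUX.th J F X F) r) Q2 (h2' r))) (ρ ^ 2) (z r) = 0 →
      ∀ d : Derivation k K K,
      SUX.Mv k arm J N W H Pt.1 (fun r => ten Q2 Q1 (z r) + (ten Q2 Q1 (z r))ᵀ) d →
      SUX.wd arm J H Pt.1 (fun r => ten Q2 Q1 (z r) + (ten Q2 Q1 (z r))ᵀ) d kk ∈ G) :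
    -(∑ t, TensorProduct.lift (bq arm J F X P' P t) (x t)) +
      ρ • ∑ t, TensorProduct.lift ((bq arm J F X P P' t).flip) (x t) ∈ SGl1.QG N G := by
  have hJ := h.data.J_symm
  have hρ0 : ρ ≠ 0 := by
    rintro rfl
    exact hc2 (by rw [← hρ, mul_zero])
  obtain ⟨z, hz, hz'⟩ := SULift.exists_lift (arm := arm) (B := B) (S := SUX.th J F X F)
    h1 h2' p1 p2 s1 s2 (a := fun r => (A r).mulVecLin) (b := fun r => (A' r).mulVecLin)
    a1 a2 k1 k2 hρ0 x hx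
  have h3 := SGl1.first_pair h h2 hR hP hV hk R hc1 hc2 hρ h1 h2' hz' G
    (fun d hd => hG z hz hz' d hd)
  have e1 : ∑ t, TensorProduct.lift (bq arm J F X P' P t) (x t) =
      -(∑ r, TensorProduct.lift (qa arm F (SUX.th J F X F) Q2 Q1 r) (z r)) := by
    rw [← Finset.sum_neg_distrib]
    refine Finset.sum_congr rfl fun t _ => ?_
    rw [← hz t]
    exact lift_bq hJ hX f1 f2 t (z t)
  have e2 : ∑ t, TensorProduct.lift ((bq arm J F X P P' t).flip) (x t) =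
      ∑ r, TensorProduct.lift (-(qa arm F (SUX.th J F X F) Q1 Q2 r).flip) (z r) := by
    refine Finset.sum_congr rfl fun t _ => ?_
    rw [← hz t]
    exact lift_bq_flip hJ hX f1 f2 t (z t)
  rw [e1, e2, neg_neg]
  exact h3

/-- passage from the sign `-A'` to `A'`: `ρ' = i ρ` -/
theorem defect_I {I ρ : K} (hI : I * I = -1) (A : Matrix (Fin n) (Fin n) K)
    (A' : Matrix (Fin n') (Fin n') K) (x : (Fin n' → K) ⊗[K] (Fin n → K)) :
    Dual.defect A.mulVecLin (-(A'.mulVecLin)) ((I * ρ) ^ 2) x =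
      Dual.defect A.mulVecLin A'.mulVecLin (ρ ^ 2) x := by
  have e : (I * ρ) ^ 2 = -ρ ^ 2 := by
    calc (I * ρ) ^ 2 = (I * I) * ρ ^ 2 := by ring
      _ = _ := by rw [hI]; ring
  rw [e, SULift.defect_neg]
  simp only [Dual.defect, LinearMap.sub_apply, LinearMap.smul_apply, neg_neg]

end alg

section coord

variable {P : Matrix ι ι K × (Fin 3 → Matrix ι ι K)} {Ri : Matrix δ ι K}
  {D : End K (CoreM (PhS arm J B F Ri P.1))} {ν : K} {l : Fin 3 → ℕ} {n : ℕ}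
  {Q : Matrix ι (Fin n) K} {A : Fin 3 → Matrix (Fin n) (Fin n) K}

theorem om_eq (p0 : Matrix ι ι K) (s : Fin 3) (u : δ → K) :
    om arm B (SUX.th J F p0 F) s *ᵥ u = UBlk.om arm J B F p0 F s u := rfl

/-- `F ω_s u = Φ_s F u` -/
theorem F_om (hD : Data k arm J B N W) (p0 : Matrix ι ι K) (s : Fin 3) (u : δ → K) :
    F *ᵥ (om arm B (SUX.th J F p0 F) s *ᵥ u) = (M arm B s F F * (J * p0)) *ᵥ (F *ᵥ u) := by
  rw [om_eq, UBlk.om_eq hD, mulVec_mulVec, mulVec_mulVec]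
  congr 1
  unfold M
  simp only [Matrix.mul_assoc]

/-- **coordinates of the U-level block** -/
theorem coord [IsAlgClosed K] (h : Ctx k arm J B N W F) (hR : F * Ri * F = F)
    (hD : SBlk.IsD (PhS arm J B F Ri P.1) (SBlk.Nh arm J B F f Ri P.1) D)
    (b : BPkg arm J B F Ri P.1 D ν l Q A)
    (hst : ∀ r, ∀ u ∈ UBlk.Qb h.data hR P.1 D ν,
      om arm B (SUX.th J F P.1 F) r *ᵥ u ∈ UBlk.Qb h.data hR P.1 D ν) :
    ∃ π : UBlk.Qb h.data hR P.1 D ν →ₗ[K] (Fin n → K), Function.Surjective π ∧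
      (∀ u : UBlk.Qb h.data hR P.1 D ν, F *ᵥ (u : δ → K) = Q *ᵥ π u) ∧
      (∀ r u, π (rs (om arm B (SUX.th J F P.1 F) r) _ (hst r) u) = (A r).mulVecLin (π u)) ∧
      (∀ r (u : UBlk.Qb h.data hR P.1 D ν), π u = 0 →
        om arm B (SUX.th J F P.1 F) r *ᵥ (u : δ → K) = 0) := by
  have hinj : LinearMap.ker Q.mulVecLin = ⊥ := by
    rw [eq_bot_iff]
    intro x hx
    exact (Submodule.mem_bot K).2 (b.inj x hx)
  obtain ⟨gl, hgl⟩ := LinearMap.exists_leftInverse_of_injective Q.mulVecLin hinj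
  have hgl' : ∀ x, gl (Q *ᵥ x) = x := fun x => LinearMap.congr_fun hgl x
  have hmap := UBlk.Qb_map h hR hD ν
  have hsp : ∀ u : UBlk.Qb h.data hR P.1 D ν, ∃ x, F *ᵥ (u : δ → K) = Q *ᵥ x := by
    intro u
    have h1 : gS F (u : δ → K) ∈ PB (PhS arm J B F Ri P.1) D ν := by
      rw [← hmap]
      exact Submodule.mem_map_of_mem u.2
    obtain ⟨x, hx⟩ := b.span _ h1
    exact ⟨x, hx⟩
  refine ⟨gl ∘ₗ F.mulVecLin ∘ₗ (UBlk.Qb h.data hR P.1 D ν).subtype, ?_, ?_, ?_, ?_⟩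
  · intro x
    obtain ⟨v, hv, hvx⟩ := b.mem x
    rw [← hmap] at hv
    obtain ⟨u, hu, rfl⟩ := hv
    refine ⟨⟨u, hu⟩, ?_⟩
    have h1 : F *ᵥ u = Q *ᵥ x := hvx
    change gl (F *ᵥ u) = x
    rw [h1, hgl']
  · intro u
    obtain ⟨x, hx⟩ := hsp u
    change F *ᵥ (u : δ → K) = Q *ᵥ (gl (F *ᵥ (u : δ → K)))
    rw [hx, hgl']
  · intro r u
    obtain ⟨x, hx⟩ := hsp u
    change gl (F *ᵥ (om arm B (SUX.th J F P.1 F) r *ᵥ (u : δ → K))) =
      A r *ᵥ (gl (F *ᵥ (u : δ → K)))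
    rw [F_om h.data, hx, hgl', mulVec_mulVec, b.act, ← mulVec_mulVec, hgl']
  · intro r u hu
    have h1 : F *ᵥ (u : δ → K) = 0 := by
      obtain ⟨x, hx⟩ := hsp u
      have h2 : gl (F *ᵥ (u : δ → K)) = 0 := hu
      rw [hx, hgl'] at h2
      rw [hx, h2, mulVec_zero]
    have h2 : om arm B (SUX.th J F P.1 F) r = (B * E K arm r * (Fᵀ * J * P.1)) * F := by
      unfold SGl1.om SUX.th
      simp only [Matrix.mul_assoc]
    rw [h2, ← mulVec_mulVec, h1, mulVec_zero]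

end coord

section final

variable {P : Matrix ι ι K × (Fin 3 → Matrix ι ι K)} {Ri : Matrix δ ι K}
  {D : End K (CoreM (PhS arm J B F Ri P.1))} {ν ν' : K} {l : Fin 3 → ℕ} {n n' : ℕ}
  {Q : Matrix ι (Fin n) K} {A : Fin 3 → Matrix (Fin n) (Fin n) K}
  {Q' : Matrix ι (Fin n') K} {A' : Fin 3 → Matrix (Fin n') (Fin n') K}

/-- **the relation of `SLev0.lev1` at one parameter** `ρ`, `I² = -1`, `c2 = c1 I ρ`,
`c_i = 1 + a ν_i`: constants `-1` and `I`. -/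
theorem rel [IsAlgClosed K] (h : Ctx k arm J B N W F) (hR : F * Ri * F = F)
    (hP : P ∈ NN arm J N F)
    (hD : SBlk.IsD (PhS arm J B F Ri P.1) (SBlk.Nh arm J B F f Ri P.1) D)
    (b : BPkg arm J B F Ri P.1 D ν l Q A) (b' : BPkg arm J B F Ri P.1 D ν' l Q' A')
    {H kk : Matrix ι δ K} {c1 c2 ρ I : K} (hI : I * I = -1) (hH : Ctx k arm J B N W H)
    (h2 : (2 : K) ≠ 0) {RH : Matrix δ ι K} (hRH : H * RH * H = H)
    {Pt : Matrix ι ι K × (Fin 3 → Matrix ι ι K)} (hPt : Pt ∈ NN arm J N H)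
    (hV : Vert k arm J N W H Pt) (hk : kk ∈ N ⊓ W)
    (R : SGl1.Rel F H kk (SUX.th J F P.1 F) (SUX.th J H Pt.1 H) (SUX.th J H Pt.1 kk)
      (UBlk.Qb h.data hR P.1 D ν) (UBlk.Qb h.data hR P.1 D ν') c1 c2)
    (hc1 : c1 ≠ 0) (hc2 : c2 ≠ 0) (hρ : c1 * (I * ρ) = c2)
    (x : Fin 3 → (Fin n' → K) ⊗[K] (Fin n → K))
    (hx : ∑ r, Dual.defect (A r).mulVecLin (A' r).mulVecLin (ρ ^ 2) (x r) = 0)
    (G : Submodule K (Matrix ι δ K))
    (hG : ∀ (π1 : UBlk.Qb h.data hR P.1 D ν →ₗ[K] (Fin n → K))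
      (π2 : UBlk.Qb h.data hR P.1 D ν' →ₗ[K] (Fin n' → K)),
      (∀ u : UBlk.Qb h.data hR P.1 D ν, F *ᵥ (u : δ → K) = Q *ᵥ π1 u) →
      (∀ u : UBlk.Qb h.data hR P.1 D ν', F *ᵥ (u : δ → K) = Q' *ᵥ π2 u) →
      ∀ z : Fin 3 → (UBlk.Qb h.data hR P.1 D ν') ⊗[K] (UBlk.Qb h.data hR P.1 D ν),
      (∀ r, TensorProduct.map π2 π1 (z r) = x r) →
      ∀ d : Derivation k K K,
      SUX.Mv k arm J N W H Pt.1 (fun r => ten _ _ (z r) + (ten _ _ (z r))ᵀ) d →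
      SUX.wd arm J H Pt.1 (fun r => ten _ _ (z r) + (ten _ _ (z r))ᵀ) d kk ∈ G) :
    ∑ t, TensorProduct.lift ((-1 : K) • bq arm J F P.1 Q' Q t) (x t) +
      ρ • ∑ t, TensorProduct.lift (I • (bq arm J F P.1 Q Q' t).flip) (x t) ∈
        SGl1.QG N G := by
  have st1 : ∀ r, ∀ u ∈ UBlk.Qb h.data hR P.1 D ν,
      om arm B (SUX.th J F P.1 F) r *ᵥ u ∈ UBlk.Qb h.data hR P.1 D ν :=
    fun r u hu => UBlk.Qb_stable h hR hD r hu
  have st2 : ∀ r, ∀ u ∈ UBlk.Qb h.data hR P.1 D ν',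
      om arm B (SUX.th J F P.1 F) r *ᵥ u ∈ UBlk.Qb h.data hR P.1 D ν' :=
    fun r u hu => UBlk.Qb_stable h hR hD r hu
  obtain ⟨π1, s1, f1, a1, k1⟩ := coord h hR hD b st1
  obtain ⟨π2, s2, f2, a2, k2⟩ := coord h hR hD b' st2
  have hx' : ∑ r, Dual.defect (A r).mulVecLin (-((A' r).mulVecLin)) ((I * ρ) ^ 2) (x r) = 0 := by
    rw [← hx]
    exact Finset.sum_congr rfl fun r _ => defect_I hI (A r) (A' r) (x r)
  have h3 := rel_one (arm := arm) (B := B) (X := P.1) hH h2 hRH hPt hV hk hP.1.eq R hc1 hc2 hρ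
    st1 st2 (fun u hu => UBlk.Qb_exists h hR hD hu) (fun u hu => UBlk.Qb_exists h hR hD hu)
    s1 s2 f1 f2 a1 a2 k1 k2 x hx' G (fun z hz _ d hd => hG π1 π2 f1 f2 z hz d hd)
  have e1 : ∑ t, TensorProduct.lift ((-1 : K) • bq arm J F P.1 Q' Q t) (x t) =
      -(∑ t, TensorProduct.lift (bq arm J F P.1 Q' Q t) (x t)) := by
    rw [← Finset.sum_neg_distrib]
    refine Finset.sum_congr rfl fun t _ => ?_
    rw [lift_smul_apply, neg_one_smul]
  have e2 : ∑ t, TensorProduct.lift (I • (bq arm J F P.1 Q Q' t).flip) (x t) =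
      I • ∑ t, TensorProduct.lift ((bq arm J F P.1 Q Q' t).flip) (x t) := by
    rw [Finset.smul_sum]
    exact Finset.sum_congr rfl fun t _ => lift_smul_apply _ _ _
  rw [e1, e2, smul_smul, mul_comm ρ I]
  exact h3

end final

end Crest.Agent.R172.SLevC
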