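import Crest.Agent.R172.SInst
import Crest.Agent.R172.SLevC

/-!
Row 172 (S0260), S-side (t2): `STop.Lev1` from ONE statement `GoodK` (the correction `wd kk` of the
first derivative is in the good class for almost all `t`).
-/

set_option autoImplicit false
set_option linter.unusedSectionVars false
set_option linter.unusedFintypeInType false
set_option linter.unusedDecidableInType false
set_option linter.unusedVariables false
set_option maxHeartbeats 400000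

namespace Crest.Agent.R172.SLevD

open Matrix Module TensorProduct Crest.Agent.R172.FO Crest.Agent.R172.Qt Crest.Agent.R172.SpS
open Crest.Agent.R172.STop Crest.Agent.R172.SInst
open Crest.Agent.R172.SCM Crest.Agent.R172.SEnd2 Crest.Agent.R172.SEndW
open Crest.Agent.R172.Om (Kiso)
open Crest.Agent.R172.SC (PB PB_stable iSup_PB)
open Crest.Agent.R172.SGl1 (om rs ten)
open Crest.Agent.R172.SLev0 (bq PbK)
open Crest.Agent.R172.PL (CoreM coreOp Ainf)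
open Crest.Agent.R172.SEnd Crest.Agent.R172.SEnd3

variable {ι : Type} [Fintype ι] [DecidableEq ι] {δ : Type} [Fintype δ] [DecidableEq δ]
variable {K : Type} [Field K] [Algebra ℂ K]
variable {arm : δ → Fin 3} {J : Matrix ι ι K} {B : Matrix δ δ K} {N W : Submodule K (Matrix ι δ K)}
  {F f : Matrix ι δ K} {P : Matrix ι ι K × (Fin 3 → Matrix ι ι K)} {R : Matrix δ ι K}
  {D : End K (CoreM (PhS arm J B F R P.1))} {l : Fin 3 → ℕ}

/-- the good class, all `μ : K` as block indices -/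
abbrev GG (arm : δ → Fin 3) (J : Matrix ι ι K) (B : Matrix δ δ K)
    (N W : Submodule K (Matrix ι δ K)) (F : Matrix ι δ K)
    (P : Matrix ι ι K × (Fin 3 → Matrix ι ι K)) (R : Matrix δ ι K)
    (D : End K (CoreM (PhS arm J B F R P.1))) : Submodule K (Matrix ι δ K) :=
  SLev0.QG arm J B N W F P (PC arm J B F R P.1) (fun μ : K => PbK arm J B F R P.1 D μ) id

/-- the field element `(ν-ν')⁻¹ (f - ν' F)` -/
abbrev kk (F f : Matrix ι δ K) (ν ν' : K) : Matrix ι δ K := (ν - ν')⁻¹ • (f - ν' • F)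

/-- **what remains**: for almost all `t` the corrections are good. -/
def GoodK : Prop :=
  ∀ {ι : Type} [Fintype ι] [DecidableEq ι] {δ : Type} [Fintype δ] [DecidableEq δ]
    {K : Type} [Field K] [Algebra ℂ K] [IsAlgClosed K]
    {arm : δ → Fin 3} {J : Matrix ι ι K} {B : Matrix δ δ K} {N W : Submodule K (Matrix ι δ K)}
    {F f : Matrix ι δ K} {P : Matrix ι ι K × (Fin 3 → Matrix ι ι K)} {R : Matrix δ ι K}
    {D : End K (CoreM (PhS arm J B F R P.1))} {l : Fin 3 → ℕ}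
    (S : Setup arm J B N W F f P R D l) {ν ν' : K} (_ : ν ≠ ν')
    {n1 n2 : ℕ} {Q1 : Matrix ι (Fin n1) K} {A1 : Fin 3 → Matrix (Fin n1) (Fin n1) K}
    {Q2 : Matrix ι (Fin n2) K} {A2 : Fin 3 → Matrix (Fin n2) (Fin n2) K}
    (_ : BPkg arm J B F R P.1 D ν l Q1 A1) (_ : BPkg arm J B F R P.1 D ν' l Q2 A2),
    ∃ bad : Set ℂ, bad.Finite ∧ ∀ t ∉ bad,
      1 + algebraMap ℂ K t * ν ≠ 0 → 1 + algebraMap ℂ K t * ν' ≠ 0 →
      ∀ (Pt : Matrix ι ι K × (Fin 3 → Matrix ι ι K)) (dY : Derivation ℂ K K),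
        F + (algebraMap ℂ K t) • f ∈ Kiso J N W →
        Ctx ℂ arm J B N W (F + (algebraMap ℂ K t) • f) →
        Pt ∈ NN arm J N (F + (algebraMap ℂ K t) • f) →
        Vert ℂ arm J N W (F + (algebraMap ℂ K t) • f) Pt →
        (∀ f' ∈ N ⊓ W, (F + (algebraMap ℂ K t) • f)ᵀ * J * (Pt.1 * f') =
          (F + (algebraMap ℂ K t) • f)ᵀ * J * f'.map dY) →
        (F + (algebraMap ℂ K t) • f)ᵀ * J * (Pt.1 * F) =
          (F + (algebraMap ℂ K t) • f)ᵀ * J * (P.1 * F) →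
      ∀ (I ρ : K), I * I = -1 →
        (1 + algebraMap ℂ K t * ν) * (I * ρ) = 1 + algebraMap ℂ K t * ν' →
      ∀ x : Fin 3 → (Fin n2 → K) ⊗[K] (Fin n1 → K),
        Dual.Exact (fun s => (A1 s).mulVecLin) (fun s => (A2 s).mulVecLin)
          (LinearMap.ker (Q1ᵀ * (J * P.1) * Q1).mulVecLin)
          (LinearMap.ker (Q2ᵀ * (J * P.1) * Q2).mulVecLin) (ρ ^ 2) x →
      ∀ (π1 : QQb S ν →ₗ[K] (Fin n1 → K)) (π2 : QQb S ν' →ₗ[K] (Fin n2 → K)),
        (∀ u : QQb S ν, F *ᵥ (u : δ → K) = Q1 *ᵥ π1 u) →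
        (∀ u : QQb S ν', F *ᵥ (u : δ → K) = Q2 *ᵥ π2 u) →
      ∀ z : Fin 3 → (QQb S ν') ⊗[K] (QQb S ν),
        (∀ r, TensorProduct.map π2 π1 (z r) = x r) →
      ∀ d : Derivation ℂ K K,
        SUX.Mv ℂ arm J N W (F + (algebraMap ℂ K t) • f) Pt.1
          (fun r => ten _ _ (z r) + (ten _ _ (z r))ᵀ) d →
        SUX.wd arm J (F + (algebraMap ℂ K t) • f) Pt.1
          (fun r => ten _ _ (z r) + (ten _ _ (z r))ᵀ) d (kk F f ν ν') ∈ GG arm J B N W F P R D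

section

variable [IsAlgClosed K]

theorem rd_of {ν : K} {n1 : ℕ} {Q1 : Matrix ι (Fin n1) K}
    {A1 : Fin 3 → Matrix (Fin n1) (Fin n1) K} (b1 : BPkg arm J B F R P.1 D ν l Q1 A1)
    {x : Fin n1 → K} (hx : (Q1ᵀ * (J * P.1) * Q1) *ᵥ x = 0) :
    Q1 *ᵥ x ∈ Rd (J * P.1) (PbK arm J B F R P.1 D ν) := by
  refine ⟨SLev0.coord_mem b1 x, fun c hc => ?_⟩
  obtain ⟨y, rfl⟩ := SLev0.exists_coord b1 hc
  rw [form_gg, hx, dotProduct_zero]

/-- `SLev0.Gens` for the good class gives `STop.Gens`. -/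
theorem gens_of (S : Setup arm J B N W F f P R D l) (h2 : (2 : K) ≠ 0) {ν ν' : K}
    {n1 n2 : ℕ} {Q1 : Matrix ι (Fin n1) K} {A1 : Fin 3 → Matrix (Fin n1) (Fin n1) K}
    {Q2 : Matrix ι (Fin n2) K} {A2 : Fin 3 → Matrix (Fin n2) (Fin n2) K}
    (b1 : BPkg arm J B F R P.1 D ν l Q1 A1) (b2 : BPkg arm J B F R P.1 D ν' l Q2 A2)
    (hG : SLev0.Gens arm J B F P.1 l (GG arm J B N W F P R D) (PbK arm J B F R P.1 D ν)
      (PbK arm J B F R P.1 D ν')) :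
    STop.Gens arm J B N W F P R l Q1 A1 Q2 A2 := by
  have hC := SInst.ctx S
  obtain ⟨SS, q, hq⟩ := SBlk.exists_spec hC S.hR (S.hNil F S.hF) S.hP (hfNW S)
  have hDc : ∀ s x, D (coreOp (PhS arm J B F R P.1) s x) =
      coreOp (PhS arm J B F R P.1) s (D x) := S.hD.2
  have hPC : PC arm J B F R P.1 = ⨆ μ : K, PbK arm J B F R P.1 D μ := by
    have h3 : Ainf (PhS arm J B F R P.1) = ⨆ ν, PB (PhS arm J B F R P.1) D ν :=
      (iSup_PB hDc (Module.End.iSup_maxGenEigenspace_eq_top D)).symm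
    unfold PC
    rw [h3, Submodule.map_iSup]
  have hPg : ∀ a ∈ PC arm J B F R P.1, ∃ u, F *ᵥ u = a := by
    rintro _ ⟨v, -, rfl⟩
    obtain ⟨u, hu⟩ := v.2
    exact ⟨u, hu⟩
  have hst : ∀ (μ : K) (r : Fin 3), ∀ c ∈ PbK arm J B F R P.1 D μ,
      (M arm B r F F * (J * P.1)) *ᵥ c ∈ PbK arm J B F R P.1 D μ := by
    rintro μ r _ ⟨v, hv, rfl⟩
    refine ⟨PhS arm J B F R P.1 r v, PB_stable hDc μ r hv, ?_⟩
    exact PhS_coe (arm := arm) (J := J) (B := B) (R := R) S.hR P.1 r v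
  have key : ∀ {s : Fin 3} {x : Matrix ι ι K},
      x * (J * P.1) * F * E K arm s ∈ GG arm J B N W F P R D →
      x ∈ GoodSW arm J B N W F P (PC arm J B F R P.1) s := fun hx =>
    SLev0.GoodSW_of_QG hC h2 S.hR S.hP (hfNW S) hq S.hD hPg hPC (fun _ => le_rfl) hst hx
  have hm1 : ∀ x, Q1 *ᵥ x ∈ PbK arm J B F R P.1 D ν := by
    intro x
    obtain ⟨v, hv, hvx⟩ := b1.mem x
    exact ⟨v, hv, hvx⟩
  have hm2 : ∀ x, Q2 *ᵥ x ∈ PbK arm J B F R P.1 D ν' := by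
    intro x
    obtain ⟨v, hv, hvx⟩ := b2.mem x
    exact ⟨v, hv, hvx⟩
  intro s
  refine ⟨fun i j hij x y => ?_, fun x y hx => ?_, fun x y hy => ?_⟩
  · apply key
    rw [← SLev0.pow_act b1, ← SLev0.pow_act b2]
    exact hG.g1 s i j hij _ (hm1 x) _ (hm2 y)
  · apply key
    exact hG.g2 s _ (rd_of b1 hx) _ (hm2 y)
  · apply key
    exact hG.g3 s _ (hm1 x) _ (rd_of b2 hy)

/-- the relations of the pair at `H_t` -/
theorem rel_t (S : Setup arm J B N W F f P R D l) {ν ν' : K} (hne : ν ≠ ν') {a : K}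
    {Pt : Matrix ι ι K × (Fin 3 → Matrix ι ι K)} {dY : Derivation ℂ K K}
    (hH : Ctx ℂ arm J B N W (F + a • f)) (hPt : Pt ∈ NN arm J N (F + a • f))
    (hY : ∀ f' ∈ N ⊓ W, (F + a • f)ᵀ * J * (Pt.1 * f') = (F + a • f)ᵀ * J * f'.map dY)
    (hPF : (F + a • f)ᵀ * J * (Pt.1 * F) = (F + a • f)ᵀ * J * (P.1 * F)) :
    SGl1.Rel F (F + a • f) (kk F f ν ν') (SUX.th J F P.1 F) (SUX.th J (F + a • f) Pt.1 (F + a • f))
      (SUX.th J (F + a • f) Pt.1 (kk F f ν ν')) (QQb S ν) (QQb S ν') (1 + a * ν)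
      (1 + a * ν') := by
  have hC := SInst.ctx S
  have hfm := hfNW S
  have hkk : kk F f ν ν' ∈ N ⊓ W :=
    (N ⊓ W).smul_mem _ ((N ⊓ W).sub_mem hfm ((N ⊓ W).smul_mem _ hC.mem))
  have hn : ν - ν' ≠ 0 := sub_ne_zero.2 hne
  have hth : SUX.th J (F + a • f) Pt.1 (kk F f ν ν') =
      (ν - ν')⁻¹ • (SUX.th J (F + a • f) Pt.1 f - ν' • SUX.th J (F + a • f) Pt.1 F) := by
    unfold SUX.th
    rw [Matrix.mul_smul, Matrix.mul_smul, Matrix.mul_sub, Matrix.mul_sub, Matrix.mul_smul,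
      Matrix.mul_smul]
  have at1 : ∀ {μ : K} {u : δ → K}, u ∈ QQb S μ →
      (F + a • f) *ᵥ u = (1 + a * μ) • (F *ᵥ u) ∧
      SUX.th J (F + a • f) Pt.1 F *ᵥ u = (1 + a * μ) • (SUX.th J F P.1 F *ᵥ u) ∧
      SUX.th J (F + a • f) Pt.1 f *ᵥ u = ((1 + a * μ) * μ) • (SUX.th J F P.1 F *ᵥ u) ∧
      SUX.th J (F + a • f) Pt.1 (F + a • f) *ᵥ u =
        ((1 + a * μ) ^ 2) • (SUX.th J F P.1 F *ᵥ u) := fun hu =>
    UFr.at_H hC S.hR S.hD (S.hNil F S.hF) S.hP hfm (hff S) hY hPF hu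
  have hk : ∀ {μ : K} {u : δ → K}, u ∈ QQb S μ →
      kk F f ν ν' *ᵥ u = ((ν - ν')⁻¹ * (μ - ν')) • (F *ᵥ u) := by
    intro μ u hu
    rw [smul_mulVec, sub_mulVec, smul_mulVec, SInst.rel S hu, ← sub_smul, smul_smul]
  have hs : ∀ {μ : K} {u : δ → K}, u ∈ QQb S μ →
      SUX.th J (F + a • f) Pt.1 (kk F f ν ν') *ᵥ u =
        ((ν - ν')⁻¹ * ((1 + a * μ) * (μ - ν'))) • (SUX.th J F P.1 F *ᵥ u) := by
    intro μ u hu
    rw [hth, smul_mulVec, sub_mulVec, smul_mulVec, (at1 hu).2.2.1, (at1 hu).2.1, smul_smul,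
      ← sub_smul, smul_smul]
    congr 1
    ring
  refine ⟨SUX.th_skew hH hPt hH.mem, SUX.th_skew hH hPt hkk, fun u hu => (at1 hu).2.2.2,
    fun u hu => (at1 hu).2.2.2, fun u hu => ?_, fun u hu => ?_, fun u hu => (at1 hu).1,
    fun u hu => (at1 hu).1, fun u hu => ?_, fun u hu => ?_⟩
  · rw [hk hu, inv_mul_cancel₀ hn, one_smul]
  · rw [hk hu, sub_self, mul_zero, zero_smul]
  · rw [hs hu]
    congr 1
    field_simp
  · rw [hs hu, sub_self, mul_zero, mul_zero, zero_smul]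

/-- **LEVEL 1 from `GoodK`.** -/
theorem lev1_of (hK : GoodK) : STop.Lev1 := by
  intro ι _ _ δ _ _ K _ _ _ arm J B N W F f P R D l S ν ν' hne n1 n2 Q1 A1 Q2 A2 b1 b2
  have hcz : CharZero K := charZero_of_injective_algebraMap (algebraMap ℂ K).injective
  have h2 : (2 : K) ≠ 0 := two_ne_zero
  have hC := SInst.ctx S
  obtain ⟨I, hI⟩ : ∃ I : K, I * I = -1 := by
    obtain ⟨z, hz⟩ := IsAlgClosed.exists_pow_nat_eq (-1 : K) (n := 2) (by norm_num)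
    exact ⟨z, by rw [← pow_two]; exact hz⟩
  have hI0 : I ≠ 0 := by
    rintro rfl
    rw [mul_zero] at hI
    exact one_ne_zero (neg_eq_zero.1 hI.symm)
  obtain ⟨bad, hbad, hgood⟩ := hK S hne b1 b2
  obtain ⟨Y, dY, -, -, -, hfam⟩ := SInst.family S h2
  have hkk : kk F f ν ν' ∈ N ⊓ W :=
    (N ⊓ W).smul_mem _ ((N ⊓ W).sub_mem (hfNW S) ((N ⊓ W).smul_mem _ hC.mem))
  -- the set of parameters
  let Λ : Set K := (fun t : ℂ => -(I * ((1 + algebraMap ℂ K t * ν') /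
    (1 + algebraMap ℂ K t * ν)))) '' (TT K ν ν' \ bad)
  have hΛ : Λ.Infinite := by
    refine ((TT_infinite ν ν').sdiff hbad).image ?_
    intro s hs t ht hst
    have h3 : (1 + algebraMap ℂ K s * ν') / (1 + algebraMap ℂ K s * ν) =
        (1 + algebraMap ℂ K t * ν') / (1 + algebraMap ℂ K t * ν) :=
      mul_left_cancel₀ hI0 (neg_injective hst)
    rw [div_eq_div_iff hs.1.1 ht.1.1] at h3
    have h4 : (algebraMap ℂ K s - algebraMap ℂ K t) * (ν' - ν) = 0 := by linear_combination h3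
    exact (algebraMap ℂ K).injective (sub_eq_zero.1
      ((mul_eq_zero.1 h4).resolve_right (sub_ne_zero.2 hne.symm)))
  have h0 : (0 : K) ∉ Λ := by
    rintro ⟨t, ht, h⟩
    have h3 : I * ((1 + algebraMap ℂ K t * ν') / (1 + algebraMap ℂ K t * ν)) = 0 :=
      neg_eq_zero.1 h
    exact (mul_ne_zero hI0 (div_ne_zero ht.1.2 ht.1.1)) h3
  have hmain := SLev0.lev1 b1 b2 hΛ h0 (-1 : K) I (neg_ne_zero.2 one_ne_zero) hI0
    (GG arm J B N W F P R D) (by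
    rintro ρ ⟨t, ⟨ht, htb⟩, hρt⟩ x hx
    obtain ⟨Pt, Ri, hHK, hHC, hPt, hV, hRi, hY, hPF, -⟩ := hfam t
    have hρ : (1 + algebraMap ℂ K t * ν) * (I * ρ) = 1 + algebraMap ℂ K t * ν' := by
      have e : I * ρ = (1 + algebraMap ℂ K t * ν') / (1 + algebraMap ℂ K t * ν) := by
        rw [← hρt]
        simp only [mul_neg]
        rw [← mul_assoc, hI, neg_one_mul, neg_neg]
      rw [e, mul_div_cancel₀ _ ht.1]
    have h3 := SLevC.rel hC S.hR S.hP S.hD b1 b2 hI hHC h2 hRi hPt hV hkk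
      (rel_t S hne hHC hPt hY hPF) ht.1 ht.2 hρ x hx.1 (GG arm J B N W F P R D)
      (fun π1 π2 f1 f2 z hz d hd => hgood t htb ht.1 ht.2 Pt dY hHK hHC hPt hV hY hPF I ρ hI hρ x
        hx π1 π2 f1 f2 z hz d hd)
    have hle : SGl1.QG N (GG arm J B N W F P R D) ≤ GG arm J B N W F P R D :=
      sup_le SLev0.N_le_QG le_rfl
    exact hle h3)
  exact gens_of S h2 b1 b2 hmain.2

end

end Crest.Agent.R172.SLevD
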