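import Crest.Agent.R172.SLevAR731

/-!
Row 172 (S0260), S-side (t2), LEVEL 1 IN THE GOOD CLASS `QD` (helper775): the text of 731's `SLevAR731.gens_of` with the
conclusion `SLev0.Gens .. QD` for both orders of the pair (input of the second level).
-/

set_option autoImplicit false
set_option linter.unusedSectionVars false
set_option linter.unusedVariables false
set_option linter.unusedFintypeInType false
set_option linter.unusedDecidableInType false
set_option maxHeartbeats 1600000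

namespace Crest.Agent.R172.SLevQ775

open Module Matrix TensorProduct Crest.Agent.R172.FO Crest.Agent.R172.Qt Crest.Agent.R172.SpS
open Crest.Agent.R172.SUX Crest.Agent.R172.SGl1
open Crest.Agent.R172.SBlk Crest.Agent.R172.UBlk
open Crest.Agent.R172.SEnd Crest.Agent.R172.SEnd2 Crest.Agent.R172.SEndW
open Crest.Agent.R172.SCM (BPkg)
open Crest.Agent.R172.SC (PB PB_stable iSup_PB)
open Crest.Agent.R172.PL (Wk Ainf Rad CoreM coreOp resOp)
open Crest.Agent.R172.Om (Kiso)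
open Crest.Agent.R172.STop (Setup)
open Crest.Agent.R172.SLev0 (QG PbK bq)
open Crest.Agent.R172.SInst896 (two_ne' good_t)
open Crest.Agent.R172.SLevAR731 (QD flip)

variable {ι : Type} [Fintype ι] [DecidableEq ι] {δ : Type} [Fintype δ] [DecidableEq δ]
variable {K : Type} [Field K] [Algebra ℂ K] [IsAlgClosed K]
variable {arm : δ → Fin 3} {J : Matrix ι ι K} {B : Matrix δ δ K}
  {N W : Submodule K (Matrix ι δ K)} {F f : Matrix ι δ K}
  {P : Matrix ι ι K × (Fin 3 → Matrix ι ι K)} {R : Matrix δ ι K}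
  {D : End K (CoreM (PhS arm J B F R P.1))} {l : Fin 3 → ℕ}

/-- **half (A)** for one pair of blocks, both orders, in `QD` -/
theorem gensQ_of (S : Setup arm J B N W F f P R D l) {ν ν' : K} (hne : ν ≠ ν') {n1 n2 : ℕ}
    {Q1 : Matrix ι (Fin n1) K} {A1 : Fin 3 → Matrix (Fin n1) (Fin n1) K}
    {Q2 : Matrix ι (Fin n2) K} {A2 : Fin 3 → Matrix (Fin n2) (Fin n2) K}
    (b1 : BPkg arm J B F R P.1 D ν l Q1 A1) (b2 : BPkg arm J B F R P.1 D ν' l Q2 A2)
    {bad : Set ℂ} (hbad : bad.Finite)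
    (hB : ∀ t ∉ bad, 1 + algebraMap ℂ K t * ν ≠ 0 → 1 + algebraMap ℂ K t * ν' ≠ 0 →
      ∃ Pt ∈ NN arm J N (F + (algebraMap ℂ K t) • f),
        Vert ℂ arm J N W (F + (algebraMap ℂ K t) • f) Pt ∧
        (F + (algebraMap ℂ K t) • f)ᵀ * J * (Pt.1 * F) =
          (F + (algebraMap ℂ K t) • f)ᵀ * J * (P.1 * F) ∧
        ∀ (x : Fin 3 → (Fin n2 → K) ⊗[K] (Fin n1 → K)),
        (∀ r, Dual.defect (A1 r).mulVecLin (A2 r).mulVecLin
          (-((1 + algebraMap ℂ K t * ν') / (1 + algebraMap ℂ K t * ν)) ^ 2) (x r) ∈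
            Dual.Rad (LinearMap.ker (Q1ᵀ * (J * P.1) * Q1).mulVecLin)
              (LinearMap.ker (Q2ᵀ * (J * P.1) * Q2).mulVecLin)) →
        ∀ (π1 : Qb (S.hCtx F S.hF).data S.hR P.1 D ν →ₗ[K] (Fin n1 → K))
          (π2 : Qb (S.hCtx F S.hF).data S.hR P.1 D ν' →ₗ[K] (Fin n2 → K)),
        (∀ u, Q1 *ᵥ (π1 u) = F *ᵥ (u : δ → K)) →
        (∀ u, Q2 *ᵥ (π2 u) = F *ᵥ (u : δ → K)) →
        ∀ y : Fin 3 → Qb (S.hCtx F S.hF).data S.hR P.1 D ν' ⊗[K]
          Qb (S.hCtx F S.hF).data S.hR P.1 D ν,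
        (∀ r, TensorProduct.map π2 π1 (y r) = x r) →
        ∑ r, Dual.defect (rs (SGl1.om arm B (th J F P.1 F) r)
            (Qb (S.hCtx F S.hF).data S.hR P.1 D ν)
            (fun _ hu => Qb_stable (S.hCtx F S.hF) S.hR S.hD r hu))
          (-(rs (SGl1.om arm B (th J F P.1 F) r) (Qb (S.hCtx F S.hF).data S.hR P.1 D ν')
            (fun _ hu => Qb_stable (S.hCtx F S.hF) S.hR S.hD r hu)))
          (((1 + algebraMap ℂ K t * ν') / (1 + algebraMap ℂ K t * ν)) ^ 2) (y r) = 0 →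
        ∀ d : Derivation ℂ K K,
          Mv ℂ arm J N W (F + (algebraMap ℂ K t) • f) Pt.1
            (fun r => ten _ _ (y r) + (ten _ _ (y r))ᵀ) d →
          wd arm J (F + (algebraMap ℂ K t) • f) Pt.1
            (fun r => ten _ _ (y r) + (ten _ _ (y r))ᵀ) d
            ((ν - ν')⁻¹ • (f - ν' • F)) ∈ QD arm J B N W F P R D) :
    SLev0.Gens arm J B F P.1 l (QD arm J B N W F P R D) (PbK arm J B F R P.1 D ν')
        (PbK arm J B F R P.1 D ν) ∧
      SLev0.Gens arm J B F P.1 l (QD arm J B N W F P R D) (PbK arm J B F R P.1 D ν)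
        (PbK arm J B F R P.1 D ν') := by
  classical
  have hctx := S.hCtx F S.hF
  obtain ⟨I, hI⟩ := IsAlgClosed.exists_pow_nat_eq (-1 : K) (n := 2) (by norm_num)
  rw [sq] at hI
  have hI0 : I ≠ 0 := by
    rintro rfl
    rw [zero_mul] at hI
    exact one_ne_zero (neg_eq_zero.1 hI.symm)
  set 𝒯 : Set K := (algebraMap ℂ K) '' {t : ℂ | t ∉ bad ∧ 1 + algebraMap ℂ K t * ν ≠ 0 ∧
    1 + algebraMap ℂ K t * ν' ≠ 0} with h𝒯def
  have h𝒯 : 𝒯.Infinite := by
    refine Set.Infinite.image (algebraMap ℂ K).injective.injOn ?_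
    have h1 : (bad ∪ {t : ℂ | 1 + algebraMap ℂ K t * ν = 0} ∪
        {t : ℂ | 1 + algebraMap ℂ K t * ν' = 0}).Finite :=
      (hbad.union (good_t ν).finite).union (good_t ν').finite
    refine h1.infinite_compl.mono ?_
    intro t ht
    simp only [Set.mem_compl_iff, Set.mem_union, Set.mem_setOf_eq, not_or] at ht
    exact ⟨ht.1.1, ht.1.2, ht.2⟩
  set Λ0 : Set K := (fun t => (1 + t * ν') / (1 + t * ν)) '' 𝒯 with hΛ0
  have hΛi : Λ0.Infinite := ratios_infinite h𝒯 hne (by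
    rintro _ ⟨t, ht, rfl⟩
    exact ht.2.1)
  have key : ∀ ρ ∈ Λ0, ρ ≠ 0 ∧ ∀ x : Fin 3 → (Fin n2 → K) ⊗[K] (Fin n1 → K),
      Dual.Exact (fun s => (A1 s).mulVecLin) (fun s => (A2 s).mulVecLin)
        (LinearMap.ker (Q1ᵀ * (J * P.1) * Q1).mulVecLin)
        (LinearMap.ker (Q2ᵀ * (J * P.1) * Q2).mulVecLin) ((I * ρ) ^ 2) x →
      ∑ t, TensorProduct.lift ((1 : K) • bq arm J F P.1 Q2 Q1 t) (x t) +
        (I * ρ) • ∑ t, TensorProduct.lift (I • (bq arm J F P.1 Q1 Q2 t).flip) (x t) ∈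
        QD arm J B N W F P R D := by
    rintro _ ⟨_, ⟨t, ⟨ht1, ht2, ht3⟩, rfl⟩, rfl⟩
    refine ⟨div_ne_zero ht3 ht2, fun x hx => ?_⟩
    obtain ⟨Pt, hPt, hV, hPF, hw⟩ := hB t ht1 ht2 ht3
    set H : Matrix ι δ K := F + (algebraMap ℂ K t) • f with hH
    have hHK : H ∈ Kiso J N W := (Kiso J N W).add_mem S.hF ((Kiso J N W).smul_mem _ S.hf)
    have hCH := S.hCtx H hHK
    obtain ⟨Ri, hRi⟩ := FO.exists_gen_inv H
    have hk : (ν - ν')⁻¹ • (f - ν' • F) ∈ N ⊓ W :=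
      Submodule.smul_mem _ _ (Submodule.sub_mem _ S.hf.1 (Submodule.smul_mem _ _ S.hF.1))
    have hRel := rel_of (t := algebraMap ℂ K t) (P0 := P.1) (P := Pt) hne S.hF.1 S.hf.1 hCH hPt
      (flip S) hPF
      (Q1 := Qb (S.hCtx F S.hF).data S.hR P.1 D ν) (Q2 := Qb (S.hCtx F S.hF).data S.hR P.1 D ν')
      (fun u hu => (Qb_rel hctx S.hR S.hD (S.hNil F S.hF) S.hP S.hf.1 hu).1)
      (fun u hu => (Qb_rel hctx S.hR S.hD (S.hNil F S.hF) S.hP S.hf.1 hu).1)
    refine SRel343.rel hctx two_ne' S.hR S.hP S.hD b1 b2 hI hCH hRi hPt hV hk hRel ht2 ht3 ?_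
      (QD arm J B N W F P R D) SLev0.N_le_QG x hx ?_
    · field_simp
    · intro π1 π2 h1 h2 y hy hsum d hm
      refine hw x (fun r => ?_) π1 π2 h1 h2 y hy hsum d hm
      have h3 := hx.2 r
      rwa [mul_pow, sq I, hI, neg_one_mul] at h3
  exact SLev0.lev1 b1 b2 (Λ := (fun ρ => I * ρ) '' Λ0)
    (hΛi.image (mul_right_injective₀ hI0).injOn)
    (by
      rintro ⟨ρ, hρ, h3⟩
      rcases mul_eq_zero.1 h3 with h4 | h4
      · exact hI0 h4
      · exact (key ρ hρ).1 h4) 1 I one_ne_zero hI0 (QD arm J B N W F P R D)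
    (by
      rintro _ ⟨ρ, hρ, rfl⟩ x hx
      exact (key ρ hρ).2 x hx)

end Crest.Agent.R172.SLevQ775
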