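import Crest.Agent.R172.SpS7
import Crest.Agent.R172.Qt4

/-!
Row 172 (S0260), (t2), S-side: the move at `t = 0` and the SUM RELATION (note 15958 (1) of
helper731), arbitrary radical and arbitrary `T`.

* `exists_move` : from 869's `derSp_of`: `x s` symmetric tensors with values in `im g`, exact for
  `Φ_s = M_s(g) J P₀`; `ξ` with `g ξᵀ = act X g` given; then a derivation `d` realising `(X, ξ)`
  with `dg = act X g`, `dP₀ = 0`, `dP_s = [X_s, P_s]`.
* `sum_rel` : the first derivative of a second element `f ∈ 𝒦iso`.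
-/

set_option autoImplicit false
set_option linter.unusedSectionVars false
set_option linter.unusedFintypeInType false
set_option linter.unusedDecidableInType false

namespace Crest.Agent.R172.SMove

open Matrix Module Crest.Agent.R172.FO Crest.Agent.R172.Qt Crest.Agent.R172.SpS
open Crest.Agent.R172.Om (Kiso)

variable {ι : Type*} [Fintype ι] [DecidableEq ι] {δ : Type*} [Fintype δ] [DecidableEq δ]
variable {k K : Type*} [Field k] [Field K] [Algebra k K]
variable {arm : δ → Fin 3} {J : Matrix ι ι K} {B : Matrix δ δ K}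
  {N W : Submodule K (Matrix ι δ K)} {g : Matrix ι δ K}

/-- vertical derivations with a second constant element `f` -/
structure VertF (k : Type*) {K : Type*} [Field k] [Field K] [Algebra k K] (arm : δ → Fin 3)
    (J : Matrix ι ι K) (N W : Submodule K (Matrix ι δ K)) (g f : Matrix ι δ K)
    (p : Matrix ι ι K × (Fin 3 → Matrix ι ι K)) : Prop where
  v1 : ∀ w ∈ Kiso J N W, ∃ d : Derivation k K K, g.map d = w ∧ f.map d = 0 ∧
    Realises arm N W (0 : Fin 3 → Matrix ι ι K) (0 : Matrix δ δ K) d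
  v2 : ∀ p' ∈ NN arm J N g, ∃ d : Derivation k K K, g.map d = 0 ∧ f.map d = 0 ∧
    Realises arm N W (0 : Fin 3 → Matrix ι ι K) (0 : Matrix δ δ K) d ∧
    p.1.map d = p'.1 ∧ ∀ s, (p.2 s).map d = p'.2 s

/-- the exactness condition implies the isotropy condition -/
theorem iso_of_exact (h : Ctx k arm J B N W g) {R : Matrix δ ι K}
    {p : Matrix ι ι K × (Fin 3 → Matrix ι ι K)} (hp : p ∈ NN arm J N g)
    {x : Fin 3 → Matrix ι ι K} (hx : ∀ s, SymS g R (x s))
    (hsum : ∑ s, (M arm B s g g * (J * p.1) * x s - x s * (J * p.1) * M arm B s g g) = 0) :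
    Iso arm B (fun s => XX J (x s) p.1) g := by
  have hD := h.data
  have hiso := h.iso
  have hΨs : ∀ s, (M arm B s g g)ᵀ = M arm B s g g := by
    intro s
    unfold M
    rw [transpose_mul, transpose_mul, transpose_mul, transpose_transpose, E_transpose,
      hD.B_symm]
    simp only [Matrix.mul_assoc]
    rw [← Matrix.mul_assoc B, ← hD.B_arm, Matrix.mul_assoc]
  have hXg : ∀ s, XX J (x s) p.1 * g = x s * J * p.1 * g := fun s => XX_g (hx s) hiso
  have hXΨ : ∀ s, XX J (x s) p.1 * M arm B s g g = x s * (J * p.1) * M arm B s g g := by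
    intro s
    unfold M
    calc XX J (x s) p.1 * (g * E K arm s * B * gᵀ) = (XX J (x s) p.1 * g) * E K arm s * B * gᵀ := by
          simp only [Matrix.mul_assoc]
      _ = _ := by rw [hXg]; simp only [Matrix.mul_assoc]
  unfold Iso
  have e1 : act arm (fun s => XX J (x s) p.1) g * B * gᵀ
      = ∑ s, x s * (J * p.1) * M arm B s g g := by
    unfold act
    rw [Matrix.sum_mul, Matrix.sum_mul]
    refine Finset.sum_congr rfl fun s _ => ?_
    rw [← hXΨ]
    unfold M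
    simp only [Matrix.mul_assoc]
  have e2 : g * B * (act arm (fun s => XX J (x s) p.1) g)ᵀ
      = - ∑ s, M arm B s g g * (J * p.1) * x s := by
    have e3 : g * B * (act arm (fun s => XX J (x s) p.1) g)ᵀ
        = (act arm (fun s => XX J (x s) p.1) g * B * gᵀ)ᵀ := by
      rw [transpose_mul, transpose_mul, transpose_transpose, hD.B_symm, Matrix.mul_assoc]
    rw [e3, e1, transpose_sum, ← Finset.sum_neg_distrib]
    refine Finset.sum_congr rfl fun s _ => ?_
    have e4 : (J * p.1)ᵀ = -(J * p.1) := by rw [transpose_mul, hD.J_symm, hp.1.eq]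
    rw [transpose_mul, transpose_mul, hΨs, e4, (hx s).symm]
    simp only [Matrix.neg_mul, Matrix.mul_neg, Matrix.mul_assoc]
  rw [e1, e2, ← sub_eq_add_neg, ← Finset.sum_sub_distrib, ← neg_eq_zero,
    ← Finset.sum_neg_distrib, ← hsum]
  refine Finset.sum_congr rfl fun s _ => ?_
  abel

/-- **the move at `g`** with a given `ξ`. -/
theorem exists_move (h : Ctx k arm J B N W g) (h2 : (2 : K) ≠ 0) {R : Matrix δ ι K}
    (hR : g * R * g = g) {f : Matrix ι δ K}
    {p : Matrix ι ι K × (Fin 3 → Matrix ι ι K)} (hp : p ∈ NN arm J N g)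
    (hV : VertF k arm J N W g f p) {x : Fin 3 → Matrix ι ι K} (hx : ∀ s, SymS g R (x s))
    {ξ : Matrix δ δ K} (hξ : ξᵀ * B + B * ξ = 0)
    (hξg : g * ξᵀ = act arm (fun s => XX J (x s) p.1) g) :
    ∃ d : Derivation k K K, Realises arm N W (fun s => XX J (x s) p.1) ξ d ∧
      g.map d = act arm (fun s => XX J (x s) p.1) g ∧ p.1.map d = 0 ∧
      ∀ s, (p.2 s).map d = XX J (x s) p.1 * p.2 s - p.2 s * XX J (x s) p.1 := by
  have hD := h.data
  have hiso := h.iso
  have hX : ∀ s, Skw J (XX J (x s) p.1) := fun s => skw_XX hD.J_symm (hx s).symm hp.1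
  have hact : act arm (fun s => XX J (x s) p.1) g
      = g * ∑ s, (R * x s * J * p.1 * g) * E K arm s :=
    act_mul_const arm _ g fun s => XX_g' (hx s) hiso
  obtain ⟨d0, hd0⟩ := hD.dir (fun s => XX J (x s) p.1) ξ hX hξ
  have hw := kiso_of h h2 hR hp hx hξ hξg hd0
  obtain ⟨d1, hd1, -, hr1⟩ := hV.v1 _ hw
  have hd2r := Realises.sub_zero' hd0 hr1
  have hd2g : g.map (d0 - d1) = g * ∑ s, (R * x s * J * p.1 * g) * E K arm s := by
    rw [map_dsub, hd1, ← hact]; abel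
  have hp' := NN_der hD hp hiso hx hd2r hd2g
  obtain ⟨d3, hd3g, -, hr3, hd3p, hd3s⟩ := hV.v2 _ hp'
  refine ⟨d0 - d1 - d3, Realises.sub_zero' hd2r hr3, ?_, ?_, fun s => ?_⟩
  · rw [map_dsub, hd3g, sub_zero, hd2g, hact]
  · rw [map_dsub, hd3p, sub_self]
  · rw [map_dsub, hd3s s]
    exact sub_sub_cancel _ _

/-! ### the stacked `ξ` -/

/-- `ξ` for a pair `(g; f)`. -/
theorem exists_xi_pair (hBs : Bᵀ = B) (hBu : IsUnit B) (g f A A' : Matrix ι δ K)
    {β : Type*} [Fintype β] (C : Matrix δ β K) (D : Matrix β δ K)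
    (hA : A = g * C * D) (hA' : A' = f * C * D)
    (h11 : A * B * gᵀ + g * B * Aᵀ = 0) (h12 : A * B * fᵀ + g * B * A'ᵀ = 0)
    (h22 : A' * B * fᵀ + f * B * A'ᵀ = 0) :
    ∃ ξ : Matrix δ δ K, ξᵀ * B + B * ξ = 0 ∧ g * ξᵀ = A ∧ f * ξᵀ = A' := by
  classical
  set F : Matrix (ι ⊕ ι) δ K := Matrix.fromRows g f with hF
  set P : Matrix (ι ⊕ ι) δ K := Matrix.fromRows A A' with hP
  obtain ⟨R, hR⟩ := exists_gen_inv F
  have hPF : P = F * (C * D) := by
    rw [hP, hF, Matrix.fromRows_mul, hA, hA', Matrix.mul_assoc, Matrix.mul_assoc]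
  have h1 : F * R * P = P := by
    rw [hPF, ← Matrix.mul_assoc, hR]
  have h21 : A' * B * gᵀ + f * B * Aᵀ = 0 := by
    have := congrArg transpose h12
    rw [transpose_add, transpose_mul, transpose_mul, transpose_mul, transpose_mul,
      transpose_transpose, transpose_transpose, hBs, transpose_zero, add_comm] at this
    simpa only [Matrix.mul_assoc] using this
  have h3 : P * B * Fᵀ + F * B * Pᵀ = 0 := by
    rw [hP, hF, Matrix.transpose_fromRows, Matrix.transpose_fromRows, Matrix.fromRows_mul A A' B,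
      Matrix.fromRows_mul g f B, Matrix.fromRows_mul_fromCols, Matrix.fromRows_mul_fromCols,
      Matrix.fromBlocks_add, h11, h12, h21, h22, Matrix.fromBlocks_zero]
  obtain ⟨ξ, hξ, hξF⟩ := exists_xi hBs hBu F P R h1 hR h3
  rw [hF, hP, Matrix.fromRows_mul] at hξF
  have h4 := Matrix.fromRows_inj hξF
  exact ⟨ξ, hξ, h4.1, h4.2⟩

/-! ### the sum relation -/

/-- the data of two blocks `P_i = g U_i`, `f U_i = l_i P_i`, `(P₀ P_i)ᵀ J f = l_i (P₀ P_i)ᵀ J g` -/
structure Blk {α : Type*} [Fintype α] (J : Matrix ι ι K) (g f : Matrix ι δ K)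
    (p0 : Matrix ι ι K) (P : Matrix ι α K) (U : Matrix δ α K) (l : K) : Prop where
  im : P = g * U
  fU : f * U = l • P
  row : (p0 * P)ᵀ * J * f = l • ((p0 * P)ᵀ * J * g)

section sum

variable {α β : Type*} [Fintype α] [Fintype β] {f : Matrix ι δ K}
variable {P1 : Matrix ι α K} {P2 : Matrix ι β K} {U1 : Matrix δ α K} {U2 : Matrix δ β K}
  {l1 l2 : K} {p : Matrix ι ι K × (Fin 3 → Matrix ι ι K)}

/-- the symmetric tensor of `y` -/
def xt (P1 : Matrix ι α K) (P2 : Matrix ι β K) (y : Matrix β α K) : Matrix ι ι K :=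
  P2 * y * P1ᵀ + P1 * yᵀ * P2ᵀ

/-- `Φ_s P` -/
def ph (arm : δ → Fin 3) (J : Matrix ι ι K) (B : Matrix δ δ K) (g : Matrix ι δ K)
    (p0 : Matrix ι ι K) (s : Fin 3) {γ : Type*} (P : Matrix ι γ K) : Matrix ι γ K :=
  M arm B s g g * (J * p0) * P

theorem M_symm (hD : Data k arm J B N W) (g : Matrix ι δ K) (s : Fin 3) :
    (M arm B s g g)ᵀ = M arm B s g g := by
  unfold M
  rw [transpose_mul, transpose_mul, transpose_mul, transpose_transpose, E_transpose,
    hD.B_symm]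
  simp only [Matrix.mul_assoc]
  rw [← Matrix.mul_assoc B, ← hD.B_arm, Matrix.mul_assoc]

theorem tJ (hJ : Jᵀ = J) {p0 : Matrix ι ι K} (hp : Skw J p0) {γ : Type*} (P : Matrix ι γ K) :
    Pᵀ * (J * p0) = -((p0 * P)ᵀ * J) := by
  rw [transpose_mul, Matrix.mul_assoc, hp.eq, Matrix.mul_neg, neg_neg]

theorem xt_symS {R : Matrix δ ι K} (hR : g * R * g = g) (h1 : P1 = g * U1) (h2 : P2 = g * U2)
    (y : Matrix β α K) : SymS g R (xt P1 P2 y) where
  symm := by
    unfold xt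
    rw [transpose_add, transpose_mul, transpose_mul, transpose_mul, transpose_mul,
      transpose_transpose, transpose_transpose, transpose_transpose, add_comm]
    simp only [Matrix.mul_assoc]
  im := by
    have e1 : g * (R * P1) = P1 := by
      rw [h1, ← Matrix.mul_assoc, ← Matrix.mul_assoc, hR]
    have e2 : g * (R * P2) = P2 := by
      rw [h2, ← Matrix.mul_assoc, ← Matrix.mul_assoc, hR]
    unfold xt
    calc g * (R * (P2 * y * P1ᵀ + P1 * yᵀ * P2ᵀ))
        = (g * (R * P2)) * y * P1ᵀ + (g * (R * P1)) * yᵀ * P2ᵀ := by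
          rw [Matrix.mul_add, Matrix.mul_add]; simp only [Matrix.mul_assoc]
      _ = _ := by rw [e1, e2]

/-- `(P₀ P)ᵀ J g E_s B gᵀ = (Φ_s P)ᵀ` -/
theorem A_M (hD : Data k arm J B N W) {p0 : Matrix ι ι K} (s : Fin 3) {γ : Type*}
    (P : Matrix ι γ K) : (p0 * P)ᵀ * J * g * E K arm s * B * gᵀ = (ph arm J B g p0 s P)ᵀ := by
  unfold ph
  rw [transpose_mul (M arm B s g g * (J * p0)) P, transpose_mul (M arm B s g g) (J * p0),
    M_symm hD, transpose_mul J p0, hD.J_symm, transpose_mul p0 P]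
  unfold M
  simp only [Matrix.mul_assoc]

/-- `(P₀ P)ᵀ J g E_s B fᵀ = l (Φ_s P)ᵀ` -/
theorem A_Mf (h : Ctx k arm J B N W g) (hf : f ∈ N ⊓ W) {α : Type*} [Fintype α]
    {P : Matrix ι α K} {U : Matrix δ α K} {l : K} {p0 : Matrix ι ι K}
    (hb : Blk J g f p0 P U l) (s : Fin 3) :
    (p0 * P)ᵀ * J * g * E K arm s * B * fᵀ = l • (ph arm J B g p0 s P)ᵀ := by
  have h1 : M arm B s g f = M arm B s f g := h.data.symm_arm h.mem hf s
  calc (p0 * P)ᵀ * J * g * E K arm s * B * fᵀ = (p0 * P)ᵀ * J * M arm B s g f := by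
        unfold M; simp only [Matrix.mul_assoc]
    _ = (p0 * P)ᵀ * J * f * (E K arm s * B * gᵀ) := by
        rw [h1]; unfold M; simp only [Matrix.mul_assoc]
    _ = l • ((p0 * P)ᵀ * J * g * E K arm s * B * gᵀ) := by
        rw [hb.row, Matrix.smul_mul]; simp only [Matrix.mul_assoc]
    _ = _ := by rw [A_M h.data]

/-- the algebra of the sum relation: the stacked `ξ` and the identity -/
theorem sum_xi (h : Ctx k arm J B N W g) {R : Matrix δ ι K}
    (hR : g * R * g = g) (hf : f ∈ N ⊓ W) (hp : p ∈ NN arm J N g)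
    (hb1 : Blk J g f p.1 P1 U1 l1) (hb2 : Blk J g f p.1 P2 U2 l2)
    (y : Fin 3 → Matrix β α K)
    (hex : ∑ s, (P2 * y s * (ph arm J B g p.1 s P1)ᵀ + ph arm J B g p.1 s P2 * y s * P1ᵀ) = 0) :
    (∀ s, SymS g R (xt P1 P2 (y s))) ∧ ∃ ξ : Matrix δ δ K, ξᵀ * B + B * ξ = 0 ∧
      g * ξᵀ = act arm (fun s => XX J (xt P1 P2 (y s)) p.1) g ∧
      (l2 - l1) • (∑ s, (P2 * y s * ((p.1 * P1)ᵀ * J * g) -
        P1 * (y s)ᵀ * ((p.1 * P2)ᵀ * J * g)) * E K arm s) =
        act arm (fun s => XX J (xt P1 P2 (y s)) p.1) f - f * ξᵀ := by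
  classical
  have hD := h.data
  have hJ := hD.J_symm
  set A1 : Matrix α δ K := (p.1 * P1)ᵀ * J * g with hA1
  set A2 : Matrix β δ K := (p.1 * P2)ᵀ * J * g with hA2
  have hx : ∀ s, SymS g R (xt P1 P2 (y s)) := fun s => xt_symS hR hb1.im hb2.im (y s)
  -- the four products
  have a1 : ∀ s, P1ᵀ * (J * p.1) * M arm B s g g = -(ph arm J B g p.1 s P1)ᵀ := by
    intro s
    rw [tJ hJ hp.1, ← A_M hD]
    unfold M
    simp only [Matrix.neg_mul, Matrix.mul_assoc]
  have a2 : ∀ s, P2ᵀ * (J * p.1) * M arm B s g g = -(ph arm J B g p.1 s P2)ᵀ := by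
    intro s
    rw [tJ hJ hp.1, ← A_M hD]
    unfold M
    simp only [Matrix.neg_mul, Matrix.mul_assoc]
  have hex' : ∑ s, (ph arm J B g p.1 s P1 * (y s)ᵀ * P2ᵀ +
      P1 * (y s)ᵀ * (ph arm J B g p.1 s P2)ᵀ) = 0 := by
    have h3 := congrArg transpose hex
    rw [transpose_sum, transpose_zero] at h3
    rw [← h3]
    refine Finset.sum_congr rfl fun s _ => ?_
    rw [transpose_add, transpose_mul, transpose_mul, transpose_mul, transpose_mul,
      transpose_transpose, transpose_transpose]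
    simp only [Matrix.mul_assoc]
  have hsum : ∑ s, (M arm B s g g * (J * p.1) * xt P1 P2 (y s) -
      xt P1 P2 (y s) * (J * p.1) * M arm B s g g) = 0 := by
    have h3 : ∀ s, M arm B s g g * (J * p.1) * xt P1 P2 (y s) -
        xt P1 P2 (y s) * (J * p.1) * M arm B s g g =
        (P2 * y s * (ph arm J B g p.1 s P1)ᵀ + ph arm J B g p.1 s P2 * y s * P1ᵀ) +
        (ph arm J B g p.1 s P1 * (y s)ᵀ * P2ᵀ + P1 * (y s)ᵀ * (ph arm J B g p.1 s P2)ᵀ) := by
      intro s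
      have e1 : M arm B s g g * (J * p.1) * xt P1 P2 (y s) =
          ph arm J B g p.1 s P2 * y s * P1ᵀ + ph arm J B g p.1 s P1 * (y s)ᵀ * P2ᵀ := by
        unfold xt ph
        rw [Matrix.mul_add]
        simp only [Matrix.mul_assoc]
      have e2 : xt P1 P2 (y s) * (J * p.1) * M arm B s g g =
          -(P2 * y s * (ph arm J B g p.1 s P1)ᵀ) - P1 * (y s)ᵀ * (ph arm J B g p.1 s P2)ᵀ := by
        unfold xt
        calc (P2 * y s * P1ᵀ + P1 * (y s)ᵀ * P2ᵀ) * (J * p.1) * M arm B s g g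
            = P2 * y s * (P1ᵀ * (J * p.1) * M arm B s g g) +
              P1 * (y s)ᵀ * (P2ᵀ * (J * p.1) * M arm B s g g) := by
              rw [Matrix.add_mul, Matrix.add_mul]; simp only [Matrix.mul_assoc]
          _ = _ := by rw [a1, a2, Matrix.mul_neg, Matrix.mul_neg, ← sub_eq_add_neg]
      rw [e1, e2]
      abel
    rw [Finset.sum_congr rfl fun s _ => h3 s, Finset.sum_add_distrib, hex, hex', add_zero]
  have hisoX := iso_of_exact h hp hx hsum
  -- `X_s g` and `X_s f`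
  have hXg : ∀ s, XX J (xt P1 P2 (y s)) p.1 * g = -(P2 * y s * A1 + P1 * (y s)ᵀ * A2) := by
    intro s
    rw [XX_g (hx s) h.iso]
    unfold xt
    calc (P2 * y s * P1ᵀ + P1 * (y s)ᵀ * P2ᵀ) * J * p.1 * g
        = P2 * y s * (P1ᵀ * (J * p.1)) * g + P1 * (y s)ᵀ * (P2ᵀ * (J * p.1)) * g := by
          simp only [Matrix.add_mul, Matrix.mul_assoc]
      _ = _ := by
          rw [tJ hJ hp.1, tJ hJ hp.1, hA1, hA2]
          simp only [Matrix.mul_neg, Matrix.neg_mul, Matrix.mul_assoc]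
          abel
  have hgf := h.perp f hf
  have hPf1 : P1ᵀ * J * f = 0 := by
    rw [hb1.im, transpose_mul, Matrix.mul_assoc, Matrix.mul_assoc, ← Matrix.mul_assoc gᵀ, hgf,
      Matrix.mul_zero]
  have hPf2 : P2ᵀ * J * f = 0 := by
    rw [hb2.im, transpose_mul, Matrix.mul_assoc, Matrix.mul_assoc, ← Matrix.mul_assoc gᵀ, hgf,
      Matrix.mul_zero]
  have hXf : ∀ s, XX J (xt P1 P2 (y s)) p.1 * f =
      -(l1 • (P2 * y s * A1) + l2 • (P1 * (y s)ᵀ * A2)) := by
    intro s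
    have e1 : xt P1 P2 (y s) * J * f = 0 := by
      unfold xt
      calc (P2 * y s * P1ᵀ + P1 * (y s)ᵀ * P2ᵀ) * J * f
          = P2 * y s * (P1ᵀ * J * f) + P1 * (y s)ᵀ * (P2ᵀ * J * f) := by
            simp only [Matrix.add_mul, Matrix.mul_assoc]
        _ = 0 := by rw [hPf1, hPf2, Matrix.mul_zero, Matrix.mul_zero, add_zero]
    have e2 : XX J (xt P1 P2 (y s)) p.1 * f = xt P1 P2 (y s) * J * p.1 * f := by
      unfold XX
      have : p.1 * xt P1 P2 (y s) * J * f = p.1 * (xt P1 P2 (y s) * J * f) := by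
        simp only [Matrix.mul_assoc]
      rw [Matrix.add_mul, this, e1, Matrix.mul_zero, add_zero]
    rw [e2]
    unfold xt
    calc (P2 * y s * P1ᵀ + P1 * (y s)ᵀ * P2ᵀ) * J * p.1 * f
        = P2 * y s * (P1ᵀ * (J * p.1)) * f + P1 * (y s)ᵀ * (P2ᵀ * (J * p.1)) * f := by
          simp only [Matrix.add_mul, Matrix.mul_assoc]
      _ = -(P2 * y s * ((p.1 * P1)ᵀ * J * f) + P1 * (y s)ᵀ * ((p.1 * P2)ᵀ * J * f)) := by
          rw [tJ hJ hp.1, tJ hJ hp.1]
          simp only [Matrix.mul_neg, Matrix.neg_mul, Matrix.mul_assoc]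
          abel
      _ = _ := by rw [hb1.row, hb2.row, Matrix.mul_smul, Matrix.mul_smul]
  -- the stacked `ξ`
  set D1 : Matrix β δ K := -∑ s, y s * A1 * E K arm s with hD1
  set D2 : Matrix α δ K := -∑ s, (y s)ᵀ * A2 * E K arm s with hD2
  have hactg : act arm (fun s => XX J (xt P1 P2 (y s)) p.1) g = P2 * D1 + P1 * D2 := by
    unfold act
    rw [hD1, hD2, Matrix.mul_neg, Matrix.mul_neg, Matrix.mul_sum, Matrix.mul_sum, ← neg_add,
      ← Finset.sum_add_distrib, ← Finset.sum_neg_distrib]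
    refine Finset.sum_congr rfl fun s _ => ?_
    rw [hXg]
    simp only [Matrix.neg_mul, Matrix.add_mul, Matrix.mul_assoc]
  set A' : Matrix ι δ K := l2 • (P2 * D1) + l1 • (P1 * D2) with hA'
  have hgC : g * Matrix.fromCols U2 U1 = Matrix.fromCols P2 P1 := by
    rw [Matrix.mul_fromCols, ← hb1.im, ← hb2.im]
  have hfC : f * Matrix.fromCols U2 U1 = Matrix.fromCols (l2 • P2) (l1 • P1) := by
    rw [Matrix.mul_fromCols, hb1.fU, hb2.fU]
  have e11 : act arm (fun s => XX J (xt P1 P2 (y s)) p.1) g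
      = g * Matrix.fromCols U2 U1 * Matrix.fromRows D1 D2 := by
    rw [hgC, Matrix.fromCols_mul_fromRows, hactg]
  have e12 : A' = f * Matrix.fromCols U2 U1 * Matrix.fromRows D1 D2 := by
    rw [hfC, Matrix.fromCols_mul_fromRows, hA', Matrix.smul_mul, Matrix.smul_mul]
  have c1g : P2 * D1 * B * gᵀ = -∑ s, P2 * y s * (ph arm J B g p.1 s P1)ᵀ := by
    rw [hD1, Matrix.mul_neg, Matrix.neg_mul, Matrix.neg_mul, Matrix.mul_sum, Matrix.sum_mul,
      Matrix.sum_mul]
    refine congrArg _ (Finset.sum_congr rfl fun s _ => ?_)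
    rw [← A_M hD, hA1]
    simp only [Matrix.mul_assoc]
  have c2g : P1 * D2 * B * gᵀ = -∑ s, P1 * (y s)ᵀ * (ph arm J B g p.1 s P2)ᵀ := by
    rw [hD2, Matrix.mul_neg, Matrix.neg_mul, Matrix.neg_mul, Matrix.mul_sum, Matrix.sum_mul,
      Matrix.sum_mul]
    refine congrArg _ (Finset.sum_congr rfl fun s _ => ?_)
    rw [← A_M hD, hA2]
    simp only [Matrix.mul_assoc]
  have c1f : P2 * D1 * B * fᵀ = -(l1 • ∑ s, P2 * y s * (ph arm J B g p.1 s P1)ᵀ) := by
    rw [hD1, Matrix.mul_neg, Matrix.neg_mul, Matrix.neg_mul, Matrix.mul_sum, Matrix.sum_mul,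
      Matrix.sum_mul, Finset.smul_sum]
    refine congrArg _ (Finset.sum_congr rfl fun s _ => ?_)
    rw [← Matrix.mul_smul, ← A_Mf h hf hb1, hA1]
    simp only [Matrix.mul_assoc]
  have c2f : P1 * D2 * B * fᵀ = -(l2 • ∑ s, P1 * (y s)ᵀ * (ph arm J B g p.1 s P2)ᵀ) := by
    rw [hD2, Matrix.mul_neg, Matrix.neg_mul, Matrix.neg_mul, Matrix.mul_sum, Matrix.sum_mul,
      Matrix.sum_mul, Finset.smul_sum]
    refine congrArg _ (Finset.sum_congr rfl fun s _ => ?_)
    rw [← Matrix.mul_smul, ← A_Mf h hf hb2, hA2]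
    simp only [Matrix.mul_assoc]
  set E1 : Matrix ι ι K := ∑ s, P2 * y s * (ph arm J B g p.1 s P1)ᵀ with hE1
  set E2 : Matrix ι ι K := ∑ s, P1 * (y s)ᵀ * (ph arm J B g p.1 s P2)ᵀ with hE2
  have hE1t : E1ᵀ = ∑ s, ph arm J B g p.1 s P1 * (y s)ᵀ * P2ᵀ := by
    rw [hE1, transpose_sum]
    refine Finset.sum_congr rfl fun s _ => ?_
    rw [transpose_mul, transpose_mul, transpose_transpose]
    simp only [Matrix.mul_assoc]
  have hE2t : E2ᵀ = ∑ s, ph arm J B g p.1 s P2 * y s * P1ᵀ := by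
    rw [hE2, transpose_sum]
    refine Finset.sum_congr rfl fun s _ => ?_
    rw [transpose_mul, transpose_mul, transpose_transpose, transpose_transpose]
    simp only [Matrix.mul_assoc]
  have k1 : E1 + E2ᵀ = 0 := by
    rw [hE2t, hE1, ← Finset.sum_add_distrib]; exact hex
  have k2 : E1ᵀ + E2 = 0 := by
    rw [hE1t, hE2, ← Finset.sum_add_distrib]; exact hex'
  have tr : ∀ X Y : Matrix ι δ K, X * B * Yᵀ = (Y * B * Xᵀ)ᵀ := by
    intro X Y
    rw [transpose_mul, transpose_mul, transpose_transpose, hD.B_symm, Matrix.mul_assoc]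
  obtain ⟨ξ, hξ, hξg, hξf⟩ := exists_xi_pair hD.B_symm hD.B_unit g f
    (act arm (fun s => XX J (xt P1 P2 (y s)) p.1) g) A' _ _ e11 e12 hisoX (by
      have e1 : act arm (fun s => XX J (xt P1 P2 (y s)) p.1) g * B * fᵀ =
          -(l1 • E1) - l2 • E2 := by
        rw [hactg, Matrix.add_mul, Matrix.add_mul, c1f, c2f, sub_eq_add_neg]
      have e2 : A' * B * gᵀ = -(l2 • E1) - l1 • E2 := by
        rw [hA', Matrix.add_mul, Matrix.add_mul, Matrix.smul_mul, Matrix.smul_mul,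
          Matrix.smul_mul, Matrix.smul_mul, c1g, c2g, smul_neg, smul_neg, sub_eq_add_neg]
      rw [tr g A', e1, e2, transpose_sub, transpose_neg, transpose_smul, transpose_smul]
      have e3 : -(l1 • E1) - l2 • E2 + (-(l2 • E1ᵀ) - l1 • E2ᵀ) =
          -(l1 • (E1 + E2ᵀ)) - l2 • (E1ᵀ + E2) := by
        rw [smul_add, smul_add]; abel
      rw [e3, k1, k2, smul_zero, smul_zero, neg_zero, sub_zero]) (by
      have e2 : A' * B * fᵀ = -((l1 * l2) • (E1 + E2)) := by
        rw [hA', Matrix.add_mul, Matrix.add_mul, Matrix.smul_mul, Matrix.smul_mul,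
          Matrix.smul_mul, Matrix.smul_mul, c1f, c2f, smul_neg, smul_neg, smul_smul, smul_smul,
          mul_comm l2 l1, smul_add]
        abel
      rw [tr f A', e2, transpose_neg, transpose_smul, transpose_add]
      have e3 : -((l1 * l2) • (E1 + E2)) + -((l1 * l2) • (E1ᵀ + E2ᵀ)) =
          -((l1 * l2) • ((E1 + E2ᵀ) + (E1ᵀ + E2))) := by
        simp only [smul_add]; abel
      rw [e3, k1, k2, add_zero, smul_zero, neg_zero])
  have hactf : act arm (fun s => XX J (xt P1 P2 (y s)) p.1) f =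
      l1 • (P2 * D1) + l2 • (P1 * D2) := by
    unfold act
    rw [hD1, hD2, Matrix.mul_neg, Matrix.mul_neg, Matrix.mul_sum, Matrix.mul_sum, smul_neg,
      smul_neg, Finset.smul_sum, Finset.smul_sum, ← neg_add, ← Finset.sum_add_distrib,
      ← Finset.sum_neg_distrib]
    refine Finset.sum_congr rfl fun s _ => ?_
    rw [hXf]
    simp only [Matrix.neg_mul, Matrix.add_mul, Matrix.smul_mul, Matrix.mul_assoc]
  have hfin : (l2 - l1) • (∑ s, (P2 * y s * A1 - P1 * (y s)ᵀ * A2) * E K arm s) =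
      act arm (fun s => XX J (xt P1 P2 (y s)) p.1) f - f * ξᵀ := by
    have e1 : (∑ s, (P2 * y s * A1 - P1 * (y s)ᵀ * A2) * E K arm s) = P1 * D2 - P2 * D1 := by
      rw [hD1, hD2, Matrix.mul_neg, Matrix.mul_neg, Matrix.mul_sum, Matrix.mul_sum,
        ← Finset.sum_neg_distrib, sub_neg_eq_add, ← Finset.sum_add_distrib]
      refine Finset.sum_congr rfl fun s _ => ?_
      rw [Matrix.sub_mul]
      simp only [Matrix.mul_assoc]
      abel
    rw [e1, hξf, hactf, hA', sub_smul, smul_sub, smul_sub]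
    abel
  exact ⟨hx, ξ, hξ, hξg, hfin⟩

/-- **the sum relation** -/
theorem sum_rel (h : Ctx k arm J B N W g) (h2 : (2 : K) ≠ 0) {R : Matrix δ ι K}
    (hR : g * R * g = g) (hf : f ∈ N ⊓ W) (hp : p ∈ NN arm J N g)
    (hV : VertF k arm J N W g f p) (hb1 : Blk J g f p.1 P1 U1 l1) (hb2 : Blk J g f p.1 P2 U2 l2)
    (y : Fin 3 → Matrix β α K)
    (hex : ∑ s, (P2 * y s * (ph arm J B g p.1 s P1)ᵀ + ph arm J B g p.1 s P2 * y s * P1ᵀ) = 0) :
    ∃ (ξ : Matrix δ δ K) (d : Derivation k K K), ξᵀ * B + B * ξ = 0 ∧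
      g * ξᵀ = act arm (fun s => XX J (xt P1 P2 (y s)) p.1) g ∧
      Realises arm N W (fun s => XX J (xt P1 P2 (y s)) p.1) ξ d ∧
      g.map d = act arm (fun s => XX J (xt P1 P2 (y s)) p.1) g ∧ p.1.map d = 0 ∧
      (∀ s, (p.2 s).map d = XX J (xt P1 P2 (y s)) p.1 * p.2 s -
        p.2 s * XX J (xt P1 P2 (y s)) p.1) ∧
      f.map d - f * ξᵀ ∈ W ∧
      (l2 - l1) • (∑ s, (P2 * y s * ((p.1 * P1)ᵀ * J * g) -
        P1 * (y s)ᵀ * ((p.1 * P2)ᵀ * J * g)) * E K arm s) - (f.map d - f * ξᵀ) ∈ N := by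
  obtain ⟨hx, ξ, hξ, hξg, hfin⟩ := sum_xi h hR hf hp hb1 hb2 y hex
  obtain ⟨d, hr, hdg, hdp, hds⟩ := exists_move h h2 hR hp hV hx hξ hξg
  refine ⟨ξ, d, hξ, hξg, hr, hdg, hdp, hds, hr.onW f hf.2, ?_⟩
  have hν := hr.onN f hf.1
  rw [hfin]
  have : act arm (fun s => XX J (xt P1 P2 (y s)) p.1) f - f * ξᵀ - (f.map d - f * ξᵀ) =
      -(f.map d - act arm (fun s => XX J (xt P1 P2 (y s)) p.1) f) := by abel
  rw [this]
  exact N.neg_mem hν

set_option maxHeartbeats 1000000 in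
/-- **the move at `g`** with a given `ξ`, from the weak `Vert` of SpS7. -/
theorem exists_move' (h : Ctx k arm J B N W g) (h2 : (2 : K) ≠ 0) {R : Matrix δ ι K}
    (hR : g * R * g = g) (hp : p ∈ NN arm J N g)
    (hV : Vert k arm J N W g p) {x : Fin 3 → Matrix ι ι K} (hx : ∀ s, SymS g R (x s))
    {ξ : Matrix δ δ K} (hξ : ξᵀ * B + B * ξ = 0)
    (hξg : g * ξᵀ = act arm (fun s => XX J (x s) p.1) g) :
    ∃ d : Derivation k K K, Realises arm N W (fun s => XX J (x s) p.1) ξ d ∧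
      g.map d = act arm (fun s => XX J (x s) p.1) g ∧
      (p.1.map d, fun s => (p.2 s).map d - (XX J (x s) p.1 * p.2 s - p.2 s * XX J (x s) p.1)) ∈
        NN arm J N g ∧ gᵀ * J * (p.1.map d * g) = 0 ∧
      ∀ f' ∈ N ⊓ W, gᵀ * J * (p.1.map d * f') = 0 := by
  have hD := h.data
  have hiso := h.iso
  have hX : ∀ s, Skw J (XX J (x s) p.1) := fun s => skw_XX hD.J_symm (hx s).symm hp.1
  have hact : act arm (fun s => XX J (x s) p.1) g
      = g * ∑ s, (R * x s * J * p.1 * g) * E K arm s :=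
    act_mul_const arm _ g fun s => XX_g' (hx s) hiso
  obtain ⟨d0, hd0⟩ := hD.dir (fun s => XX J (x s) p.1) ξ hX hξ
  have hw := kiso_of h h2 hR hp hx hξ hξg hd0
  obtain ⟨d1, hd1, hr1⟩ := hV.v1 _ hw
  have hd2r := Realises.sub_zero' hd0 hr1
  have hd2g : g.map (d0 - d1) = g * ∑ s, (R * x s * J * p.1 * g) * E K arm s := by
    rw [map_dsub, hd1, ← hact]; abel
  have hp' := NN_der hD hp hiso hx hd2r hd2g
  obtain ⟨d3, hd3g, hr3, hd3p⟩ := hV.v2 _ hp'
  have hr := Realises.sub_zero' hd2r hr3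
  have hdg' : g.map (d0 - d1 - d3) = g * ∑ s, (R * x s * J * p.1 * g) * E K arm s := by
    rw [map_dsub, hd3g, sub_zero, hd2g]
  have h0 : gᵀ * J * (p.1.map (d0 - d1 - d3) * g) = 0 := by
    rw [map_dsub, Matrix.sub_mul, Matrix.mul_sub, hd3p, sub_self]
  generalize d0 - d1 - d3 = d at hr hdg' h0
  have hNN := NN_der hD hp hiso hx hr hdg'
  refine ⟨d, hr, by rw [hdg', hact], hNN, h0, fun f' hf' => ?_⟩
  exact h.tf_zero (p := (p.1.map d, fun s => (p.2 s).map d -
    (XX J (x s) p.1 * p.2 s - p.2 s * XX J (x s) p.1))) hf' hNN h0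

/-- **the sum relation** from the weak `Vert` of SpS7 (for the pairs `(H_t, P_t)`) -/
theorem sum_rel' (h : Ctx k arm J B N W g) (h2 : (2 : K) ≠ 0) {R : Matrix δ ι K}
    (hR : g * R * g = g) (hf : f ∈ N ⊓ W) (hp : p ∈ NN arm J N g)
    (hV : Vert k arm J N W g p) (hb1 : Blk J g f p.1 P1 U1 l1) (hb2 : Blk J g f p.1 P2 U2 l2)
    (y : Fin 3 → Matrix β α K)
    (hex : ∑ s, (P2 * y s * (ph arm J B g p.1 s P1)ᵀ + ph arm J B g p.1 s P2 * y s * P1ᵀ) = 0) :
    ∃ (ξ : Matrix δ δ K) (d : Derivation k K K), ξᵀ * B + B * ξ = 0 ∧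
      g * ξᵀ = act arm (fun s => XX J (xt P1 P2 (y s)) p.1) g ∧
      Realises arm N W (fun s => XX J (xt P1 P2 (y s)) p.1) ξ d ∧
      g.map d = act arm (fun s => XX J (xt P1 P2 (y s)) p.1) g ∧
      (p.1.map d, fun s => (p.2 s).map d - (XX J (xt P1 P2 (y s)) p.1 * p.2 s -
        p.2 s * XX J (xt P1 P2 (y s)) p.1)) ∈ NN arm J N g ∧
      (∀ f' ∈ N ⊓ W, gᵀ * J * (p.1.map d * f') = 0) ∧
      f.map d - f * ξᵀ ∈ W ∧
      (l2 - l1) • (∑ s, (P2 * y s * ((p.1 * P1)ᵀ * J * g) -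
        P1 * (y s)ᵀ * ((p.1 * P2)ᵀ * J * g)) * E K arm s) - (f.map d - f * ξᵀ) ∈ N := by
  obtain ⟨hx, ξ, hξ, hξg, hfin⟩ := sum_xi h hR hf hp hb1 hb2 y hex
  obtain ⟨d, hr, hdg, hdp, hd0, hds⟩ := exists_move' h h2 hR hp hV hx hξ hξg
  refine ⟨ξ, d, hξ, hξg, hr, hdg, hdp, hds, hr.onW f hf.2, ?_⟩
  have hν := hr.onN f hf.1
  rw [hfin]
  have : act arm (fun s => XX J (xt P1 P2 (y s)) p.1) f - f * ξᵀ - (f.map d - f * ξᵀ) =
      -(f.map d - act arm (fun s => XX J (xt P1 P2 (y s)) p.1) f) := by abel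
  rw [this]
  exact N.neg_mem hν

/-- `gᵀ J w = 0` -/
theorem gJw (h : Ctx k arm J B N W g) (hf : f ∈ N ⊓ W) {ξ Γ : Matrix δ δ K}
    {d : Derivation k K K} (hdg : g.map d = g * Γ) :
    gᵀ * J * (f.map d - f * ξᵀ) = 0 := by
  have hgf := h.perp f hf
  have h1 : (g.map d)ᵀ * J * f + gᵀ * J * f.map d = 0 := by
    have h0 : (gᵀ * J * f).map d = 0 := by rw [hgf]; ext i j; simp
    rw [map_mul_der, map_mul_der, h.data.J_const, Matrix.mul_zero, add_zero,
      map_transpose_der] at h0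
    exact h0
  have h3 : (g.map d)ᵀ * J * f = 0 := by
    rw [hdg, transpose_mul, Matrix.mul_assoc, Matrix.mul_assoc, ← Matrix.mul_assoc gᵀ, hgf,
      Matrix.mul_zero]
  rw [h3, zero_add] at h1
  rw [Matrix.mul_sub, h1, ← Matrix.mul_assoc, hgf, Matrix.zero_mul, sub_zero]

/-- `(P₀ P)ᵀ J w` -/
theorem rowJw (hD : Data k arm J B N W) {p0 : Matrix ι ι K} {α : Type*} [Fintype α]
    {P : Matrix ι α K} {l : K} (hrow : (p0 * P)ᵀ * J * f = l • ((p0 * P)ᵀ * J * g))
    {ξ : Matrix δ δ K} {d : Derivation k K K} (hgξ : g * ξᵀ = g.map d) (hp0 : p0.map d = 0) :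
    (p0 * P)ᵀ * J * (f.map d - f * ξᵀ) =
      d l • ((p0 * P)ᵀ * J * g) + l • ((p0 * P.map d)ᵀ * J * g) - (p0 * P.map d)ᵀ * J * f := by
  have h1 : ((p0 * P)ᵀ).map d = (p0 * P.map d)ᵀ := by
    rw [map_transpose_der, map_mul_der, hp0, Matrix.zero_mul, zero_add]
  have h2 : ∀ G : Matrix ι δ K, ((p0 * P)ᵀ * J * G).map d =
      (p0 * P.map d)ᵀ * J * G + (p0 * P)ᵀ * J * G.map d := by
    intro G
    rw [map_mul_der, map_mul_der, h1, hD.J_const, Matrix.mul_zero, add_zero]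
  have h3 : ((p0 * P)ᵀ * J * f).map d = (l • ((p0 * P)ᵀ * J * g)).map d := by rw [hrow]
  rw [h2] at h3
  have h4 : (l • ((p0 * P)ᵀ * J * g)).map d =
      d l • ((p0 * P)ᵀ * J * g) + l • ((p0 * P.map d)ᵀ * J * g + (p0 * P)ᵀ * J * g.map d) := by
    rw [← h2]
    ext i j
    simp only [map_apply, Matrix.add_apply, Matrix.smul_apply, smul_eq_mul, Derivation.leibniz]
    ring
  rw [h4] at h3
  have h5 : (p0 * P)ᵀ * J * (f * ξᵀ) = l • ((p0 * P)ᵀ * J * g.map d) := by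
    rw [← Matrix.mul_assoc, hrow, Matrix.smul_mul, Matrix.mul_assoc _ g, hgξ]
  rw [Matrix.mul_sub, h5, eq_sub_of_add_eq' h3, smul_add]
  abel

end sum

end Crest.Agent.R172.SMove
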