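import Crest.Agent.R172.SLev140
import Crest.Agent.R172.SMv494

/-!
# Row 172 (S0260), S-side, second level on the block packages, decorations only from the moves

`levMv` = `SMv.main3_mv` for `BPkg ν`, `BPkg ν'`, `q t = bq P P t`, `q2 t = bq P' P' t`.
-/

set_option autoImplicit false
set_option linter.unusedSectionVars false

namespace Crest.Agent.R172.SMv

open Matrix Module Crest.Agent.R172.FO Crest.Agent.R172.Qt Crest.Agent.R172.SpS
open Crest.Agent.R172.SEnd Crest.Agent.R172.SEnd2 Crest.Agent.R172.SEnd3 Crest.Agent.R172.SBlk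
open Crest.Agent.R172.SEnd4 Crest.Agent.R172.SEndW Crest.Agent.R172.SEnd5 Crest.Agent.R172.SCM
open Crest.Agent.R172.SC (PB)
open Crest.Agent.R172.PL (Wk Ainf Rad CoreM coreOp resOp)
open Crest.Agent.R172.SLev0 Crest.Agent.R172.SLev140
open scoped TensorProduct

variable {ι : Type*} [Fintype ι] [DecidableEq ι] {δ : Type*} [Fintype δ] [DecidableEq δ]
variable {K : Type*} [Field K]
variable {arm : δ → Fin 3} {J : Matrix ι ι K} {B : Matrix δ δ K}
  {g : Matrix ι δ K} {R : Matrix δ ι K}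
variable {X : Matrix ι ι K} {D : End K (CoreM (PhS arm J B g R X))} {ν ν' : K} {l : Fin 3 → ℕ}
  {n n' : ℕ} {P : Matrix ι (Fin n) K} {P' : Matrix ι (Fin n') K}
  {A : Fin 3 → Matrix (Fin n) (Fin n) K} {A' : Fin 3 → Matrix (Fin n') (Fin n') K}

/-- **second level, decorations of the moves** (`P1 = ν`, `P2 = ν'`) -/
theorem levMv (b : BPkg arm J B g R X D ν l P A) (b' : BPkg arm J B g R X D ν' l P' A')
    (Z : Submodule K (Fin n → K)) (sZ : ∀ t, ∀ z ∈ Z, A t *ᵥ z ∈ Z)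
    (Z2 : Submodule K (Fin n' → K)) (sZ2 : ∀ t, ∀ z ∈ Z2, A' t *ᵥ z ∈ Z2)
    {Λ : Set K} (hΛ : Λ.Infinite) (h0 : (0 : K) ∉ Λ) {a1 a2 a3 : K} (a4 a5 a6 : K)
    (ha1 : a1 ≠ 0) (ha2 : a2 ≠ 0) (ha3 : a3 ≠ 0) (Q : Submodule K (Matrix ι δ K))
    (hZq : ∀ t, ∀ z ∈ Z, ∀ y, bq arm J g X P P t z y ∈ Q)
    (hqZ : ∀ t, ∀ z ∈ Z, ∀ y, bq arm J g X P P t y z ∈ Q)
    (hZq2 : ∀ t, ∀ z ∈ Z2, ∀ y, bq arm J g X P' P' t z y ∈ Q)
    (hqZ2 : ∀ t, ∀ z ∈ Z2, ∀ y, bq arm J g X P' P' t y z ∈ Q)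
    (G : K → (Fin 3 → (Fin n' → K) ⊗[K] (Fin n → K)) → ((Fin n' → K) →ₗ[K] (Fin n → K)) →
      ((Fin n → K) →ₗ[K] (Fin n' → K)) → Prop)
    (hmv : ∀ ρ ∈ Λ, ∀ x, ExB J X P P' A A' (ρ ^ 2) x →
      ∃ be ke, CorB J X P P' A A' Z (ρ ^ 2) x be ∧ CorkB J X P P' A A' Z2 (ρ ^ 2) x ke ∧
        G ρ x be ke)
    (hrel : ∀ ρ ∈ Λ, ∀ ρ' ∈ Λ, ∀ x be ke x' be' ke',
      ExB J X P P' A A' (ρ ^ 2) x → G ρ x be ke →
      ExB J X P P' A A' (ρ' ^ 2) x' → G ρ' x' be' ke' →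
      ∑ t, (a1 • TensorProduct.lift ((bq arm J g X P P t) ∘ₗ be') (x t)
        + a2 • TensorProduct.lift ((bq arm J g X P P t).flip ∘ₗ be) (x' t)
        + a3 • TensorProduct.lift ((bq arm J g X P P t) ∘ₗ (RJM.ev (gF J X P') (x' t))) (x t)) +
          ρ' • (a4 • ∑ t, TensorProduct.lift ((bq arm J g X P' P' t).compl₂ ke') (x t) +
          a5 • ∑ t, TensorProduct.lift
            ((bq arm J g X P' P' t).compl₂ (RJP3.evk (gF J X P) (x' t))) (x t) +
          a6 • ∑ t, TensorProduct.lift ((bq arm J g X P' P' t).flip.compl₂ ke) (x' t)) ∈ Q) :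
    Gens arm J B g X l Q (PbK arm J B g R X D ν) (PbK arm J B g R X D ν) := by
  obtain ⟨m, hm⟩ := b.blk.kills
  obtain ⟨m', hm'⟩ := b'.blk.kills
  have hker : ∀ r ∈ LinearMap.ker (P'ᵀ * (J * X) * P').mulVecLin, ∀ y, gF J X P' y r = 0 := by
    intro r hr y
    rw [LinearMap.mem_ker, mulVecLin_apply] at hr
    rw [gF_apply, hr, dotProduct_zero]
  obtain ⟨h1, h2⟩ := main3_mv (A := fun s => (A s).mulVecLin) (B := fun s => (A' s).mulVecLin)
    (R1 := LinearMap.ker (Pᵀ * (J * X) * P).mulVecLin)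
    (R2 := LinearMap.ker (P'ᵀ * (J * X) * P').mulVecLin) (Z := Z) (Z2 := Z2) (l := l)
    (g := gF J X P') (eps := -1) (epsK := -1) (m := max m m')
    (fun t z hz => by
      change (A t).mulVecLin z ∈ Z
      rw [mulVecLin_apply]; exact sZ t z hz)
    (fun t z hz => by
      change (A' t).mulVecLin z ∈ Z2
      rw [mulVecLin_apply]; exact sZ2 t z hz)
    b.blk.top b'.blk.top b.blk.st b'.blk.st
    (fun w hw r hr => hm w (by omega) r hr) (fun w hw r hr => hm' w (by omega) r hr)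
    (fun s => by have := b.blk.two_le s; omega) b.blk.pow b'.blk.pow b.blk.gen b'.blk.gen
    (neg_ne_zero.2 one_ne_zero)
    (fun r hr y => by rw [gF_flip b', hker r hr, neg_zero]) hker
    (fun t x y => by
      rw [gF_apply, gF_apply, mulVecLin_apply, mulVecLin_apply, mulVec_mulVec,
        ← vecMul_transpose, ← dotProduct_mulVec, mulVec_mulVec, b'.adj, neg_mulVec,
        dotProduct_neg, neg_one_mul])
    (fun s => by
      obtain ⟨x, y, hxy⟩ := b'.corner s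
      refine ⟨y, x, ?_⟩
      rw [gF_flip b', gF_apply, mulVecLin_pow_apply]
      exact neg_ne_zero.2 hxy)
    (gF J X P) (neg_ne_zero.2 one_ne_zero) hΛ h0
    (fun t => bq arm J g X P P t) (fun t => bq arm J g X P' P' t) Q a4 a5 a6 ha1 ha2 ha3
    hZq hqZ hZq2 hqZ2 G hmv hrel
  exact gens_self b Q h1 h2

end Crest.Agent.R172.SMv
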