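import Crest.Agent.R172.Theta
import Crest.Agent.R172.Qt2

/-!
Row 172 (S0260), t2 ending.

* `TQ_zero_alg` : if every form `ψ_q`, `q ∈ NN g`, lies in the orbit of `φ_p` under the algebra
  generated by all `T_f`, `f ∈ 𝒦`, then `T_Q = 0` (no genericity of `f`, no count).
* `pair_zero` : `⟨X₀' g, ν⟩ = 0` for `ν ∈ (N ∩ S^⊥) + (W ∩ S^⊥)`.
-/

set_option autoImplicit false
set_option linter.unusedSectionVars false
set_option linter.unusedFintypeInType false
set_option linter.unusedDecidableInType false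

namespace Crest.Agent.R172.SPair

open Matrix Module Crest.Agent.R172.FO Crest.Agent.R172.Qt Crest.Agent.R172.SpS
open Crest.Agent.R172.Theta

variable {ι : Type*} [Fintype ι] [DecidableEq ι] {δ : Type*} [Fintype δ] [DecidableEq δ]
variable {k K : Type*} [Field k] [Field K] [Algebra k K]
variable {arm : δ → Fin 3} {J : Matrix ι ι K} {B : Matrix δ δ K}
  {N W : Submodule K (Matrix ι δ K)} {g : Matrix ι δ K}

/-! ### Abstract: commuting self-adjoint operators -/

section Abs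

variable {E : Type*} [AddCommGroup E] [Module K E]

/-- self-adjoint operators -/
def SA (θ : E → E → K) (X : End K E) : Prop := ∀ a b, θ (X a) b = θ a (X b)

theorem adjoin_sa {θ : E → E → K} (hadd : ∀ a b c, θ (a + b) c = θ a c + θ b c)
    (hsm : ∀ (t : K) a c, θ (t • a) c = t * θ a c)
    (hadd' : ∀ a b c, θ a (b + c) = θ a b + θ a c)
    (hsm' : ∀ (t : K) a c, θ a (t • c) = t * θ a c)
    {S : Set (End K E)} (hc : ∀ X ∈ S, ∀ Y ∈ S, Commute X Y) (hs : ∀ X ∈ S, SA θ X) :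
    (∀ X ∈ Algebra.adjoin K S, ∀ Y ∈ Algebra.adjoin K S, Commute X Y) ∧
      ∀ X ∈ Algebra.adjoin K S, SA θ X := by
  have hcomm : ∀ X ∈ Algebra.adjoin K S, ∀ Y ∈ Algebra.adjoin K S, Commute X Y := by
    have h1 : ∀ X ∈ S, ∀ Y ∈ Algebra.adjoin K S, Commute X Y := by
      intro X hX Y hY
      induction hY using Algebra.adjoin_induction with
      | mem Y hY => exact hc X hX Y hY
      | algebraMap r => exact (Algebra.commutes r X).symm
      | add a b _ _ ha hb => exact ha.add_right hb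
      | mul a b _ _ ha hb => exact ha.mul_right hb
    intro X hX Y hY
    induction hX using Algebra.adjoin_induction with
    | mem X hX => exact h1 X hX Y hY
    | algebraMap r => exact Algebra.commutes r Y
    | add a b _ _ ha hb => exact ha.add_left hb
    | mul a b _ _ ha hb => exact ha.mul_left hb
  refine ⟨hcomm, fun X hX => ?_⟩
  induction hX using Algebra.adjoin_induction with
  | mem X hX => exact hs X hX
  | algebraMap r =>
    intro a b
    rw [Module.algebraMap_end_apply, Module.algebraMap_end_apply, hsm, hsm']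
  | add X Y _ _ ha hb =>
    intro a b
    rw [LinearMap.add_apply, LinearMap.add_apply, hadd, hadd', ha a b, hb a b]
  | mul X Y hX hY ha hb =>
    intro a b
    have e : (X * Y) b = Y (X b) := by
      have := hcomm X hX Y hY
      rw [this.eq, Module.End.mul_apply]
    rw [e, Module.End.mul_apply, ha, hb]

/-- the orbit of one vector under commuting self-adjoint operators is isotropic -/
theorem orbit_iso {θ : E → E → K} (h2 : (2 : K) ≠ 0) (hskew : ∀ a b, θ a b = - θ b a)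
    {X Y : End K E} (hX : SA θ X) (hY : SA θ Y) (hc : Commute X Y) (φ : E) :
    θ (X φ) (Y φ) = 0 := by
  have e1 : θ (X φ) (Y φ) = θ (Y φ) (X φ) := by
    rw [hX, hY, ← Module.End.mul_apply, ← Module.End.mul_apply, hc.eq]
  have e2 := hskew (X φ) (Y φ)
  have e3 : (2 : K) * θ (X φ) (Y φ) = 0 := by linear_combination e1 + e2
  exact (mul_eq_zero.1 e3).resolve_left h2

end Abs

/-- the orbit of `p` under the algebra generated by all `T_f`, `f ∈ 𝒦 = N ⊓ W` -/
inductive Orb (arm : δ → Fin 3) (J : Matrix ι ι K) (N W : Submodule K (Matrix ι δ K))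
    (g : Matrix ι δ K) (p : Matrix ι ι K × (Fin 3 → Matrix ι ι K)) :
    Matrix ι ι K × (Fin 3 → Matrix ι ι K) → Prop
  | base : Orb arm J N W g p p
  | T {a b : Matrix ι ι K × (Fin 3 → Matrix ι ι K)} {f : Matrix ι δ K}
      (ha : Orb arm J N W g p a) (hf : f ∈ N ⊓ W) (hb : b ∈ NN arm J N g)
      (e : gᵀ * J * (a.1 * f) = gᵀ * J * (b.1 * g)) : Orb arm J N W g p b
  | add {a b c : Matrix ι ι K × (Fin 3 → Matrix ι ι K)}
      (ha : Orb arm J N W g p a) (hb : Orb arm J N W g p b) (hc : c ∈ NN arm J N g)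
      (e : gᵀ * J * (c.1 * g) = gᵀ * J * (a.1 * g) + gᵀ * J * (b.1 * g)) : Orb arm J N W g p c
  | smul {a c : Matrix ι ι K × (Fin 3 → Matrix ι ι K)} (t : K)
      (ha : Orb arm J N W g p a) (hc : c ∈ NN arm J N g)
      (e : gᵀ * J * (c.1 * g) = t • (gᵀ * J * (a.1 * g))) : Orb arm J N W g p c

theorem Orb.memNN {p q : Matrix ι ι K × (Fin 3 → Matrix ι ι K)} (h : Orb arm J N W g p q)
    (hp : p ∈ NN arm J N g) : q ∈ NN arm J N g := by
  cases h with
  | base => exact hp
  | T _ _ hb _ => exact hb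
  | add _ _ hc _ => exact hc
  | smul _ _ hc _ => exact hc

/-- the orbit is closed under equality of forms -/
theorem Orb.congr (hg : g ∈ N ⊓ W) {p q r : Matrix ι ι K × (Fin 3 → Matrix ι ι K)}
    (h : Orb arm J N W g p q) (hr : r ∈ NN arm J N g)
    (e : gᵀ * J * (r.1 * g) = gᵀ * J * (q.1 * g)) : Orb arm J N W g p r :=
  Orb.T h hg hr e.symm

theorem exists_section : ∃ σ : Xi J N arm g →ₗ[K] NN arm J N g,
    ∀ φ, AF J N arm g g (σ φ) = (φ : Matrix δ δ K) := by
  obtain ⟨σ, hσ⟩ := (AF J N arm g g).rangeRestrict.exists_rightInverse_of_surjective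
    (LinearMap.range_rangeRestrict _)
  refine ⟨σ, fun φ => ?_⟩
  have := LinearMap.congr_fun hσ φ
  exact congrArg Subtype.val this

/-- **If `T_Q` is the orbit of one of its elements under the algebra generated by the `T_f`, then
`T_Q = 0`.** -/
theorem TQ_zero_alg (h : Ctx k arm J B N W g) (h2 : (2 : K) ≠ 0) (hNil : NilW arm J B N g)
    {p : Matrix ι ι K × (Fin 3 → Matrix ι ι K)} (hp : p ∈ NN arm J N g)
    (hall : ∀ q ∈ NN arm J N g, Orb arm J N W g p q) :
    ∀ q ∈ NN arm J N g, gᵀ * J * (q.1 * g) = 0 := by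
  obtain ⟨R, hR⟩ := exists_pinv g
  obtain ⟨σ, hσ⟩ := exists_section (arm := arm) (J := J) (N := N) (g := g)
  -- the form
  set θ : Xi J N arm g → Xi J N arm g → K := fun φ ψ => Th arm J B g (σ φ).1 (σ ψ).1 with hθ
  have hform : ∀ φ : Xi J N arm g, gᵀ * J * ((σ φ).1.1 * g) = (φ : Matrix δ δ K) := hσ
  have hPgadd : ∀ a b : Matrix ι ι K × (Fin 3 → Matrix ι ι K),
      Pg arm g (a + b) = Pg arm g a + Pg arm g b := by
    intro a b
    rw [Pg_eq, Pg_eq, Pg_eq]
    unfold act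
    rw [← Finset.sum_add_distrib]
    refine Finset.sum_congr rfl fun s _ => ?_
    rw [← Matrix.add_mul, ← Matrix.add_mul]
    congr 2
    exact add_sub_add_comm a.1 b.1 (a.2 s) (b.2 s)
  have hPgsm : ∀ (t : K) (a : Matrix ι ι K × (Fin 3 → Matrix ι ι K)),
      Pg arm g (t • a) = t • Pg arm g a := by
    intro t a
    rw [Pg_eq, Pg_eq]
    unfold act
    rw [Finset.smul_sum]
    refine Finset.sum_congr rfl fun s _ => ?_
    rw [← Matrix.smul_mul, ← Matrix.smul_mul]
    congr 2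
    change t • a.1 - t • a.2 s = _
    rw [smul_sub]
  have hadd : ∀ a b c, θ (a + b) c = θ a c + θ b c := by
    intro a b c
    simp only [hθ, Th]
    rw [map_add, Submodule.coe_add, hPgadd, pair_add_left]
  have hsm : ∀ (t : K) a c, θ (t • a) c = t * θ a c := by
    intro t a c
    simp only [hθ, Th]
    rw [map_smul, Submodule.coe_smul, hPgsm, pair_smul_left]
  have hadd' : ∀ a b c, θ a (b + c) = θ a b + θ a c := by
    intro a b c
    simp only [hθ, Th]
    rw [map_add, Submodule.coe_add, Prod.fst_add, Matrix.add_mul, pair_add_right]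
  have hsm' : ∀ (t : K) a c, θ a (t • c) = t * θ a c := by
    intro t a c
    simp only [hθ, Th]
    rw [map_smul, Submodule.coe_smul, Prod.smul_fst, Matrix.smul_mul, pair_smul_right]
  have hskew : ∀ a b, θ a b = - θ b a := fun a b => Th_skew h (σ a).2 (σ b).2
  -- the operators
  let S : Set (End K (Xi J N arm g)) := {X | ∃ f ∈ N ⊓ W, ∀ (φ : Xi J N arm g)
    (p : NN arm J N g), (φ : Matrix δ δ K) = gᵀ * J * (p.1.1 * g) →
      ((X φ : Xi J N arm g) : Matrix δ δ K) = gᵀ * J * (p.1.1 * f)}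
  have hex : ∀ f ∈ N ⊓ W, ∃ X ∈ S, ∀ (φ : Xi J N arm g)
    (p : NN arm J N g), (φ : Matrix δ δ K) = gᵀ * J * (p.1.1 * g) →
      ((X φ : Xi J N arm g) : Matrix δ δ K) = gᵀ * J * (p.1.1 * f) := by
    intro f hf
    obtain ⟨X, -, hX⟩ := exists_step h hR hf
    exact ⟨X, ⟨f, hf, hX⟩, hX⟩
  have hcS : ∀ X ∈ S, ∀ Y ∈ S, Commute X Y := by
    rintro X ⟨f, hf, hX⟩ Y ⟨f', hf', hY⟩
    refine LinearMap.ext fun φ => Subtype.ext ?_
    change ((X (Y φ) : Xi J N arm g) : Matrix δ δ K) = ((Y (X φ) : Xi J N arm g) : Matrix δ δ K)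
    have a0 := (hform φ).symm
    have a1 := hY φ (σ φ) a0
    have a2 := hX φ (σ φ) a0
    have b1 := (hform (Y φ)).symm
    have b2 := (hform (X φ)).symm
    have c1 := hX (Y φ) (σ (Y φ)) b1
    have c2 := hY (X φ) (σ (X φ)) b2
    have d1 := (hform (X (Y φ))).symm
    have d2 := (hform (Y (X φ))).symm
    rw [d1, d2]
    exact T_comm h hNil hf' hf (σ (X (Y φ))).2 (σ (Y (X φ))).2 (p := (σ φ).1)
      (p1 := (σ (Y φ)).1) (p2 := (σ (X φ)).1) (a1.symm.trans b1) (c1.symm.trans d1)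
      (a2.symm.trans b2) (c2.symm.trans d2)
  have hsS : ∀ X ∈ S, SA θ X := by
    rintro X ⟨f, hf, hX⟩ a b
    have a0 := (hform a).symm
    have a1 := (hX a (σ a) a0).symm.trans (hform (X a)).symm
    have b0 := (hform b).symm
    have b1 := (hX b (σ b) b0).symm.trans (hform (X b)).symm
    have e := Th_self h hf (σ a).2 (σ b).2 a1 b1
    have e' := hskew (X a) b
    change Th arm J B g (σ (X a)).1 (σ b).1 = Th arm J B g (σ a).1 (σ (X b)).1
    have e'' : Th arm J B g (σ (X a)).1 (σ b).1 = - Th arm J B g (σ b).1 (σ (X a)).1 :=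
      Th_skew h (σ (X a)).2 (σ b).2
    rw [e'', e, neg_neg]
  obtain ⟨hcomm, hsa⟩ := adjoin_sa hadd hsm hadd' hsm' hcS hsS
  -- the orbit
  have horb : ∀ q, Orb arm J N W g p q → ∃ X ∈ Algebra.adjoin K S,
      ((X ⟨gᵀ * J * (p.1 * g), ⟨⟨p, hp⟩, rfl⟩⟩ : Xi J N arm g) : Matrix δ δ K) =
        gᵀ * J * (q.1 * g) := by
    intro q hq
    induction hq with
    | base => exact ⟨1, Subalgebra.one_mem _, rfl⟩
    | @T a b f ha hf hb e ih =>
      obtain ⟨X, hX, eX⟩ := ih
      obtain ⟨Y, hY, eY⟩ := hex f hf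
      refine ⟨Y * X, Subalgebra.mul_mem _ (Algebra.subset_adjoin hY) hX, ?_⟩
      rw [Module.End.mul_apply, eY _ ⟨a, ha.memNN hp⟩ eX, e]
    | @add a b c ha hb hc e iha ihb =>
      obtain ⟨X, hX, eX⟩ := iha
      obtain ⟨Y, hY, eY⟩ := ihb
      refine ⟨X + Y, Subalgebra.add_mem _ hX hY, ?_⟩
      rw [LinearMap.add_apply, Submodule.coe_add, eX, eY, e]
    | @smul a c t ha hc e ih =>
      obtain ⟨X, hX, eX⟩ := ih
      refine ⟨t • X, Subalgebra.smul_mem _ hX t, ?_⟩
      rw [LinearMap.smul_apply, Submodule.coe_smul, eX, e]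
  intro q hq
  refine Th_nondeg h hq fun q' hq' => ?_
  obtain ⟨X, hX, eX⟩ := horb q (hall q hq)
  obtain ⟨Y, hY, eY⟩ := horb q' (hall q' hq')
  have h0 := orbit_iso h2 hskew (hsa X hX) (hsa Y hY) (hcomm X hX Y hY)
    (⟨gᵀ * J * (p.1 * g), ⟨⟨p, hp⟩, rfl⟩⟩ : Xi J N arm g)
  change Th arm J B g (σ _).1 (σ _).1 = 0 at h0
  have f1 : gᵀ * J * (q'.1 * g) = gᵀ * J * ((σ (Y ⟨gᵀ * J * (p.1 * g), ⟨⟨p, hp⟩, rfl⟩⟩)).1.1 * g) :=
    eY.symm.trans (hform _).symm
  have f2 : gᵀ * J * (q.1 * g) = gᵀ * J * ((σ (X ⟨gᵀ * J * (p.1 * g), ⟨⟨p, hp⟩, rfl⟩⟩)).1.1 * g) :=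
    eX.symm.trans (hform _).symm
  rw [Th_congr h hq f1, Th_skew h hq (σ _).2, Th_congr h (σ _).2 f2,
    Th_skew h (σ _).2 (σ _).2, h0]
  simp

end Crest.Agent.R172.SPair
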