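import Crest.Agent.R172.SUX3
import Crest.Agent.R172.RJP

/-!
Row 172 (S0260), S-side (t2), second level, row L2-d: PARITY with values.

The class `QQ` of good decorated elements (values of `w` on the frames, frozen rows
`(F U_i)ᵀ J (w.map dY)`), the first derivative in this class, and the separation of the even and
odd parts for semi-level decorations (`bh = π1 β`, `gh = π2 γ`).
-/

set_option autoImplicit false
set_option linter.unusedSectionVars false
set_option linter.unusedFintypeInType false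
set_option linter.unusedDecidableInType false

namespace Crest.Agent.R172.SPar19

open Matrix Module Crest.Agent.R172.FO Crest.Agent.R172.Qt Crest.Agent.R172.SpS
  Crest.Agent.R172.Om Crest.Agent.R172.SUX

variable {ι : Type*} [Fintype ι] [DecidableEq ι] {δ : Type*} [Fintype δ] [DecidableEq δ]
variable {k K : Type*} [Field k] [Field K] [Algebra k K]
variable {m1 m2 : Type*} [Fintype m1] [DecidableEq m1] [Fintype m2] [DecidableEq m2]
variable {n1 n2 : Type*} [Fintype n1] [DecidableEq n1] [Fintype n2] [DecidableEq n2]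
variable {α : Type*} {nm : α → Type*} [∀ i, Fintype (nm i)]

/-- the ambient space of decorated elements -/
abbrev EE (ι δ m1 m2 K : Type*) : Type _ :=
  Matrix ι δ K × Matrix ι m1 K × Matrix ι m2 K × Matrix m1 δ K × Matrix m2 δ K

theorem row_smul {J : Matrix ι ι K} {F : Matrix ι δ K} (dY : Derivation k K K) {w : Matrix ι δ K}
    (h1 : Fᵀ * J * w = 0) (c : K) {n : Type*} [Fintype n] (U : Matrix δ n K) :
    (F * U)ᵀ * J * (c • w).map dY = c • ((F * U)ᵀ * J * w.map dY) := by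
  rw [SUX.map_smul_der, Matrix.mul_add, Matrix.mul_smul, Matrix.mul_smul, transpose_mul]
  have e : Uᵀ * Fᵀ * J * w = Uᵀ * (Fᵀ * J * w) := by simp only [Matrix.mul_assoc]
  rw [e, h1, Matrix.mul_zero, smul_zero, zero_add]

/-- **good decorated elements** -/
def QQ (J : Matrix ι ι K) (N W : Submodule K (Matrix ι δ K)) (F f : Matrix ι δ K)
    (dY : Derivation k K K) (S0 : Matrix δ δ K) (U1 : Matrix δ m1 K) (U2 : Matrix δ m2 K)
    (Um : ∀ i : α, Matrix δ (nm i) K) : Submodule K (EE ι δ m1 m2 K) where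
  carrier := {z | ∃ w ∈ W, ∃ (μ1 μ2 ν1 ν2 : K) (μ : α → K), Fᵀ * J * w = 0 ∧ fᵀ * J * w = 0 ∧
    z.1 - w ∈ N ∧ w * U1 = μ1 • (F * U1) + z.2.1 ∧ w * U2 = μ2 • (F * U2) + z.2.2.1 ∧
    (F * U1)ᵀ * J * w.map dY = ν1 • (U1ᵀ * S0) + z.2.2.2.1 ∧
    (F * U2)ᵀ * J * w.map dY = ν2 • (U2ᵀ * S0) + z.2.2.2.2 ∧
    ∀ i, w * Um i = μ i • (F * Um i)}
  zero_mem' := ⟨0, W.zero_mem, 0, 0, 0, 0, 0, by simp, by simp, by simp, by simp, by simp,
    by simp, by simp, fun i => by simp⟩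
  add_mem' := by
    rintro x y ⟨w, hw, a1, a2, b1, b2, a, h1, h2, h3, h4, h5, h6, h7, h8⟩
      ⟨w', hw', a1', a2', b1', b2', a', h1', h2', h3', h4', h5', h6', h7', h8'⟩
    refine ⟨w + w', W.add_mem hw hw', a1 + a1', a2 + a2', b1 + b1', b2 + b2', a + a', ?_, ?_, ?_,
      ?_, ?_, ?_, ?_, fun i => ?_⟩
    · rw [Matrix.mul_add, h1, h1', add_zero]
    · rw [Matrix.mul_add, h2, h2', add_zero]
    · have : (x + y).1 - (w + w') = (x.1 - w) + (y.1 - w') := by rw [Prod.fst_add]; abel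
      rw [this]; exact N.add_mem h3 h3'
    · rw [Matrix.add_mul, h4, h4', add_smul]
      simp only [Prod.snd_add, Prod.fst_add]; abel
    · rw [Matrix.add_mul, h5, h5', add_smul]
      simp only [Prod.snd_add, Prod.fst_add]; abel
    · rw [map_add_der, Matrix.mul_add, h6, h6', add_smul]
      simp only [Prod.snd_add, Prod.fst_add]; abel
    · rw [map_add_der, Matrix.mul_add, h7, h7', add_smul]
      simp only [Prod.snd_add]; abel
    · rw [Matrix.add_mul, h8, h8', ← add_smul, Pi.add_apply]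
  smul_mem' := by
    rintro c x ⟨w, hw, a1, a2, b1, b2, a, h1, h2, h3, h4, h5, h6, h7, h8⟩
    refine ⟨c • w, W.smul_mem c hw, c * a1, c * a2, c * b1, c * b2, c • a, ?_, ?_, ?_, ?_, ?_, ?_,
      ?_, fun i => ?_⟩
    · rw [Matrix.mul_smul, h1, smul_zero]
    · rw [Matrix.mul_smul, h2, smul_zero]
    · have : (c • x).1 - c • w = c • (x.1 - w) := by rw [Prod.smul_fst, smul_sub]
      rw [this]; exact N.smul_mem c h3
    · rw [Matrix.smul_mul, h4, smul_add, smul_smul]; rfl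
    · rw [Matrix.smul_mul, h5, smul_add, smul_smul]; rfl
    · rw [row_smul dY h1 c U1, h6, smul_add, smul_smul]; rfl
    · rw [row_smul dY h1 c U2, h7, smul_add, smul_smul]; rfl
    · rw [Matrix.smul_mul, h8, smul_smul, Pi.smul_apply, smul_eq_mul]


section first

variable {arm : δ → Fin 3} {J : Matrix ι ι K} {B : Matrix δ δ K}
  {N W : Submodule K (Matrix ι δ K)} {F f H q : Matrix ι δ K}
  {P : Matrix ι ι K × (Fin 3 → Matrix ι ι K)} {S0 : Matrix δ δ K} {c1 c2 : K}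
  {U1 : Matrix δ m1 K} {U2 : Matrix δ m2 K} {Um : ∀ i : α, Matrix δ (nm i) K}
  {Y : Fin 3 → Matrix δ δ K} {d dY : Derivation k K K}
  {Γ1 : Matrix m1 m1 K} {Γ2 : Matrix m2 m2 K} {β : Matrix m1 m2 K} {γ : Matrix m2 m1 K}
  {X : Fin 3 → Matrix m2 m1 K}

/-- the tensor part, even -/
def T1 (arm : δ → Fin 3) (F : Matrix ι δ K) (S0 : Matrix δ δ K) (U1 : Matrix δ m1 K)
    (U2 : Matrix δ m2 K) (X : Fin 3 → Matrix m2 m1 K) : Matrix ι δ K :=
  ∑ s, F * (U2 * X s * U1ᵀ * S0) * E K arm s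

/-- the tensor part, odd -/
def T2 (arm : δ → Fin 3) (F : Matrix ι δ K) (S0 : Matrix δ δ K) (U1 : Matrix δ m1 K)
    (U2 : Matrix δ m2 K) (X : Fin 3 → Matrix m2 m1 K) : Matrix ι δ K :=
  ∑ s, F * (U1 * (X s)ᵀ * U2ᵀ * S0) * E K arm s

/-- `U_iᵀ θ(w) = c_i (F U_i)ᵀ J (w.map dY)` -/
theorem row_th (hPs : Skw J P.1) {w : Matrix ι δ K} (hrow : (P.1 * H)ᵀ * J * w = -(Hᵀ * J * w.map dY))
    {n : Type*} [Fintype n] {U : Matrix δ n K} {c : K} (hU : H * U = c • (F * U)) :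
    Uᵀ * th J H P.1 w = c • ((F * U)ᵀ * J * w.map dY) := by
  have h1 : Hᵀ * J * (P.1 * w) = Hᵀ * J * w.map dY := by
    have h2 : (P.1 * H)ᵀ * J * w = -(Hᵀ * J * (P.1 * w)) := by
      rw [transpose_mul]
      calc Hᵀ * P.1ᵀ * J * w = Hᵀ * (P.1ᵀ * J) * w := by simp only [Matrix.mul_assoc]
        _ = _ := by rw [hPs.eq]; simp only [Matrix.mul_neg, Matrix.neg_mul, Matrix.mul_assoc]
    rw [h2] at hrow
    exact neg_injective hrow
  unfold th
  rw [h1]
  calc Uᵀ * (Hᵀ * J * w.map dY) = (H * U)ᵀ * J * w.map dY := by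
        rw [transpose_mul]; simp only [Matrix.mul_assoc]
    _ = _ := by rw [hU, transpose_smul, Matrix.smul_mul, Matrix.smul_mul]

/-- values of `wd q` on a third block -/
theorem wd_third {n : Type*} [Fintype n] {U : Matrix δ n K} {Γ : Matrix n n K} {κ c : K}
    (hc : c ≠ 0) (hd : H.map d = H * ZY arm J H P.1 Y) (hH : H * U = c • (F * U))
    (hq : q * U = κ • (F * U))
    (hNH : H * (U.map d + ZY arm J H P.1 Y * U) = H * (U * Γ))
    (hNq : q * (U.map d + ZY arm J H P.1 Y * U) = q * (U * Γ)) :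
    wd arm J H P.1 Y d q * U = (d κ - κ * (d c / c)) • (F * U) := by
  have h1 := congrArg (fun A : Matrix ι n K => A.map d) hH
  simp only [map_mul_der, SUX.map_smul_der, hd] at h1
  have h2 : H * ZY arm J H P.1 Y * U + H * U.map d
      = H * (U.map d + ZY arm J H P.1 Y * U) := by
    rw [Matrix.mul_add, add_comm, Matrix.mul_assoc]
  rw [h2, hNH, ← Matrix.mul_assoc, hH, ← map_mul_der] at h1
  have h3 : (F * U).map d = F * U * Γ - (d c / c) • (F * U) := by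
    have h4 : c • (F * U).map d = c • (F * U) * Γ - d c • (F * U) := by rw [h1]; abel
    have h5 : (F * U).map d = c⁻¹ • (c • (F * U) * Γ - d c • (F * U)) := by
      rw [← h4, smul_smul, inv_mul_cancel₀ hc, one_smul]
    rw [h5, smul_sub, Matrix.smul_mul, smul_smul, inv_mul_cancel₀ hc, one_smul, smul_smul,
      div_eq_inv_mul]
  have h6 := congrArg (fun A : Matrix ι n K => A.map d) hq
  simp only [map_mul_der, SUX.map_smul_der] at h6
  rw [← map_mul_der, ← map_mul_der, h3] at h6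
  have h7 : wd arm J H P.1 Y d q * U = (q * U).map d
      - q * (U.map d + ZY arm J H P.1 Y * U) := by
    unfold wd
    rw [Matrix.sub_mul, map_mul_der, Matrix.mul_add, Matrix.mul_assoc q]
    abel
  rw [h7, h6, hNq, ← Matrix.mul_assoc, hq, smul_sub, smul_smul, Matrix.smul_mul, sub_smul]
  abel

/-- **the first derivative is a good decorated element** -/
theorem first_mem (h : Ctx k arm J B N W H) (hP : P ∈ NN arm J N H)
    (m : Mv k arm J N W H P.1 Y d) (hqm : q ∈ N ⊓ W) (hqp : Hᵀ * J * q = 0)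
    (fr : Fr J F H P.1 S0 c1 c2 U1 U2) (hq : K1 J F H P.1 S0 c1 U1 U2 q)
    (hY : ∀ s, ∀ v ∈ W, v * Y s * Hᵀ = v * (U2 * X s * U1ᵀ + U1 * (X s)ᵀ * U2ᵀ) * Hᵀ)
    (hN2 : ∀ v ∈ W, v * (U2.map d + ZY arm J H P.1 Y * U2) = v * (U2 * Γ2 + c2 ^ 2 • (U1 * β)))
    (hN1 : ∀ v ∈ W, v * (U1.map d + ZY arm J H P.1 Y * U1) = v * (U1 * Γ1 + c1 ^ 2 • (U2 * γ)))
    (hrow : ∀ w : Matrix ι δ K, Hᵀ * J * w = 0 → (P.1 * H)ᵀ * J * w = -(Hᵀ * J * w.map dY))
    (hF0 : Fᵀ * J * wd arm J H P.1 Y d q = 0) (hf0 : fᵀ * J * wd arm J H P.1 Y d q = 0)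
    {μ : α → K} (h3 : ∀ i, wd arm J H P.1 Y d q * Um i = μ i • (F * Um i)) :
    ((T1 arm F S0 U1 U2 X - (c2 / c1) • T2 arm F S0 U1 U2 X, F * U2 * γ,
      -((c2 / c1) • (F * U1 * β)), (c2 / c1) • (γᵀ * (U2ᵀ * S0)), -(βᵀ * (U1ᵀ * S0))) :
      EE ι δ m1 m2 K) ∈ QQ J N W F f dY S0 U1 U2 Um := by
  have hc1 := fr.hc1
  have hc2 := fr.hc2
  have hfb := first_blocks h hP m hqm hqp fr hq hY
  have v1 := wd_U1 fr hq m.dH (hN1 H h.mem.2) (hN1 q hqm.2)
  have v2 := wd_U2 hq (hN2 q hqm.2)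
  have r1 := row_wd1 h hP m hqm fr hq (hN1 H h.mem.2) (hN1 q hqm.2)
  have r2 := row_wd2 h hP m hqm fr hq (hN2 q hqm.2)
  have hw0 := m.w_perp h hqp
  set w := wd arm J H P.1 Y d q with hw
  have s1 := row_th hP.1 (hrow w hw0) fr.H1
  have s2 := row_th hP.1 (hrow w hw0) fr.H2
  rw [r1] at s1
  rw [r2] at s2
  have hcc : c1 * c2 ≠ 0 := mul_ne_zero hc1 hc2
  refine ⟨(c1 * c2)⁻¹ • w, W.smul_mem _ (m.w_mem hqm.2), -((c1 * c2)⁻¹ * (d c1 / c1)), 0,
    -((c1 * c2)⁻¹ * (d c1 / c1)), 0, fun i => (c1 * c2)⁻¹ * μ i, ?_, ?_, ?_, ?_, ?_, ?_, ?_,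
    fun i => ?_⟩
  · rw [Matrix.mul_smul, hF0, smul_zero]
  · rw [Matrix.mul_smul, hf0, smul_zero]
  · have e := N.smul_mem (-((c1 * c2)⁻¹)) hfb
    convert e using 1
    change T1 arm F S0 U1 U2 X - (c2 / c1) • T2 arm F S0 U1 U2 X - (c1 * c2)⁻¹ • w = _
    rw [smul_add, Finset.smul_sum]
    have e1 : ∀ s, -(c1 * c2)⁻¹ • ((c2 ^ 2 • (F * (U1 * (X s)ᵀ * U2ᵀ)) -
        (c1 * c2) • (F * (U2 * X s * U1ᵀ))) * S0 * E K arm s) =
        F * (U2 * X s * U1ᵀ * S0) * E K arm s -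
          (c2 / c1) • (F * (U1 * (X s)ᵀ * U2ᵀ * S0) * E K arm s) := by
      intro s
      have a1 : F * (U2 * X s * U1ᵀ * S0) * E K arm s = F * (U2 * X s * U1ᵀ) * S0 * E K arm s := by
        simp only [Matrix.mul_assoc]
      have a2 : F * (U1 * (X s)ᵀ * U2ᵀ * S0) * E K arm s =
          F * (U1 * (X s)ᵀ * U2ᵀ) * S0 * E K arm s := by simp only [Matrix.mul_assoc]
      rw [a1, a2, Matrix.sub_mul, Matrix.sub_mul, Matrix.smul_mul, Matrix.smul_mul,
        Matrix.smul_mul, Matrix.smul_mul, smul_sub, smul_smul, smul_smul]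
      have b1 : -(c1 * c2)⁻¹ * c2 ^ 2 = -(c2 / c1) := by field_simp
      have b2 : -(c1 * c2)⁻¹ * (c1 * c2) = -1 := by
        rw [neg_mul, inv_mul_cancel₀ hcc]
      rw [b1, b2, neg_one_smul, neg_smul]
      abel
    rw [Finset.sum_congr rfl fun s _ => e1 s, Finset.sum_sub_distrib, ← Finset.smul_sum]
    unfold T1 T2
    rw [neg_smul]
    abel
  · rw [Matrix.smul_mul, v1, smul_sub, smul_smul, smul_smul, inv_mul_cancel₀ hcc, one_smul,
      neg_smul]
    change _ = _ + F * U2 * γ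
    abel
  · rw [Matrix.smul_mul, v2, zero_smul, zero_add, smul_neg, smul_smul]
    change _ = -((c2 / c1) • (F * U1 * β))
    have b1 : (c1 * c2)⁻¹ * c2 ^ 2 = c2 / c1 := by field_simp
    rw [b1]
  · rw [row_smul dY hF0]
    have e : (F * U1)ᵀ * J * w.map dY = c1⁻¹ • ((c1 * c2 ^ 2) • (γᵀ * (U2ᵀ * S0)) -
        d c1 • (U1ᵀ * S0)) := by
      rw [s1, smul_smul, inv_mul_cancel₀ hc1, one_smul]
    rw [e, smul_smul, smul_sub, smul_smul, smul_smul]
    change _ = _ + (c2 / c1) • (γᵀ * (U2ᵀ * S0))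
    have b1 : (c1 * c2)⁻¹ * c1⁻¹ * (c1 * c2 ^ 2) = c2 / c1 := by field_simp
    have b2 : (c1 * c2)⁻¹ * c1⁻¹ * d c1 = (c1 * c2)⁻¹ * (d c1 / c1) := by field_simp
    rw [b1, b2, neg_smul]
    abel
  · rw [row_smul dY hF0]
    have e : (F * U2)ᵀ * J * w.map dY = c2⁻¹ • (-((c1 * c2 ^ 2) • (βᵀ * (U1ᵀ * S0)))) := by
      rw [s2, smul_smul, inv_mul_cancel₀ hc2, one_smul]
    rw [e, zero_smul, zero_add, smul_smul, smul_neg, smul_smul]
    change _ = -(βᵀ * (U1ᵀ * S0))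
    have b1 : (c1 * c2)⁻¹ * c2⁻¹ * (c1 * c2 ^ 2) = 1 := by field_simp
    rw [b1, one_smul]
  · rw [Matrix.smul_mul, h3, smul_smul]

end first

end Crest.Agent.R172.SPar19
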