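import Crest.Agent.R172.SPar19

/-!
Row 172 (S0260), S-side (t2), second level, row L2-d: the pencil of semi-level decorations, their
uniqueness, and the separation of parities.
-/

set_option autoImplicit false
set_option linter.unusedSectionVars false
set_option linter.unusedFintypeInType false
set_option linter.unusedDecidableInType false

namespace Crest.Agent.R172.SPar19

open Matrix Module

variable {K : Type*} [Field K]
variable {m1 m2 : Type*} [Fintype m1] [DecidableEq m1] [Fintype m2] [DecidableEq m2]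
variable {n1 n2 : Type*} [Fintype n1] [DecidableEq n1] [Fintype n2] [DecidableEq n2]

/-- exact families of matrices (`U`-level), arms exact modulo the radicals of the cores -/
structure MEx (a1 : Fin 3 → Matrix m1 m1 K) (a2 : Fin 3 → Matrix m2 m2 K) (π1 : Matrix n1 m1 K)
    (π2 : Matrix n2 m2 K) (G1 : Matrix n1 n1 K) (G2 : Matrix n2 n2 K) (c : K)
    (X : Fin 3 → Matrix m2 m1 K) : Prop where
  sum : ∑ r, (X r * (a1 r)ᵀ + c • (a2 r * X r)) = 0
  arm : ∀ r, G2 * π2 * (X r * (a1 r)ᵀ + c • (a2 r * X r)) * π1ᵀ * G1 = 0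

/-- semi-level decorations -/
structure MCor (a1 : Fin 3 → Matrix m1 m1 K) (a2 : Fin 3 → Matrix m2 m2 K)
    (A1 : Fin 3 → Matrix n1 n1 K) (A2 : Fin 3 → Matrix n2 n2 K) (π1 : Matrix n1 m1 K)
    (π2 : Matrix n2 m2 K) (G1 : Matrix n1 n1 K) (G2 : Matrix n2 n2 K) (g1 : Matrix m1 m1 K)
    (g2 : Matrix m2 m2 K) (c : K)
    (X : Fin 3 → Matrix m2 m1 K) (bh : Matrix n1 m2 K) (gh : Matrix n2 m1 K) : Prop where
  rb : G1 * bh = 0
  rg : G2 * gh = 0
  eb : ∀ r, A1 r * (bh - π1 * (X r)ᵀ * g2) = c • ((bh - π1 * (X r)ᵀ * g2) * a2 r)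
  eg : ∀ r, (gh - π2 * X r * g1) * a1 r = c • (A2 r * (gh - π2 * X r * g1))

/-- perfect + words kill ⟹ intertwiners vanish -/
theorem zero_of_words {n m : Type*} [Fintype n] [DecidableEq n] [Fintype m] [DecidableEq m]
    {A : Fin 3 → Matrix n n K} {a r : Fin 3 → Matrix m m K} (hp : ∑ s, a s * r s = 1) {c : K}
    {Z : Matrix n m K} (hZ : ∀ s, Z * a s = c • (A s * Z)) {m0 : ℕ}
    (hk : ∀ w : List (Fin 3), w.length = m0 → (w.map A).prod * Z = 0) : Z = 0 := by
  induction m0 with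
  | zero => simpa using hk [] rfl
  | succ k ih =>
    refine ih fun w hw => ?_
    have e : Z = ∑ s, c • (A s * Z * r s) := by
      calc Z = Z * ∑ s, a s * r s := by rw [hp, Matrix.mul_one]
        _ = ∑ s, Z * a s * r s := by
            rw [Matrix.mul_sum]; exact Finset.sum_congr rfl fun s _ => by rw [Matrix.mul_assoc]
        _ = _ := Finset.sum_congr rfl fun s _ => by rw [hZ, Matrix.smul_mul]
    have e2 : (w.map A).prod * Z = ∑ s, c • (((w ++ [s]).map A).prod * Z * r s) := by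
      conv_lhs => rw [e]
      rw [Matrix.mul_sum]
      refine Finset.sum_congr rfl fun s _ => ?_
      rw [Matrix.mul_smul, List.map_append, List.prod_append, List.map_singleton,
        List.prod_singleton]
      simp only [Matrix.mul_assoc]
    rw [e2]
    refine Finset.sum_eq_zero fun s _ => ?_
    rw [hk (w ++ [s]) (by simp [hw]), Matrix.zero_mul, smul_zero]

theorem col_words {n m : Type*} [Fintype n] [DecidableEq n] {A : Fin 3 → Matrix n n K}
    {G : Matrix n n K} {m0 : ℕ}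
    (hk : ∀ w : List (Fin 3), w.length = m0 → ∀ u, G *ᵥ u = 0 → (w.map A).prod *ᵥ u = 0)
    {Z : Matrix n m K} (hZ : G * Z = 0) : ∀ w : List (Fin 3), w.length = m0 →
      (w.map A).prod * Z = 0 := by
  intro w hw
  ext i j
  have h1 : G *ᵥ (fun a => Z a j) = 0 := by
    funext a
    exact congrFun (congrFun hZ a) j
  exact congrFun (hk w hw _ h1) i

section uniq

variable {a1 : Fin 3 → Matrix m1 m1 K} {a2 : Fin 3 → Matrix m2 m2 K}
  {A1 : Fin 3 → Matrix n1 n1 K} {A2 : Fin 3 → Matrix n2 n2 K} {π1 : Matrix n1 m1 K}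
  {π2 : Matrix n2 m2 K} {G1 : Matrix n1 n1 K} {G2 : Matrix n2 n2 K} {g1 : Matrix m1 m1 K}
  {g2 : Matrix m2 m2 K}

/-- the semi-level decorations are unique -/
theorem MCor.unique {c : K} (hc : c ≠ 0) {X : Fin 3 → Matrix m2 m1 K} {bh bh' : Matrix n1 m2 K}
    {gh gh' : Matrix n2 m1 K} (h : MCor a1 a2 A1 A2 π1 π2 G1 G2 g1 g2 c X bh gh)
    (h' : MCor a1 a2 A1 A2 π1 π2 G1 G2 g1 g2 c X bh' gh')
    {r1 : Fin 3 → Matrix m1 m1 K} (p1 : ∑ s, a1 s * r1 s = 1)
    {r2 : Fin 3 → Matrix m2 m2 K} (p2 : ∑ s, a2 s * r2 s = 1) {m0 : ℕ}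
    (k1 : ∀ w : List (Fin 3), w.length = m0 → ∀ u, G1 *ᵥ u = 0 → (w.map A1).prod *ᵥ u = 0)
    (k2 : ∀ w : List (Fin 3), w.length = m0 → ∀ u, G2 *ᵥ u = 0 → (w.map A2).prod *ᵥ u = 0) :
    bh = bh' ∧ gh = gh' := by
  constructor
  · refine sub_eq_zero.1 (zero_of_words (c := c⁻¹) p2 (fun s => ?_)
      (col_words k1 (by rw [Matrix.mul_sub, h.rb, h'.rb, sub_zero])))
    have e1 := h.eb s
    have e2 := h'.eb s
    have e3 : A1 s * (bh - bh') = c • ((bh - bh') * a2 s) := by
      have : A1 s * (bh - bh') = A1 s * (bh - π1 * (X s)ᵀ * g2) - A1 s * (bh' - π1 * (X s)ᵀ * g2) := by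
        rw [← Matrix.mul_sub]; congr 1; abel
      rw [this, e1, e2, ← smul_sub, ← Matrix.sub_mul]; congr 2; abel
    rw [e3, smul_smul, inv_mul_cancel₀ hc, one_smul]
  · refine sub_eq_zero.1 (zero_of_words (c := c) p1 (fun s => ?_)
      (col_words k2 (by rw [Matrix.mul_sub, h.rg, h'.rg, sub_zero])))
    have e1 := h.eg s
    have e2 := h'.eg s
    have : (gh - gh') * a1 s = (gh - π2 * X s * g1) * a1 s - (gh' - π2 * X s * g1) * a1 s := by
      rw [← Matrix.sub_mul]; congr 1; abel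
    rw [this, e1, e2, ← smul_sub, ← Matrix.mul_sub]; congr 2; abel

/-- the space of decorated families -/
abbrev YY (m1 m2 n1 n2 K : Type*) : Type _ :=
  (Fin 3 → Matrix m2 m1 K) × Matrix n1 m2 K × Matrix n2 m1 K

abbrev GG (m1 m2 n1 n2 K : Type*) : Type _ :=
  Matrix m2 m1 K × (Fin 3 → Matrix n2 n1 K) × Matrix n1 m2 K × Matrix n2 m1 K ×
    (Fin 3 → Matrix n1 m2 K) × (Fin 3 → Matrix n2 m1 K)

variable (a1 a2 A1 A2 π1 π2 G1 G2 g1 g2)

/-- the pencil, first part -/
def al : YY m1 m2 n1 n2 K →ₗ[K] GG m1 m2 n1 n2 K where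
  toFun y := (∑ r, y.1 r * (a1 r)ᵀ, fun r => G2 * π2 * (y.1 r * (a1 r)ᵀ) * π1ᵀ * G1,
    G1 * y.2.1, G2 * y.2.2, fun r => A1 r * (y.2.1 - π1 * (y.1 r)ᵀ * g2),
    fun r => (y.2.2 - π2 * y.1 r * g1) * a1 r)
  map_add' x y := by
    refine Prod.ext ?_ (Prod.ext ?_ (Prod.ext ?_ (Prod.ext ?_ (Prod.ext ?_ ?_))))
    · simp only [Prod.fst_add, Pi.add_apply, Matrix.add_mul, Finset.sum_add_distrib]
    · funext r
      simp only [Prod.fst_add, Prod.snd_add, Pi.add_apply, Matrix.add_mul, Matrix.mul_add]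
    · simp only [Prod.fst_add, Prod.snd_add, Matrix.mul_add]
    · simp only [Prod.fst_add, Prod.snd_add, Matrix.mul_add]
    · funext r
      simp only [Prod.fst_add, Prod.snd_add, Pi.add_apply, transpose_add, Matrix.mul_add,
        Matrix.add_mul, Matrix.mul_sub]
      abel
    · funext r
      simp only [Prod.fst_add, Prod.snd_add, Pi.add_apply, Matrix.mul_add,
        Matrix.add_mul, Matrix.sub_mul]
      abel
  map_smul' t x := by
    refine Prod.ext ?_ (Prod.ext ?_ (Prod.ext ?_ (Prod.ext ?_ (Prod.ext ?_ ?_))))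
    · simp only [Prod.smul_fst, Pi.smul_apply, Matrix.smul_mul, Finset.smul_sum, RingHom.id_apply]
    · funext r
      simp only [Prod.smul_fst, Prod.smul_snd, Pi.smul_apply, Matrix.smul_mul, Matrix.mul_smul,
        RingHom.id_apply]
    · simp only [Prod.smul_fst, Prod.smul_snd, Matrix.mul_smul, RingHom.id_apply]
    · simp only [Prod.smul_fst, Prod.smul_snd, Matrix.mul_smul, RingHom.id_apply]
    · funext r
      simp only [Prod.smul_fst, Prod.smul_snd, Pi.smul_apply, transpose_smul, Matrix.mul_smul,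
        Matrix.smul_mul, Matrix.mul_sub, RingHom.id_apply, smul_sub]
    · funext r
      simp only [Prod.smul_fst, Prod.smul_snd, Pi.smul_apply, Matrix.mul_smul,
        Matrix.smul_mul, Matrix.sub_mul, RingHom.id_apply, smul_sub]

/-- the pencil, second part -/
def be : YY m1 m2 n1 n2 K →ₗ[K] GG m1 m2 n1 n2 K where
  toFun y := (-∑ r, a2 r * y.1 r, fun r => -(G2 * π2 * (a2 r * y.1 r) * π1ᵀ * G1),
    0, 0, fun r => (y.2.1 - π1 * (y.1 r)ᵀ * g2) * a2 r,
    fun r => A2 r * (y.2.2 - π2 * y.1 r * g1))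
  map_add' x y := by
    refine Prod.ext ?_ (Prod.ext ?_ (Prod.ext ?_ (Prod.ext ?_ (Prod.ext ?_ ?_))))
    · simp only [Prod.fst_add, Pi.add_apply, Matrix.mul_add, Finset.sum_add_distrib, neg_add]
    · funext r
      simp only [Prod.fst_add, Prod.snd_add, Pi.add_apply, Matrix.add_mul, Matrix.mul_add, neg_add]
    · simp
    · simp
    · funext r
      simp only [Prod.fst_add, Prod.snd_add, Pi.add_apply, transpose_add, Matrix.mul_add,
        Matrix.add_mul, Matrix.sub_mul]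
      abel
    · funext r
      simp only [Prod.fst_add, Prod.snd_add, Pi.add_apply, Matrix.mul_add,
        Matrix.add_mul, Matrix.mul_sub]
      abel
  map_smul' t x := by
    refine Prod.ext ?_ (Prod.ext ?_ (Prod.ext ?_ (Prod.ext ?_ (Prod.ext ?_ ?_))))
    · simp only [Prod.smul_fst, Pi.smul_apply, Matrix.mul_smul, Finset.smul_sum, RingHom.id_apply,
        smul_neg]
    · funext r
      simp only [Prod.smul_fst, Prod.smul_snd, Pi.smul_apply, Matrix.smul_mul, Matrix.mul_smul,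
        RingHom.id_apply, smul_neg]
    · simp
    · simp
    · funext r
      simp only [Prod.smul_fst, Prod.smul_snd, Pi.smul_apply, transpose_smul, Matrix.mul_smul,
        Matrix.smul_mul, Matrix.sub_mul, RingHom.id_apply, smul_sub]
    · funext r
      simp only [Prod.smul_fst, Prod.smul_snd, Pi.smul_apply, Matrix.mul_smul,
        Matrix.smul_mul, Matrix.mul_sub, RingHom.id_apply, smul_sub]

/-- the pencil condition -/
theorem pencil_iff (c : K) (y : YY m1 m2 n1 n2 K) :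
    al a1 A1 π1 π2 G1 G2 g1 g2 y = c • be a2 A2 π1 π2 G1 G2 g1 g2 y ↔
      MEx a1 a2 π1 π2 G1 G2 c y.1 ∧ MCor a1 a2 A1 A2 π1 π2 G1 G2 g1 g2 c y.1 y.2.1 y.2.2 := by
  constructor
  · intro h
    have h1 := congrArg Prod.fst h
    have h2 := congrArg (fun z => z.2.1) h
    have h3 := congrArg (fun z => z.2.2.1) h
    have h4 := congrArg (fun z => z.2.2.2.1) h
    have h5 := congrArg (fun z => z.2.2.2.2.1) h
    have h6 := congrArg (fun z => z.2.2.2.2.2) h
    refine ⟨⟨?_, fun r => ?_⟩, ⟨?_, ?_, fun r => ?_, fun r => ?_⟩⟩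
    · have e : ∑ r, y.1 r * (a1 r)ᵀ = c • (-∑ r, a2 r * y.1 r) := h1
      rw [Finset.sum_add_distrib, e, ← Finset.smul_sum, smul_neg, neg_add_cancel]
    · have e : G2 * π2 * (y.1 r * (a1 r)ᵀ) * π1ᵀ * G1 = c • -(G2 * π2 * (a2 r * y.1 r) * π1ᵀ * G1) :=
        congrFun h2 r
      rw [Matrix.mul_add, Matrix.add_mul, Matrix.add_mul, e]
      simp only [Matrix.mul_smul, Matrix.smul_mul, smul_neg, neg_add_cancel]
    · have e : G1 * y.2.1 = c • (0 : Matrix n1 m2 K) := h3
      rw [e, smul_zero]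
    · have e : G2 * y.2.2 = c • (0 : Matrix n2 m1 K) := h4
      rw [e, smul_zero]
    · exact congrFun h5 r
    · exact congrFun h6 r
  · rintro ⟨⟨h1, h2⟩, ⟨h3, h4, h5, h6⟩⟩
    refine Prod.ext ?_ (Prod.ext ?_ (Prod.ext ?_ (Prod.ext ?_ (Prod.ext ?_ ?_))))
    · change ∑ r, y.1 r * (a1 r)ᵀ = c • (-∑ r, a2 r * y.1 r)
      rw [Finset.sum_add_distrib, ← Finset.smul_sum] at h1
      rw [smul_neg]
      exact eq_neg_of_add_eq_zero_left h1
    · funext r
      change G2 * π2 * (y.1 r * (a1 r)ᵀ) * π1ᵀ * G1 = c • -(G2 * π2 * (a2 r * y.1 r) * π1ᵀ * G1)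
      have e := h2 r
      rw [Matrix.mul_add, Matrix.add_mul, Matrix.add_mul] at e
      simp only [Matrix.mul_smul, Matrix.smul_mul] at e
      rw [smul_neg]
      exact eq_neg_of_add_eq_zero_left e
    · change G1 * y.2.1 = c • (0 : Matrix n1 m2 K)
      rw [h3, smul_zero]
    · change G2 * y.2.2 = c • (0 : Matrix n2 m1 K)
      rw [h4, smul_zero]
    · funext r; exact h5 r
    · funext r; exact h6 r

end uniq

end Crest.Agent.R172.SPar19
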