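import Crest.Agent.R172.SPar19b

/-!
Row 172 (S0260), S-side (t2), second level, row L2-d: PARITY (final form).
-/

set_option autoImplicit false
set_option linter.unusedSectionVars false
set_option linter.unusedFintypeInType false
set_option linter.unusedDecidableInType false

namespace Crest.Agent.R172.SPar19

open Matrix Module Crest.Agent.R172.FO Crest.Agent.R172.Qt Crest.Agent.R172.SpS
  Crest.Agent.R172.Om Crest.Agent.R172.SUX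

variable {ι : Type*} [Fintype ι] [DecidableEq ι] {δ : Type*} [Fintype δ] [DecidableEq δ]
variable {k K : Type*} [Field k] [Field K] [Algebra k K]
variable {m1 m2 : Type*} [Fintype m1] [DecidableEq m1] [Fintype m2] [DecidableEq m2]
variable {n1 n2 : Type*} [Fintype n1] [DecidableEq n1] [Fintype n2] [DecidableEq n2]
variable {α : Type*} {nm : α → Type*} [∀ i, Fintype (nm i)]
variable {arm : δ → Fin 3} {J : Matrix ι ι K} {B : Matrix δ δ K}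
  {N W : Submodule K (Matrix ι δ K)} {F f : Matrix ι δ K}
  {S0 : Matrix δ δ K} {U1 : Matrix δ m1 K} {U2 : Matrix δ m2 K}
  {Um : ∀ i : α, Matrix δ (nm i) K} {dY : Derivation k K K}
  {Q1 : Matrix ι n1 K} {Q2 : Matrix ι n2 K} {R1m : Matrix n1 δ K} {R2m : Matrix n2 δ K}
  {a1 : Fin 3 → Matrix m1 m1 K} {a2 : Fin 3 → Matrix m2 m2 K}
  {A1 : Fin 3 → Matrix n1 n1 K} {A2 : Fin 3 → Matrix n2 n2 K} {π1 : Matrix n1 m1 K}
  {π2 : Matrix n2 m2 K} {G1 : Matrix n1 n1 K} {G2 : Matrix n2 n2 K} {g1 : Matrix m1 m1 K}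
  {g2 : Matrix m2 m2 K}

theorem T1_add (X X' : Fin 3 → Matrix m2 m1 K) :
    T1 arm F S0 U1 U2 (X + X') = T1 arm F S0 U1 U2 X + T1 arm F S0 U1 U2 X' := by
  unfold T1
  rw [← Finset.sum_add_distrib]
  refine Finset.sum_congr rfl fun s _ => ?_
  simp only [Pi.add_apply, Matrix.mul_add, Matrix.add_mul]

theorem T1_smul (c : K) (X : Fin 3 → Matrix m2 m1 K) :
    T1 arm F S0 U1 U2 (c • X) = c • T1 arm F S0 U1 U2 X := by
  unfold T1
  rw [Finset.smul_sum]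
  refine Finset.sum_congr rfl fun s _ => ?_
  simp only [Pi.smul_apply, Matrix.mul_smul, Matrix.smul_mul]

theorem T2_add (X X' : Fin 3 → Matrix m2 m1 K) :
    T2 arm F S0 U1 U2 (X + X') = T2 arm F S0 U1 U2 X + T2 arm F S0 U1 U2 X' := by
  unfold T2
  rw [← Finset.sum_add_distrib]
  refine Finset.sum_congr rfl fun s _ => ?_
  simp only [Pi.add_apply, transpose_add, Matrix.mul_add, Matrix.add_mul]

theorem T2_smul (c : K) (X : Fin 3 → Matrix m2 m1 K) :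
    T2 arm F S0 U1 U2 (c • X) = c • T2 arm F S0 U1 U2 X := by
  unfold T2
  rw [Finset.smul_sum]
  refine Finset.sum_congr rfl fun s _ => ?_
  simp only [Pi.smul_apply, transpose_smul, Matrix.mul_smul, Matrix.smul_mul]

/-- the even part -/
def i1 (arm : δ → Fin 3) (F : Matrix ι δ K) (S0 : Matrix δ δ K) (U1 : Matrix δ m1 K)
    (U2 : Matrix δ m2 K) (Q2 : Matrix ι n2 K) (R1m : Matrix n1 δ K) :
    YY m1 m2 n1 n2 K →ₗ[K] EE ι δ m1 m2 K where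
  toFun y := (T1 arm F S0 U1 U2 y.1, Q2 * y.2.2, 0, 0, -(y.2.1ᵀ * R1m))
  map_add' x y := by
    refine Prod.ext ?_ (Prod.ext ?_ (Prod.ext ?_ (Prod.ext ?_ ?_)))
    · exact T1_add _ _
    · simp only [Prod.snd_add, Prod.fst_add, Matrix.mul_add]
    · simp
    · simp
    · simp only [Prod.snd_add, Prod.fst_add, transpose_add, Matrix.add_mul, neg_add]
  map_smul' t x := by
    refine Prod.ext ?_ (Prod.ext ?_ (Prod.ext ?_ (Prod.ext ?_ ?_)))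
    · exact T1_smul _ _
    · simp only [Prod.smul_snd, Prod.smul_fst, Matrix.mul_smul, RingHom.id_apply]
    · simp
    · simp
    · simp only [Prod.smul_snd, Prod.smul_fst, transpose_smul, Matrix.smul_mul, smul_neg,
        RingHom.id_apply]

/-- the odd part -/
def i2 (arm : δ → Fin 3) (F : Matrix ι δ K) (S0 : Matrix δ δ K) (U1 : Matrix δ m1 K)
    (U2 : Matrix δ m2 K) (Q1 : Matrix ι n1 K) (R2m : Matrix n2 δ K) :
    YY m1 m2 n1 n2 K →ₗ[K] EE ι δ m1 m2 K where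
  toFun y := (-T2 arm F S0 U1 U2 y.1, 0, -(Q1 * y.2.1), y.2.2ᵀ * R2m, 0)
  map_add' x y := by
    refine Prod.ext ?_ (Prod.ext ?_ (Prod.ext ?_ (Prod.ext ?_ ?_)))
    · change -T2 arm F S0 U1 U2 (x.1 + y.1) = -T2 arm F S0 U1 U2 x.1 + -T2 arm F S0 U1 U2 y.1
      rw [T2_add, neg_add]
    · simp
    · simp only [Prod.snd_add, Prod.fst_add, Matrix.mul_add, neg_add]
    · simp only [Prod.snd_add, Prod.fst_add, transpose_add, Matrix.add_mul]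
    · simp
  map_smul' t x := by
    refine Prod.ext ?_ (Prod.ext ?_ (Prod.ext ?_ (Prod.ext ?_ ?_)))
    · change -T2 arm F S0 U1 U2 (t • x.1) = t • -T2 arm F S0 U1 U2 x.1
      rw [T2_smul, smul_neg]
    · simp
    · simp only [Prod.smul_snd, Prod.smul_fst, Matrix.mul_smul, smul_neg, RingHom.id_apply]
    · simp only [Prod.smul_snd, Prod.smul_fst, transpose_smul, Matrix.smul_mul, RingHom.id_apply]
    · simp

/-- **PARITY**: from the first derivatives at infinitely many `ρ` -/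
theorem parity (hQ1 : F * U1 = Q1 * π1) (hQ2 : F * U2 = Q2 * π2)
    (hR1 : π1ᵀ * R1m = U1ᵀ * S0) (hR2 : π2ᵀ * R2m = U2ᵀ * S0)
    {Λ : Set K} (hΛ : Λ.Infinite) (h0 : (0 : K) ∉ Λ)
    {r1 : Fin 3 → Matrix m1 m1 K} (p1 : ∑ s, a1 s * r1 s = 1)
    {r2 : Fin 3 → Matrix m2 m2 K} (p2 : ∑ s, a2 s * r2 s = 1) {m0 : ℕ}
    (k1 : ∀ w : List (Fin 3), w.length = m0 → ∀ u, G1 *ᵥ u = 0 → (w.map A1).prod *ᵥ u = 0)
    (k2 : ∀ w : List (Fin 3), w.length = m0 → ∀ u, G2 *ᵥ u = 0 → (w.map A2).prod *ᵥ u = 0)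
    (hfirst : ∀ ρ ∈ Λ, ∀ X, MEx a1 a2 π1 π2 G1 G2 (ρ ^ 2) X →
      ∃ (β : Matrix m1 m2 K) (γ : Matrix m2 m1 K),
        MCor a1 a2 A1 A2 π1 π2 G1 G2 g1 g2 (ρ ^ 2) X (π1 * β) (π2 * γ) ∧
        ((T1 arm F S0 U1 U2 X - ρ • T2 arm F S0 U1 U2 X, F * U2 * γ, -(ρ • (F * U1 * β)),
          ρ • (γᵀ * (U2ᵀ * S0)), -(βᵀ * (U1ᵀ * S0))) : EE ι δ m1 m2 K) ∈
          QQ J N W F f dY S0 U1 U2 Um) :
    ∃ S : Set K, S.Finite ∧ ∀ c ∉ S, ∀ X bh gh, MEx a1 a2 π1 π2 G1 G2 c X →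
      MCor a1 a2 A1 A2 π1 π2 G1 G2 g1 g2 c X bh gh →
      ((T1 arm F S0 U1 U2 X, Q2 * gh, 0, 0, -(bhᵀ * R1m)) : EE ι δ m1 m2 K) ∈
        QQ J N W F f dY S0 U1 U2 Um ∧
      ((-T2 arm F S0 U1 U2 X, 0, -(Q1 * bh), ghᵀ * R2m, 0) : EE ι δ m1 m2 K) ∈
        QQ J N W F f dY S0 U1 U2 Um := by
  have key : ∀ ρ ∈ Λ, ∀ y, al a1 A1 π1 π2 G1 G2 g1 g2 y = ρ ^ 2 • be a2 A2 π1 π2 G1 G2 g1 g2 y →
      ∀ _ : Unit, i1 arm F S0 U1 U2 Q2 R1m y + ρ • i2 arm F S0 U1 U2 Q1 R2m y ∈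
        QQ J N W F f dY S0 U1 U2 Um := by
    rintro ρ hρ ⟨X, bh, gh⟩ hy _
    obtain ⟨hX, hC⟩ := (pencil_iff a1 a2 A1 A2 π1 π2 G1 G2 g1 g2 (ρ ^ 2) _).1 hy
    obtain ⟨β, γ, hC', hmem⟩ := hfirst ρ hρ X hX
    have hρ0 : ρ ^ 2 ≠ 0 := pow_ne_zero _ (fun h => h0 (h ▸ hρ))
    obtain ⟨rfl, rfl⟩ := hC.unique hρ0 hC' p1 p2 k1 k2
    convert hmem using 1
    refine Prod.ext ?_ (Prod.ext ?_ (Prod.ext ?_ (Prod.ext ?_ ?_)))
    · change T1 arm F S0 U1 U2 X + ρ • -T2 arm F S0 U1 U2 X = _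
      rw [smul_neg, ← sub_eq_add_neg]
    · change Q2 * (π2 * γ) + ρ • (0 : Matrix ι m1 K) = _
      rw [smul_zero, add_zero, ← Matrix.mul_assoc, ← hQ2]
    · change (0 : Matrix ι m2 K) + ρ • -(Q1 * (π1 * β)) = _
      rw [zero_add, ← Matrix.mul_assoc, ← hQ1, smul_neg]
    · change (0 : Matrix m1 δ K) + ρ • ((π2 * γ)ᵀ * R2m) = _
      rw [zero_add, transpose_mul, Matrix.mul_assoc, hR2]
    · change -((π1 * β)ᵀ * R1m) + ρ • (0 : Matrix m2 δ K) = _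
      rw [smul_zero, add_zero, transpose_mul, Matrix.mul_assoc, hR1]
  obtain ⟨S, hS, h⟩ := RJP.par_sep (T := Unit) (al a1 A1 π1 π2 G1 G2 g1 g2)
    (be a2 A2 π1 π2 G1 G2 g1 g2) (QQ J N W F f dY S0 U1 U2 Um)
    (fun _ => i1 arm F S0 U1 U2 Q2 R1m) (fun _ => i2 arm F S0 U1 U2 Q1 R2m) hΛ key
  refine ⟨S, hS, fun c hc X bh gh hX hC => ?_⟩
  exact h c hc (X, bh, gh) ((pencil_iff a1 a2 A1 A2 π1 π2 G1 G2 g1 g2 c _).2 ⟨hX, hC⟩) ()

/-- **OUTPUT**: the values of the separated element at every parameter (letters of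
`second_blocks`). -/
theorem out {X : Fin 3 → Matrix m2 m1 K} {bh : Matrix n1 m2 K} {gh : Matrix n2 m1 K}
    (hQ2 : F * U2 = Q2 * π2) (hR1 : π1ᵀ * R1m = U1ᵀ * S0)
    (hm : ((T1 arm F S0 U1 U2 X, Q2 * gh, 0, 0, -(bhᵀ * R1m)) : EE ι δ m1 m2 K) ∈
        QQ J N W F f dY S0 U1 U2 Um) :
    ∃ w ∈ W, ∃ (μ1 μ2 ν1 ν2 : K) (μ : α → K), Fᵀ * J * w = 0 ∧ fᵀ * J * w = 0 ∧
      ∑ s, F * (U2 * X s * U1ᵀ * S0) * E K arm s - w ∈ N ∧
      (∀ γ0 : Matrix m2 m1 K, π2 * γ0 = gh → w * U1 = μ1 • (F * U1) + F * (U2 * γ0)) ∧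
      w * U2 = μ2 • (F * U2) ∧ (∀ i, w * Um i = μ i • (F * Um i)) ∧
      ∀ (H : Matrix ι δ K) (P : Matrix ι ι K) (c1 c2 : K), Skw J P → Hᵀ * J * w = 0 →
        H * U1 = c1 • (F * U1) → H * U2 = c2 • (F * U2) →
        (P * H)ᵀ * J * w = -(Hᵀ * J * w.map dY) →
        U1ᵀ * th J H P w = (c1 * ν1) • (U1ᵀ * S0) ∧
        ∀ β0 : Matrix m1 m2 K, π1 * β0 = bh →
          U2ᵀ * th J H P w = (c2 * ν2) • (U2ᵀ * S0) - c2 • (β0ᵀ * (U1ᵀ * S0)) := by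
  obtain ⟨w, hw, μ1, μ2, ν1, ν2, μ, h1, h2, h3, h4, h5, h6, h7, h8⟩ := hm
  refine ⟨w, hw, μ1, μ2, ν1, ν2, μ, h1, h2, h3, fun γ0 hγ => ?_, ?_, h8, ?_⟩
  · rw [h4]
    change _ + Q2 * gh = _
    rw [← hγ, ← Matrix.mul_assoc, ← hQ2, Matrix.mul_assoc]
  · rw [h5]; exact add_zero _
  · intro H P c1 c2 hP hH H1 H2 hrow
    refine ⟨?_, fun β0 hβ => ?_⟩
    · have e := row_th (P := (P, 0)) hP hrow H1
      change U1ᵀ * th J H P w = _ at e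
      rw [e, h6]
      change c1 • (ν1 • (U1ᵀ * S0) + 0) = _
      rw [add_zero, smul_smul]
    · have e := row_th (P := (P, 0)) hP hrow H2
      change U2ᵀ * th J H P w = _ at e
      rw [e, h7]
      change c2 • (ν2 • (U2ᵀ * S0) + -(bhᵀ * R1m)) = _
      rw [smul_add, smul_smul, smul_neg, ← hβ, transpose_mul, Matrix.mul_assoc, hR1,
        ← sub_eq_add_neg]

end Crest.Agent.R172.SPar19
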