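import Crest.Agent.R172.SUX6

/-!
Row 172 (S0260), S-side: NORMALISED off-diagonal parts `(β, γ)` of the connection: existence,
uniqueness, and the parity separation `SUX.first_sep` with literal `β, γ`.
-/

set_option autoImplicit false
set_option linter.unusedSectionVars false
set_option linter.unusedVariables false
set_option linter.unusedFintypeInType false
set_option linter.unusedDecidableInType false

namespace Crest.Agent.R172.SPar680

open Matrix Module Crest.Agent.R172.SUX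

section mats

variable {K : Type*} [Field K]
variable {n1 n2 : Type*} [Fintype n1] [Fintype n2] [DecidableEq n1] [DecidableEq n2]

/-- the matrices with all columns in `C` -/
def Cols (n2 : Type*) [Fintype n2] (C : Submodule K (n1 → K)) : Submodule K (Matrix n1 n2 K) where
  carrier := {m | ∀ v, m *ᵥ v ∈ C}
  add_mem' := fun {a b} ha hb v => by rw [add_mulVec]; exact C.add_mem (ha v) (hb v)
  zero_mem' := fun v => by rw [zero_mulVec]; exact C.zero_mem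
  smul_mem' := fun c a ha v => by rw [smul_mulVec]; exact C.smul_mem c (ha v)

theorem mem_Cols {C : Submodule K (n1 → K)} {m : Matrix n1 n2 K} :
    m ∈ Cols n2 C ↔ ∀ v, m *ᵥ v ∈ C := Iff.rfl

theorem Cols_mulr {C : Submodule K (n1 → K)} {m : Matrix n1 n2 K} (h : m ∈ Cols n2 C)
    (a : Matrix n2 n2 K) : m * a ∈ Cols n2 C := fun v => by
  rw [← mulVec_mulVec]; exact h _

theorem Cols_mull {C : Submodule K (n1 → K)} {m : Matrix n1 n2 K} (h : m ∈ Cols n2 C)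
    {a : Matrix n1 n1 K} (ha : ∀ v ∈ C, a *ᵥ v ∈ C) : a * m ∈ Cols n2 C := fun v => by
  rw [← mulVec_mulVec]; exact ha _ (h _)

theorem Cols_disj {C C' : Submodule K (n1 → K)} (hC : Disjoint C C') {m : Matrix n1 n2 K}
    (h : m ∈ Cols n2 C) (h' : m ∈ Cols n2 C') : m = 0 := by
  ext i j
  have h1 : m *ᵥ Pi.single j 1 = 0 := by
    have := (Submodule.disjoint_def.1 hC) _ (h (Pi.single j 1)) (h' (Pi.single j 1))
    exact this
  have h2 := congrFun h1 i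
  rw [mulVec_single_one] at h2
  simpa using h2

theorem Cols_split {C C' : Submodule K (n1 → K)} (hC : Codisjoint C C') (m : Matrix n1 n2 K) :
    ∃ a ∈ Cols n2 C, ∃ b ∈ Cols n2 C', m = a + b := by
  have h1 : ∀ j : n2, ∃ x ∈ C, ∃ y ∈ C', x + y = fun i => m i j := fun j =>
    Submodule.mem_sup.1 (by rw [hC.eq_top]; trivial)
  choose x hx y hy hxy using h1
  have key : ∀ (D : Submodule K (n1 → K)) (z : n2 → n1 → K), (∀ j, z j ∈ D) →
      (Matrix.of fun i j => z j i) ∈ Cols n2 D := by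
    intro D z hz v
    have : (Matrix.of fun i j => z j i) *ᵥ v = ∑ j, v j • z j := by
      funext i
      rw [mulVec, dotProduct, Finset.sum_apply]
      exact Finset.sum_congr rfl fun j _ => by
        rw [Matrix.of_apply, Pi.smul_apply, smul_eq_mul, mul_comm]
    rw [this]
    exact D.sum_mem fun j _ => D.smul_mem _ (hz j)
  refine ⟨_, key C x hx, _, key C' y hy, ?_⟩
  ext i j
  exact (congrFun (hxy j) i).symm

/-- words: `A1_w δ = c^|w| δ A2_w` modulo `K0` -/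
theorem word {A1 : Fin 3 → Matrix n1 n1 K} {A2 : Fin 3 → Matrix n2 n2 K}
    {K0 : Submodule K (n1 → K)} (hK0 : ∀ r, ∀ v ∈ K0, A1 r *ᵥ v ∈ K0) {c : K}
    {δ : Matrix n1 n2 K} (h2 : ∀ r, A1 r * δ - c • (δ * A2 r) ∈ Cols n2 K0)
    (w : List (Fin 3)) :
    (w.map A1).prod * δ - c ^ w.length • (δ * (w.map A2).prod) ∈ Cols n2 K0 := by
  induction w with
  | nil => simp
  | cons r w ih =>
    rw [List.map_cons, List.prod_cons, List.map_cons, List.prod_cons, List.length_cons]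
    have h3 := Cols_mull ih (hK0 r)
    have h4 := (Cols n2 K0).smul_mem (c ^ w.length) (Cols_mulr (h2 r) (w.map A2).prod)
    have h5 : A1 r * (w.map A1).prod * δ - c ^ (w.length + 1) • (δ * (A2 r * (w.map A2).prod)) =
        A1 r * ((w.map A1).prod * δ - c ^ w.length • (δ * (w.map A2).prod)) +
          c ^ w.length • ((A1 r * δ - c • (δ * A2 r)) * (w.map A2).prod) := by
      rw [Matrix.mul_sub, Matrix.sub_mul, Matrix.mul_smul, Matrix.smul_mul, smul_sub, smul_smul,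
        pow_succ]
      simp only [Matrix.mul_assoc]
      abel
    rw [h5]
    exact (Cols n2 K0).add_mem h3 h4

/-- perfectness: killing all words kills everything -/
theorem perf {A2 : Fin 3 → Matrix n2 n2 K} {K0 : Submodule K (n1 → K)}
    (hp : ⨆ r, LinearMap.range (A2 r).mulVecLin = ⊤) {δ : Matrix n1 n2 K} (m : ℕ)
    (h : ∀ w : List (Fin 3), w.length = m → δ * (w.map A2).prod ∈ Cols n2 K0) :
    δ ∈ Cols n2 K0 := by
  induction m with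
  | zero => simpa using h [] rfl
  | succ m ih =>
    refine ih fun w hw => ?_
    have h1 : (⊤ : Submodule K (n2 → K)) ≤ K0.comap (δ * (w.map A2).prod).mulVecLin := by
      rw [← hp]
      refine iSup_le fun r => ?_
      rintro _ ⟨v, rfl⟩
      rw [Submodule.mem_comap, mulVecLin_apply, mulVecLin_apply, mulVec_mulVec]
      have h2 := h (w ++ [r]) (by rw [List.length_append, hw]; rfl) v
      rw [List.map_append, List.prod_append, List.map_cons, List.map_nil, List.prod_singleton,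
        ← Matrix.mul_assoc] at h2
      exact h2
    exact fun v => h1 (Submodule.mem_top : v ∈ ⊤)

/-- **uniqueness modulo `K0`** -/
theorem uniq {A1 : Fin 3 → Matrix n1 n1 K} {A2 : Fin 3 → Matrix n2 n2 K}
    {K0 : Submodule K (n1 → K)} (hK0 : ∀ r, ∀ v ∈ K0, A1 r *ᵥ v ∈ K0) {G1 : Matrix n1 n1 K}
    {m : ℕ} (hk : ∀ w : List (Fin 3), w.length = m → ∀ v, G1 *ᵥ v = 0 →
      (w.map A1).prod *ᵥ v ∈ K0)
    (hp : ⨆ r, LinearMap.range (A2 r).mulVecLin = ⊤) {c : K} (hc : c ≠ 0)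
    {δ : Matrix n1 n2 K} (h1 : G1 * δ = 0)
    (h2 : ∀ r, A1 r * δ - c • (δ * A2 r) ∈ Cols n2 K0) : δ ∈ Cols n2 K0 := by
  refine perf hp m fun w hw => ?_
  have h3 := word hK0 h2 w
  have h4 : (w.map A1).prod * δ ∈ Cols n2 K0 := by
    intro v
    rw [← mulVec_mulVec]
    refine hk w hw _ ?_
    rw [mulVec_mulVec, h1, zero_mulVec]
  have h5 := (Cols n2 K0).sub_mem h4 h3
  rw [sub_sub_cancel] at h5
  have h6 := (Cols n2 K0).smul_mem (c ^ w.length)⁻¹ h5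
  rwa [smul_smul, inv_mul_cancel₀ (pow_ne_zero _ hc), one_smul] at h6

/-- the same with the pencil read from the other side -/
theorem uniq' {A1 : Fin 3 → Matrix n1 n1 K} {A2 : Fin 3 → Matrix n2 n2 K}
    {K0 : Submodule K (n1 → K)} (hK0 : ∀ r, ∀ v ∈ K0, A1 r *ᵥ v ∈ K0) {G1 : Matrix n1 n1 K}
    {m : ℕ} (hk : ∀ w : List (Fin 3), w.length = m → ∀ v, G1 *ᵥ v = 0 →
      (w.map A1).prod *ᵥ v ∈ K0)
    (hp : ⨆ r, LinearMap.range (A2 r).mulVecLin = ⊤) {c : K} (hc : c ≠ 0)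
    {δ : Matrix n1 n2 K} (h1 : G1 * δ = 0)
    (h2 : ∀ r, δ * A2 r - c • (A1 r * δ) ∈ Cols n2 K0) : δ ∈ Cols n2 K0 := by
  refine uniq hK0 hk hp (inv_ne_zero hc) h1 fun r => ?_
  have h3 := (Cols n2 K0).smul_mem (-c⁻¹) (h2 r)
  convert h3 using 1
  rw [smul_sub, smul_smul, neg_mul, inv_mul_cancel₀ hc, neg_smul, neg_smul, one_smul]
  abel

section frame

variable {δ : Type*} [Fintype δ] [DecidableEq δ] {U1 : Matrix δ n1 K} {U2 : Matrix δ n2 K}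

/-- the overlap of the two blocks, in coordinates of the first one -/
def Ov (U1 : Matrix δ n1 K) (U2 : Matrix δ n2 K) : Submodule K (n1 → K) :=
  (LinearMap.range U2.mulVecLin).comap U1.mulVecLin

theorem mem_Ov {v : n1 → K} : v ∈ Ov U1 U2 ↔ ∃ u, U2 *ᵥ u = U1 *ᵥ v := Iff.rfl

theorem Ov_st {O : Matrix δ δ K} {A1 : Matrix n1 n1 K} {A2 : Matrix n2 n2 K}
    (h1 : O * U1 = U1 * A1) (h2 : O * U2 = U2 * A2) :
    ∀ v ∈ Ov U1 U2, A1 *ᵥ v ∈ Ov U1 U2 := by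
  rintro v ⟨u, hu⟩
  rw [mulVecLin_apply, mulVecLin_apply] at hu
  refine ⟨A2 *ᵥ u, ?_⟩
  rw [mulVecLin_apply, mulVecLin_apply, mulVec_mulVec, mulVec_mulVec, ← h1, ← h2, ← mulVec_mulVec,
    ← mulVec_mulVec, hu]

theorem Ov_form {S0 : Matrix δ δ K} (horth : U1ᵀ * S0 * U2 = 0) :
    ∀ v ∈ Ov U1 U2, (U1ᵀ * S0 * U1) *ᵥ v = 0 := by
  rintro v ⟨u, hu⟩
  rw [mulVecLin_apply, mulVecLin_apply] at hu
  rw [← mulVec_mulVec, ← hu, mulVec_mulVec, horth, zero_mulVec]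

/-- **normalisation** of a decomposition `V = U2 Γ + e • U1 β` -/
theorem normal {C1 : Submodule K (n1 → K)} (hC : IsCompl (Ov U1 U2) C1) {V : Matrix δ n2 K}
    {Γ : Matrix n2 n2 K} {β : Matrix n1 n2 K} {e : K} (h : V = U2 * Γ + e • (U1 * β)) :
    ∃ (Γ' : Matrix n2 n2 K) (β' : Matrix n1 n2 K), V = U2 * Γ' + e • (U1 * β') ∧
      β' ∈ Cols n2 C1 ∧ β - β' ∈ Cols n2 (Ov U1 U2) := by
  obtain ⟨a, ha, b, hb, hab⟩ := Cols_split (n2 := n2) hC.codisjoint β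
  have h1 : ∀ j : n2, ∃ u, U2 *ᵥ u = U1 *ᵥ (a *ᵥ Pi.single j 1) := fun j => ha (Pi.single j 1)
  choose u hu using h1
  have h2 : U1 * a = U2 * Matrix.of fun i j => u j i := by
    ext i j
    have h3 := congrFun (hu j) i
    rw [mulVec_mulVec, mulVec_single_one] at h3
    exact h3.symm
  refine ⟨Γ + e • Matrix.of fun i j => u j i, b, ?_, hb, ?_⟩
  · rw [h, hab, Matrix.mul_add, h2, Matrix.mul_add, Matrix.mul_smul, smul_add, add_assoc]
  · rw [hab, add_sub_cancel_right]; exact ha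

end frame

end mats

section sep

variable {ι : Type*} [Fintype ι] [DecidableEq ι] {δ : Type*} [Fintype δ] [DecidableEq δ]
variable {k K : Type*} [Field k] [Field K] [Algebra k K]
variable {arm : δ → Fin 3} {J : Matrix ι ι K} {N W : Submodule K (Matrix ι δ K)}
  {F f : Matrix ι δ K}
variable {n1 n2 : Type*} [Fintype n1] [Fintype n2] [DecidableEq n1] [DecidableEq n2]
variable {S0 : Matrix δ δ K} {U1 : Matrix δ n1 K} {U2 : Matrix δ n2 K} {dY : Derivation k K K}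

/-- **normalised solution** `(β, γ)` of the corrected intertwining equation at `c = ρ²` -/
structure Nrm (A1 : Fin 3 → Matrix n1 n1 K) (A2 : Fin 3 → Matrix n2 n2 K)
    (K1 C1 : Submodule K (n1 → K)) (K2 C2 : Submodule K (n2 → K))
    (G1 : Matrix n1 n1 K) (G2 : Matrix n2 n2 K)
    (L L' : Fin 3 → ((Fin 3 → Matrix n2 n1 K) →ₗ[K] Matrix n1 n2 K))
    (M M' : Fin 3 → ((Fin 3 → Matrix n2 n1 K) →ₗ[K] Matrix n2 n1 K))
    (c : K) (X : Fin 3 → Matrix n2 n1 K) (β : Matrix n1 n2 K) (γ : Matrix n2 n1 K) : Prop where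
  b1 : β ∈ Cols n2 C1
  b2 : G1 * β = 0
  b3 : ∀ r, A1 r * β - c • (β * A2 r) - (L r X - c • L' r X) ∈ Cols n2 K1
  g1 : γ ∈ Cols n1 C2
  g2 : G2 * γ = 0
  g3 : ∀ r, γ * A1 r - c • (A2 r * γ) - (M r X - c • M' r X) ∈ Cols n1 K2

variable {A1 : Fin 3 → Matrix n1 n1 K} {A2 : Fin 3 → Matrix n2 n2 K}
  {K1 C1 : Submodule K (n1 → K)} {K2 C2 : Submodule K (n2 → K)}
  {G1 : Matrix n1 n1 K} {G2 : Matrix n2 n2 K}
  {L L' : Fin 3 → ((Fin 3 → Matrix n2 n1 K) →ₗ[K] Matrix n1 n2 K)}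
  {M M' : Fin 3 → ((Fin 3 → Matrix n2 n1 K) →ₗ[K] Matrix n2 n1 K)}

/-- **the normalised solution is unique.** -/
theorem Nrm.unique {c : K} (hc : c ≠ 0) {X : Fin 3 → Matrix n2 n1 K}
    {β β' : Matrix n1 n2 K} {γ γ' : Matrix n2 n1 K}
    (h : Nrm A1 A2 K1 C1 K2 C2 G1 G2 L L' M M' c X β γ)
    (h' : Nrm A1 A2 K1 C1 K2 C2 G1 G2 L L' M M' c X β' γ')
    (hd1 : Disjoint K1 C1) (hd2 : Disjoint K2 C2)
    (s1 : ∀ r, ∀ v ∈ K1, A1 r *ᵥ v ∈ K1) (s2 : ∀ r, ∀ v ∈ K2, A2 r *ᵥ v ∈ K2) {m : ℕ}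
    (k1 : ∀ w : List (Fin 3), w.length = m → ∀ v, G1 *ᵥ v = 0 → (w.map A1).prod *ᵥ v ∈ K1)
    (k2 : ∀ w : List (Fin 3), w.length = m → ∀ v, G2 *ᵥ v = 0 → (w.map A2).prod *ᵥ v ∈ K2)
    (p1 : ⨆ r, LinearMap.range (A1 r).mulVecLin = ⊤)
    (p2 : ⨆ r, LinearMap.range (A2 r).mulVecLin = ⊤) : β = β' ∧ γ = γ' := by
  constructor
  · have h1 : β - β' ∈ Cols n2 K1 := by
      refine uniq s1 k1 p2 hc (by rw [Matrix.mul_sub, h.b2, h'.b2, sub_zero]) fun r => ?_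
      have h2 := (Cols n2 K1).sub_mem (h.b3 r) (h'.b3 r)
      convert h2 using 1
      rw [Matrix.mul_sub, Matrix.sub_mul, smul_sub]
      abel
    exact sub_eq_zero.1 (Cols_disj hd1 h1 ((Cols n2 C1).sub_mem h.b1 h'.b1))
  · have h1 : γ - γ' ∈ Cols n1 K2 := by
      refine uniq' s2 k2 p1 hc (by rw [Matrix.mul_sub, h.g2, h'.g2, sub_zero]) fun r => ?_
      have h2 := (Cols n1 K2).sub_mem (h.g3 r) (h'.g3 r)
      convert h2 using 1
      rw [Matrix.mul_sub, Matrix.sub_mul, smul_sub]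
      abel
    exact sub_eq_zero.1 (Cols_disj hd2 h1 ((Cols n1 C2).sub_mem h.g1 h'.g1))

/-- left and right multiplication -/
def lm {a b : Type*} [Fintype a] [Fintype b] (A : Matrix a a K) :
    Matrix a b K →ₗ[K] Matrix a b K where
  toFun m := A * m
  map_add' := Matrix.mul_add A
  map_smul' c m := Matrix.mul_smul A c m

def rm {a b : Type*} [Fintype a] [Fintype b] (A : Matrix b b K) :
    Matrix a b K →ₗ[K] Matrix a b K where
  toFun m := m * A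
  map_add' m m' := Matrix.add_mul m m' A
  map_smul' c m := Matrix.smul_mul c m A

variable {Gx : Type*} [AddCommGroup Gx] [Module K Gx]

/-- the target of the pencil -/
abbrev GG (n1 n2 : Type*) [Fintype n1] [Fintype n2] (K1 C1 : Submodule K (n1 → K))
    (K2 C2 : Submodule K (n2 → K)) (Gx : Type*) :=
  Gx × ((Fin 3 → (Matrix n1 n2 K ⧸ Cols n2 K1)) × (Matrix n1 n2 K ⧸ Cols n2 C1) ×
    Matrix n1 n2 K) × ((Fin 3 → (Matrix n2 n1 K ⧸ Cols n1 K2)) × (Matrix n2 n1 K ⧸ Cols n1 C2) ×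
    Matrix n2 n1 K)

def pX : D3 K n1 n2 →ₗ[K] (Fin 3 → Matrix n2 n1 K) := LinearMap.fst K _ _
def pB : D3 K n1 n2 →ₗ[K] Matrix n1 n2 K := LinearMap.fst K _ _ ∘ₗ LinearMap.snd K _ _
def pG : D3 K n1 n2 →ₗ[K] Matrix n2 n1 K := LinearMap.snd K _ _ ∘ₗ LinearMap.snd K _ _

def al (A1 : Fin 3 → Matrix n1 n1 K)
    (K1 C1 : Submodule K (n1 → K)) (K2 C2 : Submodule K (n2 → K))
    (G1 : Matrix n1 n1 K) (G2 : Matrix n2 n2 K)
    (L : Fin 3 → ((Fin 3 → Matrix n2 n1 K) →ₗ[K] Matrix n1 n2 K))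
    (M : Fin 3 → ((Fin 3 → Matrix n2 n1 K) →ₗ[K] Matrix n2 n1 K))
    (alX : (Fin 3 → Matrix n2 n1 K) →ₗ[K] Gx) : D3 K n1 n2 →ₗ[K] GG n1 n2 K1 C1 K2 C2 Gx :=
  (alX ∘ₗ pX).prod (((LinearMap.pi fun r => (Cols n2 K1).mkQ ∘ₗ (lm (A1 r) ∘ₗ pB - L r ∘ₗ pX)).prod
    (((Cols n2 C1).mkQ ∘ₗ pB).prod (lm G1 ∘ₗ pB))).prod
    ((LinearMap.pi fun r => (Cols n1 K2).mkQ ∘ₗ (rm (A1 r) ∘ₗ pG - M r ∘ₗ pX)).prod
    (((Cols n1 C2).mkQ ∘ₗ pG).prod (lm G2 ∘ₗ pG))))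

def be (A2 : Fin 3 → Matrix n2 n2 K)
    (K1 C1 : Submodule K (n1 → K)) (K2 C2 : Submodule K (n2 → K))
    (L' : Fin 3 → ((Fin 3 → Matrix n2 n1 K) →ₗ[K] Matrix n1 n2 K))
    (M' : Fin 3 → ((Fin 3 → Matrix n2 n1 K) →ₗ[K] Matrix n2 n1 K))
    (beX : (Fin 3 → Matrix n2 n1 K) →ₗ[K] Gx) : D3 K n1 n2 →ₗ[K] GG n1 n2 K1 C1 K2 C2 Gx :=
  (beX ∘ₗ pX).prod (((LinearMap.pi fun r => (Cols n2 K1).mkQ ∘ₗ (rm (A2 r) ∘ₗ pB - L' r ∘ₗ pX)).prod
    (0 : D3 K n1 n2 →ₗ[K] (Matrix n1 n2 K ⧸ Cols n2 C1) × Matrix n1 n2 K)).prod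
    ((LinearMap.pi fun r => (Cols n1 K2).mkQ ∘ₗ (lm (A2 r) ∘ₗ pG - M' r ∘ₗ pX)).prod
    (0 : D3 K n1 n2 →ₗ[K] (Matrix n2 n1 K ⧸ Cols n1 C2) × Matrix n2 n1 K)))

theorem pencil_iff (alX beX : (Fin 3 → Matrix n2 n1 K) →ₗ[K] Gx) (c : K)
    (X : Fin 3 → Matrix n2 n1 K) (β : Matrix n1 n2 K) (γ : Matrix n2 n1 K) :
    al A1 K1 C1 K2 C2 G1 G2 L M alX (X, β, γ) = c • be A2 K1 C1 K2 C2 L' M' beX (X, β, γ) ↔
      alX X = c • beX X ∧ Nrm A1 A2 K1 C1 K2 C2 G1 G2 L L' M M' c X β γ := by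
  have e1 : ∀ r, ((Cols n2 K1).mkQ (A1 r * β - L r X) =
      c • (Cols n2 K1).mkQ (β * A2 r - L' r X)) ↔
      A1 r * β - c • (β * A2 r) - (L r X - c • L' r X) ∈ Cols n2 K1 := by
    intro r
    rw [← map_smul, Submodule.mkQ_apply, Submodule.mkQ_apply, Submodule.Quotient.eq]
    have : A1 r * β - L r X - c • (β * A2 r - L' r X) =
      A1 r * β - c • (β * A2 r) - (L r X - c • L' r X) := by rw [smul_sub]; abel
    rw [this]
  have e2 : ∀ r, ((Cols n1 K2).mkQ (γ * A1 r - M r X) =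
      c • (Cols n1 K2).mkQ (A2 r * γ - M' r X)) ↔
      γ * A1 r - c • (A2 r * γ) - (M r X - c • M' r X) ∈ Cols n1 K2 := by
    intro r
    rw [← map_smul, Submodule.mkQ_apply, Submodule.mkQ_apply, Submodule.Quotient.eq]
    have : γ * A1 r - M r X - c • (A2 r * γ - M' r X) =
      γ * A1 r - c • (A2 r * γ) - (M r X - c • M' r X) := by rw [smul_sub]; abel
    rw [this]
  constructor
  · intro h
    obtain ⟨h1, h23⟩ := Prod.ext_iff.1 h
    obtain ⟨h2, h3⟩ := Prod.ext_iff.1 h23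
    obtain ⟨h4, h5⟩ := Prod.ext_iff.1 h2
    obtain ⟨h6, h7⟩ := Prod.ext_iff.1 h3
    obtain ⟨h8, h9⟩ := Prod.ext_iff.1 h5
    obtain ⟨h10, h11⟩ := Prod.ext_iff.1 h7
    refine ⟨h1, ⟨?_, ?_, fun r => (e1 r).1 (congrFun h4 r), ?_, ?_,
      fun r => (e2 r).1 (congrFun h6 r)⟩⟩
    · have h8' : (Cols n2 C1).mkQ β = c • 0 := h8
      rw [smul_zero] at h8'
      exact (Submodule.Quotient.mk_eq_zero _).1 h8'
    · have h9' : G1 * β = c • 0 := h9
      rwa [smul_zero] at h9'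
    · have h8' : (Cols n1 C2).mkQ γ = c • 0 := h10
      rw [smul_zero] at h8'
      exact (Submodule.Quotient.mk_eq_zero _).1 h8'
    · have h9' : G2 * γ = c • 0 := h11
      rwa [smul_zero] at h9'
  · rintro ⟨h1, h⟩
    refine Prod.ext h1 (Prod.ext (Prod.ext (funext fun r => (e1 r).2 (h.b3 r))
      (Prod.ext ?_ ?_)) (Prod.ext (funext fun r => (e2 r).2 (h.g3 r)) (Prod.ext ?_ ?_)))
    · change (Cols n2 C1).mkQ β = c • 0
      rw [smul_zero]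
      exact (Submodule.Quotient.mk_eq_zero _).2 h.b1
    · change G1 * β = c • 0
      rw [smul_zero]; exact h.b2
    · change (Cols n1 C2).mkQ γ = c • 0
      rw [smul_zero]
      exact (Submodule.Quotient.mk_eq_zero _).2 h.g1
    · change G2 * γ = c • 0
      rw [smul_zero]; exact h.g2

/-- **parity separation with the literal normalised `(β, γ)`** -/
theorem sep (alX beX : (Fin 3 → Matrix n2 n1 K) →ₗ[K] Gx)
    (hd1 : Disjoint K1 C1) (hd2 : Disjoint K2 C2)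
    (s1 : ∀ r, ∀ v ∈ K1, A1 r *ᵥ v ∈ K1) (s2 : ∀ r, ∀ v ∈ K2, A2 r *ᵥ v ∈ K2) {m : ℕ}
    (k1 : ∀ w : List (Fin 3), w.length = m → ∀ v, G1 *ᵥ v = 0 → (w.map A1).prod *ᵥ v ∈ K1)
    (k2 : ∀ w : List (Fin 3), w.length = m → ∀ v, G2 *ᵥ v = 0 → (w.map A2).prod *ᵥ v ∈ K2)
    (p1 : ⨆ r, LinearMap.range (A1 r).mulVecLin = ⊤)
    (p2 : ⨆ r, LinearMap.range (A2 r).mulVecLin = ⊤)
    {R : Set K} (hR : R.Infinite) (h0 : (0 : K) ∉ R)
    (hact : ∀ ρ ∈ R, ∀ X, alX X = ρ ^ 2 • beX X →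
      ∃ β γ, Nrm A1 A2 K1 C1 K2 C2 G1 G2 L L' M M' (ρ ^ 2) X β γ ∧
        I1 arm F S0 U1 U2 (X, β, γ) + ρ • I2 arm F S0 U1 U2 (X, β, γ)
          ∈ QQ5 J N W F f dY S0 U1 U2) :
    ∃ S : Set K, S.Finite ∧ ∀ c ∉ S, ∀ X β γ, alX X = c • beX X →
      Nrm A1 A2 K1 C1 K2 C2 G1 G2 L L' M M' c X β γ →
      I1 arm F S0 U1 U2 (X, β, γ) ∈ QQ5 J N W F f dY S0 U1 U2 ∧
        I2 arm F S0 U1 U2 (X, β, γ) ∈ QQ5 J N W F f dY S0 U1 U2 := by
  obtain ⟨S, hS, h⟩ := first_sep (arm := arm) (J := J) (N := N) (W := W) (F := F) (f := f)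
    (dY := dY) (S0 := S0) (U1 := U1) (U2 := U2)
    (al A1 K1 C1 K2 C2 G1 G2 L M alX) (be A2 K1 C1 K2 C2 L' M' beX)
    (LinearMap.id : D3 K n1 n2 →ₗ[K] D3 K n1 n2) hR (by
      rintro ρ hρ ⟨X, β, γ⟩ hy
      obtain ⟨hx, hn⟩ := (pencil_iff alX beX (ρ ^ 2) X β γ).1 hy
      obtain ⟨β', γ', hn', hrel⟩ := hact ρ hρ X hx
      have hρ0 : ρ ≠ 0 := fun e => h0 (e ▸ hρ)
      obtain ⟨rfl, rfl⟩ := hn.unique (pow_ne_zero 2 hρ0) hn' hd1 hd2 s1 s2 k1 k2 p1 p2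
      exact hrel)
  exact ⟨S, hS, fun c hc X β γ hx hn => h c hc (X, β, γ)
    ((pencil_iff alX beX c X β γ).2 ⟨hx, hn⟩)⟩

end sep

end Crest.Agent.R172.SPar680
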