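import Crest.Agent.R172.SUX6

/-!
Row 172 (S0260), S-side (t2): parity separation of the first level at the `K^δ` level with the exact
pencil conditions of the triples `(X, β, γ)` (written after `F`), and uniqueness of `(β, γ)`.
-/

set_option autoImplicit false
set_option linter.unusedSectionVars false
set_option linter.unusedFintypeInType false
set_option linter.unusedDecidableInType false
set_option linter.unusedVariables false
set_option maxHeartbeats 1600000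

namespace Crest.Agent.R172.SPar895

open Matrix Module Crest.Agent.R172.SUX

variable {ι : Type*} [Fintype ι] [DecidableEq ι] {δ : Type*} [Fintype δ] [DecidableEq δ]
variable {K : Type*} [Field K] {arm : δ → Fin 3}
variable {n1 n2 : Type*} [Fintype n1] [Fintype n2] [DecidableEq n1] [DecidableEq n2]
variable {F : Matrix ι δ K} {S0 : Matrix δ δ K} {U1 : Matrix δ n1 K} {U2 : Matrix δ n2 K}
  {a1 : Fin 3 → Matrix n1 n1 K} {a2 : Fin 3 → Matrix n2 n2 K}
  {G : Type*} [AddCommGroup G] [Module K G]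
  {alX beX : (Fin 3 → Matrix n2 n1 K) →ₗ[K] G}

/-- an intertwiner `β` (mod `ker π`) from a perfect module, with values killed by long words after
`π`, vanishes after `π`. -/
theorem intertwine_zero {V1 V2 E : Type*} [AddCommGroup V1] [Module K V1] [AddCommGroup V2]
    [Module K V2] [AddCommGroup E] [Module K E] {A1 : Fin 3 → End K V1} {A2 : Fin 3 → End K V2}
    (π : V1 →ₗ[K] E) (hst : ∀ x, π x = 0 → ∀ r, π (A1 r x) = 0)
    (hperf : ∀ y, ∃ f : Fin 3 → V2, y = ∑ r, A2 r (f r)) (β : V2 →ₗ[K] V1) {c : K}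
    (hc : c ≠ 0) (hβ : ∀ r y, π (A1 r (β y)) = c • π (β (A2 r y)))
    {m : ℕ} (hk : ∀ w : List (Fin 3), w.length = m → ∀ y, π ((w.map A1).prod (β y)) = 0) :
    ∀ y, π (β y) = 0 := by
  have hst' : ∀ (w : List (Fin 3)) x, π x = 0 → π ((w.map A1).prod x) = 0 := by
    intro w
    induction w with
    | nil => intro x hx; simpa using hx
    | cons r w ih =>
      intro x hx
      rw [List.map_cons, List.prod_cons, Module.End.mul_apply]
      exact hst _ (ih x hx) r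
  -- by induction on the number of letters still to be extracted
  have key : ∀ j ≤ m, ∀ w : List (Fin 3), w.length = m - j → ∀ y, π ((w.map A1).prod (β y)) = 0 := by
    intro j
    induction j with
    | zero => intro _ w hw y; exact hk w (by simpa using hw) y
    | succ j ih =>
      intro hj w hw y
      obtain ⟨f, hf⟩ := hperf y
      rw [hf, map_sum, map_sum, map_sum]
      refine Finset.sum_eq_zero fun r _ => ?_
      have h1 : π (A1 r (β (f r)) - c • β (A2 r (f r))) = 0 := by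
        rw [map_sub, map_smul, hβ, sub_self]
      have h2 := hst' w _ h1
      rw [map_sub, map_smul, map_sub, map_smul, sub_eq_zero] at h2
      have h3 := ih (by omega) (w ++ [r]) (by simp [hw]; omega) (f r)
      rw [List.map_append, List.prod_append, List.map_singleton, List.prod_singleton,
        Module.End.mul_apply] at h3
      rw [h3] at h2
      exact (smul_eq_zero.1 h2.symm).resolve_left hc
  intro y
  have := key m le_rfl [] (by simp) y
  simpa using this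

/-- the pencil conditions of the triple `(X, β, γ)` at `c = ρ²`. -/
structure Tri (F : Matrix ι δ K) (S0 : Matrix δ δ K) (U1 : Matrix δ n1 K) (U2 : Matrix δ n2 K)
    (a1 : Fin 3 → Matrix n1 n1 K) (a2 : Fin 3 → Matrix n2 n2 K)
    (alX beX : (Fin 3 → Matrix n2 n1 K) →ₗ[K] G) (c : K) (y : D3 K n1 n2) : Prop where
  ex : alX y.1 = c • beX y.1
  be : ∀ r, F * (U1 * (a1 r * (y.2.1 - (y.1 r)ᵀ * (U2ᵀ * S0 * U2)))) =
    c • (F * (U1 * ((y.2.1 - (y.1 r)ᵀ * (U2ᵀ * S0 * U2)) * a2 r)))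
  ga : ∀ r, F * (U2 * ((y.2.2 - y.1 r * (U1ᵀ * S0 * U1)) * a1 r)) =
    c • (F * (U2 * (a2 r * (y.2.2 - y.1 r * (U1ᵀ * S0 * U1)))))
  r1 : (U1ᵀ * S0 * U1) * y.2.1 = 0
  r2 : (U2ᵀ * S0 * U2) * y.2.2 = 0

/-- target of the pencil -/
abbrev Tg (K ι n1 n2 G : Type*) := G × ((Fin 3 → Matrix ι n2 K) × (Fin 3 → Matrix ι n1 K)) ×
  (Matrix n1 n2 K × Matrix n2 n1 K)

/-- the pencil, first part -/
noncomputable def al (F : Matrix ι δ K) (S0 : Matrix δ δ K) (U1 : Matrix δ n1 K)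
    (U2 : Matrix δ n2 K) (a1 : Fin 3 → Matrix n1 n1 K)
    (alX : (Fin 3 → Matrix n2 n1 K) →ₗ[K] G) : D3 K n1 n2 →ₗ[K] Tg K ι n1 n2 G where
  toFun y := (alX y.1,
    (fun r => F * (U1 * (a1 r * (y.2.1 - (y.1 r)ᵀ * (U2ᵀ * S0 * U2)))),
      fun r => F * (U2 * ((y.2.2 - y.1 r * (U1ᵀ * S0 * U1)) * a1 r))),
    ((U1ᵀ * S0 * U1) * y.2.1, (U2ᵀ * S0 * U2) * y.2.2))
  map_add' a b := by
    refine Prod.ext ?_ (Prod.ext (Prod.ext ?_ ?_) (Prod.ext ?_ ?_))
    · simp
    · funext r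
      simp only [Prod.snd_add, Prod.fst_add, Pi.add_apply, transpose_add, Matrix.add_mul,
        Matrix.mul_add, Matrix.mul_sub, Matrix.sub_mul]
      abel
    · funext r
      simp only [Prod.snd_add, Prod.fst_add, Pi.add_apply, Matrix.add_mul,
        Matrix.mul_add, Matrix.mul_sub, Matrix.sub_mul]
      abel
    · simp only [Prod.snd_add, Prod.fst_add, Matrix.mul_add]
    · simp only [Prod.snd_add, Matrix.mul_add]
  map_smul' c a := by
    refine Prod.ext ?_ (Prod.ext (Prod.ext ?_ ?_) (Prod.ext ?_ ?_))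
    · simp
    · funext r
      simp only [Prod.smul_snd, Prod.smul_fst, Pi.smul_apply, transpose_smul, Matrix.smul_mul,
        Matrix.mul_smul, Matrix.mul_sub, Matrix.sub_mul, smul_sub, RingHom.id_apply]
    · funext r
      simp only [Prod.smul_snd, Prod.smul_fst, Pi.smul_apply, Matrix.smul_mul,
        Matrix.mul_smul, Matrix.mul_sub, Matrix.sub_mul, smul_sub, RingHom.id_apply]
    · simp only [Prod.smul_snd, Prod.smul_fst, Matrix.mul_smul, RingHom.id_apply]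
    · simp only [Prod.smul_snd, Matrix.mul_smul, RingHom.id_apply]

/-- the pencil, second part -/
noncomputable def be (F : Matrix ι δ K) (S0 : Matrix δ δ K) (U1 : Matrix δ n1 K)
    (U2 : Matrix δ n2 K) (a2 : Fin 3 → Matrix n2 n2 K)
    (beX : (Fin 3 → Matrix n2 n1 K) →ₗ[K] G) : D3 K n1 n2 →ₗ[K] Tg K ι n1 n2 G where
  toFun y := (beX y.1,
    (fun r => F * (U1 * ((y.2.1 - (y.1 r)ᵀ * (U2ᵀ * S0 * U2)) * a2 r)),
      fun r => F * (U2 * (a2 r * (y.2.2 - y.1 r * (U1ᵀ * S0 * U1))))),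
    (0, 0))
  map_add' a b := by
    refine Prod.ext ?_ (Prod.ext (Prod.ext ?_ ?_) (Prod.ext ?_ ?_))
    · simp
    · funext r
      simp only [Prod.snd_add, Prod.fst_add, Pi.add_apply, transpose_add, Matrix.add_mul,
        Matrix.mul_add, Matrix.mul_sub, Matrix.sub_mul]
      abel
    · funext r
      simp only [Prod.snd_add, Prod.fst_add, Pi.add_apply, Matrix.add_mul,
        Matrix.mul_add, Matrix.mul_sub, Matrix.sub_mul]
      abel
    · simp
    · simp
  map_smul' c a := by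
    refine Prod.ext ?_ (Prod.ext (Prod.ext ?_ ?_) (Prod.ext ?_ ?_))
    · simp
    · funext r
      simp only [Prod.smul_snd, Prod.smul_fst, Pi.smul_apply, transpose_smul, Matrix.smul_mul,
        Matrix.mul_smul, Matrix.mul_sub, Matrix.sub_mul, smul_sub, RingHom.id_apply]
    · funext r
      simp only [Prod.smul_snd, Prod.smul_fst, Pi.smul_apply, Matrix.smul_mul,
        Matrix.mul_smul, Matrix.mul_sub, Matrix.sub_mul, smul_sub, RingHom.id_apply]
    · simp
    · simp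

theorem pencil_iff {c : K} {y : D3 K n1 n2} :
    al F S0 U1 U2 a1 alX y = c • be F S0 U1 U2 a2 beX y ↔
      Tri F S0 U1 U2 a1 a2 alX beX c y := by
  constructor
  · intro h
    have h1 := congrArg Prod.fst h
    have h2 := congrArg Prod.snd h
    have h3 := congrArg Prod.fst h2
    have h4 := congrArg Prod.snd h2
    refine ⟨h1, fun r => congrFun (congrArg Prod.fst h3) r, fun r => congrFun (congrArg Prod.snd h3) r,
      ?_, ?_⟩
    · have := congrArg Prod.fst h4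
      change _ = c • (0 : Matrix n1 n2 K) at this
      rw [smul_zero] at this
      exact this
    · have := congrArg Prod.snd h4
      change _ = c • (0 : Matrix n2 n1 K) at this
      rw [smul_zero] at this
      exact this
  · intro h
    refine Prod.ext h.ex (Prod.ext (Prod.ext (funext h.be) (funext h.ga)) (Prod.ext ?_ ?_))
    · change _ = c • (0 : Matrix n1 n2 K)
      rw [smul_zero]; exact h.r1
    · change _ = c • (0 : Matrix n2 n1 K)
      rw [smul_zero]; exact h.r2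

/-- the structure of a pair of `K^δ` level frames -/
structure Fm (F : Matrix ι δ K) (S0 : Matrix δ δ K) (U1 : Matrix δ n1 K) (U2 : Matrix δ n2 K)
    (a1 : Fin 3 → Matrix n1 n1 K) (a2 : Fin 3 → Matrix n2 n2 K) (m : ℕ) : Prop where
  skew : S0ᵀ = -S0
  fac : ∃ C : Matrix δ ι K, S0 = C * F
  st1 : ∀ x, F *ᵥ (U1 *ᵥ x) = 0 → ∀ r, F *ᵥ (U1 *ᵥ (a1 r *ᵥ x)) = 0
  st2 : ∀ x, F *ᵥ (U2 *ᵥ x) = 0 → ∀ r, F *ᵥ (U2 *ᵥ (a2 r *ᵥ x)) = 0
  perf1 : ∀ x, ∃ f : Fin 3 → n1 → K, x = ∑ r, a1 r *ᵥ f r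
  perf2 : ∀ x, ∃ f : Fin 3 → n2 → K, x = ∑ r, a2 r *ᵥ f r
  kill1 : ∀ w : List (Fin 3), w.length = m → ∀ x, (U1ᵀ * S0 * U1) *ᵥ x = 0 →
    F *ᵥ (U1 *ᵥ ((w.map fun r => (a1 r).mulVecLin).prod x)) = 0
  kill2 : ∀ w : List (Fin 3), w.length = m → ∀ x, (U2ᵀ * S0 * U2) *ᵥ x = 0 →
    F *ᵥ (U2 *ᵥ ((w.map fun r => (a2 r).mulVecLin).prod x)) = 0

theorem Fm.symm {m : ℕ} (h : Fm F S0 U1 U2 a1 a2 m) : Fm F S0 U2 U1 a2 a1 m :=
  ⟨h.skew, h.fac, h.st2, h.st1, h.perf2, h.perf1, h.kill2, h.kill1⟩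

/-- **uniqueness**: an intertwiner with radical values is killed by `F`. -/
theorem Fm.zero {m : ℕ} (h : Fm F S0 U1 U2 a1 a2 m) {c : K} (hc : c ≠ 0) {β : Matrix n1 n2 K}
    (hβ : ∀ r, F * (U1 * (a1 r * β)) = c • (F * (U1 * (β * a2 r))))
    (hr : (U1ᵀ * S0 * U1) * β = 0) : F * (U1 * β) = 0 := by
  have key := intertwine_zero (A1 := fun r => (a1 r).mulVecLin) (A2 := fun r => (a2 r).mulVecLin)
    (F.mulVecLin ∘ₗ U1.mulVecLin) (fun x hx r => h.st1 x hx r)
    (fun y => h.perf2 y) β.mulVecLin hc (fun r y => ?_) (m := m) (fun w hw y => ?_)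
  · ext i j
    have h1 := congrFun (key (Pi.single j 1)) i
    have h2 : F *ᵥ (U1 *ᵥ (β *ᵥ Pi.single j 1)) = (F * (U1 * β)) *ᵥ Pi.single j 1 := by
      simp only [mulVec_mulVec, Matrix.mul_assoc]
    have h3 : (F *ᵥ (U1 *ᵥ (β *ᵥ Pi.single j 1))) i = 0 := h1
    rw [h2, mulVec_single_one] at h3
    exact h3
  · have h1 := congrArg (fun A : Matrix ι n2 K => A *ᵥ y) (hβ r)
    simp only [smul_mulVec] at h1
    simp only [LinearMap.comp_apply, mulVecLin_apply, mulVec_mulVec, Matrix.mul_assoc]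
    simpa only [Matrix.mul_assoc] using h1
  · refine h.kill1 w hw _ ?_
    rw [mulVecLin_apply, mulVec_mulVec, hr, zero_mulVec]

theorem Fm.row {m : ℕ} (h : Fm F S0 U1 U2 a1 a2 m) {n n' : Type*} [Fintype n] (U : Matrix δ n K)
    (b b' : Matrix n n' K) (hb : F * (U * b) = F * (U * b')) :
    bᵀ * (Uᵀ * S0) = b'ᵀ * (Uᵀ * S0) := by
  obtain ⟨C, hC⟩ := h.fac
  have h1 : S0 * (U * b) = S0 * (U * b') := by rw [hC, Matrix.mul_assoc, hb, Matrix.mul_assoc]
  have h2 := congrArg Matrix.transpose h1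
  rw [transpose_mul, transpose_mul, transpose_mul, transpose_mul, h.skew, Matrix.mul_neg,
    Matrix.mul_neg, neg_inj, Matrix.mul_assoc, Matrix.mul_assoc] at h2
  exact h2

theorem I1_eq {m : ℕ} (h : Fm F S0 U1 U2 a1 a2 m) {X : Fin 3 → Matrix n2 n1 K}
    {β β' : Matrix n1 n2 K} {γ γ' : Matrix n2 n1 K} (hβ : F * (U1 * (β - β')) = 0)
    (hγ : F * (U2 * (γ - γ')) = 0) :
    I1 arm F S0 U1 U2 (X, β, γ) = I1 arm F S0 U1 U2 (X, β', γ') ∧
      I2 arm F S0 U1 U2 (X, β, γ) = I2 arm F S0 U1 U2 (X, β', γ') := by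
  have e1 : F * (U1 * β) = F * (U1 * β') := by
    rw [← sub_eq_zero, ← Matrix.mul_sub, ← Matrix.mul_sub, hβ]
  have e2 : F * (U2 * γ) = F * (U2 * γ') := by
    rw [← sub_eq_zero, ← Matrix.mul_sub, ← Matrix.mul_sub, hγ]
  constructor
  · refine Prod.ext rfl (Prod.ext (Prod.ext e2 rfl) (Prod.ext rfl ?_))
    change -(βᵀ * (U1ᵀ * S0)) = -(β'ᵀ * (U1ᵀ * S0))
    rw [h.row U1 β β' e1]
  · refine Prod.ext rfl (Prod.ext (Prod.ext rfl ?_) (Prod.ext ?_ rfl))
    · change -(F * (U1 * β)) = -(F * (U1 * β'))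
      rw [e1]
    · change γᵀ * (U2ᵀ * S0) = γ'ᵀ * (U2ᵀ * S0)
      rw [h.row U2 γ γ' e2]

/-- **parity separation at the `K^δ` level.** -/
theorem sep_U {m : ℕ} (h : Fm F S0 U1 U2 a1 a2 m) (QQ : Submodule K (E5 K ι δ n1 n2))
    {R : Set K} (hR : R.Infinite) (h0 : (0 : K) ∉ R)
    (hrel : ∀ ρ ∈ R, ∀ X, alX X = ρ ^ 2 • beX X → ∃ β γ,
      Tri F S0 U1 U2 a1 a2 alX beX (ρ ^ 2) (X, β, γ) ∧
      I1 arm F S0 U1 U2 (X, β, γ) + ρ • I2 arm F S0 U1 U2 (X, β, γ) ∈ QQ) :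
    ∃ S : Set K, S.Finite ∧ ∀ c ∉ S, ∀ y, Tri F S0 U1 U2 a1 a2 alX beX c y →
      I1 arm F S0 U1 U2 y ∈ QQ ∧ I2 arm F S0 U1 U2 y ∈ QQ := by
  have hr : ∀ ρ ∈ R, ∀ y, al F S0 U1 U2 a1 alX y = ρ ^ 2 • be F S0 U1 U2 a2 beX y →
      I1 arm F S0 U1 U2 y + ρ • I2 arm F S0 U1 U2 y ∈ QQ := by
    intro ρ hρ y hy
    have hT := pencil_iff.1 hy
    obtain ⟨X, β, γ⟩ := y
    obtain ⟨β', γ', hT', hm⟩ := hrel ρ hρ X hT.ex
    have hρ0 : ρ ^ 2 ≠ 0 := pow_ne_zero 2 fun e => h0 (e ▸ hρ)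
    have hβ : F * (U1 * (β - β')) = 0 := by
      refine h.zero hρ0 (fun r => ?_) ?_
      · have e1 := hT.be r
        have e2 := hT'.be r
        have e3 : F * (U1 * (a1 r * (β - β'))) =
            F * (U1 * (a1 r * (β - (X r)ᵀ * (U2ᵀ * S0 * U2)))) -
            F * (U1 * (a1 r * (β' - (X r)ᵀ * (U2ᵀ * S0 * U2)))) := by
          simp only [Matrix.mul_sub]; abel
        have e4 : F * (U1 * ((β - β') * a2 r)) =
            F * (U1 * ((β - (X r)ᵀ * (U2ᵀ * S0 * U2)) * a2 r)) -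
            F * (U1 * ((β' - (X r)ᵀ * (U2ᵀ * S0 * U2)) * a2 r)) := by
          simp only [Matrix.mul_sub, Matrix.sub_mul]; abel
        rw [e3, e4, smul_sub]
        exact congrArg₂ (· - ·) e1 e2
      · rw [Matrix.mul_sub]
        have e1 := hT.r1
        have e2 := hT'.r1
        simp only at e1 e2
        rw [e1, e2, sub_self]
    have hγ : F * (U2 * (γ - γ')) = 0 := by
      refine h.symm.zero (c := (ρ ^ 2)⁻¹) (inv_ne_zero hρ0) (fun r => ?_) ?_
      · have e1 := hT.ga r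
        have e2 := hT'.ga r
        have e3 : F * (U2 * (a2 r * (γ - γ'))) =
            F * (U2 * (a2 r * (γ - X r * (U1ᵀ * S0 * U1)))) -
            F * (U2 * (a2 r * (γ' - X r * (U1ᵀ * S0 * U1)))) := by
          simp only [Matrix.mul_sub]; abel
        have e4 : F * (U2 * ((γ - γ') * a1 r)) =
            F * (U2 * ((γ - X r * (U1ᵀ * S0 * U1)) * a1 r)) -
            F * (U2 * ((γ' - X r * (U1ᵀ * S0 * U1)) * a1 r)) := by
          simp only [Matrix.mul_sub, Matrix.sub_mul]; abel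
        simp only at e1 e2
        rw [e3, e4, e1, e2, ← smul_sub, smul_smul, inv_mul_cancel₀ hρ0, one_smul]
      · rw [Matrix.mul_sub]
        have e1 := hT.r2
        have e2 := hT'.r2
        simp only at e1 e2
        rw [e1, e2, sub_self]
    obtain ⟨e5, e6⟩ := I1_eq (arm := arm) h (X := X) hβ hγ
    rw [e5, e6]
    exact hm
  obtain ⟨S, hS, hp⟩ := RJP.par_sep (T := Unit) (al F S0 U1 U2 a1 alX) (be F S0 U1 U2 a2 beX) QQ
    (fun _ => I1 arm F S0 U1 U2) (fun _ => I2 arm F S0 U1 U2) hR (fun ρ hρ y hy _ => hr ρ hρ y hy)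
  exact ⟨S, hS, fun c hc y hy => hp c hc y (pencil_iff.2 hy) ()⟩

end Crest.Agent.R172.SPar895
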