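import Crest.Agent.R172.Top2

/-!
R172: the standard polarisation (hyperbolic pairs of coordinate vectors, at most one odd index), the
GOOD property of the standard configuration, and the outer assembly for these data (`CoreS`).
-/

set_option autoImplicit false
set_option linter.unusedSectionVars false

namespace Crest.Agent.R172.CF

open Matrix Crest.AlgebraR.SpinSaturation Crest.Agent.R172.SoGrade
open Crest.Agent.R172.Gen (Jm Ix emb Ent ent)

variable {n : ℕ} {a : Fin 3 → Fin n → ℤ}

/-- in every arm the sets `A (n-1)` are coisotropic or isotropic -/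
def Good (c : Cfg n a) : Prop :=
  ∀ s, (∀ d, c.arm d = s → ∀ i : Fin n, (i : ℕ) + 1 = n → ¬ c.A i (c.σ d) → c.A i d) ∨
    (∀ d, c.arm d = s → ∀ i : Fin n, (i : ℕ) + 1 = n → c.A i (c.σ d) → ¬ c.A i d)

/-- A standard polarisation. -/
structure SPol (c : Cfg n a) where
  m : ℕ
  dd : (Fin m ⊕ Fin m) ≃ c.δ
  z : Option (Fin m)
  reg : ∀ i, z ≠ some i → c.σ (dd (Sum.inl i)) = dd (Sum.inr i)
  fix : ∀ i, z = some i → c.σ (dd (Sum.inl i)) = dd (Sum.inl i) ∧
    c.σ (dd (Sum.inr i)) = dd (Sum.inr i) ∧ c.arm (dd (Sum.inl i)) ≠ c.arm (dd (Sum.inr i))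

namespace SPol

variable {c : Cfg n a} (q : SPol c)

/-- the matrix `T` in the coordinates `dd` -/
noncomputable def Z : Matrix (Fin q.m ⊕ Fin q.m) (Fin q.m ⊕ Fin q.m) ℂ :=
  Matrix.fromBlocks (Matrix.diagonal fun _ => 1)
    (Matrix.diagonal fun i => if q.z = some i then 1 / 2 else 0)
    (Matrix.diagonal fun i => if q.z = some i then Complex.I else 0)
    (Matrix.diagonal fun i => if q.z = some i then -Complex.I / 2 else 1)

/-- the form in the coordinates `dd` -/
def Bz : Matrix (Fin q.m ⊕ Fin q.m) (Fin q.m ⊕ Fin q.m) ℂ :=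
  Matrix.fromBlocks (Matrix.diagonal fun i => if q.z = some i then 1 else 0)
    (Matrix.diagonal fun i => if q.z = some i then 0 else 1)
    (Matrix.diagonal fun i => if q.z = some i then 0 else 1)
    (Matrix.diagonal fun i => if q.z = some i then 1 else 0)

theorem Z_B : q.Zᵀ * q.Bz * q.Z = Jm q.m ℂ := by
  rw [Z, Bz, Matrix.fromBlocks_transpose, Matrix.fromBlocks_multiply, Matrix.fromBlocks_multiply]
  simp only [Matrix.diagonal_transpose, Matrix.diagonal_mul_diagonal, Matrix.diagonal_add,
    LieAlgebra.Orthogonal.JD]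
  rw [← Matrix.diagonal_one, ← Matrix.diagonal_zero]
  have hI : Complex.I * Complex.I = -1 := Complex.I_mul_I
  congr 1
  · congr 1
    funext i
    split_ifs
    · linear_combination hI
    · simp
  · congr 1
    funext i
    split_ifs
    · linear_combination (-1 / 2) * hI
    · simp
  · congr 1
    funext i
    split_ifs
    · linear_combination (-1 / 2) * hI
    · simp
  · congr 1
    funext i
    split_ifs
    · linear_combination (1 / 4) * hI
    · simp

theorem B_sub : (c.B ℂ).submatrix q.dd q.dd = q.Bz := by
  ext x y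
  rw [submatrix_apply, Cfg.B, of_apply, Bz]
  rcases x with i | i <;> rcases y with j | j
  · rw [fromBlocks_apply₁₁, diagonal_apply]
    by_cases hz : q.z = some i
    · rw [(q.fix i hz).1]
      by_cases h : i = j
      · subst h; simp [hz]
      · have : ¬ j = i := fun h' => h h'.symm
        simp [h, this]
    · rw [q.reg i hz]
      by_cases h : i = j
      · subst h; simp [hz]
      · simp [h]
  · rw [fromBlocks_apply₁₂, diagonal_apply]
    by_cases hz : q.z = some i
    · rw [(q.fix i hz).1]
      by_cases h : i = j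
      · subst h; simp [hz]
      · simp [h]
    · rw [q.reg i hz]
      by_cases h : i = j
      · subst h; simp [hz]
      · have : ¬ j = i := fun h' => h h'.symm
        simp [h, this]
  · rw [fromBlocks_apply₂₁, diagonal_apply]
    by_cases hz : q.z = some i
    · rw [(q.fix i hz).2.1]
      by_cases h : i = j
      · subst h; simp [hz]
      · simp [h]
    · have h2 : c.σ (q.dd (Sum.inr i)) = q.dd (Sum.inl i) := by rw [← q.reg i hz, c.inv]
      rw [h2]
      by_cases h : i = j
      · subst h; simp [hz]
      · have : ¬ j = i := fun h' => h h'.symm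
        simp [h, this]
  · rw [fromBlocks_apply₂₂, diagonal_apply]
    by_cases hz : q.z = some i
    · rw [(q.fix i hz).2.1]
      by_cases h : i = j
      · subst h; simp [hz]
      · have : ¬ j = i := fun h' => h h'.symm
        simp [h, this]
    · have h2 : c.σ (q.dd (Sum.inr i)) = q.dd (Sum.inl i) := by rw [← q.reg i hz, c.inv]
      rw [h2]
      by_cases h : i = j
      · subst h; simp [hz]
      · simp [h]

/-- the polarisation -/
@[reducible] noncomputable def toPol : Pol c where
  m := q.m
  card := by
    rw [← Fintype.card_congr q.dd, Fintype.card_sum, Fintype.card_fin]; ring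
  T := q.Z.submatrix q.dd.symm id
  hT := by
    have hB : c.B ℂ = q.Bz.submatrix q.dd.symm q.dd.symm := by
      rw [← q.B_sub, submatrix_submatrix]
      simp
    rw [hB, transpose_submatrix, Matrix.submatrix_mul_equiv, Matrix.submatrix_mul_equiv, q.Z_B]
    rfl

theorem toPol_m : q.toPol.m = q.m := rfl

section entries

variable {K : Type} [Field K] [Algebra ℂ K]

theorem P_apply (H : Matrix (Fin q.m) (Fin q.m) K) (x : Fin q.m ⊕ Fin q.m) (j : Fin q.m) :
    q.toPol.P H (q.dd x) j =
      ∑ i, algebraMap ℂ K (q.Z x (Sum.inl i)) * H i j +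
        ∑ i, algebraMap ℂ K (q.Z x (Sum.inr i)) * (if i = j then 1 else 0) := by
  have h1 : q.toPol.P H (q.dd x) j =
      ∑ y : Fin q.m ⊕ Fin q.m, algebraMap ℂ K (q.Z x y) * Pol.st q.m H y j := by
    change (q.toPol.TK K * Pol.st q.toPol.m H) (q.dd x) j = _
    rw [Matrix.mul_apply]
    refine Finset.sum_congr rfl fun y _ => ?_
    congr 1
    change algebraMap ℂ K (q.Z (q.dd.symm (q.dd x)) y) = _
    rw [q.dd.symm_apply_apply]
  rw [h1, Fintype.sum_sum_type]
  rfl

theorem P_inl (H : Matrix (Fin q.m) (Fin q.m) K) (i j : Fin q.m) :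
    q.toPol.P H (q.dd (Sum.inl i)) j =
      H i j + if q.z = some i then (if i = j then 1 / 2 else 0) else 0 := by
  rw [P_apply, Z]
  congr 1
  · rw [Finset.sum_eq_single i]
    · simp
    · intro b _ hb
      rw [fromBlocks_apply₁₁, diagonal_apply_ne _ hb.symm, map_zero, zero_mul]
    · simp
  · rw [Finset.sum_eq_single i]
    · rw [fromBlocks_apply₁₂, diagonal_apply_eq]
      have h2 : algebraMap ℂ K 2 = 2 := map_ofNat _ 2
      by_cases hz : q.z = some i
      · simp [hz, h2]
      · simp [hz]
    · intro b _ hb
      rw [fromBlocks_apply₁₂, diagonal_apply_ne _ hb.symm, map_zero, zero_mul]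
    · simp

theorem P_inr (H : Matrix (Fin q.m) (Fin q.m) K) (i j : Fin q.m) :
    q.toPol.P H (q.dd (Sum.inr i)) j =
      if q.z = some i then
        algebraMap ℂ K Complex.I * (H i j - if i = j then 1 / 2 else 0)
      else (if i = j then 1 else 0) := by
  rw [P_apply, Z]
  have h1 : ∑ k, algebraMap ℂ K ((fromBlocks (diagonal fun _ => 1)
      (diagonal fun i => if q.z = some i then 1 / 2 else 0)
      (diagonal fun i => if q.z = some i then Complex.I else 0)
      (diagonal fun i => if q.z = some i then -Complex.I / 2 else 1) :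
        Matrix (Fin q.m ⊕ Fin q.m) (Fin q.m ⊕ Fin q.m) ℂ) (Sum.inr i) (Sum.inl k)) * H k j =
      if q.z = some i then algebraMap ℂ K Complex.I * H i j else 0 := by
    rw [Finset.sum_eq_single i]
    · rw [fromBlocks_apply₂₁, diagonal_apply_eq]
      by_cases hz : q.z = some i
      · simp [hz]
      · simp [hz]
    · intro b _ hb
      rw [fromBlocks_apply₂₁, diagonal_apply_ne _ hb.symm, map_zero, zero_mul]
    · simp
  have h2 : ∑ k, algebraMap ℂ K ((fromBlocks (diagonal fun _ => 1)
      (diagonal fun i => if q.z = some i then 1 / 2 else 0)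
      (diagonal fun i => if q.z = some i then Complex.I else 0)
      (diagonal fun i => if q.z = some i then -Complex.I / 2 else 1) :
        Matrix (Fin q.m ⊕ Fin q.m) (Fin q.m ⊕ Fin q.m) ℂ) (Sum.inr i) (Sum.inr k)) *
          (if k = j then 1 else 0) =
      if q.z = some i then
        -(algebraMap ℂ K Complex.I * (if i = j then 1 / 2 else 0))
      else (if i = j then 1 else 0) := by
    rw [Finset.sum_eq_single i]
    · rw [fromBlocks_apply₂₂, diagonal_apply_eq]
      by_cases hz : q.z = some i
      · rw [if_pos hz, if_pos hz]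
        by_cases h : i = j
        · have h2 : algebraMap ℂ K 2 = 2 := map_ofNat _ 2
          rw [if_pos h, if_pos h, mul_one, neg_div, map_neg, map_div₀]
          simp [div_eq_mul_inv, h2]
        · rw [if_neg h, if_neg h, mul_zero, mul_zero, neg_zero]
      · simp [hz]
    · intro b _ hb
      rw [fromBlocks_apply₂₂, diagonal_apply_ne _ hb.symm, map_zero, zero_mul]
    · simp
  rw [h1, h2]
  by_cases hz : q.z = some i
  · rw [if_pos hz, if_pos hz, if_pos hz]; ring
  · rw [if_neg hz, if_neg hz, if_neg hz, zero_add]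

end entries

end SPol

end Crest.Agent.R172.CF
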