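import Crest.Agent.R172.SPol

/-!
R172: existence of the standard configuration with a standard polarisation, and the outer assembly for
these data.
-/

set_option autoImplicit false
set_option linter.unusedSectionVars false

namespace Crest.Agent.R172.CF

open Matrix Crest.AlgebraR.SpinSaturation Crest.Agent.R172.SoGrade Crest.Agent.R172.Sp
open Crest.Agent.R172.Gen (Jm Ix emb Ent ent)
open Crest.Agent.R172.SpLink (Dst)

variable {n : ℕ}

/-- `exists_arm` with explicit sets -/
theorem exists_arm' (hn : 2 ≤ n) {a : Fin n → ℤ} (ha : IsDominantIntegral n a) (m : ℕ)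
    (hm : ∀ i, a i ≤ m) (hpar : ∀ i, Even ((m : ℤ) - a i)) :
    ∃ R : Arm n (revInv m) a, ∀ i d, R.A i d ↔ 2 * ((d : ℕ) : ℤ) < m + a i := by
  have hmono := dom_mono hn ha
  have hneg := dom_neg hn ha
  have hlow : ∀ i, -(m : ℤ) ≤ a i := by
    intro i
    obtain ⟨j, hj⟩ : ∃ j : Fin n, j ≠ i := by
      have : Nontrivial (Fin n) := Fin.nontrivial_iff_two_le.2 hn
      exact exists_ne i
    have := hneg j i hj
    have := hm j
    omega
  refine ⟨{ A := fun i d => 2 * ((d : ℕ) : ℤ) < m + a i, dec := fun i d => inferInstance,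
            mono := ?_, perp := ?_, count := ?_ }, fun i d => Iff.rfl⟩
  · intro i j hij d h
    have := hmono i j hij
    omega
  · intro i j hij d h
    have := hneg j i hij.symm
    have h1 : (((revInv m).σ d : Fin m) : ℕ) = m - (d + 1) := Fin.val_rev d
    have := d.2
    rw [h1] at h
    omega
  · intro i
    obtain ⟨k, hk⟩ := hpar i
    have h1 := hm i
    have h2 := hlow i
    have h3 : (Finset.univ.filter (fun d : Fin m => 2 * ((d : ℕ) : ℤ) < m + a i)).card =
        ((m + a i) / 2).toNat := by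
      have h4 : ((m + a i) / 2).toNat ≤ m := by omega
      have h5 : (Finset.univ.filter (fun d : Fin m => 2 * ((d : ℕ) : ℤ) < m + a i)) =
          (Finset.univ.filter (fun d : Fin m => (d : ℕ) < ((m + a i) / 2).toNat)) := by
        apply Finset.filter_congr
        intro d _
        omega
      rw [h5, Fin.card_filter_val_lt, min_eq_right h4]
    rw [h3, Fintype.card_fin]
    omega

/-- the configuration is the standard one (for the numbers `m s`) -/
structure Std {a : Fin 3 → Fin n → ℤ} (c : Cfg n a) (m : Fin 3 → ℕ) where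
  e : c.δ ≃ Dst m
  arm : ∀ d, c.arm d = (e d).1
  σ : ∀ d, e (c.σ d) = ⟨(e d).1, Fin.rev (e d).2⟩
  A : ∀ i d, c.A i d ↔ 2 * (((e d).2 : ℕ) : ℤ) < m (e d).1 + a (e d).1 i

theorem exists_cfg' (hn : 2 ≤ n) (a : Fin 3 → Fin n → ℤ) (ha : ∀ s, IsDominantIntegral n (a s))
    (m : Fin 3 → ℕ) (hm : ∀ s i, a s i ≤ m s) (hpar : ∀ s i, Even ((m s : ℤ) - a s i)) :
    ∃ c : Cfg n a, Nonempty (Std c m) := by
  classical
  choose R hRA using fun s => exists_arm' hn (ha s) (m s) (hm s) (hpar s)
  have hcount : ∀ s i, a s i =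
      2 * ((Finset.univ.filter (fun d : Dst m => d.1 = s ∧ (R d.1).A i d.2)).card : ℤ) -
      ((Finset.univ.filter (fun d : Dst m => d.1 = s)).card : ℤ) := by
    intro s i
    rw [(R s).count i]
    congr 2
    · congr 1
      have h1 : (Finset.univ.filter (fun d : Dst m => d.1 = s ∧ (R d.1).A i d.2)) =
          (Finset.univ.filter ((R s).A i)).map ⟨fun x => (⟨s, x⟩ : Dst m), fun x y h => by
            simpa using h⟩ := by
        ext ⟨t, x⟩
        simp only [Finset.mem_filter, Finset.mem_univ, true_and, Finset.mem_map,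
          Function.Embedding.coeFn_mk]
        constructor
        · rintro ⟨rfl, h⟩
          exact ⟨x, h, rfl⟩
        · rintro ⟨y, hy, h⟩
          obtain ⟨rfl, h⟩ := Sigma.mk.inj_iff.1 h
          rw [heq_eq_eq] at h
          subst h
          exact ⟨rfl, hy⟩
      rw [h1, Finset.card_map]
    · have h1 : (Finset.univ.filter (fun d : Dst m => d.1 = s)) =
          (Finset.univ : Finset (Fin (m s))).map ⟨fun x => (⟨s, x⟩ : Dst m), fun x y h => by
            simpa using h⟩ := by
        ext ⟨t, x⟩
        simp only [Finset.mem_filter, Finset.mem_univ, true_and, Finset.mem_map,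
          Function.Embedding.coeFn_mk]
        constructor
        · rintro rfl
          exact ⟨x, rfl⟩
        · rintro ⟨y, h⟩
          exact (Sigma.mk.inj_iff.1 h).1.symm
      rw [h1, Finset.card_map, Finset.card_univ]
  let c : Cfg n a :=
    { δ := Dst m
      arm := fun d => d.1
      σ := fun d => ⟨d.1, (revInv (m d.1)).σ d.2⟩
      inv := fun d => by rw [(revInv (m d.1)).inv]
      arm_σ := fun d => rfl
      A := fun i d => (R d.1).A i d.2
      dA := fun i => fun d => inferInstanceAs (Decidable ((R d.1).A i d.2))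
      mono := fun i j h d => (R d.1).mono i j h d.2
      perp := fun i j h d => (R d.1).perp i j h d.2
      count := hcount }
  exact ⟨c, ⟨{ e := Equiv.refl _, arm := fun d => rfl, σ := fun d => rfl,
               A := fun i d => hRA d.1 i d.2 }⟩⟩

variable {a : Fin 3 → Fin n → ℤ} {c : Cfg n a} {m : Fin 3 → ℕ}

theorem Std.good (h : Std c m) : Good c := by
  intro s
  by_cases hs : ∀ i : Fin n, (i : ℕ) + 1 = n → 0 ≤ a s i
  · left
    intro d hd i hi hA
    have h1 := hs i hi
    rw [h.A] at hA ⊢
    rw [h.σ] at hA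
    have h3 : (h.e d).1 = s := by rw [← h.arm, hd]
    have h4 := (h.e d).2.2
    have h5 : ((Fin.rev (h.e d).2 : Fin (m (h.e d).1)) : ℕ) = m (h.e d).1 - ((h.e d).2 + 1) :=
      Fin.val_rev _
    simp only at hA
    rw [h5] at hA
    have h6 : 0 ≤ a (h.e d).1 i := by rw [h3]; exact h1
    omega
  · right
    push Not at hs
    obtain ⟨i0, hi0, hneg⟩ := hs
    intro d hd i hi hA
    have hii : i = i0 := Fin.ext (by omega)
    subst hii
    rw [h.A] at hA ⊢
    rw [h.σ] at hA
    have h3 : (h.e d).1 = s := by rw [← h.arm, hd]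
    have h4 := (h.e d).2.2
    have h5 : ((Fin.rev (h.e d).2 : Fin (m (h.e d).1)) : ℕ) = m (h.e d).1 - ((h.e d).2 + 1) :=
      Fin.val_rev _
    simp only at hA
    rw [h5] at hA
    have h6 : a (h.e d).1 i < 0 := by rw [h3]; exact hneg
    omega

/-- a standard polarisation without odd index -/
theorem exists_spol_even (c : Cfg n a) (rep : Finset c.δ) (h1 : ∀ d ∈ rep, c.σ d ∉ rep)
    (h2 : ∀ d, d ∉ rep → c.σ d ∈ rep) :
    ∃ q : SPol c, ∀ i, q.z ≠ some i → q.dd (Sum.inl i) ∈ rep := by
  classical
  let e : rep ≃ Fin rep.card := rep.equivFin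
  let f : Fin rep.card ⊕ Fin rep.card → c.δ :=
    Sum.elim (fun i => (e.symm i).1) (fun i => c.σ (e.symm i).1)
  have hf : Function.Bijective f := by
    constructor
    · rintro (i | i) (j | j) h
      · have : e.symm i = e.symm j := Subtype.ext h
        rw [e.symm.injective this]
      · exfalso
        have h3 : (e.symm i).1 = c.σ (e.symm j).1 := h
        exact h1 _ (e.symm j).2 (h3 ▸ (e.symm i).2)
      · exfalso
        have h3 : c.σ (e.symm i).1 = (e.symm j).1 := h
        exact h1 _ (e.symm i).2 (h3 ▸ (e.symm j).2)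
      · have h3 : c.σ (e.symm i).1 = c.σ (e.symm j).1 := h
        have h4 := congrArg c.σ h3
        rw [c.inv, c.inv] at h4
        have : e.symm i = e.symm j := Subtype.ext h4
        rw [e.symm.injective this]
    · intro d
      by_cases hd : d ∈ rep
      · exact ⟨Sum.inl (e ⟨d, hd⟩), by simp [f]⟩
      · refine ⟨Sum.inr (e ⟨c.σ d, h2 d hd⟩), ?_⟩
        simp [f, c.inv]
  refine ⟨{ m := rep.card, dd := Equiv.ofBijective f hf, z := none, reg := ?_, fix := ?_ }, ?_⟩
  · intro i _
    rfl
  · intro i hi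
    exact absurd hi (by simp)
  · intro i _
    exact (e.symm i).2

/-- a standard polarisation with one odd index -/
theorem exists_spol_odd (c : Cfg n a) (rep : Finset c.δ) {u u' : c.δ} (hu : c.σ u = u)
    (hu' : c.σ u' = u') (harm : c.arm u ≠ c.arm u') (h1 : ∀ d ∈ rep, c.σ d ∉ rep)
    (h2 : ∀ d, d ≠ u → d ≠ u' → d ∉ rep → c.σ d ∈ rep) :
    ∃ q : SPol c, ∀ i, q.z ≠ some i → q.dd (Sum.inl i) ∈ rep := by
  classical
  have hur : u ∉ rep := fun h => h1 u h (by rw [hu]; exact h)
  have hur' : u' ∉ rep := fun h => h1 u' h (by rw [hu']; exact h)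
  have hne : u ≠ u' := fun h => harm (by rw [h])
  let e : rep ≃ Fin rep.card := rep.equivFin
  let f1 : Fin (rep.card + 1) → c.δ := Fin.cases u (fun i => (e.symm i).1)
  let f2 : Fin (rep.card + 1) → c.δ := Fin.cases u' (fun i => c.σ (e.symm i).1)
  have f10 : f1 0 = u := rfl
  have f1s : ∀ i : Fin rep.card, f1 i.succ = (e.symm i).1 := fun i => rfl
  have f20 : f2 0 = u' := rfl
  have f2s : ∀ i : Fin rep.card, f2 i.succ = c.σ (e.symm i).1 := fun i => rfl
  have hs1 : ∀ i, c.σ (e.symm i).1 ≠ u := fun i h => by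
    have h3 := congrArg c.σ h
    rw [c.inv, hu] at h3
    exact hur (h3 ▸ (e.symm i).2)
  have hs2 : ∀ i, c.σ (e.symm i).1 ≠ u' := fun i h => by
    have h3 := congrArg c.σ h
    rw [c.inv, hu'] at h3
    exact hur' (h3 ▸ (e.symm i).2)
  have hr1 : ∀ i, (e.symm i).1 ≠ u := fun i h => hur (h ▸ (e.symm i).2)
  have hr2 : ∀ i, (e.symm i).1 ≠ u' := fun i h => hur' (h ▸ (e.symm i).2)
  let f : Fin (rep.card + 1) ⊕ Fin (rep.card + 1) → c.δ := Sum.elim f1 f2
  have hf : Function.Bijective f := by
    constructor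
    · rintro (i | i) (j | j) h
      · change f1 i = f1 j at h
        congr 1
        revert h
        refine Fin.cases ?_ (fun i => ?_) i
        · refine Fin.cases (fun _ => rfl) (fun j h => ?_) j
          rw [f10, f1s] at h
          exact absurd h.symm (hr1 j)
        · refine Fin.cases (fun h => ?_) (fun j h => ?_) j
          · rw [f10, f1s] at h
            exact absurd h (hr1 i)
          · rw [f1s, f1s] at h
            rw [e.symm.injective (Subtype.ext h)]
      · exfalso
        change f1 i = f2 j at h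
        revert h
        refine Fin.cases ?_ (fun i => ?_) i
        · refine Fin.cases (fun h => ?_) (fun j h => ?_) j
          · exact hne h
          · rw [f10, f2s] at h
            exact hs1 j h.symm
        · refine Fin.cases (fun h => ?_) (fun j h => ?_) j
          · rw [f20, f1s] at h
            exact hr2 i h
          · rw [f1s, f2s] at h
            exact h1 _ (e.symm j).2 (h ▸ (e.symm i).2)
      · exfalso
        change f2 i = f1 j at h
        revert h
        refine Fin.cases ?_ (fun i => ?_) i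
        · refine Fin.cases (fun h => ?_) (fun j h => ?_) j
          · exact hne h.symm
          · rw [f20, f1s] at h
            exact hr2 j h.symm
        · refine Fin.cases (fun h => ?_) (fun j h => ?_) j
          · rw [f10, f2s] at h
            exact hs1 i h
          · rw [f1s, f2s] at h
            exact h1 _ (e.symm i).2 (h ▸ (e.symm j).2)
      · change f2 i = f2 j at h
        congr 1
        revert h
        refine Fin.cases ?_ (fun i => ?_) i
        · refine Fin.cases (fun _ => rfl) (fun j h => ?_) j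
          rw [f20, f2s] at h
          exact absurd h.symm (hs2 j)
        · refine Fin.cases (fun h => ?_) (fun j h => ?_) j
          · rw [f20, f2s] at h
            exact absurd h (hs2 i)
          · rw [f2s, f2s] at h
            have h4 := congrArg c.σ h
            rw [c.inv, c.inv] at h4
            rw [e.symm.injective (Subtype.ext h4)]
    · intro d
      by_cases hd1 : d = u
      · exact ⟨Sum.inl 0, hd1.symm⟩
      by_cases hd2 : d = u'
      · exact ⟨Sum.inr 0, hd2.symm⟩
      by_cases hd : d ∈ rep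
      · refine ⟨Sum.inl (e ⟨d, hd⟩).succ, ?_⟩
        change f1 _ = d
        rw [f1s]; simp
      · refine ⟨Sum.inr (e ⟨c.σ d, h2 d hd1 hd2 hd⟩).succ, ?_⟩
        change f2 _ = d
        rw [f2s]; simp [c.inv]
  refine ⟨{ m := rep.card + 1, dd := Equiv.ofBijective f hf, z := some 0, reg := ?_, fix := ?_ }, ?_⟩
  · intro i hi
    change c.σ (f1 i) = f2 i
    revert hi
    refine Fin.cases (fun h => absurd rfl h) (fun i _ => rfl) i
  · intro i hi
    have : i = 0 := (Option.some.inj hi).symm
    subst this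
    exact ⟨hu, hu', harm⟩
  · intro i hi
    change f1 i ∈ rep
    revert hi
    refine Fin.cases (fun h => absurd rfl h) (fun i _ => ?_) i
    rw [f1s]
    exact (e.symm i).2

/-- the columns `dd (inl i)` are the left ones -/
def SPol.Neg (h : Std c m) (q : SPol c) : Prop :=
  ∀ i, q.z ≠ some i →
    2 * (((h.e (q.dd (Sum.inl i))).2 : ℕ)) + 1 < m (h.e (q.dd (Sum.inl i))).1

theorem Std.exists_spol (h : Std c m) (hev : Even (m 0 + m 1 + m 2)) :
    ∃ q : SPol c, q.Neg h := by
  classical
  let pos : c.δ → ℕ := fun d => (h.e d).2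
  have hpos : ∀ d, pos d < m (c.arm d) := by
    intro d
    rw [h.arm]; exact (h.e d).2.2
  have hσ : ∀ d, pos (c.σ d) = m (c.arm d) - (pos d + 1) := by
    intro d
    have h1 : pos (c.σ d) = ((h.e (c.σ d)).2 : ℕ) := rfl
    rw [h1, h.σ, h.arm]
    exact Fin.val_rev _
  let rep : Finset c.δ := Finset.univ.filter (fun d => 2 * pos d + 1 < m (c.arm d))
  have hrep : ∀ d, d ∈ rep ↔ 2 * pos d + 1 < m (c.arm d) := by
    intro d; simp [rep]
  suffices hsuff : ∃ q : SPol c, ∀ i, q.z ≠ some i → q.dd (Sum.inl i) ∈ rep by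
    obtain ⟨q, hq⟩ := hsuff
    refine ⟨q, fun i hi => ?_⟩
    have h3 := (hrep _).1 (hq i hi)
    have h4 : m (c.arm (q.dd (Sum.inl i))) = m (h.e (q.dd (Sum.inl i))).1 := by rw [h.arm]
    rw [h4] at h3
    exact h3
  have h1 : ∀ d ∈ rep, c.σ d ∉ rep := by
    intro d hd
    rw [hrep] at hd ⊢
    rw [hσ, c.arm_σ]
    have := hpos d
    omega
  have hext : ∀ d e : c.δ, c.arm d = c.arm e → pos d = pos e → d = e := by
    intro d e h1 h2
    apply h.e.injective
    have h3 : (h.e d).1 = (h.e e).1 := by rw [← h.arm, ← h.arm, h1]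
    refine Sigma.ext h3 ?_
    rw [Fin.heq_ext_iff (by rw [h3])]
    exact h2
  have hfix : ∀ d, 2 * pos d + 1 = m (c.arm d) → c.σ d = d := by
    intro d hd
    apply hext _ _ (c.arm_σ d)
    rw [hσ]; omega
  -- the middle element of an odd arm
  have hmid : ∀ s, Odd (m s) → ∃ u : c.δ, c.arm u = s ∧ 2 * pos u + 1 = m s := by
    intro s hs
    obtain ⟨k, hk⟩ := hs
    let x : Dst m := ⟨s, ⟨k, by omega⟩⟩
    refine ⟨h.e.symm x, ?_, ?_⟩
    · rw [h.arm, h.e.apply_symm_apply]
    · change 2 * ((h.e (h.e.symm x)).2 : ℕ) + 1 = m s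
      rw [h.e.apply_symm_apply]
      change 2 * k + 1 = m s
      omega
  have hodd : ∀ s1 s2 : Fin 3, s1 ≠ s2 → Odd (m s1) → Odd (m s2) →
      (∀ s, s ≠ s1 → s ≠ s2 → Even (m s)) →
      ∃ q : SPol c, ∀ i, q.z ≠ some i → q.dd (Sum.inl i) ∈ rep := by
    intro s1 s2 h12 ho1 ho2 he
    obtain ⟨u, hu1, hu2⟩ := hmid s1 ho1
    obtain ⟨u', hu1', hu2'⟩ := hmid s2 ho2
    refine exists_spol_odd c rep (hfix u (by rw [hu1]; exact hu2)) (hfix u' (by rw [hu1']; exact hu2'))
      (by rw [hu1, hu1']; exact h12) h1 ?_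
    intro d hdu hdu' hd
    rw [hrep] at hd ⊢
    rw [hσ, c.arm_σ]
    have h5 := hpos d
    have h6 : 2 * pos d + 1 ≠ m (c.arm d) := by
      intro h7
      by_cases h8 : c.arm d = s1
      · exact hdu (hext _ _ (by rw [h8, hu1]) (by rw [h8] at h7; omega))
      · by_cases h9 : c.arm d = s2
        · exact hdu' (hext _ _ (by rw [h9, hu1']) (by rw [h9] at h7; omega))
        · have := he _ h8 h9
          rw [← h7] at this
          exact (Nat.not_even_iff_odd.2 ⟨pos d, rfl⟩) this
    omega
  rcases Nat.even_or_odd (m 0) with e0 | o0 <;> rcases Nat.even_or_odd (m 1) with e1 | o1 <;>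
    rcases Nat.even_or_odd (m 2) with e2 | o2
  · -- all even
    refine exists_spol_even c rep h1 ?_
    intro d hd
    rw [hrep] at hd ⊢
    rw [hσ, c.arm_σ]
    have h5 := hpos d
    have h6 : Even (m (c.arm d)) := by
      have : ∀ s : Fin 3, Even (m s) := by
        intro s; fin_cases s
        · exact e0
        · exact e1
        · exact e2
      exact this _
    have h7 : 2 * pos d + 1 ≠ m (c.arm d) := by
      intro h7
      rw [← h7] at h6
      exact (Nat.not_even_iff_odd.2 ⟨pos d, rfl⟩) h6
    omega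
  · exfalso
    rw [Nat.even_iff] at hev e0 e1
    rw [Nat.odd_iff] at o2
    omega
  · exfalso
    rw [Nat.even_iff] at hev e0 e2
    rw [Nat.odd_iff] at o1
    omega
  · refine hodd 1 2 (by decide) o1 o2 ?_
    intro s; fin_cases s
    · intro _ _; exact e0
    · intro h _; exact absurd rfl h
    · intro _ h; exact absurd rfl h
  · exfalso
    rw [Nat.even_iff] at hev e1 e2
    rw [Nat.odd_iff] at o0
    omega
  · refine hodd 0 2 (by decide) o0 o2 ?_
    intro s; fin_cases s
    · intro h _; exact absurd rfl h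
    · intro _ _; exact e1
    · intro _ h; exact absurd rfl h
  · refine hodd 0 1 (by decide) o0 o1 ?_
    intro s; fin_cases s
    · intro h _; exact absurd rfl h
    · intro _ h; exact absurd rfl h
    · intro _ _; exact e2
  · exfalso
    rw [Nat.even_iff] at hev
    rw [Nat.odd_iff] at o0 o1 o2
    omega

/-- **existence of the standard data** -/
theorem exists_std (hn : 2 ≤ n) (a : Fin 3 → Fin n → ℤ)
    (ha : ∀ s, IsDominantIntegral n (a s)) (hr : InRootLattice n (a 0 + a 1 + a 2)) :
    ∃ (m : Fin 3 → ℕ) (c : Cfg n a) (h : Std c m) (q : SPol c), q.Neg h := by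
  obtain ⟨c, ⟨h⟩⟩ := exists_cfg' hn a ha (fun s => SpHW2.top hn (a s))
    (fun s => SpHW2.le_top hn (ha s)) (fun s => SpHW2.par_top hn (ha s))
  refine ⟨_, c, h, h.exists_spol ?_⟩
  obtain ⟨k, hk⟩ := hr.1 ⟨0, by omega⟩
  simp only [Pi.add_apply] at hk
  have e0 := SpHW2.top_coe hn (ha 0)
  have e1 := SpHW2.top_coe hn (ha 1)
  have e2 := SpHW2.top_coe hn (ha 2)
  have h3 : ((SpHW2.top hn (a 0) + SpHW2.top hn (a 1) + SpHW2.top hn (a 2) : ℕ) : ℤ) = k + k := by
    push_cast
    rw [e0, e1, e2, hk]
  rw [← Int.even_coe_nat]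
  exact ⟨k, h3⟩

end Crest.Agent.R172.CF
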