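import Crest.Agent.R172.SUX6

/-!
Row 172 (S0260), S-side: the class `QQ5` of `SUX6` with the clause of the third blocks
(`w * U_m = μ_m • F U_m`).
-/

set_option autoImplicit false
set_option linter.unusedSectionVars false
set_option linter.unusedFintypeInType false
set_option linter.unusedDecidableInType false

namespace Crest.Agent.R172.SQ6

open Matrix Module Crest.Agent.R172.FO Crest.Agent.R172.Qt Crest.Agent.R172.SpS
  Crest.Agent.R172.Om Crest.Agent.R172.SUX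

variable {ι : Type*} [Fintype ι] [DecidableEq ι] {δ : Type*} [Fintype δ] [DecidableEq δ]
variable {k K : Type*} [Field k] [Field K] [Algebra k K]
variable {arm : δ → Fin 3} {J : Matrix ι ι K} {B : Matrix δ δ K}
  {N W : Submodule K (Matrix ι δ K)} {H F f q : Matrix ι δ K}
variable {n1 n2 : Type*} [Fintype n1] [Fintype n2]
variable {P : Matrix ι ι K × (Fin 3 → Matrix ι ι K)} {S0 : Matrix δ δ K} {c1 c2 : K}
  {U1 : Matrix δ n1 K} {U2 : Matrix δ n2 K} {Y : Fin 3 → Matrix δ δ K} {d dY : Derivation k K K}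
  {Γ1 : Matrix n1 n1 K} {Γ2 : Matrix n2 n2 K} {β : Matrix n1 n2 K} {γ : Matrix n2 n1 K}
  {X : Fin 3 → Matrix n2 n1 K}
variable {α : Type*} {m3 : α → Type*} [∀ i, Fintype (m3 i)] {U3 : ∀ i, Matrix δ (m3 i) K}

/-- first level relations with values, modulo the scalars on the blocks, with third blocks -/
def QQ6 (J : Matrix ι ι K) (N W : Submodule K (Matrix ι δ K)) (F f : Matrix ι δ K)
    (dY : Derivation k K K) (S0 : Matrix δ δ K) (U1 : Matrix δ n1 K) (U2 : Matrix δ n2 K)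
    {α : Type*} {m3 : α → Type*} [∀ i, Fintype (m3 i)] (U3 : ∀ i, Matrix δ (m3 i) K) :
    Submodule K (E5 K ι δ n1 n2) where
  carrier := {z | ∃ w ∈ W, Fᵀ * J * w = 0 ∧ fᵀ * J * w = 0 ∧ z.1 - w ∈ N ∧
    (∃ μ : K, w * U1 = z.2.1.1 + μ • (F * U1)) ∧ (∃ μ : K, w * U2 = z.2.1.2 + μ • (F * U2)) ∧
    (∃ ν : K, U1ᵀ * (Fᵀ * J * w.map dY) = z.2.2.1 + ν • (U1ᵀ * S0)) ∧
    (∃ ν : K, U2ᵀ * (Fᵀ * J * w.map dY) = z.2.2.2 + ν • (U2ᵀ * S0)) ∧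
    ∀ i, ∃ μ : K, w * U3 i = μ • (F * U3 i)}
  add_mem' := by
    rintro a b ⟨w, hw, h1, h2, h3, ⟨m1, h4⟩, ⟨m2, h5⟩, ⟨m3, h6⟩, ⟨m4, h7⟩, h8⟩
      ⟨w', hw', h1', h2', h3', ⟨m1', h4'⟩, ⟨m2', h5'⟩, ⟨m3', h6'⟩, ⟨m4', h7'⟩, h8'⟩
    have hd : (w + w').map dY = w.map dY + w'.map dY := by
      ext i j; simp
    refine ⟨w + w', W.add_mem hw hw', by rw [Matrix.mul_add, h1, h1', add_zero],
      by rw [Matrix.mul_add, h2, h2', add_zero], ?_, ⟨m1 + m1', ?_⟩, ⟨m2 + m2', ?_⟩,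
      ⟨m3 + m3', ?_⟩, ⟨m4 + m4', ?_⟩, fun i => ?_⟩
    · have : (a + b).1 - (w + w') = (a.1 - w) + (b.1 - w') := by rw [Prod.fst_add]; abel
      rw [this]; exact N.add_mem h3 h3'
    · rw [Matrix.add_mul, h4, h4', add_smul]
      simp only [Prod.snd_add, Prod.fst_add]; abel
    · rw [Matrix.add_mul, h5, h5', add_smul]
      simp only [Prod.snd_add, Prod.fst_add]; abel
    · rw [hd, Matrix.mul_add, Matrix.mul_add, h6, h6', add_smul]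
      simp only [Prod.snd_add, Prod.fst_add]; abel
    · rw [hd, Matrix.mul_add, Matrix.mul_add, h7, h7', add_smul]
      simp only [Prod.snd_add]; abel
    · obtain ⟨μ, h9⟩ := h8 i
      obtain ⟨μ', h9'⟩ := h8' i
      exact ⟨μ + μ', by rw [Matrix.add_mul, h9, h9', add_smul]⟩
  zero_mem' := by
    have hd : (0 : Matrix ι δ K).map dY = 0 := map_zero_der' dY
    refine ⟨0, W.zero_mem, by simp, by simp, by simp, ⟨0, by simp⟩, ⟨0, by simp⟩, ⟨0, ?_⟩,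
      ⟨0, ?_⟩, fun i => ⟨0, by simp⟩⟩
    · rw [hd]; simp
    · rw [hd]; simp
  smul_mem' := by
    rintro c a ⟨w, hw, h1, h2, h3, ⟨m1, h4⟩, ⟨m2, h5⟩, ⟨m3, h6⟩, ⟨m4, h7⟩, h8⟩
    refine ⟨c • w, W.smul_mem c hw, by rw [Matrix.mul_smul, h1, smul_zero],
      by rw [Matrix.mul_smul, h2, smul_zero], ?_, ⟨c * m1, ?_⟩, ⟨c * m2, ?_⟩,
      ⟨c * m3, ?_⟩, ⟨c * m4, ?_⟩, fun i => ?_⟩
    · have : (c • a).1 - c • w = c • (a.1 - w) := by rw [Prod.smul_fst, smul_sub]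
      rw [this]; exact N.smul_mem c h3
    · rw [Matrix.smul_mul, h4, smul_add, smul_smul]; rfl
    · rw [Matrix.smul_mul, h5, smul_add, smul_smul]; rfl
    · rw [row_smul dY c h1, Matrix.mul_smul, h6, smul_add, smul_smul]; rfl
    · rw [row_smul dY c h1, Matrix.mul_smul, h7, smul_add, smul_smul]; rfl
    · obtain ⟨μ, h9⟩ := h8 i
      exact ⟨c * μ, by rw [Matrix.smul_mul, h9, smul_smul]⟩

theorem mem_QQ6 {z : E5 K ι δ n1 n2} : z ∈ QQ6 J N W F f dY S0 U1 U2 U3 ↔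
    ∃ w ∈ W, Fᵀ * J * w = 0 ∧ fᵀ * J * w = 0 ∧ z.1 - w ∈ N ∧
    (∃ μ : K, w * U1 = z.2.1.1 + μ • (F * U1)) ∧ (∃ μ : K, w * U2 = z.2.1.2 + μ • (F * U2)) ∧
    (∃ ν : K, U1ᵀ * (Fᵀ * J * w.map dY) = z.2.2.1 + ν • (U1ᵀ * S0)) ∧
    (∃ ν : K, U2ᵀ * (Fᵀ * J * w.map dY) = z.2.2.2 + ν • (U2ᵀ * S0)) ∧
    ∀ i, ∃ μ : K, w * U3 i = μ • (F * U3 i) := Iff.rfl

/-- the value of `wd q` on a third block -/
theorem third_wd {n : Type*} [Fintype n] {U : Matrix δ n K} {Γ : Matrix n n K} {c κ : K}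
    {X : Matrix ι ι K} (hd : H.map d = H * ZY arm J H X Y) (hc : c ≠ 0)
    (hH : H * U = c • (F * U)) (hq : q * U = κ • (F * U))
    (hNH : H * (U.map d + ZY arm J H X Y * U) = H * (U * Γ))
    (hNq : q * (U.map d + ZY arm J H X Y * U) = q * (U * Γ)) :
    wd arm J H X Y d q * U = (d κ - κ * (c⁻¹ * d c)) • (F * U) := by
  have e1 : wd arm J H X Y d q * U = (q * U).map d - q * (U.map d + ZY arm J H X Y * U) := by
    rw [map_mul_der]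
    unfold wd
    rw [Matrix.sub_mul, Matrix.mul_add, Matrix.mul_assoc]
    abel
  have e2 : (H * U).map d = H * (U.map d + ZY arm J H X Y * U) := by
    rw [map_mul_der, hd, Matrix.mul_add, Matrix.mul_assoc, add_comm]
  have e3 : (F * U).map d = F * U * Γ - (c⁻¹ * d c) • (F * U) := by
    have h1 := e2
    rw [hNH, hH, SUX.map_smul_der, ← Matrix.mul_assoc, hH, Matrix.smul_mul] at h1
    have h2 : c • (F * U).map d = c • (F * U * Γ) - d c • (F * U) := by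
      rw [← h1]; abel
    have h3 : (F * U).map d = c⁻¹ • (c • (F * U).map d) := by
      rw [smul_smul, inv_mul_cancel₀ hc, one_smul]
    rw [h3, h2, smul_sub, smul_smul, smul_smul, inv_mul_cancel₀ hc, one_smul]
  rw [e1, hNq, hq, SUX.map_smul_der, e3, ← Matrix.mul_assoc, hq, Matrix.smul_mul, smul_sub, smul_smul,
    sub_smul]
  abel

/-- **the first derivative of `k_1` at `ρ = c2 / c1` in `QQ6`.** -/
theorem first_mem6 (h : Ctx k arm J B N W H) (hP : P ∈ NN arm J N H)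
    (m : Mv k arm J N W H P.1 Y d) (hqm : q ∈ N ⊓ W) (hqp : Hᵀ * J * q = 0)
    (fr : Fr J F H P.1 S0 c1 c2 U1 U2) (hq : K1 J F H P.1 S0 c1 U1 U2 q)
    (hY : ∀ s, ∀ v ∈ W, v * Y s * Hᵀ = v * (U2 * X s * U1ᵀ + U1 * (X s)ᵀ * U2ᵀ) * Hᵀ)
    (hN2 : ∀ v ∈ W, v * (U2.map d + ZY arm J H P.1 Y * U2) = v * (U2 * Γ2 + c2 ^ 2 • (U1 * β)))
    (hN1 : ∀ v ∈ W, v * (U1.map d + ZY arm J H P.1 Y * U1) = v * (U1 * Γ1 + c1 ^ 2 • (U2 * γ)))
    (hN3 : ∀ i, ∃ Γ : Matrix (m3 i) (m3 i) K, ∀ v ∈ W,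
      v * ((U3 i).map d + ZY arm J H P.1 Y * U3 i) = v * (U3 i * Γ))
    (hH3 : ∀ i, ∃ c : K, c ≠ 0 ∧ H * U3 i = c • (F * U3 i))
    (hq3 : ∀ i, ∃ κ : K, q * U3 i = κ • (F * U3 i))
    (hwF : Fᵀ * J * wd arm J H P.1 Y d q = 0) (hwf : fᵀ * J * wd arm J H P.1 Y d q = 0)
    (hrow : Hᵀ * J * (P.1 * wd arm J H P.1 Y d q)
      = Hᵀ * J * (wd arm J H P.1 Y d q).map dY) :
    I1 arm F S0 U1 U2 (X, β, γ) + (c2 / c1) • I2 arm F S0 U1 U2 (X, β, γ)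
      ∈ QQ6 J N W F f dY S0 U1 U2 U3 := by
  have h3 : ∀ i, ∃ μ : K, wd arm J H P.1 Y d q * U3 i = μ • (F * U3 i) := by
    intro i
    obtain ⟨Γ, h1⟩ := hN3 i
    obtain ⟨c, hc, h2⟩ := hH3 i
    obtain ⟨κ, h4⟩ := hq3 i
    exact ⟨_, third_wd m.dH hc h2 h4 (h1 H h.mem.2) (h1 q hqm.2)⟩
  set w : Matrix ι δ K := wd arm J H P.1 Y d q with hw
  have hc1 := fr.hc1
  have hc2 := fr.hc2
  have e1 := first_blocks h hP m hqm hqp fr hq hY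
  have l1 := wd_U1 fr hq m.dH (hN1 H h.mem.2) (hN1 q hqm.2)
  have l2 := wd_U2 (P := P) (F := F) (S0 := S0) hq (hN2 q hqm.2)
  have v1 := row_wd1 h hP m hqm fr hq (hN1 H h.mem.2) (hN1 q hqm.2)
  have v2 := row_wd2 h hP m hqm fr hq (hN2 q hqm.2)
  rw [← hw] at e1 l1 l2 v1 v2
  rw [row_of_Y fr.H1 hrow] at v1
  rw [row_of_Y fr.H2 hrow] at v2
  refine ⟨(c1 * c2)⁻¹ • w, W.smul_mem _ (m.w_mem hqm.2), by rw [Matrix.mul_smul, hwF, smul_zero],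
    by rw [Matrix.mul_smul, hwf, smul_zero], ?_, ⟨-((c1 * c2)⁻¹ * (d c1 / c1)), ?_⟩, ⟨0, ?_⟩,
    ⟨-((c1 * c2)⁻¹ * (c1⁻¹ * d c1)), ?_⟩, ⟨0, ?_⟩, fun i => ?_⟩
  · have h2 := N.smul_mem (-(c1 * c2)⁻¹) e1
    have h3 : (I1 arm F S0 U1 U2 (X, β, γ) + (c2 / c1) • I2 arm F S0 U1 U2 (X, β, γ)).1 -
        (c1 * c2)⁻¹ • w = -(c1 * c2)⁻¹ • (∑ s, (c2 ^ 2 • (F * (U1 * (X s)ᵀ * U2ᵀ)) -
          (c1 * c2) • (F * (U2 * X s * U1ᵀ))) * S0 * E K arm s + w) := by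
      have a1 : (I1 arm F S0 U1 U2 (X, β, γ) + (c2 / c1) • I2 arm F S0 U1 U2 (X, β, γ)).1
          = ∑ s, F * (U2 * X s * U1ᵀ * S0) * E K arm s +
            (c2 / c1) • (-∑ s, F * (U1 * (X s)ᵀ * U2ᵀ * S0) * E K arm s) := rfl
      rw [a1, smul_add, smul_neg, Finset.smul_sum, Finset.smul_sum, neg_smul, sub_eq_add_neg,
        ← Finset.sum_neg_distrib, ← Finset.sum_add_distrib]
      congr 1
      refine Finset.sum_congr rfl fun s _ => ?_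
      rw [Matrix.sub_mul, Matrix.sub_mul, smul_sub]
      simp only [Matrix.smul_mul, smul_smul, neg_mul]
      rw [inv_mul_cancel₀ (mul_ne_zero hc1 hc2), neg_smul, neg_smul, one_smul]
      have a2 : (c1 * c2)⁻¹ * c2 ^ 2 = c2 / c1 := by field_simp
      rw [a2]
      simp only [Matrix.mul_assoc]
      abel
    rw [h3]
    exact h2
  · have a1 : (I1 arm F S0 U1 U2 (X, β, γ) + (c2 / c1) • I2 arm F S0 U1 U2 (X, β, γ)).2.1.1
        = F * (U2 * γ) + (c2 / c1) • (0 : Matrix ι n1 K) := rfl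
    rw [a1, Matrix.smul_mul, l1, smul_sub, smul_smul, smul_smul,
      inv_mul_cancel₀ (mul_ne_zero hc1 hc2), one_smul, smul_zero, add_zero, neg_smul,
      Matrix.mul_assoc, sub_eq_add_neg]
  · have a1 : (I1 arm F S0 U1 U2 (X, β, γ) + (c2 / c1) • I2 arm F S0 U1 U2 (X, β, γ)).2.1.2
        = 0 + (c2 / c1) • (-(F * (U1 * β))) := rfl
    have a2 : (c1 * c2)⁻¹ * c2 ^ 2 = c2 / c1 := by field_simp
    rw [a1, Matrix.smul_mul, l2, smul_neg, smul_smul, a2, zero_smul, add_zero, zero_add, smul_neg,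
      Matrix.mul_assoc]
  · have a1 : (I1 arm F S0 U1 U2 (X, β, γ) + (c2 / c1) • I2 arm F S0 U1 U2 (X, β, γ)).2.2.1
        = 0 + (c2 / c1) • (γᵀ * (U2ᵀ * S0)) := rfl
    have a2 : U1ᵀ * (Fᵀ * J * w.map dY) = c1⁻¹ • ((c1 * c2 ^ 2) • (γᵀ * (U2ᵀ * S0))
        - d c1 • (U1ᵀ * S0)) := by
      rw [← v1, smul_smul, inv_mul_cancel₀ hc1, one_smul]
    rw [a1, row_smul dY _ hwF, Matrix.mul_smul, a2, zero_add, smul_sub, smul_sub, smul_smul,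
      smul_smul, smul_smul, smul_smul, neg_smul, sub_eq_add_neg]
    congr 2
    · field_simp
    · congr 1
      ring
  · have a1 : (I1 arm F S0 U1 U2 (X, β, γ) + (c2 / c1) • I2 arm F S0 U1 U2 (X, β, γ)).2.2.2
        = -(βᵀ * (U1ᵀ * S0)) + (c2 / c1) • (0 : Matrix n2 δ K) := rfl
    have a2 : U2ᵀ * (Fᵀ * J * w.map dY) = c2⁻¹ • (-((c1 * c2 ^ 2) • (βᵀ * (U1ᵀ * S0)))) := by
      rw [← v2, smul_smul, inv_mul_cancel₀ hc2, one_smul]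
    rw [a1, row_smul dY _ hwF, Matrix.mul_smul, a2, smul_zero, add_zero, zero_smul, add_zero,
      smul_neg, smul_neg, smul_smul, smul_smul]
    have a3 : (c1 * c2)⁻¹ * c2⁻¹ * (c1 * c2 ^ 2) = 1 := by field_simp
    rw [a3, one_smul]
  · obtain ⟨μ, h4⟩ := h3 i
    exact ⟨(c1 * c2)⁻¹ * μ, by rw [Matrix.smul_mul, h4, smul_smul]⟩

/-- **parity separation of the first level, with all values and third blocks.** -/
theorem first_sep6 {Yt G : Type*} [AddCommGroup Yt] [Module K Yt] [FiniteDimensional K Yt]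
    [AddCommGroup G] [Module K G] (al be : Yt →ₗ[K] G) (D : Yt →ₗ[K] D3 K n1 n2) {R : Set K}
    (hR : R.Infinite)
    (hrel : ∀ ρ ∈ R, ∀ y, al y = ρ ^ 2 • be y →
      I1 arm F S0 U1 U2 (D y) + ρ • I2 arm F S0 U1 U2 (D y) ∈ QQ6 J N W F f dY S0 U1 U2 U3) :
    ∃ S : Set K, S.Finite ∧ ∀ c ∉ S, ∀ y, al y = c • be y →
      I1 arm F S0 U1 U2 (D y) ∈ QQ6 J N W F f dY S0 U1 U2 U3 ∧
        I2 arm F S0 U1 U2 (D y) ∈ QQ6 J N W F f dY S0 U1 U2 U3 := by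
  obtain ⟨S, hS, h⟩ := RJP.par_sep (T := Unit) al be (QQ6 J N W F f dY S0 U1 U2 U3)
    (fun _ => I1 arm F S0 U1 U2 ∘ₗ D) (fun _ => I2 arm F S0 U1 U2 ∘ₗ D) hR
    (fun r hr y hy _ => hrel r hr y hy)
  exact ⟨S, hS, fun c hc y hy => h c hc y hy ()⟩

/-- the hypotheses `hn, L1, L2, V1, V2` of `second_blocks` from the even part, and the values on
the third blocks. -/
theorem even_data6 (hm : I1 arm F S0 U1 U2 (X, β, γ) ∈ QQ6 J N W F f dY S0 U1 U2 U3) :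
    ∃ w ∈ W, Fᵀ * J * w = 0 ∧ fᵀ * J * w = 0 ∧
      ∑ s, F * (U2 * X s * U1ᵀ * S0) * E K arm s - w ∈ N ∧
      ∃ μ1 μ2 ν1 ν2 : K, w * U1 = μ1 • (F * U1) + F * (U2 * γ) ∧ w * U2 = μ2 • (F * U2) ∧
        U1ᵀ * (Fᵀ * J * w.map dY) = ν1 • (U1ᵀ * S0) ∧
        U2ᵀ * (Fᵀ * J * w.map dY) = ν2 • (U2ᵀ * S0) - βᵀ * (U1ᵀ * S0) ∧
        ∀ i, ∃ μ : K, w * U3 i = μ • (F * U3 i) := by
  obtain ⟨w, hw, h1, h2, h3, ⟨m1, h4⟩, ⟨m2, h5⟩, ⟨m3, h6⟩, ⟨m4, h7⟩, h8⟩ := hm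
  refine ⟨w, hw, h1, h2, h3, m1, m2, m3, m4, ?_, ?_, ?_, ?_, h8⟩
  · rw [h4, add_comm]; rfl
  · rw [h5]; change 0 + _ = _; rw [zero_add]
  · rw [h6]; change 0 + _ = _; rw [zero_add]
  · rw [h7]; change -(βᵀ * (U1ᵀ * S0)) + _ = _; rw [add_comm, ← sub_eq_add_neg]

end Crest.Agent.R172.SQ6
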