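import Crest.Agent.R172.SLev0


/-!
Row 172 (S0260), tame node (t2): the class `QW` of `GoodSW` in `Matrix ι δ K`
(`x ∈ GoodSW s ↔ x * (J P) * g * E_s ∈ QW`), so that the first level in the form `STop.Lev1` can be
used inside the second one; `SLev0.QG ≤ QW`.
-/

set_option autoImplicit false
set_option linter.unusedSectionVars false

namespace Crest.Agent.R172.SQW342

open Matrix Module Crest.Agent.R172.FO Crest.Agent.R172.Qt Crest.Agent.R172.SpS
open Crest.Agent.R172.SEnd Crest.Agent.R172.SEnd2 Crest.Agent.R172.SEnd3 Crest.Agent.R172.SBlk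
open Crest.Agent.R172.SEnd4 Crest.Agent.R172.SEndW Crest.Agent.R172.SEnd5 Crest.Agent.R172.SCM
open Crest.Agent.R172.SC (PB)
open Crest.Agent.R172.PL (Wk Ainf Rad CoreM coreOp resOp)
open scoped TensorProduct

variable {ι : Type*} [Fintype ι] [DecidableEq ι] {δ : Type*} [Fintype δ] [DecidableEq δ]
variable {k K : Type*} [Field k] [Field K] [Algebra k K]
variable {arm : δ → Fin 3} {J : Matrix ι ι K} {B : Matrix δ δ K}
  {N W : Submodule K (Matrix ι δ K)} {g f : Matrix ι δ K} {R : Matrix δ ι K}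
  {p : Matrix ι ι K × (Fin 3 → Matrix ι ι K)} {S : Finset K}
  {q : K → Matrix ι ι K × (Fin 3 → Matrix ι ι K)}

/-- **the class of `GoodSW`** in `Matrix ι δ K` -/
def QW (arm : δ → Fin 3) (J : Matrix ι ι K) (B : Matrix δ δ K) (N W : Submodule K (Matrix ι δ K))
    (g : Matrix ι δ K) (p : Matrix ι ι K × (Fin 3 → Matrix ι ι K)) (P : Submodule K (ι → K)) :
    Submodule K (Matrix ι δ K) where
  carrier := {m | ∃ w ∈ W, m - w ∈ N ∧
        (∀ a ∈ P, ∀ v, a ⬝ᵥ ((J * w) *ᵥ v) = 0) ∧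
        ∃ ζ ∈ NN arm J N g, pair J B (Pg arm g p) (act arm ζ.2 g) = 0 ∧
          ∀ a ∈ P, ∀ c ∈ P, ∀ r,
            a ⬝ᵥ ((J * p.1 * w) *ᵥ ((E K arm r * B * gᵀ * (J * p.1)) *ᵥ c)) =
              a ⬝ᵥ ((J * ζ.1) *ᵥ ((M arm B r g g * (J * p.1)) *ᵥ c))}
  zero_mem' := ⟨0, W.zero_mem, by simp, fun a _ v => by simp, 0, (NN arm J N g).zero_mem, by
      rw [show act arm (0 : Matrix ι ι K × (Fin 3 → Matrix ι ι K)).2 g = 0 from act_zero arm g]
      simp [pair], fun a _ c _ r => by simp⟩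
  add_mem' := by
    rintro x y ⟨w, h1, h2, h3, ζ, h4, h5, h6⟩ ⟨w', h1', h2', h3', ζ', h4', h5', h6'⟩
    refine ⟨w + w', W.add_mem h1 h1', ?_, fun a ha v => ?_, ζ + ζ',
      (NN arm J N g).add_mem h4 h4', ?_, fun a ha u hu r => ?_⟩
    · rw [show x + y - (w + w') = (x - w) + (y - w') by abel]
      exact N.add_mem h2 h2'
    · rw [Matrix.mul_add, add_mulVec, dotProduct_add, h3 a ha, h3' a ha, add_zero]
    · rw [show act arm (ζ + ζ').2 g = act arm ζ.2 g + act arm ζ'.2 g from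
        act_add_left arm ζ.2 ζ'.2 g, pair_add_right, h5, h5', add_zero]
    · rw [show (ζ + ζ').1 = ζ.1 + ζ'.1 from rfl, Matrix.mul_add, Matrix.mul_add, add_mulVec,
        add_mulVec, dotProduct_add, dotProduct_add, h6 a ha u hu r, h6' a ha u hu r]
  smul_mem' := by
    rintro t x ⟨w, h1, h2, h3, ζ, h4, h5, h6⟩
    refine ⟨t • w, W.smul_mem t h1, ?_, fun a ha v => ?_, t • ζ,
      (NN arm J N g).smul_mem t h4, ?_, fun a ha u hu r => ?_⟩
    · rw [← smul_sub]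
      exact N.smul_mem t h2
    · rw [Matrix.mul_smul, smul_mulVec, dotProduct_smul, h3 a ha, smul_zero]
    · rw [show act arm (t • ζ).2 g = t • act arm ζ.2 g from act_smul_left arm t ζ.2 g,
        pair_smul_right, h5, mul_zero]
    · rw [show (t • ζ).1 = t • ζ.1 from rfl, Matrix.mul_smul, Matrix.mul_smul, smul_mulVec,
        smul_mulVec, dotProduct_smul, dotProduct_smul, h6 a ha u hu r]

/-- **`GoodSW` is the preimage of `QW`** -/
theorem mem_iff {P : Submodule K (ι → K)} {s : Fin 3} {x : Matrix ι ι K} :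
    x * (J * p.1) * g * E K arm s ∈ QW arm J B N W g p P ↔ x ∈ GoodSW arm J B N W g p P s := Iff.rfl

/-- **the good class `QG` is contained in `QW`** -/
theorem QG_le (h : Ctx k arm J B N W g) (h2 : (2 : K) ≠ 0) (hR : g * R * g = g)
    (hp : p ∈ NN arm J N g) (hf : f ∈ N ⊓ W) (hq : Spec arm J N g f p.1 S q)
    {D : End K (CoreM (Ph arm J B g R p.1))}
    (hD : IsD (Ph arm J B g R p.1) (Nh arm J B g f R p.1) D)
    {α : Type*} {nu : α → K} {P : Submodule K (ι → K)} (hPg : ∀ a ∈ P, ∃ u, g *ᵥ u = a)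
    {Pb : α → Submodule K (ι → K)} (hP : P = ⨆ i, Pb i)
    (hPb : ∀ i, Pb i ≤ (PB (Ph arm J B g R p.1) D (nu i)).map (Sg g).subtype)
    (hst : ∀ i r, ∀ c ∈ Pb i, (M arm B r g g * (J * p.1)) *ᵥ c ∈ Pb i) :
    SLev0.QG arm J B N W g p P Pb nu ≤ QW arm J B N W g p P := by
  rintro m ⟨w, hw, hN, hwP, μ, hV'⟩
  have hV : ∀ i, ∀ c ∈ Pb i, ∀ r, ∀ a ∈ P,
      a ⬝ᵥ ((J * p.1 * w) *ᵥ ((E K arm r * B * gᵀ * (J * p.1)) *ᵥ c)) =
        μ (nu i) * (a ⬝ᵥ ((J * p.1) *ᵥ ((M arm B r g g * (J * p.1)) *ᵥ c))) := by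
    intro i c hc r a ha
    obtain ⟨rr, hrr, hwv⟩ := hV' i c hc r
    rw [← mulVec_mulVec, hwv, mulVec_add, dotProduct_add, hrr a ha, add_zero, mulVec_smul,
      dotProduct_smul, smul_eq_mul]
  refine ⟨w, hw, hN, hwP, ∑ c ∈ S, μ c • q c,
    Submodule.sum_mem _ fun c _ => (NN arm J N g).smul_mem _ (hq.mem c), ?_, ?_⟩
  · rw [act_sum_NN, pair_sum_right']
    refine Finset.sum_eq_zero fun c _ => ?_
    rw [show act arm (μ c • q c).2 g = μ c • act arm (q c).2 g from act_smul_left arm _ _ _,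
      pair_smul_right, theta_spec h h2 hp hf hq, mul_zero]
  · have hfst : (∑ c ∈ S, μ c • q c).1 = ∑ c ∈ S, μ c • (q c).1 := Prod.fst_sum
    intro a ha c hc r
    obtain ⟨u', rfl⟩ := hPg a ha
    rw [hP] at hc
    induction hc using Submodule.iSup_induction' with
    | mem i c hc =>
      rw [hV i c hc r _ ha]
      obtain ⟨v, hv⟩ : ∃ v, v = (M arm B r g g * (J * p.1)) *ᵥ c := ⟨_, rfl⟩
      have hvb : v ∈ (PB (Ph arm J B g R p.1) D (nu i)).map (Sg g).subtype :=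
        hPb i (by rw [hv]; exact hst i r c hc)
      have hvg : ∃ z, g *ᵥ z = v := by
        obtain ⟨v', -, rfl⟩ := hvb
        obtain ⟨z, hz⟩ := gS_surj g v'
        exact ⟨z, by rw [← hz]; exact (gS_coe g z).symm⟩
      rw [← hv, hfst, Matrix.mul_sum, sum_mulVec, dotProduct_sum]
      obtain ⟨z, hz⟩ := hvg
      have h5 : (g *ᵥ u') ⬝ᵥ ((J * p.1) *ᵥ v) =
          ∑ c ∈ S, (g *ᵥ u') ⬝ᵥ ((J * (q c).1) *ᵥ v) := by
        rw [← hz]; exact spec_sum hq u' z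
      rw [h5, Finset.mul_sum]
      refine Finset.sum_congr rfl fun c _ => ?_
      rw [Matrix.mul_smul, smul_mulVec, dotProduct_smul, smul_eq_mul]
      by_cases hc : c = nu i
      · rw [hc]
      · rw [spec_block' h hR hf hq hD hc hvb u', mul_zero, mul_zero]
    | zero => simp only [mulVec_zero, dotProduct_zero]
    | add b c _ _ h1 h2 =>
      rw [mulVec_add, mulVec_add, dotProduct_add, h1, h2, mulVec_add, mulVec_add, dotProduct_add]

section pkg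

variable {D : End K (CoreM (PhS arm J B g R p.1))} {ν ν' : K} {l : Fin 3 → ℕ}
  {n n' : ℕ} {Q : Matrix ι (Fin n) K} {Q' : Matrix ι (Fin n') K}
  {A : Fin 3 → Matrix (Fin n) (Fin n) K} {A' : Fin 3 → Matrix (Fin n') (Fin n') K}

/-- **the first level of `STop` gives `SLev0.Gens` in `QW`** -/
theorem gens_of_top (b : BPkg arm J B g R p.1 D ν l Q A) (b' : BPkg arm J B g R p.1 D ν' l Q' A')
    {P : Submodule K (ι → K)}
    (hG : ∀ s, (∀ i j, i + j + 1 = l s → ∀ x y, vecMulVec (Q *ᵥ ((A s ^ i) *ᵥ x))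
      (Q' *ᵥ ((A' s ^ j) *ᵥ y)) ∈ GoodSW arm J B N W g p P s) ∧
    (∀ x y, (Qᵀ * (J * p.1) * Q) *ᵥ x = 0 →
      vecMulVec (Q *ᵥ x) (Q' *ᵥ y) ∈ GoodSW arm J B N W g p P s) ∧
    (∀ x y, (Q'ᵀ * (J * p.1) * Q') *ᵥ y = 0 →
      vecMulVec (Q *ᵥ x) (Q' *ᵥ y) ∈ GoodSW arm J B N W g p P s)) :
    SLev0.Gens arm J B g p.1 l (QW arm J B N W g p P) (SLev0.PbK arm J B g R p.1 D ν)
      (SLev0.PbK arm J B g R p.1 D ν') := by
  refine ⟨fun s i j hij a ha c hc => ?_, fun s r hr c hc => ?_, fun s a ha r hr => ?_⟩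
  · obtain ⟨x, rfl⟩ := SLev0.exists_coord b ha
    obtain ⟨y, rfl⟩ := SLev0.exists_coord b' hc
    rw [SLev0.pow_act b, SLev0.pow_act b']
    exact mem_iff.2 ((hG s).1 i j hij x y)
  · obtain ⟨x, hx, rfl⟩ := SLev0.exists_coord_Rd b hr
    obtain ⟨y, rfl⟩ := SLev0.exists_coord b' hc
    exact mem_iff.2 ((hG s).2.1 x y (by rwa [LinearMap.mem_ker, mulVecLin_apply] at hx))
  · obtain ⟨x, rfl⟩ := SLev0.exists_coord b ha
    obtain ⟨y, hy, rfl⟩ := SLev0.exists_coord_Rd b' hr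
    exact mem_iff.2 ((hG s).2.2 x y (by rwa [LinearMap.mem_ker, mulVecLin_apply] at hy))

/-- the form on the block detects the radical -/
theorem rd_of_form (b : BPkg arm J B g R p.1 D ν l Q A) {x : Fin n → K}
    (hx : (Qᵀ * (J * p.1) * Q) *ᵥ x = 0) :
    Q *ᵥ x ∈ Rd (J * p.1) (SLev0.PbK arm J B g R p.1 D ν) := by
  refine ⟨SLev0.coord_mem b x, fun a ha => ?_⟩
  obtain ⟨z, rfl⟩ := SLev0.exists_coord b ha
  rw [form_gg, hx, dotProduct_zero]

/-- **`SLev0.Gens` in `QW` gives the form of `STop`** -/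
theorem top_of_gens (b : BPkg arm J B g R p.1 D ν l Q A) (b' : BPkg arm J B g R p.1 D ν' l Q' A')
    {P : Submodule K (ι → K)}
    (hG : SLev0.Gens arm J B g p.1 l (QW arm J B N W g p P) (SLev0.PbK arm J B g R p.1 D ν)
      (SLev0.PbK arm J B g R p.1 D ν')) :
    ∀ s, (∀ i j, i + j + 1 = l s → ∀ x y, vecMulVec (Q *ᵥ ((A s ^ i) *ᵥ x))
      (Q' *ᵥ ((A' s ^ j) *ᵥ y)) ∈ GoodSW arm J B N W g p P s) ∧
    (∀ x y, (Qᵀ * (J * p.1) * Q) *ᵥ x = 0 →
      vecMulVec (Q *ᵥ x) (Q' *ᵥ y) ∈ GoodSW arm J B N W g p P s) ∧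
    (∀ x y, (Q'ᵀ * (J * p.1) * Q') *ᵥ y = 0 →
      vecMulVec (Q *ᵥ x) (Q' *ᵥ y) ∈ GoodSW arm J B N W g p P s) := by
  intro s
  refine ⟨fun i j hij x y => ?_, fun x y hx => ?_, fun x y hy => ?_⟩
  · have h1 := hG.g1 s i j hij _ (SLev0.coord_mem b x) _ (SLev0.coord_mem b' y)
    rw [SLev0.pow_act b, SLev0.pow_act b'] at h1
    exact mem_iff.1 h1
  · exact mem_iff.1 (hG.g2 s _ (rd_of_form b hx) _ (SLev0.coord_mem b' y))
  · exact mem_iff.1 (hG.g3 s _ (SLev0.coord_mem b x) _ (rd_of_form b' hy))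

end pkg

end Crest.Agent.R172.SQW342
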