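import Crest.Agent.R172.SLev0
import Crest.Agent.R172.UFr
import Crest.Agent.R172.SULift
import Crest.Agent.R172.PTy

/-!
Row 172 (S0260), S-side (t2), level 1: the relation of `SLev0.lev1` in the coordinates of the
block packages, from `SGl1.first_pair` and `SULift.exists_lift`.
-/

set_option autoImplicit false
set_option linter.unusedSectionVars false
set_option linter.unusedFintypeInType false
set_option linter.unusedDecidableInType false

namespace Crest.Agent.R172.SRel141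

open Matrix Module TensorProduct Crest.Agent.R172.FO Crest.Agent.R172.Qt Crest.Agent.R172.SpS
open Crest.Agent.R172.SEnd Crest.Agent.R172.SEnd2 Crest.Agent.R172.SBlk Crest.Agent.R172.SCM
open Crest.Agent.R172.SLev0
open Crest.Agent.R172.UBlk (Qb)
open Crest.Agent.R172.SC (PB)
open Crest.Agent.R172.PL (CoreM)
open Crest.Agent.R172.SUX (th ZY Mv wd)

variable {ι : Type*} [Fintype ι] [DecidableEq ι] {δ : Type*} [Fintype δ] [DecidableEq δ]
variable {k K : Type*} [Field k] [Field K] [Algebra k K]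
variable {arm : δ → Fin 3} {J : Matrix ι ι K} {B : Matrix δ δ K}
  {N W : Submodule K (Matrix ι δ K)} {g f : Matrix ι δ K}
  {p : Matrix ι ι K × (Fin 3 → Matrix ι ι K)}

/-- the form of `p` on `K^δ` -/
abbrev S0 (J : Matrix ι ι K) (g : Matrix ι δ K) (p0 : Matrix ι ι K) : Matrix δ δ K :=
  gᵀ * J * (p0 * g)

section coord

variable (h : Ctx k arm J B N W g) {R : Matrix δ ι K} (hR : g * R * g = g)
  {D : End K (CoreM (Ph arm J B g R p.1))}
  (hD : IsD (Ph arm J B g R p.1) (Nh arm J B g f R p.1) D)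
  [IsAlgClosed K]
  {l : Fin 3 → ℕ}

include hD

omit [IsAlgClosed K] in
theorem st (ν : K) : ∀ r, ∀ u ∈ Qb h.data hR p.1 D ν,
    SGl1.om arm B (S0 J g p.1) r *ᵥ u ∈ Qb h.data hR p.1 D ν :=
  fun r _ hu => UBlk.Qb_stable h hR hD r hu

omit [IsAlgClosed K] in
theorem perf (ν : K) : ∀ u ∈ Qb h.data hR p.1 D ν, ∃ c : Fin 3 → (δ → K),
    (∀ r, c r ∈ Qb h.data hR p.1 D ν) ∧
      ∑ r, SGl1.om arm B (S0 J g p.1) r *ᵥ (c r) = u :=
  fun _ hu => UBlk.Qb_exists h hR hD hu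

omit hD [IsAlgClosed K] in
include h in
theorem g_om (r : Fin 3) (u : δ → K) : g *ᵥ (SGl1.om arm B (S0 J g p.1) r *ᵥ u) =
    (M arm B r g g * (J * p.1)) *ᵥ (g *ᵥ u) := by
  rw [mulVec_mulVec, mulVec_mulVec]
  congr 1
  unfold SGl1.om M
  rw [← h.data.B_arm]
  simp only [Matrix.mul_assoc]

/-- **coordinates on the U-level block** -/
theorem exists_pi {ν : K} {n : ℕ} {P : Matrix ι (Fin n) K}
    {A : Fin 3 → Matrix (Fin n) (Fin n) K} (b : BPkg arm J B g R p.1 D ν l P A) :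
    ∃ π : Qb h.data hR p.1 D ν →ₗ[K] (Fin n → K),
      (∀ u, P *ᵥ (π u) = g *ᵥ (u : δ → K)) ∧ Function.Surjective π ∧
      (∀ r u, π (SGl1.rs (SGl1.om arm B (S0 J g p.1) r) (Qb h.data hR p.1 D ν)
        (st h hR hD ν r) u) = (A r).mulVecLin (π u)) ∧
      (∀ r u, π u = 0 → SGl1.om arm B (S0 J g p.1) r *ᵥ (u : δ → K) = 0) := by
  obtain ⟨L, hL⟩ := LinearMap.exists_leftInverse_of_injective P.mulVecLin
    (LinearMap.ker_eq_bot'.2 fun x hx => b.inj x hx)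
  have hLP : ∀ x, L (P *ᵥ x) = x := fun x => LinearMap.congr_fun hL x
  have hg : ∀ u : Qb h.data hR p.1 D ν, ∃ x, g *ᵥ (u : δ → K) = P *ᵥ x := by
    intro u
    have h1 : gS g (u : δ → K) ∈ PB (Ph arm J B g R p.1) D ν := by
      rw [← UBlk.Qb_map h hR hD ν]; exact ⟨u, u.2, rfl⟩
    obtain ⟨x, hx⟩ := b.span _ h1
    exact ⟨x, hx⟩
  let π : Qb h.data hR p.1 D ν →ₗ[K] (Fin n → K) :=
    L ∘ₗ g.mulVecLin ∘ₗ (Qb h.data hR p.1 D ν).subtype
  have hπ : ∀ u, π u = L (g *ᵥ (u : δ → K)) := fun u => rfl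
  have hP : ∀ u, P *ᵥ (π u) = g *ᵥ (u : δ → K) := by
    intro u
    obtain ⟨x, hx⟩ := hg u
    rw [hπ, hx, hLP]
  have hinj : ∀ x y, P *ᵥ x = P *ᵥ y → x = y := fun x y hxy => by
    rw [← hLP x, hxy, hLP]
  refine ⟨π, hP, fun x => ?_, fun r u => ?_, fun r u hu => ?_⟩
  · obtain ⟨v, hv, hvx⟩ := b.mem x
    change v ∈ PB (Ph arm J B g R p.1) D ν at hv
    rw [← UBlk.Qb_map h hR hD ν] at hv
    obtain ⟨u, hu, rfl⟩ := hv
    refine ⟨⟨u, hu⟩, hinj _ _ ?_⟩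
    rw [hP, ← hvx]
    rfl
  · apply hinj
    rw [hP, SGl1.rs_coe, g_om h, mulVecLin_apply, ← hP, mulVec_mulVec, b.act, ← mulVec_mulVec]
  · have h1 : g *ᵥ (u : δ → K) = 0 := by rw [← hP, hu, mulVec_zero]
    have h2 : SGl1.om arm B (S0 J g p.1) r = (B * E K arm r * (gᵀ * J * p.1)) * g := by
      unfold SGl1.om; simp only [Matrix.mul_assoc]
    rw [h2, ← mulVec_mulVec, h1, mulVec_zero]

variable (hNil : NilW arm J B N g) (hp : p ∈ NN arm J N g) (hf : f ∈ N ⊓ W)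

include hNil hp hf

/-- the radical vectors are perpendicular to all blocks -/
theorem rad_form {ν μ : K} {n : ℕ} {P : Matrix ι (Fin n) K}
    {A : Fin 3 → Matrix (Fin n) (Fin n) K} (b : BPkg arm J B g R p.1 D ν l P A)
    {u v : δ → K} (hu : u ∈ Qb h.data hR p.1 D μ) (hv : v ∈ Qb h.data hR p.1 D ν)
    {x : Fin n → K} (hx : g *ᵥ v = P *ᵥ x) (hx0 : (Pᵀ * (J * p.1) * P) *ᵥ x = 0) :
    u ⬝ᵥ (S0 J g p.1 *ᵥ v) = 0 := by
  by_cases hμ : μ = ν
  · subst hμ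
    have h1 : gS g u ∈ PB (Ph arm J B g R p.1) D μ := by
      rw [← UBlk.Qb_map h hR hD μ]; exact ⟨u, hu, rfl⟩
    obtain ⟨z, hz⟩ := b.span _ h1
    have hz' : g *ᵥ u = P *ᵥ z := hz
    have e1 : S0 J g p.1 = gᵀ * (J * p.1) * g := by
      unfold S0; simp only [Matrix.mul_assoc]
    have e2 : u ⬝ᵥ ((gᵀ * (J * p.1) * g) *ᵥ v) = (g *ᵥ u) ⬝ᵥ ((J * p.1) *ᵥ (g *ᵥ v)) := by
      rw [← mulVec_mulVec, ← mulVec_mulVec, dotProduct_mulVec u gᵀ, vecMul_transpose]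
    have e3 : z ⬝ᵥ ((Pᵀ * (J * p.1) * P) *ᵥ x) = (P *ᵥ z) ⬝ᵥ ((J * p.1) *ᵥ (P *ᵥ x)) := by
      rw [← mulVec_mulVec, ← mulVec_mulVec, dotProduct_mulVec z Pᵀ, vecMul_transpose]
    rw [e1, e2, hz', hx, ← e3, hx0, dotProduct_zero]
  · exact UBlk.Qb_orth h hR hD hNil hp hf hμ hu hv

/-- **the arm-wise defects are radical** -/
theorem ten_rad {ν ν' μ μ' : K} {n n' : ℕ} {P : Matrix ι (Fin n) K}
    {A : Fin 3 → Matrix (Fin n) (Fin n) K} (b : BPkg arm J B g R p.1 D ν l P A)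
    {P' : Matrix ι (Fin n') K} {A' : Fin 3 → Matrix (Fin n') (Fin n') K}
    (b' : BPkg arm J B g R p.1 D ν' l P' A')
    {π1 : Qb h.data hR p.1 D ν →ₗ[K] (Fin n → K)}
    {π2 : Qb h.data hR p.1 D ν' →ₗ[K] (Fin n' → K)}
    (q1 : ∀ u, P *ᵥ (π1 u) = g *ᵥ (u : δ → K)) (q2 : ∀ u, P' *ᵥ (π2 u) = g *ᵥ (u : δ → K))
    (s1 : Function.Surjective π1) (s2 : Function.Surjective π2)
    {z : Qb h.data hR p.1 D ν' ⊗[K] Qb h.data hR p.1 D ν}
    (hz : TensorProduct.map π2 π1 z ∈ Dual.Rad (LinearMap.ker (Pᵀ * (J * p.1) * P).mulVecLin)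
      (LinearMap.ker (P'ᵀ * (J * p.1) * P').mulVecLin)) {u v : δ → K}
    (hu : u ∈ Qb h.data hR p.1 D μ) (hv : v ∈ Qb h.data hR p.1 D μ') :
    u ⬝ᵥ ((S0 J g p.1 * SGl1.ten _ _ z * S0 J g p.1) *ᵥ v) = 0 := by
  have e1 : S0 J g p.1 = gᵀ * (J * p.1) * g := by
    unfold S0; simp only [Matrix.mul_assoc]
  have hsk : ∀ a c : δ → K, a ⬝ᵥ (S0 J g p.1 *ᵥ c) = -(c ⬝ᵥ (S0 J g p.1 *ᵥ a)) := by
    intro a c
    have h1 : (S0 J g p.1)ᵀ = -(S0 J g p.1) := UBlk.form_skew h.data.J_symm hp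
    rw [dotProduct_mulVec, ← mulVec_transpose, h1, neg_mulVec, neg_dotProduct, dotProduct_comm]
  let f2 : (Fin n' → K) →ₗ[K] K :=
    { toFun := fun x => u ⬝ᵥ ((gᵀ * (J * p.1)) *ᵥ (P' *ᵥ x))
      map_add' := fun x y => by rw [mulVec_add, mulVec_add, dotProduct_add]
      map_smul' := fun c x => by
        rw [mulVec_smul, mulVec_smul, dotProduct_smul]; rfl }
  let f1 : (Fin n → K) →ₗ[K] K :=
    { toFun := fun x => -(v ⬝ᵥ ((gᵀ * (J * p.1)) *ᵥ (P *ᵥ x)))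
      map_add' := fun x y => by rw [mulVec_add, mulVec_add, dotProduct_add, neg_add]
      map_smul' := fun c x => by
        rw [mulVec_smul, mulVec_smul, dotProduct_smul, RingHom.id_apply, smul_neg] }
  have hf2 : ∀ w : Qb h.data hR p.1 D ν', f2 (π2 w) = u ⬝ᵥ (S0 J g p.1 *ᵥ (w : δ → K)) := by
    intro w
    change u ⬝ᵥ ((gᵀ * (J * p.1)) *ᵥ (P' *ᵥ π2 w)) = _
    rw [q2, e1, mulVec_mulVec]
  have hf1 : ∀ w : Qb h.data hR p.1 D ν, f1 (π1 w) = (w : δ → K) ⬝ᵥ (S0 J g p.1 *ᵥ v) := by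
    intro w
    change -(v ⬝ᵥ ((gᵀ * (J * p.1)) *ᵥ (P *ᵥ π1 w))) = _
    rw [q1, hsk _ v, e1, mulVec_mulVec]
  let F : (Fin n' → K) ⊗[K] (Fin n → K) →ₗ[K] K :=
    LinearMap.mul' K K ∘ₗ TensorProduct.map f2 f1
  have hF : ∀ z : Qb h.data hR p.1 D ν' ⊗[K] Qb h.data hR p.1 D ν,
      u ⬝ᵥ ((S0 J g p.1 * SGl1.ten _ _ z * S0 J g p.1) *ᵥ v) =
        F (TensorProduct.map π2 π1 z) := by
    intro z
    induction z using TensorProduct.induction_on with
    | zero => simp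
    | tmul a c =>
      rw [TensorProduct.map_tmul]
      change _ = LinearMap.mul' K K (TensorProduct.map f2 f1 (π2 a ⊗ₜ[K] π1 c))
      rw [TensorProduct.map_tmul, LinearMap.mul'_apply, hf2, hf1, SGl1.ten_tmul,
        Matrix.mul_vecMulVec, Matrix.vecMulVec_mul, vecMulVec_mulVec, ← dotProduct_mulVec,
        dotProduct_smul]
      rfl
    | add x y hx hy =>
      rw [map_add, Matrix.mul_add, Matrix.add_mul, add_mulVec, dotProduct_add, hx, hy, map_add,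
        map_add]
  rw [hF]
  have hker : Dual.Rad (LinearMap.ker (Pᵀ * (J * p.1) * P).mulVecLin)
      (LinearMap.ker (P'ᵀ * (J * p.1) * P').mulVecLin) ≤ LinearMap.ker F := by
    refine sup_le (Submodule.span_le.2 ?_) (Submodule.span_le.2 ?_)
    · rintro _ ⟨r, hr, y, rfl⟩
      obtain ⟨w, rfl⟩ := s2 r
      have h0 : f2 (π2 w) = 0 := by
        rw [hf2]
        exact rad_form h hR hD hNil hp hf b' hu w.2 (q2 w).symm hr
      change LinearMap.mul' K K (TensorProduct.map f2 f1 (π2 w ⊗ₜ[K] y)) = 0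
      rw [TensorProduct.map_tmul, LinearMap.mul'_apply, h0, zero_mul]
    · rintro _ ⟨y, r, hr, rfl⟩
      obtain ⟨w, rfl⟩ := s1 r
      have h0 : f1 (π1 w) = 0 := by
        rw [hf1, hsk, rad_form h hR hD hNil hp hf b hv w.2 (q1 w).symm hr, neg_zero]
      change LinearMap.mul' K K (TensorProduct.map f2 f1 (y ⊗ₜ[K] π1 w)) = 0
      rw [TensorProduct.map_tmul, LinearMap.mul'_apply, h0, mul_zero]
  exact hker hz

omit hNil hp hf hD [IsAlgClosed K] in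
theorem defect_sign {X Y : Type*} [AddCommGroup X] [Module K X] [AddCommGroup Y] [Module K Y]
    (a : End K X) (c : End K Y) {I ρ : K} (hI : I ^ 2 = -1) (z : Y ⊗[K] X) :
    Dual.defect a c ((I * ρ) ^ 2) z = Dual.defect a (-c) (ρ ^ 2) z := by
  rw [SULift.defect_neg]
  have : (I * ρ) ^ 2 = -ρ ^ 2 := by rw [mul_pow, hI]; ring
  rw [this]
  rfl

omit hNil hp hf hD [IsAlgClosed K] in
theorem lift_smul' {X Y Z : Type*} [AddCommGroup X] [Module K X] [AddCommGroup Y] [Module K Y]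
    [AddCommGroup Z] [Module K Z] (c : K) (q : Y →ₗ[K] X →ₗ[K] Z) (z : Y ⊗[K] X) :
    TensorProduct.lift (c • q) z = c • TensorProduct.lift q z := by
  induction z using TensorProduct.induction_on with
  | zero => simp
  | tmul a b => simp
  | add x y hx hy => rw [map_add, hx, hy, map_add, smul_add]

/-- **the relation of `SLev0.lev1` at one parameter** -/
theorem rel {ν ν' : K} {n n' : ℕ} {P : Matrix ι (Fin n) K}
    {A : Fin 3 → Matrix (Fin n) (Fin n) K} (b : BPkg arm J B g R p.1 D ν l P A)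
    {P' : Matrix ι (Fin n') K} {A' : Fin 3 → Matrix (Fin n') (Fin n') K}
    (b' : BPkg arm J B g R p.1 D ν' l P' A')
    {π1 : Qb h.data hR p.1 D ν →ₗ[K] (Fin n → K)}
    {π2 : Qb h.data hR p.1 D ν' →ₗ[K] (Fin n' → K)}
    (q1 : ∀ u, P *ᵥ (π1 u) = g *ᵥ (u : δ → K)) (q2 : ∀ u, P' *ᵥ (π2 u) = g *ᵥ (u : δ → K))
    (s1 : Function.Surjective π1) (s2 : Function.Surjective π2)
    (m1 : ∀ r u, π1 (SGl1.rs (SGl1.om arm B (S0 J g p.1) r) (Qb h.data hR p.1 D ν)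
        (st h hR hD ν r) u) = (A r).mulVecLin (π1 u))
    (m2 : ∀ r u, π2 (SGl1.rs (SGl1.om arm B (S0 J g p.1) r) (Qb h.data hR p.1 D ν')
        (st h hR hD ν' r) u) = (A' r).mulVecLin (π2 u))
    (k1 : ∀ r u, π1 u = 0 → SGl1.om arm B (S0 J g p.1) r *ᵥ (u : δ → K) = 0)
    (k2 : ∀ r u, π2 u = 0 → SGl1.om arm B (S0 J g p.1) r *ᵥ (u : δ → K) = 0)
    {I : K} (hI : I ^ 2 = -1) {ρ : K} (h2 : (2 : K) ≠ 0)
    {H kk : Matrix ι δ K} {Pt : Matrix ι ι K × (Fin 3 → Matrix ι ι K)} {Ri : Matrix δ ι K}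
    {c1 c2 : K} (hC : Ctx k arm J B N W H) (hRi : H * Ri * H = H) (hPt : Pt ∈ NN arm J N H)
    (hV : Vert k arm J N W H Pt) (hk : kk ∈ N ⊓ W)
    (hRel : SGl1.Rel g H kk (S0 J g p.1) (th J H Pt.1 H) (th J H Pt.1 kk)
      (Qb h.data hR p.1 D ν) (Qb h.data hR p.1 D ν') c1 c2)
    (hc1 : c1 ≠ 0) (hc2 : c2 ≠ 0) (hcc : c1 * ρ = c2) (G : Submodule K (Matrix ι δ K))
    (hG : ∀ y : Fin 3 → Qb h.data hR p.1 D ν' ⊗[K] Qb h.data hR p.1 D ν,
      ∑ r, Dual.defect (SGl1.rs (SGl1.om arm B (S0 J g p.1) r) _ (st h hR hD ν r))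
        (-(SGl1.rs (SGl1.om arm B (S0 J g p.1) r) _ (st h hR hD ν' r))) (ρ ^ 2) (y r) = 0 →
      (∀ r, Dual.defect (A r).mulVecLin (-(A' r).mulVecLin) (ρ ^ 2)
        (TensorProduct.map π2 π1 (y r)) ∈
          Dual.Rad (LinearMap.ker (Pᵀ * (J * p.1) * P).mulVecLin)
            (LinearMap.ker (P'ᵀ * (J * p.1) * P').mulVecLin)) →
      ∀ d : Derivation k K K,
        Mv k arm J N W H Pt.1 (fun r => SGl1.ten _ _ (y r) + (SGl1.ten _ _ (y r))ᵀ) d →
        wd arm J H Pt.1 (fun r => SGl1.ten _ _ (y r) + (SGl1.ten _ _ (y r))ᵀ) d kk ∈ G)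
    (x : Fin 3 → (Fin n' → K) ⊗[K] (Fin n → K))
    (hx : Dual.Exact (fun s => (A s).mulVecLin) (fun s => (A' s).mulVecLin)
      (LinearMap.ker (Pᵀ * (J * p.1) * P).mulVecLin)
      (LinearMap.ker (P'ᵀ * (J * p.1) * P').mulVecLin) ((I * ρ) ^ 2) x) :
    ∑ t, TensorProduct.lift ((-1 : K) • bq arm J g p.1 P' P t) (x t) +
      (I * ρ) • ∑ t, TensorProduct.lift (I⁻¹ • (bq arm J g p.1 P P' t).flip) (x t) ∈
      SGl1.QG N G := by
  have hI0 : I ≠ 0 := by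
    rintro rfl
    norm_num at hI
  have hρ : ρ ≠ 0 := by
    rintro rfl
    exact hc2 (by rw [← hcc, mul_zero])
  have hx1 : ∑ r, Dual.defect (A r).mulVecLin (-(A' r).mulVecLin) (ρ ^ 2) (x r) = 0 := by
    rw [← hx.1]
    exact Finset.sum_congr rfl fun r _ => (defect_sign _ _ hI _).symm
  have hx2 : ∀ r, Dual.defect (A r).mulVecLin (-(A' r).mulVecLin) (ρ ^ 2) (x r) ∈
      Dual.Rad (LinearMap.ker (Pᵀ * (J * p.1) * P).mulVecLin)
        (LinearMap.ker (P'ᵀ * (J * p.1) * P').mulVecLin) := by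
    intro r
    rw [← defect_sign _ _ hI]
    exact hx.2 r
  obtain ⟨y, hy1, hy2⟩ := SULift.exists_lift (st h hR hD ν) (st h hR hD ν') (perf h hR hD ν)
    (perf h hR hD ν') s1 s2 m1 m2 k1 k2 hρ x hx1
  have key := SGl1.first_pair hC h2 hRi hPt hV hk hRel hc1 hc2 hcc (st h hR hD ν)
    (st h hR hD ν') hy2 G (hG y hy2 fun r => by rw [hy1]; exact hx2 r)
  have hsk : ∀ (v : δ → K), (g *ᵥ v) ᵥ* (J * p.1 * g) = -(S0 J g p.1 *ᵥ v) := by
    intro v
    have h1 : (J * p.1)ᵀ = -(J * p.1) := by rw [transpose_mul, h.data.J_symm, hp.1.eq]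
    rw [← mulVec_transpose, transpose_mul, h1, mulVec_mulVec, Matrix.mul_neg, Matrix.neg_mul,
      neg_mulVec]
    congr 2
    unfold S0; simp only [Matrix.mul_assoc]
  have eb : ∀ (t : Fin 3) (a c : δ → K), vecMulVec (g *ᵥ a) (g *ᵥ c) * (J * p.1) * g * E K arm t =
      -(vecMulVec (g *ᵥ a) (S0 J g p.1 *ᵥ c) * E K arm t) := by
    intro t a c
    rw [Matrix.mul_assoc (vecMulVec _ _), Matrix.vecMulVec_mul, hsk, vecMulVec_neg,
      Matrix.neg_mul]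
  have e1 : ∀ t, TensorProduct.lift ((-1 : K) • bq arm J g p.1 P' P t) (x t) =
      TensorProduct.lift (SGl1.qa arm g (S0 J g p.1) _ _ t) (y t) := by
    intro t
    rw [← hy1 t]
    generalize y t = z
    induction z using TensorProduct.induction_on with
    | zero => simp
    | tmul a c =>
      rw [TensorProduct.map_tmul, lift_smul', TensorProduct.lift.tmul, TensorProduct.lift.tmul,
        bq_apply, q1, q2, eb, SGl1.qa_apply, neg_one_smul, neg_neg]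
    | add u v hu hv => rw [map_add, map_add, hu, hv, map_add]
  have e2 : ∀ t, TensorProduct.lift (I⁻¹ • (bq arm J g p.1 P P' t).flip) (x t) =
      I⁻¹ • TensorProduct.lift (-(SGl1.qa arm g (S0 J g p.1) (Qb h.data hR p.1 D ν)
        (Qb h.data hR p.1 D ν') t).flip) (y t) := by
    intro t
    rw [← hy1 t, lift_smul']
    congr 1
    generalize y t = z
    induction z using TensorProduct.induction_on with
    | zero => simp
    | tmul a c =>
      rw [TensorProduct.map_tmul, TensorProduct.lift.tmul, TensorProduct.lift.tmul,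
        LinearMap.flip_apply, bq_apply, q1, q2, eb, LinearMap.neg_apply, LinearMap.neg_apply,
        LinearMap.flip_apply, SGl1.qa_apply]
    | add u v hu hv => rw [map_add, map_add, hu, hv, map_add]
  rw [Finset.sum_congr rfl fun t _ => e1 t, Finset.sum_congr rfl fun t _ => e2 t,
    ← Finset.smul_sum, smul_smul]
  have e3 : I * ρ * I⁻¹ = ρ := by field_simp
  rw [e3]
  exact key

end coord

end Crest.Agent.R172.SRel141
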