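import Crest.Agent.R172.SLev0
import Crest.Agent.R172.SULift
import Crest.Agent.R172.UBlk

/-!
Row 172 (S0260), tame node (t2), first level: the relation of `SLev0.lev1` in coordinates, from the
U-level first derivative `SGl1.first_pair`, the U-level blocks `UBlk.Qb` and the lift `SULift`.
-/

set_option autoImplicit false
set_option linter.unusedSectionVars false
set_option linter.unusedFintypeInType false
set_option linter.unusedDecidableInType false

namespace Crest.Agent.R172.SRel219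

open Matrix Module Crest.Agent.R172.FO Crest.Agent.R172.Qt Crest.Agent.R172.SpS
open Crest.Agent.R172.SEnd Crest.Agent.R172.SEnd2 Crest.Agent.R172.SBlk
open Crest.Agent.R172.SCM Crest.Agent.R172.UBlk
open Crest.Agent.R172.SC (PB)
open Crest.Agent.R172.PL (Wk Ainf Rad CoreM coreOp resOp)
open Crest.Agent.R172.SUX (th ZY wd Mv)
open scoped TensorProduct

variable {ι : Type*} [Fintype ι] [DecidableEq ι] {δ : Type*} [Fintype δ] [DecidableEq δ]
variable {k K : Type*} [Field k] [Field K] [Algebra k K]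
variable {arm : δ → Fin 3} {J : Matrix ι ι K} {B : Matrix δ δ K}
  {N W : Submodule K (Matrix ι δ K)} {g f : Matrix ι δ K}
  {p : Matrix ι ι K × (Fin 3 → Matrix ι ι K)}

section one

variable (h : Ctx k arm J B N W g) {R : Matrix δ ι K} (hR : g * R * g = g)
  {D : End K (CoreM (Ph arm J B g R p.1))}
  (hD : IsD (Ph arm J B g R p.1) (Nh arm J B g f R p.1) D)

include hD in
/-- stability in the letters of `SGl1` -/
theorem st (ν : K) (r : Fin 3) : ∀ u ∈ Qb h.data hR p.1 D ν,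
    SGl1.om arm B (gᵀ * J * (p.1 * g)) r *ᵥ u ∈ Qb h.data hR p.1 D ν := fun _ hu =>
  Qb_stable h hR hD r hu

include hD in
/-- perfectness in the letters of `SGl1` -/
theorem perf (ν : K) : ∀ u ∈ Qb h.data hR p.1 D ν, ∃ c : Fin 3 → (δ → K),
    (∀ r, c r ∈ Qb h.data hR p.1 D ν) ∧
      ∑ r, SGl1.om arm B (gᵀ * J * (p.1 * g)) r *ᵥ (c r) = u := fun _ hu =>
  Qb_exists h hR hD hu

variable [IsAlgClosed K]

/-- **the coordinates** `Q_ν → K^n` -/
theorem exists_pi {ν : K} {l : Fin 3 → ℕ} {n : ℕ} {P : Matrix ι (Fin n) K}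
    {A : Fin 3 → Matrix (Fin n) (Fin n) K} (b : BPkg arm J B g R p.1 D ν l P A) :
    ∃ π : Qb h.data hR p.1 D ν →ₗ[K] (Fin n → K), Function.Surjective π ∧
      (∀ u : Qb h.data hR p.1 D ν, P *ᵥ (π u) = g *ᵥ (u : δ → K)) ∧
      (∀ r u, π (SGl1.rs (SGl1.om arm B (gᵀ * J * (p.1 * g)) r) _ (st h hR hD ν r) u) =
        (A r).mulVecLin (π u)) := by
  have hinj : LinearMap.ker P.mulVecLin = ⊥ := by
    rw [eq_bot_iff]
    intro x hx
    rw [Submodule.mem_bot]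
    exact b.inj x hx
  obtain ⟨L, hL⟩ := LinearMap.exists_leftInverse_of_injective P.mulVecLin hinj
  have hL' : ∀ x, L (P *ᵥ x) = x := fun x => LinearMap.congr_fun hL x
  have hco : ∀ u ∈ Qb h.data hR p.1 D ν, ∃ x, g *ᵥ u = P *ᵥ x := by
    intro u hu
    have h1 : gS g u ∈ PB (Ph arm J B g R p.1) D ν := by
      rw [← Qb_map h hR hD ν]
      exact ⟨u, hu, rfl⟩
    obtain ⟨x, hx⟩ := b.span _ h1
    exact ⟨x, hx⟩
  let π : Qb h.data hR p.1 D ν →ₗ[K] (Fin n → K) :=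
    L ∘ₗ g.mulVecLin ∘ₗ (Qb h.data hR p.1 D ν).subtype
  have hπ : ∀ u : Qb h.data hR p.1 D ν, P *ᵥ (π u) = g *ᵥ (u : δ → K) := by
    intro u
    obtain ⟨x, hx⟩ := hco u u.2
    change P *ᵥ (L (g *ᵥ (u : δ → K))) = _
    rw [hx, hL']
  refine ⟨π, ?_, hπ, ?_⟩
  · intro x
    obtain ⟨v, hv, hvx⟩ := b.mem x
    rw [← Qb_map h hR hD ν] at hv
    obtain ⟨u, hu, rfl⟩ := hv
    refine ⟨⟨u, hu⟩, ?_⟩
    change L (g *ᵥ u) = x
    have h1 : g *ᵥ u = P *ᵥ x := hvx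
    rw [h1, hL']
  · intro r u
    have h1 : P *ᵥ (π (SGl1.rs (SGl1.om arm B (gᵀ * J * (p.1 * g)) r) _ (st h hR hD ν r) u)) =
        P *ᵥ ((A r).mulVecLin (π u)) := by
      rw [hπ, SGl1.rs_coe, mulVecLin_apply, mulVec_mulVec, mulVec_mulVec, ← b.act r,
        ← mulVec_mulVec (π u), hπ, mulVec_mulVec]
      congr 1
      unfold SGl1.om M
      rw [← h.data.B_arm]
      simp only [Matrix.mul_assoc]
    have h2 := congrArg L h1
    rwa [hL', hL'] at h2

end one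

section two

/-- the one-arm tensor of two vectors of `S = im g` -/
theorem bq_val (S0 : Matrix δ δ K) (hS0 : S0ᵀ = -S0) {X : Matrix ι ι K}
    (e : S0 = gᵀ * J * (X * g)) (a : ι → K) (c : δ → K) (s : Fin 3) :
    vecMulVec a (g *ᵥ c) * (J * X) * g * E K arm s = -(vecMulVec a (S0 *ᵥ c) * E K arm s) := by
  have h1 : vecMulVec a (g *ᵥ c) * (J * X) * g = vecMulVec a ((g *ᵥ c) ᵥ* (J * X) ᵥ* g) := by
    rw [Matrix.vecMulVec_mul, Matrix.vecMulVec_mul]
  have h2 : (g *ᵥ c) ᵥ* (J * X) ᵥ* g = -(S0 *ᵥ c) := by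
    rw [← SGl1.vecMul_skew hS0, e, ← vecMul_transpose, vecMul_vecMul, vecMul_vecMul]
    congr 1
    simp only [Matrix.mul_assoc]
  rw [h1, h2]
  ext i j
  simp only [Matrix.mul_apply, vecMulVec_apply, Pi.neg_apply, Matrix.neg_apply, mul_neg, neg_mul,
    Finset.sum_neg_distrib]

variable {S0 : Matrix δ δ K} {X : Matrix ι ι K} {n n' : ℕ} {P : Matrix ι (Fin n) K}
  {P' : Matrix ι (Fin n') K} {Q1 Q2 : Submodule K (δ → K)} {π1 : Q1 →ₗ[K] (Fin n → K)}
  {π2 : Q2 →ₗ[K] (Fin n' → K)}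

theorem lift1 (hS0 : S0ᵀ = -S0) (e : S0 = gᵀ * J * (X * g))
    (h1 : ∀ u : Q1, P *ᵥ (π1 u) = g *ᵥ (u : δ → K))
    (h2 : ∀ u : Q2, P' *ᵥ (π2 u) = g *ᵥ (u : δ → K)) (s : Fin 3) (z : Q2 ⊗[K] Q1) :
    TensorProduct.lift ((-1 : K) • SLev0.bq arm J g X P' P s) (TensorProduct.map π2 π1 z) =
      TensorProduct.lift (SGl1.qa arm g S0 Q2 Q1 s) z := by
  induction z using TensorProduct.induction_on with
  | zero => simp
  | tmul a b =>
    rw [TensorProduct.map_tmul, TensorProduct.lift.tmul, TensorProduct.lift.tmul,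
      LinearMap.smul_apply, LinearMap.smul_apply, SLev0.bq_apply, SGl1.qa_apply, h1, h2,
      bq_val S0 hS0 e, neg_one_smul, neg_neg]
  | add x y hx hy => simp only [map_add, hx, hy]

theorem lift2 (hS0 : S0ᵀ = -S0) (e : S0 = gᵀ * J * (X * g))
    (h1 : ∀ u : Q1, P *ᵥ (π1 u) = g *ᵥ (u : δ → K))
    (h2 : ∀ u : Q2, P' *ᵥ (π2 u) = g *ᵥ (u : δ → K)) (i : K) (s : Fin 3) (z : Q2 ⊗[K] Q1) :
    TensorProduct.lift ((-i) • (SLev0.bq arm J g X P P' s).flip) (TensorProduct.map π2 π1 z) =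
      (-i) • TensorProduct.lift (-(SGl1.qa arm g S0 Q1 Q2 s).flip) z := by
  induction z using TensorProduct.induction_on with
  | zero => simp
  | tmul a b =>
    rw [TensorProduct.map_tmul, TensorProduct.lift.tmul, TensorProduct.lift.tmul,
      LinearMap.smul_apply, LinearMap.smul_apply, LinearMap.flip_apply, SLev0.bq_apply,
      LinearMap.neg_apply, LinearMap.neg_apply, LinearMap.flip_apply, SGl1.qa_apply, h1, h2,
      bq_val S0 hS0 e]
  | add x y hx hy => simp only [map_add, hx, hy, smul_add]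

/-- the functional `x ↦ a ⬝ M x` -/
def fn {m : ℕ} (v : Fin m → K) : (Fin m → K) →ₗ[K] K where
  toFun x := v ⬝ᵥ x
  map_add' x y := dotProduct_add v x y
  map_smul' t x := by rw [dotProduct_smul]; rfl

/-- sandwiches of a tensor -/
theorem sand (e : S0 = gᵀ * J * (X * g))
    (h1 : ∀ u : Q1, P *ᵥ (π1 u) = g *ᵥ (u : δ → K))
    (h2 : ∀ u : Q2, P' *ᵥ (π2 u) = g *ᵥ (u : δ → K)) (q u : δ → K) (z : Q2 ⊗[K] Q1) :
    q ⬝ᵥ ((S0 * SGl1.ten Q2 Q1 z * S0) *ᵥ u) =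
      (LinearMap.mul' K K ∘ₗ TensorProduct.map (fn ((g *ᵥ q) ᵥ* (J * X) ᵥ* P'))
        (fn (Pᵀ *ᵥ ((J * X) *ᵥ (g *ᵥ u))))) (TensorProduct.map π2 π1 z) := by
  induction z using TensorProduct.induction_on with
  | zero => simp
  | tmul a b =>
    rw [LinearMap.comp_apply, TensorProduct.map_tmul, TensorProduct.map_tmul,
      LinearMap.mul'_apply, SGl1.ten_tmul]
    have e1 : fn ((g *ᵥ q) ᵥ* (J * X) ᵥ* P') (π2 a) = q ⬝ᵥ (S0 *ᵥ (a : δ → K)) := by
      change ((g *ᵥ q) ᵥ* (J * X) ᵥ* P') ⬝ᵥ (π2 a) = _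
      rw [← dotProduct_mulVec, h2, ← dotProduct_mulVec, e, ← vecMul_transpose, ← dotProduct_mulVec,
        mulVec_mulVec, mulVec_mulVec]
      congr 2
      simp only [Matrix.mul_assoc]
    have e2 : fn (Pᵀ *ᵥ ((J * X) *ᵥ (g *ᵥ u))) (π1 b) = (b : δ → K) ⬝ᵥ (S0 *ᵥ u) := by
      change (Pᵀ *ᵥ ((J * X) *ᵥ (g *ᵥ u))) ⬝ᵥ (π1 b) = _
      rw [mulVec_transpose, ← dotProduct_mulVec, h1, dotProduct_comm, e, ← vecMul_transpose,
        ← dotProduct_mulVec, mulVec_mulVec, mulVec_mulVec]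
      congr 2
      simp only [Matrix.mul_assoc]
    rw [e1, e2, Matrix.mul_vecMulVec, Matrix.vecMulVec_mul, Matrix.vecMulVec_mulVec,
      dotProduct_smul, ← dotProduct_mulVec]
    simp [mul_comm]
  | add x y hx hy =>
    rw [map_add, map_add, map_add, Matrix.mul_add, Matrix.add_mul, add_mulVec, dotProduct_add,
      hx, hy]

/-- the sandwich vanishes on the radical -/
theorem sand_rad {φ : (Fin n' → K) →ₗ[K] K} {ψ : (Fin n → K) →ₗ[K] K}
    {R1 : Submodule K (Fin n → K)} {R2 : Submodule K (Fin n' → K)} (hφ : ∀ r ∈ R2, φ r = 0)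
    (hψ : ∀ r ∈ R1, ψ r = 0) {x : (Fin n' → K) ⊗[K] (Fin n → K)} (hx : x ∈ Dual.Rad R1 R2) :
    (LinearMap.mul' K K ∘ₗ TensorProduct.map φ ψ) x = 0 := by
  have h1 : Dual.Rad R1 R2 ≤ LinearMap.ker (LinearMap.mul' K K ∘ₗ TensorProduct.map φ ψ) := by
    refine sup_le (Submodule.span_le.2 ?_) (Submodule.span_le.2 ?_)
    · rintro _ ⟨r, hr, y, rfl⟩
      change (LinearMap.mul' K K ∘ₗ TensorProduct.map φ ψ) _ = 0
      rw [LinearMap.comp_apply, TensorProduct.map_tmul, LinearMap.mul'_apply, hφ r hr, zero_mul]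
    · rintro _ ⟨y, r, hr, rfl⟩
      change (LinearMap.mul' K K ∘ₗ TensorProduct.map φ ψ) _ = 0
      rw [LinearMap.comp_apply, TensorProduct.map_tmul, LinearMap.mul'_apply, hψ r hr, mul_zero]
  exact h1 hx

end two

section main

variable (h : Ctx k arm J B N W g) {R : Matrix δ ι K} (hR : g * R * g = g)
  {D : End K (CoreM (Ph arm J B g R p.1))}
  (hD : IsD (Ph arm J B g R p.1) (Nh arm J B g f R p.1) D)
variable [IsAlgClosed K]

include hD in
/-- a vector of the radical of a block pairs to zero with every block -/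
theorem rad_pair (hNil : NilW arm J B N g) (hp : p ∈ NN arm J N g) (hf : f ∈ N ⊓ W) {ν μ : K}
    {l : Fin 3 → ℕ} {n : ℕ} {P : Matrix ι (Fin n) K} {A : Fin 3 → Matrix (Fin n) (Fin n) K}
    (b : BPkg arm J B g R p.1 D ν l P A) {r : Fin n → K}
    (hr : r ∈ LinearMap.ker (Pᵀ * (J * p.1) * P).mulVecLin) {q : δ → K}
    (hq : q ∈ Qb h.data hR p.1 D μ) : (g *ᵥ q) ⬝ᵥ ((J * p.1) *ᵥ (P *ᵥ r)) = 0 := by
  obtain ⟨π, hπ1, hπ2, -⟩ := exists_pi h hR hD b
  by_cases hne : μ = ν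
  · subst hne
    rw [← hπ2 ⟨q, hq⟩, form_gg]
    rw [LinearMap.mem_ker, mulVecLin_apply] at hr
    rw [hr, dotProduct_zero]
  · obtain ⟨u, hu⟩ := hπ1 r
    rw [← hu, hπ2, ← vecMul_transpose, ← dotProduct_mulVec, mulVec_mulVec, mulVec_mulVec]
    have h1 := Qb_orth h hR hD hNil hp hf hne hq u.2
    rw [← h1]
    congr 2
    simp only [Matrix.mul_assoc]

/-- **the relation of `SLev0.lev1` in coordinates.** -/
theorem rel (hNil : NilW arm J B N g) (hp : p ∈ NN arm J N g) (hf : f ∈ N ⊓ W)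
    (h2 : (2 : K) ≠ 0) {ν ν' : K} {l : Fin 3 → ℕ} {n n' : ℕ} {P : Matrix ι (Fin n) K}
    {A : Fin 3 → Matrix (Fin n) (Fin n) K} {P' : Matrix ι (Fin n') K}
    {A' : Fin 3 → Matrix (Fin n') (Fin n') K}
    (b : BPkg arm J B g R p.1 D ν l P A) (b' : BPkg arm J B g R p.1 D ν' l P' A')
    {H kk : Matrix ι δ K} {Pt : Matrix ι ι K × (Fin 3 → Matrix ι ι K)} {Ri : Matrix δ ι K}
    {c1 c2 ρ i : K} (hi : i * i = -1)
    (hC : Ctx k arm J B N W H) (hRi : H * Ri * H = H) (hPt : Pt ∈ NN arm J N H)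
    (hV : Vert k arm J N W H Pt) (hk : kk ∈ N ⊓ W)
    (hRel : SGl1.Rel g H kk (gᵀ * J * (p.1 * g)) (th J H Pt.1 H) (th J H Pt.1 kk)
      (Qb h.data hR p.1 D ν) (Qb h.data hR p.1 D ν') c1 c2)
    (hc1 : c1 ≠ 0) (hc2 : c2 ≠ 0) (hρ : c1 * ρ = c2)
    (G : Submodule K (Matrix ι δ K))
    (hG : ∀ z : Fin 3 → Qb h.data hR p.1 D ν' ⊗[K] Qb h.data hR p.1 D ν,
      ∑ r, Dual.defect (SGl1.rs (SGl1.om arm B (gᵀ * J * (p.1 * g)) r) _ (st h hR hD ν r))
        (-(SGl1.rs (SGl1.om arm B (gᵀ * J * (p.1 * g)) r) _ (st h hR hD ν' r))) (ρ ^ 2) (z r) = 0 →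
      (∀ r, ∀ μ μ' : K, ∀ q ∈ Qb h.data hR p.1 D μ', ∀ u ∈ Qb h.data hR p.1 D μ,
        q ⬝ᵥ (((gᵀ * J * (p.1 * g)) * SGl1.ten _ _
          (Dual.defect (SGl1.rs (SGl1.om arm B (gᵀ * J * (p.1 * g)) r) _ (st h hR hD ν r))
          (-(SGl1.rs (SGl1.om arm B (gᵀ * J * (p.1 * g)) r) _ (st h hR hD ν' r))) (ρ ^ 2) (z r)) *
          (gᵀ * J * (p.1 * g))) *ᵥ u) = 0) →
      ∀ d : Derivation k K K,
        Mv k arm J N W H Pt.1 (fun r => SGl1.ten _ _ (z r) + (SGl1.ten _ _ (z r))ᵀ) d →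
        wd arm J H Pt.1 (fun r => SGl1.ten _ _ (z r) + (SGl1.ten _ _ (z r))ᵀ) d kk ∈ G)
    (x : Fin 3 → (Fin n' → K) ⊗[K] (Fin n → K))
    (hx : Dual.Exact (fun s => (A s).mulVecLin) (fun s => (A' s).mulVecLin)
        (LinearMap.ker (Pᵀ * (J * p.1) * P).mulVecLin)
        (LinearMap.ker (P'ᵀ * (J * p.1) * P').mulVecLin) ((i * ρ) ^ 2) x) :
    ∑ t, TensorProduct.lift ((-1 : K) • SLev0.bq arm J g p.1 P' P t) (x t) +
      (i * ρ) • ∑ t, TensorProduct.lift ((-i) • (SLev0.bq arm J g p.1 P P' t).flip) (x t) ∈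
        SGl1.QG N G := by
  obtain ⟨π1, s1, v1, a1⟩ := exists_pi h hR hD b
  obtain ⟨π2, s2, v2, a2⟩ := exists_pi h hR hD b'
  set S0 : Matrix δ δ K := gᵀ * J * (p.1 * g) with hS0def
  have hS0 : S0ᵀ = -S0 := form_skew h.data.J_symm hp
  have hsq : (i * ρ) ^ 2 = -(ρ ^ 2) := by rw [mul_pow, sq i, hi, neg_one_mul]
  have hρ0 : ρ ≠ 0 := by
    rintro rfl
    exact hc2 (by rw [← hρ, mul_zero])
  have hdef : ∀ (A : End K (Fin n → K)) (A' : End K (Fin n' → K))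
      (x : (Fin n' → K) ⊗[K] (Fin n → K)),
      Dual.defect A (-A') (ρ ^ 2) x = Dual.defect A A' ((i * ρ) ^ 2) x := by
    intro A A' x
    rw [SULift.defect_neg, hsq]
    rfl
  have kill : ∀ u : δ → K, g *ᵥ u = 0 → ∀ r, SGl1.om arm B S0 r *ᵥ u = 0 := by
    intro u hu r
    have h3 : SGl1.om arm B S0 r = B * E K arm r * (gᵀ * J * p.1) * g := by
      rw [hS0def]; unfold SGl1.om; simp only [Matrix.mul_assoc]
    rw [h3, ← mulVec_mulVec, hu, mulVec_zero]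
  obtain ⟨z, hz1, hz2⟩ := SULift.exists_lift (arm := arm) (B := B) (S := S0)
    (st h hR hD ν) (st h hR hD ν') (perf h hR hD ν) (perf h hR hD ν') s1 s2
    (a := fun r => (A r).mulVecLin) (b := fun r => (A' r).mulVecLin) a1 a2
    (fun r u hu => kill _ (by rw [← v1, hu, mulVec_zero]) r)
    (fun r u hu => kill _ (by rw [← v2, hu, mulVec_zero]) r) hρ0 x
    (by rw [← hx.1]; exact Finset.sum_congr rfl fun r _ => hdef _ _ _)
  have hmd : ∀ r, TensorProduct.map π2 π1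
      (Dual.defect (SGl1.rs (SGl1.om arm B S0 r) _ (st h hR hD ν r))
        (-(SGl1.rs (SGl1.om arm B S0 r) _ (st h hR hD ν' r))) (ρ ^ 2) (z r)) =
      Dual.defect (A r).mulVecLin (A' r).mulVecLin ((i * ρ) ^ 2) (x r) := by
    intro r
    rw [← hdef, ← hz1 r]
    generalize z r = v
    induction v using TensorProduct.induction_on with
    | zero => simp
    | tmul y w =>
      rw [Dual.defect_tmul, map_sub, map_smul, TensorProduct.map_tmul, TensorProduct.map_tmul,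
        TensorProduct.map_tmul, Dual.defect_tmul, LinearMap.neg_apply, LinearMap.neg_apply,
        map_neg, a1, a2]
    | add y w hy hw => simp only [map_add, hy, hw]
  have h5 := SGl1.first_pair hC h2 hRi hPt hV hk hRel hc1 hc2 hρ (st h hR hD ν) (st h hR hD ν')
    hz2 G (hG z hz2 fun r μ μ' q hq u hu => by
      rw [sand (P := P) (P' := P') (X := p.1) rfl v1 v2, hmd r]
      refine sand_rad (fun x hx => ?_) (fun x hx => ?_) (hx.2 r)
      · change ((g *ᵥ q) ᵥ* (J * p.1) ᵥ* P') ⬝ᵥ x = 0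
        rw [← dotProduct_mulVec, ← dotProduct_mulVec]
        exact rad_pair h hR hD hNil hp hf b' hx hq
      · change (Pᵀ *ᵥ ((J * p.1) *ᵥ (g *ᵥ u))) ⬝ᵥ x = 0
        have h6 := rad_pair h hR hD hNil hp hf b hx hu
        have hsk : (J * p.1)ᵀ = -(J * p.1) := (Phi_adj h.data h.mem hp.1 0).1
        rw [mulVec_transpose, ← dotProduct_mulVec, dotProduct_comm, dotProduct_mulVec,
          ← mulVec_transpose, hsk, neg_mulVec, neg_dotProduct, dotProduct_comm, h6, neg_zero])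
  have e1 : ∀ t, TensorProduct.lift ((-1 : K) • SLev0.bq arm J g p.1 P' P t) (x t) =
      TensorProduct.lift (SGl1.qa arm g S0 _ _ t) (z t) := fun t => by
    rw [← hz1 t, lift1 hS0 rfl v1 v2]
  have e2 : ∀ t, TensorProduct.lift ((-i) • (SLev0.bq arm J g p.1 P P' t).flip) (x t) =
      (-i) • TensorProduct.lift (-(SGl1.qa arm g S0 _ _ t).flip) (z t) := fun t => by
    rw [← hz1 t, lift2 hS0 rfl v1 v2]
  rw [Finset.sum_congr rfl fun t _ => e1 t, Finset.sum_congr rfl fun t _ => e2 t,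
    ← Finset.smul_sum, smul_smul]
  have e3 : i * ρ * -i = ρ := by linear_combination (-ρ) * hi
  rw [e3]
  exact h5

end main

end Crest.Agent.R172.SRel219
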