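import Crest.Agent.R172.SULift
import Crest.Agent.R172.SGl1
import Crest.Agent.R172.SLev0


/-!
Row 172 (S0260), S-side (t2): the first relation in the coordinates of the block packages
(hypothesis `h` of `SLev0.lev1`), from `SGl1.first_pair` and `SULift.exists_lift` (helper269).
-/

set_option autoImplicit false
set_option linter.unusedSectionVars false
set_option linter.unusedVariables false

namespace Crest.Agent.R172.SRel269

open Matrix Module TensorProduct Crest.Agent.R172.FO Crest.Agent.R172.Qt Crest.Agent.R172.SpS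
open Crest.Agent.R172.SEnd Crest.Agent.R172.SEnd2 Crest.Agent.R172.SCM Crest.Agent.R172.SBlk
open Crest.Agent.R172.SUX Crest.Agent.R172.SLev0
open Crest.Agent.R172.SGl1 (rs rs_coe qa qa_apply ten ten_tmul Rel first_pair)
open Crest.Agent.R172.SC (PB)
open Crest.Agent.R172.PL (CoreM coreOp)

variable {ι : Type*} [Fintype ι] [DecidableEq ι] {δ : Type*} [Fintype δ] [DecidableEq δ]
variable {k K : Type*} [Field k] [Field K] [Algebra k K]
variable {arm : δ → Fin 3} {J : Matrix ι ι K} {B : Matrix δ δ K}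
  {N W : Submodule K (Matrix ι δ K)} {F : Matrix ι δ K} {R : Matrix δ ι K} {X : Matrix ι ι K}
  {D : End K (CoreM (PhS arm J B F R X))} {ν ν' : K} {l : Fin 3 → ℕ} {n n' : ℕ}
  {P : Matrix ι (Fin n) K} {P' : Matrix ι (Fin n') K}
  {A : Fin 3 → Matrix (Fin n) (Fin n) K} {A' : Fin 3 → Matrix (Fin n') (Fin n') K}

section coord

/-- coordinates of `F u`, `u ∈ Q`, in the basis matrix `P` -/
theorem exists_pi (hinj : ∀ x, P *ᵥ x = 0 → x = 0) {Q : Submodule K (δ → K)}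
    (f1 : ∀ u ∈ Q, ∃ x, F *ᵥ u = P *ᵥ x) :
    ∃ π : Q →ₗ[K] (Fin n → K), ∀ u : Q, P *ᵥ (π u) = F *ᵥ (u : δ → K) := by
  have hi : Function.Injective P.mulVecLin := by
    rw [injective_iff_map_eq_zero]
    intro x hx
    exact hinj x hx
  have hr : ∀ u : Q, (Matrix.toLin' F ∘ₗ Q.subtype) u ∈ LinearMap.range P.mulVecLin := by
    intro u
    obtain ⟨x, hx⟩ := f1 u u.2
    refine ⟨x, ?_⟩
    rw [mulVecLin_apply, LinearMap.comp_apply, Submodule.subtype_apply, toLin'_apply, hx]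
  refine ⟨(LinearEquiv.ofInjective P.mulVecLin hi).symm.toLinearMap ∘ₗ
    LinearMap.codRestrict _ (Matrix.toLin' F ∘ₗ Q.subtype) hr, fun u => ?_⟩
  have h1 := congrArg Subtype.val (LinearEquiv.apply_symm_apply (LinearEquiv.ofInjective P.mulVecLin hi)
    (LinearMap.codRestrict _ (Matrix.toLin' F ∘ₗ Q.subtype) hr u))
  rw [LinearEquiv.ofInjective_apply] at h1
  exact h1

/-- `F ω_r = Φ_r F` -/
theorem F_om (h : Data k arm J B N W) (r : Fin 3) :
    F * SGl1.om arm B (th J F X F) r = M arm B r F F * (J * X) * F := by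
  unfold SGl1.om th M
  rw [← h.B_arm r]
  simp only [Matrix.mul_assoc]

theorem mul_inj (hinj : ∀ x, P *ᵥ x = 0 → x = 0) {x y : Fin n → K} (h : P *ᵥ x = P *ᵥ y) :
    x = y := by
  have := hinj (x - y) (by rw [mulVec_sub, h, sub_self])
  exact sub_eq_zero.1 this

theorem bq_qa (hJ : Jᵀ = J) (hX : Skw J X) {Q1 Q2 : Submodule K (δ → K)}
    {π1 : Q1 →ₗ[K] (Fin n → K)} {π2 : Q2 →ₗ[K] (Fin n' → K)}
    (e1 : ∀ u : Q1, P *ᵥ (π1 u) = F *ᵥ (u : δ → K))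
    (e2 : ∀ u : Q2, P' *ᵥ (π2 u) = F *ᵥ (u : δ → K)) (r : Fin 3) (a : Q2) (b : Q1) :
    bq arm J F X P' P r (π2 a) (π1 b) = -qa arm F (th J F X F) Q2 Q1 r a b := by
  rw [bq_apply, qa_apply, e1, e2, Matrix.mul_assoc (vecMulVec _ _), Matrix.vecMulVec_mul]
  have h1 : (F *ᵥ (b : δ → K)) ᵥ* (J * X * F) = -(th J F X F *ᵥ (b : δ → K)) := by
    rw [← mulVec_transpose, transpose_mul, transpose_mul, hJ, hX.eq]
    unfold th
    rw [mulVec_mulVec, Matrix.mul_neg, Matrix.neg_mul, neg_mulVec]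
    simp only [Matrix.mul_assoc]
  rw [h1, vecMulVec_neg, Matrix.neg_mul]

theorem lift_qa_bq (hJ : Jᵀ = J) (hX : Skw J X) {Q1 Q2 : Submodule K (δ → K)}
    {π1 : Q1 →ₗ[K] (Fin n → K)} {π2 : Q2 →ₗ[K] (Fin n' → K)}
    (e1 : ∀ u : Q1, P *ᵥ (π1 u) = F *ᵥ (u : δ → K))
    (e2 : ∀ u : Q2, P' *ᵥ (π2 u) = F *ᵥ (u : δ → K)) (r : Fin 3) (z : Q2 ⊗[K] Q1) :
    TensorProduct.lift (qa arm F (th J F X F) Q2 Q1 r) z =
      TensorProduct.lift ((-1 : K) • bq arm J F X P' P r) (TensorProduct.map π2 π1 z) := by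
  induction z using TensorProduct.induction_on with
  | zero => simp
  | tmul a b =>
    rw [TensorProduct.map_tmul, TensorProduct.lift.tmul, TensorProduct.lift.tmul,
      LinearMap.smul_apply, LinearMap.smul_apply, bq_qa hJ hX e1 e2, neg_one_smul, neg_neg]
  | add x y hx hy => rw [map_add, map_add, map_add, hx, hy]

theorem lift_qa_bq' (hJ : Jᵀ = J) (hX : Skw J X) {Q1 Q2 : Submodule K (δ → K)}
    {π1 : Q1 →ₗ[K] (Fin n → K)} {π2 : Q2 →ₗ[K] (Fin n' → K)}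
    (e1 : ∀ u : Q1, P *ᵥ (π1 u) = F *ᵥ (u : δ → K))
    (e2 : ∀ u : Q2, P' *ᵥ (π2 u) = F *ᵥ (u : δ → K)) (r : Fin 3) (z : Q2 ⊗[K] Q1) :
    TensorProduct.lift (-(qa arm F (th J F X F) Q1 Q2 r).flip) z =
      TensorProduct.lift ((bq arm J F X P P' r).flip) (TensorProduct.map π2 π1 z) := by
  induction z using TensorProduct.induction_on with
  | zero => simp
  | tmul a b =>
    rw [TensorProduct.map_tmul, TensorProduct.lift.tmul, TensorProduct.lift.tmul,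
      LinearMap.neg_apply, LinearMap.neg_apply, LinearMap.flip_apply, LinearMap.flip_apply,
      bq_qa hJ hX e2 e1]
  | add x y hx hy => rw [map_add, map_add, map_add, hx, hy]

/-- the tested form of a tensor -/
noncomputable def LL (J X : Matrix ι ι K) (P : Matrix ι (Fin n) K) (P' : Matrix ι (Fin n') K)
    (x0 : Fin n' → K) (y0 : Fin n → K) : (Fin n' → K) ⊗[K] (Fin n → K) →ₗ[K] K :=
  TensorProduct.lift (LinearMap.mk₂ K (fun x y => gF J X P' x0 x * gF J X P y y0)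
    (fun x x' y => by rw [map_add, add_mul]) (fun c x y => by rw [map_smul, smul_eq_mul,
      smul_eq_mul, mul_assoc])
    (fun x y y' => by rw [map_add, LinearMap.add_apply, mul_add])
    (fun c x y => by rw [map_smul, LinearMap.smul_apply, smul_eq_mul, smul_eq_mul]; ring))

theorem LL_tmul (x0 : Fin n' → K) (y0 : Fin n → K) (x : Fin n' → K) (y : Fin n → K) :
    LL J X P P' x0 y0 (x ⊗ₜ y) = gF J X P' x0 x * gF J X P y y0 := by
  unfold LL
  rw [TensorProduct.lift.tmul, LinearMap.mk₂_apply]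

theorem LL_rad (hs : (Pᵀ * (J * X) * P)ᵀ = -(Pᵀ * (J * X) * P)) (x0 : Fin n' → K) (y0 : Fin n → K)
    {z : (Fin n' → K) ⊗[K] (Fin n → K)}
    (hz : z ∈ Dual.Rad (LinearMap.ker (Pᵀ * (J * X) * P).mulVecLin)
      (LinearMap.ker (P'ᵀ * (J * X) * P').mulVecLin)) : LL J X P P' x0 y0 z = 0 := by
  have hle : Dual.Rad (LinearMap.ker (Pᵀ * (J * X) * P).mulVecLin)
      (LinearMap.ker (P'ᵀ * (J * X) * P').mulVecLin) ≤ LinearMap.ker (LL J X P P' x0 y0) := by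
    refine sup_le (Submodule.span_le.2 ?_) (Submodule.span_le.2 ?_)
    · rintro _ ⟨r, hr, p, rfl⟩
      rw [LinearMap.mem_ker, mulVecLin_apply] at hr
      rw [SetLike.mem_coe, LinearMap.mem_ker, LL_tmul, gF_apply, hr, dotProduct_zero, zero_mul]
    · rintro _ ⟨p, r, hr, rfl⟩
      rw [LinearMap.mem_ker, mulVecLin_apply] at hr
      rw [SetLike.mem_coe, LinearMap.mem_ker, LL_tmul, gF_apply (P := P), dotProduct_mulVec,
        ← mulVec_transpose, hs, neg_mulVec, hr, neg_zero, zero_dotProduct, mul_zero]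
  exact hle hz

theorem form_coord {Q : Submodule K (δ → K)} {π : Q →ₗ[K] (Fin n → K)}
    (e : ∀ u : Q, P *ᵥ (π u) = F *ᵥ (u : δ → K)) (q u : Q) :
    (q : δ → K) ⬝ᵥ (th J F X F *ᵥ (u : δ → K)) = gF J X P (π q) (π u) := by
  rw [gF_apply]
  unfold th
  have h1 : Fᵀ * J * (X * F) = Fᵀ * (J * X * F) := by simp only [Matrix.mul_assoc]
  have h2 : Pᵀ * (J * X) * P = Pᵀ * (J * X * P) := by simp only [Matrix.mul_assoc]
  rw [h1, h2, ← mulVec_mulVec _ Fᵀ, ← mulVec_mulVec _ Pᵀ, dotProduct_mulVec _ Fᵀ,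
    dotProduct_mulVec _ Pᵀ, vecMul_transpose, vecMul_transpose, e q, ← mulVec_mulVec _ (J * X) F,
    ← mulVec_mulVec _ (J * X) P, e u]

theorem ten_coord {Q1 Q2 : Submodule K (δ → K)}
    {π1 : Q1 →ₗ[K] (Fin n → K)} {π2 : Q2 →ₗ[K] (Fin n' → K)}
    (e1 : ∀ u : Q1, P *ᵥ (π1 u) = F *ᵥ (u : δ → K))
    (e2 : ∀ u : Q2, P' *ᵥ (π2 u) = F *ᵥ (u : δ → K)) (q : Q2) (u : Q1) (z : Q2 ⊗[K] Q1) :
    (q : δ → K) ⬝ᵥ ((th J F X F * ten Q2 Q1 z * th J F X F) *ᵥ (u : δ → K)) =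
      LL J X P P' (π2 q) (π1 u) (TensorProduct.map π2 π1 z) := by
  induction z using TensorProduct.induction_on with
  | zero => simp
  | tmul a b =>
    rw [TensorProduct.map_tmul, LL_tmul, ten_tmul, ← form_coord e2, ← form_coord e1,
      ← mulVec_mulVec, Matrix.mul_vecMulVec]
    have h3 : ∀ a b v : δ → K, vecMulVec a b *ᵥ v = (b ⬝ᵥ v) • a := by
      intro a b v
      funext i
      simp only [Matrix.mulVec, dotProduct, vecMulVec_apply, Pi.smul_apply, smul_eq_mul,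
        Finset.sum_mul]
      exact Finset.sum_congr rfl fun j _ => by ring
    rw [h3, dotProduct_smul, smul_eq_mul, mul_comm]
  | add x y hx hy =>
    rw [map_add, map_add, map_add, Matrix.mul_add, Matrix.add_mul, add_mulVec, dotProduct_add,
      hx, hy]

/-- **the relation at one parameter, in coordinates** -/
theorem rel_coord (hF : Data k arm J B N W) (hX : Skw J X)
    (b : BPkg arm J B F R X D ν l P A) (b' : BPkg arm J B F R X D ν' l P' A')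
    {Q1 Q2 : Submodule K (δ → K)}
    (h1 : ∀ r, ∀ u ∈ Q1, SGl1.om arm B (th J F X F) r *ᵥ u ∈ Q1)
    (h2 : ∀ r, ∀ u ∈ Q2, SGl1.om arm B (th J F X F) r *ᵥ u ∈ Q2)
    (p1 : ∀ u ∈ Q1, ∃ c : Fin 3 → (δ → K), (∀ r, c r ∈ Q1) ∧
      ∑ r, SGl1.om arm B (th J F X F) r *ᵥ (c r) = u)
    (p2 : ∀ u ∈ Q2, ∃ c : Fin 3 → (δ → K), (∀ r, c r ∈ Q2) ∧
      ∑ r, SGl1.om arm B (th J F X F) r *ᵥ (c r) = u)
    {π1 : Q1 →ₗ[K] (Fin n → K)} {π2 : Q2 →ₗ[K] (Fin n' → K)}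
    (e1 : ∀ u : Q1, P *ᵥ (π1 u) = F *ᵥ (u : δ → K))
    (e2 : ∀ u : Q2, P' *ᵥ (π2 u) = F *ᵥ (u : δ → K))
    (s1 : ∀ x : Fin n → K, ∃ u ∈ Q1, F *ᵥ u = P *ᵥ x)
    (s2 : ∀ x : Fin n' → K, ∃ u ∈ Q2, F *ᵥ u = P' *ᵥ x)
    (h20 : (2 : K) ≠ 0) {kk : Matrix ι δ K} (hk : kk ∈ N ⊓ W) (G : Submodule K (Matrix ι δ K))
    {ρ : K} (hρ0 : ρ ≠ 0) {H : Matrix ι δ K} {Pt : Matrix ι ι K × (Fin 3 → Matrix ι ι K)}
    {Ri : Matrix δ ι K} {c1 c2 : K} (hC : Ctx k arm J B N W H) (hP : Pt ∈ NN arm J N H)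
    (hV : Vert k arm J N W H Pt) (hR : H * Ri * H = H) (hc1 : c1 ≠ 0) (hc2 : c2 ≠ 0)
    (hcc : c1 * ρ = c2)
    (hRel : Rel F H kk (th J F X F) (th J H Pt.1 H) (th J H Pt.1 kk) Q1 Q2 c1 c2)
    (hw : ∀ z : Fin 3 → Q2 ⊗[K] Q1,
      ∑ r, Dual.defect (rs (SGl1.om arm B (th J F X F) r) Q1 (h1 r))
        (-(rs (SGl1.om arm B (th J F X F) r) Q2 (h2 r))) (ρ ^ 2) (z r) = 0 →
      (∀ r, Dual.defect ((A r).mulVecLin) (-((A' r).mulVecLin)) (ρ ^ 2)
          (TensorProduct.map π2 π1 (z r)) ∈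
        Dual.Rad (LinearMap.ker (Pᵀ * (J * X) * P).mulVecLin)
          (LinearMap.ker (P'ᵀ * (J * X) * P').mulVecLin)) →
      ∀ d : Derivation k K K,
        Mv k arm J N W H Pt.1 (fun r => ten Q2 Q1 (z r) + (ten Q2 Q1 (z r))ᵀ) d →
        wd arm J H Pt.1 (fun r => ten Q2 Q1 (z r) + (ten Q2 Q1 (z r))ᵀ) d kk ∈ G)
    (x : Fin 3 → (Fin n' → K) ⊗[K] (Fin n → K))
    (hx : Dual.Exact (fun s => (A s).mulVecLin) (fun s => (A' s).mulVecLin)
      (LinearMap.ker (Pᵀ * (J * X) * P).mulVecLin)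
      (LinearMap.ker (P'ᵀ * (J * X) * P').mulVecLin) (-ρ ^ 2) x) :
    ∑ t, TensorProduct.lift ((-1 : K) • bq arm J F X P' P t) (x t) +
      ρ • ∑ t, TensorProduct.lift ((bq arm J F X P P' t).flip) (x t) ∈ N ⊔ G := by
  have hdn : ∀ (r : Fin 3) (v : (Fin n' → K) ⊗[K] (Fin n → K)),
      Dual.defect ((A r).mulVecLin) (-((A' r).mulVecLin)) (ρ ^ 2) v =
        Dual.defect ((A r).mulVecLin) ((A' r).mulVecLin) (-ρ ^ 2) v := by
    intro r v
    rw [SULift.defect_neg]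
    rfl
  have hom1 : ∀ (r : Fin 3) (u : Q1),
      π1 (rs (SGl1.om arm B (th J F X F) r) Q1 (h1 r) u) = (A r).mulVecLin (π1 u) := by
    intro r u
    refine mul_inj b.inj ?_
    rw [e1, rs_coe, mulVec_mulVec, F_om hF, ← mulVec_mulVec, ← e1, mulVecLin_apply,
      mulVec_mulVec, mulVec_mulVec, b.act]
  have hom2 : ∀ (r : Fin 3) (u : Q2),
      π2 (rs (SGl1.om arm B (th J F X F) r) Q2 (h2 r) u) = (A' r).mulVecLin (π2 u) := by
    intro r u
    refine mul_inj b'.inj ?_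
    rw [e2, rs_coe, mulVec_mulVec, F_om hF, ← mulVec_mulVec, ← e2, mulVecLin_apply,
      mulVec_mulVec, mulVec_mulVec, b'.act]
  have hkill : ∀ (r : Fin 3) (u : δ → K), F *ᵥ u = 0 →
      SGl1.om arm B (th J F X F) r *ᵥ u = 0 := by
    intro r u hu
    have h3 : SGl1.om arm B (th J F X F) r = B * E K arm r * Fᵀ * J * X * F := by
      unfold SGl1.om th
      simp only [Matrix.mul_assoc]
    rw [h3, ← mulVec_mulVec, hu, mulVec_zero]
  obtain ⟨z, hz, hz'⟩ := SULift.exists_lift h1 h2 p1 p2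
    (π1 := π1) (π2 := π2)
    (fun x => by
      obtain ⟨u, hu, e⟩ := s1 x
      exact ⟨⟨u, hu⟩, mul_inj b.inj (by rw [e1]; exact e)⟩)
    (fun x => by
      obtain ⟨u, hu, e⟩ := s2 x
      exact ⟨⟨u, hu⟩, mul_inj b'.inj (by rw [e2]; exact e)⟩)
    (a := fun r => (A r).mulVecLin) (b := fun r => (A' r).mulVecLin) hom1 hom2
    (fun r u hu => hkill r u (by rw [← e1, hu, mulVec_zero]))
    (fun r u hu => hkill r u (by rw [← e2, hu, mulVec_zero])) hρ0 x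
    (by rw [Finset.sum_congr rfl fun r _ => hdn r (x r)]; exact hx.1)
  have h5 := first_pair hC h20 hR hP hV hk hRel hc1 hc2 hcc h1 h2 hz' G
    (hw z hz' fun r => by rw [hz r, hdn]; exact hx.2 r)
  rw [Finset.sum_congr rfl fun r _ => lift_qa_bq hF.J_symm hX e1 e2 r (z r),
    Finset.sum_congr rfl fun r _ => lift_qa_bq' hF.J_symm hX e1 e2 r (z r)] at h5
  simp only [hz] at h5
  exact h5

/-- **both generator families of a pair of blocks**, all hypotheses of the abstract lemma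
discharged: what is left is `hpar` (the moves). -/
theorem gens_of_par (hF : Data k arm J B N W) (hX : Skw J X) {I : K} (hI : I * I = -1)
    (b : BPkg arm J B F R X D ν l P A) (b' : BPkg arm J B F R X D ν' l P' A')
    {Q1 Q2 : Submodule K (δ → K)}
    (h1 : ∀ r, ∀ u ∈ Q1, SGl1.om arm B (th J F X F) r *ᵥ u ∈ Q1)
    (h2 : ∀ r, ∀ u ∈ Q2, SGl1.om arm B (th J F X F) r *ᵥ u ∈ Q2)
    (p1 : ∀ u ∈ Q1, ∃ c : Fin 3 → (δ → K), (∀ r, c r ∈ Q1) ∧
      ∑ r, SGl1.om arm B (th J F X F) r *ᵥ (c r) = u)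
    (p2 : ∀ u ∈ Q2, ∃ c : Fin 3 → (δ → K), (∀ r, c r ∈ Q2) ∧
      ∑ r, SGl1.om arm B (th J F X F) r *ᵥ (c r) = u)
    (f1 : ∀ u ∈ Q1, ∃ x, F *ᵥ u = P *ᵥ x) (f2 : ∀ u ∈ Q2, ∃ x, F *ᵥ u = P' *ᵥ x)
    (s1 : ∀ x : Fin n → K, ∃ u ∈ Q1, F *ᵥ u = P *ᵥ x)
    (s2 : ∀ x : Fin n' → K, ∃ u ∈ Q2, F *ᵥ u = P' *ᵥ x)
    (h20 : (2 : K) ≠ 0) {kk : Matrix ι δ K} (hk : kk ∈ N ⊓ W) (G : Submodule K (Matrix ι δ K))
    (hG : N ≤ G) {Λ : Set K} (hΛ : Λ.Infinite) (h0 : (0 : K) ∉ Λ)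
    (hpar : ∀ ρ ∈ Λ, ∃ (H : Matrix ι δ K) (Pt : Matrix ι ι K × (Fin 3 → Matrix ι ι K))
      (Ri : Matrix δ ι K) (c1 c2 : K), Ctx k arm J B N W H ∧ Pt ∈ NN arm J N H ∧
      Vert k arm J N W H Pt ∧ H * Ri * H = H ∧ c1 ≠ 0 ∧ c2 ≠ 0 ∧ c1 * ρ = c2 ∧
      Rel F H kk (th J F X F) (th J H Pt.1 H) (th J H Pt.1 kk) Q1 Q2 c1 c2 ∧
      ∀ z : Fin 3 → Q2 ⊗[K] Q1,
      ∑ r, Dual.defect (rs (SGl1.om arm B (th J F X F) r) Q1 (h1 r))
        (-(rs (SGl1.om arm B (th J F X F) r) Q2 (h2 r))) (ρ ^ 2) (z r) = 0 →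
      (∀ r, ∀ q ∈ Q2, ∀ u ∈ Q1, q ⬝ᵥ ((th J F X F *
        ten Q2 Q1 (Dual.defect (rs (SGl1.om arm B (th J F X F) r) Q1 (h1 r))
          (-(rs (SGl1.om arm B (th J F X F) r) Q2 (h2 r))) (ρ ^ 2) (z r)) *
          th J F X F) *ᵥ u) = 0) →
      ∀ d : Derivation k K K,
        Mv k arm J N W H Pt.1 (fun r => ten Q2 Q1 (z r) + (ten Q2 Q1 (z r))ᵀ) d →
        wd arm J H Pt.1 (fun r => ten Q2 Q1 (z r) + (ten Q2 Q1 (z r))ᵀ) d kk ∈ G) :
    Gens arm J B F X l G (PbK arm J B F R X D ν') (PbK arm J B F R X D ν) ∧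
      Gens arm J B F X l G (PbK arm J B F R X D ν) (PbK arm J B F R X D ν') := by
  obtain ⟨π1, e1⟩ := exists_pi b.inj f1
  obtain ⟨π2, e2⟩ := exists_pi b'.inj f2
  have hI0 : I ≠ 0 := by
    rintro rfl
    rw [mul_zero] at hI
    exact neg_ne_zero.2 one_ne_zero hI.symm
  have hNG : N ⊔ G = G := sup_eq_right.2 hG
  have hmd : ∀ (r : Fin 3) (ρ : K) (v : Q2 ⊗[K] Q1),
      TensorProduct.map π2 π1 (Dual.defect (rs (SGl1.om arm B (th J F X F) r) Q1 (h1 r))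
          (-(rs (SGl1.om arm B (th J F X F) r) Q2 (h2 r))) (ρ ^ 2) v) =
        Dual.defect ((A r).mulVecLin) (-((A' r).mulVecLin)) (ρ ^ 2)
          (TensorProduct.map π2 π1 v) := by
    intro r ρ v
    have hom1 : ∀ (u : Q1),
        π1 (rs (SGl1.om arm B (th J F X F) r) Q1 (h1 r) u) = (A r).mulVecLin (π1 u) := by
      intro u
      refine mul_inj b.inj ?_
      rw [e1, rs_coe, mulVec_mulVec, F_om hF, ← mulVec_mulVec, ← e1, mulVecLin_apply,
        mulVec_mulVec, mulVec_mulVec, b.act]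
    have hom2 : ∀ (u : Q2),
        π2 (rs (SGl1.om arm B (th J F X F) r) Q2 (h2 r) u) = (A' r).mulVecLin (π2 u) := by
      intro u
      refine mul_inj b'.inj ?_
      rw [e2, rs_coe, mulVec_mulVec, F_om hF, ← mulVec_mulVec, ← e2, mulVecLin_apply,
        mulVec_mulVec, mulVec_mulVec, b'.act]
    induction v using TensorProduct.induction_on with
    | zero => simp
    | tmul p q =>
      rw [Dual.defect_tmul, map_sub, map_smul, TensorProduct.map_tmul, TensorProduct.map_tmul,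
        TensorProduct.map_tmul, Dual.defect_tmul, hom1, LinearMap.neg_apply, map_neg, hom2,
        LinearMap.neg_apply]
    | add p q hp hq => rw [map_add, map_add, map_add, map_add, hp, hq]
  refine lev1 b b' (Λ := (fun ρ => I * ρ) '' Λ) (hΛ.image ?_) ?_ (-1) (-I)
    (neg_ne_zero.2 one_ne_zero) (neg_ne_zero.2 hI0) G ?_
  · intro x _ y _ hxy
    exact mul_left_cancel₀ hI0 hxy
  · rintro ⟨ρ, hρ, h3⟩
    rcases mul_eq_zero.1 h3 with h4 | h4
    · exact hI0 h4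
    · exact h0 (h4 ▸ hρ)
  · rintro _ ⟨ρ, hρ, rfl⟩ x hx
    have hρ0 : ρ ≠ 0 := fun h3 => h0 (h3 ▸ hρ)
    have hsq : (I * ρ) ^ 2 = -ρ ^ 2 := by
      rw [mul_pow, sq I, hI, neg_one_mul]
    simp only at hx ⊢
    rw [hsq] at hx
    obtain ⟨H, Pt, Ri, c1, c2, hC, hP, hV, hR, hc1, hc2, hcc, hRel, hw⟩ := hpar ρ hρ
    have h5 := rel_coord hF hX b b' h1 h2 p1 p2 e1 e2 s1 s2 h20 hk G hρ0 hC hP hV hR hc1 hc2 hcc
      hRel (fun z hz hz2 d hd => hw z hz (fun r q hq u hu => by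
        have h6 := ten_coord e1 e2 (X := X) (J := J) ⟨q, hq⟩ ⟨u, hu⟩
          (Dual.defect (rs (SGl1.om arm B (th J F X F) r) Q1 (h1 r))
          (-(rs (SGl1.om arm B (th J F X F) r) Q2 (h2 r))) (ρ ^ 2) (z r))
        rw [h6, hmd]
        exact LL_rad b.skew _ _ (hz2 r)) d hd) x hx
    rw [hNG] at h5
    have h7 : (I * ρ) • ∑ t, TensorProduct.lift ((-I) • (bq arm J F X P P' t).flip) (x t) =
        ρ • ∑ t, TensorProduct.lift ((bq arm J F X P P' t).flip) (x t) := by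
      have h8 : ∀ t, TensorProduct.lift ((-I) • (bq arm J F X P P' t).flip) (x t) =
          (-I) • TensorProduct.lift ((bq arm J F X P P' t).flip) (x t) := by
        intro t
        have : TensorProduct.lift ((-I) • (bq arm J F X P P' t).flip) =
            (-I) • TensorProduct.lift ((bq arm J F X P P' t).flip) :=
          TensorProduct.ext' fun a b => by simp
        rw [this, LinearMap.smul_apply]
      rw [Finset.sum_congr rfl fun t _ => h8 t, ← Finset.smul_sum, smul_smul]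
      congr 1
      linear_combination -ρ * hI
    rw [h7]
    exact h5

end coord

end Crest.Agent.R172.SRel269
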