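import Crest.Agent.R172.SUX7
import Crest.Agent.R172.SUX6t515
import Crest.Agent.R172.SWd275
import Crest.Agent.R172.SB4x117
import Crest.Agent.R172.SLevA455
import Crest.Agent.R172.SDec2
import Crest.Agent.R172.SDeg255

/-!
Row 172 (S0260), (t2), level 2: the relation `Rel2` at one good parameter, from the move, the
decorations and the even part of the first level.
-/

set_option autoImplicit false
set_option linter.unusedSectionVars false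
set_option linter.unusedFintypeInType false
set_option linter.unusedDecidableInType false
set_option linter.unusedVariables false
set_option maxHeartbeats 1600000

namespace Crest.Agent.R172.SRel275

open Matrix Module Crest.Agent.R172.FO Crest.Agent.R172.Qt Crest.Agent.R172.SpS
open Crest.Agent.R172.STop Crest.Agent.R172.SCM Crest.Agent.R172.SInst
open Crest.Agent.R172.SEnd2 (PC PhS)
open Crest.Agent.R172.SUX (D3 th ZY wd Mv Fr I1 I2 A11 A22 WCls)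
open Crest.Agent.R172.SUXt (QQ5t)
open Crest.Agent.R172.PL (CoreM)
open Crest.Agent.R172.SLev0 (PbK)
open Crest.Agent.R172.SLev1h455 (QGd)

variable {ι : Type} [Fintype ι] [DecidableEq ι] {δ : Type} [Fintype δ] [DecidableEq δ]
variable {K : Type} [Field K] [Algebra ℂ K] [IsAlgClosed K]
variable {arm : δ → Fin 3} {J : Matrix ι ι K} {B : Matrix δ δ K} {N W : Submodule K (Matrix ι δ K)}
  {F f : Matrix ι δ K} {P : Matrix ι ι K × (Fin 3 → Matrix ι ι K)} {R : Matrix δ ι K}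
  {D : End K (CoreM (PhS arm J B F R P.1))} {l : Fin 3 → ℕ}

/-- the rows of `w` at `(H, Pt)` from the family output -/
theorem row_of {H : Matrix ι δ K} {Pt : Matrix ι ι K × (Fin 3 → Matrix ι ι K)}
    {dY : Derivation ℂ K K} (hH : Ctx ℂ arm J B N W H) (hPt : Pt ∈ NN arm J N H)
    (hrw : ∀ w : Matrix ι δ K, Hᵀ * J * w = 0 → (Pt.1 * H)ᵀ * J * w = -(Hᵀ * J * w.map dY))
    {w : Matrix ι δ K} (hw : Hᵀ * J * w = 0) : Hᵀ * J * (Pt.1 * w) = Hᵀ * J * w.map dY := by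
  have h1 := hrw w hw
  have h2 : Pt.1ᵀ * J = -(J * Pt.1) := by
    have h3 := hPt.1
    first
      | exact h3
      | exact eq_neg_of_add_eq_zero_left h3
  rw [transpose_mul, Matrix.mul_assoc Hᵀ, h2, Matrix.mul_neg, Matrix.neg_mul, neg_inj] at h1
  rw [← h1]
  simp only [Matrix.mul_assoc]

/-- **the relation of level 2 at one good parameter.** -/
theorem rel_mem (S : Setup arm J B N W F f P R D l) {ν ν' : K} (hne : ν ≠ ν')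
    {n1 n2 : ℕ} {Q1 : Matrix ι (Fin n1) K} {A1 : Fin 3 → Matrix (Fin n1) (Fin n1) K}
    {Q2 : Matrix ι (Fin n2) K} {A2 : Fin 3 → Matrix (Fin n2) (Fin n2) K}
    (b1 : BPkg arm J B F R P.1 D ν l Q1 A1) (b2 : BPkg arm J B F R P.1 D ν' l Q2 A2)
    {m1 m2 : ℕ} {U1 : Matrix δ (Fin m1) K} {U2 : Matrix δ (Fin m2) K}
    {a1 : Fin 3 → Matrix (Fin m1) (Fin m1) K} {a2 : Fin 3 → Matrix (Fin m2) (Fin m2) K}
    (hU1 : UFr.Cq (QQb S ν) U1) (hs1 : ∀ u ∈ QQb S ν, ∃ x, u = U1 *ᵥ x)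
    (hm1 : ∀ x, U1 *ᵥ x ∈ QQb S ν)
    (ha1 : ∀ s, B * E K arm s * (Fᵀ * J * (P.1 * F)) * U1 = U1 * a1 s)
    (hU2 : UFr.Cq (QQb S ν') U2) (hs2 : ∀ u ∈ QQb S ν', ∃ x, u = U2 *ᵥ x)
    (hm2 : ∀ x, U2 *ᵥ x ∈ QQb S ν')
    (ha2 : ∀ s, B * E K arm s * (Fᵀ * J * (P.1 * F)) * U2 = U2 * a2 s)
    {t : ℂ} {Pt : Matrix ι ι K × (Fin 3 → Matrix ι ι K)} {dY : Derivation ℂ K K}
    (hH : Ctx ℂ arm J B N W (F + (algebraMap ℂ K t) • f))
    (hPt : Pt ∈ NN arm J N (F + (algebraMap ℂ K t) • f))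
    (hYf : ∀ f' ∈ N ⊓ W, (F + (algebraMap ℂ K t) • f)ᵀ * J * (Pt.1 * f') =
      (F + (algebraMap ℂ K t) • f)ᵀ * J * f'.map dY)
    (hPF : (F + (algebraMap ℂ K t) • f)ᵀ * J * (Pt.1 * F) =
      (F + (algebraMap ℂ K t) • f)ᵀ * J * (P.1 * F))
    (hrw : ∀ w : Matrix ι δ K, (F + (algebraMap ℂ K t) • f)ᵀ * J * w = 0 →
      (Pt.1 * (F + (algebraMap ℂ K t) • f))ᵀ * J * w =
        -((F + (algebraMap ℂ K t) • f)ᵀ * J * w.map dY))
    (hc : ∀ κ, D.maxGenEigenspace κ ≠ ⊥ → 1 + algebraMap ℂ K t * κ ≠ 0)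
    (hc1 : 1 + algebraMap ℂ K t * ν ≠ 0) (hc2 : 1 + algebraMap ℂ K t * ν' ≠ 0)
    {Y : Fin 3 → Matrix δ δ K} {d : Derivation ℂ K K}
    (m : Mv ℂ arm J N W (F + (algebraMap ℂ K t) • f) Pt.1 Y d)
    {Γ1 : Matrix (Fin m1) (Fin m1) K} {Γ2 : Matrix (Fin m2) (Fin m2) K}
    {y y' : D3 K (Fin m1) (Fin m2)}
    (hY : ∀ s, ∀ v ∈ W, v * Y s * (F + (algebraMap ℂ K t) • f)ᵀ =
      v * (U2 * y'.1 s * U1ᵀ + U1 * (y'.1 s)ᵀ * U2ᵀ) * (F + (algebraMap ℂ K t) • f)ᵀ)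
    (hN2 : ∀ v ∈ W, v * (U2.map d + ZY arm J (F + (algebraMap ℂ K t) • f) Pt.1 Y * U2) =
      v * (U2 * Γ2 + (1 + algebraMap ℂ K t * ν') ^ 2 • (U1 * y'.2.1)))
    (hN1 : ∀ v ∈ W, v * (U1.map d + ZY arm J (F + (algebraMap ℂ K t) • f) Pt.1 Y * U1) =
      v * (U1 * Γ1 + (1 + algebraMap ℂ K t * ν) ^ 2 • (U2 * y'.2.2)))
    {c c' : K} (hy : SDec.Dec F (Fᵀ * J * (P.1 * F)) U1 U2 a1 a2 c y)
    (hy' : SDec.Dec F (Fᵀ * J * (P.1 * F)) U1 U2 a1 a2 c' y')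
    (hN3 : ∀ κ, κ ≠ ν → κ ≠ ν' → ∀ u ∈ QQb S κ,
      SUB.nab arm J (F + (algebraMap ℂ K t) • f) Pt.1 Y d u ∈ QQb S κ)
    (hm : I1 arm F (Fᵀ * J * (P.1 * F)) U1 U2 y ∈
      QQ5t J N W F f dY (Fᵀ * J * (P.1 * F)) U1 U2
        (fun κ : {κ : K // κ ≠ ν ∧ κ ≠ ν'} => QQb S κ)) :
    SDec.Rel2 arm F (Fᵀ * J * (P.1 * F)) U1 U2
      ((1 + algebraMap ℂ K t * ν') / (1 + algebraMap ℂ K t * ν)) y y' ∈ QGd S := by
  classical
  obtain ⟨X, β0, γ0⟩ := y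
  obtain ⟨X', β, γ⟩ := y'
  obtain ⟨w, hw, h1, h2, h3, μ1, μ2, ν1, ν2, h4, h5, h6, h7, h8⟩ := SUXt.even_data hm
  choose μ3 hμ3 using h8
  have fr := (fr_k1 S hYf hPF hne hc1 hc2 hU1 hU2).1
  obtain ⟨C1, u1⟩ := SB4x.exists_FU S b1 hU1 hs1 hm1 ha1
  obtain ⟨C2, u2⟩ := SB4x.exists_FU S b2 hU2 hs2 hm2 ha2
  have hFX : ∀ s, X s ∈ SL2g560.FR (a2 s) (a1 s) (SL2g560.rad (Fᵀ * J * (P.1 * F)) U2)
      (SL2g560.rad (Fᵀ * J * (P.1 * F)) U1) (l s) := fun s =>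
    SB4x.filt_of_arm S u1 b1 u2 b2 s (hy.arm s)
  have hFX' : ∀ s, X' s ∈ SL2g560.FR (a2 s) (a1 s) (SL2g560.rad (Fᵀ * J * (P.1 * F)) U2)
      (SL2g560.rad (Fᵀ * J * (P.1 * F)) U1) (l s) := fun s =>
    SB4x.filt_of_arm S u1 b1 u2 b2 s (hy'.arm s)
  obtain ⟨g21, g12⟩ := SLevA455.gens0 S hne b1 b2
  have hHc : ∀ w : Matrix ι δ K, Fᵀ * J * w = 0 → fᵀ * J * w = 0 →
      (F + (algebraMap ℂ K t) • f)ᵀ * J * w = 0 := by
    intro w hw1 hw2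
    rw [transpose_add, transpose_smul, Matrix.add_mul, Matrix.add_mul, Matrix.smul_mul,
      Matrix.smul_mul, hw1, hw2, smul_zero, add_zero]
  have hwp := hHc w h1 h2
  have cw : WCls arm J N W F f dY (Fᵀ * J * (P.1 * F)) U1 U2 X β0 γ0 w μ1 μ2 ν1 ν2 :=
    ⟨hw, h1, h2, h3, h4, h5, h6, h7⟩
  have hwQ : wd arm J (F + (algebraMap ℂ K t) • f) Pt.1 Y d w ∈ QGd S := by
    refine SWd275.wd_QG (ν := ν) (ν' := ν') (ctx S) S.hR S.hD (S.hNil F S.hF) S.hP (hfNW S)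
      hH hPt m fr hs1 hm1 hs2 hm2 hN2 hN1 hy'.rb hy'.rk hy.rk ?_ ?_ hw hwp
      (μ := fun κ => if h1 : κ = ν then μ1 else if h2 : κ = ν' then μ2 else μ3 ⟨κ, h1, h2⟩)
      ?_ ?_ ?_ ?_ ?_
    · intro κ hκ
      refine hc κ fun hb => hκ ?_
      exact SDeg255.Qb_bot S hb
    · intro κ e1 e2 u hu
      exact ⟨_, hN3 κ e1 e2 u hu, fun v _ => rfl⟩
    · simpa using h4
    · simpa [hne.symm] using h5
    · intro κ e1 e2 u hu
      simpa [e1, e2] using hμ3 ⟨κ, e1, e2⟩ u hu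
    · intro μ
      exact le_rfl
    · rw [sub_self]
      exact N.zero_mem
  exact SUX.second_mem hH hPt m fr hY hN2 hN1 (ctx S).mem (hH.perp F (ctx S).mem) le_rfl hHc
    (fun w _ hw0 => row_of hH hPt hrw hw0) cw SLev0.N_le_QG hwQ
    (Submodule.sum_mem _ fun s _ => SB4x.part21 u1 b1 u2 b2 g21 hH hPt m fr hY hN2 hN1
      (ctx S).mem.2 ha1 ha2 s (hFX s) (hFX' s) _ _ _)
    (Submodule.sum_mem _ fun s _ => SB4x.part12 u1 b1 u2 b2 g12 s (hFX' s))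

end Crest.Agent.R172.SRel275
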