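import Crest.Agent.R172.SLev0
import Crest.Agent.R172.SGl2

/-!
Row 172 (S0260), S-side (t2), level 1: from the relation `SGl1.relV` (submodules `PbK ν` of `K^ι`) to
the generators `SLev0.Gens` of the pair of blocks.
-/

set_option autoImplicit false
set_option linter.unusedSectionVars false

namespace Crest.Agent.R172.SRel514

open Matrix Module Crest.Agent.R172.FO Crest.Agent.R172.Qt Crest.Agent.R172.SpS
open Crest.Agent.R172.SEnd Crest.Agent.R172.SEnd2 Crest.Agent.R172.SEnd3 Crest.Agent.R172.SBlk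
open Crest.Agent.R172.SEnd4 Crest.Agent.R172.SEndW Crest.Agent.R172.SEnd5 Crest.Agent.R172.SCM
open Crest.Agent.R172.SC (PB)
open Crest.Agent.R172.PL (Wk Ainf Rad CoreM coreOp resOp)
open Crest.Agent.R172.SLev0
open scoped TensorProduct

variable {ι : Type*} [Fintype ι] [DecidableEq ι] {δ : Type*} [Fintype δ] [DecidableEq δ]
variable {K : Type*} [Field K]
variable {arm : δ → Fin 3} {J : Matrix ι ι K} {B : Matrix δ δ K}
  {g : Matrix ι δ K} {R : Matrix δ ι K} {X : Matrix ι ι K}
  {D : End K (CoreM (PhS arm J B g R X))} {ν ν' : K} {l : Fin 3 → ℕ}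
  {n n' : ℕ} {P : Matrix ι (Fin n) K} {P' : Matrix ι (Fin n') K}
  {A : Fin 3 → Matrix (Fin n) (Fin n) K} {A' : Fin 3 → Matrix (Fin n') (Fin n') K}

/-- coordinates of the block -/
noncomputable def cd (b : BPkg arm J B g R X D ν l P A) :
    (Fin n → K) →ₗ[K] PbK arm J B g R X D ν :=
  P.mulVecLin.codRestrict _ fun x => coord_mem b x

theorem cd_coe (b : BPkg arm J B g R X D ν l P A) (x : Fin n → K) :
    ((cd b x : PbK arm J B g R X D ν) : ι → K) = P *ᵥ x := rfl

/-- `Φ_r` preserves the block -/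
theorem st (b : BPkg arm J B g R X D ν l P A) (r : Fin 3) :
    ∀ a ∈ PbK arm J B g R X D ν, (M arm B r g g * (J * X)) *ᵥ a ∈ PbK arm J B g R X D ν := by
  intro a ha
  obtain ⟨x, rfl⟩ := exists_coord b ha
  rw [mulVec_mulVec, b.act, ← mulVec_mulVec]
  exact coord_mem b _

theorem cd_act (b : BPkg arm J B g R X D ν l P A) (r : Fin 3) (x : Fin n → K) :
    cd b ((A r).mulVecLin x) =
      SGl1.rs (M arm B r g g * (J * X)) (PbK arm J B g R X D ν) (st b r) (cd b x) := by
  apply Subtype.ext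
  rw [cd_coe, SGl1.rs_coe, cd_coe, mulVecLin_apply, mulVec_mulVec, mulVec_mulVec, b.act]

/-- the radical of the block -/
def RdB (arm : δ → Fin 3) (J : Matrix ι ι K) (B : Matrix δ δ K) (g : Matrix ι δ K)
    (R : Matrix δ ι K) (X : Matrix ι ι K) (D : End K (CoreM (PhS arm J B g R X))) (ν : K) :
    Submodule K (PbK arm J B g R X D ν) :=
  (Rd (J * X) (PbK arm J B g R X D ν)).comap (PbK arm J B g R X D ν).subtype

theorem cd_rad (b : BPkg arm J B g R X D ν l P A) {x : Fin n → K}
    (hx : x ∈ LinearMap.ker (Pᵀ * (J * X) * P).mulVecLin) :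
    cd b x ∈ RdB arm J B g R X D ν := by
  rw [LinearMap.mem_ker, mulVecLin_apply] at hx
  refine ⟨coord_mem b x, fun c hc => ?_⟩
  obtain ⟨y, rfl⟩ := exists_coord b hc
  change (P *ᵥ y) ⬝ᵥ ((J * X) *ᵥ (P *ᵥ x)) = 0
  rw [form_gg, hx, dotProduct_zero]

theorem map_rad (b : BPkg arm J B g R X D ν l P A) (b' : BPkg arm J B g R X D ν' l P' A')
    {z : (Fin n' → K) ⊗[K] (Fin n → K)}
    (hz : z ∈ Dual.Rad (LinearMap.ker (Pᵀ * (J * X) * P).mulVecLin)
      (LinearMap.ker (P'ᵀ * (J * X) * P').mulVecLin)) :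
    TensorProduct.map (cd b') (cd b) z ∈
      Dual.Rad (RdB arm J B g R X D ν) (RdB arm J B g R X D ν') := by
  have h : Dual.Rad (LinearMap.ker (Pᵀ * (J * X) * P).mulVecLin)
      (LinearMap.ker (P'ᵀ * (J * X) * P').mulVecLin) ≤
      (Dual.Rad (RdB arm J B g R X D ν) (RdB arm J B g R X D ν')).comap
        (TensorProduct.map (cd b') (cd b)) := by
    refine sup_le ?_ ?_
    · rw [Submodule.span_le]
      rintro _ ⟨r, hr, q, rfl⟩
      change TensorProduct.map (cd b') (cd b) _ ∈ Dual.Rad _ _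
      rw [TensorProduct.map_tmul]
      exact Submodule.mem_sup_left (Submodule.subset_span ⟨_, cd_rad b' hr, _, rfl⟩)
    · rw [Submodule.span_le]
      rintro _ ⟨q, r, hr, rfl⟩
      change TensorProduct.map (cd b') (cd b) _ ∈ Dual.Rad _ _
      rw [TensorProduct.map_tmul]
      exact Submodule.mem_sup_right (Submodule.subset_span ⟨_, _, cd_rad b hr, rfl⟩)
  exact h hz

theorem defect_neg {V1 V2 : Type*} [AddCommGroup V1] [Module K V1] [AddCommGroup V2] [Module K V2]
    (a : End K V1) (b : End K V2) (c : K) (z : V2 ⊗[K] V1) :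
    Dual.defect a (-b) c z = Dual.defect a b (-c) z := by
  induction z using TensorProduct.induction_on with
  | zero => simp
  | tmul p q =>
    rw [Dual.defect_tmul, Dual.defect_tmul, LinearMap.neg_apply, TensorProduct.neg_tmul, smul_neg,
      neg_smul]
  | add p q hp hq => rw [map_add, hp, hq, map_add]

theorem bq_eq (hJX : (J * X)ᵀ = -(J * X)) {T : Matrix δ ι K} (hT : T = gᵀ * (J * X))
    {m m' : ℕ} (U : Matrix ι (Fin m) K) (U' : Matrix ι (Fin m') K) (s : Fin 3) (x : Fin m → K)
    (y : Fin m' → K) : bq arm J g X U U' s x y =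
      -(vecMulVec (U *ᵥ x) (T *ᵥ (U' *ᵥ y)) * E K arm s) := by
  rw [bq_apply, Matrix.mul_assoc (vecMulVec (U *ᵥ x) (U' *ᵥ y)), Matrix.vecMulVec_mul,
    ← Matrix.mulVec_transpose, transpose_mul, hJX, Matrix.mul_neg, ← hT, neg_mulVec,
    vecMulVec_neg, Matrix.neg_mul]

theorem lift1 (hJX : (J * X)ᵀ = -(J * X)) {T : Matrix δ ι K} (hT : T = gᵀ * (J * X))
    (b : BPkg arm J B g R X D ν l P A) (b' : BPkg arm J B g R X D ν' l P' A') (s : Fin 3)
    (z : (Fin n' → K) ⊗[K] (Fin n → K)) :
    TensorProduct.lift (SGl1.qv arm T (PbK arm J B g R X D ν') (PbK arm J B g R X D ν) s)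
      (TensorProduct.map (cd b') (cd b) z) =
      TensorProduct.lift ((-1 : K) • bq arm J g X P' P s) z := by
  induction z using TensorProduct.induction_on with
  | zero => simp
  | tmul x y =>
    rw [TensorProduct.map_tmul, TensorProduct.lift.tmul, TensorProduct.lift.tmul, SGl1.qv_apply,
      LinearMap.smul_apply, LinearMap.smul_apply, bq_eq hJX hT, neg_one_smul, neg_neg, cd_coe,
      cd_coe]
  | add x y hx hy => rw [map_add, map_add, hx, hy, map_add]

theorem lift2 (hJX : (J * X)ᵀ = -(J * X)) {T : Matrix δ ι K} (hT : T = gᵀ * (J * X))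
    (b : BPkg arm J B g R X D ν l P A) (b' : BPkg arm J B g R X D ν' l P' A') (s : Fin 3)
    (z : (Fin n' → K) ⊗[K] (Fin n → K)) :
    TensorProduct.lift (-(SGl1.qv arm T (PbK arm J B g R X D ν) (PbK arm J B g R X D ν') s).flip)
      (TensorProduct.map (cd b') (cd b) z) =
      TensorProduct.lift ((bq arm J g X P P' s).flip) z := by
  induction z using TensorProduct.induction_on with
  | zero => simp
  | tmul x y =>
    rw [TensorProduct.map_tmul, TensorProduct.lift.tmul, TensorProduct.lift.tmul,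
      LinearMap.neg_apply, LinearMap.neg_apply, LinearMap.flip_apply, SGl1.qv_apply,
      LinearMap.flip_apply, bq_eq hJX hT, cd_coe, cd_coe]
  | add x y hx hy => rw [map_add, map_add, hx, hy, map_add]

/-- **the generators of a pair of blocks from `SGl1.relV`.** -/
theorem lev1V (hJX : (J * X)ᵀ = -(J * X)) {T : Matrix δ ι K} (hT : T = gᵀ * (J * X))
    (b : BPkg arm J B g R X D ν l P A) (b' : BPkg arm J B g R X D ν' l P' A')
    {I : K} (hI : I * I = -1) {Λ : Set K} (hΛ : Λ.Infinite) (h0 : (0 : K) ∉ Λ)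
    (Q : Submodule K (Matrix ι δ K))
    (h : ∀ ρ ∈ Λ, ∀ x : Fin 3 → PbK arm J B g R X D ν' ⊗[K] PbK arm J B g R X D ν,
      Dual.Exact (fun r => SGl1.rs (M arm B r g g * (J * X)) (PbK arm J B g R X D ν) (st b r))
        (fun r => -(SGl1.rs (M arm B r g g * (J * X)) (PbK arm J B g R X D ν') (st b' r)))
        (RdB arm J B g R X D ν) (RdB arm J B g R X D ν') (ρ ^ 2) x →
      ∑ t, TensorProduct.lift
          (SGl1.qv arm T (PbK arm J B g R X D ν') (PbK arm J B g R X D ν) t) (x t) +
        ρ • ∑ t, TensorProduct.lift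
          (-(SGl1.qv arm T (PbK arm J B g R X D ν) (PbK arm J B g R X D ν') t).flip) (x t) ∈ Q) :
    SLev0.Gens arm J B g X l Q (PbK arm J B g R X D ν') (PbK arm J B g R X D ν) ∧
      SLev0.Gens arm J B g X l Q (PbK arm J B g R X D ν) (PbK arm J B g R X D ν') := by
  have hI0 : I ≠ 0 := by
    rintro rfl
    rw [mul_zero] at hI
    exact neg_ne_zero.2 one_ne_zero hI.symm
  have hinj : Function.Injective (fun ρ : K => I * ρ) := fun a c hac => mul_left_cancel₀ hI0 hac
  refine SLev0.lev1 b b' (Λ := (fun ρ : K => I * ρ) '' Λ) (hΛ.image hinj.injOn) ?_ (-1) (-I)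
    (neg_ne_zero.2 one_ne_zero) (neg_ne_zero.2 hI0) Q ?_
  · rintro ⟨ρ, hρ, hρ0⟩
    have : ρ = 0 := (mul_eq_zero.1 hρ0).resolve_left hI0
    exact h0 (this ▸ hρ)
  · rintro _ ⟨ρ, hρ, rfl⟩ x hx
    have hsq : (I * ρ) ^ 2 = -ρ ^ 2 := by
      rw [mul_pow, pow_two I, hI, neg_one_mul]
    simp only [hsq] at hx
    have hmap : ∀ r, Dual.defect
        (SGl1.rs (M arm B r g g * (J * X)) (PbK arm J B g R X D ν) (st b r))
        (-(SGl1.rs (M arm B r g g * (J * X)) (PbK arm J B g R X D ν') (st b' r))) (ρ ^ 2)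
        (TensorProduct.map (cd b') (cd b) (x r)) =
        TensorProduct.map (cd b') (cd b)
          (Dual.defect ((A r).mulVecLin) ((A' r).mulVecLin) (-ρ ^ 2) (x r)) := by
      intro r
      rw [defect_neg]
      exact (SGl1.map_defect (a := fun r => (A r).mulVecLin) (b := fun r => (A' r).mulVecLin)
        (A := fun r => SGl1.rs (M arm B r g g * (J * X)) (PbK arm J B g R X D ν) (st b r))
        (Bo := fun r => SGl1.rs (M arm B r g g * (J * X)) (PbK arm J B g R X D ν') (st b' r))
        (fun t u => cd_act b t u) (fun t u => cd_act b' t u) (-ρ ^ 2) r (x r)).symm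
    have h1 := h ρ hρ (fun r => TensorProduct.map (cd b') (cd b) (x r)) ⟨by
      rw [Finset.sum_congr rfl fun r _ => hmap r, ← map_sum]
      have := hx.1
      rw [this, map_zero], fun r => by
      rw [hmap r]
      exact map_rad b b' (hx.2 r)⟩
    rw [Finset.sum_congr rfl fun t _ => lift1 hJX hT b b' t (x t),
      Finset.sum_congr rfl fun t _ => lift2 hJX hT b b' t (x t)] at h1
    have e2 : ∀ t, TensorProduct.lift ((-I) • (bq arm J g X P P' t).flip) (x t) =
        (-I) • TensorProduct.lift ((bq arm J g X P P' t).flip) (x t) := by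
      intro t
      induction x t using TensorProduct.induction_on with
      | zero => simp
      | tmul x y => rw [TensorProduct.lift.tmul, TensorProduct.lift.tmul, LinearMap.smul_apply,
          LinearMap.smul_apply]
      | add x y hx hy => rw [map_add, map_add, hx, hy, smul_add]
    rw [Finset.sum_congr rfl fun t _ => e2 t, ← Finset.smul_sum, smul_smul]
    have e3 : I * ρ * -I = ρ := by
      have : I * ρ * -I = -(I * I) * ρ := by ring
      rw [this, hI, neg_neg, one_mul]
    rw [e3]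
    exact h1

end Crest.Agent.R172.SRel514
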