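import Crest.Agent.R172.SRelC
import Crest.Agent.R172.UBlk
import Crest.Agent.R172.STop

/-!
Row 172 (S0260), S-side (t2), level 1: the generators of two different blocks in a good class, in the
letters of `STop.Setup`; the only input is the good class of the corrections.
-/

set_option autoImplicit false
set_option linter.unusedSectionVars false
set_option linter.unusedFintypeInType false
set_option linter.unusedDecidableInType false

namespace Crest.Agent.R172.SRelD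

open Matrix Module TensorProduct Crest.Agent.R172.FO Crest.Agent.R172.Qt Crest.Agent.R172.SpS
  Crest.Agent.R172.Om Crest.Agent.R172.SUX Crest.Agent.R172.SGl1
open Crest.Agent.R172.SCM (BPkg)
open Crest.Agent.R172.SEnd2 (PhS)
open Crest.Agent.R172.PL (CoreM)
open Crest.Agent.R172.UBlk (Qb Qb_stable Qb_exists Qb_map Qb_rel)
open Crest.Agent.R172.SC (PB)
open LinearMap (ker range)

variable {ι : Type} [Fintype ι] [DecidableEq ι] {δ : Type} [Fintype δ] [DecidableEq δ]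
variable {K : Type} [Field K] [Algebra ℂ K] [IsAlgClosed K]
variable {arm : δ → Fin 3} {J : Matrix ι ι K} {B : Matrix δ δ K} {N W : Submodule K (Matrix ι δ K)}
  {F f : Matrix ι δ K} {P : Matrix ι ι K × (Fin 3 → Matrix ι ι K)} {R : Matrix δ ι K}
  {D : End K (CoreM (PhS arm J B F R P.1))} {l : Fin 3 → ℕ}

/-- the context at the base point -/
theorem ctx (S : STop.Setup arm J B N W F f P R D l) : Ctx ℂ arm J B N W F := S.hCtx F S.hF

/-- the `U`-level block of `ν` -/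
noncomputable abbrev QB (S : STop.Setup arm J B N W F f P R D l) (ν : K) : Submodule K (δ → K) :=
  Qb (ctx S).data S.hR P.1 D ν

section blk

variable (S : STop.Setup arm J B N W F f P R D l) {ν : K} {n : ℕ} {Q : Matrix ι (Fin n) K}
  {A : Fin 3 → Matrix (Fin n) (Fin n) K}

theorem stable (ν : K) : ∀ r, ∀ u ∈ QB S ν, om arm B (th J F P.1 F) r *ᵥ u ∈ QB S ν :=
  fun r _ hu => Qb_stable (ctx S) S.hR S.hD r hu

theorem perfect (ν : K) : ∀ u ∈ QB S ν, ∃ c : Fin 3 → (δ → K), (∀ r, c r ∈ QB S ν) ∧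
    ∑ r, om arm B (th J F P.1 F) r *ᵥ (c r) = u :=
  fun _ hu => Qb_exists (ctx S) S.hR S.hD hu

theorem rel_f {u : δ → K} (hu : u ∈ QB S ν) : f *ᵥ u = ν • F *ᵥ u :=
  (Qb_rel (ctx S) S.hR S.hD (S.hNil F S.hF) S.hP S.hf.1 hu).1

theorem to_P (b : BPkg arm J B F R P.1 D ν l Q A) : ∀ u ∈ QB S ν, ∃ x, F *ᵥ u = Q *ᵥ x := by
  intro u hu
  have h1 : gS F u ∈ PB (PhS arm J B F R P.1) D ν := by
    have h2 := Qb_map (ctx S) S.hR S.hD ν
    have h3 : gS F u ∈ (QB S ν).map (gS F) := ⟨u, hu, rfl⟩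
    rwa [h2] at h3
  obtain ⟨x, hx⟩ := b.span _ h1
  exact ⟨x, hx⟩

theorem of_P (b : BPkg arm J B F R P.1 D ν l Q A) : ∀ x, ∃ u ∈ QB S ν, F *ᵥ u = Q *ᵥ x := by
  intro x
  obtain ⟨v, hv, hx⟩ := b.mem x
  have h2 := Qb_map (ctx S) S.hR S.hD ν
  rw [← h2] at hv
  obtain ⟨u, hu, rfl⟩ := hv
  exact ⟨u, hu, hx⟩

/-- the coordinates of a `U`-level block -/
theorem exists_pi (b : BPkg arm J B F R P.1 D ν l Q A) : ∃ π : QB S ν →ₗ[K] (Fin n → K),
    (∀ u : QB S ν, Q *ᵥ (π u) = F *ᵥ (u : δ → K)) ∧ Function.Surjective π ∧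
    ∀ r (u : QB S ν), π (rs (om arm B (th J F P.1 F) r) (QB S ν) (stable S ν r) u) =
      (A r).mulVecLin (π u) := by
  obtain ⟨π, hπ⟩ := SRelC.exists_pi b.inj (to_P S b)
  exact ⟨π, hπ, SRelC.pi_surj b.inj hπ (of_P S b), fun r u =>
    SRelC.pi_act (ctx S).data b.inj hπ b.act (stable S ν) r u⟩

end blk

/-- **level 1 in a good class** -/
theorem gens_of_good (S : STop.Setup arm J B N W F f P R D l) {ν ν' : K} (hne : ν ≠ ν')
    {n n' : ℕ} {Q : Matrix ι (Fin n) K} {A : Fin 3 → Matrix (Fin n) (Fin n) K}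
    {Q' : Matrix ι (Fin n') K} {A' : Fin 3 → Matrix (Fin n') (Fin n') K}
    (b : BPkg arm J B F R P.1 D ν l Q A) (b' : BPkg arm J B F R P.1 D ν' l Q' A')
    {π : QB S ν →ₗ[K] (Fin n → K)} {π' : QB S ν' →ₗ[K] (Fin n' → K)}
    (e : ∀ u : QB S ν, Q *ᵥ (π u) = F *ᵥ (u : δ → K))
    (e' : ∀ u : QB S ν', Q' *ᵥ (π' u) = F *ᵥ (u : δ → K))
    (QQ : Submodule K (Matrix ι δ K)) (hN : N ≤ QQ) {T : Set ℂ} (hT : T.Infinite)
    (h1 : ∀ t ∈ T, 1 + algebraMap ℂ K t * ν ≠ 0) (h2 : ∀ t ∈ T, 1 + algebraMap ℂ K t * ν' ≠ 0)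
    {Pt : ℂ → Matrix ι ι K × (Fin 3 → Matrix ι ι K)}
    (hPt : ∀ t ∈ T, Pt t ∈ NN arm J N (F + algebraMap ℂ K t • f) ∧
      Vert ℂ arm J N W (F + algebraMap ℂ K t • f) (Pt t) ∧
      (F + algebraMap ℂ K t • f)ᵀ * J * ((Pt t).1 * F) =
        (F + algebraMap ℂ K t • f)ᵀ * J * (P.1 * F))
    (hG : ∀ t ∈ T, ∀ ρ : K, (1 + algebraMap ℂ K t * ν) * (algebraMap ℂ K Complex.I * ρ) =
        1 + algebraMap ℂ K t * ν' →
      ∀ x : Fin 3 → (Fin n' → K) ⊗[K] (Fin n → K),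
      Dual.Exact (fun s => (A s).mulVecLin) (fun s => (A' s).mulVecLin)
        (ker (Qᵀ * (J * P.1) * Q).mulVecLin) (ker (Q'ᵀ * (J * P.1) * Q').mulVecLin) (ρ ^ 2) x →
      ∀ z : Fin 3 → QB S ν' ⊗[K] QB S ν, (∀ r, TensorProduct.map π' π (z r) = x r) →
      ∑ r, Dual.defect (rs (om arm B (th J F P.1 F) r) (QB S ν) (stable S ν r))
        (-(rs (om arm B (th J F P.1 F) r) (QB S ν') (stable S ν' r)))
        ((algebraMap ℂ K Complex.I * ρ) ^ 2) (z r) = 0 →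
      ∀ d : Derivation ℂ K K,
        Mv ℂ arm J N W (F + algebraMap ℂ K t • f) (Pt t).1
          (fun r => ten (QB S ν') (QB S ν) (z r) + (ten (QB S ν') (QB S ν) (z r))ᵀ) d →
        wd arm J (F + algebraMap ℂ K t • f) (Pt t).1
          (fun r => ten (QB S ν') (QB S ν) (z r) + (ten (QB S ν') (QB S ν) (z r))ᵀ) d
          ((ν - ν')⁻¹ • (f - ν' • F)) ∈ QQ) :
    SLev0.Gens arm J B F P.1 l QQ (SLev0.PbK arm J B F R P.1 D ν')
        (SLev0.PbK arm J B F R P.1 D ν) ∧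
      SLev0.Gens arm J B F P.1 l QQ (SLev0.PbK arm J B F R P.1 D ν)
        (SLev0.PbK arm J B F R P.1 D ν') := by
  have hinj := (algebraMap ℂ K).injective
  haveI : CharZero K := charZero_of_injective_algebraMap hinj
  have h20 : (2 : K) ≠ 0 := two_ne_zero
  obtain ⟨I, hI⟩ : ∃ I : K, I = algebraMap ℂ K Complex.I := ⟨_, rfl⟩
  have hI2 : I ^ 2 = -1 := by
    rw [hI, ← map_pow, Complex.I_sq, map_neg, map_one]
  have hI0 : I ≠ 0 := by
    rintro rfl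
    rw [zero_pow two_ne_zero] at hI2
    exact neg_ne_zero.2 one_ne_zero hI2.symm
  rw [← hI] at hG
  have hs := SRelC.pi_surj b.inj e (of_P S b)
  have hs' := SRelC.pi_surj b'.inj e' (of_P S b')
  obtain ⟨Tk, hTk⟩ : ∃ Tk : Set K, Tk = (algebraMap ℂ K) '' T := ⟨_, rfl⟩
  have hTi : Tk.Infinite := by rw [hTk]; exact hT.image hinj.injOn
  have hra := ratios_infinite hTi hne (by
    rintro _ ht
    rw [hTk] at ht
    obtain ⟨t, ht, rfl⟩ := ht
    exact h1 t ht)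
  obtain ⟨Λ, hΛd⟩ : ∃ Λ : Set K, Λ = (fun r => r / I) ''
    ((fun t => (1 + t * ν') / (1 + t * ν)) '' Tk) := ⟨_, rfl⟩
  have hΛ : Λ.Infinite := by
    rw [hΛd]
    refine hra.image ?_
    intro a _ c _ hac
    simp only at hac
    exact (div_left_inj' hI0).1 hac
  have hmem : ∀ ρ ∈ Λ, ∃ t ∈ T, (1 + algebraMap ℂ K t * ν) * (I * ρ) =
      1 + algebraMap ℂ K t * ν' := by
    intro ρ hρ
    rw [hΛd] at hρ
    obtain ⟨_, ⟨_, ht, rfl⟩, rfl⟩ := hρ
    rw [hTk] at ht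
    obtain ⟨t, ht, rfl⟩ := ht
    refine ⟨t, ht, ?_⟩
    have h3 := h1 t ht
    field_simp
  have h0 : (0 : K) ∉ Λ := by
    intro h
    obtain ⟨t, ht, h3⟩ := hmem 0 h
    rw [mul_zero, mul_zero] at h3
    exact h2 t ht h3.symm
  refine SLev0.lev1 b b' hΛ h0 1 (-I) one_ne_zero (neg_ne_zero.2 hI0) QQ ?_
  intro ρ hρ x hx
  obtain ⟨t, ht, htρ⟩ := hmem ρ hρ
  refine SRelC.rel_form ?_
  obtain ⟨hP1, hP2, hP3⟩ := hPt t ht
  have hHK : F + algebraMap ℂ K t • f ∈ Kiso J N W :=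
    (Kiso J N W).add_mem S.hF ((Kiso J N W).smul_mem _ S.hf)
  have hH := S.hCtx _ hHK
  obtain ⟨Ri, hRi⟩ := exists_gen_inv (F + algebraMap ℂ K t • f)
  have hkk : (ν - ν')⁻¹ • (f - ν' • F) ∈ N ⊓ W :=
    Submodule.smul_mem _ _ (Submodule.sub_mem _ S.hf.1 (Submodule.smul_mem _ _ S.hF.1))
  have hRl := rel_of (t := algebraMap ℂ K t) hne S.hF.1 S.hf.1 hH hP1
    (th_flip (ctx S) S.hP S.hf.1) hP3 (Q1 := QB S ν) (Q2 := QB S ν')
    (fun u hu => rel_f S hu) (fun u hu => rel_f S hu)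
  have h5 := SRelC.rel_coord hH h20 hRi hP1 hP2 hkk S.hP.1 hRl (h1 t ht) (h2 t ht) htρ
    (stable S ν) (stable S ν') (perfect S ν) (perfect S ν') b.inj b'.inj b.act b'.act e e' hs hs'
    (SRelC.exact_sign hI2 hx.1) QQ (fun z hz hz0 d hd => hG t ht ρ htρ x hx z hz hz0 d hd)
  exact sup_le hN le_rfl h5

end Crest.Agent.R172.SRelD
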