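import Crest.Agent.R172.SGeo869b
import Crest.Agent.R172.SDecP70
import Crest.Agent.R172.SD937
import Crest.Agent.R172.SUniq803

/-!
Row 172 (S0260), level 2: separation of the first level (helper531, on top of SGeo869b).
-/

set_option autoImplicit false
set_option linter.unusedSectionVars false
set_option linter.unusedVariables false
set_option maxHeartbeats 1600000

namespace Crest.Agent.R172.SSep531

open Module Matrix Crest.Agent.R172.FO Crest.Agent.R172.Qt Crest.Agent.R172.SpS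
open Crest.Agent.R172.SBlk Crest.Agent.R172.UBlk Crest.Agent.R172.SEnd2 Crest.Agent.R172.STop
open Crest.Agent.R172.SCM Crest.Agent.R172.SDec Crest.Agent.R172.SUX
open Crest.Agent.R172.PL (CoreM Ainf)
open Crest.Agent.R172.SInst (QQb)
open Crest.Agent.R172.SGeo869

variable {ι : Type} [Fintype ι] [DecidableEq ι] {δ : Type} [Fintype δ] [DecidableEq δ]
variable {K : Type} [Field K] [Algebra ℂ K]
variable {m1 m2 : ℕ}
variable {arm : δ → Fin 3} {J : Matrix ι ι K} {B : Matrix δ δ K}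
  {N W : Submodule K (Matrix ι δ K)} {F f : Matrix ι δ K}
  {P : Matrix ι ι K × (Fin 3 → Matrix ι ι K)} {R : Matrix δ ι K}
  {D : End K (CoreM (PhS arm J B F R P.1))} {l : Fin 3 → ℕ}

theorem sep [IsAlgClosed K] (S : Setup arm J B N W F f P R D l) {ν ν' : K} (hne : ν ≠ ν')
    {U1 : Matrix δ (Fin m1) K} {U2 : Matrix δ (Fin m2) K}
    {a1 : Fin 3 → Matrix (Fin m1) (Fin m1) K} {a2 : Fin 3 → Matrix (Fin m2) (Fin m2) K}
    (hU1 : UFr.Cq (QQb S ν) U1) (hs1 : ∀ u ∈ QQb S ν, ∃ x, u = U1 *ᵥ x)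
    (hi1 : ∀ x, U1 *ᵥ x = 0 → x = 0)
    (ha1 : ∀ s, B * E K arm s * (Fᵀ * J * (P.1 * F)) * U1 = U1 * a1 s)
    (hU2 : UFr.Cq (QQb S ν') U2) (hs2 : ∀ u ∈ QQb S ν', ∃ x, u = U2 *ᵥ x)
    (hi2 : ∀ x, U2 *ᵥ x = 0 → x = 0)
    (ha2 : ∀ s, B * E K arm s * (Fᵀ * J * (P.1 * F)) * U2 = U2 * a2 s)
    {dY : Derivation ℂ K K} {bad : Set ℂ} (hfin : bad.Finite)
    (hM : ∀ t ∉ bad,
      1 + algebraMap ℂ K t * ν ≠ 0 → 1 + algebraMap ℂ K t * ν' ≠ 0 →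
      (∀ κ, QQb S κ ≠ ⊥ → 1 + algebraMap ℂ K t * κ ≠ 0) ∧
      ∀ X, ExM (Fᵀ * J * (P.1 * F)) U1 U2 a1 a2
        (-(((1 + algebraMap ℂ K t * ν') / (1 + algebraMap ℂ K t * ν)) ^ 2)) X →
        ∃ Pt d Γ1 Γ2 β γ, MvD arm J B N W F f (F + algebraMap ℂ K t • f) Pt
          (Fᵀ * J * (P.1 * F)) dY (QQb S) ν ν' (1 + algebraMap ℂ K t * ν)
          (1 + algebraMap ℂ K t * ν') U1 U2 a1 a2 X d Γ1 Γ2 β γ) :
    ∃ S' : Set K, S'.Finite ∧ ∀ c ∉ S', ∀ y : D3 K (Fin m1) (Fin m2),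
      Dec F (Fᵀ * J * (P.1 * F)) U1 U2 a1 a2 c y →
      I1 arm F (Fᵀ * J * (P.1 * F)) U1 U2 y ∈
        QQ5 J N (W3 W F (QQb S) ν ν') F f dY (Fᵀ * J * (P.1 * F)) U1 U2 ∧
      I2 arm F (Fᵀ * J * (P.1 * F)) U1 U2 y ∈
        QQ5 J N (W3 W F (QQb S) ν ν') F f dY (Fᵀ * J * (P.1 * F)) U1 U2 := by
  obtain ⟨S', hSf, h⟩ := RJP.par_sep (T := Unit)
    (SDecP70.alD F (Fᵀ * J * (P.1 * F)) U1 U2 a1)
    (-(SDecP70.beD F (Fᵀ * J * (P.1 * F)) U1 U2 a2))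
    (QQ5 J N (W3 W F (QQb S) ν ν') F f dY (Fᵀ * J * (P.1 * F)) U1 U2)
    (fun _ => I1 arm F (Fᵀ * J * (P.1 * F)) U1 U2) (fun _ => I2 arm F (Fᵀ * J * (P.1 * F)) U1 U2)
    (SMv16.Lam_infinite (K := K) hfin hne) (by
      intro r hr y hy _
      have hd : Dec F (Fᵀ * J * (P.1 * F)) U1 U2 a1 a2 (-(r ^ 2)) y := by
        rw [SDecP70.dec_iff, hy, LinearMap.neg_apply, smul_neg, neg_smul]
      obtain ⟨t, ht, h1, h2, hr⟩ := hr
      subst hr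
      obtain ⟨hc, hX⟩ := hM t ht h1 h2
      obtain ⟨Pt, d, Γ1, Γ2, β, γ, M⟩ := hX y.1 ⟨hd.sum, hd.arm⟩
      have hm := first S hne hc M
      have hr0 : -(((1 + algebraMap ℂ K t * ν') / (1 + algebraMap ℂ K t * ν)) ^ 2) ≠ 0 :=
        neg_ne_zero.2 (pow_ne_zero 2 (div_ne_zero h2 h1))
      obtain ⟨⟨u1, -⟩, ⟨u2, -⟩⟩ := SUniq803.dec_uniq S hU1 hs1 hi1 ha1 hU2 hs2 hi2 ha2 hr0 hd M.dec rfl
      obtain ⟨g1, g2⟩ := SD937.I_congr (arm := arm) (F := F) (U1 := U1) (U2 := U2)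
        (S0 := Fᵀ * J * (P.1 * F)) (S1 := J * (P.1 * F)) (Matrix.mul_assoc _ _ _) (X := y.1)
        (β := y.2.1) (β' := β) (γ := y.2.2) (γ' := γ)
        (by rw [Matrix.mul_sub, sub_eq_zero]; exact u1)
        (by rw [Matrix.mul_sub, sub_eq_zero]; exact u2)
      change I1 arm F (Fᵀ * J * (P.1 * F)) U1 U2 (y.1, y.2.1, y.2.2) +
        ((1 + algebraMap ℂ K t * ν') / (1 + algebraMap ℂ K t * ν)) •
          I2 arm F (Fᵀ * J * (P.1 * F)) U1 U2 (y.1, y.2.1, y.2.2) ∈ _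
      rw [g1, g2]
      exact hm)
  refine ⟨(fun c => -c) '' S', hSf.image _, fun c hc y hy => ?_⟩
  refine h (-c) (fun hcS => hc ⟨-c, hcS, neg_neg c⟩) y ?_ ()
  rw [(SDecP70.dec_iff F _ U1 U2 a1 a2 c y).1 hy, LinearMap.neg_apply, smul_neg, neg_smul, neg_neg]

end Crest.Agent.R172.SSep531
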