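import Crest.Agent.R172.SL2g182

/-!
Row 172 (S0260), S-side (t2), L2-g: stability of the filtered tensors under the connection when the
weight relations only hold modulo the radicals (helper14).
-/

set_option autoImplicit false
set_option linter.unusedSectionVars false
set_option linter.unusedFintypeInType false
set_option linter.unusedDecidableInType false

namespace Crest.Agent.R172.SStab14

open Matrix Module Crest.Agent.R172.FO Crest.Agent.R172.SpS Crest.Agent.R172.SL2g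

section der

variable {k K : Type*} [Field k] [Field K] [Algebra k K] {n1 n2 : Type*} [Fintype n1]
  [DecidableEq n1] [Fintype n2] [DecidableEq n2]
variable {A : Matrix n1 n1 K} {B : Matrix n2 n2 K} {R1 : Submodule K (n1 → K)}
  {R2 : Submodule K (n2 → K)} {l : ℕ}

theorem Dv_pow_mod {n : Type*} [Fintype n] [DecidableEq n] {Γ B : Matrix n n K}
    {d : Derivation k K K} {κ : K} {R : Submodule K (n → K)}
    (h : ∀ x, (Γ * B + B.map d - B * Γ - κ • B) *ᵥ x ∈ R) (hR : ∀ r ∈ R, B *ᵥ r ∈ R)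
    (i : ℕ) (y : n → K) :
    Dv Γ d ((B ^ i) *ᵥ y) - (B ^ i) *ᵥ (Dv Γ d y + ((i : K) * κ) • y) ∈ R := by
  have h1 : ∀ w, Dv Γ d (B *ᵥ w) - B *ᵥ (Dv Γ d w + κ • w) ∈ R := by
    intro w
    have e : Dv Γ d (B *ᵥ w) - B *ᵥ (Dv Γ d w + κ • w) =
        (Γ * B + B.map d - B * Γ - κ • B) *ᵥ w := by
      unfold Dv
      rw [dv_mulVec, mulVec_mulVec, sub_mulVec, sub_mulVec, add_mulVec, mulVec_add, mulVec_add,
        mulVec_smul, mulVec_mulVec, smul_mulVec]
      abel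
    rw [e]
    exact h w
  induction i generalizing y with
  | zero => simp
  | succ i ih =>
    have e1 := h1 ((B ^ i) *ᵥ y)
    have e2 := hR _ (ih y)
    have e3 : Dv Γ d ((B ^ (i + 1)) *ᵥ y) -
        (B ^ (i + 1)) *ᵥ (Dv Γ d y + (((i + 1 : ℕ) : K) * κ) • y) =
        (Dv Γ d (B *ᵥ ((B ^ i) *ᵥ y)) - B *ᵥ (Dv Γ d ((B ^ i) *ᵥ y) + κ • ((B ^ i) *ᵥ y))) +
        B *ᵥ (Dv Γ d ((B ^ i) *ᵥ y) - (B ^ i) *ᵥ (Dv Γ d y + ((i : K) * κ) • y)) := by
      rw [pow_succ', ← mulVec_mulVec, ← mulVec_mulVec, mulVec_sub, mulVec_add B,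
        ← mulVec_add B]
      have e4 : ((((i + 1 : ℕ) : K) * κ) • y) = ((i : K) * κ) • y + κ • y := by
        rw [← add_smul]
        congr 1
        push_cast
        ring
      rw [e4, ← add_assoc, mulVec_add (B ^ i) (Dv Γ d y + ((i : K) * κ) • y) (κ • y),
        mulVec_smul (B ^ i) κ y, mulVec_add B, mulVec_add B]
      abel
    rw [e3]
    exact R.add_mem e1 e2

/-- **stability under the connection, weight relations modulo the radicals** -/
theorem stable_mod {Γ1 : Matrix n1 n1 K} {Γ2 : Matrix n2 n2 K} {d : Derivation k K K} {κ1 κ2 : K}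
    (h1 : ∀ x, (Γ1 * A + A.map d - A * Γ1 - κ1 • A) *ᵥ x ∈ R1)
    (h2 : ∀ x, (Γ2 * B + B.map d - B * Γ2 - κ2 • B) *ᵥ x ∈ R2)
    (hA : ∀ r ∈ R1, A *ᵥ r ∈ R1) (hB : ∀ r ∈ R2, B *ᵥ r ∈ R2)
    (hR1 : ∀ r ∈ R1, Dv Γ1 d r ∈ R1) (hR2 : ∀ r ∈ R2, Dv Γ2 d r ∈ R2)
    {X : Matrix n2 n1 K} (hX : X ∈ Gn A B R1 R2 l) :
    Γ2 * X + X.map d + X * Γ1ᵀ ∈ Gn A B R1 R2 l := by
  have hvm : ∀ (u : n2 → K) (v : n1 → K), Γ2 * vecMulVec u v + (vecMulVec u v).map d +
      vecMulVec u v * Γ1ᵀ = vecMulVec (Dv Γ2 d u) v + vecMulVec u (Dv Γ1 d v) := by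
    intro u v
    have e1 : (vecMulVec u v).map d = vecMulVec (dv d u) v + vecMulVec u (dv d v) := by
      ext i j
      simp only [Matrix.map_apply, vecMulVec_apply, Matrix.add_apply, Derivation.leibniz,
        smul_eq_mul, dv]
      ring
    unfold Dv
    rw [e1, mul_vecMulVec, vecMulVec_mul, vecMul_transpose, add_vecMulVec, vecMulVec_add]
    abel
  unfold Gn at hX
  induction hX using Submodule.span_induction with
  | mem X hX =>
    rcases hX with ⟨i, j, y, z, hij, rfl⟩ | ⟨r, hr, z, rfl⟩ | ⟨y, r, hr, rfl⟩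
    · rw [hvm]
      have p1 := Dv_pow_mod h1 hA j z
      have p2 := Dv_pow_mod h2 hB i y
      have q1 : Dv Γ1 d ((A ^ j) *ᵥ z) = (A ^ j) *ᵥ (Dv Γ1 d z + ((j : K) * κ1) • z) +
          (Dv Γ1 d ((A ^ j) *ᵥ z) - (A ^ j) *ᵥ (Dv Γ1 d z + ((j : K) * κ1) • z)) := by abel
      have q2 : Dv Γ2 d ((B ^ i) *ᵥ y) = (B ^ i) *ᵥ (Dv Γ2 d y + ((i : K) * κ2) • y) +
          (Dv Γ2 d ((B ^ i) *ᵥ y) - (B ^ i) *ᵥ (Dv Γ2 d y + ((i : K) * κ2) • y)) := by abel
      rw [q1, q2, add_vecMulVec, vecMulVec_add]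
      exact Submodule.add_mem _ (Submodule.add_mem _ (Gn_gen hij _ _) (Gn_left p2 _))
        (Submodule.add_mem _ (Gn_gen hij _ _) (Gn_right p1 _))
    · rw [hvm]
      exact (Gn A B R1 R2 l).add_mem (Gn_left (hR2 r hr) _) (Gn_left hr _)
    · rw [hvm]
      exact (Gn A B R1 R2 l).add_mem (Gn_right hr _) (Gn_right (hR1 r hr) _)
  | zero =>
    have : (0 : Matrix n2 n1 K).map d = 0 := by ext i j; simp
    rw [this, Matrix.mul_zero, Matrix.zero_mul, add_zero, add_zero]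
    exact Submodule.zero_mem _
  | add X Y _ _ hX hY =>
    have e : Γ2 * (X + Y) + (X + Y).map d + (X + Y) * Γ1ᵀ =
        (Γ2 * X + X.map d + X * Γ1ᵀ) + (Γ2 * Y + Y.map d + Y * Γ1ᵀ) := by
      rw [Matrix.mul_add, Matrix.add_mul, map_add_der]; abel
    rw [e]
    exact Submodule.add_mem _ hX hY
  | smul a X hX' hX =>
    have e : Γ2 * (a • X) + (a • X).map d + (a • X) * Γ1ᵀ =
        a • (Γ2 * X + X.map d + X * Γ1ᵀ) + d a • X := by
      have e1 : (a • X).map d = a • X.map d + d a • X := by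
        ext i j
        simp only [Matrix.map_apply, Matrix.smul_apply, Matrix.add_apply, smul_eq_mul,
          Derivation.leibniz]
        ring
      rw [e1, Matrix.mul_smul, Matrix.smul_mul, smul_add, smul_add]; abel
    rw [e]
    exact Submodule.add_mem _ (Submodule.smul_mem _ _ hX) (Submodule.smul_mem _ _ hX')

end der

end Crest.Agent.R172.SStab14
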