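import Crest.Agent.R172.SUB2

/-!
Row 172 (S0260), S-side (t2), all blocks at once: the class `Gd` of corrections with block-scalar
values (mod radical) and vanishing block rows is stable under `wd`, contains `K = N ⊓ W`-elements
which are block scalars, and gives membership in 26's `QG`.
-/

set_option autoImplicit false
set_option linter.unusedSectionVars false
set_option linter.unusedFintypeInType false
set_option linter.unusedDecidableInType false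
set_option maxHeartbeats 400000

namespace Crest.Agent.R172.SThird

open Matrix Module Crest.Agent.R172.FO Crest.Agent.R172.Qt Crest.Agent.R172.SpS
  Crest.Agent.R172.Om Crest.Agent.R172.SUX Crest.Agent.R172.SUB

variable {ι : Type*} [Fintype ι] [DecidableEq ι] {δ : Type*} [Fintype δ] [DecidableEq δ]
variable {k K : Type*} [Field k] [Field K] [Algebra k K]
variable {arm : δ → Fin 3} {J : Matrix ι ι K} {B : Matrix δ δ K}
  {N W : Submodule K (Matrix ι δ K)} {g H : Matrix ι δ K} {S0 : Matrix δ δ K}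
variable {α : Type*} {Q : α → Submodule K (δ → K)} {c : α → K}

/-- orthogonal of all blocks -/
def Sp (S0 : Matrix δ δ K) (Q : α → Submodule K (δ → K)) : Submodule K (δ → K) where
  carrier := {u | ∀ j, ∀ x ∈ Q j, x ⬝ᵥ (S0 *ᵥ u) = 0}
  zero_mem' := fun j x _ => by rw [mulVec_zero, dotProduct_zero]
  add_mem' := fun {a b} ha hb j x hx => by rw [mulVec_add, dotProduct_add, ha j x hx, hb j x hx,
    add_zero]
  smul_mem' := fun t a ha j x hx => by rw [mulVec_smul, dotProduct_smul, ha j x hx, smul_zero]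

theorem mem_Sp {u : δ → K} : u ∈ Sp S0 Q ↔ ∀ j, ∀ x ∈ Q j, x ⬝ᵥ (S0 *ᵥ u) = 0 := Iff.rfl

/-- radical vectors of the blocks -/
def Rd (S0 : Matrix δ δ K) (Q : α → Submodule K (δ → K)) : Submodule K (δ → K) :=
  ⨆ i, Q i ⊓ Sp S0 Q

theorem Rd_le_Sp : Rd S0 Q ≤ Sp S0 Q := iSup_le fun _ => inf_le_right

theorem mem_Rd {i : α} {u : δ → K} (h1 : u ∈ Q i) (h2 : u ∈ Sp S0 Q) : u ∈ Rd S0 Q :=
  (le_iSup (fun i => Q i ⊓ Sp S0 Q) i) ⟨h1, h2⟩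

theorem Rd_ind {p : (δ → K) → Prop} (h0 : p 0) (hadd : ∀ x y, p x → p y → p (x + y))
    (h : ∀ i, ∀ u ∈ Q i, u ∈ Sp S0 Q → p u) {u : δ → K} (hu : u ∈ Rd S0 Q) : p u := by
  refine Submodule.iSup_induction (fun i => Q i ⊓ Sp S0 Q) (motive := p) hu ?_ h0 hadd
  intro i x hx
  exact h i x hx.1 hx.2

/-- the class -/
def Gd (J : Matrix ι ι K) (g : Matrix ι δ K) (W : Submodule K (Matrix ι δ K))
    (S0 : Matrix δ δ K) (Q : α → Submodule K (δ → K)) : Submodule K (Matrix ι δ K) where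
  carrier := {w | w ∈ W ∧ (∀ i, ∀ u ∈ Q i, ∀ v, (g *ᵥ u) ⬝ᵥ (J *ᵥ (w *ᵥ v)) = 0) ∧
    ∃ m : α → K, ∀ i, ∀ u ∈ Q i, ∃ r ∈ Rd S0 Q, w *ᵥ u = m i • (g *ᵥ u) + g *ᵥ r}
  zero_mem' := ⟨W.zero_mem, fun i u _ v => by rw [zero_mulVec, mulVec_zero, dotProduct_zero],
    0, fun i u _ => ⟨0, Submodule.zero_mem _, by simp⟩⟩
  add_mem' := by
    rintro w w' ⟨h1, h2, m, h3⟩ ⟨h1', h2', m', h3'⟩
    refine ⟨W.add_mem h1 h1', fun i u hu v => ?_, m + m', fun i u hu => ?_⟩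
    · rw [add_mulVec, mulVec_add, dotProduct_add, h2 i u hu, h2' i u hu, add_zero]
    · obtain ⟨r, hr, e⟩ := h3 i u hu
      obtain ⟨r', hr', e'⟩ := h3' i u hu
      refine ⟨r + r', Submodule.add_mem _ hr hr', ?_⟩
      rw [add_mulVec, e, e', Pi.add_apply, add_smul, mulVec_add]
      abel
  smul_mem' := by
    rintro t w ⟨h1, h2, m, h3⟩
    refine ⟨W.smul_mem t h1, fun i u hu v => ?_, t • m, fun i u hu => ?_⟩
    · rw [smul_mulVec, mulVec_smul, dotProduct_smul, h2 i u hu, smul_zero]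
    · obtain ⟨r, hr, e⟩ := h3 i u hu
      refine ⟨t • r, Submodule.smul_mem _ t hr, ?_⟩
      rw [smul_mulVec, e, smul_add, mulVec_smul, Pi.smul_apply, smul_eq_mul, mul_smul]

/-- the blocks at `(H, P)` and the connection `nb` on them (mod `ZW`) -/
structure Cn (J : Matrix ι ι K) (W : Submodule K (Matrix ι δ K)) (g H : Matrix ι δ K)
    (P : Matrix ι ι K) (S0 : Matrix δ δ K) (Q : α → Submodule K (δ → K)) (c : α → K)
    (nb : (δ → K) → (δ → K)) : Prop where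
  hc : ∀ i, c i ≠ 0
  hH : ∀ i, ∀ u ∈ Q i, H *ᵥ u = c i • (g *ᵥ u)
  hS : ∀ i, ∀ u ∈ Q i, th J H P H *ᵥ u = c i ^ 2 • (S0 *ᵥ u)
  hN : ∀ i, ∀ u ∈ Q i, ∃ u' ∈ Q i, ∃ r ∈ Rd S0 Q, ∀ w ∈ W, w *ᵥ nb u = w *ᵥ (u' + r)

section

variable {P : Matrix ι ι K × (Fin 3 → Matrix ι ι K)} {Y : Fin 3 → Matrix δ δ K}
  {d : Derivation k K K}

theorem Cn.H_R {nb : (δ → K) → (δ → K)} (hC : Cn J W g H P.1 S0 Q c nb) {r : δ → K}
    (hr : r ∈ Rd S0 Q) : ∃ r' ∈ Rd S0 Q, H *ᵥ r = g *ᵥ r' := by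
  refine Rd_ind (p := fun r => ∃ r' ∈ Rd S0 Q, H *ᵥ r = g *ᵥ r') ⟨0, Submodule.zero_mem _, by simp⟩
    ?_ ?_ hr
  · rintro x y ⟨x', hx', e⟩ ⟨y', hy', e'⟩
    exact ⟨x' + y', Submodule.add_mem _ hx' hy', by rw [mulVec_add, e, e', mulVec_add]⟩
  · intro i u hu hu2
    exact ⟨c i • u, Submodule.smul_mem _ _ (mem_Rd hu hu2), by rw [hC.hH i u hu, mulVec_smul]⟩

/-- `x S_H r = 0` for block vectors `x` and radical `r`. -/
theorem Cn.xSr {nb : (δ → K) → (δ → K)} (hC : Cn J W g H P.1 S0 Q c nb) {j : α} {x : δ → K}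
    (hx : x ∈ Q j) {r : δ → K} (hr : r ∈ Rd S0 Q) : x ⬝ᵥ (th J H P.1 H *ᵥ r) = 0 := by
  refine Rd_ind (p := fun r => x ⬝ᵥ (th J H P.1 H *ᵥ r) = 0) (by simp) ?_ ?_ hr
  · intro a b ha hb
    rw [mulVec_add, dotProduct_add, ha, hb, add_zero]
  · intro i u hu hu2
    rw [hC.hS i u hu, dotProduct_smul, hu2 j x hx, smul_zero]

theorem Cn.w_R {w : Matrix ι δ K} (hw : w ∈ Gd J g W S0 Q) {r : δ → K}
    (hr : r ∈ Rd S0 Q) : ∃ r' ∈ Rd S0 Q, w *ᵥ r = g *ᵥ r' := by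
  obtain ⟨-, -, m, h3⟩ := hw
  refine Rd_ind (p := fun r => ∃ r' ∈ Rd S0 Q, w *ᵥ r = g *ᵥ r') ⟨0, Submodule.zero_mem _, by simp⟩
    ?_ ?_ hr
  · rintro x y ⟨x', hx', e⟩ ⟨y', hy', e'⟩
    exact ⟨x' + y', Submodule.add_mem _ hx' hy', by rw [mulVec_add, e, e', mulVec_add]⟩
  · intro i u hu hu2
    obtain ⟨r, hr, e⟩ := h3 i u hu
    exact ⟨m i • u + r, Submodule.add_mem _ (Submodule.smul_mem _ _ (mem_Rd hu hu2)) hr, by
      rw [e, mulVec_add, mulVec_smul]⟩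

/-- the connection preserves the radical -/
theorem Cn.u_Sp (h : Ctx k arm J B N W H) (hP : P ∈ NN arm J N H)
    (m : Mv k arm J N W H P.1 Y d)
    (hC : Cn J W g H P.1 S0 Q c (nab arm J H P.1 Y d)) {i : α} {u u' r : δ → K} (hu : u ∈ Q i)
    (hu2 : u ∈ Sp S0 Q) (hu' : u' ∈ Q i) (hr : r ∈ Rd S0 Q)
    (hn : ∀ w ∈ W, w *ᵥ nab arm J H P.1 Y d u = w *ᵥ (u' + r)) : u' ∈ Sp S0 Q := by
  intro j x hx
  obtain ⟨x', hx', rx, hrx, hnx⟩ := hC.hN j x hx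
  have hSk := th_skew h hP ⟨h.memN, h.memW⟩
  have hSH : ∀ {a b : δ → K}, (∀ w ∈ W, w *ᵥ a = w *ᵥ b) →
      th J H P.1 H *ᵥ a = th J H P.1 H *ᵥ b := by
    intro a b hab
    unfold th
    simp only [← mulVec_mulVec]
    rw [hab H h.memW]
  have hskew : ∀ a b : δ → K, a ⬝ᵥ (th J H P.1 H *ᵥ b) = - (b ⬝ᵥ (th J H P.1 H *ᵥ a)) := by
    intro a b
    rw [dotProduct_mulVec, ← mulVec_transpose, hSk, neg_mulVec, neg_dotProduct, dotProduct_comm]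
  have h1 : x ⬝ᵥ (th J H P.1 H *ᵥ u) = 0 := hC.xSr hx (mem_Rd hu hu2)
  have h2 := form_nab h m x u
  rw [h1, map_zero] at h2
  have h3 : nab arm J H P.1 Y d x ⬝ᵥ (th J H P.1 H *ᵥ u) = 0 := by
    rw [hskew, hSH hnx, ← hskew, add_dotProduct, hC.xSr hx' (mem_Rd hu hu2), zero_add, hskew,
      neg_eq_zero]
    exact hC.xSr hu hrx
  have h4 : x ⬝ᵥ (th J H P.1 H *ᵥ nab arm J H P.1 Y d u) = c i ^ 2 * (x ⬝ᵥ (S0 *ᵥ u')) := by
    rw [hSH hn, mulVec_add, dotProduct_add, hC.xSr hx hr, add_zero, hC.hS i u' hu',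
      dotProduct_smul, smul_eq_mul]
  rw [h3, h4, zero_add] at h2
  exact (mul_eq_zero.1 h2.symm).resolve_left (pow_ne_zero 2 (hC.hc i))

/-- `d (g u)` -/
theorem Cn.dgu (h : Ctx k arm J B N W H) (m : Mv k arm J N W H P.1 Y d)
    (hC : Cn J W g H P.1 S0 Q c (nab arm J H P.1 Y d)) {i : α} {u u' r : δ → K} (hu : u ∈ Q i)
    (hu' : u' ∈ Q i) (hr : r ∈ Rd S0 Q)
    (hn : ∀ w ∈ W, w *ᵥ nab arm J H P.1 Y d u = w *ᵥ (u' + r)) :
    ∃ r' ∈ Rd S0 Q, dv d (g *ᵥ u) = (c i * d ((c i)⁻¹)) • (g *ᵥ u) + g *ᵥ u' + g *ᵥ r' := by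
  obtain ⟨r', hr', e⟩ := hC.H_R hr
  have hci := hC.hc i
  refine ⟨(c i)⁻¹ • r', Submodule.smul_mem _ _ hr', ?_⟩
  have h1 : g *ᵥ u = (c i)⁻¹ • (H *ᵥ u) := by
    rw [hC.hH i u hu, smul_smul, inv_mul_cancel₀ hci, one_smul]
  have h2 : dv d (g *ᵥ u) = (c i)⁻¹ • (H *ᵥ nab arm J H P.1 Y d u) + d ((c i)⁻¹) • (H *ᵥ u) := by
    rw [h1, dv_smul, H_nab m]
  rw [h2, hn H h.memW, mulVec_add, hC.hH i u' hu', hC.hH i u hu, e, smul_add, smul_smul,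
    smul_smul, inv_mul_cancel₀ hci, one_smul, mulVec_smul, mul_comm (c i)]
  abel

/-- `d (g r)`, `r` radical -/
theorem Cn.dgr (h : Ctx k arm J B N W H) (hP : P ∈ NN arm J N H)
    (m : Mv k arm J N W H P.1 Y d)
    (hC : Cn J W g H P.1 S0 Q c (nab arm J H P.1 Y d)) {r : δ → K} (hr : r ∈ Rd S0 Q) :
    ∃ r' ∈ Rd S0 Q, dv d (g *ᵥ r) = g *ᵥ r' := by
  refine Rd_ind (p := fun r => ∃ r' ∈ Rd S0 Q, dv d (g *ᵥ r) = g *ᵥ r')
    ⟨0, Submodule.zero_mem _, ?_⟩ ?_ ?_ hr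
  · funext i; simp [dv]
  · rintro x y ⟨x', hx', e⟩ ⟨y', hy', e'⟩
    exact ⟨x' + y', Submodule.add_mem _ hx' hy', by rw [mulVec_add, dv_add, e, e', mulVec_add]⟩
  · intro i u hu hu2
    obtain ⟨u', hu', r1, hr1, hn⟩ := hC.hN i u hu
    obtain ⟨r', hr', e⟩ := hC.dgu h m hu hu' hr1 hn
    have h1 := hC.u_Sp h hP m hu hu2 hu' hr1 hn
    refine ⟨(c i * d ((c i)⁻¹)) • u + u' + r', Submodule.add_mem _ (Submodule.add_mem _
      (Submodule.smul_mem _ _ (mem_Rd hu hu2)) (mem_Rd hu' h1)) hr', ?_⟩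
    rw [e, mulVec_add, mulVec_add, mulVec_smul]

/-- rows vanish on radical vectors -/
theorem row_R {w : Matrix ι δ K} (hw : w ∈ Gd J g W S0 Q) {r : δ → K}
    (hr : r ∈ Rd S0 Q) (v : δ → K) : (g *ᵥ r) ⬝ᵥ (J *ᵥ (w *ᵥ v)) = 0 := by
  obtain ⟨-, h2, -⟩ := hw
  refine Rd_ind (p := fun r => (g *ᵥ r) ⬝ᵥ (J *ᵥ (w *ᵥ v)) = 0) (by simp) ?_ ?_ hr
  · intro a b ha hb
    rw [mulVec_add, add_dotProduct, ha, hb, add_zero]
  · intro i u hu _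
    exact h2 i u hu v

/-- **the class is stable under `wd`.** -/
theorem Cn.wd_mem (h : Ctx k arm J B N W H) (hP : P ∈ NN arm J N H)
    (m : Mv k arm J N W H P.1 Y d)
    (hC : Cn J W g H P.1 S0 Q c (nab arm J H P.1 Y d)) {w : Matrix ι δ K}
    (hw : w ∈ Gd J g W S0 Q) : wd arm J H P.1 Y d w ∈ Gd J g W S0 Q := by
  have hw' := hw
  obtain ⟨h1, h2, μ, h3⟩ := hw'
  refine ⟨m.w_mem h1, fun i u hu v => ?_, fun i => d (μ i) + μ i * (c i * d ((c i)⁻¹)),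
    fun i u hu => ?_⟩
  · obtain ⟨u', hu', r, hr, hn⟩ := hC.hN i u hu
    obtain ⟨r', hr', e⟩ := hC.dgu h m hu hu' hr hn
    have h4 := F_nab (arm := arm) (J := J) (H := H) (Y := Y) (d := d) P.1 w v
    have h5 : wd arm J H P.1 Y d w *ᵥ v = dv d (w *ᵥ v) - w *ᵥ nab arm J H P.1 Y d v := by
      rw [h4]; abel
    have h6 : d ((g *ᵥ u) ⬝ᵥ (J *ᵥ (w *ᵥ v))) = 0 := by rw [h2 i u hu v, map_zero]
    rw [dv_dot, dv_mulVec d J, h.data.J_const d, zero_mulVec, zero_add, e, add_dotProduct,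
      add_dotProduct, smul_dotProduct, h2 i u hu v, h2 i u' hu' v, row_R hw hr' v, smul_zero,
      zero_add, zero_add, zero_add] at h6
    rw [h5, mulVec_sub, dotProduct_sub, h6, h2 i u hu, sub_zero]
  · obtain ⟨u', hu', r, hr, hn⟩ := hC.hN i u hu
    obtain ⟨r1, hr1, e1⟩ := hC.dgu h m hu hu' hr hn
    obtain ⟨r0, hr0, e0⟩ := h3 i u hu
    obtain ⟨r2, hr2, e2⟩ := hC.dgr h hP m hr0
    obtain ⟨r3, hr3, e3⟩ := h3 i u' hu'
    obtain ⟨r4, hr4, e4⟩ := Cn.w_R hw hr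
    have h4 := F_nab (arm := arm) (J := J) (H := H) (Y := Y) (d := d) P.1 w u
    refine ⟨μ i • r1 + r2 - r3 - r4, Submodule.sub_mem _ (Submodule.sub_mem _
      (Submodule.add_mem _ (Submodule.smul_mem _ _ hr1) hr2) hr3) hr4, ?_⟩
    have h5 : wd arm J H P.1 Y d w *ᵥ u = dv d (w *ᵥ u) - w *ᵥ nab arm J H P.1 Y d u := by
      rw [h4]; abel
    rw [h5, hn w h1, mulVec_add, e3, e4, e0, dv_add, dv_smul, e1, e2, mulVec_sub, mulVec_sub,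
      mulVec_add, mulVec_smul, smul_add, smul_add, smul_smul, add_smul]
    abel

end

/-- a block scalar in `N ⊓ W` is in the class -/
theorem Gd_of (h : Ctx k arm J B N W H) {q : Matrix ι δ K} (hq : q ∈ N ⊓ W)
    (hc : ∀ i, c i ≠ 0) (hH : ∀ i, ∀ u ∈ Q i, H *ᵥ u = c i • (g *ᵥ u)) (m : α → K)
    (hm : ∀ i, ∀ u ∈ Q i, q *ᵥ u = m i • (g *ᵥ u)) : q ∈ Gd J g W S0 Q := by
  refine ⟨hq.2, fun i u hu v => ?_, m, fun i u hu => ⟨0, Submodule.zero_mem _, by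
    rw [hm i u hu, mulVec_zero, add_zero]⟩⟩
  have h1 : g *ᵥ u = (c i)⁻¹ • (H *ᵥ u) := by
    rw [hH i u hu, smul_smul, inv_mul_cancel₀ (hc i), one_smul]
  have h2 : (H *ᵥ u) ⬝ᵥ (J *ᵥ (q *ᵥ v)) = u ⬝ᵥ ((Hᵀ * J * q) *ᵥ v) := by
    rw [Matrix.mul_assoc, ← mulVec_mulVec v Hᵀ, dotProduct_mulVec u, vecMul_transpose,
      ← mulVec_mulVec]
  rw [h1, smul_dotProduct, h2, h.perp q hq, zero_mulVec, dotProduct_zero, smul_zero]

end Crest.Agent.R172.SThird
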