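import Crest.Agent.R172.SThird586
import Crest.Agent.R172.SLev0
import Crest.Agent.R172.UFr

/-!
Row 172 (S0260), S-side (t2): membership in `QG` from the class `Gd`; instances.
-/

set_option autoImplicit false
set_option linter.unusedSectionVars false
set_option linter.unusedFintypeInType false
set_option linter.unusedDecidableInType false
set_option maxHeartbeats 400000

namespace Crest.Agent.R172.SThird

open Matrix Module Crest.Agent.R172.FO Crest.Agent.R172.Qt Crest.Agent.R172.SpS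
  Crest.Agent.R172.Om Crest.Agent.R172.SUX Crest.Agent.R172.SUB

variable {ι : Type*} [Fintype ι] [DecidableEq ι] {δ : Type*} [Fintype δ] [DecidableEq δ]
variable {k K : Type*} [Field k] [Field K] [Algebra k K]
variable {arm : δ → Fin 3} {J : Matrix ι ι K} {B : Matrix δ δ K}
  {N W : Submodule K (Matrix ι δ K)} {g H : Matrix ι δ K} {S0 : Matrix δ δ K}
variable {α : Type*} {Q : α → Submodule K (δ → K)} {c : α → K}

/-- **membership in 26's class `QG`.** -/
theorem mem_QG_of_Gd (hD : Data k arm J B N W) {p : Matrix ι ι K × (Fin 3 → Matrix ι ι K)}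
    {P : Submodule K (ι → K)} {Pb : α → Submodule K (ι → K)} {nu : α → K}
    (hnu : Function.Injective nu) (hP : P = ⨆ i, Pb i)
    (hPb : ∀ i, ∀ a ∈ Pb i, ∃ u ∈ Q i, a = g *ᵥ u)
    (hst : ∀ i r, ∀ u ∈ Q i, (B * E K arm r * (gᵀ * J * (p.1 * g))) *ᵥ u ∈ Q i)
    {w m : Matrix ι δ K} (hw : w ∈ Gd J g W (gᵀ * J * (p.1 * g)) Q) (hm : m - w ∈ N) :
    m ∈ SLev0.QG arm J B N W g p P Pb nu := by
  obtain ⟨h1, h2, μ, h3⟩ := hw
  refine ⟨w, h1, hm, fun a ha v => ?_, Function.extend nu μ 0, fun i a ha r => ?_⟩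
  · rw [← mulVec_mulVec]
    rw [hP] at ha
    refine Submodule.iSup_induction Pb (motive := fun a => a ⬝ᵥ (J *ᵥ (w *ᵥ v)) = 0) ha ?_
      (zero_dotProduct _) ?_
    · intro i a ha
      obtain ⟨u, hu, rfl⟩ := hPb i a ha
      exact h2 i u hu v
    · intro a b ha hb
      rw [add_dotProduct, ha, hb, add_zero]
  · obtain ⟨u, hu, rfl⟩ := hPb i a ha
    obtain ⟨r', hr', e⟩ := h3 i _ (hst i r u hu)
    have e1 : (E K arm r * B * gᵀ * (J * p.1)) *ᵥ (g *ᵥ u) =
        (B * E K arm r * (gᵀ * J * (p.1 * g))) *ᵥ u := by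
      rw [mulVec_mulVec, hD.B_arm]
      simp only [Matrix.mul_assoc]
    have e2 : (M arm B r g g * (J * p.1)) *ᵥ (g *ᵥ u) =
        g *ᵥ ((B * E K arm r * (gᵀ * J * (p.1 * g))) *ᵥ u) := by
      rw [← e1]
      unfold M
      simp only [mulVec_mulVec, Matrix.mul_assoc]
    refine ⟨g *ᵥ r', fun a ha => ?_, ?_⟩
    · rw [hP] at ha
      refine Submodule.iSup_induction Pb
        (motive := fun a => a ⬝ᵥ ((J * p.1) *ᵥ (g *ᵥ r')) = 0) ha ?_ (zero_dotProduct _) ?_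
      · intro j a ha
        obtain ⟨x, hx, rfl⟩ := hPb j a ha
        have h4 := mem_Sp.1 (Rd_le_Sp hr') j x hx
        rw [← h4, Matrix.mul_assoc, ← mulVec_mulVec r' gᵀ, dotProduct_mulVec x gᵀ,
          vecMul_transpose, mulVec_mulVec, Matrix.mul_assoc]
      · intro a b ha hb
        rw [add_dotProduct, ha, hb, add_zero]
    · rw [e1, e2, hnu.extend_apply, e]

section inst

open Crest.Agent.R172.SBlk Crest.Agent.R172.UBlk Crest.Agent.R172.PL

variable {f : Matrix ι δ K} {p : Matrix ι ι K × (Fin 3 → Matrix ι ι K)}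
variable (h : Ctx k arm J B N W g) {R : Matrix δ ι K} (hR : g * R * g = g)
  {D : End K (CoreM (Ph arm J B g R p.1))}
  (hD : IsD (Ph arm J B g R p.1) (Nh arm J B g f R p.1) D)

include hD in
theorem Qb_st {ν : K} (r : Fin 3) {u : δ → K} (hu : u ∈ Qb h.data hR p.1 D ν) :
    (B * E K arm r * (gᵀ * J * (p.1 * g))) *ᵥ u ∈ Qb h.data hR p.1 D ν :=
  Qb_stable h hR hD r hu

include hD in
theorem PbK_Qb [IsAlgClosed K] {ν : K} {a : ι → K}
    (ha : a ∈ SLev0.PbK arm J B g R p.1 D ν) :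
    ∃ u ∈ Qb h.data hR p.1 D ν, a = g *ᵥ u := by
  obtain ⟨v, hv, rfl⟩ := ha
  have hv' : v ∈ (Qb h.data hR p.1 D ν).map (gS g) := by
    rw [Qb_map h hR hD ν]; exact hv
  obtain ⟨u, hu, rfl⟩ := hv'
  exact ⟨u, hu, rfl⟩

include hD in
/-- the instance of `Cn` at `H = g + a • f` -/
theorem cn [IsAlgClosed K] (hNil : NilW arm J B N g) (hp : p ∈ NN arm J N g) (hf : f ∈ N ⊓ W)
    (hff : fᵀ * J * f = 0) {a : K} {Pt : Matrix ι ι K} {dY : Derivation k K K}
    (hY : ∀ f' ∈ N ⊓ W, (g + a • f)ᵀ * J * (Pt * f') = (g + a • f)ᵀ * J * f'.map dY)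
    (hPF : (g + a • f)ᵀ * J * (Pt * g) = (g + a • f)ᵀ * J * (p.1 * g)) {nu : α → K}
    (hc : ∀ i, 1 + a * nu i ≠ 0) {nb : (δ → K) → (δ → K)}
    (hN : ∀ i, ∀ u ∈ Qb h.data hR p.1 D (nu i), ∃ u' ∈ Qb h.data hR p.1 D (nu i),
      ∃ r ∈ Rd (gᵀ * J * (p.1 * g)) (fun i => Qb h.data hR p.1 D (nu i)),
        ∀ w ∈ W, w *ᵥ nb u = w *ᵥ (u' + r)) :
    Cn J W g (g + a • f) Pt (gᵀ * J * (p.1 * g)) (fun i => Qb h.data hR p.1 D (nu i))
      (fun i => 1 + a * nu i) nb where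
  hc := hc
  hH := fun i u hu => (UFr.at_H h hR hD hNil hp hf hff hY hPF hu).1
  hS := fun i u hu => (UFr.at_H h hR hD hNil hp hf hff hY hPF hu).2.2.2
  hN := hN

include hD in
/-- `q = (ν - ν')⁻¹ (f - ν' g)` is in the class -/
theorem q_Gd [IsAlgClosed K] (hNil : NilW arm J B N g) (hp : p ∈ NN arm J N g) (hf : f ∈ N ⊓ W)
    {nu : α → K} {ν ν' : K} :
    ((ν - ν')⁻¹ • (f - ν' • g)) ∈ Gd J g W (gᵀ * J * (p.1 * g))
      (fun i => Qb h.data hR p.1 D (nu i)) := by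
  refine Gd_of h (c := fun _ => 1) (Submodule.smul_mem _ _ (Submodule.sub_mem _ hf
    (Submodule.smul_mem _ _ h.mem))) (fun _ => one_ne_zero) (fun i u _ => by rw [one_smul])
    (fun i => (ν - ν')⁻¹ * (nu i - ν')) fun i u hu => ?_
  rw [smul_mulVec, sub_mulVec, smul_mulVec, (Qb_rel h hR hD hNil hp hf hu).1, ← sub_smul,
    smul_smul]

end inst

end Crest.Agent.R172.SThird
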