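import Crest.Agent.R172.SThirdB586

/-!
Row 172 (S0260), S-side (t2): `Cn` with trivial blocks allowed (so that the index type may be `K`).
-/

set_option autoImplicit false
set_option linter.unusedSectionVars false
set_option linter.unusedFintypeInType false
set_option linter.unusedDecidableInType false

namespace Crest.Agent.R172.SThird

open Matrix Module Crest.Agent.R172.FO Crest.Agent.R172.Qt Crest.Agent.R172.SpS
  Crest.Agent.R172.Om Crest.Agent.R172.SUX Crest.Agent.R172.SUB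
open Crest.Agent.R172.SBlk Crest.Agent.R172.UBlk Crest.Agent.R172.PL

variable {ι : Type*} [Fintype ι] [DecidableEq ι] {δ : Type*} [Fintype δ] [DecidableEq δ]
variable {k K : Type*} [Field k] [Field K] [Algebra k K]
variable {arm : δ → Fin 3} {J : Matrix ι ι K} {B : Matrix δ δ K}
  {N W : Submodule K (Matrix ι δ K)} {g H : Matrix ι δ K} {S0 : Matrix δ δ K}
variable {α : Type*} {Q : α → Submodule K (δ → K)} {c : α → K}

theorem Cn_of_ne {P : Matrix ι ι K} {nb : (δ → K) → (δ → K)} (hc : ∀ i, Q i ≠ ⊥ → c i ≠ 0)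
    (hH : ∀ i, ∀ u ∈ Q i, H *ᵥ u = c i • (g *ᵥ u))
    (hS : ∀ i, ∀ u ∈ Q i, th J H P H *ᵥ u = c i ^ 2 • (S0 *ᵥ u))
    (hN : ∀ i, ∀ u ∈ Q i, ∃ u' ∈ Q i, ∃ r ∈ Rd S0 Q, ∀ w ∈ W, w *ᵥ nb u = w *ᵥ (u' + r)) :
    ∃ c' : α → K, (∀ i, Q i ≠ ⊥ → c' i = c i) ∧ Cn J W g H P S0 Q c' nb := by
  classical
  refine ⟨fun i => if Q i = ⊥ then 1 else c i, fun i hi => if_neg hi, ⟨fun i => ?_,
    fun i u hu => ?_, fun i u hu => ?_, hN⟩⟩
  · by_cases h : Q i = ⊥
    · rw [if_pos h]; exact one_ne_zero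
    · rw [if_neg h]; exact hc i h
  · by_cases h : Q i = ⊥
    · rw [h, Submodule.mem_bot] at hu
      rw [hu, mulVec_zero, mulVec_zero, smul_zero]
    · rw [if_neg h]; exact hH i u hu
  · by_cases h : Q i = ⊥
    · rw [h, Submodule.mem_bot] at hu
      rw [hu, mulVec_zero, mulVec_zero, smul_zero]
    · rw [if_neg h]; exact hS i u hu

section inst

variable {f : Matrix ι δ K} {p : Matrix ι ι K × (Fin 3 → Matrix ι ι K)}
variable (h : Ctx k arm J B N W g) {R : Matrix δ ι K} (hR : g * R * g = g)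
  {D : End K (CoreM (Ph arm J B g R p.1))}
  (hD : IsD (Ph arm J B g R p.1) (Nh arm J B g f R p.1) D)

include hD in
/-- the instance at `H = g + a • f` for ANY index type (e.g. `α = K`, `nu = id`) -/
theorem cn_ex [IsAlgClosed K] (hNil : NilW arm J B N g) (hp : p ∈ NN arm J N g) (hf : f ∈ N ⊓ W)
    (hff : fᵀ * J * f = 0) {a : K} {Pt : Matrix ι ι K} {dY : Derivation k K K}
    (hY : ∀ f' ∈ N ⊓ W, (g + a • f)ᵀ * J * (Pt * f') = (g + a • f)ᵀ * J * f'.map dY)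
    (hPF : (g + a • f)ᵀ * J * (Pt * g) = (g + a • f)ᵀ * J * (p.1 * g)) {nu : α → K}
    (hc : ∀ i, Qb h.data hR p.1 D (nu i) ≠ ⊥ → 1 + a * nu i ≠ 0) {nb : (δ → K) → (δ → K)}
    (hN : ∀ i, ∀ u ∈ Qb h.data hR p.1 D (nu i), ∃ u' ∈ Qb h.data hR p.1 D (nu i),
      ∃ r ∈ Rd (gᵀ * J * (p.1 * g)) (fun i => Qb h.data hR p.1 D (nu i)),
        ∀ w ∈ W, w *ᵥ nb u = w *ᵥ (u' + r)) :
    ∃ c' : α → K, (∀ i, Qb h.data hR p.1 D (nu i) ≠ ⊥ → c' i = 1 + a * nu i) ∧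
      Cn J W g (g + a • f) Pt (gᵀ * J * (p.1 * g)) (fun i => Qb h.data hR p.1 D (nu i)) c' nb :=
  Cn_of_ne (c := fun i => 1 + a * nu i) hc
    (fun i u hu => (UFr.at_H h hR hD hNil hp hf hff hY hPF hu).1)
    (fun i u hu => (UFr.at_H h hR hD hNil hp hf hff hY hPF hu).2.2.2) hN

end inst

end Crest.Agent.R172.SThird
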