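import Crest.Agent.R172.SUX2

/-!
Row 172 (S0260), S-side (t2): the second derivative in block form (937's SUX4, second copy).
-/

set_option autoImplicit false
set_option linter.unusedSectionVars false
set_option linter.unusedFintypeInType false
set_option linter.unusedDecidableInType false
set_option linter.unusedVariables false

namespace Crest.Agent.R172.SUX100

open Matrix Module Crest.Agent.R172.FO Crest.Agent.R172.Qt Crest.Agent.R172.SpS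
  Crest.Agent.R172.Om Crest.Agent.R172.SUX

variable {ι : Type*} [Fintype ι] [DecidableEq ι] {δ : Type*} [Fintype δ] [DecidableEq δ]
variable {n1 : Type*} [Fintype n1] [DecidableEq n1] {n2 : Type*} [Fintype n2]
variable {k K : Type*} [Field k] [Field K] [Algebra k K]
variable {arm : δ → Fin 3} {J : Matrix ι ι K} {B : Matrix δ δ K}
  {N W : Submodule K (Matrix ι δ K)} {H : Matrix ι δ K}
  {P : Matrix ι ι K × (Fin 3 → Matrix ι ι K)} {Y : Fin 3 → Matrix δ δ K}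
  {d : Derivation k K K}

theorem map_smul_d {a b : Type*} (d : Derivation k K K) (c : K) (A : Matrix a b K) :
    (c • A).map d = d c • A + c • A.map d := by
  ext i j
  simp only [Matrix.map_apply, Matrix.smul_apply, Matrix.add_apply, smul_eq_mul,
    Derivation.leibniz]
  ring

theorem map_add_d {a b : Type*} (d : Derivation k K K) (A A' : Matrix a b K) :
    (A + A').map d = A.map d + A'.map d := by
  ext i j
  simp only [Matrix.map_apply, Matrix.add_apply, map_add]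

/-- `v Y_s θ_G` depends on `Y_s` only through the block form -/
theorem hYT {Q : Fin 3 → Matrix δ δ K}
    (hY : ∀ s, ∀ v ∈ W, v * Y s * Hᵀ = v * Q s * Hᵀ) {v : Matrix ι δ K} (hv : v ∈ W) (s : Fin 3)
    (G : Matrix ι δ K) : v * Y s * th J H P.1 G = v * Q s * th J H P.1 G := by
  unfold th
  calc v * Y s * (Hᵀ * J * (P.1 * G)) = (v * Y s * Hᵀ) * (J * (P.1 * G)) := by
        simp only [Matrix.mul_assoc]
    _ = (v * Q s * Hᵀ) * (J * (P.1 * G)) := by rw [hY s v hv]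
    _ = _ := by simp only [Matrix.mul_assoc]

/-- `dS = Zᵀ S + S Z` -/
theorem dS (h : Ctx k arm J B N W H) (m : Mv k arm J N W H P.1 Y d) :
    (th J H P.1 H).map d = (ZY arm J H P.1 Y)ᵀ * th J H P.1 H +
      th J H P.1 H * ZY arm J H P.1 Y := by
  have e1 : Hᵀ * J * (P.1.map d * H) = 0 := m.dP H h.mem
  have e2 : (th J H P.1 H).map d = (H.map d)ᵀ * J * (P.1 * H) +
      (Hᵀ * J * (P.1.map d * H) + Hᵀ * J * (P.1 * H.map d)) := by
    unfold th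
    simp only [map_mul_der, h.data.J_const, Matrix.mul_zero, add_zero, map_transpose_der,
      Matrix.mul_add]
  rw [e2, e1, zero_add, m.dH]
  unfold th
  rw [transpose_mul]
  simp only [Matrix.mul_assoc]

theorem Z_E (s : Fin 3) : ZY arm J H P.1 Y * E K arm s =
    Y s * th J H P.1 H * E K arm s := by
  unfold ZY
  rw [Matrix.sum_mul, Finset.sum_eq_single s]
  · rw [Matrix.mul_assoc, E_mul_self]
  · intro t _ ht
    rw [Matrix.mul_assoc, E_mul_ne arm ht, Matrix.mul_zero]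
  · intro h
    exact absurd (Finset.mem_univ s) h


theorem skew_row {S S0 : Matrix δ δ K} (hS : Sᵀ = -S) (hS0 : S0ᵀ = -S0) {c : K}
    {n : Type*} {U : Matrix δ n K} (hU : S * U = c • (S0 * U)) : Uᵀ * S = c • (Uᵀ * S0) := by
  have h1 := congrArg Matrix.transpose hU
  rw [transpose_mul, hS, transpose_smul, transpose_mul, hS0, Matrix.mul_neg, Matrix.mul_neg,
    smul_neg] at h1
  exact neg_injective h1

section main

variable {F w : Matrix ι δ K} {S0 : Matrix δ δ K} {c1 c2 : K} {U1 : Matrix δ n1 K}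
  {U2 : Matrix δ n2 K} {X X' : Fin 3 → Matrix n2 n1 K} {Γ1 : Matrix n1 n1 K}
  {Γ2 : Matrix n2 n2 K} {β β0 : Matrix n1 n2 K} {γ γ0 : Matrix n2 n1 K} {μ1 μ2 ν1 ν2 : K}

/-- `w_F U2` -/
theorem wdF_U2 (h : Ctx k arm J B N W H) (m : Mv k arm J N W H P.1 Y d)
    (hc2 : c2 ≠ 0) (H1 : H * U1 = c1 • (F * U1)) (H2 : H * U2 = c2 • (F * U2))
    (hN2 : ∀ v ∈ W, v * (U2.map d + ZY arm J H P.1 Y * U2) = v * (U2 * Γ2 + c2^2 • (U1 * β)))
    (hF : F ∈ N ⊓ W) {e2 : K} (he2 : d c2 = c2 * e2) :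
    wd arm J H P.1 Y d F * U2 = (-e2) • (F * U2) + (c1 * c2 - c2^2) • (F * (U1 * β)) := by
  set Z : Matrix δ δ K := ZY arm J H P.1 Y with hZ
  have a1 := hN2 F hF.2
  have a2 := hN2 H h.memW
  have a3 := congrArg (fun A : Matrix ι n2 K => A.map d) H2
  simp only [map_mul_der, map_smul_d, m.dH, ← hZ] at a3
  have a4 : H * (U2.map d + Z * U2) = (c2 * e2) • (F * U2) +
      c2 • (F.map d * U2 + F * U2.map d) := by
    rw [← he2, ← a3, Matrix.mul_add, Matrix.mul_assoc H Z U2, add_comm]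
  have a5 : F * U2.map d = F * (U2 * Γ2 + c2^2 • (U1 * β)) - F * (Z * U2) := by
    rw [← a1, Matrix.mul_add, add_sub_cancel_right]
  have a6 : H * (U2 * Γ2 + c2^2 • (U1 * β)) =
      c2 • (F * (U2 * Γ2)) + (c2^2 * c1) • (F * (U1 * β)) := by
    have b1 : H * (U2 * Γ2) = c2 • (F * (U2 * Γ2)) := by
      rw [← Matrix.mul_assoc, H2, Matrix.smul_mul, Matrix.mul_assoc]
    have b2 : H * (U1 * β) = c1 • (F * (U1 * β)) := by
      rw [← Matrix.mul_assoc, H1, Matrix.smul_mul, Matrix.mul_assoc]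
    rw [Matrix.mul_add, Matrix.mul_smul, b1, b2, smul_smul]
  have a7 : c2 • (wd arm J H P.1 Y d F * U2) =
      c2 • ((-e2) • (F * U2) + (c1 * c2 - c2^2) • (F * (U1 * β))) := by
    have b3 : wd arm J H P.1 Y d F * U2 = F.map d * U2 - F * (Z * U2) := by
      unfold wd
      rw [Matrix.sub_mul, ← hZ, Matrix.mul_assoc]
    have b4 : c2 • (F.map d * U2) = H * (U2 * Γ2 + c2^2 • (U1 * β)) - (c2 * e2) • (F * U2) -
        c2 • (F * (U2 * Γ2 + c2^2 • (U1 * β)) - F * (Z * U2)) := by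
      rw [← a2, a4, ← a5, smul_add]
      abel
    rw [b3, smul_sub, b4, a6, Matrix.mul_add, Matrix.mul_smul]
    module
  exact smul_right_injective _ hc2 a7

/-- `d(U1ᵀ S0) E_s` -/
theorem dU1S0 (h : Ctx k arm J B N W H) (hP : P ∈ NN arm J N H) (m : Mv k arm J N W H P.1 Y d)
    (hc1 : c1 ≠ 0)
    (S1 : th J H P.1 H * U1 = c1^2 • (S0 * U1)) (S2 : th J H P.1 H * U2 = c2^2 • (S0 * U2))
    (skew : S0ᵀ = -S0) (orth : U1ᵀ * S0 * U2 = 0)
    (hY : ∀ s, ∀ v ∈ W, v * Y s * Hᵀ = v * (U2 * X' s * U1ᵀ + U1 * (X' s)ᵀ * U2ᵀ) * Hᵀ)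
    (hN1 : ∀ v ∈ W, v * (U1.map d + ZY arm J H P.1 Y * U1) = v * (U1 * Γ1 + c1^2 • (U2 * γ)))
    {e1 : K} (he1 : d c1 = c1 * e1) (s : Fin 3) :
    (U1ᵀ * S0).map d * E K arm s = (Γ1ᵀ * (U1ᵀ * S0) - (2 * e1) • (U1ᵀ * S0) +
      c2^2 • (γᵀ * (U2ᵀ * S0)) +
      c2^2 • ((U1ᵀ * S0 * U1) * ((X' s)ᵀ * (U2ᵀ * S0)))) * E K arm s := by
  set Z : Matrix δ δ K := ZY arm J H P.1 Y with hZ
  set S : Matrix δ δ K := th J H P.1 H with hS
  have hSk : Sᵀ = -S := th_skew h hP h.mem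
  have r1 : U1ᵀ * S = c1^2 • (U1ᵀ * S0) := skew_row hSk skew S1
  have r2 : U2ᵀ * S = c2^2 • (U2ᵀ * S0) := skew_row hSk skew S2
  have q1 := congrArg (fun A : Matrix n1 δ K => A.map d) r1
  have hdS : S.map d = Zᵀ * S + S * Z := dS h m
  have q2 : d (c1^2) = c1^2 * (2 * e1) := by
    rw [pow_two, Derivation.leibniz, smul_eq_mul, he1]; ring
  simp only [map_smul_d, q2] at q1
  rw [map_mul_der, hdS, map_transpose_der] at q1
  -- `(∇U1)ᵀ S`
  have q3 : (U1.map d)ᵀ * S + U1ᵀ * (Zᵀ * S) =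
      c1^2 • (Γ1ᵀ * (U1ᵀ * S0)) + (c1^2 * c2^2) • (γᵀ * (U2ᵀ * S0)) := by
    have b1 := hN1 H h.memW
    have b2 : (U1.map d)ᵀ * S + U1ᵀ * (Zᵀ * S) =
        (H * (U1.map d + Z * U1))ᵀ * J * (P.1 * H) := by
      rw [hS]; unfold th
      rw [transpose_mul, transpose_add, transpose_mul]
      simp only [Matrix.mul_assoc, Matrix.add_mul]
    have b3 : (H * (U1 * Γ1 + c1^2 • (U2 * γ)))ᵀ * J * (P.1 * H) =
        Γ1ᵀ * (U1ᵀ * S) + c1^2 • (γᵀ * (U2ᵀ * S)) := by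
      rw [hS]; unfold th
      rw [transpose_mul, transpose_add, transpose_mul, transpose_smul, transpose_mul]
      simp only [Matrix.mul_assoc, Matrix.add_mul, Matrix.smul_mul]
    rw [b2, b1, b3, r1, r2, Matrix.mul_smul, Matrix.mul_smul, smul_smul]
  -- `U1ᵀ S Z E_s`
  have q4 : U1ᵀ * (S * Z) * E K arm s =
      (c1^2 * c2^2) • ((U1ᵀ * S0 * U1) * ((X' s)ᵀ * (U2ᵀ * S0)) * E K arm s) := by
    have b1 : S * Y s * S = S * (U2 * X' s * U1ᵀ + U1 * (X' s)ᵀ * U2ᵀ) * S := by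
      have c1' := hYT (J := J) (P := P) hY h.memW s H
      have c2' : ∀ Q : Matrix δ δ K, S * Q * S = Hᵀ * J * (P.1 * (H * Q * S)) := by
        intro Q
        rw [hS]; unfold th
        simp only [Matrix.mul_assoc]
      rw [c2', c2', hS, c1']
    have b2 : U1ᵀ * (S * Z) * E K arm s = U1ᵀ * (S * Y s * S) * E K arm s := by
      calc U1ᵀ * (S * Z) * E K arm s = U1ᵀ * S * (Z * E K arm s) := by
            simp only [Matrix.mul_assoc]
        _ = U1ᵀ * S * (Y s * S * E K arm s) := by rw [hZ, Z_E, ← hS]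
        _ = _ := by simp only [Matrix.mul_assoc]
    have b3 : U1ᵀ * (S * (U2 * X' s * U1ᵀ + U1 * (X' s)ᵀ * U2ᵀ) * S) =
        (U1ᵀ * S) * U2 * (X' s * (U1ᵀ * S)) + (U1ᵀ * S) * U1 * ((X' s)ᵀ * (U2ᵀ * S)) := by
      simp only [Matrix.mul_add, Matrix.add_mul, Matrix.mul_assoc]
    rw [b2, b1, b3, r1, r2]
    simp only [Matrix.smul_mul, Matrix.mul_smul, orth, Matrix.zero_mul, smul_zero, zero_add,
      smul_smul]
    rw [mul_comm (c2^2) (c1^2)]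
  have q5 : c1^2 • ((U1ᵀ * S0).map d * E K arm s) = c1^2 • ((Γ1ᵀ * (U1ᵀ * S0) -
      (2 * e1) • (U1ᵀ * S0) + c2^2 • (γᵀ * (U2ᵀ * S0)) +
      c2^2 • ((U1ᵀ * S0 * U1) * ((X' s)ᵀ * (U2ᵀ * S0)))) * E K arm s) := by
    have b1 : c1^2 • (U1ᵀ * S0).map d = c1^2 • (Γ1ᵀ * (U1ᵀ * S0)) +
        (c1^2 * c2^2) • (γᵀ * (U2ᵀ * S0)) + U1ᵀ * (S * Z) -
        (c1^2 * (2 * e1)) • (U1ᵀ * S0) := by
      rw [← q3, eq_sub_iff_add_eq, add_comm, ← q1, Matrix.mul_add]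
      abel
    rw [← Matrix.smul_mul, b1, Matrix.sub_mul, Matrix.add_mul, Matrix.add_mul, q4]
    simp only [Matrix.add_mul, Matrix.sub_mul, Matrix.smul_mul]
    module
  exact smul_right_injective _ (pow_ne_zero 2 hc1) q5

/-- **the second derivative in blocks** (937's SUX4) -/
theorem second_blocks (h : Ctx k arm J B N W H) (hP : P ∈ NN arm J N H)
    (m : Mv k arm J N W H P.1 Y d) (hc1 : c1 ≠ 0) (hc2 : c2 ≠ 0)
    (H1 : H * U1 = c1 • (F * U1)) (H2 : H * U2 = c2 • (F * U2))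
    (S1 : th J H P.1 H * U1 = c1^2 • (S0 * U1)) (S2 : th J H P.1 H * U2 = c2^2 • (S0 * U2))
    (T2 : th J H P.1 F * U2 = c2 • (S0 * U2)) (skew : S0ᵀ = -S0) (orth : U1ᵀ * S0 * U2 = 0)
    (hY : ∀ s, ∀ v ∈ W, v * Y s * Hᵀ = v * (U2 * X' s * U1ᵀ + U1 * (X' s)ᵀ * U2ᵀ) * Hᵀ)
    (hN2 : ∀ v ∈ W, v * (U2.map d + ZY arm J H P.1 Y * U2) = v * (U2 * Γ2 + c2^2 • (U1 * β)))
    (hN1 : ∀ v ∈ W, v * (U1.map d + ZY arm J H P.1 Y * U1) = v * (U1 * Γ1 + c1^2 • (U2 * γ)))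
    (hF : F ∈ N ⊓ W) (hFp : Hᵀ * J * F = 0) (hw : w ∈ W) (hwp : Hᵀ * J * w = 0)
    (hn : ∑ s, F * (U2 * X s * U1ᵀ * S0) * E K arm s - w ∈ N)
    (L1 : w * U1 = μ1 • (F * U1) + F * (U2 * γ0)) (L2 : w * U2 = μ2 • (F * U2))
    (V1 : U1ᵀ * th J H P.1 w = (c1 * ν1) • (U1ᵀ * S0))
    (V2 : U2ᵀ * th J H P.1 w = (c2 * ν2) • (U2ᵀ * S0) - c2 • (β0ᵀ * (U1ᵀ * S0))) :
    ∑ s, F * ((c1 * c2) • (U1 * (β * X s - (X' s)ᵀ * (U2ᵀ * S0 * U2) * X s -
          (X' s)ᵀ * β0ᵀ) * U1ᵀ)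
        + c2^2 • (U2 * (X s * γᵀ + X s * (U1ᵀ * S0 * U1) * (X' s)ᵀ - γ0 * (X' s)ᵀ) * U2ᵀ)
        + U2 * (Γ2 * X s + (X s).map d + X s * (Γ1 - (2 * (d c1 / c1)) • 1)ᵀ -
          (d c2 / c2) • X s + (c1 * c2 * ν1 - μ2 * c1^2) • X' s) * U1ᵀ
        + (c1 * c2 * ν2 - μ1 * c2^2) • (U1 * (X' s)ᵀ * U2ᵀ)) * S0 * E K arm s -
      wd arm J H P.1 Y d w ∈ N := by
  set Z : Matrix δ δ K := ZY arm J H P.1 Y with hZ
  set S : Matrix δ δ K := th J H P.1 H with hS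
  obtain ⟨e1, he1'⟩ : ∃ e1 : K, e1 = d c1 / c1 := ⟨_, rfl⟩
  obtain ⟨e2, he2'⟩ : ∃ e2 : K, e2 = d c2 / c2 := ⟨_, rfl⟩
  have he1 : d c1 = c1 * e1 := by rw [he1']; field_simp
  have he2 : d c2 = c2 * e2 := by rw [he2']; field_simp
  rw [← he1', ← he2']
  have hSk : Sᵀ = -S := th_skew h hP h.mem
  have r1 : U1ᵀ * S = c1^2 • (U1ᵀ * S0) := skew_row hSk skew S1
  have r2 : U2ᵀ * S = c2^2 • (U2ᵀ * S0) := skew_row hSk skew S2
  have key := m.second (A := fun s => U2 * X s * U1ᵀ * S0) hFp hwp hn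
  have f1 := hN2 F hF.2
  have f2 := wdF_U2 h m hc2 H1 H2 hN2 hF he2
  have f3 := fun s => dU1S0 h hP m hc1 S1 S2 skew orth hY hN1 he1 s
  refine (congrArg (fun A => A ∈ N) ?_).mp key
  congr 1
  refine Finset.sum_congr rfl fun s _ => ?_
  rw [← hZ, ← hS]
  -- the four pieces
  have g0 : (U2 * X s * U1ᵀ * S0).map d = U2.map d * (X s * (U1ᵀ * S0)) +
      U2 * ((X s).map d * (U1ᵀ * S0)) + U2 * (X s * (U1ᵀ * S0).map d) := by
    have b : U2 * X s * U1ᵀ * S0 = U2 * (X s * (U1ᵀ * S0)) := by simp only [Matrix.mul_assoc]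
    rw [b, map_mul_der, map_mul_der, Matrix.mul_add, ← add_assoc]
  have g1 : (F * (Z * (U2 * X s * U1ᵀ * S0) + (U2 * X s * U1ᵀ * S0).map d)) * E K arm s =
      F * (U2.map d + Z * U2) * (X s * (U1ᵀ * S0)) * E K arm s +
      F * (U2 * ((X s).map d * (U1ᵀ * S0))) * E K arm s +
      F * (U2 * (X s * ((U1ᵀ * S0).map d * E K arm s))) := by
    rw [g0]
    simp only [Matrix.mul_add, Matrix.add_mul, Matrix.mul_assoc]
    abel
  have g2 : wd arm J H P.1 Y d F * (U2 * X s * U1ᵀ * S0) =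
      (wd arm J H P.1 Y d F * U2) * (X s * (U1ᵀ * S0)) := by simp only [Matrix.mul_assoc]
  have g3 : w * Y s * S = (w * U2) * (X' s * (U1ᵀ * S)) + (w * U1) * ((X' s)ᵀ * (U2ᵀ * S)) := by
    rw [hS, hYT (J := J) (P := P) hY hw s H]
    simp only [Matrix.mul_add, Matrix.add_mul, Matrix.mul_assoc]
  have g4 : ∀ G : Matrix ι δ K, H * Y s * th J H P.1 G =
      (H * U2) * (X' s * (U1ᵀ * th J H P.1 G)) + (H * U1) * ((X' s)ᵀ * (U2ᵀ * th J H P.1 G)) := by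
    intro G
    rw [hYT (J := J) (P := P) hY h.memW s G]
    simp only [Matrix.mul_add, Matrix.add_mul, Matrix.mul_assoc]
  have g5 : H * Y s * (th J H P.1 F * (U2 * X s * U1ᵀ * S0) - th J H P.1 w) =
      (H * U2) * (X' s * (U1ᵀ * (th J H P.1 F * U2))) * (X s * (U1ᵀ * S0)) +
      (H * U1) * ((X' s)ᵀ * (U2ᵀ * (th J H P.1 F * U2))) * (X s * (U1ᵀ * S0)) -
      ((H * U2) * (X' s * (U1ᵀ * th J H P.1 w)) + (H * U1) * ((X' s)ᵀ * (U2ᵀ * th J H P.1 w))) := by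
    rw [Matrix.mul_sub, ← g4]
    congr 1
    have b : H * Y s * (th J H P.1 F * (U2 * X s * U1ᵀ * S0)) =
        (H * Y s * th J H P.1 F) * (U2 * (X s * (U1ᵀ * S0))) := by simp only [Matrix.mul_assoc]
    rw [b, g4]
    simp only [Matrix.add_mul, Matrix.mul_assoc]
  have o1 : U1ᵀ * (S0 * U2) = 0 := by rw [← Matrix.mul_assoc]; exact orth
  rw [Matrix.sub_mul, Matrix.sub_mul, Matrix.add_mul, g1, g2, g3, g5, f1, f2, f3 s, T2, r1, r2,
    L1, L2, H1, H2, V1, V2]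
  simp only [transpose_sub, transpose_smul, transpose_one, Matrix.mul_add, Matrix.add_mul,
    Matrix.mul_sub, Matrix.sub_mul, Matrix.smul_mul, Matrix.mul_smul, Matrix.mul_assoc,
    Matrix.mul_one, o1, Matrix.mul_zero, Matrix.zero_mul, smul_zero, smul_add,
    smul_sub, smul_smul]
  module

end main

section values

variable {F w : Matrix ι δ K} {a b : Type*} [Fintype a] [Fintype b] {ca cb : K}
  {Ua : Matrix δ a K} {Ub : Matrix δ b K} {Γa : Matrix a a K} {Γb : Matrix b b K}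
  {βab : Matrix a b K} {βba : Matrix b a K}

/-- `w_F U_b` -/
theorem wdF_U (h : Ctx k arm J B N W H) (m : Mv k arm J N W H P.1 Y d)
    (hcb : cb ≠ 0) (Ha : H * Ua = ca • (F * Ua)) (Hb : H * Ub = cb • (F * Ub))
    (hNb : ∀ v ∈ W, v * (Ub.map d + ZY arm J H P.1 Y * Ub) = v * (Ub * Γb + cb^2 • (Ua * βab)))
    (hF : F ∈ N ⊓ W) {eb : K} (heb : d cb = cb * eb) :
    wd arm J H P.1 Y d F * Ub = (-eb) • (F * Ub) + (ca * cb - cb^2) • (F * (Ua * βab)) := by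
  classical
  exact wdF_U2 h m hcb Ha Hb hNb hF heb

/-- `d(F U_b)` -/
theorem dFU (h : Ctx k arm J B N W H) (m : Mv k arm J N W H P.1 Y d)
    (hcb : cb ≠ 0) (Ha : H * Ua = ca • (F * Ua)) (Hb : H * Ub = cb • (F * Ub))
    (hNb : ∀ v ∈ W, v * (Ub.map d + ZY arm J H P.1 Y * Ub) = v * (Ub * Γb + cb^2 • (Ua * βab)))
    (hF : F ∈ N ⊓ W) {eb : K} (heb : d cb = cb * eb) :
    (F * Ub).map d = F * (Ub * Γb) + (ca * cb) • (F * (Ua * βab)) - eb • (F * Ub) := by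
  have a1 := wdF_U h m hcb Ha Hb hNb hF heb
  have a2 := hNb F hF.2
  have a3 : (F * Ub).map d = wd arm J H P.1 Y d F * Ub +
      F * (Ub.map d + ZY arm J H P.1 Y * Ub) := by
    unfold wd
    rw [map_mul_der, Matrix.sub_mul, Matrix.mul_add, Matrix.mul_assoc F]
    abel
  rw [a3, a1, a2, Matrix.mul_add, Matrix.mul_smul]
  module

/-- value of `w'' = wd w` on the block `U2` on which `w = μ F` -/
theorem wdw_U2 (h : Ctx k arm J B N W H) (m : Mv k arm J N W H P.1 Y d)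
    {c1 c2 : K} {U1 : Matrix δ a K} {U2 : Matrix δ b K} {Γ1 : Matrix a a K} {Γ2 : Matrix b b K}
    {β : Matrix a b K} {γ0 : Matrix b a K} {μ1 μ2 : K} (hc2 : c2 ≠ 0)
    (H1 : H * U1 = c1 • (F * U1)) (H2 : H * U2 = c2 • (F * U2))
    (hN2 : ∀ v ∈ W, v * (U2.map d + ZY arm J H P.1 Y * U2) = v * (U2 * Γ2 + c2^2 • (U1 * β)))
    (hF : F ∈ N ⊓ W) (hw : w ∈ W)
    (L1 : w * U1 = μ1 • (F * U1) + F * (U2 * γ0)) (L2 : w * U2 = μ2 • (F * U2)) :
    wd arm J H P.1 Y d w * U2 = (d μ2 - μ2 * (d c2 / c2)) • (F * U2) +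
      (μ2 * c1 * c2 - μ1 * c2^2) • (F * (U1 * β)) - c2^2 • (F * (U2 * (γ0 * β))) := by
  obtain ⟨e2, he2'⟩ : ∃ e2 : K, e2 = d c2 / c2 := ⟨_, rfl⟩
  have he2 : d c2 = c2 * e2 := by rw [he2']; field_simp
  rw [← he2']
  have a1 := dFU h m hc2 H1 H2 hN2 hF he2
  have a2 := hN2 w hw
  have a3 : (w * U2).map d = (μ2 • (F * U2)).map d := by rw [L2]
  rw [map_mul_der d w U2, map_smul_d, a1] at a3
  have a4 : wd arm J H P.1 Y d w * U2 = w.map d * U2 + w * U2.map d -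
      w * (U2.map d + ZY arm J H P.1 Y * U2) := by
    unfold wd
    rw [Matrix.sub_mul, Matrix.mul_add, Matrix.mul_assoc w]
    abel
  have a5 : w * (U2 * Γ2 + c2^2 • (U1 * β)) = μ2 • (F * (U2 * Γ2)) +
      c2^2 • (μ1 • (F * (U1 * β)) + F * (U2 * (γ0 * β))) := by
    have b1 : w * (U2 * Γ2) = μ2 • (F * (U2 * Γ2)) := by
      rw [← Matrix.mul_assoc, L2, Matrix.smul_mul, Matrix.mul_assoc]
    have b2 : w * (U1 * β) = μ1 • (F * (U1 * β)) + F * (U2 * (γ0 * β)) := by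
      rw [← Matrix.mul_assoc, L1, Matrix.add_mul, Matrix.smul_mul]
      simp only [Matrix.mul_assoc]
    rw [Matrix.mul_add, Matrix.mul_smul, b1, b2]
  rw [a4, a2, a5, a3]
  module

/-- value of `w'' = wd w` on the block `U1`, `w U1 = μ1 F U1 + F U2 γ0` -/
theorem wdw_U1 (h : Ctx k arm J B N W H) (m : Mv k arm J N W H P.1 Y d)
    {c1 c2 : K} {U1 : Matrix δ a K} {U2 : Matrix δ b K} {Γ1 : Matrix a a K} {Γ2 : Matrix b b K}
    {β : Matrix a b K} {γ γ0 : Matrix b a K} {μ1 μ2 : K} (hc1 : c1 ≠ 0) (hc2 : c2 ≠ 0)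
    (H1 : H * U1 = c1 • (F * U1)) (H2 : H * U2 = c2 • (F * U2))
    (hN2 : ∀ v ∈ W, v * (U2.map d + ZY arm J H P.1 Y * U2) = v * (U2 * Γ2 + c2^2 • (U1 * β)))
    (hN1 : ∀ v ∈ W, v * (U1.map d + ZY arm J H P.1 Y * U1) = v * (U1 * Γ1 + c1^2 • (U2 * γ)))
    (hF : F ∈ N ⊓ W) (hw : w ∈ W)
    (L1 : w * U1 = μ1 • (F * U1) + F * (U2 * γ0)) (L2 : w * U2 = μ2 • (F * U2)) :
    wd arm J H P.1 Y d w * U1 = (d μ1 - μ1 * (d c1 / c1)) • (F * U1) +
      F * (U2 * (Γ2 * γ0 + γ0.map d - γ0 * Γ1 + (μ1 * c1 * c2 - μ2 * c1^2) • γ -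
        (d c2 / c2) • γ0)) + (c1 * c2) • (F * (U1 * (β * γ0))) := by
  obtain ⟨e1, he1'⟩ : ∃ e1 : K, e1 = d c1 / c1 := ⟨_, rfl⟩
  obtain ⟨e2, he2'⟩ : ∃ e2 : K, e2 = d c2 / c2 := ⟨_, rfl⟩
  have he1 : d c1 = c1 * e1 := by rw [he1']; field_simp
  have he2 : d c2 = c2 * e2 := by rw [he2']; field_simp
  rw [← he2', ← he1']
  have a1 := dFU h m hc2 H1 H2 hN2 hF he2
  have a1' := dFU h m hc1 H2 H1 hN1 hF he1
  have a2 := hN1 w hw
  have a3 : (w * U1).map d = (μ1 • (F * U1) + (F * U2) * γ0).map d := by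
    rw [L1, Matrix.mul_assoc F U2 γ0]
  rw [map_mul_der d w U1, map_add_d, map_smul_d, map_mul_der d (F * U2) γ0, a1, a1'] at a3
  have a4 : wd arm J H P.1 Y d w * U1 = w.map d * U1 + w * U1.map d -
      w * (U1.map d + ZY arm J H P.1 Y * U1) := by
    unfold wd
    rw [Matrix.sub_mul, Matrix.mul_add, Matrix.mul_assoc w]
    abel
  have a5 : w * (U1 * Γ1 + c1^2 • (U2 * γ)) = μ1 • (F * (U1 * Γ1)) + F * (U2 * (γ0 * Γ1)) +
      (c1^2 * μ2) • (F * (U2 * γ)) := by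
    have b1 : w * (U1 * Γ1) = μ1 • (F * (U1 * Γ1)) + F * (U2 * (γ0 * Γ1)) := by
      rw [← Matrix.mul_assoc, L1, Matrix.add_mul, Matrix.smul_mul]
      simp only [Matrix.mul_assoc]
    have b2 : w * (U2 * γ) = μ2 • (F * (U2 * γ)) := by
      rw [← Matrix.mul_assoc, L2, Matrix.smul_mul, Matrix.mul_assoc]
    rw [Matrix.mul_add, Matrix.mul_smul, b1, b2, smul_smul]
  rw [a4, a2, a5, a3]
  simp only [Matrix.mul_add, Matrix.add_mul, Matrix.mul_sub, Matrix.sub_mul, Matrix.smul_mul,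
    Matrix.mul_smul, Matrix.mul_assoc]
  module

end values

end Crest.Agent.R172.SUX100
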