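import Crest.Agent.R172.SUXF

/-!
Row 172 (S0260), S-side: the values on `U1`, `U2` of the correction `w'' = wd w` of the second
derivative (`second_blocks`, SUX4b).
-/

set_option autoImplicit false
set_option linter.unusedSectionVars false
set_option linter.unusedFintypeInType false
set_option linter.unusedDecidableInType false
set_option linter.unusedVariables false

namespace Crest.Agent.R172.SUX4b

open Matrix Module Crest.Agent.R172.FO Crest.Agent.R172.Qt Crest.Agent.R172.SpS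
  Crest.Agent.R172.Om Crest.Agent.R172.SUX

variable {ι : Type*} [Fintype ι] [DecidableEq ι] {δ : Type*} [Fintype δ] [DecidableEq δ]
variable {k K : Type*} [Field k] [Field K] [Algebra k K]
variable {arm : δ → Fin 3} {J : Matrix ι ι K} {B : Matrix δ δ K}
  {N W : Submodule K (Matrix ι δ K)} {H F : Matrix ι δ K}
variable {n1 n2 : Type*} [Fintype n1] [Fintype n2]
variable {P : Matrix ι ι K} {S0 : Matrix δ δ K} {c1 c2 : K}
  {U1 : Matrix δ n1 K} {U2 : Matrix δ n2 K} {Y : Fin 3 → Matrix δ δ K} {d : Derivation k K K}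
  {Γ1 : Matrix n1 n1 K} {Γ2 : Matrix n2 n2 K} {β : Matrix n1 n2 K} {γ : Matrix n2 n1 K}
  {γ0 : Matrix n2 n1 K} {w : Matrix ι δ K} {μ1 μ2 : K}

theorem wd_mul {n : Type*} [Fintype n] (w : Matrix ι δ K) (U : Matrix δ n K) :
    wd arm J H P Y d w * U = (w * U).map d - w * (U.map d + ZY arm J H P Y * U) := by
  unfold wd
  rw [map_mul_der, Matrix.sub_mul, Matrix.mul_add, ← Matrix.mul_assoc]
  abel

/-- value of `w''` on `U2` -/
theorem val2 (fr : Fr J F H P S0 c1 c2 U1 U2) (hd : H.map d = H * ZY arm J H P Y)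
    (hNH : H * (U2.map d + ZY arm J H P Y * U2) = H * (U2 * Γ2 + c2 ^ 2 • (U1 * β)))
    (hNw : w * (U2.map d + ZY arm J H P Y * U2) = w * (U2 * Γ2 + c2 ^ 2 • (U1 * β)))
    (L1 : w * U1 = μ1 • (F * U1) + F * (U2 * γ0)) (L2 : w * U2 = μ2 • (F * U2)) :
    wd arm J H P Y d w * U2 = (d μ2 - μ2 * (d c2 / c2)) • (F * U2) +
      (μ2 * (c1 * c2) - μ1 * c2 ^ 2) • (F * (U1 * β)) - c2 ^ 2 • (F * (U2 * (γ0 * β))) := by
  have h1 := dFU fr.symm hd hNH
  rw [wd_mul, L2, SUX.map_smul_der, h1, hNw, Matrix.mul_add, Matrix.mul_smul, ← Matrix.mul_assoc,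
    ← Matrix.mul_assoc, L1, L2]
  simp only [Matrix.add_mul, Matrix.smul_mul, Matrix.mul_assoc, smul_add, smul_sub, smul_smul]
  module

/-- value of `w''` on `U1` -/
theorem val1 (fr : Fr J F H P S0 c1 c2 U1 U2) (hd : H.map d = H * ZY arm J H P Y)
    (hNH1 : H * (U1.map d + ZY arm J H P Y * U1) = H * (U1 * Γ1 + c1 ^ 2 • (U2 * γ)))
    (hNH2 : H * (U2.map d + ZY arm J H P Y * U2) = H * (U2 * Γ2 + c2 ^ 2 • (U1 * β)))
    (hNw : w * (U1.map d + ZY arm J H P Y * U1) = w * (U1 * Γ1 + c1 ^ 2 • (U2 * γ)))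
    (L1 : w * U1 = μ1 • (F * U1) + F * (U2 * γ0)) (L2 : w * U2 = μ2 • (F * U2)) :
    wd arm J H P Y d w * U1 = (d μ1 - μ1 * (d c1 / c1)) • (F * U1) +
      F * (U2 * (Γ2 * γ0 + γ0.map d - γ0 * Γ1 + (μ1 * (c1 * c2) - μ2 * c1 ^ 2) • γ -
        (d c2 / c2) • γ0)) + (c1 * c2) • (F * (U1 * (β * γ0))) := by
  have h1 := dFU fr hd hNH1
  have h2 := dFU fr.symm hd hNH2
  have h3 : (F * (U2 * γ0)).map d = (F * U2).map d * γ0 + F * U2 * γ0.map d := by
    rw [← Matrix.mul_assoc, map_mul_der]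
  have h4 : (μ1 • (F * U1) + F * (U2 * γ0)).map d =
      (μ1 • (F * U1)).map d + (F * (U2 * γ0)).map d := by
    ext i j
    simp
  rw [wd_mul, L1, h4, SUX.map_smul_der, h3, h1, h2, hNw, Matrix.mul_add, Matrix.mul_smul,
    ← Matrix.mul_assoc, ← Matrix.mul_assoc, L1, L2]
  simp only [Matrix.add_mul, Matrix.sub_mul, Matrix.mul_add, Matrix.mul_sub, Matrix.smul_mul,
    Matrix.mul_smul, Matrix.mul_assoc, smul_add, smul_sub, smul_smul]
  module

/-- `w''` lies in `W`, is perpendicular to `H` -/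
theorem wd_mem (h : Ctx k arm J B N W H) {P : Matrix ι ι K × (Fin 3 → Matrix ι ι K)}
    (m : Mv k arm J N W H P.1 Y d) (hw : w ∈ W) (hwp : Hᵀ * J * w = 0) :
    wd arm J H P.1 Y d w ∈ W ∧ Hᵀ * J * wd arm J H P.1 Y d w = 0 :=
  ⟨m.w_mem hw, m.w_perp h hwp⟩

end Crest.Agent.R172.SUX4b
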