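import Crest.Agent.R172.SUX4b

/-!
Row 172 (S0260), S-side: the second derivative in block form with overlap errors (helper201):
`w U2 = μ2 F U2 + F U1 β1`, `U1ᵀ θ_w = c1 ν1 U1ᵀ S0 - c1 γ1ᵀ U2ᵀ S0`; values of `wd w`.
-/

set_option autoImplicit false
set_option linter.unusedSectionVars false
set_option linter.unusedFintypeInType false
set_option linter.unusedDecidableInType false
set_option linter.unusedVariables false
set_option maxHeartbeats 1600000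

namespace Crest.Agent.R172.SUXz201

open Matrix Module Crest.Agent.R172.FO Crest.Agent.R172.Qt Crest.Agent.R172.SpS
  Crest.Agent.R172.Om Crest.Agent.R172.SUX Crest.Agent.R172.SUX4b

variable {ι : Type*} [Fintype ι] [DecidableEq ι] {δ : Type*} [Fintype δ] [DecidableEq δ]
variable {k K : Type*} [Field k] [Field K] [Algebra k K]
variable {arm : δ → Fin 3} {J : Matrix ι ι K} {B : Matrix δ δ K}
  {N W : Submodule K (Matrix ι δ K)} {H F : Matrix ι δ K}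
variable {n1 n2 : Type*} [Fintype n1] [Fintype n2] [DecidableEq n1] [DecidableEq n2]
variable {P : Matrix ι ι K × (Fin 3 → Matrix ι ι K)} {S0 : Matrix δ δ K} {c1 c2 : K}
  {U1 : Matrix δ n1 K} {U2 : Matrix δ n2 K} {Y : Fin 3 → Matrix δ δ K} {d : Derivation k K K}
  {Γ1 : Matrix n1 n1 K} {Γ2 : Matrix n2 n2 K} {β : Matrix n1 n2 K} {γ : Matrix n2 n1 K}

/-- **second derivative, block form** -/
theorem second_blocksZ (h : Ctx k arm J B N W H) (hP : P ∈ NN arm J N H)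
    (m : Mv k arm J N W H P.1 Y d) (fr : Fr J F H P.1 S0 c1 c2 U1 U2)
    {X X' : Fin 3 → Matrix n2 n1 K} {β0 β1 : Matrix n1 n2 K} {γ0 γ1 : Matrix n2 n1 K}
    {w : Matrix ι δ K} {μ1 μ2 ν1 ν2 : K}
    (hY : ∀ s, ∀ v ∈ W, v * Y s * Hᵀ = v * (U2 * X' s * U1ᵀ + U1 * (X' s)ᵀ * U2ᵀ) * Hᵀ)
    (hN2 : ∀ v ∈ W, v * (U2.map d + ZY arm J H P.1 Y * U2) = v * (U2 * Γ2 + c2 ^ 2 • (U1 * β)))
    (hN1 : ∀ v ∈ W, v * (U1.map d + ZY arm J H P.1 Y * U1) = v * (U1 * Γ1 + c1 ^ 2 • (U2 * γ)))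
    (hF : F ∈ N ⊓ W) (hFp : Hᵀ * J * F = 0) (hw : w ∈ W) (hwp : Hᵀ * J * w = 0)
    (hn : ∑ s, F * (U2 * X s * U1ᵀ * S0) * E K arm s - w ∈ N)
    (L1 : w * U1 = μ1 • (F * U1) + F * (U2 * γ0)) (L2 : w * U2 = μ2 • (F * U2) + F * (U1 * β1))
    (V1 : U1ᵀ * th J H P.1 w = (c1 * ν1) • (U1ᵀ * S0) - c1 • (γ1ᵀ * (U2ᵀ * S0)))
    (V2 : U2ᵀ * th J H P.1 w = (c2 * ν2) • (U2ᵀ * S0) - c2 • (β0ᵀ * (U1ᵀ * S0))) :
    ∑ s, F * ((c1 * c2) • (U1 * (β * X s - (X' s)ᵀ * (U2ᵀ * S0 * U2) * X s - (X' s)ᵀ * β0ᵀ) * U1ᵀ)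
      + c2 ^ 2 • (U2 * (X s * γᵀ + X s * (U1ᵀ * S0 * U1) * (X' s)ᵀ - γ0 * (X' s)ᵀ) * U2ᵀ)
      - c1 ^ 2 • (U1 * (β1 * X' s) * U1ᵀ) - (c1 * c2) • (U2 * (X' s * γ1ᵀ) * U2ᵀ)
      + U2 * (Γ2 * X s + (X s).map d + X s * (Γ1 - (2 * (d c1 / c1)) • (1 : Matrix n1 n1 K))ᵀ
          - (d c2 / c2) • X s + (c1 * c2 * ν1 - μ2 * c1 ^ 2) • X' s) * U1ᵀ
      + (c1 * c2 * ν2 - μ1 * c2 ^ 2) • (U1 * (X' s)ᵀ * U2ᵀ)) * S0 * E K arm s
      - wd arm J H P.1 Y d w ∈ N := by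
  have key := m.second (A := fun s => U2 * X s * U1ᵀ * S0) hFp hwp hn
  have hHW : H ∈ W := h.memW
  have hthH := th_skew h hP h.mem
  have hthF := th_skew h hP hF
  have hU1 := T_of hthH fr.skew fr.S1
  have hU2 := T_of hthH fr.skew fr.S2
  have hF1 := T_of hthF fr.skew fr.T1
  have hF2 := T_of hthF fr.skew fr.T2
  have hR := dR h hP m fr (fun s => hY s H hHW) (hN1 H hHW)
  have hdFU := dFU fr.symm m.dH (hN2 H hHW)
  -- `wd F * U2`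
  have hwF : wd arm J H P.1 Y d F * U2 = (c1 * c2 - c2 ^ 2) • (F * (U1 * β)) -
      (d c2 / c2) • (F * U2) := by
    have e1 : wd arm J H P.1 Y d F * U2 = (F * U2).map d -
        F * (U2.map d + ZY arm J H P.1 Y * U2) := by
      unfold wd
      rw [map_mul_der, Matrix.sub_mul, Matrix.mul_add, ← Matrix.mul_assoc]
      abel
    rw [e1, hdFU, hN2 F hF.2, Matrix.mul_add, Matrix.mul_smul]
    simp only [Matrix.mul_assoc]
    module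
  have hsum : ∀ s, (F * (ZY arm J H P.1 Y * (U2 * X s * U1ᵀ * S0) +
        (U2 * X s * U1ᵀ * S0).map d) + wd arm J H P.1 Y d F * (U2 * X s * U1ᵀ * S0) -
        w * Y s * th J H P.1 H -
        H * Y s * (th J H P.1 F * (U2 * X s * U1ᵀ * S0) - th J H P.1 w)) * E K arm s =
      F * ((c1 * c2) • (U1 * (β * X s - (X' s)ᵀ * (U2ᵀ * S0 * U2) * X s - (X' s)ᵀ * β0ᵀ) * U1ᵀ)
      + c2 ^ 2 • (U2 * (X s * γᵀ + X s * (U1ᵀ * S0 * U1) * (X' s)ᵀ - γ0 * (X' s)ᵀ) * U2ᵀ)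
      - c1 ^ 2 • (U1 * (β1 * X' s) * U1ᵀ) - (c1 * c2) • (U2 * (X' s * γ1ᵀ) * U2ᵀ)
      + U2 * (Γ2 * X s + (X s).map d + X s * (Γ1 - (2 * (d c1 / c1)) • (1 : Matrix n1 n1 K))ᵀ
          - (d c2 / c2) • X s + (c1 * c2 * ν1 - μ2 * c1 ^ 2) • X' s) * U1ᵀ
      + (c1 * c2 * ν2 - μ1 * c2 ^ 2) • (U1 * (X' s)ᵀ * U2ᵀ)) * S0 * E K arm s := by
    intro s
    -- (a)
    have ta : F * (ZY arm J H P.1 Y * (U2 * X s * U1ᵀ * S0) + (U2 * X s * U1ᵀ * S0).map d) =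
        F * (U2 * Γ2 + c2 ^ 2 • (U1 * β)) * (X s * (U1ᵀ * S0)) +
        F * U2 * (X s).map d * (U1ᵀ * S0) + F * U2 * X s * (U1ᵀ * S0).map d := by
      rw [← hN2 F hF.2]
      have e1 : U2 * X s * U1ᵀ * S0 = U2 * X s * (U1ᵀ * S0) := by simp only [Matrix.mul_assoc]
      rw [e1, map_mul_der, map_mul_der]
      simp only [Matrix.mul_add, Matrix.add_mul, Matrix.mul_assoc]
      abel
    -- (b)
    have tb : wd arm J H P.1 Y d F * (U2 * X s * U1ᵀ * S0) =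
        ((c1 * c2 - c2 ^ 2) • (F * (U1 * β)) - (d c2 / c2) • (F * U2)) * (X s * (U1ᵀ * S0)) := by
      rw [← hwF]
      simp only [Matrix.mul_assoc]
    -- (c)
    have tc : w * Y s * th J H P.1 H = c1 ^ 2 • ((μ2 • (F * U2) + F * (U1 * β1)) * X' s * (U1ᵀ * S0)) +
        c2 ^ 2 • ((μ1 • (F * U1) + F * (U2 * γ0)) * (X' s)ᵀ * (U2ᵀ * S0)) := by
      have e1 : w * Y s * th J H P.1 H = w * Y s * Hᵀ * (J * (P.1 * H)) := by
        unfold th; simp only [Matrix.mul_assoc]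
      have e2 : w * (U2 * X' s * U1ᵀ + U1 * (X' s)ᵀ * U2ᵀ) * Hᵀ * (J * (P.1 * H)) =
          (w * U2) * X' s * (U1ᵀ * th J H P.1 H) + (w * U1) * (X' s)ᵀ * (U2ᵀ * th J H P.1 H) := by
        unfold th
        simp only [Matrix.mul_add, Matrix.add_mul, Matrix.mul_assoc]
      rw [e1, hY s w hw, e2, hU1, hU2, L1, L2, Matrix.mul_smul, Matrix.mul_smul]
    -- (d)
    have td : H * Y s * (th J H P.1 F * (U2 * X s * U1ᵀ * S0)) =
        (c1 * c2) • (F * U1 * (X' s)ᵀ * (U2ᵀ * S0 * U2) * X s * (U1ᵀ * S0)) := by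
      have e1 : H * Y s * (th J H P.1 F * (U2 * X s * U1ᵀ * S0)) =
          H * Y s * Hᵀ * (J * (P.1 * F) * (U2 * X s * U1ᵀ * S0)) := by
        unfold th; simp only [Matrix.mul_assoc]
      have e2 : H * (U2 * X' s * U1ᵀ + U1 * (X' s)ᵀ * U2ᵀ) * Hᵀ *
          (J * (P.1 * F) * (U2 * X s * U1ᵀ * S0)) =
          (H * U2) * X' s * (U1ᵀ * th J H P.1 F) * U2 * X s * (U1ᵀ * S0) +
          (H * U1) * (X' s)ᵀ * (U2ᵀ * th J H P.1 F) * U2 * X s * (U1ᵀ * S0) := by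
        unfold th
        simp only [Matrix.mul_add, Matrix.add_mul, Matrix.mul_assoc]
      rw [e1, hY s H hHW, e2, hF1, hF2, fr.H1, fr.H2]
      have e3 : c2 • (F * U2) * X' s * c1 • (U1ᵀ * S0) * U2 * X s * (U1ᵀ * S0) = 0 := by
        have : c2 • (F * U2) * X' s * c1 • (U1ᵀ * S0) * U2 * X s * (U1ᵀ * S0) =
            c2 • c1 • (F * U2 * X' s * (U1ᵀ * S0 * U2) * X s * (U1ᵀ * S0)) := by
          simp only [Matrix.smul_mul, Matrix.mul_smul, Matrix.mul_assoc]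
          exact smul_comm _ _ _
        rw [this, fr.orth]
        simp
      rw [e3, zero_add]
      simp only [Matrix.smul_mul, Matrix.mul_smul, Matrix.mul_assoc, smul_smul]
      rw [mul_comm c2 c1]
    -- (e)
    have te : H * Y s * th J H P.1 w = (c1 * c2 * ν1) • (F * U2 * X' s * (U1ᵀ * S0)) +
        (c1 * c2 * ν2) • (F * U1 * (X' s)ᵀ * (U2ᵀ * S0)) -
        (c1 * c2) • (F * U1 * (X' s)ᵀ * β0ᵀ * (U1ᵀ * S0)) -
        (c1 * c2) • (F * U2 * X' s * γ1ᵀ * (U2ᵀ * S0)) := by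
      have e1 : H * Y s * th J H P.1 w = H * Y s * Hᵀ * (J * (P.1 * w)) := by
        unfold th; simp only [Matrix.mul_assoc]
      have e2 : H * (U2 * X' s * U1ᵀ + U1 * (X' s)ᵀ * U2ᵀ) * Hᵀ * (J * (P.1 * w)) =
          (H * U2) * X' s * (U1ᵀ * th J H P.1 w) + (H * U1) * (X' s)ᵀ * (U2ᵀ * th J H P.1 w) := by
        unfold th
        simp only [Matrix.mul_add, Matrix.add_mul, Matrix.mul_assoc]
      rw [e1, hY s H hHW, e2, V1, V2, fr.H1, fr.H2]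
      simp only [Matrix.smul_mul, Matrix.mul_smul, Matrix.mul_sub, smul_smul, Matrix.mul_assoc]
      module
    rw [Matrix.mul_sub (H * Y s), ta, tb, tc, td, te]
    have tr : F * U2 * X s * (U1ᵀ * S0).map d * E K arm s =
        F * U2 * X s * (((Γ1 - (2 * (d c1 / c1)) • (1 : Matrix n1 n1 K))ᵀ * (U1ᵀ * S0)
      + c2 ^ 2 • (γᵀ * (U2ᵀ * S0))
      + c2 ^ 2 • ((U1ᵀ * S0 * U1) * (X' s)ᵀ * (U2ᵀ * S0))) * E K arm s) := by
      rw [← hR s]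
      simp only [Matrix.mul_assoc]
    simp only [Matrix.add_mul, Matrix.sub_mul]
    rw [tr]
    simp only [Matrix.mul_add, Matrix.add_mul, Matrix.mul_sub, Matrix.sub_mul, Matrix.smul_mul,
      Matrix.mul_smul, smul_smul, smul_add, smul_sub, Matrix.mul_assoc]
    module
  rw [Finset.sum_congr rfl fun s _ => hsum s] at key
  exact key

/-- `(wd w) U = d(w U) - w (∇ U)` -/
theorem wd_mul {Pm : Matrix ι ι K} {n : Type*} [Fintype n] (w : Matrix ι δ K) (U : Matrix δ n K) :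
    wd arm J H Pm Y d w * U = (w * U).map d - w * (U.map d + ZY arm J H Pm Y * U) := by
  unfold wd
  rw [map_mul_der, Matrix.sub_mul, Matrix.mul_add]
  simp only [Matrix.mul_assoc]
  abel

theorem wd_U1Z {Pm : Matrix ι ι K} {w : Matrix ι δ K} {γ0 : Matrix n2 n1 K} {β1 : Matrix n1 n2 K}
    {μ1 μ2 : K} (fr : Fr J F H Pm S0 c1 c2 U1 U2) (hd : H.map d = H * ZY arm J H Pm Y)
    (hHW : H ∈ W) (hw : w ∈ W)
    (hN2 : ∀ v ∈ W, v * (U2.map d + ZY arm J H Pm Y * U2) = v * (U2 * Γ2 + c2 ^ 2 • (U1 * β)))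
    (hN1 : ∀ v ∈ W, v * (U1.map d + ZY arm J H Pm Y * U1) = v * (U1 * Γ1 + c1 ^ 2 • (U2 * γ)))
    (L1 : w * U1 = μ1 • (F * U1) + F * (U2 * γ0)) (L2 : w * U2 = μ2 • (F * U2) + F * (U1 * β1)) :
    wd arm J H Pm Y d w * U1 = (d μ1 - μ1 * (d c1 / c1)) • (F * U1) +
      F * (U2 * (Γ2 * γ0 + γ0.map d - γ0 * Γ1 + (μ1 * (c1 * c2) - μ2 * c1 ^ 2) • γ
        - (d c2 / c2) • γ0)) + (c1 * c2) • (F * U1 * (β * γ0)) -
      c1 ^ 2 • (F * U1 * (β1 * γ)) := by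
  have hF2 := dFU fr.symm hd (hN2 H hHW)
  have hF1 := dFU fr hd (hN1 H hHW)
  have e1 : (w * U1).map d = d μ1 • (F * U1) + μ1 • (F * U1).map d +
      ((F * U2).map d * γ0 + F * U2 * γ0.map d) := by
    rw [L1, map_add_der, SUX.map_smul_der, ← Matrix.mul_assoc, map_mul_der d (F * U2) γ0]
  rw [wd_mul, e1, hF1, hF2, hN1 w hw, Matrix.mul_add, Matrix.mul_smul,
    ← Matrix.mul_assoc, ← Matrix.mul_assoc, L2, L1]
  simp only [Matrix.add_mul, Matrix.sub_mul, Matrix.mul_add, Matrix.mul_sub, Matrix.smul_mul,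
    Matrix.mul_smul, Matrix.mul_assoc, smul_add, smul_sub, smul_smul,
    sub_smul, mul_comm c2 c1, mul_comm (c1 ^ 2) μ2]
  abel

theorem wd_U2Z {Pm : Matrix ι ι K} {w : Matrix ι δ K} {γ0 : Matrix n2 n1 K} {β1 : Matrix n1 n2 K}
    {μ1 μ2 : K} (fr : Fr J F H Pm S0 c1 c2 U1 U2) (hd : H.map d = H * ZY arm J H Pm Y)
    (hHW : H ∈ W) (hw : w ∈ W)
    (hN2 : ∀ v ∈ W, v * (U2.map d + ZY arm J H Pm Y * U2) = v * (U2 * Γ2 + c2 ^ 2 • (U1 * β)))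
    (hN1 : ∀ v ∈ W, v * (U1.map d + ZY arm J H Pm Y * U1) = v * (U1 * Γ1 + c1 ^ 2 • (U2 * γ)))
    (L1 : w * U1 = μ1 • (F * U1) + F * (U2 * γ0)) (L2 : w * U2 = μ2 • (F * U2) + F * (U1 * β1)) :
    wd arm J H Pm Y d w * U2 = (d μ2 - μ2 * (d c2 / c2)) • (F * U2) +
      F * (U1 * (Γ1 * β1 + β1.map d - β1 * Γ2 + (μ2 * (c1 * c2) - μ1 * c2 ^ 2) • β
        - (d c1 / c1) • β1)) + (c1 * c2) • (F * U2 * (γ * β1)) -
      c2 ^ 2 • (F * U2 * (γ0 * β)) := by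
  have h := wd_U1Z (arm := arm) (W := W) (Y := Y) (d := d) fr.symm hd hHW hw hN1 hN2 L2 L1
  rw [mul_comm c2 c1] at h
  exact h

end Crest.Agent.R172.SUXz201
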