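import Crest.Agent.R172.SUX5V
import Crest.Agent.R172.SDec

/-!
Row 172 (S0260), (t2), level 2: the relation `hrel` of `SLev3.lev2G` with `V3 = D3` (frames in
`K^δ`) from `SDec.Rel2 ∈ QQ`.
-/

set_option autoImplicit false
set_option linter.unusedSectionVars false
set_option linter.unusedFintypeInType false
set_option linter.unusedDecidableInType false

namespace Crest.Agent.R172.SUX5W

open Matrix Module Crest.Agent.R172.FO Crest.Agent.R172.SLev0 Crest.Agent.R172.SUX5V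
open Crest.Agent.R172.SUX (D3)
open scoped TensorProduct

variable {K : Type*} [Field K] {ι δ : Type*} [Fintype ι] [DecidableEq ι] [Fintype δ]
  [DecidableEq δ] {arm : δ → Fin 3} {J P : Matrix ι ι K} {F : Matrix ι δ K}
variable {n1 n2 m1 m2 : ℕ}
  {Q1 : Matrix ι (Fin n1) K} {Q2 : Matrix ι (Fin n2) K}
  {U1 : Matrix δ (Fin m1) K} {U2 : Matrix δ (Fin m2) K} {T1 : Matrix (Fin n1) (Fin m1) K}
  {T2 : Matrix (Fin n2) (Fin m2) K} {S0 : Matrix δ δ K}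

/-- the `22`-part of `Rel2`, linear in the second triple -/
noncomputable def F2U (arm : δ → Fin 3) (F : Matrix ι δ K) (S0 : Matrix δ δ K)
    (U1 : Matrix δ (Fin m1) K) (U2 : Matrix δ (Fin m2) K) (y : D3 K (Fin m1) (Fin m2)) :
    D3 K (Fin m1) (Fin m2) →ₗ[K] Matrix ι δ K where
  toFun y' := ∑ s, F * (U2 * (y.1 s * y'.2.2ᵀ + y.1 s * (U1ᵀ * S0 * U1) * (y'.1 s)ᵀ
      - y.2.2 * (y'.1 s)ᵀ) * U2ᵀ) * S0 * E K arm s
  map_add' a b := by
    rw [← Finset.sum_add_distrib]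
    refine Finset.sum_congr rfl fun s _ => ?_
    simp only [Prod.snd_add, Prod.fst_add, Pi.add_apply, transpose_add, Matrix.mul_add,
      Matrix.mul_sub, Matrix.add_mul, Matrix.sub_mul]
    abel
  map_smul' c a := by
    rw [RingHom.id_apply, Finset.smul_sum]
    refine Finset.sum_congr rfl fun s _ => ?_
    simp only [Prod.smul_snd, Prod.smul_fst, Pi.smul_apply, transpose_smul, Matrix.mul_smul,
      Matrix.mul_sub, Matrix.sub_mul, Matrix.mul_add, Matrix.add_mul, Matrix.smul_mul, smul_add,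
      smul_sub]

/-- the same as a functional on the pairs of `lev2G` -/
noncomputable def F2W (arm : δ → Fin 3) (F : Matrix ι δ K) (S0 : Matrix δ δ K)
    (U1 : Matrix δ (Fin m1) K) (U2 : Matrix δ (Fin m2) K) (κ : K)
    (u : RJP.Pr K (Fin n1 → K) (Fin n2 → K) (Fin 3) × D3 K (Fin m1) (Fin m2)) :
    RJP.Pr K (Fin n1 → K) (Fin n2 → K) (Fin 3) × D3 K (Fin m1) (Fin m2) →ₗ[K] Matrix ι δ K :=
  (κ • F2U arm F S0 U1 U2 u.2) ∘ₗ LinearMap.snd K _ _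

/-- **the relation of `lev2G` from `Rel2 ∈ QQ`** -/
theorem hrelW (hU1 : F * U1 = Q1 * T1) (hU2 : F * U2 = Q2 * T2)
    (hS : S0 = Fᵀ * J * (P * F)) (QQ : Submodule K (Matrix ι δ K))
    {Z1 : Submodule K (Fin n1 → K)}
    (hZq : ∀ t, ∀ z ∈ Z1, ∀ y, bq arm J F P Q1 Q1 t z y ∈ QQ)
    (hqZ : ∀ t, ∀ z ∈ Z1, ∀ y, bq arm J F P Q1 Q1 t y z ∈ QQ)
    {x x' : Fin 3 → (Fin n2 → K) ⊗[K] (Fin n1 → K)} {y y' : D3 K (Fin m1) (Fin m2)}
    (hX : ∀ s, tv K n1 n2 (x s) = T2 * y.1 s * T1ᵀ)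
    (hX' : ∀ s, tv K n1 n2 (x' s) = T2 * y'.1 s * T1ᵀ)
    {b b' : (Fin n2 → K) →ₗ[K] (Fin n1 → K)}
    (hb : ∀ u, (T1 * y.2.1) *ᵥ u - b (T2 *ᵥ u) ∈ Z1)
    (hb' : ∀ u, (T1 * y'.2.1) *ᵥ u - b' (T2 *ᵥ u) ∈ Z1)
    {r ρ κ : K} (hρ : ρ * κ = r)
    (hrel : SDec.Rel2 arm F S0 U1 U2 r y y' ∈ QQ) :
    ∑ t, ((1 : K) • TensorProduct.lift ((bq arm J F P Q1 Q1 t) ∘ₗ b') (x t)
        + (-1 : K) • TensorProduct.lift ((bq arm J F P Q1 Q1 t).flip ∘ₗ b) (x' t)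
        + (-1 : K) • TensorProduct.lift ((bq arm J F P Q1 Q1 t) ∘ₗ (RJM.ev (gF J P Q2) (x' t)))
          (x t)) +
      ρ • F2W arm F S0 U1 U2 κ ((x, b), y) ((x', b'), y') ∈ QQ := by
  have p11 := part11V (arm := arm) hU1 hU2 hS QQ hZq hqZ hX hX' hb hb'
  have e : ρ • F2W arm F S0 U1 U2 κ ((x, b), y) ((x', b'), y') =
      r • ∑ s, F * (U2 * (y.1 s * y'.2.2ᵀ + y.1 s * (U1ᵀ * S0 * U1) * (y'.1 s)ᵀ
        - y.2.2 * (y'.1 s)ᵀ) * U2ᵀ) * S0 * E K arm s := by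
    change ρ • (κ • F2U arm F S0 U1 U2 y y') = _
    rw [smul_smul, hρ]
    rfl
  rw [e]
  have h5 := QQ.sub_mem hrel p11
  unfold SDec.Rel2 at h5
  convert h5 using 1
  abel

/-! ### the pencil: `Dec`-type conditions and the descent -/

/-- the descent conditions are a linear subspace: `x = T2 X T1ᵀ`, `b T2 = T1 β` modulo `Z1` -/
theorem desc_add {Z1 : Submodule K (Fin n1 → K)} {b b' : (Fin n2 → K) →ₗ[K] (Fin n1 → K)}
    {β β' : Matrix (Fin m1) (Fin m2) K}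
    (hb : ∀ u, (T1 * β) *ᵥ u - b (T2 *ᵥ u) ∈ Z1) (hb' : ∀ u, (T1 * β') *ᵥ u - b' (T2 *ᵥ u) ∈ Z1) :
    ∀ u, (T1 * (β + β')) *ᵥ u - (b + b') (T2 *ᵥ u) ∈ Z1 := by
  intro u
  have := Z1.add_mem (hb u) (hb' u)
  convert this using 1
  rw [Matrix.mul_add, add_mulVec, LinearMap.add_apply]
  abel

end Crest.Agent.R172.SUX5W
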