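import Crest.Agent.R172.SUX5
import Crest.Agent.R172.SLev0

/-!
Row 172 (S0260), (t2), node L2-e: translation of `second_blocks` (frames `U_i` in `K^δ`) into
`hrel` of `RJP3.main3` for `SLev0.bq` (frames `Q_i` in `K^ι`, `F U_i = Q_i π_i`), corrections known
modulo `Z1`, `Z2`.
-/

set_option autoImplicit false
set_option linter.unusedSectionVars false
set_option linter.unusedFintypeInType false
set_option linter.unusedDecidableInType false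

namespace Crest.Agent.R172.SUX5b

open Finset TensorProduct Module Matrix
open Crest.Agent.R172.RJM Crest.Agent.R172.SUX5 Crest.Agent.R172.FO

variable {K : Type*} [Field K] {ι δ : Type*} [Fintype ι] [DecidableEq ι] [Fintype δ]
  [DecidableEq δ]

/-- `M ↦ Q M Q'ᵀ T` -/
noncomputable def pm {m m' : ℕ} (Q : Matrix ι (Fin m) K) (Q' : Matrix ι (Fin m') K)
    (T : Matrix ι δ K) : Matrix (Fin m) (Fin m') K →ₗ[K] Matrix ι δ K where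
  toFun M := Q * M * Q'ᵀ * T
  map_add' M M' := by simp only [Matrix.mul_add, Matrix.add_mul]
  map_smul' c M := by simp only [Matrix.mul_smul, Matrix.smul_mul, RingHom.id_apply]

theorem pm_apply {m m' : ℕ} (Q : Matrix ι (Fin m) K) (Q' : Matrix ι (Fin m') K)
    (T : Matrix ι δ K) (M : Matrix (Fin m) (Fin m') K) : pm Q Q' T M = Q * M * Q'ᵀ * T := rfl

theorem pm_vec {m m' : ℕ} (Q : Matrix ι (Fin m) K) (Q' : Matrix ι (Fin m') K)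
    (T : Matrix ι δ K) (x : Fin m → K) (y : Fin m' → K) :
    pm Q Q' T (vecMulVec x y) = vecMulVec (Q *ᵥ x) (Q' *ᵥ y) * T := by
  rw [pm_apply, mul_vecMulVec, vecMulVec_mul, vecMul_transpose]

/-- sums of rank one -/
theorem mul_eq_sum {a b c : Type*} [Fintype b] (D : Matrix a b K) (M : Matrix b c K) :
    D * M = ∑ j, vecMulVec (fun i => D i j) (M j) := by
  ext i l
  rw [Matrix.mul_apply, Matrix.sum_apply]
  rfl

theorem left_mem {X : Type*} [AddCommGroup X] [Module K X] {m m' : ℕ} {n : Type*} [Fintype n]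
    [DecidableEq n] (L : Matrix (Fin m) (Fin m') K →ₗ[K] X) {QQ : Submodule K X}
    {Z : Submodule K (Fin m → K)} (h : ∀ z ∈ Z, ∀ p, L (vecMulVec z p) ∈ QQ)
    {D : Matrix (Fin m) n K} (hD : ∀ v, D *ᵥ v ∈ Z) (M : Matrix n (Fin m') K) :
    L (D * M) ∈ QQ := by
  rw [mul_eq_sum, map_sum]
  refine QQ.sum_mem fun j _ => h _ ?_ _
  have := hD (Pi.single j 1)
  convert this using 1
  ext i
  simp [Matrix.mulVec_single]

theorem right_mem {X : Type*} [AddCommGroup X] [Module K X] {m m' : ℕ} {n : Type*} [Fintype n]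
    [DecidableEq n] (L : Matrix (Fin m) (Fin m') K →ₗ[K] X) {QQ : Submodule K X}
    {Z : Submodule K (Fin m' → K)} (h : ∀ p, ∀ z ∈ Z, L (vecMulVec p z) ∈ QQ)
    {D : Matrix (Fin m') n K} (hD : ∀ v, D *ᵥ v ∈ Z) (M : Matrix (Fin m) n K) :
    L (M * Dᵀ) ∈ QQ := by
  rw [mul_eq_sum, map_sum]
  refine QQ.sum_mem fun j _ => h _ _ ?_
  have := hD (Pi.single j 1)
  convert this using 1
  ext i
  simp [Matrix.mulVec_single]

section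

variable {m1 m2 : ℕ} {n1 n2 : Type*} [Fintype n1] [DecidableEq n1] [Fintype n2] [DecidableEq n2]
  {arm : δ → Fin 3} {J : Matrix ι ι K} {F : Matrix ι δ K} {P0 : Matrix ι ι K}
  {Q1 : Matrix ι (Fin m1) K} {Q2 : Matrix ι (Fin m2) K} {U1 : Matrix δ n1 K}
  {U2 : Matrix δ n2 K} {π1 : Matrix (Fin m1) n1 K} {π2 : Matrix (Fin m2) n2 K}

/-- the matrix of a tensor in standard bases -/
noncomputable abbrev tb (K : Type*) [Field K] (m1 m2 : ℕ) :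
    (Fin m2 → K) ⊗[K] (Fin m1 → K) →ₗ[K] Matrix (Fin m2) (Fin m1) K :=
  tm (Pi.basisFun K (Fin m1)) (Pi.basisFun K (Fin m2))

/-- the matrix of a linear map in standard bases -/
noncomputable abbrev mb {m m' : ℕ} (b : (Fin m → K) →ₗ[K] (Fin m' → K)) :
    Matrix (Fin m') (Fin m) K :=
  LinearMap.toMatrix (Pi.basisFun K (Fin m)) (Pi.basisFun K (Fin m')) b

theorem mb_mulVec {m m' : ℕ} (b : (Fin m → K) →ₗ[K] (Fin m' → K)) (p : Fin m → K) :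
    mb b *ᵥ p = b p := by
  have := toMatrix_repr (Pi.basisFun K (Fin m')) (Pi.basisFun K (Fin m)) b p
  rw [Pi.basisFun_equivFun, Pi.basisFun_equivFun] at this
  exact this

theorem bq_eq (s : Fin 3) : SLev0.bq arm J F P0 Q1 Q1 s =
    qb (Pi.basisFun K (Fin m1)) (pm Q1 Q1 (J * P0 * F * E K arm s)) := by
  refine LinearMap.ext fun x => LinearMap.ext fun y => ?_
  rw [SLev0.bq_apply, qb_apply, pm_vec, Pi.basisFun_equivFun]
  simp only [Matrix.mul_assoc]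
  rfl

theorem blk_eq {n n' : Type*} [Fintype n] [Fintype n'] {m m' : ℕ} {U : Matrix δ n K}
    {V : Matrix δ n' K} {Q : Matrix ι (Fin m) K} {Q' : Matrix ι (Fin m') K}
    {π : Matrix (Fin m) n K} {π' : Matrix (Fin m') n' K} {S0 : Matrix δ δ K}
    (hS : S0 = Fᵀ * J * (P0 * F)) (h1 : F * U = Q * π) (h2 : F * V = Q' * π')
    (M : Matrix n n' K) (s : Fin 3) :
    F * (U * M * Vᵀ) * S0 * E K arm s = pm Q Q' (J * P0 * F * E K arm s) (π * M * π'ᵀ) := by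
  rw [pm_apply, hS]
  calc F * (U * M * Vᵀ) * (Fᵀ * J * (P0 * F)) * E K arm s
      = (F * U) * M * (F * V)ᵀ * (J * P0 * F * E K arm s) := by
        rw [transpose_mul]; simp only [Matrix.mul_assoc]
    _ = _ := by rw [h1, h2, transpose_mul]; simp only [Matrix.mul_assoc]

theorem gram_eq {n : Type*} [Fintype n] {m : ℕ} {U : Matrix δ n K} {Q : Matrix ι (Fin m) K}
    {π : Matrix (Fin m) n K} {S0 : Matrix δ δ K}
    (hS : S0 = Fᵀ * J * (P0 * F)) (h1 : F * U = Q * π) :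
    Uᵀ * S0 * U = πᵀ * (Qᵀ * (J * P0) * Q) * π := by
  rw [hS]
  calc Uᵀ * (Fᵀ * J * (P0 * F)) * U = (F * U)ᵀ * (J * P0) * (F * U) := by
        rw [transpose_mul]; simp only [Matrix.mul_assoc]
    _ = _ := by rw [h1, transpose_mul]; simp only [Matrix.mul_assoc]

theorem gF_basis (i j : Fin m2) : SLev0.gF J P0 Q2 (Pi.basisFun K (Fin m2) i)
    (Pi.basisFun K (Fin m2) j) = (Q2ᵀ * (J * P0) * Q2) i j := by
  rw [SLev0.gF_apply, Pi.basisFun_apply, Pi.basisFun_apply, Matrix.mulVec_single_one,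
    single_one_dotProduct]
  rfl

/-- **L2-e** : `hrel` of `RJP3.main3` for `bq Q1 Q1` from `second_blocks`. -/
theorem hrel {QQ : Submodule K (Matrix ι δ K)} {S0 : Matrix δ δ K} {c1 c2 : K} (hc1 : c1 ≠ 0)
    (hc2 : c2 ≠ 0) (hS : S0 = Fᵀ * J * (P0 * F)) (hF1 : F * U1 = Q1 * π1)
    (hF2 : F * U2 = Q2 * π2) {Z1 : Submodule K (Fin m1 → K)} {Z2 : Submodule K (Fin m2 → K)}
    (hZ1 : ∀ s, ∀ z ∈ Z1, ∀ p, SLev0.bq arm J F P0 Q1 Q1 s z p ∈ QQ)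
    (hZ1' : ∀ s, ∀ z ∈ Z1, ∀ p, SLev0.bq arm J F P0 Q1 Q1 s p z ∈ QQ)
    (hZ2 : ∀ s, ∀ z ∈ Z2, ∀ p, SLev0.bq arm J F P0 Q2 Q2 s z p ∈ QQ)
    (hZ2' : ∀ s, ∀ z ∈ Z2, ∀ p, SLev0.bq arm J F P0 Q2 Q2 s p z ∈ QQ)
    {x x' : Fin 3 → (Fin m2 → K) ⊗[K] (Fin m1 → K)} {X X' : Fin 3 → Matrix n2 n1 K}
    (hx : ∀ s, tb K m1 m2 (x s) = π2 * X s * π1ᵀ) (hx' : ∀ s, tb K m1 m2 (x' s) = π2 * X' s * π1ᵀ)
    {b b' : (Fin m2 → K) →ₗ[K] (Fin m1 → K)} {kk kk' : (Fin m1 → K) →ₗ[K] (Fin m2 → K)}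
    {β β0 : Matrix n1 n2 K} {γ γ0 : Matrix n2 n1 K}
    (hβ : ∀ y, π1 *ᵥ (β *ᵥ y) - b' (π2 *ᵥ y) ∈ Z1)
    (hβ0 : ∀ y, π1 *ᵥ (β0 *ᵥ y) - b (π2 *ᵥ y) ∈ Z1)
    (hγ : ∀ y, π2 *ᵥ (γ *ᵥ y) - kk' (π1 *ᵥ y) ∈ Z2)
    (hγ0 : ∀ y, π2 *ᵥ (γ0 *ᵥ y) - kk (π1 *ᵥ y) ∈ Z2)
    {M21 : Fin 3 → Matrix n2 n1 K} {κ4 : K}
    (h21 : ∑ s, F * (U2 * M21 s * U1ᵀ) * S0 * E K arm s ∈ QQ)
    (h12 : ∑ s, F * (U1 * (X' s)ᵀ * U2ᵀ) * S0 * E K arm s ∈ QQ)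
    (hb : ∑ s, F * ((c1 * c2) • (U1 * (β * X s - (X' s)ᵀ * (U2ᵀ * S0 * U2) * X s
          - (X' s)ᵀ * β0ᵀ) * U1ᵀ)
        + c2 ^ 2 • (U2 * (X s * γᵀ + X s * (U1ᵀ * S0 * U1) * (X' s)ᵀ - γ0 * (X' s)ᵀ) * U2ᵀ)
        + U2 * M21 s * U1ᵀ + κ4 • (U1 * (X' s)ᵀ * U2ᵀ)) * S0 * E K arm s ∈ QQ) :
    ∑ t, ((1 : K) • TensorProduct.lift ((SLev0.bq arm J F P0 Q1 Q1 t) ∘ₗ b') (x t)
        + (-1 : K) • TensorProduct.lift ((SLev0.bq arm J F P0 Q1 Q1 t).flip ∘ₗ b) (x' t)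
        + (-1 : K) • TensorProduct.lift ((SLev0.bq arm J F P0 Q1 Q1 t) ∘ₗ
          (ev (SLev0.gF J P0 Q2) (x' t))) (x t))
      + (c2 / c1) • F2 (Pi.basisFun K (Fin m1)) (Pi.basisFun K (Fin m2))
        (fun t => pm Q2 Q2 (J * P0 * F * E K arm t)) (Q1ᵀ * (J * P0) * Q1) ((x, b), kk)
        ((x', b'), kk') ∈ QQ := by
  have hq : ∀ t, SLev0.bq arm J F P0 Q1 Q1 t =
    qb (Pi.basisFun K (Fin m1)) (pm Q1 Q1 (J * P0 * F * E K arm t)) := bq_eq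
  have hq2 : ∀ t, SLev0.bq arm J F P0 Q2 Q2 t =
    qb (Pi.basisFun K (Fin m2)) (pm Q2 Q2 (J * P0 * F * E K arm t)) := bq_eq
  have hz1 : ∀ s, ∀ z ∈ Z1, ∀ p, pm Q1 Q1 (J * P0 * F * E K arm s) (vecMulVec z p) ∈ QQ := by
    intro s z hz p
    have := hZ1 s z hz p
    rwa [hq, qb_apply, Pi.basisFun_equivFun] at this
  have hz1' : ∀ s, ∀ p, ∀ z ∈ Z1, pm Q1 Q1 (J * P0 * F * E K arm s) (vecMulVec p z) ∈ QQ := by
    intro s p z hz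
    have := hZ1' s z hz p
    rwa [hq, qb_apply, Pi.basisFun_equivFun] at this
  have hz2 : ∀ s, ∀ z ∈ Z2, ∀ p, pm Q2 Q2 (J * P0 * F * E K arm s) (vecMulVec z p) ∈ QQ := by
    intro s z hz p
    have := hZ2 s z hz p
    rwa [hq2, qb_apply, Pi.basisFun_equivFun] at this
  have hz2' : ∀ s, ∀ p, ∀ z ∈ Z2, pm Q2 Q2 (J * P0 * F * E K arm s) (vecMulVec p z) ∈ QQ := by
    intro s p z hz
    have := hZ2' s z hz p
    rwa [hq2, qb_apply, Pi.basisFun_equivFun] at this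
  -- the errors
  have d1 : ∀ v, (π1 * β - mb b' * π2) *ᵥ v ∈ Z1 := by
    intro v
    rw [sub_mulVec, ← mulVec_mulVec, ← mulVec_mulVec, mb_mulVec]
    exact hβ v
  have d10 : ∀ v, (π1 * β0 - mb b * π2) *ᵥ v ∈ Z1 := by
    intro v
    rw [sub_mulVec, ← mulVec_mulVec, ← mulVec_mulVec, mb_mulVec]
    exact hβ0 v
  have d2 : ∀ v, (π2 * γ - mb kk' * π1) *ᵥ v ∈ Z2 := by
    intro v
    rw [sub_mulVec, ← mulVec_mulVec, ← mulVec_mulVec, mb_mulVec]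
    exact hγ v
  have d20 : ∀ v, (π2 * γ0 - mb kk * π1) *ᵥ v ∈ Z2 := by
    intro v
    rw [sub_mulVec, ← mulVec_mulVec, ← mulVec_mulVec, mb_mulVec]
    exact hγ0 v
  -- the two blocks
  have b1 : ∀ s, F * (U1 * (β * X s - (X' s)ᵀ * (U2ᵀ * S0 * U2) * X s - (X' s)ᵀ * β0ᵀ) * U1ᵀ) *
      S0 * E K arm s - pm Q1 Q1 (J * P0 * F * E K arm s)
        (mb b' * tb K m1 m2 (x s) - (tb K m1 m2 (x' s))ᵀ * (Q2ᵀ * (J * P0) * Q2) * tb K m1 m2 (x s)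
          - (tb K m1 m2 (x' s))ᵀ * (mb b)ᵀ) ∈ QQ := by
    intro s
    rw [blk_eq hS hF1 hF1, ← map_sub, gram_eq hS hF2, hx, hx']
    have e : π1 * (β * X s - (X' s)ᵀ * (π2ᵀ * (Q2ᵀ * (J * P0) * Q2) * π2) * X s
        - (X' s)ᵀ * β0ᵀ) * π1ᵀ - (mb b' * (π2 * X s * π1ᵀ)
          - (π2 * X' s * π1ᵀ)ᵀ * (Q2ᵀ * (J * P0) * Q2) * (π2 * X s * π1ᵀ)
          - (π2 * X' s * π1ᵀ)ᵀ * (mb b)ᵀ) =
        (π1 * β - mb b' * π2) * (X s * π1ᵀ) - (π1 * (X' s)ᵀ) * (π1 * β0 - mb b * π2)ᵀ := by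
      rw [transpose_sub, transpose_mul, transpose_mul, transpose_mul, transpose_mul,
        transpose_transpose]
      simp only [Matrix.mul_sub, Matrix.sub_mul, Matrix.mul_assoc]
      abel
    rw [e, map_sub]
    exact QQ.sub_mem (left_mem _ (hz1 s) d1 _) (right_mem _ (hz1' s) d10 _)
  have b2 : ∀ s, F * (U2 * (X s * γᵀ + X s * (U1ᵀ * S0 * U1) * (X' s)ᵀ - γ0 * (X' s)ᵀ) * U2ᵀ) *
      S0 * E K arm s - pm Q2 Q2 (J * P0 * F * E K arm s)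
        (tb K m1 m2 (x s) * (mb kk')ᵀ + tb K m1 m2 (x s) * (Q1ᵀ * (J * P0) * Q1) *
          (tb K m1 m2 (x' s))ᵀ - mb kk * (tb K m1 m2 (x' s))ᵀ) ∈ QQ := by
    intro s
    rw [blk_eq hS hF2 hF2, ← map_sub, gram_eq hS hF1, hx, hx']
    have e : π2 * (X s * γᵀ + X s * (π1ᵀ * (Q1ᵀ * (J * P0) * Q1) * π1) * (X' s)ᵀ
        - γ0 * (X' s)ᵀ) * π2ᵀ - (π2 * X s * π1ᵀ * (mb kk')ᵀ
          + π2 * X s * π1ᵀ * (Q1ᵀ * (J * P0) * Q1) * (π2 * X' s * π1ᵀ)ᵀ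
          - mb kk * (π2 * X' s * π1ᵀ)ᵀ) =
        (π2 * X s) * (π2 * γ - mb kk' * π1)ᵀ - (π2 * γ0 - mb kk * π1) * ((X' s)ᵀ * π2ᵀ) := by
      rw [transpose_sub, transpose_mul, transpose_mul, transpose_mul, transpose_mul,
        transpose_transpose]
      simp only [Matrix.mul_sub, Matrix.sub_mul, Matrix.mul_add, Matrix.add_mul,
        Matrix.mul_assoc]
      abel
    rw [e, map_sub]
    exact QQ.sub_mem (right_mem _ (hz2' s) d2 _) (left_mem _ (hz2 s) d20 _)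
  simp only [hq]
  rw [← part11 (Pi.basisFun K (Fin m1)) (Pi.basisFun K (Fin m2))
    (fun t => pm Q1 Q1 (J * P0 * F * E K arm t)) (SLev0.gF J P0 Q2) gF_basis x x' b b', F2_apply]
  have h2 : ∑ s, κ4 • (F * (U1 * (X' s)ᵀ * U2ᵀ) * S0 * E K arm s) ∈ QQ := by
    rw [← Finset.smul_sum]
    exact QQ.smul_mem _ h12
  have h3 := QQ.smul_mem ((c1 * c2)⁻¹) (QQ.sub_mem (QQ.sub_mem hb h21) h2)
  have h4 := QQ.sum_mem fun s (_ : s ∈ (Finset.univ : Finset (Fin 3))) => b1 s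
  have h5 := QQ.smul_mem (c2 / c1) (QQ.sum_mem fun s (_ : s ∈ (Finset.univ : Finset (Fin 3))) =>
    b2 s)
  have h6 := QQ.sub_mem (QQ.sub_mem h3 h4) h5
  convert h6 using 1
  rw [← Finset.sum_sub_distrib, ← Finset.sum_sub_distrib, Finset.smul_sum, Finset.smul_sum,
    Finset.smul_sum, ← Finset.sum_add_distrib, ← Finset.sum_sub_distrib, ← Finset.sum_sub_distrib]
  refine Finset.sum_congr rfl fun s _ => ?_
  have e : (c2 / c1) = (c1 * c2)⁻¹ * c2 ^ 2 := by field_simp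
  have e' : (c1 * c2)⁻¹ * (c1 * c2) = 1 := by field_simp
  have e0 : F * ((c1 * c2) • (U1 * (β * X s - (X' s)ᵀ * (U2ᵀ * S0 * U2) * X s
          - (X' s)ᵀ * β0ᵀ) * U1ᵀ)
        + c2 ^ 2 • (U2 * (X s * γᵀ + X s * (U1ᵀ * S0 * U1) * (X' s)ᵀ - γ0 * (X' s)ᵀ) * U2ᵀ)
        + U2 * M21 s * U1ᵀ + κ4 • (U1 * (X' s)ᵀ * U2ᵀ)) * S0 * E K arm s =
      (c1 * c2) • (F * (U1 * (β * X s - (X' s)ᵀ * (U2ᵀ * S0 * U2) * X s
          - (X' s)ᵀ * β0ᵀ) * U1ᵀ) * S0 * E K arm s)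
      + c2 ^ 2 • (F * (U2 * (X s * γᵀ + X s * (U1ᵀ * S0 * U1) * (X' s)ᵀ - γ0 * (X' s)ᵀ) * U2ᵀ)
        * S0 * E K arm s)
      + F * (U2 * M21 s * U1ᵀ) * S0 * E K arm s
      + κ4 • (F * (U1 * (X' s)ᵀ * U2ᵀ) * S0 * E K arm s) := by
    rw [Matrix.mul_add F, Matrix.mul_add F, Matrix.mul_add F, Matrix.add_mul, Matrix.add_mul,
      Matrix.add_mul, Matrix.add_mul, Matrix.add_mul, Matrix.add_mul, Matrix.mul_smul,
      Matrix.mul_smul, Matrix.mul_smul, Matrix.smul_mul, Matrix.smul_mul, Matrix.smul_mul,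
      Matrix.smul_mul, Matrix.smul_mul, Matrix.smul_mul]
  rw [e0]
  generalize F * (U1 * (β * X s - (X' s)ᵀ * (U2ᵀ * S0 * U2) * X s
          - (X' s)ᵀ * β0ᵀ) * U1ᵀ) * S0 * E K arm s = T1
  generalize F * (U2 * (X s * γᵀ + X s * (U1ᵀ * S0 * U1) * (X' s)ᵀ - γ0 * (X' s)ᵀ) * U2ᵀ)
        * S0 * E K arm s = T2
  generalize F * (U2 * M21 s * U1ᵀ) * S0 * E K arm s = T3
  generalize F * (U1 * (X' s)ᵀ * U2ᵀ) * S0 * E K arm s = T4
  rw [show (c1 * c2) • T1 + c2 ^ 2 • T2 + T3 + κ4 • T4 - T3 - κ4 • T4 =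
    (c1 * c2) • T1 + c2 ^ 2 • T2 from by abel, smul_add, smul_smul, smul_smul, e', ← e, one_smul,
    smul_sub]
  abel

end

end Crest.Agent.R172.SUX5b
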