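import Crest.Agent.R172.SUX5b
import Crest.Agent.R172.SUX7

/-!
Row 172 (S0260), (t2), node L2-e, second form: from the conclusion of `SUX.second_mem` (`A11`, `A22`)
to `hrel` of `RJP3.main3` for `SLev0.bq`.
-/

set_option autoImplicit false
set_option linter.unusedSectionVars false
set_option linter.unusedFintypeInType false
set_option linter.unusedDecidableInType false

namespace Crest.Agent.R172.SUX5c

open Finset TensorProduct Module Matrix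
open Crest.Agent.R172.RJM Crest.Agent.R172.SUX5 Crest.Agent.R172.SUX5b Crest.Agent.R172.FO
open Crest.Agent.R172.SUX (A11 A22)

variable {K : Type*} [Field K] {ι δ : Type*} [Fintype ι] [DecidableEq ι] [Fintype δ]
  [DecidableEq δ]

section

variable {m1 m2 : ℕ} {n1 n2 : Type*} [Fintype n1] [DecidableEq n1] [Fintype n2] [DecidableEq n2]
  {arm : δ → Fin 3} {J : Matrix ι ι K} {F : Matrix ι δ K} {P0 : Matrix ι ι K}
  {Q1 : Matrix ι (Fin m1) K} {Q2 : Matrix ι (Fin m2) K} {U1 : Matrix δ n1 K}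
  {U2 : Matrix δ n2 K} {π1 : Matrix (Fin m1) n1 K} {π2 : Matrix (Fin m2) n2 K}

/-- **L2-e** : `hrel` of `RJP3.main3` for `bq Q1 Q1` from `second_mem`. -/
theorem hrel {QQ : Submodule K (Matrix ι δ K)} {S0 : Matrix δ δ K} {c1 c2 : K}
    (hS : S0 = Fᵀ * J * (P0 * F)) (hF1 : F * U1 = Q1 * π1)
    (hF2 : F * U2 = Q2 * π2) {Z1 : Submodule K (Fin m1 → K)} {Z2 : Submodule K (Fin m2 → K)}
    (hZ1 : ∀ s, ∀ z ∈ Z1, ∀ p, SLev0.bq arm J F P0 Q1 Q1 s z p ∈ QQ)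
    (hZ1' : ∀ s, ∀ z ∈ Z1, ∀ p, SLev0.bq arm J F P0 Q1 Q1 s p z ∈ QQ)
    (hZ2 : ∀ s, ∀ z ∈ Z2, ∀ p, SLev0.bq arm J F P0 Q2 Q2 s z p ∈ QQ)
    (hZ2' : ∀ s, ∀ z ∈ Z2, ∀ p, SLev0.bq arm J F P0 Q2 Q2 s p z ∈ QQ)
    {x x' : Fin 3 → (Fin m2 → K) ⊗[K] (Fin m1 → K)} {X X' : Fin 3 → Matrix n2 n1 K}
    (hx : ∀ s, tb K m1 m2 (x s) = π2 * X s * π1ᵀ) (hx' : ∀ s, tb K m1 m2 (x' s) = π2 * X' s * π1ᵀ)
    {b b' : (Fin m2 → K) →ₗ[K] (Fin m1 → K)} {kk kk' : (Fin m1 → K) →ₗ[K] (Fin m2 → K)}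
    {β β0 : Matrix n1 n2 K} {γ γ0 : Matrix n2 n1 K}
    (hβ : ∀ y, π1 *ᵥ (β *ᵥ y) - b' (π2 *ᵥ y) ∈ Z1)
    (hβ0 : ∀ y, π1 *ᵥ (β0 *ᵥ y) - b (π2 *ᵥ y) ∈ Z1)
    (hγ : ∀ y, π2 *ᵥ (γ *ᵥ y) - kk' (π1 *ᵥ y) ∈ Z2)
    (hγ0 : ∀ y, π2 *ᵥ (γ0 *ᵥ y) - kk (π1 *ᵥ y) ∈ Z2)
    (hb : ∑ s, F * A11 S0 U1 U2 X β0 X' β s * S0 * E K arm s +
      (c2 / c1) • ∑ s, F * A22 S0 U1 U2 X γ0 X' γ s * S0 * E K arm s ∈ QQ) :
    ∑ t, ((1 : K) • TensorProduct.lift ((SLev0.bq arm J F P0 Q1 Q1 t) ∘ₗ b') (x t)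
        + (-1 : K) • TensorProduct.lift ((SLev0.bq arm J F P0 Q1 Q1 t).flip ∘ₗ b) (x' t)
        + (-1 : K) • TensorProduct.lift ((SLev0.bq arm J F P0 Q1 Q1 t) ∘ₗ
          (ev (SLev0.gF J P0 Q2) (x' t))) (x t))
      + (c2 / c1) • F2 (Pi.basisFun K (Fin m1)) (Pi.basisFun K (Fin m2))
        (fun t => pm Q2 Q2 (J * P0 * F * E K arm t)) (Q1ᵀ * (J * P0) * Q1) ((x, b), kk)
        ((x', b'), kk') ∈ QQ := by
  have hq : ∀ t, SLev0.bq arm J F P0 Q1 Q1 t =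
    qb (Pi.basisFun K (Fin m1)) (pm Q1 Q1 (J * P0 * F * E K arm t)) := bq_eq
  have hq2 : ∀ t, SLev0.bq arm J F P0 Q2 Q2 t =
    qb (Pi.basisFun K (Fin m2)) (pm Q2 Q2 (J * P0 * F * E K arm t)) := bq_eq
  have hz1 : ∀ s, ∀ z ∈ Z1, ∀ p, pm Q1 Q1 (J * P0 * F * E K arm s) (vecMulVec z p) ∈ QQ := by
    intro s z hz p
    have := hZ1 s z hz p
    rwa [hq, qb_apply, Pi.basisFun_equivFun] at this
  have hz1' : ∀ s, ∀ p, ∀ z ∈ Z1, pm Q1 Q1 (J * P0 * F * E K arm s) (vecMulVec p z) ∈ QQ := by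
    intro s p z hz
    have := hZ1' s z hz p
    rwa [hq, qb_apply, Pi.basisFun_equivFun] at this
  have hz2 : ∀ s, ∀ z ∈ Z2, ∀ p, pm Q2 Q2 (J * P0 * F * E K arm s) (vecMulVec z p) ∈ QQ := by
    intro s z hz p
    have := hZ2 s z hz p
    rwa [hq2, qb_apply, Pi.basisFun_equivFun] at this
  have hz2' : ∀ s, ∀ p, ∀ z ∈ Z2, pm Q2 Q2 (J * P0 * F * E K arm s) (vecMulVec p z) ∈ QQ := by
    intro s p z hz
    have := hZ2' s z hz p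
    rwa [hq2, qb_apply, Pi.basisFun_equivFun] at this
  -- the errors
  have d1 : ∀ v, (π1 * β - mb b' * π2) *ᵥ v ∈ Z1 := by
    intro v
    rw [sub_mulVec, ← mulVec_mulVec, ← mulVec_mulVec, mb_mulVec]
    exact hβ v
  have d10 : ∀ v, (π1 * β0 - mb b * π2) *ᵥ v ∈ Z1 := by
    intro v
    rw [sub_mulVec, ← mulVec_mulVec, ← mulVec_mulVec, mb_mulVec]
    exact hβ0 v
  have d2 : ∀ v, (π2 * γ - mb kk' * π1) *ᵥ v ∈ Z2 := by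
    intro v
    rw [sub_mulVec, ← mulVec_mulVec, ← mulVec_mulVec, mb_mulVec]
    exact hγ v
  have d20 : ∀ v, (π2 * γ0 - mb kk * π1) *ᵥ v ∈ Z2 := by
    intro v
    rw [sub_mulVec, ← mulVec_mulVec, ← mulVec_mulVec, mb_mulVec]
    exact hγ0 v
  -- the two blocks
  have b1 : ∀ s, F * (U1 * (β * X s - (X' s)ᵀ * (U2ᵀ * S0 * U2) * X s - (X' s)ᵀ * β0ᵀ) * U1ᵀ) *
      S0 * E K arm s - pm Q1 Q1 (J * P0 * F * E K arm s)
        (mb b' * tb K m1 m2 (x s) - (tb K m1 m2 (x' s))ᵀ * (Q2ᵀ * (J * P0) * Q2) * tb K m1 m2 (x s)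
          - (tb K m1 m2 (x' s))ᵀ * (mb b)ᵀ) ∈ QQ := by
    intro s
    rw [blk_eq hS hF1 hF1, ← map_sub, gram_eq hS hF2, hx, hx']
    have e : π1 * (β * X s - (X' s)ᵀ * (π2ᵀ * (Q2ᵀ * (J * P0) * Q2) * π2) * X s
        - (X' s)ᵀ * β0ᵀ) * π1ᵀ - (mb b' * (π2 * X s * π1ᵀ)
          - (π2 * X' s * π1ᵀ)ᵀ * (Q2ᵀ * (J * P0) * Q2) * (π2 * X s * π1ᵀ)
          - (π2 * X' s * π1ᵀ)ᵀ * (mb b)ᵀ) =
        (π1 * β - mb b' * π2) * (X s * π1ᵀ) - (π1 * (X' s)ᵀ) * (π1 * β0 - mb b * π2)ᵀ := by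
      rw [transpose_sub, transpose_mul, transpose_mul, transpose_mul, transpose_mul,
        transpose_transpose]
      simp only [Matrix.mul_sub, Matrix.sub_mul, Matrix.mul_assoc]
      abel
    rw [e, map_sub]
    exact QQ.sub_mem (left_mem _ (hz1 s) d1 _) (right_mem _ (hz1' s) d10 _)
  have b2 : ∀ s, F * (U2 * (X s * γᵀ + X s * (U1ᵀ * S0 * U1) * (X' s)ᵀ - γ0 * (X' s)ᵀ) * U2ᵀ) *
      S0 * E K arm s - pm Q2 Q2 (J * P0 * F * E K arm s)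
        (tb K m1 m2 (x s) * (mb kk')ᵀ + tb K m1 m2 (x s) * (Q1ᵀ * (J * P0) * Q1) *
          (tb K m1 m2 (x' s))ᵀ - mb kk * (tb K m1 m2 (x' s))ᵀ) ∈ QQ := by
    intro s
    rw [blk_eq hS hF2 hF2, ← map_sub, gram_eq hS hF1, hx, hx']
    have e : π2 * (X s * γᵀ + X s * (π1ᵀ * (Q1ᵀ * (J * P0) * Q1) * π1) * (X' s)ᵀ
        - γ0 * (X' s)ᵀ) * π2ᵀ - (π2 * X s * π1ᵀ * (mb kk')ᵀ
          + π2 * X s * π1ᵀ * (Q1ᵀ * (J * P0) * Q1) * (π2 * X' s * π1ᵀ)ᵀ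
          - mb kk * (π2 * X' s * π1ᵀ)ᵀ) =
        (π2 * X s) * (π2 * γ - mb kk' * π1)ᵀ - (π2 * γ0 - mb kk * π1) * ((X' s)ᵀ * π2ᵀ) := by
      rw [transpose_sub, transpose_mul, transpose_mul, transpose_mul, transpose_mul,
        transpose_transpose]
      simp only [Matrix.mul_sub, Matrix.sub_mul, Matrix.mul_add, Matrix.add_mul,
        Matrix.mul_assoc]
      abel
    rw [e, map_sub]
    exact QQ.sub_mem (right_mem _ (hz2' s) d2 _) (left_mem _ (hz2 s) d20 _)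
  simp only [hq]
  rw [← part11 (Pi.basisFun K (Fin m1)) (Pi.basisFun K (Fin m2))
    (fun t => pm Q1 Q1 (J * P0 * F * E K arm t)) (SLev0.gF J P0 Q2) gF_basis x x' b b', F2_apply]
  have h4 := QQ.sum_mem fun s (_ : s ∈ (Finset.univ : Finset (Fin 3))) => b1 s
  have h5 := QQ.smul_mem (c2 / c1) (QQ.sum_mem fun s (_ : s ∈ (Finset.univ : Finset (Fin 3))) =>
    b2 s)
  have h6 := QQ.sub_mem (QQ.sub_mem hb h4) h5
  convert h6 using 1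
  unfold A11 A22
  rw [Finset.sum_sub_distrib, Finset.sum_sub_distrib, smul_sub]
  abel

end

end Crest.Agent.R172.SUX5c
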