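import Crest.Agent.R172.SUX2

/-!
Row 172 (S0260), S-side: frames of two blocks at a move.
-/

set_option autoImplicit false

namespace Crest.Agent.R172.SUX

open Matrix Module Crest.Agent.R172.FO Crest.Agent.R172.Qt Crest.Agent.R172.SpS
  Crest.Agent.R172.Om

variable {ι : Type*} [Fintype ι] [DecidableEq ι] {δ : Type*} [Fintype δ] [DecidableEq δ]
variable {k K : Type*} [Field k] [Field K] [Algebra k K]
variable {arm : δ → Fin 3} {J : Matrix ι ι K} {B : Matrix δ δ K}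
  {N W : Submodule K (Matrix ι δ K)} {H F : Matrix ι δ K}
variable {n1 n2 : Type*} [Fintype n1] [Fintype n2]

/-- frames `U1`, `U2` (columns) of the blocks `Q_1`, `Q_2` at `(H, P)`. -/
structure Fr (J : Matrix ι ι K) (F H : Matrix ι δ K) (P : Matrix ι ι K) (S0 : Matrix δ δ K)
    (c1 c2 : K) (U1 : Matrix δ n1 K) (U2 : Matrix δ n2 K) : Prop where
  hc1 : c1 ≠ 0
  hc2 : c2 ≠ 0
  H1 : H * U1 = c1 • (F * U1)
  H2 : H * U2 = c2 • (F * U2)
  S1 : th J H P H * U1 = c1 ^ 2 • (S0 * U1)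
  S2 : th J H P H * U2 = c2 ^ 2 • (S0 * U2)
  T1 : th J H P F * U1 = c1 • (S0 * U1)
  T2 : th J H P F * U2 = c2 • (S0 * U2)
  skew : S0ᵀ = -S0
  orth : U1ᵀ * S0 * U2 = 0

/-- `d` of a multiple -/
theorem map_smul_der {α β : Type*} (d : Derivation k K K) (c : K) (A : Matrix α β K) :
    (c • A).map d = (d c) • A + c • A.map d := by
  ext i j
  simp only [Matrix.map_apply, Matrix.smul_apply, smul_eq_mul, Matrix.add_apply, Derivation.leibniz]
  ring

variable {P : Matrix ι ι K} {S0 : Matrix δ δ K} {c1 c2 : K} {U1 : Matrix δ n1 K}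
  {U2 : Matrix δ n2 K} {Y : Fin 3 → Matrix δ δ K} {d : Derivation k K K}
  {Γ1 : Matrix n1 n1 K} {Γ2 : Matrix n2 n2 K} {β : Matrix n1 n2 K} {γ : Matrix n2 n1 K}

omit [Fintype n1] [Fintype n2] in
/-- `d(F U) = (dc/c-corrected) ...`: the derivative of `F U1` along the move -/
theorem dFU [Fintype n1] [Fintype n2] (fr : Fr J F H P S0 c1 c2 U1 U2)
    (hd : H.map d = H * ZY arm J H P Y)
    (hN1 : H * (U1.map d + ZY arm J H P Y * U1) = H * (U1 * Γ1 + c1 ^ 2 • (U2 * γ))) :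
    (F * U1).map d = F * U1 * Γ1 + (c1 * c2) • (F * U2 * γ) - (d c1 / c1) • (F * U1) := by
  have h1 := congrArg (fun A : Matrix ι n1 K => A.map d) fr.H1
  simp only [map_mul_der, map_smul_der, hd] at h1
  have h2 : H * ZY arm J H P Y * U1 + H * U1.map d
      = H * (U1.map d + ZY arm J H P Y * U1) := by
    rw [Matrix.mul_add, add_comm, Matrix.mul_assoc]
  rw [h2, hN1] at h1
  have h3 : H * (U1 * Γ1 + c1 ^ 2 • (U2 * γ))
      = c1 • (F * U1 * Γ1) + c1 ^ 2 • c2 • (F * U2 * γ) := by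
    rw [Matrix.mul_add, Matrix.mul_smul, ← Matrix.mul_assoc, ← Matrix.mul_assoc, fr.H1, fr.H2,
      Matrix.smul_mul, Matrix.smul_mul]
  rw [h3] at h1
  have hc := fr.hc1
  have h4 : (F * U1).map d = c1⁻¹ • (c1 • (F * U1 * Γ1) + c1 ^ 2 • c2 • (F * U2 * γ)
      - d c1 • (F * U1)) := by
    rw [h1, map_mul_der]
    rw [add_sub_cancel_left, smul_smul, inv_mul_cancel₀ hc, one_smul]
  rw [h4]
  ext i j
  simp only [Matrix.smul_apply, Matrix.add_apply, Matrix.sub_apply, smul_eq_mul]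
  field_simp

theorem Fr.symm (fr : Fr J F H P S0 c1 c2 U1 U2) : Fr J F H P S0 c2 c1 U2 U1 where
  hc1 := fr.hc2
  hc2 := fr.hc1
  H1 := fr.H2
  H2 := fr.H1
  S1 := fr.S2
  S2 := fr.S1
  T1 := fr.T2
  T2 := fr.T1
  skew := fr.skew
  orth := by
    have h := congrArg Matrix.transpose fr.orth
    rw [transpose_mul, transpose_mul, transpose_transpose, fr.skew, transpose_zero,
      Matrix.neg_mul, Matrix.mul_neg, neg_eq_zero] at h
    rw [Matrix.mul_assoc]
    exact h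

end Crest.Agent.R172.SUX
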