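import Crest.Agent.R172.SUXF

/-!
Row 172 (S0260): withdrawn copy of the structure `SUX.Fr`; the definition is in `SUXF.lean`.
-/
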