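import Crest.Agent.R172.SUX4b731

/-!
Row 172 (S0260), S-side (t2): the second derivative with the WEAK orthogonality of the correction
(`H Y_s (Hᵀ J w) = 0` instead of `Hᵀ J w = 0`; at `H_{t'}`, `t' ≠ t`, only the block rows of
`w = wd q` vanish).
-/

set_option autoImplicit false
set_option linter.unusedSectionVars false
set_option linter.unusedFintypeInType false
set_option linter.unusedDecidableInType false

namespace Crest.Agent.R172.SUXW

open Matrix Module Crest.Agent.R172.FO Crest.Agent.R172.Qt Crest.Agent.R172.SpS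
  Crest.Agent.R172.Om Crest.Agent.R172.SUX Crest.Agent.R172.SUXb

section raw

variable {ι : Type*} [Fintype ι] [DecidableEq ι] {δ : Type*} [Fintype δ] [DecidableEq δ]
variable {k K : Type*} [Field k] [Field K] [Algebra k K]
variable {arm : δ → Fin 3} {J : Matrix ι ι K} {B : Matrix δ δ K}
  {N W : Submodule K (Matrix ι δ K)} {H : Matrix ι δ K}
  {P : Matrix ι ι K × (Fin 3 → Matrix ι ι K)} {Y : Fin 3 → Matrix δ δ K}
  {d : Derivation k K K}

/-- `act (XY) V` if `H Y_r (Hᵀ J V) = 0` -/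
theorem act_XY' {P : Matrix ι ι K} {Y : Fin 3 → Matrix δ δ K} {V : Matrix ι δ K}
    (hV : ∀ r, H * Y r * (Hᵀ * J * V) = 0) :
    act arm (XY J H P Y) V = ∑ r, H * Y r * th J H P V * E K arm r := by
  unfold act
  refine Finset.sum_congr rfl fun r _ => ?_
  have e : XY J H P Y r * V = H * Y r * th J H P V := by
    unfold XY XX th
    rw [Matrix.add_mul]
    have e1 : P * (H * Y r * Hᵀ) * J * V = P * (H * Y r * (Hᵀ * J * V)) := by
      simp only [Matrix.mul_assoc]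
    rw [e1, hV r, Matrix.mul_zero, add_zero]
    simp only [Matrix.mul_assoc]
  rw [e]

theorem n_mem' (m : Mv k arm J N W H P.1 Y d) {F : Matrix ι δ K} (hF : F ∈ N)
    (hp : ∀ r, H * Y r * (Hᵀ * J * F) = 0) :
    F.map d - ∑ r, H * Y r * th J H P.1 F * E K arm r ∈ N := by
  have := m.real.onN F hF
  rwa [act_XY' hp] at this

/-- **second derivative**, raw form -/
theorem second' (m : Mv k arm J N W H P.1 Y d) {F w : Matrix ι δ K}
    {A : Fin 3 → Matrix δ δ K} (hF : Hᵀ * J * F = 0)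
    (hw : ∀ s, H * Y s * (Hᵀ * J * w) = 0)
    (hV : ∑ s, F * A s * E K arm s - w ∈ N) :
    ∑ s, (F * (ZY arm J H P.1 Y * A s + (A s).map d) + wd arm J H P.1 Y d F * A s -
        w * Y s * th J H P.1 H - H * Y s * (th J H P.1 F * A s - th J H P.1 w)) * E K arm s -
      wd arm J H P.1 Y d w ∈ N := by
  set Z : Matrix δ δ K := ZY arm J H P.1 Y with hZ
  set V : Matrix ι δ K := ∑ s, F * A s * E K arm s - w with hVdef
  have hVp : ∀ s, H * Y s * (Hᵀ * J * V) = 0 := by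
    intro s
    have e0 : Hᵀ * J * V = -(Hᵀ * J * w) := by
      rw [hVdef, Matrix.mul_sub, Matrix.mul_sum, Finset.sum_eq_zero, zero_sub]
      intro s _
      calc Hᵀ * J * (F * A s * E K arm s) = (Hᵀ * J * F) * A s * E K arm s := by
            simp only [Matrix.mul_assoc]
        _ = 0 := by rw [hF, Matrix.zero_mul, Matrix.zero_mul]
    rw [e0, Matrix.mul_neg, hw s, neg_zero]
  have h1 := n_mem' m hV hVp
  have hdF : F.map d = F * Z + wd arm J H P.1 Y d F := by unfold wd; rw [← hZ]; abel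
  have hdw : w.map d = w * Z + wd arm J H P.1 Y d w := by unfold wd; rw [← hZ]; abel
  have hdV : V.map d = ∑ s, (F * (Z * A s + (A s).map d) + wd arm J H P.1 Y d F * A s) *
      E K arm s - (w * Z + wd arm J H P.1 Y d w) := by
    rw [hVdef, map_sub_der, hdw, map_sum_der']
    congr 1
    refine Finset.sum_congr rfl fun s _ => ?_
    rw [map_mul_der, map_mul_der, E_map_der, Matrix.mul_zero, add_zero, hdF]
    congr 1
    simp only [Matrix.add_mul, Matrix.mul_add, Matrix.mul_assoc]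
    abel
  have hwZ : w * Z = ∑ s, w * Y s * th J H P.1 H * E K arm s := by rw [hZ, H_ZY]
  have hth : ∀ s, H * Y s * th J H P.1 V * E K arm s =
      H * Y s * (th J H P.1 F * A s - th J H P.1 w) * E K arm s := by
    intro s
    have e1 : th J H P.1 V * E K arm s = (th J H P.1 F * A s - th J H P.1 w) * E K arm s := by
      unfold th
      have e2 : Hᵀ * J * (P.1 * V) * E K arm s = Hᵀ * J * (P.1 * (V * E K arm s)) := by
        simp only [Matrix.mul_assoc]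
      rw [e2, hVdef, Matrix.sub_mul, sum_mul_E, Matrix.sub_mul, Matrix.mul_sub, Matrix.mul_sub]
      simp only [Matrix.mul_assoc]
    rw [Matrix.mul_assoc (H * Y s), e1, ← Matrix.mul_assoc]
  rw [hdV] at h1
  have h2 : ∑ s, (F * (Z * A s + (A s).map d) + wd arm J H P.1 Y d F * A s -
        w * Y s * th J H P.1 H - H * Y s * (th J H P.1 F * A s - th J H P.1 w)) * E K arm s -
      wd arm J H P.1 Y d w =
      ∑ s, (F * (Z * A s + (A s).map d) + wd arm J H P.1 Y d F * A s) *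
      E K arm s - (w * Z + wd arm J H P.1 Y d w) -
      ∑ r, H * Y r * th J H P.1 V * E K arm r := by
    rw [hwZ, Finset.sum_congr rfl fun s _ => hth s]
    have e3 : ∀ s, (F * (Z * A s + (A s).map d) + wd arm J H P.1 Y d F * A s -
        w * Y s * th J H P.1 H - H * Y s * (th J H P.1 F * A s - th J H P.1 w)) * E K arm s =
        (F * (Z * A s + (A s).map d) + wd arm J H P.1 Y d F * A s) * E K arm s -
        w * Y s * th J H P.1 H * E K arm s -
        H * Y s * (th J H P.1 F * A s - th J H P.1 w) * E K arm s := by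
      intro s
      rw [Matrix.sub_mul, Matrix.sub_mul]
    rw [Finset.sum_congr rfl fun s _ => e3 s, Finset.sum_sub_distrib, Finset.sum_sub_distrib]
    abel
  rw [h2]
  exact h1


end raw

variable {ι : Type*} [Fintype ι] [DecidableEq ι] {δ : Type*} [Fintype δ] [DecidableEq δ]
variable {k K : Type*} [Field k] [Field K] [Algebra k K]
variable {arm : δ → Fin 3} {J : Matrix ι ι K} {B : Matrix δ δ K}
  {N W : Submodule K (Matrix ι δ K)} {F H w : Matrix ι δ K}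
  {P : Matrix ι ι K × (Fin 3 → Matrix ι ι K)} {Y : Fin 3 → Matrix δ δ K}
  {d : Derivation k K K}
variable {n1 n2 : Type*} [Fintype n1] [DecidableEq n1] [Fintype n2]

section vals

variable {S0 : Matrix δ δ K} {c1 c2 : K} {U1 : Matrix δ n1 K} {U2 : Matrix δ n2 K}

/-- **second derivative in block form** -/
theorem second_blocks' (h : Ctx k arm J B N W H) (hP : P ∈ NN arm J N H)
    (m : Mv k arm J N W H P.1 Y d) (fr : Fr J F H P.1 S0 c1 c2 U1 U2)
    {X X' : Fin 3 → Matrix n2 n1 K} {Γ1 : Matrix n1 n1 K} {Γ2 : Matrix n2 n2 K}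
    {β : Matrix n1 n2 K} {γ : Matrix n2 n1 K} {γ0 : Matrix n2 n1 K} {β0 : Matrix n1 n2 K}
    {μ1 μ2 ν1 ν2 : K}
    (hY : ∀ s, ∀ v ∈ W, v * Y s * Hᵀ = v * (U2 * X' s * U1ᵀ + U1 * (X' s)ᵀ * U2ᵀ) * Hᵀ)
    (hN2 : ∀ v ∈ W, v * (U2.map d + ZY arm J H P.1 Y * U2) = v * (U2 * Γ2 + c2 ^ 2 • (U1 * β)))
    (hN1 : ∀ v ∈ W, v * (U1.map d + ZY arm J H P.1 Y * U1) = v * (U1 * Γ1 + c1 ^ 2 • (U2 * γ)))
    (hF : F ∈ N ⊓ W) (hFp : Hᵀ * J * F = 0) (hw : w ∈ W)
    (hw1 : U1ᵀ * (Hᵀ * J * w) = 0) (hw2 : U2ᵀ * (Hᵀ * J * w) = 0)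
    (hn : ∑ s, F * (U2 * X s * U1ᵀ * S0) * E K arm s - w ∈ N)
    (L1 : w * U1 = μ1 • (F * U1) + F * (U2 * γ0)) (L2 : w * U2 = μ2 • (F * U2))
    (V1 : U1ᵀ * th J H P.1 w = (c1 * ν1) • (U1ᵀ * S0))
    (V2 : U2ᵀ * th J H P.1 w = (c2 * ν2) • (U2ᵀ * S0) - c2 • (β0ᵀ * (U1ᵀ * S0))) :
    ∑ s, F * ((c1 * c2) • (U1 * (β * X s - (X' s)ᵀ * (U2ᵀ * S0 * U2) * X s - (X' s)ᵀ * β0ᵀ) * U1ᵀ)
      + c2 ^ 2 • (U2 * (X s * γᵀ + X s * (U1ᵀ * S0 * U1) * (X' s)ᵀ - γ0 * (X' s)ᵀ) * U2ᵀ)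
      + U2 * (Γ2 * X s + (X s).map d + X s * (Γ1 - (2 * (d c1 / c1)) • (1 : Matrix n1 n1 K))ᵀ
          - (d c2 / c2) • X s + (c1 * c2 * ν1 - μ2 * c1 ^ 2) • X' s) * U1ᵀ
      + (c1 * c2 * ν2 - μ1 * c2 ^ 2) • (U1 * (X' s)ᵀ * U2ᵀ)) * S0 * E K arm s
      - wd arm J H P.1 Y d w ∈ N := by
  have hHW : H ∈ W := h.memW
  have hwp : ∀ s, H * Y s * (Hᵀ * J * w) = 0 := by
    intro s
    have e0 : H * Y s * (Hᵀ * J * w) = (H * Y s * Hᵀ) * (J * w) := by
      simp only [Matrix.mul_assoc]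
    have e1 : H * (U2 * X' s * U1ᵀ + U1 * (X' s)ᵀ * U2ᵀ) * Hᵀ * (J * w) =
        H * U2 * X' s * (U1ᵀ * (Hᵀ * J * w)) + H * U1 * (X' s)ᵀ * (U2ᵀ * (Hᵀ * J * w)) := by
      simp only [Matrix.mul_add, Matrix.add_mul, Matrix.mul_assoc]
    rw [e0, hY s H hHW, e1, hw1, hw2, Matrix.mul_zero, Matrix.mul_zero, add_zero]
  have hS := second' m (A := fun s => U2 * X s * U1ᵀ * S0) hFp hwp hn
  have key : ∀ s, (F * (ZY arm J H P.1 Y * (U2 * X s * U1ᵀ * S0) + (U2 * X s * U1ᵀ * S0).map d) +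
      wd arm J H P.1 Y d F * (U2 * X s * U1ᵀ * S0) - w * Y s * th J H P.1 H -
      H * Y s * (th J H P.1 F * (U2 * X s * U1ᵀ * S0) - th J H P.1 w)) * E K arm s =
      F * ((c1 * c2) • (U1 * (β * X s - (X' s)ᵀ * (U2ᵀ * S0 * U2) * X s - (X' s)ᵀ * β0ᵀ) * U1ᵀ)
      + c2 ^ 2 • (U2 * (X s * γᵀ + X s * (U1ᵀ * S0 * U1) * (X' s)ᵀ - γ0 * (X' s)ᵀ) * U2ᵀ)
      + U2 * (Γ2 * X s + (X s).map d + X s * (Γ1 - (2 * (d c1 / c1)) • (1 : Matrix n1 n1 K))ᵀ
          - (d c2 / c2) • X s + (c1 * c2 * ν1 - μ2 * c1 ^ 2) • X' s) * U1ᵀ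
      + (c1 * c2 * ν2 - μ1 * c2 ^ 2) • (U1 * (X' s)ᵀ * U2ᵀ)) * S0 * E K arm s := by
    intro s
    -- the terms
    have tA : F * (ZY arm J H P.1 Y * (U2 * X s * U1ᵀ * S0) + (U2 * X s * U1ᵀ * S0).map d) *
        E K arm s = F * U2 * Γ2 * X s * U1ᵀ * S0 * E K arm s +
        c2 ^ 2 • (F * U1 * β * X s * U1ᵀ * S0 * E K arm s) +
        F * U2 * (X s).map d * U1ᵀ * S0 * E K arm s +
        F * U2 * X s * ((U1ᵀ * S0).map d * E K arm s) := by
      have e1 : (U2 * X s * U1ᵀ * S0).map d = U2.map d * X s * U1ᵀ * S0 +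
          U2 * (X s).map d * U1ᵀ * S0 + U2 * X s * (U1ᵀ * S0).map d := by
        rw [Matrix.mul_assoc (U2 * X s), map_mul_der, map_mul_der]
        simp only [Matrix.add_mul, Matrix.mul_assoc]
      have e2 : ZY arm J H P.1 Y * (U2 * X s * U1ᵀ * S0) + (U2 * X s * U1ᵀ * S0).map d =
          (U2.map d + ZY arm J H P.1 Y * U2) * X s * U1ᵀ * S0 +
          U2 * (X s).map d * U1ᵀ * S0 + U2 * X s * (U1ᵀ * S0).map d := by
        rw [e1]
        simp only [Matrix.add_mul, Matrix.mul_assoc]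
        abel
      rw [e2]
      have e3 : F * ((U2.map d + ZY arm J H P.1 Y * U2) * X s * U1ᵀ * S0) =
          (F * (U2.map d + ZY arm J H P.1 Y * U2)) * X s * U1ᵀ * S0 := by
        simp only [Matrix.mul_assoc]
      rw [Matrix.mul_add, Matrix.mul_add, e3, hN2 F hF.2]
      simp only [Matrix.add_mul, Matrix.mul_add, Matrix.smul_mul, Matrix.mul_smul,
        Matrix.mul_assoc]
    have tD : wd arm J H P.1 Y d F * (U2 * X s * U1ᵀ * S0) =
        -(d c2 / c2) • (F * U2 * X s * U1ᵀ * S0) +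
        (c1 * c2 - c2 ^ 2) • (F * U1 * β * X s * U1ᵀ * S0) := by
      have e1 := wdF_U m fr.hc2 fr.H2 fr.H1 hF.2 hHW hN2
      have e2 : wd arm J H P.1 Y d F * (U2 * X s * U1ᵀ * S0) =
          (wd arm J H P.1 Y d F * U2) * X s * U1ᵀ * S0 := by simp only [Matrix.mul_assoc]
      rw [e2, e1]
      simp only [Matrix.add_mul, Matrix.smul_mul]
    have hYS : ∀ v ∈ W, ∀ G : Matrix ι δ K, v * Y s * th J H P.1 G =
        v * U2 * X' s * (U1ᵀ * th J H P.1 G) + v * U1 * (X' s)ᵀ * (U2ᵀ * th J H P.1 G) := by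
      intro v hv G
      have e1 : v * Y s * th J H P.1 G = (v * Y s * Hᵀ) * (J * (P.1 * G)) := by
        unfold th; simp only [Matrix.mul_assoc]
      rw [e1, hY s v hv]
      unfold th
      simp only [Matrix.mul_add, Matrix.add_mul, Matrix.mul_assoc]
    have tE : w * Y s * th J H P.1 H =
        (μ2 * c1 ^ 2) • (F * U2 * X' s * (U1ᵀ * S0)) +
        (μ1 * c2 ^ 2) • (F * U1 * (X' s)ᵀ * (U2ᵀ * S0)) +
        c2 ^ 2 • (F * U2 * γ0 * (X' s)ᵀ * (U2ᵀ * S0)) := by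
      rw [hYS w hw, U1S h hP fr, U2S h hP fr, L1, L2]
      simp only [Matrix.smul_mul, Matrix.mul_smul, smul_smul, Matrix.add_mul, smul_add,
        Matrix.mul_assoc, mul_comm (c1 ^ 2), mul_comm (c2 ^ 2)]
      abel
    have tG : H * Y s * (th J H P.1 F * (U2 * X s * U1ᵀ * S0)) =
        (c1 * c2) • (F * U1 * (X' s)ᵀ * (U2ᵀ * S0 * U2) * X s * U1ᵀ * S0) := by
      have e1 : H * Y s * (th J H P.1 F * (U2 * X s * U1ᵀ * S0)) =
          H * Y s * th J H P.1 F * U2 * (X s * U1ᵀ * S0) := by simp only [Matrix.mul_assoc]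
      rw [e1, hYS H hHW]
      have e2 : (H * U2 * X' s * (U1ᵀ * th J H P.1 F) + H * U1 * (X' s)ᵀ * (U2ᵀ * th J H P.1 F)) *
          U2 = H * U2 * X' s * (U1ᵀ * (th J H P.1 F * U2)) +
          H * U1 * (X' s)ᵀ * (U2ᵀ * (th J H P.1 F * U2)) := by
        simp only [Matrix.add_mul, Matrix.mul_assoc]
      rw [e2, fr.T2, fr.H1]
      have e3 : U1ᵀ * (c2 • (S0 * U2)) = 0 := by
        rw [Matrix.mul_smul, ← Matrix.mul_assoc, fr.orth, smul_zero]
      rw [e3, Matrix.mul_zero, zero_add]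
      simp only [Matrix.smul_mul, Matrix.mul_smul, smul_smul, Matrix.mul_assoc,
        mul_comm c2 c1]
    have tI : H * Y s * th J H P.1 w =
        (c1 * c2 * ν1) • (F * U2 * X' s * (U1ᵀ * S0)) +
        (c1 * c2 * ν2) • (F * U1 * (X' s)ᵀ * (U2ᵀ * S0)) -
        (c1 * c2) • (F * U1 * (X' s)ᵀ * (β0ᵀ * (U1ᵀ * S0))) := by
      rw [hYS H hHW, V1, V2, fr.H1, fr.H2]
      simp only [Matrix.smul_mul, Matrix.mul_smul, smul_smul, Matrix.mul_sub, smul_sub,
        Matrix.mul_assoc]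
      have e1 : c2 * (c1 * ν1) = c1 * c2 * ν1 := by ring
      have e2 : c1 * (c2 * ν2) = c1 * c2 * ν2 := by ring
      have e3 : c1 * ν1 * c2 = c1 * c2 * ν1 := by ring
      have e4 : c2 * ν2 * c1 = c1 * c2 * ν2 := by ring
      have e5 : c2 * c1 = c1 * c2 := by ring
      simp only [e1, e2, e3, e4, e5]
      abel
    have tC := dU1S h hP m fr hY hN1 s
    rw [Matrix.sub_mul, Matrix.sub_mul, Matrix.add_mul, tA, tC, tD, tE, Matrix.mul_sub,
      tG, tI]
    simp only [Matrix.add_mul, Matrix.sub_mul, Matrix.mul_add, Matrix.mul_sub, Matrix.smul_mul,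
      Matrix.mul_smul, smul_add, smul_sub, add_smul, sub_smul, neg_smul, Matrix.neg_mul,
      Matrix.mul_neg, smul_neg, Matrix.mul_assoc]
    abel
  rw [Finset.sum_congr rfl fun s _ => key s] at hS
  exact hS


end vals

end Crest.Agent.R172.SUXW
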