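import Crest.Agent.R172.SUX5
import Crest.Agent.R172.SLev0

/-!
Row 172 (S0260), tame node (t2): from the block form of the second derivative in frames of `K^δ`
to the relation of `SLev3.lev2Z3` in the coordinates of the block packages.
-/

set_option autoImplicit false
set_option linter.unusedSectionVars false

namespace Crest.Agent.R172.SV704

open Matrix Module Crest.Agent.R172.FO Crest.Agent.R172.Qt Crest.Agent.R172.SpS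
open Crest.Agent.R172.SLev0 Crest.Agent.R172.SUX5 Crest.Agent.R172.RJM
open scoped TensorProduct

variable {ι : Type*} [Fintype ι] [DecidableEq ι] {δ : Type*} [Fintype δ] [DecidableEq δ]
variable {K : Type*} [Field K]
variable {arm : δ → Fin 3} {J X : Matrix ι ι K} {g : Matrix ι δ K}
variable {n1 n2 : ℕ} {Q1 : Matrix ι (Fin n1) K} {Q2 : Matrix ι (Fin n2) K}
  {m1 m2 : Type*} [Fintype m1] [Fintype m2] [DecidableEq m1] [DecidableEq m2]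
  {U1 : Matrix δ m1 K} {U2 : Matrix δ m2 K} {π1 : Matrix (Fin n1) m1 K} {π2 : Matrix (Fin n2) m2 K}

/-- matrix of a tensor in the coordinates of the packages -/
noncomputable abbrev tv {n1 n2 : ℕ} : (Fin n2 → K) ⊗[K] (Fin n1 → K) →ₗ[K]
    Matrix (Fin n2) (Fin n1) K := tm (Pi.basisFun K (Fin n1)) (Pi.basisFun K (Fin n2))

/-- `M ↦ Q M Qᵀ J X g E_s` -/
noncomputable def lv (arm : δ → Fin 3) (J : Matrix ι ι K) (g : Matrix ι δ K) (X : Matrix ι ι K)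
    {n : ℕ} (Q : Matrix ι (Fin n) K) (s : Fin 3) : Matrix (Fin n) (Fin n) K →ₗ[K] Matrix ι δ K where
  toFun M := Q * M * Qᵀ * (J * X) * g * E K arm s
  map_add' M M' := by simp only [Matrix.mul_add, Matrix.add_mul]
  map_smul' c M := by simp only [Matrix.mul_smul, Matrix.smul_mul, RingHom.id_apply]

theorem lv_apply (Q : Matrix ι (Fin n1) K) (s : Fin 3) (M : Matrix (Fin n1) (Fin n1) K) :
    lv arm J g X Q s M = Q * M * Qᵀ * (J * X) * g * E K arm s := rfl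

theorem qb_lv (Q : Matrix ι (Fin n1) K) (s : Fin 3) :
    qb (Pi.basisFun K (Fin n1)) (lv arm J g X Q s) = bq arm J g X Q Q s := by
  refine LinearMap.ext fun x => LinearMap.ext fun y => ?_
  rw [qb_apply, lv_apply, bq_apply]
  have e : Q * vecMulVec ((Pi.basisFun K (Fin n1)).equivFun x)
      ((Pi.basisFun K (Fin n1)).equivFun y) * Qᵀ = vecMulVec (Q *ᵥ x) (Q *ᵥ y) := by
    rw [mul_vecMulVec, vecMulVec_mul, vecMul_transpose]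
    rfl
  rw [e]

/-- the `(2,2)`-part -/
noncomputable def F2V (arm : δ → Fin 3) (J : Matrix ι ι K) (g : Matrix ι δ K) (X : Matrix ι ι K)
    {n1 n2 : ℕ} (Q1 : Matrix ι (Fin n1) K) (Q2 : Matrix ι (Fin n2) K) :
    RJP.Pr K (Fin n1 → K) (Fin n2 → K) (Fin 3) × ((Fin n1 → K) →ₗ[K] (Fin n2 → K)) →
      (RJP.Pr K (Fin n1 → K) (Fin n2 → K) (Fin 3) × ((Fin n1 → K) →ₗ[K] (Fin n2 → K)) →ₗ[K]
        Matrix ι δ K) :=
  F2 (Pi.basisFun K (Fin n1)) (Pi.basisFun K (Fin n2)) (fun t => lv arm J g X Q2 t)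
    (Q1ᵀ * (J * X) * Q1)

/-- columns in `Z` on the left -/
theorem left_mem {Q : Submodule K (Matrix ι δ K)} {Z : Submodule K (Fin n1 → K)}
    (hZq : ∀ t, ∀ z ∈ Z, ∀ y, bq arm J g X Q1 Q1 t z y ∈ Q) {m : Type*} [Fintype m]
    [DecidableEq m] (s : Fin 3)
    {A : Matrix (Fin n1) m K} (hA : ∀ y, A *ᵥ y ∈ Z) (B : Matrix m (Fin n1) K) :
    lv arm J g X Q1 s (A * B) ∈ Q := by
  have e : A * B = ∑ j, vecMulVec (A *ᵥ Pi.single j 1) (B j) := by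
    ext a b
    rw [Matrix.mul_apply, Matrix.sum_apply]
    refine Finset.sum_congr rfl fun j _ => ?_
    rw [vecMulVec_apply, mulVec_single_one]
    rfl
  rw [e, map_sum]
  refine Q.sum_mem fun j _ => ?_
  have := hZq s _ (hA (Pi.single j 1)) (B j)
  rw [← qb_lv, qb_apply] at this
  exact this

/-- rows in `Z` on the right -/
theorem right_mem {Q : Submodule K (Matrix ι δ K)} {Z : Submodule K (Fin n1 → K)}
    (hqZ : ∀ t, ∀ z ∈ Z, ∀ y, bq arm J g X Q1 Q1 t y z ∈ Q) {m : Type*} [Fintype m]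
    [DecidableEq m] (s : Fin 3)
    {A : Matrix (Fin n1) m K} (hA : ∀ y, A *ᵥ y ∈ Z) (B : Matrix (Fin n1) m K) :
    lv arm J g X Q1 s (B * Aᵀ) ∈ Q := by
  have e : B * Aᵀ = ∑ j, vecMulVec (fun a => B a j) (A *ᵥ Pi.single j 1) := by
    ext a b
    rw [Matrix.mul_apply, Matrix.sum_apply]
    refine Finset.sum_congr rfl fun j _ => ?_
    rw [vecMulVec_apply, mulVec_single_one]
    rfl
  rw [e, map_sum]
  refine Q.sum_mem fun j _ => ?_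
  have := hqZ s _ (hA (Pi.single j 1)) (fun a => B a j)
  rw [← qb_lv, qb_apply] at this
  exact this

theorem diff_mem {Z : Submodule K (Fin n1 → K)} {b : (Fin n2 → K) →ₗ[K] (Fin n1 → K)}
    {β : Matrix m1 m2 K} (h : ∀ y, b (π2 *ᵥ y) - π1 *ᵥ (β *ᵥ y) ∈ Z) (y : m2 → K) :
    (LinearMap.toMatrix (Pi.basisFun K (Fin n2)) (Pi.basisFun K (Fin n1)) b * π2 - π1 * β) *ᵥ y
      ∈ Z := by
  have := h y
  rw [sub_mulVec, ← mulVec_mulVec, ← mulVec_mulVec]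
  have e := toMatrix_repr (Pi.basisFun K (Fin n1)) (Pi.basisFun K (Fin n2)) b (π2 *ᵥ y)
  have e' : LinearMap.toMatrix (Pi.basisFun K (Fin n2)) (Pi.basisFun K (Fin n1)) b *ᵥ (π2 *ᵥ y) =
    b (π2 *ᵥ y) := e
  rw [e']
  exact this

/-- **the relation of `SLev3.lev2Z3` from the `(1,1)`- and `(2,2)`-parts** -/
theorem hrelV (hU1 : g * U1 = Q1 * π1) (hU2 : g * U2 = Q2 * π2)
    {Q : Submodule K (Matrix ι δ K)} {Z : Submodule K (Fin n1 → K)}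
    {Z2 : Submodule K (Fin n2 → K)}
    (hZq : ∀ t, ∀ z ∈ Z, ∀ y, bq arm J g X Q1 Q1 t z y ∈ Q)
    (hqZ : ∀ t, ∀ z ∈ Z, ∀ y, bq arm J g X Q1 Q1 t y z ∈ Q)
    (hZq2 : ∀ t, ∀ z ∈ Z2, ∀ y, bq arm J g X Q2 Q2 t z y ∈ Q)
    (hqZ2 : ∀ t, ∀ z ∈ Z2, ∀ y, bq arm J g X Q2 Q2 t y z ∈ Q)
    {c1 c2 : K} (hc1 : c1 ≠ 0) (hc2 : c2 ≠ 0)
    {x x' : Fin 3 → (Fin n2 → K) ⊗[K] (Fin n1 → K)} {b b' : (Fin n2 → K) →ₗ[K] (Fin n1 → K)}
    {kk kk' : (Fin n1 → K) →ₗ[K] (Fin n2 → K)} {Xs Xs' : Fin 3 → Matrix m2 m1 K}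
    {β β0 : Matrix m1 m2 K} {γ γ0 : Matrix m2 m1 K}
    (hX : ∀ s, π2 * Xs s * π1ᵀ = tv (x s)) (hX' : ∀ s, π2 * Xs' s * π1ᵀ = tv (x' s))
    (hβ : ∀ y, b' (π2 *ᵥ y) - π1 *ᵥ (β *ᵥ y) ∈ Z)
    (hβ0 : ∀ y, b (π2 *ᵥ y) - π1 *ᵥ (β0 *ᵥ y) ∈ Z)
    (hγ : ∀ y, kk' (π1 *ᵥ y) - π2 *ᵥ (γ *ᵥ y) ∈ Z2)
    (hγ0 : ∀ y, kk (π1 *ᵥ y) - π2 *ᵥ (γ0 *ᵥ y) ∈ Z2) {S0 : Matrix δ δ K}
    (hS : S0 = gᵀ * (J * X) * g)
    (hb : ∑ s, g * ((c1 * c2) • (U1 * (β * Xs s - (Xs' s)ᵀ * (U2ᵀ * S0 * U2) * Xs s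
          - (Xs' s)ᵀ * β0ᵀ) * U1ᵀ)
        + c2 ^ 2 • (U2 * (Xs s * γᵀ + Xs s * (U1ᵀ * S0 * U1) * (Xs' s)ᵀ
          - γ0 * (Xs' s)ᵀ) * U2ᵀ)) * S0 * E K arm s ∈ Q) :
    ∑ t, ((1 : K) • TensorProduct.lift ((bq arm J g X Q1 Q1 t) ∘ₗ b') (x t)
        + (-1 : K) • TensorProduct.lift ((bq arm J g X Q1 Q1 t).flip ∘ₗ b) (x' t)
        + (-1 : K) • TensorProduct.lift ((bq arm J g X Q1 Q1 t) ∘ₗ (ev (gF J X Q2) (x' t))) (x t))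
      + (c2 / c1) • F2V arm J g X Q1 Q2 ((x, b), kk) ((x', b'), kk') ∈ Q := by
  subst hS
  have hg : ∀ i j, gF J X Q2 (Pi.basisFun K (Fin n2) i) (Pi.basisFun K (Fin n2) j) =
      (Q2ᵀ * (J * X) * Q2) i j := by
    intro i j
    rw [gF_apply, Pi.basisFun_apply, Pi.basisFun_apply, mulVec_single_one]
    rw [single_one_dotProduct]
    rfl
  have hp := part11 (Pi.basisFun K (Fin n1)) (Pi.basisFun K (Fin n2))
    (fun t => lv arm J g X Q1 t) (gF J X Q2) hg x x' b b'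
  simp only [qb_lv] at hp
  rw [← hp]
  unfold F2V
  rw [F2_apply]
  have G2 : U2ᵀ * (gᵀ * (J * X) * g) * U2 = π2ᵀ * (Q2ᵀ * (J * X) * Q2) * π2 := by
    have e : U2ᵀ * (gᵀ * (J * X) * g) * U2 = (g * U2)ᵀ * (J * X) * (g * U2) := by
      rw [transpose_mul]; simp only [Matrix.mul_assoc]
    rw [e, hU2, transpose_mul]; simp only [Matrix.mul_assoc]
  have G1 : U1ᵀ * (gᵀ * (J * X) * g) * U1 = π1ᵀ * (Q1ᵀ * (J * X) * Q1) * π1 := by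
    have e : U1ᵀ * (gᵀ * (J * X) * g) * U1 = (g * U1)ᵀ * (J * X) * (g * U1) := by
      rw [transpose_mul]; simp only [Matrix.mul_assoc]
    rw [e, hU1, transpose_mul]; simp only [Matrix.mul_assoc]
  have a1 : ∀ (M : Matrix m1 m1 K) s, g * (U1 * M * U1ᵀ) * (gᵀ * (J * X) * g) * E K arm s =
      lv arm J g X Q1 s (π1 * M * π1ᵀ) := by
    intro M s
    have e : g * (U1 * M * U1ᵀ) * (gᵀ * (J * X) * g) * E K arm s =
        (g * U1) * M * (g * U1)ᵀ * (J * X) * g * E K arm s := by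
      rw [transpose_mul]; simp only [Matrix.mul_assoc]
    rw [e, hU1, lv_apply, transpose_mul]; simp only [Matrix.mul_assoc]
  have a2 : ∀ (M : Matrix m2 m2 K) s, g * (U2 * M * U2ᵀ) * (gᵀ * (J * X) * g) * E K arm s =
      lv arm J g X Q2 s (π2 * M * π2ᵀ) := by
    intro M s
    have e : g * (U2 * M * U2ᵀ) * (gᵀ * (J * X) * g) * E K arm s =
        (g * U2) * M * (g * U2)ᵀ * (J * X) * g * E K arm s := by
      rw [transpose_mul]; simp only [Matrix.mul_assoc]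
    rw [e, hU2, lv_apply, transpose_mul]; simp only [Matrix.mul_assoc]
  rw [G1, G2] at hb
  -- abbreviations
  set Bb := LinearMap.toMatrix (Pi.basisFun K (Fin n2)) (Pi.basisFun K (Fin n1)) b with hBb
  set Bb' := LinearMap.toMatrix (Pi.basisFun K (Fin n2)) (Pi.basisFun K (Fin n1)) b' with hBb'
  set Kk := LinearMap.toMatrix (Pi.basisFun K (Fin n1)) (Pi.basisFun K (Fin n2)) kk with hKk
  set Kk' := LinearMap.toMatrix (Pi.basisFun K (Fin n1)) (Pi.basisFun K (Fin n2)) kk' with hKk'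
  have d1 : ∀ s, lv arm J g X Q1 s ((Bb' * π2 - π1 * β) * (Xs s * π1ᵀ)) ∈ Q := fun s =>
    left_mem hZq s (diff_mem hβ) _
  have d2 : ∀ s, lv arm J g X Q1 s ((π1 * (Xs' s)ᵀ) * (Bb * π2 - π1 * β0)ᵀ) ∈ Q := fun s =>
    right_mem hqZ s (diff_mem hβ0) _
  have d3 : ∀ s, lv arm J g X Q2 s ((π2 * Xs s) * (Kk' * π1 - π2 * γ)ᵀ) ∈ Q := fun s =>
    right_mem hqZ2 s (diff_mem hγ) _
  have d4 : ∀ s, lv arm J g X Q2 s ((Kk * π1 - π2 * γ0) * ((Xs' s)ᵀ * π2ᵀ)) ∈ Q := fun s =>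
    left_mem hZq2 s (diff_mem hγ0) _
  have key := Q.add_mem (Q.smul_mem ((c1 * c2)⁻¹) hb)
    (Q.add_mem (Q.sum_mem fun s (_ : s ∈ Finset.univ) => Q.sub_mem (d1 s) (d2 s))
      (Q.smul_mem (c2 / c1) (Q.sum_mem fun s (_ : s ∈ Finset.univ) => Q.sub_mem (d3 s) (d4 s))))
  convert key using 1
  rw [Finset.smul_sum, Finset.smul_sum, Finset.smul_sum, ← Finset.sum_add_distrib,
    ← Finset.sum_add_distrib, ← Finset.sum_add_distrib]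
  refine Finset.sum_congr rfl fun s _ => ?_
  have e : (c1 * c2)⁻¹ * c2 ^ 2 = c2 / c1 := by field_simp
  have e' : (c1 * c2)⁻¹ * (c1 * c2) = 1 := by field_simp
  have e5 : g * ((c1 * c2) • (U1 * (β * Xs s - (Xs' s)ᵀ * (π2ᵀ * (Q2ᵀ * (J * X) * Q2) * π2) * Xs s
          - (Xs' s)ᵀ * β0ᵀ) * U1ᵀ)
        + c2 ^ 2 • (U2 * (Xs s * γᵀ + Xs s * (π1ᵀ * (Q1ᵀ * (J * X) * Q1) * π1) * (Xs' s)ᵀ
          - γ0 * (Xs' s)ᵀ) * U2ᵀ)) * (gᵀ * (J * X) * g) * E K arm s =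
      (c1 * c2) • lv arm J g X Q1 s (π1 * (β * Xs s - (Xs' s)ᵀ * (π2ᵀ * (Q2ᵀ * (J * X) * Q2) * π2)
        * Xs s - (Xs' s)ᵀ * β0ᵀ) * π1ᵀ) +
      c2 ^ 2 • lv arm J g X Q2 s (π2 * (Xs s * γᵀ + Xs s * (π1ᵀ * (Q1ᵀ * (J * X) * Q1) * π1) *
        (Xs' s)ᵀ - γ0 * (Xs' s)ᵀ) * π2ᵀ) := by
    rw [← a1, ← a2]
    simp only [Matrix.mul_add, Matrix.add_mul, Matrix.mul_smul, Matrix.smul_mul]
  rw [e5, smul_add, smul_smul, smul_smul, e, e', one_smul, ← map_sub, ← map_sub]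
  have x1 : tv (x s) = π2 * Xs s * π1ᵀ := (hX s).symm
  have x2 : tv (x' s) = π2 * Xs' s * π1ᵀ := (hX' s).symm
  have x3 : (tv (x' s))ᵀ = π1 * (Xs' s)ᵀ * π2ᵀ := by
    rw [x2, transpose_mul, transpose_mul, transpose_transpose, Matrix.mul_assoc]
  have f1 : Bb' * tv (x s) - (tv (x' s))ᵀ * (Q2ᵀ * (J * X) * Q2) * tv (x s) -
      (tv (x' s))ᵀ * Bbᵀ = π1 * (β * Xs s - (Xs' s)ᵀ * (π2ᵀ * (Q2ᵀ * (J * X) * Q2) * π2)
        * Xs s - (Xs' s)ᵀ * β0ᵀ) * π1ᵀ + ((Bb' * π2 - π1 * β) * (Xs s * π1ᵀ) -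
          (π1 * (Xs' s)ᵀ) * (Bb * π2 - π1 * β0)ᵀ) := by
    rw [x3, x1]
    simp only [Matrix.mul_sub, Matrix.sub_mul, transpose_sub, transpose_mul, Matrix.mul_assoc]
    abel
  have f2 : tv (x s) * Kk'ᵀ + tv (x s) * (Q1ᵀ * (J * X) * Q1) * (tv (x' s))ᵀ -
      Kk * (tv (x' s))ᵀ = π2 * (Xs s * γᵀ + Xs s * (π1ᵀ * (Q1ᵀ * (J * X) * Q1) * π1) *
        (Xs' s)ᵀ - γ0 * (Xs' s)ᵀ) * π2ᵀ + ((π2 * Xs s) * (Kk' * π1 - π2 * γ)ᵀ -
          (Kk * π1 - π2 * γ0) * ((Xs' s)ᵀ * π2ᵀ)) := by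
    rw [x3, x1]
    simp only [Matrix.mul_sub, Matrix.sub_mul, Matrix.mul_add, Matrix.add_mul, transpose_sub,
      transpose_mul, Matrix.mul_assoc]
    abel
  rw [show lv arm J g X Q1 s (Bb' * tv (x s) - (tv (x' s))ᵀ * (Q2ᵀ * (J * X) * Q2) * tv (x s) -
      (tv (x' s))ᵀ * Bbᵀ) = lv arm J g X Q1 s (π1 * (β * Xs s - (Xs' s)ᵀ *
        (π2ᵀ * (Q2ᵀ * (J * X) * Q2) * π2) * Xs s - (Xs' s)ᵀ * β0ᵀ) * π1ᵀ) +
      lv arm J g X Q1 s ((Bb' * π2 - π1 * β) * (Xs s * π1ᵀ) -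
          (π1 * (Xs' s)ᵀ) * (Bb * π2 - π1 * β0)ᵀ) by rw [← map_add, ← f1],
    show lv arm J g X Q2 s (tv (x s) * Kk'ᵀ + tv (x s) * (Q1ᵀ * (J * X) * Q1) *
      (tv (x' s))ᵀ - Kk * (tv (x' s))ᵀ) = lv arm J g X Q2 s (π2 * (Xs s * γᵀ + Xs s *
        (π1ᵀ * (Q1ᵀ * (J * X) * Q1) * π1) * (Xs' s)ᵀ - γ0 * (Xs' s)ᵀ) * π2ᵀ) +
      lv arm J g X Q2 s ((π2 * Xs s) * (Kk' * π1 - π2 * γ)ᵀ -
          (Kk * π1 - π2 * γ0) * ((Xs' s)ᵀ * π2ᵀ)) by rw [← map_add, ← f2], smul_add]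
  abel

end Crest.Agent.R172.SV704
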