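import Crest.Agent.R172.SUB
import Crest.Agent.R172.Pencil

/-!
Row 172 (S0260), S-side (t2), level 1: values of the corrections `w = wd kk` on all blocks
(only pairings are used, so nothing about `∇ Q ≤ ∑ Q` is needed).
-/

set_option autoImplicit false
set_option linter.unusedSectionVars false
set_option linter.unusedFintypeInType false
set_option linter.unusedDecidableInType false

namespace Crest.Agent.R172.SVal595

open Matrix Module Crest.Agent.R172.FO Crest.Agent.R172.Qt Crest.Agent.R172.SpS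
  Crest.Agent.R172.Om Crest.Agent.R172.SUX

section hom

variable {K V1 V2 : Type*} [Field K] [AddCommGroup V1] [Module K V1] [AddCommGroup V2]
  [Module K V2] [FiniteDimensional K V1] [FiniteDimensional K V2]

/-- no intertwiners from a perfect module, for almost all ratios -/
theorem hom_fin (A : Fin 3 → End K V1) (B : Fin 3 → End K V2)
    (hA : ∀ v, ∃ f : Fin 3 → V1, v = ∑ t, A t (f t)) :
    ∃ S : Set K, S.Finite ∧ ∀ c ∉ S, ∀ z : V1 →ₗ[K] V2,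
      (∀ t v, z (A t v) = c • B t (z v)) → z = 0 := by
  let al : (V1 →ₗ[K] V2) →ₗ[K] (Fin 3 → (V1 →ₗ[K] V2)) :=
    { toFun := fun z t => z ∘ₗ A t
      map_add' := fun x y => by funext t; ext v; simp
      map_smul' := fun c x => by funext t; ext v; simp }
  let be : (V1 →ₗ[K] V2) →ₗ[K] (Fin 3 → (V1 →ₗ[K] V2)) :=
    { toFun := fun z t => B t ∘ₗ z
      map_add' := fun x y => by funext t; ext v; simp
      map_smul' := fun c x => by funext t; ext v; simp }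
  have hal : ∀ z, al z = 0 → z = 0 := by
    intro z hz
    apply LinearMap.ext
    intro v
    obtain ⟨f, rfl⟩ := hA v
    rw [map_sum, LinearMap.zero_apply]
    refine Finset.sum_eq_zero fun t _ => ?_
    have h1 : al z t (f t) = 0 := by rw [hz]; rfl
    exact h1
  obtain ⟨S, hS, n, h⟩ := Pencil.pencil al be
  refine ⟨S, hS, fun c hc z hz => ?_⟩
  have h1 : al z = c • be z := by
    funext t
    ext v
    exact hz t v
  obtain ⟨Z, h2, h3, -, h5⟩ := h c hc z h1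
  have h6 : ∀ k, Z k = 0 := by
    intro k
    induction k with
    | zero => exact hal _ h2
    | succ k ih =>
      refine hal _ ?_
      rw [h3 k, ih, map_zero]
  rw [h5]
  exact Finset.sum_eq_zero fun k _ => by rw [h6 k, smul_zero]

end hom

variable {ι : Type*} [Fintype ι] [DecidableEq ι] {δ : Type*} [Fintype δ] [DecidableEq δ]
variable {k K : Type*} [Field k] [Field K] [Algebra k K]
variable {arm : δ → Fin 3} {J : Matrix ι ι K} {B : Matrix δ δ K}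
  {N W : Submodule K (Matrix ι δ K)} {H : Matrix ι δ K}

/-- transposition in a dot product -/
theorem dot_t (A : Matrix δ δ K) (u v : δ → K) : u ⬝ᵥ (A *ᵥ v) = (Aᵀ *ᵥ u) ⬝ᵥ v := by
  rw [dotProduct_mulVec, ← mulVec_transpose]

theorem dot_skew {A : Matrix δ δ K} (hA : Aᵀ = -A) (u v : δ → K) :
    u ⬝ᵥ (A *ᵥ v) = -((A *ᵥ u) ⬝ᵥ v) := by
  rw [dot_t, hA, neg_mulVec, neg_dotProduct]

/-- a block at the parameter: `S_H u = c² S₀ u` on `Q`, stable -/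
structure Bk (arm : δ → Fin 3) (B S0 SH : Matrix δ δ K) (Q : Submodule K (δ → K)) (c : K) :
    Prop where
  S : ∀ u ∈ Q, SH *ᵥ u = c ^ 2 • (S0 *ᵥ u)
  st : ∀ r, ∀ u ∈ Q, (B * E K arm r * S0) *ᵥ u ∈ Q

section pairing

variable {P : Matrix ι ι K × (Fin 3 → Matrix ι ι K)} {Y : Fin 3 → Matrix δ δ K}
  {d : Derivation k K K} {S0 : Matrix δ δ K} {Qa Qb : Submodule K (δ → K)} {ca cb : K}

/-- `a S₀ (ω^H v) = - c_a² (ω a) S₀ v` -/
theorem S0_omH (h : Ctx k arm J B N W H) (hP : P ∈ NN arm J N H) (hS0 : S0ᵀ = -S0)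
    (ha : Bk arm B S0 (th J H P.1 H) Qa ca) (r : Fin 3) {a : δ → K} (hQ : a ∈ Qa) (v : δ → K) :
    a ⬝ᵥ (S0 *ᵥ (SUB.om arm J B H P.1 r *ᵥ v)) =
      -(ca ^ 2 * (((B * E K arm r * S0) *ᵥ a) ⬝ᵥ (S0 *ᵥ v))) := by
  have hS := th_skew h hP ⟨h.memN, h.memW⟩
  have e1 : a ⬝ᵥ (S0 *ᵥ (SUB.om arm J B H P.1 r *ᵥ v)) =
      -(((B * E K arm r * S0) *ᵥ a) ⬝ᵥ (th J H P.1 H *ᵥ v)) := by
    unfold SUB.om SUB.omF
    rw [← mulVec_mulVec v, mulVec_mulVec _ S0, dot_t]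
    have e2 : (S0 * (B * E K arm r))ᵀ = -(B * E K arm r * S0) := by
      rw [transpose_mul, transpose_mul, hS0, E_transpose, h.data.B_symm, h.data.B_arm,
        Matrix.mul_neg]
    rw [e2, neg_mulVec, neg_dotProduct]
  rw [e1, dot_skew hS, ha.S _ (ha.st r a hQ), dot_skew hS0, smul_dotProduct, smul_eq_mul]
  ring

/-- the pairing `E(a,b) = a S₀ ∇b` intertwines -/
theorem E_om (h : Ctx k arm J B N W H) (hP : P ∈ NN arm J N H) (hY : ∀ r, (Y r)ᵀ = Y r)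
    (m : Mv k arm J N W H P.1 Y d) (hS0 : S0ᵀ = -S0)
    (ha : Bk arm B S0 (th J H P.1 H) Qa ca) (hb : Bk arm B S0 (th J H P.1 H) Qb cb)
    (horth : ∀ a ∈ Qa, ∀ b ∈ Qb, a ⬝ᵥ (S0 *ᵥ b) = 0) (hcb : cb ≠ 0) (r : Fin 3)
    (hYt : ∀ a ∈ Qa, ∀ b ∈ Qb,
      cb ^ 2 * (a ⬝ᵥ (S0 *ᵥ (Y r *ᵥ (S0 *ᵥ ((B * E K arm r * S0) *ᵥ b))))) +
        ca ^ 2 * (((B * E K arm r * S0) *ᵥ a) ⬝ᵥ (S0 *ᵥ (Y r *ᵥ (S0 *ᵥ b)))) = 0)
    {a b : δ → K} (hQa : a ∈ Qa) (hQb : b ∈ Qb) :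
    a ⬝ᵥ (S0 *ᵥ SUB.nab arm J H P.1 Y d ((B * E K arm r * S0) *ᵥ b)) =
      (ca ^ 2 / cb ^ 2) *
        -(((B * E K arm r * S0) *ᵥ a) ⬝ᵥ (S0 *ᵥ SUB.nab arm J H P.1 Y d b)) := by
  have e0 : SUB.om arm J B H P.1 r *ᵥ b = cb ^ 2 • ((B * E K arm r * S0) *ᵥ b) := by
    unfold SUB.om SUB.omF
    rw [← mulVec_mulVec b, hb.S b hQb, mulVec_smul, mulVec_mulVec]
  have e1 := SUB.nab_om h hP hY m r b
  rw [e0, SUB.nab_smul] at e1
  have e2 := congrArg (fun v => a ⬝ᵥ (S0 *ᵥ v)) e1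
  simp only [mulVec_add, mulVec_sub, mulVec_smul, dotProduct_add, dotProduct_sub,
    dotProduct_smul, smul_eq_mul] at e2
  rw [horth a hQa _ (hb.st r b hQb), mul_zero, add_zero, S0_omH h hP hS0 ha r hQa,
    S0_omH h hP hS0 ha r hQa] at e2
  have e3 : (Y r * th J H P.1 H) *ᵥ ((B * E K arm r * S0) *ᵥ b) =
      cb ^ 2 • (Y r *ᵥ (S0 *ᵥ ((B * E K arm r * S0) *ᵥ b))) := by
    rw [← mulVec_mulVec, hb.S _ (hb.st r b hQb), mulVec_smul]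
  have e4 : (Y r * th J H P.1 H) *ᵥ b = cb ^ 2 • (Y r *ᵥ (S0 *ᵥ b)) := by
    rw [← mulVec_mulVec, hb.S _ hQb, mulVec_smul]
  rw [e3, e4] at e2
  simp only [mulVec_smul, dotProduct_smul, smul_eq_mul] at e2
  have hc : cb ^ 2 ≠ 0 := pow_ne_zero 2 hcb
  rw [div_mul_eq_mul_div, eq_div_iff hc]
  linear_combination e2 + cb ^ 2 * hYt a hQa b hQb

/-- **`∇` has radical valued off-diagonal blocks** -/
theorem E_zero (Qa Qb : Submodule K (δ → K)) (arm : δ → Fin 3) (B S0 : Matrix δ δ K)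
    (sta : ∀ r, ∀ u ∈ Qa, (B * E K arm r * S0) *ᵥ u ∈ Qa)
    (stb : ∀ r, ∀ u ∈ Qb, (B * E K arm r * S0) *ᵥ u ∈ Qb)
    (pb : ∀ u ∈ Qb, ∃ c : Fin 3 → (δ → K), (∀ r, c r ∈ Qb) ∧
      ∑ r, (B * E K arm r * S0) *ᵥ c r = u)
    (horth : ∀ a ∈ Qa, ∀ b ∈ Qb, a ⬝ᵥ (S0 *ᵥ b) = 0) :
    ∃ S : Set K, S.Finite ∧ ∀ lam ∉ S, ∀ (nb : (δ → K) → (δ → K)) (dd : K → K),
      (∀ u v, nb (u + v) = nb u + nb v) → (∀ (c : K) v, nb (c • v) = c • nb v + dd c • v) →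
      (∀ r, ∀ a ∈ Qa, ∀ b ∈ Qb, a ⬝ᵥ (S0 *ᵥ nb ((B * E K arm r * S0) *ᵥ b)) =
        lam * -(((B * E K arm r * S0) *ᵥ a) ⬝ᵥ (S0 *ᵥ nb b))) →
      ∀ a ∈ Qa, ∀ b ∈ Qb, a ⬝ᵥ (S0 *ᵥ nb b) = 0 := by
  let oa : Fin 3 → End K Qa := fun r => (B * E K arm r * S0).mulVecLin.restrict (sta r)
  let ob : Fin 3 → End K Qb := fun r => (B * E K arm r * S0).mulVecLin.restrict (stb r)
  obtain ⟨S, hS, h⟩ := hom_fin (K := K) (V1 := Qb) (V2 := Module.Dual K Qa) ob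
    (fun r => -(oa r).dualMap) (by
      rintro ⟨u, hu⟩
      obtain ⟨c, hc, hs⟩ := pb u hu
      refine ⟨fun r => ⟨c r, hc r⟩, ?_⟩
      apply Subtype.ext
      rw [Submodule.coe_sum]
      exact hs.symm)
  refine ⟨S, hS, fun lam hlam nb dd hadd hsm hint a ha b hb => ?_⟩
  let z : Qb →ₗ[K] Module.Dual K Qa :=
    { toFun := fun b =>
        { toFun := fun a => (a : δ → K) ⬝ᵥ (S0 *ᵥ nb (b : δ → K))
          map_add' := fun x y => by rw [Submodule.coe_add, add_dotProduct]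
          map_smul' := fun c x => by
            rw [Submodule.coe_smul, smul_dotProduct, RingHom.id_apply] }
      map_add' := fun x y => by
        ext a
        change (a : δ → K) ⬝ᵥ (S0 *ᵥ nb ((x + y : Qb) : δ → K)) =
          (a : δ → K) ⬝ᵥ (S0 *ᵥ nb (x : δ → K)) + (a : δ → K) ⬝ᵥ (S0 *ᵥ nb (y : δ → K))
        rw [Submodule.coe_add, hadd, mulVec_add, dotProduct_add]
      map_smul' := fun c x => by
        ext a
        change (a : δ → K) ⬝ᵥ (S0 *ᵥ nb ((c • x : Qb) : δ → K)) =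
          c • ((a : δ → K) ⬝ᵥ (S0 *ᵥ nb (x : δ → K)))
        rw [Submodule.coe_smul, hsm, mulVec_add, mulVec_smul, mulVec_smul, dotProduct_add,
          dotProduct_smul, dotProduct_smul, horth a a.2 x x.2, smul_zero, add_zero] }
  have hz : z = 0 := by
    refine h lam hlam z fun r v => ?_
    ext a
    change (a : δ → K) ⬝ᵥ (S0 *ᵥ nb ((B * E K arm r * S0) *ᵥ (v : δ → K))) =
      lam • (-(((B * E K arm r * S0) *ᵥ (a : δ → K)) ⬝ᵥ (S0 *ᵥ nb (v : δ → K))))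
    rw [smul_eq_mul]
    exact hint r a a.2 v v.2
  have := congrArg (fun z : Qb →ₗ[K] Module.Dual K Qa => z ⟨b, hb⟩ ⟨a, ha⟩) hz
  exact this

end pairing

section value

variable {P : Matrix ι ι K × (Fin 3 → Matrix ι ι K)} {Y : Fin 3 → Matrix δ δ K}
  {d : Derivation k K K} {F kk : Matrix ι δ K} {p0 : Matrix ι ι K}

/-- `(F a) J p0 G v = κ a S₀ v` if `T_G a = κ S₀ a`, `T_G = Fᵀ J (p0 G)` skew -/
theorem pair_G {G : Matrix ι δ K} {S0 : Matrix δ δ K} {κ : K} (hS0 : S0ᵀ = -S0)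
    (hT : (Fᵀ * J * (p0 * G))ᵀ = -(Fᵀ * J * (p0 * G))) {a : δ → K}
    (hTa : (Fᵀ * J * (p0 * G)) *ᵥ a = κ • (S0 *ᵥ a)) (v : δ → K) :
    (F *ᵥ a) ⬝ᵥ ((J * p0) *ᵥ (G *ᵥ v)) = κ * (a ⬝ᵥ (S0 *ᵥ v)) := by
  have e1 : (F *ᵥ a) ⬝ᵥ ((J * p0) *ᵥ (G *ᵥ v)) = a ⬝ᵥ ((Fᵀ * J * (p0 * G)) *ᵥ v) := by
    rw [dotProduct_comm, dotProduct_mulVec, ← mulVec_transpose, dotProduct_comm]
    simp only [mulVec_mulVec, Matrix.mul_assoc]
  rw [e1, dot_skew hT, hTa, dot_skew hS0, smul_dotProduct, smul_eq_mul]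
  ring

/-- **the value of `w = wd kk` on a block `b`, tested on a block `a`** -/
theorem value {S0 : Matrix δ δ K} (hS0 : S0ᵀ = -S0) (m : Mv k arm J N W H P.1 Y d)
    (hTk : (Fᵀ * J * (p0 * kk))ᵀ = -(Fᵀ * J * (p0 * kk)))
    (hTH : (Fᵀ * J * (p0 * H))ᵀ = -(Fᵀ * J * (p0 * H)))
    {a u : δ → K} {ca cb ka kb : K} (hcb : cb ≠ 0)
    (h1 : (Fᵀ * J * (p0 * kk)) *ᵥ a = ka • (S0 *ᵥ a))
    (h2 : (Fᵀ * J * (p0 * H)) *ᵥ a = ca • (S0 *ᵥ a))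
    (h3 : kk *ᵥ u = kb • (F *ᵥ u)) (h4 : H *ᵥ u = cb • (F *ᵥ u))
    (h5 : (kb / cb * ca - ka) * (a ⬝ᵥ (S0 *ᵥ SUB.nab arm J H P.1 Y d u)) = 0) :
    (F *ᵥ a) ⬝ᵥ ((J * p0) *ᵥ (wd arm J H P.1 Y d kk *ᵥ u - (d (kb / cb) * cb) • (F *ᵥ u))) = 0 := by
  have e1 : F *ᵥ u = cb⁻¹ • (H *ᵥ u) := by rw [h4, smul_smul, inv_mul_cancel₀ hcb, one_smul]
  have e2 : kk *ᵥ u = (kb / cb) • (H *ᵥ u) := by
    rw [h3, h4, smul_smul, div_mul_cancel₀ _ hcb]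
  have e3 := SUB.F_nab (arm := arm) (J := J) (H := H) (Y := Y) (d := d) P.1 kk u
  rw [e2, SUB.dv_smul, SUB.H_nab m, h4, smul_smul] at e3
  have e4 : wd arm J H P.1 Y d kk *ᵥ u - (d (kb / cb) * cb) • (F *ᵥ u) =
      (kb / cb) • (H *ᵥ SUB.nab arm J H P.1 Y d u) - kk *ᵥ SUB.nab arm J H P.1 Y d u := by
    rw [sub_eq_sub_iff_add_eq_add, e3]
    abel
  rw [e4, mulVec_sub, mulVec_smul, dotProduct_sub, dotProduct_smul, pair_G hS0 hTH h2,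
    pair_G hS0 hTk h1, smul_eq_mul]
  linear_combination h5

end value

end Crest.Agent.R172.SVal595
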