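import Crest.Agent.R172.SUX4v
import Crest.Agent.R172.SUB

/-!
Row 172 (S0260), S-side (t2), Lev2, row L2-h (second copy): the second level correction
`w'' = wd w` lies in the good class `SLev0.QG`, all blocks.
-/

set_option autoImplicit false
set_option linter.unusedSectionVars false
set_option linter.unusedVariables false
set_option linter.unusedFintypeInType false
set_option linter.unusedDecidableInType false

namespace Crest.Agent.R172.SWdd252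

open Matrix Module Crest.Agent.R172.FO Crest.Agent.R172.Qt Crest.Agent.R172.SpS
  Crest.Agent.R172.Om Crest.Agent.R172.SUX

variable {ι : Type*} [Fintype ι] [DecidableEq ι] {δ : Type*} [Fintype δ] [DecidableEq δ]
variable {k K : Type*} [Field k] [Field K] [Algebra k K]
variable {arm : δ → Fin 3} {J : Matrix ι ι K} {B : Matrix δ δ K}
  {N W : Submodule K (Matrix ι δ K)} {F H w : Matrix ι δ K}
  {P : Matrix ι ι K × (Fin 3 → Matrix ι ι K)} {p : Matrix ι ι K × (Fin 3 → Matrix ι ι K)}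
  {Y : Fin 3 → Matrix δ δ K} {d : Derivation k K K}
variable {n1 n2 : Type*} [Fintype n1] [Fintype n2]
variable {S0 : Matrix δ δ K} {c1 c2 : K} {U1 : Matrix δ n1 K} {U2 : Matrix δ n2 K}
  {Γ1 : Matrix n1 n1 K} {Γ2 : Matrix n2 n2 K} {β : Matrix n1 n2 K} {γ γ0 : Matrix n2 n1 K}
  {μ1 μ2 : K}

/-- the connection preserves the form of the block: `dG = Γᵀ G + G Γ - 2 (dc/c) G`. -/
theorem dG (h : Ctx k arm J B N W H) (hP : P ∈ NN arm J N H)
    (m : Mv k arm J N W H P.1 Y d) (fr : Fr J F H P.1 S0 c1 c2 U1 U2)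
    (hN2 : ∀ v ∈ W, v * (U2.map d + ZY arm J H P.1 Y * U2) = v * (U2 * Γ2 + c2 ^ 2 • (U1 * β))) :
    c2 ^ 2 • (U2ᵀ * S0 * U2).map d + (2 * c2 * d c2) • (U2ᵀ * S0 * U2) =
      c2 ^ 2 • (Γ2ᵀ * (U2ᵀ * S0 * U2)) + c2 ^ 2 • ((U2ᵀ * S0 * U2) * Γ2) := by
  have hs := th_skew h hP h.mem
  have hS2 : U2ᵀ * th J H P.1 H = c2 ^ 2 • (U2ᵀ * S0) := by
    have h := congrArg Matrix.transpose fr.S2
    rw [transpose_mul, hs, transpose_smul, transpose_mul, fr.skew, Matrix.mul_neg, Matrix.mul_neg,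
      smul_neg] at h
    exact neg_injective h
  have horth : U2ᵀ * S0 * U1 = 0 := fr.symm.orth
  have e0 : th J H P.1 H * (U2.map d + ZY arm J H P.1 Y * U2) =
      th J H P.1 H * (U2 * Γ2 + c2 ^ 2 • (U1 * β)) := by
    have := hN2 H h.memW
    unfold th
    rw [Matrix.mul_assoc, Matrix.mul_assoc P.1, this]
    simp only [Matrix.mul_assoc]
  have e1 : U2ᵀ * (th J H P.1 H * (U2.map d + ZY arm J H P.1 Y * U2)) =
      c2 ^ 2 • ((U2ᵀ * S0 * U2) * Γ2) := by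
    rw [e0, ← Matrix.mul_assoc, hS2, Matrix.mul_add, Matrix.smul_mul, Matrix.mul_smul,
      Matrix.smul_mul, ← Matrix.mul_assoc, ← Matrix.mul_assoc, horth, Matrix.zero_mul, smul_zero,
      smul_zero, add_zero]
  have e2 : (U2.map d + ZY arm J H P.1 Y * U2)ᵀ * (th J H P.1 H * U2) =
      c2 ^ 2 • (Γ2ᵀ * (U2ᵀ * S0 * U2)) := by
    have := congrArg Matrix.transpose e1
    rw [transpose_mul, transpose_mul, transpose_transpose, hs, Matrix.mul_neg, Matrix.neg_mul,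
      transpose_smul, transpose_mul, transpose_mul, transpose_mul, transpose_transpose, fr.skew,
      Matrix.neg_mul, Matrix.mul_neg, Matrix.mul_neg, smul_neg, neg_inj] at this
    rw [← Matrix.mul_assoc, this]
    simp only [Matrix.mul_assoc]
  have e3 : (U2ᵀ * th J H P.1 H * U2).map d =
      U2ᵀ * (th J H P.1 H * (U2.map d + ZY arm J H P.1 Y * U2)) +
        (U2.map d + ZY arm J H P.1 Y * U2)ᵀ * (th J H P.1 H * U2) := by
    rw [map_mul_der, map_mul_der, SUB.S_map h m, map_transpose_der, transpose_add, transpose_mul]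
    simp only [Matrix.mul_add, Matrix.add_mul, Matrix.mul_assoc]
    abel
  have e4 : (U2ᵀ * th J H P.1 H * U2).map d =
      (2 * c2 * d c2) • (U2ᵀ * S0 * U2) + c2 ^ 2 • (U2ᵀ * S0 * U2).map d := by
    rw [hS2, Matrix.smul_mul, SUX.map_smul_der]
    congr 2
    rw [pow_two, Derivation.leibniz, smul_eq_mul]
    ring
  rw [e4, e1, e2] at e3
  rw [add_comm, e3, add_comm]

/-- radical-valued families are stable under the connection -/
theorem rad_map (h : Ctx k arm J B N W H) (hP : P ∈ NN arm J N H)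
    (m : Mv k arm J N W H P.1 Y d) (fr : Fr J F H P.1 S0 c1 c2 U1 U2)
    (hN2 : ∀ v ∈ W, v * (U2.map d + ZY arm J H P.1 Y * U2) = v * (U2 * Γ2 + c2 ^ 2 • (U1 * β)))
    {n3 : Type*} [Fintype n3] {γ0 : Matrix n2 n3 K} (h0 : U2ᵀ * S0 * U2 * γ0 = 0) :
    U2ᵀ * S0 * U2 * (Γ2 * γ0 + γ0.map d) = 0 := by
  have hc := fr.hc2
  have e1 := congrArg (fun A : Matrix n2 n2 K => A * γ0) (dG h hP m fr hN2)
  simp only [Matrix.add_mul, Matrix.smul_mul] at e1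
  rw [Matrix.mul_assoc Γ2ᵀ, h0, Matrix.mul_zero, smul_zero, smul_zero, add_zero, zero_add] at e1
  have e2 := congrArg (fun A : Matrix n2 n3 K => A.map d) h0
  simp only [map_mul_der d (U2ᵀ * S0 * U2) γ0, map_zero_der'] at e2
  have e3 : c2 ^ 2 • (U2ᵀ * S0 * U2 * (Γ2 * γ0 + γ0.map d)) = 0 := by
    rw [Matrix.mul_add, smul_add, ← Matrix.mul_assoc, ← e1, ← smul_add, e2, smul_zero]
  exact (smul_eq_zero.1 e3).resolve_left (pow_ne_zero 2 hc)

/-- a block without radical part: `w'' U = (dμ - μ dc/c) F U` -/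
theorem third {n : Type*} [Fintype n] {U : Matrix δ n K} {Γ : Matrix n n K} {c μ : K}
    (hHW : H ∈ W) (hw : w ∈ W) (hd : H.map d = H * ZY arm J H P.1 Y) (hc : c ≠ 0)
    (hH : H * U = c • (F * U))
    (hN : ∀ v ∈ W, v * (U.map d + ZY arm J H P.1 Y * U) = v * (U * Γ))
    (hL : w * U = μ • (F * U)) :
    wd arm J H P.1 Y d w * U = (d μ - μ * (d c / c)) • (F * U) := by
  have h1 := congrArg (fun A : Matrix ι n K => A.map d) hH
  simp only [map_mul_der, SUX.map_smul_der] at h1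
  rw [hd] at h1
  have h2 : H * ZY arm J H P.1 Y * U + H * U.map d
      = H * (U.map d + ZY arm J H P.1 Y * U) := by
    rw [Matrix.mul_add, add_comm, Matrix.mul_assoc]
  rw [h2, hN H hHW, ← Matrix.mul_assoc, hH, Matrix.smul_mul] at h1
  have h3 : (F * U).map d = F * U * Γ - (d c / c) • (F * U) := by
    rw [map_mul_der]
    have h4 : F.map d * U + F * U.map d = c⁻¹ • (c • (F * U * Γ) - d c • (F * U)) := by
      rw [h1, add_sub_cancel_left, smul_smul, inv_mul_cancel₀ hc, one_smul]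
    rw [h4, smul_sub, smul_smul, smul_smul, inv_mul_cancel₀ hc, one_smul, div_eq_mul_inv,
      mul_comm]
  rw [SUXv.wd_mul, hL, SUX.map_smul_der, h3, hN w hw, ← Matrix.mul_assoc, hL, Matrix.smul_mul,
    smul_sub, smul_smul, sub_smul]
  abel

/-- **L2-h** -/
theorem wdd_good (h : Ctx k arm J B N W H) (hP : P ∈ NN arm J N H)
    (m : Mv k arm J N W H P.1 Y d) (fr : Fr J F H P.1 S0 c1 c2 U1 U2)
    (hB : ∀ s, E K arm s * B = B * E K arm s)
    (hS0 : Fᵀ * J * (p.1 * F) = S0)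
    (hN2 : ∀ v ∈ W, v * (U2.map d + ZY arm J H P.1 Y * U2) = v * (U2 * Γ2 + c2 ^ 2 • (U1 * β)))
    (hN1 : ∀ v ∈ W, v * (U1.map d + ZY arm J H P.1 Y * U1) = v * (U1 * Γ1 + c1 ^ 2 • (U2 * γ)))
    (hw : w ∈ W) (hwp : Hᵀ * J * w = 0)
    (hβ : U1ᵀ * S0 * U1 * β = 0) (hγ : U2ᵀ * S0 * U2 * γ = 0) (hγ0 : U2ᵀ * S0 * U2 * γ0 = 0)
    {α : Type*} {Q : α → Submodule K (δ → K)} {nu : α → K} {a1 a2 : α} {μ : K → K} {t : K}
    (hμ1 : μ (nu a1) = μ1) (hμ2 : μ (nu a2) = μ2)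
    (hc1 : c1 = 1 + t * nu a1) (hc2 : c2 = 1 + t * nu a2)
    (L1 : w * U1 = μ1 • (F * U1) + F * (U2 * γ0)) (L2 : w * U2 = μ2 • (F * U2))
    (hU1 : ∀ u ∈ Q a1, ∃ x, u = U1 *ᵥ x) (hU2 : ∀ u ∈ Q a2, ∃ x, u = U2 *ᵥ x)
    (hU1' : ∀ x, U1 *ᵥ x ∈ Q a1) (hU2' : ∀ x, U2 *ᵥ x ∈ Q a2)
    (horth : ∀ i j, i ≠ j → ∀ u ∈ Q i, ∀ u' ∈ Q j, u ⬝ᵥ (S0 *ᵥ u') = 0)
    (hst : ∀ i r, ∀ u ∈ Q i, (B * E K arm r * S0) *ᵥ u ∈ Q i)
    (hne : ∀ i, 1 + t * nu i ≠ 0)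
    (hthird : ∀ i, i ≠ a1 → i ≠ a2 → ∃ (n : ℕ) (U : Matrix δ (Fin n) K)
      (Γ : Matrix (Fin n) (Fin n) K), (∀ u ∈ Q i, ∃ x, u = U *ᵥ x) ∧
      H * U = (1 + t * nu i) • (F * U) ∧
      (∀ v ∈ W, v * (U.map d + ZY arm J H P.1 Y * U) = v * (U * Γ)) ∧
      w * U = μ (nu i) • (F * U))
    {PP : Submodule K (ι → K)} {Pb : α → Submodule K (ι → K)} (hPP : PP = ⨆ i, Pb i)
    (hPb : ∀ i, ∀ c ∈ Pb i, ∃ u ∈ Q i, c = F *ᵥ u) :
    wd arm J H P.1 Y d w ∈ W ∧ (∀ a ∈ PP, ∀ v, a ⬝ᵥ ((J * wd arm J H P.1 Y d w) *ᵥ v) = 0) ∧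
    ∃ μ : K → K, ∀ i, ∀ c ∈ Pb i, ∀ r, ∃ rr : ι → K, (∀ a ∈ PP, a ⬝ᵥ ((J * p.1) *ᵥ rr) = 0) ∧
      wd arm J H P.1 Y d w *ᵥ ((E K arm r * B * Fᵀ * (J * p.1)) *ᵥ c) =
        μ (nu i) • ((M arm B r F F * (J * p.1)) *ᵥ c) + rr := by
  classical
  -- values on lifts
  have hHQ : ∀ i, ∀ u ∈ Q i, H *ᵥ u = (1 + t * nu i) • (F *ᵥ u) := by
    intro i u hu
    by_cases h1 : i = a1
    · subst h1
      obtain ⟨x, rfl⟩ := hU1 u hu
      rw [mulVec_mulVec, fr.H1, smul_mulVec, mulVec_mulVec, hc1]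
    by_cases h2 : i = a2
    · subst h2
      obtain ⟨x, rfl⟩ := hU2 u hu
      rw [mulVec_mulVec, fr.H2, smul_mulVec, mulVec_mulVec, hc2]
    obtain ⟨n, U, Γ, hU, hH, -, -⟩ := hthird i h1 h2
    obtain ⟨x, rfl⟩ := hU u hu
    rw [mulVec_mulVec, hH, smul_mulVec, mulVec_mulVec]
  have hPPf : ∀ a ∈ PP, ∀ z : ι → K, (∀ i, ∀ u ∈ Q i, (F *ᵥ u) ⬝ᵥ z = 0) → a ⬝ᵥ z = 0 := by
    intro a ha z hz
    rw [hPP] at ha
    refine Submodule.iSup_induction (p := Pb) (motive := fun a => a ⬝ᵥ z = 0) ha ?_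
      (zero_dotProduct z) ?_
    · intro i c hc
      obtain ⟨u, hu, rfl⟩ := hPb i c hc
      exact hz i u hu
    · intro x y hx hy
      rw [add_dotProduct, hx, hy, add_zero]
  have hwW := m.w_mem hw
  have hwpp := m.w_perp h hwp
  -- radical vectors are orthogonal to everything
  have hrad2 : ∀ z : n2 → K, (U2ᵀ * S0 * U2) *ᵥ z = 0 → ∀ a ∈ PP,
      a ⬝ᵥ ((J * p.1) *ᵥ ((F * U2) *ᵥ z)) = 0 := by
    intro z hz a ha
    refine hPPf a ha _ fun i u hu => ?_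
    have e1 : (F *ᵥ u) ⬝ᵥ ((J * p.1) *ᵥ ((F * U2) *ᵥ z)) = u ⬝ᵥ (S0 *ᵥ (U2 *ᵥ z)) := by
      rw [← hS0, dotProduct_comm (F *ᵥ u), dotProduct_mulVec, ← mulVec_transpose,
        dotProduct_comm]
      simp only [mulVec_mulVec, Matrix.mul_assoc]
    rw [e1]
    by_cases h2 : i = a2
    · subst h2
      obtain ⟨x, rfl⟩ := hU2 u hu
      rw [dotProduct_comm, dotProduct_mulVec, ← mulVec_transpose, mulVec_mulVec, mulVec_mulVec,
        hz, zero_dotProduct]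
    · exact horth i a2 h2 u hu _ (hU2' z)
  have hrad1 : ∀ z : n1 → K, (U1ᵀ * S0 * U1) *ᵥ z = 0 → ∀ a ∈ PP,
      a ⬝ᵥ ((J * p.1) *ᵥ ((F * U1) *ᵥ z)) = 0 := by
    intro z hz a ha
    refine hPPf a ha _ fun i u hu => ?_
    have e1 : (F *ᵥ u) ⬝ᵥ ((J * p.1) *ᵥ ((F * U1) *ᵥ z)) = u ⬝ᵥ (S0 *ᵥ (U1 *ᵥ z)) := by
      rw [← hS0, dotProduct_comm (F *ᵥ u), dotProduct_mulVec, ← mulVec_transpose,
        dotProduct_comm]
      simp only [mulVec_mulVec, Matrix.mul_assoc]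
    rw [e1]
    by_cases h2 : i = a1
    · subst h2
      obtain ⟨x, rfl⟩ := hU1 u hu
      rw [dotProduct_comm, dotProduct_mulVec, ← mulVec_transpose, mulVec_mulVec, mulVec_mulVec,
        hz, zero_dotProduct]
    · exact horth i a1 h2 u hu _ (hU1' z)
  -- the value on every lift
  have hval : ∀ i, ∀ u ∈ Q i, ∃ rr : ι → K, (∀ a ∈ PP, a ⬝ᵥ ((J * p.1) *ᵥ rr) = 0) ∧
      wd arm J H P.1 Y d w *ᵥ u =
        (d (μ (nu i)) - μ (nu i) * (d (1 + t * nu i) / (1 + t * nu i))) • (F *ᵥ u) + rr := by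
    intro i u hu
    by_cases h1 : i = a1
    · subst h1
      obtain ⟨x, rfl⟩ := hU1 u hu
      have hv := SUXv.wd_U1 fr m.dH h.memW hw hN2 hN1 L1 L2
      set Z : Matrix n2 n1 K := Γ2 * γ0 + γ0.map d - γ0 * Γ1 + (μ1 * (c1 * c2) - μ2 * c1 ^ 2) • γ
        - (d c2 / c2) • γ0 with hZ
      have hG : U2ᵀ * S0 * U2 * Z = 0 := by
        rw [hZ, Matrix.mul_sub, Matrix.mul_add, Matrix.mul_sub, rad_map h hP m fr hN2 hγ0,
          ← Matrix.mul_assoc, hγ0, Matrix.zero_mul, Matrix.mul_smul, hγ, smul_zero,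
          Matrix.mul_smul, hγ0, smul_zero]
        simp
      have hG1 : U1ᵀ * S0 * U1 * (β * γ0) = 0 := by
        rw [← Matrix.mul_assoc, hβ, Matrix.zero_mul]
      refine ⟨(F * U2) *ᵥ (Z *ᵥ x) + (c1 * c2) • ((F * U1) *ᵥ ((β * γ0) *ᵥ x)), ?_, ?_⟩
      · intro a ha
        rw [mulVec_add, dotProduct_add, mulVec_smul, dotProduct_smul,
          hrad2 _ (by rw [mulVec_mulVec, hG, zero_mulVec]) a ha,
          hrad1 _ (by rw [mulVec_mulVec, hG1, zero_mulVec]) a ha, smul_zero, add_zero]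
      · rw [mulVec_mulVec, hv, hμ1, ← hc1]
        simp only [add_mulVec, smul_mulVec, mulVec_mulVec, Matrix.mul_assoc]
        abel
    by_cases h2 : i = a2
    · subst h2
      obtain ⟨x, rfl⟩ := hU2 u hu
      have hv := SUXv.wd_U2 fr m.dH h.memW hw hN2 L1 L2
      have hG : U2ᵀ * S0 * U2 * (γ0 * β) = 0 := by
        rw [← Matrix.mul_assoc, hγ0, Matrix.zero_mul]
      refine ⟨(μ2 * (c1 * c2) - μ1 * c2 ^ 2) • ((F * U1) *ᵥ (β *ᵥ x)) -
        c2 ^ 2 • ((F * U2) *ᵥ ((γ0 * β) *ᵥ x)), ?_, ?_⟩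
      · intro a ha
        rw [mulVec_sub, dotProduct_sub, mulVec_smul, dotProduct_smul, mulVec_smul,
          dotProduct_smul, hrad1 _ (by rw [mulVec_mulVec, hβ, zero_mulVec]) a ha,
          hrad2 _ (by rw [mulVec_mulVec, hG, zero_mulVec]) a ha, smul_zero, smul_zero, sub_zero]
      · rw [mulVec_mulVec, hv, hμ2, ← hc2]
        simp only [add_mulVec, sub_mulVec, smul_mulVec, mulVec_mulVec, Matrix.mul_assoc]
        abel
    obtain ⟨n, U, Γ, hU, hH, hN, hL⟩ := hthird i h1 h2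
    obtain ⟨x, rfl⟩ := hU u hu
    refine ⟨0, fun a _ => by rw [mulVec_zero, dotProduct_zero], ?_⟩
    rw [mulVec_mulVec, third h.memW hw m.dH (hne i) hH hN hL, smul_mulVec, mulVec_mulVec, add_zero]
  refine ⟨hwW, ?_, fun ν => d (μ ν) - μ ν * (d (1 + t * ν) / (1 + t * ν)), ?_⟩
  · intro a ha v
    refine hPPf a ha _ fun i u hu => ?_
    have e1 : (1 + t * nu i) * ((F *ᵥ u) ⬝ᵥ ((J * wd arm J H P.1 Y d w) *ᵥ v)) = 0 := by
      have e2 : (H *ᵥ u) ⬝ᵥ ((J * wd arm J H P.1 Y d w) *ᵥ v) = 0 := by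
        have e3 : (H *ᵥ u) ⬝ᵥ ((J * wd arm J H P.1 Y d w) *ᵥ v) =
            u ⬝ᵥ ((Hᵀ * J * wd arm J H P.1 Y d w) *ᵥ v) := by
          rw [dotProduct_comm (H *ᵥ u), dotProduct_mulVec, ← mulVec_transpose,
            dotProduct_comm, mulVec_mulVec, ← Matrix.mul_assoc]
        rw [e3, hwpp, zero_mulVec, dotProduct_zero]
      rw [hHQ i u hu, smul_dotProduct, smul_eq_mul] at e2
      exact e2
    exact (mul_eq_zero.1 e1).resolve_left (hne i)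
  · intro i c hc r
    obtain ⟨u, hu, rfl⟩ := hPb i c hc
    obtain ⟨rr, hr1, hr2⟩ := hval i _ (hst i r u hu)
    refine ⟨rr, hr1, ?_⟩
    have e1 : (E K arm r * B * Fᵀ * (J * p.1)) *ᵥ (F *ᵥ u) = (B * E K arm r * S0) *ᵥ u := by
      rw [mulVec_mulVec, hB, ← hS0]
      simp only [Matrix.mul_assoc]
    have e2 : (M arm B r F F * (J * p.1)) *ᵥ (F *ᵥ u) = F *ᵥ ((B * E K arm r * S0) *ᵥ u) := by
      rw [mulVec_mulVec, mulVec_mulVec, ← hS0]
      unfold M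
      rw [Matrix.mul_assoc F, hB]
      simp only [Matrix.mul_assoc]
    rw [e1, e2, hr2]

end Crest.Agent.R172.SWdd252
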