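import Crest.Agent.R172.UFr
import Crest.Agent.R172.SUB2
import Crest.Agent.R172.SLev0

/-!
Row 172 (S0260), (t2), leaf L2-h (second copy, helper601): the second level correction
`w'' = wd w` has block scalar plus radical values on all blocks, and lies in the class `QG`.
-/

set_option autoImplicit false
set_option linter.unusedSectionVars false
set_option linter.unusedFintypeInType false
set_option linter.unusedDecidableInType false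
set_option linter.unusedVariables false

namespace Crest.Agent.R172.SWdd601

open Matrix Module Crest.Agent.R172.FO Crest.Agent.R172.Qt Crest.Agent.R172.SpS
  Crest.Agent.R172.Om Crest.Agent.R172.SUX Crest.Agent.R172.SUB

variable {ι : Type*} [Fintype ι] [DecidableEq ι] {δ : Type*} [Fintype δ] [DecidableEq δ]
variable {k K : Type*} [Field k] [Field K] [Algebra k K]
variable {arm : δ → Fin 3} {J : Matrix ι ι K} {B : Matrix δ δ K}
  {N W : Submodule K (Matrix ι δ K)} {H F w : Matrix ι δ K}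
  {P : Matrix ι ι K × (Fin 3 → Matrix ι ι K)} {Y : Fin 3 → Matrix δ δ K}
  {d : Derivation k K K} {α : Type*} {Q : α → Submodule K (δ → K)} {S0 : Matrix δ δ K}
  {c μ : α → K}

theorem sdot {S : Matrix δ δ K} (hS : Sᵀ = -S) (u v : δ → K) :
    u ⬝ᵥ (S *ᵥ v) = -((S *ᵥ u) ⬝ᵥ v) := by
  rw [dotProduct_mulVec, ← mulVec_transpose, hS, neg_mulVec, neg_dotProduct]

/-- the radical of the block `Q i` -/
def RQ (S0 : Matrix δ δ K) (Q : α → Submodule K (δ → K)) (i : α) : Submodule K (δ → K) where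
  carrier := {v | v ∈ Q i ∧ ∀ u ∈ Q i, u ⬝ᵥ (S0 *ᵥ v) = 0}
  zero_mem' := ⟨(Q i).zero_mem, fun u _ => by rw [mulVec_zero, dotProduct_zero]⟩
  add_mem' := by
    rintro a b ⟨ha, ha'⟩ ⟨hb, hb'⟩
    refine ⟨(Q i).add_mem ha hb, fun u hu => ?_⟩
    rw [mulVec_add, dotProduct_add, ha' u hu, hb' u hu, add_zero]
  smul_mem' := by
    rintro t a ⟨ha, ha'⟩
    refine ⟨(Q i).smul_mem t ha, fun u hu => ?_⟩
    rw [mulVec_smul, dotProduct_smul, ha' u hu, smul_zero]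

theorem mem_RQ {i : α} {v : δ → K} :
    v ∈ RQ S0 Q i ↔ v ∈ Q i ∧ ∀ u ∈ Q i, u ⬝ᵥ (S0 *ᵥ v) = 0 := Iff.rfl

/-- the sum of the radicals -/
def RR (S0 : Matrix δ δ K) (Q : α → Submodule K (δ → K)) : Submodule K (δ → K) :=
  ⨆ i, RQ S0 Q i

theorem RQ_le_RR (i : α) : RQ S0 Q i ≤ RR S0 Q := le_iSup (RQ S0 Q) i

theorem RR_perp (hS0 : S0ᵀ = -S0)
    (orth : ∀ i j, i ≠ j → ∀ u ∈ Q i, ∀ v ∈ Q j, u ⬝ᵥ (S0 *ᵥ v) = 0) {r : δ → K}
    (hr : r ∈ RR S0 Q) (i : α) {u : δ → K} (hu : u ∈ Q i) : u ⬝ᵥ (S0 *ᵥ r) = 0 := by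
  refine Submodule.iSup_induction (p := RQ S0 Q) (motive := fun r => u ⬝ᵥ (S0 *ᵥ r) = 0) hr
    ?_ ?_ ?_
  · intro j v hv
    by_cases hij : i = j
    · subst hij
      exact hv.2 u hu
    · exact orth i j hij u hu v hv.1
  · rw [mulVec_zero, dotProduct_zero]
  · intro a b ha hb
    rw [mulVec_add, dotProduct_add, ha, hb, add_zero]

/-- the situation at a move -/
structure Sit (k : Type*) {K : Type*} [Field k] [Field K] [Algebra k K] (arm : δ → Fin 3)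
    (J : Matrix ι ι K) (H F : Matrix ι δ K) (P : Matrix ι ι K) (Y : Fin 3 → Matrix δ δ K)
    (d : Derivation k K K) (S0 : Matrix δ δ K) {α : Type*} (Q : α → Submodule K (δ → K))
    (c : α → K) : Prop where
  hc : ∀ i, c i ≠ 0
  hH : ∀ i, ∀ u ∈ Q i, H *ᵥ u = c i • (F *ᵥ u)
  hS : ∀ i, ∀ u ∈ Q i, th J H P H *ᵥ u = (c i) ^ 2 • (S0 *ᵥ u)
  sk : (th J H P H)ᵀ = -th J H P H
  sk0 : S0ᵀ = -S0
  orth : ∀ i j, i ≠ j → ∀ u ∈ Q i, ∀ v ∈ Q j, u ⬝ᵥ (S0 *ᵥ v) = 0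
  hnab : ∀ i, ∀ u ∈ Q i, ∃ u' ∈ Q i, ∃ r ∈ RR S0 Q, nab arm J H P Y d u = u' + r

theorem Sit.S_left (s : Sit k arm J H F P.1 Y d S0 Q c) {i : α} {u : δ → K} (hu : u ∈ Q i)
    (v : δ → K) : u ⬝ᵥ (th J H P.1 H *ᵥ v) = (c i) ^ 2 * (u ⬝ᵥ (S0 *ᵥ v)) := by
  rw [sdot s.sk, s.hS i u hu, smul_dotProduct, sdot s.sk0, smul_eq_mul, mul_neg]

theorem Sit.nab_RQ (h : Ctx k arm J B N W H) (m : Mv k arm J N W H P.1 Y d)
    (s : Sit k arm J H F P.1 Y d S0 Q c) {i : α} {v : δ → K} (hv : v ∈ RQ S0 Q i) :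
    nab arm J H P.1 Y d v ∈ RR S0 Q := by
  obtain ⟨v', hv', r, hr, e⟩ := s.hnab i v hv.1
  have hv0 : v' ∈ RQ S0 Q i := by
    refine ⟨hv', fun u hu => ?_⟩
    have h0 : u ⬝ᵥ (th J H P.1 H *ᵥ v) = 0 := by
      rw [s.S_left hu, hv.2 u hu, mul_zero]
    have h1 := form_nab h m u v
    rw [h0, map_zero] at h1
    obtain ⟨u', hu', r', hr', e'⟩ := s.hnab i u hu
    have h3 : r' ⬝ᵥ (S0 *ᵥ v) = 0 := by
      rw [sdot s.sk0, dotProduct_comm, RR_perp s.sk0 s.orth hr' i hv.1, neg_zero]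
    have h2 : nab arm J H P.1 Y d u ⬝ᵥ (th J H P.1 H *ᵥ v) = 0 := by
      rw [e', add_dotProduct, s.S_left hu', hv.2 u' hu', mul_zero, zero_add, s.hS i v hv.1,
        dotProduct_smul, h3, smul_zero]
    rw [h2, zero_add, s.S_left hu, e, mulVec_add, dotProduct_add, RR_perp s.sk0 s.orth hr i hu,
      add_zero] at h1
    exact (mul_eq_zero.1 h1.symm).resolve_left (pow_ne_zero 2 (s.hc i))
  rw [e]
  exact (RR S0 Q).add_mem (RQ_le_RR i hv0) hr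

theorem RR_ind {C : (δ → K) → Prop} (h1 : ∀ i, ∀ v ∈ RQ S0 Q i, C v) (h0 : C 0)
    (ha : ∀ a b, C a → C b → C (a + b)) {r : δ → K} (hr : r ∈ RR S0 Q) : C r :=
  Submodule.iSup_induction (p := RQ S0 Q) (motive := C) hr h1 h0 ha

theorem Sit.nab_RR (h : Ctx k arm J B N W H) (m : Mv k arm J N W H P.1 Y d)
    (s : Sit k arm J H F P.1 Y d S0 Q c) {r : δ → K} (hr : r ∈ RR S0 Q) :
    nab arm J H P.1 Y d r ∈ RR S0 Q :=
  RR_ind (fun i v hv => s.nab_RQ h m hv) (by rw [nab_zero]; exact (RR S0 Q).zero_mem)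
    (fun a b ha hb => by rw [nab_add]; exact (RR S0 Q).add_mem ha hb) hr

theorem Sit.H_RR (s : Sit k arm J H F P.1 Y d S0 Q c) {r : δ → K} (hr : r ∈ RR S0 Q) :
    ∃ r' ∈ RR S0 Q, H *ᵥ r = F *ᵥ r' := by
  refine RR_ind (C := fun r => ∃ r' ∈ RR S0 Q, H *ᵥ r = F *ᵥ r') (fun i v hv => ?_) ?_ ?_ hr
  · exact ⟨c i • v, RQ_le_RR i ((RQ S0 Q i).smul_mem _ hv), by rw [s.hH i v hv.1, mulVec_smul]⟩
  · exact ⟨0, (RR S0 Q).zero_mem, by rw [mulVec_zero, mulVec_zero]⟩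
  · rintro a b ⟨a', ha, ea⟩ ⟨b', hb, eb⟩
    exact ⟨a' + b', (RR S0 Q).add_mem ha hb, by rw [mulVec_add, mulVec_add, ea, eb]⟩

theorem dv_zero {β : Type*} (d : Derivation k K K) : dv d (0 : β → K) = 0 := by
  funext i; simp [dv]

theorem Sit.dF (s : Sit k arm J H F P.1 Y d S0 Q c) (m : Mv k arm J N W H P.1 Y d) {i : α}
    {u : δ → K} (hu : u ∈ Q i) :
    dv d (F *ᵥ u) = (c i)⁻¹ • (H *ᵥ nab arm J H P.1 Y d u) + (d (c i)⁻¹ * c i) • (F *ᵥ u) := by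
  have e : F *ᵥ u = (c i)⁻¹ • (H *ᵥ u) := by
    rw [s.hH i u hu, smul_smul, inv_mul_cancel₀ (s.hc i), one_smul]
  conv_lhs => rw [e, dv_smul, H_nab m, s.hH i u hu, smul_smul]

theorem Sit.dF_RR (h : Ctx k arm J B N W H) (m : Mv k arm J N W H P.1 Y d)
    (s : Sit k arm J H F P.1 Y d S0 Q c) {r : δ → K} (hr : r ∈ RR S0 Q) :
    ∃ r' ∈ RR S0 Q, dv d (F *ᵥ r) = F *ᵥ r' := by
  refine RR_ind (C := fun r => ∃ r' ∈ RR S0 Q, dv d (F *ᵥ r) = F *ᵥ r') (fun i v hv => ?_) ?_ ?_ hr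
  · obtain ⟨r1, hr1, e1⟩ := s.H_RR (s.nab_RQ h m hv)
    refine ⟨(c i)⁻¹ • r1 + (d (c i)⁻¹ * c i) • v, (RR S0 Q).add_mem ((RR S0 Q).smul_mem _ hr1)
      ((RR S0 Q).smul_mem _ (RQ_le_RR i hv)), ?_⟩
    rw [s.dF m hv.1, e1, mulVec_add, mulVec_smul, mulVec_smul]
  · exact ⟨0, (RR S0 Q).zero_mem, by rw [mulVec_zero, dv_zero]⟩
  · rintro a b ⟨a', ha, ea⟩ ⟨b', hb, eb⟩
    exact ⟨a' + b', (RR S0 Q).add_mem ha hb, by rw [mulVec_add, mulVec_add, dv_add, ea, eb]⟩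

/-- `w` has block scalar plus radical values -/
def Val (S0 : Matrix δ δ K) (Q : α → Submodule K (δ → K)) (F w : Matrix ι δ K) (μ : α → K) :
    Prop := ∀ i, ∀ u ∈ Q i, ∃ r ∈ RR S0 Q, w *ᵥ u = μ i • (F *ᵥ u) + F *ᵥ r

theorem Val.rr (hw : Val S0 Q F w μ) {r : δ → K} (hr : r ∈ RR S0 Q) :
    ∃ r' ∈ RR S0 Q, w *ᵥ r = F *ᵥ r' := by
  refine RR_ind (C := fun r => ∃ r' ∈ RR S0 Q, w *ᵥ r = F *ᵥ r') (fun i v hv => ?_) ?_ ?_ hr
  · obtain ⟨r', hr', e⟩ := hw i v hv.1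
    exact ⟨μ i • v + r', (RR S0 Q).add_mem ((RR S0 Q).smul_mem _ (RQ_le_RR i hv)) hr', by
      rw [e, mulVec_add, mulVec_smul]⟩
  · exact ⟨0, (RR S0 Q).zero_mem, by rw [mulVec_zero, mulVec_zero]⟩
  · rintro a b ⟨a', ha, ea⟩ ⟨b', hb, eb⟩
    exact ⟨a' + b', (RR S0 Q).add_mem ha hb, by rw [mulVec_add, mulVec_add, ea, eb]⟩

/-- **the values of `wd w` on the blocks** -/
theorem Sit.wdd (h : Ctx k arm J B N W H) (m : Mv k arm J N W H P.1 Y d)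
    (s : Sit k arm J H F P.1 Y d S0 Q c) (hw : Val S0 Q F w μ) :
    Val S0 Q F (wd arm J H P.1 Y d w) (fun i => d (μ i) + μ i * (d (c i)⁻¹ * c i)) := by
  intro i u hu
  obtain ⟨r0, hr0, e0⟩ := hw i u hu
  obtain ⟨u', hu', r, hr, e⟩ := s.hnab i u hu
  obtain ⟨r1, hr1, e1⟩ := s.H_RR hr
  obtain ⟨r2, hr2, e2⟩ := hw i u' hu'
  obtain ⟨r3, hr3, e3⟩ := hw.rr hr
  obtain ⟨r4, hr4, e4⟩ := s.dF_RR h m hr0
  have h1 : wd arm J H P.1 Y d w *ᵥ u = dv d (w *ᵥ u) - w *ᵥ nab arm J H P.1 Y d u := by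
    rw [F_nab (arm := arm) (J := J) (H := H) (Y := Y) (d := d) P.1 w u, add_sub_cancel_left]
  refine ⟨(μ i * (c i)⁻¹) • r1 + r4 - r2 - r3, ?_, ?_⟩
  · exact (RR S0 Q).sub_mem ((RR S0 Q).sub_mem ((RR S0 Q).add_mem ((RR S0 Q).smul_mem _ hr1) hr4)
      hr2) hr3
  · rw [h1, e0, dv_add, dv_smul, s.dF m hu, e, mulVec_add, mulVec_add, s.hH i u' hu', e1, e2, e3,
      e4, mulVec_sub, mulVec_sub, mulVec_add, mulVec_smul]
    have hc := s.hc i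
    simp only [smul_add, smul_smul, add_smul]
    rw [inv_mul_cancel₀ hc, mul_one]
    abel

/-! ### frames -/

theorem nab_frame {n : Type*} [Fintype n] (P : Matrix ι ι K) (U : Matrix δ n K) (x : n → K) :
    nab arm J H P Y d (U *ᵥ x) = (U.map d + ZY arm J H P Y * U) *ᵥ x + U *ᵥ dv d x := by
  unfold nab
  rw [dv_mulVec, add_mulVec, mulVec_mulVec]
  abel

/-- a frame of a block with the block form of `∇` -/
theorem hnab_frame {n n' : Type*} [Fintype n] [Fintype n'] {U : Matrix δ n K}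
    {U' : Matrix δ n' K} {Γ : Matrix n n K} {β : Matrix n' n K} {i j : α} {t : K}
    (hspan : ∀ u ∈ Q i, ∃ x, u = U *ᵥ x) (hmem : ∀ x, U *ᵥ x ∈ Q i)
    (hN : U.map d + ZY arm J H P.1 Y * U = U * Γ + t • (U' * β))
    (hrad : ∀ x, U' *ᵥ (β *ᵥ x) ∈ RQ S0 Q j) :
    ∀ u ∈ Q i, ∃ u' ∈ Q i, ∃ r ∈ RR S0 Q, nab arm J H P.1 Y d u = u' + r := by
  intro u hu
  obtain ⟨x, rfl⟩ := hspan u hu
  refine ⟨U *ᵥ (Γ *ᵥ x + dv d x), hmem _, t • (U' *ᵥ (β *ᵥ x)),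
    RQ_le_RR j ((RQ S0 Q j).smul_mem _ (hrad x)), ?_⟩
  rw [nab_frame, hN, add_mulVec, smul_mulVec, mulVec_add, mulVec_mulVec, mulVec_mulVec]
  abel

/-- values on a frame -/
theorem val_frame {n n' : Type*} [Fintype n] [Fintype n'] {U : Matrix δ n K}
    {U' : Matrix δ n' K} {β : Matrix n' n K} {i j : α} {t : K}
    (hspan : ∀ u ∈ Q i, ∃ x, u = U *ᵥ x)
    (hL : w * U = t • (F * U) + F * (U' * β))
    (hrad : ∀ x, U' *ᵥ (β *ᵥ x) ∈ RQ S0 Q j) :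
    ∀ u ∈ Q i, ∃ r ∈ RR S0 Q, w *ᵥ u = t • (F *ᵥ u) + F *ᵥ r := by
  intro u hu
  obtain ⟨x, rfl⟩ := hspan u hu
  refine ⟨U' *ᵥ (β *ᵥ x), RQ_le_RR j (hrad x), ?_⟩
  rw [mulVec_mulVec, hL, add_mulVec, smul_mulVec]
  simp only [mulVec_mulVec]

theorem val_frame0 {n : Type*} [Fintype n] {U : Matrix δ n K} {i : α} {t : K}
    (hspan : ∀ u ∈ Q i, ∃ x, u = U *ᵥ x) (hL : w * U = t • (F * U)) :
    ∀ u ∈ Q i, ∃ r ∈ RR S0 Q, w *ᵥ u = t • (F *ᵥ u) + F *ᵥ r := by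
  intro u hu
  obtain ⟨x, rfl⟩ := hspan u hu
  refine ⟨0, (RR S0 Q).zero_mem, ?_⟩
  rw [mulVec_mulVec, hL, smul_mulVec, mulVec_zero, add_zero, mulVec_mulVec]

/-! ### the instance -/

section inst

open Crest.Agent.R172.SBlk Crest.Agent.R172.UBlk
open Crest.Agent.R172.PL (CoreM)
open Crest.Agent.R172.SC (PB)

variable {g f : Matrix ι δ K} {p : Matrix ι ι K × (Fin 3 → Matrix ι ι K)}
variable (h : Ctx k arm J B N W g) {R : Matrix δ ι K} (hR : g * R * g = g)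
  {D : End K (CoreM (Ph arm J B g R p.1))}
  (hD : IsD (Ph arm J B g R p.1) (Nh arm J B g f R p.1) D)
variable [IsAlgClosed K]
variable (hNil : NilW arm J B N g) (hp : p ∈ NN arm J N g) (hf : f ∈ N ⊓ W)

include hD hNil hp hf

/-- **the situation `Sit` at `H = g + a f`, `P_t`** -/
theorem sit {nu : α → K} (hinj : Function.Injective nu) (hff : fᵀ * J * f = 0) {a : K}
    {Pt : Matrix ι ι K × (Fin 3 → Matrix ι ι K)} {dY : Derivation k K K}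
    (hY : ∀ f' ∈ N ⊓ W, (g + a • f)ᵀ * J * (Pt.1 * f') = (g + a • f)ᵀ * J * f'.map dY)
    (hPF : (g + a • f)ᵀ * J * (Pt.1 * g) = (g + a • f)ᵀ * J * (p.1 * g))
    (hH : Ctx k arm J B N W (g + a • f)) (hPt : Pt ∈ NN arm J N (g + a • f))
    (hc : ∀ i, 1 + a * nu i ≠ 0)
    (hnab : ∀ i, ∀ u ∈ Qb h.data hR p.1 D (nu i), ∃ u' ∈ Qb h.data hR p.1 D (nu i),
      ∃ r ∈ RR (gᵀ * J * (p.1 * g)) (fun i => Qb h.data hR p.1 D (nu i)),
        nab arm J (g + a • f) Pt.1 Y d u = u' + r) :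
    Sit k arm J (g + a • f) g Pt.1 Y d (gᵀ * J * (p.1 * g))
      (fun i => Qb h.data hR p.1 D (nu i)) (fun i => 1 + a * nu i) where
  hc := hc
  hH i u hu := (UFr.at_H h hR hD hNil hp hf hff hY hPF hu).1
  hS i u hu := (UFr.at_H h hR hD hNil hp hf hff hY hPF hu).2.2.2
  sk := th_skew hH hPt hH.mem
  sk0 := form_skew h.data.J_symm hp
  orth i j hij u hu v hv :=
    Qb_orth h hR hD hNil hp hf (fun e => hij (hinj e)) hu hv
  hnab := hnab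

omit hNil hp hf in
theorem exists_U {ν : K} {b : ι → K}
    (hb : b ∈ (PB (Ph arm J B g R p.1) D ν).map (Sg g).subtype) :
    ∃ u ∈ Qb h.data hR p.1 D ν, g *ᵥ u = b := by
  obtain ⟨v, hv, rfl⟩ := hb
  rw [← Qb_map h hR hD ν] at hv
  obtain ⟨u, hu, e⟩ := hv
  refine ⟨u, hu, ?_⟩
  have := congrArg (fun x : Sg g => (x : ι → K)) e
  exact this

/-- **block scalar plus radical values give `QG`** -/
theorem QG_of_Val {nu : α → K} (hinj : Function.Injective nu)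
    (horth : ∀ i j, i ≠ j → ∀ u ∈ Qb h.data hR p.1 D (nu i), ∀ v ∈ Qb h.data hR p.1 D (nu j),
      u ⬝ᵥ ((gᵀ * J * (p.1 * g)) *ᵥ v) = 0) {a : K} (hc : ∀ i, 1 + a * nu i ≠ 0)
    {Pc : Submodule K (ι → K)} {Pb : α → Submodule K (ι → K)} (hP : Pc = ⨆ i, Pb i)
    (hPb : ∀ i, Pb i ≤ (PB (Ph arm J B g R p.1) D (nu i)).map (Sg g).subtype)
    (hw : w ∈ W) (hwH : (g + a • f)ᵀ * J * w = 0)
    (hval : Val (gᵀ * J * (p.1 * g)) (fun i => Qb h.data hR p.1 D (nu i)) g w μ) :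
    w ∈ SLev0.QG arm J B N W g p Pc Pb nu := by
  have hsk0 := form_skew (g := g) h.data.J_symm hp
  have hPc : ∀ {C : (ι → K) → Prop}, (∀ i, ∀ u ∈ Qb h.data hR p.1 D (nu i), C (g *ᵥ u)) → C 0 →
      (∀ x y, C x → C y → C (x + y)) → ∀ b ∈ Pc, C b := by
    intro C h1 h0 ha b hb
    rw [hP] at hb
    refine Submodule.iSup_induction (p := Pb) (motive := C) hb ?_ h0 ha
    intro i x hx
    obtain ⟨u, hu, rfl⟩ := exists_U h hR hD (hPb i hx)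
    exact h1 i u hu
  rw [SLev0.mem_QG]
  refine ⟨w, hw, by rw [sub_self]; exact N.zero_mem, ?_, Function.extend nu μ 0, ?_⟩
  · refine hPc (C := fun b => ∀ v, b ⬝ᵥ ((J * w) *ᵥ v) = 0) ?_ ?_ ?_
    · intro i u hu v
      have e1 : g *ᵥ u = (1 + a * nu i)⁻¹ • ((g + a • f) *ᵥ u) := by
        rw [Qb_H h hR hD hNil hp hf hu, smul_smul, inv_mul_cancel₀ (hc i), one_smul]
      have e2 : ((g + a • f) *ᵥ u) ⬝ᵥ ((J * w) *ᵥ v) = u ⬝ᵥ (((g + a • f)ᵀ * J * w) *ᵥ v) := by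
        rw [Matrix.mul_assoc, ← mulVec_mulVec v (g + a • f)ᵀ, dotProduct_mulVec u (g + a • f)ᵀ,
          vecMul_transpose]
      rw [e1, smul_dotProduct, e2, hwH, zero_mulVec, dotProduct_zero, smul_zero]
    · intro v; rw [zero_dotProduct]
    · intro x y hx hy v; rw [add_dotProduct, hx, hy, add_zero]
  · intro i b hb r
    obtain ⟨u, hu, rfl⟩ := exists_U h hR hD (hPb i hb)
    have hom : (E K arm r * B * gᵀ * (J * p.1)) *ᵥ (g *ᵥ u) = UBlk.om arm J B g p.1 g r u := by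
      rw [om_eq h.data, mulVec_mulVec]
      congr 1
      simp only [Matrix.mul_assoc]
    have hq : UBlk.om arm J B g p.1 g r u ∈ Qb h.data hR p.1 D (nu i) := Qb_stable h hR hD r hu
    obtain ⟨r', hr', e⟩ := hval i _ hq
    refine ⟨g *ᵥ r', ?_, ?_⟩
    · refine hPc (C := fun b => b ⬝ᵥ ((J * p.1) *ᵥ (g *ᵥ r')) = 0) ?_ ?_ ?_
      · intro j v hv
        have e2 : (g *ᵥ v) ⬝ᵥ ((J * p.1) *ᵥ (g *ᵥ r')) = v ⬝ᵥ ((gᵀ * J * (p.1 * g)) *ᵥ r') := by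
          have e3 : gᵀ * J * (p.1 * g) = gᵀ * (J * p.1 * g) := by simp only [Matrix.mul_assoc]
          rw [e3, ← mulVec_mulVec r' gᵀ, dotProduct_mulVec v gᵀ, vecMul_transpose]
          simp only [mulVec_mulVec, Matrix.mul_assoc]
        rw [e2]
        exact RR_perp hsk0 horth hr' j hv
      · rw [zero_dotProduct]
      · intro x y hx hy; rw [add_dotProduct, hx, hy, add_zero]
    · rw [hom, e, hinj.extend_apply]
      congr 2
      rw [← hom, mulVec_mulVec, mulVec_mulVec, mulVec_mulVec]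
      congr 1
      unfold M
      simp only [Matrix.mul_assoc]

/-- **L2-h** : `w'' = wd w` lies in the class `QG`. -/
theorem wdd_QG {nu : α → K} (hinj : Function.Injective nu) (hff : fᵀ * J * f = 0) {a : K}
    {Pt : Matrix ι ι K × (Fin 3 → Matrix ι ι K)} {dY : Derivation k K K}
    (hY : ∀ f' ∈ N ⊓ W, (g + a • f)ᵀ * J * (Pt.1 * f') = (g + a • f)ᵀ * J * f'.map dY)
    (hPF : (g + a • f)ᵀ * J * (Pt.1 * g) = (g + a • f)ᵀ * J * (p.1 * g))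
    (hH : Ctx k arm J B N W (g + a • f)) (hPt : Pt ∈ NN arm J N (g + a • f))
    (hc : ∀ i, 1 + a * nu i ≠ 0)
    (hnab : ∀ i, ∀ u ∈ Qb h.data hR p.1 D (nu i), ∃ u' ∈ Qb h.data hR p.1 D (nu i),
      ∃ r ∈ RR (gᵀ * J * (p.1 * g)) (fun i => Qb h.data hR p.1 D (nu i)),
        nab arm J (g + a • f) Pt.1 Y d u = u' + r)
    (m : Mv k arm J N W (g + a • f) Pt.1 Y d)
    {Pc : Submodule K (ι → K)} {Pb : α → Submodule K (ι → K)} (hP : Pc = ⨆ i, Pb i)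
    (hPb : ∀ i, Pb i ≤ (PB (Ph arm J B g R p.1) D (nu i)).map (Sg g).subtype)
    (hw : w ∈ W) (hwH : (g + a • f)ᵀ * J * w = 0)
    (hval : Val (gᵀ * J * (p.1 * g)) (fun i => Qb h.data hR p.1 D (nu i)) g w μ) :
    wd arm J (g + a • f) Pt.1 Y d w ∈ SLev0.QG arm J B N W g p Pc Pb nu := by
  have s := sit h hR hD hNil hp hf hinj hff hY hPF hH hPt hc hnab
  exact QG_of_Val h hR hD hNil hp hf hinj s.orth hc hP hPb (m.w_mem hw) (m.w_perp hH hwH)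
    (s.wdd hH m hval)

end inst

end Crest.Agent.R172.SWdd601
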