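import Crest.Agent.R172.SUXF

/-!
Row 172 (S0260), S-side: 952's conditions `zb`, `zk` (note 17211) for the true `β`, `γ` of a move:
`F U2 x = 0 → F U1 (β x) ∈ range (F U2)`, `F U1 x = 0 → F U2 (γ x) ∈ range (F U1)`.
-/

set_option autoImplicit false
set_option linter.unusedSectionVars false

namespace Crest.Agent.R172.SZb555

open Matrix Module Crest.Agent.R172.FO Crest.Agent.R172.Qt Crest.Agent.R172.SpS
  Crest.Agent.R172.Om Crest.Agent.R172.SUX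

variable {ι : Type*} [Fintype ι] [DecidableEq ι] {δ : Type*} [Fintype δ] [DecidableEq δ]
variable {k K : Type*} [Field k] [Field K] [Algebra k K]
variable {arm : δ → Fin 3} {J : Matrix ι ι K} {H F : Matrix ι δ K}
variable {n1 n2 : Type*} [Fintype n1] [Fintype n2]
variable {P : Matrix ι ι K} {S0 : Matrix δ δ K} {c1 c2 : K} {U1 : Matrix δ n1 K}
  {U2 : Matrix δ n2 K} {Y : Fin 3 → Matrix δ δ K} {d : Derivation k K K}
  {Γ1 : Matrix n1 n1 K} {Γ2 : Matrix n2 n2 K} {β : Matrix n1 n2 K} {γ : Matrix n2 n1 K}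

theorem mulVec_der {α n : Type*} [Fintype n] (d : Derivation k K K) (A : Matrix α n K)
    (x : n → K) (i : α) : d ((A *ᵥ x) i) = (A.map d *ᵥ x) i + (A *ᵥ fun j => d (x j)) i := by
  simp only [mulVec, dotProduct, map_sum, Derivation.leibniz, Matrix.map_apply, smul_eq_mul]
  rw [← Finset.sum_add_distrib]
  exact Finset.sum_congr rfl fun j _ => by ring

/-- **`zk`** for the `γ` of `hN1` (needs only the values at `H`) -/
theorem zk (fr : Fr J F H P S0 c1 c2 U1 U2) (hd : H.map d = H * ZY arm J H P Y)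
    (hN1 : H * (U1.map d + ZY arm J H P Y * U1) = H * (U1 * Γ1 + c1 ^ 2 • (U2 * γ)))
    {x : n1 → K} (hx : F *ᵥ (U1 *ᵥ x) = 0) :
    ∃ z, F *ᵥ (U2 *ᵥ (γ *ᵥ x)) = F *ᵥ (U1 *ᵥ z) := by
  have hc : c1 * c2 ≠ 0 := mul_ne_zero fr.hc1 fr.hc2
  refine ⟨-(c1 * c2)⁻¹ • (Γ1 *ᵥ x + fun j => d (x j)), ?_⟩
  have hx' : (F * U1) *ᵥ x = 0 := by rw [← mulVec_mulVec, hx]
  have h1 : (F * U1).map d *ᵥ x + (F * U1) *ᵥ (fun j => d (x j)) = 0 := by
    funext i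
    rw [Pi.add_apply, ← mulVec_der, hx']
    simp
  rw [dFU fr hd hN1, sub_mulVec, add_mulVec, smul_mulVec, smul_mulVec, hx', smul_zero,
    sub_zero] at h1
  have h2 : (c1 * c2) • ((F * U2 * γ) *ᵥ x) =
      -((F * U1 * Γ1) *ᵥ x + (F * U1) *ᵥ fun j => d (x j)) := by
    rw [eq_neg_iff_add_eq_zero, ← h1]
    abel
  have h3 : (F * U2 * γ) *ᵥ x =
      (c1 * c2)⁻¹ • -((F * U1 * Γ1) *ᵥ x + (F * U1) *ᵥ fun j => d (x j)) := by
    rw [← h2, smul_smul, inv_mul_cancel₀ hc, one_smul]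
  have e1 : F *ᵥ (U2 *ᵥ (γ *ᵥ x)) = (F * U2 * γ) *ᵥ x := by
    rw [mulVec_mulVec, mulVec_mulVec, Matrix.mul_assoc]
  have e2 : F *ᵥ (U1 *ᵥ (-(c1 * c2)⁻¹ • (Γ1 *ᵥ x + fun j => d (x j)))) =
      -(c1 * c2)⁻¹ • ((F * U1 * Γ1) *ᵥ x + (F * U1) *ᵥ fun j => d (x j)) := by
    rw [mulVec_smul, mulVec_smul, mulVec_add, mulVec_add, mulVec_mulVec, mulVec_mulVec,
      mulVec_mulVec, Matrix.mul_assoc]
  rw [e1, e2, h3, smul_neg, neg_smul]

/-- **`zb`** for the `β` of `hN2` -/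
theorem zb (fr : Fr J F H P S0 c1 c2 U1 U2) (hd : H.map d = H * ZY arm J H P Y)
    (hN2 : H * (U2.map d + ZY arm J H P Y * U2) = H * (U2 * Γ2 + c2 ^ 2 • (U1 * β)))
    {x : n2 → K} (hx : F *ᵥ (U2 *ᵥ x) = 0) :
    ∃ z, F *ᵥ (U1 *ᵥ (β *ᵥ x)) = F *ᵥ (U2 *ᵥ z) :=
  zk fr.symm hd hN2 hx

end Crest.Agent.R172.SZb555
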