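import Mathlib

/-!
# Separation of weighted terms by ONE derivation (note 15958 (3))

If `∑_{j < n} C j z ∈ QQ` for all `z`, and an additive map `del` which preserves the subspace `QQ`
multiplies `C j` by the weight `w0 + j * mu` (up to `C j (nab z)`, modulo `QQ`), then every
`C j z` is in `QQ`.  No Leibniz rule for scalars is needed.
-/

namespace Crest.Agent.R172.SepD

open Finset

variable {K E Z : Type*} [Field K] [CharZero K] [AddCommGroup E] [Module K E]

theorem descF (j m : ℕ) :
    ((j.descFactorial m : ℕ) : K) * ((j : K) - m) = ((j.descFactorial (m + 1) : ℕ) : K) := by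
  rcases lt_or_ge j m with h | h
  · rw [Nat.descFactorial_eq_zero_iff_lt.2 h, Nat.descFactorial_eq_zero_iff_lt.2 (by omega)]
    simp
  · rw [Nat.descFactorial_succ, Nat.cast_mul, Nat.cast_sub h]
    ring

/-- one step: from the coefficients `j (j-1) .. (j-m+1)` to `j (j-1) .. (j-m)` -/
theorem step (QQ : Submodule K E) (del : E →+ E) (hQ : ∀ q ∈ QQ, del q ∈ QQ)
    (nab : Z → Z) (n : ℕ) (C : ℕ → Z → E) (w0 mu : K) (hmu : mu ≠ 0)
    (hC : ∀ j < n, ∀ z, del (C j z) - (w0 + j * mu) • C j z - C j (nab z) ∈ QQ)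
    (m : ℕ) (h : ∀ z, ∑ j ∈ range n, ((j.descFactorial m : ℕ) : K) • C j z ∈ QQ) :
    ∀ z, ∑ j ∈ range n, ((j.descFactorial (m + 1) : ℕ) : K) • C j z ∈ QQ := by
  intro z
  have h1 := hQ _ (h z)
  have h2 : del (∑ j ∈ range n, ((j.descFactorial m : ℕ) : K) • C j z)
      = ∑ j ∈ range n, ((j.descFactorial m : ℕ) : K) • del (C j z) := by
    rw [map_sum]
    refine Finset.sum_congr rfl fun j _ => ?_
    rw [Nat.cast_smul_eq_nsmul, Nat.cast_smul_eq_nsmul, map_nsmul]
  rw [h2] at h1
  have h3 : ∑ j ∈ range n, ((j.descFactorial m : ℕ) : K) •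
      (del (C j z) - (w0 + j * mu) • C j z - C j (nab z)) ∈ QQ :=
    Submodule.sum_mem _ fun j hj => QQ.smul_mem _ (hC j (Finset.mem_range.1 hj) z)
  have h4 := h z
  have h5 := h (nab z)
  have h6 : ∑ j ∈ range n, ((j.descFactorial (m + 1) : ℕ) : K) • C j z
      = mu⁻¹ • ((∑ j ∈ range n, ((j.descFactorial m : ℕ) : K) • del (C j z))
        - (∑ j ∈ range n, ((j.descFactorial m : ℕ) : K) •
            (del (C j z) - (w0 + j * mu) • C j z - C j (nab z)))
        - (∑ j ∈ range n, ((j.descFactorial m : ℕ) : K) • C j (nab z))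
        - (w0 + m * mu) • (∑ j ∈ range n, ((j.descFactorial m : ℕ) : K) • C j z)) := by
    rw [Finset.smul_sum, ← Finset.sum_sub_distrib, ← Finset.sum_sub_distrib,
      ← Finset.sum_sub_distrib, Finset.smul_sum]
    refine Finset.sum_congr rfl fun j _ => ?_
    rw [← descF]
    have : mu⁻¹ • (((j.descFactorial m : ℕ) : K) • del (C j z)
        - ((j.descFactorial m : ℕ) : K) • (del (C j z) - (w0 + j * mu) • C j z - C j (nab z))
        - ((j.descFactorial m : ℕ) : K) • C j (nab z)
        - (w0 + m * mu) • (((j.descFactorial m : ℕ) : K) • C j z))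
        = (mu⁻¹ * (((j.descFactorial m : ℕ) : K) * ((w0 + j * mu) - (w0 + m * mu)))) • C j z := by
      module
    rw [this]
    congr 1
    field_simp
    ring
  rw [h6]
  exact QQ.smul_mem _ (QQ.sub_mem (QQ.sub_mem (QQ.sub_mem h1 h3) h5) (QQ.smul_mem _ h4))

/-- **Separation**: if `∑_{j<n} C j z ∈ QQ` for all `z` and `del (C j z) = (w0 + j mu) C j z +
C j (nab z)` modulo `QQ`, `mu ≠ 0`, `QQ` stable under the additive map `del`, then all
`C j z ∈ QQ`. -/
theorem sep (QQ : Submodule K E) (del : E →+ E) (hQ : ∀ q ∈ QQ, del q ∈ QQ)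
    (nab : Z → Z) (n : ℕ) (C : ℕ → Z → E) (w0 mu : K) (hmu : mu ≠ 0)
    (hC : ∀ j < n, ∀ z, del (C j z) - (w0 + j * mu) • C j z - C j (nab z) ∈ QQ)
    (h : ∀ z, ∑ j ∈ range n, C j z ∈ QQ) : ∀ j < n, ∀ z, C j z ∈ QQ := by
  induction n with
  | zero => intro j hj; omega
  | succ n ih =>
    have key : ∀ m, ∀ z, ∑ j ∈ range (n + 1), ((j.descFactorial m : ℕ) : K) • C j z ∈ QQ := by
      intro m
      induction m with
      | zero => intro z; simpa using h z
      | succ m ihm => exact step QQ del hQ nab (n + 1) C w0 mu hmu hC m ihm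
    have hlast : ∀ z, C n z ∈ QQ := by
      intro z
      have h1 := key n z
      rw [Finset.sum_range_succ, Finset.sum_eq_zero, zero_add, Nat.descFactorial_self] at h1
      · have h2 := QQ.smul_mem ((n.factorial : K)⁻¹) h1
        rwa [smul_smul, inv_mul_cancel₀ (by exact_mod_cast n.factorial_ne_zero), one_smul] at h2
      · intro j hj
        rw [Nat.descFactorial_eq_zero_iff_lt.2 (Finset.mem_range.1 hj)]
        simp
    have hrest : ∀ z, ∑ j ∈ range n, C j z ∈ QQ := by
      intro z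
      have h1 := h z
      rw [Finset.sum_range_succ] at h1
      have h2 := QQ.sub_mem h1 (hlast z)
      rwa [add_sub_cancel_right] at h2
    intro j hj z
    rcases Nat.lt_succ_iff_lt_or_eq.1 hj with h1 | h1
    · exact ih (fun j hj z => hC j (by omega) z) hrest j h1 z
    · rw [h1]; exact hlast z

/-- Version in which the relation is indexed by a finite set `s` of exponents `p i` (pairwise
different naturals) instead of `range n`. -/
theorem sep_finset {I : Type*} (QQ : Submodule K E) (del : E →+ E) (hQ : ∀ q ∈ QQ, del q ∈ QQ)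
    (nab : Z → Z) (s : Finset I) (p : I → ℕ) (hp : Set.InjOn p s) (C : I → Z → E)
    (w0 mu : K) (hmu : mu ≠ 0)
    (hC : ∀ i ∈ s, ∀ z, del (C i z) - (w0 + p i * mu) • C i z - C i (nab z) ∈ QQ)
    (h : ∀ z, ∑ i ∈ s, C i z ∈ QQ) : ∀ i ∈ s, ∀ z, C i z ∈ QQ := by
  classical
  -- `C' j z = ∑_{i ∈ s, p i = j} C i z`
  set n := (s.sup p) + 1 with hn
  set C' : ℕ → Z → E := fun j z => ∑ i ∈ s with p i = j, C i z with hC'
  have hlt : ∀ i ∈ s, p i < n := fun i hi => Nat.lt_succ_of_le (Finset.le_sup hi)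
  have h' : ∀ z, ∑ j ∈ range n, C' j z ∈ QQ := by
    intro z
    rw [hC', Finset.sum_fiberwise_of_maps_to (fun i hi => Finset.mem_range.2 (hlt i hi))]
    exact h z
  have hCC : ∀ j < n, ∀ z, del (C' j z) - (w0 + j * mu) • C' j z - C' j (nab z) ∈ QQ := by
    intro j _ z
    rw [hC']
    simp only
    rw [map_sum, Finset.smul_sum, ← Finset.sum_sub_distrib, ← Finset.sum_sub_distrib]
    refine Submodule.sum_mem _ fun i hi => ?_
    rw [Finset.mem_filter] at hi
    rw [← hi.2]
    exact hC i hi.1 z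
  have hres := sep QQ del hQ nab n C' w0 mu hmu hCC h'
  intro i hi z
  have h1 := hres (p i) (hlt i hi) z
  rw [hC'] at h1
  simp only at h1
  rwa [Finset.sum_eq_single_of_mem i (by simp [hi])] at h1
  intro j hj hji
  rw [Finset.mem_filter] at hj
  exact absurd (hp hj.1 hi hj.2) hji

end Crest.Agent.R172.SepD
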