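import Crest.Agent.R172.SepD
import Crest.Agent.R172.Pencil

/-!
# Separation by one derivation for Laurent families (chains), with parameters

`al, be : Y → G` a pencil, `nab` on `Y` with `al ∘ nab = nG ∘ al - k1 al`,
`be ∘ nab = nG ∘ be - k2 be`, `k2 - k1 = 2 mu`; `i1 τ, i2 τ : Y → E` of weights `w1, w2`,
`w2 - w1 = mu`.  If `al y = be y ⟹ i1 τ y - i2 τ y ∈ QQ` (relation at ratio `1`) then
* `sep_chain` : for a chain `al (Z (k+2)) = be (Z k)`: `i1 τ (Z (k+1)) - i2 τ (Z k) ∈ QQ`;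
* `gen_rel` : for almost all `r`: `al y = r^2 • be y ⟹ i1 τ y - r • i2 τ y ∈ QQ`;
* `gen_rel'` : both `i1 τ y ∈ QQ` and `i2 τ y ∈ QQ`.
-/

namespace Crest.Agent.R172.SepD

open Finset

variable {K E Z : Type*} [Field K] [CharZero K] [AddCommGroup E] [Module K E]

/-- `sep` with a remainder which is a finite sum of terms `C j z'`. -/
theorem sep_list (QQ : Submodule K E) (del : E →+ E) (hQ : ∀ q ∈ QQ, del q ∈ QQ)
    (nab : Z → List Z) (n : ℕ) (C : ℕ → Z → E) (w0 mu : K) (hmu : mu ≠ 0)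
    (hC : ∀ j < n, ∀ z,
      del (C j z) - (w0 + j * mu) • C j z - ((nab z).map (C j)).sum ∈ QQ)
    (h : ∀ z, ∑ j ∈ range n, C j z ∈ QQ) : ∀ j < n, ∀ z, C j z ∈ QQ := by
  have key := sep (Z := List Z) QQ del hQ (fun L => L.flatMap nab) n
    (fun j L => (L.map (C j)).sum) w0 mu hmu ?_ ?_
  · intro j hj z
    simpa using key j hj [z]
  · intro j hj L
    induction L with
    | nil => simp
    | cons z L ih =>
      have h1 := QQ.add_mem (hC j hj z) ih
      simp only [List.map_cons, List.sum_cons, List.flatMap_cons, List.map_append,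
        List.sum_append, map_add, smul_add] at h1 ⊢
      convert h1 using 1
      abel
  · intro L
    induction L with
    | nil => simp
    | cons z L ih =>
      have h1 := QQ.add_mem (h z) ih
      simp only [List.map_cons, List.sum_cons]
      rwa [Finset.sum_add_distrib]

variable {Y G T : Type*} [AddCommGroup Y] [Module K Y] [AddCommGroup G] [Module K G]

/-- a chain: a polynomial family `∑ r^k Z_k` which is exact at `c = r^2` for all `r` -/
structure Chain (al be : Y →ₗ[K] G) (n : ℕ) (Z : ℕ → Y) : Prop where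
  z0 : al (Z 0) = 0
  z1 : al (Z 1) = 0
  step : ∀ k, al (Z (k + 2)) = be (Z k)
  fin : ∀ k, n ≤ k → Z k = 0

section
variable {al be : Y →ₗ[K] G} {QQ : Submodule K E} {del : E →+ E} {nab : Y →+ Y} {nG : G →+ G}
  {k1 k2 w1 w2 mu : K} {i1 i2 : T → Y →ₗ[K] E} {nT : T → List T}

theorem Chain.nabla {n : ℕ} {Z : ℕ → Y} (h : Chain al be n Z)
    (hal : ∀ y, al (nab y) = nG (al y) - k1 • al y) (hbe : ∀ y, be (nab y) = nG (be y) - k2 • be y)
    (hk : k2 - k1 = 2 * mu) : Chain al be n (fun k => nab (Z k) - ((k : K) * mu) • Z k) := by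
  refine ⟨?_, ?_, fun k => ?_, fun k hk => ?_⟩
  · simp [hal, h.z0]
  · simp [hal, h.z1]
  · rw [map_sub, map_sub, map_smul, map_smul, hal, hbe, h.step]
    have : k1 + ((k + 2 : ℕ) : K) * mu = k2 + (k : K) * mu := by
      push_cast
      linear_combination (-1 : K) * hk
    rw [sub_sub, sub_sub, ← add_smul, ← add_smul, this]
  · simp [h.fin k hk]

/-- the terms of a chain -/
def CT (i1 i2 : T → Y →ₗ[K] E) (τ : T) (Z : ℕ → Y) : ℕ → E
  | 0 => i1 τ (Z 0)
  | k + 1 => i1 τ (Z (k + 1)) - i2 τ (Z k)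

theorem sum_CT (i1 i2 : T → Y →ₗ[K] E) (τ : T) (Z : ℕ → Y) (n : ℕ) :
    ∑ k ∈ range (n + 1), CT i1 i2 τ Z k
      = i1 τ (∑ k ∈ range (n + 1), Z k) - i2 τ (∑ k ∈ range n, Z k) := by
  induction n with
  | zero => simp [CT]
  | succ n ih =>
    rw [Finset.sum_range_succ, ih, Finset.sum_range_succ (fun k => Z k) (n + 1),
      Finset.sum_range_succ (fun k => Z k) n, CT]
    simp only [map_add]
    abel

/-- **Chains**: the relation at ratio `1` gives the relation coefficient by coefficient. -/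
theorem sep_chain (hQ : ∀ q ∈ QQ, del q ∈ QQ) (hmu : mu ≠ 0)
    (hal : ∀ y, al (nab y) = nG (al y) - k1 • al y) (hbe : ∀ y, be (nab y) = nG (be y) - k2 • be y)
    (hk : k2 - k1 = 2 * mu) (hw : w2 - w1 = mu)
    (h1 : ∀ τ y, del (i1 τ y) - w1 • i1 τ y - i1 τ (nab y)
      - ((nT τ).map fun σ => i1 σ y).sum ∈ QQ)
    (h2 : ∀ τ y, del (i2 τ y) - w2 • i2 τ y - i2 τ (nab y)
      - ((nT τ).map fun σ => i2 σ y).sum ∈ QQ)
    (hrel : ∀ τ y, al y = be y → i1 τ y - i2 τ y ∈ QQ)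
    {n : ℕ} {Z : ℕ → Y} (hZ : Chain al be n Z) (τ : T) :
    i1 τ (Z 0) ∈ QQ ∧ ∀ k, i1 τ (Z (k + 1)) - i2 τ (Z k) ∈ QQ := by
  -- index type: pairs (parameter, chain)
  have key := sep_list (Z := T × {Z : ℕ → Y // Chain al be n Z}) QQ del hQ
    (fun z => (z.1, ⟨_, z.2.2.nabla hal hbe hk⟩) :: (nT z.1).map fun σ => (σ, z.2))
    (n + 1) (fun j z => CT i1 i2 z.1 z.2.1 j) w1 mu hmu ?_ ?_
  · have hall : ∀ k, CT i1 i2 τ Z k ∈ QQ := by
      intro k
      by_cases hk' : k < n + 1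
      · exact key k hk' (τ, ⟨Z, hZ⟩)
      · obtain ⟨j, rfl⟩ : ∃ j, k = j + 1 := ⟨k - 1, by omega⟩
        rw [CT, hZ.fin _ (by omega), hZ.fin _ (by omega)]
        simp
    exact ⟨hall 0, fun k => hall (k + 1)⟩
  · rintro j - ⟨τ, Z, hZ⟩
    have hlist : ∀ (L : List T) (f : T → E) , (((L.map fun σ =>
        ((σ, ⟨Z, hZ⟩) : T × {Z : ℕ → Y // Chain al be n Z})).map
        (fun z => CT i1 i2 z.1 z.2.1 j))).sum = (L.map fun σ => CT i1 i2 σ Z j).sum := by
      intro L _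
      simp [List.map_map, Function.comp_def]
    have hl := hlist (nT τ) (fun _ => 0)
    simp only [List.map_cons, List.sum_cons]
    rw [hl]
    cases j with
    | zero =>
      have e1 := h1 τ (Z 0)
      simp only [CT, Nat.cast_zero, zero_mul, add_zero, zero_smul, sub_zero]
      convert e1 using 1
      abel
    | succ k =>
      have e1 := h1 τ (Z (k + 1))
      have e2 := h2 τ (Z k)
      have e3 := QQ.sub_mem e1 e2
      simp only [CT]
      have hs : ((nT τ).map fun σ => (i1 σ (Z (k + 1)) - i2 σ (Z k))).sum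
          = ((nT τ).map fun σ => i1 σ (Z (k + 1))).sum
            - ((nT τ).map fun σ => i2 σ (Z k)).sum := by
        induction (nT τ) with
        | nil => simp
        | cons a L ih => simp only [List.map_cons, List.sum_cons, ih]; abel
      rw [hs]
      have hw' : w2 + (k : K) * mu = w1 + ((k + 1 : ℕ) : K) * mu := by
        push_cast
        linear_combination hw
      convert e3 using 1
      simp only [map_sub, map_smul]
      rw [← hw']
      have hw2 : w2 = w1 + mu := by linear_combination hw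
      rw [hw2]
      push_cast
      module
  · rintro ⟨τ, Z, hZ⟩
    rw [sum_CT]
    have e1 : ∑ k ∈ range (n + 1), Z k = ∑ k ∈ range n, Z k := by
      rw [Finset.sum_range_succ, hZ.fin n le_rfl, add_zero]
    rw [e1]
    refine hrel τ _ ?_
    -- `al (∑ Z) = be (∑ Z)`
    have e2 : ∀ m, al (∑ k ∈ range (m + 2), Z k) = be (∑ k ∈ range m, Z k) := by
      intro m
      induction m with
      | zero => simp [Finset.sum_range_succ, hZ.z0, hZ.z1]
      | succ m ih =>
        rw [show m + 1 + 2 = (m + 2) + 1 from rfl, Finset.sum_range_succ, map_add, ih, hZ.step,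
          ← map_add, ← Finset.sum_range_succ]
    have e3 := e2 n
    rwa [Finset.sum_range_succ, Finset.sum_range_succ, hZ.fin n le_rfl,
      hZ.fin (n + 1) (by omega), add_zero, add_zero] at e3

/-- **The relation at almost all ratios** from the relation at ratio `1`. -/
theorem gen_rel [FiniteDimensional K Y] (hQ : ∀ q ∈ QQ, del q ∈ QQ) (hmu : mu ≠ 0)
    (hal : ∀ y, al (nab y) = nG (al y) - k1 • al y) (hbe : ∀ y, be (nab y) = nG (be y) - k2 • be y)
    (hk : k2 - k1 = 2 * mu) (hw : w2 - w1 = mu)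
    (h1 : ∀ τ y, del (i1 τ y) - w1 • i1 τ y - i1 τ (nab y)
      - ((nT τ).map fun σ => i1 σ y).sum ∈ QQ)
    (h2 : ∀ τ y, del (i2 τ y) - w2 • i2 τ y - i2 τ (nab y)
      - ((nT τ).map fun σ => i2 σ y).sum ∈ QQ)
    (hrel : ∀ τ y, al y = be y → i1 τ y - i2 τ y ∈ QQ) :
    ∃ S : Set K, S.Finite ∧ ∀ r : K, r ^ 2 ∉ S → ∀ y, al y = r ^ 2 • be y →
      ∀ τ, i1 τ y - r • i2 τ y ∈ QQ := by
  obtain ⟨S, hS, n, hp⟩ := Pencil.pencil_sq al be
  refine ⟨S, hS, fun r hr y hy τ => ?_⟩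
  obtain ⟨Z, z0, z1, z2, z3, rfl⟩ := hp r hr y hy
  have hZ : Chain al be n Z := ⟨z0, z1, z2, z3⟩
  obtain ⟨a0, a1⟩ := sep_chain hQ hmu hal hbe hk hw h1 h2 hrel hZ τ
  have e : ∀ m, i1 τ (∑ k ∈ range (m + 1), r ^ k • Z k)
      - r • i2 τ (∑ k ∈ range m, r ^ k • Z k) ∈ QQ := by
    intro m
    induction m with
    | zero => simpa using a0
    | succ m ih =>
      have s2 : i2 τ (∑ k ∈ range (m + 1), r ^ k • Z k)
          = i2 τ (∑ k ∈ range m, r ^ k • Z k) + r ^ m • i2 τ (Z m) := by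
        rw [Finset.sum_range_succ, map_add, map_smul]
      have s1 : i1 τ (∑ k ∈ range (m + 1 + 1), r ^ k • Z k)
          = i1 τ (∑ k ∈ range (m + 1), r ^ k • Z k) + r ^ (m + 1) • i1 τ (Z (m + 1)) := by
        rw [Finset.sum_range_succ, map_add, map_smul]
      rw [s1, s2]
      have e1 := QQ.add_mem ih (QQ.smul_mem (r ^ (m + 1)) (a1 m))
      convert e1 using 1
      module
  have e1 := e n
  rwa [Finset.sum_range_succ, hZ.fin n le_rfl, smul_zero, add_zero] at e1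

/-- both terms separately (`r` and `-r`) -/
theorem gen_rel' [FiniteDimensional K Y] [IsAlgClosed K] (hQ : ∀ q ∈ QQ, del q ∈ QQ)
    (hmu : mu ≠ 0)
    (hal : ∀ y, al (nab y) = nG (al y) - k1 • al y) (hbe : ∀ y, be (nab y) = nG (be y) - k2 • be y)
    (hk : k2 - k1 = 2 * mu) (hw : w2 - w1 = mu)
    (h1 : ∀ τ y, del (i1 τ y) - w1 • i1 τ y - i1 τ (nab y)
      - ((nT τ).map fun σ => i1 σ y).sum ∈ QQ)
    (h2 : ∀ τ y, del (i2 τ y) - w2 • i2 τ y - i2 τ (nab y)
      - ((nT τ).map fun σ => i2 σ y).sum ∈ QQ)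
    (hrel : ∀ τ y, al y = be y → i1 τ y - i2 τ y ∈ QQ) :
    ∃ S : Set K, S.Finite ∧ ∀ c : K, c ∉ S → ∀ y, al y = c • be y →
      ∀ τ, i1 τ y ∈ QQ ∧ i2 τ y ∈ QQ := by
  obtain ⟨S, hS, h⟩ := gen_rel hQ hmu hal hbe hk hw h1 h2 hrel
  refine ⟨insert 0 S, hS.insert 0, fun c hc y hy τ => ?_⟩
  obtain ⟨r, rfl⟩ := IsAlgClosed.exists_pow_nat_eq c (n := 2) (by norm_num)
  have hr0 : r ≠ 0 := by
    rintro rfl
    exact hc (by simp)
  have hrS : r ^ 2 ∉ S := fun h => hc (Set.mem_insert_of_mem _ h)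
  have e1 := h r hrS y hy τ
  have e2 := h (-r) (by rwa [neg_sq]) y (by rwa [neg_sq]) τ
  have e3 := QQ.add_mem e1 e2
  have e4 := QQ.sub_mem e2 e1
  have h2K : (2 : K) ≠ 0 := two_ne_zero
  constructor
  · have e5 : (2 : K)⁻¹ • (i1 τ y - r • i2 τ y + (i1 τ y - -r • i2 τ y)) = i1 τ y := by
      have : i1 τ y - r • i2 τ y + (i1 τ y - -r • i2 τ y) = (2 : K) • i1 τ y := by module
      rw [this, smul_smul, inv_mul_cancel₀ h2K, one_smul]
    rw [← e5]
    exact QQ.smul_mem _ e3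
  · have e5 : (2 * r)⁻¹ • (i1 τ y - -r • i2 τ y - (i1 τ y - r • i2 τ y)) = i2 τ y := by
      have : i1 τ y - -r • i2 τ y - (i1 τ y - r • i2 τ y) = (2 * r) • i2 τ y := by module
      rw [this, smul_smul, inv_mul_cancel₀ (mul_ne_zero h2K hr0), one_smul]
    rw [← e5]
    exact QQ.smul_mem _ e4

end

end Crest.Agent.R172.SepD
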