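import Mathlib

/-!
R172, spinor translation, part 1: finite CAR modules (fermionic Fock spaces) in matrix form.
-/

set_option autoImplicit false

namespace Crest.Agent.R172.Sp

open Matrix Kronecker

/-- A finite matrix model of the canonical anticommutation relations on the index set `P`, with a
parity operator and a unique vacuum. -/
structure CAR (P : Type) where
  ι : Type
  [fin : Fintype ι]
  [dec : DecidableEq ι]
  c : P → Matrix ι ι ℂ
  Z : Matrix ι ι ℂ
  Ω : ι → ℂ
  cc : ∀ p q, c p * c q + c q * c p = 0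
  ccs_self : ∀ p, c p * (c p)ᴴ + (c p)ᴴ * c p = 1
  ccs_ne : ∀ p q, p ≠ q → c p * (c q)ᴴ + (c q)ᴴ * c p = 0
  Zc : ∀ p, Z * c p = - (c p * Z)
  ZZ : Z * Z = 1
  ZH : Zᴴ = Z
  ZΩ : Z *ᵥ Ω = Ω
  cΩ : ∀ p, c p *ᵥ Ω = 0
  Ωne : Ω ≠ 0
  vac : ∀ x : ι → ℂ, (∀ p, c p *ᵥ x = 0) → ∃ t : ℂ, x = t • Ω

attribute [instance] CAR.fin CAR.dec

namespace CAR

variable {P Q : Type}

theorem cstar_cstar (F : CAR P) (p q : P) :
    (F.c p)ᴴ * (F.c q)ᴴ + (F.c q)ᴴ * (F.c p)ᴴ = 0 := by
  have := congrArg Matrix.conjTranspose (F.cc p q)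
  rw [Matrix.conjTranspose_add, Matrix.conjTranspose_mul, Matrix.conjTranspose_mul,
    Matrix.conjTranspose_zero, add_comm] at this
  exact this

theorem Zcs (F : CAR P) (p : P) : F.Z * (F.c p)ᴴ = - ((F.c p)ᴴ * F.Z) := by
  have := congrArg Matrix.conjTranspose (F.Zc p)
  rw [Matrix.conjTranspose_neg, Matrix.conjTranspose_mul, Matrix.conjTranspose_mul, F.ZH] at this
  rw [this, neg_neg]

theorem neg_kron {α β : Type} (A : Matrix α α ℂ) (B : Matrix β β ℂ) :
    (-A) ⊗ₖ B = -(A ⊗ₖ B) := by
  ext i j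
  simp [Matrix.kroneckerMap_apply]

theorem kron_neg {α β : Type} (A : Matrix α α ℂ) (B : Matrix β β ℂ) :
    A ⊗ₖ (-B) = -(A ⊗ₖ B) := by
  ext i j
  simp [Matrix.kroneckerMap_apply]

theorem kron_mulVec {α β : Type} [Fintype α] [Fintype β] (A : Matrix α α ℂ) (B : Matrix β β ℂ)
    (x : α × β → ℂ) (i : α) (j : β) :
    ((A ⊗ₖ B) *ᵥ x) (i, j) = ∑ j', B j j' * (A *ᵥ (fun i' => x (i', j'))) i := by
  simp only [Matrix.mulVec, dotProduct, Matrix.kroneckerMap_apply, Fintype.sum_prod_type,
    Finset.mul_sum]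
  rw [Finset.sum_comm]
  refine Finset.sum_congr rfl fun j' _ => Finset.sum_congr rfl fun i' _ => ?_
  ring

theorem kron_mulVec_prod {α β : Type} [Fintype α] [Fintype β] (A : Matrix α α ℂ)
    (B : Matrix β β ℂ) (x : α → ℂ) (y : β → ℂ) :
    (A ⊗ₖ B) *ᵥ (fun p : α × β => x p.1 * y p.2) =
      fun p => (A *ᵥ x) p.1 * (B *ᵥ y) p.2 := by
  funext ⟨i, j⟩
  simp only [Matrix.mulVec, dotProduct, Matrix.kroneckerMap_apply, Fintype.sum_prod_type,
    Finset.sum_mul_sum]
  refine Finset.sum_congr rfl fun i' _ => Finset.sum_congr rfl fun j' _ => ?_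
  ring

/-- The fermionic tensor product. -/
def sum (F : CAR P) (G : CAR Q) : CAR (P ⊕ Q) where
  ι := F.ι × G.ι
  c := Sum.elim (fun p => F.c p ⊗ₖ (1 : Matrix G.ι G.ι ℂ)) (fun q => F.Z ⊗ₖ G.c q)
  Z := F.Z ⊗ₖ G.Z
  Ω := fun i => F.Ω i.1 * G.Ω i.2
  cc := by
    rintro (p | p) (q | q)
    · simp only [Sum.elim_inl, ← Matrix.mul_kronecker_mul, ← Matrix.add_kronecker, F.cc,
        Matrix.zero_kronecker]
    · simp only [Sum.elim_inl, Sum.elim_inr, ← Matrix.mul_kronecker_mul, F.Zc, one_mul, mul_one,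
        neg_kron, add_neg_cancel]
    · simp only [Sum.elim_inl, Sum.elim_inr, ← Matrix.mul_kronecker_mul, F.Zc, one_mul, mul_one,
        neg_kron, neg_add_cancel]
    · simp only [Sum.elim_inr, ← Matrix.mul_kronecker_mul, ← Matrix.kronecker_add, G.cc,
        Matrix.kronecker_zero]
  ccs_self := by
    rintro (p | p)
    · simp only [Sum.elim_inl, Matrix.conjTranspose_kronecker, Matrix.conjTranspose_one,
        ← Matrix.mul_kronecker_mul, ← Matrix.add_kronecker, F.ccs_self, mul_one,
        Matrix.one_kronecker_one]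
    · simp only [Sum.elim_inr, Matrix.conjTranspose_kronecker, F.ZH, F.ZZ,
        ← Matrix.mul_kronecker_mul, ← Matrix.kronecker_add, G.ccs_self,
        Matrix.one_kronecker_one]
  ccs_ne := by
    rintro (p | p) (q | q) h
    · have h' : p ≠ q := fun e => h (by rw [e])
      simp only [Sum.elim_inl, Matrix.conjTranspose_kronecker, Matrix.conjTranspose_one,
        ← Matrix.mul_kronecker_mul, ← Matrix.add_kronecker, F.ccs_ne p q h',
        Matrix.zero_kronecker]
    · simp only [Sum.elim_inl, Sum.elim_inr, Matrix.conjTranspose_kronecker, F.ZH,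
        ← Matrix.mul_kronecker_mul, F.Zc, one_mul, mul_one,
        neg_kron, add_neg_cancel]
    · simp only [Sum.elim_inl, Sum.elim_inr, Matrix.conjTranspose_kronecker,
        Matrix.conjTranspose_one,
        ← Matrix.mul_kronecker_mul, F.Zcs, one_mul, mul_one,
        neg_kron, neg_add_cancel]
    · have h' : p ≠ q := fun e => h (by rw [e])
      simp only [Sum.elim_inr, Matrix.conjTranspose_kronecker, F.ZH, F.ZZ,
        ← Matrix.mul_kronecker_mul, ← Matrix.kronecker_add, G.ccs_ne p q h',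
        Matrix.kronecker_zero]
  Zc := by
    rintro (p | p)
    · simp only [Sum.elim_inl, ← Matrix.mul_kronecker_mul, F.Zc, one_mul, mul_one,
        neg_kron]
    · simp only [Sum.elim_inr, ← Matrix.mul_kronecker_mul, G.Zc, kron_neg]
  ZZ := by
    simp only [← Matrix.mul_kronecker_mul, F.ZZ, G.ZZ, Matrix.one_kronecker_one]
  ZH := by
    simp only [Matrix.conjTranspose_kronecker, F.ZH, G.ZH]
  ZΩ := by
    rw [kron_mulVec_prod, F.ZΩ, G.ZΩ]
  cΩ := by
    rintro (p | p)
    · simp only [Sum.elim_inl]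
      rw [kron_mulVec_prod, F.cΩ]
      funext i
      simp
    · simp only [Sum.elim_inr]
      rw [kron_mulVec_prod, G.cΩ]
      funext i
      simp
  Ωne := by
    obtain ⟨i, hi⟩ := Function.ne_iff.mp F.Ωne
    obtain ⟨j, hj⟩ := Function.ne_iff.mp G.Ωne
    exact Function.ne_iff.mpr ⟨(i, j), mul_ne_zero hi hj⟩
  vac := by
    intro x hx
    have h1 : ∀ j, ∃ t : ℂ, (fun i => x (i, j)) = t • F.Ω := by
      intro j
      refine F.vac _ fun p => ?_
      have := hx (Sum.inl p)
      funext i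
      have h2 := congrFun this (i, j)
      simp only [Sum.elim_inl] at h2
      rw [kron_mulVec] at h2
      simpa [Matrix.one_apply] using h2
    choose t ht using h1
    have ht' : ∀ i j, x (i, j) = F.Ω i * t j := by
      intro i j
      have := congrFun (ht j) i
      simp only [Pi.smul_apply, smul_eq_mul] at this
      rw [this, mul_comm]
    have hx' : x = fun p => F.Ω p.1 * t p.2 := by
      funext ⟨i, j⟩
      exact ht' i j
    obtain ⟨i0, hi0⟩ := Function.ne_iff.mp F.Ωne
    have h3 : ∀ q, G.c q *ᵥ t = 0 := by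
      intro q
      have := hx (Sum.inr q)
      simp only [Sum.elim_inr] at this
      rw [hx', kron_mulVec_prod, F.ZΩ] at this
      funext j
      have h4 := congrFun this (i0, j)
      simp only [Pi.zero_apply, mul_eq_zero] at h4
      rcases h4 with h4 | h4
      · exact absurd h4 hi0
      · exact h4
    obtain ⟨s, hs⟩ := G.vac t h3
    refine ⟨s, ?_⟩
    rw [hx', hs]
    funext p
    simp only [Pi.smul_apply, smul_eq_mul]
    ring

/-- Transport along an equivalence. -/
def map (F : CAR P) (e : P ≃ Q) : CAR Q where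
  ι := F.ι
  c := fun q => F.c (e.symm q)
  Z := F.Z
  Ω := F.Ω
  cc := fun p q => F.cc _ _
  ccs_self := fun p => F.ccs_self _
  ccs_ne := fun p q h => F.ccs_ne _ _ (fun h' => h (e.symm.injective h'))
  Zc := fun p => F.Zc _
  ZZ := F.ZZ
  ZH := F.ZH
  ZΩ := F.ZΩ
  cΩ := fun p => F.cΩ _
  Ωne := F.Ωne
  vac := fun x hx => F.vac x fun p => by simpa using hx (e p)

/-- No fermion. -/
def empty (P : Type) [IsEmpty P] : CAR P where
  ι := Unit
  c := fun p => isEmptyElim p
  Z := 1
  Ω := 1
  cc := fun p => isEmptyElim p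
  ccs_self := fun p => isEmptyElim p
  ccs_ne := fun p => isEmptyElim p
  Zc := fun p => isEmptyElim p
  ZZ := by simp
  ZH := by simp
  ZΩ := by simp
  cΩ := fun p => isEmptyElim p
  Ωne := by
    intro h
    have := congrFun h ()
    simp at this
  vac := fun x _ => ⟨x (), by funext i; simp⟩

/-- One fermion. -/
def one : CAR Unit where
  ι := Fin 2
  c := fun _ => !![0, 1; 0, 0]
  Z := !![1, 0; 0, -1]
  Ω := ![1, 0]
  cc := fun _ _ => by
    ext i j; fin_cases i <;> fin_cases j <;> simp [Matrix.mul_apply, Fin.sum_univ_two]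
  ccs_self := fun _ => by
    have h : (!![0, 1; 0, 0] : Matrix (Fin 2) (Fin 2) ℂ)ᴴ = !![0, 0; 1, 0] := by
      ext i j; fin_cases i <;> fin_cases j <;> simp [Matrix.conjTranspose_apply]
    rw [h]
    ext i j; fin_cases i <;> fin_cases j <;>
      simp [Matrix.mul_apply, Fin.sum_univ_two]
  ccs_ne := fun _ _ h => absurd rfl h
  Zc := fun _ => by
    ext i j; fin_cases i <;> fin_cases j <;> simp [Matrix.mul_apply, Fin.sum_univ_two]
  ZZ := by
    ext i j; fin_cases i <;> fin_cases j <;> simp [Matrix.mul_apply, Fin.sum_univ_two]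
  ZH := by
    ext i j; fin_cases i <;> fin_cases j <;> simp [Matrix.conjTranspose_apply]
  ZΩ := by
    funext i; fin_cases i <;> simp [Matrix.mulVec, dotProduct, Fin.sum_univ_two]
  cΩ := fun _ => by
    funext i; fin_cases i <;> simp [Matrix.mulVec, dotProduct, Fin.sum_univ_two]
  Ωne := by
    intro h
    have := congrFun h 0
    simp at this
  vac := fun x hx => by
    have h := congrFun (hx ()) 0
    simp [Matrix.mulVec, dotProduct, Fin.sum_univ_two] at h
    refine ⟨x 0, ?_⟩
    funext i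
    fin_cases i <;> simp [h]

theorem exists_car (P : Type) [Finite P] : Nonempty (CAR P) := by
  induction P using Finite.induction_empty_option with
  | of_equiv e h => exact h.map fun F => F.map e
  | h_empty => exact ⟨empty PEmpty⟩
  | h_option h => exact h.map fun F => (F.sum one).map (Equiv.optionEquivSumPUnit _).symm

end CAR

end Crest.Agent.R172.Sp
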