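import Crest.Agent.R172.SpCAR
import Crest.Agent.R172.StarDefs

/-!
R172, spinor translation, part 2: the Clifford module of `V ⊗ U`, `V = ℂ^{2n}` hyperbolic,
`U = ℂ^D` with the symmetric form `(u_d, u_e) = [e = σ d]`, and the spin action of `so(V)`.
-/

set_option autoImplicit false
set_option linter.unusedSectionVars false

namespace Crest.Agent.R172.Sp

open Matrix Crest.AlgebraR.SpinSaturation Crest.Agent.R172.SoGrade Crest.Agent.R172.Star

/-- the index set of the standard basis of `V` -/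
abbrev VI (n : ℕ) : Type := Fin n ⊕ Fin n

/-- a finite index set with an involution: orthogonal space `U = ℂ^D` -/
structure Inv (D : Type) where
  σ : D → D
  inv : ∀ d, σ (σ d) = d

variable {n : ℕ} {D : Type}

/-- Clifford generators -/
def gam (C : CAR (Fin n × D)) (s : Inv D) : VI n → D → Matrix C.ι C.ι ℂ
  | Sum.inl i, d => (C.c (i, d))ᴴ
  | Sum.inr i, d => C.c (i, s.σ d)

theorem gam_star (C : CAR (Fin n × D)) (s : Inv D) (p : VI n) (d : D) :
    (gam C s p d)ᴴ = gam C s (sw p) (s.σ d) := by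
  rcases p with i | i <;> simp [gam, s.inv]

theorem gam_rel [DecidableEq D] (C : CAR (Fin n × D)) (s : Inv D) (p q : VI n) (d e : D) :
    gam C s p d * gam C s q e + gam C s q e * gam C s p d =
      if q = sw p ∧ e = s.σ d then 1 else 0 := by
  rcases p with i | i <;> rcases q with j | j
  · simp only [gam, sw_inl, reduceCtorEq, false_and, if_false]
    exact C.cstar_cstar _ _
  · simp only [gam, sw_inl, Sum.inr.injEq]
    rw [add_comm]
    by_cases h : (j, s.σ e) = (i, d)
    · have h1 : j = i := (Prod.mk.inj h).1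
      have h2 : s.σ e = d := (Prod.mk.inj h).2
      have h3 : e = s.σ d := by rw [← h2, s.inv]
      rw [h, C.ccs_self, if_pos ⟨h1, h3⟩]
    · rw [C.ccs_ne _ _ h, if_neg]
      rintro ⟨h1, h2⟩
      exact h (by rw [h1, h2, s.inv])
  · simp only [gam, sw_inr, Sum.inl.injEq]
    by_cases h : (i, s.σ d) = (j, e)
    · have h1 : i = j := (Prod.mk.inj h).1
      have h2 : s.σ d = e := (Prod.mk.inj h).2
      rw [h, C.ccs_self, if_pos ⟨h1.symm, h2.symm⟩]
    · rw [C.ccs_ne _ _ h, if_neg]
      rintro ⟨h1, h2⟩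
      exact h (by rw [h1, h2])
  · simp only [gam, sw_inr, reduceCtorEq, false_and, if_false]
    exact C.cc _ _

variable [Fintype D]

/-- Clifford multiplication by `F ∈ V ⊗ U = Mat(2n × D)`. -/
def Gam (C : CAR (Fin n × D)) (s : Inv D) (F : Matrix (VI n) D ℂ) : Matrix C.ι C.ι ℂ :=
  ∑ p, ∑ d, F p d • gam C s p d

/-- the symmetric form on `V ⊗ U` -/
def bil (s : Inv D) (F G : Matrix (VI n) D ℂ) : ℂ := ∑ p, ∑ d, F p d * G (sw p) (s.σ d)

theorem Gam_add (C : CAR (Fin n × D)) (s : Inv D) (F G : Matrix (VI n) D ℂ) :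
    Gam C s (F + G) = Gam C s F + Gam C s G := by
  simp only [Gam, Matrix.add_apply, add_smul, Finset.sum_add_distrib]

theorem Gam_smul (C : CAR (Fin n × D)) (s : Inv D) (t : ℂ) (F : Matrix (VI n) D ℂ) :
    Gam C s (t • F) = t • Gam C s F := by
  simp only [Gam, Matrix.smul_apply, Finset.smul_sum, smul_smul, smul_eq_mul]

theorem Gam_zero (C : CAR (Fin n × D)) (s : Inv D) : Gam C s (0 : Matrix (VI n) D ℂ) = 0 := by
  simp [Gam]

theorem Gam_single [DecidableEq D] (C : CAR (Fin n × D)) (s : Inv D) (p : VI n) (d : D) :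
    Gam C s (Matrix.single p d 1) = gam C s p d := by
  rw [Gam, Finset.sum_eq_single p, Finset.sum_eq_single d]
  · simp
  · intro b _ hb
    rw [Matrix.single_apply_of_ne _ _ _ _ _ (by rintro ⟨_, h⟩; exact hb h.symm), zero_smul]
  · simp
  · intro b _ hb
    refine Finset.sum_eq_zero fun e _ => ?_
    rw [Matrix.single_apply_of_ne _ _ _ _ _ (by rintro ⟨h, _⟩; exact hb h.symm), zero_smul]
  · simp

theorem sum4 {M A B : Type} [Fintype A] [Fintype B] [AddCommMonoid M] (f : A → B → A → B → M) :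
    ∑ q, ∑ e, ∑ p, ∑ d, f q e p d = ∑ p, ∑ d, ∑ q, ∑ e, f q e p d := by
  have h1 : ∑ q, ∑ e, ∑ p, ∑ d, f q e p d = ∑ x : A × B, ∑ y : A × B, f x.1 x.2 y.1 y.2 := by
    rw [Fintype.sum_prod_type]
    refine Finset.sum_congr rfl fun q _ => Finset.sum_congr rfl fun e _ => ?_
    rw [Fintype.sum_prod_type]
  have h2 : ∑ p, ∑ d, ∑ q, ∑ e, f q e p d = ∑ y : A × B, ∑ x : A × B, f x.1 x.2 y.1 y.2 := by
    rw [Fintype.sum_prod_type]
    refine Finset.sum_congr rfl fun q _ => Finset.sum_congr rfl fun e _ => ?_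
    rw [Fintype.sum_prod_type]
  rw [h1, h2, Finset.sum_comm]

theorem Gam_mul (C : CAR (Fin n × D)) (s : Inv D) (F G : Matrix (VI n) D ℂ) :
    Gam C s F * Gam C s G =
      ∑ p, ∑ d, ∑ q, ∑ e, (F p d * G q e) • (gam C s p d * gam C s q e) := by
  simp only [Gam, Finset.sum_mul]
  refine Finset.sum_congr rfl fun p _ => Finset.sum_congr rfl fun d _ => ?_
  simp only [Finset.mul_sum]
  refine Finset.sum_congr rfl fun q _ => Finset.sum_congr rfl fun e _ => ?_
  rw [smul_mul_smul_comm]

theorem Gam_rel (C : CAR (Fin n × D)) (s : Inv D) (F G : Matrix (VI n) D ℂ) :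
    Gam C s F * Gam C s G + Gam C s G * Gam C s F = bil s F G • 1 := by
  classical
  have h2 : Gam C s G * Gam C s F = ∑ p, ∑ d, ∑ q, ∑ e, (F p d * G q e) • (gam C s q e * gam C s p d) := by
    rw [Gam_mul, sum4]
    refine Finset.sum_congr rfl fun p _ => Finset.sum_congr rfl fun d _ =>
      Finset.sum_congr rfl fun q _ => Finset.sum_congr rfl fun e _ => ?_
    rw [mul_comm (G q e)]
  rw [Gam_mul, h2, ← Finset.sum_add_distrib]
  simp only [← Finset.sum_add_distrib, ← smul_add, gam_rel, bil, Finset.sum_smul]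
  refine Finset.sum_congr rfl fun p _ => Finset.sum_congr rfl fun d _ => ?_
  rw [Finset.sum_eq_single (sw p), Finset.sum_eq_single (s.σ d)]
  · simp
  · intro e _ he
    rw [if_neg (fun h => he h.2), smul_zero]
  · simp
  · intro q _ hq
    refine Finset.sum_eq_zero fun e _ => ?_
    rw [if_neg (fun h => hq h.1), smul_zero]
  · simp

/-- the entrywise "real structure" -/
def cst (s : Inv D) (F : Matrix (VI n) D ℂ) : Matrix (VI n) D ℂ :=
  fun p d => star (F (sw p) (s.σ d))

theorem cst_cst (s : Inv D) (F : Matrix (VI n) D ℂ) : cst s (cst s F) = F := by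
  ext p d
  simp [cst, s.inv]

theorem sum_sw {M : Type} [AddCommMonoid M] (f : VI n → M) : ∑ p, f (sw p) = ∑ p, f p :=
  (Equiv.sumComm (Fin n) (Fin n)).sum_comp f

/-- the involution as an equivalence -/
def Inv.equiv (s : Inv D) : D ≃ D := ⟨s.σ, s.σ, s.inv, s.inv⟩

theorem sum_σ {M : Type} [AddCommMonoid M] (s : Inv D) (f : D → M) :
    ∑ d, f (s.σ d) = ∑ d, f d := s.equiv.sum_comp f

theorem Gam_star (C : CAR (Fin n × D)) (s : Inv D) (F : Matrix (VI n) D ℂ) :
    (Gam C s F)ᴴ = Gam C s (cst s F) := by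
  rw [Gam, Matrix.conjTranspose_sum, Gam, ← sum_sw]
  refine Finset.sum_congr rfl fun p _ => ?_
  rw [Matrix.conjTranspose_sum, ← sum_σ s]
  refine Finset.sum_congr rfl fun d _ => ?_
  rw [Matrix.conjTranspose_smul, gam_star, cst]
  simp [s.inv]

/-! ### The action of `so(V)` -/

/-- the spin action (as a matrix) of an arbitrary matrix `X` -/
noncomputable def rho (C : CAR (Fin n × D)) (s : Inv D) (X : Matrix (VI n) (VI n) ℂ) :
    Matrix C.ι C.ι ℂ :=
  (1 / 2 : ℂ) • ∑ d, ∑ p, ∑ q, X q p • (gam C s q d * gam C s (sw p) (s.σ d))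

theorem rho_add (C : CAR (Fin n × D)) (s : Inv D) (X Y : Matrix (VI n) (VI n) ℂ) :
    rho C s (X + Y) = rho C s X + rho C s Y := by
  simp only [rho, Matrix.add_apply, add_smul, Finset.sum_add_distrib, smul_add]

theorem rho_smul (C : CAR (Fin n × D)) (s : Inv D) (t : ℂ) (X : Matrix (VI n) (VI n) ℂ) :
    rho C s (t • X) = t • rho C s X := by
  simp only [rho, Matrix.smul_apply, smul_eq_mul, mul_smul, ← Finset.smul_sum]
  rw [smul_comm]

theorem rho_star (C : CAR (Fin n × D)) (s : Inv D) (X : Matrix (VI n) (VI n) ℂ) :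
    (rho C s X)ᴴ = rho C s Xᴴ := by
  simp only [rho, Matrix.conjTranspose_smul, Matrix.conjTranspose_sum, Matrix.conjTranspose_mul,
    gam_star, sw_sw, s.inv]
  congr 1
  · simp
  · refine Finset.sum_congr rfl fun d _ => ?_
    rw [Finset.sum_comm]
    refine Finset.sum_congr rfl fun p _ => Finset.sum_congr rfl fun q _ => ?_
    rw [Matrix.conjTranspose_apply]

theorem comm_aux {ι : Type} [Fintype ι] [DecidableEq ι] (A B E : Matrix ι ι ℂ) :
    A * B * E - E * (A * B) = A * (B * E + E * B) - (A * E + E * A) * B := by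
  noncomm_ring

theorem rho_gam (C : CAR (Fin n × D)) (s : Inv D) {X : Matrix (VI n) (VI n) ℂ}
    (hX : X ∈ LieAlgebra.Orthogonal.typeD (Fin n) ℂ) (r : VI n) (e : D) :
    rho C s X * gam C s r e - gam C s r e * rho C s X = ∑ q, X q r • gam C s q e := by
  classical
  have hX' := mem_soD.1 hX
  simp only [rho, smul_mul_assoc, mul_smul_comm, Finset.sum_mul, Finset.mul_sum]
  rw [← smul_sub]
  simp only [← Finset.sum_sub_distrib, ← smul_sub, comm_aux, gam_rel, sw_sw, s.inv]
  have h1 : ∀ d, ∀ p q : VI n,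
      X q p • (gam C s q d * (if r = p ∧ e = d then (1 : Matrix C.ι C.ι ℂ) else 0) -
        (if r = sw q ∧ e = s.σ d then 1 else 0) * gam C s (sw p) (s.σ d)) =
      (if d = e then (if p = r then X q r • gam C s q e else 0) else 0) -
      (if d = s.σ e then (if q = sw r then X (sw r) p • gam C s (sw p) e else 0) else 0) := by
    intro d p q
    rw [smul_sub]
    congr 1
    · by_cases h : r = p ∧ e = d
      · rw [if_pos h, if_pos h.2.symm, if_pos h.1.symm, mul_one, h.1, h.2]
      · rw [if_neg h]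
        split_ifs with h1 h2
        · exact absurd ⟨h2.symm, h1.symm⟩ h
        · simp
        · simp
    · by_cases h : r = sw q ∧ e = s.σ d
      · have h1 : d = s.σ e := by rw [h.2, s.inv]
        have h2 : q = sw r := by rw [h.1, sw_sw]
        rw [if_pos h, if_pos h1, if_pos h2, one_mul, ← h2, h.2]
      · rw [if_neg h]
        split_ifs with h1 h2
        · exact absurd ⟨by rw [h2, sw_sw], by rw [h1, s.inv]⟩ h
        · simp
        · simp
  simp only [h1, Finset.sum_sub_distrib]
  simp only [Finset.sum_ite_irrel, Finset.sum_const_zero, Finset.sum_ite_eq', Finset.mem_univ,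
    if_true]
  have h3 : ∑ p, X (sw r) p • gam C s (sw p) e = - ∑ q, X q r • gam C s q e := by
    rw [← sum_sw (fun q => X q r • gam C s q e), ← Finset.sum_neg_distrib]
    refine Finset.sum_congr rfl fun p _ => ?_
    rw [hX' (sw r) p, sw_sw, neg_smul]
  rw [h3, sub_neg_eq_add, ← two_smul ℂ, smul_smul]
  norm_num

theorem rho_Gam (C : CAR (Fin n × D)) (s : Inv D) {X : Matrix (VI n) (VI n) ℂ}
    (hX : X ∈ LieAlgebra.Orthogonal.typeD (Fin n) ℂ) (F : Matrix (VI n) D ℂ) :
    rho C s X * Gam C s F - Gam C s F * rho C s X = Gam C s (X * F) := by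
  simp only [Gam, Finset.mul_sum, Finset.sum_mul, mul_smul_comm, smul_mul_assoc,
    ← Finset.sum_sub_distrib, ← smul_sub, rho_gam C s hX]
  simp only [Matrix.mul_apply, Finset.sum_smul, Finset.smul_sum, smul_smul]
  rw [Finset.sum_comm]
  rw [Finset.sum_comm (s := Finset.univ (α := VI n)) (t := Finset.univ (α := D))]
  refine Finset.sum_congr rfl fun d _ => ?_
  rw [Finset.sum_comm]
  refine Finset.sum_congr rfl fun p _ => Finset.sum_congr rfl fun q _ => ?_
  rw [mul_comm]

theorem rho_lie (C : CAR (Fin n × D)) (s : Inv D) {X Y : Matrix (VI n) (VI n) ℂ}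
    (hX : X ∈ LieAlgebra.Orthogonal.typeD (Fin n) ℂ) :
    rho C s (X * Y - Y * X) = rho C s X * rho C s Y - rho C s Y * rho C s X := by
  have hX' := mem_soD.1 hX
  have hcomm : ∀ (A B : Matrix C.ι C.ι ℂ), rho C s X * (A * B) - A * B * rho C s X =
      (rho C s X * A - A * rho C s X) * B + A * (rho C s X * B - B * rho C s X) := by
    intro A B; noncomm_ring
  have h1 : rho C s X * rho C s Y - rho C s Y * rho C s X =
      (1 / 2 : ℂ) • ∑ d, ∑ p, ∑ q, Y q p •
        ((∑ r, X r q • gam C s r d) * gam C s (sw p) (s.σ d) +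
          gam C s q d * (∑ r, X r (sw p) • gam C s r (s.σ d))) := by
    conv_lhs => rw [show rho C s Y = (1 / 2 : ℂ) • ∑ d, ∑ p, ∑ q,
      Y q p • (gam C s q d * gam C s (sw p) (s.σ d)) from rfl]
    rw [mul_smul_comm, smul_mul_assoc, ← smul_sub]
    simp only [Finset.mul_sum, Finset.sum_mul, mul_smul_comm, smul_mul_assoc,
      ← Finset.sum_sub_distrib, ← smul_sub, hcomm, rho_gam C s hX]
  rw [h1, rho]
  congr 1
  refine Finset.sum_congr rfl fun d _ => ?_
  simp only [Matrix.sub_apply, Matrix.mul_apply, sub_smul, Finset.sum_sub_distrib, smul_add,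
    Finset.sum_add_distrib]
  rw [sub_eq_add_neg]
  congr 1
  · refine Finset.sum_congr rfl fun p _ => ?_
    simp only [Finset.sum_smul, Finset.sum_mul, Finset.smul_sum, smul_mul_assoc, smul_smul]
    rw [Finset.sum_comm]
    refine Finset.sum_congr rfl fun q _ => Finset.sum_congr rfl fun r _ => ?_
    rw [mul_comm]
  · simp only [Finset.sum_smul, Finset.mul_sum, Finset.smul_sum, mul_smul_comm, smul_smul]
    rw [← Finset.sum_neg_distrib]
    -- LHS: - ∑ p, ∑ q, ∑ r, (Y q r * X r p) • γ q γ (sw p)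
    -- RHS: ∑ p, ∑ q, ∑ r, (Y q p * X r (sw p)) • γ q γ r
    have e1 : ∀ p q : VI n, ∑ r, (Y q p * X r (sw p)) • (gam C s q d * gam C s r (s.σ d)) =
        ∑ r, -((Y q p * X p r) • (gam C s q d * gam C s (sw r) (s.σ d))) := by
      intro p q
      rw [← sum_sw]
      refine Finset.sum_congr rfl fun r _ => ?_
      rw [hX' (sw r) (sw p), sw_sw, sw_sw, mul_neg, neg_smul]
    simp only [e1]
    simp only [← Finset.sum_neg_distrib]
    rw [Finset.sum_comm (s := Finset.univ (α := VI n)) (t := Finset.univ (α := VI n))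
      (f := fun p q => ∑ r, -((Y q p * X p r) • (gam C s q d * gam C s (sw r) (s.σ d))))]
    rw [Finset.sum_comm]
    refine Finset.sum_congr rfl fun q _ => ?_
    rw [Finset.sum_comm]

end Crest.Agent.R172.Sp
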