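import Crest.Agent.R172.TameEnd4
import Crest.Agent.R172.TameCount5

/-!
Row 172 (S0260), ending of the mixed tame case `(3,3,3)` on the symplectic side: Higgs count.
-/

set_option autoImplicit false
set_option linter.unusedSectionVars false

namespace Crest.Agent.R172.SPC

open Module LinearMap

variable {K : Type*} [Field K]
variable {V : Type*} [AddCommGroup V] [Module K V]

/-- the operators `X` with `w (X x) y = - w x (X y)` -/
def Sp (w : LinearMap.BilinForm K V) : Submodule K (End K V) where
  carrier := {X | ∀ x y, w (X x) y = - w x (X y)}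
  add_mem' := by
    intro a b ha hb v u
    rw [LinearMap.add_apply, LinearMap.add_apply, map_add, map_add, LinearMap.add_apply, ha, hb]
    ring
  zero_mem' := by intro v u; simp
  smul_mem' := by
    intro c a ha v u
    rw [LinearMap.smul_apply, LinearMap.smul_apply, map_smul, map_smul, LinearMap.smul_apply, ha]
    simp

variable {w : LinearMap.BilinForm K V}

theorem Sp.swap (hs : ∀ x y, w x y = - w y x) {X : End K V} (h : X ∈ Sp w) (x y : V) :
    w (X x) y = w (X y) x := by
  rw [hs (X y) x]; exact h x y

/-- the operator of `a ⊗ b + b ⊗ a` -/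
noncomputable def op (w : LinearMap.BilinForm K V) (a b : V) : End K V :=
  LinearMap.smulRight (w a) b + LinearMap.smulRight (w b) a

theorem op_apply (a b v : V) : op w a b v = w a v • b + w b v • a := rfl

theorem op_mem (hs : ∀ x y, w x y = - w y x) (a b : V) : op w a b ∈ Sp w := by
  intro x y
  rw [op_apply, op_apply, map_add, map_smul, map_smul, map_add, map_smul, map_smul,
    LinearMap.add_apply, LinearMap.smul_apply, LinearMap.smul_apply, hs x a, hs x b]
  simp only [smul_eq_mul]
  ring

theorem op_form (a b x y : V) : w (op w a b x) y = w a x * w b y + w b x * w a y := by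
  rw [op_apply, map_add, map_smul, map_smul, LinearMap.add_apply, LinearMap.smul_apply,
    LinearMap.smul_apply]
  simp only [smul_eq_mul]

section FD

variable [FiniteDimensional K V]

theorem trace_op (hs : ∀ x y, w x y = - w y x) {R : End K V} (hR : R ∈ Sp w) (a b : V) :
    trace K V (R * op w a b) = 2 * w a (R b) := by
  have h1 : R * op w a b = LinearMap.smulRight (w a) (R b) + LinearMap.smulRight (w b) (R a) := by
    ext v
    rw [Module.End.mul_apply, op_apply, map_add, map_smul, map_smul]
    rfl
  rw [h1, map_add, trace_smulRight, trace_smulRight]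
  have h2 : w b (R a) = w a (R b) := by
    rw [hs b (R a), hR a b]
    ring
  rw [h2]
  ring

/-- nondegeneracy of the trace form on `sp` -/
theorem eq_zero_of_trace [CharZero K] (hs : ∀ x y, w x y = - w y x)
    (hn : ∀ x, (∀ y, w x y = 0) → x = 0) {R : End K V} (hR : R ∈ Sp w)
    (h : ∀ Y ∈ Sp w, trace K V (R * Y) = 0) : R = 0 := by
  ext b
  rw [LinearMap.zero_apply]
  refine hn _ fun a => ?_
  have h1 := h _ (op_mem hs a b)
  rw [trace_op hs hR] at h1
  have h2 : w a (R b) = 0 := by simpa using h1
  rw [hs (R b) a, h2, neg_zero]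

theorem w_surj (hn : ∀ x, (∀ y, w x y = 0) → x = 0) (f : Module.Dual K V) : ∃ a, w a = f := by
  have hinj : Function.Injective (w : V →ₗ[K] V →ₗ[K] K) := by
    rw [← LinearMap.ker_eq_bot, LinearMap.ker_eq_bot']
    intro x hx
    refine hn x fun y => ?_
    rw [hx]; rfl
  have hsurj := (LinearMap.injective_iff_surjective_of_finrank_eq_finrank
    (f := (w : V →ₗ[K] Module.Dual K V)) (by rw [Subspace.dual_finrank_eq])).1 hinj
  exact hsurj f

theorem finrank_Sp [CharZero K] (hs : ∀ x y, w x y = - w y x)
    (hn : ∀ x, (∀ y, w x y = 0) → x = 0) {α : Type*} [Fintype α] [LinearOrder α]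
    (e : Basis α K V) : Fintype.card {p : α × α // p.1 ≤ p.2} ≤ finrank K (Sp w) := by
  classical
  choose d hd using fun i : α => w_surj hn (e.coord i)
  let L : ({p : α × α // p.1 ≤ p.2} → K) →ₗ[K] Sp w :=
    { toFun := fun c => ∑ p, c p • ⟨op w (d p.1.1) (d p.1.2), op_mem hs _ _⟩
      map_add' := by
        intro c c'
        simp only [Pi.add_apply, add_smul, Finset.sum_add_distrib]
      map_smul' := by
        intro a c
        simp only [Pi.smul_apply, smul_eq_mul, RingHom.id_apply, Finset.smul_sum, mul_smul] }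
  have hL : ∀ c x y, w (((L c : Sp w) : End K V) x) y =
      ∑ p, c p * (e.coord p.1.1 x * e.coord p.1.2 y + e.coord p.1.2 x * e.coord p.1.1 y) := by
    intro c x y
    change w (((∑ p, c p • ⟨op w (d p.1.1) (d p.1.2), op_mem hs _ _⟩ : Sp w) :
      End K V) x) y = _
    simp only [Submodule.coe_sum, Submodule.coe_smul, LinearMap.sum_apply, LinearMap.smul_apply,
      map_sum, map_smul, smul_eq_mul, op_form, hd]
  have hinj : Function.Injective L := by
    rw [← LinearMap.ker_eq_bot, LinearMap.ker_eq_bot']
    intro c hc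
    funext p
    have h1 := hL c (e p.1.1) (e p.1.2)
    rw [hc] at h1
    rw [Finset.sum_eq_single p] at h1
    · simp only [Basis.coord_apply, Basis.repr_self, Finsupp.single_eq_same] at h1
      rcases eq_or_lt_of_le p.2 with h | h
      · have h1' : (0 : K) = c p * (1 + 1) := by
          simpa [Finsupp.single_apply, h] using h1
        have h2 : (2 : K) * c p = 0 := by linear_combination -h1'
        simpa using h2
      · rw [Finsupp.single_apply, if_neg (ne_of_lt h)] at h1
        simpa using h1.symm
    · intro q _ hq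
      simp only [Basis.coord_apply, Basis.repr_self, Finsupp.single_apply]
      have : ¬ (p.1.1 = q.1.1 ∧ p.1.2 = q.1.2) := by
        rintro ⟨h1, h2⟩
        exact hq (Subtype.ext (Prod.ext h1.symm h2.symm))
      have h3 : ¬ (p.1.1 = q.1.2 ∧ p.1.2 = q.1.1) := by
        rintro ⟨h1, h2⟩
        have ha := p.2
        have hb := q.2
        rw [h1, h2] at ha
        have hab := le_antisymm ha hb
        exact this ⟨by rw [h1, hab], by rw [h2, ← hab]⟩
      by_cases ha : p.1.1 = q.1.1
      · have hb : p.1.2 ≠ q.1.2 := fun h => this ⟨ha, h⟩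
        by_cases hc : p.1.1 = q.1.2
        · have hd : p.1.2 ≠ q.1.1 := fun h => h3 ⟨hc, h⟩
          simp [hb, hd]
        · simp [hb, hc]
      · by_cases hc : p.1.1 = q.1.2
        · have hd : p.1.2 ≠ q.1.1 := fun h => h3 ⟨hc, h⟩
          simp [ha, hd]
        · simp [ha, hc]
    · intro h
      exact absurd (Finset.mem_univ _) h
  have := LinearMap.finrank_le_finrank_of_injective hinj
  rwa [Module.finrank_fintype_fun_eq_card] at this

theorem card_le_pairs (N : ℕ) :
    2 * Fintype.card {p : Fin N × Fin N // p.1 ≤ p.2} = N * (N + 1) := by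
  classical
  rw [Fintype.card_subtype]
  have h2 : (Finset.univ.filter fun p : Fin N × Fin N => p.1 ≤ p.2).card =
      ∑ j : Fin N, (Finset.univ.filter fun i : Fin N => i ≤ j).card := by
    rw [Finset.card_filter, Fintype.sum_prod_type_right]
    refine Finset.sum_congr rfl fun j _ => ?_
    rw [Finset.card_filter]
  have h3 : ∀ j : Fin N, (Finset.univ.filter fun i : Fin N => i ≤ j).card = (j : ℕ) + 1 := by
    intro j
    have : (Finset.univ.filter fun i : Fin N => i ≤ j) = Finset.Iic j := by
      ext i
      simp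
    rw [this, Fin.card_Iic]
  rw [h2]
  simp only [h3]
  rw [Fin.sum_univ_eq_sum_range (fun i => i + 1) N]
  clear h2 h3
  induction N with
  | zero => simp
  | succ n ih => rw [Finset.sum_range_succ, mul_add, ih]; ring

/-- operators of `sp` with `w (X P) P' = 0` -/
def Sv (w : LinearMap.BilinForm K V) (P P' : Submodule K V) : Submodule K (Sp w) where
  carrier := {X | ∀ x ∈ P, ∀ y ∈ P', w ((X : End K V) x) y = 0}
  add_mem' := by
    rintro a b ha hb x hx y hy
    rw [Submodule.coe_add, LinearMap.add_apply, map_add, LinearMap.add_apply, ha x hx y hy,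
      hb x hx y hy, add_zero]
  zero_mem' := fun x _ y _ => by simp
  smul_mem' := by
    rintro c a ha x hx y hy
    rw [Submodule.coe_smul, LinearMap.smul_apply, map_smul, LinearMap.smul_apply, ha x hx y hy,
      smul_zero]

/-- codimension of `Sv` -/
theorem codim_Sv (hs : ∀ x y, w x y = - w y x) {P P' : Submodule K V} {m : ℕ}
    (hV : finrank K V = 3 * m) (hP : finrank K P = m) (hP' : finrank K P' = 2 * m)
    (hle : P ≤ P') :
    2 * (finrank K (Sp w) - finrank K (Sv w P P')) ≤ 3 * m ^ 2 + m := by
  classical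
  obtain ⟨b, hb1, hb2⟩ := TE.exists_adapted hV hP hP' hle
  let T := {p : Fin m × Fin m // p.1 ≤ p.2} ⊕ (Fin m × Fin m)
  let L : Sp w →ₗ[K] (T → K) :=
    { toFun := fun X t => Sum.elim
        (fun p : {p : Fin m × Fin m // p.1 ≤ p.2} =>
          w ((X : End K V) (b (Sum.inl p.1.1))) (b (Sum.inl p.1.2)))
        (fun p : Fin m × Fin m =>
          w ((X : End K V) (b (Sum.inl p.1))) (b (Sum.inr (Sum.inl p.2)))) t
      map_add' := by
        intro a c
        funext t
        rcases t with t | t <;> simp
      map_smul' := by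
        intro a c
        funext t
        rcases t with t | t <;> simp }
  have hker : LinearMap.ker L ≤ Sv w P P' := by
    intro X hω
    rw [LinearMap.mem_ker] at hω
    have h1 : ∀ i j : Fin m, i ≤ j →
        w ((X : End K V) (b (Sum.inl i))) (b (Sum.inl j)) = 0 := fun i j hij =>
      congrFun hω (Sum.inl ⟨(i, j), hij⟩)
    have h2 : ∀ i j : Fin m,
        w ((X : End K V) (b (Sum.inl i))) (b (Sum.inr (Sum.inl j))) = 0 := fun i j =>
      congrFun hω (Sum.inr (i, j))
    have h3 : ∀ i j : Fin m,
        w ((X : End K V) (b (Sum.inl i))) (b (Sum.inl j)) = 0 := by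
      intro i j
      rcases le_total i j with h | h
      · exact h1 i j h
      · rw [Sp.swap hs X.2, h1 j i h]
    intro x hx y hy
    change w ((X : End K V) x) y = 0
    -- `y`
    have hyb : ∀ i : Fin m, w ((X : End K V) (b (Sum.inl i))) y = 0 := by
      intro i
      rw [hb2] at hy
      obtain ⟨y1, hy1, y2, hy2, rfl⟩ := Submodule.mem_sup.1 hy
      rw [map_add]
      have e1 : w ((X : End K V) (b (Sum.inl i))) y1 = 0 := by
        have hle : Submodule.span K (Set.range fun i => b (Sum.inl i)) ≤
            LinearMap.ker (w ((X : End K V) (b (Sum.inl i)))) := by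
          rw [Submodule.span_le]
          rintro _ ⟨j, rfl⟩
          exact h3 i j
        exact hle hy1
      have e2 : w ((X : End K V) (b (Sum.inl i))) y2 = 0 := by
        have hle : Submodule.span K (Set.range fun i => b (Sum.inr (Sum.inl i))) ≤
            LinearMap.ker (w ((X : End K V) (b (Sum.inl i)))) := by
          rw [Submodule.span_le]
          rintro _ ⟨j, rfl⟩
          exact h2 i j
        exact hle hy2
      rw [e1, e2, add_zero]
    have hle : P ≤ LinearMap.ker (w.flip y ∘ₗ (X : End K V)) := by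
      rw [hb1, Submodule.span_le]
      rintro _ ⟨i, rfl⟩
      exact hyb i
    exact hle hx
  have h1 := LinearMap.finrank_range_add_finrank_ker L
  have h2 : finrank K (LinearMap.range L) ≤ Fintype.card T := by
    have := Submodule.finrank_le (LinearMap.range L)
    rwa [Module.finrank_fintype_fun_eq_card] at this
  have h3 := Submodule.finrank_mono hker
  have h4 : 2 * Fintype.card T = 3 * m ^ 2 + m := by
    have h5 : Fintype.card T = Fintype.card {p : Fin m × Fin m // p.1 ≤ p.2} + m * m := by
      rw [Fintype.card_sum, Fintype.card_prod, Fintype.card_fin]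
    have h6 := card_le_pairs m
    rw [h5, mul_add, h6]
    ring
  omega

/-- relations among vectors of three subspaces -/
theorem rel0 {E : Type*} [AddCommGroup E] [Module K E] [FiniteDimensional K E]
    (D : Fin 3 → Submodule K E)
    {G : Type*} [AddCommGroup G] [Module K G] [FiniteDimensional K G]
    (Λ : Fin 3 → G →ₗ[K] E) (hΛ : ∀ s g, Λ s g ∈ D s)
    (h0 : ∀ g, ∑ s, Λ s g = 0) (hinj : ∀ g, (∀ s, Λ s g = 0) → g = 0) :
    finrank K G + finrank K (⨆ s, D s : Submodule K E) ≤ ∑ s, finrank K (D s) := by
  classical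
  let σ : ((s : Fin 3) → D s) →ₗ[K] E :=
    { toFun := fun c => ∑ s, (c s : E)
      map_add' := by
        intro a b
        simp only [Pi.add_apply, Submodule.coe_add, Finset.sum_add_distrib]
      map_smul' := by
        intro a b
        simp only [Pi.smul_apply, Submodule.coe_smul, RingHom.id_apply, Finset.smul_sum] }
  have h1 := LinearMap.finrank_range_add_finrank_ker σ
  have h2 : finrank K ((s : Fin 3) → D s) = ∑ s, finrank K (D s) :=
    Module.finrank_pi_fintype (R := K) (M := fun s => D s)
  have h3 : finrank K G ≤ finrank K (LinearMap.ker σ) := by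
    let τ : G →ₗ[K] LinearMap.ker σ :=
      { toFun := fun g => ⟨fun s => ⟨Λ s g, hΛ s g⟩, by
          rw [LinearMap.mem_ker]; exact h0 g⟩
        map_add' := by
          intro a b
          apply Subtype.ext
          funext s
          apply Subtype.ext
          simp
        map_smul' := by
          intro a b
          apply Subtype.ext
          funext s
          apply Subtype.ext
          simp }
    refine LinearMap.finrank_le_finrank_of_injective (f := τ) ?_
    rw [← LinearMap.ker_eq_bot, LinearMap.ker_eq_bot']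
    intro g hg
    refine hinj g fun s => ?_
    have := congrFun (congrArg Subtype.val hg) s
    exact congrArg Subtype.val this
  have h4 : (⨆ s, D s : Submodule K E) ≤ LinearMap.range σ := by
    refine iSup_le fun s => ?_
    intro f hf
    refine ⟨Pi.single s ⟨f, hf⟩, ?_⟩
    change ∑ t, ((Pi.single s ⟨f, hf⟩ : (s : Fin 3) → D s) t : E) = f
    rw [Finset.sum_eq_single s]
    · rw [Pi.single_eq_same]
    · intro t _ ht
      rw [Pi.single_eq_of_ne ht]
      rfl
    · intro h
      exact absurd (Finset.mem_univ _) h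
  have h5 := Submodule.finrank_mono h4
  omega

theorem finrank_prod_self {E : Type*} [AddCommGroup E] [Module K E] [FiniteDimensional K E] :
    finrank K (E × K) = finrank K E + 1 := by
  rw [Module.finrank_prod, Module.finrank_self]

/-- relations in a square system -/
theorem rel {F : Type*} [AddCommGroup F] [Module K F] [FiniteDimensional K F]
    (A : Fin 3 → Submodule K F) (hc : ∑ s, (finrank K F - finrank K (A s)) ≤ finrank K F)
    {G : Type*} [AddCommGroup G] [Module K G] [FiniteDimensional K G]
    (Λ : Fin 3 → G →ₗ[K] Module.Dual K F) (hΛ : ∀ s g, Λ s g ∈ (A s).dualAnnihilator)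
    (h0 : ∀ g, ∑ s, Λ s g = 0) (hinj : ∀ g, (∀ s, Λ s g = 0) → g = 0) :
    finrank K G ≤ finrank K (⨅ s, A s : Submodule K F) := by
  have h1 := rel0 (fun s => (A s).dualAnnihilator) Λ hΛ h0 hinj
  have h2 : ∑ s, finrank K ((A s).dualAnnihilator) =
      ∑ s, (finrank K F - finrank K (A s)) := by
    refine Finset.sum_congr rfl fun s _ => ?_
    have := Subspace.finrank_add_finrank_dualAnnihilator_eq (A s)
    omega
  have h4 := Subspace.dualAnnihilator_iInf_eq A
  have h6 := Subspace.finrank_add_finrank_dualAnnihilator_eq (⨅ s, A s : Submodule K F)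
  rw [h4] at h6
  omega

/-- three steps down make a nilpotent -/
theorem trace_zero_of_steps {P P' : Submodule K V} {N : End K V} (h0 : ∀ x, N x ∈ P')
    (h1 : ∀ x ∈ P', N x ∈ P) (h2 : ∀ x ∈ P, N x = 0) : trace K V N = 0 := by
  have hN : IsNilpotent N := ⟨3, by
    ext x
    have : (N ^ 3) x = N (N (N x)) := by
      rw [show (3 : ℕ) = 1 + 1 + 1 from rfl, pow_add, pow_add, pow_one]
      rfl
    rw [this, h2 _ (h1 _ (h0 x))]
    rfl⟩
  exact (LinearMap.isNilpotent_trace_of_isNilpotent hN).eq_zero

/-- **Higgs count, type `(3,3,3)`, symplectic side.** -/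
theorem false_333 [CharZero K] (hs : ∀ x y, w x y = - w y x)
    (hn : ∀ x, (∀ y, w x y = 0) → x = 0) (Φ : Fin 3 → End K V)
    (hsp : ∀ s x y, w (Φ s x) y = - w x (Φ s y)) (h3 : ∀ s, Φ s ^ 3 = 0)
    (hfree : ∀ s, 3 * finrank K (ker (Φ s)) = finrank K V) (hsum : ∑ s, Φ s = 0)
    (htop : (⨆ s, range (Φ s)) = ⊤) (hV : 0 < finrank K V)
    (hanti : ∀ X : End K V, (∀ x y, w (X x) y = - w x (X y)) →
      (∀ (s : Fin 3) (j : ℕ), ∀ x ∈ range (Φ s ^ j), X x ∈ range (Φ s ^ j)) →
      ∀ s, Φ s * X = - (X * Φ s)) : False := by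
  classical
  -- dimensions
  have d1 : ∀ s, finrank K (range (Φ s ^ 2)) = finrank K V / 3 := by
    intro s
    have e1 := TC.ker_eq_range (h3 s) (hfree s) (v := 1) (by omega)
    rw [pow_one] at e1
    have e2 := hfree s
    rw [e1] at e2
    have : (3 - 1 : ℕ) = 2 := rfl
    rw [this] at e2
    omega
  have d2 : ∀ s, finrank K (range (Φ s)) = 2 * (finrank K V / 3) := by
    intro s
    have e1 := LinearMap.finrank_range_add_finrank_ker (Φ s)
    have e2 := hfree s
    omega
  have d3 : finrank K V = 3 * (finrank K V / 3) := by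
    have := hfree 0
    omega
  have kr1 : ∀ s, ker (Φ s) = range (Φ s ^ 2) := by
    intro s
    have e1 := TC.ker_eq_range (h3 s) (hfree s) (v := 1) (by omega)
    rwa [pow_one] at e1
  have kr2 : ∀ s, ker (Φ s ^ 2) = range (Φ s) := by
    intro s
    have e1 := TC.ker_eq_range (h3 s) (hfree s) (v := 2) (by omega)
    rwa [show (3 - 2 : ℕ) = 1 from rfl, pow_one] at e1
  have hle : ∀ s, range (Φ s ^ 2) ≤ range (Φ s) := by
    rintro s _ ⟨x, rfl⟩
    exact ⟨Φ s x, by rw [pow_two]; rfl⟩
  have hsp2 : ∀ s x y, w ((Φ s ^ 2) x) y = w x ((Φ s ^ 2) y) := by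
    intro s x y
    rw [pow_two, Module.End.mul_apply, Module.End.mul_apply, hsp, hsp, neg_neg]
  set m := finrank K V / 3 with hm
  let A : Fin 3 → Submodule K (Sp w) := fun s => Sv w (range (Φ s ^ 2)) (range (Φ s))
  have hcod : ∀ s, 2 * (finrank K (Sp w) - finrank K (A s)) ≤ 3 * m ^ 2 + m := fun s =>
    codim_Sv hs d3 (d1 s) (d2 s) (hle s)
  have hSp : 9 * m ^ 2 + 3 * m ≤ 2 * finrank K (Sp w) := by
    have h5 := finrank_Sp hs hn (Module.finBasisOfFinrankEq K V d3)
    have h6 := card_le_pairs (3 * m)
    have h7 : 3 * m * (3 * m + 1) = 9 * m ^ 2 + 3 * m := by ring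
    omega
  have hc : ∑ s, (finrank K (Sp w) - finrank K (A s)) ≤ finrank K (Sp w) := by
    rw [Fin.sum_univ_three]
    have a0 := hcod 0
    have a1 := hcod 1
    have a2 := hcod 2
    omega
  -- preservation
  have pres2 : ∀ s (X : Sp w), X ∈ A s → ∀ x ∈ range (Φ s ^ 2),
      (X : End K V) x ∈ range (Φ s ^ 2) := by
    intro s X hX x hx
    rw [← kr1, LinearMap.mem_ker]
    refine hn _ fun y => ?_
    rw [hsp, hX x hx _ ⟨y, rfl⟩, neg_zero]
  have pres1 : ∀ s (X : Sp w), X ∈ A s → ∀ x ∈ range (Φ s),
      (X : End K V) x ∈ range (Φ s) := by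
    intro s X hX x hx
    rw [← kr2, LinearMap.mem_ker]
    refine hn _ fun y => ?_
    rw [hsp2, Sp.swap hs X.2, hX _ ⟨y, rfl⟩ x hx]
  have presj : ∀ (X : Sp w), (∀ s, X ∈ A s) → ∀ (s : Fin 3) (j : ℕ), ∀ x ∈ range (Φ s ^ j),
      (X : End K V) x ∈ range (Φ s ^ j) := by
    intro X hX s j x hx
    rcases Nat.lt_or_ge j 3 with hj | hj
    · interval_cases j
      · rw [pow_zero]; exact ⟨(X : End K V) x, rfl⟩
      · rw [pow_one] at hx ⊢
        exact pres1 s X (hX s) x hx
      · exact pres2 s X (hX s) x hx
    · have h0 : Φ s ^ j = 0 := by rw [← Nat.sub_add_cancel hj, pow_add, h3, mul_zero]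
      obtain ⟨x', rfl⟩ := hx
      rw [h0]
      simp
  have hmemA : ∀ X : (⨅ s, A s : Submodule K (Sp w)), ∀ s, (X : Sp w) ∈ A s := fun X s =>
    (Submodule.mem_iInf _).1 X.2 s
  have hX : ∀ (X : (⨅ s, A s : Submodule K (Sp w))) s,
      Φ s * ((X : Sp w) : End K V) = - (((X : Sp w) : End K V) * Φ s) := fun X s =>
    hanti _ (X : Sp w).2 (presj _ (hmemA X)) s
  -- the operators `(X + c) Φ_s`
  let Rop : Fin 3 → ((⨅ s, A s : Submodule K (Sp w)) × K) → End K V := fun s g =>
    (((g.1 : Sp w) : End K V) + g.2 • 1) * Φ s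
  have hRmem : ∀ s g, Rop s g ∈ Sp w := by
    intro s g x y
    have e1 : ∀ x, (((g.1 : Sp w) : End K V)) (Φ s x) =
        - Φ s ((((g.1 : Sp w) : End K V)) x) := by
      intro x
      have := congrArg (fun T : End K V => T x) (hX g.1 s)
      simp only [Module.End.mul_apply, LinearMap.neg_apply] at this
      rw [this, neg_neg]
    change w ((((g.1 : Sp w) : End K V) + g.2 • 1) (Φ s x)) y =
      - w x ((((g.1 : Sp w) : End K V) + g.2 • 1) (Φ s y))
    simp only [LinearMap.add_apply, LinearMap.smul_apply, Module.End.one_apply, map_add, map_smul]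
    rw [(g.1 : Sp w).2 (Φ s x) y, hsp, hsp, e1 y, map_neg]
    simp only [smul_eq_mul]
    ring
  let RL : Fin 3 → ((⨅ s, A s : Submodule K (Sp w)) × K) →ₗ[K] End K V := fun s =>
    (LinearMap.mulRight K (Φ s)) ∘ₗ
      (((Sp w).subtype ∘ₗ (⨅ s, A s : Submodule K (Sp w)).subtype).coprod
        (LinearMap.toSpanSingleton K (End K V) 1))
  have hRL : ∀ s g, RL s g = Rop s g := fun s g => rfl
  let T : End K V →ₗ[K] Module.Dual K (Sp w) :=
    { toFun := fun R => (trace K V) ∘ₗ (LinearMap.mulLeft K R) ∘ₗ (Sp w).subtype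
      map_add' := by
        intro a b
        ext Y
        change trace K V ((a + b) * (Y : End K V)) =
          trace K V (a * (Y : End K V)) + trace K V (b * (Y : End K V))
        rw [add_mul, map_add]
      map_smul' := by
        intro a b
        ext Y
        change trace K V ((a • b) * (Y : End K V)) = a • trace K V (b * (Y : End K V))
        rw [smul_mul_assoc, map_smul] }
  have hT : ∀ R (Y : Sp w), T R Y = trace K V (R * (Y : End K V)) := fun R Y => rfl
  have key := rel (G := (↥(⨅ s, A s) × K)) A hc (fun s => T ∘ₗ RL s) ?_ ?_ ?_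
  · have e := finrank_prod_self (K := K) (E := ↥(⨅ s, A s))
    omega
  · -- annihilators
    intro s g
    rw [Submodule.mem_dualAnnihilator]
    intro Y hY
    change T (RL s g) Y = 0
    rw [hT, hRL]
    have q0 : ∀ x, (((g.1 : Sp w) : End K V) + g.2 • 1) (Φ s x) ∈ range (Φ s) := by
      intro x
      rw [LinearMap.add_apply, LinearMap.smul_apply, Module.End.one_apply]
      exact Submodule.add_mem _ (pres1 s _ (hmemA g.1 s) _ ⟨x, rfl⟩)
        (Submodule.smul_mem _ _ ⟨x, rfl⟩)
    have q1 : ∀ x ∈ range (Φ s),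
        (((g.1 : Sp w) : End K V) + g.2 • 1) (Φ s x) ∈ range (Φ s ^ 2) := by
      rintro _ ⟨x, rfl⟩
      have hx : Φ s (Φ s x) ∈ range (Φ s ^ 2) := ⟨x, by rw [pow_two]; rfl⟩
      rw [LinearMap.add_apply, LinearMap.smul_apply, Module.End.one_apply]
      exact Submodule.add_mem _ (pres2 s _ (hmemA g.1 s) _ hx) (Submodule.smul_mem _ _ hx)
    have q2 : ∀ x ∈ range (Φ s ^ 2),
        (((g.1 : Sp w) : End K V) + g.2 • 1) (Φ s x) = 0 := by
      intro x hx
      rw [← kr1, LinearMap.mem_ker] at hx
      rw [hx, map_zero]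
    refine trace_zero_of_steps (P := range (Φ s ^ 2)) (P' := range (Φ s)) ?_ ?_ ?_
    · intro x
      exact q0 _
    · intro x hx
      exact q1 _ (pres1 s Y hY x hx)
    · intro x hx
      exact q2 _ (pres2 s Y hY x hx)
  · -- sum
    intro g
    have e1 : ∑ s, RL s g = 0 := by
      have : ∀ s, RL s g = (((g.1 : Sp w) : End K V) + g.2 • 1) * Φ s := fun s => rfl
      simp only [this]
      rw [← Finset.mul_sum, hsum, mul_zero]
    change ∑ s, T (RL s g) = 0
    rw [← map_sum, e1, map_zero]
  · -- injectivity
    intro g hg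
    have e1 : ∀ s, Rop s g = 0 := by
      intro s
      refine eq_zero_of_trace hs hn (hRmem s g) fun Y hY => ?_
      have := congrArg (fun f : Module.Dual K (Sp w) => f ⟨Y, hY⟩) (hg s)
      exact this
    have e2 : (((g.1 : Sp w) : End K V) + g.2 • 1) = 0 := by
      rw [← LinearMap.ker_eq_top, eq_top_iff, ← htop]
      refine iSup_le fun s => ?_
      rintro _ ⟨x, rfl⟩
      rw [LinearMap.mem_ker]
      exact congrArg (fun T : End K V => T x) (e1 s)
    have e3 : g.2 = 0 := by
      by_contra hc0
      have hV' : ∃ x : V, x ≠ 0 := by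
        have := Module.nontrivial_of_finrank_pos (R := K) hV
        exact exists_ne 0
      obtain ⟨x, hx⟩ := hV'
      apply hx
      refine hn x fun y => ?_
      have f1 : ∀ z, ((g.1 : Sp w) : End K V) z = - (g.2 • z) := by
        intro z
        have := congrArg (fun T : End K V => T z) e2
        simp only [LinearMap.add_apply, LinearMap.smul_apply, Module.End.one_apply,
          LinearMap.zero_apply] at this
        exact eq_neg_of_add_eq_zero_left this
      have f2 := (g.1 : Sp w).2 x y
      rw [f1, f1, map_neg, map_neg, LinearMap.neg_apply, map_smul, map_smul,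
        LinearMap.smul_apply, neg_neg] at f2
      simp only [smul_eq_mul] at f2
      have f3 : (2 * g.2) * w x y = 0 := by linear_combination -f2
      rcases mul_eq_zero.1 f3 with h | h
      · exact absurd (by simpa using h) hc0
      · exact h
    have e4 : g.1 = 0 := by
      apply Subtype.ext
      apply Subtype.ext
      rw [e3, zero_smul, add_zero] at e2
      exact e2
    exact Prod.ext e4 e3

end FD

end Crest.Agent.R172.SPC
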