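import Mathlib

/-!
# Row 172: existence of a nonzero element of `sp(Q)` preserving the three flags, type (3,3,3)

helper949.  `Crest.Agent.R172.SpExB.exists_sp` is the Q-side end of (t3) (helper586's note 15859 (3)).
-/

namespace Crest.Agent.R172.SpExB

open Module

set_option maxSynthPendingDepth 4

variable {K : Type*} [Field K]

/-- Symmetric bilinear forms. -/
def SymF (K M : Type*) [Field K] [AddCommGroup M] [Module K M] : Submodule K (M →ₗ[K] M →ₗ[K] K) where
  carrier := {β | ∀ x y, β x y = β y x}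
  add_mem' := by
    intro a b ha hb x y
    simp only [LinearMap.add_apply, ha x y, hb x y]
  zero_mem' := by
    intro x y
    simp
  smul_mem' := by
    intro c a ha x y
    simp only [LinearMap.smul_apply, ha x y]

theorem mem_SymF {M : Type*} [AddCommGroup M] [Module K M] {β : M →ₗ[K] M →ₗ[K] K} :
    β ∈ SymF K M ↔ ∀ x y, β x y = β y x := Iff.rfl

/-- The coordinates of a symmetric form. -/
noncomputable def coord {M ι : Type*} [AddCommGroup M] [Module K M] [Fintype ι] [DecidableEq ι]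
    (b : Basis ι K M) : SymF K M →ₗ[K] (Sym2 ι → K) where
  toFun β := fun s => Sym2.lift ⟨fun i j => β.1 (b i) (b j), fun i j => β.2 (b i) (b j)⟩ s
  map_add' := by
    intro x y
    funext s
    induction s using Sym2.ind with
    | _ i j => simp
  map_smul' := by
    intro c y
    funext s
    induction s using Sym2.ind with
    | _ i j => simp

theorem coord_apply {M ι : Type*} [AddCommGroup M] [Module K M] [Fintype ι] [DecidableEq ι]
    (b : Basis ι K M) (β : SymF K M) (i j : ι) : coord b β s(i, j) = β.1 (b i) (b j) := rfl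

theorem coord_bij {M ι : Type*} [AddCommGroup M] [Module K M] [Fintype ι] [DecidableEq ι]
    (b : Basis ι K M) : Function.Bijective (coord b) := by
  constructor
  · intro β γ hβ
    apply Subtype.ext
    apply b.ext
    intro i
    apply b.ext
    intro j
    have := congrFun hβ s(i, j)
    rw [coord_apply, coord_apply] at this
    exact this
  · intro f
    refine ⟨⟨Matrix.toLinearMap₂ b b (Matrix.of fun i j => f s(i, j)), ?_⟩, ?_⟩
    · rw [mem_SymF]
      intro x y
      rw [Matrix.toLinearMap₂_apply, Matrix.toLinearMap₂_apply, Finset.sum_comm]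
      refine Finset.sum_congr rfl fun i _ => Finset.sum_congr rfl fun j _ => ?_
      simp only [Matrix.of_apply, Sym2.eq_swap (a := i) (b := j), smul_eq_mul]
      ring
    · funext s
      induction s using Sym2.ind with
      | _ i j =>
        rw [coord_apply]
        show Matrix.toLinearMap₂ b b (Matrix.of fun i j => f s(i, j)) (b i) (b j) = f s(i, j)
        rw [Matrix.toLinearMap₂_apply_basis]
        rfl

theorem finrank_SymF (M : Type*) [AddCommGroup M] [Module K M] [FiniteDimensional K M] :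
    finrank K (SymF K M) = (finrank K M + 1).choose 2 := by
  classical
  rw [(LinearEquiv.ofBijective (coord (finBasis K M)) (coord_bij (finBasis K M))).finrank_eq,
    finrank_fintype_fun_eq_card, Sym2.card, Fintype.card_fin]

/-- The square system lemma. -/
theorem exists_ker {V ι : Type*} [AddCommGroup V] [Module K V] [FiniteDimensional K V] [Fintype ι]
    [DecidableEq ι] (W : ι → Type*) [∀ r, AddCommGroup (W r)] [∀ r, Module K (W r)]
    [∀ r, FiniteDimensional K (W r)] (R : ∀ r, V →ₗ[K] W r) (τ : ι → V →ₗ[K] K)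
    (hτ : ∀ r v, R r v = 0 → τ r v = 0) (hsum : ∀ v, ∑ r, τ r v = 0) (hne : ∃ r v, τ r v ≠ 0)
    (hdim : ∑ r, finrank K (W r) ≤ finrank K V) : ∃ v, v ≠ 0 ∧ ∀ r, R r v = 0 := by
  by_contra hcon
  push Not at hcon
  have hinj : Function.Injective (LinearMap.pi R) := by
    rw [injective_iff_map_eq_zero]
    intro v hv
    by_contra hv0
    obtain ⟨r, hr⟩ := hcon v hv0
    exact hr (congrFun hv r)
  have hdim2 : finrank K V = finrank K (∀ r, W r) := by
    apply le_antisymm
    · exact LinearMap.finrank_le_finrank_of_injective hinj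
    · rw [Module.finrank_pi_fintype]
      exact hdim
  have hsurj : Function.Surjective (LinearMap.pi R) :=
    (LinearMap.injective_iff_surjective_of_finrank_eq_finrank hdim2).1 hinj
  obtain ⟨r, v, hrv⟩ := hne
  obtain ⟨v', hv'⟩ := hsurj (Pi.single r (R r v))
  have h1 : ∀ s, s ≠ r → τ s v' = 0 := by
    intro s hs
    apply hτ
    have := congrFun hv' s
    rw [LinearMap.pi_apply, Pi.single_eq_of_ne hs] at this
    exact this
  have h2 : τ r v' = τ r v := by
    rw [← sub_eq_zero, ← map_sub]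
    apply hτ
    rw [map_sub, sub_eq_zero]
    have := congrFun hv' r
    rw [LinearMap.pi_apply, Pi.single_eq_same] at this
    exact this
  have h3 := hsum v'
  rw [Finset.sum_eq_single r (fun s _ hs => h1 s hs) (fun h => absurd (Finset.mem_univ r) h), h2] at h3
  exact hrv h3

/-- Restriction of a symmetric form to `F × F` and `F × C`. -/
noncomputable def restr {Q : Type*} [AddCommGroup Q] [Module K Q] (F C : Submodule K Q) :
    SymF K Q →ₗ[K] (SymF K F × (F →ₗ[K] C →ₗ[K] K)) where
  toFun β := (⟨β.1.compl₁₂ F.subtype F.subtype, fun x y => β.2 x y⟩, β.1.compl₁₂ F.subtype C.subtype)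
  map_add' := by
    intro x y
    rfl
  map_smul' := by
    intro c x
    rfl

theorem restr_ker {Q : Type*} [AddCommGroup Q] [Module K Q] {F C : Submodule K Q} {β : SymF K Q}
    (h : restr F C β = 0) : (∀ x ∈ F, ∀ y ∈ F, β.1 x y = 0) ∧ (∀ x ∈ F, ∀ y ∈ C, β.1 x y = 0) := by
  constructor
  · intro x hx y hy
    have h1 := congrArg (fun z => z.1.1 (⟨x, hx⟩ : F) (⟨y, hy⟩ : F)) h
    exact h1
  · intro x hx y hy
    have h1 := congrArg (fun z => z.2 (⟨x, hx⟩ : F) (⟨y, hy⟩ : C)) h
    exact h1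

theorem restr_ker_sup {Q : Type*} [AddCommGroup Q] [Module K Q] {F C G : Submodule K Q}
    (hG : G ≤ F ⊔ C) {β : SymF K Q}
    (h : restr F C β = 0) : ∀ x ∈ F, ∀ y ∈ G, β.1 x y = 0 := by
  obtain ⟨h1, h2⟩ := restr_ker h
  intro x hx y hy
  obtain ⟨a, ha, b, hb, rfl⟩ := Submodule.mem_sup.1 (hG hy)
  rw [map_add, h1 x hx a ha, h2 x hx b hb, add_zero]

variable {Q : Type*} [AddCommGroup Q] [Module K Q] [FiniteDimensional K Q]

/-- The duality given by a nondegenerate form. -/
noncomputable def dualE (ω : Q →ₗ[K] Q →ₗ[K] K) (hnd : ∀ x, (∀ y, ω x y = 0) → x = 0) :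
    Q ≃ₗ[K] (Q →ₗ[K] K) :=
  LinearMap.linearEquivOfInjective ω
    (by
      rw [← LinearMap.ker_eq_bot, LinearMap.ker_eq_bot']
      intro x hx
      exact hnd x fun y => by rw [hx]; rfl)
    (Subspace.dual_finrank_eq (K := K) (V := Q)).symm

theorem dualE_apply (ω : Q →ₗ[K] Q →ₗ[K] K) (hnd : ∀ x, (∀ y, ω x y = 0) → x = 0) (x : Q) :
    dualE ω hnd x = ω x := rfl

/-- The endomorphism of a form. -/
noncomputable def opOf (ω : Q →ₗ[K] Q →ₗ[K] K) (hnd : ∀ x, (∀ y, ω x y = 0) → x = 0)
    (β : Q →ₗ[K] Q →ₗ[K] K) : Module.End K Q :=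
  (dualE ω hnd).symm.toLinearMap ∘ₗ β

theorem opOf_spec (ω : Q →ₗ[K] Q →ₗ[K] K) (hnd : ∀ x, (∀ y, ω x y = 0) → x = 0)
    (β : Q →ₗ[K] Q →ₗ[K] K) (x y : Q) : ω (opOf ω hnd β x) y = β x y := by
  rw [← dualE_apply ω hnd]
  show (dualE ω hnd) ((dualE ω hnd).symm (β x)) y = β x y
  rw [LinearEquiv.apply_symm_apply]

/-- The functional `beta ↦ tr (A_beta Phi)`. -/
noncomputable def trF (ω : Q →ₗ[K] Q →ₗ[K] K) (hnd : ∀ x, (∀ y, ω x y = 0) → x = 0)
    (Φ : Module.End K Q) : SymF K Q →ₗ[K] K where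
  toFun β := LinearMap.trace K Q (opOf ω hnd β.1 * Φ)
  map_add' := by
    intro a b
    have : opOf ω hnd (a + b).1 * Φ = opOf ω hnd a.1 * Φ + opOf ω hnd b.1 * Φ := by
      ext x
      simp [opOf]
    rw [this, map_add]
  map_smul' := by
    intro c a
    have : opOf ω hnd (c • a).1 * Φ = c • (opOf ω hnd a.1 * Φ) := by
      ext x
      simp [opOf]
    rw [this, map_smul]
    rfl

/-- type (3,3,3): the symplectic Lie algebra contains a nonzero element preserving the three flags. -/
theorem exists_sp (h2 : (2 : K) ≠ 0) (ω : Q →ₗ[K] Q →ₗ[K] K) (hω : ∀ x y, ω x y = - ω y x)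
    (hnd : ∀ x, (∀ y, ω x y = 0) → x = 0) (Φ : Fin 3 → Module.End K Q)
    (hsp : ∀ r x y, ω (Φ r x) y = - ω x (Φ r y)) (hsum : ∑ r, Φ r = 0)
    (hfree : ∀ r x, Φ r x = 0 ↔ ∃ y, Φ r (Φ r y) = x) (hne : ∃ r, Φ r ≠ 0) :
    ∃ A : Module.End K Q, A ≠ 0 ∧ (∀ x y, ω (A x) y = - ω x (A y)) ∧
      ∀ r x, (∃ y, A (Φ r (Φ r x)) = Φ r (Φ r y)) ∧ (∃ y, A (Φ r x) = Φ r y) := by
  classical
  -- the flags
  set F1 : Fin 3 → Submodule K Q := fun r => LinearMap.range (Φ r) with hF1
  set F2 : Fin 3 → Submodule K Q := fun r => LinearMap.ker (Φ r) with hF2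
  have hF21 : ∀ r, F2 r ≤ F1 r := by
    intro r x hx
    obtain ⟨y, hy⟩ := (hfree r x).1 hx
    exact ⟨_, hy⟩
  -- complements
  have hC : ∀ r, ∃ C : Submodule K Q, C ≤ F1 r ∧ F2 r ⊔ C = F1 r ∧ F2 r ⊓ C = ⊥ := by
    intro r
    obtain ⟨C', hC'⟩ := exists_isCompl (F2 r)
    refine ⟨C' ⊓ F1 r, inf_le_right, ?_, ?_⟩
    · rw [← sup_inf_assoc_of_le C' (hF21 r), hC'.sup_eq_top, top_inf_eq]
    · rw [← inf_assoc, hC'.inf_eq_bot, bot_inf_eq]
  choose C hC1 hC2 hC3 using hC
  -- dimensions
  have hdim : ∀ r, finrank K (F1 r) = 2 * finrank K (F2 r) ∧ finrank K Q = 3 * finrank K (F2 r) ∧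
      finrank K (C r) = finrank K (F2 r) := by
    intro r
    have e1 : finrank K (F1 r) + finrank K (F2 r) = finrank K Q :=
      LinearMap.finrank_range_add_finrank_ker (Φ r)
    have e2 : finrank K (LinearMap.range ((Φ r).domRestrict (F1 r))) +
        finrank K (LinearMap.ker ((Φ r).domRestrict (F1 r))) = finrank K (F1 r) :=
      LinearMap.finrank_range_add_finrank_ker _
    have e3 : LinearMap.range ((Φ r).domRestrict (F1 r)) = F2 r := by
      ext x
      constructor
      · rintro ⟨⟨y, z, rfl⟩, rfl⟩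
        rw [hF2]
        exact (hfree r _).2 ⟨z, rfl⟩
      · intro hx
        obtain ⟨y, hy⟩ := (hfree r x).1 hx
        exact ⟨⟨Φ r y, y, rfl⟩, hy⟩
    have e4 : finrank K (LinearMap.ker ((Φ r).domRestrict (F1 r))) = finrank K (F2 r) := by
      have : LinearMap.ker ((Φ r).domRestrict (F1 r)) = (F2 r).comap (F1 r).subtype := by
        ext x
        rfl
      rw [this]
      exact (Submodule.comapSubtypeEquivOfLe (hF21 r)).finrank_eq
    have e5 : finrank K (F2 r ⊔ C r : Submodule K Q) + finrank K (F2 r ⊓ C r : Submodule K Q) =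
        finrank K (F2 r) + finrank K (C r) := Submodule.finrank_sup_add_finrank_inf_eq _ _
    rw [hC2, hC3, finrank_bot] at e5
    rw [e3, e4] at e2
    omega
  -- orthogonality
  have horth1 : ∀ r x, (∀ y ∈ F1 r, ω x y = 0) → x ∈ F2 r := by
    intro r x hx
    show Φ r x = 0
    apply hnd
    intro y
    rw [hsp, hx _ ⟨y, rfl⟩, neg_zero]
  have horth2 : ∀ r x, (∀ y ∈ F2 r, ω x y = 0) → x ∈ F1 r := by
    intro r x hx
    have h1 : Φ r (Φ r x) = 0 := by
      apply hnd
      intro y
      rw [hsp, hsp, neg_neg]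
      apply hx
      exact (hfree r _).2 ⟨y, rfl⟩
    obtain ⟨z, hz⟩ := (hfree r _).1 h1
    have h3 : Φ r (x - Φ r z) = 0 := by rw [map_sub, hz, sub_self]
    have h4 : x - Φ r z ∈ F1 r := hF21 r h3
    have h5 : x = (x - Φ r z) + Φ r z := by abel
    rw [h5]
    exact (F1 r).add_mem h4 ⟨z, rfl⟩
  have hker : ∀ r (β : SymF K Q), restr (F2 r) (C r) β = 0 →
      (∀ x ∈ F2 r, opOf ω hnd β.1 x ∈ F2 r) ∧ (∀ x ∈ F1 r, opOf ω hnd β.1 x ∈ F1 r) := by
    intro r β hβ
    have h1 := restr_ker_sup (G := F1 r) (hC2 r).ge hβ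
    constructor
    · intro x hx
      apply horth1
      intro y hy
      rw [opOf_spec]
      exact h1 x hx y hy
    · intro x hx
      apply horth2
      intro y hy
      rw [opOf_spec, β.2]
      exact h1 y hy x hx
  obtain ⟨β, hβ0, hβ⟩ := exists_ker (K := K) (V := SymF K Q)
    (fun r : Fin 3 => SymF K (F2 r) × (F2 r →ₗ[K] C r →ₗ[K] K)) (fun r => restr (F2 r) (C r))
    (fun r => trF ω hnd (Φ r))
    (by
      intro r β hβ
      obtain ⟨h1, h3⟩ := hker r β hβ
      show LinearMap.trace K Q (opOf ω hnd β.1 * Φ r) = 0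
      have hnil : IsNilpotent (opOf ω hnd β.1 * Φ r) := by
        refine ⟨3, ?_⟩
        ext x
        have a1 : opOf ω hnd β.1 (Φ r x) ∈ F1 r := h3 _ ⟨x, rfl⟩
        obtain ⟨z, hz⟩ := a1
        have a2 : Φ r (opOf ω hnd β.1 (Φ r x)) ∈ F2 r := by
          rw [← hz]
          exact (hfree r _).2 ⟨z, rfl⟩
        have a3 := h1 _ a2
        have a4 : Φ r (opOf ω hnd β.1 (Φ r (opOf ω hnd β.1 (Φ r x)))) = 0 := a3
        show opOf ω hnd β.1 (Φ r (opOf ω hnd β.1 (Φ r (opOf ω hnd β.1 (Φ r x))))) = 0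
        rw [a4, map_zero]
      exact (LinearMap.isNilpotent_trace_of_isNilpotent hnil).eq_zero)
    (by
      intro β
      show ∑ r, LinearMap.trace K Q (opOf ω hnd β.1 * Φ r) = 0
      rw [← map_sum, ← Finset.mul_sum, hsum, mul_zero, map_zero])
    (by
      obtain ⟨r, hr⟩ := hne
      refine ⟨r, ?_⟩
      obtain ⟨v, hv⟩ : ∃ v, Φ r v ≠ 0 := by
        by_contra hcon
        push Not at hcon
        exact hr (LinearMap.ext hcon)
      obtain ⟨u, hu⟩ : ∃ u, ω u (Φ r v) ≠ 0 := by
        by_contra hcon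
        push Not at hcon
        apply hv
        apply hnd
        intro y
        rw [hω, hcon, neg_zero]
      let β : Q →ₗ[K] Q →ₗ[K] K :=
        LinearMap.mk₂ K (fun x y => ω u x * ω v y + ω v x * ω u y)
          (by intro a b c; simp only [map_add]; ring)
          (by intro a b c; simp only [map_smul, smul_eq_mul]; ring)
          (by intro a b c; simp only [map_add]; ring)
          (by intro a b c; simp only [map_smul, smul_eq_mul]; ring)
      have hβ : β ∈ SymF K Q := by
        intro x y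
        show ω u x * ω v y + ω v x * ω u y = ω u y * ω v x + ω v y * ω u x
        ring
      refine ⟨⟨β, hβ⟩, ?_⟩
      show LinearMap.trace K Q (opOf ω hnd β * Φ r) ≠ 0
      have h1 : opOf ω hnd β * Φ r = (ω u ∘ₗ Φ r).smulRight v + (ω v ∘ₗ Φ r).smulRight u := by
        ext x
        apply (dualE ω hnd).injective
        ext y
        rw [dualE_apply, dualE_apply]
        show ω (opOf ω hnd β (Φ r x)) y = _
        rw [opOf_spec]
        show ω u (Φ r x) * ω v y + ω v (Φ r x) * ω u y =
          ω (ω u (Φ r x) • v + ω v (Φ r x) • u) y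
        simp only [map_add, map_smul, LinearMap.add_apply, LinearMap.smul_apply, smul_eq_mul]
      rw [h1, map_add, LinearMap.trace_smulRight, LinearMap.trace_smulRight]
      show ω u (Φ r v) + ω v (Φ r u) ≠ 0
      have h3 : ω v (Φ r u) = ω u (Φ r v) := by
        rw [hω v, hsp, neg_neg]
      rw [h3, ← two_mul]
      exact mul_ne_zero h2 hu)
    (by
      rw [finrank_SymF]
      have h3 : ∀ r : Fin 3, finrank K (SymF K (F2 r) × (F2 r →ₗ[K] C r →ₗ[K] K)) =
          (finrank K (F2 r) + 1).choose 2 + finrank K (F2 r) * finrank K (F2 r) := by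
        intro r
        rw [finrank_prod, finrank_SymF, finrank_linearMap, finrank_linearMap, finrank_self, mul_one,
          (hdim r).2.2]
      have h4 : ∀ r, finrank K (F2 r) = finrank K (F2 0) := by
        intro r
        have := (hdim r).2.1
        have := (hdim 0).2.1
        omega
      rw [Finset.sum_congr rfl fun r _ => (h3 r).trans (by rw [h4 r]), Finset.sum_const,
        Finset.card_univ, Fintype.card_fin, (hdim 0).2.1, smul_eq_mul]
      generalize finrank K (F2 0) = m
      have h5 : 2 * (m + 1).choose 2 = (m + 1) * m := by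
        rw [Nat.choose_two_right, Nat.add_sub_cancel, mul_comm]
        exact Nat.div_mul_cancel (even_iff_two_dvd.1 (by rw [mul_comm]; exact Nat.even_mul_succ_self m))
      have h6 : 2 * (3 * m + 1).choose 2 = (3 * m + 1) * (3 * m) := by
        rw [Nat.choose_two_right, Nat.add_sub_cancel, mul_comm]
        exact Nat.div_mul_cancel (even_iff_two_dvd.1 (by rw [mul_comm]; exact Nat.even_mul_succ_self _))
      nlinarith)
  refine ⟨opOf ω hnd β.1, ?_, ?_, ?_⟩
  · intro h0
    apply hβ0
    apply Subtype.ext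
    ext x y
    rw [← opOf_spec ω hnd, h0]
    simp
  · intro x y
    rw [opOf_spec, hω x, opOf_spec, neg_neg, β.2]
  · intro r x
    obtain ⟨h1, h3⟩ := hker r β (hβ r)
    constructor
    · have a1 : opOf ω hnd β.1 (Φ r (Φ r x)) ∈ F2 r := h1 _ ((hfree r _).2 ⟨x, rfl⟩)
      obtain ⟨y, hy⟩ := (hfree r _).1 a1
      exact ⟨y, hy.symm⟩
    · obtain ⟨y, hy⟩ := h3 _ ⟨x, rfl⟩
      exact ⟨y, hy.symm⟩

end Crest.Agent.R172.SpExB
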