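import Crest.Agent.R172.SpTri

/-!
R172, spinor translation, part 7: the invariant functional attached to a Lagrangian `L ⊆ U` and the
final translation theorem.
-/

set_option autoImplicit false
set_option linter.unusedSectionVars false

namespace Crest.Agent.R172.Sp

open Matrix Kronecker Crest.AlgebraR.SpinSaturation Crest.Agent.R172.SoGrade
open Crest.Agent.R172.Star Crest.Agent.R172.Fwd
open scoped TensorProduct ComplexConjugate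

variable {n : ℕ}

section prod

variable {D₁ D₂ : Type} [Fintype D₁] [Fintype D₂]
variable (C₁ : CAR (Fin n × D₁)) (C₂ : CAR (Fin n × D₂)) (s₁ : Inv D₁) (s₂ : Inv D₂)

/-- product map, bilinear -/
noncomputable def vpB : Spn C₁ s₁ →ₗ[ℂ] Spn C₂ s₂ →ₗ[ℂ] Spn (prodCAR C₁ C₂) (s₁.sum s₂) :=
  LinearMap.mk₂ ℂ (fun (x : C₁.ι → ℂ) (y : C₂.ι → ℂ) => (vprod x y : C₁.ι × C₂.ι → ℂ))
    (by
      have h : ∀ (x x' : C₁.ι → ℂ) (y : C₂.ι → ℂ),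
          (vprod (x + x') y : C₁.ι × C₂.ι → ℂ) = vprod x y + vprod x' y := by
        intro x x' y; funext p; simp only [vprod, Pi.add_apply]; ring
      exact h)
    (by
      have h : ∀ (t : ℂ) (x : C₁.ι → ℂ) (y : C₂.ι → ℂ),
          (vprod (t • x) y : C₁.ι × C₂.ι → ℂ) = t • vprod x y := by
        intro t x y; funext p; simp only [vprod, Pi.smul_apply, smul_eq_mul]; ring
      exact h)
    (by
      have h : ∀ (x : C₁.ι → ℂ) (y y' : C₂.ι → ℂ),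
          (vprod x (y + y') : C₁.ι × C₂.ι → ℂ) = vprod x y + vprod x y' := by
        intro x y y'; funext p; simp only [vprod, Pi.add_apply]; ring
      exact h)
    (by
      have h : ∀ (t : ℂ) (x : C₁.ι → ℂ) (y : C₂.ι → ℂ),
          (vprod x (t • y) : C₁.ι × C₂.ι → ℂ) = t • vprod x y := by
        intro t x y; funext p; simp only [vprod, Pi.smul_apply, smul_eq_mul]; ring
      exact h)

/-- product map, equivariant -/
noncomputable def vpL : (Spn C₁ s₁ ⊗[ℂ] Spn C₂ s₂) →ₗ⁅ℂ, soD n⁆ Spn (prodCAR C₁ C₂) (s₁.sum s₂) :=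
  { TensorProduct.lift (vpB C₁ C₂ s₁ s₂) with
    map_lie' := by
      intro A t
      change TensorProduct.lift (vpB C₁ C₂ s₁ s₂) ⁅A, t⁆ =
        ⁅A, TensorProduct.lift (vpB C₁ C₂ s₁ s₂) t⁆
      induction t using TensorProduct.induction_on with
      | zero => simp
      | add a b ha hb => rw [lie_add, map_add, ha, hb, map_add, lie_add]
      | tmul x y =>
        rw [TensorProduct.LieModule.lie_tmul_right, map_add, TensorProduct.lift.tmul,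
          TensorProduct.lift.tmul, TensorProduct.lift.tmul]
        have h := rho_vprod C₁ C₂ s₁ s₂ A.1 x y
        exact h.symm }

theorem vpL_tmul (x : C₁.ι → ℂ) (y : C₂.ι → ℂ) :
    vpL C₁ C₂ s₁ s₂ ((x : Spn C₁ s₁) ⊗ₜ[ℂ] (y : Spn C₂ s₂)) = (vprod x y : C₁.ι × C₂.ι → ℂ) := rfl

/-- direct sum of subspaces -/
def sumLag (Λ₁ : Submodule ℂ (Matrix (VI n) D₁ ℂ)) (Λ₂ : Submodule ℂ (Matrix (VI n) D₂ ℂ)) :
    Submodule ℂ (Matrix (VI n) (D₁ ⊕ D₂) ℂ) where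
  carrier := {F | resL F ∈ Λ₁ ∧ resR F ∈ Λ₂}
  add_mem' := fun {a b} ha hb => ⟨Λ₁.add_mem ha.1 hb.1, Λ₂.add_mem ha.2 hb.2⟩
  zero_mem' := ⟨Λ₁.zero_mem, Λ₂.zero_mem⟩
  smul_mem' := fun t {a} ha => ⟨Λ₁.smul_mem t ha.1, Λ₂.smul_mem t ha.2⟩

theorem mem_sumLag {Λ₁ : Submodule ℂ (Matrix (VI n) D₁ ℂ)}
    {Λ₂ : Submodule ℂ (Matrix (VI n) D₂ ℂ)} {F : Matrix (VI n) (D₁ ⊕ D₂) ℂ} :
    F ∈ sumLag Λ₁ Λ₂ ↔ resL F ∈ Λ₁ ∧ resR F ∈ Λ₂ := Iff.rfl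

theorem killed_sum {Λ₁ : Submodule ℂ (Matrix (VI n) D₁ ℂ)}
    {Λ₂ : Submodule ℂ (Matrix (VI n) D₂ ℂ)} {x : C₁.ι → ℂ} {y : C₂.ι → ℂ}
    (hx : Killed C₁ s₁ Λ₁ x) (hy : Killed C₂ s₂ Λ₂ y) :
    Killed (prodCAR C₁ C₂) (s₁.sum s₂) (sumLag Λ₁ Λ₂) (vprod x y : C₁.ι × C₂.ι → ℂ) := by
  intro F hF
  refine (Gam_vprod C₁ C₂ s₁ s₂ F x y).trans ?_
  rw [hx _ hF.1, hy _ hF.2]
  funext p
  change _ = (0 : ℂ)
  simp [vprod]

theorem isot_sum {Λ₁ : Submodule ℂ (Matrix (VI n) D₁ ℂ)}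
    {Λ₂ : Submodule ℂ (Matrix (VI n) D₂ ℂ)} (h₁ : Isot s₁ Λ₁) (h₂ : Isot s₂ Λ₂) :
    Isot (s₁.sum s₂) (sumLag Λ₁ Λ₂) := by
  intro F hF G hG
  have e1 : bil (s₁.sum s₂) F G = bil s₁ (resL F) (resL G) + bil s₂ (resR F) (resR G) := by
    have e0 : ∀ p : VI n, ∑ d : D₁ ⊕ D₂, F p d * G (sw p) ((s₁.sum s₂).σ d) =
        ∑ d : D₁, resL F p d * resL G (sw p) (s₁.σ d) +
        ∑ d : D₂, resR F p d * resR G (sw p) (s₂.σ d) := fun p => Fintype.sum_sum_type _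
    rw [bil, Finset.sum_congr rfl (fun p _ => e0 p), Finset.sum_add_distrib]
    rfl
  rw [e1, h₁ _ hF.1 _ hG.1, h₂ _ hF.2 _ hG.2, add_zero]

theorem vprod_ne_zero {α β : Type} {x : α → ℂ} {y : β → ℂ} (hx : x ≠ 0) (hy : y ≠ 0) :
    vprod x y ≠ 0 := by
  obtain ⟨i, hi⟩ := Function.ne_iff.mp hx
  obtain ⟨j, hj⟩ := Function.ne_iff.mp hy
  exact Function.ne_iff.mpr ⟨(i, j), mul_ne_zero hi hj⟩

end prod

section VL

variable {D : Type} [Fintype D]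

/-- `V ⊗ L` -/
def VL (n : ℕ) (L : Submodule ℂ (D → ℂ)) : Submodule ℂ (Matrix (VI n) D ℂ) where
  carrier := {F | ∀ p, (fun d => F p d) ∈ L}
  add_mem' := fun {a b} ha hb p => L.add_mem (ha p) (hb p)
  zero_mem' := fun _ => L.zero_mem
  smul_mem' := fun t {a} ha p => L.smul_mem t (ha p)

theorem mem_VL {L : Submodule ℂ (D → ℂ)} {F : Matrix (VI n) D ℂ} :
    F ∈ VL n L ↔ ∀ p, (fun d => F p d) ∈ L := Iff.rfl

theorem VL_mul {L : Submodule ℂ (D → ℂ)} (X : Matrix (VI n) (VI n) ℂ) {F : Matrix (VI n) D ℂ}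
    (hF : F ∈ VL n L) : X * F ∈ VL n L := by
  intro p
  have : (fun d => (X * F) p d) = ∑ q, X p q • (fun d => F q d) := by
    funext d
    rw [Matrix.mul_apply, Finset.sum_apply]
    rfl
  rw [this]
  exact L.sum_mem fun q _ => L.smul_mem _ (hF q)

theorem VL_isot {s : Inv D} {L : Submodule ℂ (D → ℂ)}
    (hL : ∀ u ∈ L, ∀ v ∈ L, ∑ d, u d * v (s.σ d) = 0) : Isot (n := n) s (VL n L) := by
  intro F hF G hG
  rw [bil]
  exact Finset.sum_eq_zero fun p _ => hL _ (hF p) _ (hG (sw p))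

theorem cst_mul (s : Inv D) (X : Matrix (VI n) (VI n) ℂ) (F : Matrix (VI n) D ℂ) :
    cst s (X * F) = (Matrix.of fun p q => star (X (sw p) (sw q))) * cst s F := by
  ext p d
  rw [cst, Matrix.mul_apply, Matrix.mul_apply, star_sum, ← sum_sw]
  refine Finset.sum_congr rfl fun q _ => ?_
  rw [star_mul', cst, Matrix.of_apply]

theorem cstVL_mul {s : Inv D} {L : Submodule ℂ (D → ℂ)} (X : Matrix (VI n) (VI n) ℂ)
    {F : Matrix (VI n) D ℂ} (hF : F ∈ cstSub s (VL n L)) : X * F ∈ cstSub s (VL n L) := by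
  rw [mem_cstSub, cst_mul]
  exact VL_mul _ hF

theorem cstSub_sup {s : Inv D} {Λ₁ Λ₂ : Submodule ℂ (Matrix (VI n) D ℂ)} (h : Λ₁ ⊔ Λ₂ = ⊤) :
    cstSub s Λ₂ ⊔ cstSub s Λ₁ = ⊤ := by
  rw [eq_top_iff]
  intro F _
  have hF : cst s F ∈ Λ₁ ⊔ Λ₂ := by rw [h]; exact Submodule.mem_top
  obtain ⟨F₁, h₁, F₂, h₂, e⟩ := Submodule.mem_sup.1 hF
  rw [Submodule.mem_sup]
  refine ⟨cst s F₂, ?_, cst s F₁, ?_, ?_⟩
  · rw [mem_cstSub, cst_cst]; exact h₂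
  · rw [mem_cstSub, cst_cst]; exact h₁
  · rw [← cst_cst s F, ← e]
    ext p d
    simp [cst, add_comm]

/-- The pure spinor of the conjugate of `V ⊗ L` is `so(V)`-invariant. -/
theorem exists_inv_spinor (hn : 2 ≤ n) (C : CAR (Fin n × D)) (s : Inv D)
    {L : Submodule ℂ (D → ℂ)} (hL : ∀ u ∈ L, ∀ v ∈ L, ∑ d, u d * v (s.σ d) = 0)
    {Λ : Submodule ℂ (Matrix (VI n) D ℂ)} (hΛ : Isot s Λ) (h : VL n L ⊔ Λ = ⊤) :
    ∃ Ψ : C.ι → ℂ, Ψ ≠ 0 ∧ (∀ F ∈ VL n L, Gam C s (cst s F) *ᵥ Ψ = 0) ∧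
      ∀ X : soD n, rho C s X.1 *ᵥ Ψ = 0 := by
  obtain ⟨Ψ, h0, hk⟩ := exists_killed C s (cstSub s (VL n L)) (isot_cstSub (VL_isot hL))
  refine ⟨Ψ, h0, ?_, ?_⟩
  · intro F hF
    apply hk
    rw [mem_cstSub, cst_cst]
    exact hF
  · have hchi : ∀ X : soD n, ∃ t : ℂ, rho C s X.1 *ᵥ Ψ = t • Ψ := by
      intro X
      apply killed_unique C s (cstSub s Λ) (cstSub s (VL n L)) (cstSub_sup h) (isot_cstSub hΛ) h0 hk
      intro F hF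
      have h1 := rho_Gam C s X.2 F
      have h2 : Gam C s F * rho C s X.1 = rho C s X.1 * Gam C s F - Gam C s (X.1 * F) := by
        rw [← h1]; abel
      rw [Matrix.mulVec_mulVec, h2, Matrix.sub_mulVec, ← Matrix.mulVec_mulVec, hk F hF,
        hk _ (cstVL_mul X.1 hF), Matrix.mulVec_zero, sub_zero]
    let K : LieSubalgebra ℂ (soD n) :=
      { carrier := {X | rho C s X.1 *ᵥ Ψ = 0}
        add_mem' := by
          intro X Y hX hY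
          change rho C s (X.1 + Y.1) *ᵥ Ψ = 0
          rw [rho_add, Matrix.add_mulVec, hX, hY, add_zero]
        zero_mem' := by
          change rho C s (0 : Matrix (VI n) (VI n) ℂ) *ᵥ Ψ = 0
          have : rho C s (0 : Matrix (VI n) (VI n) ℂ) = 0 := by
            have := rho_smul C s (0 : ℂ) (0 : Matrix (VI n) (VI n) ℂ)
            simpa using this
          rw [this, Matrix.zero_mulVec]
        smul_mem' := by
          intro t X hX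
          change rho C s (t • X.1) *ᵥ Ψ = 0
          rw [rho_smul, Matrix.smul_mulVec, hX, smul_zero]
        lie_mem' := by
          intro X Y hX hY
          change rho C s (X.1 * Y.1 - Y.1 * X.1) *ᵥ Ψ = 0
          rw [rho_lie C s X.2, Matrix.sub_mulVec, ← Matrix.mulVec_mulVec, ← Matrix.mulVec_mulVec]
          have hX' : rho C s X.1 *ᵥ Ψ = 0 := hX
          have hY' : rho C s Y.1 *ᵥ Ψ = 0 := hY
          rw [hX', hY', Matrix.mulVec_zero, Matrix.mulVec_zero, sub_zero] }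
    have hK : K = ⊤ := by
      rw [eq_top_iff, ← lieSpan_rt hn, LieSubalgebra.lieSpan_le]
      rintro z ⟨x, c, hc, e⟩
      change rho C s z.1 *ᵥ Ψ = 0
      obtain ⟨t, ht⟩ := hchi x
      obtain ⟨u, hu⟩ := hchi z
      have h1 : rho C s (x.1 * z.1 - z.1 * x.1) = c • rho C s z.1 := by
        rw [← rho_smul]
        congr 1
        exact congrArg Subtype.val e
      have h2 : c • (rho C s z.1 *ᵥ Ψ) = 0 := by
        rw [← Matrix.smul_mulVec, ← h1, rho_lie C s x.2, Matrix.sub_mulVec,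
          ← Matrix.mulVec_mulVec, ← Matrix.mulVec_mulVec, hu, ht, Matrix.mulVec_smul,
          Matrix.mulVec_smul, ht, hu, smul_smul, smul_smul, mul_comm, sub_self]
      exact (smul_eq_zero.1 h2).resolve_left hc
    intro X
    have : X ∈ K := by rw [hK]; exact LieSubalgebra.mem_top X
    exact this

end VL

section final

variable {D₁ D₂ D₃ : Type} [Fintype D₁] [Fintype D₂] [Fintype D₃]
  [DecidableEq D₁] [DecidableEq D₂] [DecidableEq D₃]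
  {s₁ : Inv D₁} {s₂ : Inv D₂} {s₃ : Inv D₃}

/-- `Σ u_d v_{σ d}`: the symmetric form of `U = ℂ^D` -/
def ub {D : Type} [Fintype D] (s : Inv D) (u v : D → ℂ) : ℂ := ∑ d, u d * v (s.σ d)

/-- **Translation theorem.** If for some exponential words `w₁, w₂, w₃` and some isotropic
`L ⊆ U₁ ⊕ U₂ ⊕ U₃` the space `V ⊗ L` together with `g₁ n_a ⊕ g₂ n_b ⊕ g₃ n_c` spans `V ⊗ U`, then
every triple of irreducible representations of highest weights `a, b, c` has an invariant. -/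
theorem hasInvariant_of_sup (hn : 2 ≤ n) {a b c : Fin n → ℤ} (Ra : Arm n s₁ a) (Rb : Arm n s₂ b)
    (Rc : Arm n s₃ c) {w₁ w₂ w₃ : List (soD n)} (hw₁ : Wd w₁) (hw₂ : Wd w₂) (hw₃ : Wd w₃)
    (L : Submodule ℂ (D₁ ⊕ (D₂ ⊕ D₃) → ℂ))
    (hL : ∀ u ∈ L, ∀ v ∈ L, ub (s₁.sum (s₂.sum s₃)) u v = 0)
    (hiso : Isot (s₁.sum (s₂.sum s₃)) (sumLag (gsub (gm w₁) Ra.lag)
      (sumLag (gsub (gm w₂) Rb.lag) (gsub (gm w₃) Rc.lag))))
    (h : VL n L ⊔ sumLag (gsub (gm w₁) Ra.lag)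
      (sumLag (gsub (gm w₂) Rb.lag) (gsub (gm w₃) Rc.lag)) = ⊤)
    (U : Irrep n a) (V : Irrep n b) (W : Irrep n c) : HasInvariant U V W := by
  obtain ⟨C₁⟩ := CAR.exists_car (Fin n × D₁)
  obtain ⟨C₂⟩ := CAR.exists_car (Fin n × D₂)
  obtain ⟨C₃⟩ := CAR.exists_car (Fin n × D₃)
  obtain ⟨x, hx0, hxk⟩ := exists_killed C₁ s₁ Ra.lag Ra.isot
  obtain ⟨y, hy0, hyk⟩ := exists_killed C₂ s₂ Rb.lag Rb.isot
  obtain ⟨z, hz0, hzk⟩ := exists_killed C₃ s₃ Rc.lag Rc.isot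
  obtain ⟨Ψ, hΨ0, hΨk, hΨi⟩ := exists_inv_spinor hn (prodCAR C₁ (prodCAR C₂ C₃))
    (s₁.sum (s₂.sum s₃)) hL hiso h
  let T : Spn C₁ s₁ ⊗[ℂ] (Spn C₂ s₂ ⊗[ℂ] Spn C₃ s₃) →ₗ⁅ℂ, soD n⁆
      Spn (prodCAR C₁ (prodCAR C₂ C₃)) (s₁.sum (s₂.sum s₃)) :=
    (vpL C₁ (prodCAR C₂ C₃) s₁ (s₂.sum s₃)).comp
      (TensorProduct.LieModule.map (LieModuleHom.id : Spn C₁ s₁ →ₗ⁅ℂ, soD n⁆ Spn C₁ s₁)
        (vpL C₂ C₃ s₂ s₃))
  let hΨl : Spn (prodCAR C₁ (prodCAR C₂ C₃)) (s₁.sum (s₂.sum s₃)) →ₗ[ℂ] ℂ :=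
    { toFun := fun v => hp Ψ v
      map_add' := fun v w => hp_add_right Ψ v w
      map_smul' := fun t v => hp_smul_right t Ψ v }
  let l : Spn C₁ s₁ ⊗[ℂ] (Spn C₂ s₂ ⊗[ℂ] Spn C₃ s₃) →ₗ[ℂ] ℂ := hΨl ∘ₗ (T : _ →ₗ[ℂ] _)
  refine (Star.hasInvariant_iff (starSpn C₁ s₁) (starSpn C₂ s₂) (starSpn C₃ s₃)
    (Ra.hwv C₁ hx0 hxk) (Rb.hwv C₂ hy0 hyk) (Rc.hwv C₃ hz0 hzk) U V W).2
    ⟨l, ?_, actV C₁ s₁ w₁ x, ?_, actV C₂ s₂ w₂ y, ?_, actV C₃ s₃ w₃ z, ?_, ?_⟩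
  · intro A t
    change hp Ψ (T ⁅A, t⁆) = 0
    rw [LieModuleHom.map_lie]
    have h1 : ∀ v : (prodCAR C₁ (prodCAR C₂ C₃)).ι → ℂ,
        hp Ψ (rho (prodCAR C₁ (prodCAR C₂ C₃)) (s₁.sum (s₂.sum s₃)) A.1 *ᵥ v) = 0 := by
      intro v
      rw [hp_mulVec, rho_star]
      have h2 := hΨi (hc A)
      have h3 : ((hc A : soD n) : Matrix (VI n) (VI n) ℂ) = (A.1)ᴴ := rfl
      rw [h3] at h2
      rw [h2, hp_zero_left]
    exact h1 _
  · exact act_mem_lieSpan (X := Spn C₁ s₁) hw₁ x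
  · exact act_mem_lieSpan (X := Spn C₂ s₂) hw₂ y
  · exact act_mem_lieSpan (X := Spn C₃ s₃) hw₃ z
  · change hp Ψ (vprod (actV C₁ s₁ w₁ x) (vprod (actV C₂ s₂ w₂ y) (actV C₃ s₃ w₃ z)) :
      C₁.ι × (C₂.ι × C₃.ι) → ℂ) ≠ 0
    refine hp_ne_zero (prodCAR C₁ (prodCAR C₂ C₃)) (s₁.sum (s₂.sum s₃)) (VL n L) _ h hΨ0
      (vprod_ne_zero (actV_ne_zero C₁ s₁ hw₁ hx0)
        (vprod_ne_zero (actV_ne_zero C₂ s₂ hw₂ hy0) (actV_ne_zero C₃ s₃ hw₃ hz0))) hΨk ?_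
    exact killed_sum C₁ (prodCAR C₂ C₃) s₁ (s₂.sum s₃) (act_killed C₁ s₁ hw₁ hxk)
      (killed_sum C₂ C₃ s₂ s₃ (act_killed C₂ s₂ hw₂ hyk) (act_killed C₃ s₃ hw₃ hzk))

end final

end Crest.Agent.R172.Sp
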