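import Crest.Agent.R172.Cfg
import Crest.Agent.R172.SpFinal
import Crest.Agent.R172.GenSO

/-!
R172: the final link: transversality at one complex point of `SO(V)^3 × OGr(U)` gives invariants.
-/

set_option autoImplicit false
set_option linter.unusedSectionVars false

namespace Crest.Agent.R172.SpLink

open Matrix Crest.AlgebraR.SpinSaturation Crest.Agent.R172.SoGrade Crest.Agent.R172.Sp
open Crest.Agent.R172.Fwd Crest.Agent.R172.CF
open Crest.Agent.R172.Gen (Jm Ix)

variable {n : ℕ}

/-- orthogonal matrices preserve the form of `V ⊗ U` -/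
theorem bil_orth {D : Type} [Fintype D] (s : Sp.Inv D) {g : Matrix (VI n) (VI n) ℂ}
    (hg : gᵀ * Jm n ℂ * g = Jm n ℂ) (F G : Matrix (VI n) D ℂ) :
    bil s (g * F) (g * G) = bil s F G := by
  have key : ∀ F G : Matrix (VI n) D ℂ, bil s F G = ∑ d, (Fᵀ * Jm n ℂ * G) d (s.σ d) := by
    intro F G
    rw [bil, Finset.sum_comm]
    refine Finset.sum_congr rfl fun d _ => ?_
    rw [Matrix.mul_assoc, Matrix.mul_apply]
    refine Finset.sum_congr rfl fun p _ => ?_
    rw [Matrix.transpose_apply]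
    congr 1
    have hJ : ∀ p q : Fin n ⊕ Fin n, Jm n ℂ p q = if p = sw q then 1 else 0 := JD_apply
    rw [Matrix.mul_apply, Finset.sum_eq_single (sw p)]
    · rw [hJ, if_pos (by rw [sw_sw]), one_mul]
    · intro q _ hq
      rw [hJ, if_neg, zero_mul]
      intro h
      apply hq
      rw [h, sw_sw]
    · simp
  rw [key, key]
  have h1 : (g * F)ᵀ * Jm n ℂ * (g * G) = Fᵀ * Jm n ℂ * G := by
    rw [Matrix.transpose_mul]
    calc Fᵀ * gᵀ * Jm n ℂ * (g * G) = Fᵀ * (gᵀ * Jm n ℂ * g) * G := by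
          simp only [Matrix.mul_assoc]
      _ = Fᵀ * Jm n ℂ * G := by rw [hg]
  rw [h1]

theorem isot_gsub {D : Type} [Fintype D] {s : Sp.Inv D} {g : Matrix (VI n) (VI n) ℂ}
    (hg : gᵀ * Jm n ℂ * g = Jm n ℂ) {Λ : Submodule ℂ (Matrix (VI n) D ℂ)} (h : Isot s Λ) :
    Isot s (gsub g Λ) := by
  rintro _ ⟨F, hF, rfl⟩ _ ⟨G, hG, rfl⟩
  rw [bil_orth s hg]
  exact h F hF G hG

section link

variable {a : Fin 3 → Fin n → ℤ} (c : Cfg n a)

/-- the index set of one arm -/
abbrev Dm (k : Fin 3) : Type := {d : c.δ // c.arm d = k}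

/-- the involution of one arm -/
def invm (k : Fin 3) : Sp.Inv (Dm c k) where
  σ d := ⟨c.σ d.1, by rw [c.arm_σ]; exact d.2⟩
  inv d := Subtype.ext (c.inv d.1)

/-- the arm -/
def armm (k : Fin 3) : Arm n (invm c k) (a k) where
  A i d := c.A i d.1
  dec i := fun d => inferInstanceAs (Decidable (c.A i d.1))
  mono i j h d := c.mono i j h d.1
  perp i j h d := c.perp i j h d.1
  count i := by
    rw [c.count k i]
    congr 2
    · have h1 : (Finset.univ.filter (fun d : c.δ => c.arm d = k ∧ c.A i d)).card =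
          Fintype.card {d : c.δ // c.arm d = k ∧ c.A i d} := by
        rw [Fintype.card_subtype]
      have h2 : (Finset.univ.filter (fun d : Dm c k => c.A i d.1)).card =
          Fintype.card {d : Dm c k // c.A i d.1} := by
        rw [Fintype.card_subtype]
      rw [h1]
      refine Eq.trans ?_ (congrArg (fun m : ℕ => (m : ℤ)) h2.symm)
      congr 1
      exact Fintype.card_congr
        { toFun := fun d => ⟨⟨d.1, d.2.1⟩, d.2.2⟩
          invFun := fun d => ⟨d.1.1, d.1.2, d.2⟩
          left_inv := fun _ => rfl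
          right_inv := fun _ => rfl }
    · rw [Fintype.card_subtype]

/-- the decomposition of the index set -/
def eqv : c.δ ≃ Dm c 0 ⊕ (Dm c 1 ⊕ Dm c 2) where
  toFun d := if h0 : c.arm d = 0 then Sum.inl ⟨d, h0⟩ else
    if h1 : c.arm d = 1 then Sum.inr (Sum.inl ⟨d, h1⟩) else
      Sum.inr (Sum.inr ⟨d, by
        have := c.arm d |>.2
        apply Fin.ext
        have h0' : (c.arm d : ℕ) ≠ 0 := fun h => h0 (Fin.ext h)
        have h1' : (c.arm d : ℕ) ≠ 1 := fun h => h1 (Fin.ext h)
        show (c.arm d : ℕ) = 2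
        omega⟩)
  invFun := Sum.elim (fun d => d.1) (Sum.elim (fun d => d.1) (fun d => d.1))
  left_inv d := by
    by_cases h0 : c.arm d = 0
    · simp [h0]
    · by_cases h1 : c.arm d = 1
      · simp [h1]
      · simp [h0, h1]
  right_inv := by
    rintro (⟨d, hd⟩ | ⟨d, hd⟩ | ⟨d, hd⟩) <;> simp [hd]

theorem eqv_symm_σ (x : Dm c 0 ⊕ (Dm c 1 ⊕ Dm c 2)) :
    (eqv c).symm (((invm c 0).sum ((invm c 1).sum (invm c 2))).σ x) = c.σ ((eqv c).symm x) := by
  rcases x with x | x | x <;> rfl

/-- **The final link.** -/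
theorem hasInvariant (hn : 2 ≤ n) (g : Fin 3 → Matrix (Ix n) (Ix n) ℂ)
    (hg : ∀ s, (g s)ᵀ * Jm n ℂ * g s = Jm n ℂ) (hdet : ∀ s, (g s).det = 1)
    (L : Submodule ℂ (c.δ → ℂ)) (hL : ∀ u ∈ L, ∀ v ∈ L, c.ub u v = 0)
    (hL2 : 2 * Module.finrank ℂ L = Fintype.card c.δ)
    (h : ∀ F ∈ VL L, F ∈ c.N g → F = 0)
    (U : Irrep n (a 0)) (V : Irrep n (a 1)) (W : Irrep n (a 2)) : HasInvariant U V W := by
  have htop := c.sup_eq_top hg hL2 h
  have hw : ∀ s, ∃ w : List (soD n), Wd w ∧ gm w = g s := by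
    intro s
    exact GenSO.exists_word hn (g s) (hg s) (hdet s)
  choose w hw1 hw2 using hw
  let e := eqv c
  let L' : Submodule ℂ (Dm c 0 ⊕ (Dm c 1 ⊕ Dm c 2) → ℂ) := L.comap (LinearMap.funLeft ℂ ℂ e)
  have hL' : ∀ u ∈ L', ∀ v ∈ L', Sp.ub ((invm c 0).sum ((invm c 1).sum (invm c 2))) u v = 0 := by
    intro u hu v hv
    have h1 := hL _ hu _ hv
    rw [Sp.ub, ← e.sum_comp]
    rw [Cfg.ub] at h1
    rw [← h1]
    refine Finset.sum_congr rfl fun d _ => ?_
    have h2 := eqv_symm_σ c (e d)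
    have h3 : e.symm (e d) = d := e.symm_apply_apply d
    change e.symm _ = c.σ (e.symm (e d)) at h2
    rw [h3] at h2
    have h4 : ((invm c 0).sum ((invm c 1).sum (invm c 2))).σ (e d) = e (c.σ d) := by
      rw [← h2, e.apply_symm_apply]
    rw [h4]
    rfl
  refine hasInvariant_of_sup hn (armm c 0) (armm c 1) (armm c 2) (hw1 0) (hw1 1) (hw1 2) L' hL'
    ?_ ?_ U V W
  · refine isot_sum _ _ (isot_gsub (by rw [hw2]; exact hg 0) (armm c 0).isot)
      (isot_sum _ _ (isot_gsub (by rw [hw2]; exact hg 1) (armm c 1).isot)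
        (isot_gsub (by rw [hw2]; exact hg 2) (armm c 2).isot))
  · rw [eq_top_iff]
    intro F _
    have hF : (Matrix.of fun p d => F p (e d) : Matrix (Ix n) c.δ ℂ) ∈ VL L ⊔ c.N g := by
      rw [htop]; exact Submodule.mem_top
    obtain ⟨F₁, h₁, F₂, h₂, hs⟩ := Submodule.mem_sup.1 hF
    obtain ⟨G, hG, hGF⟩ := c.mem_N.1 h₂
    rw [Submodule.mem_sup]
    refine ⟨Matrix.of fun p x => F₁ p (e.symm x), ?_, Matrix.of fun p x => F₂ p (e.symm x), ?_, ?_⟩
    · intro p
      change (fun d => F₁ p (e.symm (e d))) ∈ L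
      have : (fun d => F₁ p (e.symm (e d))) = fun d => F₁ p d := by
        funext d; rw [e.symm_apply_apply]
      rw [this]
      exact h₁ p
    · have hres : ∀ (k : Fin 3) (X : Matrix (VI n) (Dm c k) ℂ),
          X = (fun p d => F₂ p d.1) → X ∈ gsub (gm (w k)) (armm c k).lag := by
        intro k X hX
        refine ⟨fun p d => G p d.1, fun i d => ⟨fun h => (hG i d.1).1 h, fun h => (hG i d.1).2 h⟩, ?_⟩
        rw [hX, hw2]
        funext p d
        rw [← hGF, act_apply, d.2]
        rfl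
      exact ⟨hres 0 _ rfl, hres 1 _ rfl, hres 2 _ rfl⟩
    · ext p x
      have h5 := congrFun (congrFun hs p) (e.symm x)
      change F₁ p (e.symm x) + F₂ p (e.symm x) = F p x
      rw [Matrix.add_apply] at h5
      rw [h5]
      change F p (e (e.symm x)) = F p x
      rw [e.apply_symm_apply]

end link

/-! ### Existence of the data -/

/-- the standard index set -/
abbrev Dst (m : Fin 3 → ℕ) : Type := Σ s : Fin 3, Fin (m s)

/-- **existence of the concrete data** for every triple of dominant integral weights -/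
theorem exists_cfg (hn : 2 ≤ n) (a : Fin 3 → Fin n → ℤ) (ha : ∀ s, IsDominantIntegral n (a s))
    (m : Fin 3 → ℕ) (hm : ∀ s i, a s i ≤ m s) (hpar : ∀ s i, Even ((m s : ℤ) - a s i)) :
    ∃ c : Cfg n a, c.δ = Dst m ∧ Fintype.card c.δ = ∑ s, m s := by
  classical
  have hR : ∀ s, ∃ R : Arm n (revInv (m s)) (a s), True := by
    intro s
    obtain ⟨R⟩ := exists_arm hn (ha s) (m s) (hm s) (hpar s)
    exact ⟨R, trivial⟩
  choose R _ using hR
  have hcount : ∀ s i, a s i =
      2 * ((Finset.univ.filter (fun d : Dst m => d.1 = s ∧ (R d.1).A i d.2)).card : ℤ) -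
      ((Finset.univ.filter (fun d : Dst m => d.1 = s)).card : ℤ) := by
    intro s i
    rw [(R s).count i]
    congr 2
    · congr 1
      have h1 : (Finset.univ.filter (fun d : Dst m => d.1 = s ∧ (R d.1).A i d.2)) =
          (Finset.univ.filter ((R s).A i)).map ⟨fun x => (⟨s, x⟩ : Dst m), fun x y h => by
            simpa using h⟩ := by
        ext ⟨t, x⟩
        simp only [Finset.mem_filter, Finset.mem_univ, true_and, Finset.mem_map,
          Function.Embedding.coeFn_mk]
        constructor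
        · rintro ⟨rfl, h⟩
          exact ⟨x, h, rfl⟩
        · rintro ⟨y, hy, h⟩
          obtain ⟨rfl, h⟩ := Sigma.mk.inj_iff.1 h
          rw [heq_eq_eq] at h
          subst h
          exact ⟨rfl, hy⟩
      rw [h1, Finset.card_map]
    · have h1 : (Finset.univ.filter (fun d : Dst m => d.1 = s)) =
          (Finset.univ : Finset (Fin (m s))).map ⟨fun x => (⟨s, x⟩ : Dst m), fun x y h => by
            simpa using h⟩ := by
        ext ⟨t, x⟩
        simp only [Finset.mem_filter, Finset.mem_univ, true_and, Finset.mem_map,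
          Function.Embedding.coeFn_mk]
        constructor
        · rintro rfl
          exact ⟨x, rfl⟩
        · rintro ⟨y, h⟩
          exact (Sigma.mk.inj_iff.1 h).1.symm
      rw [h1, Finset.card_map, Finset.card_univ]
  let c : Cfg n a :=
    { δ := Dst m
      arm := fun d => d.1
      σ := fun d => ⟨d.1, (revInv (m d.1)).σ d.2⟩
      inv := fun d => by rw [(revInv (m d.1)).inv]
      arm_σ := fun d => rfl
      A := fun i d => (R d.1).A i d.2
      dA := fun i => fun d => inferInstanceAs (Decidable ((R d.1).A i d.2))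
      mono := fun i j h d => (R d.1).mono i j h d.2
      perp := fun i j h d => (R d.1).perp i j h d.2
      count := hcount }
  refine ⟨c, rfl, ?_⟩
  change Fintype.card (Dst m) = _
  simp [Fintype.card_sigma]

end Crest.Agent.R172.SpLink
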