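import Crest.Agent.R172.SpPure
import Crest.Agent.R172.Fwd4

/-!
R172, spinor translation, part 4: the Fock module `Spn C s` as a `soD n`-module, its star form, the
action of words of exponentials on Clifford multiplication.
-/

set_option autoImplicit false
set_option linter.unusedSectionVars false

namespace Crest.Agent.R172.Sp

open Matrix Crest.AlgebraR.SpinSaturation Crest.Agent.R172.SoGrade Crest.Agent.R172.Star
open Crest.Agent.R172.Fwd
open scoped TensorProduct ComplexConjugate

variable {n : ℕ} {D : Type}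

/-- the Fock module `S(V ⊗ U)` -/
def Spn (C : CAR (Fin n × D)) (_s : Inv D) : Type := C.ι → ℂ

section inst

variable (C : CAR (Fin n × D)) (s : Inv D)

noncomputable instance : AddCommGroup (Spn C s) := inferInstanceAs (AddCommGroup (C.ι → ℂ))
noncomputable instance : Module ℂ (Spn C s) := inferInstanceAs (Module ℂ (C.ι → ℂ))
instance : FiniteDimensional ℂ (Spn C s) := inferInstanceAs (FiniteDimensional ℂ (C.ι → ℂ))

variable [Fintype D]

noncomputable instance : LieRingModule (soD n) (Spn C s) where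
  bracket A v := ((rho C s A.1).mulVec (v : C.ι → ℂ) : C.ι → ℂ)
  add_lie A B v := by
    have h : ∀ u : C.ι → ℂ, (rho C s (A.1 + B.1)).mulVec u =
        (rho C s A.1).mulVec u + (rho C s B.1).mulVec u := by
      intro u
      rw [rho_add, Matrix.add_mulVec]
    exact h v
  lie_add A v w := Matrix.mulVec_add _ _ _
  leibniz_lie A B v := by
    have h : ∀ u : C.ι → ℂ, (rho C s A.1).mulVec ((rho C s B.1).mulVec u) =
        (rho C s (A.1 * B.1 - B.1 * A.1)).mulVec u +
          (rho C s B.1).mulVec ((rho C s A.1).mulVec u) := by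
      intro u
      rw [rho_lie C s A.2, Matrix.sub_mulVec, Matrix.mulVec_mulVec, Matrix.mulVec_mulVec,
        sub_add_cancel]
    exact h v

theorem Spn.lie_def (A : soD n) (v : C.ι → ℂ) :
    (⁅A, (v : Spn C s)⁆ : Spn C s) = ((rho C s A.1).mulVec v : C.ι → ℂ) := rfl

noncomputable instance : LieModule ℂ (soD n) (Spn C s) where
  smul_lie t A v := by
    have h : ∀ u : C.ι → ℂ, (rho C s (t • A.1)).mulVec u = t • (rho C s A.1).mulVec u := by
      intro u
      rw [rho_smul, Matrix.smul_mulVec]
    exact h v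
  lie_smul _ _ _ := Matrix.mulVec_smul _ _ _

/-- the star form of the Fock module -/
noncomputable def starSpn : StarForm n (Spn C s) where
  core := piCore C.ι
  adj := by
    intro A x y
    have h : ∀ x y : C.ι → ℂ, hp ((rho C s A.1).mulVec x) y =
        hp x ((rho C s (hc A).1).mulVec y) := by
      intro x y
      have e : (rho C s A.1) = (rho C s (hc A).1)ᴴ := by
        rw [rho_star]
        congr 1
        ext p q
        simp [hc, Matrix.conjTranspose_apply]
      rw [e, ← hp_mulVec]
    exact h x y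

end inst

variable [Fintype D] [DecidableEq D] (C : CAR (Fin n × D)) (s : Inv D)

/-- `v ⊗ u_d` -/
def vcol (v : VI n → ℂ) (d : D) : Matrix (VI n) D ℂ := fun p e => if e = d then v p else 0

theorem Gam_vcol (v : VI n → ℂ) (d : D) :
    Gam C s (vcol v d) = ∑ p, v p • gam C s p d := by
  rw [Gam]
  refine Finset.sum_congr rfl fun p _ => ?_
  rw [Finset.sum_eq_single d]
  · simp [vcol]
  · intro e _ he
    simp [vcol, he]
  · simp

theorem vcol_mul (X : Matrix (VI n) (VI n) ℂ) (v : VI n → ℂ) (d : D) :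
    X * vcol v d = vcol (X *ᵥ v) d := by
  ext p e
  by_cases h : e = d
  · simp [Matrix.mul_apply, vcol, h, Matrix.mulVec, dotProduct]
  · simp [Matrix.mul_apply, vcol, h]

theorem sum_vcol (F : Matrix (VI n) D ℂ) : F = ∑ d, vcol (fun p => F p d) d := by
  ext p e
  rw [Matrix.sum_apply]
  simp [vcol]

theorem vcol_add (v w : VI n → ℂ) (d : D) : vcol (v + w) d = vcol v d + vcol w d := by
  ext p e
  by_cases h : e = d <;> simp [vcol, h]

theorem vcol_smul (t : ℂ) (v : VI n → ℂ) (d : D) : vcol (t • v) d = t • vcol v d := by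
  ext p e
  by_cases h : e = d <;> simp [vcol, h]

/-- Clifford multiplication `V ⊗ S → S` (at the slot `d`) -/
noncomputable def clB (d : D) : SV n →ₗ[ℂ] Spn C s →ₗ[ℂ] Spn C s :=
  LinearMap.mk₂ ℂ
    (fun (v : VI n → ℂ) (x : C.ι → ℂ) => ((Gam C s (vcol v d)).mulVec x : C.ι → ℂ))
    (by
      have h : ∀ (v w : VI n → ℂ) (x : C.ι → ℂ), (Gam C s (vcol (v + w) d)).mulVec x =
          (Gam C s (vcol v d)).mulVec x + (Gam C s (vcol w d)).mulVec x := by
        intro v w x
        rw [vcol_add, Gam_add, Matrix.add_mulVec]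
      exact h)
    (by
      have h : ∀ (t : ℂ) (v : VI n → ℂ) (x : C.ι → ℂ), (Gam C s (vcol (t • v) d)).mulVec x =
          t • (Gam C s (vcol v d)).mulVec x := by
        intro t v x
        rw [vcol_smul, Gam_smul, Matrix.smul_mulVec]
      exact h)
    (by
      intro v x y
      exact Matrix.mulVec_add _ _ _)
    (by
      intro t v x
      exact Matrix.mulVec_smul _ _ _)

theorem clB_apply (d : D) (v : VI n → ℂ) (x : C.ι → ℂ) :
    clB C s d (v : SV n) (x : Spn C s) = ((Gam C s (vcol v d)).mulVec x : C.ι → ℂ) := rfl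

/-- Clifford multiplication as an equivariant map -/
noncomputable def clL (d : D) : (SV n ⊗[ℂ] Spn C s) →ₗ⁅ℂ, soD n⁆ Spn C s :=
  { TensorProduct.lift (clB C s d) with
    map_lie' := by
      intro A t
      change TensorProduct.lift (clB C s d) ⁅A, t⁆ = ⁅A, TensorProduct.lift (clB C s d) t⁆
      induction t using TensorProduct.induction_on with
      | zero => simp
      | add a b ha hb => rw [lie_add, map_add, ha, hb, map_add, lie_add]
      | tmul v x =>
        rw [TensorProduct.LieModule.lie_tmul_right, map_add, TensorProduct.lift.tmul,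
          TensorProduct.lift.tmul, TensorProduct.lift.tmul]
        have h : ∀ (v : VI n → ℂ) (x : C.ι → ℂ),
            (Gam C s (vcol (A.1 *ᵥ v) d)) *ᵥ x + (Gam C s (vcol v d)) *ᵥ ((rho C s A.1) *ᵥ x) =
              (rho C s A.1) *ᵥ ((Gam C s (vcol v d)) *ᵥ x) := by
          intro v x
          rw [← vcol_mul, ← rho_Gam C s A.2, Matrix.sub_mulVec, Matrix.mulVec_mulVec,
            Matrix.mulVec_mulVec, sub_add_cancel]
        exact h v x }

/-- the action of a word on plain vectors -/
noncomputable def actV (w : List (soD n)) (x : C.ι → ℂ) : C.ι → ℂ :=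
  (act (Spn C s) w (x : Spn C s) : Spn C s)

theorem actV_add (w : List (soD n)) (x y : C.ι → ℂ) :
    actV C s w (x + y) = actV C s w x + actV C s w y := by
  have h : ∀ x y : Spn C s, act (Spn C s) w (x + y) = act (Spn C s) w x + act (Spn C s) w y :=
    fun x y => map_add _ _ _
  exact h x y

theorem actV_zero (w : List (soD n)) : actV C s w 0 = 0 := by
  have h : act (Spn C s) w (0 : Spn C s) = 0 := map_zero _
  exact h

theorem act_tmul' (d : D) {w : List (soD n)} (hw : Wd w) (v : SV n) (x : Spn C s) :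
    act (Spn C s) w (clL C s d (v ⊗ₜ[ℂ] x)) =
      clL C s d ((act (SV n) w v) ⊗ₜ[ℂ] (act (Spn C s) w x)) := by
  rw [act_hom (clL C s d) hw, act_tmul hw]

theorem act_vcol (d : D) {w : List (soD n)} (hw : Wd w) (v : VI n → ℂ) (x : C.ι → ℂ) :
    actV C s w ((Gam C s (vcol v d)).mulVec x) =
      (Gam C s (vcol ((gm w).mulVec v) d)).mulVec (actV C s w x) := by
  rw [gm_mulVec]
  exact act_tmul' C s d hw v x

theorem act_Gam {w : List (soD n)} (hw : Wd w) (F : Matrix (VI n) D ℂ) (x : C.ι → ℂ) :
    actV C s w ((Gam C s F).mulVec x) =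
      (Gam C s (gm w * F)).mulVec (actV C s w x) := by
  have key : ∀ S : Finset D,
      actV C s w ((Gam C s (∑ d ∈ S, vcol (fun p => F p d) d)).mulVec x) =
      (Gam C s (gm w * (∑ d ∈ S, vcol (fun p => F p d) d))).mulVec (actV C s w x) := by
    intro S
    induction S using Finset.induction_on with
    | empty =>
      rw [Finset.sum_empty, Matrix.mul_zero, Gam_zero, Matrix.zero_mulVec, Matrix.zero_mulVec,
        actV_zero]
    | insert a S ha ih =>
      rw [Finset.sum_insert ha, Matrix.mul_add, Gam_add, Gam_add, Matrix.add_mulVec,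
        Matrix.add_mulVec, ← ih, vcol_mul, ← act_vcol C s a hw, actV_add]
  have h := key Finset.univ
  rw [← sum_vcol F] at h
  exact h

theorem act_inj {L M : Type} [LieRing L] [LieAlgebra ℂ L] [AddCommGroup M] [Module ℂ M]
    [LieRingModule L M] [LieModule ℂ L M] [FiniteDimensional ℂ M] {w : List L} (hw : Wd w)
    {x : M} (hx : x ≠ 0) : act M w x ≠ 0 := by
  induction w with
  | nil => simpa using hx
  | cons z w ih =>
    have hz : Rt z := hw z (by simp)
    have h1 := ih (fun z hz => hw z (by simp [hz]))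
    rw [act_cons, Module.End.mul_apply]
    intro h
    apply h1
    have h2 : ex (LieModule.toEnd ℂ L M (-z)) * ex (LieModule.toEnd ℂ L M z) = 1 := by
      rw [map_neg]
      let i0 : Module ℚ (Module.End ℂ M) := Module.compHom _ (algebraMap ℚ ℂ)
      exact IsNilpotent.exp_neg_mul_exp_self (hz.nilpotent (M := M))
    have h3 := congrArg (ex (LieModule.toEnd ℂ L M (-z))) h
    rw [← Module.End.mul_apply, h2, map_zero] at h3
    exact h3

/-- the image of a subspace of `V ⊗ U` under a matrix -/
def gsub (g : Matrix (VI n) (VI n) ℂ) (Λ : Submodule ℂ (Matrix (VI n) D ℂ)) :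
    Submodule ℂ (Matrix (VI n) D ℂ) where
  carrier := {F | ∃ G ∈ Λ, F = g * G}
  add_mem' := by
    rintro _ _ ⟨a, ha, rfl⟩ ⟨b, hb, rfl⟩
    exact ⟨a + b, Λ.add_mem ha hb, (Matrix.mul_add _ _ _).symm⟩
  zero_mem' := ⟨0, Λ.zero_mem, (Matrix.mul_zero _).symm⟩
  smul_mem' := by
    rintro t _ ⟨a, ha, rfl⟩
    exact ⟨t • a, Λ.smul_mem t ha, (Matrix.mul_smul _ _ _).symm⟩

theorem mem_gsub {g : Matrix (VI n) (VI n) ℂ} {Λ : Submodule ℂ (Matrix (VI n) D ℂ)}
    {F : Matrix (VI n) D ℂ} : F ∈ gsub g Λ ↔ ∃ G ∈ Λ, F = g * G := Iff.rfl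

theorem act_killed {w : List (soD n)} (hw : Wd w) {Λ : Submodule ℂ (Matrix (VI n) D ℂ)}
    {x : C.ι → ℂ} (hx : Killed C s Λ x) : Killed C s (gsub (gm w) Λ) (actV C s w x) := by
  rintro _ ⟨G, hG, rfl⟩
  rw [← act_Gam C s hw, hx G hG, actV_zero]

theorem actV_ne_zero {w : List (soD n)} (hw : Wd w) {x : C.ι → ℂ} (hx : x ≠ 0) :
    actV C s w x ≠ 0 :=
  act_inj (M := Spn C s) hw hx

end Crest.Agent.R172.Sp
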