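import Crest.Agent.R172.SpCliff

/-!
R172, spinor translation, part 3: irreducibility of the Clifford module, pure spinors and the
transversality criterion.
-/

set_option autoImplicit false
set_option linter.unusedSectionVars false

namespace Crest.Agent.R172.Sp

open Matrix Crest.AlgebraR.SpinSaturation Crest.Agent.R172.SoGrade Crest.Agent.R172.Star

section general

variable {ι : Type} [Fintype ι] [DecidableEq ι]

/-- the standard Hermitian pairing, conjugate linear in the first variable -/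
def hp (x y : ι → ℂ) : ℂ := ∑ i, star (x i) * y i

theorem hp_add_right (x y z : ι → ℂ) : hp x (y + z) = hp x y + hp x z := by
  simp only [hp, Pi.add_apply, mul_add, Finset.sum_add_distrib]

theorem hp_smul_right (t : ℂ) (x y : ι → ℂ) : hp x (t • y) = t * hp x y := by
  simp only [hp, Pi.smul_apply, smul_eq_mul, Finset.mul_sum]
  exact Finset.sum_congr rfl fun i _ => by ring

theorem hp_zero_right (x : ι → ℂ) : hp x 0 = 0 := by simp [hp]

theorem hp_zero_left (x : ι → ℂ) : hp 0 x = 0 := by simp [hp]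

theorem hp_self_eq_zero {x : ι → ℂ} (h : hp x x = 0) : x = 0 := by
  exact (piCore ι).definite x h

theorem hp_mulVec (A : Matrix ι ι ℂ) (x y : ι → ℂ) : hp x (A *ᵥ y) = hp (Aᴴ *ᵥ x) y := by
  simp only [hp, Matrix.mulVec, dotProduct, Finset.mul_sum, star_sum, Finset.sum_mul, star_mul',
    Matrix.conjTranspose_apply, star_star]
  rw [Finset.sum_comm]
  exact Finset.sum_congr rfl fun i _ => Finset.sum_congr rfl fun j _ => by ring

/-- common kernel of anticommuting nilpotent operators -/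
theorem exists_common_kernel {κ : Type} (T : κ → Matrix ι ι ℂ)
    (hT : ∀ i j, T i * T j + T j * T i = 0) (N : Submodule ℂ (ι → ℂ)) (hN : N ≠ ⊥)
    (hs : ∀ i, ∀ v ∈ N, T i *ᵥ v ∈ N) (S : Finset κ) :
    ∃ v ∈ N, v ≠ 0 ∧ ∀ i ∈ S, T i *ᵥ v = 0 := by
  classical
  induction S using Finset.induction_on with
  | empty =>
    obtain ⟨v, hv, hv0⟩ := Submodule.exists_mem_ne_zero_of_ne_bot hN
    exact ⟨v, hv, hv0, by simp⟩
  | insert a S ha ih =>
    obtain ⟨v, hv, hv0, hk⟩ := ih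
    by_cases h : T a *ᵥ v = 0
    · refine ⟨v, hv, hv0, fun i hi => ?_⟩
      rcases Finset.mem_insert.1 hi with rfl | hi
      · exact h
      · exact hk i hi
    · refine ⟨T a *ᵥ v, hs a v hv, h, fun i hi => ?_⟩
      rcases Finset.mem_insert.1 hi with rfl | hi
      · rw [Matrix.mulVec_mulVec]
        have h1 := hT i i
        rw [← two_smul ℂ] at h1
        have h2 := (smul_eq_zero.1 h1).resolve_left two_ne_zero
        rw [h2, Matrix.zero_mulVec]
      · rw [Matrix.mulVec_mulVec, eq_neg_of_add_eq_zero_left (hT i a), Matrix.neg_mulVec,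
          ← Matrix.mulVec_mulVec, hk i hi, Matrix.mulVec_zero, neg_zero]

/-- the orthogonal complement -/
def hperp (N : Submodule ℂ (ι → ℂ)) : Submodule ℂ (ι → ℂ) where
  carrier := {y | ∀ x ∈ N, hp x y = 0}
  add_mem' := by
    intro a b ha hb x hx
    rw [hp_add_right, ha x hx, hb x hx, add_zero]
  zero_mem' := fun x _ => hp_zero_right x
  smul_mem' := by
    intro t a ha x hx
    rw [hp_smul_right, ha x hx, mul_zero]

theorem mem_hperp {N : Submodule ℂ (ι → ℂ)} {y : ι → ℂ} :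
    y ∈ hperp N ↔ ∀ x ∈ N, hp x y = 0 := Iff.rfl

theorem decomp_gen {X : Type} [AddCommGroup X] [Module ℂ X] [FiniteDimensional ℂ X]
    (c : InnerProductSpace.Core ℂ X) (N : Submodule ℂ X) (v : X) :
    ∃ a ∈ N, ∃ b, (∀ x ∈ N, c.inner x b = 0) ∧ v = a + b := by
  let nX : NormedAddCommGroup X := c.toNormedAddCommGroup
  let iX : InnerProductSpace ℂ X := InnerProductSpace.ofCore c.toCore
  have : FiniteDimensional ℂ N := inferInstance
  obtain ⟨y, hy, z, hz, h⟩ := N.exists_add_mem_mem_orthogonal v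
  refine ⟨y, hy, z, ?_, h⟩
  intro x hx
  exact (Submodule.mem_orthogonal N z).1 hz x hx

theorem exists_decomp (N : Submodule ℂ (ι → ℂ)) (v : ι → ℂ) :
    ∃ a ∈ N, ∃ b ∈ hperp N, v = a + b := by
  obtain ⟨a, ha, b, hb, e⟩ := decomp_gen (piCore ι) N v
  exact ⟨a, ha, b, hb, e⟩

/-- vectors obtained from `φ` by operators in `S` -/
inductive Wrd (S : Set (Matrix ι ι ℂ)) (φ : ι → ℂ) : (ι → ℂ) → Prop
  | base : Wrd S φ φ
  | step (A : Matrix ι ι ℂ) (hA : A ∈ S) (w : ι → ℂ) (hw : Wrd S φ w) : Wrd S φ (A *ᵥ w)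

end general

variable {n : ℕ} {D : Type} [Fintype D]

theorem irred (C : CAR (Fin n × D)) (s : Inv D) (N : Submodule ℂ (C.ι → ℂ)) (hN : N ≠ ⊥)
    (hs : ∀ F : Matrix (VI n) D ℂ, ∀ v ∈ N, Gam C s F *ᵥ v ∈ N) : N = ⊤ := by
  classical
  have key : ∀ M : Submodule ℂ (C.ι → ℂ), M ≠ ⊥ →
      (∀ F : Matrix (VI n) D ℂ, ∀ v ∈ M, Gam C s F *ᵥ v ∈ M) → C.Ω ∈ M := by
    intro M hM hMs
    have hc : ∀ p : Fin n × D, ∀ v ∈ M, C.c p *ᵥ v ∈ M := by
      intro p v hv
      have h1 := hMs (Matrix.single (Sum.inr p.1) (s.σ p.2) 1) v hv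
      rw [Gam_single] at h1
      simpa [gam, s.inv] using h1
    obtain ⟨v, hv, hv0, hk⟩ := exists_common_kernel C.c C.cc M hM hc Finset.univ
    obtain ⟨t, ht⟩ := C.vac v fun p => hk p (Finset.mem_univ p)
    have ht0 : t ≠ 0 := by
      rintro rfl
      exact hv0 (by rw [ht, zero_smul])
    have : C.Ω = t⁻¹ • v := by rw [ht, smul_smul, inv_mul_cancel₀ ht0, one_smul]
    rw [this]
    exact M.smul_mem _ hv
  by_contra hne
  have hp' : hperp N ≠ ⊥ := by
    intro h
    apply hne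
    rw [eq_top_iff]
    intro v _
    obtain ⟨a, ha, b, hb, e⟩ := exists_decomp N v
    rw [h, Submodule.mem_bot] at hb
    rw [e, hb, add_zero]
    exact ha
  have hps : ∀ F : Matrix (VI n) D ℂ, ∀ v ∈ hperp N, Gam C s F *ᵥ v ∈ hperp N := by
    intro F v hv x hx
    rw [hp_mulVec, Gam_star]
    exact hv _ (hs _ x hx)
  have h1 := key N hN hs
  have h2 := key (hperp N) hp' hps
  exact C.Ωne (hp_self_eq_zero (h2 _ h1))

/-- `φ` is killed by Clifford multiplication with the elements of `Λ`. -/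
def Killed (C : CAR (Fin n × D)) (s : Inv D) (Λ : Submodule ℂ (Matrix (VI n) D ℂ))
    (φ : C.ι → ℂ) : Prop := ∀ F ∈ Λ, Gam C s F *ᵥ φ = 0

/-- isotropic subspaces of `V ⊗ U` -/
def Isot (s : Inv D) (Λ : Submodule ℂ (Matrix (VI n) D ℂ)) : Prop :=
  ∀ F ∈ Λ, ∀ G ∈ Λ, bil s F G = 0

theorem exists_killed (C : CAR (Fin n × D)) (s : Inv D) (Λ : Submodule ℂ (Matrix (VI n) D ℂ))
    (hΛ : Isot s Λ) : ∃ φ : C.ι → ℂ, φ ≠ 0 ∧ Killed C s Λ φ := by
  classical
  let b := Module.finBasis ℂ Λ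
  have hne : (⊤ : Submodule ℂ (C.ι → ℂ)) ≠ ⊥ := by
    intro h
    apply C.Ωne
    have : C.Ω ∈ (⊤ : Submodule ℂ (C.ι → ℂ)) := Submodule.mem_top
    rw [h, Submodule.mem_bot] at this
    exact this
  obtain ⟨v, -, hv0, hk⟩ := exists_common_kernel (fun i => Gam C s (b i)) (by
    intro i j
    rw [Gam_rel, hΛ _ (b i).2 _ (b j).2, zero_smul]) ⊤ hne (fun _ _ _ => Submodule.mem_top)
    Finset.univ
  refine ⟨v, hv0, ?_⟩
  intro F hF
  have h1 : ∀ x : Λ, Gam C s x.1 *ᵥ v = 0 := by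
    intro x
    have h2 : x.1 = ∑ i, b.repr x i • (b i).1 := by
      have h2' := congrArg Λ.subtype (b.sum_repr x)
      rw [map_sum] at h2'
      simp only [map_smul, Submodule.subtype_apply] at h2'
      exact h2'.symm
    rw [h2]
    have h3 : ∀ S : Finset (Fin (Module.finrank ℂ Λ)), Gam C s (∑ i ∈ S, b.repr x i • (b i).1) *ᵥ v = 0 := by
      intro S
      induction S using Finset.induction_on with
      | empty => rw [Finset.sum_empty, Gam_zero, Matrix.zero_mulVec]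
      | insert a S ha ih =>
        rw [Finset.sum_insert ha, Gam_add, Matrix.add_mulVec, ih, Gam_smul, Matrix.smul_mulVec,
          hk a (Finset.mem_univ a), smul_zero, add_zero]
    exact h3 _
  exact h1 ⟨F, hF⟩

/-- **Transversality**: pure spinors of transversal subspaces have nonzero pairing. -/
theorem hp_ne_zero (C : CAR (Fin n × D)) (s : Inv D) (Λ₁ Λ₂ : Submodule ℂ (Matrix (VI n) D ℂ))
    (h12 : Λ₁ ⊔ Λ₂ = ⊤) {θ φ : C.ι → ℂ} (hθ : θ ≠ 0) (hφ : φ ≠ 0)
    (hθk : ∀ F ∈ Λ₁, Gam C s (cst s F) *ᵥ θ = 0) (hφk : Killed C s Λ₂ φ) : hp θ φ ≠ 0 := by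
  intro h0
  let S : Set (Matrix C.ι C.ι ℂ) := {A | ∃ F ∈ Λ₁, A = Gam C s F}
  let N : Submodule ℂ (C.ι → ℂ) := Submodule.span ℂ {w | Wrd S φ w}
  have hN1 : ∀ F ∈ Λ₁, ∀ v ∈ N, Gam C s F *ᵥ v ∈ N := by
    intro F hF v hv
    refine Submodule.span_induction (p := fun v _ => Gam C s F *ᵥ v ∈ N) ?_ ?_ ?_ ?_ hv
    · intro w hw
      have h0' : Gam C s F ∈ S := ⟨F, hF, rfl⟩
      have h1 : Wrd S φ (Gam C s F *ᵥ w) := Wrd.step (Gam C s F) h0' w hw
      exact Submodule.subset_span h1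
    · rw [Matrix.mulVec_zero]; exact N.zero_mem
    · intro a b _ _ ha hb
      rw [Matrix.mulVec_add]; exact N.add_mem ha hb
    · intro t a _ ha
      rw [Matrix.mulVec_smul]; exact N.smul_mem t ha
  have hN2 : ∀ F ∈ Λ₂, ∀ v ∈ N, Gam C s F *ᵥ v ∈ N := by
    intro F hF v hv
    refine Submodule.span_induction (p := fun v _ => Gam C s F *ᵥ v ∈ N) ?_ ?_ ?_ ?_ hv
    · intro w hw
      induction hw with
      | base => rw [hφk F hF]; exact N.zero_mem
      | step A hA w hw ih =>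
        obtain ⟨G, hG, rfl⟩ := hA
        have h1 : Gam C s F * Gam C s G = bil s F G • 1 - Gam C s G * Gam C s F := by
          rw [← Gam_rel]; abel
        rw [Matrix.mulVec_mulVec, h1, Matrix.sub_mulVec, Matrix.smul_mulVec, Matrix.one_mulVec,
          ← Matrix.mulVec_mulVec]
        exact N.sub_mem (N.smul_mem _ (Submodule.subset_span hw)) (hN1 G hG _ ih)
    · rw [Matrix.mulVec_zero]; exact N.zero_mem
    · intro a b _ _ ha hb
      rw [Matrix.mulVec_add]; exact N.add_mem ha hb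
    · intro t a _ ha
      rw [Matrix.mulVec_smul]; exact N.smul_mem t ha
  have hφN : φ ∈ N := Submodule.subset_span Wrd.base
  have hN : N ≠ ⊥ := by
    intro h
    rw [h, Submodule.mem_bot] at hφN
    exact hφ hφN
  have htop : N = ⊤ := by
    apply irred C s N hN
    intro F v hv
    have hF : F ∈ Λ₁ ⊔ Λ₂ := by rw [h12]; exact Submodule.mem_top
    obtain ⟨F₁, h₁, F₂, h₂, rfl⟩ := Submodule.mem_sup.1 hF
    rw [Gam_add, Matrix.add_mulVec]
    exact N.add_mem (hN1 _ h₁ v hv) (hN2 _ h₂ v hv)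
  have hz : ∀ v ∈ N, hp θ v = 0 := by
    intro v hv
    refine Submodule.span_induction (p := fun v _ => hp θ v = 0) ?_ ?_ ?_ ?_ hv
    · intro w hw
      induction hw with
      | base => exact h0
      | step A hA w hw ih =>
        obtain ⟨G, hG, rfl⟩ := hA
        rw [hp_mulVec, Gam_star, hθk G hG, hp_zero_left]
    · exact hp_zero_right θ
    · intro a b _ _ ha hb
      rw [hp_add_right, ha, hb, add_zero]
    · intro t a _ ha
      rw [hp_smul_right, ha, mul_zero]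
  apply hθ
  apply hp_self_eq_zero
  apply hz
  rw [htop]
  exact Submodule.mem_top

/-- image of a subspace under the real structure -/
def cstSub (s : Inv D) (Λ : Submodule ℂ (Matrix (VI n) D ℂ)) : Submodule ℂ (Matrix (VI n) D ℂ) where
  carrier := {F | cst s F ∈ Λ}
  add_mem' := by
    intro a b ha hb
    have : cst s (a + b) = cst s a + cst s b := by
      ext p d; simp [cst]
    change cst s (a + b) ∈ Λ
    rw [this]
    exact Λ.add_mem ha hb
  zero_mem' := by
    have : cst s (0 : Matrix (VI n) D ℂ) = 0 := by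
      ext p d; simp [cst]
    change cst s 0 ∈ Λ
    rw [this]
    exact Λ.zero_mem
  smul_mem' := by
    intro t a ha
    have : cst s (t • a) = star t • cst s a := by
      ext p d; simp [cst]
    change cst s (t • a) ∈ Λ
    rw [this]
    exact Λ.smul_mem _ ha

theorem mem_cstSub {s : Inv D} {Λ : Submodule ℂ (Matrix (VI n) D ℂ)} {F : Matrix (VI n) D ℂ} :
    F ∈ cstSub s Λ ↔ cst s F ∈ Λ := Iff.rfl

theorem bil_cst (s : Inv D) (F G : Matrix (VI n) D ℂ) :
    bil s (cst s F) (cst s G) = star (bil s F G) := by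
  simp only [bil, cst, star_sum, star_mul', s.inv, sw_sw]
  rw [← sum_sw]
  refine Finset.sum_congr rfl fun p _ => ?_
  rw [← sum_σ s]
  refine Finset.sum_congr rfl fun d _ => ?_
  rw [sw_sw, s.inv]

theorem isot_cstSub {s : Inv D} {Λ : Submodule ℂ (Matrix (VI n) D ℂ)} (h : Isot s Λ) :
    Isot s (cstSub s Λ) := by
  intro F hF G hG
  have h1 := h _ hF _ hG
  rw [bil_cst] at h1
  exact star_eq_zero.1 h1

/-- uniqueness of the pure spinor of a Lagrangian subspace -/
theorem killed_unique (C : CAR (Fin n × D)) (s : Inv D)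
    (Λ₁ Λ₂ : Submodule ℂ (Matrix (VI n) D ℂ)) (h12 : Λ₁ ⊔ Λ₂ = ⊤) (h1 : Isot s Λ₁)
    {φ ψ : C.ι → ℂ} (hφ : φ ≠ 0) (hφk : Killed C s Λ₂ φ) (hψk : Killed C s Λ₂ ψ) :
    ∃ t : ℂ, ψ = t • φ := by
  obtain ⟨θ, hθ, hθk⟩ := exists_killed C s (cstSub s Λ₁) (isot_cstSub h1)
  have hθk' : ∀ F ∈ Λ₁, Gam C s (cst s F) *ᵥ θ = 0 := by
    intro F hF
    apply hθk
    rw [mem_cstSub, cst_cst]
    exact hF
  have hne := hp_ne_zero C s Λ₁ Λ₂ h12 hθ hφ hθk' hφk
  refine ⟨hp θ ψ / hp θ φ, ?_⟩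
  by_contra hcon
  have h3 : ψ - (hp θ ψ / hp θ φ) • φ ≠ 0 := sub_ne_zero.2 hcon
  have h4 : Killed C s Λ₂ (ψ - (hp θ ψ / hp θ φ) • φ) := by
    intro F hF
    rw [Matrix.mulVec_sub, Matrix.mulVec_smul, hφk F hF, hψk F hF, smul_zero, sub_zero]
  apply hp_ne_zero C s Λ₁ Λ₂ h12 hθ h3 hθk' h4
  rw [sub_eq_add_neg, hp_add_right, ← neg_smul, hp_smul_right]
  field_simp
  ring

end Crest.Agent.R172.Sp
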