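import Crest.Agent.R172.Core3
import Crest.Agent.R172.St1

/-!
Row 172, G1 Step 2 (`T_f` is scalar), part 1: the symplectic version of the structure lemma for a
core (`B` alternating and nondegenerate, `Φ_s ∈ sp(B)`, `D` self-adjoint).  Copied from
`Core2`/`Core3` (helper731) with the signs of the symplectic case.
-/

set_option autoImplicit false

namespace Crest.Agent.R172.SpS

open Module LinearMap Crest.Agent.R172.Core

variable {K : Type*} [Field K] {V : Type*} [AddCommGroup V] [Module K V]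

/-- `B` is skew-symmetric and nondegenerate (elementary form). -/
structure NA (B : LinearMap.BilinForm K V) : Prop where
  alt : ∀ v w, B v w = - B w v
  nd : ∀ v, (∀ w, B v w = 0) → v = 0

theorem NA.nondeg {B : LinearMap.BilinForm K V} (h : NA B) : B.Nondegenerate := by
  refine ⟨fun v hv => h.nd v hv, fun v hv => h.nd v (fun w => ?_)⟩
  rw [h.alt, hv w, neg_zero]

theorem NA.isRefl {B : LinearMap.BilinForm K V} (h : NA B) : B.IsRefl :=
  fun v w hvw => by rw [h.alt, hvw, neg_zero]

theorem NA.oo [FiniteDimensional K V] {B : LinearMap.BilinForm K V} (h : NA B)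
    (W : Submodule K V) : B.orthogonal (B.orthogonal W) = W :=
  LinearMap.BilinForm.orthogonal_orthogonal h.nondeg h.isRefl W

section H1

variable {ι : Type*} [Fintype ι] [FiniteDimensional K V]

/-- Step (3) of note 12992: `H^1 = 0` for a pair of blocks `P, Q`. -/
theorem H1_of_DerA {B : LinearMap.BilinForm K V} (hB : NA B) {Φ : ι → Module.End K V}
    (hΦ : ∀ s v w, B (Φ s v) w = - B v (Φ s w)) (hDer : Der B Φ)
    {D : Module.End K V} (hDΦ : ∀ s v, D (Φ s v) = Φ s (D v))
    {P P' Q Q' : Submodule K V} (hP : IsCompl P P') (hQ : IsCompl Q Q')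
    (hPQ : ∀ v ∈ P, ∀ w ∈ Q, B v w = 0)
    (hΦP : ∀ s, ∀ v ∈ P, Φ s v ∈ P) (hΦP' : ∀ s, ∀ v ∈ P', Φ s v ∈ P')
    (hΦQ : ∀ s, ∀ v ∈ Q, Φ s v ∈ Q) (hΦQ' : ∀ s, ∀ v ∈ Q', Φ s v ∈ Q')
    (hDP : ∀ v ∈ P, D v ∈ P) (hDQ : ∀ v ∈ Q, D v ∈ Q)
    (hτ : ∀ x : P →ₗ[K] Q, x ∘ₗ D.restrict hDP = D.restrict hDQ ∘ₗ x → x = 0)
    (x : ι → (P →ₗ[K] Q))
    (hx : ∑ s, (x s ∘ₗ (Φ s).restrict (hΦP s) - (Φ s).restrict (hΦQ s) ∘ₗ x s) = 0) :
    ∃ y : P →ₗ[K] Q, ∀ s, x s - y ∈
      Inter ((Φ s).restrict (hΦP s)) ((Φ s).restrict (hΦQ s)) := by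
  classical
  set πP := P.projectionOnto P' hP with hπP
  set πQ := Q.projectionOnto Q' hQ with hπQ
  have hπPΦ : ∀ s v, πP (Φ s v) = (Φ s).restrict (hΦP s) (πP v) := by
    intro s v
    have hv : v ∈ P ⊔ P' := by rw [hP.sup_eq_top]; trivial
    obtain ⟨a, ha, b, hb, rfl⟩ := Submodule.mem_sup.1 hv
    rw [map_add, map_add, map_add,
      Submodule.projectionOnto_apply_of_mem_left hP ha,
      Submodule.projectionOnto_apply_of_mem_left hP (hΦP s a ha),
      (Submodule.projectionOnto_apply_eq_zero_iff hP).2 hb,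
      (Submodule.projectionOnto_apply_eq_zero_iff hP).2 (hΦP' s b hb), add_zero, add_zero]
    rfl
  have hπQΦ : ∀ s v, πQ (Φ s v) = (Φ s).restrict (hΦQ s) (πQ v) := by
    intro s v
    have hv : v ∈ Q ⊔ Q' := by rw [hQ.sup_eq_top]; trivial
    obtain ⟨a, ha, b, hb, rfl⟩ := Submodule.mem_sup.1 hv
    rw [map_add, map_add, map_add,
      Submodule.projectionOnto_apply_of_mem_left hQ ha,
      Submodule.projectionOnto_apply_of_mem_left hQ (hΦQ s a ha),
      (Submodule.projectionOnto_apply_eq_zero_iff hQ).2 hb,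
      (Submodule.projectionOnto_apply_eq_zero_iff hQ).2 (hΦQ' s b hb), add_zero, add_zero]
    rfl
  -- the operators `X_s`
  set X : ι → Module.End K V := fun s => Q.subtype ∘ₗ x s ∘ₗ πP with hX
  have hXa : ∀ s v, X s v = ((x s (πP v) : Q) : V) := fun s v => rfl
  set Xt : ι → Module.End K V := fun s => B.leftAdjointOfNondegenerate hB.nondeg (X s) with hXt
  have hadj : ∀ s v w, B (Xt s v) w = B v (X s w) := fun s v w =>
    LinearMap.BilinForm.isAdjointPairLeftAdjointOfNondegenerate B hB.nondeg (X s) v w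
  have hXtP : ∀ s, ∀ v ∈ P, Xt s v = 0 := by
    intro s v hv
    apply hB.nd
    intro w
    rw [hadj, hXa]
    exact hPQ v hv _ (x s (πP w)).2
  have hXsum : ∀ v, ∑ s, (X s (Φ s v) - Φ s (X s v)) = 0 := by
    intro v
    have h := LinearMap.congr_fun hx (πP v)
    rw [LinearMap.sum_apply] at h
    have h' := congrArg (Q.subtype) h
    rw [map_sum, LinearMap.zero_apply, map_zero] at h'
    rw [← h']
    refine Finset.sum_congr rfl (fun s _ => ?_)
    rw [hXa, hXa, hπPΦ]
    rfl
  set ξ : ι → Module.End K V := fun s => X s - Xt s with hξ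
  have hξa : ∀ s v, ξ s v = X s v - Xt s v := fun s v => rfl
  have hskew : ∀ s v w, B (ξ s v) w = - B v (ξ s w) := by
    intro s v w
    have a1 : B v (Xt s w) = B (X s v) w := by
      rw [hB.alt v (Xt s w), hadj, hB.alt w (X s v), neg_neg]
    rw [hξa, hξa, map_sub, LinearMap.sub_apply, map_sub, hadj, a1]
    ring
  have hsum : ∑ s, (ξ s * Φ s - Φ s * ξ s) = 0 := by
    ext v
    rw [LinearMap.sum_apply]
    change ∑ s, (ξ s (Φ s v) - Φ s (ξ s v)) = 0
    apply hB.nd
    intro w
    have h1 : ∀ s, B (ξ s (Φ s v) - Φ s (ξ s v)) w =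
        B (X s (Φ s v) - Φ s (X s v)) w - B v (X s (Φ s w) - Φ s (X s w)) := by
      intro s
      have e1 : B (Xt s (Φ s v)) w = - B v (Φ s (X s w)) := by rw [hadj, hΦ]
      have e2 : B (Φ s (Xt s v)) w = - B v (X s (Φ s w)) := by rw [hΦ, hadj]
      have e3 : B (ξ s (Φ s v)) w = B (X s (Φ s v)) w + B v (Φ s (X s w)) := by
        rw [hξa, map_sub, LinearMap.sub_apply, e1]; ring
      have e4 : B (Φ s (ξ s v)) w = B (Φ s (X s v)) w + B v (X s (Φ s w)) := by
        rw [hξa, map_sub, map_sub, LinearMap.sub_apply, e2]; ring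
      rw [map_sub, LinearMap.sub_apply, e3, e4, map_sub, LinearMap.sub_apply, map_sub]
      ring
    rw [map_sum, LinearMap.sum_apply, Finset.sum_congr rfl (fun s _ => h1 s),
      Finset.sum_sub_distrib, ← LinearMap.sum_apply, ← map_sum, hXsum v, ← map_sum, hXsum w]
    simp
  obtain ⟨d, δ, hδs, -, hδΦ⟩ := hDer ξ hskew hsum
  -- the block component of `[δ, D]`
  let z : P →ₗ[K] Q :=
    { toFun := fun v => πQ (δ (D v) - D (δ v))
      map_add' := by
        intro v w
        rw [← map_add]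
        congr 1
        simp only [Submodule.coe_add, map_add]
        abel
      map_smul' := by
        intro c v
        rw [RingHom.id_apply, ← map_smul]
        congr 1
        simp only [Submodule.coe_smul, map_smul, hδs, map_add, smul_sub]
        abel }
  have hza : ∀ v : P, z v = πQ (δ (D v) - D (δ v)) := fun v => rfl
  let τ : (P →ₗ[K] Q) →ₗ[K] (P →ₗ[K] Q) :=
    { toFun := fun x => D.restrict hDQ ∘ₗ x - x ∘ₗ D.restrict hDP
      map_add' := by
        intro x y
        rw [LinearMap.comp_add, LinearMap.add_comp]; abel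
      map_smul' := by
        intro c x
        rw [LinearMap.comp_smul, LinearMap.smul_comp, RingHom.id_apply, smul_sub] }
  have hτa : ∀ x, τ x = D.restrict hDQ ∘ₗ x - x ∘ₗ D.restrict hDP := fun x => rfl
  have hτinj : Function.Injective τ := by
    rw [injective_iff_map_eq_zero]
    intro x hx
    exact hτ x (sub_eq_zero.1 hx).symm
  obtain ⟨y, hy⟩ := LinearMap.injective_iff_surjective.1 hτinj (-z)
  refine ⟨y, fun s => ?_⟩
  set u : P →ₗ[K] Q := x s - y with hu
  -- `τ u` is an intertwiner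
  have hτu : ∀ v : P, τ u ((Φ s).restrict (hΦP s) v) = (Φ s).restrict (hΦQ s) (τ u v) := by
    have hW : ∀ v : P, τ u v = πQ (δ (D v) - D (δ v) + (D (ξ s v) - ξ s (D v))) := by
      intro v
      have h1 : τ u v = z v + (D.restrict hDQ (x s v) - x s (D.restrict hDP v)) := by
        rw [hu, map_sub, hy, sub_neg_eq_add, hτa, add_comm]
        rfl
      have hξP : ∀ w : P, ξ s (w : V) = ((x s w : Q) : V) := by
        intro w
        rw [hξa, hXtP s w w.2, sub_zero, hXa, Submodule.projectionOnto_apply_left hP w]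
      have h2 : D (ξ s (v : V)) = ((D.restrict hDQ (x s v) : Q) : V) := by
        rw [hξP v]; rfl
      have h3 : ξ s (D (v : V)) = ((x s (D.restrict hDP v) : Q) : V) := hξP (D.restrict hDP v)
      rw [h1, hza, map_add]
      congr 1
      rw [h2, h3, ← Submodule.coe_sub]
      exact (Submodule.projectionOnto_apply_left hQ _).symm
    have hcomm : ∀ v : V, δ (D (Φ s v)) - D (δ (Φ s v)) + (D (ξ s (Φ s v)) - ξ s (D (Φ s v))) =
        Φ s (δ (D v) - D (δ v) + (D (ξ s v) - ξ s (D v))) := by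
      intro v
      have e1 : δ (Φ s (D v)) = Φ s (δ (D v)) + ξ s (Φ s (D v)) - Φ s (ξ s (D v)) := by
        have := hδΦ s (D v)
        rw [sub_eq_iff_eq_add] at this
        rw [this]; abel
      have e2 : δ (Φ s v) = Φ s (δ v) + ξ s (Φ s v) - Φ s (ξ s v) := by
        have := hδΦ s v
        rw [sub_eq_iff_eq_add] at this
        rw [this]; abel
      rw [hDΦ s v, e1, e2]
      simp only [map_add, map_sub, hDΦ]
      abel
    intro v
    rw [hW, hW]
    have h4 : (((Φ s).restrict (hΦP s) v : P) : V) = Φ s (v : V) := rfl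
    rw [h4, hcomm, hπQΦ]
  -- hence `u` is an intertwiner
  have hc : u ∘ₗ (Φ s).restrict (hΦP s) - (Φ s).restrict (hΦQ s) ∘ₗ u = 0 := by
    apply hτinj
    rw [map_zero]
    apply LinearMap.ext
    intro v
    apply Subtype.ext
    have h5 : D ((u ((Φ s).restrict (hΦP s) v) : Q) : V) -
        ((u (D.restrict hDP ((Φ s).restrict (hΦP s) v)) : Q) : V) =
        Φ s (D ((u v : Q) : V) - ((u (D.restrict hDP v) : Q) : V)) :=
      congrArg Subtype.val (hτu v)
    have hPD : D.restrict hDP ((Φ s).restrict (hΦP s) v) =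
        (Φ s).restrict (hΦP s) (D.restrict hDP v) := Subtype.ext (hDΦ s v)
    rw [hPD, map_sub, ← hDΦ] at h5
    change D ((u ((Φ s).restrict (hΦP s) v) : Q) - Φ s (u v : Q) : V) -
      (((u ((Φ s).restrict (hΦP s) (D.restrict hDP v)) : Q) : V) -
        Φ s (u (D.restrict hDP v) : Q)) = 0
    rw [map_sub, ← sub_eq_zero.2 h5]
    abel
  rw [mem_Inter]
  intro v
  have := LinearMap.congr_fun hc v
  exact sub_eq_zero.1 this

end H1

section Core

variable {ι : Type*} [Fintype ι] [FiniteDimensional K V]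

omit [Fintype ι] in
theorem iSup_range_eq_topA {B : LinearMap.BilinForm K V} (hB : NA B) {Φ : ι → Module.End K V}
    (hΦ : ∀ s v w, B (Φ s v) w = - B v (Φ s w)) (hker : ∀ v, (∀ s, Φ s v = 0) → v = 0) :
    ⨆ s, LinearMap.range (Φ s) = ⊤ := by
  have h1 : B.orthogonal (⨆ s, LinearMap.range (Φ s)) = ⊥ := by
    rw [eq_bot_iff]
    intro v hv
    rw [Submodule.mem_bot]
    apply hker
    intro s
    apply hB.nd
    intro w
    rw [hΦ, hB.alt, neg_neg]
    exact hv _ (Submodule.mem_iSup_of_mem s ⟨w, rfl⟩)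
  rw [← hB.oo (⨆ s, LinearMap.range (Φ s)), h1, LinearMap.BilinForm.orthogonal_bot]

end Core

section Alt

variable {ι : Type*} [Fintype ι] [FiniteDimensional K V]

variable {B : LinearMap.BilinForm K V} {Φ : ι → Module.End K V} {D : Module.End K V}

/-- All the information for a pair of blocks. -/
theorem pair_blocksA (hB : NA B) (hΦ : ∀ s v w, B (Φ s v) w = - B v (Φ s w))
    (hnil : ∃ k, ∀ s, Φ s ^ k = 0) (hsum : ∀ v, ∑ s, Φ s v = 0)
    (hker : ∀ v, (∀ s, Φ s v = 0) → v = 0) (hDer : Der B Φ)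
    (hDB : ∀ v w, B (D v) w = B v (D w)) (hDΦ : ∀ s v, D (Φ s v) = Φ s (D v))
    (hD : ⨆ ν, D.maxGenEigenspace ν = ⊤) {lam mu : K} (hne : lam ≠ mu) :
    ∃ k, (∀ s, ((Φ s).restrict (gen_stable (hDΦ s) lam)) ^ k = 0) ∧
    (∀ s, ((Φ s).restrict (gen_stable (hDΦ s) mu)) ^ k = 0) ∧
    InterAll (fun s => (Φ s).restrict (gen_stable (hDΦ s) lam))
      (fun s => (Φ s).restrict (gen_stable (hDΦ s) mu)) = ⊥ ∧
    (0 < finrank K (D.maxGenEigenspace mu) →
      ∑ s, (rk ((Φ s).restrict (gen_stable (hDΦ s) lam)) 1 : ℤ) =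
        2 * finrank K (D.maxGenEigenspace lam)) ∧
    ∀ s j, rk ((Φ s).restrict (gen_stable (hDΦ s) mu)) (j + 1) ≠ 0 →
      nn ((Φ s).restrict (gen_stable (hDΦ s) lam)) j =
        nn ((Φ s).restrict (gen_stable (hDΦ s) lam)) (j + 1) := by
  obtain ⟨k, hk⟩ := hnil
  have hpow : ∀ nu s, ((Φ s).restrict (gen_stable (hDΦ s) nu)) ^ k = 0 := by
    intro nu s
    rw [Module.End.pow_restrict k]
    ext v
    change ((Φ s ^ k) (v : V)) = 0
    rw [hk s]; rfl
  refine ⟨k, hpow lam, hpow mu, ?_⟩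
  have hcomm : ∀ v, D (D v) = D (D v) := fun v => rfl
  refine pair_lemma _ _ k (hpow lam) (hpow mu) ?_ ?_
  · intro x hx
    exact H1_of_DerA hB hΦ hDer hDΦ (gen_isCompl hD lam) (gen_isCompl hD mu)
      (gen_ortho hDB hne) (fun s => gen_stable (hDΦ s) lam) (fun s => co_stable (hDΦ s) lam)
      (fun s => gen_stable (hDΦ s) mu) (fun s => co_stable (hDΦ s) mu)
      (gen_stable hcomm lam) (gen_stable hcomm mu)
      (gen_tau hne _ _) x hx
  · exact two_le_sum_rk hsum hker (iSup_range_eq_topA hB hΦ hker) (gen_isCompl hD lam)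
      (fun s => gen_stable (hDΦ s) lam) (fun s => co_stable (hDΦ s) lam)

/-- The alternative for a core. -/
theorem core_altA (hB : NA B) (hΦ : ∀ s v w, B (Φ s v) w = - B v (Φ s w))
    (hnil : ∃ k, ∀ s, Φ s ^ k = 0) (hsum : ∀ v, ∑ s, Φ s v = 0)
    (hker : ∀ v, (∀ s, Φ s v = 0) → v = 0) (hDer : Der B Φ)
    (hDB : ∀ v w, B (D v) w = B v (D w)) (hDΦ : ∀ s v, D (Φ s v) = Φ s (D v))
    (hD : ⨆ ν, D.maxGenEigenspace ν = ⊤) :
    (∃ lam, D.maxGenEigenspace lam = ⊤) ∨ Tame Φ D := by
  classical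
  by_cases hex : ∃ lam mu, lam ≠ mu ∧ D.maxGenEigenspace lam ≠ ⊥ ∧ D.maxGenEigenspace mu ≠ ⊥
  · right
    have hpos : ∀ nu, D.maxGenEigenspace nu ≠ ⊥ → 0 < finrank K (D.maxGenEigenspace nu) := by
      intro nu h
      rw [Nat.pos_iff_ne_zero]
      intro h0
      exact h (Submodule.finrank_eq_zero.1 h0)
    -- pair facts
    have hpair : ∀ lam mu, lam ≠ mu → D.maxGenEigenspace lam ≠ ⊥ →
        D.maxGenEigenspace mu ≠ ⊥ → ∀ s, ∃ l, 1 ≤ l ∧
          (∀ j, ((Φ s).restrict (gen_stable (hDΦ s) lam)) ^ j = 0 ↔ l ≤ j) ∧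
          (∀ j, ((Φ s).restrict (gen_stable (hDΦ s) mu)) ^ j = 0 ↔ l ≤ j) ∧
          l * finrank K (ker ((Φ s).restrict (gen_stable (hDΦ s) lam))) =
            finrank K (D.maxGenEigenspace lam) ∧
          l * finrank K (ker ((Φ s).restrict (gen_stable (hDΦ s) mu))) =
            finrank K (D.maxGenEigenspace mu) := by
      intro lam mu hne h1 h2 s
      obtain ⟨k, hk1, hk2, -, -, hn⟩ := pair_blocksA hB hΦ hnil hsum hker hDer hDB hDΦ hD hne
      obtain ⟨k', hk1', hk2', -, -, hn'⟩ :=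
        pair_blocksA hB hΦ hnil hsum hker hDer hDB hDΦ hD hne.symm
      exact free_of_pair (hk1 s) (hk2 s) (hpos _ h1) (hpos _ h2) (hn s) (hn' s)
    obtain ⟨lam, mu, hne, hlam, hmu⟩ := hex
    have hl := hpair lam mu hne hlam hmu
    choose l hl1 hll hlm hfl hfm using hl
    have hker_eq : ∀ s nu, finrank K (ker ((Φ s).restrict (gen_stable (hDΦ s) nu))) =
        finrank K (ker (Φ s) ⊓ D.maxGenEigenspace nu : Submodule K V) := by
      intro s nu
      have hmap : (ker ((Φ s).restrict (gen_stable (hDΦ s) nu))).map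
          (D.maxGenEigenspace nu).subtype = ker (Φ s) ⊓ D.maxGenEigenspace nu := by
        ext v
        constructor
        · rintro ⟨w, hw, rfl⟩
          refine ⟨?_, w.2⟩
          have := congrArg Subtype.val (LinearMap.mem_ker.1 hw)
          exact this
        · rintro ⟨h1, h2⟩
          exact ⟨⟨v, h2⟩, Subtype.ext h1, rfl⟩
      rw [← hmap]
      exact LinearEquiv.finrank_eq
        (Submodule.equivMapOfInjective _ (Submodule.injective_subtype _) _)
    have hpow_iff : ∀ s nu j, ((Φ s).restrict (gen_stable (hDΦ s) nu)) ^ j = 0 ↔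
        ∀ v ∈ D.maxGenEigenspace nu, (Φ s ^ j) v = 0 := by
      intro s nu j
      rw [Module.End.pow_restrict j]
      constructor
      · intro h v hv
        exact congrArg Subtype.val (LinearMap.congr_fun h ⟨v, hv⟩)
      · intro h
        apply LinearMap.ext
        intro v
        exact Subtype.ext (h v v.2)
    refine ⟨⟨lam, mu, hne, hlam, hmu⟩, ?_, l, hl1, ?_, ?_⟩
    · intro lam' mu' hne' x hx
      obtain ⟨-, -, -, hI, -, -⟩ := pair_blocksA hB hΦ hnil hsum hker hDer hDB hDΦ hD hne'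
      have hmem : x ∈ InterAll (fun s => (Φ s).restrict (gen_stable (hDΦ s) lam'))
          (fun s => (Φ s).restrict (gen_stable (hDΦ s) mu')) := by
        rw [mem_InterAll]
        intro s v
        exact Subtype.ext (hx s v _ rfl)
      rw [hI] at hmem
      exact (Submodule.mem_bot K).1 hmem
    · intro s nu hnu
      -- compare with `lam` or `mu`
      have hcmp : (∀ j, ((Φ s).restrict (gen_stable (hDΦ s) nu)) ^ j = 0 ↔ l s ≤ j) ∧
          l s * finrank K (ker ((Φ s).restrict (gen_stable (hDΦ s) nu))) =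
            finrank K (D.maxGenEigenspace nu) := by
        by_cases h : nu = lam
        · subst h
          exact ⟨hll s, hfl s⟩
        · obtain ⟨l', h1, h2, h3, h4, h5⟩ := hpair nu lam h hnu hlam s
          have : l' = l s := by
            apply le_antisymm
            · exact (h3 _).1 ((hll s _).2 le_rfl)
            · exact (hll s _).1 ((h3 _).2 le_rfl)
          rw [← this]
          exact ⟨h2, h4⟩
      refine ⟨fun j => ?_, ?_⟩
      · rw [← hpow_iff, hcmp.1 j]
      · rw [← hker_eq]; exact hcmp.2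
    · obtain ⟨k, -, -, -, hr, -⟩ := pair_blocksA hB hΦ hnil hsum hker hDer hDB hDΦ hD hne
      have hr' := hr (hpos _ hmu)
      set a : ℕ := finrank K (D.maxGenEigenspace lam) with ha
      have hapos : (0 : ℚ) < a := by exact_mod_cast hpos _ hlam
      have hrk : ∀ s, (rk ((Φ s).restrict (gen_stable (hDΦ s) lam)) 1 : ℚ) =
          (1 - 1 / (l s : ℚ)) * a := by
        intro s
        have h1 := LinearMap.finrank_range_add_finrank_ker
          ((Φ s).restrict (gen_stable (hDΦ s) lam))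
        have h2 : rk ((Φ s).restrict (gen_stable (hDΦ s) lam)) 1 =
            finrank K (range ((Φ s).restrict (gen_stable (hDΦ s) lam))) := by
          unfold rk; rw [pow_one]
        have h3 := hfl s
        rw [h2]
        have h4 : ((finrank K (range ((Φ s).restrict (gen_stable (hDΦ s) lam))) : ℚ)) +
            finrank K (ker ((Φ s).restrict (gen_stable (hDΦ s) lam))) = a := by
          exact_mod_cast h1
        have h5 : (l s : ℚ) * finrank K (ker ((Φ s).restrict (gen_stable (hDΦ s) lam))) = a := by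
          exact_mod_cast h3
        have h6 : (l s : ℚ) ≠ 0 := by
          have := hl1 s
          positivity
        field_simp
        rw [← h5] at h4 ⊢
        linear_combination (l s : ℚ) * h4
      have hr'' : ∑ s, (rk ((Φ s).restrict (gen_stable (hDΦ s) lam)) 1 : ℚ) = 2 * a := by
        exact_mod_cast hr'
      rw [Finset.sum_congr rfl (fun s _ => hrk s), ← Finset.sum_mul] at hr''
      exact mul_right_cancel₀ hapos.ne' hr''
  · left
    push Not at hex
    by_cases hex2 : ∃ lam, D.maxGenEigenspace lam ≠ ⊥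
    · obtain ⟨lam, hlam⟩ := hex2
      refine ⟨lam, ?_⟩
      rw [← hD]
      apply le_antisymm (le_iSup (fun ν => D.maxGenEigenspace ν) lam)
      apply iSup_le
      intro nu
      by_cases h : lam = nu
      · rw [h]
      · rw [hex lam nu h hlam]; exact bot_le
    · push Not at hex2
      refine ⟨0, ?_⟩
      rw [← hD, hex2 0]
      symm
      rw [eq_bot_iff]
      apply iSup_le
      intro nu
      rw [hex2 nu]

end Alt

end Crest.Agent.R172.SpS
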