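import Crest.Agent.R172.SpS2

/-!
Row 172, G1 Step 2 (`T_f` is scalar), part 3: lifting of symplectic cocycles of the core to symmetric
tensors, and descent of the derivation hypothesis to the core.
-/

set_option autoImplicit false
set_option linter.unusedSectionVars false

namespace Crest.Agent.R172.SpS

open Module LinearMap Crest.Agent.R172.Core
open Crest.Agent.R172.St (Nk T mem_T mem_Nk_zero mem_Nk_succ Nk_le_T T_stable T_closed T_eq_Nk)
open Crest.Agent.R172.PL (Wk Ainf Rad CoreM coreOp resOp)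

variable {K : Type*} [Field K] {V : Type*} [AddCommGroup V] [Module K V] {ι : Type*}
variable {M : ι → (Dual K V →ₗ[K] V)} {η : LinearMap.BilinForm K V} [FiniteDimensional K V]

/-- the map `V* → core` dual to the section. -/
noncomputable def kap (h : Dat M η) : Dual K V →ₗ[K] CoreM (Be M η) :=
  ((BC M η).toDual h.NA_BC.nondeg).symm.toLinearMap ∘ₗ
    ((Ainf (Be M η)).subtype ∘ₗ sec (Be M η)).dualMap

theorem kap_spec (h : Dat M η) (ζ : Dual K V) (q : CoreM (Be M η)) :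
    BC M η (kap h ζ) q = ζ (sec (Be M η) q : V) := by
  rw [← LinearMap.BilinForm.toDual_def (B := BC M η) h.NA_BC.nondeg]
  change ((BC M η).toDual h.NA_BC.nondeg) (((BC M η).toDual h.NA_BC.nondeg).symm
    (((Ainf (Be M η)).subtype ∘ₗ sec (Be M η)).dualMap ζ)) q = _
  rw [LinearEquiv.apply_symm_apply]
  rfl

theorem NA.ext {W : Type*} [AddCommGroup W] [Module K W] {B : LinearMap.BilinForm K W} (hB : NA B)
    {a b : W} (h : ∀ w, B a w = B b w) : a = b := by
  rw [← sub_eq_zero]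
  apply hB.nd
  intro w
  rw [map_sub, LinearMap.sub_apply, h, sub_self]

theorem kap_eta (h : Dat M η) (v : Ainf (Be M η)) : kap h (η (v : V)) = (Rad (Be M η)).mkQ v := by
  apply h.NA_BC.ext
  intro q
  rw [kap_spec, h.BC_mk_right]

theorem kap_t (h : Dat M η) {ζ : Dual K V} (hζ : ζ ∈ T (Al M η)) : kap h ζ = 0 := by
  apply h.NA_BC.nd
  intro q
  rw [kap_spec]
  exact h.t_ainf hζ (sec (Be M η) q).2

/-- **Lifting**: a symplectic cocycle of the core is induced by symmetric tensors with values in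
`Ainf` which form an exact cocycle. -/
theorem Dat.lift [Fintype ι] (h : Dat M η) (h2 : (2 : K) ≠ 0) (ξ : ι → End K (CoreM (Be M η)))
    (hξ : ∀ s p q, BC M η (ξ s p) q = - BC M η p (ξ s q))
    (hsum : ∑ s, (ξ s * coreOp (Be M η) s - coreOp (Be M η) s * ξ s) = 0) :
    ∃ x : ι → (Dual K V →ₗ[K] V), (∀ s (ζ ζ' : Dual K V), ζ (x s ζ') = ζ' (x s ζ)) ∧
      (∀ s ζ, x s ζ ∈ Ainf (Be M η)) ∧ (∀ s, ∀ ζ ∈ T (Al M η), x s ζ = 0) ∧
      (∀ ζ, ∑ s, (Be M η s (x s ζ) - x s (Al M η s ζ)) = 0) ∧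
      ∀ s (v w : Ainf (Be M η)), (w : V) = x s (η (v : V)) →
        (Rad (Be M η)).mkQ w = ξ s ((Rad (Be M η)).mkQ v) := by
  classical
  -- the first approximation
  let x0 : ι → (Dual K V →ₗ[K] V) := fun s =>
    (Ainf (Be M η)).subtype ∘ₗ sec (Be M η) ∘ₗ ξ s ∘ₗ kap h
  have hx0 : ∀ s ζ, x0 s ζ = (sec (Be M η) (ξ s (kap h ζ)) : V) := fun s ζ => rfl
  have hx0s : ∀ s (ζ ζ' : Dual K V), ζ (x0 s ζ') = ζ' (x0 s ζ) := by
    intro s ζ ζ'
    rw [hx0, hx0, ← kap_spec h, ← kap_spec h, h.NA_BC.alt (kap h ζ') , hξ, neg_neg]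
  obtain ⟨x', k1, k2, k3, k4⟩ := PL.lift (Al M η) (Be M η) x0
    (by
      intro s ζ hζ
      rw [hx0, kap_t h hζ, map_zero, map_zero]
      rfl)
    (fun s ζ => (sec (Be M η) (ξ s (kap h ζ))).2)
    (by
      intro ζ hζ
      obtain ⟨v, hv, rfl⟩ := ainf_eta hζ
      -- the value in the core
      have e1 : ∀ s, Be M η s (x0 s (η v)) - x0 s (Al M η s (η v)) =
          (((resOp (Be M η) s (sec (Be M η) (ξ s ((Rad (Be M η)).mkQ ⟨v, hv⟩))) -
            sec (Be M η) (ξ s (coreOp (Be M η) s ((Rad (Be M η)).mkQ ⟨v, hv⟩))) :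
              Ainf (Be M η))) : V) := by
        intro s
        have a1 : kap h (η v) = (Rad (Be M η)).mkQ ⟨v, hv⟩ := kap_eta h ⟨v, hv⟩
        have a2 : kap h (Al M η s (η v)) = coreOp (Be M η) s ((Rad (Be M η)).mkQ ⟨v, hv⟩) := by
          rw [← eta_be]
          exact kap_eta h (resOp (Be M η) s ⟨v, hv⟩)
        rw [hx0, hx0, a1, a2]
        rfl
      rw [Finset.sum_congr rfl fun s _ => e1 s, ← Submodule.coe_sum]
      refine (Submodule.Quotient.mk_eq_zero (Rad (Be M η))).1 ?_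
      rw [← Submodule.mkQ_apply, map_sum]
      have e2 : ∀ s, (Rad (Be M η)).mkQ (resOp (Be M η) s (sec (Be M η)
          (ξ s ((Rad (Be M η)).mkQ ⟨v, hv⟩))) -
            sec (Be M η) (ξ s (coreOp (Be M η) s ((Rad (Be M η)).mkQ ⟨v, hv⟩)))) =
          - ((ξ s * coreOp (Be M η) s - coreOp (Be M η) s * ξ s)
            ((Rad (Be M η)).mkQ ⟨v, hv⟩)) := by
        intro s
        rw [map_sub, ← PL.coreOp_mk, mk_sec, mk_sec]
        simp only [LinearMap.sub_apply, Module.End.mul_apply]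
        abel
      rw [Finset.sum_congr rfl fun s _ => e2 s, Finset.sum_neg_distrib, ← LinearMap.sum_apply, hsum]
      simp)
  -- the transpose
  have t1 : ∀ s, ∀ ζ ∈ T (Al M η), tr (x' s) ζ = 0 := by
    intro s ζ hζ
    rw [← Module.forall_dual_apply_eq_zero_iff K]
    intro φ
    rw [tr_apply]
    exact h.t_ainf hζ (k2 s φ)
  have t2 : ∀ s ζ, tr (x' s) ζ ∈ Ainf (Be M η) := by
    intro s ζ
    rw [← Subspace.dualAnnihilator_dualCoannihilator_eq (W := Ainf (Be M η)),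
      Submodule.mem_dualCoannihilator]
    intro φ hφ
    rw [Submodule.mem_dualAnnihilator] at hφ
    rw [tr_apply, k1 s φ (h.mem_t hφ), map_zero]
  have t3 : ∀ s, ∀ u ∈ Ainf (Al M η), tr (x' s) u - x0 s u ∈ T (Be M η) := by
    intro s u hu
    apply h.mem_t'
    intro w hw
    rw [map_sub, tr_apply, hx0s s w u, ← map_sub]
    exact h.ainf_t hu (k3 s w hw)
  have t4 : ∀ ζ, ∑ s, (Be M η s (tr (x' s) ζ) - tr (x' s) (Al M η s ζ)) = 0 := by
    intro ζ
    rw [← Module.forall_dual_apply_eq_zero_iff K]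
    intro φ
    have e : ∀ s, φ (Be M η s (tr (x' s) ζ) - tr (x' s) (Al M η s ζ)) =
        ζ (Be M η s (x' s φ) - x' s (Al M η s φ)) := by
      intro s
      rw [map_sub, map_sub, h.pair, tr_apply, tr_apply, h.pair]
      ring
    rw [map_sum, Finset.sum_congr rfl fun s _ => e s, ← map_sum, k4, map_zero]
  let x : ι → (Dual K V →ₗ[K] V) := fun s => (2⁻¹ : K) • (x' s + tr (x' s))
  have hx : ∀ s ζ, x s ζ = (2⁻¹ : K) • (x' s ζ + tr (x' s) ζ) := fun s ζ => rfl
  refine ⟨x, ?_, ?_, ?_, ?_, ?_⟩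
  · intro s ζ ζ'
    rw [hx, hx, map_smul, map_smul, map_add, map_add, tr_apply, tr_apply, add_comm]
  · intro s ζ
    rw [hx]
    exact Submodule.smul_mem _ _ (Submodule.add_mem _ (k2 s ζ) (t2 s ζ))
  · intro s ζ hζ
    rw [hx, k1 s ζ hζ, t1 s ζ hζ, add_zero, smul_zero]
  · intro ζ
    have e : ∀ s, Be M η s (x s ζ) - x s (Al M η s ζ) =
        (2⁻¹ : K) • ((Be M η s (x' s ζ) - x' s (Al M η s ζ)) +
          (Be M η s (tr (x' s) ζ) - tr (x' s) (Al M η s ζ))) := by
      intro s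
      rw [hx, hx, map_smul, map_add, ← smul_sub]
      congr 1
      abel
    rw [Finset.sum_congr rfl fun s _ => e s, ← Finset.smul_sum, Finset.sum_add_distrib, k4, t4,
      add_zero, smul_zero]
  · intro s v w hw
    have hηv : η (v : V) ∈ Ainf (Al M η) := eta_ainf v.2
    have e0 : x0 s (η (v : V)) = (sec (Be M η) (ξ s ((Rad (Be M η)).mkQ v)) : V) := by
      rw [hx0, kap_eta]
    have e1 : (w : V) - (sec (Be M η) (ξ s ((Rad (Be M η)).mkQ v)) : V) ∈ T (Be M η) := by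
      rw [← e0, hw, hx]
      have e2 : (2⁻¹ : K) • (x' s (η (v : V)) + tr (x' s) (η (v : V))) - x0 s (η (v : V)) =
          (2⁻¹ : K) • ((x' s (η (v : V)) - x0 s (η (v : V))) +
            (tr (x' s) (η (v : V)) - x0 s (η (v : V)))) := by
        have e3 : x0 s (η (v : V)) = (2⁻¹ : K) • (x0 s (η (v : V)) + x0 s (η (v : V))) := by
          rw [← two_smul K (x0 s (η (v : V))), smul_smul, inv_mul_cancel₀ h2, one_smul]
        conv_lhs => rw [e3]
        rw [← smul_sub]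
        congr 1
        abel
      rw [e2]
      exact Submodule.smul_mem _ _ (Submodule.add_mem _ (k3 s _ hηv) (t3 s _ hηv))
    rw [mk_eq.2 e1, mk_sec]

/-- The derivation hypothesis on `(V, η, M)`: every exact symmetric cocycle is realised by a
semilinear `δ` which is compatible with `η`. -/
def DerSp [Fintype ι] (M : ι → (Dual K V →ₗ[K] V)) (η : LinearMap.BilinForm K V) : Prop :=
  ∀ x : ι → (Dual K V →ₗ[K] V), (∀ s (ζ ζ' : Dual K V), ζ (x s ζ') = ζ' (x s ζ)) →
    (∀ s ζ, x s ζ ∈ Ainf (Be M η)) → (∀ s, ∀ ζ ∈ T (Al M η), x s ζ = 0) →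
    (∀ ζ, ∑ s, (Be M η s (x s ζ) - x s (Al M η s ζ)) = 0) →
    ∃ (d : Derivation ℤ K K) (δ : V →+ V), (∀ (c : K) (v : V), δ (c • v) = d c • v + c • δ v) ∧
      (∀ v w, η (δ v) w + η v (δ w) = d (η v w)) ∧
      ∀ s v, δ (Be M η s v) - Be M η s (δ v) =
        x s (η (Be M η s v)) - Be M η s (x s (η v))

/-- **Descent** of the derivation hypothesis to the core. -/
theorem Dat.der_core [Fintype ι] (h : Dat M η) (h2 : (2 : K) ≠ 0) (hDer : DerSp M η) :
    Der (BC M η) (coreOp (Be M η)) := by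
  classical
  intro ξ hξ hsum
  obtain ⟨x, x1, x2, x3, x4, x5⟩ := h.lift h2 ξ hξ hsum
  obtain ⟨d, δ, hδs, hδη, hδΦ⟩ := hDer x x1 x2 x3 x4
  -- `δ` preserves `T`
  have hδN : ∀ k, ∀ v ∈ Nk (Be M η) k, δ v ∈ T (Be M η) := by
    intro k
    induction k with
    | zero =>
      intro v hv
      rw [mem_Nk_zero] at hv
      rw [hv, map_zero]
      exact Submodule.zero_mem _
    | succ k ih =>
      intro v hv
      have hvT : v ∈ T (Be M η) := Nk_le_T _ _ hv
      apply T_closed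
      intro s
      have e1 := ih _ (mem_Nk_succ.1 hv s)
      have e2 := hδΦ s v
      rw [x3 s _ (eta_t hvT), x3 s _ (eta_t (T_stable s hvT)), map_zero, sub_zero,
        sub_eq_zero] at e2
      rw [← e2]
      exact e1
  have hδT : ∀ v ∈ T (Be M η), δ v ∈ T (Be M η) := by
    intro v hv
    obtain ⟨k, hk⟩ := mem_T.1 hv
    exact hδN k v hk
  -- `δ` preserves `Ainf`
  have hδW : ∀ k, ∀ v ∈ Wk (Be M η) k, δ v ∈ Wk (Be M η) k := by
    intro k
    induction k with
    | zero => intro v _; simp [Wk]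
    | succ k ih =>
      intro v hv
      refine Submodule.iSup_induction (p := fun s => (Wk (Be M η) k).map (Be M η s))
        (motive := fun v => δ v ∈ Wk (Be M η) (k + 1)) hv ?_ ?_ ?_
      · rintro s _ ⟨u, hu, rfl⟩
        have e1 : δ (Be M η s u) = Be M η s (δ u) + (x s (η (Be M η s u)) -
            Be M η s (x s (η u))) := by rw [← hδΦ]; abel
        rw [e1]
        exact Submodule.add_mem _ (PL.Wk_succ_mem (ih u hu) s)
          (Submodule.sub_mem _ (PL.Ainf_le_Wk _ _ (x2 s _))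
            (PL.Ainf_le_Wk _ _ (PL.Ainf_stable s (x2 s _))))
      · rw [map_zero]; exact Submodule.zero_mem _
      · intro a b ha hb; rw [map_add]; exact Submodule.add_mem _ ha hb
  have hδA : ∀ v ∈ Ainf (Be M η), δ v ∈ Ainf (Be M η) := fun v hv =>
    (Submodule.mem_iInf _).2 (fun k => hδW k v (PL.Ainf_le_Wk _ k hv))
  let δA : Ainf (Be M η) →+ Ainf (Be M η) :=
    { toFun := fun v => ⟨δ v, hδA v v.2⟩
      map_zero' := Subtype.ext (map_zero δ)
      map_add' := fun v w => Subtype.ext (map_add δ (v : V) (w : V)) }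
  have hδAc : ∀ v, ((δA v : Ainf (Be M η)) : V) = δ v := fun v => rfl
  let δC : CoreM (Be M η) →+ CoreM (Be M η) :=
    { toFun := fun p => (Rad (Be M η)).mkQ (δA (sec (Be M η) p))
      map_zero' := by rw [map_zero, map_zero, map_zero]
      map_add' := fun p q => by rw [map_add, map_add, map_add] }
  have hδC : ∀ v : Ainf (Be M η), δC ((Rad (Be M η)).mkQ v) = (Rad (Be M η)).mkQ (δA v) := by
    intro v
    apply mk_eq.2
    rw [hδAc, hδAc, ← map_sub]
    exact hδT _ (sec_mk v)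
  refine ⟨d, δC, ?_, ?_, ?_⟩
  · intro c p
    obtain ⟨v, rfl⟩ := (Rad (Be M η)).mkQ_surjective p
    rw [← map_smul, hδC, hδC, ← map_smul, ← map_smul, ← map_add]
    congr 1
    exact Subtype.ext (hδs c v)
  · intro p q
    obtain ⟨v, rfl⟩ := (Rad (Be M η)).mkQ_surjective p
    obtain ⟨w, rfl⟩ := (Rad (Be M η)).mkQ_surjective q
    rw [hδC, hδC, h.BC_mk, h.BC_mk, h.BC_mk]
    exact hδη v w
  · intro s p
    obtain ⟨v, rfl⟩ := (Rad (Be M η)).mkQ_surjective p
    have hxA : ∀ s ζ, x s ζ ∈ Ainf (Be M η) := x2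
    have e1 : ξ s ((Rad (Be M η)).mkQ v) = (Rad (Be M η)).mkQ ⟨x s (η (v : V)), x2 s _⟩ :=
      (x5 s v ⟨x s (η (v : V)), x2 s _⟩ rfl).symm
    have e2 : ξ s (coreOp (Be M η) s ((Rad (Be M η)).mkQ v)) =
        (Rad (Be M η)).mkQ ⟨x s (η (Be M η s (v : V))), x2 s _⟩ := by
      rw [PL.coreOp_mk]
      exact (x5 s (resOp (Be M η) s v) ⟨x s (η (Be M η s (v : V))), x2 s _⟩ rfl).symm
    rw [e1, e2, PL.coreOp_mk, hδC, hδC, PL.coreOp_mk, PL.coreOp_mk, ← map_sub, ← map_sub]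
    congr 1
    exact Subtype.ext (hδΦ s v)

end Crest.Agent.R172.SpS
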