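import Crest.Agent.R172.SpS3
import Crest.Agent.R172.Core4

/-!
Row 172, G1 Step 2 (`T_f` is scalar), part 4: the operator `D_f` on the core, the alternative
(one eigenvalue or tame), and `T_f η = c η` from `NIL^sp` (notes 14005 Step 2, 13981 (A2), 13937 (I2)).
-/

set_option autoImplicit false
set_option linter.unusedSectionVars false

namespace Crest.Agent.R172.SpS

open Module LinearMap Crest.Agent.R172.Core
open Crest.Agent.R172.St (Nk T mem_T mem_Nk_zero mem_Nk_succ Nk_le_T T_stable T_closed T_eq_Nk)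
open Crest.Agent.R172.PL (Wk Ainf Rad CoreM coreOp resOp)

variable {K : Type*} [Field K] {V : Type*} [AddCommGroup V] [Module K V] {ι : Type*}

variable {E : Type*} [AddCommGroup E] [Module K E]

/-- `E` a space of alternating forms (embedded by `b`), `M_s = M_s(g)`, `N_s = M_s(f, g)` symmetric
tensors, `T_f` the operator of `E` with `M_s (T_f η) = N_s η`. -/
structure Step (M N : ι → (Dual K V →ₗ[K] V)) (b : E →ₗ[K] LinearMap.BilinForm K V)
    (Tf : End K E) : Prop where
  symM : ∀ s (ζ ξ : Dual K V), ζ (M s ξ) = ξ (M s ζ)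
  symN : ∀ s (ζ ξ : Dual K V), ζ (N s ξ) = ξ (N s ζ)
  skew : ∀ (η : E) (v w : V), (b η) v w = - (b η) w v
  rel : ∀ (η : E) s (v : V), M s ((b (Tf η)) v) = N s ((b η) v)

variable {M N : ι → (Dual K V →ₗ[K] V)} {b : E →ₗ[K] LinearMap.BilinForm K V}
  {Tf : End K E}

theorem Step.dat (h : Step M N b Tf) (η : E) : Dat M (b η) := ⟨h.symM, h.skew η⟩

theorem Step.datN (h : Step M N b Tf) (η : E) : Dat N (b η) := ⟨h.symN, h.skew η⟩

theorem Step.rel' (h : Step M N b Tf) (η : E) (s : ι) (ζ : Dual K V) :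
    (b (Tf η)) (M s ζ) = (b η) (N s ζ) := by
  apply LinearMap.ext
  intro w
  rw [h.skew (Tf η), h.skew η, h.symM s, h.rel, h.symN s]

/-- `(T η) M η' = η M (T η')`. -/
theorem Step.move (h : Step M N b Tf) (η η' : E) (s t : ι) (v : V) :
    Be M (b (Tf η)) s (Be M (b η') t v) = Be M (b η) s (Be M (b (Tf η')) t v) := by
  rw [Be_apply, Be_apply, Be_apply, Be_apply, h.rel', h.rel]

/-- subtract a scalar -/
theorem Step.shift (h : Step M N b Tf) (c : K) :
    Step M (fun s => N s - c • M s) b (Tf - c • (1 : End K E)) where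
  symM := h.symM
  symN s ζ ξ := by
    change ζ (N s ξ - c • M s ξ) = ξ (N s ζ - c • M s ζ)
    rw [map_sub, map_sub, map_smul, map_smul, h.symN s ζ ξ, h.symM s ζ ξ]
  skew := h.skew
  rel η s v := by
    have e : (Tf - c • (1 : End K E)) η = Tf η - c • η := rfl
    change M s ((b ((Tf - c • (1 : End K E)) η)) v) = N s ((b η) v) - c • M s ((b η) v)
    rw [e, map_sub, map_smul, LinearMap.sub_apply, LinearMap.smul_apply, map_sub, map_smul, h.rel]

/-- iterates -/
theorem Step.move_pow (h : Step M N b Tf) (η η' : E) (k : ℕ) (s t : ι) (v : V) :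
    Be M (b ((Tf ^ k) η)) s (Be M (b η') t v) = Be M (b η) s (Be M (b ((Tf ^ k) η')) t v) := by
  induction k generalizing η η' with
  | zero => rfl
  | succ k ih =>
    have e1 : (Tf ^ (k + 1)) η = (Tf ^ k) (Tf η) := by rw [pow_succ]; rfl
    have e2 : (Tf ^ (k + 1)) η' = Tf ((Tf ^ k) η') := by rw [pow_succ']; rfl
    rw [e1, ih, e2, h.move]

theorem Step.move' (h : Step M N b Tf) (η : E) (i j : ℕ) (s t : ι) (v : V) :
    Be M (b ((Tf ^ i) η)) s (Be M (b ((Tf ^ j) η)) t v) =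
      Be M (b ((Tf ^ (i + j)) η)) s (Be M (b η) t v) := by
  rw [← h.move_pow ((Tf ^ i) η) η j s t v]
  have e : (Tf ^ j) ((Tf ^ i) η) = (Tf ^ (i + j)) η := by
    rw [add_comm, pow_add]; rfl
  rw [e]

theorem wd_cons (Φ : ι → End K V) (s : ι) (l : List ι) (v : V) :
    wd Φ (s :: l) v = Φ s (wd Φ l v) := by simp [wd]

theorem wd_nil (Φ : ι → End K V) (v : V) : wd Φ [] v = v := by simp [wd]

/-- a word in `M_s (T^n η)`. -/
theorem Step.word (h : Step M N b Tf) (η : E) (n : ℕ) (l : List ι) (s : ι) (v : V) :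
    wd (Be M (b ((Tf ^ n) η))) (s :: l) v =
      Be M (b ((Tf ^ (n * (l.length + 1))) η)) s (wd (Be M (b η)) l v) := by
  induction l generalizing s with
  | nil => rw [wd_cons, wd_nil, wd_nil, List.length_nil, zero_add, mul_one]
  | cons t l ih =>
    have e : n + n * (l.length + 1) = n * (l.length + 1 + 1) := by ring
    rw [wd_cons, ih, h.move', ← wd_cons (Be M (b η)) t l v, List.length_cons, e]

theorem wd_Wk (Φ : ι → End K V) (l : List ι) (v : V) : wd Φ l v ∈ Wk Φ l.length := by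
  induction l with
  | nil => simp [Wk]
  | cons s l ih => rw [wd_cons]; exact PL.Wk_succ_mem ih s

/-- NILPOTENT ⇒ ZERO. -/
theorem Step.nil_zero (h : Step M N b Tf)
    (hNIL : ∀ η : E, ∀ k, (∀ v, v ∈ Nk (Be M (b η)) k) → η = 0) (η : E) (n : ℕ)
    (hn : (Tf ^ n) η = 0) : Tf η = 0 := by
  have step : ∀ j, (Tf ^ (j + 2)) η = 0 → (Tf ^ (j + 1)) η = 0 := by
    intro j hj
    apply hNIL _ 2
    intro v
    rw [mem_Nk_iff]
    intro l hl
    match l, hl with
    | [s, t], _ =>
      rw [h.word]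
      have e : (Tf ^ ((j + 1) * ([t].length + 1))) η = 0 := by
        have e1 : (j + 1) * ([t].length + 1) = j + (j + 2) := by
          simp only [List.length_cons, List.length_nil]; ring
        rw [e1, pow_add]
        change (Tf ^ j) ((Tf ^ (j + 2)) η) = 0
        rw [hj, map_zero]
      rw [e]
      rw [Be_apply]
      simp
  have key : ∀ m, (Tf ^ (m + 1)) η = 0 → (Tf ^ 1) η = 0 := by
    intro m
    induction m with
    | zero => intro h0; exact h0
    | succ m ih => intro hm; exact ih (step m hm)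
  have h1 := key n (by rw [pow_succ']; change Tf ((Tf ^ n) η) = 0; rw [hn, map_zero])
  rwa [pow_one] at h1

section coreN

theorem Step.be_ne (h : Step M N b Tf) (η : E) (s t : ι) (v : V) :
    Be M (b η) t (Be N (b η) s v) = Be N (b η) t (Be M (b η) s v) := by
  rw [Be_apply, Be_apply, Be_apply, Be_apply, ← h.rel', h.rel]

theorem Step.ne_Wk (h : Step M N b Tf) (η : E) (k : ℕ) :
    ∀ s, ∀ v ∈ Wk (Be M (b η)) k, Be N (b η) s v ∈ Wk (Be M (b η)) k := by
  induction k with
  | zero => intro s v _; simp [Wk]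
  | succ k ih =>
    intro s v hv
    refine Submodule.iSup_induction (p := fun s => (Wk (Be M (b η)) k).map (Be M (b η) s))
      (motive := fun v => Be N (b η) s v ∈ Wk (Be M (b η)) (k + 1)) hv ?_ ?_ ?_
    · rintro t _ ⟨u, hu, rfl⟩
      rw [← h.be_ne]
      exact PL.Wk_succ_mem (ih t u hu) s
    · rw [map_zero]; exact Submodule.zero_mem _
    · intro x y hx hy; rw [map_add]; exact Submodule.add_mem _ hx hy

theorem Step.ne_Nk (h : Step M N b Tf) (η : E) (k : ℕ) :
    ∀ s, ∀ v ∈ Nk (Be M (b η)) k, Be N (b η) s v ∈ Nk (Be M (b η)) k := by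
  induction k with
  | zero => intro s v hv; rw [mem_Nk_zero] at hv ⊢; rw [hv, map_zero]
  | succ k ih =>
    intro s v hv
    rw [mem_Nk_succ] at hv ⊢
    intro t
    rw [h.be_ne]
    exact ih t _ (hv s)

theorem Step.ne_ainf (h : Step M N b Tf) (η : E) (s : ι) {v : V} (hv : v ∈ Ainf (Be M (b η))) :
    Be N (b η) s v ∈ Ainf (Be M (b η)) :=
  (Submodule.mem_iInf _).2 (fun k => h.ne_Wk η k s v (PL.Ainf_le_Wk _ k hv))

theorem Step.ne_t (h : Step M N b Tf) (η : E) (s : ι) {v : V} (hv : v ∈ T (Be M (b η))) :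
    Be N (b η) s v ∈ T (Be M (b η)) := by
  obtain ⟨k, hk⟩ := mem_T.1 hv
  exact Nk_le_T _ k (h.ne_Nk η k s v hk)

/-- `N_s η` on `Ainf`. -/
def resN (h : Step M N b Tf) (η : E) (s : ι) : End K (Ainf (Be M (b η))) :=
  (Be N (b η) s).restrict (fun _ hv => h.ne_ainf η s hv)

/-- `N_s η` on the core. -/
def coreN (h : Step M N b Tf) (η : E) (s : ι) : End K (CoreM (Be M (b η))) :=
  (Rad (Be M (b η))).mapQ (Rad (Be M (b η))) (resN h η s) (fun _ hv => h.ne_t η s hv)

theorem coreN_mk (h : Step M N b Tf) (η : E) (s : ι) (v : Ainf (Be M (b η))) :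
    coreN h η s ((Rad (Be M (b η))).mkQ v) = (Rad (Be M (b η))).mkQ (resN h η s v) := rfl

theorem core_comm (h : Step M N b Tf) (η : E) (s t : ι) (p : CoreM (Be M (b η))) :
    coreOp (Be M (b η)) t (coreN h η s p) = coreN h η t (coreOp (Be M (b η)) s p) := by
  obtain ⟨v, rfl⟩ := (Rad (Be M (b η))).mkQ_surjective p
  rw [coreN_mk, PL.coreOp_mk, PL.coreOp_mk, coreN_mk]
  congr 1
  exact Subtype.ext (h.be_ne η s t v)

variable [FiniteDimensional K V]

theorem coreN_skew (h : Step M N b Tf) (η : E) (s : ι) (p q : CoreM (Be M (b η))) :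
    BC M (b η) (coreN h η s p) q = - BC M (b η) p (coreN h η s q) := by
  obtain ⟨v, rfl⟩ := (Rad (Be M (b η))).mkQ_surjective p
  obtain ⟨w, rfl⟩ := (Rad (Be M (b η))).mkQ_surjective q
  rw [coreN_mk, coreN_mk, (h.dat η).BC_mk, (h.dat η).BC_mk]
  exact (h.datN η).be_skew s v w

variable [Fintype ι]

/-- The operator `D_f` of the core. -/
theorem Step.exists_D (h : Step M N b Tf) (η : E) :
    ∃ D : End K (CoreM (Be M (b η))), (∀ s p, D (coreOp (Be M (b η)) s p) = coreN h η s p) ∧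
      (∀ s p, D (coreOp (Be M (b η)) s p) = coreOp (Be M (b η)) s (D p)) ∧
      ∀ p q, BC M (b η) (D p) q = BC M (b η) p (D q) := by
  classical
  let F : (ι → CoreM (Be M (b η))) →ₗ[K] CoreM (Be M (b η)) :=
    ∑ s, coreOp (Be M (b η)) s ∘ₗ LinearMap.proj s
  let G : (ι → CoreM (Be M (b η))) →ₗ[K] CoreM (Be M (b η)) :=
    ∑ s, coreN h η s ∘ₗ LinearMap.proj s
  have hF : ∀ f, F f = ∑ s, coreOp (Be M (b η)) s (f s) := by
    intro f; simp [F, LinearMap.sum_apply]
  have hG : ∀ f, G f = ∑ s, coreN h η s (f s) := by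
    intro f; simp [G, LinearMap.sum_apply]
  have hker : LinearMap.ker F ≤ LinearMap.ker G := by
    intro f hf
    rw [LinearMap.mem_ker, hF] at hf
    rw [LinearMap.mem_ker, hG]
    apply PL.core_noker
    intro t
    rw [map_sum, Finset.sum_congr rfl fun s _ => core_comm h η s t (f s), ← map_sum, hf, map_zero]
  obtain ⟨D, hD⟩ := PL.factor F G hker
  have hD' : ∀ f, D (F f) = G f := fun f => LinearMap.congr_fun hD f
  have h1 : ∀ s p, D (coreOp (Be M (b η)) s p) = coreN h η s p := by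
    intro s p
    have e1 : F (Pi.single s p) = coreOp (Be M (b η)) s p := by
      rw [hF, Finset.sum_eq_single s]
      · rw [Pi.single_eq_same]
      · intro t _ hts; rw [Pi.single_eq_of_ne hts, map_zero]
      · intro hs; exact absurd (Finset.mem_univ s) hs
    have e2 : G (Pi.single s p) = coreN h η s p := by
      rw [hG, Finset.sum_eq_single s]
      · rw [Pi.single_eq_same]
      · intro t _ hts; rw [Pi.single_eq_of_ne hts, map_zero]
      · intro hs; exact absurd (Finset.mem_univ s) hs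
    rw [← e1, hD', e2]
  have h2 : ∀ s p, D (coreOp (Be M (b η)) s p) = coreOp (Be M (b η)) s (D p) := by
    intro t p
    obtain ⟨f, rfl⟩ := PL.core_exists (Be M (b η)) p
    rw [h1, map_sum, map_sum, map_sum]
    refine Finset.sum_congr rfl (fun s _ => ?_)
    rw [h1, core_comm]
  refine ⟨D, h1, h2, ?_⟩
  intro p q
  obtain ⟨f, rfl⟩ := PL.core_exists (Be M (b η)) p
  rw [map_sum, map_sum, map_sum, LinearMap.sum_apply, LinearMap.sum_apply]
  refine Finset.sum_congr rfl (fun s _ => ?_)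
  rw [h1, coreN_skew, (h.dat η).BC_op, ← h2, h1]

/-- the alternative on the core. -/
theorem Step.alt [IsAlgClosed K] (h : Step M N b Tf) (h2 : (2 : K) ≠ 0) (η : E)
    (hnil : ∃ k, ∀ s, Be M (b η) s ^ k = 0) (hsum : ∀ ζ, ∑ s, M s ζ = 0) (hDer : DerSp M (b η))
    {D : End K (CoreM (Be M (b η)))}
    (hD1 : ∀ s p, D (coreOp (Be M (b η)) s p) = coreOp (Be M (b η)) s (D p))
    (hD2 : ∀ p q, BC M (b η) (D p) q = BC M (b η) p (D q)) :
    (∃ lam, D.maxGenEigenspace lam = ⊤) ∨ Tame (coreOp (Be M (b η))) D := by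
  obtain ⟨k, hk⟩ := hnil
  exact core_altA (h.dat η).NA_BC (fun s v w => (h.dat η).BC_op s v w)
    ⟨k, fun s => PL.core_pow (Be M (b η)) s k (hk s)⟩
    (fun p => PL.core_sum (Be M (b η)) (fun v => hsum ((b η) v)) p)
    (fun p hp => PL.core_noker (Be M (b η)) p hp)
    ((h.dat η).der_core h2 hDer) hD2 hD1 (Module.End.iSup_maxGenEigenspace_eq_top _)

/-- The action of `M_s (T^j η)` on the core is `Φ_s D^j`. -/
theorem Step.core_pow (h : Step M N b Tf) (η : E) {D : End K (CoreM (Be M (b η)))}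
    (hD : ∀ s p, D (coreOp (Be M (b η)) s p) = coreN h η s p) (j : ℕ) :
    ∀ (s : ι) (v : Ainf (Be M (b η))), ∃ w : Ainf (Be M (b η)),
      (w : V) = Be M (b ((Tf ^ j) η)) s (v : V) ∧
      (Rad (Be M (b η))).mkQ w = coreOp (Be M (b η)) s ((D ^ j) ((Rad (Be M (b η))).mkQ v)) := by
  induction j with
  | zero => intro s v; exact ⟨resOp (Be M (b η)) s v, rfl, rfl⟩
  | succ j ih =>
    intro s v
    obtain ⟨f, hf1, hf2⟩ := PL.Ainf_exists (Be M (b η)) v.2
    let u : Ainf (Be M (b η)) := ∑ t, resN h η t ⟨f t, hf1 t⟩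
    have hu : (u : V) = ∑ t, Be N (b η) t (f t) := by
      change ((∑ t, resN h η t ⟨f t, hf1 t⟩ : Ainf (Be M (b η))) : V) = _
      rw [Submodule.coe_sum]
      rfl
    have hv : v = ∑ t, resOp (Be M (b η)) t ⟨f t, hf1 t⟩ := by
      apply Subtype.ext
      rw [Submodule.coe_sum, ← hf2]
      rfl
    have hmu : (Rad (Be M (b η))).mkQ u = D ((Rad (Be M (b η))).mkQ v) := by
      rw [hv]
      change (Rad (Be M (b η))).mkQ (∑ t, resN h η t ⟨f t, hf1 t⟩) = _
      rw [map_sum, map_sum, map_sum]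
      refine Finset.sum_congr rfl (fun t _ => ?_)
      rw [← coreN_mk, ← PL.coreOp_mk, hD]
    obtain ⟨w, hw1, hw2⟩ := ih s u
    refine ⟨w, ?_, ?_⟩
    · rw [hw1, hu, ← hf2, map_sum, map_sum]
      refine Finset.sum_congr rfl (fun t _ => ?_)
      have e1 : Be N (b η) t (f t) = Be M (b (Tf η)) t (f t) := by
        rw [Be_apply, Be_apply, h.rel]
      have e2 : (Tf ^ (j + 1)) η = Tf ((Tf ^ j) η) := by rw [pow_succ']; rfl
      rw [e1, e2, h.move]
    · rw [hw2, hmu, pow_succ]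
      rfl

/-- If `D` is nilpotent on the core then `T_f` is nilpotent on `η`. -/
theorem Step.nilp (h : Step M N b Tf)
    (hNIL : ∀ η : E, ∀ k, (∀ v, v ∈ Nk (Be M (b η)) k) → η = 0) (η : E)
    {D : End K (CoreM (Be M (b η)))}
    (hD : ∀ s p, D (coreOp (Be M (b η)) s p) = coreN h η s p) (n : ℕ) (hn : D ^ n = 0) :
    (Tf ^ n) η = 0 := by
  obtain ⟨a, ha, -⟩ := PL.Ainf_eq_Wk (Be M (b η))
  obtain ⟨b', hb⟩ := T_eq_Nk (Be M (b η))
  -- one long word maps `V` into `T`
  have hDn : ∀ m, 1 ≤ m → D ^ (n * m) = 0 := by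
    intro m hm
    obtain ⟨m', rfl⟩ := Nat.exists_eq_add_of_le hm
    rw [Nat.mul_add, mul_one, pow_add, hn, zero_mul]
  have w2 : ∀ (s : ι) (l : List ι), l.length = a → ∀ v,
      wd (Be M (b ((Tf ^ n) η))) (s :: l) v ∈ T (Be M (b η)) := by
    intro s l hl v
    rw [h.word]
    have hA : wd (Be M (b η)) l v ∈ Ainf (Be M (b η)) := by
      rw [ha, ← hl]; exact wd_Wk _ l v
    obtain ⟨w, hw1, hw2⟩ := h.core_pow η hD (n * (l.length + 1)) s ⟨_, hA⟩
    rw [hDn _ (Nat.le_add_left 1 _), LinearMap.zero_apply, map_zero] at hw2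
    rw [← hw1]
    exact (Submodule.Quotient.mk_eq_zero (Rad (Be M (b η)))).1 hw2
  have w1 : ∀ (s : ι) (l : List ι), l.length = b' → ∀ v ∈ T (Be M (b η)),
      wd (Be M (b ((Tf ^ n) η))) (s :: l) v = 0 := by
    intro s l hl v hv
    rw [h.word]
    rw [hb, mem_Nk_iff] at hv
    rw [hv l hl, map_zero]
  apply hNIL _ ((b' + 1) + (a + 1))
  intro v
  rw [mem_Nk_iff]
  intro l hl
  rw [← List.take_append_drop (b' + 1) l, wd_append]
  have l1 : (l.take (b' + 1)).length = b' + 1 := by rw [List.length_take]; omega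
  have l2 : (l.drop (b' + 1)).length = a + 1 := by rw [List.length_drop]; omega
  obtain ⟨s1, r1, hr1⟩ := List.exists_cons_of_length_eq_add_one l1
  obtain ⟨s2, r2, hr2⟩ := List.exists_cons_of_length_eq_add_one l2
  rw [hr1] at l1
  rw [hr2] at l2
  rw [List.length_cons] at l1 l2
  rw [hr1, hr2]
  exact w1 s1 r1 (by omega) _ (w2 s2 r2 (by omega) v)

/-- **G1, Step 2** (`T_f` is scalar at `η`, or the core of `(V, M_s η)` with `D_f` is tame). -/
theorem Step.scalar [IsAlgClosed K] (h : Step M N b Tf) (h2 : (2 : K) ≠ 0)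
    (hNIL : ∀ η : E, ∀ k, (∀ v, v ∈ Nk (Be M (b η)) k) → η = 0)
    (hsum : ∀ ζ, ∑ s, M s ζ = 0) (η : E) (hnil : ∃ k, ∀ s, Be M (b η) s ^ k = 0)
    (hDer : DerSp M (b η)) :
    (∃ c : K, Tf η = c • η) ∨
      ∃ D : End K (CoreM (Be M (b η))), (∀ s p, D (coreOp (Be M (b η)) s p) = coreN h η s p) ∧
        (∀ s p, D (coreOp (Be M (b η)) s p) = coreOp (Be M (b η)) s (D p)) ∧
        (∀ p q, BC M (b η) (D p) q = BC M (b η) p (D q)) ∧ Tame (coreOp (Be M (b η))) D := by
  obtain ⟨D, hD1, hD2, hD3⟩ := h.exists_D η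
  rcases h.alt h2 η hnil hsum hDer hD2 hD3 with ⟨c, hc⟩ | ht
  · left
    refine ⟨c, ?_⟩
    have h' := h.shift c
    set n : ℕ := finrank K (CoreM (Be M (b η))) with hn
    have h1 : (D - c • 1) ^ n = 0 := by
      apply LinearMap.ext
      intro v
      have hv : v ∈ D.maxGenEigenspace c := by rw [hc]; trivial
      rw [Module.End.maxGenEigenspace_eq_genEigenspace_finrank,
        Module.End.mem_genEigenspace_nat] at hv
      exact hv
    have h3 : ∀ s p, (D - c • 1) (coreOp (Be M (b η)) s p) = coreN h' η s p := by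
      intro s p
      obtain ⟨v, rfl⟩ := (Rad (Be M (b η))).mkQ_surjective p
      change D (coreOp (Be M (b η)) s ((Rad (Be M (b η))).mkQ v)) -
        c • (coreOp (Be M (b η)) s ((Rad (Be M (b η))).mkQ v)) = _
      rw [hD1, coreN_mk, coreN_mk, PL.coreOp_mk, ← map_smul, ← map_sub]
      congr 1
    have h4 := h'.nil_zero hNIL η n (h'.nilp hNIL η h3 n h1)
    have h5 : Tf η - c • η = 0 := h4
    exact sub_eq_zero.1 h5
  · right
    exact ⟨D, hD1, hD2, hD3, ht⟩

end coreN

end Crest.Agent.R172.SpS
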