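import Crest.Agent.R172.SpS4
import Crest.Agent.R172.Qt3

/-!
Row 172, G1 Step 2 (`T_f` is scalar), part 5: the abstract data `Step` of `SpS4` for an isotropic
element `g` in the context `Qt.Ctx` (helper860): `V = im g`, `M_s = M_s(g)`, `N_s = M_s(f,g)`,
`E = {gᵀ J X₀ g}`, `T_f (gᵀ J X₀ g) = gᵀ J X₀ f`.
-/

set_option autoImplicit false
set_option linter.unusedSectionVars false

namespace Crest.Agent.R172.SpS

open Matrix Module Crest.Agent.R172.FO Crest.Agent.R172.Qt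
open Crest.Agent.R172.St (Nk T mem_T mem_Nk_zero mem_Nk_succ Nk_le_T T_stable T_closed T_eq_Nk)

variable {ι : Type*} [Fintype ι] [DecidableEq ι] {δ : Type*} [Fintype δ] [DecidableEq δ]
variable {k K : Type*} [Field k] [Field K] [Algebra k K]
variable {arm : δ → Fin 3} {J : Matrix ι ι K} {B : Matrix δ δ K}
  {N W : Submodule K (Matrix ι δ K)} {g : Matrix ι δ K}

theorem tdot {α β : Type*} [Fintype α] [Fintype β] (A : Matrix α β K) (a : α → K) (b : β → K) :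
    (Aᵀ *ᵥ a) ⬝ᵥ b = a ⬝ᵥ (A *ᵥ b) := by
  rw [mulVec_transpose, dotProduct_mulVec]

/-- `S = im g` -/
abbrev Sg (g : Matrix ι δ K) : Submodule K (ι → K) := LinearMap.range (Matrix.mulVecLin g)

/-- the surjection `U → S` -/
def gS (g : Matrix ι δ K) : (δ → K) →ₗ[K] Sg g := (Matrix.mulVecLin g).rangeRestrict

theorem gS_coe (g : Matrix ι δ K) (z : δ → K) : ((gS g z : Sg g) : ι → K) = g *ᵥ z := rfl

theorem gS_surj (g : Matrix ι δ K) (x : Sg g) : ∃ z, gS g z = x := by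
  obtain ⟨z, hz⟩ := x.2
  exact ⟨z, Subtype.ext hz⟩

/-- the vector of a functional on `S`. -/
def uu (g : Matrix ι δ K) : Dual K (Sg g) →ₗ[K] (δ → K) where
  toFun ξ := fun d => ξ (gS g (Pi.single d 1))
  map_add' _ _ := rfl
  map_smul' _ _ := rfl

theorem uu_spec (g : Matrix ι δ K) (ξ : Dual K (Sg g)) (y : δ → K) :
    ξ (gS g y) = uu g ξ ⬝ᵥ y := by
  have h1 : y = ∑ d, y d • (Pi.single d (1 : K) : δ → K) := by
    funext i
    rw [Finset.sum_apply, Finset.sum_eq_single i]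
    · simp
    · intro b _ hb
      simp [hb.symm]
    · simp
  conv_lhs => rw [h1, map_sum, map_sum]
  unfold dotProduct
  refine Finset.sum_congr rfl fun d _ => ?_
  rw [map_smul, map_smul, smul_eq_mul, mul_comm]
  rfl

theorem uu_eq (g : Matrix ι δ K) (ξ : Dual K (Sg g)) {w : δ → K}
    (h : ∀ y, ξ (gS g y) = w ⬝ᵥ y) : uu g ξ = w := by
  apply dotProduct_eq
  intro y
  rw [← uu_spec, h]

/-- the tensor of a matrix `A`. -/
def Tn (g : Matrix ι δ K) (A : Matrix δ δ K) : Dual K (Sg g) →ₗ[K] Sg g :=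
  gS g ∘ₗ Matrix.mulVecLin A ∘ₗ uu g

theorem Tn_apply (A : Matrix δ δ K) (ξ : Dual K (Sg g)) :
    Tn g A ξ = gS g (A *ᵥ uu g ξ) := rfl

theorem Tn_pair (A : Matrix δ δ K) (ζ ξ : Dual K (Sg g)) :
    ζ (Tn g A ξ) = uu g ζ ⬝ᵥ (A *ᵥ uu g ξ) := by
  rw [Tn_apply, uu_spec]

theorem uu_R {R : Matrix δ ι K} (hR : g * R * g = g) (ξ : Dual K (Sg g)) :
    uu g ξ = (R * g)ᵀ *ᵥ uu g ξ := by
  apply uu_eq
  intro y
  rw [← vecMul_transpose, transpose_transpose, ← dotProduct_mulVec, ← uu_spec]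
  congr 1
  apply Subtype.ext
  rw [gS_coe, gS_coe, mulVec_mulVec, ← Matrix.mul_assoc, hR]

/-- `M_s = M_s(g)` on `S`. -/
def Mg (arm : δ → Fin 3) (B : Matrix δ δ K) (g : Matrix ι δ K) (s : Fin 3) :
    Dual K (Sg g) →ₗ[K] Sg g := Tn g (E K arm s * B)

/-- the bilinear form on `S` of a matrix `φ` on `U` (`R` a pseudo inverse of `g`). -/
def bil (g : Matrix ι δ K) (R : Matrix δ ι K) :
    Matrix δ δ K →ₗ[K] LinearMap.BilinForm K (Sg g) where
  toFun φ := LinearMap.mk₂ K (fun x y : Sg g => (R *ᵥ (y : ι → K)) ⬝ᵥ (φ *ᵥ (R *ᵥ (x : ι → K))))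
    (by intro x x' y; rw [Submodule.coe_add, mulVec_add, mulVec_add, dotProduct_add])
    (by intro c x y; rw [Submodule.coe_smul, mulVec_smul, mulVec_smul, dotProduct_smul])
    (by intro x y y'; rw [Submodule.coe_add, mulVec_add, add_dotProduct])
    (by intro c x y; rw [Submodule.coe_smul, mulVec_smul, smul_dotProduct])
  map_add' φ ψ := by
    ext x y
    change (R *ᵥ (y : ι → K)) ⬝ᵥ ((φ + ψ) *ᵥ (R *ᵥ (x : ι → K))) =
      (R *ᵥ (y : ι → K)) ⬝ᵥ (φ *ᵥ (R *ᵥ (x : ι → K))) +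
      (R *ᵥ (y : ι → K)) ⬝ᵥ (ψ *ᵥ (R *ᵥ (x : ι → K)))
    rw [add_mulVec, dotProduct_add]
  map_smul' c φ := by
    ext x y
    change (R *ᵥ (y : ι → K)) ⬝ᵥ ((c • φ) *ᵥ (R *ᵥ (x : ι → K))) =
      c • ((R *ᵥ (y : ι → K)) ⬝ᵥ (φ *ᵥ (R *ᵥ (x : ι → K))))
    rw [smul_mulVec, dotProduct_smul]

theorem bil_apply (R : Matrix δ ι K) (φ : Matrix δ δ K) (x y : Sg g) :
    bil g R φ x y = (R *ᵥ (y : ι → K)) ⬝ᵥ (φ *ᵥ (R *ᵥ (x : ι → K))) := rfl

/-- `φ = gᵀ A g`. -/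
theorem bil_gS {R : Matrix δ ι K} (hR : g * R * g = g) (A : Matrix ι ι K) (z y : δ → K) :
    bil g R (gᵀ * A * g) (gS g z) (gS g y) = y ⬝ᵥ ((gᵀ * A * g) *ᵥ z) := by
  rw [bil_apply, gS_coe, gS_coe]
  have e1 : (gᵀ * A * g) *ᵥ (R *ᵥ (g *ᵥ z)) = (gᵀ * A * g) *ᵥ z := by
    rw [mulVec_mulVec, mulVec_mulVec]
    congr 1
    calc gᵀ * A * g * R * g = gᵀ * A * (g * R * g) := by simp only [Matrix.mul_assoc]
      _ = _ := by rw [hR]
  rw [e1, dotProduct_comm, dotProduct_mulVec, dotProduct_mulVec, dotProduct_comm]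
  congr 1
  rw [← mulVec_transpose, ← mulVec_transpose, mulVec_mulVec, mulVec_mulVec]
  congr 1
  have h1 : gᵀ * Rᵀ * gᵀ = gᵀ := by
    rw [← transpose_mul, ← transpose_mul, ← Matrix.mul_assoc, hR]
  calc gᵀ * Rᵀ * (gᵀ * A * g) = (gᵀ * Rᵀ * gᵀ) * A * g := by simp only [Matrix.mul_assoc]
    _ = _ := by rw [h1]

theorem uu_bil {R : Matrix δ ι K} (hR : g * R * g = g) (A : Matrix ι ι K) (z : δ → K) :
    uu g (bil g R (gᵀ * A * g) (gS g z)) = (gᵀ * A * g) *ᵥ z := by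
  apply uu_eq
  intro y
  rw [bil_gS hR, dotProduct_comm]

/-- `M_s η` on `S`. -/
theorem Be_gS {R : Matrix δ ι K} (hR : g * R * g = g) (A : Matrix ι ι K) (s : Fin 3) (z : δ → K) :
    Be (Mg arm B g) (bil g R (gᵀ * A * g)) s (gS g z) =
      gS g ((E K arm s * B) *ᵥ ((gᵀ * A * g) *ᵥ z)) := by
  rw [Be_apply, Mg, Tn_apply, uu_bil hR]

/-- the map `p ↦ gᵀ J X₀ F` -/
def AF (J : Matrix ι ι K) (N : Submodule K (Matrix ι δ K)) (arm : δ → Fin 3) (g F : Matrix ι δ K) :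
    NN arm J N g →ₗ[K] Matrix δ δ K where
  toFun p := gᵀ * J * (p.1.1 * F)
  map_add' p q := by
    change gᵀ * J * ((p.1.1 + q.1.1) * F) = _
    rw [Matrix.add_mul, Matrix.mul_add]
  map_smul' c p := by
    change gᵀ * J * ((c • p.1.1) * F) = c • (gᵀ * J * (p.1.1 * F))
    rw [Matrix.smul_mul, Matrix.mul_smul]

theorem AF_apply (F : Matrix ι δ K) (p : NN arm J N g) : AF J N arm g F p = gᵀ * J * (p.1.1 * F) :=
  rfl

theorem AF_eq (p : NN arm J N g) : AF J N arm g g p = gᵀ * (J * p.1.1) * g := by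
  rw [AF_apply]; simp only [Matrix.mul_assoc]

/-- the space `{gᵀ J X₀ g}` -/
abbrev Xi (J : Matrix ι ι K) (N : Submodule K (Matrix ι δ K)) (arm : δ → Fin 3)
    (g : Matrix ι δ K) : Submodule K (Matrix δ δ K) := LinearMap.range (AF J N arm g g)

theorem Xi_eq (φ : Xi J N arm g) : ∃ p : NN arm J N g, (φ : Matrix δ δ K) = gᵀ * (J * p.1.1) * g := by
  obtain ⟨p, hp⟩ := φ.2
  exact ⟨p, by rw [← hp, AF_eq]⟩

theorem Xi_skew (hJ : Jᵀ = J) (p : NN arm J N g) :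
    (gᵀ * (J * p.1.1) * g)ᵀ = -(gᵀ * (J * p.1.1) * g) := by
  have h1 : p.1.1ᵀ * J = -(J * p.1.1) := (mem_NN.1 p.2).1.eq
  rw [transpose_mul, transpose_mul, transpose_mul, transpose_transpose, hJ, h1]
  simp only [Matrix.neg_mul, Matrix.mul_neg, Matrix.mul_assoc]

/-- `gᵀ J X₀ f = fᵀ J X₀ g` when the matrix is skew. -/
theorem AF_flip (hJ : Jᵀ = J) (p p' : NN arm J N g) {f : Matrix ι δ K}
    (h : gᵀ * J * (p.1.1 * f) = gᵀ * J * (p'.1.1 * g)) :
    gᵀ * J * (p.1.1 * f) = fᵀ * (J * p.1.1) * g := by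
  have h1 : p.1.1ᵀ * J = -(J * p.1.1) := (mem_NN.1 p.2).1.eq
  have h2 : (gᵀ * J * (p.1.1 * f))ᵀ = -(gᵀ * J * (p.1.1 * f)) := by
    have h3 := Xi_skew hJ p'
    rw [h, ← Matrix.mul_assoc, Matrix.mul_assoc gᵀ J]
    exact h3
  have h4 : (gᵀ * J * (p.1.1 * f))ᵀ = -(fᵀ * (J * p.1.1) * g) := by
    rw [transpose_mul, transpose_mul, transpose_mul, transpose_transpose, hJ,
      Matrix.mul_assoc fᵀ, ← Matrix.mul_assoc p.1.1ᵀ, h1]
    simp only [Matrix.neg_mul, Matrix.mul_neg, Matrix.mul_assoc]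
  rw [h4] at h2
  exact (neg_inj.1 h2).symm

theorem EB_symm (hD : Data k arm J B N W) (s : Fin 3) :
    (E K arm s * B)ᵀ = E K arm s * B := by
  rw [transpose_mul, E_transpose, hD.B_symm, hD.B_arm]

/-- **The data `Step` of an isotropic element.** -/
theorem exists_step (h : Ctx k arm J B N W g) {R : Matrix δ ι K} (hR : g * R * g = g)
    {f : Matrix ι δ K} (hf : f ∈ N ⊓ W) :
    ∃ Tf : End K (Xi J N arm g),
      Step (Mg arm B g) (fun s => Tn g (R * (f * E K arm s * B)))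
        (bil g R ∘ₗ (Xi J N arm g).subtype) Tf ∧
      ∀ (φ : Xi J N arm g) (p : NN arm J N g), (φ : Matrix δ δ K) = gᵀ * J * (p.1.1 * g) →
        ((Tf φ : Xi J N arm g) : Matrix δ δ K) = gᵀ * J * (p.1.1 * f) := by
  have hD := h.data
  have hker : LinearMap.ker (AF J N arm g g) ≤ LinearMap.ker (AF J N arm g f) := by
    intro p hp
    rw [LinearMap.mem_ker, AF_apply] at hp ⊢
    exact h.tf_zero hf p.2 hp
  obtain ⟨u, hu⟩ := PL.factor (AF J N arm g g) (AF J N arm g f) hker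
  have hu' : ∀ p, u (AF J N arm g g p) = AF J N arm g f p := fun p => LinearMap.congr_fun hu p
  have hres : ∀ φ ∈ Xi J N arm g, u φ ∈ Xi J N arm g := by
    rintro _ ⟨p, rfl⟩
    obtain ⟨p', hp', e⟩ := h.tf hf p.2
    rw [hu']
    exact ⟨⟨p', hp'⟩, e.symm⟩
  have hTf : ∀ (φ : Xi J N arm g) (p : NN arm J N g), (φ : Matrix δ δ K) = gᵀ * J * (p.1.1 * g) →
      ((u.restrict hres φ : Xi J N arm g) : Matrix δ δ K) = gᵀ * J * (p.1.1 * f) := by
    intro φ p hp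
    rw [LinearMap.coe_restrict_apply, hp, ← AF_apply g p, hu', AF_apply]
  have hsymf : ∀ s, f * E K arm s * B * gᵀ = g * E K arm s * B * fᵀ := fun s =>
    hD.symm_arm hf h.mem s
  have hgR : ∀ s, g * (R * (f * E K arm s * B)) * gᵀ = f * E K arm s * B * gᵀ := by
    intro s
    calc g * (R * (f * E K arm s * B)) * gᵀ = g * R * (f * E K arm s * B * gᵀ) := by
          simp only [Matrix.mul_assoc]
      _ = (g * R * g) * E K arm s * B * fᵀ := by rw [hsymf]; simp only [Matrix.mul_assoc]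
      _ = f * E K arm s * B * gᵀ := by rw [hR, hsymf]
  refine ⟨u.restrict hres, ⟨?_, ?_, ?_, ?_⟩, hTf⟩
  · -- symmetry of `M_s`
    intro s ζ ξ
    rw [Mg, Tn_pair, Tn_pair, dotProduct_mulVec, ← mulVec_transpose, EB_symm hD,
      dotProduct_comm]
  · -- symmetry of `N_s`
    intro s ζ ξ
    rw [Tn_pair, Tn_pair]
    have e : ∀ ζ ξ : Dual K (Sg g), uu g ζ ⬝ᵥ ((R * (f * E K arm s * B)) *ᵥ uu g ξ) =
        (Rᵀ *ᵥ uu g ζ) ⬝ᵥ ((f * E K arm s * B * gᵀ) *ᵥ (Rᵀ *ᵥ uu g ξ)) := by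
      intro ζ ξ
      have h1 : uu g ζ ⬝ᵥ ((R * (f * E K arm s * B)) *ᵥ uu g ξ) =
          ((R * g)ᵀ *ᵥ uu g ζ) ⬝ᵥ ((R * (f * E K arm s * B)) *ᵥ ((R * g)ᵀ *ᵥ uu g ξ)) := by
        rw [← uu_R hR, ← uu_R hR]
      rw [h1, tdot, tdot, mulVec_mulVec, mulVec_mulVec, mulVec_mulVec, mulVec_mulVec]
      congr 2
      rw [transpose_mul]
      calc R * g * (R * (f * E K arm s * B)) * (gᵀ * Rᵀ)
          = R * (g * (R * (f * E K arm s * B)) * gᵀ) * Rᵀ := by simp only [Matrix.mul_assoc]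
        _ = R * (f * E K arm s * B * gᵀ) * Rᵀ := by rw [hgR]
    have hsymm : (f * E K arm s * B * gᵀ)ᵀ = f * E K arm s * B * gᵀ := by
      conv_lhs => rw [hsymf s]
      rw [transpose_mul, transpose_mul, transpose_mul, transpose_transpose, E_transpose,
        hD.B_symm]
      simp only [Matrix.mul_assoc]
      rw [← Matrix.mul_assoc B, ← hD.B_arm, Matrix.mul_assoc]
    rw [e, e, dotProduct_mulVec, ← mulVec_transpose, hsymm, dotProduct_comm]
  · -- skewness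
    intro φ v w
    obtain ⟨p, hp⟩ := Xi_eq φ
    obtain ⟨z, rfl⟩ := gS_surj g v
    obtain ⟨y, rfl⟩ := gS_surj g w
    change bil g R (φ : Matrix δ δ K) (gS g z) (gS g y) =
      - bil g R (φ : Matrix δ δ K) (gS g y) (gS g z)
    rw [hp, bil_gS hR, bil_gS hR, dotProduct_mulVec, ← mulVec_transpose, Xi_skew hD.J_symm,
      neg_mulVec, neg_dotProduct, dotProduct_comm]
  · -- the relation
    intro φ s v
    obtain ⟨p, hp⟩ := φ.2
    obtain ⟨z, rfl⟩ := gS_surj g v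
    obtain ⟨p', hp', e⟩ := h.tf hf p.2
    have hφ : (φ : Matrix δ δ K) = gᵀ * (J * p.1.1) * g := by rw [← hp, AF_eq]
    have hTφ : ((u.restrict hres φ : Xi J N arm g) : Matrix δ δ K) = gᵀ * (J * p'.1) * g := by
      rw [hTf φ p (by rw [← hp, AF_apply]), e]
      simp only [Matrix.mul_assoc]
    change Mg arm B g s (bil g R ((u.restrict hres φ : Xi J N arm g) : Matrix δ δ K) (gS g z)) =
      Tn g (R * (f * E K arm s * B)) (bil g R (φ : Matrix δ δ K) (gS g z))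
    rw [hTφ, hφ, Mg, Tn_apply, Tn_apply, uu_bil hR, uu_bil hR]
    apply Subtype.ext
    rw [gS_coe, gS_coe, mulVec_mulVec, mulVec_mulVec, mulVec_mulVec, mulVec_mulVec]
    congr 1
    have e2 : gᵀ * (J * p'.1) * g = fᵀ * (J * p.1.1) * g := by
      rw [← AF_flip hD.J_symm p ⟨p', hp'⟩ e, e]
      simp only [Matrix.mul_assoc]
    calc g * (E K arm s * B) * (gᵀ * (J * p'.1) * g)
        = (g * E K arm s * B * fᵀ) * (J * p.1.1) * g := by
          rw [e2]; simp only [Matrix.mul_assoc]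
      _ = (g * (R * (f * E K arm s * B)) * gᵀ) * (J * p.1.1) * g := by rw [hgR, hsymf]
      _ = _ := by simp only [Matrix.mul_assoc]

end Crest.Agent.R172.SpS
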