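import Crest.Agent.R172.SpS5
import Crest.Agent.R172.Om1

/-!
Row 172, G1 Step 2 (`T_f` is scalar), part 6: the directions `X_s = x_s J X₀ + X₀ x_s J`
(`x_s` a symmetric tensor of `S = im g`).
* they preserve `S`, `[X_s, X₀] S ⊆ S`;
* `dp = (X₀.map d, X.map d - [X_s, X]) ∈ NN` for `d` realising `(X, ξ)` with `dg = X g`;
* for `d` realising `(X, ξ)`, `g ξᵀ = X g`, the difference `dg - X g` lies in `Kiso`.
-/

set_option autoImplicit false
set_option linter.unusedSectionVars false

namespace Crest.Agent.R172.SpS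

open Matrix Module Crest.Agent.R172.FO Crest.Agent.R172.Qt
open Crest.Agent.R172.Om (Kiso)

variable {ι : Type*} [Fintype ι] [DecidableEq ι] {δ : Type*} [Fintype δ] [DecidableEq δ]
variable {k K : Type*} [Field k] [Field K] [Algebra k K]
variable {arm : δ → Fin 3} {J : Matrix ι ι K} {B : Matrix δ δ K}
  {N W : Submodule K (Matrix ι δ K)} {g : Matrix ι δ K}

/-- the direction `x J P + P x J` -/
def XX (J x P : Matrix ι ι K) : Matrix ι ι K := x * J * P + P * x * J

/-- a symmetric tensor with values in `im g` -/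
structure SymS (g : Matrix ι δ K) (R : Matrix δ ι K) (x : Matrix ι ι K) : Prop where
  symm : xᵀ = x
  im : g * (R * x) = x

theorem SymS.right {R : Matrix δ ι K} {x : Matrix ι ι K} (h : SymS g R x) :
    x = (R * x)ᵀ * gᵀ := by
  rw [← transpose_mul, h.im, h.symm]

theorem SymS.kill {R : Matrix δ ι K} {x : Matrix ι ι K} (h : SymS g R x) {α : Type*}
    {F : Matrix ι α K} (hF : gᵀ * J * F = 0) : x * J * F = 0 := by
  rw [h.right]
  calc (R * x)ᵀ * gᵀ * J * F = (R * x)ᵀ * (gᵀ * J * F) := by simp only [Matrix.mul_assoc]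
    _ = 0 := by rw [hF, Matrix.mul_zero]

theorem skw_XX (hJ : Jᵀ = J) {x P : Matrix ι ι K} (hx : xᵀ = x) (hP : Skw J P) :
    Skw J (XX J x P) := by
  unfold Skw XX
  have h1 := hP.eq
  rw [transpose_add, transpose_mul, transpose_mul, transpose_mul, transpose_mul, hx, hJ,
    Matrix.add_mul, Matrix.mul_add]
  have e1 : Pᵀ * (J * x) * J = -(J * (P * x * J)) := by
    rw [← Matrix.mul_assoc, h1]; simp only [Matrix.neg_mul, Matrix.mul_assoc]
  have e2 : J * (x * Pᵀ) * J = -(J * (x * J * P)) := by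
    calc J * (x * Pᵀ) * J = J * x * (Pᵀ * J) := by simp only [Matrix.mul_assoc]
      _ = _ := by rw [h1]; simp only [Matrix.mul_neg, Matrix.mul_assoc]
  rw [e1, e2]
  abel

/-- `X g = x J P g` -/
theorem XX_g {R : Matrix δ ι K} {x P : Matrix ι ι K} (hx : SymS g R x) (hiso : gᵀ * J * g = 0) :
    XX J x P * g = x * J * P * g := by
  unfold XX
  have : P * x * J * g = P * (x * J * g) := by simp only [Matrix.mul_assoc]
  rw [Matrix.add_mul, this, hx.kill hiso, Matrix.mul_zero, add_zero]

/-- `X g = g Γ` -/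
theorem XX_g' {R : Matrix δ ι K} {x P : Matrix ι ι K} (hx : SymS g R x) (hiso : gᵀ * J * g = 0) :
    XX J x P * g = g * (R * x * J * P * g) := by
  rw [XX_g hx hiso]
  conv_lhs => rw [← hx.im]
  simp only [Matrix.mul_assoc]

/-- `[X, P] g = x J P P g` -/
theorem XX_comm {R : Matrix δ ι K} {x P : Matrix ι ι K} (hx : SymS g R x)
    (hiso : gᵀ * J * g = 0) : XX J x P * P * g - P * (XX J x P * g) = x * J * P * P * g := by
  rw [XX_g hx hiso]
  unfold XX
  simp only [Matrix.add_mul, Matrix.mul_assoc]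
  abel

/-- `gᵀ J X = gᵀ J P x J` -/
theorem gJ_XX (hJ : Jᵀ = J) {R : Matrix δ ι K} {x P : Matrix ι ι K} (hx : SymS g R x)
    (hP : Skw J P) (hiso : gᵀ * J * g = 0) : gᵀ * J * XX J x P = gᵀ * J * P * x * J := by
  have h1 : gᵀ * J * (XX J x P) = -((XX J x P * g)ᵀ * J) := by
    rw [transpose_mul, Matrix.mul_assoc gᵀ (XX J x P)ᵀ, (skw_XX hJ hx.symm hP).eq,
      Matrix.mul_neg, neg_neg, Matrix.mul_assoc]
  rw [h1, XX_g hx hiso, transpose_mul, transpose_mul, transpose_mul, hx.symm, hJ]
  calc -(gᵀ * (Pᵀ * (J * x)) * J) = -(gᵀ * (Pᵀ * J) * x * J) := by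
        simp only [Matrix.mul_assoc]
    _ = _ := by rw [hP.eq]; simp only [Matrix.mul_neg, Matrix.neg_mul, neg_neg, Matrix.mul_assoc]

theorem act_map_der (arm : δ → Fin 3) (X : Fin 3 → Matrix ι ι K) (F : Matrix ι δ K)
    (d : Derivation k K K) :
    (act arm X F).map d = act arm (fun s => (X s).map d) F + act arm X (F.map d) := by
  unfold act
  have h1 : ∀ (T : Finset (Fin 3)) (G : Fin 3 → Matrix ι δ K),
      (∑ s ∈ T, G s).map d = ∑ s ∈ T, (G s).map d := by
    intro T G
    ext i j
    simp [Matrix.sum_apply, map_sum]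
  rw [h1, ← Finset.sum_add_distrib]
  refine Finset.sum_congr rfl fun s _ => ?_
  rw [map_mul_der, map_mul_der, E_map_der, Matrix.mul_zero, add_zero, Matrix.add_mul]

/-- the derivative of an element of `NN` in the moving frame is in `NN`. -/
theorem NN_der (hD : Data k arm J B N W) {R : Matrix δ ι K}
    {p : Matrix ι ι K × (Fin 3 → Matrix ι ι K)} (hp : p ∈ NN arm J N g)
    (hiso : gᵀ * J * g = 0) {x : Fin 3 → Matrix ι ι K} (hx : ∀ s, SymS g R (x s))
    {ξ : Matrix δ δ K} {d : Derivation k K K}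
    (hd : Realises arm N W (fun s => XX J (x s) p.1) ξ d)
    {Γ : Matrix δ δ K} (hdg : g.map d = g * Γ) :
    (p.1.map d, fun s => (p.2 s).map d - (XX J (x s) p.1 * p.2 s - p.2 s * XX J (x s) p.1)) ∈
      NN arm J N g := by
  have hX : ∀ s, Skw J (XX J (x s) p.1) := fun s => skw_XX hD.J_symm (hx s).symm hp.1
  have hst := hp.2.1
  refine ⟨hp.1.map_der d (hD.J_const d), ⟨fun s => ?_, fun F hF => ?_⟩, fun s => ?_⟩
  · exact ((hst.skw s).map_der d (hD.J_const d)).sub ((hX s).comm (hst.skw s))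
  · have h1 : act arm p.2 F ∈ N := hst.pres F hF
    have h2 := hd.onN _ h1
    rw [act_map_der] at h2
    have h3 : act arm p.2 (F.map d) = act arm p.2 (F.map d - act arm (fun s => XX J (x s) p.1) F) +
        act arm p.2 (act arm (fun s => XX J (x s) p.1) F) := by
      rw [← act_add_right, sub_add_cancel]
    have h4 := hst.pres _ (hd.onN F hF)
    rw [h3, act_act', act_act'] at h2
    have h5 : act arm (fun s => (p.2 s).map d -
        (XX J (x s) p.1 * p.2 s - p.2 s * XX J (x s) p.1)) F =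
        (act arm (fun s => (p.2 s).map d) F +
          (act arm p.2 (F.map d - act arm (fun s => XX J (x s) p.1) F) +
            act arm (fun s => p.2 s * XX J (x s) p.1) F) -
          act arm (fun s => XX J (x s) p.1 * p.2 s) F) -
          act arm p.2 (F.map d - act arm (fun s => XX J (x s) p.1) F) := by
      rw [act_sub_left arm (fun s => (p.2 s).map d), act_sub_left arm
        (fun s => XX J (x s) p.1 * p.2 s)]
      abel
    change act arm (fun s => (p.2 s).map d -
      (XX J (x s) p.1 * p.2 s - p.2 s * XX J (x s) p.1)) F ∈ N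
    rw [h5]
    exact N.sub_mem h2 h4
  · obtain ⟨C, hC⟩ := hp.2.2 s
    have h1 : (p.1.map d - (p.2 s).map d) * g = g * (Γ * C + C.map d - C * Γ) := by
      have h2 : ((p.1 - p.2 s) * g).map d = (g * C).map d := by rw [hC]
      rw [map_mul_der, map_mul_der, map_sub_der, hdg] at h2
      have h3 : (p.1 - p.2 s) * (g * Γ) = g * (C * Γ) := by
        rw [← Matrix.mul_assoc, hC, Matrix.mul_assoc]
      rw [h3] at h2
      have h4 : (p.1.map d - (p.2 s).map d) * g = g * Γ * C + g * C.map d - g * (C * Γ) := by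
        rw [← h2]; abel
      rw [h4]
      simp only [Matrix.mul_add, Matrix.mul_sub, Matrix.mul_assoc]
    set Γs : Matrix δ δ K := R * x s * J * p.1 * g with hΓs
    have hXg : XX J (x s) p.1 * g = g * Γs := XX_g' (hx s) hiso
    have h5 : p.2 s * g = p.1 * g - g * C := by
      rw [← hC, Matrix.sub_mul]; abel
    have h6 : XX J (x s) p.1 * p.1 * g - p.1 * (XX J (x s) p.1 * g) =
        g * (R * x s * J * p.1 * p.1 * g) := by
      rw [XX_comm (hx s) hiso]
      conv_lhs => rw [← (hx s).im]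
      simp only [Matrix.mul_assoc]
    refine ⟨(Γ * C + C.map d - C * Γ) + (R * x s * J * p.1 * p.1 * g) - Γs * C + C * Γs, ?_⟩
    have h7 : (XX J (x s) p.1 * p.2 s - p.2 s * XX J (x s) p.1) * g =
        g * (R * x s * J * p.1 * p.1 * g) - g * (Γs * C) + g * (C * Γs) := by
      have e1 : XX J (x s) p.1 * p.2 s * g = XX J (x s) p.1 * p.1 * g - g * (Γs * C) := by
        rw [Matrix.mul_assoc, h5, Matrix.mul_sub, ← Matrix.mul_assoc _ g C, hXg]
        simp only [Matrix.mul_assoc]
      have e2 : p.2 s * XX J (x s) p.1 * g = p.1 * (XX J (x s) p.1 * g) - g * (C * Γs) := by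
        rw [Matrix.mul_assoc, hXg, ← Matrix.mul_assoc, h5, Matrix.sub_mul]
        simp only [Matrix.mul_assoc]
      rw [Matrix.sub_mul, e1, e2, ← h6]
      abel
    change (p.1.map d - ((p.2 s).map d -
      (XX J (x s) p.1 * p.2 s - p.2 s * XX J (x s) p.1))) * g = _
    have h8 : (p.1.map d - ((p.2 s).map d -
      (XX J (x s) p.1 * p.2 s - p.2 s * XX J (x s) p.1))) * g =
      (p.1.map d - (p.2 s).map d) * g + (XX J (x s) p.1 * p.2 s - p.2 s * XX J (x s) p.1) * g := by
      rw [← Matrix.add_mul]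
      congr 1
      abel
    rw [h8, h1, h7]
    simp only [Matrix.mul_add, Matrix.mul_sub]
    abel

/-- the difference `dg - X g` lies in `Kiso`. -/
theorem kiso_of (h : Ctx k arm J B N W g) (h2 : (2 : K) ≠ 0) {R : Matrix δ ι K}
    (hR : g * R * g = g)
    {p : Matrix ι ι K × (Fin 3 → Matrix ι ι K)} (hp : p ∈ NN arm J N g)
    {x : Fin 3 → Matrix ι ι K} (hx : ∀ s, SymS g R (x s))
    {ξ : Matrix δ δ K} (hξ : ξᵀ * B + B * ξ = 0)
    (hξg : g * ξᵀ = act arm (fun s => XX J (x s) p.1) g) {d : Derivation k K K}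
    (hd : Realises arm N W (fun s => XX J (x s) p.1) ξ d) :
    g.map d - act arm (fun s => XX J (x s) p.1) g ∈ Kiso J N W := by
  have hD := h.data
  set X : Fin 3 → Matrix ι ι K := fun s => XX J (x s) p.1 with hXdef
  have hX : ∀ s, Skw J (X s) := fun s => skw_XX hD.J_symm (hx s).symm hp.1
  have hXg : ∀ s, X s * g = g * (R * x s * J * p.1 * g) := fun s => XX_g' (hx s) h.iso
  have hact : act arm X g = g * ∑ s, (R * x s * J * p.1 * g) * E K arm s :=
    act_mul_const arm X g hXg
  refine ⟨⟨hd.onN g h.memN, ?_⟩, ?_⟩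
  · have := hd.onW g h.memW
    rwa [hξg] at this
  intro f hf
  have hgf := h.perp f hf
  set f' := f.map d with hf'
  have ha : f' - f * ξᵀ ∈ W := hd.onW f hf.2
  have hν : f' - act arm X f ∈ N := hd.onN f hf.1
  -- the derivative of `gᵀ J f = 0`
  have h1 : (g.map d)ᵀ * J * f + gᵀ * J * f' = 0 := by
    have h0 : (gᵀ * J * f).map d = 0 := by rw [hgf]; ext i j; simp
    rw [map_mul_der, map_mul_der, hD.J_const, Matrix.mul_zero, add_zero, map_transpose_der] at h0
    exact h0
  have h3 : (act arm X g)ᵀ * J * f = 0 := by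
    rw [hact, transpose_mul, Matrix.mul_assoc, Matrix.mul_assoc, ← Matrix.mul_assoc gᵀ, hgf,
      Matrix.mul_zero]
  have h4 : gᵀ * J * f' = gᵀ * J * (f' - f * ξᵀ) := by
    rw [Matrix.mul_sub, ← Matrix.mul_assoc, hgf, Matrix.zero_mul, sub_zero]
  have h5 : gᵀ * J * act arm X f = 0 := by
    unfold act
    rw [Matrix.mul_sum]
    refine Finset.sum_eq_zero fun s _ => ?_
    rw [← Matrix.mul_assoc, perp_stable (hX s) (hXg s) hgf, Matrix.zero_mul]
  have h6 : gᵀ * J * (f' - f * ξᵀ) = gᵀ * J * (f' - act arm X f) := by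
    rw [← h4, Matrix.mul_sub, h5, sub_zero]
  -- the functional
  have h7 : fn arm J B N g (f' - act arm X f) = 0 := by
    refine LinearMap.ext fun q => ?_
    rw [fn_apply, LinearMap.zero_apply]
    have hNq := q.2.2.1.pres g h.memN
    have e0 : Pg arm g q.1 = q.1.1 * g - act arm q.1.2 g := rfl
    rw [e0, pair_sub_left, h.pair_N hNq hν, sub_zero]
    have e1 : f' - act arm X f = (f' - f * ξᵀ) + (f * ξᵀ - act arm X f) := by abel
    rw [e1, pair_add_right, pair_W hD (h.W_mul _ h.memW) ha, zero_add, pair_sub_right]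
    have e2 : pair J B (q.1.1 * g) (f * ξᵀ) = - pair J B (q.1.1 * act arm X g) f := by
      have e3 : ξᵀ * B = -(B * ξ) := eq_neg_of_add_eq_zero_left hξ
      unfold pair
      rw [← hξg]
      have e4 : (q.1.1 * g)ᵀ * J * (f * ξᵀ) * B = -((q.1.1 * g)ᵀ * J * f * B * ξ) := by
        calc (q.1.1 * g)ᵀ * J * (f * ξᵀ) * B = (q.1.1 * g)ᵀ * J * f * (ξᵀ * B) := by
              simp only [Matrix.mul_assoc]
          _ = _ := by rw [e3]; simp only [Matrix.mul_neg, Matrix.mul_assoc]
      have e5 : (q.1.1 * (g * ξᵀ))ᵀ * J * f * B = ξ * ((q.1.1 * g)ᵀ * J * f * B) := by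
        rw [← Matrix.mul_assoc, transpose_mul _ ξᵀ, transpose_transpose]
        simp only [Matrix.mul_assoc]
      rw [e4, e5, trace_neg, trace_mul_comm]
    have e6 : pair J B (q.1.1 * g) (act arm X f) = - pair J B (act arm X (q.1.1 * g)) f := by
      rw [pair_act hD.B_arm hX, neg_neg]
    rw [e2, e6]
    have e7 : -pair J B (q.1.1 * act arm X g) f - -pair J B (act arm X (q.1.1 * g)) f =
        pair J B (act arm X (q.1.1 * g) - q.1.1 * act arm X g) f := by
      rw [pair_sub_left]; ring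
    have e8 : act arm X (q.1.1 * g) - q.1.1 * act arm X g =
        ∑ s, (X s * q.1.1 - q.1.1 * X s) * g * E K arm s := by
      unfold act
      rw [Matrix.mul_sum, ← Finset.sum_sub_distrib]
      refine Finset.sum_congr rfl fun s _ => ?_
      simp only [Matrix.sub_mul, Matrix.mul_assoc]
    rw [e7, e8, Ctx.pair_sum_left]
    refine Finset.sum_eq_zero fun s _ => ?_
    -- the symmetric tensor `M_s(f,g)`
    set Ns : Matrix ι ι K := f * E K arm s * B * gᵀ with hNs
    obtain ⟨D0, hD0⟩ := h.psi_SS hf s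
    have hNsym : Nsᵀ = Ns := by
      have e9 : f * E K arm s * B * gᵀ = g * E K arm s * B * fᵀ := hD.symm_arm hf h.mem s
      conv_lhs => rw [hNs, e9]
      rw [transpose_mul, transpose_mul, transpose_mul, transpose_transpose, E_transpose,
        hD.B_symm, hNs]
      simp only [Matrix.mul_assoc]
      rw [← Matrix.mul_assoc B, ← hD.B_arm, Matrix.mul_assoc]
    have hNR : g * (R * Ns * Rᵀ) * gᵀ = Ns := by
      have e10 : gᵀ * Rᵀ * gᵀ = gᵀ := by
        rw [← transpose_mul, ← transpose_mul, ← Matrix.mul_assoc, hR]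
      have e11 : Ns = g * D0 * gᵀ := hD0
      rw [e11]
      calc g * (R * (g * D0 * gᵀ) * Rᵀ) * gᵀ = (g * R * g) * D0 * (gᵀ * Rᵀ * gᵀ) := by
            simp only [Matrix.mul_assoc]
        _ = _ := by rw [hR, e10]
    set Ds : Matrix δ δ K := R * Ns * Rᵀ with hDs
    have hDsym : Dsᵀ = Ds := by
      rw [hDs, transpose_mul, transpose_mul, transpose_transpose, hNsym]
      exact (Matrix.mul_assoc R Ns Rᵀ).symm
    set G : Matrix δ δ K := gᵀ * J * (X s * q.1.1 - q.1.1 * X s) * g with hG
    have hGs : Gᵀ = -G := by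
      have a1 : gᵀ * J * (X s * q.1.1) * g = gᵀ * (J * p.1) * x s * (J * q.1.1) * g := by
        calc gᵀ * J * (X s * q.1.1) * g = (gᵀ * J * X s) * (q.1.1 * g) := by
              simp only [Matrix.mul_assoc]
          _ = _ := by
            rw [hXdef]
            simp only
            rw [gJ_XX hD.J_symm (hx s) hp.1 h.iso]
            simp only [Matrix.mul_assoc]
      have a2 : gᵀ * J * (q.1.1 * X s) * g = gᵀ * (J * q.1.1) * x s * (J * p.1) * g := by
        calc gᵀ * J * (q.1.1 * X s) * g = gᵀ * J * q.1.1 * (X s * g) := by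
              simp only [Matrix.mul_assoc]
          _ = _ := by
            rw [hXdef]
            simp only
            rw [XX_g (hx s) h.iso]
            simp only [Matrix.mul_assoc]
      have a3 : G = gᵀ * (J * p.1) * x s * (J * q.1.1) * g -
          gᵀ * (J * q.1.1) * x s * (J * p.1) * g := by
        rw [hG, Matrix.mul_sub, Matrix.sub_mul, a1, a2]
      have a4 : ∀ P Q : Matrix ι ι K, Skw J P → Skw J Q →
          (gᵀ * (J * P) * x s * (J * Q) * g)ᵀ = gᵀ * (J * Q) * x s * (J * P) * g := by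
        intro P Q hP hQ
        have b1 : (J * P)ᵀ = -(J * P) := by rw [transpose_mul, hD.J_symm, hP.eq]
        have b2 : (J * Q)ᵀ = -(J * Q) := by rw [transpose_mul, hD.J_symm, hQ.eq]
        rw [transpose_mul _ g, transpose_mul _ (J * Q), transpose_mul _ (x s),
          transpose_mul _ (J * P), transpose_transpose, b1, b2, (hx s).symm]
        simp only [Matrix.neg_mul, Matrix.mul_neg, neg_neg, Matrix.mul_assoc]
      rw [a3, transpose_sub, a4 _ _ hp.1 q.2.1, a4 _ _ q.2.1 hp.1]
      abel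
    have hfin : pair J B ((X s * q.1.1 - q.1.1 * X s) * g * E K arm s) f = trace (Gᵀ * Ds) := by
      have c0 : pair J B ((X s * q.1.1 - q.1.1 * X s) * g * E K arm s) f =
          pair J B ((X s * q.1.1 - q.1.1 * X s) * g) (f * E K arm s) := pair_E hD.B_arm s _ _
      rw [c0]
      unfold pair
      rw [transpose_mul]
      have c1 : gᵀ * (X s * q.1.1 - q.1.1 * X s)ᵀ * J * (f * E K arm s) * B =
          gᵀ * ((X s * q.1.1 - q.1.1 * X s)ᵀ * J * (f * E K arm s * B)) := by
        simp only [Matrix.mul_assoc]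
      rw [c1, trace_mul_comm]
      have c2 : (X s * q.1.1 - q.1.1 * X s)ᵀ * J * (f * E K arm s * B) * gᵀ =
          ((X s * q.1.1 - q.1.1 * X s)ᵀ * J * g * Ds) * gᵀ := by
        calc (X s * q.1.1 - q.1.1 * X s)ᵀ * J * (f * E K arm s * B) * gᵀ =
              (X s * q.1.1 - q.1.1 * X s)ᵀ * J * Ns := by rw [hNs]; simp only [Matrix.mul_assoc]
          _ = _ := by
            conv_lhs => rw [← hNR]
            simp only [Matrix.mul_assoc]
      rw [c2, trace_mul_comm]
      congr 1
      rw [hG, transpose_mul, transpose_mul, transpose_mul, transpose_transpose, hD.J_symm]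
      simp only [Matrix.mul_assoc]
    rw [hfin]
    have hz : trace (Gᵀ * Ds) = - trace (Gᵀ * Ds) := by
      calc trace (Gᵀ * Ds) = trace ((Gᵀ * Ds)ᵀ) := (trace_transpose _).symm
        _ = trace (Ds * G) := by rw [transpose_mul, transpose_transpose, hDsym]
        _ = trace (G * Ds) := trace_mul_comm _ _
        _ = - trace (Gᵀ * Ds) := by rw [hGs, Matrix.neg_mul, trace_neg, neg_neg]
    have hz2 : (2 : K) * trace (Gᵀ * Ds) = 0 := by
      rw [two_mul]
      nth_rewrite 1 [hz]
      ring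
    exact (mul_eq_zero.1 hz2).resolve_left h2
  have h8 := h.onto ha hν h6 h7
  rw [h4, h8, add_zero] at h1
  rw [transpose_sub, Matrix.sub_mul, Matrix.sub_mul, h1, h3, sub_zero]

end Crest.Agent.R172.SpS
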