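import Crest.Agent.R172.SpHw

/-!
R172, spinor translation, part 6: products of Fock modules.
-/

set_option autoImplicit false
set_option linter.unusedSectionVars false

namespace Crest.Agent.R172.Sp

open Matrix Kronecker Crest.AlgebraR.SpinSaturation Crest.Agent.R172.SoGrade
open Crest.Agent.R172.Star Crest.Agent.R172.Fwd
open scoped TensorProduct ComplexConjugate

variable {n : ℕ} {D₁ D₂ : Type}

/-- the involution on a disjoint sum -/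
def Inv.sum (s₁ : Inv D₁) (s₂ : Inv D₂) : Inv (D₁ ⊕ D₂) where
  σ := Sum.map s₁.σ s₂.σ
  inv := by rintro (d | d) <;> simp [s₁.inv, s₂.inv]

@[simp] theorem Inv.sum_inl (s₁ : Inv D₁) (s₂ : Inv D₂) (d : D₁) :
    (s₁.sum s₂).σ (Sum.inl d) = Sum.inl (s₁.σ d) := rfl
@[simp] theorem Inv.sum_inr (s₁ : Inv D₁) (s₂ : Inv D₂) (d : D₂) :
    (s₁.sum s₂).σ (Sum.inr d) = Sum.inr (s₂.σ d) := rfl

/-- the product Fock space -/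
def prodCAR (C₁ : CAR (Fin n × D₁)) (C₂ : CAR (Fin n × D₂)) : CAR (Fin n × (D₁ ⊕ D₂)) :=
  (C₁.sum C₂).map (Equiv.prodSumDistrib (Fin n) D₁ D₂).symm

variable (C₁ : CAR (Fin n × D₁)) (C₂ : CAR (Fin n × D₂)) (s₁ : Inv D₁) (s₂ : Inv D₂)

theorem gam_inl (p : VI n) (d : D₁) :
    gam (prodCAR C₁ C₂) (s₁.sum s₂) p (Sum.inl d) =
      (gam C₁ s₁ p d ⊗ₖ (1 : Matrix C₂.ι C₂.ι ℂ) : Matrix (C₁.ι × C₂.ι) (C₁.ι × C₂.ι) ℂ) := by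
  rcases p with i | i
  · change (C₁.c (i, d) ⊗ₖ (1 : Matrix C₂.ι C₂.ι ℂ))ᴴ = _
    rw [Matrix.conjTranspose_kronecker, Matrix.conjTranspose_one]
    rfl
  · rfl

theorem gam_inr (p : VI n) (d : D₂) :
    gam (prodCAR C₁ C₂) (s₁.sum s₂) p (Sum.inr d) =
      (C₁.Z ⊗ₖ gam C₂ s₂ p d : Matrix (C₁.ι × C₂.ι) (C₁.ι × C₂.ι) ℂ) := by
  rcases p with i | i
  · change (C₁.Z ⊗ₖ C₂.c (i, d))ᴴ = _
    rw [Matrix.conjTranspose_kronecker, C₁.ZH]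
    rfl
  · rfl

variable [Fintype D₁] [Fintype D₂]

theorem rho_prod (X : Matrix (VI n) (VI n) ℂ) :
    rho (prodCAR C₁ C₂) (s₁.sum s₂) X =
      (rho C₁ s₁ X ⊗ₖ (1 : Matrix C₂.ι C₂.ι ℂ) + (1 : Matrix C₁.ι C₁.ι ℂ) ⊗ₖ rho C₂ s₂ X :
        Matrix (C₁.ι × C₂.ι) (C₁.ι × C₂.ι) ℂ) := by
  have h1 : ∀ (d : D₁) (p q : VI n),
      gam (prodCAR C₁ C₂) (s₁.sum s₂) q (Sum.inl d) *
        gam (prodCAR C₁ C₂) (s₁.sum s₂) (sw p) ((s₁.sum s₂).σ (Sum.inl d)) =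
      ((gam C₁ s₁ q d * gam C₁ s₁ (sw p) (s₁.σ d)) ⊗ₖ (1 : Matrix C₂.ι C₂.ι ℂ) :
        Matrix (C₁.ι × C₂.ι) (C₁.ι × C₂.ι) ℂ) := by
    intro d p q
    rw [Inv.sum_inl, gam_inl, gam_inl]
    refine (Matrix.mul_kronecker_mul (gam C₁ s₁ q d) (gam C₁ s₁ (sw p) (s₁.σ d))
      (1 : Matrix C₂.ι C₂.ι ℂ) 1).symm.trans ?_
    rw [mul_one]
  have h2 : ∀ (d : D₂) (p q : VI n),
      gam (prodCAR C₁ C₂) (s₁.sum s₂) q (Sum.inr d) *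
        gam (prodCAR C₁ C₂) (s₁.sum s₂) (sw p) ((s₁.sum s₂).σ (Sum.inr d)) =
      ((1 : Matrix C₁.ι C₁.ι ℂ) ⊗ₖ (gam C₂ s₂ q d * gam C₂ s₂ (sw p) (s₂.σ d)) :
        Matrix (C₁.ι × C₂.ι) (C₁.ι × C₂.ι) ℂ) := by
    intro d p q
    rw [Inv.sum_inr, gam_inr, gam_inr]
    refine (Matrix.mul_kronecker_mul C₁.Z C₁.Z (gam C₂ s₂ q d)
      (gam C₂ s₂ (sw p) (s₂.σ d))).symm.trans ?_
    rw [C₁.ZZ]
  have k1 : ∀ (t : ℂ) (A : Matrix C₁.ι C₁.ι ℂ),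
      t • (A ⊗ₖ (1 : Matrix C₂.ι C₂.ι ℂ)) = (t • A) ⊗ₖ (1 : Matrix C₂.ι C₂.ι ℂ) := by
    intro t A; rw [Matrix.smul_kronecker]
  have k2 : ∀ (t : ℂ) (A : Matrix C₂.ι C₂.ι ℂ),
      t • ((1 : Matrix C₁.ι C₁.ι ℂ) ⊗ₖ A) = (1 : Matrix C₁.ι C₁.ι ℂ) ⊗ₖ (t • A) := by
    intro t A; rw [Matrix.kronecker_smul]
  have s1 : ∀ {κ : Type} (S : Finset κ) (f : κ → Matrix C₁.ι C₁.ι ℂ),
      ∑ k ∈ S, (f k ⊗ₖ (1 : Matrix C₂.ι C₂.ι ℂ)) = (∑ k ∈ S, f k) ⊗ₖ (1 : Matrix C₂.ι C₂.ι ℂ) := by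
    intro κ S f
    classical
    induction S using Finset.induction_on with
    | empty => simp
    | insert a S ha ih => rw [Finset.sum_insert ha, Finset.sum_insert ha, ih, Matrix.add_kronecker]
  have s2 : ∀ {κ : Type} (S : Finset κ) (f : κ → Matrix C₂.ι C₂.ι ℂ),
      ∑ k ∈ S, ((1 : Matrix C₁.ι C₁.ι ℂ) ⊗ₖ f k) = (1 : Matrix C₁.ι C₁.ι ℂ) ⊗ₖ (∑ k ∈ S, f k) := by
    intro κ S f
    classical
    induction S using Finset.induction_on with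
    | empty => simp
    | insert a S ha ih => rw [Finset.sum_insert ha, Finset.sum_insert ha, ih, Matrix.kronecker_add]
  rw [rho, rho, rho, Fintype.sum_sum_type, smul_add]
  simp only [h1, h2]
  have e1 : ∑ d : D₁, ∑ p : VI n, ∑ q : VI n, X q p •
      ((gam C₁ s₁ q d * gam C₁ s₁ (sw p) (s₁.σ d)) ⊗ₖ (1 : Matrix C₂.ι C₂.ι ℂ)) =
      (∑ d : D₁, ∑ p : VI n, ∑ q : VI n, X q p •
      (gam C₁ s₁ q d * gam C₁ s₁ (sw p) (s₁.σ d))) ⊗ₖ (1 : Matrix C₂.ι C₂.ι ℂ) := by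
    simp only [k1, s1]
  have e2 : ∑ d : D₂, ∑ p : VI n, ∑ q : VI n, X q p •
      ((1 : Matrix C₁.ι C₁.ι ℂ) ⊗ₖ (gam C₂ s₂ q d * gam C₂ s₂ (sw p) (s₂.σ d))) =
      (1 : Matrix C₁.ι C₁.ι ℂ) ⊗ₖ (∑ d : D₂, ∑ p : VI n, ∑ q : VI n, X q p •
      (gam C₂ s₂ q d * gam C₂ s₂ (sw p) (s₂.σ d))) := by
    simp only [k2, s2]
  rw [← k1, ← k2]
  exact congrArg₂ (fun x y => (1 / 2 : ℂ) • x + (1 / 2 : ℂ) • y) e1 e2

/-- restriction of `F` to the first block of columns -/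
def resL (F : Matrix (VI n) (D₁ ⊕ D₂) ℂ) : Matrix (VI n) D₁ ℂ := fun p d => F p (Sum.inl d)
/-- restriction of `F` to the second block of columns -/
def resR (F : Matrix (VI n) (D₁ ⊕ D₂) ℂ) : Matrix (VI n) D₂ ℂ := fun p d => F p (Sum.inr d)

theorem Gam_prod (F : Matrix (VI n) (D₁ ⊕ D₂) ℂ) :
    Gam (prodCAR C₁ C₂) (s₁.sum s₂) F =
      (Gam C₁ s₁ (resL F) ⊗ₖ (1 : Matrix C₂.ι C₂.ι ℂ) + C₁.Z ⊗ₖ Gam C₂ s₂ (resR F) :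
        Matrix (C₁.ι × C₂.ι) (C₁.ι × C₂.ι) ℂ) := by
  have s1 : ∀ {κ : Type} (S : Finset κ) (f : κ → Matrix C₁.ι C₁.ι ℂ),
      ∑ k ∈ S, (f k ⊗ₖ (1 : Matrix C₂.ι C₂.ι ℂ)) = (∑ k ∈ S, f k) ⊗ₖ (1 : Matrix C₂.ι C₂.ι ℂ) := by
    intro κ S f
    classical
    induction S using Finset.induction_on with
    | empty => simp
    | insert a S ha ih => rw [Finset.sum_insert ha, Finset.sum_insert ha, ih, Matrix.add_kronecker]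
  have s2 : ∀ {κ : Type} (S : Finset κ) (f : κ → Matrix C₂.ι C₂.ι ℂ),
      ∑ k ∈ S, (C₁.Z ⊗ₖ f k) = C₁.Z ⊗ₖ (∑ k ∈ S, f k) := by
    intro κ S f
    classical
    induction S using Finset.induction_on with
    | empty => simp
    | insert a S ha ih => rw [Finset.sum_insert ha, Finset.sum_insert ha, ih, Matrix.kronecker_add]
  have e0 : ∀ p : VI n, ∑ d : D₁ ⊕ D₂, F p d • gam (prodCAR C₁ C₂) (s₁.sum s₂) p d =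
      ∑ d : D₁, F p (Sum.inl d) • gam (prodCAR C₁ C₂) (s₁.sum s₂) p (Sum.inl d) +
      ∑ d : D₂, F p (Sum.inr d) • gam (prodCAR C₁ C₂) (s₁.sum s₂) p (Sum.inr d) :=
    fun p => Fintype.sum_sum_type _
  rw [Gam, Gam, Gam, Finset.sum_congr rfl (fun p _ => e0 p), Finset.sum_add_distrib]
  simp only [gam_inl, gam_inr]
  have e1 : ∀ (p : VI n) (d : D₁), F p (Sum.inl d) • (gam C₁ s₁ p d ⊗ₖ (1 : Matrix C₂.ι C₂.ι ℂ)) =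
      (resL F p d • gam C₁ s₁ p d) ⊗ₖ (1 : Matrix C₂.ι C₂.ι ℂ) := by
    intro p d; rw [Matrix.smul_kronecker]; rfl
  have e2 : ∀ (p : VI n) (d : D₂), F p (Sum.inr d) • (C₁.Z ⊗ₖ gam C₂ s₂ p d) =
      C₁.Z ⊗ₖ (resR F p d • gam C₂ s₂ p d) := by
    intro p d; rw [Matrix.kronecker_smul]; rfl
  have e3 : ∑ p : VI n, ∑ d : D₁, F p (Sum.inl d) • (gam C₁ s₁ p d ⊗ₖ (1 : Matrix C₂.ι C₂.ι ℂ)) =
      (∑ p : VI n, ∑ d : D₁, resL F p d • gam C₁ s₁ p d) ⊗ₖ (1 : Matrix C₂.ι C₂.ι ℂ) := by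
    simp only [e1, s1]
  have e4 : ∑ p : VI n, ∑ d : D₂, F p (Sum.inr d) • (C₁.Z ⊗ₖ gam C₂ s₂ p d) =
      C₁.Z ⊗ₖ (∑ p : VI n, ∑ d : D₂, resR F p d • gam C₂ s₂ p d) := by
    simp only [e2, s2]
  exact congrArg₂ (fun x y => x + y) e3 e4

/-- product of vectors -/
def vprod {α β : Type} (x : α → ℂ) (y : β → ℂ) : α × β → ℂ := fun p => x p.1 * y p.2

theorem Gam_vprod (F : Matrix (VI n) (D₁ ⊕ D₂) ℂ) (x : C₁.ι → ℂ) (y : C₂.ι → ℂ) :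
    Gam (prodCAR C₁ C₂) (s₁.sum s₂) F *ᵥ (vprod x y : (prodCAR C₁ C₂).ι → ℂ) =
      (vprod (Gam C₁ s₁ (resL F) *ᵥ x) y + vprod (C₁.Z *ᵥ x) (Gam C₂ s₂ (resR F) *ᵥ y) :
        C₁.ι × C₂.ι → ℂ) := by
  rw [Gam_prod]
  change (_ + _ : Matrix (C₁.ι × C₂.ι) (C₁.ι × C₂.ι) ℂ) *ᵥ (vprod x y : C₁.ι × C₂.ι → ℂ) = _
  rw [Matrix.add_mulVec]
  unfold vprod
  rw [CAR.kron_mulVec_prod, CAR.kron_mulVec_prod, Matrix.one_mulVec]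

theorem rho_vprod (X : Matrix (VI n) (VI n) ℂ) (x : C₁.ι → ℂ) (y : C₂.ι → ℂ) :
    rho (prodCAR C₁ C₂) (s₁.sum s₂) X *ᵥ (vprod x y : (prodCAR C₁ C₂).ι → ℂ) =
      (vprod (rho C₁ s₁ X *ᵥ x) y + vprod x (rho C₂ s₂ X *ᵥ y) : C₁.ι × C₂.ι → ℂ) := by
  rw [rho_prod]
  change (_ + _ : Matrix (C₁.ι × C₂.ι) (C₁.ι × C₂.ι) ℂ) *ᵥ (vprod x y : C₁.ι × C₂.ι → ℂ) = _
  rw [Matrix.add_mulVec]
  unfold vprod
  rw [CAR.kron_mulVec_prod, CAR.kron_mulVec_prod, Matrix.one_mulVec, Matrix.one_mulVec]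

end Crest.Agent.R172.Sp
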