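import Crest.Agent.R172.St1

/-!
Row 172 (S0260), node (S), file 2: the core of the `Φ`-module and the lifting lemma.
-/

set_option autoImplicit false

namespace Crest.Agent.R172.St

open Module

variable {K : Type*} [Field K] {V : Type*} [AddCommGroup V] [Module K V] {ι : Type*}

/-- A nondegenerate complement `M` of `T ⊓ Tᗮ` in `Tᗮ`, given by its orthogonal projection. -/
structure Core (B : LinearMap.BilinForm K V) (Φ : ι → End K V) where
  M : Submodule K V
  π : End K V
  le : ∀ m ∈ M, m ∈ Tp B Φ
  mem : ∀ v, π v ∈ M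
  fix : ∀ m ∈ M, π m = m
  sa : Sa B π
  killT : ∀ t ∈ T Φ, π t = 0
  rem : ∀ v ∈ Tp B Φ, v - π v ∈ T Φ

theorem exists_core [FiniteDimensional K V] (B : LinearMap.BilinForm K V)
    (hs : ∀ u v, B u v = B v u) (hB : B.Nondegenerate) (Φ : ι → End K V) :
    Nonempty (Core B Φ) := by
  classical
  have hrefl : B.IsRefl := fun u v h => by rw [hs]; exact h
  have hTp : Tp B Φ = B.orthogonal (T Φ) := by
    ext v
    rw [LinearMap.BilinForm.mem_orthogonal_iff]
    constructor
    · intro h t ht
      show B t v = 0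
      rw [hs]; exact h t ht
    · intro h t ht
      rw [hs]; exact h t ht
  have hTT : ∀ v, (∀ t ∈ Tp B Φ, B v t = 0) → v ∈ T Φ := by
    intro v hv
    rw [← LinearMap.BilinForm.orthogonal_orthogonal hB hrefl (T Φ), ← hTp,
      LinearMap.BilinForm.mem_orthogonal_iff]
    intro t ht
    show B t v = 0
    rw [hs]; exact hv t ht
  set R : Submodule K V := T Φ ⊓ Tp B Φ with hR
  obtain ⟨C, hC⟩ := Submodule.exists_isCompl R
  set M : Submodule K V := C ⊓ Tp B Φ with hM
  have hRM : ∀ x, x ∈ R → x ∈ M → x = 0 := by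
    intro x hx hx'
    have : x ∈ R ⊓ C := ⟨hx, hx'.1⟩
    rwa [hC.inf_eq_bot, Submodule.mem_bot] at this
  have hsup : ∀ v ∈ Tp B Φ, ∃ r ∈ R, ∃ m ∈ M, r + m = v := by
    intro v hv
    have h1 : v ∈ R ⊔ C := by rw [hC.sup_eq_top]; exact Submodule.mem_top
    obtain ⟨r, hr, c, hc, rfl⟩ := Submodule.mem_sup.1 h1
    refine ⟨r, hr, c, ⟨hc, ?_⟩, rfl⟩
    have : c = (r + c) - r := by abel
    rw [this]
    exact Submodule.sub_mem _ hv hr.2
  have hdis : Disjoint M (B.orthogonal M) := by
    rw [Submodule.disjoint_def]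
    intro x hx hx'
    rw [LinearMap.BilinForm.mem_orthogonal_iff] at hx'
    apply hRM x _ hx
    refine ⟨hTT x ?_, hx.2⟩
    intro t ht
    obtain ⟨r, hr, m, hm, rfl⟩ := hsup t ht
    rw [map_add]
    have h1 : B x r = 0 := hx.2 r hr.1
    have h2 : B m x = 0 := hx' m hm
    rw [h1, hs, h2, add_zero]
  have hcompl : IsCompl M (B.orthogonal M) :=
    (LinearMap.BilinForm.isCompl_orthogonal_iff_disjoint hrefl).2 hdis
  set π : End K V := M.projection (B.orthogonal M) hcompl with hπ
  have hπmem : ∀ v, π v ∈ M := fun v => Submodule.projection_apply_mem hcompl v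
  have hπfix : ∀ m ∈ M, π m = m := fun m hm => Submodule.projection_apply_of_mem_left hcompl hm
  have hπrem : ∀ v, v - π v ∈ B.orthogonal M := by
    intro v
    rw [← Submodule.projection_eq_self_sub_projection hcompl v]
    exact Submodule.projection_apply_mem hcompl.symm v
  have hsa : Sa B π := by
    intro u v
    have h1 : B (π u) (v - π v) = 0 :=
      (LinearMap.BilinForm.mem_orthogonal_iff.1 (hπrem v)) _ (hπmem u)
    have h2 : B (π v) (u - π u) = 0 :=
      (LinearMap.BilinForm.mem_orthogonal_iff.1 (hπrem u)) _ (hπmem v)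
    rw [map_sub, sub_eq_zero] at h1 h2
    rw [h1, hs u, h2, hs]
  have hkillT : ∀ t ∈ T Φ, π t = 0 := by
    intro t ht
    rw [hπ, Submodule.projection_apply_eq_zero_iff, LinearMap.BilinForm.mem_orthogonal_iff]
    intro m hm
    exact hm.2 t ht
  refine ⟨⟨M, π, fun m hm => hm.2, hπmem, hπfix, hsa, hkillT, ?_⟩⟩
  intro v hv
  obtain ⟨r, hr, m, hm, rfl⟩ := hsup v hv
  rw [map_add, hkillT r hr.1, hπfix m hm, zero_add, add_sub_cancel_right]
  exact hr.1

/-- `r ∧ w` -/
def wedge (B : LinearMap.BilinForm K V) (r w : V) : End K V :=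
  (B w).smulRight r - (B r).smulRight w

theorem wedge_apply (B : LinearMap.BilinForm K V) (r w v : V) :
    wedge B r w v = B w v • r - B r v • w := rfl

/-- `r ⊙ w` -/
def sym (B : LinearMap.BilinForm K V) (r w : V) : End K V :=
  (B w).smulRight r + (B r).smulRight w

theorem sym_apply (B : LinearMap.BilinForm K V) (r w v : V) :
    sym B r w v = B w v • r + B r v • w := rfl

theorem wedge_sk (B : LinearMap.BilinForm K V) (hs : ∀ u v, B u v = B v u) (r w : V) :
    Sk B (wedge B r w) := by
  intro u v
  simp only [wedge_apply, map_sub, map_smul, LinearMap.sub_apply, LinearMap.smul_apply,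
    smul_eq_mul]
  rw [hs u r, hs u w]
  ring

theorem wedge_comm (B : LinearMap.BilinForm K V) {f : End K V} (hf : Sa B f) (r w : V) :
    wedge B r w * f - f * wedge B r w = sym B r (f w) - sym B (f r) w := by
  ext v
  simp only [LinearMap.sub_apply, Module.End.mul_apply, wedge_apply, sym_apply, map_sub, map_smul]
  rw [hf, hf]
  abel

/-- the symmetric bilinear map `(r, w) ↦ r ⊙ w` -/
def symL (B : LinearMap.BilinForm K V) : V →ₗ[K] V →ₗ[K] End K V :=
  LinearMap.mk₂ K (sym B)
    (by intro a b w; ext v; simp only [sym_apply, LinearMap.add_apply, map_add, smul_add, add_smul]; abel)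
    (by intro c a w; ext v
        simp only [sym_apply, LinearMap.smul_apply, map_smul, smul_add, smul_eq_mul, mul_smul]
        rw [smul_comm])
    (by intro a w w'; ext v; simp only [sym_apply, LinearMap.add_apply, map_add, smul_add, add_smul]; abel)
    (by intro c a w; ext v
        simp only [sym_apply, LinearMap.smul_apply, map_smul, smul_add, smul_eq_mul, mul_smul]
        rw [smul_comm c (B a v) w])

theorem symL_apply (B : LinearMap.BilinForm K V) (r w : V) : symL B r w = sym B r w := rfl

end Crest.Agent.R172.St
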