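import Crest.Agent.R172.St3
import Crest.Agent.R172.Core2

/-!
Row 172 (S0260), node (S), file 5: descent of the derivation hypothesis `Core.Der` from `V` to the
core `M`, and of a self-adjoint `D` commuting with the `Φ s`.
-/

set_option autoImplicit false

namespace Crest.Agent.R172.St

open Module

variable {K : Type*} [Field K] {V : Type*} [AddCommGroup V] [Module K V] {ι : Type*}

variable {B : LinearMap.BilinForm K V} {Φ : ι → End K V}

/-- the form on the core -/
def Core.form (C : Core B Φ) : LinearMap.BilinForm K C.M := B.restrict C.M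

theorem Core.form_apply (C : Core B Φ) (u v : C.M) : C.form u v = B (u : V) (v : V) := rfl

/-- `π` as a map to `M` -/
def Core.pr (C : Core B Φ) : V →ₗ[K] C.M := C.π.codRestrict C.M C.mem

theorem Core.pr_apply (C : Core B Φ) (v : V) : (C.pr v : V) = C.π v := rfl

/-- compression of an operator to the core -/
def Core.comp (C : Core B Φ) (f : End K V) : End K C.M := C.pr ∘ₗ f ∘ₗ C.M.subtype

theorem Core.comp_apply (C : Core B Φ) (f : End K V) (m : C.M) :
    (C.comp f m : V) = C.π (f (m : V)) := rfl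

theorem Core.form_ns (C : Core B Φ) (hB : Core.NS B) : Core.NS C.form := by
  refine ⟨fun v w => hB.symm _ _, fun v hv => ?_⟩
  apply Subtype.ext
  apply hB.nd
  intro w
  rw [← C.fix _ v.2, C.sa]
  exact hv (C.pr w)

/-- `π (g v) = π (g (π v))` for `v ∈ Tᗮ` and `g` preserving `T`. -/
theorem Core.pi_comp (C : Core B Φ) {g : V → V} (hadd : ∀ a b, g (a - b) = g a - g b)
    (hg : ∀ t ∈ T Φ, g t ∈ T Φ) {v : V} (hv : v ∈ Tp B Φ) : C.π (g (C.π v)) = C.π (g v) := by
  have h1 := C.killT _ (hg _ (C.rem v hv))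
  rw [hadd, map_sub, sub_eq_zero] at h1
  exact h1.symm

theorem Core.comp_sa (C : Core B Φ) {f : End K V} (hf : Sa B f) : Sa C.form (C.comp f) := by
  intro u v
  rw [C.form_apply, C.form_apply, C.comp_apply, C.comp_apply, C.sa, C.fix _ v.2, hf,
    ← C.sa, C.fix _ u.2]

theorem Tp_stable_der {d : Derivation ℤ K K} {δ : V →+ V}
    (hδ : ∀ v w, B (δ v) w + B v (δ w) = d (B v w)) (hT : ∀ t ∈ T Φ, δ t ∈ T Φ) {v : V}
    (hv : v ∈ Tp B Φ) : δ v ∈ Tp B Φ := by
  intro t ht
  have h := hδ v t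
  rw [hv t ht, hv _ (hT t ht), map_zero, add_zero] at h
  exact h

theorem T_stable_der [Finite ι] {X : ι → End K V} {δ : V →+ V}
    (hX : ∀ s, ∀ t ∈ T Φ, X s t ∈ T Φ)
    (hδ : ∀ s v, δ (Φ s v) - Φ s (δ v) = X s (Φ s v) - Φ s (X s v)) {t : V} (ht : t ∈ T Φ) :
    δ t ∈ T Φ := by
  obtain ⟨k, hk⟩ := mem_T.1 ht
  clear ht
  induction k generalizing t with
  | zero => rw [mem_Nk_zero] at hk; rw [hk, map_zero]; exact Submodule.zero_mem _
  | succ k ih =>
    apply T_closed
    intro s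
    have h1 := ih (mem_Nk_succ.1 hk s)
    have h2 : Φ s (δ t) = δ (Φ s t) - (X s (Φ s t) - Φ s (X s t)) := by
      rw [← hδ s t]; abel
    rw [h2]
    have htT : t ∈ T Φ := Nk_le_T Φ _ hk
    exact Submodule.sub_mem _ h1 (Submodule.sub_mem _ (hX s _ (T_stable s htT))
      (T_stable s (hX s _ htT)))

/-- Descent of the derivation hypothesis to the core. -/
theorem Core.der [CharZero K] [FiniteDimensional K V] [Fintype ι] (C : Core B Φ) (hB : Core.NS B)
    (hΦ : ∀ s, Sa B (Φ s)) (hDer : Core.Der B Φ) : Core.Der C.form (fun s => C.comp (Φ s)) := by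
  classical
  intro ξ hξ hsum
  let ξ' : ι → End K V := fun s => C.M.subtype ∘ₗ ξ s ∘ₗ C.pr
  have hξ' : ∀ s v, ξ' s v = (ξ s (C.pr v) : V) := fun s v => rfl
  have hππ : ∀ v, C.pr (C.π v) = C.pr v := fun v => Subtype.ext (C.fix _ (C.mem v))
  have hprM : ∀ m : C.M, C.pr (m : V) = m := fun m => Subtype.ext (C.fix _ m.2)
  have hsk : ∀ s, Sk B (ξ' s) := by
    intro s u v
    have h1 : B (ξ' s u) v = B (ξ' s u) (C.π v) := by
      rw [hξ', ← C.sa, C.fix _ (ξ s (C.pr u)).2]
    have h2 : B u (ξ' s v) = B (C.π u) (ξ' s v) := by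
      rw [hξ', C.sa, C.fix _ (ξ s (C.pr v)).2]
    have h3 := hξ s (C.pr u) (C.pr v)
    rw [h1, h2, hξ', hξ']
    rw [C.form_apply, C.form_apply] at h3
    rw [← C.pr_apply, ← C.pr_apply, h3]
    ring
  obtain ⟨X, hXsk, hXT, hXTp, hXsum⟩ := lift hB.symm hB.nondeg hΦ C ξ' hsk
    (fun s v => (ξ s (C.pr v)).2) (fun s v => by rw [hξ', hξ', hππ]) (by
      intro v hv
      have h0 := congrArg Subtype.val (LinearMap.congr_fun hsum ⟨v, hv⟩)
      rw [LinearMap.sum_apply, Submodule.coe_sum, LinearMap.zero_apply] at h0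
      rw [Submodule.coe_zero] at h0
      rw [← h0]
      refine Finset.sum_congr rfl fun s _ => ?_
      rw [LinearMap.sub_apply, End.mul_apply, End.mul_apply, Submodule.coe_sub, C.comp_apply,
        hξ', hππ, hξ']
      have : C.pr v = ⟨v, hv⟩ := hprM ⟨v, hv⟩
      rw [this]
      rfl)
  obtain ⟨d, δ, hδ1, hδ2, hδ3⟩ := hDer X (fun s v w => eq_neg_of_add_eq_zero_left (hXsk s v w)) hXsum
  have hδT : ∀ t ∈ T Φ, δ t ∈ T Φ := fun t ht => T_stable_der hXT hδ3 ht
  have hδTp : ∀ v ∈ Tp B Φ, δ v ∈ Tp B Φ := fun v hv => Tp_stable_der hδ2 hδT hv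
  have hΦTp : ∀ s, ∀ v ∈ Tp B Φ, Φ s v ∈ Tp B Φ := fun s v hv =>
    Tp_stable (hΦ s) (fun t ht => T_stable s ht) hv
  have hXTp' : ∀ s, ∀ v ∈ Tp B Φ, X s v ∈ Tp B Φ := fun s v hv =>
    Tp_stable_sk (hXsk s) (hXT s) hv
  let δM : C.M →+ C.M := C.pr.toAddMonoidHom.comp (δ.comp C.M.subtype.toAddMonoidHom)
  have hδM : ∀ m : C.M, (δM m : V) = C.π (δ (m : V)) := fun m => rfl
  refine ⟨d, δM, ?_, ?_, ?_⟩
  · intro c m
    apply Subtype.ext
    rw [hδM, Submodule.coe_add, Submodule.coe_smul, Submodule.coe_smul, Submodule.coe_smul, hδM,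
      hδ1, map_add, map_smul, map_smul, C.fix _ m.2]
  · intro u v
    rw [C.form_apply, C.form_apply, C.form_apply, hδM, hδM, C.sa, C.fix _ v.2, ← C.sa,
      C.fix _ u.2, hδ2]
  · intro s m
    have hm : (m : V) ∈ Tp B Φ := C.le _ m.2
    apply Subtype.ext
    rw [Submodule.coe_sub, Submodule.coe_sub, hδM, C.comp_apply, C.comp_apply, C.comp_apply, hδM]
    rw [C.pi_comp (g := δ) (fun a b => map_sub δ a b) hδT (hΦTp s _ hm)]
    rw [C.pi_comp (g := Φ s) (fun a b => map_sub _ a b) (fun t ht => T_stable s ht) (hδTp _ hm)]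
    rw [← map_sub, hδ3, map_sub, hXTp s _ (hΦTp s _ hm)]
    congr 1
    rw [← C.pi_comp (g := Φ s) (fun a b => map_sub _ a b) (fun t ht => T_stable s ht) (hXTp' s _ hm),
      hXTp s _ hm, hξ', hprM]

/-- no common kernel on the core -/
theorem Core.no_ker [Finite ι] (C : Core B Φ) (hΦ : ∀ s, Sa B (Φ s)) (m : C.M)
    (h : ∀ s, C.comp (Φ s) m = 0) : m = 0 := by
  have hm : (m : V) ∈ Tp B Φ := C.le _ m.2
  have hT : (m : V) ∈ T Φ := by
    apply T_closed
    intro s
    have h1 := C.rem _ (Tp_stable (hΦ s) (fun t ht => T_stable s ht) hm : Φ s (m : V) ∈ Tp B Φ)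
    have h2 : C.π (Φ s (m : V)) = 0 := by
      rw [← C.comp_apply, h s]; rfl
    rwa [h2, sub_zero] at h1
  apply Subtype.ext
  rw [← C.fix _ m.2, C.killT _ hT]
  rfl

theorem Core.comp_mul (C : Core B Φ) {f g : End K V} (hf : ∀ v ∈ Tp B Φ, f v ∈ Tp B Φ)
    (hg : ∀ t ∈ T Φ, g t ∈ T Φ) : C.comp (g * f) = C.comp g * C.comp f := by
  ext m
  rw [End.mul_apply, C.comp_apply, C.comp_apply, C.comp_apply, End.mul_apply,
    C.pi_comp (g := g) (fun a b => map_sub _ a b) hg (hf _ (C.le _ m.2))]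

theorem Core.comp_one (C : Core B Φ) : C.comp 1 = 1 := by
  ext m
  rw [C.comp_apply, End.one_apply, End.one_apply, C.fix _ m.2]

theorem Core.comp_pow (C : Core B Φ) {f : End K V} (hf : Sa B f) (hfT : ∀ t ∈ T Φ, f t ∈ T Φ)
    (n : ℕ) : C.comp (f ^ n) = C.comp f ^ n := by
  induction n with
  | zero => rw [pow_zero, pow_zero, C.comp_one]
  | succ n ih =>
    rw [pow_succ, pow_succ, C.comp_mul (fun v hv => Tp_stable hf hfT hv), ih]
    intro t ht
    clear ih
    induction n generalizing t with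
    | zero => simpa using ht
    | succ n ih => rw [pow_succ, End.mul_apply]; exact ih _ (hfT t ht)

theorem Core.comp_sub_smul (C : Core B Φ) (f : End K V) (a : K) :
    C.comp (f - a • (1 : End K V)) = C.comp f - a • (1 : End K C.M) := by
  ext m
  rw [C.comp_apply, LinearMap.sub_apply, LinearMap.sub_apply, LinearMap.smul_apply,
    LinearMap.smul_apply, End.one_apply, End.one_apply, map_sub, map_smul, C.fix _ m.2]
  rfl

/-- If the `μ`-block of the core vanishes then the generalized eigenspace of `D` is contained in `T`. -/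
theorem Core.block_le_T [FiniteDimensional K V] [Finite ι] (C : Core B Φ) (hΦ : ∀ s, Sa B (Φ s))
    {D : End K V} (hD : Sa B D) (hDΦ : ∀ s v, D (Φ s v) = Φ s (D v)) (mu : K)
    (h : (C.comp D).maxGenEigenspace mu = ⊥) : D.maxGenEigenspace mu ≤ T Φ := by
  obtain ⟨k, hk⟩ := T_eq_Nk Φ
  have hDT : ∀ t ∈ T Φ, D t ∈ T Φ := fun t ht => T_comm hDΦ ht
  have hfs : Sa B (D - mu • (1 : End K V)) := by
    intro u v
    simp only [LinearMap.sub_apply, LinearMap.smul_apply, End.one_apply, map_sub, map_smul,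
      smul_eq_mul]
    rw [hD]
  have hfT : ∀ t ∈ T Φ, (D - mu • (1 : End K V)) t ∈ T Φ := by
    intro t ht
    rw [LinearMap.sub_apply, LinearMap.smul_apply, End.one_apply]
    exact Submodule.sub_mem _ (hDT t ht) (Submodule.smul_mem _ _ ht)
  have hst : ∀ s, ∀ v ∈ D.maxGenEigenspace mu, Φ s v ∈ D.maxGenEigenspace mu := by
    intro s v hv
    have hc : Commute D (Φ s) := by
      ext v; exact hDΦ s v
    exact End.mapsTo_maxGenEigenspace_of_comm hc mu hv
  -- `j + i = k`, `v ∈ (N_j)ᗮ`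
  have key : ∀ i j, j + i = k → ∀ v ∈ D.maxGenEigenspace mu, (∀ t ∈ Nk Φ j, B v t = 0) →
      v ∈ T Φ := by
    intro i
    induction i with
    | zero =>
      intro j hj v hv hvt
      have hvTp : v ∈ Tp B Φ := by
        intro t ht
        rw [hk] at ht
        rw [add_zero] at hj
        rw [← hj] at ht
        exact hvt t ht
      obtain ⟨n, hn⟩ := (End.mem_maxGenEigenspace D mu v).1 hv
      have h1 : C.pr v ∈ (C.comp D).maxGenEigenspace mu := by
        rw [End.mem_maxGenEigenspace]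
        refine ⟨n, ?_⟩
        rw [← C.comp_sub_smul, ← C.comp_pow hfs hfT]
        apply Subtype.ext
        rw [C.comp_apply, C.pr_apply, C.pi_comp (fun a b => map_sub _ a b) _ hvTp, hn, map_zero]
        · rfl
        · intro t ht
          clear hn
          induction n generalizing t with
          | zero => simpa using ht
          | succ n ih => rw [pow_succ, End.mul_apply]; exact ih _ (hfT t ht)
      rw [h, Submodule.mem_bot] at h1
      have h2 := C.rem v hvTp
      have h3 : C.π v = 0 := by rw [← C.pr_apply, h1]; rfl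
      rwa [h3, sub_zero] at h2
    | succ i ih =>
      intro j hj v hv hvt
      apply T_closed
      intro s
      apply ih (j + 1) (by omega) _ (hst s v hv)
      intro t ht
      rw [hΦ]
      exact hvt _ (mem_Nk_succ.1 ht s)
  intro v hv
  refine key k 0 (by omega) v hv ?_
  intro t ht
  rw [mem_Nk_zero.1 ht, map_zero]

end Crest.Agent.R172.St
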