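import Crest.Agent.R172.St5
import Crest.Agent.R172.Core3

/-!
Row 172 (S0260), node (S), file 6: THE STRUCTURE LEMMA (S) of note 12992 for `V`.
-/

set_option autoImplicit false

namespace Crest.Agent.R172.St

open Module

variable {K : Type*} [Field K] {V : Type*} [AddCommGroup V] [Module K V] {ι : Type*}

/-- an operator commuting with all `Φ s` preserves `Nk Φ k` -/
theorem Nk_comm {Φ : ι → End K V} {D : End K V} (hD : ∀ s v, D (Φ s v) = Φ s (D v)) {k : ℕ} {v : V}
    (hv : v ∈ Nk Φ k) : D v ∈ Nk Φ k := by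
  induction k generalizing v with
  | zero => rw [mem_Nk_zero] at hv ⊢; rw [hv, map_zero]
  | succ k ih => rw [mem_Nk_succ] at hv ⊢; intro s; rw [← hD]; exact ih (hv s)

theorem Nk_comm_pow {Φ : ι → End K V} {D : End K V} (hD : ∀ s v, D (Φ s v) = Φ s (D v)) {k : ℕ}
    (n : ℕ) {v : V} (hv : v ∈ Nk Φ k) : (D ^ n) v ∈ Nk Φ k := by
  induction n with
  | zero => simpa using hv
  | succ n ih => rw [pow_succ', End.mul_apply]; exact Nk_comm hD ih

/-- `P` commutes with the `Φ s` and `P ^ m v ∈ N_m(Φ)` for all `v`: then the words of length `m`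
in the `Φ s * P` vanish. -/
theorem Nk_mul_eq_top {Φ : ι → End K V} {P : End K V} (hP : ∀ s v, P (Φ s v) = Φ s (P v)) {m : ℕ}
    (h : ∀ v, (P ^ m) v ∈ Nk Φ m) : Nk (fun s => Φ s * P) m = ⊤ := by
  have key : ∀ j v, (P ^ j) v ∈ Nk Φ j → v ∈ Nk (fun s => Φ s * P) j := by
    intro j
    induction j with
    | zero => intro v hv; simpa [mem_Nk_zero] using hv
    | succ j ih =>
      intro v hv
      rw [mem_Nk_succ] at hv ⊢
      intro s
      apply ih
      have h1 := hv s
      have h2 : (P ^ j) ((Φ s * P) v) = Φ s ((P ^ (j + 1)) v) := by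
        rw [End.mul_apply, pow_succ, End.mul_apply]
        have : ∀ i w, (P ^ i) (Φ s w) = Φ s ((P ^ i) w) := by
          intro i
          induction i with
          | zero => intro w; simp
          | succ i ih2 => intro w; rw [pow_succ, End.mul_apply, hP, ih2, End.mul_apply]
        rw [this]
      rw [h2]
      exact h1
  rw [eq_top_iff]
  intro v _
  exact key m v (h v)

/-- **Structure lemma (S)** of note 12992 for `V`, relative to a chosen core `C`. -/
theorem structure_lemma [CharZero K] [IsAlgClosed K] [FiniteDimensional K V] [Fintype ι]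
    {B : LinearMap.BilinForm K V} {Φ : ι → End K V} (C : Core B Φ) (hB : Core.NS B)
    (hΦ : ∀ s v w, B (Φ s v) w = B v (Φ s w)) (hnil : ∃ k, ∀ s, Φ s ^ k = 0)
    (hsum : ∀ v, ∑ s, Φ s v = 0) (hDer : Core.Der B Φ) {D : End K V}
    (hDB : ∀ v w, B (D v) w = B v (D w)) (hDΦ : ∀ s v, D (Φ s v) = Φ s (D v)) :
    (∃ lam, (∀ mu, mu ≠ lam → D.maxGenEigenspace mu ≤ T Φ) ∧
      ∃ m, (∀ v, ((D - lam • (1 : End K V)) ^ m) v ∈ Nk Φ m) ∧
        Nk (fun s => Φ s * (D - lam • (1 : End K V))) m = ⊤) ∨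
      Core.Tame (fun s => C.comp (Φ s)) (C.comp D) := by
  classical
  have hΦsa : ∀ s, Sa B (Φ s) := fun s => hΦ s
  have hΦT : ∀ s, ∀ t ∈ T Φ, Φ s t ∈ T Φ := fun s t ht => T_stable s ht
  have hΦTp : ∀ s, ∀ v ∈ Tp B Φ, Φ s v ∈ Tp B Φ := fun s v hv => Tp_stable (hΦsa s) (hΦT s) hv
  have hDT : ∀ t ∈ T Φ, D t ∈ T Φ := fun t ht => T_comm hDΦ ht
  have hDTp : ∀ v ∈ Tp B Φ, D v ∈ Tp B Φ := fun v hv => Tp_stable (f := D) hDB hDT hv
  have h1 := Core.core_alt (B := C.form) (Φ := fun s => C.comp (Φ s)) (D := C.comp D)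
    (C.form_ns hB) (fun s => C.comp_sa (hΦsa s))
    (by
      obtain ⟨k, hk⟩ := hnil
      refine ⟨k, fun s => ?_⟩
      show C.comp (Φ s) ^ k = 0
      rw [← C.comp_pow (hΦsa s) (hΦT s), hk s]
      ext m
      rw [C.comp_apply, LinearMap.zero_apply, map_zero]
      rfl)
    (by
      intro v
      apply Subtype.ext
      rw [Submodule.coe_sum, Submodule.coe_zero, ← map_zero C.π, ← hsum (v : V), map_sum]
      rfl)
    (fun v hv => C.no_ker hΦsa v hv)
    (C.der hB hΦsa hDer)
    (C.comp_sa hDB)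
    (by
      intro s v
      have e1 : C.comp (D * Φ s) = C.comp D * C.comp (Φ s) := C.comp_mul (hΦTp s) hDT
      have e2 : C.comp (Φ s * D) = C.comp (Φ s) * C.comp D := C.comp_mul hDTp (hΦT s)
      have e3 : D * Φ s = Φ s * D := by ext v; exact hDΦ s v
      rw [e3, e2] at e1
      exact (LinearMap.congr_fun e1 v).symm)
    (End.iSup_maxGenEigenspace_eq_top _)
  rcases h1 with ⟨lam, hlam⟩ | h1
  · left
    have hbot : ∀ mu, mu ≠ lam → (C.comp D).maxGenEigenspace mu = ⊥ := by
      intro mu hmu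
      have := ((C.comp D).disjoint_genEigenspace hmu ⊤ ⊤).eq_bot
      have h2 : (C.comp D).genEigenspace lam ⊤ = ⊤ := hlam
      rw [h2, inf_top_eq] at this
      exact this
    have hT : ∀ mu, mu ≠ lam → D.maxGenEigenspace mu ≤ T Φ := fun mu hmu =>
      C.block_le_T hΦsa hDB hDΦ mu (hbot mu hmu)
    refine ⟨lam, hT, ?_⟩
    obtain ⟨k, hk⟩ := T_eq_Nk Φ
    set P : End K V := D - lam • (1 : End K V) with hPdef
    have hPΦ : ∀ s v, P (Φ s v) = Φ s (P v) := by
      intro s v
      rw [hPdef]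
      simp only [LinearMap.sub_apply, LinearMap.smul_apply, End.one_apply, map_sub, map_smul]
      rw [hDΦ]
    set m : ℕ := finrank K V + k with hm
    have hall : ∀ v, (P ^ m) v ∈ Nk Φ m := by
      intro v
      have hv : v ∈ ⨆ nu, D.maxGenEigenspace nu := by
        rw [End.iSup_maxGenEigenspace_eq_top]; exact Submodule.mem_top
      refine Submodule.iSup_induction (fun nu => D.maxGenEigenspace nu)
        (motive := fun v => (P ^ m) v ∈ Nk Φ m) hv ?_ ?_ ?_
      · intro nu w hw
        by_cases hnu : nu = lam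
        · subst hnu
          rw [End.maxGenEigenspace_eq_genEigenspace_finrank, End.mem_genEigenspace_nat,
            LinearMap.mem_ker] at hw
          rw [hm, add_comm, pow_add, End.mul_apply]
          have : (P ^ finrank K V) w = 0 := hw
          rw [this, map_zero]
          exact Submodule.zero_mem _
        · have h2 := hT nu hnu hw
          rw [hk] at h2
          exact Nk_comm_pow hPΦ m (Nk_mono Φ (by omega) h2)
      · rw [map_zero]; exact Submodule.zero_mem _
      · intro a b ha hb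
        rw [map_add]; exact Submodule.add_mem _ ha hb
    exact ⟨m, hall, Nk_mul_eq_top hPΦ hall⟩
  · right
    exact h1

end Crest.Agent.R172.St
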