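import Mathlib

/-!
Row 172, structure lemma (S) of note 12992, part (4): dimension counts.
-/

set_option autoImplicit false

namespace Crest.Agent.R172.Struct

open Module

section Count
variable {K P Q : Type*} [Field K] [AddCommGroup P] [Module K P]
  [AddCommGroup Q] [Module K Q]

/-- The commutator map `x ↦ x φ - ψ x`. -/
def ad (φ : End K P) (ψ : End K Q) : (P →ₗ[K] Q) →ₗ[K] (P →ₗ[K] Q) where
  toFun x := x ∘ₗ φ - ψ ∘ₗ x
  map_add' x y := by ext v; simp only [LinearMap.sub_apply, LinearMap.comp_apply, LinearMap.add_apply, map_add]; abel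
  map_smul' c x := by
    ext v
    simp only [LinearMap.sub_apply, LinearMap.comp_apply, LinearMap.smul_apply, map_smul,
      RingHom.id_apply, smul_sub]

@[simp] lemma ad_apply (φ : End K P) (ψ : End K Q) (x : P →ₗ[K] Q) (v : P) :
    ad φ ψ x v = x (φ v) - ψ (x v) := rfl

lemma ad_eq_zero_iff (φ : End K P) (ψ : End K Q) (x : P →ₗ[K] Q) :
    ad φ ψ x = 0 ↔ ∀ v, x (φ v) = ψ (x v) := by
  constructor
  · intro h v
    have := LinearMap.congr_fun h v
    simpa [sub_eq_zero] using this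
  · intro h; ext v; simp [h v]

/-- rank of `φ ^ j`. -/
noncomputable def rk (φ : End K P) (j : ℕ) : ℕ := finrank K (LinearMap.range (φ ^ j))

/-- number of Jordan blocks of size `> j`. -/
noncomputable def nn (φ : End K P) (j : ℕ) : ℕ :=
  finrank K ↥(LinearMap.range (φ ^ j) ⊓ LinearMap.ker φ)

lemma range_pow_succ (φ : End K P) (j : ℕ) :
    LinearMap.range (φ ^ (j + 1)) = (LinearMap.range (φ ^ j)).map φ := by
  rw [pow_succ', Module.End.mul_eq_comp, LinearMap.range_comp]

lemma range_pow_succ_le (φ : End K P) (j : ℕ) :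
    LinearMap.range (φ ^ (j + 1)) ≤ LinearMap.range (φ ^ j) := by
  rw [pow_succ, Module.End.mul_eq_comp]
  exact LinearMap.range_comp_le_range _ _

variable [FiniteDimensional K P] [FiniteDimensional K Q]

lemma rk_zero (φ : End K P) : rk φ 0 = finrank K P := by
  have h : LinearMap.range (1 : End K P) = ⊤ := LinearMap.range_eq_top.mpr Function.surjective_id
  rw [rk, pow_zero, h, finrank_top]

lemma rk_succ (φ : End K P) (j : ℕ) : rk φ j = rk φ (j + 1) + nn φ j := by
  have h := LinearMap.finrank_range_add_finrank_ker (φ.domRestrict (LinearMap.range (φ ^ j)))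
  rw [LinearMap.range_domRestrict, ← range_pow_succ, LinearMap.ker_domRestrict] at h
  rw [rk, rk, ← h, nn]
  congr 1
  rw [← Submodule.map_comap_subtype]
  exact (Submodule.finrank_map_subtype_eq _ _).symm

lemma rk_anti (φ : End K P) (j : ℕ) : rk φ (j + 1) ≤ rk φ j := by
  rw [rk_succ φ j]; exact Nat.le_add_right _ _

lemma nn_anti (φ : End K P) (j : ℕ) : nn φ (j + 1) ≤ nn φ j :=
  Submodule.finrank_mono (inf_le_inf_right _ (range_pow_succ_le φ j))

omit [FiniteDimensional K P] [FiniteDimensional K Q] in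
lemma rk_eq_zero_of_pow {φ : End K P} {N : ℕ} (h : φ ^ N = 0) : rk φ N = 0 := by
  have h' : LinearMap.range (0 : End K P) = ⊥ := LinearMap.range_eq_bot.mpr rfl
  rw [rk, h, h', finrank_bot]

lemma pow_eq_zero_of_rk {φ : End K P} {N : ℕ} (h : rk φ N = 0) : φ ^ N = 0 := by
  rw [rk, Submodule.finrank_eq_zero] at h
  exact LinearMap.range_eq_bot.mp h

/-- the subspace `C j` of intertwiners vanishing on `range φ^j`. -/
def CC (φ : End K P) (ψ : End K Q) (j : ℕ) : Submodule K (P →ₗ[K] Q) where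
  carrier := {f | (∀ v, f (φ v) = ψ (f v)) ∧ ∀ v ∈ LinearMap.range (φ ^ j), f v = 0}
  add_mem' := by
    rintro f g ⟨hf, hf'⟩ ⟨hg, hg'⟩
    exact ⟨fun v => by simp [hf v, hg v], fun v hv => by simp [hf' v hv, hg' v hv]⟩
  zero_mem' := ⟨fun v => by simp, fun v _ => by simp⟩
  smul_mem' := by
    rintro c f ⟨hf, hf'⟩
    exact ⟨fun v => by simp [hf v], fun v hv => by simp [hf' v hv]⟩

lemma finrank_le_of_mapsTo {A B : Type*} [AddCommGroup A] [Module K A] [FiniteDimensional K A]
    [AddCommGroup B] [Module K B] [FiniteDimensional K B]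
    (A' : Submodule K A) (W : Submodule K B) (G : Submodule K (A →ₗ[K] B))
    (hG : ∀ g ∈ G, A' ≤ LinearMap.ker g ∧ ∀ v, g v ∈ W) :
    finrank K G ≤ finrank K (A ⧸ A') * finrank K W := by
  let Ψ : ((A ⧸ A') →ₗ[K] W) →ₗ[K] (A →ₗ[K] B) :=
    { toFun := fun h => W.subtype ∘ₗ h ∘ₗ A'.mkQ
      map_add' := fun x y => by ext v; simp
      map_smul' := fun c x => by ext v; simp }
  have hle : G ≤ LinearMap.range Ψ := by
    intro g hg
    obtain ⟨h1, h2⟩ := hG g hg
    refine ⟨(A'.liftQ g h1).codRestrict W ?_, ?_⟩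
    · intro c
      obtain ⟨v, rfl⟩ := A'.mkQ_surjective c
      simpa using h2 v
    · ext v
      simp [Ψ]
  calc finrank K G ≤ finrank K (LinearMap.range Ψ) := Submodule.finrank_mono hle
    _ ≤ finrank K ((A ⧸ A') →ₗ[K] W) := LinearMap.finrank_range_le Ψ
    _ = _ := Module.finrank_linearMap K K _ _

lemma CC_succ (φ : End K P) (ψ : End K Q) (j : ℕ) :
    finrank K (CC φ ψ (j + 1)) ≤ finrank K (CC φ ψ j) + nn φ j * nn ψ j := by
  let A := LinearMap.range (φ ^ j)
  let ρ : (CC φ ψ (j + 1)) →ₗ[K] (A →ₗ[K] Q) :=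
    { toFun := fun f => (f : P →ₗ[K] Q) ∘ₗ A.subtype
      map_add' := fun x y => by ext v; simp
      map_smul' := fun c x => by ext v; simp }
  have h := LinearMap.finrank_range_add_finrank_ker ρ
  have hker : finrank K (LinearMap.ker ρ) ≤ finrank K (CC φ ψ j) := by
    rw [← Submodule.finrank_map_subtype_eq]
    apply Submodule.finrank_mono
    rintro f ⟨⟨g, hg⟩, hg', rfl⟩
    refine ⟨hg.1, fun v hv => ?_⟩
    have := LinearMap.congr_fun (show ρ ⟨g, hg⟩ = 0 from hg') ⟨v, hv⟩
    simpa [ρ] using this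
  let A' : Submodule K A := (LinearMap.range (φ ^ (j + 1))).comap A.subtype
  have hA' : finrank K (A ⧸ A') = nn φ j := by
    have h1 := Submodule.finrank_quotient_add_finrank A'
    have h2 : finrank K A' = rk φ (j + 1) := by
      have : A ⊓ LinearMap.range (φ ^ (j + 1)) = LinearMap.range (φ ^ (j + 1)) :=
        inf_eq_right.mpr (range_pow_succ_le φ j)
      rw [rk, ← Submodule.finrank_map_subtype_eq, Submodule.map_comap_subtype, this]
    have h3 : finrank K A = rk φ j := rfl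
    rw [h2, h3, rk_succ φ j] at h1
    omega
  have hran : finrank K (LinearMap.range ρ) ≤ nn φ j * nn ψ j := by
    rw [← hA']
    refine finrank_le_of_mapsTo A' (LinearMap.range (ψ ^ j) ⊓ LinearMap.ker ψ) _ ?_
    rintro _ ⟨⟨f, hf⟩, rfl⟩
    have hcomm : ∀ (i : ℕ) (v : P), f ((φ ^ i) v) = (ψ ^ i) (f v) := by
      intro i
      induction i with
      | zero => intro v; simp
      | succ i ih => intro v; rw [pow_succ, pow_succ, Module.End.mul_apply, Module.End.mul_apply, ih, hf.1]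
    constructor
    · intro v hv
      exact hf.2 _ hv
    · rintro ⟨v, w, rfl⟩
      refine ⟨?_, ?_⟩
      · exact ⟨f w, (hcomm j w).symm⟩
      · change ψ (f ((φ ^ j) w)) = 0
        rw [← hf.1]
        apply hf.2
        exact ⟨w, by rw [pow_succ', Module.End.mul_apply]⟩
  omega

/-- Upper bound for the space of intertwiners. -/
lemma hom_bound (φ : End K P) (ψ : End K Q) {N : ℕ} (hN : φ ^ N = 0) :
    finrank K (LinearMap.ker (ad φ ψ)) ≤ ∑ j ∈ Finset.range N, nn φ j * nn ψ j := by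
  have h0 : CC φ ψ 0 = ⊥ := by
    rw [eq_bot_iff]
    rintro f ⟨_, hf⟩
    rw [Submodule.mem_bot]
    ext v
    exact hf v ⟨v, by simp⟩
  have hN' : LinearMap.ker (ad φ ψ) ≤ CC φ ψ N := by
    intro f hf
    refine ⟨(ad_eq_zero_iff φ ψ f).mp hf, fun v hv => ?_⟩
    rw [hN] at hv
    simp at hv
    simp [hv]
  have key : ∀ M : ℕ, finrank K (CC φ ψ M) ≤ ∑ j ∈ Finset.range M, nn φ j * nn ψ j := by
    intro M
    induction M with
    | zero => rw [h0]; simp
    | succ M ih =>
      rw [Finset.sum_range_succ]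
      exact (CC_succ φ ψ M).trans (Nat.add_le_add_right ih _)
  exact (Submodule.finrank_mono hN').trans (key N)

/-- Euler characteristic inequality: if `H¹ = 0` then the dimensions of the intertwiner
spaces add up to at least `dim P · dim Q`. -/
lemma euler (φ : Fin 3 → End K P) (ψ : Fin 3 → End K Q)
    (h : ∀ x : Fin 3 → (P →ₗ[K] Q), ∑ s, ad (φ s) (ψ s) (x s) = 0 →
      ∃ y : P →ₗ[K] Q, ∀ s, ad (φ s) (ψ s) (x s - y) = 0) :
    finrank K P * finrank K Q ≤ ∑ s, finrank K (LinearMap.ker (ad (φ s) (ψ s))) := by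
  let S : (Fin 3 → (P →ₗ[K] Q)) →ₗ[K] (P →ₗ[K] Q) := ∑ s, (ad (φ s) (ψ s)) ∘ₗ LinearMap.proj s
  have hS : ∀ x, S x = ∑ s, ad (φ s) (ψ s) (x s) := by
    intro x; simp [S]
  have h1 := LinearMap.finrank_range_add_finrank_ker S
  have h2 : finrank K (LinearMap.range S) ≤ finrank K P * finrank K Q := by
    rw [← Module.finrank_linearMap K K P Q]
    exact Submodule.finrank_le _
  have h3 : finrank K (Fin 3 → (P →ₗ[K] Q)) = 3 * (finrank K P * finrank K Q) := by
    rw [Module.finrank_pi_fintype, Finset.sum_const, Finset.card_univ, Fintype.card_fin,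
      Module.finrank_linearMap K K P Q, smul_eq_mul]
  let Θ : ((P →ₗ[K] Q) × ((s : Fin 3) → LinearMap.ker (ad (φ s) (ψ s)))) →ₗ[K]
      (Fin 3 → (P →ₗ[K] Q)) :=
    { toFun := fun p s => p.1 + (p.2 s : P →ₗ[K] Q)
      map_add' := fun x y => by funext s; simp; abel
      map_smul' := fun c x => by funext s; simp }
  have h4 : LinearMap.ker S ≤ LinearMap.range Θ := by
    intro x hx
    have hx' : ∑ s, ad (φ s) (ψ s) (x s) = 0 := by rw [← hS]; exact hx
    obtain ⟨y, hy⟩ := h x hx'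
    refine ⟨(y, fun s => ⟨x s - y, hy s⟩), ?_⟩
    funext s
    simp [Θ]
  have h5 : finrank K (LinearMap.ker S) ≤ finrank K P * finrank K Q +
      ∑ s, finrank K (LinearMap.ker (ad (φ s) (ψ s))) := by
    calc finrank K (LinearMap.ker S) ≤ finrank K (LinearMap.range Θ) := Submodule.finrank_mono h4
      _ ≤ finrank K ((P →ₗ[K] Q) × ((s : Fin 3) → LinearMap.ker (ad (φ s) (ψ s)))) :=
        LinearMap.finrank_range_le Θ
      _ = _ := by
        rw [Module.finrank_prod, Module.finrank_pi_fintype, Module.finrank_linearMap K K P Q]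
  omega

/-- A core block has large ranks. -/
lemma core_rank (φ : Fin 3 → End K P) (hsum : ∑ s, φ s = 0)
    (hker : ∀ v, (∀ s, φ s v = 0) → v = 0)
    (hran : ⨆ s, LinearMap.range (φ s) = ⊤) :
    2 * finrank K P ≤ ∑ s, rk (φ s) 1 := by
  let α : P →ₗ[K] ((s : Fin 3) → LinearMap.range (φ s)) :=
    LinearMap.pi fun s => (φ s).rangeRestrict
  let β : ((s : Fin 3) → LinearMap.range (φ s)) →ₗ[K] P :=
    ∑ s, (LinearMap.range (φ s)).subtype ∘ₗ LinearMap.proj s
  have hβ : ∀ x, β x = ∑ s, (x s : P) := by intro x; simp [β]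
  have hα : Function.Injective α := by
    rw [← LinearMap.ker_eq_bot, eq_bot_iff]
    intro v hv
    rw [Submodule.mem_bot]
    apply hker
    intro s
    have := congrFun (show α v = 0 from hv) s
    exact congrArg Subtype.val this
  have hβs : LinearMap.range β = ⊤ := by
    rw [eq_top_iff, ← hran]
    apply iSup_le
    rintro s _ ⟨v, rfl⟩
    refine ⟨Pi.single s ⟨φ s v, v, rfl⟩, ?_⟩
    rw [hβ, Finset.sum_eq_single s]
    · simp
    · intro b _ hb; simp [Pi.single_eq_of_ne hb]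
    · simp
  have hαβ : LinearMap.range α ≤ LinearMap.ker β := by
    rintro _ ⟨v, rfl⟩
    rw [LinearMap.mem_ker, hβ]
    have : ∑ s, ((α v) s : P) = (∑ s, φ s) v := by simp [α, LinearMap.sum_apply]
    rw [this, hsum]; simp
  have h1 := LinearMap.finrank_range_add_finrank_ker β
  rw [hβs, finrank_top, Module.finrank_pi_fintype] at h1
  have h2 : finrank K (LinearMap.range α) = finrank K P := LinearMap.finrank_range_of_inj hα
  have h3 := Submodule.finrank_mono hαβ
  have h4 : ∑ s, finrank K (LinearMap.range (φ s)) = ∑ s, rk (φ s) 1 :=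
    Finset.sum_congr rfl fun s _ => by rw [rk, pow_one]
  omega

end Count

/-- Abel summation. -/
lemma abel (n r : ℕ → ℤ) (N : ℕ) :
    ∑ j ∈ Finset.range N, n j * (r j - r (j + 1)) +
      ∑ j ∈ Finset.range N, (n j - n (j + 1)) * r (j + 1) + n N * r N = n 0 * r 0 := by
  induction N with
  | zero => simp
  | succ N ih =>
    rw [Finset.sum_range_succ, Finset.sum_range_succ, ← ih]
    ring

section Fund
variable {K P Q : Type*} [Field K] [AddCommGroup P] [Module K P]
  [AddCommGroup Q] [Module K Q] [FiniteDimensional K P] [FiniteDimensional K Q]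

/-- The fundamental region argument for one ordered pair of blocks. -/
lemma fund (φ : Fin 3 → End K P) (ψ : Fin 3 → End K Q) {N : ℕ}
    (hφ : ∀ s, φ s ^ N = 0) (hψ : ∀ s, ψ s ^ N = 0)
    (hH : ∀ x : Fin 3 → (P →ₗ[K] Q), ∑ s, ad (φ s) (ψ s) (x s) = 0 →
      ∃ y : P →ₗ[K] Q, ∀ s, ad (φ s) (ψ s) (x s - y) = 0)
    (hsum : ∑ s, φ s = 0)
    (hker : ∀ v, (∀ s, φ s v = 0) → v = 0)
    (hran : ⨆ s, LinearMap.range (φ s) = ⊤)
    (hQ : 0 < finrank K Q) :
    ∑ s, rk (φ s) 1 = 2 * finrank K P ∧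
      ∀ s j, rk (ψ s) (j + 1) ≠ 0 → nn (φ s) j = nn (φ s) (j + 1) := by
  have h1 := euler φ ψ hH
  have h2 := core_rank φ hsum hker hran
  have h3 : ∀ s, finrank K (LinearMap.ker (ad (φ s) (ψ s))) ≤
      ∑ j ∈ Finset.range N, nn (φ s) j * nn (ψ s) j := fun s => hom_bound _ _ (hφ s)
  have hN0 : ∀ s, rk (ψ s) N = 0 := fun s => rk_eq_zero_of_pow (hψ s)
  -- Abel summation for each s
  have h4 : ∀ s, (∑ j ∈ Finset.range N, (nn (φ s) j * nn (ψ s) j : ℕ) : ℤ) +
      ∑ j ∈ Finset.range N, ((nn (φ s) j : ℤ) - nn (φ s) (j + 1)) * rk (ψ s) (j + 1) =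
      ((finrank K P : ℤ) - rk (φ s) 1) * finrank K Q := by
    intro s
    have e := abel (fun j => (nn (φ s) j : ℤ)) (fun j => (rk (ψ s) j : ℤ)) N
    have e0 : (nn (φ s) 0 : ℤ) = (finrank K P : ℤ) - rk (φ s) 1 := by
      have := rk_succ (φ s) 0
      rw [rk_zero] at this
      simp only [zero_add] at this
      omega
    simp only [hN0 s, Nat.cast_zero, mul_zero, add_zero, rk_zero, e0] at e
    rw [← e]
    congr 1
    push_cast
    apply Finset.sum_congr rfl
    intro j _
    have := rk_succ (ψ s) j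
    have : (rk (ψ s) j : ℤ) - rk (ψ s) (j + 1) = nn (ψ s) j := by omega
    rw [this]
  have h5 : ∀ s j, 0 ≤ ((nn (φ s) j : ℤ) - nn (φ s) (j + 1)) * rk (ψ s) (j + 1) := by
    intro s j
    apply mul_nonneg _ (Int.natCast_nonneg _)
    have := nn_anti (φ s) j
    omega
  have h6 : ∀ s, 0 ≤ ∑ j ∈ Finset.range N,
      ((nn (φ s) j : ℤ) - nn (φ s) (j + 1)) * rk (ψ s) (j + 1) := fun s =>
    Finset.sum_nonneg fun j _ => h5 s j
  -- total
  have h1' : (finrank K P : ℤ) * finrank K Q ≤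
      ∑ s, (∑ j ∈ Finset.range N, (nn (φ s) j * nn (ψ s) j : ℕ) : ℤ) := by
    have : (finrank K P : ℤ) * finrank K Q ≤
        ((∑ s, ∑ j ∈ Finset.range N, nn (φ s) j * nn (ψ s) j : ℕ) : ℤ) := by
      exact_mod_cast h1.trans (Finset.sum_le_sum fun s _ => h3 s)
    refine this.trans (le_of_eq ?_)
    push_cast
    rfl
  have h2' : 2 * (finrank K P : ℤ) ≤ ∑ s, (rk (φ s) 1 : ℤ) := by exact_mod_cast h2
  have hQ' : (0 : ℤ) < finrank K Q := by exact_mod_cast hQ
  have h7 : ∑ s, ((∑ j ∈ Finset.range N, (nn (φ s) j * nn (ψ s) j : ℕ) : ℤ) +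
      ∑ j ∈ Finset.range N, ((nn (φ s) j : ℤ) - nn (φ s) (j + 1)) * rk (ψ s) (j + 1)) =
      (3 * (finrank K P : ℤ) - ∑ s, (rk (φ s) 1 : ℤ)) * finrank K Q := by
    rw [Finset.sum_congr rfl fun s _ => h4 s, ← Finset.sum_mul, Finset.sum_sub_distrib]
    simp
  rw [Finset.sum_add_distrib] at h7
  have h8 : 0 ≤ ∑ s, ∑ j ∈ Finset.range N,
      ((nn (φ s) j : ℤ) - nn (φ s) (j + 1)) * rk (ψ s) (j + 1) :=
    Finset.sum_nonneg fun s _ => h6 s
  have h9 : ∑ s, (rk (φ s) 1 : ℤ) = 2 * (finrank K P : ℤ) := by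
    by_contra hne
    have hlt : 2 * (finrank K P : ℤ) < ∑ s, (rk (φ s) 1 : ℤ) := lt_of_le_of_ne h2' (Ne.symm hne)
    nlinarith
  have h10 : ∑ s, ∑ j ∈ Finset.range N,
      ((nn (φ s) j : ℤ) - nn (φ s) (j + 1)) * rk (ψ s) (j + 1) = 0 := by
    rw [h9] at h7
    nlinarith
  refine ⟨by exact_mod_cast h9, ?_⟩
  intro s j hj
  have h11 := (Finset.sum_eq_zero_iff_of_nonneg (fun s _ => h6 s)).mp h10 s (Finset.mem_univ s)
  have hjN : j < N := by
    by_contra hcon
    apply hj
    have hanti : ∀ k, rk (ψ s) (N + k) = 0 := by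
      intro k
      induction k with
      | zero => exact hN0 s
      | succ k ih => exact Nat.le_zero.mp (ih ▸ rk_anti (ψ s) (N + k))
    have := hanti (j + 1 - N)
    rwa [show N + (j + 1 - N) = j + 1 by omega] at this
  have h12 := (Finset.sum_eq_zero_iff_of_nonneg (fun j _ => h5 s j)).mp h11 j
    (Finset.mem_range.mpr hjN)
  rcases mul_eq_zero.mp h12 with h | h
  · omega
  · exact absurd (by exact_mod_cast h) hj

/-- Two blocks: the tame pattern. -/
lemma tame_pair (φ : Fin 3 → End K P) (ψ : Fin 3 → End K Q) {N : ℕ}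
    (hφ : ∀ s, φ s ^ N = 0) (hψ : ∀ s, ψ s ^ N = 0)
    (hP : 0 < finrank K P) (hQ : 0 < finrank K Q)
    (hPQ : ∑ s, rk (φ s) 1 = 2 * finrank K P ∧
      ∀ s j, rk (ψ s) (j + 1) ≠ 0 → nn (φ s) j = nn (φ s) (j + 1))
    (hQP : ∑ s, rk (ψ s) 1 = 2 * finrank K Q ∧
      ∀ s j, rk (φ s) (j + 1) ≠ 0 → nn (ψ s) j = nn (ψ s) (j + 1)) :
    ∃ l : Fin 3 → ℕ, (∀ s, 0 < l s) ∧ (∀ s, φ s ^ (l s) = 0) ∧ (∀ s, ψ s ^ (l s) = 0) ∧
      (∀ s j, j ≤ l s → l s * rk (φ s) j = (l s - j) * finrank K P) ∧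
      (∀ s j, j ≤ l s → l s * rk (ψ s) j = (l s - j) * finrank K Q) ∧
      ∑ s, (1 / (l s : ℚ)) = 1 := by
  classical
  have hex : ∀ s, ∃ l, rk (φ s) l = 0 := fun s => ⟨N, rk_eq_zero_of_pow (hφ s)⟩
  have hex' : ∀ s, ∃ l, rk (ψ s) l = 0 := fun s => ⟨N, rk_eq_zero_of_pow (hψ s)⟩
  let l : Fin 3 → ℕ := fun s => Nat.find (hex s)
  let l' : Fin 3 → ℕ := fun s => Nat.find (hex' s)
  have hl : ∀ s, rk (φ s) (l s) = 0 := fun s => Nat.find_spec (hex s)
  have hl' : ∀ s, rk (ψ s) (l' s) = 0 := fun s => Nat.find_spec (hex' s)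
  have hlt : ∀ s j, j < l s → rk (φ s) j ≠ 0 := fun s j h => Nat.find_min (hex s) h
  have hlt' : ∀ s j, j < l' s → rk (ψ s) j ≠ 0 := fun s j h => Nat.find_min (hex' s) h
  have hl0 : ∀ s, 0 < l s := by
    intro s
    rcases Nat.eq_zero_or_pos (l s) with h | h
    · have := hl s
      rw [h, rk_zero] at this
      omega
    · exact h
  have hl0' : ∀ s, 0 < l' s := by
    intro s
    rcases Nat.eq_zero_or_pos (l' s) with h | h
    · have := hl' s
      rw [h, rk_zero] at this
      omega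
    · exact h
  have hle : ∀ s, l' s ≤ l s := by
    intro s
    apply Nat.find_min' (hex' s)
    obtain ⟨m, hm⟩ : ∃ m, l s = m + 1 := ⟨l s - 1, by have := hl0 s; omega⟩
    by_contra hne
    have h1 := hPQ.2 s m (by rwa [hm] at hne)
    have h2 := rk_succ (φ s) m
    have h3 := rk_succ (φ s) (m + 1)
    have h4 := hl s
    rw [hm] at h4
    have h5 := hlt s m (by omega)
    omega
  have hle' : ∀ s, l s ≤ l' s := by
    intro s
    apply Nat.find_min' (hex s)
    obtain ⟨m, hm⟩ : ∃ m, l' s = m + 1 := ⟨l' s - 1, by have := hl0' s; omega⟩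
    by_contra hne
    have h1 := hQP.2 s m (by rwa [hm] at hne)
    have h2 := rk_succ (ψ s) m
    have h3 := rk_succ (ψ s) (m + 1)
    have h4 := hl' s
    rw [hm] at h4
    have h5 := hlt' s m (by omega)
    omega
  have hll : ∀ s, l' s = l s := fun s => le_antisymm (hle s) (hle' s)
  -- rank formula
  have hrk : ∀ s j, j ≤ l s → rk (φ s) j = (l s - j) * nn (φ s) 0 := by
    intro s
    have hc : ∀ j, j < l s → nn (φ s) j = nn (φ s) 0 := by
      intro j
      induction j with
      | zero => intro _; rfl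
      | succ j ih =>
        intro hj
        rw [← ih (by omega)]
        exact (hPQ.2 s j (hlt' s (j + 1) (by rw [hll]; exact hj))).symm
    intro j hj
    obtain ⟨k, hk⟩ : ∃ k, l s = j + k := ⟨l s - j, by omega⟩
    induction k generalizing j with
    | zero =>
      have : j = l s := by omega
      rw [this, hl s]; simp
    | succ k ih =>
      rw [rk_succ, ih (j + 1) (by omega) (by omega), hc j (by omega)]
      have : l s - j = (l s - (j + 1)) + 1 := by omega
      rw [this]; ring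
  have hrk' : ∀ s j, j ≤ l s → rk (ψ s) j = (l s - j) * nn (ψ s) 0 := by
    intro s
    have hc : ∀ j, j < l s → nn (ψ s) j = nn (ψ s) 0 := by
      intro j
      induction j with
      | zero => intro _; rfl
      | succ j ih =>
        intro hj
        rw [← ih (by omega)]
        exact (hQP.2 s j (hlt s (j + 1) hj)).symm
    intro j hj
    obtain ⟨k, hk⟩ : ∃ k, l s = j + k := ⟨l s - j, by omega⟩
    induction k generalizing j with
    | zero =>
      have : j = l s := by omega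
      rw [this, ← hll s, hl' s]; simp
    | succ k ih =>
      rw [rk_succ, ih (j + 1) (by omega) (by omega), hc j (by omega)]
      have : l s - j = (l s - (j + 1)) + 1 := by omega
      rw [this]; ring
  have hdim : ∀ s, finrank K P = l s * nn (φ s) 0 := by
    intro s
    have := hrk s 0 (Nat.zero_le _)
    rwa [rk_zero, Nat.sub_zero] at this
  have hdim' : ∀ s, finrank K Q = l s * nn (ψ s) 0 := by
    intro s
    have := hrk' s 0 (Nat.zero_le _)
    rwa [rk_zero, Nat.sub_zero] at this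
  refine ⟨l, hl0, fun s => pow_eq_zero_of_rk (hl s), fun s => ?_, ?_, ?_, ?_⟩
  · rw [← hll s]; exact pow_eq_zero_of_rk (hl' s)
  · intro s j hj
    rw [hrk s j hj, hdim s]; ring
  · intro s j hj
    rw [hrk' s j hj, hdim' s]; ring
  · have hPne : (finrank K P : ℚ) ≠ 0 := by
      have : (0 : ℚ) < finrank K P := by exact_mod_cast hP
      exact this.ne'
    have h1 : ∀ s, (rk (φ s) 1 : ℚ) = finrank K P * (1 - 1 / (l s : ℚ)) := by
      intro s
      have hls : (l s : ℚ) ≠ 0 := by
        have : (0 : ℚ) < l s := by exact_mod_cast hl0 s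
        exact this.ne'
      have e1 := hrk s 1 (hl0 s)
      have e2 := hdim s
      have e3 : ((l s - 1 : ℕ) : ℚ) = (l s : ℚ) - 1 := by
        rw [Nat.cast_sub (hl0 s)]; simp
      rw [e1, e2]
      push_cast
      rw [e3]
      field_simp
    have h2 : ∑ s, (rk (φ s) 1 : ℚ) = 2 * finrank K P := by exact_mod_cast hPQ.1
    rw [Finset.sum_congr rfl fun s _ => h1 s, ← Finset.mul_sum, Finset.sum_sub_distrib] at h2
    simp only [Finset.sum_const, Finset.card_univ, Fintype.card_fin, nsmul_eq_mul, mul_one] at h2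
    have h3 : (finrank K P : ℚ) * ((3 : ℕ) - ∑ s, (1 / (l s : ℚ)) - 2) = 0 := by
      linarith
    rcases mul_eq_zero.mp h3 with h | h
    · exact absurd h hPne
    · push_cast at h
      linarith

end Fund

end Crest.Agent.R172.Struct
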