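import Crest.Agent.R172.Struct1

/-!
Row 172, structure lemma (S) of note 12992, part (3): `H¹ = 0` between two generalized
eigenblocks of a self-adjoint `D` commuting with the `Φ_s`, from the derivation hypothesis.
-/

set_option autoImplicit false

namespace Crest.Agent.R172.Struct

open Module

/-- The derivation hypothesis, (0) of note 12992. -/
def Der {K M : Type*} [Field K] [AddCommGroup M] [Module K M] (B : LinearMap.BilinForm K M)
    (Φ : Fin 3 → End K M) : Prop :=
  ∀ X : Fin 3 → End K M, (∀ s u v, B (X s u) v = - B u (X s v)) →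
    ∑ s, (X s * Φ s - Φ s * X s) = 0 →
    ∃ (d : K → K) (dM : M → M), (∀ u v, dM (u + v) = dM u + dM v) ∧
      (∀ (c : K) v, dM (c • v) = d c • v + c • dM v) ∧
      (∀ u v, d (B u v) = B (dM u) v + B u (dM v)) ∧
      ∀ s v, dM (Φ s v) - Φ s (dM v) = (X s * Φ s - Φ s * X s) v

section Blocks
variable {K M : Type*} [Field K] [AddCommGroup M] [Module K M] [FiniteDimensional K M]

lemma maxGen_eq_iSup (D : End K M) (lam : K) :
    D.maxGenEigenspace lam = ⨆ n : ℕ, LinearMap.ker ((D - lam • (1 : End K M)) ^ n) := by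
  rw [← Module.End.iSup_genEigenspace_eq]
  congr 1
  funext n
  exact Module.End.genEigenspace_nat

/-- Projection onto a generalized eigenspace, commuting with everything commuting with `D`. -/
lemma exists_proj (D : End K M) (lam : K) :
    ∃ p : M →ₗ[K] D.maxGenEigenspace lam, (∀ v : D.maxGenEigenspace lam, p (v : M) = v) ∧
      ∀ Y : End K M, Commute D Y → ∀ v, (p (Y v) : M) = Y (p v : M) := by
  have h := LinearMap.isCompl_iSup_ker_pow_iInf_range_pow (D - lam • (1 : End K M))
  have hc : IsCompl (D.maxGenEigenspace lam)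
      (⨅ n : ℕ, LinearMap.range ((D - lam • (1 : End K M)) ^ n)) := by
    rw [maxGen_eq_iSup]; exact h
  refine ⟨Submodule.projectionOnto _ _ hc, fun v => Submodule.projectionOnto_apply_left hc v, ?_⟩
  intro Y hY v
  have hY' : Commute (D - lam • (1 : End K M)) Y := by
    apply Commute.sub_left hY
    exact (Commute.one_left Y).smul_left lam
  have hsplit : v ∈ D.maxGenEigenspace lam ⊔
      (⨅ n : ℕ, LinearMap.range ((D - lam • (1 : End K M)) ^ n)) := by
    rw [hc.sup_eq_top]; trivial
  obtain ⟨a, ha, b, hb, rfl⟩ := Submodule.mem_sup.mp hsplit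
  have hYa : Y a ∈ D.maxGenEigenspace lam :=
    Module.End.mapsTo_maxGenEigenspace_of_comm hY lam ha
  have hYb : Y b ∈ (⨅ n : ℕ, LinearMap.range ((D - lam • (1 : End K M)) ^ n)) := by
    rw [Submodule.mem_iInf] at hb ⊢
    intro n
    obtain ⟨c, hc⟩ := hb n
    refine ⟨Y c, ?_⟩
    have := (hY'.pow_left n).eq
    calc ((D - lam • (1 : End K M)) ^ n) (Y c) = (((D - lam • (1 : End K M)) ^ n) * Y) c := rfl
      _ = (Y * (D - lam • (1 : End K M)) ^ n) c := by rw [this]
      _ = Y b := by rw [Module.End.mul_apply, hc]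
  rw [map_add, map_add, Submodule.projectionOnto_apply_of_mem_left hc hYa,
    Submodule.projectionOnto_apply_of_mem_right hc hYb, map_add,
    Submodule.projectionOnto_apply_of_mem_left hc ha,
    Submodule.projectionOnto_apply_of_mem_right hc hb]
  simp

lemma pow_inj_on_block (D : End K M) {lam mu : K} (hne : lam ≠ mu) (k : ℕ) {q : M}
    (hq : q ∈ D.maxGenEigenspace mu) (h0 : ((D - lam • (1 : End K M)) ^ k) q = 0) : q = 0 := by
  have h1 : q ∈ D.genEigenspace lam k := by
    rw [Module.End.genEigenspace_nat]; exact h0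
  have hd := Module.End.disjoint_genEigenspace D hne (k : ℕ∞) ⊤
  exact (Submodule.disjoint_def.mp hd) q h1 hq

lemma pow_mapsTo_block (D : End K M) (lam mu : K) (k : ℕ) {q : M}
    (hq : q ∈ D.maxGenEigenspace mu) :
    ((D - lam • (1 : End K M)) ^ k) q ∈ D.maxGenEigenspace mu := by
  have hY : Commute D ((D - lam • (1 : End K M)) ^ k) := by
    apply Commute.pow_right
    apply Commute.sub_right (Commute.refl D)
    exact (Commute.one_right D).smul_right lam
  exact Module.End.mapsTo_maxGenEigenspace_of_comm hY mu hq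

/-- Generalized eigenspaces of a self-adjoint operator are orthogonal. -/
lemma orth_blocks (B : LinearMap.BilinForm K M) (D : End K M)
    (hD : ∀ u v, B (D u) v = B u (D v)) {lam mu : K} (hne : lam ≠ mu) {p q : M}
    (hp : p ∈ D.maxGenEigenspace lam) (hq : q ∈ D.maxGenEigenspace mu) : B p q = 0 := by
  obtain ⟨k, hk⟩ := (Module.End.mem_maxGenEigenspace D lam p).mp hp
  have hadj : ∀ (k : ℕ) (u v : M), B (((D - lam • (1 : End K M)) ^ k) u) v =
      B u (((D - lam • (1 : End K M)) ^ k) v) := by
    intro k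
    induction k with
    | zero => intro u v; simp
    | succ k ih =>
      intro u v
      have e1 : ((D - lam • (1 : End K M)) ^ (k + 1)) u =
          ((D - lam • (1 : End K M)) ^ k) ((D - lam • (1 : End K M)) u) := by
        rw [pow_succ, Module.End.mul_apply]
      have e2 : ((D - lam • (1 : End K M)) ^ (k + 1)) v =
          (D - lam • (1 : End K M)) (((D - lam • (1 : End K M)) ^ k) v) := by
        rw [pow_succ', Module.End.mul_apply]
      rw [e1, e2, ih]
      simp [hD]
  let E : (D.maxGenEigenspace mu) →ₗ[K] (D.maxGenEigenspace mu) :=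
    ((D - lam • (1 : End K M)) ^ k).restrict
      (fun q hq => pow_mapsTo_block D lam mu k hq)
  have hinj : Function.Injective E := by
    rw [← LinearMap.ker_eq_bot, eq_bot_iff]
    rintro ⟨v, hv⟩ h
    have h' : ((D - lam • (1 : End K M)) ^ k) v = 0 := congrArg Subtype.val h
    have := pow_inj_on_block D hne k hv h'
    rw [Submodule.mem_bot]
    exact Subtype.ext this
  obtain ⟨⟨q', hq'⟩, hE⟩ := (LinearMap.injective_iff_surjective.mp hinj) ⟨q, hq⟩
  have h1 : ((D - lam • (1 : End K M)) ^ k) q' = q := congrArg Subtype.val hE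
  rw [← h1, ← hadj, hk]
  simp

/-- restriction of an operator commuting with `D` to a block -/
noncomputable def res (D : End K M) (lam : K) (Y : End K M) (hY : Commute D Y) :
    End K (D.maxGenEigenspace lam) :=
  Y.restrict (Module.End.mapsTo_maxGenEigenspace_of_comm hY lam)

omit [FiniteDimensional K M] in
@[simp] lemma res_coe (D : End K M) (lam : K) (Y : End K M) (hY : Commute D Y)
    (v : D.maxGenEigenspace lam) : (res D lam Y hY v : M) = Y v := rfl

/-- `ad D` is bijective between blocks with different eigenvalues. -/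
lemma adD_inj (D : End K M) {lam mu : K} (hne : lam ≠ mu)
    (x : (D.maxGenEigenspace lam) →ₗ[K] (D.maxGenEigenspace mu))
    (hx : ad (res D lam D (Commute.refl D)) (res D mu D (Commute.refl D)) x = 0) : x = 0 := by
  rw [ad_eq_zero_iff] at hx
  ext v
  obtain ⟨k, hk⟩ := (Module.End.mem_maxGenEigenspace D lam v).mp v.2
  have key : ∀ (k : ℕ) (w : D.maxGenEigenspace lam),
      ∃ w' : D.maxGenEigenspace lam, (w' : M) = ((D - lam • (1 : End K M)) ^ k) w ∧
        (x w' : M) = ((D - lam • (1 : End K M)) ^ k) (x w) := by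
    intro k
    induction k with
    | zero => intro w; exact ⟨w, by simp, by simp⟩
    | succ k ih =>
      intro w
      obtain ⟨w', h1, h2⟩ := ih w
      refine ⟨res D lam D (Commute.refl D) w' - lam • w', ?_, ?_⟩
      · rw [pow_succ', Module.End.mul_apply, ← h1]
        simp
      · rw [map_sub, hx, map_smul, pow_succ', Module.End.mul_apply, ← h2]
        simp
  obtain ⟨w', h1, h2⟩ := key k v
  rw [hk] at h1
  have hw' : w' = 0 := Subtype.ext h1
  rw [hw', map_zero] at h2
  have := pow_inj_on_block D hne k (x v).2 h2.symm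
  simpa using this

/-- `H¹ = 0` between two different blocks. -/
theorem h1_zero (B : LinearMap.BilinForm K M) (hB : B.Nondegenerate)
    (hsym : ∀ u v, B u v = B v u) (Φ : Fin 3 → End K M)
    (hΦ : ∀ s u v, B (Φ s u) v = B u (Φ s v)) (hDer : Der B Φ)
    (D : End K M) (hD : ∀ u v, B (D u) v = B u (D v)) (hc : ∀ s, Commute D (Φ s))
    {lam mu : K} (hne : lam ≠ mu)
    (x : Fin 3 → ((D.maxGenEigenspace lam) →ₗ[K] (D.maxGenEigenspace mu)))
    (hx : ∑ s, ad (res D lam (Φ s) (hc s)) (res D mu (Φ s) (hc s)) (x s) = 0) :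
    ∃ y : (D.maxGenEigenspace lam) →ₗ[K] (D.maxGenEigenspace mu),
      ∀ s, ad (res D lam (Φ s) (hc s)) (res D mu (Φ s) (hc s)) (x s - y) = 0 := by
  obtain ⟨pP, hP1, hP2⟩ := exists_proj D lam
  obtain ⟨pQ, hQ1, hQ2⟩ := exists_proj D mu
  -- the extended maps
  let xt : Fin 3 → End K M := fun s => (D.maxGenEigenspace mu).subtype ∘ₗ x s ∘ₗ pP
  have hxt : ∀ s v, xt s v = (x s (pP v) : M) := fun s v => rfl
  let xa : Fin 3 → End K M := fun s => B.leftAdjointOfNondegenerate hB (xt s)
  have hxa : ∀ s u v, B (xa s u) v = B u (xt s v) := fun s u v =>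
    LinearMap.BilinForm.isAdjointPairLeftAdjointOfNondegenerate B hB (xt s) u v
  have hext : ∀ u w : M, (∀ v, B u v = B w v) → u = w := by
    intro u w h
    have h2 := hB.1 (u - w) (fun v => by rw [map_sub, LinearMap.sub_apply, h v, sub_self])
    exact sub_eq_zero.mp h2
  let X : Fin 3 → End K M := fun s => xt s - xa s
  have hX : ∀ s v, X s v = xt s v - xa s v := fun s v => rfl
  have hskew : ∀ s u v, B (X s u) v = - B u (X s v) := by
    intro s u v
    rw [hX, hX, map_sub, map_sub, LinearMap.sub_apply, hxa, hsym u (xa s v), hxa, hsym v (xt s u)]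
    ring
  have hsumt : ∀ v, ∑ s, (xt s (Φ s v) - Φ s (xt s v)) = 0 := by
    intro v
    have h1 : ∀ s, xt s (Φ s v) - Φ s (xt s v) =
        ((ad (res D lam (Φ s) (hc s)) (res D mu (Φ s) (hc s)) (x s) (pP v) :
          D.maxGenEigenspace mu) : M) := by
      intro s
      rw [ad_apply, AddSubgroupClass.coe_sub, res_coe, hxt, hxt]
      congr 2
      apply congrArg
      apply Subtype.ext
      rw [hP2 _ (hc s), res_coe]
    rw [Finset.sum_congr rfl fun s _ => h1 s]
    have h2 : ∑ s, (ad (res D lam (Φ s) (hc s)) (res D mu (Φ s) (hc s)) (x s) (pP v)) = 0 := by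
      rw [← LinearMap.sum_apply, hx]; rfl
    have h3 := congrArg (Subtype.val) h2
    rw [AddSubmonoidClass.coe_finsetSum] at h3
    exact h3
  have hsum : ∑ s, (X s * Φ s - Φ s * X s) = 0 := by
    apply LinearMap.ext
    intro v
    rw [LinearMap.sum_apply, LinearMap.zero_apply]
    have h1 : ∀ s, (X s * Φ s - Φ s * X s) v =
        (xt s (Φ s v) - Φ s (xt s v)) + (Φ s (xa s v) - xa s (Φ s v)) := by
      intro s
      rw [LinearMap.sub_apply, Module.End.mul_apply, Module.End.mul_apply, hX, hX, map_sub]
      abel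
    rw [Finset.sum_congr rfl fun s _ => h1 s, Finset.sum_add_distrib, hsumt v, zero_add]
    apply hext
    intro w
    rw [map_zero, LinearMap.zero_apply, map_sum, LinearMap.sum_apply]
    have h2 : ∀ s, B (Φ s (xa s v) - xa s (Φ s v)) w = B v (xt s (Φ s w) - Φ s (xt s w)) := by
      intro s
      rw [map_sub, LinearMap.sub_apply, hΦ, hxa, hxa, hΦ, map_sub]
    rw [Finset.sum_congr rfl fun s _ => h2 s, ← map_sum, hsumt w, map_zero]
  obtain ⟨d, dM, hadd, hsmul, -, hder⟩ := hDer X hskew hsum
  -- the linear map δ = [dM, D]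
  let δ : End K M :=
    { toFun := fun v => dM (D v) - D (dM v)
      map_add' := fun u v => by
        simp only [map_add, hadd]; abel
      map_smul' := fun c v => by
        simp only [map_smul, hsmul, map_add, RingHom.id_apply, smul_sub]; abel }
  have hδ : ∀ v, δ v = dM (D v) - D (dM v) := fun v => rfl
  have hDc : ∀ s v, D (Φ s v) = Φ s (D v) := by
    intro s v
    have := congrArg (fun T : End K M => T v) (hc s).eq
    simpa [Module.End.mul_apply] using this
  have hder' : ∀ s v, dM (Φ s v) = Φ s (dM v) + (X s (Φ s v) - Φ s (X s v)) := by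
    intro s v
    have := hder s v
    rw [LinearMap.sub_apply, Module.End.mul_apply, Module.End.mul_apply] at this
    rw [← this]; abel
  -- E_s = δ + [D, X_s] commutes with Φ_s
  have hE : ∀ s v, δ (Φ s v) + (D (X s (Φ s v)) - X s (D (Φ s v))) =
      Φ s (δ v + (D (X s v) - X s (D v))) := by
    intro s v
    rw [hδ, hδ, hDc, hder', hder' s v]
    simp only [map_add, map_sub, hDc]
    abel
  -- the block of δ
  let δb : (D.maxGenEigenspace lam) →ₗ[K] (D.maxGenEigenspace mu) :=
    pQ ∘ₗ δ ∘ₗ (D.maxGenEigenspace lam).subtype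
  have hδb : ∀ v, δb v = pQ (δ v) := fun v => rfl
  have hXP : ∀ s (v : D.maxGenEigenspace lam), X s (v : M) = (x s v : M) := by
    intro s v
    rw [hX, hxt, hP1]
    have : xa s (v : M) = 0 := by
      apply hext
      intro w
      rw [hxa, map_zero, LinearMap.zero_apply]
      exact orth_blocks B D hD hne v.2 (x s (pP w)).2
    rw [this, sub_zero]
  have hDD := Commute.refl D
  have hblock : ∀ s, ad (res D lam (Φ s) (hc s)) (res D mu (Φ s) (hc s))
      (δb - ad (res D lam D hDD) (res D mu D hDD) (x s)) = 0 := by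
    intro s
    rw [ad_eq_zero_iff]
    -- value of e_s on a vector
    have hval : ∀ v : D.maxGenEigenspace lam,
        (δb - ad (res D lam D hDD) (res D mu D hDD) (x s)) v =
          pQ (δ v + (D (X s v) - X s (D v))) := by
      intro v
      rw [LinearMap.sub_apply, ad_apply, hδb, map_add, map_sub, hXP]
      have e1 : pQ (D (x s v : M)) = res D mu D hDD (x s v) := by
        apply Subtype.ext
        rw [hQ2 D hDD, hQ1, res_coe]
      have e2 : X s (D (v : M)) = (x s (res D lam D hDD v) : M) := by
        rw [← hXP s (res D lam D hDD v), res_coe]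
      rw [e1, e2, hQ1]
      abel
    intro v
    rw [hval, hval, res_coe, hE]
    apply Subtype.ext
    rw [hQ2 _ (hc s), res_coe]
  -- surjectivity of ad D
  let τ : ((D.maxGenEigenspace lam) →ₗ[K] (D.maxGenEigenspace mu)) →ₗ[K]
      ((D.maxGenEigenspace lam) →ₗ[K] (D.maxGenEigenspace mu)) :=
    ad (res D lam D hDD) (res D mu D hDD)
  have hτinj : Function.Injective τ := by
    rw [← LinearMap.ker_eq_bot, eq_bot_iff]
    intro z hz
    rw [Submodule.mem_bot]
    exact adD_inj D hne z hz
  obtain ⟨y, hy⟩ := (LinearMap.injective_iff_surjective.mp hτinj) δb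
  refine ⟨y, fun s => ?_⟩
  have hcomm : ∀ z : (D.maxGenEigenspace lam) →ₗ[K] (D.maxGenEigenspace mu),
      τ (ad (res D lam (Φ s) (hc s)) (res D mu (Φ s) (hc s)) z) =
        ad (res D lam (Φ s) (hc s)) (res D mu (Φ s) (hc s)) (τ z) := by
    intro z
    ext v
    simp only [τ, ad_apply, map_sub, AddSubgroupClass.coe_sub, res_coe, hDc]
    have e1 : (res D lam (Φ s) (hc s)) (res D lam D hDD v) =
        (res D lam D hDD) (res D lam (Φ s) (hc s) v) := by
      apply Subtype.ext
      rw [res_coe, res_coe, res_coe, res_coe, hDc]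
    rw [e1]
    abel
  apply hτinj
  rw [hcomm, map_zero, map_sub, hy]
  have h1 := hblock s
  have h2 : τ (x s) - δb = -(δb - ad (res D lam D hDD) (res D mu D hDD) (x s)) := by
    simp only [τ]; abel
  rw [h2, map_neg, h1, neg_zero]

end Blocks

end Crest.Agent.R172.Struct
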