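import Crest.Agent.R172.Qt4

/-!
Row 172 (S0260): every global flag compatible form `S → S^*` is skew (`H⁰(Sym² S^*) = 0`).
-/

set_option autoImplicit false
set_option linter.unusedSectionVars false
set_option linter.unusedFintypeInType false
set_option linter.unusedDecidableInType false

namespace Crest.Agent.R172.SymQ

open Matrix Module Crest.Agent.R172.FO Crest.Agent.R172.Qt

variable {ι : Type*} [Fintype ι] [DecidableEq ι] {δ : Type*} [Fintype δ] [DecidableEq δ]
variable {k K : Type*} [Field k] [Field K] [Algebra k K]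
variable {arm : δ → Fin 3} {J : Matrix ι ι K} {B : Matrix δ δ K}
  {N W : Submodule K (Matrix ι δ K)} {g : Matrix ι δ K}

/-- a skew matrix with prescribed `X g = A g`, if `gᵀ J A g = 0` -/
theorem exists_skw (hJ : Jᵀ = J) (hJu : IsUnit J) {A : Matrix ι ι K}
    (hA : gᵀ * J * (A * g) = 0) : ∃ X : Matrix ι ι K, Skw J X ∧ X * g = A * g := by
  obtain ⟨G, hG⟩ := exists_pinv g
  obtain ⟨Ji, hJi⟩ := hJu.exists_right_inv
  have hJt : Jiᵀ * J = 1 := by
    have := congrArg transpose hJi
    rwa [transpose_mul, hJ, transpose_one] at this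
  refine ⟨A * g * G - Ji * ((A * g * G)ᵀ * J), ?_, ?_⟩
  · generalize A * g * G = Q
    unfold Skw
    have h1 : (Ji * (Qᵀ * J))ᵀ * J = J * Q * (Jiᵀ * J) := by
      rw [transpose_mul, transpose_mul, transpose_transpose, hJ]
      simp only [Matrix.mul_assoc]
    have h2 : J * (Ji * (Qᵀ * J)) = Qᵀ * J := by rw [← Matrix.mul_assoc, hJi, Matrix.one_mul]
    rw [transpose_sub, Matrix.sub_mul, Matrix.mul_sub, h1, h2, hJt, Matrix.mul_one]
    abel
  · have h1 : A * g * G * g = A * g := by
      calc A * g * G * g = A * (g * G * g) := by simp only [Matrix.mul_assoc]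
        _ = _ := by rw [hG]
    have h2 : Ji * ((A * g * G)ᵀ * J) * g = Ji * (Gᵀ * (gᵀ * J * (A * g))ᵀ) := by
      rw [transpose_mul (A * g) G, transpose_mul (gᵀ * J), transpose_mul gᵀ, transpose_transpose,
        hJ]
      simp only [Matrix.mul_assoc]
    rw [Matrix.sub_mul, h1, h2, hA, transpose_zero, Matrix.mul_zero, Matrix.mul_zero, sub_zero]

/-- **(SYM)** every global flag compatible form `S → S^*` is skew. -/
theorem sym (h : Ctx k arm J B N W g) {Ψ : Matrix ι ι K} {Ψs : Fin 3 → Matrix ι ι K}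
    (hN : act arm Ψs g ∈ N) (h0 : ∀ s, gᵀ * J * ((Ψ - Ψs s) * g) = 0) :
    (gᵀ * J * (Ψ * g))ᵀ = -(gᵀ * J * (Ψ * g)) := by
  have hD := h.data
  choose X hX hXg using fun s => exists_skw hD.J_symm hD.J_unit (h0 s)
  obtain ⟨d, hd⟩ := hD.dir X 0 hX (by simp)
  obtain ⟨Y, hY, hYN, hYg⟩ := h.frame d
  choose C hC using hYg
  have h1 : act arm (fun s => Y s - X s) g ∈ N := by
    have h2 : act arm (fun s => Y s - X s) g
        = (g.map d - act arm X g) - (g.map d - act arm Y g) := by
      rw [act_sub_left]; abel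
    rw [h2]
    exact N.sub_mem (hd.onN g h.memN) (hYN g h.memN)
  have ha : (Ψ - Y 0) * g ∈ W := h.W_mul _ h.memW
  have hν : act arm Ψs g - act arm (fun s => Y s - X s) g ∈ N := N.sub_mem hN h1
  have hdiff : ∀ s, (Ψ - Y 0 - (Ψs s - (Y s - X s))) * g = g * (C 0 - C s) := by
    intro s
    have e1 : (Ψ - Y 0 - (Ψs s - (Y s - X s))) * g
        = (Ψ - Ψs s) * g - X s * g + ((g.map d - Y 0 * g) - (g.map d - Y s * g)) := by
      simp only [Matrix.sub_mul]; abel
    rw [e1, hXg, sub_self, zero_add, hC, hC, Matrix.mul_sub]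
  have hact := act_mul_const arm (fun s => Ψ - Y 0 - (Ψs s - (Y s - X s))) g hdiff
  have hq := h.Qskew ha hν (C := ∑ s, (C 0 - C s) * E K arm s) (by
    rw [← hact, act_sub_left arm (fun _ => Ψ - Y 0) (fun s => Ψs s - (Y s - X s)), act_const,
      act_sub_left arm Ψs (fun s => Y s - X s)]
    abel)
  have hs := skew_gXg hD.J_symm (hY 0) g
  have e : gᵀ * J * (Ψ * g) = gᵀ * J * ((Ψ - Y 0) * g) + gᵀ * J * (Y 0 * g) := by
    rw [Matrix.sub_mul, Matrix.mul_sub]; abel
  rw [e, transpose_add, hq, hs]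
  abel

end Crest.Agent.R172.SymQ
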