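import Crest.Agent.R172.Sym1
import Crest.Agent.R172.Qt5
import Crest.Agent.R172.Om1

/-!
Row 172 (S0260): the symmetry `F1` on `S^⊥` in the presence of terms `U_r g_r` (the `E₁`-junk of
the product of two gluing directions).
-/

set_option autoImplicit false
set_option linter.unusedSectionVars false
set_option linter.unusedFintypeInType false
set_option linter.unusedDecidableInType false

namespace Crest.Agent.R172.SymQ

open Matrix Module Crest.Agent.R172.FO Crest.Agent.R172.Qt

variable {ι : Type*} [Fintype ι] [DecidableEq ι] {δ : Type*} [Fintype δ] [DecidableEq δ]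
variable {k K : Type*} [Field k] [Field K] [Algebra k K]
variable {arm : δ → Fin 3} {J : Matrix ι ι K} {B : Matrix δ δ K}
  {N W : Submodule K (Matrix ι δ K)} {g : Matrix ι δ K}

/-- projector on `S^⊥` -/
theorem exists_proj' (hJu : IsUnit J) (g : Matrix ι δ K) : ∃ Q : Matrix ι ι K, gᵀ * J * Q = 0 ∧
    ∀ v : Matrix ι ι K, gᵀ * J * v = 0 → Q * v = v := by
  obtain ⟨G, hG⟩ := exists_pinv g
  obtain ⟨Ji, hJi⟩ := hJu.exists_right_inv
  refine ⟨1 - Ji * (Gᵀ * (gᵀ * J)), ?_, fun F hF => ?_⟩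
  · have h1 : gᵀ * J * (Ji * (Gᵀ * (gᵀ * J))) = gᵀ * J := by
      calc gᵀ * J * (Ji * (Gᵀ * (gᵀ * J))) = gᵀ * (J * Ji) * Gᵀ * gᵀ * J := by
            simp only [Matrix.mul_assoc]
        _ = (g * G * g)ᵀ * J := by
            rw [hJi, Matrix.mul_one, transpose_mul, transpose_mul]; simp only [Matrix.mul_assoc]
        _ = _ := by rw [hG]
    rw [Matrix.mul_sub, Matrix.mul_one, h1, sub_self]
  · have h1 : Ji * (Gᵀ * (gᵀ * J)) * F = Ji * (Gᵀ * (gᵀ * J * F)) := by
      simp only [Matrix.mul_assoc]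
    rw [Matrix.sub_mul, Matrix.one_mul, h1, hF, Matrix.mul_zero, Matrix.mul_zero, sub_zero]

theorem map_zero_der {α β : Type*} (D : Derivation k K K) : (0 : Matrix α β K).map D = 0 := by
  ext i j; simp

theorem map_sub_dd {α β : Type*} (d d' : Derivation k K K) (F : Matrix α β K) :
    F.map (d - d') = F.map d - F.map d' := by
  ext i j; simp

theorem der_perp (D : Derivation k K K) (hDg : g.map D = 0) (hDJ : J.map D = 0) {α : Type*}
    (F : Matrix ι α K) : (gᵀ * J * F).map D = gᵀ * J * F.map D := by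
  rw [map_mul_der, map_mul_der, map_transpose_der, hDg, hDJ, transpose_zero, Matrix.zero_mul,
    Matrix.mul_zero, add_zero, Matrix.zero_mul, zero_add]

variable (k) in
/-- vertical directions of `g` in `𝒦iso` -/
def VertG (arm : δ → Fin 3) (J : Matrix ι ι K) (N W : Submodule K (Matrix ι δ K))
    (g : Matrix ι δ K) : Prop :=
  ∀ w ∈ Om.Kiso J N W, ∃ d : Derivation k K K, g.map d = w ∧
    Realises arm N W (0 : Fin 3 → Matrix ι ι K) (0 : Matrix δ δ K) d

/-- an `L`-motion `Y = B T` with `g Y = 0` can be realised with `D g = 0`; then `gᵀ J D f = 0` and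
`g_r (D f)_rᵀ` vanishes on `S^⊥`. -/
theorem exists_motion (h : Ctx k arm J B N W g) (hv : VertG k arm J N W g)
    {T : Matrix δ δ K} (hT : Tᵀ = -T) (hgT : g * (B * T) = 0) :
    ∃ D : Derivation k K K, g.map D = 0 ∧ (∀ F ∈ N, F.map D ∈ N) ∧
      (∀ F ∈ W, F.map D - F * (B * T) ∈ W) ∧
      ∀ f ∈ N ⊓ W, gᵀ * J * f.map D = 0 ∧ ∀ (s : Fin 3) (v : Matrix ι ι K), gᵀ * J * v = 0 →
        M arm B s g (f.map D) * J * v = 0 := by
  have hDt := h.data
  have hξt : (-(T * B))ᵀ = B * T := by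
    rw [transpose_neg, transpose_mul, hT, hDt.B_symm, Matrix.mul_neg, neg_neg]
  obtain ⟨d, hd⟩ := hDt.dir 0 (-(T * B)) (fun s => by simp) (by
    rw [hξt, Matrix.mul_neg, ← Matrix.mul_assoc]; exact add_neg_cancel _)
  have hdN : ∀ F ∈ N, F.map d ∈ N := fun F hF => by
    have := hd.onN F hF
    rwa [act_zero, sub_zero] at this
  have hdW : ∀ F ∈ W, F.map d - F * (B * T) ∈ W := fun F hF => by
    have := hd.onW F hF
    rwa [hξt] at this
  have hgW : g.map d ∈ W := by
    have := hdW g h.memW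
    rwa [hgT, sub_zero] at this
  have hgK : g.map d ∈ N ⊓ W := ⟨hdN g h.memN, hgW⟩
  -- the frame
  obtain ⟨Y, hY, hYN, hYg⟩ := h.frame d
  have hp : (Y 0, fun s => Y s - (0 : Fin 3 → Matrix ι ι K) s) ∈ NN arm J N g :=
    mem_NN_of_frame (X := 0) (fun s => Skw.zero) (fun s => ⟨0, by simp⟩) hd hY hYN hYg
  obtain ⟨C0, hC0⟩ := hYg 0
  have hYg0 : Y 0 * g = g.map d - g * C0 := by rw [← hC0]; abel
  have hgC : ∀ C : Matrix δ δ K, gᵀ * J * (g * C) = 0 := fun C => by
    rw [← Matrix.mul_assoc, h.iso, Matrix.zero_mul]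
  have h0 : gᵀ * J * (Y 0 * g) = 0 := by
    rw [hYg0, Matrix.mul_sub, hgC, sub_zero, h.perp _ hgK]
  have hiso : g.map d ∈ Om.Kiso J N W := by
    refine ⟨hgK, fun f hf => ?_⟩
    have h1 : gᵀ * J * (Y 0 * f) = 0 := h.tf_zero hf hp h0
    have h2 : g.map d = Y 0 * g + g * C0 := by rw [hYg0]; abel
    have h3 : (Y 0 * g)ᵀ * J = -(gᵀ * J * Y 0) := by
      rw [transpose_mul, Matrix.mul_assoc, (hY 0).eq, Matrix.mul_neg, Matrix.mul_assoc]
    have h4 : (g * C0)ᵀ * J * f = C0ᵀ * (gᵀ * J * f) := by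
      rw [transpose_mul]; simp only [Matrix.mul_assoc]
    rw [h2, transpose_add, Matrix.add_mul, Matrix.add_mul, h3, h4, h.perp f hf, Matrix.mul_zero,
      add_zero, Matrix.neg_mul, Matrix.mul_assoc, h1, neg_zero]
  obtain ⟨d', hd'g, hd'⟩ := hv _ hiso
  have hd'N : ∀ F ∈ N, F.map d' ∈ N := fun F hF => by
    have := hd'.onN F hF
    rwa [act_zero, sub_zero] at this
  have hd'W : ∀ F ∈ W, F.map d' ∈ W := fun F hF => by
    have := hd'.onW F hF
    rwa [transpose_zero, Matrix.mul_zero, sub_zero] at this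
  refine ⟨d - d', ?_, fun F hF => ?_, fun F hF => ?_, fun f hf => ?_⟩
  · rw [map_sub_dd, hd'g, sub_self]
  · rw [map_sub_dd]; exact N.sub_mem (hdN F hF) (hd'N F hF)
  · rw [map_sub_dd]
    have : F.map d - F.map d' - F * (B * T) = (F.map d - F * (B * T)) - F.map d' := by abel
    rw [this]
    exact W.sub_mem (hdW F hF) (hd'W F hF)
  · have hDg : g.map (d - d') = 0 := by rw [map_sub_dd, hd'g, sub_self]
    generalize (d - d' : Derivation k K K) = D at hDg ⊢
    have hDJ := hDt.J_const D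
    have hDB := hDt.B_const D
    refine ⟨?_, fun s v hvv => ?_⟩
    · rw [← der_perp D hDg hDJ, h.perp f hf, map_zero_der]
    · obtain ⟨Q, hQ, hQ'⟩ := exists_proj' hDt.J_unit g
      have h1 : M arm B s g f * J * Q = 0 := h.gf_zero hf s hQ
      have h2 : gᵀ * J * Q.map D = 0 := by rw [← der_perp D hDg hDJ, hQ, map_zero_der]
      have h3 : M arm B s g f * J * Q.map D = 0 := h.gf_zero hf s h2
      have h4 : (M arm B s g f).map D = M arm B s g (f.map D) := by
        unfold M
        rw [map_mul_der, map_mul_der, map_mul_der, hDg, hDB, E_map_der, map_transpose_der,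
          Matrix.zero_mul, Matrix.mul_zero, add_zero, Matrix.zero_mul, Matrix.mul_zero, add_zero,
          Matrix.zero_mul, zero_add]
      have h5 := congrArg (fun A : Matrix ι ι K => A.map D) h1
      simp only [map_zero_der] at h5
      rw [map_mul_der, map_mul_der, h3, add_zero, hDJ, Matrix.mul_zero, add_zero, h4] at h5
      have hQv : Q * v = v := hQ' v hvv
      rw [← hQv, ← Matrix.mul_assoc, h5, Matrix.zero_mul]

/-- **(JUNK)**: if `x ∈ W` is `S^⊥`-valued and `x + (U_r g_r) ∈ N + S ⊗ U`, `U_r S ⊆ S^⊥`, then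
`⟨x, f Y⟩ = 0` for every `Y = B T` with `g Y = 0`. -/
theorem junk (h : Ctx k arm J B N W g) (hv : VertG k arm J N W g)
    {f x : Matrix ι δ K} (hf : f ∈ N ⊓ W) (hx : x ∈ W) {U : Fin 3 → Matrix ι ι K}
    (hU : ∀ s, gᵀ * J * (U s * g) = 0) {C : Matrix δ δ K} (hN : x + act arm U g + g * C ∈ N)
    {T : Matrix δ δ K} (hT : Tᵀ = -T) (hgT : g * (B * T) = 0) :
    pair J B x (f * (B * T)) = 0 := by
  obtain ⟨D, hDg, hDN, hDW, hDf⟩ := exists_motion h hv hT hgT
  obtain ⟨h1, h2⟩ := hDf f hf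
  obtain ⟨G, hG⟩ := exists_pinv g
  have e1 : pair J B (x + act arm U g + g * C) (f.map D) = 0 := h.pair_N hN (hDN f hf.1)
  have e2 : pair J B (g * C) (f.map D) = 0 := pair_S h1 C
  have e3 : pair J B (act arm U g) (f.map D) = 0 := by
    unfold act
    rw [Ctx.pair_sum_left]
    refine Finset.sum_eq_zero fun s _ => ?_
    have h3 : M arm B s g (f.map D) * J * (U s * g * G) = 0 := by
      apply h2
      rw [← Matrix.mul_assoc, hU, Matrix.zero_mul]
    have h4 : pair J B (U s * g * E K arm s) (f.map D)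
        = trace (g * E K arm s * B * (f.map D)ᵀ * J * U s) := by
      unfold pair
      rw [← trace_transpose]
      have : ((U s * g * E K arm s)ᵀ * J * f.map D * B)ᵀ
          = (B * (f.map D)ᵀ * J * U s) * (g * E K arm s) := by
        rw [transpose_mul, transpose_mul, transpose_mul, transpose_transpose, h.data.J_symm,
          h.data.B_symm]
        simp only [Matrix.mul_assoc]
      rw [this, trace_mul_comm]
      simp only [Matrix.mul_assoc]
    have h5 : g * E K arm s * B * (f.map D)ᵀ * J * U s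
        = (g * G) * (g * E K arm s * B * (f.map D)ᵀ * J * U s) := by
      have : g * G * (g * E K arm s * B * (f.map D)ᵀ * J * U s)
          = (g * G * g) * (E K arm s * B * (f.map D)ᵀ * J * U s) := by
        simp only [Matrix.mul_assoc]
      rw [this, hG]
      simp only [Matrix.mul_assoc]
    rw [h4, h5, trace_mul_comm]
    have h6 : g * E K arm s * B * (f.map D)ᵀ * J * U s * (g * G)
        = M arm B s g (f.map D) * J * (U s * g * G) := by
      unfold M; simp only [Matrix.mul_assoc]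
    rw [h6, h3, trace_zero]
  rw [pair_add_left, pair_add_left, e2, e3, add_zero, add_zero] at e1
  have e4 : pair J B x (f.map D - f * (B * T)) = 0 := pair_W h.data hx (hDW f hf.2)
  rw [pair_sub_right, e1, zero_sub, neg_eq_zero] at e4
  exact e4

/-- `E_s B = B E_s` form of `g_s` on `fᵀ J v` -/
theorem g_f_zero (h : Ctx k arm J B N W g) {f : Matrix ι δ K} (hf : f ∈ N ⊓ W) (s : Fin 3)
    {α : Type*} {v : Matrix ι α K} (hv : gᵀ * J * v = 0) :
    g * (B * (E K arm s * (fᵀ * J * v))) = 0 := by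
  have := h.gf_zero hf s hv
  unfold M at this
  rw [← this]
  have e : B * (E K arm s * (fᵀ * J * v)) = (E K arm s * B) * (fᵀ * J * v) := by
    rw [h.data.B_arm]; simp only [Matrix.mul_assoc]
  rw [e]
  simp only [Matrix.mul_assoc]

/-- **(JUNK), words form**: for `v, v'` with values in `S^⊥` the form
`v ↦ ⟨M_r(f,f) v, M_{r'}(x,f) v'⟩` is symmetric. -/
theorem junk_symm (h : Ctx k arm J B N W g) (hv : VertG k arm J N W g)
    {f x : Matrix ι δ K} (hf : f ∈ N ⊓ W) (hx : x ∈ W) {U : Fin 3 → Matrix ι ι K}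
    (hU : ∀ s, gᵀ * J * (U s * g) = 0) {C : Matrix δ δ K} (hN : x + act arm U g + g * C ∈ N)
    (r r' : Fin 3) {α β : Type*} [Fintype α] [DecidableEq α] [Fintype β] [DecidableEq β]
    {v : Matrix ι α K} {v' : Matrix ι β K} (hv1 : gᵀ * J * v = 0) (hv2 : gᵀ * J * v' = 0) :
    (M arm B r' x f * J * v')ᵀ * J * (M arm B r f f * J * v)
      = (M arm B r' f f * J * v')ᵀ * J * (M arm B r x f * J * v) := by
  obtain ⟨a, ha⟩ : ∃ a : Matrix δ α K, a = E K arm r * (fᵀ * J * v) := ⟨_, rfl⟩
  obtain ⟨b, hb⟩ : ∃ b : Matrix δ β K, b = E K arm r' * (fᵀ * J * v') := ⟨_, rfl⟩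
  have hga : g * (B * a) = 0 := by rw [ha]; exact g_f_zero h hf r hv1
  have hgb : g * (B * b) = 0 := by rw [hb]; exact g_f_zero h hf r' hv2
  have hM : ∀ (y : Matrix ι δ K), M arm B r y f * J * v = y * (B * a) := by
    intro y
    have e : B * a = (E K arm r * B) * (fᵀ * J * v) := by
      rw [h.data.B_arm, ha]; simp only [Matrix.mul_assoc]
    rw [e]; unfold M; simp only [Matrix.mul_assoc]
  have hM' : ∀ (y : Matrix ι δ K), M arm B r' y f * J * v' = y * (B * b) := by
    intro y
    have e : B * b = (E K arm r' * B) * (fᵀ * J * v') := by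
      rw [h.data.B_arm, hb]; simp only [Matrix.mul_assoc]
    rw [e]; unfold M; simp only [Matrix.mul_assoc]
  rw [hM, hM, hM', hM']
  have key : ∀ S : Matrix α β K, trace (S * ((x * (B * b))ᵀ * J * (f * (B * a))))
      = trace (S * ((f * (B * b))ᵀ * J * (x * (B * a)))) := by
    intro S
    have hT : (a * S * bᵀ - (a * S * bᵀ)ᵀ)ᵀ = -(a * S * bᵀ - (a * S * bᵀ)ᵀ) := by
      rw [transpose_sub, transpose_transpose, neg_sub]
    have hab : (a * S * bᵀ)ᵀ = b * (Sᵀ * aᵀ) := by
      rw [transpose_mul, transpose_mul, transpose_transpose]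
    have hgT : g * (B * (a * S * bᵀ - (a * S * bᵀ)ᵀ)) = 0 := by
      rw [Matrix.mul_sub, Matrix.mul_sub, hab]
      have e1 : g * (B * (a * S * bᵀ)) = g * (B * a) * (S * bᵀ) := by
        simp only [Matrix.mul_assoc]
      have e2 : g * (B * (b * (Sᵀ * aᵀ))) = g * (B * b) * (Sᵀ * aᵀ) := by
        simp only [Matrix.mul_assoc]
      rw [e1, e2, hga, hgb, Matrix.zero_mul, Matrix.zero_mul, sub_zero]
    have h1 := junk h hv hf hx hU hN hT hgT
    rw [Matrix.mul_sub, Matrix.mul_sub, pair_sub_right, sub_eq_zero, hab] at h1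
    have h2 : pair J B x (f * (B * (a * S * bᵀ)))
        = trace (S * ((x * (B * b))ᵀ * J * (f * (B * a)))) := by
      unfold pair
      have e1 : xᵀ * J * (f * (B * (a * S * bᵀ))) * B
          = (xᵀ * J * (f * (B * a)) ) * (S * (bᵀ * B)) := by simp only [Matrix.mul_assoc]
      have e2 : (x * (B * b))ᵀ * J * (f * (B * a)) = (bᵀ * B) * (xᵀ * J * (f * (B * a))) := by
        rw [transpose_mul, transpose_mul, h.data.B_symm]; simp only [Matrix.mul_assoc]
      rw [e1, e2, trace_mul_comm, Matrix.mul_assoc]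
    have h3 : pair J B x (f * (B * (b * (Sᵀ * aᵀ))))
        = trace (S * ((f * (B * b))ᵀ * J * (x * (B * a)))) := by
      unfold pair
      rw [← trace_transpose]
      have e1 : (xᵀ * J * (f * (B * (b * (Sᵀ * aᵀ)))) * B)ᵀ
          = (B * a * S) * ((f * (B * b))ᵀ * J * x) := by
        simp only [transpose_mul, transpose_transpose, h.data.J_symm, h.data.B_symm]
        simp only [Matrix.mul_assoc]
      have e2 : S * ((f * (B * b))ᵀ * J * (x * (B * a)))
          = (S * ((f * (B * b))ᵀ * J * x)) * (B * a) := by simp only [Matrix.mul_assoc]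
      rw [e1, e2, trace_mul_comm (S * ((f * (B * b))ᵀ * J * x)) (B * a)]
      simp only [Matrix.mul_assoc]
    rw [← h2, ← h3]
    exact h1
  ext i j
  have := key (Matrix.single j i 1)
  rw [trace_single_mul, trace_single_mul, one_smul, one_smul] at this
  exact this

end Crest.Agent.R172.SymQ
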