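import Crest.Agent.R172.RDGlue2
import Crest.Agent.R172.RDF1
import Crest.Agent.R172.RDhalves267
import Crest.Agent.R172.RDdiag795
import Crest.Agent.R172.RDsecond302
import Crest.Agent.R172.RDfr

/-!
Row 172 (S0260), input (t1): **`Ind.InT00`**, assembled from the five statements of the frame
(`first` 318, `halves` 267, `offdiag`/`diag` 795, `second` 302), the existence of the frame (111)
and the end of the frame (460/47).
-/

set_option autoImplicit false

namespace Crest.Agent.R172.T0Fin170

open Crest.Agent.R172

theorem five : RD.Five where
  first := fun h h1 h2 i j hij => RDF1.five_first h h1 h2 i j hij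
  halves := fun h i j hij hf => RDh267.halves h hij hf
  off := fun h _ _ _ i j hij hh => RD795.offdiag h hij hh
  second := fun h i j hij ho => RDS302.second h hij ho
  diag := fun h _ _ _ i j hij hh hs => RD795.diag h hij hh hs

/-- **(T00)** -/
theorem inT00 : Ind.InT00 := RD.inT00_of_fr RDfr.exFr (RD.falseFr_of_five five)

end Crest.Agent.R172.T0Fin170
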