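import Crest.Agent.R172.RDGlue2
import Crest.Agent.R172.RDIn
import Crest.Agent.R172.RDfr
import Crest.Agent.R172.RDF1
import Crest.Agent.R172.RDhalves267
import Crest.Agent.R172.RDsec898
import Crest.Agent.R172.RDdiag795

/-!
Row 172 (S0260), `(T00)`: the assembly of the radical node `RD` (second copy, helper255).
-/

set_option autoImplicit false

namespace Crest.Agent.R172.T0Fin255

open Crest.Agent.R172.RD

theorem five : Five where
  first := RDF1.five_first
  halves := fun h _ _ hij hf => RDh267.halves h hij hf
  off := fun h _ _ _ _ _ hij hH => RD795.offdiag h hij hH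
  second := fun h _ _ hij hod => RDsec898.second h hij hod
  diag := fun h _ _ _ _ _ hij hH hS => RD795.diag h hij hH hS

/-- **(T00)** -/
theorem inT00 : Ind.InT00 := inT00_of_fr RDfr.exFr (falseFr_of_five five)

end Crest.Agent.R172.T0Fin255
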