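import Crest.Agent.R172.RDInt627
import Crest.Agent.R172.RDfr
import Crest.Agent.R172.RDhalves267

/-!
Row 172 (S0260): **(T00)**, unconditional.
-/

set_option autoImplicit false
set_option linter.unusedSectionVars false

namespace Crest.Agent.R172.T0Fin627

theorem halvesAll : RDInt627.HalvesAll := fun h _ _ hij hf => RDh267.halves h hij hf

/-- **(T00)** -/
theorem inT00 : Ind.InT00 := RDInt627.inT00 RDfr.exFr halvesAll

end Crest.Agent.R172.T0Fin627
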