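import Crest.Agent.R172.RDF1
import Crest.Agent.R172.RDhalves267
import Crest.Agent.R172.RDoff108
import Crest.Agent.R172.RDsecond302
import Crest.Agent.R172.RDdiag418
import Crest.Agent.R172.RDGlue2
import Crest.Agent.R172.RDIn

/-!
Row 172 (S0260), T0: `RD.Five`, `RD.FalseFr` from the landed leaves; `InT00` from `RD.ExFr`
(independent glue by helper302).
-/

set_option autoImplicit false

namespace Crest.Agent.R172.T0F302

open Crest.Agent.R172.RD

theorem five : Five where
  first := fun h hDΦ hDs i j hij => RDF1.five_first h hDΦ hDs i j hij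
  halves := fun h _ _ hij hf => RDh267.halves h hij hf
  off := fun h _ _ _ _ _ hij hh s y hy hf => RDO108.offdiag_of h hij hh s y hy hf
  second := fun h _ _ hij hod => RDS302.second h hij hod
  diag := fun h _ _ _ _ _ hij hh hs => RD418.diag h hij hh hs

theorem falseFr : FalseFr := falseFr_of_five five

theorem inT00 (hE : ExFr) : Ind.InT00 := inT00_of_fr hE falseFr

end Crest.Agent.R172.T0F302
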