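import Crest.Agent.R172.RDGlue2
import Crest.Agent.R172.RDfr
import Crest.Agent.R172.RDF1
import Crest.Agent.R172.RDhalves267
import Crest.Agent.R172.RDdiag795
import Crest.Agent.R172.RDsec898

/-!
Row 172 (S0260), **(T0)**: `Ind.InT00`.
-/

set_option autoImplicit false

namespace Crest.Agent.R172.T0h111

theorem five : RD.Five where
  first := RDF1.five_first
  halves := fun h _ _ hij hf => RDh267.halves h hij hf
  off := fun h _ _ _ _ _ hij hh => RD795.offdiag h hij hh
  second := fun h _ _ hij ho => RDsec898.second h hij ho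
  diag := fun h _ _ _ _ _ hij hh hs => RD795.diag h hij hh hs

/-- **(T0)** -/
theorem inT00 : Ind.InT00 := RD.inT00_of_fr RDfr.exFr (RD.falseFr_of_five five)

end Crest.Agent.R172.T0h111
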