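import Crest.Agent.R172.Slack1
import Crest.Agent.R172.TameCount5

/-!
Row 172, TAME (t1'), R = 0: the end of the c-scaling proof (helper813's 14722 (4)).

* `SS arm N F P s` = `SS_s + TT_s`: the `A` with `(A + z) F_s ∈ N`, `z F_t ∈ N` (`t ≠ s`), `z P = 0`.
* `glue`: `X` skew, `X = P X P`, `X ∈ SS s` for all `s` implies `X = 0`.
* `tame_false`: if `range P` is tame and every `A` preserving all `range (Φ_s ^ j)` of the arm `s`
  lies in `SS s`, contradiction.
-/

set_option autoImplicit false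
set_option linter.unusedSectionVars false

namespace Crest.Agent.R172.TG

open Matrix Module Crest.Agent.R172.FO Crest.Agent.R172.Core

variable {ι : Type*} [Fintype ι] [DecidableEq ι] {δ : Type*} [Fintype δ] [DecidableEq δ]
variable {k K : Type*} [Field k] [Field K] [Algebra k K]
variable {arm : δ → Fin 3} {J : Matrix ι ι K} {B : Matrix δ δ K}
  {N W : Submodule K (Matrix ι δ K)} {F : Matrix ι δ K} {P : Matrix ι ι K}

/-- `SS_s + TT_s` of note 14722 -/
def SS (arm : δ → Fin 3) (N : Submodule K (Matrix ι δ K)) (F : Matrix ι δ K) (P : Matrix ι ι K)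
    (s : Fin 3) : Submodule K (Matrix ι ι K) where
  carrier := {A | ∃ z : Matrix ι ι K, z * P = 0 ∧ (A + z) * F * E K arm s ∈ N ∧
    ∀ t, t ≠ s → z * F * E K arm t ∈ N}
  add_mem' := by
    rintro A A' ⟨z, h1, h2, h3⟩ ⟨z', h1', h2', h3'⟩
    refine ⟨z + z', by rw [Matrix.add_mul, h1, h1', add_zero], ?_, fun t ht => ?_⟩
    · have e : (A + A' + (z + z')) * F * E K arm s
          = (A + z) * F * E K arm s + (A' + z') * F * E K arm s := by
        rw [← Matrix.add_mul, ← Matrix.add_mul]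
        congr 2
        abel
      rw [e]
      exact N.add_mem h2 h2'
    · rw [Matrix.add_mul, Matrix.add_mul]
      exact N.add_mem (h3 t ht) (h3' t ht)
  zero_mem' := ⟨0, by simp, by simp, fun t _ => by simp⟩
  smul_mem' := by
    rintro c A ⟨z, h1, h2, h3⟩
    refine ⟨c • z, by rw [Matrix.smul_mul, h1, smul_zero], ?_, fun t ht => ?_⟩
    · rw [← smul_add, Matrix.smul_mul, Matrix.smul_mul]
      exact N.smul_mem c h2
    · rw [Matrix.smul_mul, Matrix.smul_mul]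
      exact N.smul_mem c (h3 t ht)

theorem mem_SS {s : Fin 3} {A : Matrix ι ι K} : A ∈ SS arm N F P s ↔
    ∃ z : Matrix ι ι K, z * P = 0 ∧ (A + z) * F * E K arm s ∈ N ∧
      ∀ t, t ≠ s → z * F * E K arm t ∈ N := Iff.rfl

/-- **the glue**: the conclusion of the c-scaling proof. -/
theorem glue (hD : Data k arm J B N W) (h2 : (2 : K) ≠ 0) (hF : F ∈ N ⊓ W)
    {R : Matrix δ ι K} (hR : F * R = P) (hPJ : Pᵀ * J = J * P) {X : Matrix ι ι K}
    (hX : Xᵀ * J + J * X = 0) (hPX : P * X = X) (hXP : X * P = X)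
    (hS : ∀ s, X ∈ SS arm N F P s) : X = 0 := by
  choose z hz1 hz2 hz3 using hS
  have hGN : (X + ∑ s, z s) * F ∈ N := by
    have e : (X + ∑ s, z s) * F = ∑ t, (X + ∑ s, z s) * F * E K arm t := by
      rw [← Matrix.mul_sum, sum_E, Matrix.mul_one]
    rw [e]
    refine N.sum_mem fun t _ => ?_
    have e2 : (X + ∑ s, z s) * F * E K arm t
        = (X + z t) * F * E K arm t + ∑ s ∈ Finset.univ.erase t, z s * F * E K arm t := by
      rw [← Finset.add_sum_erase _ z (Finset.mem_univ t), ← add_assoc, Matrix.add_mul,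
        Matrix.add_mul, Matrix.sum_mul, Matrix.sum_mul]
    rw [e2]
    refine N.add_mem (hz2 t) (N.sum_mem fun s hs => ?_)
    exact hz3 s t (Finset.ne_of_mem_erase hs).symm
  have hG : (X + ∑ s, z s) * F ∈ N ⊓ W := ⟨hGN, hD.W_left _ hF.2 _⟩
  have hsym := hD.symm_U hF hG
  have hGR : (X + ∑ s, z s) * F * R = X := by
    rw [Matrix.mul_assoc, hR, Matrix.add_mul, Matrix.sum_mul, hXP,
      Finset.sum_eq_zero fun s _ => hz1 s, add_zero]
  have h3 : Xᵀ * J * P = Pᵀ * J * X := by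
    have e1 : Rᵀ * (((X + ∑ s, z s) * F)ᵀ * J * F) * R = Xᵀ * J * P := by
      calc Rᵀ * (((X + ∑ s, z s) * F)ᵀ * J * F) * R
          = ((X + ∑ s, z s) * F * R)ᵀ * J * (F * R) := by
            rw [transpose_mul _ R]; simp only [Matrix.mul_assoc]
        _ = _ := by rw [hGR, hR]
    have e2 : Rᵀ * (Fᵀ * J * ((X + ∑ s, z s) * F)) * R = Pᵀ * J * X := by
      calc Rᵀ * (Fᵀ * J * ((X + ∑ s, z s) * F)) * R
          = (F * R)ᵀ * J * ((X + ∑ s, z s) * F * R) := by
            rw [transpose_mul _ R]; simp only [Matrix.mul_assoc]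
        _ = _ := by rw [hGR, hR]
    rw [← e1, ← e2, hsym]
  have h4 : Xᵀ * J = -(J * X) := eq_neg_of_add_eq_zero_left hX
  rw [h4, hPJ, Matrix.mul_assoc J P X, hPX, Matrix.neg_mul, Matrix.mul_assoc, hXP] at h3
  have h5 : (2 : K) • (J * X) = 0 := by
    rw [two_smul]
    nth_rewrite 1 [← h3]
    exact neg_add_cancel _
  have h6 : J * X = 0 := (smul_eq_zero.1 h5).resolve_left h2
  obtain ⟨Ji, hJi, hJi', _⟩ := symm_inv hD.J_symm hD.J_unit
  calc X = Ji * (J * X) := by rw [← Matrix.mul_assoc, hJi', Matrix.one_mul]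
    _ = 0 := by rw [h6, Matrix.mul_zero]

/-- **the glue in the QQ-framework** (notes 15122, 15129): modulo `T ⊗ L` every `A` with
`A F ∈ N + T ⊗ L` is self-adjoint on `P`. `F R = P`, the columns of `P` span the core part,
`Pᵀ J z = 0` says `z ∈ P^⊥ ⊗ U`. -/
theorem glueQ (hD : Data k arm J B N W) (hF : F ∈ N ⊓ W) {α : Type*} [Fintype α]
    {R : Matrix δ α K} {P : Matrix ι α K} (hR : F * R = P) {A : Matrix ι ι K}
    {z : Matrix ι δ K} (hz : z ∈ W) (hA : A * F - z ∈ N) (hPz : Pᵀ * J * z = 0) :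
    (Pᵀ * J * A * P)ᵀ = Pᵀ * J * A * P := by
  have hG : A * F - z ∈ N ⊓ W := ⟨hA, W.sub_mem (hD.W_left _ hF.2 _) hz⟩
  have hsym := hD.symm_U hF hG
  have hzP : (z * R)ᵀ * J * P = 0 := by
    have h1 := congrArg transpose (congrArg (· * R) hPz)
    simp only [Matrix.zero_mul, transpose_zero] at h1
    rw [Matrix.mul_assoc, transpose_mul, transpose_mul Pᵀ J, transpose_transpose, hD.J_symm,
      ← Matrix.mul_assoc] at h1
    exact h1
  have e1 : Rᵀ * ((A * F - z)ᵀ * J * F) * R = (A * P)ᵀ * J * P - (z * R)ᵀ * J * P := by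
    calc Rᵀ * ((A * F - z)ᵀ * J * F) * R
        = (A * (F * R) - z * R)ᵀ * J * (F * R) := by
          rw [← Matrix.mul_assoc A F R, ← Matrix.sub_mul, transpose_mul _ R]
          simp only [Matrix.mul_assoc]
      _ = _ := by rw [hR, transpose_sub, Matrix.sub_mul, Matrix.sub_mul]
  have e2 : Rᵀ * (Fᵀ * J * (A * F - z)) * R = Pᵀ * J * (A * P) - Pᵀ * J * z * R := by
    calc Rᵀ * (Fᵀ * J * (A * F - z)) * R
        = (F * R)ᵀ * J * (A * (F * R) - z * R) := by
          rw [← Matrix.mul_assoc A F R, ← Matrix.sub_mul, transpose_mul _ R]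
          simp only [Matrix.mul_assoc]
      _ = _ := by rw [hR, Matrix.mul_sub, ← Matrix.mul_assoc (Pᵀ * J) z R]
  rw [hzP, sub_zero] at e1
  rw [hPz, Matrix.zero_mul, sub_zero] at e2
  rw [hsym, e2] at e1
  rw [transpose_mul, transpose_mul, transpose_mul, transpose_transpose, hD.J_symm]
  rw [transpose_mul] at e1
  simp only [Matrix.mul_assoc] at e1 ⊢
  rw [← e1]

section tame

variable {M : Submodule K (ι → K)}

/-- projection onto `M` given by the projector matrix `P` -/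
def prM (P : Matrix ι ι K) (hM : ∀ v, v ∈ M ↔ ∃ w, v = P *ᵥ w) : (ι → K) →ₗ[K] M :=
  (toLin' P).codRestrict M fun v => (hM _).2 ⟨v, toLin'_apply P v⟩

theorem prM_coe (hM : ∀ v, v ∈ M ↔ ∃ w, v = P *ᵥ w) (v : ι → K) :
    ((prM P hM v : M) : ι → K) = P *ᵥ v := toLin'_apply P v

theorem prM_fix (hP : P * P = P) (hM : ∀ v, v ∈ M ↔ ∃ w, v = P *ᵥ w) (v : M) :
    prM P hM (v : ι → K) = v := by
  apply Subtype.ext
  rw [prM_coe]
  obtain ⟨w, hw⟩ := (hM _).1 v.2
  rw [hw, mulVec_mulVec, hP]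

/-- extension of an endomorphism of `M` by zero on `ker P`, as a matrix -/
def hat (P : Matrix ι ι K) (hM : ∀ v, v ∈ M ↔ ∃ w, v = P *ᵥ w) :
    (Module.End K M) →ₗ[K] Matrix ι ι K :=
  LinearMap.toMatrix'.toLinearMap ∘ₗ
    (LinearMap.llcomp K (ι → K) M (ι → K) M.subtype ∘ₗ LinearMap.lcomp K M (prM P hM))

theorem hat_mulVec (hM : ∀ v, v ∈ M ↔ ∃ w, v = P *ᵥ w) (A : Module.End K M) (v : ι → K) :
    hat P hM A *ᵥ v = (A (prM P hM v) : ι → K) := by
  have h : toLin' (hat P hM A) v = (A (prM P hM v) : ι → K) := by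
    unfold hat
    rw [LinearMap.comp_apply, LinearEquiv.coe_coe, Matrix.toLin'_toMatrix']
    rfl
  rw [← h, toLin'_apply]

theorem ext_mulVec {α : Type*} [Fintype α] {A A' : Matrix ι ι K}
    (h : ∀ v, A *ᵥ v = A' *ᵥ v) : A = A' := by
  apply Matrix.toLin'.injective
  apply LinearMap.ext
  intro v
  rw [toLin'_apply, toLin'_apply, h]

theorem hat_mul_P (hP : P * P = P) (hM : ∀ v, v ∈ M ↔ ∃ w, v = P *ᵥ w) (A : Module.End K M) :
    hat P hM A * P = hat P hM A := by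
  refine ext_mulVec (α := ι) fun v => ?_
  rw [← mulVec_mulVec, hat_mulVec, hat_mulVec]
  congr 2
  apply Subtype.ext
  rw [prM_coe, prM_coe, mulVec_mulVec, hP]

theorem P_mul_hat (hP : P * P = P) (hM : ∀ v, v ∈ M ↔ ∃ w, v = P *ᵥ w) (A : Module.End K M) :
    P * hat P hM A = hat P hM A := by
  refine ext_mulVec (α := ι) fun v => ?_
  rw [← mulVec_mulVec, hat_mulVec, ← prM_coe hM, prM_fix hP]

/-- the form restricted to `M` -/
def frm (J : Matrix ι ι K) (M : Submodule K (ι → K)) : LinearMap.BilinForm K M :=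
  (Matrix.toBilin' J).restrict M

theorem frm_apply (v w : M) : frm J M v w = (v : ι → K) ⬝ᵥ (J *ᵥ (w : ι → K)) := by
  change Matrix.toBilin' J _ _ = _
  rw [Matrix.toBilin'_apply']
  rfl

theorem adj {A A' : Matrix ι ι K} (h : Aᵀ * J = J * A') (v w : ι → K) :
    (A *ᵥ v) ⬝ᵥ (J *ᵥ w) = v ⬝ᵥ (J *ᵥ (A' *ᵥ w)) := by
  rw [dotProduct_comm, dotProduct_mulVec, ← Matrix.transpose_transpose A, vecMul_transpose,
    mulVec_mulVec, h, ← mulVec_mulVec, dotProduct_comm]

theorem frm_NS (hJ : Jᵀ = J) (hJu : IsUnit J) (hP : P * P = P) (hPJ : Pᵀ * J = J * P)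
    (hM : ∀ v, v ∈ M ↔ ∃ w, v = P *ᵥ w) : NS (frm J M) where
  symm v w := by
    rw [frm_apply, frm_apply, dotProduct_mulVec, ← mulVec_transpose, hJ, dotProduct_comm]
  nd v h := by
    obtain ⟨Ji, hJi, hJi', _⟩ := symm_inv hJ hJu
    have h1 : ∀ w : ι → K, (v : ι → K) ⬝ᵥ (J *ᵥ w) = 0 := by
      intro w
      obtain ⟨u, hu⟩ := (hM _).1 v.2
      have hv : P *ᵥ (v : ι → K) = v := by rw [hu, mulVec_mulVec, hP]
      rw [← hv, adj hPJ]
      have := h ⟨P *ᵥ w, (hM _).2 ⟨w, rfl⟩⟩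
      rw [frm_apply] at this
      exact this
    apply Subtype.ext
    have h2 : J *ᵥ (v : ι → K) = 0 := by
      funext i
      have h3 := h1 (Pi.single i 1)
      rw [dotProduct_mulVec, ← mulVec_transpose, hJ, dotProduct_single, mul_one] at h3
      exact h3
    have h4 : Ji *ᵥ (J *ᵥ (v : ι → K)) = v := by
      rw [mulVec_mulVec, hJi', one_mulVec]
    rw [← h4, h2, mulVec_zero]
    rfl

/-- **END of (t1'), R = 0**: a tame core all of whose filtered endomorphisms extend. -/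
theorem tame_false [CharZero K] (hD : Data k arm J B N W) (hF : F ∈ N ⊓ W)
    {R : Matrix δ ι K} (hR : F * R = P) (hP : P * P = P) (hPJ : Pᵀ * J = J * P)
    (hM : ∀ v, v ∈ M ↔ ∃ w, v = P *ᵥ w) (ΦM : Fin 3 → Module.End K M)
    (hΦM : ∀ s v, ((ΦM s v : M) : ι → K) = P *ᵥ (Phi arm J B F s *ᵥ (v : ι → K)))
    {D : Module.End K M} (hDΦ : ∀ s v, D (ΦM s v) = ΦM s (D v))
    (hDs : ⨆ ν, D.maxGenEigenspace ν = ⊤) (hT : Tame ΦM D)
    (hext : ∀ (s : Fin 3) (A : Module.End K M),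
      (∀ j : ℕ, ∀ x ∈ LinearMap.range (ΦM s ^ j), A x ∈ LinearMap.range (ΦM s ^ j)) →
      hat P hM A ∈ SS arm N F P s) : False := by
  have hNS := frm_NS hD.J_symm hD.J_unit hP hPJ hM
  have hsa : ∀ s (v w : M), frm J M (ΦM s v) w = frm J M v (ΦM s w) := by
    intro s v w
    have hΦ : (Phi arm J B F s)ᵀ * J = J * Phi arm J B F s := by
      unfold Phi
      rw [transpose_mul, hD.J_symm, Slack.M_transpose hD, ← Matrix.mul_assoc]
    have hv : P *ᵥ (v : ι → K) = v := by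
      obtain ⟨u, hu⟩ := (hM _).1 v.2
      rw [hu, mulVec_mulVec, hP]
    have hw : P *ᵥ (w : ι → K) = w := by
      obtain ⟨u, hu⟩ := (hM _).1 w.2
      rw [hu, mulVec_mulVec, hP]
    rw [frm_apply, frm_apply, hΦM, hΦM, adj hPJ, hw, adj hΦ]
    conv_lhs => rw [← hv]
    rw [adj hPJ]
  obtain ⟨X, hX0, hXs, hXr⟩ := TC.exists_skew_of_tame' hNS ΦM hsa hDΦ hDs hT
  have hXhat : (hat P hM X)ᵀ * J + J * hat P hM X = 0 := by
    have h1 : ∀ v w : ι → K, v ⬝ᵥ (((hat P hM X)ᵀ * J + J * hat P hM X) *ᵥ w) = 0 := by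
      intro v w
      have e1 : v ⬝ᵥ (((hat P hM X)ᵀ * J) *ᵥ w) = (hat P hM X *ᵥ v) ⬝ᵥ (J *ᵥ w) := by
        rw [← mulVec_mulVec, dotProduct_mulVec, vecMul_transpose]
      have hPv : ∀ v w : ι → K, (P *ᵥ v) ⬝ᵥ (J *ᵥ w) = v ⬝ᵥ (J *ᵥ (P *ᵥ w)) := adj hPJ
      have e2 : (hat P hM X *ᵥ v) ⬝ᵥ (J *ᵥ w)
          = frm J M (X (prM P hM v)) (prM P hM w) := by
        rw [frm_apply, prM_coe, ← hat_mulVec, ← hPv, mulVec_mulVec, P_mul_hat hP]
      have e3 : v ⬝ᵥ ((J * hat P hM X) *ᵥ w)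
          = frm J M (prM P hM v) (X (prM P hM w)) := by
        rw [frm_apply, prM_coe, ← hat_mulVec, hPv, mulVec_mulVec w P, P_mul_hat hP,
          mulVec_mulVec]
      rw [add_mulVec, dotProduct_add, e1, e2, e3, hXs, neg_add_cancel]
    ext i j
    have h3 := h1 (Pi.single i 1) (Pi.single j 1)
    rw [mulVec_single_one, single_one_dotProduct] at h3
    exact h3
  have h3 := glue hD two_ne_zero hF hR hPJ hXhat (P_mul_hat hP hM X) (hat_mul_P hP hM X)
    (fun s => hext s X (hXr s))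
  apply hX0
  apply LinearMap.ext
  intro v
  apply Subtype.ext
  have h4 := hat_mulVec hM X (v : ι → K)
  rw [h3, zero_mulVec, prM_fix hP] at h4
  rw [← h4]
  rfl

end tame

end Crest.Agent.R172.TG
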