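import Crest.Agent.R172.TG2

/-!
Row 172, TAME (T0), node R-END: the END in a frame `p : ι × n` (not nec. injective), arbitrary
radical, arbitrary `D`, corrections `w ∈ W` with `wᵀ J p = Fᵀ J p z`.

* `rel`: `X F - w ∈ N`, `S = pᵀ J X p` skew, `g = pᵀ J p`:
  `2 S = zᵀ g - g z` and `S φ_r + φ_rᵀ S = zᵀ g φ_r - g φ_r z`;
* `core`: `z` descends to the core `Z`, `A + Z` is self-adjoint and commutes with the `Φ_r`;
* `tame_falseZ`: the END with any predicate `ZZ` on `z`.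
-/

set_option autoImplicit false
set_option linter.unusedSectionVars false

namespace Crest.Agent.R172.TG3

open Matrix Module Crest.Agent.R172.FO Crest.Agent.R172.Core

variable {ι : Type*} [Fintype ι] [DecidableEq ι] {δ : Type*} [Fintype δ] [DecidableEq δ]
variable {n : Type*} [Fintype n] [DecidableEq n]
variable {k K : Type*} [Field k] [Field K] [Algebra k K]
variable {arm : δ → Fin 3} {J : Matrix ι ι K} {B : Matrix δ δ K}
  {N W : Submodule K (Matrix ι δ K)} {F : Matrix ι δ K} {p : Matrix ι n K}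

/-- the two relations of an element `X F - w ∈ 𝒦` in a frame -/
theorem rel (hD : Data k arm J B N W) (hF : F ∈ N ⊓ W) {φ a : Fin 3 → Matrix n n K}
    (hφ : ∀ r, Phi arm J B F r * p = p * φ r) (ha : ∑ r, φ r * a r = 1)
    {X : Matrix ι ι K} {w : Matrix ι δ K} {z : Matrix n n K} (hw : w ∈ W) (hN : X * F - w ∈ N)
    (hv : wᵀ * J * p = Fᵀ * J * p * z) (hS : (pᵀ * J * X * p)ᵀ = -(pᵀ * J * X * p)) :
    (2 : K) • (pᵀ * J * X * p) = zᵀ * (pᵀ * J * p) - (pᵀ * J * p) * z ∧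
    ∀ r, (pᵀ * J * X * p) * φ r + (φ r)ᵀ * (pᵀ * J * X * p) =
      zᵀ * (pᵀ * J * p) * φ r - (pᵀ * J * p) * φ r * z := by
  have hk : X * F - w ∈ N ⊓ W := ⟨hN, W.sub_mem (hD.W_left F hF.2 X) hw⟩
  set κ : Matrix ι δ K := X * F - w with hκ
  set g : Matrix n n K := pᵀ * J * p with hg
  set S : Matrix n n K := pᵀ * J * X * p with hSd
  have hJ := hD.J_symm
  -- `pᵀ J w = zᵀ pᵀ J F`
  have hv' : pᵀ * J * w = zᵀ * (pᵀ * J * F) := by
    have h1 := congrArg transpose hv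
    simp only [transpose_mul, transpose_transpose, hJ] at h1
    simp only [Matrix.mul_assoc]
    exact h1
  -- `F v = p`
  set v : Matrix δ n K := ∑ r, E K arm r * B * (Fᵀ * J * p) * a r with hvd
  have hFv : F * v = p := by
    rw [hvd, Matrix.mul_sum]
    have h1 : ∀ r, F * (E K arm r * B * (Fᵀ * J * p) * a r) = p * (φ r * a r) := by
      intro r
      have h2 : Phi arm J B F r * p = F * (E K arm r * B * (Fᵀ * J * p)) := by
        unfold Phi M
        simp only [Matrix.mul_assoc]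
      rw [← Matrix.mul_assoc F, ← h2, hφ, Matrix.mul_assoc]
    rw [Finset.sum_congr rfl fun r _ => h1 r, ← Matrix.mul_sum, ha, Matrix.mul_one]
  have hpJv : pᵀ * J * κ * v = S - zᵀ * g := by
    rw [hκ, Matrix.mul_sub, Matrix.sub_mul, hv']
    congr 1
    · rw [hSd]
      calc pᵀ * J * (X * F) * v = pᵀ * J * X * (F * v) := by simp only [Matrix.mul_assoc]
        _ = _ := by rw [hFv]
    · rw [hg]
      calc zᵀ * (pᵀ * J * F) * v = zᵀ * (pᵀ * J * (F * v)) := by simp only [Matrix.mul_assoc]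
        _ = _ := by rw [hFv]
  have gsym : gᵀ = g := by
    rw [hg, transpose_mul, transpose_mul, transpose_transpose, hJ, Matrix.mul_assoc]
  constructor
  · have h1 := hD.symm_U hF hk
    -- `κᵀ J F = Fᵀ J κ`
    have h2 : vᵀ * (κᵀ * J * F) * v = vᵀ * (Fᵀ * J * κ) * v := by rw [h1]
    have h3 : vᵀ * (Fᵀ * J * κ) * v = S - zᵀ * g := by
      rw [← hpJv]
      calc vᵀ * (Fᵀ * J * κ) * v = (F * v)ᵀ * J * κ * v := by
            rw [transpose_mul]; simp only [Matrix.mul_assoc]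
        _ = _ := by rw [hFv]
    have h4 : vᵀ * (κᵀ * J * F) * v = (S - zᵀ * g)ᵀ := by
      rw [← hpJv]
      simp only [transpose_mul, transpose_transpose, hJ]
      calc vᵀ * (κᵀ * J * F) * v = vᵀ * (κᵀ * (J * (F * v))) := by simp only [Matrix.mul_assoc]
        _ = _ := by rw [hFv]
    rw [h3, h4] at h2
    rw [transpose_sub, transpose_mul zᵀ g, transpose_transpose, gsym, hS] at h2
    rw [two_smul]
    have h5 : S + S = (S - zᵀ * g) + (S + zᵀ * g) := by abel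
    rw [h5, ← h2]
    abel
  · intro r
    have h1 := hD.symm_arm hF hk r
    -- `F E B κᵀ = κ E B Fᵀ`
    have h2 : pᵀ * J * M arm B r F κ * J * p = pᵀ * J * M arm B r κ F * J * p := by rw [h1]
    have h3 : pᵀ * J * M arm B r κ F * J * p = S * φ r - zᵀ * g * φ r := by
      have e1 : pᵀ * J * M arm B r κ F * J * p
          = pᵀ * J * X * (Phi arm J B F r * p) - (pᵀ * J * w) * E K arm r * B * Fᵀ * J * p := by
        unfold Phi M
        rw [hκ]
        simp only [Matrix.sub_mul, Matrix.mul_sub, Matrix.mul_assoc]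
      have e2 : (pᵀ * J * w) * E K arm r * B * Fᵀ * J * p
          = zᵀ * (pᵀ * J * (Phi arm J B F r * p)) := by
        rw [hv']
        unfold Phi M
        simp only [Matrix.mul_assoc]
      rw [e1, e2, hφ, hSd, hg]
      simp only [Matrix.mul_assoc]
    have h4 : pᵀ * J * M arm B r F κ * J * p = -((φ r)ᵀ * S) - g * φ r * z := by
      have e1 : pᵀ * J * M arm B r F κ * J * p
          = (pᵀ * J * M arm B r F F) * Xᵀ * J * p
            - pᵀ * J * F * E K arm r * B * (wᵀ * J * p) := by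
        unfold M
        rw [hκ, transpose_sub, transpose_mul]
        simp only [Matrix.sub_mul, Matrix.mul_sub, Matrix.mul_assoc]
      have e2 : pᵀ * J * F * E K arm r * B * (wᵀ * J * p) = g * φ r * z := by
        rw [hv]
        have : pᵀ * J * F * E K arm r * B * (Fᵀ * J * p * z)
            = pᵀ * J * (Phi arm J B F r * p) * z := by
          unfold Phi M
          simp only [Matrix.mul_assoc]
        rw [this, hφ, hg]
        simp only [Matrix.mul_assoc]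
      have e3 : pᵀ * J * M arm B r F F = (φ r)ᵀ * pᵀ := by
        rw [← transpose_mul, ← hφ]
        unfold Phi
        rw [transpose_mul, transpose_mul, hJ, Slack.M_transpose hD, ← Matrix.mul_assoc]
      have e4 : pᵀ * Xᵀ * J * p = -S := by
        rw [← hS, hSd]
        simp only [transpose_mul, transpose_transpose, hJ, Matrix.mul_assoc]
      rw [e1, e2, e3]
      have e5 : (φ r)ᵀ * pᵀ * Xᵀ * J * p = (φ r)ᵀ * (pᵀ * Xᵀ * J * p) := by
        simp only [Matrix.mul_assoc]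
      rw [e5, e4, Matrix.mul_neg]
    rw [h3, h4] at h2
    have h5 : S * φ r = (S * φ r - zᵀ * g * φ r) + zᵀ * g * φ r := by abel
    rw [h5, ← h2]
    abel

section core

variable {M : Type*} [AddCommGroup M] [Module K M] {β : LinearMap.BilinForm K M}
  {ε : (n → K) →ₗ[K] M} {g z : Matrix n n K} {ΦM : Fin 3 → End K M} {φ : Fin 3 → Matrix n n K}

/-- the relations in the frame descend to the core -/
theorem core (hNS : NS β) (hε : Function.Surjective ε)
    (hg : ∀ x y, x ⬝ᵥ (g *ᵥ y) = β (ε x) (ε y))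
    (hεφ : ∀ r x, ε (φ r *ᵥ x) = ΦM r (ε x))
    (hΦs : ∀ r v w, β (ΦM r v) w = β v (ΦM r w)) {A : End K M}
    (hA : ∀ v w, β (A v) w = - β v (A w)) {S : Matrix n n K}
    (hSA : ∀ x y, x ⬝ᵥ (S *ᵥ y) = β (ε x) (A (ε y)))
    (h1 : (2 : K) • S = zᵀ * g - g * z)
    (h3 : ∀ r, S * φ r + (φ r)ᵀ * S = zᵀ * g * φ r - g * φ r * z) :
    ∃ Z : End K M, (∀ x, ε (z *ᵥ x) = Z (ε x)) ∧
      (∀ v w, β (A v + Z v) w = β v (A w + Z w)) ∧
      ∀ r v, A (ΦM r v) + Z (ΦM r v) = ΦM r (A v + Z v) := by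
  have tr : ∀ (z : Matrix n n K) (x y : n → K), x ⬝ᵥ (zᵀ *ᵥ y) = (z *ᵥ x) ⬝ᵥ y := by
    intro z x y
    rw [dotProduct_mulVec, vecMul_transpose]
  have k1 : ∀ x y, 2 * β (ε x) (A (ε y)) = β (ε (z *ᵥ x)) (ε y) - β (ε x) (ε (z *ᵥ y)) := by
    intro x y
    have e1 : x ⬝ᵥ (((2 : K) • S) *ᵥ y) = x ⬝ᵥ ((zᵀ * g - g * z) *ᵥ y) := by rw [h1]
    rw [smul_mulVec, dotProduct_smul, hSA, sub_mulVec, dotProduct_sub, ← mulVec_mulVec, tr, hg,
      ← mulVec_mulVec, hg, smul_eq_mul] at e1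
    exact e1
  have k0 : ∀ y, ε y = 0 → ε (z *ᵥ y) = 0 := by
    intro y hy
    apply hNS.nd
    intro m
    obtain ⟨x, rfl⟩ := hε m
    have e1 := k1 x y
    rw [hy, map_zero, map_zero, map_zero, mul_zero, zero_sub] at e1
    rw [hNS.symm]
    exact neg_eq_zero.1 e1.symm
  obtain ⟨σ, hσ⟩ := ε.exists_rightInverse_of_surjective (LinearMap.range_eq_top.2 hε)
  have hσ' : ∀ m, ε (σ m) = m := fun m => LinearMap.congr_fun hσ m
  set Z : End K M := ε ∘ₗ Matrix.toLin' z ∘ₗ σ with hZ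
  have hZε : ∀ x, ε (z *ᵥ x) = Z (ε x) := by
    intro x
    have e1 : ε (x - σ (ε x)) = 0 := by rw [map_sub, hσ', sub_self]
    have e2 := k0 _ e1
    rw [mulVec_sub, map_sub, sub_eq_zero] at e2
    rw [e2, hZ]
    rfl
  have k2 : ∀ v w, β (Z v) w = 2 * β v (A w) + β v (Z w) := by
    intro v w
    obtain ⟨x, rfl⟩ := hε v
    obtain ⟨y, rfl⟩ := hε w
    have e1 := k1 x y
    rw [hZε, hZε] at e1
    rw [e1]; ring
  refine ⟨Z, hZε, fun v w => ?_, fun r w => ?_⟩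
  · rw [map_add, LinearMap.add_apply, hA, k2, map_add]
    ring
  · have key : ∀ v, β v (A (ΦM r w) + Z (ΦM r w)) = β v (ΦM r (A w + Z w)) := by
      intro v
      obtain ⟨x, rfl⟩ := hε v
      obtain ⟨y, rfl⟩ := hε w
      have e1 : x ⬝ᵥ ((S * φ r + (φ r)ᵀ * S) *ᵥ y)
          = x ⬝ᵥ ((zᵀ * g * φ r - g * φ r * z) *ᵥ y) := by rw [h3]
      have e2 : x ⬝ᵥ ((S * φ r + (φ r)ᵀ * S) *ᵥ y)
          = β (ε x) (A (ΦM r (ε y))) + β (ΦM r (ε x)) (A (ε y)) := by
        rw [add_mulVec, dotProduct_add, ← mulVec_mulVec, hSA, hεφ, ← mulVec_mulVec, tr, hSA, hεφ]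
      have e3 : x ⬝ᵥ ((zᵀ * g * φ r - g * φ r * z) *ᵥ y)
          = β (Z (ε x)) (ΦM r (ε y)) - β (ε x) (ΦM r (Z (ε y))) := by
        rw [sub_mulVec, dotProduct_sub, Matrix.mul_assoc, Matrix.mul_assoc, ← mulVec_mulVec,
          ← mulVec_mulVec, tr, hg, hεφ, ← mulVec_mulVec, ← mulVec_mulVec, hg, hεφ, hZε, hZε]
      rw [e2, e3, k2, hΦs] at e1
      rw [map_add, map_add, map_add]
      linear_combination -e1
    rw [← sub_eq_zero]
    apply hNS.nd
    intro v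
    rw [hNS.symm, map_sub, key, sub_self]

/-- **END of (T0), frame form**: any radical, any `D`, any predicate `ZZ` on the corrections. -/
theorem tame_falseZ [CharZero K] [FiniteDimensional K M] (hD : Data k arm J B N W)
    (hF : F ∈ N ⊓ W) {a : Fin 3 → Matrix n n K}
    (hφ : ∀ r, Phi arm J B F r * p = p * φ r) (ha : ∑ r, φ r * a r = 1)
    (hNS : NS β) (hε : Function.Surjective ε)
    (hg : ∀ x y, x ⬝ᵥ ((pᵀ * J * p) *ᵥ y) = β (ε x) (ε y))
    (hεφ : ∀ r x, ε (φ r *ᵥ x) = ΦM r (ε x))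
    (hΦs : ∀ r v w, β (ΦM r v) w = β v (ΦM r w))
    {D : End K M} (hDΦ : ∀ s v, D (ΦM s v) = ΦM s (D v))
    (hDs : ⨆ ν, D.maxGenEigenspace ν = ⊤) (hT : Tame ΦM D) (ZZ : Matrix n n K → Prop)
    (hext : ∀ A : End K M,
      (∀ (s : Fin 3) (j : ℕ), ∀ x ∈ LinearMap.range (ΦM s ^ j), A x ∈ LinearMap.range (ΦM s ^ j)) →
      (∀ v w, β (A v) w = - β v (A w)) →
      ∃ (X : Matrix ι ι K) (w : Matrix ι δ K) (z : Matrix n n K),
        (∀ x y, x ⬝ᵥ ((pᵀ * J * X * p) *ᵥ y) = β (ε x) (A (ε y))) ∧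
        w ∈ W ∧ X * F - w ∈ N ∧ wᵀ * J * p = Fᵀ * J * p * z ∧ ZZ z)
    (hZ3 : ∀ (A Z : End K M) (z : Matrix n n K),
      (∀ (s : Fin 3) (j : ℕ), ∀ x ∈ LinearMap.range (ΦM s ^ j), A x ∈ LinearMap.range (ΦM s ^ j)) →
      (∀ v w, β (A v) w = - β v (A w)) → ZZ z → (∀ x, ε (z *ᵥ x) = Z (ε x)) →
      (∀ v w, β (A v + Z v) w = β v (A w + Z w)) →
      (∀ r v, A (ΦM r v) + Z (ΦM r v) = ΦM r (A v + Z v)) → A = 0) : False := by
  obtain ⟨A, hA0, hAs, hAr⟩ := TC.exists_skew_of_tame' hNS ΦM hΦs hDΦ hDs hT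
  obtain ⟨X, w, z, hS, hw, hN, hv, hz⟩ := hext A hAr hAs
  have hSk : (pᵀ * J * X * p)ᵀ = -(pᵀ * J * X * p) := by
    have h0 : ∀ x y, x ⬝ᵥ (((pᵀ * J * X * p)ᵀ + pᵀ * J * X * p) *ᵥ y) = 0 := by
      intro x y
      rw [add_mulVec, dotProduct_add, hS, dotProduct_mulVec, vecMul_transpose, dotProduct_comm,
        hS, hNS.symm, hAs, neg_add_cancel]
    have h1 : (pᵀ * J * X * p)ᵀ + pᵀ * J * X * p = 0 := by
      ext i j
      have h2 := h0 (Pi.single i 1) (Pi.single j 1)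
      rw [mulVec_single_one, single_one_dotProduct] at h2
      exact h2
    exact eq_neg_of_add_eq_zero_left h1
  obtain ⟨h1, h3⟩ := rel hD hF hφ ha hw hN hv hSk
  obtain ⟨Z, hZε, hZs, hZc⟩ := core hNS hε hg hεφ hΦs hAs hS h1 h3
  exact hA0 (hZ3 A Z z hAr hAs hz hZε hZs hZc)

end core

end Crest.Agent.R172.TG3
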