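import Crest.Agent.R172.TameCount1

/-!
Row 172, note 13814 (helper721), step (4), part 2: type `(3,3,3)`.
Every nondegenerate bilinear form on a space of dimension `≥ 2` has an infinitesimal isometry;
hence three isotropic subspaces in general position have a common infinitesimal stabiliser.
-/

set_option autoImplicit false

namespace Crest.Agent.R172.TC

open Module LinearMap
open Crest.Agent.R172.Core (NS)

section Mat

open Matrix

variable {K : Type*} [Field K] {α : Type*} [Fintype α] [DecidableEq α]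

/-- `A = C (x yᵀ - ε y xᵀ)ᵀ`, where `C x = ε Cᵀ x`, `C y = ε Cᵀ y`. -/
theorem sol_of_pair {C : Matrix α α K} (hC : IsUnit C) {ε : K} (hε : ε * ε = 1) {x y : α → K}
    (hx : C *ᵥ x = ε • (Cᵀ *ᵥ x)) (hy : C *ᵥ y = ε • (Cᵀ *ᵥ y))
    (hind : ∀ c : K, x ≠ c • y) (hy0 : y ≠ 0) :
    ∃ A : Matrix α α K, A ≠ 0 ∧ A * C + C * Aᵀ = 0 := by
  let S : Matrix α α K := vecMulVec x y - ε • vecMulVec y x
  have hS : S ≠ 0 := by
    intro h
    obtain ⟨j, hj⟩ := Function.ne_iff.1 hy0
    apply hind (ε * x j / y j)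
    funext i
    have h1 := congrFun (congrFun h i) j
    simp only [S, Matrix.sub_apply, Matrix.smul_apply, vecMulVec_apply, smul_eq_mul,
      Matrix.zero_apply, sub_eq_zero] at h1
    simp only [Pi.smul_apply, smul_eq_mul]
    rw [div_mul_eq_mul_div, eq_div_iff hj]
    linear_combination h1
  have hyC : y ᵥ* C = ε • (C *ᵥ y) := by
    have : C *ᵥ y = ε • (y ᵥ* C) := by rw [hy, mulVec_transpose]
    rw [this, smul_smul, hε, one_smul]
  have hxC : x ᵥ* C = ε • (C *ᵥ x) := by
    have : C *ᵥ x = ε • (x ᵥ* C) := by rw [hx, mulVec_transpose]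
    rw [this, smul_smul, hε, one_smul]
  have hkey : Sᵀ * C + S * Cᵀ = 0 := by
    simp only [S, transpose_sub, transpose_smul, transpose_vecMulVec, Matrix.sub_mul,
      Matrix.smul_mul, vecMulVec_mul, vecMul_transpose]
    rw [hyC, hxC]
    simp only [vecMulVec_smul]
    rw [smul_smul, hε, one_smul]
    abel
  refine ⟨C * Sᵀ, ?_, ?_⟩
  · intro h
    apply hS
    obtain ⟨D, hD⟩ := hC.exists_left_inv
    have : Sᵀ = 0 := by
      calc Sᵀ = D * C * Sᵀ := by rw [hD, Matrix.one_mul]
        _ = D * (C * Sᵀ) := by rw [Matrix.mul_assoc]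
        _ = 0 := by rw [h, Matrix.mul_zero]
    rw [← transpose_transpose S, this, transpose_zero]
  · rw [transpose_mul, transpose_transpose, Matrix.mul_assoc, ← Matrix.mul_add, hkey,
      Matrix.mul_zero]

/-- Every nondegenerate bilinear form in `≥ 2` variables has a nonzero infinitesimal isometry. -/
theorem exists_isometry [CharZero K] {C : Matrix α α K} (hC : IsUnit C)
    (hα : 2 ≤ Fintype.card α) :
    ∃ A : Matrix α α K, A ≠ 0 ∧ A * C + C * Aᵀ = 0 := by
  obtain ⟨D, hD⟩ := hC.exists_left_inv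
  have hD' : C * D = 1 := by
    rw [mul_eq_one_comm]; exact hD
  have hDt : Dᵀ * Cᵀ = 1 := by rw [← transpose_mul, hD', transpose_one]
  have hDt' : Cᵀ * Dᵀ = 1 := by rw [← transpose_mul, hD, transpose_one]
  -- `a = Cᵀ C⁻¹`, `a⁻¹ = C C⁻ᵀ`
  set a : Matrix α α K := Cᵀ * D with ha
  set a' : Matrix α α K := C * Dᵀ with ha'
  by_cases h0 : a - a' = 0
  · -- `a = a'`
    have haa : a = a' := sub_eq_zero.1 h0
    have hinv : a * a' = 1 := by
      rw [ha, ha']
      calc Cᵀ * D * (C * Dᵀ) = Cᵀ * (D * C) * Dᵀ := by simp only [Matrix.mul_assoc]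
        _ = 1 := by rw [hD, Matrix.mul_one, hDt']
    -- `b = C⁻ᵀ C`
    set b : Matrix α α K := Dᵀ * C with hb
    have hCb : Cᵀ * b = C := by rw [hb, ← Matrix.mul_assoc, hDt', Matrix.one_mul]
    have hbb : b * b = 1 := by
      have h1 : C * Dᵀ * C = Cᵀ := by
        rw [← ha', ← haa, ha, Matrix.mul_assoc, hD, Matrix.mul_one]
      calc b * b = Dᵀ * (C * Dᵀ * C) := by rw [hb]; simp only [Matrix.mul_assoc]
        _ = 1 := by rw [h1, hDt]
    by_cases hE : ∃ u : α → K, u ≠ 0 ∧ b *ᵥ u = - u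
    · obtain ⟨u, hu0, hu⟩ := hE
      by_cases hE2 : ∃ x : α → K, b *ᵥ x = - x ∧ ∀ c : K, x ≠ c • u
      · obtain ⟨x, hx, hxu⟩ := hE2
        refine sol_of_pair (ε := -1) hC (by norm_num) ?_ ?_ hxu hu0
        · rw [← hCb, ← mulVec_mulVec, hx, hCb]
          simp [mulVec_neg]
        · rw [← hCb, ← mulVec_mulVec, hu, hCb]
          simp [mulVec_neg]
      · exfalso
        push Not at hE2
        have hCu : C *ᵥ u = -(Cᵀ *ᵥ u) := by
          rw [← hCb, ← mulVec_mulVec, hu, hCb, mulVec_neg]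
        have hall : ∀ z : α → K, z ⬝ᵥ (C *ᵥ u) = 0 := by
          intro z
          have huu : u ⬝ᵥ (C *ᵥ u) = 0 := by
            have h1 : u ⬝ᵥ (C *ᵥ u) = - (u ⬝ᵥ (C *ᵥ u)) := by
              conv_lhs => rw [hCu]
              rw [dotProduct_neg, mulVec_transpose, dotProduct_comm u (u ᵥ* C),
                ← dotProduct_mulVec]
            have h2 : (2 : K) * (u ⬝ᵥ (C *ᵥ u)) = 0 := by linear_combination h1
            simpa using h2
          -- the plus part
          have hp : ∀ w : α → K, b *ᵥ w = w → w ⬝ᵥ (C *ᵥ u) = 0 := by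
            intro w hw
            have hCw : C *ᵥ w = Cᵀ *ᵥ w := by
              conv_lhs => rw [← hCb]
              rw [← mulVec_mulVec, hw]
            have h1 : w ⬝ᵥ (C *ᵥ u) = - (w ⬝ᵥ (C *ᵥ u)) := by
              calc w ⬝ᵥ (C *ᵥ u) = -(w ⬝ᵥ (Cᵀ *ᵥ u)) := by rw [hCu, dotProduct_neg]
                _ = -((C *ᵥ w) ⬝ᵥ u) := by
                  rw [dotProduct_mulVec, vecMul_transpose]
                _ = -((Cᵀ *ᵥ w) ⬝ᵥ u) := by rw [hCw]
                _ = -(w ⬝ᵥ (C *ᵥ u)) := by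
                  rw [mulVec_transpose, ← dotProduct_mulVec]
            have h2 : (2 : K) * (w ⬝ᵥ (C *ᵥ u)) = 0 := by linear_combination h1
            simpa using h2
          obtain ⟨c, hc⟩ := hE2 (z - b *ᵥ z) (by
            rw [mulVec_sub, mulVec_mulVec, hbb, one_mulVec]; abel)
          have h3 := hp (z + b *ᵥ z) (by
            rw [mulVec_add, mulVec_mulVec, hbb, one_mulVec]; abel)
          have h4 : (z - b *ᵥ z) ⬝ᵥ (C *ᵥ u) = 0 := by
            rw [hc, smul_dotProduct, huu, smul_zero]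
          rw [add_dotProduct] at h3
          rw [sub_dotProduct] at h4
          have h5 : (2 : K) * (z ⬝ᵥ (C *ᵥ u)) = 0 := by linear_combination h3 + h4
          simpa using h5
        apply hu0
        have h6 : C *ᵥ u = 0 := by
          funext i
          have := hall (Pi.single i 1)
          simpa using this
        calc u = (D * C) *ᵥ u := by rw [hD, one_mulVec]
          _ = D *ᵥ (C *ᵥ u) := by rw [mulVec_mulVec]
          _ = 0 := by rw [h6, mulVec_zero]
    · push Not at hE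
      -- `b = 1`
      have hb1 : ∀ z : α → K, b *ᵥ z = z := by
        intro z
        by_contra hcon
        apply hE (z - b *ᵥ z) (sub_ne_zero.2 (Ne.symm hcon))
        rw [mulVec_sub, mulVec_mulVec, hbb, one_mulVec]; abel
      obtain ⟨i, j, hij⟩ := Fintype.one_lt_card_iff.1 (by omega : 1 < Fintype.card α)
      refine sol_of_pair (ε := 1) (x := Pi.single i 1) (y := Pi.single j 1) hC (by norm_num)
        ?_ ?_ ?_ ?_
      · rw [one_smul]
        conv_lhs => rw [← hCb]
        rw [← mulVec_mulVec, hb1]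
      · rw [one_smul]
        conv_lhs => rw [← hCb]
        rw [← mulVec_mulVec, hb1]
      · intro c h
        have := congrFun h i
        simp [hij] at this
      · intro h
        have := congrFun h j
        simp at this
  · refine ⟨a - a', h0, ?_⟩
    rw [Matrix.sub_mul, transpose_sub, Matrix.mul_sub, ha, ha', transpose_mul, transpose_mul,
      transpose_transpose, transpose_transpose]
    have e1 : Cᵀ * D * C = Cᵀ := by rw [Matrix.mul_assoc, hD, Matrix.mul_one]
    have e2 : C * (D * Cᵀ) = C * D * Cᵀ := by rw [Matrix.mul_assoc]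
    have e3 : C * (Dᵀ * C) = C * Dᵀ * C := by rw [Matrix.mul_assoc]
    rw [e1, e2, e3, hD', Matrix.one_mul]
    abel

end Mat

section Three

open Matrix

variable {K : Type*} [Field K] {V : Type*} [AddCommGroup V] [Module K V]
  {B : LinearMap.BilinForm K V}

/-- coordinates on `Q` dual to a basis of `P` -/
theorem exists_coord {P Q : Submodule K V} {m : ℕ} (e : Basis (Fin m) K P)
    (hQ : finrank K Q = m) (hQP : ∀ y ∈ Q, (∀ x ∈ P, B x y = 0) → y = 0) :
    ∃ E : Q ≃ₗ[K] (Fin m → K), ∀ y i, E y i = B (e i) y := by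
  let f : Q →ₗ[K] (Fin m → K) :=
    { toFun := fun y i => B (e i) y
      map_add' := by intro x y; funext i; simp
      map_smul' := by intro c y; funext i; simp }
  have hf : Function.Injective f := by
    rw [← LinearMap.ker_eq_bot, LinearMap.ker_eq_bot']
    intro y hy
    apply Subtype.ext
    apply hQP y y.2
    intro x hx
    have h1 : x = ((∑ i, e.repr ⟨x, hx⟩ i • e i : P) : V) := by rw [e.sum_repr]
    rw [h1]
    simp only [Submodule.coe_sum, Submodule.coe_smul, map_sum, map_smul, LinearMap.sum_apply,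
      LinearMap.smul_apply]
    refine Finset.sum_eq_zero fun i _ => ?_
    have h2 : B (e i) y = 0 := congrFun hy i
    rw [h2, smul_zero]
  refine ⟨LinearEquiv.ofBijective f ⟨hf, ?_⟩, fun y i => rfl⟩
  rw [← LinearMap.range_eq_top]
  apply Submodule.eq_top_of_finrank_eq
  rw [LinearMap.finrank_range_of_inj hf, hQ, Module.finrank_fintype_fun_eq_card, Fintype.card_fin]

/-- **4b**: three isotropic subspaces in general position. -/
theorem exists_skew_three [FiniteDimensional K V] [CharZero K] (hB : NS B) {P Q R : Submodule K V} {m : ℕ} (hm : 2 ≤ m)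
    (hP : finrank K P = m) (hQ : finrank K Q = m) (hR : finrank K R = m)
    (hV : finrank K V = 3 * m)
    (iP : ∀ x ∈ P, ∀ y ∈ P, B x y = 0) (iQ : ∀ x ∈ Q, ∀ y ∈ Q, B x y = 0)
    (iR : ∀ x ∈ R, ∀ y ∈ R, B x y = 0)
    (hQP : ∀ y ∈ Q, (∀ x ∈ P, B x y = 0) → y = 0)
    (hRP : ∀ y ∈ R, (∀ x ∈ P, B x y = 0) → y = 0)
    (hRQ : ∀ y ∈ R, (∀ x ∈ Q, B x y = 0) → y = 0)
    (hind : ∀ x ∈ P, ∀ y ∈ Q, ∀ z ∈ R, x + y + z = 0 → x = 0 ∧ y = 0 ∧ z = 0) :
    ∃ X : End K V, X ≠ 0 ∧ (∀ v w, B (X v) w = - B v (X w)) ∧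
      (∀ x ∈ P, X x ∈ P) ∧ (∀ x ∈ Q, X x ∈ Q) ∧ (∀ x ∈ R, X x ∈ R) := by
  classical
  let e : Basis (Fin m) K P := Module.finBasisOfFinrankEq K P hP
  obtain ⟨E1, hE1⟩ := exists_coord e hQ hQP
  obtain ⟨E2, hE2⟩ := exists_coord e hR hRP
  let E0 : P ≃ₗ[K] (Fin m → K) := e.equivFun
  -- the pairing matrix of `Q` and `R`
  let C : Matrix (Fin m) (Fin m) K := Matrix.of fun i j =>
    B (E1.symm (Pi.single i 1) : Q) (E2.symm (Pi.single j 1) : R)
  have hC : ∀ (y : Q) (z : R), B y z = (E1 y) ⬝ᵥ (C *ᵥ (E2 z)) := by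
    intro y z
    have hy : y = ∑ i, (E1 y i) • E1.symm (Pi.single i 1) := by
      apply E1.injective
      rw [map_sum]
      simp only [map_smul, LinearEquiv.apply_symm_apply]
      exact (pi_eq_sum_univ' (E1 y))
    have hz : z = ∑ i, (E2 z i) • E2.symm (Pi.single i 1) := by
      apply E2.injective
      rw [map_sum]
      simp only [map_smul, LinearEquiv.apply_symm_apply]
      exact (pi_eq_sum_univ' (E2 z))
    conv_lhs => rw [hy, hz]
    simp only [Submodule.coe_sum, Submodule.coe_smul, map_sum, map_smul, LinearMap.sum_apply,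
      LinearMap.smul_apply, smul_eq_mul, dotProduct, Matrix.mulVec, C, Matrix.of_apply,
      Finset.mul_sum]
    rw [Finset.sum_comm]
    refine Finset.sum_congr rfl fun i _ => Finset.sum_congr rfl fun j _ => ?_
    ring
  have hCu : IsUnit C := by
    rw [← Matrix.mulVec_injective_iff_isUnit]
    intro v w hvw
    have h1 : C *ᵥ (v - w) = 0 := by
      rw [Matrix.mulVec_sub]
      exact sub_eq_zero.2 hvw
    have h2 : (E2.symm (v - w) : R) = 0 := by
      apply Subtype.ext
      apply hRQ _ (E2.symm (v - w)).2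
      intro x hx
      have := hC ⟨x, hx⟩ (E2.symm (v - w))
      rw [LinearEquiv.apply_symm_apply, h1, dotProduct_zero] at this
      exact this
    have h3 : v - w = 0 := by
      have := congrArg E2 h2
      rwa [LinearEquiv.apply_symm_apply, map_zero] at this
    exact sub_eq_zero.1 h3
  obtain ⟨A, hA0, hA⟩ := exists_isometry hCu (by rw [Fintype.card_fin]; exact hm)
  -- the operators on the pieces
  let X0 : P →ₗ[K] P := E0.symm.toLinearMap ∘ₗ A.toLin' ∘ₗ E0.toLinearMap
  let X1 : Q →ₗ[K] Q := E1.symm.toLinearMap ∘ₗ (-Aᵀ).toLin' ∘ₗ E1.toLinearMap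
  let X2 : R →ₗ[K] R := E2.symm.toLinearMap ∘ₗ (-Aᵀ).toLin' ∘ₗ E2.toLinearMap
  have hX0 : ∀ x, E0 (X0 x) = A *ᵥ E0 x := by intro x; simp [X0]
  have hX1 : ∀ x, E1 (X1 x) = -(Aᵀ *ᵥ E1 x) := by intro x; simp [X1, Matrix.neg_mulVec]
  have hX2 : ∀ x, E2 (X2 x) = -(Aᵀ *ᵥ E2 x) := by intro x; simp [X2, Matrix.neg_mulVec]
  have hP0 : ∀ (W : Submodule K V) (E : W ≃ₗ[K] (Fin m → K)), (∀ y i, E y i = B (e i) y) →
      ∀ (x : P) (y : W), B x y = E0 x ⬝ᵥ E y := by
    intro W E hE x y
    conv_lhs => rw [← e.sum_repr x]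
    simp only [Submodule.coe_sum, Submodule.coe_smul, map_sum, map_smul, LinearMap.sum_apply,
      LinearMap.smul_apply, smul_eq_mul, dotProduct, hE, E0, Basis.equivFun_apply]
  have s01 : ∀ (x : P) (y : Q), B (X0 x) y + B x (X1 y) = 0 := by
    intro x y
    rw [hP0 Q E1 hE1, hP0 Q E1 hE1, hX0, hX1, dotProduct_neg, Matrix.dotProduct_mulVec,
      Matrix.vecMul_transpose]
    ring
  have s02 : ∀ (x : P) (y : R), B (X0 x) y + B x (X2 y) = 0 := by
    intro x y
    rw [hP0 R E2 hE2, hP0 R E2 hE2, hX0, hX2, dotProduct_neg, Matrix.dotProduct_mulVec,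
      Matrix.vecMul_transpose]
    ring
  have s12 : ∀ (x : Q) (y : R), B (X1 x) y + B x (X2 y) = 0 := by
    intro x y
    rw [hC, hC, hX1, hX2, neg_dotProduct, Matrix.mulVec_neg, dotProduct_neg,
      Matrix.mulVec_transpose, ← Matrix.dotProduct_mulVec, Matrix.mulVec_mulVec,
      Matrix.mulVec_mulVec, ← neg_add, ← dotProduct_add, ← Matrix.add_mulVec, hA]
    simp
  -- the direct sum
  let S : (P × Q × R) →ₗ[K] V :=
    LinearMap.coprod P.subtype (LinearMap.coprod Q.subtype R.subtype)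
  have hS : ∀ p, S p = (p.1 : V) + ((p.2.1 : V) + (p.2.2 : V)) := fun p => by simp [S]
  have hSi : Function.Injective S := by
    rw [← LinearMap.ker_eq_bot, LinearMap.ker_eq_bot']
    rintro ⟨x, y, z⟩ h
    rw [hS] at h
    obtain ⟨h1, h2, h3⟩ := hind x x.2 y y.2 z z.2 (by rw [add_assoc]; exact h)
    exact Prod.ext (Subtype.ext h1) (Prod.ext (Subtype.ext h2) (Subtype.ext h3))
  have hSs : Function.Surjective S := by
    rw [← LinearMap.range_eq_top]
    apply Submodule.eq_top_of_finrank_eq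
    rw [LinearMap.finrank_range_of_inj hSi, Module.finrank_prod, Module.finrank_prod, hP, hQ, hR,
      hV]
    ring
  let Se : (P × Q × R) ≃ₗ[K] V := LinearEquiv.ofBijective S ⟨hSi, hSs⟩
  have hSe : ∀ p, Se p = (p.1 : V) + ((p.2.1 : V) + (p.2.2 : V)) := fun p => hS p
  let X : End K V := Se.toLinearMap ∘ₗ (X0.prodMap (X1.prodMap X2)) ∘ₗ Se.symm.toLinearMap
  have hX : ∀ p, X (Se p) = (X0 p.1 : V) + ((X1 p.2.1 : V) + (X2 p.2.2 : V)) := by
    intro p
    simp only [X, LinearMap.comp_apply, LinearEquiv.coe_coe, LinearEquiv.symm_apply_apply]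
    rw [hSe]
    rfl
  have hXP : ∀ x : P, X x = X0 x := by
    intro x
    have := hX (x, 0, 0)
    rw [hSe] at this
    simpa using this
  have hXQ : ∀ x : Q, X x = X1 x := by
    intro x
    have := hX (0, x, 0)
    rw [hSe] at this
    simpa using this
  have hXR : ∀ x : R, X x = X2 x := by
    intro x
    have := hX (0, 0, x)
    rw [hSe] at this
    simpa using this
  refine ⟨X, ?_, ?_, ?_, ?_, ?_⟩
  · intro h0
    apply hA0
    have h1 : ∀ x : P, X0 x = 0 := by
      intro x
      apply Subtype.ext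
      rw [← hXP, h0]
      rfl
    apply Matrix.toLin'.injective
    rw [map_zero]
    ext1 j
    apply LinearMap.ext
    intro c
    have h2 := hX0 (E0.symm (Pi.single j c))
    rw [h1, map_zero, LinearEquiv.apply_symm_apply] at h2
    change A.toLin' (Pi.single j c) = 0
    rw [Matrix.toLin'_apply]
    exact h2.symm
  · intro v w
    obtain ⟨⟨x, y, z⟩, rfl⟩ := Se.surjective v
    obtain ⟨⟨x', y', z'⟩, rfl⟩ := Se.surjective w
    rw [hX, hX, hSe, hSe]
    simp only [map_add, LinearMap.add_apply]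
    have a1 := s01 x y'
    have a2 := s02 x z'
    have a3 := s12 y z'
    have b1 := s01 x' y
    have b2 := s02 x' z
    have b3 := s12 y' z
    have c1 := iP _ (X0 x).2 _ x'.2
    have c2 := iP _ x.2 _ (X0 x').2
    have c3 := iQ _ (X1 y).2 _ y'.2
    have c4 := iQ _ y.2 _ (X1 y').2
    have c5 := iR _ (X2 z).2 _ z'.2
    have c6 := iR _ z.2 _ (X2 z').2
    rw [hB.symm (X1 y) x', hB.symm (X2 z) x', hB.symm (X2 z) y', hB.symm y (X0 x'),
      hB.symm z (X0 x'), hB.symm z (X1 y')]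
    linear_combination a1 + a2 + a3 + b1 + b2 + b3 + c1 + c2 + c3 + c4 + c5 + c6
  · intro x hx
    have := hXP ⟨x, hx⟩
    rw [this]
    exact (X0 ⟨x, hx⟩).2
  · intro x hx
    have := hXQ ⟨x, hx⟩
    rw [this]
    exact (X1 ⟨x, hx⟩).2
  · intro x hx
    have := hXR ⟨x, hx⟩
    rw [this]
    exact (X2 ⟨x, hx⟩).2

end Three

end Crest.Agent.R172.TC
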