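import Crest.Agent.R172.TameCount2
import Crest.Agent.R172.St2

/-!
Row 172, note 13814 (helper721), step (4), part 3: general position of three isotropic subspaces
from derivations, and the final form of step (4).
-/

set_option autoImplicit false

namespace Crest.Agent.R172.TC

open Module LinearMap
open Crest.Agent.R172.Core (NS)
open Crest.Agent.R172.St (wedge wedge_apply wedge_sk)

variable {K : Type*} [Field K] {V : Type*} [AddCommGroup V] [Module K V]
  {B : LinearMap.BilinForm K V}

/-- All directions `(X_s)` are realised on the members `κ_i` of the arms `arm i`. -/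
def Gen (B : LinearMap.BilinForm K V) {τ : Type*} (arm : τ → Fin 3) (κ : τ → Submodule K V) :
    Prop :=
  ∀ X : Fin 3 → End K V, (∀ s v w, B (X s v) w = - B v (X s w)) →
    ∃ (d : Derivation ℤ K K) (δ : V →+ V), (∀ (c : K) v, δ (c • v) = d c • v + c • δ v) ∧
      (∀ v w, B (δ v) w + B v (δ w) = d (B v w)) ∧
      ∀ i, ∀ x ∈ κ i, δ x - X (arm i) x ∈ κ i

theorem Gen.comp {τ τ' : Type*} {arm : τ → Fin 3} {κ : τ → Submodule K V} (h : Gen B arm κ)
    (f : τ' → τ) : Gen B (arm ∘ f) (κ ∘ f) := by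
  intro X hX
  obtain ⟨d, δ, h1, h2, h3⟩ := h X hX
  exact ⟨d, δ, h1, h2, fun i => h3 (f i)⟩

theorem wedge_skew (hB : NS B) (a b v w : V) :
    B (wedge B a b v) w = - B v (wedge B a b w) :=
  eq_neg_of_add_eq_zero_left (wedge_sk B hB.symm a b v w)

/-- existence of test vectors -/
theorem exists_test (hB : NS B) {x : V} (hx : x ≠ 0) : ∃ a, B a x = 1 := by
  by_contra hcon
  apply hx
  apply hB.nd
  intro w
  by_contra hw
  apply hcon
  refine ⟨(B x w)⁻¹ • w, ?_⟩
  rw [map_smul, LinearMap.smul_apply, hB.symm w x, smul_eq_mul, inv_mul_cancel₀ hw]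

theorem exists_test2 [FiniteDimensional K V] (hB : NS B) {x y : V} (h : ∀ c : K, y ≠ c • x) :
    ∃ b, B b x = 0 ∧ B b y = 1 := by
  by_contra hcon
  -- then `x^⊥ ⊂ y^⊥`
  have h1 : ∀ b, B b x = 0 → B b y = 0 := by
    intro b hb
    by_contra hby
    apply hcon
    refine ⟨(B b y)⁻¹ • b, ?_, ?_⟩
    · rw [map_smul, LinearMap.smul_apply, hb, smul_zero]
    · rw [map_smul, LinearMap.smul_apply, smul_eq_mul, inv_mul_cancel₀ hby]
  have h2 : y ∈ B.orthogonal (B.orthogonal (Submodule.span K {x})) := by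
    intro b hb
    apply h1
    have h3 := hb x (Submodule.mem_span_singleton_self x)
    rw [hB.symm]
    exact h3
  rw [hB.oo] at h2
  obtain ⟨c, hc⟩ := Submodule.mem_span_singleton.1 h2
  exact h c hc.symm

/-- the hyperplane `x^⊥` -/
theorem finrank_hyper [FiniteDimensional K V] (hB : NS B) {x : V} (W : Submodule K V)
    (h : ∀ b, B b x = 0 → b ∈ W) : finrank K V ≤ finrank K W + 1 := by
  have h1 : B.orthogonal (Submodule.span K {x}) ≤ W := by
    intro b hb
    apply h
    have h3 := hb x (Submodule.mem_span_singleton_self x)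
    rw [hB.symm]
    exact h3
  have h2 := LinearMap.BilinForm.finrank_orthogonal hB.nondeg (Submodule.span K {x})
  have h3 := Submodule.finrank_mono h1
  have h4 : finrank K (Submodule.span K {x}) ≤ 1 := by
    have := finrank_span_le_card (R := K) ({x} : Set V)
    simpa using this
  omega

section pos

variable [FiniteDimensional K V] {κ : Fin 3 → Submodule K V} {m : ℕ}

/-- the kernel on the other side of a degenerate pairing -/
theorem exists_other {P Q : Submodule K V} (hd : finrank K P = finrank K Q)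
    {x : V} (hx : x ∈ P) (hx0 : x ≠ 0) (h : ∀ y ∈ Q, B x y = 0) :
    ∃ y ∈ Q, y ≠ 0 ∧ ∀ x' ∈ P, B x' y = 0 := by
  let f : Q →ₗ[K] Module.Dual K P :=
    { toFun := fun y => (B.flip y) ∘ₗ P.subtype
      map_add' := by intro a b; ext; simp
      map_smul' := by intro c a; ext; simp }
  have hf : ∀ (y : Q) (x' : P), f y x' = B x' y := fun y x' => rfl
  by_contra hcon
  have hinj : Function.Injective f := by
    rw [← LinearMap.ker_eq_bot, LinearMap.ker_eq_bot']
    intro y hy
    by_contra hy0
    apply hcon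
    refine ⟨y, y.2, fun h => hy0 (Subtype.ext h), fun x' hx' => ?_⟩
    rw [← hf y ⟨x', hx'⟩, hy]
    rfl
  have hsurj : Function.Surjective f := by
    rw [← LinearMap.range_eq_top]
    apply Submodule.eq_top_of_finrank_eq
    rw [LinearMap.finrank_range_of_inj hinj, Subspace.dual_finrank_eq, hd]
  have hx0' : (⟨x, hx⟩ : P) ≠ 0 := fun h => hx0 (congrArg Subtype.val h)
  have hφ : ∃ φ : Module.Dual K P, φ ⟨x, hx⟩ ≠ 0 := by
    by_contra hno
    push Not at hno
    exact hx0' ((Module.forall_dual_apply_eq_zero_iff K _).1 hno)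
  obtain ⟨φ, hφ⟩ := hφ
  obtain ⟨y, hy⟩ := hsurj φ
  apply hφ
  rw [← hy, hf]
  exact h y y.2

omit [FiniteDimensional K V] in
/-- one direction at a time -/
theorem Gen.single {arm : Fin 3 → Fin 3} (h : Gen B arm κ) (harm : ∀ i, arm i = i) (s : Fin 3)
    {Y : End K V} (hY : ∀ v w, B (Y v) w = - B v (Y w)) :
    ∃ (d : Derivation ℤ K K) (δ : V →+ V),
      (∀ v w, B (δ v) w + B v (δ w) = d (B v w)) ∧
      (∀ x ∈ κ s, δ x - Y x ∈ κ s) ∧ ∀ t, t ≠ s → ∀ x ∈ κ t, δ x ∈ κ t := by
  obtain ⟨d, δ, -, h2, h3⟩ := h (fun t => if t = s then Y else 0) (by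
    intro t v w
    by_cases ht : t = s
    · simp only [if_pos ht]; exact hY v w
    · simp only [if_neg ht]; simp)
  refine ⟨d, δ, h2, ?_, ?_⟩
  · intro x hx
    have := h3 s x hx
    simpa [harm] using this
  · intro t ht x hx
    have := h3 t x hx
    simpa [harm, ht] using this

/-- the pairings of generic isotropic subspaces are perfect -/
theorem perfect (hB : NS B) {arm : Fin 3 → Fin 3} (h : Gen B arm κ) (harm : ∀ i, arm i = i)
    (hm : 1 ≤ m) (hdim : ∀ s, finrank K (κ s) = m) (hV : finrank K V = 3 * m)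
    {s t : Fin 3} (hst : s ≠ t) {x : V} (hx : x ∈ κ s) (hxt : ∀ y ∈ κ t, B x y = 0) : x = 0 := by
  by_contra hx0
  obtain ⟨y, hy, hy0, hys⟩ := exists_other (by rw [hdim, hdim]) hx hx0 hxt
  -- `B (Y x) y = 0` for all skew `Y`
  have h1 : ∀ Y : End K V, (∀ v w, B (Y v) w = - B v (Y w)) → B (Y x) y = 0 := by
    intro Y hY
    obtain ⟨d, δ, h2, h3, h4⟩ := h.single harm s hY
    have h5 := h2 x y
    rw [hxt y hy, map_zero, hxt _ (h4 t hst.symm y hy), add_zero] at h5
    have h6 := hys _ (h3 x hx)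
    rw [map_sub, LinearMap.sub_apply, h5, zero_sub, neg_eq_zero] at h6
    exact h6
  -- `y = c x`
  have h2 : ∃ c : K, y = c • x := by
    by_contra hcon
    push Not at hcon
    obtain ⟨b, hb1, hb2⟩ := exists_test2 hB hcon
    obtain ⟨a, ha⟩ := exists_test hB hx0
    have h3 := h1 (wedge B b a) (wedge_skew hB b a)
    rw [wedge_apply, ha, hb1] at h3
    simp only [one_smul, zero_smul, sub_zero] at h3
    rw [h3] at hb2
    exact zero_ne_one hb2
  obtain ⟨c, rfl⟩ := h2
  have hc : c ≠ 0 := fun h => hy0 (by rw [h, zero_smul])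
  have hxt' : x ∈ κ t := by
    have := (κ t).smul_mem c⁻¹ hy
    rwa [smul_smul, inv_mul_cancel₀ hc, one_smul] at this
  -- `x^⊥ ⊂ κ s + κ t`
  obtain ⟨a, ha⟩ := exists_test hB hx0
  have h3 : ∀ b, B b x = 0 → b ∈ κ s ⊔ κ t := by
    intro b hb
    obtain ⟨d, δ, _, h5, h6⟩ := h.single harm s (wedge_skew hB b a)
    have h7 := h5 x hx
    have h8 := h6 t hst.symm x hxt'
    rw [wedge_apply, ha, hb, one_smul, zero_smul, sub_zero] at h7
    have : b = -(δ x - b) + δ x := by abel
    rw [this]
    exact Submodule.add_mem_sup (Submodule.neg_mem _ h7) h8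
  have h4 := finrank_hyper hB _ h3
  have h5 := Submodule.finrank_sup_add_finrank_inf_eq (κ s) (κ t)
  have h6 : 0 < finrank K (κ s ⊓ κ t : Submodule K V) := by
    rw [Nat.pos_iff_ne_zero]
    intro h0
    rw [Submodule.finrank_eq_zero] at h0
    apply hx0
    rw [← Submodule.mem_bot K, ← h0]
    exact ⟨hx, hxt'⟩
  rw [hdim, hdim] at h5
  omega

/-- generic isotropic subspaces are independent -/
theorem indep (hB : NS B) {arm : Fin 3 → Fin 3} (h : Gen B arm κ) (harm : ∀ i, arm i = i)
    (hm : 1 ≤ m) (hdim : ∀ s, finrank K (κ s) = m) (hV : finrank K V = 3 * m)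
    {x : Fin 3 → V} (hx : ∀ s, x s ∈ κ s) (hsum : ∑ s, x s = 0) (s : Fin 3) : x s = 0 := by
  by_contra hx0
  obtain ⟨a, ha⟩ := exists_test hB hx0
  let W : Submodule K V := ⨆ t, κ t
  have hW : ∀ t, κ t ≤ W := fun t => le_iSup κ t
  have h3 : ∀ b, B b (x s) = 0 → b ∈ W := by
    intro b hb
    obtain ⟨d, δ, _, h5, h6⟩ := h.single harm s (wedge_skew hB b a)
    have h7 := h5 (x s) (hx s)
    rw [wedge_apply, ha, hb, one_smul, zero_smul, sub_zero] at h7
    have h8 : ∑ t, δ (x t) = 0 := by rw [← map_sum, hsum, map_zero]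
    have h9 : b = - (δ (x s) - b) - ∑ t ∈ Finset.univ.erase s, δ (x t) := by
      rw [← Finset.add_sum_erase _ _ (Finset.mem_univ s)] at h8
      have h10 : ∑ t ∈ Finset.univ.erase s, δ (x t) = - δ (x s) := by
        rw [eq_neg_iff_add_eq_zero, add_comm]; exact h8
      rw [h10]
      abel
    rw [h9]
    refine Submodule.sub_mem _ (Submodule.neg_mem _ (hW s h7)) (Submodule.sum_mem _ ?_)
    intro t ht
    exact hW t (h6 t (Finset.ne_of_mem_erase ht) _ (hx t))
  have h4 := finrank_hyper hB _ h3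
  -- `W ≠ ⊤`
  have hWlt : finrank K W < finrank K V := by
    let S : ((t : Fin 3) → κ t) →ₗ[K] V :=
      { toFun := fun y => ∑ t, (y t : V)
        map_add' := by intro a b; simp [Finset.sum_add_distrib]
        map_smul' := by intro c a; simp [Finset.smul_sum] }
    have hSr : W ≤ LinearMap.range S := by
      refine iSup_le fun t => ?_
      intro v hv
      refine ⟨Pi.single t ⟨v, hv⟩, ?_⟩
      change ∑ t', ((Pi.single t (⟨v, hv⟩ : κ t) : (t : Fin 3) → κ t) t' : V) = v
      rw [Finset.sum_eq_single t]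
      · rw [Pi.single_eq_same]
      · intro t' _ ht'
        rw [Pi.single_eq_of_ne ht']
        rfl
      · intro h; exact absurd (Finset.mem_univ t) h
    have hker : 0 < finrank K (LinearMap.ker S) := by
      rw [Nat.pos_iff_ne_zero]
      intro h0
      rw [Submodule.finrank_eq_zero] at h0
      have h1 : (fun t => (⟨x t, hx t⟩ : κ t)) ∈ LinearMap.ker S := by
        rw [LinearMap.mem_ker]
        exact hsum
      rw [h0, Submodule.mem_bot] at h1
      apply hx0
      exact congrArg Subtype.val (congrFun h1 s)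
    have h1 := LinearMap.finrank_range_add_finrank_ker S
    rw [Module.finrank_pi_fintype] at h1
    simp only [hdim, Finset.sum_const, Finset.card_univ, Fintype.card_fin, smul_eq_mul] at h1
    have h2 := Submodule.finrank_mono hSr
    omega
  -- hence `W = x^⊥`
  have hWx : ∀ w ∈ W, B w (x s) = 0 := by
    have h1 : B.orthogonal (Submodule.span K {x s}) ≤ W := by
      intro b hb
      apply h3
      have h3 := hb (x s) (Submodule.mem_span_singleton_self _)
      rw [hB.symm]
      exact h3
    have h2 : B.orthogonal (Submodule.span K {x s}) = W := by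
      apply Submodule.eq_of_le_of_finrank_le h1
      have h5 := LinearMap.BilinForm.finrank_orthogonal hB.nondeg (Submodule.span K {x s})
      have h6 : finrank K (Submodule.span K {x s}) ≤ 1 := by
        have := finrank_span_le_card (R := K) ({x s} : Set V)
        simpa using this
      omega
    intro w hw
    rw [← h2] at hw
    rw [hB.symm]
    exact hw (x s) (Submodule.mem_span_singleton_self _)
  obtain ⟨t, ht⟩ : ∃ t, t ≠ s := exists_ne s
  apply hx0
  refine perfect hB h harm hm hdim hV ht.symm (hx s) fun y hy => ?_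
  rw [hB.symm]
  exact hWx y (hW t hy)

/-- **4b + 4c** -/
theorem exists_skew_gen [CharZero K] (hB : NS B) {arm : Fin 3 → Fin 3} (h : Gen B arm κ)
    (harm : ∀ i, arm i = i) (hm : 2 ≤ m) (hdim : ∀ s, finrank K (κ s) = m)
    (hV : finrank K V = 3 * m) (hiso : ∀ s, ∀ x ∈ κ s, ∀ y ∈ κ s, B x y = 0) :
    ∃ X : End K V, X ≠ 0 ∧ (∀ v w, B (X v) w = - B v (X w)) ∧ ∀ s, ∀ x ∈ κ s, X x ∈ κ s := by
  have hp : ∀ s t, s ≠ t → ∀ y ∈ κ s, (∀ x ∈ κ t, B x y = 0) → y = 0 := by
    intro s t hst y hy hxy
    exact perfect hB h harm (by omega) hdim hV hst hy fun x hx => by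
      rw [hB.symm]; exact hxy x hx
  obtain ⟨X, hX0, hXs, h0, h1, h2⟩ := exists_skew_three hB (P := κ 0) (Q := κ 1) (R := κ 2) hm
    (hdim 0) (hdim 1) (hdim 2) hV (hiso 0) (hiso 1) (hiso 2)
    (hp 1 0 (by decide)) (hp 2 0 (by decide)) (hp 2 1 (by decide)) (by
      intro x hx y hy z hz hxyz
      have hmem : ∀ s, (![x, y, z] : Fin 3 → V) s ∈ κ s := by
        intro s
        fin_cases s
        · exact hx
        · exact hy
        · exact hz
      have hall := indep hB h harm (by omega) hdim hV hmem (by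
        rw [Fin.sum_univ_three]; exact hxyz)
      exact ⟨hall 0, hall 1, hall 2⟩)
  refine ⟨X, hX0, hXs, fun s => ?_⟩
  fin_cases s
  · exact h0
  · exact h1
  · exact h2

end pos

section Final

variable [FiniteDimensional K V]

/-- **Step (4) of 13814.** -/
theorem exists_skew_final [CharZero K] (hB : NS B) (Φ : Fin 3 → End K V)
    (hΦ : ∀ s v w, B (Φ s v) w = B v (Φ s w)) (l : Fin 3 → ℕ) (h1 : ∀ s, 1 ≤ l s)
    (hsum : ∑ s, (1 - 1 / (l s : ℚ)) = 2) (hl : ∀ s, Φ s ^ l s = 0)
    (hfree : ∀ s, l s * finrank K (ker (Φ s)) = finrank K V) (hpos : 0 < finrank K V)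
    (h333 : (∀ s, l s = 3) → 3 < finrank K V ∧
      Gen B (fun i : Fin 3 => i) (fun s => range (Φ s ^ 2))) :
    ∃ X : End K V, X ≠ 0 ∧ (∀ v w, B (X v) w = - B v (X w)) ∧
      ∀ (s : Fin 3) (j : ℕ), ∀ x ∈ range (Φ s ^ j), X x ∈ range (Φ s ^ j) := by
  by_cases hc : ∀ s, l s = 3
  · obtain ⟨hm, hgen⟩ := h333 hc
    have hker : ∀ s, finrank K (range (Φ s ^ 2)) = finrank K V / 3 := by
      intro s
      have e1 := ker_eq_range (hl s) (hfree s) (v := 1) (by rw [hc]; omega)
      rw [hc, pow_one] at e1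
      have e2 := hfree s
      rw [hc, e1] at e2
      have : (3 - 1 : ℕ) = 2 := rfl
      rw [this] at e2
      omega
    have h3 : finrank K V = 3 * (finrank K V / 3) := by
      have e2 := hfree 0
      rw [hc] at e2
      omega
    have hpow : ∀ s (j : ℕ) (a b : V), B ((Φ s ^ j) a) b = B a ((Φ s ^ j) b) := by
      intro s j
      induction j with
      | zero => intro a b; rfl
      | succ j ih =>
        intro a b
        rw [pow_succ, Module.End.mul_apply, ih, hΦ, ← Module.End.mul_apply, ← pow_succ', pow_succ]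
    have hbig : ∀ s n, 3 ≤ n → Φ s ^ n = 0 := fun s n hn => by
      have := hl s
      rw [hc] at this
      rw [← Nat.sub_add_cancel hn, pow_add, this, mul_zero]
    obtain ⟨X, hX0, hXs, hX⟩ := exists_skew_gen hB hgen (fun _ => rfl)
      (m := finrank K V / 3) (by omega) hker h3 (by
        rintro s _ ⟨a, rfl⟩ _ ⟨b, rfl⟩
        rw [hpow, ← Module.End.mul_apply, ← pow_add, hbig s _ (by norm_num)]
        simp)
    refine ⟨X, hX0, hXs, ?_⟩
    intro s j x hx
    rcases Nat.lt_or_ge j 3 with hj | hj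
    · interval_cases j
      · rw [pow_zero]; exact ⟨X x, rfl⟩
      · -- `range Φ = (range Φ²)^⊥`
        rw [pow_one] at hx ⊢
        have := range_eq_orth hB (hΦ s) 1 (y := X x) (by
          intro z hz
          have e1 := ker_eq_range (hl s) (hfree s) (v := 1) (by rw [hc]; omega)
          rw [hc] at e1
          rw [e1] at hz
          have hz' : z ∈ range (Φ s ^ 2) := hz
          have h4 := hX s z hz'
          obtain ⟨x', rfl⟩ := hx
          obtain ⟨z', hz'⟩ := h4
          have h5 : B (X z) (Φ s x') = 0 := by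
            rw [← hz', hpow, ← Module.End.mul_apply, ← pow_succ, hbig s _ (by norm_num)]
            simp
          rw [hXs] at h5
          exact neg_eq_zero.1 h5)
        rwa [pow_one] at this
      · exact hX s x hx
    · obtain ⟨x', rfl⟩ := hx
      rw [hbig s j hj]
      simp
  · push Not at hc
    exact exists_skew_tame hB Φ hΦ l h1 hsum hl hfree hpos hc

end Final

end Crest.Agent.R172.TC
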