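import Crest.Agent.R172.TameEnd2

/-!
Row 172, ending of the tame case, part 3: three flags of type `(m, 2m, 3m)`, `m ≥ 2`, in ARBITRARY
position have a common non-scalar endomorphism.
-/

set_option autoImplicit false

namespace Crest.Agent.R172.TE

open Module LinearMap

variable {K : Type*} [Field K]
variable {V : Type*} [AddCommGroup V] [Module K V]

/-- endomorphisms preserving a flag -/
def stab (P P' : Submodule K V) : Submodule K (End K V) where
  carrier := {B | (∀ x ∈ P, B x ∈ P) ∧ ∀ x ∈ P', B x ∈ P'}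
  add_mem' := by
    rintro a b ⟨ha, ha'⟩ ⟨hb, hb'⟩
    exact ⟨fun x hx => P.add_mem (ha x hx) (hb x hx), fun x hx => P'.add_mem (ha' x hx) (hb' x hx)⟩
  zero_mem' := ⟨fun x _ => P.zero_mem, fun x _ => P'.zero_mem⟩
  smul_mem' := by
    rintro c a ⟨ha, ha'⟩
    exact ⟨fun x hx => P.smul_mem c (ha x hx), fun x hx => P'.smul_mem c (ha' x hx)⟩

variable [FiniteDimensional K V]

/-- **(E1)** -/
theorem any_flags [Infinite K] {P P' : Fin 3 → Submodule K V} {m : ℕ} (hm : 2 ≤ m)
    (hV : finrank K V = 3 * m) (hP : ∀ s, finrank K (P s) = m)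
    (hP' : ∀ s, finrank K (P' s) = 2 * m) (hle : ∀ s, P s ≤ P' s) :
    ∃ A : End K V, (∀ c : K, A ≠ c • 1) ∧ ∀ s, (∀ x ∈ P s, A x ∈ P s) ∧
      ∀ x ∈ P' s, A x ∈ P' s := by
  classical
  by_contra hcon
  -- a vector and a functional
  have hVpos : 0 < finrank K V := by omega
  obtain ⟨v, hv⟩ : ∃ v : V, v ≠ 0 := by
    have : Nontrivial V := Module.nontrivial_of_finrank_pos hVpos
    exact exists_ne 0
  obtain ⟨f, hf⟩ : ∃ f : Module.Dual K V, f v = 1 := by
    have h1 : ∃ f : Module.Dual K V, f v ≠ 0 := by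
      by_contra hno
      push Not at hno
      exact hv ((Module.forall_dual_apply_eq_zero_iff K _).1 hno)
    obtain ⟨f, hf⟩ := h1
    exact ⟨(f v)⁻¹ • f, by simp [hf]⟩
  -- the path
  have he0 : ∃ e : V ≃ₗ[K] V0 K m, True :=
    ⟨LinearEquiv.ofFinrankEq _ _ (by rw [hV, finrank_V0]), trivial⟩
  obtain ⟨e, -⟩ := he0
  have hes := fun s => exists_iso hV (hP s) (hP' s) (hle s) (finrank_V0 K m) (finrank_R K m s)
    (finrank_R' K m s) (R_le K m s)
  choose E hE hE' using hes
  let h : Fin 3 → End K V := fun s => (e.symm : V0 K m →ₗ[K] V) ∘ₗ (E s : V →ₗ[K] V0 K m)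
  have hh : ∀ s x, h s x = e.symm (E s x) := fun s x => rfl
  have hER : ∀ s, ∀ x ∈ P s, E s x ∈ R K m s := by
    intro s x hx
    rw [← hE s]
    exact ⟨x, hx, rfl⟩
  have hER' : ∀ s, ∀ x ∈ P' s, E s x ∈ R' K m s := by
    intro s x hx
    rw [← hE' s]
    exact ⟨x, hx, rfl⟩
  let g : Fin 3 → K → End K V := fun s t => 1 + t • (h s - 1)
  have hg : ∀ s t x, g s t x = x + t • (h s x - x) := fun s t x => rfl
  have hg1 : ∀ s x, g s 1 x = e.symm (E s x) := by
    intro s x
    rw [hg, one_smul, hh]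
    abel
  -- (a)
  have fa : ∀ s, {t : K | ¬ Function.Injective (g s t)}.Finite := by
    intro s
    refine pencil (1 : End K V) (h s - 1) (t0 := 0) ?_
    intro x y hxy
    simpa using hxy
  -- (b)
  have fb : ∀ s r, s ≠ r → {t : K | ¬ ∀ x ∈ P' s, ∀ y ∈ P r, g s t x + g r t y = 0 →
      x = 0 ∧ y = 0}.Finite := by
    intro s r hsr
    let α : (P' s × P r) →ₗ[K] V := LinearMap.coprod (P' s).subtype (P r).subtype
    let β : (P' s × P r) →ₗ[K] V :=
      LinearMap.coprod ((h s - 1) ∘ₗ (P' s).subtype) ((h r - 1) ∘ₗ (P r).subtype)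
    have hαβ : ∀ (t : K) (x : P' s) (y : P r), (α + t • β) (x, y) = g s t x + g r t y := by
      intro t x y
      simp only [α, β, LinearMap.add_apply, LinearMap.smul_apply, LinearMap.coprod_apply,
        Submodule.subtype_apply, LinearMap.comp_apply, LinearMap.sub_apply, Module.End.one_apply,
        hg, smul_add]
      abel
    have hinj : Function.Injective (α + (1 : K) • β) := by
      rw [← LinearMap.ker_eq_bot, LinearMap.ker_eq_bot']
      rintro ⟨x, y⟩ hxy
      rw [hαβ, hg1, hg1, ← map_add] at hxy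
      have h1 : E s x + E r y = 0 := by
        have := congrArg e hxy
        rwa [LinearEquiv.apply_symm_apply, map_zero] at this
      have h2 : E s (x : V) = 0 := by
        refine R_disj K m s r hsr (hER' s x x.2) ?_
        rw [eq_neg_of_add_eq_zero_left h1]
        exact (R K m r).neg_mem (hER r y y.2)
      have h3 : E r (y : V) = 0 := by rwa [h2, zero_add] at h1
      have h4 : (x : V) = 0 := by simpa using h2
      have h5 : (y : V) = 0 := by simpa using h3
      exact Prod.ext (Subtype.ext h4) (Subtype.ext h5)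
    refine (pencil α β (t0 := 1) hinj).subset ?_
    intro t ht
    simp only [Set.mem_ofPred_eq] at ht ⊢
    intro hi
    apply ht
    intro x hx y hy hxy
    have h1 : (α + t • β) (⟨x, hx⟩, ⟨y, hy⟩) = (α + t • β) 0 := by
      rw [hαβ, map_zero]; exact hxy
    have h2 := hi h1
    exact ⟨congrArg Subtype.val (Prod.ext_iff.1 h2).1, congrArg Subtype.val (Prod.ext_iff.1 h2).2⟩
  -- (c)
  have fc : {t : K | ¬ ∀ x ∈ P 0, ∀ y ∈ P 1, ∀ z ∈ P 2, g 0 t x + g 1 t y + g 2 t z = 0 →
      x = 0 ∧ y = 0 ∧ z = 0}.Finite := by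
    let α : (P 0 × P 1 × P 2) →ₗ[K] V :=
      LinearMap.coprod (P 0).subtype (LinearMap.coprod (P 1).subtype (P 2).subtype)
    let β : (P 0 × P 1 × P 2) →ₗ[K] V :=
      LinearMap.coprod ((h 0 - 1) ∘ₗ (P 0).subtype)
        (LinearMap.coprod ((h 1 - 1) ∘ₗ (P 1).subtype) ((h 2 - 1) ∘ₗ (P 2).subtype))
    have hαβ : ∀ (t : K) (x : P 0) (y : P 1) (z : P 2),
        (α + t • β) (x, y, z) = g 0 t x + g 1 t y + g 2 t z := by
      intro t x y z
      simp only [α, β, LinearMap.add_apply, LinearMap.smul_apply, LinearMap.coprod_apply,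
        Submodule.subtype_apply, LinearMap.comp_apply, LinearMap.sub_apply, Module.End.one_apply,
        hg, smul_add]
      abel
    have hinj : Function.Injective (α + (1 : K) • β) := by
      rw [← LinearMap.ker_eq_bot, LinearMap.ker_eq_bot']
      rintro ⟨x, y, z⟩ hxy
      rw [hαβ, hg1, hg1, hg1, ← map_add, ← map_add] at hxy
      have h1 : E 0 x + E 1 y + E 2 z = 0 := by
        have := congrArg e hxy
        rwa [LinearEquiv.apply_symm_apply, map_zero] at this
      obtain ⟨h2, h3, h4⟩ := R_ind K m _ (hER 0 x x.2) _ (hER 1 y y.2) _ (hER 2 z z.2) h1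
      have h2' : (x : V) = 0 := by simpa using h2
      have h3' : (y : V) = 0 := by simpa using h3
      have h4' : (z : V) = 0 := by simpa using h4
      exact Prod.ext (Subtype.ext h2') (Prod.ext (Subtype.ext h3') (Subtype.ext h4'))
    refine (pencil α β (t0 := 1) hinj).subset ?_
    intro t ht
    simp only [Set.mem_ofPred_eq] at ht ⊢
    intro hi
    apply ht
    intro x hx y hy z hz hxy
    have h1 : (α + t • β) (⟨x, hx⟩, ⟨y, hy⟩, ⟨z, hz⟩) = (α + t • β) 0 := by
      rw [hαβ, map_zero]; exact hxy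
    have h2 := hi h1
    have h3 := Prod.ext_iff.1 (Prod.ext_iff.1 h2).2
    exact ⟨congrArg Subtype.val (Prod.ext_iff.1 h2).1, congrArg Subtype.val h3.1,
      congrArg Subtype.val h3.2⟩
  -- (d)
  have fd : {t : K | ¬ ∀ (A : End K V) (B : (s : Fin 3) → stab (P s) (P' s)),
      (∀ s, A * g s t = g s t * (B s : End K V)) → f (A v) = 0 → A = 0}.Finite := by
    let α : (End K V × ((s : Fin 3) → stab (P s) (P' s))) →ₗ[K] ((Fin 3 → End K V) × K) :=
      (LinearMap.pi fun s => LinearMap.fst K (End K V) ((s : Fin 3) → stab (P s) (P' s)) -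
        (stab (P s) (P' s)).subtype ∘ₗ LinearMap.proj s ∘ₗ
          LinearMap.snd K (End K V) ((s : Fin 3) → stab (P s) (P' s))).prod
        (f ∘ₗ (LinearMap.applyₗ v) ∘ₗ
          LinearMap.fst K (End K V) ((s : Fin 3) → stab (P s) (P' s)))
    let β : (End K V × ((s : Fin 3) → stab (P s) (P' s))) →ₗ[K] ((Fin 3 → End K V) × K) :=
      (LinearMap.pi fun s => (LinearMap.mulRight K (h s - 1)) ∘ₗ
          LinearMap.fst K (End K V) ((s : Fin 3) → stab (P s) (P' s)) -
        (LinearMap.mulLeft K (h s - 1)) ∘ₗ (stab (P s) (P' s)).subtype ∘ₗ LinearMap.proj s ∘ₗ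
          LinearMap.snd K (End K V) ((s : Fin 3) → stab (P s) (P' s))).prod 0
    have hinj : Function.Injective (α + (0 : K) • β) := by
      rw [zero_smul, add_zero, ← LinearMap.ker_eq_bot, LinearMap.ker_eq_bot']
      rintro ⟨A, B⟩ hAB
      have h1 : ∀ s, A = (B s : End K V) := fun s =>
        sub_eq_zero.1 (congrFun (Prod.ext_iff.1 hAB).1 s)
      have h2 : f (A v) = 0 := (Prod.ext_iff.1 hAB).2
      have h3 : ∃ c : K, A = c • 1 := by
        by_contra hno
        push Not at hno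
        apply hcon
        refine ⟨A, hno, fun s => ?_⟩
        rw [h1 s]
        exact (B s).2
      obtain ⟨c, hc⟩ := h3
      have h4 : c = 0 := by
        rw [hc] at h2
        simpa [hf] using h2
      have h5 : A = 0 := by rw [hc, h4, zero_smul]
      refine Prod.ext h5 (funext fun s => Subtype.ext ?_)
      rw [← h1 s, h5]
      rfl
    refine (pencil α β (t0 := 0) hinj).subset ?_
    intro t ht
    simp only [Set.mem_ofPred_eq] at ht ⊢
    intro hi
    apply ht
    intro A B hAB hA0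
    have h1 : (α + t • β) (A, B) = (α + t • β) 0 := by
      rw [map_zero]
      refine Prod.ext (funext fun s => ?_) ?_
      · change (A - (B s : End K V)) + t • (A * (h s - 1) - (h s - 1) * (B s : End K V)) = 0
        have h2 := hAB s
        simp only [g] at h2
        rw [mul_add, add_mul, mul_one, one_mul, mul_smul_comm, smul_mul_assoc] at h2
        rw [smul_sub]
        have h3 : A + t • (A * (h s - 1)) - ((B s : End K V) + t • ((h s - 1) * (B s : End K V))) = 0 :=
          sub_eq_zero.2 h2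
        rw [← h3]
        abel
      · change f (A v) + t • (0 : K) = 0
        rw [hA0, smul_zero, add_zero]
    exact (Prod.ext_iff.1 (hi h1)).1
  -- choose `t`
  have hfin : ((⋃ s, {t : K | ¬ Function.Injective (g s t)}) ∪
      (⋃ s, ⋃ r, ⋃ (_ : s ≠ r), {t : K | ¬ ∀ x ∈ P' s, ∀ y ∈ P r, g s t x + g r t y = 0 →
        x = 0 ∧ y = 0}) ∪
      {t : K | ¬ ∀ x ∈ P 0, ∀ y ∈ P 1, ∀ z ∈ P 2, g 0 t x + g 1 t y + g 2 t z = 0 →
        x = 0 ∧ y = 0 ∧ z = 0} ∪
      {t : K | ¬ ∀ (A : End K V) (B : (s : Fin 3) → stab (P s) (P' s)),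
        (∀ s, A * g s t = g s t * (B s : End K V)) → f (A v) = 0 → A = 0}).Finite := by
    refine Set.Finite.union (Set.Finite.union (Set.Finite.union ?_ ?_) fc) fd
    · exact Set.finite_iUnion fa
    · exact Set.finite_iUnion fun s => Set.finite_iUnion fun r => Set.finite_iUnion fun hsr =>
        fb s r hsr
  obtain ⟨t, ht⟩ := hfin.exists_notMem
  simp only [Set.mem_union, Set.mem_iUnion, Set.mem_ofPred_eq, not_or, not_exists, not_not] at ht
  obtain ⟨⟨⟨ta, tb⟩, tc⟩, td⟩ := ht
  have hmapfin : ∀ s (W : Submodule K V), finrank K (W.map (g s t)) = finrank K W := fun s W =>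
    (Submodule.equivMapOfInjective (g s t) (ta s) W).finrank_eq.symm
  obtain ⟨A, hA, hAQ⟩ := good (Q := fun s => (P s).map (g s t)) (Q' := fun s => (P' s).map (g s t))
    hm hV (fun s => by rw [hmapfin, hP]) (fun s => by rw [hmapfin, hP'])
    (fun s => Submodule.map_mono (hle s)) (by
      intro s r hsr
      rw [eq_bot_iff]
      rintro _ ⟨⟨x, hx, rfl⟩, ⟨y, hy, hxy⟩⟩
      have h1 := tb s r hsr x hx (-y) ((P r).neg_mem hy) (by rw [map_neg, hxy]; abel)
      rw [h1.1, map_zero]
      exact Submodule.zero_mem _) (by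
      rintro _ ⟨x, hx, rfl⟩ _ ⟨y, hy, rfl⟩ _ ⟨z, hz, rfl⟩ hxyz
      obtain ⟨h1, h2, h3⟩ := tc x hx y hy z hz hxyz
      rw [h1, h2, h3]
      simp)
  -- normalise
  let A' : End K V := A - (f (A v)) • 1
  have hA'0 : A' ≠ 0 := fun h0 => hA _ (sub_eq_zero.1 h0)
  have hA'v : f (A' v) = 0 := by
    simp [A', hf]
  have hA'Q : ∀ s, (∀ x ∈ (P s).map (g s t), A' x ∈ (P s).map (g s t)) ∧
      ∀ x ∈ (P' s).map (g s t), A' x ∈ (P' s).map (g s t) := by
    intro s
    refine ⟨fun x hx => ?_, fun x hx => ?_⟩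
    · exact Submodule.sub_mem _ ((hAQ s).1 x hx) (Submodule.smul_mem _ _ hx)
    · exact Submodule.sub_mem _ ((hAQ s).2 x hx) (Submodule.smul_mem _ _ hx)
  let G : Fin 3 → (V ≃ₗ[K] V) := fun s => LinearEquiv.ofInjectiveEndo (g s t) (ta s)
  have hG : ∀ s x, G s x = g s t x := fun s x => rfl
  let B : (s : Fin 3) → stab (P s) (P' s) := fun s =>
    ⟨(G s).symm.toLinearMap ∘ₗ A' ∘ₗ (G s).toLinearMap, by
      refine ⟨fun x hx => ?_, fun x hx => ?_⟩
      · obtain ⟨x', hx', h1⟩ := (hA'Q s).1 (g s t x) ⟨x, hx, rfl⟩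
        change (G s).symm (A' (G s x)) ∈ P s
        rw [hG, ← h1, ← hG, LinearEquiv.symm_apply_apply]
        exact hx'
      · obtain ⟨x', hx', h1⟩ := (hA'Q s).2 (g s t x) ⟨x, hx, rfl⟩
        change (G s).symm (A' (G s x)) ∈ P' s
        rw [hG, ← h1, ← hG, LinearEquiv.symm_apply_apply]
        exact hx'⟩
  apply hA'0
  refine td A' B ?_ hA'v
  intro s
  apply LinearMap.ext
  intro x
  change A' (g s t x) = g s t ((G s).symm (A' (G s x)))
  rw [← hG s ((G s).symm _), LinearEquiv.apply_symm_apply, hG]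

end Crest.Agent.R172.TE
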