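import Crest.Agent.R172.TameEnd3
import Crest.Agent.R172.TameCount4

/-!
Row 172, ending of the tame case, part 4: free nilpotent operators of type `(3,3,3)`.
-/

set_option autoImplicit false

namespace Crest.Agent.R172.TE

open Module LinearMap

variable {K : Type*} [Field K]
variable {V : Type*} [AddCommGroup V] [Module K V] [FiniteDimensional K V]

/-- operators preserving all `range (Φ_s^j)`, type `(3,3,3)` -/
theorem exists_nonscalar_333 [Infinite K] (Φ : Fin 3 → End K V) (h3 : ∀ s, Φ s ^ 3 = 0)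
    (hfree : ∀ s, 3 * finrank K (ker (Φ s)) = finrank K V) (hV : 3 < finrank K V) :
    ∃ A : End K V, (∀ c : K, A ≠ c • 1) ∧
      ∀ (s : Fin 3) (j : ℕ), ∀ x ∈ range (Φ s ^ j), A x ∈ range (Φ s ^ j) := by
  have e1 : ∀ s, finrank K (range (Φ s ^ 2)) = finrank K V / 3 := by
    intro s
    have e1 := TC.ker_eq_range (h3 s) (hfree s) (v := 1) (by omega)
    rw [pow_one] at e1
    have e2 := hfree s
    rw [e1] at e2
    have : (3 - 1 : ℕ) = 2 := rfl
    rw [this] at e2
    omega
  have e2 : ∀ s, finrank K (range (Φ s)) = 2 * (finrank K V / 3) := by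
    intro s
    have e1 := LinearMap.finrank_range_add_finrank_ker (Φ s)
    have e2 := hfree s
    omega
  have e3 : finrank K V = 3 * (finrank K V / 3) := by
    have := hfree 0
    omega
  have hle : ∀ s, range (Φ s ^ 2) ≤ range (Φ s) := by
    rintro s _ ⟨x, rfl⟩
    exact ⟨Φ s x, by rw [pow_two]; rfl⟩
  obtain ⟨A, hA, hAs⟩ := any_flags (P := fun s => range (Φ s ^ 2)) (P' := fun s => range (Φ s))
    (m := finrank K V / 3) (by omega) e3 e1 e2 hle
  refine ⟨A, hA, fun s j x hx => ?_⟩
  rcases Nat.lt_or_ge j 3 with hj | hj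
  · interval_cases j
    · rw [pow_zero]; exact ⟨A x, rfl⟩
    · rw [pow_one] at hx ⊢
      exact (hAs s).2 x hx
    · exact (hAs s).1 x hx
  · have h0 : Φ s ^ j = 0 := by rw [← Nat.sub_add_cancel hj, pow_add, h3, mul_zero]
    obtain ⟨x', rfl⟩ := hx
    rw [h0]
    simp

/-- a nondegenerate skew form lives in even dimension -/
theorem even_of_skew (h2 : (2 : K) ≠ 0) {B : LinearMap.BilinForm K V}
    (hs : ∀ v w, B v w = - B w v) (hn : ∀ v, (∀ w, B v w = 0) → v = 0) :
    Even (finrank K V) := by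
  classical
  let b := Module.finBasis K V
  let M := LinearMap.BilinForm.toMatrix b B
  have hnd : B.Nondegenerate := by
    refine ⟨fun v hv => hn v hv, fun v hv => hn v fun w => ?_⟩
    rw [hs, hv w, neg_zero]
  have hdet : M.det ≠ 0 := (LinearMap.BilinForm.nondegenerate_iff_det_ne_zero b).1 hnd
  have hM : M.transpose = -M := by
    ext i j
    rw [Matrix.transpose_apply, Matrix.neg_apply]
    have h1 : ∀ i j, M i j = B (b i) (b j) := fun i j =>
      LinearMap.BilinForm.toMatrix_apply b B i j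
    rw [h1, h1]
    exact hs _ _
  have h1 : M.det = (-1) ^ (finrank K V) * M.det := by
    have := congrArg Matrix.det hM
    rw [Matrix.det_transpose, Matrix.det_neg, Fintype.card_fin] at this
    exact this
  have h3 : ((-1 : K)) ^ (finrank K V) = 1 := by
    have h4 : ((-1 : K) ^ (finrank K V) - 1) * M.det = 0 := by linear_combination -h1
    rcases mul_eq_zero.1 h4 with h | h
    · exact sub_eq_zero.1 h
    · exact absurd h hdet
  by_contra hodd
  rw [Nat.not_even_iff_odd] at hodd
  rw [hodd.neg_one_pow] at h3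
  apply h2
  linear_combination -h3

/-- **(E2)**: a symplectic tame core of type `(3,3,3)`. -/
theorem exists_nonscalar_symplectic [Infinite K] (h2 : (2 : K) ≠ 0) {B : LinearMap.BilinForm K V}
    (hs : ∀ v w, B v w = - B w v) (hn : ∀ v, (∀ w, B v w = 0) → v = 0)
    (Φ : Fin 3 → End K V) (h3 : ∀ s, Φ s ^ 3 = 0)
    (hfree : ∀ s, 3 * finrank K (ker (Φ s)) = finrank K V) (hV : 0 < finrank K V) :
    ∃ A : End K V, (∀ c : K, A ≠ c • 1) ∧
      ∀ (s : Fin 3) (j : ℕ), ∀ x ∈ range (Φ s ^ j), A x ∈ range (Φ s ^ j) := by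
  refine exists_nonscalar_333 Φ h3 hfree ?_
  obtain ⟨k, hk⟩ := even_of_skew h2 hs hn
  have := hfree 0
  omega

end Crest.Agent.R172.TE
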