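import Crest.Agent.R172.Core2
import Crest.Agent.R172.St1

/-!
Row 172 (S0260), tame exclusion, step (3) of note 13814 (helper721), abstract form for one arm.

`Φ` self-adjoint with `Φ ^ (k+1) = 0` and `V` free over `K[Φ]/Φ^(k+1)` (`ker Φ^k ⊆ im Φ`).

* `exists_trans`: self-adjoint operators commuting with `Φ` act transitively on vectors of a given
  depth;
* `depth`: if every such operator maps `f` into `C`, then `f ∈ im Φ^c ⊆ C` for some `c`;
* `preserve`: an operator preserving all `im Φ^v` maps `f` into `C`;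
* `member`: every `im Φ^v`, `1 ≤ v ≤ k`, is one of the `C d`.
-/

set_option autoImplicit false

namespace Crest.Agent.R172.TM

open Module Crest.Agent.R172.St Crest.Agent.R172.Core

variable {K : Type*} [Field K] {V : Type*} [AddCommGroup V] [Module K V]
variable {B : LinearMap.BilinForm K V} {Φ : End K V} {k : ℕ}

/-- `T_{a,b} x = Σ_{i ≤ k} B(Φ^{k-i} x, a) Φ^i b`. -/
noncomputable def Tab (B : LinearMap.BilinForm K V) (Φ : End K V) (k : ℕ) (a b : V) : End K V :=
  ∑ i ∈ Finset.range (k + 1), LinearMap.smulRight ((B.flip a) ∘ₗ (Φ ^ (k - i))) ((Φ ^ i) b)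

theorem Tab_apply (a b x : V) :
    Tab B Φ k a b x = ∑ i ∈ Finset.range (k + 1), B ((Φ ^ (k - i)) x) a • (Φ ^ i) b := by
  simp [Tab, LinearMap.sum_apply]

theorem Sa.pow {f : End K V} (hf : Sa B f) (j : ℕ) : Sa B (f ^ j) := by
  induction j with
  | zero => intro u v; simp
  | succ j ih =>
    intro u v
    rw [pow_succ, Module.End.mul_apply, ih, hf, ← Module.End.mul_apply, ← pow_succ', pow_succ]

theorem Tab_comm (hk : Φ ^ (k + 1) = 0) (a b x : V) :
    Tab B Φ k a b (Φ x) = Φ (Tab B Φ k a b x) := by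
  rw [Tab_apply, Tab_apply, map_sum, Finset.sum_range_succ', Finset.sum_range_succ]
  have h1 : (Φ ^ (k - 0)) (Φ x) = 0 := by
    rw [Nat.sub_zero, ← Module.End.mul_apply, ← pow_succ, hk, LinearMap.zero_apply]
  have h2 : Φ ((Φ ^ k) b) = 0 := by
    rw [← Module.End.mul_apply, ← pow_succ', hk, LinearMap.zero_apply]
  rw [h1, map_zero, LinearMap.zero_apply, zero_smul, add_zero, map_smul, h2, smul_zero, add_zero]
  refine Finset.sum_congr rfl fun i hi => ?_
  rw [Finset.mem_range] at hi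
  rw [map_smul, ← Module.End.mul_apply, ← pow_succ, ← Module.End.mul_apply, ← pow_succ',
    show k - (i + 1) + 1 = k - i by omega]

theorem Tab_adj (hB : NS B) (hΦ : Sa B Φ) (a b x y : V) :
    B (Tab B Φ k a b x) y = B x (Tab B Φ k b a y) := by
  rw [Tab_apply, Tab_apply, map_sum, map_sum, LinearMap.sum_apply]
  rw [← Finset.sum_flip]
  refine Finset.sum_congr rfl fun i hi => ?_
  rw [Finset.mem_range] at hi
  have hi' : k - (k - i) = i := by omega
  rw [hi', map_smul, map_smul, LinearMap.smul_apply, smul_eq_mul, smul_eq_mul,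
    Sa.pow hΦ (k - i) b y, hB.symm b, Sa.pow hΦ i x a, mul_comm]

theorem Tab_shift (hk : Φ ^ (k + 1) = 0) (hΦ : Sa B Φ) (a b : V) :
    Tab B Φ k (Φ a) b = Tab B Φ k a (Φ b) := by
  ext x
  have h1 : Tab B Φ k (Φ a) b x = Tab B Φ k a b (Φ x) := by
    rw [Tab_apply, Tab_apply]
    refine Finset.sum_congr rfl fun i _ => ?_
    rw [← hΦ, ← Module.End.mul_apply, ← Module.End.mul_apply, ← pow_succ, ← pow_succ']
  have h2 : Tab B Φ k a (Φ b) x = Φ (Tab B Φ k a b x) := by
    rw [Tab_apply, Tab_apply, map_sum]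
    refine Finset.sum_congr rfl fun i _ => ?_
    rw [map_smul, ← Module.End.mul_apply, ← Module.End.mul_apply, ← pow_succ, ← pow_succ']
  rw [h1, h2, Tab_comm hk]

theorem Tab_shift_pow (hk : Φ ^ (k + 1) = 0) (hΦ : Sa B Φ) (a b : V) (j : ℕ) :
    Tab B Φ k ((Φ ^ j) a) b = Tab B Φ k a ((Φ ^ j) b) := by
  induction j generalizing b with
  | zero => simp
  | succ j ih =>
    rw [pow_succ', Module.End.mul_apply, Tab_shift hk hΦ, ih, ← Module.End.mul_apply,
      ← pow_succ, pow_succ']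

theorem Tab_sum_left {ι : Type*} (s : Finset ι) (c : ι → K) (u : ι → V) (b : V) :
    Tab B Φ k (∑ j ∈ s, c j • u j) b = ∑ j ∈ s, c j • Tab B Φ k (u j) b := by
  ext x
  rw [Tab_apply, LinearMap.sum_apply]
  simp only [LinearMap.smul_apply, Tab_apply, map_sum, map_smul, smul_eq_mul, Finset.sum_smul,
    Finset.smul_sum, mul_smul]
  rw [Finset.sum_comm]

theorem Tab_sum_right {ι : Type*} (s : Finset ι) (c : ι → K) (u : ι → V) (a : V) :
    Tab B Φ k a (∑ j ∈ s, c j • u j) = ∑ j ∈ s, c j • Tab B Φ k a (u j) := by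
  ext x
  rw [Tab_apply, LinearMap.sum_apply]
  simp only [LinearMap.smul_apply, Tab_apply, map_sum, map_smul, Finset.smul_sum]
  rw [Finset.sum_comm]
  refine Finset.sum_congr rfl fun j _ => Finset.sum_congr rfl fun i _ => ?_
  rw [smul_comm]

/-- the symmetric term -/
theorem Tab_self (hk : Φ ^ (k + 1) = 0) (hΦ : Sa B Φ) (a y w : V) :
    Tab B Φ k (Tab B Φ k y a w) a = Tab B Φ k a (Tab B Φ k y a w) := by
  rw [Tab_apply, Tab_sum_left, Tab_sum_right]
  refine Finset.sum_congr rfl fun i _ => ?_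
  rw [Tab_shift_pow hk hΦ]

/-- a vector dual to `w`. -/
theorem exists_dual (hB : NS B) (hΦ : Sa B Φ) (hk : Φ ^ (k + 1) = 0) {w : V}
    (hw : (Φ ^ k) w ≠ 0) : ∃ a : V, B ((Φ ^ k) w) a = 1 ∧ ∀ j < k, B ((Φ ^ j) w) a = 0 := by
  have hbig : ∀ j, k < j → (Φ ^ j) w = 0 := by
    intro j hj
    obtain ⟨r, rfl⟩ := Nat.exists_eq_add_of_lt hj
    rw [show k + r + 1 = r + (k + 1) by ring, pow_add, hk, mul_zero, LinearMap.zero_apply]
  have key : ∀ m ≤ k, ∃ a : V, B ((Φ ^ k) w) a = 1 ∧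
      ∀ j, k - m ≤ j → j < k → B ((Φ ^ j) w) a = 0 := by
    intro m
    induction m with
    | zero =>
      intro _
      have : ∃ a, B ((Φ ^ k) w) a ≠ 0 := by
        by_contra h
        push Not at h
        exact hw (hB.nd _ h)
      obtain ⟨a, ha⟩ := this
      refine ⟨(B ((Φ ^ k) w) a)⁻¹ • a, ?_, fun j h1 h2 => by omega⟩
      rw [map_smul, smul_eq_mul, inv_mul_cancel₀ ha]
    | succ m ih =>
      intro hm
      obtain ⟨a, ha1, ha0⟩ := ih (by omega)
      set c := B ((Φ ^ (k - (m + 1))) w) a with hc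
      have hev : ∀ j, B ((Φ ^ j) w) (a - c • (Φ ^ (m + 1)) a) =
          B ((Φ ^ j) w) a - c * B ((Φ ^ (m + 1 + j)) w) a := by
        intro j
        rw [map_sub, map_smul, smul_eq_mul, ← Sa.pow hΦ (m + 1), ← Module.End.mul_apply,
          ← pow_add]
      refine ⟨a - c • (Φ ^ (m + 1)) a, ?_, ?_⟩
      · rw [hev, hbig (m + 1 + k) (by omega), ha1, map_zero, LinearMap.zero_apply, mul_zero,
          sub_zero]
      · intro j h1 h2
        rw [hev]
        rcases Nat.lt_or_ge j (k - m) with h3 | h3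
        · have h4 : j = k - (m + 1) := by omega
          subst h4
          rw [show m + 1 + (k - (m + 1)) = k by omega, ha1, ← hc, mul_one, sub_self]
        · rw [ha0 j h3 h2, hbig (m + 1 + j) (by omega), map_zero, LinearMap.zero_apply,
            mul_zero, sub_zero]
  obtain ⟨a, ha1, ha0⟩ := key k le_rfl
  exact ⟨a, ha1, fun j hj => ha0 j (by omega) hj⟩

theorem Tab_dual {w a : V} (h1 : B ((Φ ^ k) w) a = 1) (h0 : ∀ j < k, B ((Φ ^ j) w) a = 0)
    (b : V) : Tab B Φ k a b w = b := by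
  rw [Tab_apply, Finset.sum_range_succ']
  rw [Nat.sub_zero, h1, one_smul, pow_zero, Module.End.one_apply]
  rw [Finset.sum_eq_zero, zero_add]
  intro i hi
  rw [Finset.mem_range] at hi
  rw [h0 _ (by omega), zero_smul]

/-- transitivity on vectors of depth `0`. -/
theorem exists_trans0 (hB : NS B) (hΦ : Sa B Φ) (hk : Φ ^ (k + 1) = 0) {w : V}
    (hw : (Φ ^ k) w ≠ 0) (y : V) :
    ∃ D : End K V, Sa B D ∧ (∀ x, D (Φ x) = Φ (D x)) ∧ D w = y := by
  obtain ⟨a, h1, h0⟩ := exists_dual hB hΦ hk hw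
  refine ⟨Tab B Φ k a y + Tab B Φ k y a - Tab B Φ k a (Tab B Φ k y a w), ?_, ?_, ?_⟩
  · intro u v
    simp only [LinearMap.sub_apply, LinearMap.add_apply, map_sub, map_add]
    rw [Tab_adj hB hΦ a y, Tab_adj hB hΦ y a, Tab_adj hB hΦ a (Tab B Φ k y a w),
      Tab_self hk hΦ, add_comm]
  · intro x
    simp only [LinearMap.sub_apply, LinearMap.add_apply, map_sub, map_add, Tab_comm hk]
  · simp only [LinearMap.sub_apply, LinearMap.add_apply, Tab_dual h1 h0]
    abel

/-- **(3a)** transitivity on vectors of a given depth. -/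
theorem exists_trans (hB : NS B) (hΦ : Sa B Φ) (hk : Φ ^ (k + 1) = 0)
    (hfree : ∀ v, (Φ ^ k) v = 0 → ∃ z, Φ z = v) {c : ℕ} {w y : V}
    (hw : w ∈ LinearMap.range (Φ ^ c)) (hw' : w ∉ LinearMap.range (Φ ^ (c + 1)))
    (hy : y ∈ LinearMap.range (Φ ^ c)) :
    ∃ D : End K V, Sa B D ∧ (∀ x, D (Φ x) = Φ (D x)) ∧ D w = y := by
  obtain ⟨w0, rfl⟩ := hw
  obtain ⟨y0, rfl⟩ := hy
  have h : (Φ ^ k) w0 ≠ 0 := by
    intro h
    obtain ⟨z, rfl⟩ := hfree w0 h
    apply hw'
    exact ⟨z, by rw [pow_succ, Module.End.mul_apply]⟩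
  obtain ⟨D, hD1, hD2, hD3⟩ := exists_trans0 hB hΦ hk h y0
  refine ⟨D, hD1, hD2, ?_⟩
  have hpow : ∀ j x, D ((Φ ^ j) x) = (Φ ^ j) (D x) := by
    intro j
    induction j with
    | zero => intro x; simp
    | succ j ih => intro x; rw [pow_succ, Module.End.mul_apply, ih, hD2, Module.End.mul_apply]
  rw [hpow, hD3]

/-- **(3b)** depth: slack 0 for `f ∈ C` gives `f ∈ im Φ^c ⊆ C`, and `c` is the depth of `f`. -/
theorem depth (hB : NS B) (hΦ : Sa B Φ) (hk : Φ ^ (k + 1) = 0)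
    (hfree : ∀ v, (Φ ^ k) v = 0 → ∃ z, Φ z = v) {f : V} {C : Submodule K V}
    (hsl : ∀ D : End K V, Sa B D → (∀ x, D (Φ x) = Φ (D x)) → D f ∈ C) :
    ∃ c ≤ k + 1, f ∈ LinearMap.range (Φ ^ c) ∧ LinearMap.range (Φ ^ c) ≤ C ∧
      (f ∈ LinearMap.range (Φ ^ (c + 1)) → c = k + 1) := by
  classical
  by_cases h0 : f ∈ LinearMap.range (Φ ^ (k + 1))
  · exact ⟨k + 1, le_rfl, h0, by rw [hk]; rintro _ ⟨x, rfl⟩; exact C.zero_mem, fun _ => rfl⟩
  · have hex : ∃ c, f ∉ LinearMap.range (Φ ^ (c + 1)) := ⟨k, h0⟩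
    set c := Nat.find hex with hc
    have h1 : f ∉ LinearMap.range (Φ ^ (c + 1)) := Nat.find_spec hex
    have h2 : f ∈ LinearMap.range (Φ ^ c) := by
      rcases Nat.eq_zero_or_pos c with h | h
      · rw [h, pow_zero]; exact ⟨f, rfl⟩
      · have h3 := Nat.find_min hex (m := c - 1) (by omega)
        rw [not_not, show c - 1 + 1 = c by omega] at h3
        exact h3
    have h3 : c ≤ k := Nat.find_min' hex h0
    refine ⟨c, by omega, h2, ?_, fun h => absurd h h1⟩
    intro y hy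
    obtain ⟨D, hD1, hD2, rfl⟩ := exists_trans hB hΦ hk hfree h2 h1 hy
    exact hsl D hD1 hD2

/-- **(3b')** an operator preserving every `im Φ^v` maps `f` into `C`. -/
theorem preserve (hB : NS B) (hΦ : Sa B Φ) (hk : Φ ^ (k + 1) = 0)
    (hfree : ∀ v, (Φ ^ k) v = 0 → ∃ z, Φ z = v) {f : V} {C : Submodule K V}
    (hsl : ∀ D : End K V, Sa B D → (∀ x, D (Φ x) = Φ (D x)) → D f ∈ C)
    {X : End K V} (hX : ∀ v : ℕ, ∀ x ∈ LinearMap.range (Φ ^ v), X x ∈ LinearMap.range (Φ ^ v)) :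
    X f ∈ C := by
  obtain ⟨c, -, h1, h2, -⟩ := depth hB hΦ hk hfree hsl
  exact h2 (hX c f h1)

/-- orthogonal of `im Φ^c` -/
theorem mem_orth_range (hB : NS B) (hΦ : Sa B Φ) (c : ℕ) (x : V) :
    (∀ y ∈ LinearMap.range (Φ ^ c), B y x = 0) ↔ (Φ ^ c) x = 0 := by
  constructor
  · intro h
    apply hB.nd
    intro w
    rw [Sa.pow hΦ c, hB.symm]
    exact h _ ⟨w, rfl⟩
  · rintro h _ ⟨w, rfl⟩
    rw [Sa.pow hΦ c, h, map_zero]

/-- `ker Φ^c = im Φ^(k+1-c)` for free modules. -/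
theorem mem_range_of_ker
    (hfree : ∀ v, (Φ ^ k) v = 0 → ∃ z, Φ z = v) :
    ∀ (c : ℕ), c ≤ k + 1 → ∀ x, (Φ ^ c) x = 0 → x ∈ LinearMap.range (Φ ^ (k + 1 - c)) := by
  have key : ∀ m ≤ k + 1, ∀ x, (Φ ^ (k + 1 - m)) x = 0 → x ∈ LinearMap.range (Φ ^ m) := by
    intro m
    induction m with
    | zero => intro _ x _; rw [pow_zero]; exact ⟨x, rfl⟩
    | succ m ih =>
      intro hm x hx
      have h1 : x ∈ LinearMap.range (Φ ^ m) := by
        apply ih (by omega)
        rw [show k + 1 - m = (k + 1 - (m + 1)) + 1 by omega, pow_succ', Module.End.mul_apply, hx,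
          map_zero]
      obtain ⟨y, rfl⟩ := h1
      rw [← Module.End.mul_apply, ← pow_add, show k + 1 - (m + 1) + m = k by omega] at hx
      obtain ⟨z, rfl⟩ := hfree y hx
      exact ⟨z, by rw [pow_succ, Module.End.mul_apply]⟩
  intro c hc x hx
  apply key (k + 1 - c) (by omega)
  rwa [show k + 1 - (k + 1 - c) = c by omega]

/-- **(3c)** every `im Φ^v` with `1 ≤ v ≤ k` is one of the subspaces `C d`. -/
theorem member (hB : NS B) (hΦ : Sa B Φ) (hk : Φ ^ (k + 1) = 0)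
    (hfree : ∀ v, (Φ ^ k) v = 0 → ∃ z, Φ z = v) [Nontrivial V]
    {δ : Type*} (S : Finset δ) (σ : δ → δ) (hσ : ∀ d ∈ S, σ d ∈ S)
    (F : δ → V) (C : δ → Submodule K V)
    (hC : ∀ d ∈ S, ∀ x, x ∈ C d → ∀ y ∈ C (σ d), B y x = 0)
    (hF : ∀ x, Φ x = ∑ d ∈ S, B x (F (σ d)) • F d)
    (hsl : ∀ d ∈ S, ∀ D : End K V, Sa B D → (∀ x, D (Φ x) = Φ (D x)) → D (F d) ∈ C d)
    {v : ℕ} (hv1 : 1 ≤ v) (hvk : v ≤ k) :
    ∃ d ∈ S, C d = LinearMap.range (Φ ^ v) ∧ F d ∈ LinearMap.range (Φ ^ v) := by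
  classical
  choose! c hc1 hc2 hc3 _ using fun d (hd : d ∈ S) => depth hB hΦ hk hfree (hsl d hd)
  have hmono : ∀ {i j : ℕ}, i ≤ j → LinearMap.range (Φ ^ j) ≤ LinearMap.range (Φ ^ i) := by
    intro i j hij
    obtain ⟨r, rfl⟩ := Nat.exists_eq_add_of_le hij
    rintro _ ⟨x, rfl⟩
    exact ⟨(Φ ^ r) x, by rw [pow_add, Module.End.mul_apply]⟩
  -- a vector `e` with `Φ^k e ≠ 0`
  have hne : ∃ e : V, (Φ ^ k) e ≠ 0 := by
    by_contra h
    push Not at h
    have h2 : ∀ m ≤ k, ∀ x : V, (Φ ^ (k - m)) x = 0 := by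
      intro m
      induction m with
      | zero => intro _ x; rw [Nat.sub_zero]; exact h x
      | succ m ih =>
        intro hm x
        obtain ⟨z, rfl⟩ := hfree x (h x)
        rw [← Module.End.mul_apply, ← pow_succ, show k - (m + 1) + 1 = k - m by omega]
        exact ih (by omega) z
    obtain ⟨x, hx⟩ := exists_ne (0 : V)
    apply hx
    have h3 := h2 k le_rfl x
    rwa [Nat.sub_self, pow_zero, Module.End.one_apply] at h3
  obtain ⟨e, he⟩ := hne
  -- upper bound for `C d`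
  have hup : ∀ d ∈ S, C d ≤ LinearMap.range (Φ ^ (k + 1 - c (σ d))) := by
    intro d hd x hx
    apply mem_range_of_ker hfree _ (hc1 _ (hσ d hd))
    rw [← mem_orth_range hB hΦ]
    intro y hy
    exact hC d hd x hx y (hc3 _ (hσ d hd) hy)
  -- `c d + c (σ d) ≥ k + 1`
  have hnr : ∀ i j : ℕ, i < j → i ≤ k → ¬ LinearMap.range (Φ ^ i) ≤ LinearMap.range (Φ ^ j) := by
    intro i j hij hik hle
    have h1 : (Φ ^ i) e ∈ LinearMap.range (Φ ^ (i + 1)) := hmono hij (hle ⟨e, rfl⟩)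
    obtain ⟨z, hz⟩ := h1
    apply he
    have : (Φ ^ (k - i)) ((Φ ^ i) e) = 0 := by
      rw [← hz, ← Module.End.mul_apply, ← pow_add, show k - i + (i + 1) = k + 1 by omega, hk,
        LinearMap.zero_apply]
    rwa [← Module.End.mul_apply, ← pow_add, show k - i + i = k by omega] at this
  have hsum : ∀ d ∈ S, k + 1 ≤ c d + c (σ d) := by
    intro d hd
    by_contra h
    exact hnr (c d) (k + 1 - c (σ d)) (by omega) (by omega) ((hc3 d hd).trans (hup d hd))
  -- the column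
  have hex : ∃ d ∈ S, c d = v ∧ c (σ d) = k + 1 - v := by
    by_contra hno
    push Not at hno
    have hle : LinearMap.range (Φ ^ v) ≤ LinearMap.range (Φ ^ (v + 1)) := by
      rintro _ ⟨x, rfl⟩
      have hx : (Φ ^ v) x = Φ ((Φ ^ (v - 1)) x) := by
        rw [← Module.End.mul_apply, ← pow_succ', Nat.sub_add_cancel hv1]
      rw [hx, hF]
      refine Submodule.sum_mem _ fun d hd => ?_
      rcases Nat.lt_or_ge v (c d) with h1 | h1
      · exact Submodule.smul_mem _ _ (hmono h1 (hc2 d hd))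
      · have h2 := hsum d hd
        have h3 : k + 1 - v < c (σ d) ∨ c d < v := by
          rcases Nat.lt_or_ge (c d) v with h | h
          · exact Or.inr h
          · left
            have h4 : c d = v := by omega
            have h5 := hno d hd h4
            omega
        have h4 : k + 1 ≤ (v - 1) + c (σ d) := by omega
        obtain ⟨f, hf⟩ := hc2 _ (hσ d hd)
        have h5 : B ((Φ ^ (v - 1)) x) (F (σ d)) = 0 := by
          rw [← hf, Sa.pow hΦ, ← Module.End.mul_apply, ← pow_add]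
          obtain ⟨r, hr⟩ := Nat.exists_eq_add_of_le h4
          rw [hr, pow_add, hk, zero_mul, LinearMap.zero_apply, map_zero]
        rw [h5, zero_smul]
        exact Submodule.zero_mem _
    exact hnr v (v + 1) (by omega) hvk hle
  obtain ⟨d, hd, h1, h2⟩ := hex
  refine ⟨d, hd, le_antisymm ?_ ?_, ?_⟩
  · have := hup d hd
    rwa [h2, show k + 1 - (k + 1 - v) = v by omega] at this
  · have := hc3 d hd
    rwa [h1] at this
  · have := hc2 d hd
    rwa [h1] at this

end Crest.Agent.R172.TM
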