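import Crest.Agent.R172.Qt4

/-!
Row 172 (S0260), nodes (0)+(1) of helper745's note 15562: the skew form
`Θ(p, q) = ⟨P g, Y₀ g⟩` on `T_Q = {gᵀ J X₀ g : p = (X₀; X_s) ∈ NN g}`.

* `Th_skew`, `Th_nondeg` : `Θ` is skew, nondegenerate on `T_Q`;
* `Th_selfadj` : `Θ(T_f p, q) = Θ(p, T_f q)` for `f ∈ 𝒦`;
* `Gam_skew`, `Gam_symm` : for `f, h ∈ 𝒦` with image in `S`, `Γ(p,f;q,h) = ⟨P f, Y₀ h⟩` is skew under
  `(p,f) ↔ (q,h)` and symmetric under `f ↔ h`;
* `Th_iso` : `Θ(T_f p, T_h p) = 0` for `f, h ∈ 𝒦`, `im f, im h ⊆ S`;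
* `TQ_zero` : if one `p ∈ NN` satisfies `T_Q = {T_f p : f ∈ 𝒦_S}`, then `T_Q = 0`.
-/

set_option autoImplicit false
set_option linter.unusedSectionVars false
set_option linter.unusedFintypeInType false
set_option linter.unusedDecidableInType false

namespace Crest.Agent.R172.ThI

open Matrix Module Crest.Agent.R172.FO Crest.Agent.R172.Qt

variable {ι : Type*} [Fintype ι] [DecidableEq ι] {δ : Type*} [Fintype δ] [DecidableEq δ]
variable {k K : Type*} [Field k] [Field K] [Algebra k K]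
variable {arm : δ → Fin 3} {J : Matrix ι ι K} {B : Matrix δ δ K}
  {N W : Submodule K (Matrix ι δ K)} {g : Matrix ι δ K}

/-- the skew form `Θ` -/
def Th (arm : δ → Fin 3) (J : Matrix ι ι K) (B : Matrix δ δ K) (g : Matrix ι δ K)
    (p q : Matrix ι ι K × (Fin 3 → Matrix ι ι K)) : K := pair J B (Pg arm g p) (q.1 * g)

/-- `P f` for a general `f`. -/
def Pf (arm : δ → Fin 3) (f : Matrix ι δ K) (p : Matrix ι ι K × (Fin 3 → Matrix ι ι K)) :
    Matrix ι δ K := p.1 * f - act arm p.2 f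

theorem Pf_eq (f : Matrix ι δ K) (p : Matrix ι ι K × (Fin 3 → Matrix ι ι K)) :
    Pf arm f p = act arm (fun s => p.1 - p.2 s) f := by
  rw [act_sub_left, act_const]; rfl

/-- `Γ(p,f;q,h)` -/
def Gam (arm : δ → Fin 3) (J : Matrix ι ι K) (B : Matrix δ δ K)
    (p : Matrix ι ι K × (Fin 3 → Matrix ι ι K)) (f : Matrix ι δ K)
    (q : Matrix ι ι K × (Fin 3 → Matrix ι ι K)) (h : Matrix ι δ K) : K :=
  pair J B (Pf arm f p) (q.1 * h)

theorem Th_eq (h : Ctx k arm J B N W g) {p q : Matrix ι ι K × (Fin 3 → Matrix ι ι K)}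
    (hp : p ∈ NN arm J N g) (hq : q ∈ NN arm J N g) :
    Th arm J B g p q = pair J B (Pg arm g p) (act arm q.2 g) := by
  have h3 : act arm q.2 g = q.1 * g - Pg arm g q := by unfold Pg; abel
  rw [h3, pair_sub_right, h.pair_Pg_Pg hp hq, sub_zero]; rfl

theorem Th_skew (h : Ctx k arm J B N W g) {p q : Matrix ι ι K × (Fin 3 → Matrix ι ι K)}
    (hp : p ∈ NN arm J N g) (hq : q ∈ NN arm J N g) :
    Th arm J B g p q = - Th arm J B g q p := by
  rw [Th_eq h hp hq, Th_eq h hq hp]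
  exact h.skew_w hq hp

/-- `Θ(p,q)` only depends on `φ_q`. -/
theorem Th_congr (_h : Ctx k arm J B N W g) {p : Matrix ι ι K × (Fin 3 → Matrix ι ι K)}
    (hp : p ∈ NN arm J N g) {a b : Matrix ι δ K} (hab : gᵀ * J * a = gᵀ * J * b) :
    pair J B (Pg arm g p) a = pair J B (Pg arm g p) b := by
  obtain ⟨C, hC⟩ := Pg_InS hp
  rw [hC]
  have h1 : pair J B (g * C) (a - b) = 0 :=
    pair_S (by rw [Matrix.mul_sub, hab, sub_self]) C
  rw [pair_sub_right, sub_eq_zero] at h1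
  exact h1

/-- nondegeneracy of `Θ` on `T_Q`. -/
theorem Th_nondeg (h : Ctx k arm J B N W g) {p : Matrix ι ι K × (Fin 3 → Matrix ι ι K)}
    (hp : p ∈ NN arm J N g) (h0 : ∀ q ∈ NN arm J N g, Th arm J B g p q = 0) :
    gᵀ * J * (p.1 * g) = 0 := by
  have hg2 : gᵀ * J * (p.1 * g) = gᵀ * J * (act arm p.2 g) := by
    have := h.perp_Pg hp
    unfold Pg at this
    rw [Matrix.mul_sub, sub_eq_zero] at this
    exact this
  refine h.onto (h.W_mul _ h.memW) (hp.2.1.pres g h.memN) hg2 ?_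
  refine LinearMap.ext fun q => ?_
  rw [fn_apply, LinearMap.zero_apply, ← Th_eq h q.2 hp, Th_skew h q.2 hp, h0 q.1 q.2, neg_zero]

/-- `⟨p₁ f, Q_s h⟩` in terms of `M_s(f, h)`. -/
theorem pair_E_M (h : Ctx k arm J B N W g) {f f' : Matrix ι δ K}
    (hf : f ∈ N ⊓ W) (hf' : f' ∈ N ⊓ W) (s : Fin 3) (X Y : Matrix ι ι K) :
    pair J B (X * f * E K arm s) (Y * f') = pair J B (X * f' * E K arm s) (Y * f) := by
  have h1 : M arm B s f f' = M arm B s f' f := h.data.symm_arm hf hf' s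
  have key : ∀ a b : Matrix ι δ K, pair J B (X * a * E K arm s) (Y * b)
      = trace (Xᵀ * J * Y * M arm B s b a) := by
    intro a b
    unfold pair M
    rw [transpose_mul, transpose_mul, E_transpose]
    have e1 : E K arm s * (aᵀ * Xᵀ) * J * (Y * b) * B
        = (E K arm s * aᵀ) * (Xᵀ * J * Y * b * B) := by simp only [Matrix.mul_assoc]
    rw [e1, trace_mul_comm]
    congr 1
    have e2 : Xᵀ * J * Y * b * B * (E K arm s * aᵀ) = Xᵀ * J * Y * (b * (B * E K arm s) * aᵀ) := by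
      simp only [Matrix.mul_assoc]
    rw [e2, ← h.data.B_arm]
    simp only [Matrix.mul_assoc]
  rw [key, key, h1]

theorem Gam_symm (h : Ctx k arm J B N W g) {f f' : Matrix ι δ K}
    (hf : f ∈ N ⊓ W) (hf' : f' ∈ N ⊓ W) (p q : Matrix ι ι K × (Fin 3 → Matrix ι ι K)) :
    Gam arm J B p f q f' = Gam arm J B p f' q f := by
  unfold Gam
  rw [Pf_eq, Pf_eq]
  unfold act
  rw [Ctx.pair_sum_left, Ctx.pair_sum_left]
  exact Finset.sum_congr rfl fun s _ => pair_E_M h hf hf' s _ _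

/-- `P f ∈ S ⊗ U` for `f ∈ S ⊗ U`. -/
theorem Pf_InS {f : Matrix ι δ K} (hfS : ∃ C : Matrix δ δ K, f = g * C)
    {p : Matrix ι ι K × (Fin 3 → Matrix ι ι K)} (hp : p ∈ NN arm J N g) :
    ∃ C : Matrix δ δ K, Pf arm f p = g * C := by
  obtain ⟨C, rfl⟩ := hfS
  choose D hD using hp.2.2
  refine ⟨∑ s, D s * C * E K arm s, ?_⟩
  rw [Pf_eq]
  unfold act
  rw [Matrix.mul_sum]
  refine Finset.sum_congr rfl fun s _ => ?_
  rw [← Matrix.mul_assoc (p.1 - p.2 s), hD]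
  simp only [Matrix.mul_assoc]

theorem perp_of_InS (h : Ctx k arm J B N W g) {f : Matrix ι δ K}
    (hfS : ∃ C : Matrix δ δ K, f = g * C) : gᵀ * J * f = 0 := by
  obtain ⟨C, rfl⟩ := hfS
  rw [← Matrix.mul_assoc, h.iso, Matrix.zero_mul]

theorem pair_InS (_h : Ctx k arm J B N W g) {a b : Matrix ι δ K}
    (ha : ∃ C : Matrix δ δ K, a = g * C) (hb : gᵀ * J * b = 0) : pair J B a b = 0 := by
  obtain ⟨C, rfl⟩ := ha
  exact pair_S hb C

/-- `Γ` is skew under `(p,f) ↔ (q,f')`, if `im f, im f' ⊆ S`. -/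
theorem Gam_skew (h : Ctx k arm J B N W g) {f f' : Matrix ι δ K}
    (hf : f ∈ N ⊓ W) (hf' : f' ∈ N ⊓ W) (hfS : ∃ C : Matrix δ δ K, f = g * C)
    (hfS' : ∃ C : Matrix δ δ K, f' = g * C) {p q : Matrix ι ι K × (Fin 3 → Matrix ι ι K)}
    (hp : p ∈ NN arm J N g) (hq : q ∈ NN arm J N g) :
    Gam arm J B p f q f' = - Gam arm J B q f' p f := by
  have hP := Pf_InS (arm := arm) (J := J) (N := N) hfS hp
  have hQ := Pf_InS (arm := arm) (J := J) (N := N) hfS' hq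
  have hNp : act arm p.2 f ∈ N := hp.2.1.pres f hf.1
  have hNq : act arm q.2 f' ∈ N := hq.2.1.pres f' hf'.1
  have hPQ : pair J B (Pf arm f p) (Pf arm f' q) = 0 := pair_InS h hP (perp_of_InS h hQ)
  have eq1 : q.1 * f' = Pf arm f' q + act arm q.2 f' := by unfold Pf; abel
  have eq2 : act arm q.2 f' = q.1 * f' - Pf arm f' q := by unfold Pf; abel
  have eq3 : Pf arm f p = p.1 * f - act arm p.2 f := rfl
  unfold Gam
  have s1 : pair J B (Pf arm f p) (q.1 * f') = pair J B (Pf arm f p) (act arm q.2 f') := by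
    rw [eq1, pair_add_right, hPQ, zero_add]
  have s2 : pair J B (Pf arm f p) (act arm q.2 f') = pair J B (p.1 * f) (act arm q.2 f') := by
    rw [eq3, pair_sub_left, h.pair_N hNp hNq, sub_zero]
  have s3 : pair J B (p.1 * f) (act arm q.2 f') = - pair J B (p.1 * f) (Pf arm f' q) := by
    rw [eq2, pair_sub_right, pair_W h.data (h.W_mul _ hf.2) (h.W_mul _ hf'.2), zero_sub]
  rw [s1, s2, s3, pair_comm h.data.J_symm h.data.B_symm]

/-- `Θ(T_f p, T_h p') = Γ(p, f; p', h)` -/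
theorem Th_T (h : Ctx k arm J B N W g) {f f' : Matrix ι δ K}
    (hf : f ∈ N ⊓ W) (hf' : f' ∈ N ⊓ W) (hfS : ∃ C : Matrix δ δ K, f = g * C)
    (hfS' : ∃ C : Matrix δ δ K, f' = g * C) {p q p₁ q₁ : Matrix ι ι K × (Fin 3 → Matrix ι ι K)}
    (hp : p ∈ NN arm J N g) (hq : q ∈ NN arm J N g) (hp₁ : p₁ ∈ NN arm J N g)
    (e1 : gᵀ * J * (p.1 * f) = gᵀ * J * (p₁.1 * g))
    (e2 : gᵀ * J * (q.1 * f') = gᵀ * J * (q₁.1 * g)) :
    Th arm J B g p₁ q₁ = Gam arm J B p f q f' := by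
  have hP := Pf_InS (arm := arm) (J := J) (N := N) hfS hp
  have hQ := Pf_InS (arm := arm) (J := J) (N := N) hfS' hq
  have s1 : Th arm J B g p₁ q₁ = pair J B (Pg arm g p₁) (q.1 * f') := Th_congr h hp₁ e2.symm
  rw [s1]
  unfold Gam
  -- `Pg p₁ - Pf f p = (p₁.1 g - p.1 f) - (act p₁ g - act p f)`
  have s2 : pair J B (Pg arm g p₁ - Pf arm f p) (q.1 * f') = 0 := by
    have hn : act arm p₁.2 g - act arm p.2 f ∈ N :=
      N.sub_mem (hp₁.2.1.pres g h.memN) (hp.2.1.pres f hf.1)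
    have e3 : Pg arm g p₁ - Pf arm f p
        = (p₁.1 * g - p.1 * f) - (act arm p₁.2 g - act arm p.2 f) := by
      unfold Pg Pf; abel
    have hw : p₁.1 * g - p.1 * f ∈ W := W.sub_mem (h.W_mul _ h.memW) (h.W_mul _ hf.2)
    have hperp : gᵀ * J * (act arm p₁.2 g - act arm p.2 f) = 0 := by
      have e4 : act arm p₁.2 g - act arm p.2 f
          = (p₁.1 * g - p.1 * f) - (Pg arm g p₁ - Pf arm f p) := by rw [e3]; abel
      rw [e4, Matrix.mul_sub, Matrix.mul_sub, Matrix.mul_sub, ← e1, sub_self, h.perp_Pg hp₁,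
        perp_of_InS h hP]
      simp
    have e5 : q.1 * f' = act arm q.2 f' + Pf arm f' q := by unfold Pf; abel
    rw [e3, pair_sub_left, pair_W h.data hw (h.W_mul _ hf'.2), zero_sub, e5, pair_add_right,
      h.pair_N hn (hq.2.1.pres f' hf'.1), zero_add, neg_eq_zero,
      pair_comm h.data.J_symm h.data.B_symm]
    exact pair_InS h hQ hperp
  rw [pair_sub_left, sub_eq_zero] at s2
  exact s2

/-- **Isotropy**: `Θ(T_f p, T_h p) = 0` for `f, h ∈ 𝒦` with image in `S = im g`. -/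
theorem Th_iso (h2 : (2 : K) ≠ 0) (h : Ctx k arm J B N W g) {f f' : Matrix ι δ K}
    (hf : f ∈ N ⊓ W) (hf' : f' ∈ N ⊓ W) (hfS : ∃ C : Matrix δ δ K, f = g * C)
    (hfS' : ∃ C : Matrix δ δ K, f' = g * C) {p p₁ p₂ : Matrix ι ι K × (Fin 3 → Matrix ι ι K)}
    (hp : p ∈ NN arm J N g) (hp₁ : p₁ ∈ NN arm J N g)
    (e1 : gᵀ * J * (p.1 * f) = gᵀ * J * (p₁.1 * g))
    (e2 : gᵀ * J * (p.1 * f') = gᵀ * J * (p₂.1 * g)) :
    Th arm J B g p₁ p₂ = 0 := by
  rw [Th_T h hf hf' hfS hfS' hp hp hp₁ e1 e2]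
  have a1 := Gam_skew h hf hf' hfS hfS' hp hp
  have a2 := Gam_symm h hf' hf p p
  rw [a2] at a1
  have a3 : (2 : K) * Gam arm J B p f p f' = 0 := by linear_combination a1
  exact (mul_eq_zero.1 a3).resolve_left h2

/-- **The uniform ending**: if all of `T_Q` is `{T_f p : f ∈ 𝒦, im f ⊆ S}` for one `p ∈ NN`,
then `T_Q = 0`. -/
theorem TQ_zero (h2 : (2 : K) ≠ 0) (h : Ctx k arm J B N W g)
    {p : Matrix ι ι K × (Fin 3 → Matrix ι ι K)} (hp : p ∈ NN arm J N g)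
    (hall : ∀ q ∈ NN arm J N g, ∃ f ∈ N ⊓ W, (∃ C : Matrix δ δ K, f = g * C) ∧
      gᵀ * J * (p.1 * f) = gᵀ * J * (q.1 * g)) :
    ∀ q ∈ NN arm J N g, gᵀ * J * (q.1 * g) = 0 := by
  intro q hq
  refine Th_nondeg h hq fun q' hq' => ?_
  obtain ⟨f, hf, hfS, e1⟩ := hall q hq
  obtain ⟨f', hf', hfS', e2⟩ := hall q' hq'
  exact Th_iso h2 h hf hf' hfS hfS' hp hq e1 e2

/-- `Θ(p, q) = 0` if `φ_q = t φ_p`: a one-dimensional `T_Q` is zero. -/
theorem TQ_zero_of_line (h2 : (2 : K) ≠ 0) (h : Ctx k arm J B N W g)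
    {p : Matrix ι ι K × (Fin 3 → Matrix ι ι K)} (hp : p ∈ NN arm J N g)
    (hall : ∀ q ∈ NN arm J N g, ∃ t : K, gᵀ * J * (q.1 * g) = t • (gᵀ * J * (p.1 * g))) :
    ∀ q ∈ NN arm J N g, gᵀ * J * (q.1 * g) = 0 := by
  refine TQ_zero h2 h hp fun q hq => ?_
  obtain ⟨t, ht⟩ := hall q hq
  refine ⟨t • g, (N ⊓ W).smul_mem t h.mem, ⟨t • 1, by simp⟩, ?_⟩
  rw [ht, Matrix.mul_smul, Matrix.mul_smul]

/-- `T_f` is `Θ`-self-adjoint (`f ∈ 𝒦` arbitrary). -/
theorem Th_selfadj (h : Ctx k arm J B N W g) {f : Matrix ι δ K} (hf : f ∈ N ⊓ W)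
    {p q p' q' : Matrix ι ι K × (Fin 3 → Matrix ι ι K)}
    (hp : p ∈ NN arm J N g) (hq : q ∈ NN arm J N g) (hp' : p' ∈ NN arm J N g)
    (e1 : gᵀ * J * (p.1 * f) = gᵀ * J * (p'.1 * g))
    (e2 : gᵀ * J * (q.1 * f) = gᵀ * J * (q'.1 * g)) :
    Th arm J B g p' q = Th arm J B g p q' := by
  have hfp := h.perp f hf
  have s1 : Th arm J B g p' q = - pair J B (Pg arm g q) (p.1 * f) := by
    rw [Th_skew h hp' hq]
    have : Th arm J B g q p' = pair J B (Pg arm g q) (p.1 * f) := Th_congr h hq e1.symm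
    rw [this]
  have s2 : Th arm J B g p q' = pair J B (Pg arm g p) (q.1 * f) := Th_congr h hp e2.symm
  have s3 : pair J B (Pg arm g p) (q.1 * f) = pair J B (Pg arm g p) (act arm q.2 f) := by
    have h3 : pair J B (Pg arm g p) (q.1 * f - act arm q.2 f) = 0 :=
      pair_InS h (Pg_InS hp) (perp_Pf hq hfp)
    rw [pair_sub_right, sub_eq_zero] at h3
    exact h3
  have s4 := h.pair_Pg_Xf hf hq hp
  -- `⟨X₀ g, Q f⟩ = ⟨Q g, X₀ f⟩`
  have s5 : pair J B (p.1 * g) (q.1 * f - act arm q.2 f) = pair J B (Pg arm g q) (p.1 * f) := by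
    have e3 : q.1 * f - act arm q.2 f = act arm (fun s => q.1 - q.2 s) f := by
      rw [act_sub_left, act_const]
    rw [pair_comm h.data.J_symm h.data.B_symm, e3, Pg_eq]
    unfold act
    rw [Ctx.pair_sum_left, Ctx.pair_sum_left]
    exact Finset.sum_congr rfl fun s _ => pair_E_M h hf h.mem s _ _
  rw [s1, s2, s3, s4, s5]

/-- **Parity**: `Θ(p, T_f p) = 0` for every `f ∈ 𝒦`. -/
theorem Th_par (h2 : (2 : K) ≠ 0) (h : Ctx k arm J B N W g) {f : Matrix ι δ K} (hf : f ∈ N ⊓ W)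
    {p p' : Matrix ι ι K × (Fin 3 → Matrix ι ι K)}
    (hp : p ∈ NN arm J N g) (hp' : p' ∈ NN arm J N g)
    (e1 : gᵀ * J * (p.1 * f) = gᵀ * J * (p'.1 * g)) :
    Th arm J B g p p' = 0 := by
  have a1 := Th_selfadj h hf hp hp hp' e1 e1
  have a2 := Th_skew h hp' hp
  have a3 : (2 : K) * Th arm J B g p p' = 0 := by linear_combination -a1 + a2
  exact (mul_eq_zero.1 a3).resolve_left h2

/-- **The uniform ending, strong form**: if all of `T_Q` is `{T_f p : f ∈ 𝒦}` for one `p ∈ NN`,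
then `T_Q = 0` (no condition on the image of `f`). -/
theorem TQ_zero_K (h2 : (2 : K) ≠ 0) (h : Ctx k arm J B N W g)
    {p : Matrix ι ι K × (Fin 3 → Matrix ι ι K)} (hp : p ∈ NN arm J N g)
    (hall : ∀ q ∈ NN arm J N g, ∃ f ∈ N ⊓ W, gᵀ * J * (p.1 * f) = gᵀ * J * (q.1 * g)) :
    ∀ q ∈ NN arm J N g, gᵀ * J * (q.1 * g) = 0 := by
  have hp0 : gᵀ * J * (p.1 * g) = 0 := by
    refine Th_nondeg h hp fun q hq => ?_
    obtain ⟨f, hf, e1⟩ := hall q hq
    exact Th_par h2 h hf hp hq e1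
  intro q hq
  obtain ⟨f, hf, e1⟩ := hall q hq
  rw [← e1]
  exact h.tf_zero hf hp hp0

/-- existence form: if `φ_p ≠ 0` there is `q ∈ NN` with `φ_q` not of the form `T_f φ_p`,
`f ∈ 𝒦` (804's `b ≥ a_K + 1`). -/
theorem exists_not_T (h2 : (2 : K) ≠ 0) (h : Ctx k arm J B N W g)
    {p : Matrix ι ι K × (Fin 3 → Matrix ι ι K)} (hp : p ∈ NN arm J N g)
    (hp0 : gᵀ * J * (p.1 * g) ≠ 0) :
    ∃ q ∈ NN arm J N g, ∀ f ∈ N ⊓ W, gᵀ * J * (p.1 * f) ≠ gᵀ * J * (q.1 * g) := by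
  by_contra hc
  push Not at hc
  exact hp0 (TQ_zero_K h2 h hp hc p hp)

end Crest.Agent.R172.ThI
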