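import Crest.Agent.R172.Th1
import Crest.Agent.R172.SpS5

/-!
Row 172 (S0260), S-side ending (helper731's note 15766 (5)): `2 p ≤ dim T_Q`, where `p` is the number
of eigenvalues of `T_f` (or of `D_f` on the core).

* `two_card_le` : a nondegenerate skew form with a self-adjoint operator: each eigenvalue has
  multiplicity at least two;
* `TQ_dim` : `2 * #Λ ≤ finrank (Xi J N arm g)` for a set `Λ` of eigenvalues of `T_f`;
* `eig_D` : every eigenvalue of `D_f` on the core is an eigenvalue of `T_f`;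
* `TQ_dim_core` : `2 * #Λ ≤ finrank (Xi J N arm g)` for a set `Λ` of eigenvalues of `D_f`.
-/

set_option autoImplicit false
set_option linter.unusedSectionVars false
set_option linter.unusedFintypeInType false
set_option linter.unusedDecidableInType false

namespace Crest.Agent.R172.ThI

open Matrix Module Crest.Agent.R172.FO Crest.Agent.R172.Qt Crest.Agent.R172.SpS
open Crest.Agent.R172.St (Nk T mem_T mem_Nk_zero mem_Nk_succ Nk_le_T T_stable T_closed T_eq_Nk)
open Crest.Agent.R172.PL (Wk Ainf Rad CoreM coreOp resOp)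

section abstract

variable {K : Type*} [Field K] {V : Type*} [AddCommGroup V] [Module K V]

/-- a generalized eigenspace of a self-adjoint operator of a skew nondegenerate form has
dimension at least `2`. -/
theorem two_le_gen [IsAlgClosed K] [FiniteDimensional K V] (h2 : (2 : K) ≠ 0)
    (w : LinearMap.BilinForm K V) (hsk : ∀ v u, w v u = - w u v)
    (hnd : ∀ v, (∀ u, w v u = 0) → v = 0) (T : End K V) (hT : ∀ v u, w (T v) u = w v (T u))
    {l : K} (hl : T.HasEigenvalue l) : 2 ≤ finrank K (T.maxGenEigenspace l) := by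
  obtain ⟨v, hv⟩ := hl.exists_hasEigenvector
  have hvG : v ∈ T.maxGenEigenspace l := by
    rw [Module.End.mem_maxGenEigenspace]
    refine ⟨1, ?_⟩
    rw [pow_one, LinearMap.sub_apply, hv.apply_eq_smul, LinearMap.smul_apply, Module.End.one_apply,
      sub_self]
  have hv0 : v ≠ 0 := hv.2
  have hex : ∃ u ∈ T.maxGenEigenspace l, w v u ≠ 0 := by
    by_contra hc
    push Not at hc
    apply hv0
    apply hnd
    have htop : (⨆ m, T.maxGenEigenspace m) ≤ LinearMap.ker (w v) := by
      refine iSup_le fun m => ?_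
      intro u hu
      rw [LinearMap.mem_ker]
      by_cases hm : m = l
      · subst hm; exact hc u hu
      · exact Core.gen_ortho hT (Ne.symm hm) v hvG u hu
    rw [Module.End.iSup_maxGenEigenspace_eq_top] at htop
    intro u
    exact LinearMap.mem_ker.1 (htop Submodule.mem_top)
  obtain ⟨u, hu, hvu⟩ := hex
  by_contra hlt
  have hle : finrank K (T.maxGenEigenspace l) ≤ 1 := by omega
  obtain ⟨x, hx⟩ := finrank_le_one_iff.1 hle
  obtain ⟨a, ha⟩ := hx ⟨v, hvG⟩
  obtain ⟨b, hb⟩ := hx ⟨u, hu⟩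
  have ha' : a • (x : V) = v := congrArg Subtype.val ha
  have hb' : b • (x : V) = u := congrArg Subtype.val hb
  have hxx : w (x : V) (x : V) = 0 := by
    have h3 := hsk (x : V) (x : V)
    have h4 : (2 : K) * w (x : V) (x : V) = 0 := by linear_combination h3
    exact (mul_eq_zero.1 h4).resolve_left h2
  apply hvu
  rw [← ha', ← hb', map_smul, map_smul, LinearMap.smul_apply, hxx, smul_zero, smul_zero]

/-- **`2 #Λ ≤ dim V`.** -/
theorem two_card_le [IsAlgClosed K] [FiniteDimensional K V] (h2 : (2 : K) ≠ 0)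
    (w : LinearMap.BilinForm K V) (hsk : ∀ v u, w v u = - w u v)
    (hnd : ∀ v, (∀ u, w v u = 0) → v = 0) (T : End K V) (hT : ∀ v u, w (T v) u = w v (T u))
    (L : Finset K) (hL : ∀ l ∈ L, T.HasEigenvalue l) : 2 * L.card ≤ finrank K V := by
  classical
  have key : ∀ L : Finset K, (∀ l ∈ L, T.HasEigenvalue l) →
      2 * L.card ≤ finrank K ↥(⨆ l ∈ L, T.maxGenEigenspace l) := by
    intro L
    induction L using Finset.induction_on with
    | empty => intro _; simp
    | insert a L ha ih =>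
      intro hL
      have h1 := ih fun l hl => hL l (Finset.mem_insert_of_mem hl)
      have h3 := two_le_gen h2 w hsk hnd T hT (hL a (Finset.mem_insert_self a L))
      rw [Finset.iSup_insert, Finset.card_insert_of_notMem ha]
      have hdis : Disjoint (T.maxGenEigenspace a) (⨆ l ∈ L, T.maxGenEigenspace l) := by
        refine ((Module.End.independent_maxGenEigenspace T) a).mono_right ?_
        refine iSup_le fun l => iSup_le fun hl => ?_
        exact le_iSup₂_of_le l (fun e => ha (e ▸ hl)) le_rfl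
      have h4 := Submodule.finrank_sup_add_finrank_inf_eq (T.maxGenEigenspace a)
        (⨆ l ∈ L, T.maxGenEigenspace l)
      rw [hdis.eq_bot, finrank_bot, add_zero] at h4
      rw [h4]
      omega
  exact le_trans (key L hL) (Submodule.finrank_le _)

/-- the version with a presentation `π : P → V` of `V`. -/
theorem two_card_le_pres {P : Type*} [AddCommGroup P] [Module K P] [IsAlgClosed K]
    [FiniteDimensional K V] (h2 : (2 : K) ≠ 0) (π : P →ₗ[K] V) (hπ : Function.Surjective π)
    (w : P →ₗ[K] P →ₗ[K] K) (hsk : ∀ v u, w v u = - w u v) (h0 : ∀ v u, π u = 0 → w v u = 0)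
    (hnd : ∀ v, (∀ u, w v u = 0) → π v = 0) (T : End K V)
    (hT : ∀ v u v' u', π v' = T (π v) → π u' = T (π u) → w v' u = w v u')
    (L : Finset K) (hL : ∀ l ∈ L, T.HasEigenvalue l) : 2 * L.card ≤ finrank K V := by
  obtain ⟨s, hs⟩ := π.exists_rightInverse_of_surjective (LinearMap.range_eq_top.2 hπ)
  have hs' : ∀ v, π (s v) = v := fun v => LinearMap.congr_fun hs v
  let w' : LinearMap.BilinForm K V := w.compl₁₂ s s
  have hw' : ∀ v u, w' v u = w (s v) (s u) := fun v u => rfl
  refine two_card_le h2 w' (fun v u => by rw [hw', hw']; exact hsk _ _) ?_ T ?_ L hL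
  · intro v hv
    have h1 : π (s v) = 0 := by
      apply hnd
      intro u
      have e1 : w (s v) (u - s (π u)) = 0 := h0 _ _ (by rw [map_sub, hs', sub_self])
      have e2 : w (s v) (s (π u)) = 0 := hv (π u)
      rw [map_sub, e2, sub_zero] at e1
      exact e1
    rw [hs'] at h1
    exact h1
  · intro v u
    rw [hw', hw']
    exact hT (s v) (s u) (s (T v)) (s (T u)) (by rw [hs', hs']) (by rw [hs', hs'])

end abstract

section ctx

variable {ι : Type*} [Fintype ι] [DecidableEq ι] {δ : Type*} [Fintype δ] [DecidableEq δ]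
variable {k K : Type*} [Field k] [Field K] [Algebra k K]
variable {arm : δ → Fin 3} {J : Matrix ι ι K} {B : Matrix δ δ K}
  {N W : Submodule K (Matrix ι δ K)} {g : Matrix ι δ K}

/-- `p ↦ X₀ g` -/
def evg (arm : δ → Fin 3) (J : Matrix ι ι K) (N : Submodule K (Matrix ι δ K)) (g : Matrix ι δ K) :
    NN arm J N g →ₗ[K] Matrix ι δ K where
  toFun p := p.1.1 * g
  map_add' p q := by
    change (p.1.1 + q.1.1) * g = _
    rw [Matrix.add_mul]
  map_smul' c p := by
    change (c • p.1.1) * g = c • (p.1.1 * g)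
    rw [Matrix.smul_mul]

/-- `Θ` as a bilinear map on `NN`. -/
def ThL (arm : δ → Fin 3) (J : Matrix ι ι K) (B : Matrix δ δ K) (N : Submodule K (Matrix ι δ K))
    (g : Matrix ι δ K) : NN arm J N g →ₗ[K] NN arm J N g →ₗ[K] K :=
  ((fn arm J B N g) ∘ₗ (evg arm J N g)).flip

theorem ThL_apply (p q : NN arm J N g) : ThL arm J B N g p q = Th arm J B g p.1 q.1 := rfl

/-- **`2 #Λ ≤ dim T_Q`** for eigenvalues of `T_f`. -/
theorem TQ_dim [IsAlgClosed K] (h2 : (2 : K) ≠ 0) (h : Ctx k arm J B N W g) {f : Matrix ι δ K}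
    (hf : f ∈ N ⊓ W) (Tf : End K (Xi J N arm g))
    (hTf : ∀ (φ : Xi J N arm g) (p : NN arm J N g), (φ : Matrix δ δ K) = gᵀ * J * (p.1.1 * g) →
      ((Tf φ : Xi J N arm g) : Matrix δ δ K) = gᵀ * J * (p.1.1 * f))
    (L : Finset K) (hL : ∀ l ∈ L, Tf.HasEigenvalue l) :
    2 * L.card ≤ finrank K (Xi J N arm g) := by
  let π : NN arm J N g →ₗ[K] Xi J N arm g := (AF J N arm g g).rangeRestrict
  have hπ : ∀ p, ((π p : Xi J N arm g) : Matrix δ δ K) = gᵀ * J * (p.1.1 * g) := fun p => rfl
  refine two_card_le_pres h2 π (LinearMap.surjective_rangeRestrict _) (ThL arm J B N g)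
    (fun p q => Th_skew h p.2 q.2) ?_ ?_ Tf ?_ L hL
  · intro p q hq
    have e1 : gᵀ * J * (q.1.1 * g) = gᵀ * J * (0 : Matrix ι δ K) := by
      rw [Matrix.mul_zero, ← hπ q, hq]; rfl
    have e2 := Th_congr h p.2 e1
    rw [pair_zero_right] at e2
    exact e2
  · intro p hp
    apply Subtype.ext
    rw [hπ]
    exact Th_nondeg h p.2 fun q hq => hp ⟨q, hq⟩
  · intro p q p' q' hp' hq'
    have e1 : gᵀ * J * (p.1.1 * f) = gᵀ * J * (p'.1.1 * g) := by
      rw [← hπ p', hp', hTf (π p) p (hπ p)]
    have e2 : gᵀ * J * (q.1.1 * f) = gᵀ * J * (q'.1.1 * g) := by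
      rw [← hπ q', hq', hTf (π q) q (hπ q)]
    exact Th_selfadj h hf p.2 q.2 p'.2 e1 e2

end ctx

section eig

variable {K : Type*} [Field K] {V : Type*} [AddCommGroup V] [Module K V] {ι : Type*}
variable {E : Type*} [AddCommGroup E] [Module K E]
variable {M N : ι → (Dual K V →ₗ[K] V)} {b : E →ₗ[K] LinearMap.BilinForm K V}
  {Tf : End K E} [FiniteDimensional K V] [Fintype ι]

/-- The action of `M_s (P(T) η)` on the core is `Φ_s P(D)`. -/
theorem core_poly (h : Step M N b Tf) (η : E) {D : End K (CoreM (Be M (b η)))}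
    (hD : ∀ s p, D (coreOp (Be M (b η)) s p) = coreN h η s p) (P : Polynomial K) :
    ∀ (s : ι) (v : Ainf (Be M (b η))), ∃ w : Ainf (Be M (b η)),
      (w : V) = Be M (b ((Polynomial.aeval Tf P) η)) s (v : V) ∧
      (Rad (Be M (b η))).mkQ w =
        coreOp (Be M (b η)) s ((Polynomial.aeval D P) ((Rad (Be M (b η))).mkQ v)) := by
  induction P using Polynomial.induction_on' with
  | add P Q hP hQ =>
    intro s v
    obtain ⟨w, h1, h3⟩ := hP s v
    obtain ⟨w', h1', h3'⟩ := hQ s v
    refine ⟨w + w', ?_, ?_⟩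
    · rw [Submodule.coe_add, h1, h1', map_add, LinearMap.add_apply, map_add, Be_apply, Be_apply,
        Be_apply, LinearMap.add_apply, map_add]
    · rw [map_add, h3, h3', map_add, LinearMap.add_apply, map_add]
  | monomial n a =>
    intro s v
    obtain ⟨w, h1, h3⟩ := h.core_pow η hD n s v
    refine ⟨a • w, ?_, ?_⟩
    · rw [Submodule.coe_smul, h1, Polynomial.aeval_monomial, Be_apply, Be_apply]
      have e : (algebraMap K (End K E) a * Tf ^ n) η = a • (Tf ^ n) η := rfl
      rw [e, map_smul, LinearMap.smul_apply, map_smul]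
    · rw [map_smul, h3, Polynomial.aeval_monomial]
      have e : ∀ q, (algebraMap K (End K (CoreM (Be M (b η)))) a * D ^ n) q = a • (D ^ n) q :=
        fun q => rfl
      rw [e, map_smul]

/-- every eigenvalue of `D` is an eigenvalue of `T_f`. -/
theorem eig_D [FiniteDimensional K E] (h : Step M N b Tf) (η : E)
    {D : End K (CoreM (Be M (b η)))}
    (hD : ∀ s p, D (coreOp (Be M (b η)) s p) = coreN h η s p) {l : K} (hl : D.HasEigenvalue l) :
    Tf.HasEigenvalue l := by
  rw [Module.End.hasEigenvalue_iff_isRoot]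
  have h0 : (Polynomial.aeval Tf (minpoly K Tf)) = 0 := minpoly.aeval K Tf
  have h1 : ∀ q : CoreM (Be M (b η)), (Polynomial.aeval D (minpoly K Tf)) q = 0 := by
    intro q
    apply PL.core_noker
    intro s
    obtain ⟨v, rfl⟩ := (Rad (Be M (b η))).mkQ_surjective q
    obtain ⟨w, hw1, hw2⟩ := core_poly h η hD (minpoly K Tf) s v
    rw [← hw2]
    have hw0 : w = 0 := by
      apply Subtype.ext
      rw [hw1, h0, LinearMap.zero_apply, map_zero, Be_apply, LinearMap.zero_apply, map_zero]
      rfl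
    rw [hw0, map_zero]
  obtain ⟨v, hv⟩ := hl.exists_hasEigenvector
  have h3 := Module.End.aeval_apply_of_hasEigenvector (p := minpoly K Tf) hv
  rw [h1] at h3
  have h4 : (minpoly K Tf).eval l = 0 := by
    rcases smul_eq_zero.1 h3.symm with h5 | h5
    · exact h5
    · exact absurd h5 hv.2
  exact h4

end eig

section fin

variable {ι : Type*} [Fintype ι] [DecidableEq ι] {δ : Type*} [Fintype δ] [DecidableEq δ]
variable {k K : Type*} [Field k] [Field K] [Algebra k K]
variable {arm : δ → Fin 3} {J : Matrix ι ι K} {B : Matrix δ δ K}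
  {N W : Submodule K (Matrix ι δ K)} {g : Matrix ι δ K}

/-- the index map of `exists_step` as a linear map -/
abbrev bX (J : Matrix ι ι K) (N : Submodule K (Matrix ι δ K)) (arm : δ → Fin 3)
    (g : Matrix ι δ K) (R : Matrix δ ι K) :
    Xi J N arm g →ₗ[K] LinearMap.BilinForm K (Sg g) := bil g R ∘ₗ (Xi J N arm g).subtype

/-- **`2 #Λ ≤ dim T_Q`** for eigenvalues `Λ` of the operator `D_f` on the core of `(S, M_s η)`,
`η ∈ T_Q` (the data `Step` of `SpS.exists_step`). -/
theorem TQ_dim_core [IsAlgClosed K] (h2 : (2 : K) ≠ 0) (h : Ctx k arm J B N W g)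
    {R : Matrix δ ι K} {f : Matrix ι δ K} (hf : f ∈ N ⊓ W) {Tf : End K (Xi J N arm g)}
    {Ns : Fin 3 → (Dual K (Sg g) →ₗ[K] Sg g)}
    (hS : Step (Mg arm B g) Ns (bX J N arm g R) Tf)
    (hTf : ∀ (φ : Xi J N arm g) (p : NN arm J N g), (φ : Matrix δ δ K) = gᵀ * J * (p.1.1 * g) →
      ((Tf φ : Xi J N arm g) : Matrix δ δ K) = gᵀ * J * (p.1.1 * f))
    (η : Xi J N arm g) {D : End K (CoreM (Be (Mg arm B g) (bX J N arm g R η)))}
    (hD : ∀ s p, D (coreOp (Be (Mg arm B g) (bX J N arm g R η)) s p) = coreN hS η s p)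
    (L : Finset K) (hL : ∀ l ∈ L, D.HasEigenvalue l) :
    2 * L.card ≤ finrank K (Xi J N arm g) :=
  TQ_dim h2 h hf Tf hTf L fun l hl => eig_D hS η hD (hL l hl)

end fin

end Crest.Agent.R172.ThI
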