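import Crest.Agent.R172.Th1

/-!
Row 172 (S0260), the uniform ending with corrections.

`orbit`: for `f ∈ 𝒦`, `p ∈ NN g` there is a sequence `P i ∈ NN g`, `P 0 = p`, with
`φ_{P (i+1)} = T_f φ_{P i}`.  `Th_orbit`: `Θ(P i, P j) = 0` (so `Θ(φ, r(T_f) φ) = 0` for every
polynomial `r`).  `zero_of_cor`: if every form of `T_Q` is of the form
`T_q φ + r(T_f) φ`, `q ∈ 𝒦`, then `φ = 0`.  (The corrections `∑ μ_i e_i`, `e_i = r_i(D_f)`, of the
filtered slack are harmless.)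
-/

set_option autoImplicit false
set_option linter.unusedSectionVars false
set_option linter.unusedFintypeInType false
set_option linter.unusedDecidableInType false

namespace Crest.Agent.R172.ThI

open Matrix Module Crest.Agent.R172.FO Crest.Agent.R172.Qt

variable {ι : Type*} [Fintype ι] [DecidableEq ι] {δ : Type*} [Fintype δ] [DecidableEq δ]
variable {k K : Type*} [Field k] [Field K] [Algebra k K]
variable {arm : δ → Fin 3} {J : Matrix ι ι K} {B : Matrix δ δ K}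
  {N W : Submodule K (Matrix ι δ K)} {g : Matrix ι δ K}

/-- the orbit of `p` under `T_f` -/
theorem orbit (h : Ctx k arm J B N W g) {f : Matrix ι δ K} (hf : f ∈ N ⊓ W)
    {p : Matrix ι ι K × (Fin 3 → Matrix ι ι K)} (hp : p ∈ NN arm J N g) :
    ∃ P : ℕ → Matrix ι ι K × (Fin 3 → Matrix ι ι K), P 0 = p ∧ (∀ i, P i ∈ NN arm J N g) ∧
      ∀ i, gᵀ * J * ((P i).1 * f) = gᵀ * J * ((P (i + 1)).1 * g) := by
  choose T hT1 hT2 using fun q : NN arm J N g => h.tf hf q.2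
  let Q : ℕ → NN arm J N g := fun i => Nat.rec ⟨p, hp⟩ (fun _ q => ⟨T q, hT1 q⟩) i
  let P : ℕ → Matrix ι ι K × (Fin 3 → Matrix ι ι K) := fun i => (Q i).1
  refine ⟨P, rfl, fun i => (Q i).2, fun i => ?_⟩
  exact hT2 (Q i)

theorem Th_shift (h : Ctx k arm J B N W g) {f : Matrix ι δ K} (hf : f ∈ N ⊓ W)
    {P : ℕ → Matrix ι ι K × (Fin 3 → Matrix ι ι K)} (hP : ∀ i, P i ∈ NN arm J N g)
    (hs : ∀ i, gᵀ * J * ((P i).1 * f) = gᵀ * J * ((P (i + 1)).1 * g)) (i j : ℕ) :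
    Th arm J B g (P i) (P j) = Th arm J B g (P 0) (P (j + i)) := by
  induction i generalizing j with
  | zero => rfl
  | succ i ih =>
    rw [Th_selfadj h hf (hP i) (hP j) (hP (i + 1)) (hs i) (hs j), ih, Nat.add_right_comm,
      Nat.add_assoc]

/-- `Θ(T_f^i φ, T_f^j φ) = 0` -/
theorem Th_orbit (h2 : (2 : K) ≠ 0) (h : Ctx k arm J B N W g) {f : Matrix ι δ K}
    (hf : f ∈ N ⊓ W) {P : ℕ → Matrix ι ι K × (Fin 3 → Matrix ι ι K)}
    (hP : ∀ i, P i ∈ NN arm J N g)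
    (hs : ∀ i, gᵀ * J * ((P i).1 * f) = gᵀ * J * ((P (i + 1)).1 * g)) (i j : ℕ) :
    Th arm J B g (P i) (P j) = 0 := by
  have a1 := Th_shift h hf hP hs i j
  have a2 := Th_shift h hf hP hs j i
  have a3 := Th_skew h (hP i) (hP j)
  rw [Nat.add_comm i j] at a2
  have a4 : (2 : K) * Th arm J B g (P i) (P j) = 0 := by
    rw [a2, ← a1] at a3
    linear_combination a3
  exact (mul_eq_zero.1 a4).resolve_left h2

theorem Th_add_right (p q r : Matrix ι ι K × (Fin 3 → Matrix ι ι K)) :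
    Th arm J B g p (q + r) = Th arm J B g p q + Th arm J B g p r := by
  unfold Th
  rw [Prod.fst_add, Matrix.add_mul, pair_add_right]

theorem Th_smul_right (p q : Matrix ι ι K × (Fin 3 → Matrix ι ι K)) (c : K) :
    Th arm J B g p (c • q) = c * Th arm J B g p q := by
  unfold Th
  rw [Prod.smul_fst, Matrix.smul_mul, pair_smul_right]

/-- **The ending with corrections**: `p ∈ NN`, `f ∈ 𝒦`, `P i` the orbit of `p` under `T_f`; if
every form `φ_q` is `T_{f'} φ_p + ∑ c_i φ_{P i}` with `f' ∈ 𝒦`, then `φ_p = 0`. -/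
theorem zero_of_cor (h2 : (2 : K) ≠ 0) (h : Ctx k arm J B N W g) {f : Matrix ι δ K}
    (hf : f ∈ N ⊓ W) {P : ℕ → Matrix ι ι K × (Fin 3 → Matrix ι ι K)}
    (hP : ∀ i, P i ∈ NN arm J N g)
    (hs : ∀ i, gᵀ * J * ((P i).1 * f) = gᵀ * J * ((P (i + 1)).1 * g))
    (hall : ∀ q ∈ NN arm J N g, ∃ f' ∈ N ⊓ W, ∃ (m : Finset ℕ) (c : ℕ → K),
      gᵀ * J * (q.1 * g) = gᵀ * J * ((P 0).1 * f') +
        ∑ i ∈ m, c i • (gᵀ * J * ((P i).1 * g))) :
    gᵀ * J * ((P 0).1 * g) = 0 := by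
  refine Th_nondeg h (hP 0) fun q hq => ?_
  obtain ⟨f', hf', m, c, e1⟩ := hall q hq
  obtain ⟨p', hp', e2⟩ := h.tf hf' (hP 0)
  set q' : Matrix ι ι K × (Fin 3 → Matrix ι ι K) := p' + ∑ i ∈ m, c i • P i with hq'
  have e3 : gᵀ * J * (q.1 * g) = gᵀ * J * (q'.1 * g) := by
    rw [e1, e2, hq', Prod.fst_add, Matrix.add_mul, Matrix.mul_add, Prod.fst_sum, Matrix.sum_mul,
      Matrix.mul_sum]
    congr 1
    refine Finset.sum_congr rfl fun i _ => ?_
    rw [Prod.smul_fst, Matrix.smul_mul, Matrix.mul_smul]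
  have e4 : Th arm J B g (P 0) q = Th arm J B g (P 0) q' := Th_congr h (hP 0) e3
  have e5 : ∀ m : Finset ℕ, Th arm J B g (P 0) (∑ i ∈ m, c i • P i) = 0 := by
    intro m
    induction m using Finset.induction_on with
    | empty => simp [Th, pair_zero_right]
    | insert a T ha ih =>
      rw [Finset.sum_insert ha, Th_add_right, ih, Th_smul_right, Th_orbit h2 h hf hP hs,
        mul_zero, add_zero]
  rw [e4, hq', Th_add_right, e5, add_zero]
  exact Th_par h2 h hf' (hP 0) hp' e2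

end Crest.Agent.R172.ThI
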