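import Crest.Agent.R172.Core5

/-!
Row 172 (S0260), Theorem X of note 13222, linear algebra part.

`Φ_s = M_s(F,F)`, `Ψ_s = M_s(F,G)`, `Θ_s = M_s(G,G)` are self-adjoint operators with the exchange
relations `Φ_s Ψ_t = Ψ_s Φ_t`, `Ψ_s Ψ_t = Θ_s Φ_t`, `Ψ_s Θ_t = Θ_s Ψ_t`.
* `exists_tau`: on the core of `Φ` there is a self-adjoint `τ` commuting with the `Φ_s` with
  `Ψ_s = Φ_s τ`.
* `words_vanish`: if `τ` is nilpotent then all long words in the `Ψ_s` vanish on `V`.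
-/

set_option autoImplicit false

namespace Crest.Agent.R172.ThX

open Module LinearMap St _root_.Crest.Agent.R172.Core

variable {K : Type*} [Field K] {V : Type*} [AddCommGroup V] [Module K V] {ι : Type*}
variable {B : LinearMap.BilinForm K V} {Φ Ψ Θ : ι → End K V}

theorem wd_cons (Φ : ι → End K V) (s : ι) (l : List ι) (v : V) :
    wd Φ (s :: l) v = Φ s (wd Φ l v) := by simp [wd]

theorem wd_nil (Φ : ι → End K V) (v : V) : wd Φ [] v = v := by simp [wd]

/-- `Ψ_s` preserves the nilpotent filtration. -/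
theorem Nk_stable (hex : ∀ s t v, Φ s (Ψ t v) = Ψ s (Φ t v)) (k : ℕ) :
    ∀ t v, v ∈ Nk Φ k → Ψ t v ∈ Nk Φ k := by
  induction k with
  | zero => intro t v hv; rw [mem_Nk_zero] at hv ⊢; rw [hv, map_zero]
  | succ k ih =>
    intro t v hv
    rw [mem_Nk_succ] at hv ⊢
    intro s
    rw [hex]
    exact ih s _ (hv t)

theorem pres_Ψ (hΨ : ∀ s, Sa B (Ψ s)) (hex : ∀ s t v, Φ s (Ψ t v) = Ψ s (Φ t v)) (s : ι) :
    Pres B Φ (Ψ s) := by
  have hT : ∀ t ∈ T Φ, Ψ s t ∈ T Φ := by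
    intro t ht
    obtain ⟨k, hk⟩ := mem_T.1 ht
    exact mem_T.2 ⟨k, Nk_stable hex k s t hk⟩
  exact ⟨hT, fun t ht => Tp_stable (hΨ s) hT ht⟩

theorem exists_tau [FiniteDimensional K V] [Fintype ι] (hB : NS B) (hΦ : ∀ s, Sa B (Φ s))
    (hΨ : ∀ s, Sa B (Ψ s)) (hex : ∀ s t v, Φ s (Ψ t v) = Ψ s (Φ t v)) (C : St.Core B Φ) :
    ∃ τ : End K C.M, (∀ v w, BM C (τ v) w = BM C v (τ w)) ∧
      (∀ s v, τ (cp C (Φ s) v) = cp C (Φ s) (τ v)) ∧ (∀ s v, cp C (Ψ s) v = cp C (Φ s) (τ v)) := by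
  classical
  have hφ : ∀ s, ∀ v w, BM C (cp C (Φ s) v) w = BM C v (cp C (Φ s) w) :=
    fun s v w => cp_sa C (hΦ s) v w
  have hψ : ∀ s, ∀ v w, BM C (cp C (Ψ s) v) w = BM C v (cp C (Ψ s) w) :=
    fun s v w => cp_sa C (hΨ s) v w
  have hexM : ∀ s t v, cp C (Φ s) (cp C (Ψ t) v) = cp C (Ψ s) (cp C (Φ t) v) := by
    intro s t v
    rw [cp_comp C (pres_Φ hΦ s) (pres_Ψ hΨ hex t), cp_comp C (pres_Ψ hΨ hex s) (pres_Φ hΦ t)]
    congr 1
    exact congrArg _ (LinearMap.ext fun v => hex s t v)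
  let φh : (ι → C.M) →ₗ[K] C.M := ∑ s, (cp C (Φ s)) ∘ₗ LinearMap.proj s
  let ψh : (ι → C.M) →ₗ[K] C.M := ∑ s, (cp C (Ψ s)) ∘ₗ LinearMap.proj s
  have hφh : ∀ v, φh v = ∑ s, cp C (Φ s) (v s) := by intro v; simp [φh, LinearMap.sum_apply]
  have hψh : ∀ v, ψh v = ∑ s, cp C (Ψ s) (v s) := by intro v; simp [ψh, LinearMap.sum_apply]
  have hsurj : LinearMap.range φh = ⊤ := by
    have h1 := iSup_range_eq_top (NS_BM hB C) (Φ := fun s => cp C (Φ s)) hφ
      (fun v h => cp_ker hΦ C v h)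
    rw [eq_top_iff, ← h1]
    refine iSup_le fun s => ?_
    rintro _ ⟨v, rfl⟩
    refine ⟨Pi.single s v, ?_⟩
    rw [hφh, Finset.sum_eq_single s]
    · simp
    · intro t _ hts; simp [hts]
    · intro h; exact absurd (Finset.mem_univ s) h
  obtain ⟨σ, hσ⟩ := φh.exists_rightInverse_of_surjective hsurj
  have hσ' : ∀ x, φh (σ x) = x := fun x => LinearMap.congr_fun hσ x
  have hker : ∀ v, φh v = 0 → ψh v = 0 := by
    intro v hv
    apply cp_ker hΦ C
    intro t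
    rw [hψh, map_sum]
    have : ∀ s, cp C (Φ t) (cp C (Ψ s) (v s)) = cp C (Ψ t) (cp C (Φ s) (v s)) :=
      fun s => hexM t s (v s)
    simp only [this]
    rw [← map_sum, ← hφh, hv, map_zero]
  let τ : End K C.M := ψh ∘ₗ σ
  have hτ : ∀ v, τ (φh v) = ψh v := by
    intro v
    have h1 : ψh (σ (φh v) - v) = 0 := hker _ (by rw [map_sub, hσ', sub_self])
    rw [map_sub, sub_eq_zero] at h1
    exact h1
  have hrep : ∀ x, ∃ v, φh v = x := fun x => ⟨σ x, hσ' x⟩
  have hτφ : ∀ s v, τ (cp C (Φ s) v) = cp C (Ψ s) v := by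
    intro s v
    have h1 := hτ (Pi.single s v)
    have h2 : φh (Pi.single s v) = cp C (Φ s) v := by
      rw [hφh, Finset.sum_eq_single s]
      · simp
      · intro t _ hts; simp [hts]
      · intro h; exact absurd (Finset.mem_univ s) h
    have h3 : ψh (Pi.single s v) = cp C (Ψ s) v := by
      rw [hψh, Finset.sum_eq_single s]
      · simp
      · intro t _ hts; simp [hts]
      · intro h; exact absurd (Finset.mem_univ s) h
    rw [h2, h3] at h1
    exact h1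
  have hφτ : ∀ s x, cp C (Φ s) (τ x) = cp C (Ψ s) x := by
    intro s x
    obtain ⟨v, rfl⟩ := hrep x
    rw [hτ, hψh, hφh, map_sum, map_sum]
    exact Finset.sum_congr rfl fun t _ => hexM s t (v t)
  refine ⟨τ, ?_, ?_, ?_⟩
  · intro x y
    obtain ⟨v, rfl⟩ := hrep x
    obtain ⟨w, rfl⟩ := hrep y
    rw [hτ, hτ, hψh, hψh, hφh, hφh]
    simp only [map_sum, LinearMap.sum_apply]
    refine Finset.sum_congr rfl fun s _ => Finset.sum_congr rfl fun t _ => ?_
    rw [hψ, ← hexM, hφ]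
  · intro s v; rw [hτφ, hφτ]
  · intro s v; rw [hφτ]

/-- moving a `Θ` through a `Ψ`-word -/
theorem wd_theta (hΨΘ : ∀ s t v, Ψ s (Θ t v) = Θ s (Ψ t v)) (l : List ι) (s : ι) (x : V) :
    ∃ (a : ι) (l' : List ι), l'.length = l.length ∧ wd Ψ l (Θ s x) = Θ a (wd Ψ l' x) := by
  induction l with
  | nil => exact ⟨s, [], rfl, by simp [wd_nil]⟩
  | cons b l ih =>
    obtain ⟨a, l', hl', h⟩ := ih
    refine ⟨b, a :: l', by simp [hl'], ?_⟩
    rw [wd_cons, h, hΨΘ, wd_cons]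

theorem kill_Nk (hΨΨ : ∀ s t v, Ψ s (Ψ t v) = Θ s (Φ t v))
    (hΨΘ : ∀ s t v, Ψ s (Θ t v) = Θ s (Ψ t v)) (j : ℕ) :
    ∀ v, v ∈ Nk Φ j → ∀ l : List ι, l.length = 2 * j → wd Ψ l v = 0 := by
  induction j with
  | zero => intro v hv l _; rw [mem_Nk_zero] at hv; rw [hv, map_zero]
  | succ j ih =>
    intro v hv l hl
    have hl2 : l = l.take (2 * j) ++ l.drop (2 * j) := (List.take_append_drop _ _).symm
    have hlen1 : (l.take (2 * j)).length = 2 * j := by rw [List.length_take]; omega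
    have hlen2 : (l.drop (2 * j)).length = 2 := by rw [List.length_drop]; omega
    obtain ⟨s, t, hst⟩ : ∃ s t, l.drop (2 * j) = [s, t] := by
      match h : l.drop (2 * j), hlen2 with
      | [s, t], _ => exact ⟨s, t, rfl⟩
    rw [hl2, wd_append, hst, wd_cons, wd_cons, wd_nil, hΨΨ]
    obtain ⟨a, l', hl', h⟩ := wd_theta hΨΘ (l.take (2 * j)) s (Φ t v)
    rw [h, ih (Φ t v) (mem_Nk_succ.1 hv t) l' (by omega), map_zero]

/-- If `τ` is nilpotent on the core then all long `Ψ`-words vanish. -/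
theorem words_vanish [FiniteDimensional K V] (hΨ : ∀ s, Sa B (Ψ s))
    (hex : ∀ s t v, Φ s (Ψ t v) = Ψ s (Φ t v))
    (hΨΨ : ∀ s t v, Ψ s (Ψ t v) = Θ s (Φ t v)) (hΨΘ : ∀ s t v, Ψ s (Θ t v) = Θ s (Ψ t v))
    (C : St.Core B Φ) (τ : End K C.M) (hτφ : ∀ s v, τ (cp C (Φ s) v) = cp C (Φ s) (τ v))
    (hψ : ∀ s v, cp C (Ψ s) v = cp C (Φ s) (τ v)) (n : ℕ) (hn : ∀ v, (τ ^ n) v = 0) :
    ∃ m, ∀ l : List ι, m ≤ l.length → ∀ v, wd Ψ l v = 0 := by
  obtain ⟨N, hN⟩ := T_eq_Nk Φ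
  -- words on the core
  have hwdM : ∀ l : List ι, ∀ v, wd (fun s => cp C (Ψ s)) l v
      = wd (fun s => cp C (Φ s)) l ((τ ^ l.length) v) := by
    intro l
    induction l with
    | nil => intro v; simp [wd_nil]
    | cons s l ih =>
      intro v
      rw [wd_cons, wd_cons, hψ, ih]
      congr 1
      have hc : ∀ x, wd (fun s => cp C (Φ s)) l (τ x) = τ (wd (fun s => cp C (Φ s)) l x) :=
        fun x => wd_comm (Φ := fun s => cp C (Φ s)) (E := τ) hτφ l x
      rw [List.length_cons, pow_succ']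
      exact (hc _).symm
  have hpr : ∀ s, Pres B Φ (Ψ s) := fun s => pres_Ψ hΨ hex s
  have hprw : ∀ l : List ι, ∀ v ∈ Tp B Φ, wd Ψ l v ∈ Tp B Φ := by
    intro l
    induction l with
    | nil => intro v hv; rw [wd_nil]; exact hv
    | cons s l ih => intro v hv; rw [wd_cons]; exact (hpr s).Tp _ (ih v hv)
  have hπw : ∀ l : List ι, ∀ v ∈ Tp B Φ, C.π (wd Ψ l v)
      = ((wd (fun s => cp C (Ψ s)) l ⟨C.π v, C.mem v⟩ : C.M) : V) := by
    intro l
    induction l with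
    | nil => intro v _; rw [wd_nil, wd_nil]
    | cons s l ih =>
      intro v hv
      rw [wd_cons, wd_cons, cp_coe, ← ih v hv, pi_pres C (hpr s) (hprw l v hv)]
  have hmid : ∀ l : List ι, n ≤ l.length → ∀ v ∈ Tp B Φ, wd Ψ l v ∈ T Φ := by
    intro l hl v hv
    have h1 : C.π (wd Ψ l v) = 0 := by
      rw [hπw l v hv, hwdM]
      have h2 : (τ ^ l.length) (⟨C.π v, C.mem v⟩ : C.M) = 0 := by
        obtain ⟨k, hk⟩ := Nat.exists_eq_add_of_le hl
        rw [hk, add_comm, pow_add]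
        show (τ ^ k) ((τ ^ n) _) = 0
        rw [hn, map_zero]
      rw [h2, map_zero]; rfl
    have h3 := C.rem _ (hprw l v hv)
    rwa [h1, sub_zero] at h3
  have hkill : ∀ v ∈ T Φ, ∀ l : List ι, l.length = 2 * N → wd Ψ l v = 0 := by
    intro v hv l hl
    rw [hN] at hv
    exact kill_Nk hΨΨ hΨΘ N v hv l hl
  have himg : ∀ l : List ι, l.length = 2 * N → ∀ v, wd Ψ l v ∈ Tp B Φ := by
    intro l hl v t ht
    rw [wd_adj hΨ, hkill t ht _ (by rw [List.length_reverse]; exact hl), map_zero]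
  refine ⟨2 * N + n + 2 * N, fun l hl v => ?_⟩
  set a := l.length with ha
  have h1 : l = l.take (a - (n + 2 * N)) ++ l.drop (a - (n + 2 * N)) :=
    (List.take_append_drop _ _).symm
  set l1 := l.take (a - (n + 2 * N)) with hl1
  set l2 := l.drop (a - (n + 2 * N)) with hl2
  have hlen1 : 2 * N ≤ l1.length := by rw [hl1, List.length_take]; omega
  have hlen2 : l2.length = n + 2 * N := by rw [hl2, List.length_drop]; omega
  have h2 : l2 = l2.take n ++ l2.drop n := (List.take_append_drop _ _).symm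
  have hlen3 : (l2.take n).length = n := by rw [List.length_take]; omega
  have hlen4 : (l2.drop n).length = 2 * N := by rw [List.length_drop]; omega
  rw [h1, wd_append, h2, wd_append]
  have h3 := himg _ hlen4 v
  have h4 := hmid _ hlen3.ge _ h3
  have h5 : l1 = l1.take (l1.length - 2 * N) ++ l1.drop (l1.length - 2 * N) :=
    (List.take_append_drop _ _).symm
  rw [h5, wd_append, hkill _ h4 _ (by rw [List.length_drop]; omega), map_zero]

end Crest.Agent.R172.ThX
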