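import Crest.Agent.R172.SpS8
import Crest.Agent.R172.Qt4

/-!
Row 172 (S0260), t2/t3, note 15562 of helper745, parts (0) and (1): the skew form `Θ` on
`T_Q(g) = {gᵀ J X₀ g : (X₀, X_s) ∈ NN g}`.

* `Th p q = ⟨P g, Y₀ g⟩` for `p = (X₀, X_s)`, `q = (Y₀, Y_s)` in `NN g`: skew (`Ctx.Th_skew`),
  only depends on the forms (`Ctx.Th_zero`), nondegenerate (`Ctx.Th_nondeg`);
* `Ctx.Th_self` : `T_f` is self-adjoint for `Θ`, `f ∈ 𝒦 = N ⊓ W`;
* `Ctx.T_comm`  : the `T_f` commute;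
* `Ctx.Th_iso`  : `{T_f φ}` is `Θ`-isotropic;
* `Ctx.TQ_zero` : if `T_Q = {T_f φ : f ∈ 𝒦}` for some `φ ∈ T_Q` then `T_Q = 0`.
-/

set_option autoImplicit false
set_option linter.unusedSectionVars false
set_option linter.unusedFintypeInType false
set_option linter.unusedDecidableInType false

namespace Crest.Agent.R172.Theta

open Matrix Module Crest.Agent.R172.FO Crest.Agent.R172.Qt Crest.Agent.R172.SpS

variable {ι : Type*} [Fintype ι] [DecidableEq ι] {δ : Type*} [Fintype δ] [DecidableEq δ]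
variable {k K : Type*} [Field k] [Field K] [Algebra k K]
variable {arm : δ → Fin 3} {J : Matrix ι ι K} {B : Matrix δ δ K}
  {N W : Submodule K (Matrix ι δ K)} {g : Matrix ι δ K}

/-- the form `Θ` -/
def Th (arm : δ → Fin 3) (J : Matrix ι ι K) (B : Matrix δ δ K) (g : Matrix ι δ K)
    (p q : Matrix ι ι K × (Fin 3 → Matrix ι ι K)) : K := pair J B (Pg arm g p) (q.1 * g)

theorem Th_act (h : Ctx k arm J B N W g) {p q : Matrix ι ι K × (Fin 3 → Matrix ι ι K)}
    (hp : p ∈ NN arm J N g) (hq : q ∈ NN arm J N g) :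
    Th arm J B g p q = pair J B (Pg arm g p) (act arm q.2 g) := by
  have h3 : q.1 * g = act arm q.2 g + Pg arm g q := by unfold Pg; abel
  unfold Th
  rw [h3, pair_add_right, h.pair_Pg_Pg hp hq, add_zero]

theorem Th_skew (h : Ctx k arm J B N W g) {p q : Matrix ι ι K × (Fin 3 → Matrix ι ι K)}
    (hp : p ∈ NN arm J N g) (hq : q ∈ NN arm J N g) :
    Th arm J B g p q = - Th arm J B g q p := by
  rw [Th_act h hp hq, Th_act h hq hp, h.skew_w hq hp]

theorem Th_zero (h : Ctx k arm J B N W g) {p q : Matrix ι ι K × (Fin 3 → Matrix ι ι K)}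
    (hp : p ∈ NN arm J N g) (hq0 : gᵀ * J * (q.1 * g) = 0) :
    Th arm J B g p q = 0 := h.pair_Pg_A h.mem hp hq0

theorem Th_congr (h : Ctx k arm J B N W g) {p q q' : Matrix ι ι K × (Fin 3 → Matrix ι ι K)}
    (hp : p ∈ NN arm J N g) (hqq : gᵀ * J * (q.1 * g) = gᵀ * J * (q'.1 * g)) :
    Th arm J B g p q = Th arm J B g p q' := by
  have h1 : Th arm J B g p (q - q') = 0 := Th_zero h hp (by
    rw [Prod.fst_sub, Matrix.sub_mul, Matrix.mul_sub, hqq, sub_self])
  unfold Th at h1 ⊢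
  rw [Prod.fst_sub, Matrix.sub_mul, pair_sub_right, sub_eq_zero] at h1
  exact h1

theorem Th_nondeg (h : Ctx k arm J B N W g) {p : Matrix ι ι K × (Fin 3 → Matrix ι ι K)}
    (hp : p ∈ NN arm J N g) (h0 : ∀ q ∈ NN arm J N g, Th arm J B g p q = 0) :
    gᵀ * J * (p.1 * g) = 0 := by
  have h1 : gᵀ * J * (p.1 * g) = gᵀ * J * act arm p.2 g := by
    have := h.perp_Pg hp
    unfold Pg at this
    rw [Matrix.mul_sub, sub_eq_zero] at this
    exact this
  refine h.onto (h.W_mul _ h.memW) (hp.2.1.pres g h.memN) h1 ?_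
  refine LinearMap.ext fun q => ?_
  rw [fn_apply, LinearMap.zero_apply, ← Th_act h q.2 hp, Th_skew h q.2 hp, h0 q.1 q.2, neg_zero]

/-- the flip: `M_s(f,g)` is symmetric -/
theorem pair_flip (hD : Data k arm J B N W) {f g : Matrix ι δ K} (hf : f ∈ N ⊓ W)
    (hg : g ∈ N ⊓ W) (A C : Matrix ι ι K) (s : Fin 3) :
    pair J B (A * g) (C * f * E K arm s) = pair J B (C * g * E K arm s) (A * f) := by
  have e1 : pair J B (A * g) (C * f * E K arm s) = trace (Aᵀ * J * C * M arm B s f g) := by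
    unfold pair M
    rw [transpose_mul]
    have : gᵀ * Aᵀ * J * (C * f * E K arm s) * B = gᵀ * (Aᵀ * J * C * (f * E K arm s * B)) := by
      simp only [Matrix.mul_assoc]
    rw [this, trace_mul_comm]
    congr 1
    simp only [Matrix.mul_assoc]
  have e2 : pair J B (C * g * E K arm s) (A * f) = trace (Cᵀ * J * A * M arm B s f g) := by
    rw [pair_E hD.B_arm]
    unfold pair M
    rw [transpose_mul]
    have : gᵀ * Cᵀ * J * (A * f * E K arm s) * B = gᵀ * (Cᵀ * J * A * (f * E K arm s * B)) := by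
      simp only [Matrix.mul_assoc]
    rw [this, trace_mul_comm]
    congr 1
    simp only [Matrix.mul_assoc]
  have e3 : (M arm B s f g)ᵀ = M arm B s f g := by
    conv_rhs => rw [hD.symm_arm hf hg s]
    unfold M
    rw [transpose_mul, transpose_mul, transpose_mul, transpose_transpose, hD.B_symm, E_transpose]
    have : g * (B * (E K arm s * fᵀ)) = g * (B * E K arm s) * fᵀ := by
      simp only [Matrix.mul_assoc]
    rw [this, ← hD.B_arm]
    simp only [Matrix.mul_assoc]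
  rw [e1, e2, ← trace_transpose (Cᵀ * J * A * M arm B s f g)]
  have e4 : (Cᵀ * J * A * M arm B s f g)ᵀ = M arm B s f g * (Aᵀ * J * C) := by
    rw [transpose_mul, e3, transpose_mul, transpose_mul, transpose_transpose, hD.J_symm]
    simp only [Matrix.mul_assoc]
  rw [e4, trace_mul_comm]

theorem pair_flip_act (hD : Data k arm J B N W) {f g : Matrix ι δ K} (hf : f ∈ N ⊓ W)
    (hg : g ∈ N ⊓ W) (A : Matrix ι ι K) (X : Fin 3 → Matrix ι ι K) :
    pair J B (A * g) (act arm X f) = pair J B (act arm X g) (A * f) := by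
  unfold act
  rw [Ctx.pair_sum_right, Ctx.pair_sum_left]
  exact Finset.sum_congr rfl fun s _ => pair_flip hD hf hg A (X s) s

/-- `⟨P g, Y₀ f⟩` -/
theorem Th_f (h : Ctx k arm J B N W g) {f : Matrix ι δ K} (hf : f ∈ N ⊓ W)
    {p q q' : Matrix ι ι K × (Fin 3 → Matrix ι ι K)} (hp : p ∈ NN arm J N g)
    (hq : q ∈ NN arm J N g) (hqf : gᵀ * J * (q.1 * f) = gᵀ * J * (q'.1 * g)) :
    Th arm J B g p q' = pair J B (p.1 * g) (act arm q.2 f) := by
  have h1 : pair J B (Pg arm g p) (q'.1 * g) = pair J B (Pg arm g p) (q.1 * f) := by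
    obtain ⟨C, hC⟩ := Pg_InS hp
    have h2 : pair J B (Pg arm g p) (q.1 * f - q'.1 * g) = 0 := by
      rw [hC]
      exact pair_S (by rw [Matrix.mul_sub, hqf, sub_self]) C
    rw [pair_sub_right, sub_eq_zero] at h2
    exact h2.symm
  have h3 : pair J B (Pg arm g p) (q.1 * f) = pair J B (Pg arm g p) (act arm q.2 f) := by
    obtain ⟨C, hC⟩ := Pg_InS hp
    have h2 : pair J B (Pg arm g p) (q.1 * f - act arm q.2 f) = 0 := by
      rw [hC]
      exact pair_S (perp_Pf hq (h.perp f hf)) C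
    rw [pair_sub_right, sub_eq_zero] at h2
    exact h2
  have h4 : pair J B (Pg arm g p) (act arm q.2 f) = pair J B (p.1 * g) (act arm q.2 f) := by
    unfold Pg
    rw [pair_sub_left, h.pair_N (hp.2.1.pres g h.memN) (hq.2.1.pres f hf.1), sub_zero]
  unfold Th
  rw [h1, h3, h4]

/-- **`T_f` is self-adjoint** (in the form `Θ(q, T_f p) = - Θ(p, T_f q)`) -/
theorem Th_self (h : Ctx k arm J B N W g) {f : Matrix ι δ K} (hf : f ∈ N ⊓ W)
    {p q p' q' : Matrix ι ι K × (Fin 3 → Matrix ι ι K)} (hp : p ∈ NN arm J N g)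
    (hq : q ∈ NN arm J N g) (hpf : gᵀ * J * (p.1 * f) = gᵀ * J * (p'.1 * g))
    (hqf : gᵀ * J * (q.1 * f) = gᵀ * J * (q'.1 * g)) :
    Th arm J B g q p' = - Th arm J B g p q' := by
  rw [Th_f h hf hq hp hpf, Th_f h hf hp hq hqf, pair_flip_act h.data hf h.mem]
  -- `⟨P g, Q f⟩ = 0`
  have h1 : pair J B (Pg arm g p) (q.1 * f - act arm q.2 f) = 0 := by
    obtain ⟨C, hC⟩ := Pg_InS hp
    rw [hC]
    exact pair_S (perp_Pf hq (h.perp f hf)) C
  unfold Pg at h1
  rw [pair_sub_right, pair_sub_left, pair_sub_left, pair_W h.data (h.W_mul _ h.memW)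
    (h.W_mul _ hf.2), h.pair_N (hp.2.1.pres g h.memN) (hq.2.1.pres f hf.1)] at h1
  linear_combination -h1

/-- **the `T_f` commute** -/
theorem T_comm (h : Ctx k arm J B N W g) (hNil : NilW arm J B N g) {f f' : Matrix ι δ K}
    (hf : f ∈ N ⊓ W) (hf' : f' ∈ N ⊓ W)
    {p p1 p2 p12 p21 : Matrix ι ι K × (Fin 3 → Matrix ι ι K)}
    (hp12 : p12 ∈ NN arm J N g) (hp21 : p21 ∈ NN arm J N g)
    (h1 : gᵀ * J * (p.1 * f) = gᵀ * J * (p1.1 * g))
    (h12 : gᵀ * J * (p1.1 * f') = gᵀ * J * (p12.1 * g))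
    (h2 : gᵀ * J * (p.1 * f') = gᵀ * J * (p2.1 * g))
    (h21 : gᵀ * J * (p2.1 * f) = gᵀ * J * (p21.1 * g)) :
    gᵀ * J * (p12.1 * g) = gᵀ * J * (p21.1 * g) := by
  have key : ∀ s, gᵀ * J * (p12.1 * g) * (E K arm s * B) * gᵀ
      = gᵀ * J * (p21.1 * g) * (E K arm s * B) * gᵀ := by
    intro s
    have a1 := h.tf_rel hf' h12 s
    have a2 := h.tf_rel hf h21 s
    have b1 : gᵀ * J * (p1.1 * M arm B s g f') = gᵀ * J * p.1 * M arm B s f f' := by
      unfold M
      calc gᵀ * J * (p1.1 * (g * E K arm s * B * f'ᵀ))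
          = (gᵀ * J * (p1.1 * g)) * (E K arm s * B * f'ᵀ) := by simp only [Matrix.mul_assoc]
        _ = (gᵀ * J * (p.1 * f)) * (E K arm s * B * f'ᵀ) := by rw [h1]
        _ = _ := by simp only [Matrix.mul_assoc]
    have b2 : gᵀ * J * (p2.1 * M arm B s g f) = gᵀ * J * p.1 * M arm B s f' f := by
      unfold M
      calc gᵀ * J * (p2.1 * (g * E K arm s * B * fᵀ))
          = (gᵀ * J * (p2.1 * g)) * (E K arm s * B * fᵀ) := by simp only [Matrix.mul_assoc]
        _ = (gᵀ * J * (p.1 * f')) * (E K arm s * B * fᵀ) := by rw [h2]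
        _ = _ := by simp only [Matrix.mul_assoc]
    have c1 : gᵀ * J * (p12.1 * g) * (E K arm s * B) * gᵀ
        = gᵀ * J * (p12.1 * M arm B s g g) := by
      unfold M; simp only [Matrix.mul_assoc]
    have c2 : gᵀ * J * (p21.1 * g) * (E K arm s * B) * gᵀ
        = gᵀ * J * (p21.1 * M arm B s g g) := by
      unfold M; simp only [Matrix.mul_assoc]
    rw [c1, c2, ← a1, ← a2, b1, b2, h.data.symm_arm hf hf' s]
  have hr : p12 - p21 ∈ NN arm J N g := Submodule.sub_mem _ hp12 hp21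
  have h3 := hNil _ hr 2 (by
    intro l hl
    obtain ⟨s, t, rfl⟩ := List.length_eq_two.1 hl
    rw [List.map_cons, List.map_cons, List.map_nil, List.prod_cons, List.prod_cons,
      List.prod_nil, mul_one]
    change gᵀ * J * ((p12 - p21).1 * g) * (E K arm s * B) *
      (gᵀ * J * ((p12 - p21).1 * g) * (E K arm t * B)) = 0
    have e1 : gᵀ * J * ((p12 - p21).1 * g) * (E K arm s * B) * gᵀ = 0 := by
      rw [Prod.fst_sub, Matrix.sub_mul, Matrix.mul_sub, Matrix.sub_mul, Matrix.sub_mul, key s,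
        sub_self]
    calc gᵀ * J * ((p12 - p21).1 * g) * (E K arm s * B) *
        (gᵀ * J * ((p12 - p21).1 * g) * (E K arm t * B))
        = (gᵀ * J * ((p12 - p21).1 * g) * (E K arm s * B) * gᵀ) *
          (J * ((p12 - p21).1 * g) * (E K arm t * B)) := by simp only [Matrix.mul_assoc]
      _ = 0 := by rw [e1, Matrix.zero_mul])
  rw [Prod.fst_sub, Matrix.sub_mul, Matrix.mul_sub, sub_eq_zero] at h3
  exact h3

/-- **`{T_f φ}` is `Θ`-isotropic** -/
theorem Th_iso (h : Ctx k arm J B N W g) (h2 : (2 : K) ≠ 0) (hNil : NilW arm J B N g)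
    {f f' : Matrix ι δ K} (hf : f ∈ N ⊓ W) (hf' : f' ∈ N ⊓ W)
    {p p1 p2 : Matrix ι ι K × (Fin 3 → Matrix ι ι K)}
    (hp : p ∈ NN arm J N g) (hp1 : p1 ∈ NN arm J N g) (hp2 : p2 ∈ NN arm J N g)
    (h1 : gᵀ * J * (p.1 * f) = gᵀ * J * (p1.1 * g))
    (h2' : gᵀ * J * (p.1 * f') = gᵀ * J * (p2.1 * g)) : Th arm J B g p1 p2 = 0 := by
  obtain ⟨p12, hp12, h12⟩ := h.tf hf' hp1
  obtain ⟨p21, hp21, h21⟩ := h.tf hf hp2
  -- Θ(p1, T_f' p) = - Θ(p, T_f' p1)
  have e1 := Th_self h hf' hp hp1 h2' h12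
  -- Θ(p2, T_f p) = - Θ(p, T_f p2)
  have e2 := Th_self h hf hp hp2 h1 h21
  have e3 := T_comm h hNil hf hf' hp12 hp21 h1 h12 h2' h21
  have e4 : Th arm J B g p p12 = Th arm J B g p p21 := Th_congr h hp e3
  have e5 := Th_skew h hp1 hp2
  have e6 : (2 : K) * Th arm J B g p1 p2 = 0 := by
    linear_combination e1 + e5 - e2 - e4
  exact (mul_eq_zero.1 e6).resolve_left h2

/-- **If `T_Q` is the orbit `{T_f φ : f ∈ 𝒦}` of one of its elements then `T_Q = 0`.** -/
theorem TQ_zero (h : Ctx k arm J B N W g) (h2 : (2 : K) ≠ 0) (hNil : NilW arm J B N g)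
    {p : Matrix ι ι K × (Fin 3 → Matrix ι ι K)} (hp : p ∈ NN arm J N g)
    (hall : ∀ q ∈ NN arm J N g, ∃ f ∈ N ⊓ W, gᵀ * J * (p.1 * f) = gᵀ * J * (q.1 * g)) :
    ∀ q ∈ NN arm J N g, gᵀ * J * (q.1 * g) = 0 := by
  intro q hq
  refine Th_nondeg h hq fun q' hq' => ?_
  obtain ⟨f, hf, h1⟩ := hall q hq
  obtain ⟨f', hf', h1'⟩ := hall q' hq'
  exact Th_iso h h2 hNil hf hf' hp hq hq' h1 h1'

/-- the case `dim T_Q ≤ 1` -/
theorem TQ_zero_of_one (h : Ctx k arm J B N W g) (h2 : (2 : K) ≠ 0)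
    {p : Matrix ι ι K × (Fin 3 → Matrix ι ι K)} (hp : p ∈ NN arm J N g)
    (hall : ∀ q ∈ NN arm J N g, ∃ t : K, gᵀ * J * (q.1 * g) = t • (gᵀ * J * (p.1 * g))) :
    ∀ q ∈ NN arm J N g, gᵀ * J * (q.1 * g) = 0 := by
  have hpp : Th arm J B g p p = 0 := by
    have := Th_skew h hp hp
    have e6 : (2 : K) * Th arm J B g p p = 0 := by linear_combination this
    exact (mul_eq_zero.1 e6).resolve_left h2
  have hsm : ∀ q ∈ NN arm J N g, ∀ q' ∈ NN arm J N g, ∀ t : K,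
      gᵀ * J * (q'.1 * g) = t • (gᵀ * J * (p.1 * g)) →
      Th arm J B g q q' = t * Th arm J B g q p := by
    intro q hq q' hq' t ht
    have h1 : Th arm J B g q (t • p) = t * Th arm J B g q p := by
      unfold Th
      rw [Prod.smul_fst, Matrix.smul_mul, pair_smul_right]
    rw [← h1]
    refine Th_congr h hq ?_
    rw [ht, Prod.smul_fst, Matrix.smul_mul, Matrix.mul_smul]
  intro q hq
  refine Th_nondeg h hq fun q' hq' => ?_
  obtain ⟨t, ht⟩ := hall q hq
  obtain ⟨t', ht'⟩ := hall q' hq'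
  rw [hsm q hq q' hq' t' ht', Th_skew h hq hp, hsm p hp q hq t ht, hpp]
  ring

end Crest.Agent.R172.Theta
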