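import Crest.Agent.R172.Pol
import Crest.Agent.R172.GmSO
import Crest.Agent.R172.SpHW2
import Crest.Agent.R172.HM7

/-!
R172: the outer assembly. `Core n` is the statement of the core of the proof, at the generic point
`(g, H)`; `result_of_core` deduces the statement of S0260 from it.
-/

set_option autoImplicit false
set_option linter.unusedSectionVars false

namespace Crest.Agent.R172.Top

open Matrix Crest.AlgebraR.SpinSaturation Crest.Agent.R172.Fwd Crest.Agent.R172.CF
open Crest.Agent.R172.Gen (Jm Ix emb Ent ent IsSo)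
open Crest.Agent.R172.HM4 (bb Efl)

variable {n : ℕ}

/-- The generic point `(g, H)` of `SO(V)^3 × Λ²`, with everything that is known about it. -/
structure GPt (n m : ℕ) (K : Type) [Field K] [Algebra ℂ K]
    (g : Fin 3 → Matrix (Ix n) (Ix n) K) (H : Matrix (Fin m) (Fin m) K) : Prop where
  closed : IsAlgClosed K
  orth : ∀ s, (g s)ᵀ * Jm n K * g s = Jm n K
  det : ∀ s, (g s).det = 1
  skew : Hᵀ = -H
  diag : ∀ x, H x x = 0
  /-- (b) every polynomial over `ℂ` which is nonzero at some point above a certain complex point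
  `g0 ∈ SO(V)^3` is nonzero at the generic point -/
  nonzero : ∃ g0 : Fin 3 → Matrix (Ix n) (Ix n) ℂ,
    (∀ s, (g0 s)ᵀ * Jm n ℂ * g0 s = Jm n ℂ ∧ (g0 s).det = 1) ∧
    ∀ (P : MvPolynomial (Ent n (Fin m)) ℂ) (H0 : Matrix (Fin m) (Fin m) ℂ), H0ᵀ = -H0 →
      MvPolynomial.aeval (ent g0 H0) P ≠ 0 → MvPolynomial.aeval (ent g H) P ≠ 0
  /-- (d) all directions are realised by derivations -/
  dir : ∀ (L : Type) [Field L] [Algebra K L] [Algebra ℂ L] [IsScalarTower ℂ K L]
    (X : Fin 3 → Matrix (Ix n) (Ix n) L), (∀ s, IsSo (X s)) →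
      ∀ (G : Matrix (Fin m) (Fin m) L), Gᵀ = -G →
        ∃ D : Derivation ℂ L L, (∀ s, (emb K L (g s)).map D = X s * emb K L (g s)) ∧
          (emb K L H).map D = G
  /-- (e) generic solutions of linear systems over `K` -/
  ker : ∀ (a b : Type) [Fintype a] [Fintype b] [DecidableEq a] [DecidableEq b] (A : Matrix a b K),
    ∃ (L : Type) (_ : Field L) (_ : Algebra K L) (_ : Algebra ℂ L) (_ : IsScalarTower ℂ K L)
      (_ : IsAlgClosed L) (_ : CharZero L) (F : b → L),
      emb K L A *ᵥ F = 0 ∧
      (∀ p : MvPolynomial b K, MvPolynomial.aeval F p = 0 →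
        ∀ x : b → K, A *ᵥ x = 0 → MvPolynomial.aeval x p = 0) ∧
      (∀ (X : Fin 3 → Matrix (Ix n) (Ix n) L), (∀ s, IsSo (X s)) →
        ∀ (G : Matrix (Fin m) (Fin m) L), Gᵀ = -G →
        ∃ δ : Derivation ℂ L L,
          (∀ s, (emb K L (g s)).map δ = X s * emb K L (g s)) ∧ (emb K L H).map δ = G ∧
          ∀ w : b → L, emb K L A *ᵥ w + (emb K L A).map δ *ᵥ F = 0 →
            ∃ D : Derivation ℂ L L, (∀ a : K, D (algebraMap K L a) = δ (algebraMap K L a)) ∧
              (∀ s, (emb K L (g s)).map D = X s * emb K L (g s)) ∧ (emb K L H).map D = G ∧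
              ∀ j, D (F j) = w j)

/-- The necessary inequalities at `g`, over all extensions of `K`. -/
def HMIneq (a : Fin 3 → Fin n → ℤ) (K : Type) [Field K]
    (g : Fin 3 → Matrix (Ix n) (Ix n) K) : Prop :=
  ∀ (L : Type) [Field L] [Algebra K L] (S T : Submodule L (Ix n → L)),
    (∀ x ∈ S, ∀ y ∈ S, HM2.form n L x y = 0) →
    (∀ v, v ∈ T ↔ ∀ s ∈ S, HM2.form n L v s = 0) →
    ∑ s, ∑ i : Fin n, (bb (a s) i - bb (a s) ((i : ℕ) + 1)) *
      ((Module.finrank L ↥(S ⊓ Efl (a s) (emb K L (g s)) i) : ℤ) +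
        Module.finrank L ↥(T ⊓ Efl (a s) (emb K L (g s)) i) -
        Module.finrank L (Efl (a s) (emb K L (g s)) i)) ≤ 0

/-- **The statement of the core.** -/
def Core (n : ℕ) : Prop :=
  ∀ (a : Fin 3 → Fin n → ℤ), (∀ s, IsDominantIntegral n (a s)) →
    InRootLattice n (a 0 + a 1 + a 2) →
    ∀ (c : Cfg n a) (p : Pol c) (K : Type) [Field K] [Algebra ℂ K]
      (g : Fin 3 → Matrix (Ix n) (Ix n) K) (H : Matrix (Fin p.m) (Fin p.m) K),
      GPt n p.m K g H → HMIneq a K g →
      ∀ F ∈ VL (p.LH H), F ∈ c.N g → F = 0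

/-- direction (⇐) of S0260 from the statement of the core at one configuration. -/
theorem invariant_of_at (hn : 2 ≤ n) (A : Fin 3 → Fin n → ℤ)
    (hA : ∀ s, IsDominantIntegral n (A s)) (cfg : Cfg n A) (p : Pol cfg)
    (hcore : ∀ (K : Type) [Field K] [Algebra ℂ K] (g : Fin 3 → Matrix (Ix n) (Ix n) K)
      (H : Matrix (Fin p.m) (Fin p.m) K), GPt n p.m K g H → HMIneq A K g →
        ∀ F ∈ VL (p.LH H), F ∈ cfg.N g → F = 0) (N : ℕ) (hN : 1 ≤ N)
    (U : Irrep n (A 0)) (V : Irrep n (A 1)) (W : Irrep n (A 2))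
    (U' : Irrep n (N • A 0)) (V' : Irrep n (N • A 1)) (W' : Irrep n (N • A 2))
    (h : HasInvariant U' V' W') : HasInvariant U V W := by
  obtain ⟨X⟩ := SpHW2.exists_HW hn (SpHW2.dom_smul (hA 0) N)
  obtain ⟨Y⟩ := SpHW2.exists_HW hn (SpHW2.dom_smul (hA 1) N)
  obtain ⟨Z⟩ := SpHW2.exists_HW hn (SpHW2.dom_smul (hA 2) N)
  obtain ⟨P, ⟨w, hw, hP⟩, hineq⟩ := HM7.hm_final.{0} (a := A) hn
    (fun s => HM7.dom_of_integral (hA s)) hN X Y Z U' V' W' h
  -- the generic package
  obtain ⟨K, iK, iA, hcl, h0, g, H, horth, hskew, hdiag, hb', hc', hd', he'⟩ :=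
    Gen.package ℂ (M := Fin p.m) (fun s => gm (w s)) (fun s => (GmSO.gm_orth (hw s)).1)
  have hG : GPt n p.m K g H :=
    { closed := hcl
      orth := horth
      det := by
        intro s
        -- the polynomial `det g_s + 1` is nonzero
        let Q : MvPolynomial (Ent n (Fin p.m)) ℂ := (Pol.gX p.m s).det + 1
        have hQ : ∀ (L : Type) [Field L] [Algebra ℂ L] (g' : Fin 3 → Matrix (Ix n) (Ix n) L)
            (H' : Matrix (Fin p.m) (Fin p.m) L),
            MvPolynomial.aeval (ent g' H') Q = (g' s).det + 1 := by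
          intro L _ _ g' H'
          let φ : Pol.PR n p.m →+* L :=
            (MvPolynomial.aeval (ent g' H') : Pol.PR n p.m →ₐ[ℂ] L).toRingHom
          have h1 : φ (Pol.gX p.m s).det = (g' s).det := by
            rw [RingHom.map_det]
            congr 1
            ext i j
            simp [φ, Pol.gX, ent]
          have h2 : φ Q = (g' s).det + 1 := by
            rw [← h1]
            simp only [Q, map_add, map_one]
          exact h2
        have h1 := hb' Q 0 (by simp) (by
          rw [hQ, (GmSO.gm_orth (hw s)).2]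
          norm_num)
        rw [hQ] at h1
        have h2 : (g s).det * (g s).det = 1 := by
          have h3 := congrArg Matrix.det (horth s)
          have h4 := congrArg Matrix.det (Jm_sq n K)
          rw [det_mul, det_one] at h4
          rw [det_mul, det_mul, det_transpose] at h3
          have h5 : (Jm n K).det ≠ 0 := left_ne_zero_of_mul (h4 ▸ one_ne_zero)
          apply mul_right_cancel₀ h5
          linear_combination h3
        have h3 : ((g s).det - 1) * ((g s).det + 1) = 0 := by
          rw [sub_mul, mul_add, h2]; ring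
        exact sub_eq_zero.1 ((mul_eq_zero.1 h3).resolve_right h1)
      skew := hskew
      diag := hdiag
      nonzero := ⟨fun s => gm (w s), fun s => GmSO.gm_orth (hw s), hb'⟩
      dir := hd'
      ker := he' }
  have hI : HMIneq A K g := by
    intro L _ _ S T hS hT
    let _ : Algebra ℂ L := ((algebraMap K L).comp (algebraMap ℂ K)).toAlgebra
    have hst : IsScalarTower ℂ K L := IsScalarTower.of_algebraMap_eq (fun x => rfl)
    have hcz : CharZero L := charZero_of_injective_algebraMap (algebraMap K L).injective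
    refine hineq L (fun s => emb K L (g s)) ?_ S T hS hT
    -- transport the nonvanishing
    have h1 := hb' (MvPolynomial.rename Sum.inl P) 0 (by simp) (by
      rw [MvPolynomial.aeval_rename, ← MvPolynomial.coe_aeval_eq_eval] at *
      exact hP)
    rw [MvPolynomial.aeval_rename] at h1
    intro h2
    apply h1
    apply (algebraMap K L).injective
    rw [map_zero, ← h2, ← MvPolynomial.aeval_algebraMap_apply]
    rfl
  have hker := hcore K g H hG hI
  obtain ⟨h', H', hh', hH', _, hker'⟩ := hc' _ _ p.Lam ((p.Lam_trivial horth H).2 hker)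
  have ho' : ∀ s, (h' s)ᵀ * Jm n ℂ * h' s = Jm n ℂ := fun s => (hh' s).1
  exact SpLink.hasInvariant cfg hn h' ho'
    (fun s => by rw [(hh' s).2]; exact (GmSO.gm_orth (hw s)).2) (p.LH H') (p.LH_iso hH')
    (p.finrank_LH H') ((p.Lam_trivial ho' H').1 hker') U V W

/-- **S0260 from the core.** -/
theorem result_of_core (hn : 2 ≤ n) (hcore : Core n) (a b c : Fin n → ℤ)
    (ha : IsDominantIntegral n a) (hb : IsDominantIntegral n b) (hc : IsDominantIntegral n c)
    (habc : InRootLattice n (a + b + c)) (N : ℕ) (hN : 1 ≤ N)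
    (U : Irrep n a) (V : Irrep n b) (W : Irrep n c)
    (U' : Irrep n (N • a)) (V' : Irrep n (N • b)) (W' : Irrep n (N • c)) :
    HasInvariant U V W ↔ HasInvariant U' V' W' := by
  constructor
  · exact SpHW2.forward hn ha hb hc N hN U V W U' V' W'
  intro h
  let A : Fin 3 → Fin n → ℤ := ![a, b, c]
  have hA : ∀ s, IsDominantIntegral n (A s) := by
    intro s
    fin_cases s
    · exact ha
    · exact hb
    · exact hc
  have hr : InRootLattice n (A 0 + A 1 + A 2) := habc
  obtain ⟨cfg, hev, -⟩ := SpHW2.exists_cfg_root hn A hA hr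
  obtain ⟨p⟩ := exists_pol cfg hev
  exact invariant_of_at hn A hA cfg p (fun K _ _ g H hG hI => hcore A hA hr cfg p K g H hG hI)
    N hN U V W U' V' W' h

end Crest.Agent.R172.Top
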