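import Crest.Agent.R172.Top
import Crest.Agent.R172.HM10
import Crest.Agent.R172.Par5

/-!
R172: the outer assembly, final form: `CoreK n` = "at the generic point, semistability (all fields above
`K`) implies `dim (V ⊗ L_H) ∩ N(g) ≤ 1`" implies the statement of S0260.
-/

set_option autoImplicit false
set_option linter.unusedSectionVars false

namespace Crest.Agent.R172.Top

open Matrix Crest.AlgebraR.SpinSaturation Crest.Agent.R172.Fwd Crest.Agent.R172.CF
open Crest.Agent.R172.Gen (Jm Ix emb Ent ent IsSo)

variable {n : ℕ}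

/-- semistability at `g`, over all extensions of `K` -/
def SemiAll {a : Fin 3 → Fin n → ℤ} (c : Cfg n a) (K : Type) [Field K]
    (g : Fin 3 → Matrix (Ix n) (Ix n) K) : Prop :=
  ∀ (L : Type) [Field L] [Algebra K L], HM10.Semi c (fun s => emb K L (g s))

/-- **The core**: `k ≤ 1` at the generic point. -/
def CoreK (n : ℕ) : Prop :=
  ∀ (a : Fin 3 → Fin n → ℤ), (∀ s, IsDominantIntegral n (a s)) →
    InRootLattice n (a 0 + a 1 + a 2) →
    ∀ (c : Cfg n a) (p : Pol c) (K : Type) [Field K] [Algebra ℂ K]
      (g : Fin 3 → Matrix (Ix n) (Ix n) K) (H : Matrix (Fin p.m) (Fin p.m) K),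
      GPt n p.m K g H → SemiAll c K g →
      Module.finrank K ↥(VL (p.LH H) ⊓ c.N g) ≤ 1

theorem emb_orth {K L : Type} [Field K] [Field L] [Algebra K L] {g : Matrix (Ix n) (Ix n) K}
    (hg : gᵀ * Jm n K * g = Jm n K) : (emb K L g)ᵀ * Jm n L * emb K L g = Jm n L := by
  have h := congrArg (fun A : Matrix (Ix n) (Ix n) K => A.map (algebraMap K L)) hg
  simp only [Matrix.map_mul, Pol.Jm_map] at h
  exact h

theorem core_of_coreK (hcore : CoreK n) : Core n := by
  intro a ha hr c p K _ _ g H hG hI
  have hcz : CharZero K := charZero_of_injective_algebraMap (algebraMap ℂ K).injective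
  have hS : SemiAll c K g := by
    intro L _ _
    have hczL : CharZero L := charZero_of_injective_algebraMap (algebraMap K L).injective
    exact HM10.semi_of c (fun s => emb_orth (hG.orth s)) (hI L)
  exact Par.eq_zero_of_finrank_le_one c two_ne_zero (p.LH_iso hG.skew) (p.finrank_LH H) hG.orth
    hG.det hr (hcore a ha hr c p K g H hG hS)

/-- **S0260 from the core.** -/
theorem result_of_coreK (hn : 2 ≤ n) (hcore : CoreK n) (a b c : Fin n → ℤ)
    (ha : IsDominantIntegral n a) (hb : IsDominantIntegral n b) (hc : IsDominantIntegral n c)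
    (habc : InRootLattice n (a + b + c)) (N : ℕ) (hN : 1 ≤ N)
    (U : Irrep n a) (V : Irrep n b) (W : Irrep n c)
    (U' : Irrep n (N • a)) (V' : Irrep n (N • b)) (W' : Irrep n (N • c)) :
    HasInvariant U V W ↔ HasInvariant U' V' W' :=
  result_of_core hn (core_of_coreK hcore) a b c ha hb hc habc N hN U V W U' V' W'

end Crest.Agent.R172.Top
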