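import Crest.Agent.R172.FO2

/-!
Row 172 (S0260): the first derivative with EXPLICIT `ξ` (tensors live in `U ⊗ U`).

`H ∈ N ⊓ W` generic, `S = Hᵀ J H`, `ω_r = B E_r S : U → U`.
* `mul_om` : `F ω_r = Φ_r(H) F` for EVERY `F ∈ N ⊓ W` (exact `A`-linearity).
* `exists_move` : skew `Y_r` on `U` with `Σ (Y_r ω_rᵀ - ω_r Y_r) = 0`; put
  `Z = Σ Y_r S E_r`, `X_r = H Y_r Hᵀ J`. Then some `d` realises `(X, Zᵀ)` with `d H = H Z = X H`,
  and `Hᵀ J (d F - F Z)` is symmetric for every `F ∈ N ⊓ W`.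
-/

set_option linter.unusedSectionVars false
set_option linter.unusedSimpArgs false

namespace Crest.Agent.R172.UXi

open Matrix Crest.Agent.R172.FO

variable {ι : Type*} [Fintype ι] [DecidableEq ι] {δ : Type*} [Fintype δ] [DecidableEq δ]
variable {k K : Type*} [Field k] [Field K] [Algebra k K]
variable {arm : δ → Fin 3} {J : Matrix ι ι K} {B : Matrix δ δ K}
  {N W : Submodule K (Matrix ι δ K)}

/-- `ω_s = B E_s Hᵀ J H` -/
def om (arm : δ → Fin 3) (J : Matrix ι ι K) (B : Matrix δ δ K) (H : Matrix ι δ K) (s : Fin 3) :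
    Matrix δ δ K :=
  B * E K arm s * (Hᵀ * J * H)

/-- `Z = Σ Y_s S E_s` -/
def ZZ (arm : δ → Fin 3) (J : Matrix ι ι K) (H : Matrix ι δ K) (Y : Fin 3 → Matrix δ δ K) :
    Matrix δ δ K :=
  ∑ s, Y s * (Hᵀ * J * H) * E K arm s

/-- `X_s = H Y_s Hᵀ J` -/
def XX (J : Matrix ι ι K) (H : Matrix ι δ K) (Y : Fin 3 → Matrix δ δ K) (s : Fin 3) :
    Matrix ι ι K :=
  H * Y s * Hᵀ * J

lemma om_transpose (hD : Data k arm J B N W) (H : Matrix ι δ K) (s : Fin 3) :
    (om arm J B H s)ᵀ = (Hᵀ * J * H) * E K arm s * B := by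
  unfold om
  simp only [transpose_mul, transpose_transpose, E_transpose, hD.J_symm, hD.B_symm,
    Matrix.mul_assoc]

lemma mul_om (hD : Data k arm J B N W) {H F : Matrix ι δ K} (hH : H ∈ N ⊓ W)
    (hF : F ∈ N ⊓ W) (s : Fin 3) :
    F * om arm J B H s = M arm B s H H * J * F := by
  have h1 : F * om arm J B H s = M arm B s F H * J * H := by
    unfold om M
    rw [← hD.B_arm]
    simp only [Matrix.mul_assoc]
  rw [h1, hD.symm_arm hF hH s]
  unfold M
  calc H * E K arm s * B * Fᵀ * J * H = H * E K arm s * B * (Fᵀ * J * H) := by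
        simp only [Matrix.mul_assoc]
    _ = H * E K arm s * B * (Hᵀ * J * F) := by rw [hD.symm_U hH hF]
    _ = _ := by simp only [Matrix.mul_assoc]

lemma act_XX (H : Matrix ι δ K) (Y : Fin 3 → Matrix δ δ K) :
    act arm (XX J H Y) H = H * ZZ arm J H Y := by
  unfold act XX ZZ
  rw [Matrix.mul_sum]
  exact Finset.sum_congr rfl fun s _ => by simp only [Matrix.mul_assoc]

lemma XX_skew (hD : Data k arm J B N W) (H : Matrix ι δ K) (Y : Fin 3 → Matrix δ δ K)
    (hY : ∀ s, (Y s)ᵀ = -Y s) (s : Fin 3) : (XX J H Y s)ᵀ * J + J * XX J H Y s = 0 := by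
  unfold XX
  simp only [transpose_mul, transpose_transpose, hD.J_symm, hY, Matrix.neg_mul, Matrix.mul_neg,
    Matrix.mul_assoc]
  abel

lemma ZZ_skew (hD : Data k arm J B N W) (H : Matrix ι δ K) (Y : Fin 3 → Matrix δ δ K)
    (hY : ∀ s, (Y s)ᵀ = -Y s)
    (hex : ∑ s, (Y s * (om arm J B H s)ᵀ - om arm J B H s * Y s) = 0) :
    ((ZZ arm J H Y)ᵀ)ᵀ * B + B * (ZZ arm J H Y)ᵀ = 0 := by
  rw [← hex]
  unfold ZZ
  rw [transpose_transpose, transpose_sum, Matrix.sum_mul, Matrix.mul_sum,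
    ← Finset.sum_add_distrib]
  refine Finset.sum_congr rfl fun s _ => ?_
  rw [om_transpose hD]
  unfold om
  simp only [transpose_mul, transpose_transpose, hD.J_symm, hY, E_transpose, Matrix.neg_mul,
    Matrix.mul_neg, Matrix.mul_assoc, sub_eq_add_neg]

/-- the move with explicit `ξ` -/
theorem exists_move (hD : Data k arm J B N W) {H : Matrix ι δ K} (hH : Generic k arm N W H)
    (Y : Fin 3 → Matrix δ δ K) (hY : ∀ s, (Y s)ᵀ = -Y s)
    (hex : ∑ s, (Y s * (om arm J B H s)ᵀ - om arm J B H s * Y s) = 0) :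
    ∃ d : Derivation k K K, Realises arm N W (XX J H Y) (ZZ arm J H Y)ᵀ d ∧
      H.map d = H * ZZ arm J H Y ∧
      ∀ F ∈ N ⊓ W, F.map d - F * ZZ arm J H Y ∈ W ∧
        F.map d - act arm (XX J H Y) F ∈ N ∧
        (Hᵀ * J * (F.map d - F * ZZ arm J H Y))ᵀ = Hᵀ * J * (F.map d - F * ZZ arm J H Y) := by
  obtain ⟨d0, hd0⟩ := hD.dir (XX J H Y) (ZZ arm J H Y)ᵀ (XX_skew hD H Y hY)
    (ZZ_skew hD H Y hY hex)
  have hw0 := hd0.onW H hH.mem.2
  rw [transpose_transpose] at hw0
  have hn0 := hd0.onN H hH.mem.1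
  rw [act_XX] at hn0
  obtain ⟨d1, hd1, hr⟩ := hH.vert _ ⟨hn0, hw0⟩
  have hsub : ∀ {α β : Type _} (G : Matrix α β K), G.map (d0 - d1) = G.map d0 - G.map d1 := by
    intro α β G; ext i j; simp
  have hR : Realises arm N W (XX J H Y) (ZZ arm J H Y)ᵀ (d0 - d1) := by
    refine ⟨fun G hG => ?_, fun G hG => ?_⟩
    · have h2 := hd0.onN G hG
      have h3 := hr.onN G hG
      rw [act_zero, sub_zero] at h3
      rw [hsub]
      have := Submodule.sub_mem _ h2 h3
      convert this using 1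
      abel
    · have h2 := hd0.onW G hG
      have h3 := hr.onW G hG
      rw [transpose_zero, Matrix.mul_zero, sub_zero] at h3
      rw [hsub]
      have := Submodule.sub_mem _ h2 h3
      convert this using 1
      abel
  have hHd : H.map (d0 - d1) = H * ZZ arm J H Y := by
    rw [hsub, hd1]; abel
  refine ⟨d0 - d1, hR, hHd, fun F hF => ?_⟩
  have hw := hR.onW F hF.2
  rw [transpose_transpose] at hw
  refine ⟨hw, hR.onN F hF.1, ?_⟩
  -- differentiate `Fᵀ J H = Hᵀ J F`
  have h1 := hD.symm_U hH.mem hF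
  generalize hd : d0 - d1 = d at *
  have h2 : (Fᵀ * J * H).map d = (Hᵀ * J * F).map d := by rw [h1]
  rw [map_mul_der, map_mul_der, map_mul_der, map_mul_der, hD.J_const, Matrix.mul_zero, add_zero,
    Matrix.mul_zero, add_zero, map_transpose_der, map_transpose_der, hHd] at h2
  generalize ZZ arm J H Y = Z at *
  rw [transpose_mul, transpose_mul, transpose_transpose, transpose_sub, transpose_mul,
    hD.J_symm, Matrix.sub_mul, Matrix.mul_sub]
  -- goal : F'ᵀ (J H) - Zᵀ Fᵀ (J H) = Hᵀ J F' - Hᵀ J (F Z)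
  rw [transpose_mul] at h2
  have h3 : (F.map d)ᵀ * (J * H) = (F.map d)ᵀ * J * H := by rw [Matrix.mul_assoc]
  have h4 : Zᵀ * Fᵀ * (J * H) = Zᵀ * Hᵀ * J * F := by
    calc Zᵀ * Fᵀ * (J * H) = Zᵀ * (Fᵀ * J * H) := by simp only [Matrix.mul_assoc]
      _ = _ := by rw [h1]; simp only [Matrix.mul_assoc]
  have h5 : Hᵀ * J * (F * Z) = Fᵀ * J * (H * Z) := by
    calc Hᵀ * J * (F * Z) = (Hᵀ * J * F) * Z := by simp only [Matrix.mul_assoc]
      _ = _ := by rw [← h1]; simp only [Matrix.mul_assoc]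
  rw [h3, h4, h5, sub_eq_sub_iff_add_eq_add, h2]
  abel

/-- the relation: `Σ_s (F Y_s Hᵀ J H - H Y_s Fᵀ J H) E_s = n - w`. -/
theorem relation (hD : Data k arm J B N W) {H F : Matrix ι δ K} (hH : H ∈ N ⊓ W)
    (hF : F ∈ N ⊓ W) (Y : Fin 3 → Matrix δ δ K) (d : Derivation k K K) :
    (∑ s, (F * Y s * Hᵀ - H * Y s * Fᵀ) * J * H * E K arm s)
      = (F.map d - act arm (XX J H Y) F) - (F.map d - F * ZZ arm J H Y) := by
  have h1 : F * ZZ arm J H Y = ∑ s, F * Y s * Hᵀ * J * H * E K arm s := by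
    unfold ZZ
    rw [Matrix.mul_sum]
    exact Finset.sum_congr rfl fun s _ => by simp only [Matrix.mul_assoc]
  have h2 : act arm (XX J H Y) F = ∑ s, H * Y s * Fᵀ * J * H * E K arm s := by
    unfold act XX
    refine Finset.sum_congr rfl fun s _ => ?_
    calc H * Y s * Hᵀ * J * F * E K arm s = H * Y s * (Hᵀ * J * F) * E K arm s := by
          simp only [Matrix.mul_assoc]
      _ = H * Y s * (Fᵀ * J * H) * E K arm s := by rw [← hD.symm_U hH hF]
      _ = _ := by simp only [Matrix.mul_assoc]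
  rw [h1, h2]
  simp only [Matrix.sub_mul, Finset.sum_sub_distrib]
  abel

/-- the covariant derivative `∇u = du + Z u` lifts `d` on `V`: `H ∇u = d(H u)`, and for every
`F ∈ N ⊓ W`, `(dF - F Z) u = d(F u) - F ∇u` (any matrix `u` with `δ` rows). -/
theorem nabla (F : Matrix ι δ K) (Z : Matrix δ δ K) (d : Derivation k K K) {β : Type*}
    (u : Matrix δ β K) :
    (F.map d - F * Z) * u = (F * u).map d - F * (u.map d + Z * u) := by
  rw [map_mul_der, Matrix.sub_mul, Matrix.mul_add, Matrix.mul_assoc]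
  abel

/-- `∇(ω_s u) = ω_s ∇u + (Y_s ω_sᵀ - ω_s Y_s) S u`. -/
theorem nabla_om (hD : Data k arm J B N W) {H : Matrix ι δ K} (Y : Fin 3 → Matrix δ δ K)
    (hY : ∀ s, (Y s)ᵀ = -Y s) (d : Derivation k K K) (hHd : H.map d = H * ZZ arm J H Y)
    (s : Fin 3) {β : Type*} (u : Matrix δ β K) :
    (om arm J B H s * u).map d + ZZ arm J H Y * (om arm J B H s * u)
      = om arm J B H s * (u.map d + ZZ arm J H Y * u)
        + (Y s * (om arm J B H s)ᵀ - om arm J B H s * Y s) * ((Hᵀ * J * H) * u) := by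
  have hE : ∀ t, E K arm t * (B * E K arm s) = if t = s then E K arm s * B else 0 := by
    intro t
    rw [← Matrix.mul_assoc, hD.B_arm, Matrix.mul_assoc]
    split_ifs with h
    · subst h
      rw [E_mul_self, hD.B_arm]
    · rw [E_mul_ne arm h, Matrix.mul_zero]
  have hS : (Hᵀ * J * H).map d
      = (ZZ arm J H Y)ᵀ * (Hᵀ * J * H) + (Hᵀ * J * H) * ZZ arm J H Y := by
    rw [map_mul_der, map_mul_der, hD.J_const, Matrix.mul_zero, add_zero, map_transpose_der, hHd,
      transpose_mul]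
    simp only [Matrix.mul_assoc]
  have h1 : (om arm J B H s).map d = B * E K arm s * ((ZZ arm J H Y)ᵀ * (Hᵀ * J * H))
      + om arm J B H s * ZZ arm J H Y := by
    unfold om
    rw [map_mul_der, map_mul_der, hD.B_const, E_map_der, hS, Matrix.zero_mul, Matrix.mul_zero,
      add_zero, Matrix.zero_mul, zero_add, Matrix.mul_add]
    simp only [Matrix.mul_assoc]
  have h2 : E K arm s * (ZZ arm J H Y)ᵀ = - (E K arm s * ((Hᵀ * J * H) * Y s)) := by
    unfold ZZ
    rw [transpose_sum, Matrix.mul_sum, Finset.sum_eq_single s]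
    · simp only [transpose_mul, transpose_transpose, hD.J_symm, hY, E_transpose, Matrix.mul_neg,
        Matrix.mul_assoc]
      rw [← Matrix.mul_assoc (E K arm s) (E K arm s), E_mul_self]
    · intro t _ ht
      simp only [transpose_mul, E_transpose]
      rw [← Matrix.mul_assoc (E K arm s) (E K arm t), E_mul_ne arm (Ne.symm ht),
        Matrix.zero_mul]
    · intro h
      exact absurd (Finset.mem_univ s) h
  have h3 : ZZ arm J H Y * (B * E K arm s) = Y s * (Hᵀ * J * H) * E K arm s * B := by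
    unfold ZZ
    rw [Matrix.sum_mul, Finset.sum_eq_single s]
    · rw [Matrix.mul_assoc _ (E K arm s), hE s, if_pos rfl, Matrix.mul_assoc _ (E K arm s)]
    · intro t _ ht
      rw [Matrix.mul_assoc _ (E K arm t), hE t, if_neg ht, Matrix.mul_zero]
    · intro h
      exact absurd (Finset.mem_univ s) h
  rw [map_mul_der, h1, om_transpose hD]
  have h4 : ZZ arm J H Y * (om arm J B H s * u)
      = Y s * ((Hᵀ * J * H) * E K arm s * B) * ((Hᵀ * J * H) * u) := by
    unfold om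
    calc ZZ arm J H Y * (B * E K arm s * (Hᵀ * J * H) * u)
        = (ZZ arm J H Y * (B * E K arm s)) * ((Hᵀ * J * H) * u) := by
          simp only [Matrix.mul_assoc]
      _ = _ := by rw [h3]; simp only [Matrix.mul_assoc]
  have h5 : B * E K arm s * ((ZZ arm J H Y)ᵀ * (Hᵀ * J * H)) * u
      = - (om arm J B H s * Y s * ((Hᵀ * J * H) * u)) := by
    calc B * E K arm s * ((ZZ arm J H Y)ᵀ * (Hᵀ * J * H)) * u
        = B * (E K arm s * (ZZ arm J H Y)ᵀ) * ((Hᵀ * J * H) * u) := by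
          simp only [Matrix.mul_assoc]
      _ = _ := by
          rw [h2]
          unfold om
          simp only [Matrix.mul_neg, Matrix.neg_mul, Matrix.mul_assoc]
  rw [h4, Matrix.add_mul, h5, Matrix.sub_mul, Matrix.mul_add]
  simp only [Matrix.mul_assoc]
  abel

end Crest.Agent.R172.UXi
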