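import Crest.Agent.R172.FC2
import Crest.Agent.R172.FrmP

/-!
Row 172 (S0260), TAME (T0), arbitrary radical and `D`: EXACT LIFT of the connection matrix `π`
(`p.map d = p π`) for a cover frame `p` with the properties
* `(C)`  `Q x = 0 → φ_r x = 0` (`Q = Fᵀ J p`),
* `(UC)` `∑ φ_r x_r = 0 → Q x_r = Q x_0`.
The relation `p (π φ_r + φ_r' - φ_r π) = p T_r` can be made exact (without `p`).
-/

set_option autoImplicit false
set_option linter.unusedSectionVars false

namespace Crest.Agent.R172.XL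

open Matrix Crest.Agent.R172.FO Crest.Agent.R172.FC

variable {ι : Type*} [Fintype ι] [DecidableEq ι] {δ : Type*} [Fintype δ] [DecidableEq δ]
variable {n : Type*} [Fintype n] [DecidableEq n]
variable {k K : Type*} [Field k] [Field K] [Algebra k K]

theorem ext_mulVec' {α : Type*} {A C : Matrix α n K} (h : ∀ x : n → K, A *ᵥ x = C *ᵥ x) :
    A = C := by
  apply Matrix.ext_of_mulVec_single
  intro i
  exact h _

theorem map_sum3 {α β : Type*} (d : Derivation k K K) (A : Fin 3 → Matrix α β K) :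
    (∑ s, A s).map d = ∑ s, (A s).map d := FrmB.map_sum_der d A

/-- derivative of `A x = 0` -/
theorem der_mulVec {α : Type*} (d : Derivation k K K) {A : Matrix α n K} {x : n → K}
    (h : A *ᵥ x = 0) : (A.map d) *ᵥ x + A *ᵥ (fun i => d (x i)) = 0 := by
  ext i
  have h1 := congrFun h i
  rw [Matrix.mulVec, dotProduct, Pi.zero_apply] at h1
  have h2 := congrArg d h1
  rw [map_sum, map_zero] at h2
  rw [Pi.add_apply, Pi.zero_apply, ← h2, Matrix.mulVec, Matrix.mulVec, dotProduct, dotProduct,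
    ← Finset.sum_add_distrib]
  refine Finset.sum_congr rfl fun j _ => ?_
  rw [Derivation.leibniz, Matrix.map_apply, smul_eq_mul, smul_eq_mul]
  ring

/-- **exact lift** -/
theorem exact_lift {α : Type*} {p : Matrix ι n K} {Q : Matrix α n K}
    {φ ρ T : Fin 3 → Matrix n n K} {d : Derivation k K K} {π0 : Matrix n n K}
    (hp : p.map d = p * π0)
    (hker : ∀ x : n → K, p *ᵥ x = 0 → Q *ᵥ x = 0)
    (hC : ∀ r (x : n → K), Q *ᵥ x = 0 → φ r *ᵥ x = 0)
    (hUC : ∀ x : Fin 3 → n → K, ∑ r, φ r *ᵥ x r = 0 → ∀ r, Q *ᵥ x r = Q *ᵥ x 0)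
    (hρ : ∑ r, φ r * ρ r = 1) (hφ : ∑ r, φ r = 0) (hT : ∑ r, T r = 0)
    (hrel : ∀ r, p * (π0 * φ r + (φ r).map d - φ r * π0) = p * T r)
    (hK : ∀ r (x : n → K), Q *ᵥ x = 0 →
      T r *ᵥ x = 0 ∧ ((φ r).map d - φ r * π0) *ᵥ x = 0) :
    ∃ π : Matrix n n K, p.map d = p * π ∧ ∀ r, π * φ r + (φ r).map d - φ r * π = T r := by
  obtain ⟨κ, hκ⟩ : ∃ κ : Fin 3 → Matrix n n K,
      ∀ r, κ r = T r - (π0 * φ r + (φ r).map d - φ r * π0) := ⟨_, fun _ => rfl⟩
  have hpκ : ∀ r, p * κ r = 0 := by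
    intro r; rw [hκ, Matrix.mul_sub, hrel, sub_self]
  have hκ0 : ∑ r, κ r = 0 := by
    simp only [hκ]
    rw [Finset.sum_sub_distrib, hT, zero_sub, neg_eq_zero, Finset.sum_sub_distrib,
      Finset.sum_add_distrib, ← Matrix.mul_sum, ← Matrix.sum_mul, hφ, ← map_sum3, hφ,
      Matrix.mul_zero, Matrix.zero_mul]
    have : (0 : Matrix n n K).map d = 0 := by ext i j; simp
    rw [this]; simp
  have hκx : ∀ r (x : n → K), Q *ᵥ x = 0 → κ r *ᵥ x = 0 := by
    intro r x hx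
    obtain ⟨h1, h2⟩ := hK r x hx
    have h3 := hC r x hx
    have e : κ r = T r - (π0 * φ r + ((φ r).map d - φ r * π0)) := by rw [hκ]; abel
    rw [e, Matrix.sub_mulVec, h1, Matrix.add_mulVec, h2, ← Matrix.mulVec_mulVec, h3,
      Matrix.mulVec_zero, add_zero, sub_zero]
  obtain ⟨ζ, hζ⟩ : ∃ ζ : Matrix n n K, ζ = ∑ r, κ r * ρ r := ⟨_, rfl⟩
  have hpζ : p * ζ = 0 := by
    rw [hζ, Matrix.mul_sum]
    refine Finset.sum_eq_zero fun r _ => ?_
    rw [← Matrix.mul_assoc, hpκ, Matrix.zero_mul]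
  have hφζ : ∀ r, φ r * ζ = 0 := by
    intro r
    apply ext_mulVec'
    intro x
    rw [← Matrix.mulVec_mulVec, Matrix.zero_mulVec]
    apply hC
    apply hker
    rw [Matrix.mulVec_mulVec, hpζ, Matrix.zero_mulVec]
  have hζφ : ∀ s, ζ * φ s = κ s := by
    intro s
    apply ext_mulVec'
    intro x
    obtain ⟨y, hy⟩ : ∃ y : Fin 3 → n → K,
        ∀ r, y r = ρ r *ᵥ (φ s *ᵥ x) - if r = s then x else 0 := ⟨_, fun _ => rfl⟩
    have hy0 : ∑ r, φ r *ᵥ y r = 0 := by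
      have e : ∀ r, φ r *ᵥ y r = (φ r * ρ r) *ᵥ (φ s *ᵥ x) - if r = s then φ s *ᵥ x else 0 := by
        intro r
        rw [hy, Matrix.mulVec_sub, Matrix.mulVec_mulVec]
        split_ifs with h
        · rw [h]
        · rw [Matrix.mulVec_zero]
      simp only [e]
      rw [Finset.sum_sub_distrib, ← Matrix.sum_mulVec, hρ, Matrix.one_mulVec,
        Finset.sum_ite_eq' Finset.univ s, if_pos (Finset.mem_univ s), sub_self]
    have hQy := hUC y hy0
    have h1 : ∑ r, κ r *ᵥ y r = 0 := by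
      have e : ∀ r, κ r *ᵥ y r = κ r *ᵥ y 0 := by
        intro r
        have := hκx r (y r - y 0) (by rw [Matrix.mulVec_sub, hQy r, sub_self])
        rw [Matrix.mulVec_sub] at this
        exact sub_eq_zero.1 this
      simp only [e]
      rw [← Matrix.sum_mulVec, hκ0, Matrix.zero_mulVec]
    have e2 : ∑ r, κ r *ᵥ y r = (ζ * φ s) *ᵥ x - κ s *ᵥ x := by
      have e : ∀ r, κ r *ᵥ y r = (κ r * ρ r) *ᵥ (φ s *ᵥ x) - if r = s then κ s *ᵥ x else 0 := by
        intro r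
        rw [hy, Matrix.mulVec_sub, Matrix.mulVec_mulVec]
        split_ifs with h
        · rw [h]
        · rw [Matrix.mulVec_zero]
      simp only [e]
      rw [Finset.sum_sub_distrib, ← Matrix.sum_mulVec, ← hζ,
        Finset.sum_ite_eq' Finset.univ s, if_pos (Finset.mem_univ s), Matrix.mulVec_mulVec]
    rw [e2] at h1
    exact sub_eq_zero.1 h1
  refine ⟨π0 + ζ, ?_, fun r => ?_⟩
  · rw [Matrix.mul_add, hpζ, add_zero, hp]
  · have e : (π0 + ζ) * φ r + (φ r).map d - φ r * (π0 + ζ) =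
        (π0 * φ r + (φ r).map d - φ r * π0) + (ζ * φ r - φ r * ζ) := by
      rw [Matrix.add_mul, Matrix.mul_add]; abel
    rw [e, hζφ, hφζ, sub_zero, hκ]
    abel

section first

variable {arm : δ → Fin 3} {J : Matrix ι ι K} {B : Matrix δ δ K}
  {N W : Submodule K (Matrix ι δ K)} {F G : Matrix ι δ K} {p : Matrix ι n K}
  {al : Fin 3 → Matrix n n K} {τ : Matrix n n K}

theorem gam_al (h : Ctx k arm J B N W F G p al τ) (s : Fin 3) :
    (pᵀ * J * p) * al s = (al s)ᵀ * (pᵀ * J * p) := by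
  have hM : (M arm B s F F)ᵀ = M arm B s F F := by
    unfold M
    rw [transpose_mul, transpose_mul, transpose_mul, transpose_transpose, E_transpose,
      h.data.B_symm]
    simp only [Matrix.mul_assoc]
    rw [← Matrix.mul_assoc B, ← h.data.B_arm, Matrix.mul_assoc]
  have h1 := h.hal s
  have h2 := congrArg transpose h1
  unfold Phi at h1 h2
  rw [transpose_mul, transpose_mul, hM, h.data.J_symm, transpose_mul] at h2
  calc (pᵀ * J * p) * al s = pᵀ * J * (p * al s) := by rw [Matrix.mul_assoc]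
    _ = pᵀ * (J * M arm B s F F) * (J * p) := by rw [← h1]; simp only [Matrix.mul_assoc]
    _ = (al s)ᵀ * (pᵀ * J * p) := by rw [h2]; simp only [Matrix.mul_assoc]

/-- the two properties of the cover frame -/
structure UCov (al : Fin 3 → Matrix n n K) (Q : Matrix δ n K) : Prop where
  sum : ∑ s, al s = 0
  cen : ∀ s (x : n → K), Q *ᵥ x = 0 → al s *ᵥ x = 0
  uni : ∀ x : Fin 3 → n → K, ∑ s, al s *ᵥ x s = 0 → ∀ s, Q *ᵥ x s = Q *ᵥ x 0

theorem UCov.ker_of {al : Fin 3 → Matrix n n K} {Q : Matrix δ n K} (hU : UCov al Q)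
    {x : n → K} (hx : al 1 *ᵥ x = 0) : Q *ᵥ x = 0 := by
  have h := hU.uni (fun s => if s = 1 then x else 0) (by
    rw [Finset.sum_eq_single (1 : Fin 3)]
    · simpa using hx
    · intro s _ hs
      simp [hs]
    · intro h
      exact absurd (Finset.mem_univ _) h) 1
  simpa using h

/-- operators commuting with `al` preserve the kernel of `Q` -/
theorem UCov.ker_comm {al : Fin 3 → Matrix n n K} {Q : Matrix δ n K} (hU : UCov al Q)
    {c : Matrix n n K} (hc : c * al 1 = al 1 * c) {x : n → K} (hx : Q *ᵥ x = 0) :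
    Q *ᵥ (c *ᵥ x) = 0 := by
  apply hU.ker_of
  rw [Matrix.mulVec_mulVec, ← hc, ← Matrix.mulVec_mulVec, hU.cen 1 x hx, Matrix.mulVec_zero]

/-- **FIRST DERIVATIVE with an exact connection matrix.** -/
theorem first_exact (h : Ctx k arm J B N W F G p al τ) {c : K} {kap kai : Matrix n n K}
    (hp : Par k arm J B N W F G p τ c kap kai) (hU : UCov al (Fᵀ * J * p))
    (χ : Fin 3 → Matrix n n K) (hχ : ∀ s, (χ s)ᵀ = - χ s)
    (hex : ∑ s, (χ s * (kap * kap)ᵀ * (al s)ᵀ - al s * (kap * kap) * χ s) = 0) :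
    ∃ (d : Derivation k K K) (ξ : Matrix δ δ K) (θ : Matrix n n K),
      Realises arm N W (fun s => p * χ s * pᵀ * J) ξ d ∧ p.map d = p * θ ∧
      (F + c • G).map d = act arm (fun s => p * χ s * pᵀ * J) (F + c • G) ∧
      FrmB.Q3 arm J B N W F p (fun s => kai * χ s * kapᵀ - χ s)
        (FrmB.io arm J F p (fun s => kai * χ s * kapᵀ) - F.map d)
        (c • (nab d θ τ * kai)) ∧
      (pᵀ * J * p) * nab d θ τ = (nab d θ τ)ᵀ * (pᵀ * J * p) ∧
      (∀ s, nab d θ (al s * (kap * kap)) =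
        χ s * (pᵀ * J * p) * (al s * (kap * kap)) -
          al s * (kap * kap) * (χ s * (pᵀ * J * p))) := by
  obtain ⟨d, ξ, θ0, hreal, hθ0, hdH, hQ3, hsa, hβ⟩ := h.firstQ hp χ hχ hex
  obtain ⟨ρ, hρ⟩ := h.perf
  have hkk := hp.mul
  have hkk' := h.mul' hp
  obtain ⟨γ, hγ⟩ : ∃ γ : Matrix n n K, γ = pᵀ * J * p := ⟨_, rfl⟩
  obtain ⟨Q, hQ⟩ : ∃ Q : Matrix δ n K, Q = (F + c • G)ᵀ * J * p := ⟨_, rfl⟩
  have hQ' : Q = Fᵀ * J * p * kap := by rw [hQ, h.Hp hp]
  obtain ⟨φ, hφ⟩ : ∃ φ : Fin 3 → Matrix n n K, ∀ s, φ s = al s * (kap * kap) :=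
    ⟨_, fun _ => rfl⟩
  have hcomm : ∀ s, kap * kap * al s = al s * (kap * kap) := by
    intro s
    rw [Matrix.mul_assoc, h.kap_al hp, ← Matrix.mul_assoc, h.kap_al hp, Matrix.mul_assoc]
  -- kernel facts
  have hQF : ∀ x : n → K, Q *ᵥ x = 0 → (Fᵀ * J * p) *ᵥ x = 0 := by
    intro x hx
    rw [hQ', ← Matrix.mulVec_mulVec] at hx
    have := hU.ker_comm (h.kai_al hp 1) hx
    rwa [Matrix.mulVec_mulVec x kai kap, hkk', Matrix.one_mulVec] at this
  have hFQ : ∀ x : n → K, (Fᵀ * J * p) *ᵥ x = 0 → Q *ᵥ x = 0 := by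
    intro x hx
    rw [hQ', ← Matrix.mulVec_mulVec]
    exact hU.ker_comm (h.kap_al hp 1) hx
  have hker : ∀ x : n → K, p *ᵥ x = 0 → Q *ᵥ x = 0 := by
    intro x hx
    rw [hQ, ← Matrix.mulVec_mulVec, hx, Matrix.mulVec_zero]
  have hC : ∀ r (x : n → K), Q *ᵥ x = 0 → φ r *ᵥ x = 0 := by
    intro r x hx
    rw [hφ, ← Matrix.mulVec_mulVec]
    apply hU.cen
    have e : (kap * kap) *ᵥ x = kap *ᵥ (kap *ᵥ x) := (Matrix.mulVec_mulVec _ _ _).symm
    rw [e]
    exact hU.ker_comm (h.kap_al hp 1) (hU.ker_comm (h.kap_al hp 1) (hQF x hx))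
  have hUC : ∀ x : Fin 3 → n → K, ∑ r, φ r *ᵥ x r = 0 → ∀ r, Q *ᵥ x r = Q *ᵥ x 0 := by
    intro x hx r
    have h1 : ∑ r, al r *ᵥ ((kap * kap) *ᵥ x r) = 0 := by
      rw [← hx]
      refine Finset.sum_congr rfl fun s _ => ?_
      rw [hφ, Matrix.mulVec_mulVec]
    have h2 := hU.uni _ h1 r
    have h3 : (Fᵀ * J * p) *ᵥ ((kap * kap) *ᵥ (x r - x 0)) = 0 := by
      rw [Matrix.mulVec_sub, Matrix.mulVec_sub, h2, sub_self]
    have h4 := hU.ker_comm (h.kai_al hp 1) h3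
    have e : kai *ᵥ ((kap * kap) *ᵥ (x r - x 0)) = kap *ᵥ (x r - x 0) := by
      rw [Matrix.mulVec_mulVec, ← Matrix.mul_assoc, hkk', Matrix.one_mul]
    rw [e, Matrix.mulVec_mulVec, ← hQ', Matrix.mulVec_sub] at h4
    exact sub_eq_zero.1 h4
  have hγx : ∀ x : n → K, Q *ᵥ x = 0 → γ *ᵥ x = 0 := by
    intro x hx
    have hx' := hQF x hx
    obtain ⟨v, hv, -⟩ := h.exists_v
    have e : γ = vᵀ * (Fᵀ * J * p) := by
      rw [hγ]
      conv_lhs => rw [← hv]
      rw [transpose_mul, hv]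
      simp only [Matrix.mul_assoc]
    rw [e, ← Matrix.mulVec_mulVec, hx', Matrix.mulVec_zero]
  obtain ⟨T, hT⟩ : ∃ T : Fin 3 → Matrix n n K, ∀ s, T s = χ s * γ * φ s - φ s * (χ s * γ) :=
    ⟨_, fun _ => rfl⟩
  have hφ0 : ∑ s, φ s = 0 := by
    simp only [hφ]
    rw [← Matrix.sum_mul, hU.sum, Matrix.zero_mul]
  have hρ' : ∑ s, φ s * (kai * kai * ρ s) = 1 := by
    rw [← hρ]
    refine Finset.sum_congr rfl fun s _ => ?_
    have e : φ s * (kai * kai * ρ s) = al s * (kap * (kap * kai) * kai) * ρ s := by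
      rw [hφ s]; simp only [Matrix.mul_assoc]
    rw [e, hkk, Matrix.mul_one, hkk, Matrix.mul_one]
  have hγφ : ∀ s, γ * φ s = (kap * kap)ᵀ * (al s)ᵀ * γ := by
    intro s
    have h1 := gam_al h s
    have h2 := h.kap_sa hp
    rw [← hγ] at h1 h2
    have h3 : (al s)ᵀ * (kap * kap)ᵀ = (kap * kap)ᵀ * (al s)ᵀ := by
      rw [← transpose_mul, ← transpose_mul, hcomm]
    have h4 : γ * (kap * kap) = (kap * kap)ᵀ * γ := by
      rw [← Matrix.mul_assoc, h2, Matrix.mul_assoc, h2, transpose_mul, Matrix.mul_assoc]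
    rw [hφ, ← Matrix.mul_assoc, h1, Matrix.mul_assoc, h4, ← Matrix.mul_assoc, h3]
  have hT0 : ∑ s, T s = 0 := by
    have e : ∀ s, T s = (χ s * (kap * kap)ᵀ * (al s)ᵀ - al s * (kap * kap) * χ s) * γ := by
      intro s
      rw [hT, Matrix.mul_assoc, hγφ, hφ, Matrix.sub_mul]
      simp only [Matrix.mul_assoc]
    simp only [e]
    rw [← Matrix.sum_mul, hex, Matrix.zero_mul]
  have hrel : ∀ r, p * (θ0 * φ r + (φ r).map d - φ r * θ0) = p * T r := by
    intro r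
    have h1 := hβ r
    unfold nab at h1
    rw [hT, hφ, hγ, ← h1]
    congr 1
    abel
  have hdH' : ∀ x : n → K, Q *ᵥ x = 0 →
      (((F + c • G).map d)ᵀ * J * p) *ᵥ x = 0 := by
    intro x hx
    have hg := hγx x hx
    have e : ((F + c • G).map d)ᵀ * J * p =
        (∑ s, E K arm s * ((F + c • G)ᵀ * J * p) * (χ s)ᵀ) * γ := by
      rw [hdH]
      unfold act
      rw [transpose_sum, Matrix.sum_mul, Matrix.sum_mul, Matrix.sum_mul]
      refine Finset.sum_congr rfl fun s _ => ?_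
      rw [transpose_mul, transpose_mul, E_transpose, transpose_mul, transpose_mul, transpose_mul,
        transpose_transpose, h.data.J_symm, hγ]
      simp only [Matrix.mul_assoc]
    rw [e, ← Matrix.mulVec_mulVec, hg, Matrix.mulVec_zero]
  have hK : ∀ r (x : n → K), Q *ᵥ x = 0 →
      T r *ᵥ x = 0 ∧ ((φ r).map d - φ r * θ0) *ᵥ x = 0 := by
    intro r x hx
    refine ⟨?_, ?_⟩
    · rw [hT, Matrix.sub_mulVec, ← Matrix.mulVec_mulVec, hC r x hx, Matrix.mulVec_zero,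
        ← Matrix.mulVec_mulVec, ← Matrix.mulVec_mulVec, hγx x hx, Matrix.mulVec_zero,
        Matrix.mulVec_zero, sub_zero]
    · have h1 := der_mulVec d hx
      have e : Q.map d = ((F + c • G).map d)ᵀ * J * p + Q * θ0 := by
        rw [hQ, map_mul_der, map_mul_der, map_transpose_der, h.data.J_const, Matrix.mul_zero,
          add_zero, hθ0]
        simp only [Matrix.mul_assoc]
      rw [e, Matrix.add_mulVec, hdH' x hx, zero_add, ← Matrix.mulVec_mulVec,
        ← Matrix.mulVec_add] at h1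
      have h2 := hC r _ h1
      have h3 := der_mulVec d (hC r x hx)
      rw [Matrix.mulVec_add] at h2
      rw [Matrix.sub_mulVec, ← Matrix.mulVec_mulVec]
      have h4 : φ r *ᵥ (fun i => d (x i)) = -(φ r *ᵥ (θ0 *ᵥ x)) :=
        (eq_neg_of_add_eq_zero_right h2)
      rw [h4] at h3
      rw [sub_eq_add_neg]
      exact h3
  obtain ⟨θ, hθ, hexact⟩ := exact_lift hθ0 hker hC hUC hρ' hφ0 hT0 hrel hK
  have hpp : p * (θ - θ0) = 0 := by rw [Matrix.mul_sub, ← hθ, ← hθ0, sub_self]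
  obtain ⟨ζ, hζ⟩ : ∃ ζ : Matrix n n K, ζ = θ - θ0 := ⟨_, rfl⟩
  rw [← hζ] at hpp
  have hnab : nab d θ τ = nab d θ0 τ + (ζ * τ - τ * ζ) := by
    unfold nab
    rw [hζ, Matrix.sub_mul, Matrix.mul_sub]
    abel
  have hFζ : Fᵀ * J * p * (ζ * τ - τ * ζ) = 0 := by
    have e1 : Fᵀ * J * p * (ζ * τ) = 0 := by
      rw [← Matrix.mul_assoc, Matrix.mul_assoc _ p ζ, hpp, Matrix.mul_zero, Matrix.zero_mul]
    have e2 : Fᵀ * J * p * (τ * ζ) = 0 := by
      rw [← Matrix.mul_assoc, ← h.hτ, Matrix.mul_assoc _ p ζ, hpp, Matrix.mul_zero]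
    rw [Matrix.mul_sub, e1, e2, sub_zero]
  have hγζ : γ * (ζ * τ - τ * ζ) = 0 := by
    have h2 := h.tau_sa
    rw [← hγ] at h2
    rw [Matrix.mul_sub, ← Matrix.mul_assoc γ τ, h2, Matrix.mul_assoc τᵀ, ← Matrix.mul_assoc γ ζ,
      hγ, Matrix.mul_assoc _ p ζ, hpp]
    simp
  refine ⟨d, ξ, θ, hreal, hθ, hdH, ⟨hQ3.memW, hQ3.memN, ?_, hQ3.img⟩, ?_, ?_⟩
  · rw [hQ3.val, hnab]
    simp only [Matrix.mul_smul]
    congr 1
    rw [Matrix.add_mul, Matrix.mul_add, ← Matrix.mul_assoc _ (ζ * τ - τ * ζ), hFζ,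
      Matrix.zero_mul, add_zero]
  · rw [hnab, ← hγ, Matrix.mul_add, hγζ, add_zero, transpose_add, Matrix.add_mul]
    have h5 : (ζ * τ - τ * ζ)ᵀ * γ = 0 := by
      have h6 := congrArg transpose hγζ
      have h7 : γᵀ = γ := by rw [hγ]; exact h.gam_symm
      rw [transpose_mul, h7, transpose_zero] at h6
      exact h6
    rw [h5, add_zero, hγ]
    exact hsa
  · intro s
    have h1 := hexact s
    rw [hT, hφ, hγ] at h1
    unfold nab
    rw [← h1]
    abel

end first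

end Crest.Agent.R172.XL
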