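import Crest.Agent.R172.FO2

/-!
Row 172 (S0260): explicit `ξ` and the first derivative for ARBITRARY radical and ARBITRARY
(non-semisimple, dependent) characters: 471's 15713 (1) with matrices `Δ`, `Δ'` on the blocks.
-/

set_option autoImplicit false
set_option linter.unusedSectionVars false

namespace Crest.Agent.R172.XiD

open Matrix Crest.Agent.R172.FO

variable {ι : Type*} [Fintype ι] [DecidableEq ι] {δ : Type*} [Fintype δ] [DecidableEq δ]
variable {n : Type*} [Fintype n] [DecidableEq n] {m : Type*} [Fintype m] [DecidableEq m]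
variable {k K : Type*} [Field k] [Field K] [Algebra k K]
variable {arm : δ → Fin 3} {J : Matrix ι ι K} {B : Matrix δ δ K}
  {N W : Submodule K (Matrix ι δ K)} {H G : Matrix ι δ K}

/-- **the abstract `ξ`**: works at once for every `F` whose products with the `B Lᵀ` are known. -/
theorem exists_xi (hBs : Bᵀ = B) (hBu : IsUnit B)
    {A a : Fin 3 → Matrix n n K} {A' a' : Fin 3 → Matrix m m K}
    {c ci : Matrix n n K} {c' ci' : Matrix m m K}
    (hc1 : c * ci = 1) (hc2 : ci * c = 1) (hc1' : c' * ci' = 1) (hc2' : ci' * c' = 1)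
    (hAc : ∀ r, A r * c = c * A r) (hAc' : ∀ r, A' r * c' = c' * A' r)
    (hperf : ∑ r, A r * a r = 1) (hperf' : ∑ r, A' r * a' r = 1)
    (y : Fin 3 → Matrix m n K)
    (hex : ∑ r, y r * (A r * (c * c))ᵀ = ∑ r, A' r * (c' * c') * y r)
    (L : Fin 3 → Matrix n δ K) (L' : Fin 3 → Matrix m δ K) :
    ∃ ξ : Matrix δ δ K, ξᵀ * B + B * ξ = 0 ∧
      ∀ (F : Matrix ι δ K) (p' : Matrix ι n K) (q' : Matrix ι m K),
        (∀ r, F * (B * (L r)ᵀ) = p' * A r) → (∀ r, F * (B * (L' r)ᵀ) = q' * A' r) →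
        F * ξᵀ = ∑ r, (q' * ci' * y r * cᵀ * L r - p' * ci * (y r)ᵀ * c'ᵀ * L' r) := by
  obtain ⟨Bi, hBi, hBi', hBit⟩ := symm_inv hBs hBu
  set u : Matrix δ n K := ∑ r, B * (L r)ᵀ * a r with hu
  set u' : Matrix δ m K := ∑ r, B * (L' r)ᵀ * a' r with hu'
  set Eq : Matrix m n K := ∑ r, ci' * y r * (A r * c)ᵀ with hEq
  have hciA : ∀ r, ci * A r = A r * ci := by
    intro r
    calc ci * A r = ci * A r * (c * ci) := by rw [hc1, Matrix.mul_one]
      _ = ci * (A r * c) * ci := by simp only [Matrix.mul_assoc]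
      _ = ci * (c * A r) * ci := by rw [hAc]
      _ = (ci * c) * A r * ci := by simp only [Matrix.mul_assoc]
      _ = A r * ci := by rw [hc2, Matrix.one_mul]
  have hciA' : ∀ r, ci' * A' r = A' r * ci' := by
    intro r
    calc ci' * A' r = ci' * A' r * (c' * ci') := by rw [hc1', Matrix.mul_one]
      _ = ci' * (A' r * c') * ci' := by simp only [Matrix.mul_assoc]
      _ = ci' * (c' * A' r) * ci' := by rw [hAc']
      _ = (ci' * c') * A' r * ci' := by simp only [Matrix.mul_assoc]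
      _ = A' r * ci' := by rw [hc2', Matrix.one_mul]
  have hEq2 : ∑ r, A' r * c' * y r * ciᵀ = Eq := by
    have h1 := congrArg (fun Z => ci' * Z * ciᵀ) hex
    simp only [Matrix.mul_sum, Matrix.sum_mul] at h1
    rw [hEq]
    calc ∑ r, A' r * c' * y r * ciᵀ = ∑ r, ci' * (A' r * (c' * c') * y r) * ciᵀ := by
          refine Finset.sum_congr rfl fun r _ => ?_
          have : ci' * (A' r * (c' * c') * y r) = (ci' * A' r) * c' * c' * y r := by
            simp only [Matrix.mul_assoc]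
          rw [this, hciA', Matrix.mul_assoc (A' r) ci' c', hc2', Matrix.mul_one]
      _ = ∑ r, ci' * (y r * (A r * (c * c))ᵀ) * ciᵀ := h1.symm
      _ = _ := by
          refine Finset.sum_congr rfl fun r _ => ?_
          have : ci' * (y r * (A r * (c * c))ᵀ) * ciᵀ = ci' * y r * (ci * (A r * (c * c)))ᵀ := by
            rw [transpose_mul ci]; simp only [Matrix.mul_assoc]
          rw [this]
          congr 2
          rw [← Matrix.mul_assoc ci, hciA, Matrix.mul_assoc (A r) ci, ← Matrix.mul_assoc ci c c,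
            hc2, Matrix.one_mul]
  set S0 : Matrix δ δ K := ∑ r, (u' * ci' * y r * cᵀ * (B * (L r)ᵀ)ᵀ
    - u * ci * (y r)ᵀ * c'ᵀ * (B * (L' r)ᵀ)ᵀ) with hS0
  set κ : Matrix δ δ K := u * Eqᵀ * u'ᵀ - u' * Eq * uᵀ with hκ
  have hκt : κᵀ = -κ := by
    rw [hκ]
    simp only [transpose_sub, transpose_mul, transpose_transpose, Matrix.mul_assoc]
    abel
  have hS0t : S0ᵀ = ∑ r, (B * (L r)ᵀ * c * (y r)ᵀ * ci'ᵀ * u'ᵀ
      - B * (L' r)ᵀ * c' * y r * ciᵀ * uᵀ) := by
    rw [hS0, transpose_sum]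
    refine Finset.sum_congr rfl fun r _ => ?_
    simp only [transpose_sub, transpose_mul, transpose_transpose, Matrix.mul_assoc]
  set Ξ : Matrix δ δ K := S0 - S0ᵀ + κ with hΞ
  have hΞt : Ξᵀ = -Ξ := by
    rw [hΞ, transpose_add, transpose_sub, transpose_transpose, hκt]
    abel
  refine ⟨(Ξ * Bi)ᵀ, ?_, ?_⟩
  · rw [transpose_transpose, transpose_mul, hBit, Matrix.mul_assoc, hBi', Matrix.mul_one,
      ← Matrix.mul_assoc, hBi, Matrix.one_mul, hΞt]
    abel
  · intro F p' q' hF hF'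
    have hFu : F * u = p' := by
      rw [hu, Matrix.mul_sum]
      calc ∑ r, F * (B * (L r)ᵀ * a r) = ∑ r, p' * (A r * a r) := by
            refine Finset.sum_congr rfl fun r _ => ?_
            rw [← Matrix.mul_assoc F, hF, Matrix.mul_assoc]
        _ = p' := by rw [← Matrix.mul_sum, hperf, Matrix.mul_one]
    have hFu' : F * u' = q' := by
      rw [hu', Matrix.mul_sum]
      calc ∑ r, F * (B * (L' r)ᵀ * a' r) = ∑ r, q' * (A' r * a' r) := by
            refine Finset.sum_congr rfl fun r _ => ?_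
            rw [← Matrix.mul_assoc F, hF', Matrix.mul_assoc]
        _ = q' := by rw [← Matrix.mul_sum, hperf', Matrix.mul_one]
    have h1 : F * S0ᵀ = F * κ := by
      have e1 : F * κ = p' * Eqᵀ * u'ᵀ - q' * Eq * uᵀ := by
        rw [hκ, Matrix.mul_sub]
        simp only [← Matrix.mul_assoc]
        rw [hFu, hFu']
      rw [e1, hS0t, Matrix.mul_sum]
      have e2 : ∀ r, F * (B * (L r)ᵀ * c * (y r)ᵀ * ci'ᵀ * u'ᵀ
          - B * (L' r)ᵀ * c' * y r * ciᵀ * uᵀ) =
          p' * (ci' * y r * (A r * c)ᵀ)ᵀ * u'ᵀ - q' * (A' r * c' * y r * ciᵀ) * uᵀ := by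
        intro r
        have g1 : F * (B * (L r)ᵀ * c * (y r)ᵀ * ci'ᵀ * u'ᵀ) =
            (F * (B * (L r)ᵀ)) * c * (y r)ᵀ * ci'ᵀ * u'ᵀ := by simp only [Matrix.mul_assoc]
        have g2 : F * (B * (L' r)ᵀ * c' * y r * ciᵀ * uᵀ) =
            (F * (B * (L' r)ᵀ)) * c' * y r * ciᵀ * uᵀ := by simp only [Matrix.mul_assoc]
        rw [Matrix.mul_sub, g1, g2, hF, hF']
        simp only [transpose_mul, transpose_transpose, Matrix.mul_assoc]
      rw [Finset.sum_congr rfl fun r _ => e2 r, Finset.sum_sub_distrib, ← Matrix.sum_mul,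
        ← Matrix.sum_mul, ← Matrix.mul_sum, ← Matrix.mul_sum, hEq2, ← transpose_sum]
    have h2 : F * Ξ = F * S0 := by
      rw [hΞ, Matrix.mul_add, Matrix.mul_sub, h1]
      abel
    rw [transpose_transpose, ← Matrix.mul_assoc, h2, hS0, Matrix.mul_sum, Matrix.sum_mul]
    refine Finset.sum_congr rfl fun r _ => ?_
    have g0 : (B * (L r)ᵀ)ᵀ * Bi = L r := by
      rw [transpose_mul, transpose_transpose, hBs, Matrix.mul_assoc, hBi, Matrix.mul_one]
    have g0' : (B * (L' r)ᵀ)ᵀ * Bi = L' r := by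
      rw [transpose_mul, transpose_transpose, hBs, Matrix.mul_assoc, hBi, Matrix.mul_one]
    rw [Matrix.mul_sub, Matrix.sub_mul]
    congr 1
    · calc F * (u' * ci' * y r * cᵀ * (B * (L r)ᵀ)ᵀ) * Bi
          = (F * u') * ci' * y r * cᵀ * ((B * (L r)ᵀ)ᵀ * Bi) := by simp only [Matrix.mul_assoc]
        _ = _ := by rw [hFu', g0]
    · calc F * (u * ci * (y r)ᵀ * c'ᵀ * (B * (L' r)ᵀ)ᵀ) * Bi
          = (F * u) * ci * (y r)ᵀ * c'ᵀ * ((B * (L' r)ᵀ)ᵀ * Bi) := by simp only [Matrix.mul_assoc]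
        _ = _ := by rw [hFu, g0']

/-- data of a block: columns `p`, operators `A r` of `Φ_r(H)` on the columns, `Δ` = the operator
`τ_G` on the columns (exact, not necessarily semisimple). No injectivity of `p`. -/
structure Blk (arm : δ → Fin 3) (J : Matrix ι ι K) (B : Matrix δ δ K) (H G : Matrix ι δ K)
    (p : Matrix ι n K) (A a : Fin 3 → Matrix n n K) (Δ : Matrix n n K) : Prop where
  B1 : Gᵀ * J * p = Hᵀ * J * p * Δ
  B2 : ∀ r, Phi arm J B H r * p = p * A r
  com : ∀ r, A r * Δ = Δ * A r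
  perf : ∑ r, A r * a r = 1

/-- the row block `pᵀ J H E_r` -/
def Lr (arm : δ → Fin 3) (J : Matrix ι ι K) (H : Matrix ι δ K) (p : Matrix ι n K) (r : Fin 3) :
    Matrix n δ K := pᵀ * J * H * E K arm r

variable {p : Matrix ι n K} {A a : Fin 3 → Matrix n n K} {Δ : Matrix n n K}
variable {q : Matrix ι m K} {A' a' : Fin 3 → Matrix m m K} {Δ' : Matrix m m K}

theorem Lr_B (hD : Data k arm J B N W) (F : Matrix ι δ K) (r : Fin 3) :
    F * (B * (Lr arm J H p r)ᵀ) = M arm B r F H * J * p := by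
  unfold Lr M
  rw [transpose_mul, E_transpose, transpose_mul, transpose_mul, transpose_transpose, hD.J_symm,
    ← Matrix.mul_assoc B, ← hD.B_arm]
  simp only [Matrix.mul_assoc]

theorem Blk.HL (hD : Data k arm J B N W) (b : Blk arm J B H G p A a Δ) (r : Fin 3) :
    H * (B * (Lr arm J H p r)ᵀ) = p * A r := by
  rw [Lr_B hD, ← b.B2]
  rfl

theorem Blk.MG (b : Blk arm J B H G p A a Δ) (r : Fin 3) (F : Matrix ι δ K) :
    M arm B r F G * J * p = M arm B r F H * J * p * Δ := by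
  unfold M
  rw [Matrix.mul_assoc (F * E K arm r * B) Gᵀ J, Matrix.mul_assoc (F * E K arm r * B), b.B1]
  simp only [Matrix.mul_assoc]

theorem Blk.GL (hD : Data k arm J B N W) (hH : H ∈ N ⊓ W) (hG : G ∈ N ⊓ W)
    (b : Blk arm J B H G p A a Δ) (r : Fin 3) :
    G * (B * (Lr arm J H p r)ᵀ) = p * Δ * A r := by
  rw [Lr_B hD, hD.symm_arm hG hH r, b.MG]
  have : M arm B r H H * J * p = p * A r := b.B2 r
  rw [this, Matrix.mul_assoc, b.com, Matrix.mul_assoc]

/-- `Φ_r(H+tG) p = p A_r c²` -/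
theorem Blk.Phi_t (hD : Data k arm J B N W) (hH : H ∈ N ⊓ W) (hG : G ∈ N ⊓ W)
    (b : Blk arm J B H G p A a Δ) (t : K) (r : Fin 3) :
    Phi arm J B (H + t • G) r * p = p * (A r * ((1 + t • Δ) * (1 + t • Δ))) := by
  have h1 : M arm B r H H * J * p = p * A r := b.B2 r
  have h2 : M arm B r G H * J * p = p * A r * Δ := by
    rw [hD.symm_arm hG hH r, b.MG, h1]
  have h3 : M arm B r H G * J * p = p * A r * Δ := by rw [b.MG, h1]
  have h4 : M arm B r G G * J * p = p * A r * Δ * Δ := by rw [b.MG, h2]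
  have h5 : Phi arm J B (H + t • G) r * p = M arm B r H H * J * p + t • (M arm B r G H * J * p)
      + t • (M arm B r H G * J * p) + (t * t) • (M arm B r G G * J * p) := by
    unfold Phi M
    simp only [transpose_add, transpose_smul, Matrix.add_mul, Matrix.mul_add, Matrix.smul_mul,
      Matrix.mul_smul]
    module
  rw [h5, h1, h2, h3, h4]
  simp only [Matrix.mul_add, Matrix.add_mul, Matrix.mul_one, Matrix.one_mul, Matrix.mul_smul,
    Matrix.smul_mul, Matrix.mul_assoc]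
  module

/-- `pᵀ J (H+tG) = cᵀ pᵀ J H` -/
theorem Blk.pJH_t (hD : Data k arm J B N W) (b : Blk arm J B H G p A a Δ) (t : K) :
    pᵀ * J * (H + t • G) = (1 + t • Δ)ᵀ * (pᵀ * J * H) := by
  have h1 : pᵀ * J * G = Δᵀ * (pᵀ * J * H) := by
    have := congrArg transpose b.B1
    simp only [transpose_mul, transpose_transpose, hD.J_symm] at this
    rw [← Matrix.mul_assoc] at this
    rw [this]
    simp only [Matrix.mul_assoc]
  rw [Matrix.mul_add, Matrix.mul_smul, h1, transpose_add, transpose_one, transpose_smul,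
    Matrix.add_mul, Matrix.one_mul, Matrix.smul_mul]

/-- the exact family `x_r - x'_r`, `x_r = q y_r pᵀ J`, `x'_r = p y_rᵀ qᵀ J` -/
def X (J : Matrix ι ι K) (p : Matrix ι n K) (q : Matrix ι m K) (y : Fin 3 → Matrix m n K)
    (r : Fin 3) : Matrix ι ι K := q * y r * pᵀ * J - p * (y r)ᵀ * qᵀ * J

theorem X_skew (hJ : Jᵀ = J) (y : Fin 3 → Matrix m n K) (r : Fin 3) :
    (X J p q y r)ᵀ * J + J * X J p q y r = 0 := by
  unfold X
  simp only [transpose_sub, transpose_mul, transpose_transpose, hJ, Matrix.sub_mul,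
    Matrix.mul_sub, Matrix.mul_assoc]
  abel

section xi

variable (hD : Data k arm J B N W) (hH : H ∈ N ⊓ W) (hG : G ∈ N ⊓ W)
  (b : Blk arm J B H G p A a Δ) (b' : Blk arm J B H G q A' a' Δ') {t : K}
  {ci : Matrix n n K} {ci' : Matrix m m K}
  (hc1 : (1 + t • Δ) * ci = 1) (hc2 : ci * (1 + t • Δ) = 1)
  (hc1' : (1 + t • Δ') * ci' = 1) (hc2' : ci' * (1 + t • Δ') = 1)
  (y : Fin 3 → Matrix m n K)
  (hex : ∑ r, y r * (A r * ((1 + t • Δ) * (1 + t • Δ)))ᵀ =
    ∑ r, A' r * ((1 + t • Δ') * (1 + t • Δ')) * y r)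
include hD hH hG b b' hc1 hc2 hc1' hc2' hex

/-- **explicit `ξ`** for arbitrary radical and arbitrary `D` -/
theorem exists_xi_HG : ∃ ξ : Matrix δ δ K, ξᵀ * B + B * ξ = 0 ∧
    H * ξᵀ = act arm (fun r => q * ci' * y r * (1 + t • Δ)ᵀ * pᵀ * J
      - p * ci * (y r)ᵀ * (1 + t • Δ')ᵀ * qᵀ * J) H ∧
    G * ξᵀ = act arm (fun r => q * Δ' * ci' * y r * (1 + t • Δ)ᵀ * pᵀ * J
      - p * Δ * ci * (y r)ᵀ * (1 + t • Δ')ᵀ * qᵀ * J) H ∧
    (H + t • G) * ξᵀ = act arm (X J p q y) (H + t • G) ∧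
    ∀ F : Matrix ι δ K, ∀ (p' : Matrix ι n K) (q' : Matrix ι m K),
      (∀ r, M arm B r F H * J * p = p' * A r) → (∀ r, M arm B r F H * J * q = q' * A' r) →
      F * ξᵀ = act arm (fun r => q' * ci' * y r * (1 + t • Δ)ᵀ * pᵀ * J
        - p' * ci * (y r)ᵀ * (1 + t • Δ')ᵀ * qᵀ * J) H := by
  have hAc : ∀ r, A r * (1 + t • Δ) = (1 + t • Δ) * A r := by
    intro r
    rw [Matrix.mul_add, Matrix.add_mul, Matrix.mul_one, Matrix.one_mul, Matrix.mul_smul,
      Matrix.smul_mul, b.com]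
  have hAc' : ∀ r, A' r * (1 + t • Δ') = (1 + t • Δ') * A' r := by
    intro r
    rw [Matrix.mul_add, Matrix.add_mul, Matrix.mul_one, Matrix.one_mul, Matrix.mul_smul,
      Matrix.smul_mul, b'.com]
  obtain ⟨ξ, h1, h2⟩ := exists_xi hD.B_symm hD.B_unit hc1 hc2 hc1' hc2' hAc hAc' b.perf b'.perf
    y hex (Lr arm J H p) (Lr arm J H q) (ι := ι)
  have key : ∀ F : Matrix ι δ K, ∀ (p' : Matrix ι n K) (q' : Matrix ι m K),
      (∀ r, M arm B r F H * J * p = p' * A r) → (∀ r, M arm B r F H * J * q = q' * A' r) →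
      F * ξᵀ = act arm (fun r => q' * ci' * y r * (1 + t • Δ)ᵀ * pᵀ * J
        - p' * ci * (y r)ᵀ * (1 + t • Δ')ᵀ * qᵀ * J) H := by
    intro F p' q' hp hq
    rw [h2 F p' q' (fun r => by rw [Lr_B hD, hp]) (fun r => by rw [Lr_B hD, hq])]
    unfold act Lr
    refine Finset.sum_congr rfl fun r _ => ?_
    simp only [Matrix.sub_mul, Matrix.mul_assoc]
  have kH := key H p q (fun r => b.B2 r) (fun r => b'.B2 r)
  have kG := key G (p * Δ) (q * Δ') (fun r => by rw [← Lr_B hD]; exact b.GL hD hH hG r)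
    (fun r => by rw [← Lr_B hD]; exact b'.GL hD hH hG r)
  refine ⟨ξ, h1, kH, kG, ?_, key⟩
  rw [Matrix.add_mul, Matrix.smul_mul, kH, kG]
  unfold act X
  rw [Finset.smul_sum, ← Finset.sum_add_distrib]
  refine Finset.sum_congr rfl fun r _ => ?_
  have e1 : q * ci' + t • (q * Δ' * ci') = q := by
    have : q * ci' + t • (q * Δ' * ci') = q * ((1 + t • Δ') * ci') := by
      rw [Matrix.add_mul, Matrix.mul_add, Matrix.one_mul, Matrix.smul_mul, Matrix.mul_smul,
        Matrix.mul_assoc]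
    rw [this, hc1', Matrix.mul_one]
  have e2 : p * ci + t • (p * Δ * ci) = p := by
    have : p * ci + t • (p * Δ * ci) = p * ((1 + t • Δ) * ci) := by
      rw [Matrix.add_mul, Matrix.mul_add, Matrix.one_mul, Matrix.smul_mul, Matrix.mul_smul,
        Matrix.mul_assoc]
    rw [this, hc1, Matrix.mul_one]
  have f1 : (q * ci' * y r * (1 + t • Δ)ᵀ * pᵀ * J - p * ci * (y r)ᵀ * (1 + t • Δ')ᵀ * qᵀ * J) *
        H * E K arm r + t • ((q * Δ' * ci' * y r * (1 + t • Δ)ᵀ * pᵀ * J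
      - p * Δ * ci * (y r)ᵀ * (1 + t • Δ')ᵀ * qᵀ * J) * H * E K arm r)
      = (q * ci' + t • (q * Δ' * ci')) * (y r * ((1 + t • Δ)ᵀ * (pᵀ * J * H)) * E K arm r)
      - (p * ci + t • (p * Δ * ci)) * ((y r)ᵀ * ((1 + t • Δ')ᵀ * (qᵀ * J * H)) * E K arm r) := by
    simp only [Matrix.sub_mul, Matrix.add_mul, Matrix.smul_mul, smul_sub, Matrix.mul_assoc]
    abel
  rw [f1, e1, e2, ← b.pJH_t hD, ← b'.pJH_t hD]
  simp only [Matrix.sub_mul, Matrix.mul_assoc]

end xi

/-- **first derivative**, arbitrary radical and arbitrary `D`: the derivation `d`, the motion of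
`H` and the correction `w ∈ W`. -/
theorem first (hD : Data k arm J B N W) (hH : H ∈ N ⊓ W) (hG : G ∈ N ⊓ W)
    (b : Blk arm J B H G p A a Δ) (b' : Blk arm J B H G q A' a' Δ') {t : K}
    (hg : Generic k arm N W (H + t • G))
    {ci : Matrix n n K} {ci' : Matrix m m K}
    (hc1 : (1 + t • Δ) * ci = 1) (hc2 : ci * (1 + t • Δ) = 1)
    (hc1' : (1 + t • Δ') * ci' = 1) (hc2' : ci' * (1 + t • Δ') = 1)
    (y : Fin 3 → Matrix m n K)
    (hex : ∑ r, y r * (A r * ((1 + t • Δ) * (1 + t • Δ)))ᵀ =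
      ∑ r, A' r * ((1 + t • Δ') * (1 + t • Δ')) * y r) :
    ∃ (d : Derivation k K K) (ξ : Matrix δ δ K), ξᵀ * B + B * ξ = 0 ∧
      Realises arm N W (X J p q y) ξ d ∧
      (H + t • G).map d = act arm (X J p q y) (H + t • G) ∧
      (∀ r, (Phi arm J B (H + t • G) r).map d =
        X J p q y r * Phi arm J B (H + t • G) r - Phi arm J B (H + t • G) r * X J p q y r) ∧
      H * ξᵀ = act arm (fun r => q * ci' * y r * (1 + t • Δ)ᵀ * pᵀ * J
        - p * ci * (y r)ᵀ * (1 + t • Δ')ᵀ * qᵀ * J) H ∧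
      G * ξᵀ = act arm (fun r => q * Δ' * ci' * y r * (1 + t • Δ)ᵀ * pᵀ * J
        - p * Δ * ci * (y r)ᵀ * (1 + t • Δ')ᵀ * qᵀ * J) H ∧
      H.map d - H * ξᵀ ∈ W ∧ G.map d - G * ξᵀ ∈ W ∧
      act arm (X J p q y) H - H * ξᵀ - (H.map d - H * ξᵀ) ∈ N ∧
      (∀ F : Matrix ι δ K, ∀ (p' : Matrix ι n K) (q' : Matrix ι m K),
        (∀ r, M arm B r F H * J * p = p' * A r) → (∀ r, M arm B r F H * J * q = q' * A' r) →
        F * ξᵀ = act arm (fun r => q' * ci' * y r * (1 + t • Δ)ᵀ * pᵀ * J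
          - p' * ci * (y r)ᵀ * (1 + t • Δ')ᵀ * qᵀ * J) H) := by
  obtain ⟨ξ, h1, h2, h3, h4, h5⟩ := exists_xi_HG hD hH hG b b' hc1 hc2 hc1' hc2' y hex
  have hX := fun r => X_skew (p := p) (q := q) hD.J_symm y r
  obtain ⟨d0, hd0⟩ := hD.dir (X J p q y) ξ hX h1
  set F0 : Matrix ι δ K := H + t • G with hF0
  have g1 : F0.map d0 - act arm (X J p q y) F0 ∈ N ⊓ W := by
    refine ⟨hd0.onN F0 hg.mem.1, ?_⟩
    have := hd0.onW F0 hg.mem.2
    rwa [h4] at this
  obtain ⟨d1, hd1, hr1⟩ := hg.vert _ g1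
  have hsub : ∀ G : Matrix ι δ K, G.map (d0 - d1) = G.map d0 - G.map d1 := by
    intro G; ext i j; simp
  have hdF : F0.map (d0 - d1) = act arm (X J p q y) F0 := by
    rw [hsub, hd1]
    abel
  have hreal : Realises arm N W (X J p q y) ξ (d0 - d1) := by
    refine ⟨fun G hG => ?_, fun G hG => ?_⟩
    · have h2 := hd0.onN G hG
      have h3 := hr1.onN G hG
      rw [act_zero, sub_zero] at h3
      rw [hsub]
      have : G.map d0 - G.map d1 - act arm (X J p q y) G =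
        (G.map d0 - act arm (X J p q y) G) - G.map d1 := by abel
      rw [this]
      exact N.sub_mem h2 h3
    · have h2 := hd0.onW G hG
      have h3 := hr1.onW G hG
      rw [transpose_zero, Matrix.mul_zero, sub_zero] at h3
      rw [hsub]
      have : G.map d0 - G.map d1 - G * ξᵀ = (G.map d0 - G * ξᵀ) - G.map d1 := by abel
      rw [this]
      exact W.sub_mem h2 h3
  refine ⟨d0 - d1, ξ, h1, hreal, hdF, fun r => hD.map_Phi F0 _ hX _ hdF r, h2, h3,
    hreal.onW H hH.2, hreal.onW G hG.2, ?_, h5⟩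
  have h6 := hreal.onN H hH.1
  have : act arm (X J p q y) H - H * ξᵀ - (H.map (d0 - d1) - H * ξᵀ) =
      -(H.map (d0 - d1) - act arm (X J p q y) H) := by abel
  rw [this]
  exact N.neg_mem h6

/-- **the correction on the block**: `wᵀ J p c = t (Gᵀ J dp - Hᵀ J dp Δ - Hᵀ J p dΔ)`. -/
theorem corr (hD : Data k arm J B N W) (b : Blk arm J B H G p A a Δ) {t : K}
    {d : Derivation k K K} {ξ : Matrix δ δ K} (ht : d t = 0)
    (hw : (H + t • G).map d = (H + t • G) * ξᵀ) :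
    (H.map d - H * ξᵀ)ᵀ * J * p * (1 + t • Δ) =
      t • (Gᵀ * J * p.map d - Hᵀ * J * p.map d * Δ - Hᵀ * J * p * Δ.map d) := by
  have h1 : H.map d - H * ξᵀ = -(t • (G.map d - G * ξᵀ)) := by
    have h2 : (H + t • G).map d = H.map d + t • G.map d := by
      ext i j
      simp [Derivation.leibniz, ht]
    rw [h2, Matrix.add_mul, Matrix.smul_mul] at hw
    rw [smul_sub, neg_sub, sub_eq_sub_iff_add_eq_add, hw]
    abel
  have h3 := congrArg (fun Z : Matrix δ n K => Z.map d) b.B1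
  simp only [map_mul_der, hD.J_const, Matrix.mul_zero, map_transpose_der, add_zero] at h3
  set w := H.map d - H * ξᵀ with hw1
  set w' := G.map d - G * ξᵀ with hw2
  have e1 : H.map d = w + H * ξᵀ := by rw [hw1]; abel
  have e2 : G.map d = w' + G * ξᵀ := by rw [hw2]; abel
  rw [e1, e2, transpose_add, transpose_add, transpose_mul, transpose_mul, transpose_transpose]
    at h3
  have e3 : ξ * Gᵀ * J * p = ξ * Hᵀ * J * p * Δ := by
    have : ξ * Gᵀ * J * p = ξ * (Gᵀ * J * p) := by simp only [Matrix.mul_assoc]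
    rw [this, b.B1]
    simp only [Matrix.mul_assoc]
  have h4 : w'ᵀ * J * p + Gᵀ * J * p.map d =
      wᵀ * J * p * Δ + Hᵀ * J * p.map d * Δ + Hᵀ * J * p * Δ.map d := by
    have h5 : w'ᵀ * J * p + ξ * Hᵀ * J * p * Δ + Gᵀ * J * p.map d =
        wᵀ * J * p * Δ + ξ * Hᵀ * J * p * Δ + Hᵀ * J * p.map d * Δ + Hᵀ * J * p * Δ.map d := by
      calc w'ᵀ * J * p + ξ * Hᵀ * J * p * Δ + Gᵀ * J * p.map d
          = w'ᵀ * J * p + ξ * Gᵀ * J * p + Gᵀ * J * p.map d := by rw [e3]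
        _ = (w'ᵀ + ξ * Gᵀ) * J * p + Gᵀ * J * p.map d := by simp only [Matrix.add_mul]
        _ = _ := by
            rw [h3]
            simp only [Matrix.add_mul]
    have h6 := congrArg (fun Z => Z - ξ * Hᵀ * J * p * Δ) h5
    calc _ = w'ᵀ * J * p + ξ * Hᵀ * J * p * Δ + Gᵀ * J * p.map d - ξ * Hᵀ * J * p * Δ := by abel
      _ = _ := h6
      _ = _ := by abel
  have h7 : wᵀ * J * p = -(t • (w'ᵀ * J * p)) := by
    rw [h1, transpose_neg, transpose_smul]
    simp only [Matrix.neg_mul, Matrix.smul_mul]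
  have h8 : w'ᵀ * J * p = wᵀ * J * p * Δ + Hᵀ * J * p.map d * Δ + Hᵀ * J * p * Δ.map d
      - Gᵀ * J * p.map d := by
    rw [← h4]; abel
  rw [Matrix.mul_add, Matrix.mul_one, Matrix.mul_smul]
  nth_rewrite 1 [h7]
  rw [h8]
  module

end Crest.Agent.R172.XiD
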