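import Crest.Agent.R172.ZP1

/-!
Row 172, T0, node (o2): the elements of 644's `ZZ` (and their adjoints) preserve the filtrations
`im (Φ r ^ a)`.  (The sequence `h` of an element of `ZZ` is polynomial, so it extends to negative
indices and `z Φ_r ^ a = Φ_r ^ a h (1 - 2 a)`.)
-/

set_option autoImplicit false

namespace Crest.Agent.R172.ZP

open Finset

section

variable {A : Type*} [AddCommGroup A] {E : Type*} [Ring E]

/-- backward extension of a polynomial sequence -/
theorem exists_back {h : ℕ → E} (hh : NilAt (DD : AddMonoid.End (ℕ → E)) h) :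
    ∃ g : ℕ → E, NilAt (DD : AddMonoid.End (ℕ → E)) g ∧ ∀ k, g (k + 1) = h k := by
  obtain ⟨m, hm⟩ := hh
  induction m generalizing h with
  | zero =>
    refine ⟨0, NilAt.zero _, fun k => ?_⟩
    have : h = 0 := by simpa using hm
    rw [this]; rfl
  | succ m ih =>
    have h1 : ((DD : AddMonoid.End (ℕ → E)) ^ m) (DD h) = 0 := by
      rw [pow_succ, AddMonoid.End.coe_mul, Function.comp_apply] at hm
      exact hm
    obtain ⟨u, hu1, hu2⟩ := ih h1
    refine ⟨fun k => match k with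
      | 0 => h 0 - u 0
      | k + 1 => h k, ?_, fun k => rfl⟩
    apply NilAt.of_apply
    have e : (DD : AddMonoid.End (ℕ → E)) (fun k => match k with
      | 0 => h 0 - u 0
      | k + 1 => h k) = u := by
      funext k
      rcases k with _ | k
      · simp only [DD_apply]
        abel
      · rw [hu2 k, DD_apply, DD_apply]
    rw [e]
    exact hu1

/-- a polynomial sequence which vanishes for `k ≥ 1` vanishes -/
theorem zero_of_tail {R : ℕ → E} (hR : NilAt (DD : AddMonoid.End (ℕ → E)) R)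
    (h0 : ∀ k, R (k + 1) = 0) : R 0 = 0 := by
  obtain ⟨m, hm⟩ := hR
  induction m generalizing R with
  | zero =>
    have : R = 0 := by simpa using hm
    rw [this]; rfl
  | succ m ih =>
    have h1 : ((DD : AddMonoid.End (ℕ → E)) ^ m) (DD R) = 0 := by
      rw [pow_succ, AddMonoid.End.coe_mul, Function.comp_apply] at hm
      exact hm
    have h2 := ih (R := DD R) (fun k => by rw [DD_apply, h0, h0, sub_zero]) h1
    rw [DD_apply, h0, zero_sub, neg_eq_zero] at h2
    exact h2

/-- the shift by two, multiplied on the right by `x`, minus `x` times the sequence -/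
theorem nil_rel {g : ℕ → E} (hg : NilAt (DD : AddMonoid.End (ℕ → E)) g) (x : E) :
    NilAt (DD : AddMonoid.End (ℕ → E)) (fun k => g (k + 2) * x - x * g k) := by
  have h1 : NilAt (DD : AddMonoid.End (ℕ → E)) (fun k => g (k + 2) * x) := by
    refine hg.map (fun h : ℕ → E => fun k => h (k + 2) * x) ?_ ?_
    · funext k; simp
    · intro h; funext k; simp only [DD_apply, sub_mul]
  have h2 : NilAt (DD : AddMonoid.End (ℕ → E)) (fun k => x * g k) := by
    refine hg.map (fun h : ℕ → E => fun k => x * h k) ?_ ?_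
    · funext k; simp
    · intro h; funext k; simp only [DD_apply, mul_sub]
  exact h1.sub h2

variable {κ : Type*} {Φ : κ → E}

theorem exists_back_rel {h : ℕ → E} (hh : NilAt (DD : AddMonoid.End (ℕ → E)) h)
    (hr : ∀ k r, h (k + 2) * Φ r = Φ r * h k) (N : ℕ) :
    ∃ g : ℕ → E, NilAt (DD : AddMonoid.End (ℕ → E)) g ∧ (∀ k r, g (k + 2) * Φ r = Φ r * g k) ∧
      ∀ k, g (k + N) = h k := by
  induction N with
  | zero => exact ⟨h, hh, hr, fun k => rfl⟩
  | succ N ih =>
    obtain ⟨g, hg1, hg2, hg3⟩ := ih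
    obtain ⟨f, hf1, hf2⟩ := exists_back hg1
    refine ⟨f, hf1, fun k r => ?_, fun k => ?_⟩
    · rcases k with _ | k
      · have h0 := zero_of_tail (nil_rel hf1 (Φ r)) (fun k => by
          have e1 : k + 1 + 2 = (k + 2) + 1 := by ring
          rw [e1, hf2, hf2, hg2, sub_self])
        exact sub_eq_zero.1 h0
      · have e1 : k + 1 + 2 = (k + 2) + 1 := by ring
        rw [e1, hf2, hf2, hg2]
    · rw [← hg3 k, ← add_assoc, hf2]

theorem rel_pow {g : ℕ → E} (hr : ∀ k r, g (k + 2) * Φ r = Φ r * g k) (r : κ) (a k : ℕ) :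
    g (k + 2 * a) * Φ r ^ a = Φ r ^ a * g k := by
  induction a generalizing k with
  | zero => simp
  | succ a ih =>
    have e1 : k + 2 * (a + 1) = (k + 2) + 2 * a := by ring
    rw [e1, pow_succ, ← mul_assoc, ih, mul_assoc, hr, ← mul_assoc]

end

section Main

variable {K E κ : Type*} [Field K] [Ring E] [Algebra K E] {T : E →ₗ[K] E} {e D : E} {Φ : κ → E}

/-- elements of `ZZ` preserve `im (Φ r ^ a)` -/
theorem ZZ.fil {z : E} (hz : z ∈ ZZ T e D Φ) (r : κ) (a : ℕ) :
    ∃ y, z * Φ r ^ a = Φ r ^ a * y := by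
  obtain ⟨h, h1, h2, h3, h4, h5, h6, h7⟩ := hz
  obtain ⟨g, -, hg2, hg3⟩ := exists_back_rel h1 h7 (2 * a)
  refine ⟨g 1, ?_⟩
  rw [← h6, ← hg3 1]
  exact rel_pow hg2 r a 1

/-- adjoints of elements of `ZZ` preserve `im (Φ r ^ a)` -/
theorem ZZ.fil_adj {z : E} (hz : z ∈ ZZ T e D Φ) (r : κ) (a : ℕ) :
    ∃ y, T z * Φ r ^ a = Φ r ^ a * y := by
  obtain ⟨h, h1, h2, h3, h4, h5, h6, h7⟩ := hz
  obtain ⟨g, -, hg2, hg3⟩ := exists_back_rel h1 h7 (2 * a)
  refine ⟨g 0, ?_⟩
  rw [← h5, ← hg3 0]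
  exact rel_pow hg2 r a 0

/-- endomorphism form -/
theorem ZZ.fil_apply {M : Type*} [AddCommGroup M] [Module K M] {T : Module.End K M →ₗ[K] Module.End K M}
    {e D : Module.End K M} {Φ : κ → Module.End K M} {z : Module.End K M} (hz : z ∈ ZZ T e D Φ)
    (r : κ) (a : ℕ) (v : M) : ∃ v', z ((Φ r ^ a) v) = (Φ r ^ a) v' := by
  obtain ⟨y, hy⟩ := ZZ.fil hz r a
  exact ⟨y v, by rw [← Module.End.mul_apply, hy, Module.End.mul_apply]⟩

theorem ZZ.fil_adj_apply {M : Type*} [AddCommGroup M] [Module K M]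
    {T : Module.End K M →ₗ[K] Module.End K M} {e D : Module.End K M} {Φ : κ → Module.End K M}
    {z : Module.End K M} (hz : z ∈ ZZ T e D Φ) (r : κ) (a : ℕ) (v : M) :
    ∃ v', (T z) ((Φ r ^ a) v) = (Φ r ^ a) v' := by
  obtain ⟨y, hy⟩ := ZZ.fil_adj hz r a
  exact ⟨y v, by rw [← Module.End.mul_apply, hy, Module.End.mul_apply]⟩

end Main

end Crest.Agent.R172.ZP
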