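import Crest.Agent.R172.ZPL

/-!
Row 172, T0, arbitrary radical and arbitrary `D`: the corrections `ζ` of the frame form
(`wᵀ J p = Fᵀ J p ζ`, notes 16086 / 16274, `FrmB.Q3`) as elements of 644's space `ZZ` on the core.

`g = pᵀ J p` is a symmetric `n × n` matrix, possibly degenerate; `Co g ρ σ g0 g0i` is a choice of
coordinates `ρ` on `Kⁿ / rad g`.
-/

set_option autoImplicit false
set_option linter.unusedSectionVars false

namespace Crest.Agent.R172.ZFm

open Matrix Crest.Agent.R172.ZP Crest.Agent.R172.ZPL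

section Ring

variable {K E κ : Type*} [Field K] [Ring E] [Algebra K E]
variable {T : E →ₗ[K] E} {e D : E} {Φ : κ → E}

theorem der_zero {d : E → E} (hadd : ∀ x y, d (x + y) = d x + d y) : d 0 = 0 := by
  have := hadd 0 0
  simpa using this

theorem der_neg {d : E → E} (hadd : ∀ x y, d (x + y) = d x + d y) (x : E) : d (-x) = - d x := by
  have := hadd x (-x)
  rw [add_neg_cancel, der_zero hadd] at this
  exact (neg_eq_of_add_eq_zero_right this.symm).symm

/-- right multiplication by an element commuting with `D` -/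
theorem nil_mul_comm {x y : E} (hx : NilAt (adE D) x) (hy : y * D = D * y) :
    NilAt (adE D) (x * y) := by
  refine hx.map (fun x => x * y) (zero_mul _) ?_
  intro x
  simp only [adE_apply]
  rw [sub_mul, mul_assoc x D y, ← hy]
  noncomm_ring

theorem nil_comm_mul {x y : E} (hx : NilAt (adE D) x) (hy : y * D = D * y) :
    NilAt (adE D) (y * x) := by
  refine hx.map (fun x => y * x) (mul_zero _) ?_
  intro x
  simp only [adE_apply]
  rw [mul_sub, ← mul_assoc y D x, hy]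
  noncomm_ring

end Ring

section Core

variable {K : Type*} [Field K] {m n : Type*} [Fintype m] [DecidableEq m] [Fintype n]
  [DecidableEq n]

/-- coordinates on `Kⁿ / rad g` -/
structure Co (g : Matrix n n K) (ρ : Matrix m n K) (σ : Matrix n m K) (g0 g0i : Matrix m m K) :
    Prop where
  rs : ρ * σ = 1
  fac : ρᵀ * g0 * ρ = g
  symm : g0ᵀ = g0
  inv : g0 * g0i = 1
  inv' : g0i * g0 = 1

variable {g : Matrix n n K} {ρ : Matrix m n K} {σ : Matrix n m K} {g0 g0i : Matrix m m K}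

namespace Co

theorem isymm (h : Co g ρ σ g0 g0i) : g0iᵀ = g0i := by
  have h1 := congrArg transpose h.inv
  rw [transpose_mul, h.symm, transpose_one] at h1
  calc g0iᵀ = g0iᵀ * (g0 * g0i) := by rw [h.inv, Matrix.mul_one]
    _ = (g0iᵀ * g0) * g0i := by rw [Matrix.mul_assoc]
    _ = g0i := by rw [h1, Matrix.one_mul]

theorem sr (h : Co g ρ σ g0 g0i) : σᵀ * ρᵀ = 1 := by
  rw [← transpose_mul, h.rs, transpose_one]

/-- cancel `ρᵀ g0` on the left -/
theorem cancel_left (h : Co g ρ σ g0 g0i) {l : Type*} [Fintype l] {A A' : Matrix m l K}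
    (e : ρᵀ * (g0 * A) = ρᵀ * (g0 * A')) : A = A' := by
  have h1 : g0i * (σᵀ * (ρᵀ * (g0 * A))) = g0i * (σᵀ * (ρᵀ * (g0 * A'))) := by rw [e]
  rw [← Matrix.mul_assoc σᵀ, ← Matrix.mul_assoc σᵀ, h.sr, Matrix.one_mul, Matrix.one_mul,
    ← Matrix.mul_assoc, ← Matrix.mul_assoc, h.inv', Matrix.one_mul, Matrix.one_mul] at h1
  exact h1

/-- cancel `ρ` on the right -/
theorem cancel_right (h : Co g ρ σ g0 g0i) {l : Type*} [Fintype l] {A A' : Matrix l m K}
    (e : A * ρ = A' * ρ) : A = A' := by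
  have h1 : A * ρ * σ = A' * ρ * σ := by rw [e]
  rw [Matrix.mul_assoc, Matrix.mul_assoc, h.rs, Matrix.mul_one, Matrix.mul_one] at h1
  exact h1

theorem g_eq (h : Co g ρ σ g0 g0i) {l : Type*} [Fintype l] (A : Matrix n l K) :
    g * A = ρᵀ * (g0 * (ρ * A)) := by
  rw [← h.fac]
  simp only [Matrix.mul_assoc]

/-- `g A = g A'` iff `ρ A = ρ A'` -/
theorem eq_iff (h : Co g ρ σ g0 g0i) {l : Type*} [Fintype l] {A A' : Matrix n l K} :
    g * A = g * A' ↔ ρ * A = ρ * A' := by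
  constructor
  · intro e
    rw [h.g_eq, h.g_eq] at e
    exact h.cancel_left e
  · intro e
    rw [h.g_eq, h.g_eq, e]

/-- an operator which has a `g`-adjoint descends -/
theorem exists_bar (h : Co g ρ σ g0 g0i) {A A' : Matrix n n K} (e : g * A = A' * g) :
    ρ * A = (ρ * A * σ) * ρ := by
  have h1 : g * (σ * ρ) = g := by
    rw [h.g_eq, ← Matrix.mul_assoc ρ, h.rs, Matrix.one_mul, ← Matrix.mul_assoc, h.fac]
  have h2 : g * A = g * (A * (σ * ρ)) := by
    rw [← Matrix.mul_assoc, e, Matrix.mul_assoc, h1]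
  have h3 := h.eq_iff.1 h2
  rw [h3]
  simp only [Matrix.mul_assoc]
  rw [← Matrix.mul_assoc ρ σ, h.rs, Matrix.one_mul]

end Co

/-- the adjoint for `g0` -/
def Tt (g0 g0i : Matrix m m K) : Matrix m m K →ₗ[K] Matrix m m K where
  toFun x := g0i * xᵀ * g0
  map_add' x y := by rw [transpose_add, Matrix.mul_add, Matrix.add_mul]
  map_smul' c x := by
    rw [transpose_smul, Matrix.mul_smul, Matrix.smul_mul]; rfl

theorem Tt_apply (x : Matrix m m K) : Tt g0 g0i x = g0i * xᵀ * g0 := rfl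

theorem Tt_mul (h : Co g ρ σ g0 g0i) (x y : Matrix m m K) :
    Tt g0 g0i (x * y) = Tt g0 g0i y * Tt g0 g0i x := by
  simp only [Tt_apply, transpose_mul]
  calc g0i * (yᵀ * xᵀ) * g0 = g0i * yᵀ * 1 * xᵀ * g0 := by simp only [Matrix.mul_assoc,
        Matrix.one_mul]
    _ = g0i * yᵀ * (g0 * g0i) * xᵀ * g0 := by rw [h.inv]
    _ = _ := by simp only [Matrix.mul_assoc]

theorem Tt_Tt (h : Co g ρ σ g0 g0i) (x : Matrix m m K) : Tt g0 g0i (Tt g0 g0i x) = x := by
  simp only [Tt_apply, transpose_mul, transpose_transpose, h.symm, h.isymm]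
  calc g0i * (g0 * (x * g0i)) * g0 = (g0i * g0) * x * (g0i * g0) := by
        simp only [Matrix.mul_assoc]
    _ = x := by rw [h.inv', Matrix.one_mul, Matrix.mul_one]

theorem g0_Tt (h : Co g ρ σ g0 g0i) (x : Matrix m m K) : g0 * Tt g0 g0i x = xᵀ * g0 := by
  rw [Tt_apply, Matrix.mul_assoc, ← Matrix.mul_assoc g0, h.inv, Matrix.one_mul]

/-- adjointness: `A'ᵀ g = g A` upstairs is `T a' = a` downstairs -/
theorem adj_iff (h : Co g ρ σ g0 g0i) {A A' : Matrix n n K} {a a' : Matrix m m K}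
    (ha : ρ * A = a * ρ) (ha' : ρ * A' = a' * ρ) : A'ᵀ * g = g * A ↔ Tt g0 g0i a' = a := by
  have e1 : g * A = ρᵀ * (g0 * a) * ρ := by
    rw [h.g_eq, ha]; simp only [Matrix.mul_assoc]
  have e2 : A'ᵀ * g = ρᵀ * (a'ᵀ * g0) * ρ := by
    have h1 := congrArg transpose ha'
    rw [transpose_mul, transpose_mul] at h1
    calc A'ᵀ * g = (A'ᵀ * ρᵀ) * g0 * ρ := by rw [← h.fac]; simp only [Matrix.mul_assoc]
      _ = _ := by rw [h1]; simp only [Matrix.mul_assoc]
  rw [e1, e2, ← g0_Tt h a']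
  constructor
  · intro e
    have h2 := h.cancel_right e
    exact h.cancel_left h2
  · intro e
    rw [e]

end Core

section Der

variable {k K : Type*} [Field k] [Field K] [Algebra k K] {m n : Type*} [Fintype m]
  [DecidableEq m] [Fintype n] [DecidableEq n]
variable {g : Matrix n n K} {ρ : Matrix m n K} {σ : Matrix n m K} {g0 g0i : Matrix m m K}
  {d : Derivation k K K} {π : Matrix n n K} {θ : Matrix m m K}

theorem mmul {a b c : Type*} [Fintype b] (A : Matrix a b K) (B : Matrix b c K) :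
    (A * B).map d = A.map d * B + A * B.map d := by
  ext i j
  simp only [Matrix.map_apply, Matrix.mul_apply, Matrix.add_apply, map_sum, Derivation.leibniz,
    smul_eq_mul, ← Finset.sum_add_distrib]
  refine Finset.sum_congr rfl fun x _ => ?_
  ring

theorem mT {a b : Type*} (A : Matrix a b K) : (Aᵀ).map d = (A.map d)ᵀ := rfl

theorem mone : ((1 : Matrix m m K)).map d = 0 := by
  ext i j
  by_cases h : i = j
  · subst h; simp
  · simp [h]

theorem madd {a b : Type*} (A B : Matrix a b K) : (A + B).map d = A.map d + B.map d := by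
  ext i j; simp

theorem msub {a b : Type*} (A B : Matrix a b K) : (A - B).map d = A.map d - B.map d := by
  ext i j; simp

/-- the induced connection on the core -/
theorem exists_theta (h : Co g ρ σ g0 g0i) (hg : g.map d = πᵀ * g + g * π) :
    ∃ θ : Matrix m m K, ρ.map d + θ * ρ = ρ * π := by
  refine ⟨ρ * π * σ - ρ.map d * σ, ?_⟩
  have h1 : g * (1 - σ * ρ) = 0 := by
    rw [Matrix.mul_sub, Matrix.mul_one, h.g_eq (σ * ρ), ← Matrix.mul_assoc ρ, h.rs,
      Matrix.one_mul, ← Matrix.mul_assoc, h.fac, sub_self]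
  have h2 : ρ * (1 - σ * ρ) = 0 := by
    rw [Matrix.mul_sub, Matrix.mul_one, ← Matrix.mul_assoc, h.rs, Matrix.one_mul, sub_self]
  have h3 : g.map d * (1 - σ * ρ) + g * (1 - σ * ρ).map d = 0 := by
    rw [← mmul, h1]; ext i j; simp
  have h4 : ρ.map d * (1 - σ * ρ) + ρ * (1 - σ * ρ).map d = 0 := by
    rw [← mmul, h2]; ext i j; simp
  have h5 : ρ.map d * (1 - σ * ρ) = ρ * π * (1 - σ * ρ) := by
    apply h.cancel_left
    have e1 : ρᵀ * (g0 * (ρ.map d * (1 - σ * ρ))) = - (g * (1 - σ * ρ).map d) := by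
      rw [h.g_eq, eq_neg_of_add_eq_zero_right h4, Matrix.mul_neg, Matrix.mul_neg, neg_neg]
    have e2 : ρᵀ * (g0 * (ρ * π * (1 - σ * ρ))) = g * π * (1 - σ * ρ) := by
      rw [h.g_eq]; simp only [Matrix.mul_assoc]
    rw [e1, e2, eq_comm, ← add_eq_zero_iff_eq_neg]
    rw [hg, Matrix.add_mul, Matrix.mul_assoc πᵀ, h1, Matrix.mul_zero, zero_add] at h3
    exact h3
  have h6 : ρ.map d = ρ.map d * (1 - σ * ρ) + ρ.map d * σ * ρ := by
    rw [Matrix.mul_sub, Matrix.mul_one, Matrix.mul_assoc (ρ.map d) σ ρ]; abel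
  have h7 : ρ * π = ρ * π * (1 - σ * ρ) + ρ * π * σ * ρ := by
    rw [Matrix.mul_sub, Matrix.mul_one, Matrix.mul_assoc (ρ * π) σ ρ]; abel
  rw [Matrix.sub_mul]
  calc ρ.map d + (ρ * π * σ * ρ - ρ.map d * σ * ρ)
      = ρ.map d * (1 - σ * ρ) + ρ * π * σ * ρ := by
        nth_rw 1 [h6]; abel
    _ = ρ * π * (1 - σ * ρ) + ρ * π * σ * ρ := by rw [h5]
    _ = ρ * π := h7.symm

/-- the derivation `∂x = dx + θ x - x θ` -/
def dE (d : Derivation k K K) (θ x : Matrix m m K) : Matrix m m K := x.map d + θ * x - x * θ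

theorem dE_add (x y : Matrix m m K) : dE d θ (x + y) = dE d θ x + dE d θ y := by
  simp only [dE, madd, Matrix.mul_add, Matrix.add_mul]; abel

theorem dE_mul (x y : Matrix m m K) : dE d θ (x * y) = dE d θ x * y + x * dE d θ y := by
  simp only [dE, mmul, Matrix.sub_mul, Matrix.add_mul, Matrix.mul_sub, Matrix.mul_add,
    Matrix.mul_assoc]
  abel

theorem dg0 (h : Co g ρ σ g0 g0i) (hg : g.map d = πᵀ * g + g * π)
    (hθ : ρ.map d + θ * ρ = ρ * π) : g0.map d = θᵀ * g0 + g0 * θ := by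
  have hT := congrArg transpose hθ
  rw [transpose_add, transpose_mul, transpose_mul] at hT
  apply h.cancel_right
  apply_fun (fun X => ρᵀ * X) using (fun A A' e => by
    have h1 : σᵀ * (ρᵀ * A) = σᵀ * (ρᵀ * A') := by rw [show ρᵀ * A = ρᵀ * A' from e]
    rwa [← Matrix.mul_assoc, ← Matrix.mul_assoc, h.sr, Matrix.one_mul, Matrix.one_mul] at h1)
  have h1 : g.map d = (ρ.map d)ᵀ * g0 * ρ + ρᵀ * (g0.map d * ρ) + ρᵀ * g0 * ρ.map d := by
    conv_lhs => rw [← h.fac]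
    rw [mmul, mmul, mT, Matrix.add_mul, Matrix.mul_assoc ρᵀ (g0.map d)]
  have h2 : πᵀ * g + g * π = (ρ.map d)ᵀ * g0 * ρ + ρᵀ * ((θᵀ * g0 + g0 * θ) * ρ)
      + ρᵀ * g0 * ρ.map d := by
    rw [← h.fac]
    have e1 : πᵀ * (ρᵀ * g0 * ρ) = (πᵀ * ρᵀ) * g0 * ρ := by simp only [Matrix.mul_assoc]
    have e2 : ρᵀ * g0 * ρ * π = ρᵀ * g0 * (ρ * π) := by simp only [Matrix.mul_assoc]
    rw [e1, e2, ← hT, ← hθ]
    simp only [Matrix.add_mul, Matrix.mul_add, Matrix.mul_assoc]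
    abel
  rw [h1, h2] at hg
  have h3 := add_left_cancel (add_right_cancel hg)
  exact h3

theorem dE_T (h : Co g ρ σ g0 g0i) (hg : g.map d = πᵀ * g + g * π)
    (hθ : ρ.map d + θ * ρ = ρ * π) (x : Matrix m m K) :
    dE d θ (Tt g0 g0i x) = Tt g0 g0i (dE d θ x) := by
  have hd := dg0 h hg hθ
  -- multiply by `g0` on the left
  have key : g0 * dE d θ (Tt g0 g0i x) = g0 * Tt g0 g0i (dE d θ x) := by
    rw [g0_Tt h]
    have e1 := congrArg (fun X : Matrix m m K => X.map d) (g0_Tt h x)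
    simp only [mmul, mT] at e1
    have e2 : g0 * (Tt g0 g0i x).map d = (x.map d)ᵀ * g0 + xᵀ * g0.map d
        - g0.map d * Tt g0 g0i x := by
      rw [← e1]; abel
    rw [dE, Matrix.mul_sub, Matrix.mul_add, e2, hd]
    have e3 := g0_Tt h x
    simp only [dE, transpose_sub, transpose_add, transpose_mul, Matrix.add_mul, Matrix.sub_mul,
      Matrix.mul_add, Matrix.mul_assoc]
    rw [e3, ← Matrix.mul_assoc g0 (Tt g0 g0i x) θ, e3]
    simp only [Matrix.mul_assoc]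
    abel
  have h1 : g0i * (g0 * dE d θ (Tt g0 g0i x)) = g0i * (g0 * Tt g0 g0i (dE d θ x)) := by rw [key]
  rwa [← Matrix.mul_assoc, ← Matrix.mul_assoc, h.inv', Matrix.one_mul, Matrix.one_mul] at h1

/-- upstairs and downstairs derivative -/
theorem down (hθ : ρ.map d + θ * ρ = ρ * π) {A : Matrix n n K} {a : Matrix m m K}
    (ha : ρ * A = a * ρ) : ρ * (A.map d + π * A - A * π) = dE d θ a * ρ := by
  have e1 := congrArg (fun X : Matrix m n K => X.map d) ha
  simp only [mmul] at e1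
  have e2 : ρ * A.map d = a.map d * ρ + a * ρ.map d - ρ.map d * A := by
    rw [← e1]; abel
  have e3 : ρ.map d = ρ * π - θ * ρ := by rw [← hθ]; abel
  rw [Matrix.mul_sub, Matrix.mul_add, e2, e3, dE]
  have e4 : ρ * (A * π) = a * (ρ * π) := by
    rw [← Matrix.mul_assoc, ha, Matrix.mul_assoc]
  rw [e4]
  have e5 : θ * (ρ * A) = θ * (a * ρ) := by rw [ha]
  simp only [Matrix.sub_mul, Matrix.add_mul, Matrix.mul_sub, Matrix.mul_assoc] at *
  rw [e5]
  abel

end Der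

section Main

variable {k K : Type*} [Field k] [Field K] [Algebra k K] {m n τ : Type*} [Fintype m]
  [DecidableEq m] [Fintype n] [DecidableEq n]
variable {g : Matrix n n K} {ρ : Matrix m n K} {σ : Matrix n m K} {g0 g0i : Matrix m m K}
  {φ : τ → Matrix n n K} {Φ : τ → Matrix m m K}

/-- the frame corrections whose core part is in `ZZ` -/
def ZF (ρ : Matrix m n K) (g0 g0i : Matrix m m K) (Φ : τ → Matrix m m K) :
    Submodule K (Matrix n n K) where
  carrier := {ζ | ∃ x ∈ ZZ (Tt g0 g0i) 1 0 Φ, ρ * ζ = Tt g0 g0i x * ρ}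
  zero_mem' := ⟨0, Submodule.zero_mem _, by rw [Matrix.mul_zero, map_zero, Matrix.zero_mul]⟩
  add_mem' := by
    rintro a b ⟨x, hx, hxe⟩ ⟨y, hy, hye⟩
    exact ⟨x + y, Submodule.add_mem _ hx hy, by rw [Matrix.mul_add, map_add, Matrix.add_mul, hxe, hye]⟩
  smul_mem' := by
    rintro c a ⟨x, hx, hxe⟩
    exact ⟨c • x, Submodule.smul_mem _ c hx, by
      rw [Matrix.mul_smul, map_smul, Matrix.smul_mul, hxe]⟩

theorem mem_ZF {ζ : Matrix n n K} : ζ ∈ ZF ρ g0 g0i Φ ↔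
    ∃ x ∈ ZZ (Tt g0 g0i) 1 0 Φ, ρ * ζ = Tt g0 g0i x * ρ := Iff.rfl

/-- `R`-valued corrections are in `ZF` -/
theorem mem_ZF_of_val (h : Co g ρ σ g0 g0i) {ζ ζ' : Matrix n n K} (hζ : ζ ∈ ZF ρ g0 g0i Φ)
    (e : g * ζ' = g * ζ) : ζ' ∈ ZF ρ g0 g0i Φ := by
  obtain ⟨x, hx, hxe⟩ := hζ
  exact ⟨x, hx, by rw [h.eq_iff.1 e, hxe]⟩

/-- self-adjoint operators commuting with the `Φ` modulo the radical are in `ZF` -/
theorem mem_ZF_of_sa (h : Co g ρ σ g0 g0i) (hΦ : ∀ r, ρ * φ r = Φ r * ρ) {ζ : Matrix n n K}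
    (hs : ζᵀ * g = g * ζ) (hc : ∀ r, g * (ζ * φ r) = g * (φ r * ζ)) : ζ ∈ ZF ρ g0 g0i Φ := by
  have hb := h.exists_bar hs.symm
  have hT := (adj_iff h hb hb).1 hs
  refine ⟨ρ * ζ * σ, ?_, by rw [hT]; exact hb⟩
  refine mem_ZZ_of_sa hT (mul_one _) (one_mul _) ⟨1, by simp⟩ fun r => ?_
  apply h.cancel_right
  have h1 := h.eq_iff.1 (hc r)
  calc ρ * ζ * σ * Φ r * ρ = ρ * ζ * σ * (Φ r * ρ) := by rw [Matrix.mul_assoc]
    _ = (ρ * ζ * σ * ρ) * φ r := by rw [← hΦ]; simp only [Matrix.mul_assoc]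
    _ = ρ * (ζ * φ r) := by rw [← hb]; simp only [Matrix.mul_assoc]
    _ = (ρ * φ r) * ζ := by rw [h1, Matrix.mul_assoc]
    _ = Φ r * (ρ * ζ) := by rw [hΦ, Matrix.mul_assoc]
    _ = Φ r * (ρ * ζ * σ) * ρ := by rw [Matrix.mul_assoc (Φ r), ← hb]

/-- **second derivative**: literally the `z` of `FrmB.second_all` -/
theorem second (h : Co g ρ σ g0 g0i) (hΦ : ∀ r, ρ * φ r = Φ r * ρ)
    {d : Derivation k K K} {π : Matrix n n K} (hg : g.map d = πᵀ * g + g * π)
    {ζ ζY : Matrix n n K} (hζ : ζ ∈ ZF ρ g0 g0i Φ) (hζY : ζY ∈ ZF ρ g0 g0i Φ)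
    (hdφ : ∀ r, g * ((φ r).map d + π * φ r - φ r * π) = ζYᵀ * g * φ r + g * (φ r * ζY)) :
    ζY * ζ + ζ.map d + π * ζ - ζ * π ∈ ZF ρ g0 g0i Φ := by
  obtain ⟨θ, hθ⟩ := exists_theta h hg
  obtain ⟨x, hx, hxe⟩ := hζ
  obtain ⟨v, hv, hve⟩ := hζY
  refine ⟨dE d θ x + x * v, ?_, ?_⟩
  · refine fixed_mem (Tt_mul h) (dE d θ) dE_add dE_mul (dE_T h hg hθ) ?_ ⟨1, by simp⟩ hx hv ?_
    · simp only [dE, mone, mul_one, one_mul]
      abel
    · intro r
      apply h.cancel_right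
      apply h.cancel_left
      have e1 := down hθ (hΦ r)
      have e2 := h.g_eq ((φ r).map d + π * φ r - φ r * π)
      rw [e1, hdφ r] at e2
      rw [← e2]
      have e3 : ζYᵀ * g * φ r = ρᵀ * (g0 * (v * Φ r * ρ)) := by
        have h1 := congrArg transpose hve
        rw [transpose_mul, transpose_mul] at h1
        have h2 : (Tt g0 g0i v)ᵀ * g0 = g0 * v := by
          have h3 := g0_Tt h (Tt g0 g0i v)
          rw [Tt_Tt h] at h3
          exact h3.symm
        calc ζYᵀ * g * φ r = (ζYᵀ * ρᵀ) * (g0 * (ρ * φ r)) := by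
              rw [← h.fac]; simp only [Matrix.mul_assoc]
          _ = ρᵀ * (((Tt g0 g0i v)ᵀ * g0) * (Φ r * ρ)) := by
              rw [h1, hΦ]; simp only [Matrix.mul_assoc]
          _ = _ := by rw [h2]; simp only [Matrix.mul_assoc]
      have e4 : g * (φ r * ζY) = ρᵀ * (g0 * (Φ r * Tt g0 g0i v * ρ)) := by
        rw [h.g_eq, ← Matrix.mul_assoc ρ, hΦ, Matrix.mul_assoc (Φ r), hve]
        simp only [Matrix.mul_assoc]
      rw [e3, e4, Matrix.add_mul, Matrix.mul_add, Matrix.mul_add]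
  · have e1 := down hθ hxe
    have e2 : ρ * (ζY * ζ + ζ.map d + π * ζ - ζ * π)
        = ρ * ζY * ζ + ρ * (ζ.map d + π * ζ - ζ * π) := by
      rw [Matrix.mul_assoc ρ ζY, ← Matrix.mul_add]
      congr 1
      abel
    rw [e2, e1, hve, Matrix.mul_assoc (Tt g0 g0i v), hxe, map_add, Tt_mul h, dE_T h hg hθ,
      Matrix.add_mul, Matrix.mul_assoc (Tt g0 g0i v)]
    abel

theorem Co.gT (h : Co g ρ σ g0 g0i) : gᵀ = g := by
  rw [← h.fac, transpose_mul, transpose_mul, transpose_transpose, h.symm, Matrix.mul_assoc]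

/-- commutation modulo the radical descends -/
theorem comm_bar (h : Co g ρ σ g0 g0i) {A A' : Matrix n n K} {x x' : Matrix m m K}
    (hA : ρ * A = x * ρ) (hA' : ρ * A' = x' * ρ) (e : g * (A * A') = g * (A' * A)) :
    x * x' = x' * x := by
  apply h.cancel_right
  have h1 := h.eq_iff.1 e
  calc x * x' * ρ = x * (ρ * A') := by rw [hA', Matrix.mul_assoc]
    _ = ρ * (A * A') := by rw [← Matrix.mul_assoc, ← hA, Matrix.mul_assoc]
    _ = ρ * (A' * A) := h1
    _ = x' * (ρ * A) := by rw [← Matrix.mul_assoc, hA', Matrix.mul_assoc]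
    _ = x' * x * ρ := by rw [hA, Matrix.mul_assoc]

/-- `ZZ` for `D` is contained in `ZZ` for `0` -/
theorem ZZ_le_zero {E κ : Type*} [Ring E] [Algebra K E] {T : E →ₗ[K] E} {e D : E} {Ψ : κ → E}
    {z : E} (hz : z ∈ ZZ T e D Ψ) : z ∈ ZZ T e 0 Ψ := by
  obtain ⟨u, h1, h2, h3, h4, h5, h6, h7⟩ := hz
  exact ⟨u, h1, ⟨1, by funext k; simp⟩, h3, h4, h5, h6, h7⟩

/-- **first derivative**: the correction `(c π - π c - c') c⁻¹` of an exact family -/
theorem first (h : Co g ρ σ g0 g0i) (hΦ : ∀ r, ρ * φ r = Φ r * ρ)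
    {d : Derivation k K K} {π : Matrix n n K} (hg : g.map d = πᵀ * g + g * π)
    {t : K} {D c ci : Matrix n n K} (hc : c = 1 + t • D) (hci : c * ci = 1)
    (hDg : Dᵀ * g = g * D) (hDφ : ∀ r, D * φ r = φ r * D) {Db : Matrix m m K}
    (hDb : ρ * D = Db * ρ)
    (hex : ∀ r, g * ((φ r * c * c).map d + π * (φ r * c * c) - φ r * c * c * π) = 0)
    (hom : ∀ x : Matrix m m K, (∀ r, x * ((1 + t • Db) * (1 + t • Db) * Φ r) =
      ((1 + t • Db) * (1 + t • Db) * Φ r) * x) → NilAt (adE Db) x) :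
    (c * π - π * c - c.map d) * ci ∈ ZF ρ g0 g0i Φ := by
  obtain ⟨θ, hθ⟩ := exists_theta h hg
  obtain ⟨cb, hcb⟩ : ∃ cb : Matrix m m K, cb = 1 + t • Db := ⟨_, rfl⟩
  rw [← hcb] at hom
  have hρc : ρ * c = cb * ρ := by
    rw [hc, hcb, Matrix.mul_add, Matrix.add_mul, Matrix.mul_smul, hDb, Matrix.smul_mul,
      Matrix.mul_one, Matrix.one_mul]
  have hcg : cᵀ * g = g * c := by
    rw [hc, transpose_add, transpose_smul, transpose_one, Matrix.add_mul, Matrix.smul_mul, hDg,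
      Matrix.mul_add, Matrix.mul_smul, Matrix.one_mul, Matrix.mul_one]
  have hci' : ci * c = 1 := mul_eq_one_comm.1 hci
  have hcig : ciᵀ * g = g * ci := by
    have e1 : ciᵀ * (cᵀ * g) * ci = ciᵀ * (g * c) * ci := by rw [hcg]
    have e2 : ciᵀ * cᵀ = 1 := by rw [← transpose_mul, hci, transpose_one]
    calc ciᵀ * g = ciᵀ * g * (c * ci) := by rw [hci, Matrix.mul_one]
      _ = ciᵀ * (g * c) * ci := by simp only [Matrix.mul_assoc]
      _ = ciᵀ * cᵀ * g * ci := by rw [← e1]; simp only [Matrix.mul_assoc]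
      _ = g * ci := by rw [e2, Matrix.one_mul]
  obtain ⟨cib, hcib⟩ : ∃ cib : Matrix m m K, ρ * ci = cib * ρ := ⟨_, h.exists_bar hcig.symm⟩
  have Tc : Tt g0 g0i cb = cb := (adj_iff h hρc hρc).1 hcg
  have Tci : Tt g0 g0i cib = cib := (adj_iff h hcib hcib).1 hcig
  have cc1 : cb * cib = 1 := by
    apply h.cancel_right
    rw [Matrix.mul_assoc, ← hcib, ← Matrix.mul_assoc, ← hρc, Matrix.mul_assoc, hci,
      Matrix.mul_one, Matrix.one_mul]
  have cc2 : cib * cb = 1 := mul_eq_one_comm.1 cc1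
  have gau : Gau Db cb cib t := by
    refine ⟨cc1, cc2, fun x => ?_⟩
    rw [hcb, Matrix.add_mul, Matrix.mul_add, Matrix.one_mul, Matrix.mul_one, Matrix.smul_mul,
      Matrix.mul_smul, smul_sub]
    abel
  have DΦ : ∀ r, Db * Φ r = Φ r * Db := fun r =>
    comm_bar h hDb (hΦ r) (by rw [hDφ])
  have cΦ : ∀ r, cb * Φ r = Φ r * cb := by
    intro r
    rw [hcb, Matrix.add_mul, Matrix.mul_add, Matrix.one_mul, Matrix.mul_one, Matrix.smul_mul,
      Matrix.mul_smul, DΦ]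
  have hd0 : ∀ r, dE d θ (cb * cb * Φ r) = 0 := by
    intro r
    have e1 : ρ * (φ r * c * c) = (cb * cb * Φ r) * ρ := by
      calc ρ * (φ r * c * c) = (ρ * φ r) * c * c := by simp only [Matrix.mul_assoc]
        _ = Φ r * ((ρ * c) * c) := by rw [hΦ]; simp only [Matrix.mul_assoc]
        _ = Φ r * (cb * (cb * ρ)) := by rw [hρc, Matrix.mul_assoc cb ρ c, hρc]
        _ = _ := by
          rw [← Matrix.mul_assoc (Φ r), ← cΦ, Matrix.mul_assoc cb (Φ r),
            ← Matrix.mul_assoc (Φ r) cb ρ, ← cΦ]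
          simp only [Matrix.mul_assoc]
    have e2 := down hθ e1
    apply h.cancel_right
    rw [← e2, Matrix.zero_mul]
    have e3 : g * ((φ r * c * c).map d + π * (φ r * c * c) - φ r * c * c * π) = g * 0 := by
      rw [hex, Matrix.mul_zero]
    rw [h.eq_iff.1 e3, Matrix.mul_zero]
  obtain ⟨δ, hδ⟩ : ∃ δ : Matrix m m K, δ = dE d θ cb := ⟨_, rfl⟩
  have Tδ : Tt g0 g0i δ = δ := by rw [hδ, ← dE_T h hg hθ, Tc]
  have δc : ∀ r, δ * (cb * cb * Φ r) = (cb * cb * Φ r) * δ := by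
    intro r
    have e1 : cb * (cb * cb * Φ r) = (cb * cb * Φ r) * cb := by
      rw [Matrix.mul_assoc (cb * cb), ← cΦ]
      simp only [Matrix.mul_assoc]
    have e2 := congrArg (dE d θ) e1
    rw [dE_mul cb (cb * cb * Φ r), dE_mul (cb * cb * Φ r) cb, hd0, Matrix.mul_zero,
      Matrix.zero_mul, add_zero, zero_add] at e2
    rw [hδ]; exact e2
  have h1 : cib * δ ∈ ZZ (Tt g0 g0i) 1 Db Φ :=
    first_mem (Tt_mul h) gau Tci (by rw [mul_one, one_mul]) cΦ Tδ (mul_one _) (one_mul _)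
      (hom δ δc) δc
  refine ⟨-(cib * δ), Submodule.neg_mem _ (ZZ_le_zero h1), ?_⟩
  have e1 := down hθ hρc
  have e2 : (c * π - π * c - c.map d) * ci = -((c.map d + π * c - c * π) * ci) := by
    rw [← Matrix.neg_mul]
    congr 1
    abel
  rw [e2, Matrix.mul_neg, ← Matrix.mul_assoc, e1, Matrix.mul_assoc, hcib, map_neg, Tt_mul h, Tδ,
    Tci, ← hδ, Matrix.neg_mul, Matrix.mul_assoc]

/-- **END** -/
theorem end_ [CharZero K] (h : Co g ρ σ g0 g0i) (hΦ : ∀ r, ρ * φ r = Φ r * ρ)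
    {a : τ → Matrix n n K} [Fintype τ]
    (hp : ∑ r, φ r * a r = 1) {η ζ Dk : Matrix n n K} (hη : ηᵀ = -η) (hζ : ζ ∈ ZF ρ g0 g0i Φ)
    (hD : g * (ηᵀ * g - ζ) = g * Dk) (hDs : Dkᵀ * g = g * Dk)
    (hDc : ∀ r, g * (Dk * φ r) = g * (φ r * Dk)) : g * η * g = 0 := by
  obtain ⟨z, hz, hze⟩ := hζ
  have hX : (-(ηᵀ * g))ᵀ * g = g * (ηᵀ * g) := by
    rw [transpose_neg, transpose_mul, transpose_transpose, h.gT, Matrix.neg_mul, hη,
      Matrix.neg_mul, Matrix.mul_neg, ← Matrix.mul_assoc]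
  have hXb := h.exists_bar hX.symm
  have hXb' : ρ * (-(ηᵀ * g)) = (-(ρ * (ηᵀ * g) * σ)) * ρ := by
    rw [Matrix.mul_neg, Matrix.neg_mul, ← hXb]
  have TX := (adj_iff h hXb hXb').1 hX
  have hDb := h.exists_bar hDs.symm
  have TD := (adj_iff h hDb hDb).1 hDs
  obtain ⟨x, hx⟩ : ∃ x, x = ρ * (ηᵀ * g) * σ := ⟨_, rfl⟩
  obtain ⟨y, hy⟩ : ∃ y, y = ρ * Dk * σ := ⟨_, rfl⟩
  rw [← hx] at hXb TX
  rw [← hy] at hDb TD
  have e1 : x - Tt g0 g0i z = y := by
    apply h.cancel_right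
    rw [Matrix.sub_mul, ← hXb, ← hze, ← hDb, ← Matrix.mul_sub]
    exact h.eq_iff.1 hD
  have e2 : -x - z = y := by
    have h2 := congrArg (Tt g0 g0i) e1
    rw [map_sub, Tt_Tt h, TD] at h2
    rw [map_neg] at TX
    rw [← h2]
    congr 1
    rw [neg_eq_iff_eq_neg] at TX
    exact TX.symm
  have h0 : -x = 0 := by
    refine skew_eq_zero hz (by rw [TX, neg_neg]) (mul_one _) ?_ (by rw [e2, TD]) ?_
    · intro w _ hw
      apply h.cancel_right
      rw [Matrix.zero_mul]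
      calc w * ρ = w * (ρ * ∑ r, φ r * a r) := by rw [hp, Matrix.mul_one]
        _ = ∑ r, (w * Φ r) * (ρ * a r) := by
          rw [Matrix.mul_sum, Matrix.mul_sum]
          refine Finset.sum_congr rfl fun r _ => ?_
          rw [← Matrix.mul_assoc ρ, hΦ]
          simp only [Matrix.mul_assoc]
        _ = 0 := by
          refine Finset.sum_eq_zero fun r _ => ?_
          rw [hw, Matrix.zero_mul]
    · intro r
      rw [e2]
      exact comm_bar h hDb (hΦ r) (hDc r)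
  have h4 : x = 0 := neg_eq_zero.1 h0
  have h5 : g * (ηᵀ * g) = 0 := by
    rw [h.g_eq, hXb, h4, Matrix.zero_mul, Matrix.mul_zero, Matrix.mul_zero]
  rw [hη, Matrix.neg_mul, Matrix.mul_neg, neg_eq_zero, ← Matrix.mul_assoc] at h5
  exact h5

end Main

end Crest.Agent.R172.ZFm
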