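import Crest.Agent.R172.ZFm

/-!
Row 172: existence of coordinates on `Kⁿ / rad g` (`ZFm.Co`) for a symmetric matrix `g`.
-/

set_option autoImplicit false
set_option linter.unusedSectionVars false

namespace Crest.Agent.R172.ZFm

open Matrix Module

variable {K : Type*} [Field K] {n : Type*} [Fintype n] [DecidableEq n]

theorem exists_co (g : Matrix n n K) (hg : gᵀ = g) :
    ∃ (r : ℕ) (ρ : Matrix (Fin r) n K) (σ : Matrix n (Fin r) K) (g0 g0i : Matrix (Fin r) (Fin r) K),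
      Co g ρ σ g0 g0i ∧ ∀ v, g *ᵥ v = 0 ↔ ρ *ᵥ v = 0 := by
  classical
  let S : Submodule K (n → K) := LinearMap.ker (Matrix.toLin' g)
  let b := Module.finBasis K ((n → K) ⧸ S)
  let lin : (n → K) →ₗ[K] (Fin (finrank K ((n → K) ⧸ S)) → K) :=
    b.equivFun.toLinearMap ∘ₗ S.mkQ
  have hlin : ∀ v, lin v = 0 ↔ g *ᵥ v = 0 := by
    intro v
    change b.equivFun (S.mkQ v) = 0 ↔ _
    rw [LinearEquiv.map_eq_zero_iff, Submodule.mkQ_apply, Submodule.Quotient.mk_eq_zero]
    exact LinearMap.mem_ker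
  have hsurj : Function.Surjective lin := b.equivFun.surjective.comp S.mkQ_surjective
  obtain ⟨s, hs⟩ := lin.exists_rightInverse_of_surjective (LinearMap.range_eq_top.2 hsurj)
  set ρ := LinearMap.toMatrix' lin with hρ
  set σ := LinearMap.toMatrix' s with hσ
  have hρv : ∀ v, ρ *ᵥ v = lin v := fun v => by rw [hρ, LinearMap.toMatrix'_mulVec]
  have hσv : ∀ v, σ *ᵥ v = s v := fun v => by rw [hσ, LinearMap.toMatrix'_mulVec]
  have rs : ρ * σ = 1 := by
    rw [hρ, hσ, ← LinearMap.toMatrix'_comp, hs, LinearMap.toMatrix'_id]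
  have gsr : g * (σ * ρ) = g := by
    refine Matrix.ext_of_mulVec_single fun i => ?_
    rw [← sub_eq_zero, ← Matrix.sub_mulVec, ← Matrix.mul_one g, Matrix.mul_assoc, Matrix.one_mul,
      ← Matrix.mul_sub, ← Matrix.mulVec_mulVec, ← hlin]
    rw [Matrix.sub_mulVec, Matrix.one_mulVec, ← Matrix.mulVec_mulVec, hσv, hρv, map_sub, sub_eq_zero]
    exact LinearMap.congr_fun hs _
  have srg : (σ * ρ)ᵀ * g = g := by
    have h1 := congrArg transpose gsr
    rwa [transpose_mul, hg] at h1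
  have inj : Function.Injective (fun x => (σᵀ * g * σ) *ᵥ x) := by
    have h0 : ∀ x, (σᵀ * g * σ) *ᵥ x = 0 → x = 0 := by
      intro x hx
      have h1 : g *ᵥ (σ *ᵥ x) = 0 := by
        calc g *ᵥ (σ *ᵥ x) = ((σ * ρ)ᵀ * g) *ᵥ (σ *ᵥ x) := by rw [srg]
          _ = ρᵀ *ᵥ ((σᵀ * g * σ) *ᵥ x) := by
            rw [transpose_mul]
            simp only [Matrix.mulVec_mulVec, Matrix.mul_assoc]
          _ = 0 := by rw [hx, Matrix.mulVec_zero]
      rw [← hlin, hσv] at h1
      rw [← h1]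
      exact (LinearMap.congr_fun hs x).symm
    intro x y hxy
    rw [← sub_eq_zero]
    apply h0
    rw [Matrix.mulVec_sub, sub_eq_zero]
    exact hxy
  have hu : IsUnit (σᵀ * g * σ) := Matrix.mulVec_injective_iff_isUnit.1 inj
  have hdet : IsUnit (σᵀ * g * σ).det := (Matrix.isUnit_iff_isUnit_det _).1 hu
  refine ⟨_, ρ, σ, σᵀ * g * σ, (σᵀ * g * σ)⁻¹, ⟨rs, ?_, ?_, Matrix.mul_nonsing_inv _ hdet,
    Matrix.nonsing_inv_mul _ hdet⟩, fun v => by rw [hρv, hlin]⟩
  · calc ρᵀ * (σᵀ * g * σ) * ρ = (σ * ρ)ᵀ * (g * (σ * ρ)) := by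
          rw [transpose_mul]; simp only [Matrix.mul_assoc]
      _ = g := by rw [gsr, srg]
  · rw [transpose_mul, transpose_mul, transpose_transpose, hg, Matrix.mul_assoc]

end Crest.Agent.R172.ZFm
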