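import Crest.Agent.R172.ZP1

/-!
Row 172 (S0260), T0: the elements of `ZP.ZZ` (and their adjoints) keep the ranges of `Φ r ^ a`:
the defining polynomial sequence `h` extends to negative indices.
-/

set_option autoImplicit false

namespace Crest.Agent.R172.ZNeg

open Finset Crest.Agent.R172.ZP

variable {E : Type*} [Ring E]

theorem DD_iter_zero {u : ℕ → E} (hu : ∀ k, 1 ≤ k → u k = 0) :
    ∀ m : ℕ, ((DD ^ m : AddMonoid.End (ℕ → E)) u) 0 = (-1) ^ m * u 0 ∧
      ∀ k, 1 ≤ k → ((DD ^ m : AddMonoid.End (ℕ → E)) u) k = 0 := by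
  intro m
  induction m with
  | zero => exact ⟨by simp, fun k hk => by simpa using hu k hk⟩
  | succ m ih =>
    have e : ∀ k, ((DD ^ (m + 1) : AddMonoid.End (ℕ → E)) u) k =
        ((DD ^ m : AddMonoid.End (ℕ → E)) u) (k + 1) - ((DD ^ m : AddMonoid.End (ℕ → E)) u) k := by
      intro k
      rw [pow_succ', AddMonoid.End.coe_mul, Function.comp_apply, DD_apply]
    refine ⟨?_, fun k hk => ?_⟩
    · rw [e, ih.2 1 le_rfl, ih.1, pow_succ]
      simp
    · rw [e, ih.2 (k + 1) (by omega), ih.2 k hk, sub_zero]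

/-- a polynomial sequence which vanishes for `k ≥ 1` vanishes -/
theorem zero_of_tail {u : ℕ → E} (h : NilAt (DD : AddMonoid.End (ℕ → E)) u)
    (hu : ∀ k, 1 ≤ k → u k = 0) : u 0 = 0 := by
  obtain ⟨m, hm⟩ := h
  have h1 := (DD_iter_zero hu m).1
  rw [hm] at h1
  have h2 : (-1 : E) ^ m * ((-1 : E) ^ m * u 0) = 0 := by
    rw [← h1]; simp
  rwa [← mul_assoc, ← pow_add, ← two_mul, pow_mul, neg_one_sq, one_pow, one_mul] at h2

/-- every polynomial sequence is the shift of a polynomial sequence -/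
theorem exists_unshift {h : ℕ → E} (hh : NilAt (DD : AddMonoid.End (ℕ → E)) h) :
    ∃ h' : ℕ → E, NilAt (DD : AddMonoid.End (ℕ → E)) h' ∧ ∀ k, h' (k + 1) = h k := by
  obtain ⟨m, hm⟩ := hh
  suffices H : ∀ (m : ℕ) (h : ℕ → E), ((DD : AddMonoid.End (ℕ → E)) ^ m) h = 0 →
      ∃ h' : ℕ → E, ((DD : AddMonoid.End (ℕ → E)) ^ m) h' = 0 ∧ ∀ k, h' (k + 1) = h k by
    obtain ⟨h', h1, h2⟩ := H m h hm
    exact ⟨h', ⟨m, h1⟩, h2⟩
  intro m
  induction m with
  | zero =>
    intro h hm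
    have : h = 0 := by simpa using hm
    exact ⟨0, by simp, fun k => by rw [this]; rfl⟩
  | succ m ih =>
    intro h hm
    have h1 : ((DD : AddMonoid.End (ℕ → E)) ^ m) (DD h) = 0 := by
      rw [pow_succ, AddMonoid.End.coe_mul, Function.comp_apply] at hm
      exact hm
    obtain ⟨w, hw1, hw2⟩ := ih (DD h) h1
    -- `w (k+1) = h (k+1) - h k`; take `h' = h - w`
    refine ⟨h - w, ?_, fun k => ?_⟩
    · rw [map_sub, hm, zero_sub, neg_eq_zero, pow_succ', AddMonoid.End.coe_mul,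
        Function.comp_apply, hw1, map_zero]
    · rw [Pi.sub_apply, hw2, DD_apply]
      abel

variable {K κ : Type*} [Field K] [Algebra K E] {T : E →ₗ[K] E} {e D : E} {Φ : κ → E}

/-- the sequence starting at index `-N` -/
theorem exists_neg {h : ℕ → E} (hh : NilAt (DD : AddMonoid.End (ℕ → E)) h)
    (hΦ : ∀ k r, h (k + 2) * Φ r = Φ r * h k) (N : ℕ) :
    ∃ h' : ℕ → E, NilAt (DD : AddMonoid.End (ℕ → E)) h' ∧ (∀ k, h' (k + N) = h k) ∧
      ∀ k r, h' (k + 2) * Φ r = Φ r * h' k := by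
  induction N with
  | zero => exact ⟨h, hh, fun k => rfl, hΦ⟩
  | succ N ih =>
    obtain ⟨g, g1, g2, g3⟩ := ih
    obtain ⟨g', e1, e2⟩ := exists_unshift g1
    refine ⟨g', e1, fun k => ?_, fun k r => ?_⟩
    · rw [← g2 k, ← e2 (k + N)]
      congr 1
    · rcases Nat.eq_zero_or_pos k with rfl | hk
      · let u : ℕ → E := fun k => g' (k + 2) * Φ r - Φ r * g' k
        have hu : NilAt (DD : AddMonoid.End (ℕ → E)) u := by
          have a1 : NilAt (DD : AddMonoid.End (ℕ → E)) (fun k => g' (k + 2) * Φ r) := by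
            refine e1.map (fun x k => x (k + 2) * Φ r) ?_ ?_
            · funext k; simp
            · intro x; funext k
              simp only [DD_apply, sub_mul]
          have a2 : NilAt (DD : AddMonoid.End (ℕ → E)) (fun k => Φ r * g' k) := by
            refine e1.map (fun x k => Φ r * x k) ?_ ?_
            · funext k; simp
            · intro x; funext k
              simp only [DD_apply, mul_sub]
          exact a1.sub a2
        have h0 : u 0 = 0 := by
          refine zero_of_tail hu fun k hk => ?_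
          obtain ⟨j, rfl⟩ : ∃ j, k = j + 1 := ⟨k - 1, by omega⟩
          change g' (j + 1 + 2) * Φ r - Φ r * g' (j + 1) = 0
          rw [show j + 1 + 2 = (j + 2) + 1 from rfl, e2, e2, g3, sub_self]
        exact sub_eq_zero.1 h0
      · obtain ⟨j, rfl⟩ : ∃ j, k = j + 1 := ⟨k - 1, by omega⟩
        rw [show j + 1 + 2 = (j + 2) + 1 from rfl, e2, e2, g3]

theorem pow_rel {h : ℕ → E} (hΦ : ∀ k r, h (k + 2) * Φ r = Φ r * h k) (r : κ) :
    ∀ a k : ℕ, h (k + 2 * a) * Φ r ^ a = Φ r ^ a * h k := by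
  intro a
  induction a with
  | zero => intro k; simp
  | succ a ih =>
    intro k
    rw [show k + 2 * (a + 1) = (k + 2 * a) + 2 by ring, pow_succ', ← mul_assoc, hΦ,
      mul_assoc, ih, mul_assoc]

/-- **elements of `ZZ` and their adjoints keep the ranges of `Φ r ^ a`** -/
theorem ZZ.fil {z : E} (hz : z ∈ ZZ T e D Φ) (r : κ) (a : ℕ) :
    (∃ y, z * Φ r ^ a = Φ r ^ a * y) ∧ ∃ y, T z * Φ r ^ a = Φ r ^ a * y := by
  obtain ⟨h, h1, h2, h3, h4, h5, h6, h7⟩ := hz
  obtain ⟨g, g1, g2, g3⟩ := exists_neg h1 h7 (2 * a)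
  refine ⟨⟨g 1, ?_⟩, ⟨g 0, ?_⟩⟩
  · rw [← h6, ← g2 1]
    exact pow_rel g3 r a 1
  · rw [← h5, ← g2 0]
    exact pow_rel g3 r a 0

end Crest.Agent.R172.ZNeg
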