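import Crest.Agent.R172.Span2

/-!
Row 172, T0 with arbitrary radical: the abstract end `Span2.main` (helper719) for corrections `b`
which are only known modulo a submodule `Z ≤ R1` killed by all `A_t`.  (helper418)
-/

set_option autoImplicit false

namespace Crest.Agent.R172.ZQ2

open Module TensorProduct Crest.Agent.R172.Span2

variable {K : Type*} [Field K] {P1 P2 E : Type*} [AddCommGroup P1] [Module K P1]
  [AddCommGroup P2] [Module K P2] [AddCommGroup E] [Module K E]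
  {τ : Type*} [Fintype τ] [DecidableEq τ]

/-- `b` is the correction of `x` at `c`, modulo `Z` -/
structure CorZ (A : τ → End K P1) (B : τ → End K P2) (R1 Z : Submodule K P1)
    (g : P2 →ₗ[K] P2 →ₗ[K] K) (c : K) (x : τ → P2 ⊗[K] P1) (b : P2 →ₗ[K] P1) : Prop where
  mem : ∀ p, b p ∈ R1
  eq : ∀ t p, (A t (b p) - c • b (B t p))
    - (A t (ev g (x t) p) - c • ev g (x t) (B t p)) ∈ Z

section quot

variable (Z : Submodule K P1)

/-- the operator induced on `P1 ⧸ Z` -/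
noncomputable def Aq (A : τ → End K P1) (hZA : ∀ t, ∀ z ∈ Z, A t z = 0) (t : τ) :
    End K (P1 ⧸ Z) :=
  Z.mapQ Z (A t) (fun z hz => by
    rw [Submodule.mem_comap, hZA t z hz]; exact Z.zero_mem)

variable {Z} {A : τ → End K P1} {B : τ → End K P2} (hZA : ∀ t, ∀ z ∈ Z, A t z = 0)

theorem Aq_mk (t : τ) (p : P1) : Aq Z A hZA t (Z.mkQ p) = Z.mkQ (A t p) := rfl

theorem Aq_pow (t : τ) (i : ℕ) (p : P1) :
    (Aq Z A hZA t ^ i) (Z.mkQ p) = Z.mkQ ((A t ^ i) p) := by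
  induction i generalizing p with
  | zero => rfl
  | succ i ih => rw [pow_succ, pow_succ, Module.End.mul_apply, Module.End.mul_apply, Aq_mk, ih]

theorem Aq_word (w : List τ) (p : P1) :
    (w.map (Aq Z A hZA)).prod (Z.mkQ p) = Z.mkQ ((w.map A).prod p) := by
  induction w with
  | nil => rfl
  | cons t w ih =>
    rw [List.map_cons, List.prod_cons, List.map_cons, List.prod_cons, Module.End.mul_apply,
      Module.End.mul_apply, ih, Aq_mk]

variable (P2) in
/-- the projection `P2 ⊗ P1 → P2 ⊗ (P1 ⧸ Z)` -/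
noncomputable def pr (Z : Submodule K P1) : P2 ⊗[K] P1 →ₗ[K] P2 ⊗[K] (P1 ⧸ Z) :=
  LinearMap.lTensor P2 Z.mkQ

theorem pr_tmul (p : P2) (p' : P1) : pr P2 Z (p ⊗ₜ[K] p') = p ⊗ₜ[K] (Z.mkQ p') := rfl

theorem pr_surj : Function.Surjective (pr P2 Z) :=
  LinearMap.lTensor_surjective P2 Z.mkQ_surjective

theorem pr_ker {x : P2 ⊗[K] P1} (hx : pr P2 Z x = 0) :
    ∃ y : P2 ⊗[K] Z, (LinearMap.lTensor P2 Z.subtype) y = x := by
  have hex : Function.Exact (LinearMap.lTensor P2 Z.subtype) (LinearMap.lTensor P2 Z.mkQ) :=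
    lTensor_exact P2 (LinearMap.exact_subtype_mkQ Z) Z.mkQ_surjective
  exact (hex x).1 hx

theorem pr_DD (c : K) (t : τ) (x : P2 ⊗[K] P1) :
    pr P2 Z (D A B c t x) = D (Aq Z A hZA) B c t (pr P2 Z x) := by
  induction x with
  | zero => simp
  | add x y hx hy => rw [map_add, map_add, map_add, map_add, hx, hy]
  | tmul p p' =>
    simp only [D, LinearMap.sub_apply, LinearMap.smul_apply, LinearMap.lTensor_tmul,
      LinearMap.rTensor_tmul, map_sub, map_smul, pr_tmul, Aq_mk]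

theorem DD_sub (c : K) (t : τ) (y : P2 ⊗[K] Z) (hZA : ∀ t, ∀ z ∈ Z, A t z = 0) :
    D A B c t ((LinearMap.lTensor P2 Z.subtype) y) =
      - (c • (LinearMap.lTensor P2 Z.subtype) (((B t).rTensor Z) y)) := by
  induction y with
  | zero => simp
  | add x y hx hy => rw [map_add, map_add, map_add, map_add, hx, hy, smul_add, neg_add]
  | tmul p z =>
    simp only [D, LinearMap.sub_apply, LinearMap.smul_apply, LinearMap.lTensor_tmul,
      LinearMap.rTensor_tmul, Submodule.subtype_apply]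
    rw [hZA t z z.2, TensorProduct.tmul_zero, zero_sub]

theorem exists_B (hB : ⨆ t, LinearMap.range (B t) = ⊤) (y : P2 ⊗[K] Z) :
    ∃ ζ : τ → P2 ⊗[K] Z, ∑ t, ((B t).rTensor Z) (ζ t) = y := by
  induction y with
  | zero => exact ⟨0, by simp⟩
  | add x y hx hy =>
    obtain ⟨a, ha⟩ := hx
    obtain ⟨b, hb⟩ := hy
    refine ⟨a + b, ?_⟩
    rw [← ha, ← hb, ← Finset.sum_add_distrib]
    exact Finset.sum_congr rfl fun t _ => by rw [Pi.add_apply, map_add]
  | tmul p z =>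
    have hp : p ∈ ⨆ t, LinearMap.range (B t) := by rw [hB]; trivial
    rw [Submodule.mem_iSup_iff_exists_finsupp] at hp
    obtain ⟨f, hf, hsum⟩ := hp
    choose u hu using hf
    refine ⟨fun t => u t ⊗ₜ[K] z, ?_⟩
    simp only [LinearMap.rTensor_tmul, hu]
    rw [← TensorProduct.sum_tmul, ← hsum]
    congr 1
    rw [Finsupp.sum_fintype f _ (fun _ => rfl)]

variable {R1 : Submodule K P1} {R2 : Submodule K P2}

theorem mem_of_pr (hZR : Z ≤ R1) {x : P2 ⊗[K] P1}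
    (hx : pr P2 Z x ∈ (Rad (R1.map Z.mkQ) R2 : Submodule K (P2 ⊗[K] (P1 ⧸ Z)))) :
    x ∈ (Rad R1 R2 : Submodule K (P2 ⊗[K] P1)) := by
  have h1 : (Rad (R1.map Z.mkQ) R2 : Submodule K (P2 ⊗[K] (P1 ⧸ Z))) ≤
      (Rad R1 R2 : Submodule K (P2 ⊗[K] P1)).map (pr P2 Z) := by
    refine Submodule.span_le.2 ?_
    rintro _ ⟨p2, p1, (hr | ⟨r, hr, rfl⟩), rfl⟩
    · obtain ⟨p, rfl⟩ := Z.mkQ_surjective p1
      exact ⟨p2 ⊗ₜ[K] p, Submodule.subset_span ⟨p2, p, Or.inl hr, rfl⟩, rfl⟩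
    · exact ⟨p2 ⊗ₜ[K] r, Submodule.subset_span ⟨p2, r, Or.inr hr, rfl⟩, rfl⟩
  obtain ⟨y, hy, hyx⟩ := h1 hx
  obtain ⟨z, hz⟩ := pr_ker (Z := Z) (x := x - y) (by rw [map_sub, hyx, sub_self])
  have h2 : x - y ∈ (Rad R1 R2 : Submodule K (P2 ⊗[K] P1)) := by
    rw [← hz]
    clear hz
    induction z with
    | zero => rw [map_zero]; exact Submodule.zero_mem _
    | add a b ha hb => rw [map_add]; exact Submodule.add_mem _ ha hb
    | tmul p z =>
      exact Submodule.subset_span ⟨p, z, Or.inr (hZR z.2), rfl⟩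
  have h3 := Submodule.add_mem _ h2 hy
  rwa [sub_add_cancel] at h3

theorem exists_lift (hB : ⨆ t, LinearMap.range (B t) = ⊤) (hZR : Z ≤ R1) {c : K} (hc : c ≠ 0)
    {x : τ → P2 ⊗[K] (P1 ⧸ Z)} (hx : Ex (Aq Z A hZA) B (R1.map Z.mkQ) R2 c x) :
    ∃ y : τ → P2 ⊗[K] P1, Ex A B R1 R2 c y ∧ ∀ t, pr P2 Z (y t) = x t := by
  choose x0 hx0 using fun t => pr_surj (P2 := P2) (Z := Z) (x t)
  have h1 : pr P2 Z (∑ t, D A B c t (x0 t)) = 0 := by
    rw [map_sum, ← hx.sum]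
    exact Finset.sum_congr rfl fun t _ => by rw [pr_DD hZA, hx0]
  obtain ⟨e, he⟩ := pr_ker h1
  obtain ⟨ζ, hζ⟩ := exists_B hB e
  have hpr : ∀ t, pr P2 Z (x0 t + c⁻¹ • (LinearMap.lTensor P2 Z.subtype) (ζ t)) = x t := by
    intro t
    rw [map_add, hx0, map_smul]
    have : pr P2 Z ((LinearMap.lTensor P2 Z.subtype) (ζ t)) = 0 := by
      generalize ζ t = y
      induction y with
      | zero => simp
      | add x y hx hy => rw [map_add, map_add, hx, hy, add_zero]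
      | tmul p z =>
        rw [LinearMap.lTensor_tmul, pr_tmul, Submodule.subtype_apply, Submodule.mkQ_apply,
          (Submodule.Quotient.mk_eq_zero Z).2 z.2, TensorProduct.tmul_zero]
    rw [this, smul_zero, add_zero]
  refine ⟨fun t => x0 t + c⁻¹ • (LinearMap.lTensor P2 Z.subtype) (ζ t), ⟨?_, ?_⟩, hpr⟩
  · have h2 : ∀ t, D A B c t (x0 t + c⁻¹ • (LinearMap.lTensor P2 Z.subtype) (ζ t)) =
        D A B c t (x0 t) - (LinearMap.lTensor P2 Z.subtype) (((B t).rTensor Z) (ζ t)) := by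
      intro t
      rw [map_add, map_smul, DD_sub c t (ζ t) hZA, smul_neg, smul_smul, inv_mul_cancel₀ hc,
        one_smul, sub_eq_add_neg]
    rw [Finset.sum_congr rfl fun t _ => h2 t, Finset.sum_sub_distrib, ← map_sum, hζ, he, sub_self]
  · intro t
    apply mem_of_pr hZR
    rw [pr_DD hZA, hpr]
    exact hx.rad t

end quot

section main

variable {A : τ → End K P1} {B : τ → End K P2} {R1 Z : Submodule K P1} {R2 : Submodule K P2}
  {l : τ → ℕ} {g : P2 →ₗ[K] P2 →ₗ[K] K} {eps : K}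

theorem ev_pr (x : P2 ⊗[K] P1) (p : P2) : ev g (pr P2 Z x) p = Z.mkQ (ev g x p) := by
  induction x with
  | zero => simp
  | add x y hx hy =>
    rw [map_add, map_add, map_add, LinearMap.add_apply, LinearMap.add_apply, map_add, hx, hy]
  | tmul a b => rw [pr_tmul, ev_tmul, ev_tmul, map_smul]

/-- the bilinear maps on the quotient -/
noncomputable def qq (q : P1 →ₗ[K] P1 →ₗ[K] E) (Q : Submodule K E)
    (h1 : ∀ p, ∀ z ∈ Z, q p z ∈ Q) (h2 : ∀ z ∈ Z, ∀ p, q z p ∈ Q) :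
    (P1 ⧸ Z) →ₗ[K] (P1 ⧸ Z) →ₗ[K] (E ⧸ Q) :=
  Z.liftQ
    { toFun := fun p => Z.liftQ (Q.mkQ ∘ₗ q p) (fun z hz => by
        rw [LinearMap.mem_ker, LinearMap.comp_apply, Submodule.mkQ_apply]
        exact (Submodule.Quotient.mk_eq_zero Q).2 (h1 p z hz))
      map_add' := fun a b => by
        apply LinearMap.ext
        intro y
        obtain ⟨y, rfl⟩ := Z.mkQ_surjective y
        simp
      map_smul' := fun a b => by
        apply LinearMap.ext
        intro y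
        obtain ⟨y, rfl⟩ := Z.mkQ_surjective y
        simp }
    (fun z hz => by
      rw [LinearMap.mem_ker]
      apply LinearMap.ext
      intro y
      obtain ⟨y, rfl⟩ := Z.mkQ_surjective y
      show Q.mkQ (q z y) = 0
      rw [Submodule.mkQ_apply]
      exact (Submodule.Quotient.mk_eq_zero Q).2 (h2 z hz y))

theorem qq_mk (q : P1 →ₗ[K] P1 →ₗ[K] E) (Q : Submodule K E)
    (h1 : ∀ p, ∀ z ∈ Z, q p z ∈ Q) (h2 : ∀ z ∈ Z, ∀ p, q z p ∈ Q) (a b : P1) :
    qq q Q h1 h2 (Z.mkQ a) (Z.mkQ b) = Q.mkQ (q a b) := rfl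

/-- **`Span2.main` for corrections modulo `Z`.** -/
theorem main_Z {Λ : Set K} {m : ℕ} (H : Hyp A B R1 R2 m l g Λ)
    (hZR : Z ≤ R1) (hZA : ∀ t, ∀ z ∈ Z, A t z = 0)
    (q : τ → P1 →ₗ[K] P1 →ₗ[K] E) (Q : Submodule K E)
    (hqZ : ∀ t p, ∀ z ∈ Z, q t p z ∈ Q) (hZq : ∀ t, ∀ z ∈ Z, ∀ p, q t z p ∈ Q)
    (hex : ∀ c ∈ Λ, ∀ x, Ex A B R1 R2 c x → ∃ b, CorZ A B R1 Z g c x b)
    (hrel : ∀ c ∈ Λ, ∀ c' ∈ Λ, ∀ x b x' b', Ex A B R1 R2 c x → CorZ A B R1 Z g c x b →
      Ex A B R1 R2 c' x' → CorZ A B R1 Z g c' x' b' →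
      ∑ t, (TensorProduct.lift ((q t) ∘ₗ (b' - ev g (x' t))) (x t) +
        TensorProduct.lift ((q t).flip ∘ₗ b) (x' t)) ∈ Q) :
    (∀ t, ∀ r ∈ R1, ∀ p, q t r p ∈ Q ∧ q t p r ∈ Q) ∧
      (∀ s i j, i + j + 1 = l s → ∀ p p', q s ((A s ^ i) p) ((A s ^ j) p') ∈ Q) := by
  obtain ⟨σ, hσ⟩ := Z.mkQ.exists_rightInverse_of_surjective (Submodule.range_mkQ Z)
  have hσ' : ∀ y, Z.mkQ (σ y) = y := fun y => LinearMap.congr_fun hσ y
  have hl0 : ∀ c ∈ Λ, c ≠ 0 := fun c hc h => H.zero (h ▸ hc)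
  have hcor : ∀ c x b, Cor (Aq Z A hZA) B (R1.map Z.mkQ) g c (fun t => pr P2 Z (x t)) b →
      CorZ A B R1 Z g c x (σ ∘ₗ b) := by
    intro c x b hb
    refine ⟨fun p => ?_, fun t p => ?_⟩
    · obtain ⟨r, hr, hrb⟩ := hb.mem p
      have h1 : σ (b p) - r ∈ Z := by
        rw [← Submodule.Quotient.mk_eq_zero Z, ← Submodule.mkQ_apply, map_sub, hσ', hrb, sub_self]
      have h2 := R1.add_mem (hZR h1) hr
      rwa [sub_add_cancel] at h2
    · have h1 := hb.eq t p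
      rw [← Submodule.Quotient.mk_eq_zero Z, ← Submodule.mkQ_apply]
      rw [ev_pr, ev_pr, Aq_mk] at h1
      rw [map_sub, map_sub, map_sub, map_smul, map_smul, ← h1, LinearMap.comp_apply,
        LinearMap.comp_apply, ← Aq_mk hZA, hσ', hσ', sub_self]
  have hlift : ∀ (t : τ) (f : P2 →ₗ[K] P1) (f' : P2 →ₗ[K] (P1 ⧸ Z)) (x : P2 ⊗[K] P1),
      (∀ p, Z.mkQ (f p) = f' p) →
      TensorProduct.lift ((qq (q t) Q (hqZ t) (hZq t)) ∘ₗ f') (pr P2 Z x) =
        Q.mkQ (TensorProduct.lift ((q t) ∘ₗ f) x) := by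
    intro t f f' x hf
    induction x with
    | zero => simp
    | add x y hx hy => rw [map_add, map_add, map_add, map_add, hx, hy]
    | tmul a b =>
      rw [pr_tmul, TensorProduct.lift.tmul, TensorProduct.lift.tmul, LinearMap.comp_apply,
        LinearMap.comp_apply, ← hf, qq_mk]
  have hlift2 : ∀ (t : τ) (f : P2 →ₗ[K] P1) (f' : P2 →ₗ[K] (P1 ⧸ Z)) (x : P2 ⊗[K] P1),
      (∀ p, Z.mkQ (f p) = f' p) →
      TensorProduct.lift ((qq (q t) Q (hqZ t) (hZq t)).flip ∘ₗ f') (pr P2 Z x) =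
        Q.mkQ (TensorProduct.lift ((q t).flip ∘ₗ f) x) := by
    intro t f f' x hf
    induction x with
    | zero => simp
    | add x y hx hy => rw [map_add, map_add, map_add, map_add, hx, hy]
    | tmul a b =>
      rw [pr_tmul, TensorProduct.lift.tmul, TensorProduct.lift.tmul, LinearMap.comp_apply,
        LinearMap.comp_apply, ← hf, LinearMap.flip_apply, LinearMap.flip_apply, qq_mk]
  have hDn : ∀ n, Dn (Aq Z A hZA) (R1.map Z.mkQ) n = (Dn A R1 n).map Z.mkQ := by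
    intro n
    induction n with
    | zero => rfl
    | succ n ih =>
      show (⨆ t, (Dn (Aq Z A hZA) (R1.map Z.mkQ) n).map (Aq Z A hZA t)) =
        (⨆ t, (Dn A R1 n).map (A t)).map Z.mkQ
      rw [ih, Submodule.map_iSup]
      refine iSup_congr fun t => ?_
      rw [← Submodule.map_comp, ← Submodule.map_comp]
      rfl
  have HQ : Hyp (Aq Z A hZA) B (R1.map Z.mkQ) R2 m l g Λ :=
    { hA := by
        rw [eq_top_iff]
        rintro y -
        obtain ⟨y, rfl⟩ := Z.mkQ_surjective y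
        have hy : y ∈ ⨆ t, LinearMap.range (A t) := by rw [H.hA]; trivial
        have : (⨆ t, LinearMap.range (A t)) ≤
            (⨆ t, LinearMap.range (Aq Z A hZA t)).comap Z.mkQ := by
          refine iSup_le fun t => ?_
          rintro _ ⟨u, rfl⟩
          exact Submodule.mem_iSup_of_mem t ⟨Z.mkQ u, Aq_mk hZA t u⟩
        exact this hy
      hB := H.hB
      sR1 := by
        rintro t _ ⟨_, ⟨r, hr, rfl⟩, rfl⟩
        exact ⟨A t r, H.sR1 t ⟨r, hr, rfl⟩, (Aq_mk hZA t r).symm⟩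
      sR2 := H.sR2
      n1 := by rw [hDn, H.n1, Submodule.map_bot]
      n2 := H.n2
      lpos := H.lpos
      l1 := by
        intro s p
        obtain ⟨p, rfl⟩ := Z.mkQ_surjective p
        rw [Aq_pow]
        exact ⟨_, H.l1 s p, rfl⟩
      l2 := H.l2
      gen1 := by
        intro S hS1 hS2
        rintro _ ⟨r, hr, rfl⟩
        refine H.gen1 (S.comap Z.mkQ) (fun t => ?_) (fun s p => ?_) hr
        · rintro _ ⟨v, hv, rfl⟩
          rw [Submodule.mem_comap, ← Aq_mk hZA]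
          exact hS1 t ⟨_, hv, rfl⟩
        · rw [Submodule.mem_comap, ← Aq_pow hZA]; exact hS2 s _
      gen2 := H.gen2
      symm := H.symm
      rad := H.rad
      adj := H.adj
      ne := H.ne
      inf := H.inf
      zero := H.zero }
  have key := Span2.main HQ (E := E ⧸ Q) (fun t => qq (q t) Q (hqZ t) (hZq t)) ⊥
    (by
      intro c hc x hx
      obtain ⟨y, hy, hyx⟩ := exists_lift hZA H.hB hZR (hl0 c hc) hx
      obtain ⟨b, hb⟩ := hex c hc y hy
      refine ⟨Z.mkQ ∘ₗ b, fun p => ⟨_, hb.mem p, rfl⟩, fun t p => ?_⟩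
      have h := (Submodule.Quotient.mk_eq_zero Z).2 (hb.eq t p)
      rw [← Submodule.mkQ_apply, map_sub, sub_eq_zero, map_sub, map_sub, map_smul, map_smul] at h
      rw [← hyx, ev_pr, ev_pr, LinearMap.comp_apply, LinearMap.comp_apply, Aq_mk, Aq_mk]
      exact h)
    (by
      intro c hc c' hc' x b x' b' hx hb hx' hb'
      obtain ⟨y, hy, hyx⟩ := exists_lift hZA H.hB hZR (hl0 c hc) hx
      obtain ⟨y', hy', hyx'⟩ := exists_lift hZA H.hB hZR (hl0 c' hc') hx'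
      have ex1 : x = fun t => pr P2 Z (y t) := funext fun t => (hyx t).symm
      have ex2 : x' = fun t => pr P2 Z (y' t) := funext fun t => (hyx' t).symm
      subst ex1
      subst ex2
      have h := hrel c hc c' hc' y (σ ∘ₗ b) y' (σ ∘ₗ b') hy (hcor c y b hb) hy' (hcor c' y' b' hb')
      rw [Submodule.mem_bot]
      have h' : Q.mkQ (∑ t, (TensorProduct.lift ((q t) ∘ₗ ((σ ∘ₗ b') - ev g (y' t))) (y t) +
        TensorProduct.lift ((q t).flip ∘ₗ (σ ∘ₗ b)) (y' t))) = 0 := by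
        rw [Submodule.mkQ_apply]
        exact (Submodule.Quotient.mk_eq_zero Q).2 h
      rw [← h', map_sum]
      refine Finset.sum_congr rfl fun t _ => ?_
      rw [map_add,
        hlift t ((σ ∘ₗ b') - ev g (y' t)) (b' - ev g (pr P2 Z (y' t))) (y t) (fun p => by
          rw [LinearMap.sub_apply, LinearMap.sub_apply, map_sub, ev_pr, LinearMap.comp_apply,
            hσ']),
        hlift2 t (σ ∘ₗ b) b (y' t) (fun p => hσ' _)])
  obtain ⟨k1, k2⟩ := key
  refine ⟨fun t r hr p => ?_, fun s i j hij p p' => ?_⟩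
  · obtain ⟨u1, u2⟩ := k1 t (Z.mkQ r) ⟨r, hr, rfl⟩ (Z.mkQ p)
    rw [Submodule.mem_bot, qq_mk, Submodule.mkQ_apply] at u1 u2
    exact ⟨(Submodule.Quotient.mk_eq_zero Q).1 u1, (Submodule.Quotient.mk_eq_zero Q).1 u2⟩
  · have u := k2 s i j hij (Z.mkQ p) (Z.mkQ p')
    rw [Submodule.mem_bot, Aq_pow, Aq_pow, qq_mk, Submodule.mkQ_apply] at u
    exact (Submodule.Quotient.mk_eq_zero Q).1 u

end main

end Crest.Agent.R172.ZQ2
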