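import Crest.Agent.R172.RJM

/-!
Row 172, T0 with arbitrary radical: the abstract end `RJM.main` (helper719, form of helper514) for corrections `b`
which are only known modulo an `A`-stable submodule `Z ≤ R1` (generalisation of helper418's `ZQuotJ`, where `Z` is
killed by all `A_t`).  (helper612)
-/

set_option autoImplicit false
set_option linter.unusedSectionVars false

namespace Crest.Agent.R172.ZQL

open Module TensorProduct Crest.Agent.R172.RJM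

variable {K : Type*} [Field K] {P1 P2 E : Type*} [AddCommGroup P1] [Module K P1]
  [AddCommGroup P2] [Module K P2] [AddCommGroup E] [Module K E]
  {τ : Type*} [Fintype τ] [DecidableEq τ]

/-- `b` is the correction of `x` at `c`, modulo `Z` -/
structure CorZ (A : τ → End K P1) (B : τ → End K P2) (R1 Z : Submodule K P1)
    (g : P2 →ₗ[K] P2 →ₗ[K] K) (eps c : K) (x : τ → P2 ⊗[K] P1) (b : P2 →ₗ[K] P1) : Prop where
  mem : ∀ p, b p ∈ R1
  eq : ∀ t p, (A t (b p) - (eps * c) • b (B t p))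
    - (A t (ev g (x t) p) - (eps * c) • ev g (x t) (B t p)) ∈ Z

section quot

variable (Z : Submodule K P1)

/-- the operator induced on `P1 ⧸ Z` -/
noncomputable def Aq (A : τ → End K P1) (hZA : ∀ t, ∀ z ∈ Z, A t z ∈ Z) (t : τ) :
    End K (P1 ⧸ Z) :=
  Z.mapQ Z (A t) (fun z hz => hZA t z hz)

variable {Z} {A : τ → End K P1} {B : τ → End K P2} (hZA : ∀ t, ∀ z ∈ Z, A t z ∈ Z)

theorem Aq_mk (t : τ) (p : P1) : Aq Z A hZA t (Z.mkQ p) = Z.mkQ (A t p) := rfl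

theorem Aq_pow (t : τ) (i : ℕ) (p : P1) :
    (Aq Z A hZA t ^ i) (Z.mkQ p) = Z.mkQ ((A t ^ i) p) := by
  induction i generalizing p with
  | zero => rfl
  | succ i ih => rw [pow_succ, pow_succ, Module.End.mul_apply, Module.End.mul_apply, Aq_mk, ih]

theorem Aq_word (w : List τ) (p : P1) :
    (w.map (Aq Z A hZA)).prod (Z.mkQ p) = Z.mkQ ((w.map A).prod p) := by
  induction w with
  | nil => rfl
  | cons t w ih =>
    rw [List.map_cons, List.prod_cons, List.map_cons, List.prod_cons, Module.End.mul_apply,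
      Module.End.mul_apply, ih, Aq_mk]

variable (P2) in
/-- the projection `P2 ⊗ P1 → P2 ⊗ (P1 ⧸ Z)` -/
noncomputable def pr (Z : Submodule K P1) : P2 ⊗[K] P1 →ₗ[K] P2 ⊗[K] (P1 ⧸ Z) :=
  LinearMap.lTensor P2 Z.mkQ

theorem pr_tmul (p : P2) (p' : P1) : pr P2 Z (p ⊗ₜ[K] p') = p ⊗ₜ[K] (Z.mkQ p') := rfl

theorem pr_surj : Function.Surjective (pr P2 Z) :=
  LinearMap.lTensor_surjective P2 Z.mkQ_surjective

theorem pr_ker {x : P2 ⊗[K] P1} (hx : pr P2 Z x = 0) :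
    ∃ y : P2 ⊗[K] Z, (LinearMap.lTensor P2 Z.subtype) y = x := by
  have hex : Function.Exact (LinearMap.lTensor P2 Z.subtype) (LinearMap.lTensor P2 Z.mkQ) :=
    lTensor_exact P2 (LinearMap.exact_subtype_mkQ Z) Z.mkQ_surjective
  exact (hex x).1 hx

theorem pr_DD (c : K) (t : τ) (x : P2 ⊗[K] P1) :
    pr P2 Z (DD A B c t x) = DD (Aq Z A hZA) B c t (pr P2 Z x) := by
  induction x with
  | zero => simp
  | add x y hx hy => rw [map_add, map_add, map_add, map_add, hx, hy]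
  | tmul p p' =>
    simp only [DD, LinearMap.sub_apply, LinearMap.smul_apply, LinearMap.lTensor_tmul,
      LinearMap.rTensor_tmul, map_sub, map_smul, pr_tmul, Aq_mk]

theorem exists_tmul (hB : ⨆ t, LinearMap.range (B t) = ⊤) {c : K} (hc : c ≠ 0)
    (hZA : ∀ t, ∀ z ∈ Z, A t z ∈ Z) (j : ℕ) :
    ∀ z ∈ Z, (∀ w : List τ, w.length = j → (w.map A).prod z = 0) → ∀ p : P2,
      ∃ ζ : τ → P2 ⊗[K] P1, (∀ t, pr P2 Z (ζ t) = 0) ∧
        ∑ t, DD A B c t (ζ t) = p ⊗ₜ[K] z := by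
  induction j with
  | zero =>
    intro z _ hz p
    have h0 := hz [] rfl
    rw [List.map_nil, List.prod_nil, Module.End.one_apply] at h0
    exact ⟨0, by simp, by simp [h0]⟩
  | succ j ih =>
    intro z hzZ hz p
    have hp : p ∈ ⨆ t, LinearMap.range (B t) := by rw [hB]; trivial
    rw [Submodule.mem_iSup_iff_exists_finsupp] at hp
    obtain ⟨f, hf, hsum⟩ := hp
    choose u hu using hf
    have hsum' : ∑ t, B t (u t) = p := by
      rw [← hsum, Finsupp.sum_fintype f _ (fun _ => rfl)]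
      exact Finset.sum_congr rfl fun t _ => hu t
    have h1 : ∀ t, ∃ ζ : τ → P2 ⊗[K] P1, (∀ s, pr P2 Z (ζ s) = 0) ∧
        ∑ s, DD A B c s (ζ s) = u t ⊗ₜ[K] (A t z) := by
      intro t
      refine ih (A t z) (hZA t z hzZ) (fun w hw => ?_) (u t)
      have h2 := hz (w ++ [t]) (by rw [List.length_append, hw]; rfl)
      rw [List.map_append, List.prod_append, List.map_cons, List.map_nil, List.prod_cons,
        List.prod_nil, mul_one, Module.End.mul_apply] at h2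
      exact h2
    choose ζ hζ1 hζ2 using h1
    refine ⟨fun s => c⁻¹ • (∑ t, ζ t s - u s ⊗ₜ[K] z), fun s => ?_, ?_⟩
    · rw [map_smul, map_sub, map_sum, Finset.sum_eq_zero fun t _ => hζ1 t s, pr_tmul,
        Submodule.mkQ_apply, (Submodule.Quotient.mk_eq_zero Z).2 hzZ, TensorProduct.tmul_zero,
        sub_zero, smul_zero]
    · have h3 : ∀ s, DD A B c s (c⁻¹ • (∑ t, ζ t s - u s ⊗ₜ[K] z)) =
          c⁻¹ • (∑ t, DD A B c s (ζ t s) - u s ⊗ₜ[K] (A s z) + c • ((B s (u s)) ⊗ₜ[K] z)) := by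
        intro s
        rw [map_smul, map_sub, map_sum]
        congr 1
        simp only [DD, LinearMap.sub_apply, LinearMap.smul_apply, LinearMap.lTensor_tmul,
          LinearMap.rTensor_tmul]
        abel
      rw [Finset.sum_congr rfl fun s _ => h3 s, ← Finset.smul_sum, Finset.sum_add_distrib,
        Finset.sum_sub_distrib, Finset.sum_comm, Finset.sum_congr rfl fun t _ => hζ2 t, sub_self,
        zero_add, ← Finset.smul_sum, smul_smul, inv_mul_cancel₀ hc, one_smul,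
        ← TensorProduct.sum_tmul, hsum']

theorem exists_B (hB : ⨆ t, LinearMap.range (B t) = ⊤) {c : K} (hc : c ≠ 0)
    (hZA : ∀ t, ∀ z ∈ Z, A t z ∈ Z) {m : ℕ}
    (hN : ∀ w : List τ, w.length = m → ∀ z ∈ Z, (w.map A).prod z = 0) (y : P2 ⊗[K] Z) :
    ∃ ζ : τ → P2 ⊗[K] P1, (∀ t, pr P2 Z (ζ t) = 0) ∧
      ∑ t, DD A B c t (ζ t) = (LinearMap.lTensor P2 Z.subtype) y := by
  induction y with
  | zero => exact ⟨0, by simp, by simp⟩
  | add x y hx hy =>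
    obtain ⟨a, ha1, ha⟩ := hx
    obtain ⟨b, hb1, hb⟩ := hy
    refine ⟨a + b, fun t => by rw [Pi.add_apply, map_add, ha1, hb1, add_zero], ?_⟩
    rw [map_add, ← ha, ← hb, ← Finset.sum_add_distrib]
    exact Finset.sum_congr rfl fun t _ => by rw [Pi.add_apply, map_add]
  | tmul p z =>
    obtain ⟨ζ, h1, h2⟩ := exists_tmul hB hc hZA m z z.2 (fun w hw => hN w hw z z.2) p
    exact ⟨ζ, h1, by rw [h2, LinearMap.lTensor_tmul, Submodule.subtype_apply]⟩

variable {R1 : Submodule K P1} {R2 : Submodule K P2}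

theorem mem_of_pr (hZR : Z ≤ R1) {x : P2 ⊗[K] P1}
    (hx : pr P2 Z x ∈ (RT R2 ⊔ TR (R1.map Z.mkQ) : Submodule K (P2 ⊗[K] (P1 ⧸ Z)))) :
    x ∈ (RT R2 ⊔ TR R1 : Submodule K (P2 ⊗[K] P1)) := by
  have h1 : (RT R2 ⊔ TR (R1.map Z.mkQ) : Submodule K (P2 ⊗[K] (P1 ⧸ Z))) ≤
      (RT R2 ⊔ TR R1 : Submodule K (P2 ⊗[K] P1)).map (pr P2 Z) := by
    refine sup_le ?_ ?_
    · refine Submodule.span_le.2 ?_
      rintro _ ⟨r, hr, p, rfl⟩
      obtain ⟨p, rfl⟩ := Z.mkQ_surjective p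
      exact ⟨r ⊗ₜ[K] p, Submodule.mem_sup_left (Submodule.subset_span ⟨r, hr, p, rfl⟩), rfl⟩
    · refine Submodule.span_le.2 ?_
      rintro _ ⟨p, _, ⟨r, hr, rfl⟩, rfl⟩
      exact ⟨p ⊗ₜ[K] r, Submodule.mem_sup_right (Submodule.subset_span ⟨p, r, hr, rfl⟩), rfl⟩
  obtain ⟨y, hy, hyx⟩ := h1 hx
  obtain ⟨z, hz⟩ := pr_ker (Z := Z) (x := x - y) (by rw [map_sub, hyx, sub_self])
  have h2 : x - y ∈ (RT R2 ⊔ TR R1 : Submodule K (P2 ⊗[K] P1)) := by
    rw [← hz]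
    clear hz
    induction z with
    | zero => rw [map_zero]; exact Submodule.zero_mem _
    | add a b ha hb => rw [map_add]; exact Submodule.add_mem _ ha hb
    | tmul p z =>
      exact Submodule.mem_sup_right (Submodule.subset_span ⟨p, z, hZR z.2, rfl⟩)
  have h3 := Submodule.add_mem _ h2 hy
  rwa [sub_add_cancel] at h3

theorem exists_lift (hB : ⨆ t, LinearMap.range (B t) = ⊤) (hZR : Z ≤ R1) {c : K} (hc : c ≠ 0)
    {m : ℕ} (hN : ∀ w : List τ, w.length = m → ∀ z ∈ Z, (w.map A).prod z = 0)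
    {x : τ → P2 ⊗[K] (P1 ⧸ Z)} (hx : Ex (Aq Z A hZA) B (R1.map Z.mkQ) R2 c x) :
    ∃ y : τ → P2 ⊗[K] P1, Ex A B R1 R2 c y ∧ ∀ t, pr P2 Z (y t) = x t := by
  choose x0 hx0 using fun t => pr_surj (P2 := P2) (Z := Z) (x t)
  have h1 : pr P2 Z (∑ t, DD A B c t (x0 t)) = 0 := by
    rw [map_sum, ← hx.sum]
    exact Finset.sum_congr rfl fun t _ => by rw [pr_DD hZA, hx0]
  obtain ⟨e, he⟩ := pr_ker h1
  obtain ⟨ζ, hζ1, hζ⟩ := exists_B hB hc hZA hN e
  have hpr : ∀ t, pr P2 Z (x0 t - ζ t) = x t := by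
    intro t
    rw [map_sub, hx0, hζ1, sub_zero]
  refine ⟨fun t => x0 t - ζ t, ⟨?_, ?_⟩, hpr⟩
  · have h2 : ∀ t, DD A B c t (x0 t - ζ t) = DD A B c t (x0 t) - DD A B c t (ζ t) :=
      fun t => map_sub _ _ _
    rw [Finset.sum_congr rfl fun t _ => h2 t, Finset.sum_sub_distrib, hζ, he, sub_self]
  · intro t
    apply mem_of_pr hZR
    rw [pr_DD hZA, hpr]
    exact hx.arm t

end quot

section main

variable {A : τ → End K P1} {B : τ → End K P2} {R1 Z : Submodule K P1} {R2 : Submodule K P2}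
  {l : τ → ℕ} {g : P2 →ₗ[K] P2 →ₗ[K] K} {eps : K}

theorem ev_pr (x : P2 ⊗[K] P1) (p : P2) : ev g (pr P2 Z x) p = Z.mkQ (ev g x p) := by
  induction x with
  | zero => simp
  | add x y hx hy =>
    rw [map_add, map_add, map_add, LinearMap.add_apply, LinearMap.add_apply, map_add, hx, hy]
  | tmul a b => rw [pr_tmul, ev_tmul, ev_tmul, map_smul]

/-- the bilinear maps on the quotient -/
noncomputable def qq (q : P1 →ₗ[K] P1 →ₗ[K] E) (Q : Submodule K E)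
    (h1 : ∀ p, ∀ z ∈ Z, q p z ∈ Q) (h2 : ∀ z ∈ Z, ∀ p, q z p ∈ Q) :
    (P1 ⧸ Z) →ₗ[K] (P1 ⧸ Z) →ₗ[K] (E ⧸ Q) :=
  Z.liftQ
    { toFun := fun p => Z.liftQ (Q.mkQ ∘ₗ q p) (fun z hz => by
        rw [LinearMap.mem_ker, LinearMap.comp_apply, Submodule.mkQ_apply]
        exact (Submodule.Quotient.mk_eq_zero Q).2 (h1 p z hz))
      map_add' := fun a b => by
        apply LinearMap.ext
        intro y
        obtain ⟨y, rfl⟩ := Z.mkQ_surjective y
        simp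
      map_smul' := fun a b => by
        apply LinearMap.ext
        intro y
        obtain ⟨y, rfl⟩ := Z.mkQ_surjective y
        simp }
    (fun z hz => by
      rw [LinearMap.mem_ker]
      apply LinearMap.ext
      intro y
      obtain ⟨y, rfl⟩ := Z.mkQ_surjective y
      show Q.mkQ (q z y) = 0
      rw [Submodule.mkQ_apply]
      exact (Submodule.Quotient.mk_eq_zero Q).2 (h2 z hz y))

theorem qq_mk (q : P1 →ₗ[K] P1 →ₗ[K] E) (Q : Submodule K E)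
    (h1 : ∀ p, ∀ z ∈ Z, q p z ∈ Q) (h2 : ∀ z ∈ Z, ∀ p, q z p ∈ Q) (a b : P1) :
    qq q Q h1 h2 (Z.mkQ a) (Z.mkQ b) = Q.mkQ (q a b) := rfl

/-- **`RJM.main` for corrections modulo an `A`-stable `Z`.** -/
theorem main_Z (hA : ⨆ t, LinearMap.range (A t) = ⊤) (hB : ⨆ t, LinearMap.range (B t) = ⊤)
    (hR1 : ∀ t, ∀ r ∈ R1, A t r ∈ R1) (hR2 : ∀ t, ∀ r ∈ R2, B t r ∈ R2) {m : ℕ}
    (hN1 : ∀ w : List τ, w.length = m → ∀ r ∈ R1, (w.map A).prod r = 0)
    (hN2 : ∀ w : List τ, w.length = m → ∀ r ∈ R2, (w.map B).prod r = 0)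
    (hl : ∀ s, 1 ≤ l s)
    (hl1 : ∀ s p, (A s ^ l s) p ∈ R1) (hl2 : ∀ s p, (B s ^ l s) p ∈ R2)
    (gen1 : ∀ S : Submodule K P1, (∀ t, ∀ v ∈ S, A t v ∈ S) → (∀ s p, (A s ^ l s) p ∈ S) → R1 ≤ S)
    (gen2 : ∀ S : Submodule K P2, (∀ t, ∀ v ∈ S, B t v ∈ S) → (∀ s p, (B s ^ l s) p ∈ S) → R2 ≤ S)
    (heps : eps ≠ 0) (gR1 : ∀ r ∈ R2, ∀ p, g r p = 0) (gR2 : ∀ r ∈ R2, ∀ p, g p r = 0)
    (gB : ∀ t p p', g (B t p) p' = eps * g p (B t p'))
    (gtop : ∀ s, ∃ p p', g ((B s ^ (l s - 1)) p) p' ≠ 0)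
    {Λ : Set K} (hΛ : Λ.Infinite) (h0 : (0 : K) ∉ Λ)
    (hZR : Z ≤ R1) (hZA : ∀ t, ∀ z ∈ Z, A t z ∈ Z)
    (q : τ → P1 →ₗ[K] P1 →ₗ[K] E) (Q : Submodule K E)
    (hqZ : ∀ t p, ∀ z ∈ Z, q t p z ∈ Q) (hZq : ∀ t, ∀ z ∈ Z, ∀ p, q t z p ∈ Q)
    {a1 a2 a3 : K} (ha1 : a1 ≠ 0) (ha2 : a2 ≠ 0) (ha3 : a3 ≠ 0)
    (hex : ∀ c ∈ Λ, ∀ x, Ex A B R1 R2 c x → ∃ b, CorZ A B R1 Z g eps c x b)
    (hrel : ∀ c ∈ Λ, ∀ c' ∈ Λ, ∀ x b x' b', Ex A B R1 R2 c x → CorZ A B R1 Z g eps c x b →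
      Ex A B R1 R2 c' x' → CorZ A B R1 Z g eps c' x' b' →
      ∑ t, (a1 • TensorProduct.lift ((q t) ∘ₗ b') (x t)
        + a2 • TensorProduct.lift ((q t).flip ∘ₗ b) (x' t)
        + a3 • TensorProduct.lift ((q t) ∘ₗ (ev g (x' t))) (x t)) ∈ Q) :
    (∀ t, ∀ r ∈ R1, ∀ p, q t r p ∈ Q ∧ q t p r ∈ Q) ∧
      (∀ s i j, i + j + 1 = l s → ∀ p p', q s ((A s ^ i) p) ((A s ^ j) p') ∈ Q) := by
  obtain ⟨σ, hσ⟩ := Z.mkQ.exists_rightInverse_of_surjective (Submodule.range_mkQ Z)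
  have hσ' : ∀ y, Z.mkQ (σ y) = y := fun y => LinearMap.congr_fun hσ y
  have hl0 : ∀ c ∈ Λ, c ≠ 0 := fun c hc h => h0 (h ▸ hc)
  have hcor : ∀ c x b, Cor (Aq Z A hZA) B (R1.map Z.mkQ) g eps c (fun t => pr P2 Z (x t)) b →
      CorZ A B R1 Z g eps c x (σ ∘ₗ b) := by
    intro c x b hb
    refine ⟨fun p => ?_, fun t p => ?_⟩
    · obtain ⟨r, hr, hrb⟩ := hb.mem p
      have h1 : σ (b p) - r ∈ Z := by
        rw [← Submodule.Quotient.mk_eq_zero Z, ← Submodule.mkQ_apply, map_sub, hσ', hrb, sub_self]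
      have h2 := R1.add_mem (hZR h1) hr
      rwa [sub_add_cancel] at h2
    · have h1 := hb.eq t p
      rw [← Submodule.Quotient.mk_eq_zero Z, ← Submodule.mkQ_apply]
      rw [ev_pr, ev_pr, Aq_mk] at h1
      rw [map_sub, map_sub, map_sub, map_smul, map_smul, ← h1, LinearMap.comp_apply,
        LinearMap.comp_apply, ← Aq_mk hZA, hσ', hσ', sub_self]
  have hlift : ∀ (t : τ) (f : P2 →ₗ[K] P1) (f' : P2 →ₗ[K] (P1 ⧸ Z)) (x : P2 ⊗[K] P1),
      (∀ p, Z.mkQ (f p) = f' p) →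
      TensorProduct.lift ((qq (q t) Q (hqZ t) (hZq t)) ∘ₗ f') (pr P2 Z x) =
        Q.mkQ (TensorProduct.lift ((q t) ∘ₗ f) x) := by
    intro t f f' x hf
    induction x with
    | zero => simp
    | add x y hx hy => rw [map_add, map_add, map_add, map_add, hx, hy]
    | tmul a b =>
      rw [pr_tmul, TensorProduct.lift.tmul, TensorProduct.lift.tmul, LinearMap.comp_apply,
        LinearMap.comp_apply, ← hf, qq_mk]
  have hlift2 : ∀ (t : τ) (f : P2 →ₗ[K] P1) (f' : P2 →ₗ[K] (P1 ⧸ Z)) (x : P2 ⊗[K] P1),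
      (∀ p, Z.mkQ (f p) = f' p) →
      TensorProduct.lift ((qq (q t) Q (hqZ t) (hZq t)).flip ∘ₗ f') (pr P2 Z x) =
        Q.mkQ (TensorProduct.lift ((q t).flip ∘ₗ f) x) := by
    intro t f f' x hf
    induction x with
    | zero => simp
    | add x y hx hy => rw [map_add, map_add, map_add, map_add, hx, hy]
    | tmul a b =>
      rw [pr_tmul, TensorProduct.lift.tmul, TensorProduct.lift.tmul, LinearMap.comp_apply,
        LinearMap.comp_apply, ← hf, LinearMap.flip_apply, LinearMap.flip_apply, qq_mk]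
  have key := RJM.main (A := Aq Z A hZA) (B := B) (R1 := R1.map Z.mkQ) (R2 := R2) (l := l) (g := g)
    (eps := eps) (m := m) (E := E ⧸ Q)
    (by
      rw [eq_top_iff]
      rintro y -
      obtain ⟨y, rfl⟩ := Z.mkQ_surjective y
      have hy : y ∈ ⨆ t, LinearMap.range (A t) := by rw [hA]; trivial
      have : (⨆ t, LinearMap.range (A t)) ≤
          (⨆ t, LinearMap.range (Aq Z A hZA t)).comap Z.mkQ := by
        refine iSup_le fun t => ?_
        rintro _ ⟨u, rfl⟩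
        exact Submodule.mem_iSup_of_mem t ⟨Z.mkQ u, Aq_mk hZA t u⟩
      exact this hy)
    hB
    (by rintro t _ ⟨r, hr, rfl⟩; exact ⟨A t r, hR1 t r hr, (Aq_mk hZA t r).symm⟩)
    hR2
    (by rintro w hw _ ⟨r, hr, rfl⟩; rw [Aq_word, hN1 w hw r hr, map_zero])
    hN2 hl
    (by
      intro s p
      obtain ⟨p, rfl⟩ := Z.mkQ_surjective p
      rw [Aq_pow]
      exact ⟨_, hl1 s p, rfl⟩)
    hl2
    (by
      intro S hS1 hS2
      rintro _ ⟨r, hr, rfl⟩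
      refine gen1 (S.comap Z.mkQ) (fun t v hv => ?_) (fun s p => ?_) hr
      · rw [Submodule.mem_comap, ← Aq_mk hZA]; exact hS1 t _ hv
      · rw [Submodule.mem_comap, ← Aq_pow hZA]; exact hS2 s _)
    gen2 heps gR1 gR2 gB gtop hΛ h0
    (fun t => qq (q t) Q (hqZ t) (hZq t)) ⊥ ha1 ha2 ha3
    (by
      intro c hc x hx
      obtain ⟨y, hy, hyx⟩ := exists_lift hZA hB hZR (hl0 c hc) (m := m) (fun w hw z hz => hN1 w hw z (hZR hz)) hx
      obtain ⟨b, hb⟩ := hex c hc y hy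
      refine ⟨Z.mkQ ∘ₗ b, fun p => ⟨_, hb.mem p, rfl⟩, fun t p => ?_⟩
      have h := (Submodule.Quotient.mk_eq_zero Z).2 (hb.eq t p)
      rw [← Submodule.mkQ_apply, map_sub, sub_eq_zero, map_sub, map_sub, map_smul, map_smul] at h
      rw [← hyx, ev_pr, ev_pr, LinearMap.comp_apply, LinearMap.comp_apply, Aq_mk, Aq_mk]
      exact h)
    (by
      intro c hc c' hc' x b x' b' hx hb hx' hb'
      obtain ⟨y, hy, hyx⟩ := exists_lift hZA hB hZR (hl0 c hc) (m := m) (fun w hw z hz => hN1 w hw z (hZR hz)) hx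
      obtain ⟨y', hy', hyx'⟩ := exists_lift hZA hB hZR (hl0 c' hc') (m := m) (fun w hw z hz => hN1 w hw z (hZR hz)) hx'
      have ex1 : x = fun t => pr P2 Z (y t) := funext fun t => (hyx t).symm
      have ex2 : x' = fun t => pr P2 Z (y' t) := funext fun t => (hyx' t).symm
      subst ex1
      subst ex2
      have h := hrel c hc c' hc' y (σ ∘ₗ b) y' (σ ∘ₗ b') hy (hcor c y b hb) hy' (hcor c' y' b' hb')
      rw [Submodule.mem_bot]
      have h' : Q.mkQ (∑ t, (a1 • TensorProduct.lift ((q t) ∘ₗ (σ ∘ₗ b')) (y t)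
        + a2 • TensorProduct.lift ((q t).flip ∘ₗ (σ ∘ₗ b)) (y' t)
        + a3 • TensorProduct.lift ((q t) ∘ₗ (ev g (y' t))) (y t))) = 0 := by
        rw [Submodule.mkQ_apply]
        exact (Submodule.Quotient.mk_eq_zero Q).2 h
      rw [← h', map_sum]
      refine Finset.sum_congr rfl fun t _ => ?_
      rw [map_add, map_add, map_smul, map_smul, map_smul,
        hlift t (σ ∘ₗ b') b' (y t) (fun p => hσ' _),
        hlift2 t (σ ∘ₗ b) b (y' t) (fun p => hσ' _),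
        hlift t (ev g (y' t)) (ev g (pr P2 Z (y' t))) (y t) (fun p => (ev_pr _ _).symm)])
  obtain ⟨k1, k2⟩ := key
  refine ⟨fun t r hr p => ?_, fun s i j hij p p' => ?_⟩
  · obtain ⟨u1, u2⟩ := k1 t (Z.mkQ r) ⟨r, hr, rfl⟩ (Z.mkQ p)
    rw [Submodule.mem_bot, qq_mk, Submodule.mkQ_apply] at u1 u2
    exact ⟨(Submodule.Quotient.mk_eq_zero Q).1 u1, (Submodule.Quotient.mk_eq_zero Q).1 u2⟩
  · have u := k2 s i j hij (Z.mkQ p) (Z.mkQ p')
    rw [Submodule.mem_bot, Aq_pow, Aq_pow, qq_mk, Submodule.mkQ_apply] at u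
    exact (Submodule.Quotient.mk_eq_zero Q).1 u

end main

end Crest.Agent.R172.ZQL
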